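import Crest.Agent.R208.FI1e

/-! Row 208, block F2 (helper198), part FH9a: degrees of forms, contraction of the volume form,
a continuous function on a ball with vanishing weak derivatives is constant. -/

set_option autoImplicit false
set_option linter.unusedSectionVars false

open MeasureTheory MeasureTheory.Measure Set Filter Topology Module
open scoped ContDiff
open Crest.Agent.R208.F

noncomputable section

namespace Crest.Agent.R208.FI

/-! ### degrees -/
section deg
variable {E E' : Type*} [AddCommGroup E] [Module ℝ E] [AddCommGroup E'] [Module ℝ E']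

/-- `c` is homogeneous of degree `p`, tested on vectors. -/
def IsDeg (p : ℕ) (c : Ext E) : Prop := ∀ q, q ≠ p → evA E q c = 0

theorem IsDeg.add {p : ℕ} {a b : Ext E} (ha : IsDeg p a) (hb : IsDeg p b) : IsDeg p (a + b) :=
  fun q hq => by rw [map_add, ha q hq, hb q hq, add_zero]

theorem IsDeg.smul {p : ℕ} {a : Ext E} (ha : IsDeg p a) (r : ℝ) : IsDeg p (r • a) :=
  fun q hq => by rw [map_smul, ha q hq, smul_zero]

theorem IsDeg.zero {p : ℕ} : IsDeg p (0 : Ext E) := fun q _ => map_zero _

theorem IsDeg.sum {p : ℕ} {ι : Type*} (s : Finset ι) {a : ι → Ext E} (h : ∀ i ∈ s, IsDeg p (a i)) :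
    IsDeg p (∑ i ∈ s, a i) := fun q hq => by
  rw [_root_.map_sum]; exact Finset.sum_eq_zero fun i hi => h i hi q hq

theorem IsDeg.pb {p : ℕ} {c : Ext E'} (h : IsDeg p c) (A : E →ₗ[ℝ] E') : IsDeg p (F.pb A c) :=
  fun q hq => by
    ext v
    rw [evA_pb, h q hq]
    rfl

theorem evA_zero_io_mul' (l : Module.Dual ℝ E) (c : Ext E) : evA E 0 (io l * c) = 0 := by
  ext w
  let f : Ext E →ₗ[ℝ] ℝ :=
    { toFun := fun c => evA E 0 (io l * c) w
      map_add' := fun a b => by simp [mul_add]
      map_smul' := fun r a => by simp }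
  refine ext_lin (f := f) (g := 0) (fun p m => ?_) c
  change evA E 0 (io l * _) w = 0
  rw [io_mul_iMulti, evA_iMulti_ne (by omega)]; rfl

theorem IsDeg.io_mul {p : ℕ} {c : Ext E} (h : IsDeg p c) (l : Module.Dual ℝ E) :
    IsDeg (p + 1) (io l * c) := by
  intro q hq
  cases q with
  | zero => exact evA_zero_io_mul' l c
  | succ q =>
    ext v
    rw [evA_io_mul]
    refine Finset.sum_eq_zero fun i _ => ?_
    rw [h q (by omega)]
    simp

theorem IsDeg.iMulti {p : ℕ} (l : Fin p → Module.Dual ℝ E) :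
    IsDeg p (ExteriorAlgebra.ιMulti ℝ p l) := fun q hq => evA_iMulti_ne (Ne.symm hq) l

theorem IsDeg.ii {p : ℕ} {c : Ext E} (h : IsDeg (p + 1) c) (v : E) : IsDeg p (F.ii v c) := by
  intro q hq
  ext w
  rw [← evA_ii, h (q + 1) (by omega)]
  rfl

theorem evA_inv (q : ℕ) (c : Ext E) : evA E q (inv c) = (-1 : ℝ) ^ q • evA E q c := by
  induction c using ind generalizing q with
  | h0 r =>
    rw [AlgHom.commutes]
    cases q with
    | zero => simp
    | succ q => rw [evA_succ_algebraMap, smul_zero]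
  | hadd x y hx hy => rw [map_add, map_add, map_add, smul_add, hx, hy]
  | hmul x l hx =>
    rw [map_mul, inv_io, neg_mul, map_neg]
    cases q with
    | zero => rw [evA_zero_io_mul', evA_zero_io_mul', smul_zero, neg_zero]
    | succ q =>
      ext v
      rw [AlternatingMap.neg_apply, AlternatingMap.smul_apply, evA_io_mul, evA_io_mul, hx,
        smul_eq_mul, Finset.mul_sum, ← Finset.sum_neg_distrib]
      refine Finset.sum_congr rfl fun i _ => ?_
      rw [AlternatingMap.smul_apply, smul_eq_mul, pow_succ]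
      ring

end deg

section degd
variable {E : Type*} [NormedAddCommGroup E] [NormedSpace ℝ E] [FiniteDimensional ℝ E]

theorem IsDeg.wd {p : ℕ} {T : E →L[ℝ] Ext E} (hT : ∀ v, IsDeg p (T v)) :
    IsDeg (p + 1) (F.wd E T) := by
  rw [wd_apply]
  exact IsDeg.sum _ fun i _ => (hT _).io_mul _

/-- `d` raises the degree by one -/
theorem IsDeg.d {p : ℕ} {β : E → Ext E} {x : E} (h : ∀ᶠ y in 𝓝 x, IsDeg p (β y)) :
    IsDeg (p + 1) (F.d β x) := by
  by_cases hβ : DifferentiableAt ℝ β x
  · refine IsDeg.wd fun v q hq => ?_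
    ext w
    let L : Ext E →ₗ[ℝ] ℝ :=
      { toFun := fun c => evA E q c w
        map_add' := fun a b => by simp
        map_smul' := fun r a => by simp }
    have h1 : HasFDerivAt (fun y => evA E q (β y) w)
        ((LinearMap.toContinuousLinearMap L).comp (fderiv ℝ β x)) x :=
      (LinearMap.toContinuousLinearMap L).hasFDerivAt.comp x hβ.hasFDerivAt
    have h2 : (fun y => evA E q (β y) w) =ᶠ[𝓝 x] fun _ => (0 : ℝ) := by
      filter_upwards [h] with y hy
      rw [hy q hq]; rfl
    have h3 := h1.unique ((hasFDerivAt_const (0 : ℝ) x).congr_of_eventuallyEq h2)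
    exact congrArg (fun M : E →L[ℝ] ℝ => M v) h3
  · rw [F.d, fderiv_zero_of_not_differentiableAt hβ, map_zero]
    exact IsDeg.zero

end degd

/-! ### the volume form -/

/-- the volume form of `ℝ^d` -/
def vol (d : ℕ) : Ext (Eu d) := ExteriorAlgebra.ιMulti ℝ d fun i => (sb d).coord i

theorem top_vol (d : ℕ) : top d (vol d) = 1 := by
  rw [top_apply, vol, evA_iMulti]
  have : (Matrix.of fun i j => (sb d).coord j ((sb d) i)) = (1 : Matrix (Fin d) (Fin d) ℝ) := by
    ext i j
    simp only [Matrix.of_apply, Basis.coord_apply, Basis.repr_self, Matrix.one_apply,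
      Finsupp.single_apply]
  rw [this, Matrix.det_one]

theorem isDeg_vol (d : ℕ) : IsDeg d (vol d) := IsDeg.iMulti _

theorem evA_gt {d q : ℕ} (hq : d < q) (c : Ext (Eu d)) (w : Fin q → Eu d) :
    evA (Eu d) q c w = 0 := by
  refine AlternatingMap.map_linearDependent _ _ fun h => ?_
  have := h.fintype_card_le_finrank
  simp only [Fintype.card_fin, finrank_euclideanSpace] at this
  omega

/-- the basic identity `l ∧ ι_w vol = l(w) vol` -/
theorem top_io_ii_vol (d : ℕ) (l : Module.Dual ℝ (Eu d)) (w : Eu d) :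
    top d (io l * ii w (vol d)) = l w := by
  have h1 : io l * ii w (vol d) = l w • vol d - ii w (io l * vol d) := by
    rw [ii_io_mul]; abel
  rw [h1, map_sub, map_smul, top_vol, smul_eq_mul, mul_one]
  have h2 : top d (ii w (io l * vol d)) = 0 := by
    rw [top_apply, ← evA_ii]
    exact evA_gt (by omega) _ _
  rw [h2, sub_zero]

/-! ### weak derivatives -/

open scoped Convolution in
/-- a continuous function on a ball all whose weak derivatives vanish is constant. -/
theorem const_of_weak {d : ℕ} {g : Eu d → ℝ} {u₀ : Eu d} {ρ : ℝ}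
    (hg : ContinuousOn g (Metric.ball u₀ ρ))
    (hw : ∀ (φ : Eu d → ℝ) (w : Eu d), ContDiff ℝ ∞ φ → HasCompactSupport φ →
      tsupport φ ⊆ Metric.ball u₀ ρ → ∫ u in Metric.ball u₀ ρ, g u * fderiv ℝ φ u w = 0)
    {u : Eu d} (hu : u ∈ Metric.ball u₀ ρ) : g u = g u₀ := by
  have hu₀ : u₀ ∈ Metric.ball u₀ ρ := Metric.mem_ball_self (lt_of_le_of_lt dist_nonneg hu)
  refine eq_of_forall_dist_le fun ε hε => ?_
  set R := dist u u₀ with hR
  have hRρ : R < ρ := hu
  have hR0 : 0 ≤ R := dist_nonneg
  set ρ' := (R + ρ) / 2 with hρ'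
  set C := Metric.closedBall u₀ ρ' with hC
  have hCB : C ⊆ Metric.ball u₀ ρ := Metric.closedBall_subset_ball (by rw [hρ']; linarith)
  set gt : Eu d → ℝ := C.indicator g with hgt
  have hgtC : ∀ x ∈ C, gt x = g x := fun x hx => indicator_of_mem hx g
  have hCm : MeasurableSet C := Metric.isClosed_closedBall.measurableSet
  have hgtI : Integrable gt := by
    rw [hgt, integrable_indicator_iff hCm]
    exact (hg.mono hCB).integrableOn_compact (isCompact_closedBall _ _)
  have hcont : ∀ x ∈ Metric.ball u₀ ρ, ∃ δ > 0, ∀ y ∈ Metric.ball x δ, dist (g y) (g x) ≤ ε / 2 := by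
    intro x hx
    have h1 := hg.continuousAt (Metric.isOpen_ball.mem_nhds hx)
    obtain ⟨δ, hδ, h2⟩ := Metric.continuousAt_iff.1 h1 (ε / 2) (by positivity)
    exact ⟨δ, hδ, fun y hy => (h2 hy).le⟩
  obtain ⟨δ₁, hδ₁, h₁⟩ := hcont u hu
  obtain ⟨δ₂, hδ₂, h₂⟩ := hcont u₀ hu₀
  set δ := min (min δ₁ δ₂) ((ρ - R) / 4) with hδ
  have hδ0 : 0 < δ := lt_min (lt_min hδ₁ hδ₂) (by linarith)
  have hδ4 : δ ≤ (ρ - R) / 4 := min_le_right _ _
  let φ : ContDiffBump (0 : Eu d) := ⟨δ / 2, δ, by positivity, by linarith⟩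
  have hφr : φ.rOut = δ := rfl
  set ψ : Eu d → ℝ := φ.normed volume with hψ
  have hψC : ContDiff ℝ ∞ ψ := φ.contDiff_normed
  have hψs : HasCompactSupport ψ := φ.hasCompactSupport_normed
  have hψt : tsupport ψ = Metric.closedBall 0 δ := φ.tsupport_normed_eq
  set G : Eu d → ℝ := ψ ⋆[ContinuousLinearMap.lsmul ℝ ℝ, volume] gt with hG
  have hG2 : G = gt ⋆[(ContinuousLinearMap.lsmul ℝ ℝ : ℝ →L[ℝ] ℝ →L[ℝ] ℝ).flip, volume] ψ := by
    rw [hG, ← convolution_flip]
  set S := Metric.ball u₀ (R + (ρ - R) / 8) with hS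
  have hderiv : ∀ x ∈ S, HasFDerivAt G (0 : Eu d →L[ℝ] ℝ) x := by
    intro x hx
    have h1 := hψs.hasFDerivAt_convolution_right
      (ContinuousLinearMap.lsmul ℝ ℝ : ℝ →L[ℝ] ℝ →L[ℝ] ℝ).flip (μ := volume)
      hgtI.locallyIntegrable (hψC.of_le (by simp)) x
    rw [← hG2] at h1
    have h2 : ((gt ⋆[((ContinuousLinearMap.lsmul ℝ ℝ : ℝ →L[ℝ] ℝ →L[ℝ] ℝ).flip).precompR (Eu d),
        volume] fderiv ℝ ψ) x : Eu d →L[ℝ] ℝ) = 0 := by
      ext w
      rw [convolution_precompR_apply _ hgtI.locallyIntegrable (hψs.fderiv ℝ)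
        (hψC.continuous_fderiv (by simp))]
      rw [convolution_def]
      set φx : Eu d → ℝ := fun t => ψ (x - t) with hφx
      have hφxC : ContDiff ℝ ∞ φx := hψC.comp (contDiff_const.sub contDiff_id)
      have hsub : tsupport φx ⊆ Metric.closedBall x δ := by
        refine closure_minimal ?_ Metric.isClosed_closedBall
        intro t ht
        have : x - t ∈ tsupport ψ := subset_tsupport _ ht
        rw [hψt, Metric.mem_closedBall, dist_zero_right] at this
        rw [Metric.mem_closedBall, dist_comm, dist_eq_norm]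
        exact this
      have hsubC : Metric.closedBall x δ ⊆ C := by
        refine Metric.closedBall_subset_closedBall' ?_
        have : dist x u₀ < R + (ρ - R) / 8 := hx
        rw [hρ']; linarith
      have hφxs : HasCompactSupport φx :=
        HasCompactSupport.of_support_subset_isCompact (isCompact_closedBall x δ)
          ((subset_tsupport _).trans hsub)
      have h3 := hw φx w hφxC hφxs (hsub.trans (hsubC.trans hCB))
      have h4 : ∀ t, fderiv ℝ φx t w = - fderiv ℝ ψ (x - t) w := by
        intro t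
        have h5 : HasFDerivAt φx ((fderiv ℝ ψ (x - t)).comp
            (-(ContinuousLinearMap.id ℝ (Eu d)))) t := by
          have h6 : HasFDerivAt (fun t : Eu d => x - t) (-(ContinuousLinearMap.id ℝ (Eu d))) t :=
            (hasFDerivAt_id t).const_sub x
          exact ((hψC.differentiable (by simp)) (x - t)).hasFDerivAt.comp t h6
        rw [h5.fderiv]
        simp
      rw [← integral_indicator Metric.isOpen_ball.measurableSet] at h3
      have h7 : ∀ t, ((ContinuousLinearMap.lsmul ℝ ℝ : ℝ →L[ℝ] ℝ →L[ℝ] ℝ).flip (gt t))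
          (fderiv ℝ ψ (x - t) w) =
          - (Metric.ball u₀ ρ).indicator (fun u => g u * fderiv ℝ φx u w) t := by
        intro t
        have h8 : ((ContinuousLinearMap.lsmul ℝ ℝ : ℝ →L[ℝ] ℝ →L[ℝ] ℝ).flip (gt t))
          (fderiv ℝ ψ (x - t) w) = fderiv ℝ ψ (x - t) w * gt t := rfl
        rw [h8]
        by_cases ht : t ∈ C
        · rw [hgtC t ht, indicator_of_mem (hCB ht), h4]; ring
        · rw [hgt, indicator_of_notMem ht]
          have h9 : fderiv ℝ φx t = 0 := by
            have : t ∉ tsupport φx := fun h => ht (hsubC (hsub h))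
            rw [(notMem_tsupport_iff_eventuallyEq.1 this).fderiv_eq]
            exact fderiv_const_apply _
          by_cases ht2 : t ∈ Metric.ball u₀ ρ
          · rw [indicator_of_mem ht2, h9]; simp
          · rw [indicator_of_notMem ht2]; simp
      simp only [h7]
      rw [integral_neg, h3, neg_zero]
      rfl
    rw [h2] at h1
    exact h1
  have huS : u ∈ S := by
    show dist u u₀ < _
    rw [← hR]; linarith
  have hu₀S : u₀ ∈ S := Metric.mem_ball_self (by linarith)
  have hGc : G u = G u₀ := by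
    refine Metric.isOpen_ball.is_const_of_fderiv_eq_zero (s := S) (𝕜 := ℝ)
      (convex_ball _ _).isPreconnected
      (fun x hx => (hderiv x hx).differentiableAt.differentiableWithinAt)
      (fun x hx => (hderiv x hx).fderiv) huS hu₀S
  have happ : ∀ x ∈ S, ∀ δ', δ ≤ δ' → (∀ y ∈ Metric.ball x δ', dist (g y) (g x) ≤ ε / 2) →
      dist (G x) (g x) ≤ ε / 2 := by
    intro x hx δ' hδ' hy
    have hxC : x ∈ C := by
      have : dist x u₀ < R + (ρ - R) / 8 := hx
      rw [hC, Metric.mem_closedBall, hρ']; linarith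
    have h1 := φ.dist_normed_convolution_le (μ := volume) (g := gt) (x₀ := x) (ε := ε / 2)
      hgtI.aestronglyMeasurable (fun y hy' => by
        have h2 : y ∈ C := by
          have h3 : dist y x < δ := hy'
          have h4 : dist x u₀ < R + (ρ - R) / 8 := hx
          have h5 := dist_triangle y x u₀
          rw [hC, Metric.mem_closedBall, hρ']; linarith
        rw [hgtC y h2, hgtC x hxC]
        exact hy y (Metric.ball_subset_ball hδ' hy'))
    rw [hgtC x hxC] at h1
    exact h1
  have e1 := happ u huS δ₁ ((min_le_left _ _).trans (min_le_left _ _)) h₁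
  have e2 := happ u₀ hu₀S δ₂ ((min_le_left _ _).trans (min_le_right _ _)) h₂
  have e3 := dist_triangle (g u) (G u) (g u₀)
  rw [dist_comm (g u) (G u)] at e3
  rw [hGc] at e3
  rw [hGc] at e1
  linarith

end Crest.Agent.R208.FI
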