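import Crest.Agent.R208.FH8
import Crest.Agent.R208.FH9a

/-! Row 208, block F2 (helper198), part FH9: for a closed form `η` the **fibre integral is locally
constant**. -/

set_option autoImplicit false
set_option linter.unusedSectionVars false

open MeasureTheory MeasureTheory.Measure Set Filter Topology Module
open scoped ContDiff
open Crest.Agent.R208.F

noncomputable section

namespace Crest.Agent.R208.FI

variable {E E' : Type*} [NormedAddCommGroup E] [NormedSpace ℝ E] [FiniteDimensional ℝ E]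
  [NormedAddCommGroup E'] [NormedSpace ℝ E'] [FiniteDimensional ℝ E']

theorem two_le_infty : (2 : WithTop ℕ∞) ≤ ∞ := by
  have : ((2 : ℕ∞) : WithTop ℕ∞) ≤ ((⊤ : ℕ∞) : WithTop ℕ∞) := WithTop.coe_le_coe.2 le_top
  exact this

theorem one_add_one_le_infty : (1 : WithTop ℕ∞) + 1 ≤ ∞ := by
  rw [one_add_one_eq_two]; exact two_le_infty

/-- the restriction of the form `om` to `X` vanishes. -/
def ResZero (X : Set E) (om : E → Ext E) : Prop := ∀ x ∈ X, pb (Tan X x).subtype (om x) = 0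

theorem ResZero.evA {X : Set E} {om : E → Ext E} (h : ResZero X om) {x : E} (hx : x ∈ X) {q : ℕ}
    {w : Fin q → E} (hw : ∀ i, w i ∈ Tan X x) : evA E q (om x) w = 0 := by
  have h1 := evA_pb q (Tan X x).subtype (om x) (fun i => (⟨w i, hw i⟩ : Tan X x))
  rw [h x hx, map_zero] at h1
  exact h1.symm

theorem ResZero.mul_right {X : Set E} {om : E → Ext E} (h : ResZero X om) (η : E → Ext E) :
    ResZero X (fun x => om x * η x) := fun x hx => by rw [map_mul, h x hx, zero_mul]

theorem ResZero.mul_left {X : Set E} {om : E → Ext E} (h : ResZero X om) (η : E → Ext E) :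
    ResZero X (fun x => η x * om x) := fun x hx => by rw [map_mul, h x hx, mul_zero]

theorem ResZero.of_zero {X : Set E} {om : E → Ext E} (h : ∀ x ∈ X, om x = 0) : ResZero X om :=
  fun x hx => by rw [h x hx, map_zero]

theorem dens_inv {n : ℕ} {X : Set E} {o om : E → Ext E} (x : E) :
    dens n X o (fun x => inv (om x)) x = (-1) ^ n * dens n X o om x := by
  simp only [dens, evA_inv, AlternatingMap.smul_apply, smul_eq_mul]; ring

theorem J_inv {n : ℕ} {X : Set E} {o om : E → Ext E} :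
    J n X o (fun x => inv (om x)) = (-1) ^ n * J n X o om := by
  rw [J, J, ← integral_const_mul]
  simp only [dens_inv]

theorem contDiffAt_inv {G : Type*} [NormedAddCommGroup G] [NormedSpace ℝ G] {n : WithTop ℕ∞}
    {om : G → Ext E} {x : G} (h : ContDiffAt ℝ n om x) : ContDiffAt ℝ n (fun y => inv (om y)) x :=
  (invL (E := E)).contDiff.contDiffAt.comp x h

section weak
variable {r d : ℕ} {Z : Set E'} {X : Set E} {π : E' → E} {oX : E → Ext E} {oV η : E' → Ext E'}

/-- **weak form of local constancy** -/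
theorem Subm.weak (h : Subm r d Z X π) (hoV : ContinuousOn oV Z)
    (hoZ : Ori (r + d) Z (fun z => oV z * pull π oX z))
    (hoX : ∀ x ∈ X, ∀ q < d, evA E q (oX x) = 0)
    (hη : ∀ z ∈ Z, ContDiffAt ℝ 1 η z) (hcl : ResZero Z (F.d η)) {β : E → Ext E}
    (hβ : ∀ x ∈ X, ContDiffAt ℝ 1 β x) (hβ0 : ∀ x ∈ X, ∀ q < d, evA E q (F.d β x) = 0) :
    J d X oX (fun x => J r (Z ∩ π ⁻¹' {x}) oV η • F.d β x) = 0 := by
  have hpβ : ∀ z ∈ Z, ContDiffAt ℝ 1 (pull π β) z := fun z hz =>
    contDiffAt_pull (h.smooth z hz) one_add_one_le_infty (hβ _ (h.mapsTo hz))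
  have hprod : ∀ z ∈ Z, ContDiffAt ℝ 1 (fun z => η z * pull π β z) z := fun z hz =>
    contDiffAt_mul (hη z hz) (hpβ z hz)
  have h1 := J_d h.cloZ hoZ hprod
  have h2 : J (r + d) Z (fun z => oV z * pull π oX z) (F.d (fun z => η z * pull π β z)) =
      J (r + d) Z (fun z => oV z * pull π oX z) (fun z => inv (η z) * pull π (F.d β) z) := by
    refine J_congr h.cloZ ?_
    intro z hz w hw
    have h3 : F.d (fun z => η z * pull π β z) z =
        F.d η z * pull π β z + inv (η z) * pull π (F.d β) z := by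
      rw [d_mul ((hη z hz).differentiableAt (by norm_num))
        ((hpβ z hz).differentiableAt (by norm_num)),
        d_pull ((h.smooth z hz).of_le two_le_infty)
          ((hβ _ (h.mapsTo hz)).differentiableAt (by norm_num))]
    rw [h3, map_add, AlternatingMap.add_apply, (hcl.mul_right (pull π β)).evA hz hw, zero_add]
  rw [h2] at h1
  have h4 := fibre_integration (η := fun z => inv (η z)) (om := F.d β) h hoV hoZ hoX
    (fun z hz => (contDiffAt_inv (hη z hz)).continuousAt.continuousWithinAt)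
    (continuousOn_d hβ) hβ0
  rw [h4] at h1
  have h5 : ∀ x, J r (Z ∩ π ⁻¹' {x}) oV (fun z => inv (η z)) =
      (-1) ^ r * J r (Z ∩ π ⁻¹' {x}) oV η := fun x => J_inv
  simp only [h5, mul_smul] at h1
  rw [J_smul] at h1
  exact (mul_eq_zero.1 h1).resolve_left (pow_ne_zero _ (by norm_num))

end weak

/-- **test forms**: near every point of `X` there is a chart `f` on a ball `V` such that for all
test functions `φ` supported in `V` and all directions `w` there is an exact form `d β` which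
corresponds to `(∂_w φ) vol`. -/
theorem exists_test {d : ℕ} {X : Set E} {oX : E → Ext E} (hX : Clo d X) (hoX : Ori d X oX)
    {x₀ : E} (hx₀ : x₀ ∈ X) : ∃ (f : Eu d → E) (u₀ : Eu d) (ρ ε : ℝ), 0 < ρ ∧ ε ≠ 0 ∧
      Chart d X f (Metric.ball u₀ ρ) ∧ f u₀ = x₀ ∧
      ∀ (φ : Eu d → ℝ) (w : Eu d), ContDiff ℝ ∞ φ → HasCompactSupport φ →
        tsupport φ ⊆ Metric.ball u₀ ρ → ∃ β : E → Ext E, (∀ x ∈ X, ContDiffAt ℝ 1 β x) ∧
          (∀ x ∈ X, ∀ q < d, evA E q (F.d β x) = 0) ∧
          ∀ c : E → ℝ, J d X oX (fun x => c x • F.d β x) =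
            ε * ∫ u in Metric.ball u₀ ρ, c (f u) * fderiv ℝ φ u w := by
  classical
  obtain ⟨f, V, hf, u₀, hu₀, rfl⟩ := hX.chart x₀ hx₀
  obtain ⟨O, ℓ, hO, hxO, hℓ, hℓV, hℓx, hℓS⟩ := exists_coord hf hu₀
  -- the cutoff
  obtain ⟨s, hs, hsO⟩ := Metric.isOpen_iff.1 hO _ hxO
  let χ : ContDiffBump (f u₀) := ⟨s / 4, s / 2, by positivity, by linarith⟩
  have hχt : tsupport χ ⊆ O := by
    rw [χ.tsupport_eq]
    exact (Metric.closedBall_subset_ball (by show s / 2 < s; linarith)).trans hsO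
  have hχ1 : ∀ q ∈ Metric.ball (f u₀) (s / 4), χ q = 1 := fun q hq =>
    χ.one_of_mem_closedBall (Metric.ball_subset_closedBall hq)
  -- the ball
  have hfc : ContinuousAt f u₀ := (hf.contDiffAt hu₀).continuousAt
  obtain ⟨ρ, hρ, hρs⟩ := Metric.mem_nhds_iff.1 (inter_mem (hf.isOpen.mem_nhds hu₀)
    (hfc.preimage_mem_nhds (Metric.ball_mem_nhds (f u₀) (by positivity : (0 : ℝ) < s / 4))))
  set V' := Metric.ball u₀ ρ with hV'
  have hV'V : V' ⊆ V := fun u hu => (hρs hu).1
  have hV'b : ∀ u ∈ V', f u ∈ Metric.ball (f u₀) (s / 4) := fun u hu => (hρs hu).2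
  have hV'O : ∀ u ∈ V', f u ∈ O := fun u hu =>
    hsO (Metric.ball_subset_ball (by linarith) (hV'b u hu))
  have hf' : Chart d X f V' := hf.mono hV'V Metric.isOpen_ball
  obtain ⟨ε, hε⟩ := hf'.exists_sign hoX (convex_ball _ _).isPreconnected
  have hu₀' : u₀ ∈ V' := Metric.mem_ball_self hρ
  have hε0 : ε ≠ 0 := by
    rw [← hε u₀ hu₀']
    intro h
    exact hf'.top_ne_zero hoX hu₀' (Real.sign_eq_zero_iff.1 h)
  refine ⟨f, u₀, ρ, ε, hρ, hε0, hf', rfl, ?_⟩
  intro φ w hφ hφc hφt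
  set κ : Ext (Eu d) := ii w (vol d) with hκ
  set β : E → Ext E := fun q => χ q • pull ℓ (fun u => φ u • κ) q with hβ
  have hφκ : ∀ (n : WithTop ℕ∞), n ≤ ∞ → ∀ u, ContDiffAt ℝ n (fun u => φ u • κ) u := fun n hn u =>
    (hφ.of_le hn).contDiffAt.smul contDiffAt_const
  -- vanishing
  have hβ0 : ∀ x, x ∉ O → β =ᶠ[𝓝 x] fun _ => 0 := by
    intro x hx
    have : x ∉ tsupport χ := fun h => hx (hχt h)
    filter_upwards [notMem_tsupport_iff_eventuallyEq.1 this] with y hy
    rw [hβ]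
    simp only [hy]
    exact zero_smul _ _
  have hβC : ∀ x, ContDiffAt ℝ 1 β x := by
    intro x
    by_cases hx : x ∈ O
    · exact (χ.contDiff.contDiffAt (n := 1)).smul (contDiffAt_pull (n := ∞)
        (hℓ.contDiffAt (hO.mem_nhds hx)) one_add_one_le_infty (hφκ 1 (by simp) _))
    · exact contDiffAt_const.congr_of_eventuallyEq (hβ0 x hx)
  have hℓf : ∀ u ∈ V', ∀ᶠ u' in 𝓝 u, ℓ (f u') = u' := by
    intro u hu
    filter_upwards [Metric.isOpen_ball.mem_nhds hu] with u' hu'
    exact hf.injOn (hℓV _ (hV'O u' hu')) (hV'V hu')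
      (hℓS _ (hV'O u' hu') (hf.mem (hV'V hu')))
  refine ⟨β, fun x _ => hβC x, ?_, ?_⟩
  · -- degree
    intro x _ q hq
    obtain ⟨p, rfl⟩ : ∃ p, d = p + 1 := ⟨d - 1, by omega⟩
    have h1 : IsDeg (p + 1) (F.d β x) := by
      refine IsDeg.d (Eventually.of_forall fun y => ?_)
      exact (((isDeg_vol (p + 1)).ii w).smul _ |>.pb _).smul _
    exact h1 q (by omega)
  · -- the integral
    intro c
    have hsupp : ∀ x ∈ X, x ∉ f '' V' → F.d β x = 0 := by
      intro x hx hxV
      have h2 : β =ᶠ[𝓝 x] fun _ => 0 := by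
        by_cases hxO' : x ∈ O
        · have h3 : ℓ x ∉ tsupport φ := fun h => hxV ⟨ℓ x, hφt h, hℓS x hxO' hx⟩
          have h4 : ContinuousAt ℓ x := (hℓ.contDiffAt (hO.mem_nhds hxO')).continuousAt
          filter_upwards [h4.eventually (notMem_tsupport_iff_eventuallyEq.1 h3)] with y hy
          have h5 : φ (ℓ y) = 0 := hy
          show χ y • pb _ (φ (ℓ y) • κ) = 0
          rw [h5, zero_smul, map_zero, smul_zero]
        · exact hβ0 x hxO'
      rw [d_congr h2]
      exact d_const 0 x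
    rw [J_eq_chart hX hf' (fun x hx hxV => by rw [hsupp x hx hxV, smul_zero, map_zero]; rfl)]
    have hint : ∀ u ∈ V', top d (pull f (fun x => c x • F.d β x) u) *
        Real.sign (top d (pull f oX u)) = ε * (c (f u) * fderiv ℝ φ u w) := by
      intro u hu
      rw [hε u hu]
      have h6 : pull f (fun x => c x • F.d β x) u = c (f u) • pull f (F.d β) u := pull_smul _ _ _ _
      have h7 : pull f β =ᶠ[𝓝 u] fun u' => φ u' • κ := by
        have h8 := (hℓf u hu).eventually_nhds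
        filter_upwards [Metric.isOpen_ball.mem_nhds hu, h8] with u' hu' h9
        have h10 : pull f β u' = χ (f u') • pull f (pull ℓ (fun u => φ u • κ)) u' :=
          pull_smul _ _ _ _
        rw [h10, hχ1 _ (hV'b u' hu'), one_smul, pull_comp (hf'.differentiableAt hu')
          ((hℓ.contDiffAt (hO.mem_nhds (hV'O u' hu'))).differentiableAt (by simp))]
        have h11 : (ℓ ∘ f) =ᶠ[𝓝 u'] fun y => y := h9
        rw [pull_congr h11, pull_id]
      have h12 : pull f (F.d β) u = io ((fderiv ℝ φ u : Eu d →L[ℝ] ℝ) : Module.Dual ℝ (Eu d)) * κ := by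
        rw [← d_pull ((hf'.contDiffAt hu).of_le two_le_infty)
          ((hβC _).differentiableAt (by norm_num)), d_congr h7,
          d_smul ((hφ.differentiable (by simp)) u) (differentiableAt_const κ), d_const, smul_zero,
          add_zero]
      rw [h6, map_smul, h12, hκ, top_io_ii_vol, smul_eq_mul]
      show c (f u) * fderiv ℝ φ u w * ε = _
      ring
    rw [setIntegral_congr_fun hf'.isOpen.measurableSet hint, integral_const_mul]

section loc
variable {r d : ℕ} {Z : Set E'} {X : Set E} {π : E' → E} {oX om : E → Ext E} {oV η : E' → Ext E'}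

/-- fibre integrals of closed forms are **locally constant**. -/
theorem Subm.locConst (h : Subm r d Z X π) (hoX' : Ori d X oX) (hoV : ContinuousOn oV Z)
    (hoZ : Ori (r + d) Z (fun z => oV z * pull π oX z))
    (hoX : ∀ x ∈ X, ∀ q < d, evA E q (oX x) = 0)
    (hη : ∀ z ∈ Z, ContDiffAt ℝ 1 η z) (hcl : ResZero Z (F.d η)) {x₀ : E} (hx₀ : x₀ ∈ X) :
    ∀ᶠ x in 𝓝[X] x₀, J r (Z ∩ π ⁻¹' {x}) oV η = J r (Z ∩ π ⁻¹' {x₀}) oV η := by
  obtain ⟨f, u₀, ρ, ε, hρ, hε, hf, rfl, htest⟩ := exists_test h.cloX hoX' hx₀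
  have hc := h.continuousOn_fibre hoV (h.fibre_ori hoV hoZ hoX)
    (fun z hz => (hη z hz).continuousAt.continuousWithinAt)
  have hg : ContinuousOn (fun u => J r (Z ∩ π ⁻¹' {f u}) oV η) (Metric.ball u₀ ρ) :=
    hc.comp hf.contDiffOn.continuousOn fun u hu => hf.mem hu
  have hconst := fun u (hu : u ∈ Metric.ball u₀ ρ) => const_of_weak hg (fun φ w hφ hφc hφt => by
    obtain ⟨β, h1, h2, h3⟩ := htest φ w hφ hφc hφt
    have h4 := h.weak hoV hoZ hoX hη hcl h1 h2
    rw [h3] at h4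
    exact (mul_eq_zero.1 h4).resolve_left hε) hu
  obtain ⟨U, hU, hUe⟩ := hf.image_open _ Subset.rfl hf.isOpen
  have hmem : f u₀ ∈ U := by
    have : f u₀ ∈ f '' Metric.ball u₀ ρ := ⟨u₀, Metric.mem_ball_self hρ, rfl⟩
    rw [hUe] at this; exact this.2
  filter_upwards [inter_mem_nhdsWithin X (hU.mem_nhds hmem)] with x hx
  rw [← hUe] at hx
  obtain ⟨u, hu, rfl⟩ := hx
  exact hconst u hu

/-- on a connected base the fibre integrals of a closed form are **constant**. -/
theorem Subm.const (h : Subm r d Z X π) (hX : IsPreconnected X) (hoX' : Ori d X oX)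
    (hoV : ContinuousOn oV Z) (hoZ : Ori (r + d) Z (fun z => oV z * pull π oX z))
    (hoX : ∀ x ∈ X, ∀ q < d, evA E q (oX x) = 0)
    (hη : ∀ z ∈ Z, ContDiffAt ℝ 1 η z) (hcl : ResZero Z (F.d η)) {x y : E} (hx : x ∈ X)
    (hy : y ∈ X) : J r (Z ∩ π ⁻¹' {x}) oV η = J r (Z ∩ π ⁻¹' {y}) oV η := by
  have hpc : PreconnectedSpace X := isPreconnected_iff_preconnectedSpace.1 hX
  have hlc : IsLocallyConstant (fun x : X => J r (Z ∩ π ⁻¹' {(x : E)}) oV η) := by
    rw [IsLocallyConstant.iff_eventually_eq]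
    intro x
    have := h.locConst hoX' hoV hoZ hoX hη hcl x.2
    exact (eventually_nhds_subtype_iff X x _).2 this
  exact hlc.apply_eq_of_preconnectedSpace ⟨x, hx⟩ ⟨y, hy⟩

/-- **fibre integration of a closed form**: `∫_Z η ∧ π^*om = (∫_{Z_y} η) (∫_X om)`. -/
theorem fibre_integration_const (h : Subm r d Z X π) (hX : IsPreconnected X) (hoX' : Ori d X oX)
    (hoV : ContinuousOn oV Z) (hoZ : Ori (r + d) Z (fun z => oV z * pull π oX z))
    (hoX : ∀ x ∈ X, ∀ q < d, evA E q (oX x) = 0)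
    (hη : ∀ z ∈ Z, ContDiffAt ℝ 1 η z) (hcl : ResZero Z (F.d η))
    (hom : ContinuousOn om X) (hom0 : ∀ x ∈ X, ∀ q < d, evA E q (om x) = 0) {y : E} (hy : y ∈ X) :
    J (r + d) Z (fun z => oV z * pull π oX z) (fun z => η z * pull π om z) =
      J r (Z ∩ π ⁻¹' {y}) oV η * J d X oX om := by
  rw [fibre_integration h hoV hoZ hoX (fun z hz => (hη z hz).continuousAt.continuousWithinAt)
    hom hom0, ← J_smul]
  refine J_congr' h.cloX fun x hx => ?_
  rw [h.const hX hoX' hoV hoZ hoX hη hcl hx hy]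

end loc

end Crest.Agent.R208.FI
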