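import Crest.Agent.R208.FH10a
import Crest.Agent.R208.FH9

/-! Row 208, block F2 (helper198), part FH10: **homotopy invariance**. -/

set_option autoImplicit false
set_option linter.unusedSectionVars false

open MeasureTheory Set Filter Topology Module
open scoped ContDiff
open Crest.Agent.R208.F

noncomputable section

namespace Crest.Agent.R208.FI

universe u
variable {E : Type u} [NormedAddCommGroup E] [NormedSpace ℝ E] [FiniteDimensional ℝ E]
  {E' : Type*} [NormedAddCommGroup E'] [NormedSpace ℝ E'] [FiniteDimensional ℝ E']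
  {G : Type*} [NormedAddCommGroup G] [NormedSpace ℝ G] [FiniteDimensional ℝ G]
  {X : Set E} {Y : Set E'}

section gen
variable {j : E →L[ℝ] G} {v : G} {Fh : G → E'} {om η : E' → Ext E'}

theorem pbL_pull {x : E} {t : ℝ} (hF : DifferentiableAt ℝ Fh (jv j v (x, t))) :
    pbL j (pull Fh om (jv j v (x, t))) = pull (fun y => Fh (jv j v (y, t))) om x := by
  have h1 := pull_comp (f := fun y : E => jv j v (y, t)) (g := Fh) (om := om)
    (hasFDerivAt_jt t x).differentiableAt hF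
  rw [← show pull (fun y : E => jv j v (y, t)) (pull Fh om) x =
    pbL j (pull Fh om (jv j v (x, t))) by rw [pull, (hasFDerivAt_jt t x).fderiv]; rfl]
  exact h1

/-- **homotopy formula** `F_1^* ω - F_0^* ω = d (K ω) + K (dω)`, `K ω = hop j v (F^* ω)`. -/
theorem d_hop_pull {x : E} (hF : ∀ t ∈ Icc (0 : ℝ) 1, ContDiffAt ℝ 2 Fh (jv j v (x, t)))
    (hom : ∀ t ∈ Icc (0 : ℝ) 1, ContDiffAt ℝ 1 om (Fh (jv j v (x, t)))) :
    F.d (hop j v (pull Fh om)) x + hop j v (pull Fh (F.d om)) x =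
      pull (fun y => Fh (jv j v (y, 1))) om x - pull (fun y => Fh (jv j v (y, 0))) om x := by
  have h1 := d_hop (j := j) (v := v) (Om := pull Fh om) (x := x) fun t ht =>
    contDiffAt_pull (hF t ht) (by norm_num) (hom t ht)
  have h2 : hop j v (F.d (pull Fh om)) x = hop j v (pull Fh (F.d om)) x := by
    rw [hop, hop, I1, I1]
    refine intervalIntegral.integral_congr ?_
    rw [uIcc_of_le zero_le_one]
    intro t ht
    simp only [hopg]
    rw [d_pull (hF t ht) ((hom t ht).differentiableAt (by norm_num))]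
  rw [h2] at h1
  rw [h1, pbL_pull ((hF 1 (right_mem_Icc.2 zero_le_one)).differentiableAt (by norm_num)),
    pbL_pull ((hF 0 (left_mem_Icc.2 zero_le_one)).differentiableAt (by norm_num))]

/-- the time derivative of a homotopy in `Y` is tangent to `Y`. -/
theorem time_mem_Tan {x : E} {t : ℝ} (ht : t ∈ Ioo (0 : ℝ) 1)
    (hd : DifferentiableAt ℝ Fh (jv j v (x, t)))
    (hm : ∀ t ∈ Icc (0 : ℝ) 1, Fh (jv j v (x, t)) ∈ Y) :
    fderiv ℝ Fh (jv j v (x, t)) v ∈ Tan Y (Fh (jv j v (x, t))) := by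
  have h5 : HasDerivAt (fun s => Fh (jv j v (x, s))) (fderiv ℝ Fh (jv j v (x, t)) v) t :=
    hd.hasFDerivAt.comp_hasDerivAt t (hasDerivAt_jv x t)
  have h6 : ∀ᶠ s in 𝓝 t, (fun s => Fh (jv j v (x, s))) s ∈ Y := by
    filter_upwards [isOpen_Ioo.mem_nhds ht] with s hs using hm s (Ioo_subset_Icc_self hs)
  exact mem_Tan_of_curve (γ := fun s => Fh (jv j v (x, s))) h5 h6

theorem space_mem_Tan {x : E} {t : ℝ} (hd : DifferentiableAt ℝ Fh (jv j v (x, t)))
    (hm : ∀ x ∈ X, Fh (jv j v (x, t)) ∈ Y) {w : E} (hw : w ∈ Tan X x) :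
    fderiv ℝ Fh (jv j v (x, t)) (j w) ∈ Tan Y (Fh (jv j v (x, t))) := by
  have hFt : HasFDerivAt (fun y : E => Fh (jv j v (y, t)))
      ((fderiv ℝ Fh (jv j v (x, t))).comp j) x := hd.hasFDerivAt.comp x (hasFDerivAt_jt t x)
  have := fderiv_mapsTo_Tan (Y := Y) hFt.differentiableAt hm hw
  rw [hFt.fderiv] at this
  exact this

/-- a form vanishing on `Y` is killed pointwise. -/
theorem res_hopL_eq_zero {x : E} {t : ℝ} (ht : t ∈ Ioo (0 : ℝ) 1)
    (hd : DifferentiableAt ℝ Fh (jv j v (x, t)))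
    (hm : ∀ x ∈ X, ∀ t ∈ Icc (0 : ℝ) 1, Fh (jv j v (x, t)) ∈ Y) (hx : x ∈ X)
    (h0 : ResZero Y η) :
    pb (Tan X x).subtype (hopL j v (pull Fh η (jv j v (x, t)))) = 0 := by
  have htI := Ioo_subset_Icc_self ht
  have hv := time_mem_Tan (Y := Y) ht hd (hm x hx)
  have hT := fun (w : E) (hw : w ∈ Tan X x) =>
    space_mem_Tan (Y := Y) hd (fun y hy => hm y hy t htI) hw
  let B : Tan X x →ₗ[ℝ] Tan Y (Fh (jv j v (x, t))) :=
    LinearMap.codRestrict _ (((fderiv ℝ Fh (jv j v (x, t)) : G →L[ℝ] E') : G →ₗ[ℝ] E') ∘ₗ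
      ((j : E →ₗ[ℝ] G) ∘ₗ (Tan X x).subtype)) (fun w => hT w w.2)
  have hcomp : ((fderiv ℝ Fh (jv j v (x, t)) : G →L[ℝ] E') : G →ₗ[ℝ] E') ∘ₗ
      ((j : E →ₗ[ℝ] G) ∘ₗ (Tan X x).subtype) = (Tan Y (Fh (jv j v (x, t)))).subtype ∘ₗ B := by
    ext w
    rfl
  have h6 : pb (Tan Y (Fh (jv j v (x, t)))).subtype
      (ii (fderiv ℝ Fh (jv j v (x, t)) v) (η (Fh (jv j v (x, t))))) = 0 := by
    have h7 := ii_pb (Tan Y (Fh (jv j v (x, t)))).subtype ⟨fderiv ℝ Fh (jv j v (x, t)) v, hv⟩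
      (η (Fh (jv j v (x, t))))
    rw [h0 _ (hm x hx t htI), map_zero] at h7
    exact h7.symm
  rw [hopL_apply, pull, pb_comp, ii_pb, pb_comp, hcomp, ← pb_comp]
  exact (congrArg (pb B) h6).trans (map_zero _)

/-- `K` maps forms vanishing on `Y` to forms vanishing on `X`. -/
theorem resZero_hop (hF : ∀ x ∈ X, ∀ t ∈ Icc (0 : ℝ) 1, ContDiffAt ℝ 2 Fh (jv j v (x, t)))
    (hm : ∀ x ∈ X, ∀ t ∈ Icc (0 : ℝ) 1, Fh (jv j v (x, t)) ∈ Y)
    (hη : ∀ x ∈ X, ∀ t ∈ Icc (0 : ℝ) 1, ContinuousAt η (Fh (jv j v (x, t))))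
    (h0 : ResZero Y η) : ResZero X (hop j v (pull Fh η)) := by
  intro x hx
  have hint : IntervalIntegrable (fun t => hopL j v (pull Fh η (jv j v (x, t)))) volume 0 1 := by
    refine ContinuousOn.intervalIntegrable ?_
    rw [uIcc_of_le zero_le_one]
    refine (hopL j v).continuous.comp_continuousOn ?_
    have hc : Continuous (fun t : ℝ => jv j v (x, t)) := (jv j v).continuous.comp (by fun_prop)
    have h1 : ContinuousOn (fun t : ℝ => fderiv ℝ Fh (jv j v (x, t))) (Icc 0 1) := fun t ht =>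
      (((hF x hx t ht).fderiv_right (m := 1) (by norm_num)).continuousAt.comp
        (f := fun t : ℝ => jv j v (x, t)) hc.continuousAt).continuousWithinAt
    have h2 : ContinuousOn (fun t : ℝ => η (Fh (jv j v (x, t)))) (Icc 0 1) := fun t ht =>
      ((hη x hx t ht).comp (f := fun t : ℝ => Fh (jv j v (x, t)))
        ((hF x hx t ht).continuousAt.comp (f := fun t : ℝ => jv j v (x, t))
          hc.continuousAt)).continuousWithinAt
    exact continuousOn_pb h1 h2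
  have h1 : hop j v (pull Fh η) x =
    ∫ t in (0 : ℝ)..1, hopL j v (pull Fh η (jv j v (x, t))) := rfl
  let R : Ext E →L[ℝ] Ext (Tan X x) :=
    LinearMap.toContinuousLinearMap (pb (Tan X x).subtype).toLinearMap
  have h2 : pb (Tan X x).subtype (hop j v (pull Fh η) x) =
      ∫ t in (0 : ℝ)..1, R (hopL j v (pull Fh η (jv j v (x, t)))) := by
    rw [h1]
    exact (R.intervalIntegral_comp_comm hint).symm
  rw [h2, intervalIntegral.integral_of_le zero_le_one, integral_Ioc_eq_integral_Ioo]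
  exact setIntegral_eq_zero_of_forall_eq_zero fun t ht => res_hopL_eq_zero ht
    ((hF x hx t (Ioo_subset_Icc_self ht)).differentiableAt (by norm_num)) hm hx h0

/-- **HOMOTOPY INVARIANCE, forms**: along `X`, `F_1^* ω - F_0^* ω` is exact with the explicit
primitive `hop j v (F^* ω)`. -/
theorem resZero_homotopy (hF : ∀ x ∈ X, ∀ t ∈ Icc (0 : ℝ) 1, ContDiffAt ℝ 2 Fh (jv j v (x, t)))
    (hm : ∀ x ∈ X, ∀ t ∈ Icc (0 : ℝ) 1, Fh (jv j v (x, t)) ∈ Y)
    (hom : ∀ y ∈ Y, ContDiffAt ℝ 1 om y) (hcl : ResZero Y (F.d om)) :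
    ResZero X (fun x => pull (fun y => Fh (jv j v (y, 1))) om x -
      pull (fun y => Fh (jv j v (y, 0))) om x - F.d (hop j v (pull Fh om)) x) := by
  intro x hx
  have h1 := d_hop_pull (om := om) (hF x hx) (fun t ht => hom _ (hm x hx t ht))
  have h2 : pull (fun y => Fh (jv j v (y, 1))) om x - pull (fun y => Fh (jv j v (y, 0))) om x -
      F.d (hop j v (pull Fh om)) x = hop j v (pull Fh (F.d om)) x := by
    rw [← h1]; abel
  show pb (Tan X x).subtype (pull (fun y => Fh (jv j v (y, 1))) om x -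
    pull (fun y => Fh (jv j v (y, 0))) om x - F.d (hop j v (pull Fh om)) x) = 0
  rw [h2]
  exact resZero_hop hF hm (fun x hx t ht =>
    (contDiffAt_d (m := 0) (hom _ (hm x hx t ht)) (by norm_num)).continuousAt) hcl x hx

end gen

/-! ### the version for `F : E × ℝ → E'` -/
section prod
variable {Fh : E × ℝ → E'} {om : E' → Ext E'}

theorem jv_inl (x : E) (t : ℝ) :
    jv (ContinuousLinearMap.inl ℝ E ℝ) ((0, 1) : E × ℝ) (x, t) = (x, t) := by
  rw [jv_apply]; simp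

/-- the primitive -/
def Hop (Fh : E × ℝ → E') (om : E' → Ext E') : E → Ext E :=
  hop (ContinuousLinearMap.inl ℝ E ℝ) ((0, 1) : E × ℝ) (pull Fh om)

theorem contDiffAt_Hop {x : E} (hF : ∀ t ∈ Icc (0 : ℝ) 1, ContDiffAt ℝ ∞ Fh (x, t))
    (hom : ∀ t ∈ Icc (0 : ℝ) 1, ContDiffAt ℝ ∞ om (Fh (x, t))) :
    ContDiffAt ℝ ∞ (Hop Fh om) x := by
  refine contDiffAt_hop fun t ht => ?_
  rw [jv_inl]
  exact contDiffAt_pull (hF t ht) (by simp) (hom t ht)

theorem contDiffAt_Hop_one {x : E} (hF : ∀ t ∈ Icc (0 : ℝ) 1, ContDiffAt ℝ 2 Fh (x, t))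
    (hom : ∀ t ∈ Icc (0 : ℝ) 1, ContDiffAt ℝ 1 om (Fh (x, t))) :
    ContDiffAt ℝ 1 (Hop Fh om) x := by
  refine contDiffAt_hop_nat (n := 1) fun t ht => ?_
  rw [jv_inl]
  exact contDiffAt_pull (hF t ht) (by norm_num) (by simpa using hom t ht)

/-- **HOMOTOPY INVARIANCE, forms** -/
theorem resZero_Hop (hF : ∀ x ∈ X, ∀ t ∈ Icc (0 : ℝ) 1, ContDiffAt ℝ 2 Fh (x, t))
    (hm : ∀ x ∈ X, ∀ t ∈ Icc (0 : ℝ) 1, Fh (x, t) ∈ Y)
    (hom : ∀ y ∈ Y, ContDiffAt ℝ 1 om y) (hcl : ResZero Y (F.d om)) :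
    ResZero X (fun x => pull (fun y => Fh (y, 1)) om x - pull (fun y => Fh (y, 0)) om x -
      F.d (Hop Fh om) x) := by
  have h1 := resZero_homotopy (j := ContinuousLinearMap.inl ℝ E ℝ) (v := ((0, 1) : E × ℝ))
    (Fh := Fh) (om := om) (X := X) (Y := Y)
    (fun x hx t ht => by rw [jv_inl]; exact hF x hx t ht)
    (fun x hx t ht => by rw [jv_inl]; exact hm x hx t ht) hom hcl
  simp only [jv_inl] at h1
  exact h1

/-- **HOMOTOPY INVARIANCE OF THE INTEGRAL** -/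
theorem J_homotopy {n : ℕ} {o : E → Ext E} (hX : Clo n X) (ho : Ori n X o)
    (hF : ∀ x ∈ X, ∀ t ∈ Icc (0 : ℝ) 1, ContDiffAt ℝ 2 Fh (x, t))
    (hm : ∀ x ∈ X, ∀ t ∈ Icc (0 : ℝ) 1, Fh (x, t) ∈ Y)
    (hom : ∀ y ∈ Y, ContDiffAt ℝ 1 om y) (hcl : ResZero Y (F.d om)) :
    J n X o (pull (fun y => Fh (y, 1)) om) = J n X o (pull (fun y => Fh (y, 0)) om) := by
  have h1 := resZero_Hop hF hm hom hcl
  have hβ : ∀ x ∈ X, ContDiffAt ℝ 1 (Hop Fh om) x := fun x hx =>
    contDiffAt_Hop_one (hF x hx) fun t ht => hom _ (hm x hx t ht)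
  have h2 := J_d hX ho hβ
  have hc : ∀ t ∈ Icc (0 : ℝ) 1, ContinuousOn (pull (fun y => Fh (y, t)) om) X := by
    intro t ht x hx
    have h3 : ContDiffAt ℝ 2 (fun y : E => Fh (y, t)) x :=
      (hF x hx t ht).comp x (contDiffAt_id.prodMk contDiffAt_const)
    exact (contDiffAt_pull (m := 1) h3 (by norm_num) (hom _ (hm x hx t ht))).continuousAt.continuousWithinAt
  have hc1 := hc 1 (right_mem_Icc.2 zero_le_one)
  have hc0 := hc 0 (left_mem_Icc.2 zero_le_one)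
  have h4 : J n X o (fun x => pull (fun y => Fh (y, 1)) om x - pull (fun y => Fh (y, 0)) om x -
      F.d (Hop Fh om) x) = 0 := J_eq_zero hX fun x hx w hw => h1.evA hx hw
  have h5 := J_sub hX ho (om := fun x => pull (fun y => Fh (y, 1)) om x -
    pull (fun y => Fh (y, 0)) om x) (hc1.sub hc0) (continuousOn_d hβ)
  rw [h5, J_sub hX ho hc1 hc0, h2, sub_zero] at h4
  exact sub_eq_zero.1 h4

end prod

end Crest.Agent.R208.FI
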