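import Crest.Agent.R208.T0b
import Crest.Agent.R208.FH10

/-! Row 208, block (A2) of the blueprint of (k,n) = (8,16) (helper601).  AF1: calculus of smooth
one-parameter families of forms `g : E × ℝ → Ext E` and their time integrals. -/

set_option autoImplicit false
set_option linter.unusedSectionVars false

open MeasureTheory Set Filter Topology Module
open scoped ContDiff
open Crest.Agent.R208.F Crest.Agent.R208.FI Crest.Agent.R208.CW Crest.Agent.R208.T

noncomputable section

namespace Crest.Agent.R208.AF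

/-! ### curves in the exterior algebra -/
section curves
variable {V : Type*} [NormedAddCommGroup V] [NormedSpace ℝ V] [FiniteDimensional ℝ V]
  {f g f' g' : ℝ → Ext V} {a b t : ℝ}

theorem cont_mul {f g : ℝ → Ext V} (hf : Continuous f) (hg : Continuous g) :
    Continuous fun t => f t * g t := by
  have h := (mulL V).isBoundedBilinearMap.continuous.comp (hf.prodMk hg)
  exact h

theorem int_left (c : Ext V) (hg : Continuous g) :
    ∫ t in a..b, c * g t = c * ∫ t in a..b, g t :=
  (mulL V c).intervalIntegral_comp_comm (hg.intervalIntegrable _ _)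

theorem int_right (c : Ext V) (hg : Continuous g) :
    ∫ t in a..b, g t * c = (∫ t in a..b, g t) * c :=
  ((mulL V).flip c).intervalIntegral_comp_comm (hg.intervalIntegrable _ _)

theorem hasDerivAt_mul' {f g : ℝ → Ext V} {f' g' : Ext V} (hf : HasDerivAt f f' t)
    (hg : HasDerivAt g g' t) : HasDerivAt (fun t => f t * g t) (f' * g t + f t * g') t := by
  have h := hasFDerivAt_mul hf.hasFDerivAt hg.hasFDerivAt
  have h2 := h.hasDerivAt
  convert h2 using 1
  simp [add_comm]

/-- integration by parts -/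
theorem int_parts (hf : ∀ t, HasDerivAt f (f' t) t) (hg : ∀ t, HasDerivAt g (g' t) t)
    (hf' : Continuous f') (hg' : Continuous g') :
    ∫ t in a..b, f t * g' t = f b * g b - f a * g a - ∫ t in a..b, f' t * g t := by
  have cf : Continuous f := continuous_iff_continuousAt.2 fun t => (hf t).continuousAt
  have cg : Continuous g := continuous_iff_continuousAt.2 fun t => (hg t).continuousAt
  have h1 : ∫ t in a..b, (f' t * g t + f t * g' t) = f b * g b - f a * g a :=
    intervalIntegral.integral_eq_sub_of_hasDerivAt (fun t _ => hasDerivAt_mul' (hf t) (hg t))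
      (((cont_mul hf' cg).add (cont_mul cf hg')).intervalIntegrable _ _)
  rw [intervalIntegral.integral_add ((cont_mul hf' cg).intervalIntegrable _ _)
    ((cont_mul cf hg').intervalIntegrable _ _)] at h1
  rw [← h1]; abel

/-- odd elements anticommute -/
theorem odd_anti {a b : Ext V} (ha : inv a = -a) (hb : inv b = -b) : a * b = - (b * a) := by
  rw [odd_comm ha, hb, neg_mul]

theorem odd_sq {a : Ext V} (ha : inv a = -a) : a * a = 0 := by
  have h := odd_anti ha ha
  have h2 : (2 : ℝ) • (a * a) = 0 := by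
    rw [two_smul]; nth_rewrite 1 [h]; simp
  exact (smul_eq_zero.1 h2).resolve_left two_ne_zero

theorem inv_int (hg : Continuous g) : inv (∫ t in a..b, g t) = ∫ t in a..b, inv (g t) :=
  ((invL (E := V)).intervalIntegral_comp_comm (hg.intervalIntegrable _ _)).symm

end curves

/-! ### families -/
section fam
universe u
variable {E H : Type u} [NormedAddCommGroup E] [NormedSpace ℝ E] [FiniteDimensional ℝ E]
  [NormedAddCommGroup H] [NormedSpace ℝ H] {X : Set E}

/-- smooth at the points of `X × ℝ` -/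
def SmF (X : Set E) (g : E × ℝ → H) : Prop := ∀ x ∈ X, ∀ t : ℝ, ContDiffAt ℝ ∞ g (x, t)

/-- time integral -/
def TI (α β : ℝ) (g : E × ℝ → H) (x : E) : H := ∫ t in α..β, g (x, t)

/-- the primitive in time -/
def PL (g : E × ℝ → H) (p : E × ℝ) : H := ∫ s in (0 : ℝ)..p.2, g (p.1, s)

variable {g h : E × ℝ → H} {α β : ℝ} {x : E} {t : ℝ}

theorem SmF.cont (hg : SmF X g) (hx : x ∈ X) : Continuous fun t => g (x, t) :=
  continuous_iff_continuousAt.2 fun t =>
    (hg x hx t).continuousAt.comp (f := fun t => ((x, t) : E × ℝ)) (by fun_prop)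

theorem SmF.slice (hg : SmF X g) (hx : x ∈ X) (t : ℝ) : ContDiffAt ℝ ∞ (fun y => g (y, t)) x :=
  (hg x hx t).comp x (contDiffAt_id.prodMk contDiffAt_const)

theorem TI_eq (α β : ℝ) (g : E × ℝ → H) :
    TI α β g = fun x => (β - α) • I1 (fun p : E × ℝ => g (p.1, α + (β - α) * p.2)) x := by
  funext x
  have h := intervalIntegral.smul_integral_comp_add_mul (f := fun t => g (x, t)) (a := 0) (b := 1)
    (c := β - α) (d := α)
  rw [I1, TI, h]
  congr 1 <;> ring

theorem PL_eq (g : E × ℝ → H) :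
    PL g = fun p => p.2 • I1 (fun q : (E × ℝ) × ℝ => g (q.1.1, q.1.2 * q.2)) p := by
  funext p
  have h := intervalIntegral.smul_integral_comp_mul_left (f := fun t => g (p.1, t)) (a := 0) (b := 1)
    (c := p.2)
  rw [I1, PL, h]
  congr 1 <;> ring

theorem SmF.aff (hg : SmF X g) (α γ : ℝ) (hx : x ∈ X) (t : ℝ) :
    ContDiffAt ℝ ∞ (fun p : E × ℝ => g (p.1, α + γ * p.2)) (x, t) := by
  refine ContDiffAt.comp (x, t) (f := fun p : E × ℝ => ((p.1, α + γ * p.2) : E × ℝ))
    (hg x hx _) ?_
  fun_prop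

theorem SmF.TI (hg : SmF X g) (α β : ℝ) (hx : x ∈ X) : ContDiffAt ℝ ∞ (TI α β g) x := by
  rw [TI_eq]
  exact contDiffAt_const.smul (contDiffAt_I1 fun t _ => hg.aff α (β - α) hx t)

theorem SmF.PL (hg : SmF X g) : SmF X (PL g) := by
  intro x hx t
  rw [PL_eq]
  refine contDiffAt_snd.smul (contDiffAt_I1 fun s _ => ?_)
  refine ContDiffAt.comp ((x, t), s)
    (f := fun q : (E × ℝ) × ℝ => ((q.1.1, q.1.2 * q.2) : E × ℝ)) (hg x hx _) ?_
  fun_prop

theorem PL_slice (g : E × ℝ → H) (t : ℝ) : (fun y => PL g (y, t)) = TI 0 t g := rfl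

theorem PL_zero (g : E × ℝ → H) (x : E) : PL g (x, 0) = 0 := by
  simp [PL]

variable [CompleteSpace H]

theorem SmF.hasDerivAt_PL (hg : SmF X g) (hx : x ∈ X) (t : ℝ) :
    HasDerivAt (fun t => AF.PL g (x, t)) (g (x, t)) t :=
  intervalIntegral.integral_hasDerivAt_right ((hg.cont hx).intervalIntegrable _ _)
    ((hg.cont hx).stronglyMeasurableAtFilter _ _) (hg.cont hx).continuousAt

end fam

/-! ### exterior derivative of families -/
section dfam
universe u
variable {E : Type u} [NormedAddCommGroup E] [NormedSpace ℝ E] [FiniteDimensional ℝ E] {X : Set E}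
  {g h : E × ℝ → Ext E} {α β : ℝ} {x : E} {t : ℝ}

/-- exterior derivative in the `E`-direction -/
def dF (g : E × ℝ → Ext E) (p : E × ℝ) : Ext E := F.d (fun y => g (y, p.2)) p.1

theorem dF_eq {p : E × ℝ} (hg : DifferentiableAt ℝ g p) :
    dF g p = wd E ((fderiv ℝ g p).comp (ContinuousLinearMap.inl ℝ E ℝ)) := by
  have h1 : HasFDerivAt (fun y : E => (y, p.2)) (ContinuousLinearMap.inl ℝ E ℝ) p.1 :=
    (hasFDerivAt_id p.1).prodMk (hasFDerivAt_const p.2 p.1)
  have h2 : HasFDerivAt (fun y => g (y, p.2))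
      ((fderiv ℝ g p).comp (ContinuousLinearMap.inl ℝ E ℝ)) p.1 :=
    HasFDerivAt.comp (g := g) p.1 (by exact hg.hasFDerivAt) h1
  rw [dF, d_of_hasFDerivAt h2]

theorem SmF.dF (hg : SmF X g) : SmF X (dF g) := by
  intro x hx t
  have h1 : ContDiffAt ℝ ∞ (fun p => wd E ((fderiv ℝ g p).comp (ContinuousLinearMap.inl ℝ E ℝ)))
      (x, t) :=
    (wd E).contDiff.contDiffAt.comp (x, t)
      (((hg x hx t).fderiv_right (m := ∞) (by simp)).clm_comp contDiffAt_const)
  refine h1.congr_of_eventuallyEq ?_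
  have h2 : ∀ᶠ p in 𝓝 (x, t), ContDiffAt ℝ 1 g p :=
    ((hg x hx t).of_le (by exact_mod_cast le_top)).eventually (by simp)
  filter_upwards [h2] with p hp
  exact dF_eq (hp.differentiableAt (by norm_num))

theorem d_I1 (hg : ∀ t ∈ Icc (0 : ℝ) 1, ContDiffAt ℝ ∞ g (x, t)) :
    F.d (I1 g) x = I1 (AF.dF g) x := by
  set U : Set (E × ℝ) := {p | ContDiffAt ℝ 1 g p} with hU
  have hUo : IsOpen U := by
    rw [isOpen_iff_mem_nhds]
    intro p hp
    exact ContDiffAt.eventually hp (by simp)
  have hxS : x ∈ Sl U := fun t ht => by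
    show ContDiffAt ℝ 1 g (x, t)
    exact (hg t ht).of_le (by exact_mod_cast le_top)
  have hgC : ContDiffOn ℝ 1 g U := fun p hp => ContDiffAt.contDiffWithinAt hp
  have h1 := hasFDerivAt_I1 hUo hgC hxS
  have hg' : ContinuousOn (fun p => (fderiv ℝ g p).comp
      (ContinuousLinearMap.inl ℝ E ℝ)) U :=
    (hgC.continuousOn_fderiv_of_isOpen hUo (by norm_num)).clm_comp continuousOn_const
  have h2 : F.d (I1 g) x = ∫ t in (0 : ℝ)..1,
      wd E ((fderiv ℝ g (x, t)).comp (ContinuousLinearMap.inl ℝ E ℝ)) := by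
    rw [d_of_hasFDerivAt h1, I1]
    exact ((wd E).intervalIntegral_comp_comm (intervalIntegrable_slice hg' hxS)).symm
  rw [h2, I1]
  refine intervalIntegral.integral_congr ?_
  rw [uIcc_of_le zero_le_one]
  intro t ht
  exact (dF_eq ((hg t ht).differentiableAt (by simp))).symm

theorem SmF.d_TI (hg : SmF X g) (α β : ℝ) (hx : x ∈ X) :
    F.d (AF.TI α β g) x = AF.TI α β (AF.dF g) x := by
  have h1 : ∀ t ∈ Icc (0 : ℝ) 1, ContDiffAt ℝ ∞ (fun p : E × ℝ => g (p.1, α + (β - α) * p.2)) (x, t) :=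
    fun t _ => hg.aff α (β - α) hx t
  rw [TI_eq, TI_eq, d_const_smul _ ((contDiffAt_I1 h1).differentiableAt (by simp)), d_I1 h1]
  rfl

theorem SmF.dF_PL (hg : SmF X g) (hx : x ∈ X) (t : ℝ) :
    AF.dF (AF.PL g) (x, t) = AF.PL (AF.dF g) (x, t) := by
  rw [AF.dF, PL_slice]
  exact hg.d_TI 0 t hx

theorem SmF.mul (hg : SmF X g) (hh : SmF X h) : SmF X (fun p => g p * h p) := fun x hx t =>
  contDiffAt_mul (hg x hx t) (hh x hx t)
theorem SmF.add (hg : SmF X g) (hh : SmF X h) : SmF X (fun p => g p + h p) := fun x hx t =>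
  (hg x hx t).add (hh x hx t)
theorem SmF.sub (hg : SmF X g) (hh : SmF X h) : SmF X (fun p => g p - h p) := fun x hx t =>
  (hg x hx t).sub (hh x hx t)
theorem SmF.neg (hg : SmF X g) : SmF X (fun p => - g p) := fun x hx t => (hg x hx t).neg
theorem SmF.smul (r : ℝ) (hg : SmF X g) : SmF X (fun p => r • g p) := fun x hx t =>
  ContDiffAt.smul (f := fun _ : E × ℝ => r) (g := g) contDiffAt_const (hg x hx t)
theorem SmF.const {a : E → Ext E} (ha : Sm X a) : SmF X (fun p : E × ℝ => a p.1) := fun x hx t =>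
  (ha x hx).comp (x, t) (f := fun p : E × ℝ => p.1) contDiffAt_fst

theorem dF_mul (hg : SmF X g) (hh : SmF X h) (hx : x ∈ X) (t : ℝ) :
    dF (fun p => g p * h p) (x, t) = dF g (x, t) * h (x, t) + inv (g (x, t)) * dF h (x, t) :=
  F.d_mul ((hg.slice hx t).differentiableAt (by simp)) ((hh.slice hx t).differentiableAt (by simp))

theorem SmF.sm_TI (hg : SmF X g) (α β : ℝ) : Sm X (AF.TI α β g) := fun _ hx => hg.TI α β hx

end dfam

end Crest.Agent.R208.AF
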