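import Crest.Agent.R208.AF9

/-! Row 208, block (A2) (helper601).  AF10: `∫_{N4} (λ₃-λ₀)(λ₂-λ₀)(λ₁-λ₀) w = c³ ∫_{US} w`. -/

set_option autoImplicit false
set_option linter.unusedSectionVars false
set_option linter.unusedVariables false

open MeasureTheory Set Filter Topology Module
open scoped ContDiff RealInnerProductSpace
open Crest.GeometryTopology.Submanifold
open Crest.Agent.R241.DDefs
open Crest.Agent.R241.D2
open Crest.Agent.R208.F Crest.Agent.R208.FI Crest.Agent.R208.CW Crest.Agent.R208.T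
open Crest.Agent.R208.FG (OSubm)
open Crest.Agent.R208.SB (OPr oV)
open Crest.Agent.R208.L (US)
open Crest.Agent.R208.FV (phi PVB up dn)
open Crest.Agent.R208.KG (N2 N3 N4)

noncomputable section

namespace Crest.Agent.R208.AF

variable {n N r d : ℕ} {κ : ℝ} {S : Set (Euc N)} {G : Geo n N κ S}
  {E : Type*} [NormedAddCommGroup E] [NormedSpace ℝ E] [FiniteDimensional ℝ E]
  {X : Set E} {b : E → Euc N × Euc N} {σ c : ℝ} {oX : E → Ext E}
  {oP : Euc N × Euc N → Ext (Euc N)} {lm : Euc N × Euc N → Ext (Euc N × Euc N)}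

/-- one level of the tower -/
structure Lv (G : Geo n N κ S) (d : ℕ) (X : Set E) (b : E → Euc N × Euc N) (oX : E → Ext E) :
    Prop where
  clo : Clo d X
  conn : IsPreconnected X
  map : SMap X (US G) b
  ori : Ori d X oX
  deg : ∀ x, IsDeg d (oX x)

/-- the orientation of the next level -/
def oN (G : Geo n N κ S) (oP : Euc N × Euc N → Ext (Euc N)) (b : E → Euc N × Euc N)
    (oX : E → Ext E) (z : E × Euc N) : Ext (E × Euc N) :=
  oV (fun z => oP (phi G (b z))) z * pull Prod.fst oX z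

variable (h : GT.Bla G (r + 1)) (hoP : OPr (GT.FF S) (r + 1) (PVB h) oP)
include hoP

theorem Lv.osubm (L : Lv G d X b oX) :
    OSubm r d (Sph X (PB h b)) X (Prod.fst : E × Euc N → E) (oV fun z => oP (phi G (b z))) oX :=
  SB.osubm_Sph L.clo (pfield_PB h L.map) (opr_PB h L.map hoP) L.ori L.deg

theorem Lv.next (L : Lv G d X b oX) (hr : 1 ≤ r) :
    Lv G (r + d) (Sph X (PB h b)) (fun z => b z.1) (oN G oP b oX) where
  clo := SB.clo_Sph L.clo (pfield_PB h L.map)
  conn := preconn_Sph L.clo.compact L.conn (pfield_PB h L.map) (by omega)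
  map := smap_bf h L.map
  ori := (L.osubm h hoP).tot
  deg z := isDeg_mul (SB.isDeg_oV (opr_PB h L.map hoP) z) ((L.deg _).pb _)

/-- the form of an arc minus the form of the first arc -/
def mu (lm : Euc N × Euc N → Ext (Euc N × Euc N)) (b : E → Euc N × Euc N) (σ : ℝ) :
    E × Euc N → Ext (E × Euc N) := pull (ar b σ) lm - pull (fun z => b z.1) lm

omit hoP in
theorem sm_mu (hb : SMap X (US G) b) (hσ : σ = 1 ∨ σ = -1) (hl : Sm (US G) lm) :
    Sm (Sph X (PB h b)) (mu lm b σ) :=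
  (hl.pull (smap_ar h hb hσ)).sub (hl.pull (smap_bf h hb))

omit hoP in
/-- `λ_i - λ_0` is closed -/
theorem cl_mu (hb : SMap X (US G) b) (hσ : σ = 1 ∨ σ = -1) (hl : Sm (US G) lm)
    {ka : Euc N × Euc N → Ext (Euc N × Euc N)} (hd : Eqv (US G) (F.d lm) (pull (phi G) ka)) :
    Cl (Sph X (PB h b)) (mu lm b σ) := by
  have s1 := smap_ar h hb hσ
  have s2 := smap_bf h hb
  have e : ∀ {g : E × Euc N → Euc N × Euc N}, SMap (Sph X (PB h b)) (US G) g →
      Eqv (Sph X (PB h b)) (F.d (pull g lm)) (pull (fun z => phi G (g z)) ka) := by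
    intro g hg
    refine (d_pull_eqv hg hl).trans ((hd.pull hg).trans (Eqv.of_eq fun z hz => ?_))
    exact pull_comp (f := g) (g := phi G) (hg.diff hz) ((smap_phi h).diff (hg.maps hz))
  rw [Cl, resZero_iff]
  refine (d_sub_eqv (hl.pull s1) (hl.pull s2)).trans ?_
  have e1 := e s1
  have e2 := e s2
  have e3 : Eqv (Sph X (PB h b)) (pull (fun z => phi G (ar b σ z)) ka)
      (pull (fun z => phi G (b z.1)) ka) :=
    eqv_pull_of_eq ka
      (fun z hz => DifferentiableAt.comp (g := phi G) (f := ar b σ) z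
        ((smap_phi h).diff (s1.maps hz)) (s1.diff hz))
      (fun z hz => DifferentiableAt.comp (g := phi G) (f := fun z : E × Euc N => b z.1) z
        ((smap_phi h).diff (s2.maps hz)) (s2.diff hz))
      (fun z hz => (ar_spec h hb hσ hz).2)
  have e4 := (e1.trans e3).sub e2
  rwa [sub_self] at e4

/-- **one step of the tower** -/
theorem Lv.step (L : Lv G d X b oX) (hσ : σ = 1 ∨ σ = -1) (ev : Even (r + 1)) (hr : 1 ≤ r)
    {Y : Set (Euc N × Euc N)} {oF : Euc N × Euc N → Ext (Euc N × Euc N)} {d' : ℕ}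
    (hW : OSubm r d' (US G) Y (phi G) (oWf G oP) oF) (hl : Sm (US G) lm)
    (hc : ∀ z ∈ US G, J r (US G ∩ phi G ⁻¹' {phi G z}) (oWf G oP) lm = c)
    {w : E → Ext E} (hw : Sm X w) (hd : Hom d w) :
    J (r + d) (Sph X (PB h b)) (oN G oP b oX) (mu lm b σ * pull Prod.fst w) = c * J d X oX w :=
  AF.step (L.osubm h hoP) (fun z hz => (sm_mu h L.map hσ hl z hz).continuousAt.continuousWithinAt)
    (fun x hx => by
      rw [mu, fib_int h L.clo L.map hσ ev hoP hW hr hl hx]
      exact hc _ (L.map.maps hx))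
    (fun x hx => (hw x hx).continuousAt.continuousWithinAt) hd

omit hoP in
include h in
theorem lv0 {oU : Euc N × Euc N → Ext (Euc N × Euc N)} (hd : d + 1 = 2 * n) (hn : 2 ≤ n)
    (ho : Ori d (US G) oU) (hdeg : ∀ x, IsDeg d (oU x)) : Lv G d (US G) (fun z => z) oU :=
  ⟨SB.clo_US h hd, FV.preconn_US h.bl hn, ⟨fun _ _ => contDiffAt_id, fun _ hz => hz⟩, ho, hdeg⟩

/-- the fibre integrals are constant -/
theorem c_const {oU : Euc N × Euc N → Ext (Euc N × Euc N)} (L : Lv G d (US G) (fun z => z) oU)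
    (ev : Even (r + 1)) (hr : 1 ≤ r)
    {Y : Set (Euc N × Euc N)} {oF : Euc N × Euc N → Ext (Euc N × Euc N)} {d' : ℕ}
    (hW : OSubm r d' (US G) Y (phi G) (oWf G oP) oF) (hl : Sm (US G) lm)
    {ka : Euc N × Euc N → Ext (Euc N × Euc N)} (hd : Eqv (US G) (F.d lm) (pull (phi G) ka))
    {x y : Euc N × Euc N} (hx : x ∈ US G) (hy : y ∈ US G) :
    J r (US G ∩ phi G ⁻¹' {phi G x}) (oWf G oP) lm =
      J r (US G ∩ phi G ⁻¹' {phi G y}) (oWf G oP) lm := by
  have hO := L.osubm h hoP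
  have h1 := hO.subm.const L.conn hO.base hO.cV hO.tot hO.low
    (η := mu lm (fun z => z) 1)
    (fun z hz => (sm_mu h L.map (Or.inl rfl) hl z hz).of_le (by exact_mod_cast le_top))
    (cl_mu h L.map (Or.inl rfl) hl hd) hx hy
  rw [mu, fib_int h L.clo L.map (Or.inl rfl) ev hoP hW hr hl hx,
    fib_int h L.clo L.map (Or.inl rfl) ev hoP hW hr hl hy] at h1
  exact h1

omit hoP in
theorem pull_fst_pull {q : E → Euc N × Euc N} (hq : Differentiable ℝ q)
    (om : Euc N × Euc N → Ext (Euc N × Euc N)) :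
    pull (Prod.fst : E × Euc N → E) (pull q om) = pull (fun z => q z.1) om := by
  funext z
  exact pull_comp (f := (Prod.fst : E × Euc N → E)) (g := q) differentiableAt_fst (hq _)

end Crest.Agent.R208.AF
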