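import Crest.Agent.R208.AF10

/-! Row 208, block (A2) (helper601).  AF11: `∫_{N4} (λ₃-λ₀)(λ₂-λ₀)(λ₁-λ₀) w = c³ ∫_{US} w`. -/

set_option autoImplicit false
set_option linter.unusedSectionVars false
set_option linter.unusedVariables false

open MeasureTheory Set Filter Topology Module
open scoped ContDiff RealInnerProductSpace
open Crest.GeometryTopology.Submanifold
open Crest.Agent.R241.DDefs
open Crest.Agent.R241.D2
open Crest.Agent.R208.F Crest.Agent.R208.FI Crest.Agent.R208.CW Crest.Agent.R208.T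
open Crest.Agent.R208.FG (OSubm)
open Crest.Agent.R208.SB (OPr oV)
open Crest.Agent.R208.L (US)
open Crest.Agent.R208.FV (phi PVB up dn)
open Crest.Agent.R208.KG (N2 N3 N4)

noncomputable section

namespace Crest.Agent.R208.AF

variable {n N r d : ℕ} {κ : ℝ} {S : Set (Euc N)} {G : Geo n N κ S} {c : ℝ}
  {oP : Euc N × Euc N → Ext (Euc N)} {lm : Euc N × Euc N → Ext (Euc N × Euc N)}
  (h : GT.Bla G (r + 1)) (hoP : OPr (GT.FF S) (r + 1) (PVB h) oP)

/-- the four projections of `N4` to `US`, with the orientation of the arcs -/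
def pr4 : Fin 4 → (((Euc N × Euc N) × Euc N) × Euc N) × Euc N → Euc N × Euc N :=
  ![fun z => z.1.1.1, fun z => ar (fun z => z) (-1) z.1.1, fun z => ar (fun z => z.1) 1 z.1,
    fun z => ar (fun z => z.1.1) (-1) z]

/-- orientation of `N4` -/
def o4 (G : Geo n N κ S) (oP : Euc N × Euc N → Ext (Euc N))
    (oU : Euc N × Euc N → Ext (Euc N × Euc N)) :
    (((Euc N × Euc N) × Euc N) × Euc N) × Euc N →
      Ext ((((Euc N × Euc N) × Euc N) × Euc N) × Euc N) :=
  oN G oP (fun z => z.1.1) (oN G oP (fun z => z.1) (oN G oP (fun z => z) oU))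

include hoP in
set_option maxHeartbeats 1000000 in
/-- **integration over `N4`** -/
theorem J_N4 {oU : Euc N × Euc N → Ext (Euc N × Euc N)} (L : Lv G d (US G) (fun z => z) oU)
    (ev : Even (r + 1)) (hr : 1 ≤ r)
    {Y : Set (Euc N × Euc N)} {oF : Euc N × Euc N → Ext (Euc N × Euc N)} {d' : ℕ}
    (hW : OSubm r d' (US G) Y (phi G) (oWf G oP) oF) (hl : Sm (US G) lm) (hlr : Hom r lm)
    (hc : ∀ z ∈ US G, J r (US G ∩ phi G ⁻¹' {phi G z}) (oWf G oP) lm = c)
    {w : Euc N × Euc N → Ext (Euc N × Euc N)} (hw : Sm (US G) w) (hd : Hom d w) :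
    J (r + (r + (r + d))) (N4 h) (o4 G oP oU)
      ((pull (pr4 3) lm - pull (pr4 0) lm) * ((pull (pr4 2) lm - pull (pr4 0) lm) *
        ((pull (pr4 1) lm - pull (pr4 0) lm) * pull (pr4 0) w))) =
      c ^ 3 * J d (US G) oU w := by
  have L1 := L.next h hoP hr
  have L2 := L1.next h hoP hr
  have hm : Hom r (mu lm (fun z : Euc N × Euc N => z) (-1)) := (hlr.pull).sub hlr.pull
  have hm2 : Hom r (mu lm (fun z : (Euc N × Euc N) × Euc N => z.1) 1) := (hlr.pull).sub hlr.pull
  -- forms on the levels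
  set w1 : (Euc N × Euc N) × Euc N → Ext ((Euc N × Euc N) × Euc N) :=
    mu lm (fun z => z) (-1) * pull Prod.fst w with hw1
  set w2 : ((Euc N × Euc N) × Euc N) × Euc N → Ext (((Euc N × Euc N) × Euc N) × Euc N) :=
    mu lm (fun z => z.1) 1 * pull Prod.fst w1 with hw2
  have sw1 : Sm (Sph (US G) (PB h fun z => z)) w1 :=
    (sm_mu h L.map (Or.inr rfl) hl).mul
      (hw.pull ⟨fun _ _ => contDiffAt_fst, fun z hz => hz.1.1⟩)
  have sw2 : Sm (Sph (Sph (US G) (PB h fun z => z)) (PB h fun z => z.1)) w2 :=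
    (sm_mu h L1.map (Or.inl rfl) hl).mul
      (sw1.pull ⟨fun _ _ => contDiffAt_fst, fun z hz => hz.1.1⟩)
  have dw1 : Hom (r + d) w1 := hm.mul hd.pull
  have dw2 : Hom (r + (r + d)) w2 := hm2.mul dw1.pull
  have s1 := L.step h hoP (Or.inr rfl) ev hr hW hl hc hw hd
  have s2 := L1.step h hoP (Or.inl rfl) ev hr hW hl hc sw1 dw1
  have s3 := L2.step h hoP (Or.inr rfl) ev hr hW hl hc sw2 dw2
  rw [← hw1] at s1
  rw [← hw2, s1] at s2
  rw [s2] at s3
  have dif0 : Differentiable ℝ (fun z : (Euc N × Euc N) × Euc N => z.1) := by fun_prop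
  have dif1 : Differentiable ℝ (fun z : ((Euc N × Euc N) × Euc N) × Euc N => z.1.1) := by fun_prop
  have dar0 : Differentiable ℝ (ar (fun z : Euc N × Euc N => z) (-1)) := by
    unfold ar; fun_prop
  have dar0' : Differentiable ℝ
      (fun z : ((Euc N × Euc N) × Euc N) × Euc N => ar (fun z : Euc N × Euc N => z) (-1) z.1) :=
    dar0.comp differentiable_fst
  have dar1 : Differentiable ℝ (ar (fun z : (Euc N × Euc N) × Euc N => z.1) 1) := by
    unfold ar; fun_prop
  have key : mu lm (fun z : ((Euc N × Euc N) × Euc N) × Euc N => z.1.1) (-1) * pull Prod.fst w2 =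
      (pull (pr4 3) lm - pull (pr4 0) lm) * ((pull (pr4 2) lm - pull (pr4 0) lm) *
        ((pull (pr4 1) lm - pull (pr4 0) lm) * pull (pr4 0) w)) := by
    have e0 : pull (Prod.fst : (Euc N × Euc N) × Euc N → Euc N × Euc N) w =
      pull (fun z : (Euc N × Euc N) × Euc N => z.1) w := rfl
    have e1 : pull (Prod.fst : ((Euc N × Euc N) × Euc N) × Euc N → (Euc N × Euc N) × Euc N) w1 =
        (pull (fun z => ar (fun z => z) (-1) z.1) lm - pull (fun z => z.1.1) lm) *
          pull (fun z => z.1.1) w := by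
      rw [hw1, pull_mul', mu, pull_sub', pull_fst_pull dar0, pull_fst_pull dif0, e0,
        pull_fst_pull dif0]
    rw [hw2, pull_mul', mu, mu, pull_sub', e1, pull_mul', pull_sub', pull_fst_pull dar1,
      pull_fst_pull dif1, pull_fst_pull dar0', pull_fst_pull dif1]
    rfl
  rw [key] at s3
  have e5 : c * (c * (c * J d (US G) oU w)) = c ^ 3 * J d (US G) oU w := by ring
  rw [← e5]
  exact s3

end Crest.Agent.R208.AF
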