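import Crest.Agent.R208.AF11

/-! Row 208, block (A2) (helper601).  AF12: helper10's flat family of four arcs is a `Four`. -/

set_option autoImplicit false
set_option linter.unusedSectionVars false
set_option linter.unusedVariables false

open MeasureTheory Set Filter Topology Module
open scoped ContDiff RealInnerProductSpace
open Crest.GeometryTopology.Submanifold
open Crest.Agent.R241.DDefs
open Crest.Agent.R241.D2
open Crest.Agent.R241.D3c
open Crest.Agent.R208.F Crest.Agent.R208.FI Crest.Agent.R208.CW Crest.Agent.R208.T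
open Crest.Agent.R208.FG (OSubm)
open Crest.Agent.R208.SB (OPr oV)
open Crest.Agent.R208.L (US)
open Crest.Agent.R208.FV (phi PVB up dn)
open Crest.Agent.R208.KG (N2 N3 N4 nest4 hf sgi idx Km)

noncomputable section

namespace Crest.Agent.R208.AF

variable {n N r d : ℕ} {κ : ℝ} {S : Set (Euc N)} {G : Geo n N κ S} {c ε : ℝ}

/-- the geodesics `s ↦ Exp_p (π s v)` -/
def Gm (G : Geo n N κ S) (z : (Euc N × Euc N) × ℝ) : Euc N :=
  Exp G z.1.1 ((Real.pi * z.2) • z.1.2)

theorem fam_Gm (G : Geo n N κ S) : Fam (US G) S (Gm G) where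
  sm := by
    rintro ⟨p, v⟩ hz t
    have h1 : ContDiffAt ℝ ∞ (fun q : Euc N × Euc N => Exp G q.1 q.2)
        (p, (Real.pi * t) • v) := contDiffAt_Exp G hz.1.1 ((G.T p).smul_mem _ hz.1.2)
    exact ContDiffAt.comp (g := fun q : Euc N × Euc N => Exp G q.1 q.2)
      (f := fun z : (Euc N × Euc N) × ℝ => ((z.1.1, (Real.pi * z.2) • z.1.2) : Euc N × Euc N))
      ((p, v), t) h1 (by fun_prop)
  maps := by
    rintro ⟨p, v⟩ hz t
    exact Exp_mem G hz.1.1 ((G.T p).smul_mem _ hz.1.2)

/-- the flat family on `N4` -/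
def Fm (G : Geo n N κ S) (ε : ℝ) (z : ((((Euc N × Euc N) × Euc N) × Euc N) × Euc N) × ℝ) : Euc N :=
  KG.F G 4 ε (nest4 z.1) 1 z.2

theorem fam_Fm (h : GT.Bla G (r + 1)) (hO : KG.OK G 4 ε) : Fam (N4 h) S (Fm G ε) where
  sm := by
    intro z hz t
    have h1 := KG.F_smooth hO (KG.nest4_mem h hz) ⟨zero_le_one, le_rfl⟩ t
    have h2 : ContDiff ℝ ∞ (fun q : ((((Euc N × Euc N) × Euc N) × Euc N) × Euc N) × ℝ =>
        ((nest4 q.1, (1 : ℝ), q.2) : (Euc N × (Fin 4 → Euc N)) × ℝ × ℝ)) :=
      (KG.contDiff_nest4.comp contDiff_fst).prodMk (contDiff_const.prodMk contDiff_snd)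
    exact ContDiffAt.comp (g := fun q : (Euc N × (Fin 4 → Euc N)) × ℝ × ℝ =>
      KG.F G 4 ε q.1 q.2.1 q.2.2)
      (f := fun q : ((((Euc N × Euc N) × Euc N) × Euc N) × Euc N) × ℝ =>
        ((nest4 q.1, (1 : ℝ), q.2) : (Euc N × (Fin 4 → Euc N)) × ℝ × ℝ)) (z, t) h1 h2.contDiffAt
  maps := fun z hz t => KG.F_mem hO (KG.nest4_mem h hz) ⟨zero_le_one, le_rfl⟩ t

theorem smap_pr4 (h : GT.Bla G (r + 1)) (i : Fin 4) : SMap (N4 h) (US G) (pr4 i) ∧
    ∀ z ∈ N4 h, phi G (pr4 i z) = phi G (pr4 0 z) := by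
  have m0 : SMap (US G) (US G) (fun z => z) := ⟨fun _ _ => contDiffAt_id, fun _ hz => hz⟩
  have m1 := smap_bf h m0
  have m2 := smap_bf h m1
  have m3 := smap_bf h m2
  fin_cases i
  · exact ⟨m3, fun z _ => rfl⟩
  · exact ⟨((smap_ar h m0 (Or.inr rfl)).comp
      (⟨fun _ _ => contDiffAt_fst, fun z hz => hz.1.1⟩ : SMap (N3 h) (N2 h) Prod.fst)).comp
      (⟨fun _ _ => contDiffAt_fst, fun z hz => hz.1.1⟩ : SMap (N4 h) (N3 h) Prod.fst),
      fun z hz => (ar_spec h m0 (Or.inr rfl) (z := z.1.1) hz.1.1.1.1).2⟩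
  · exact ⟨(smap_ar h m1 (Or.inl rfl)).comp
      (⟨fun _ _ => contDiffAt_fst, fun z hz => hz.1.1⟩ : SMap (N4 h) (N3 h) Prod.fst),
      fun z hz => (ar_spec h m1 (Or.inl rfl) (z := z.1) hz.1.1).2⟩
  · exact ⟨smap_ar h m2 (Or.inr rfl), fun z hz => (ar_spec h m2 (Or.inr rfl) (z := z) hz).2⟩

/-- the height function -/
def ht (ε t : ℝ) : ℝ := hf ε (2 * t)

theorem four (h : GT.Bla G (r + 1)) (hO : KG.OK G 4 ε) :
    Four (N4 h) (US G) S (Fm G ε) (Gm G) pr4 (ht ε) (fun t => 2 * deriv (hf ε) (2 * t))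
      (2 * Real.pi) := by
  have hpi := Real.pi_pos
  have hcd := KG.contDiff_hf hO.pos hO.le
  have hε := hO.pos
  have hval : ∀ (j : ℤ) (t : ℝ), t = j * Real.pi → hf ε t = if Even j then 0 else 1 := by
    intro j t ht
    exact KG.hf_near hO.pos hO.le (by rw [ht, sub_self, abs_zero]; linarith)
  have key : ∀ (i : ℤ) (i' : Fin 4) (z) (_ : z ∈ N4 h) (t : ℝ), i * Real.pi ≤ 2 * t →
      2 * t ≤ (i + 1) * Real.pi → idx 4 i = i' →
      (sgi i • (nest4 z).2 i' = (pr4 i' z).2) → (pr4 i' z).1 = z.1.1.1.1 →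
      Fm G ε (z, t) = Gm G (pr4 i' z, ht ε t) := by
    intro i i' z hz t h1 h2 h3 h4 h5
    have h6 := KG.F_hf hO (KG.nest4_mem h hz) (i := i) (α := t)
      (by push_cast; linarith) (by push_cast; linarith)
    show KG.F G 4 ε (nest4 z) 1 t = Exp G (pr4 i' z).1 ((Real.pi * ht ε t) • (pr4 i' z).2)
    have h7 : ((4 : ℕ) : ℝ) / 2 * t = 2 * t := by push_cast; ring
    rw [h6, h3, h4, h5, h7]
    rfl
  exact
    { pos := by linarith
      hF := fam_Fm h hO
      hG := fam_Gm G
      hpr := fun i => (smap_pr4 h i).1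
      hh := by
        intro t
        have h1 : HasDerivAt (hf ε) (deriv (hf ε) (2 * t)) (2 * t) :=
          ((hcd.differentiable (by simp)) _).hasDerivAt
        have h2 : HasDerivAt (fun t : ℝ => 2 * t) 2 t := by
          simpa using (hasDerivAt_id t).const_mul 2
        have h3 := h1.comp t h2
        rw [mul_comm] at h3
        exact h3
      ch := by
        have := hcd.continuous_deriv (by simp)
        fun_prop
      h0 := by
        show hf ε (2 * 0) = 0
        rw [hval 0 _ (by simp)]; simp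
      h1 := by
        show hf ε (2 * (2 * Real.pi / 4)) = 1
        rw [hval 1 _ (by push_cast; ring)]; simp
      h2 := by
        show hf ε (2 * (2 * Real.pi / 2)) = 0
        rw [hval 2 _ (by push_cast; ring)]; simp
      h3 := by
        show hf ε (2 * (3 * (2 * Real.pi) / 4)) = 1
        rw [hval 3 _ (by push_cast; ring), if_neg (by decide)]
      h4 := by
        show hf ε (2 * (2 * Real.pi)) = 0
        rw [hval 4 _ (by push_cast; ring), if_pos (by decide)]
      per := fun z hz t => KG.F_per t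
      e0 := fun z hz t ht => by
        refine key 0 0 z hz t ?_ ?_ (by decide) ?_ rfl
        · push_cast; linarith [ht.1]
        · push_cast; linarith [ht.2]
        · simp only [sgi]; rw [if_pos (by decide), one_smul]; rfl
      e1 := fun z hz t ht => by
        refine key 1 1 z hz t ?_ ?_ (by decide) ?_ rfl
        · push_cast; linarith [ht.1]
        · push_cast; linarith [ht.2]
        · simp only [sgi]; rw [if_neg (by decide)]; rfl
      e2 := fun z hz t ht => by
        refine key 2 2 z hz t ?_ ?_ (by decide) ?_ rfl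
        · push_cast; linarith [ht.1]
        · push_cast; linarith [ht.2]
        · simp only [sgi]; rw [if_pos (by decide)]; rfl
      e3 := fun z hz t ht => by
        refine key 3 3 z hz t ?_ ?_ (by decide) ?_ rfl
        · push_cast; linarith [ht.1]
        · push_cast; linarith [ht.2]
        · simp only [sgi]; rw [if_neg (by decide)]; rfl }

end Crest.Agent.R208.AF
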