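import Crest.Agent.R208.AF12

/-! Row 208, block (A2) (helper601).  AF13: vertical vectors on `N4`; the integral of `ψ * y` over
helper10's flat family is `-3 c³ (2π)⁻² ∫_{US} x y`. -/

set_option autoImplicit false
set_option linter.unusedSectionVars false
set_option linter.unusedVariables false

open MeasureTheory Set Filter Topology Module
open scoped ContDiff RealInnerProductSpace
open Crest.GeometryTopology.Submanifold
open Crest.Agent.R241.DDefs
open Crest.Agent.R241.D2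
open Crest.Agent.R241.D3c
open Crest.Agent.R208.F Crest.Agent.R208.FI Crest.Agent.R208.CW Crest.Agent.R208.T
open Crest.Agent.R208.FG (OSubm)
open Crest.Agent.R208.SB (OPr oV)
open Crest.Agent.R208.L (US)
open Crest.Agent.R208.FV (phi PVB up dn)
open Crest.Agent.R208.KG (N2 N3 N4 nest4 hf sgi idx Km)

noncomputable section

namespace Crest.Agent.R208.AF

variable {n N r d : ℕ} {κ : ℝ} {S : Set (Euc N)} {G : Geo n N κ S} {c ε : ℝ}

section vert
variable {E : Type*} [NormedAddCommGroup E] [NormedSpace ℝ E] [FiniteDimensional ℝ E]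
  {X : Set E} {b : E → Euc N × Euc N}

/-- a nonzero vertical vector -/
theorem exists_vert (h : GT.Bla G (r + 1)) (hX : Sub d X) (hb : SMap X (US G) b) (hr : 1 ≤ r)
    {z : E × Euc N} (hz : z ∈ Sph X (PB h b)) :
    ∃ a : Euc N, a ≠ 0 ∧ ((0 : E), a) ∈ Tan (Sph X (PB h b)) z := by
  obtain ⟨x, v⟩ := z
  have hP := pfield_PB h hb
  obtain ⟨e, he, hve, hon, -⟩ := SB.exists_cons_frame
    (V := LinearMap.range (PB h b x : Euc N →ₗ[ℝ] Euc N)) (hP.rank x hz.1.1) ⟨v, hz.1.2⟩ hz.2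
  refine ⟨e ⟨0, by omega⟩, hon.ne_zero _, (SB.vert_mem_Sph hX hP hz).2 ⟨?_, hve _⟩⟩
  obtain ⟨w, hw⟩ := he ⟨0, by omega⟩
  have hw' : PB h b x w = e ⟨0, by omega⟩ := hw
  rw [← hw', hP.idem x hz.1.1]

/-- lifting a vector along which the link does not move -/
theorem lift_vert (h : GT.Bla G (r + 1)) (hX : Sub d X) (hb : SMap X (US G) b)
    {z : E × Euc N} (hz : z ∈ Sph X (PB h b)) {u : E} (hu : u ∈ Tan X z.1)
    (hu0 : fderiv ℝ b z.1 u = 0) : (u, (0 : Euc N)) ∈ Tan (Sph X (PB h b)) z := by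
  obtain ⟨x, v⟩ := z
  have hP := pfield_PB h hb
  refine (SB.mem_Tan_Sph hX hP hz).2 ⟨hu, ?_, inner_zero_right _⟩
  have hx : x ∈ X := hz.1.1
  have h1 : HasFDerivAt (fun z : Euc N × Euc N => PVB h (phi G z))
      (fderiv ℝ (fun z : Euc N × Euc N => PVB h (phi G z)) (b x)) (b x) := by
    have := ((FV.pfield_PVB h).smooth _ ((smap_phi h).maps (hb.maps hx))).comp (b x)
      ((smap_phi h).smooth _ (hb.maps hx))
    exact (this.differentiableAt (by simp)).hasFDerivAt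
  have h2 : HasFDerivAt (PB h b) ((fderiv ℝ (fun z : Euc N × Euc N => PVB h (phi G z)) (b x)).comp
      (fderiv ℝ b x)) x := h1.comp x (hb.diff hx).hasFDerivAt
  rw [h2.fderiv, ContinuousLinearMap.comp_apply, hu0]
  simp

end vert

/-- the spaces -/
abbrev E4 (N : ℕ) := (((Euc N × Euc N) × Euc N) × Euc N) × Euc N

/-- linear version of `pr4` -/
def prL (N : ℕ) : Fin 4 → E4 N →L[ℝ] Euc N × Euc N :=
  let f3 := ContinuousLinearMap.fst ℝ (((Euc N × Euc N) × Euc N) × Euc N) (Euc N)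
  let f2 := (ContinuousLinearMap.fst ℝ ((Euc N × Euc N) × Euc N) (Euc N)).comp f3
  let f1 := (ContinuousLinearMap.fst ℝ (Euc N × Euc N) (Euc N)).comp f2
  let f0 := (ContinuousLinearMap.fst ℝ (Euc N) (Euc N)).comp f1
  ![f1, f0.prod ((-1 : ℝ) • (ContinuousLinearMap.snd ℝ (Euc N × Euc N) (Euc N)).comp f2),
    f0.prod ((1 : ℝ) • (ContinuousLinearMap.snd ℝ ((Euc N × Euc N) × Euc N) (Euc N)).comp f3),
    f0.prod ((-1 : ℝ) • ContinuousLinearMap.snd ℝ (((Euc N × Euc N) × Euc N) × Euc N) (Euc N))]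

theorem prL_eq (i : Fin 4) : (pr4 i : E4 N → Euc N × Euc N) = prL N i := by
  fin_cases i <;> rfl

theorem fderiv_pr4 (i : Fin 4) (z u : E4 N) : fderiv ℝ (pr4 i) z u = pr4 i u := by
  rw [prL_eq, ContinuousLinearMap.fderiv]

theorem exists_v (h : GT.Bla G (r + 1)) (hd : d + 1 = 2 * n) (hr : 1 ≤ r) :
    ∃ v : Fin 4 → E4 N → E4 N, (∀ j, j ≠ 0 → ∀ x ∈ N4 h, v j x ∈ Tan (N4 h) x) ∧
      (∀ j, j ≠ 0 → ∀ x ∈ N4 h, v j x ≠ 0) ∧
      ∀ i j, j ≠ 0 → i ≠ j → ∀ x ∈ N4 h, fderiv ℝ (pr4 i) x (v j x) = 0 := by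
  classical
  have c1 : Clo d (US G) := SB.clo_US h hd
  have m0 : SMap (US G) (US G) (fun z => z) := ⟨fun _ _ => contDiffAt_id, fun _ hz => hz⟩
  have m1 := smap_bf h m0
  have m2 := smap_bf h m1
  have c2 := SB.clo_Sph c1 (pfield_PB h m0)
  have c3 := SB.clo_Sph c2 (pfield_PB h m1)
  have f1 : ∀ (z u : (Euc N × Euc N) × Euc N), fderiv ℝ (fun z : (Euc N × Euc N) × Euc N => z.1) z u
      = u.1 := fun z u => by
    have : HasFDerivAt (fun z : (Euc N × Euc N) × Euc N => z.1)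
      (ContinuousLinearMap.fst ℝ (Euc N × Euc N) (Euc N)) z := hasFDerivAt_fst
    rw [this.fderiv]; rfl
  have f2 : ∀ (z u : ((Euc N × Euc N) × Euc N) × Euc N),
      fderiv ℝ (fun z : ((Euc N × Euc N) × Euc N) × Euc N => z.1.1) z u = u.1.1 := fun z u => by
    have : HasFDerivAt (fun z : ((Euc N × Euc N) × Euc N) × Euc N => z.1.1)
      ((ContinuousLinearMap.fst ℝ (Euc N × Euc N) (Euc N)).comp
        (ContinuousLinearMap.fst ℝ ((Euc N × Euc N) × Euc N) (Euc N))) z :=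
      hasFDerivAt_fst.comp z hasFDerivAt_fst
    rw [this.fderiv]; rfl
  have key : ∀ j : Fin 4, j ≠ 0 → ∀ x ∈ N4 h, ∃ u : E4 N, u ∈ Tan (N4 h) x ∧ u ≠ 0 ∧
      ∀ i, i ≠ j → pr4 i u = 0 := by
    intro j hj x hx
    have x3 : x.1 ∈ Sph (Sph (US G) (PB h fun z => z)) (PB h fun z => z.1) := hx.1.1
    have x2 : x.1.1 ∈ Sph (US G) (PB h fun z => z) := x3.1.1
    fin_cases j
    · exact absurd rfl hj
    · obtain ⟨a, ha, hT⟩ := exists_vert h c1.sub m0 hr x2
      have h3 := lift_vert h c2.sub m1 x3 hT (f1 _ _)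
      have h4 := lift_vert h c3.sub m2 hx h3 (f2 _ _)
      refine ⟨((((0 : Euc N × Euc N), a), 0), 0), h4, fun h0 => ha ?_, fun i hi => ?_⟩
      · exact congrArg (fun u : E4 N => u.1.1.2) h0
      · fin_cases i
        · rfl
        · exact absurd rfl hi
        · show ((0 : Euc N), (1 : ℝ) • (0 : Euc N)) = 0
          rw [smul_zero]; rfl
        · show ((0 : Euc N), (-1 : ℝ) • (0 : Euc N)) = 0
          rw [smul_zero]; rfl
    · obtain ⟨a, ha, hT⟩ := exists_vert h c2.sub m1 hr x3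
      have h4 := lift_vert h c3.sub m2 hx hT (f2 _ _)
      refine ⟨(((0 : (Euc N × Euc N) × Euc N), a), 0), h4, fun h0 => ha ?_, fun i hi => ?_⟩
      · exact congrArg (fun u : E4 N => u.1.2) h0
      · fin_cases i
        · rfl
        · show ((0 : Euc N), (-1 : ℝ) • (0 : Euc N)) = 0
          rw [smul_zero]; rfl
        · exact absurd rfl hi
        · show ((0 : Euc N), (-1 : ℝ) • (0 : Euc N)) = 0
          rw [smul_zero]; rfl
    · obtain ⟨a, ha, hT⟩ := exists_vert h c3.sub m2 hr hx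
      refine ⟨((0 : ((Euc N × Euc N) × Euc N) × Euc N), a), hT, fun h0 => ha ?_, fun i hi => ?_⟩
      · exact congrArg (fun u : E4 N => u.2) h0
      · fin_cases i
        · rfl
        · show ((0 : Euc N), (-1 : ℝ) • (0 : Euc N)) = 0
          rw [smul_zero]; rfl
        · show ((0 : Euc N), (1 : ℝ) • (0 : Euc N)) = 0
          rw [smul_zero]; rfl
        · exact absurd rfl hi
  choose! v hv using key
  refine ⟨v, fun j hj x hx => (hv j hj x hx).1, fun j hj x hx => (hv j hj x hx).2.1,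
    fun i j hj hij x hx => ?_⟩
  rw [fderiv_pr4]
  exact (hv j hj x hx).2.2 i hij

end Crest.Agent.R208.AF
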