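import Crest.Agent.R208.AF13

/-! Row 208, block (A2) (helper601).  AF14: the integral of `ψ * y` over helper10's flat family
is `-3 c³ (2π)⁻² ∫_{US} x y`. -/

set_option autoImplicit false
set_option linter.unusedSectionVars false
set_option linter.unusedVariables false

open MeasureTheory Set Filter Topology Module
open scoped ContDiff RealInnerProductSpace
open Crest.GeometryTopology.Submanifold
open Crest.Agent.R241.DDefs
open Crest.Agent.R241.D2
open Crest.Agent.R241.D3c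
open Crest.Agent.R208.F Crest.Agent.R208.FI Crest.Agent.R208.CW Crest.Agent.R208.T
open Crest.Agent.R208.FG (OSubm)
open Crest.Agent.R208.SB (OPr oV)
open Crest.Agent.R208.L (US)
open Crest.Agent.R208.FV (phi PVB up dn)
open Crest.Agent.R208.KG (N2 N3 N4 nest4 hf sgi idx Km)

noncomputable section

namespace Crest.Agent.R208.AF

section deg
variable {E₁ : Type*} [NormedAddCommGroup E₁] [NormedSpace ℝ E₁] [FiniteDimensional ℝ E₁]
  {E' : Type*} [NormedAddCommGroup E'] [NormedSpace ℝ E'] [FiniteDimensional ℝ E']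
  {G : E₁ × ℝ → E'} {om : E' → Ext E'} {r : ℕ}

theorem isDeg_xiF (h : Hom (r + 1) om) (p : E₁ × ℝ) : IsDeg r (xiF G om p) := by
  rw [xiF_eq]
  exact ((h _).ii _).pb _

theorem hom_lam (h : Hom (r + 1) om) : Hom r (lam G om) := by
  intro z
  show IsDeg r (∫ t in (0 : ℝ)..1, xiF G om (z, t))
  rw [intervalIntegral]
  have h1 : ∀ a b : ℝ, IsDeg r (∫ t in Ioc a b, xiF G om (z, t)) := fun a b =>
    isDeg_integral _ fun t => isDeg_xiF h _
  exact fun q hq => by rw [map_sub, h1 0 1 q hq, h1 1 0 q hq, sub_zero]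

theorem hom_WF (h : Hom (r + 1) om) (c : ℝ) : Hom (r + 1) (fun z => WF G om (z, c)) :=
  fun z => (h _).pb _

end deg

variable {n N r d e : ℕ} {κ : ℝ} {S : Set (Euc N)} {G : Geo n N κ S} {c ε : ℝ}
  {om : Euc N → Ext (Euc N)} {oP : Euc N × Euc N → Ext (Euc N)}
  {y oU : Euc N × Euc N → Ext (Euc N × Euc N)}

theorem Gm_zero {z : Euc N × Euc N} (hz : z ∈ US G) : Gm G (z, 0) = z.1 := by
  unfold Gm
  rw [mul_zero, zero_smul]
  exact Exp_zero G hz.1.1

theorem Gm_one (z : Euc N × Euc N) : Gm G (z, 1) = (phi G z).2 := by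
  unfold Gm phi
  rw [mul_one]

theorem diff_Gm (t : ℝ) : ∀ z ∈ US G, DifferentiableAt ℝ (fun z => Gm G (z, t)) z := fun z hz =>
  (((fam_Gm G).sm z hz t).comp z (contDiffAt_id.prodMk contDiffAt_const)).differentiableAt (by simp)

theorem W0_eqv : Eqv (US G) (fun z => WF (Gm G) om (z, 0)) (pull Prod.fst om) := by
  have h1 := eqv_pull_of_eq (X := US G) (f := fun z => Gm G (z, 0))
    (g := (Prod.fst : Euc N × Euc N → Euc N)) om (diff_Gm 0) (fun z _ => differentiableAt_fst)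
    (fun z hz => Gm_zero hz)
  exact h1

/-- `d λ = φ^*(x₂ - x₁)` -/
theorem dlam_phi (h : GT.Bla G (r + 1)) (hs : Sm S om) (hc : Cl S om) :
    Eqv (US G) (F.d (lam (Gm G) om)) (pull (phi G) (pull Prod.snd om - pull Prod.fst om)) := by
  refine (d_lam (fam_Gm G) hs hc).trans ?_
  rw [pull_sub']
  have hphi := smap_phi h
  refine Eqv.sub ?_ ?_
  · refine (Eqv.of_eq fun z hz => ?_ : Eqv (US G) _ _)
    have h1 := pull_comp (f := phi G) (g := Prod.snd) (om := om) (hphi.diff hz)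
      differentiableAt_snd
    rw [h1]
    have h2 : (fun z => Gm G (z, 1)) = Prod.snd ∘ phi G := funext fun z => Gm_one z
    show pull (fun z => Gm G (z, 1)) om z = _
    rw [h2]
  · refine W0_eqv.trans ?_
    have h0 : ∀ z ∈ US G, pull (phi G) (pull Prod.fst om) z = pull (Prod.fst ∘ phi G) om z :=
      fun z hz => pull_comp (f := phi G) (g := Prod.fst) (om := om) (hphi.diff hz)
        differentiableAt_fst
    exact (Eqv.of_eq h0).symm

/-- `∫ (2 a + b) y = 3 ∫ x y` -/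
theorem J_end (L : Lv G d (US G) (fun z => z) oU) (hs : Sm S om) (hc : Cl S om)
    (sy : Sm (US G) y) (cy : Cl (US G) y) :
    J d (US G) oU (((2 : ℝ) • (fun z => WF (Gm G) om (z, 0)) + fun z => WF (Gm G) om (z, 1)) * y) =
      3 * J d (US G) oU (pull Prod.fst om * y) := by
  have hG := fam_Gm G
  have sW : ∀ c : ℝ, Sm (US G) (fun z => WF (Gm G) om (z, c)) := fun c z hz =>
    (hG.smF_W hs).slice hz c
  have sl := sm_lam hG hs
  have sf : Sm (US G) (pull Prod.fst om) := hs.pull ⟨fun _ _ => contDiffAt_fst, fun z hz => hz.1.1⟩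
  have h1 : Eqv (US G) (F.d (lam (Gm G) om * y))
      (((fun z => WF (Gm G) om (z, 1)) - fun z => WF (Gm G) om (z, 0)) * y) := by
    refine (d_mul_eqv sl sy).trans ?_
    have h2 := ((d_lam hG hs hc).mul (Eqv.refl y)).add
      ((Eqv.refl (fun x => inv (lam (Gm G) om x))).mul (resZero_iff.1 cy))
    rwa [mul_zero, add_zero] at h2
  have h3 : Nu d (US G) oU
      (((fun z => WF (Gm G) om (z, 1)) - fun z => WF (Gm G) om (z, 0)) * y) :=
    Nu.of_eqv L.clo (((sW 1).sub (sW 0)).mul sy) h1.symm (Nu.dd L.clo L.ori (sl.mul sy))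
  have h4 : Eqv (US G)
      (((2 : ℝ) • (fun z => WF (Gm G) om (z, 0)) + fun z => WF (Gm G) om (z, 1)) * y)
      ((3 : ℝ) • (pull Prod.fst om * y) +
        ((fun z => WF (Gm G) om (z, 1)) - fun z => WF (Gm G) om (z, 0)) * y) := by
    have e1 : ((2 : ℝ) • (fun z => WF (Gm G) om (z, 0)) + fun z => WF (Gm G) om (z, 1)) * y =
        ((3 : ℝ) • ((fun z => WF (Gm G) om (z, 0)) * y)) +
        ((fun z => WF (Gm G) om (z, 1)) - fun z => WF (Gm G) om (z, 0)) * y := by
      rw [show (3 : ℝ) = 2 + 1 by norm_num, add_smul, one_smul, add_mul, sub_mul, smul_mul_assoc]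
      abel
    rw [e1]
    exact ((W0_eqv.mul (Eqv.refl y)).smul 3).add (Eqv.refl _)
  rw [J_eqv L.clo h4, J_add' L.clo L.ori ((sf.mul sy).smul 3) h3.1, h3.2, add_zero, J_smul']

/-- **the integral over the flat family** -/
theorem J_flat (h : GT.Bla G (r + 1)) (hO : KG.OK G 4 ε)
    (hoP : OPr (GT.FF S) (r + 1) (PVB h) oP) (hd : d + 1 = 2 * n)
    (L : Lv G d (US G) (fun z => z) oU) (ev : Even (r + 1)) (hr : 1 ≤ r)
    {Y : Set (Euc N × Euc N)} {oF : Euc N × Euc N → Ext (Euc N × Euc N)} {d' : ℕ}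
    (hW : OSubm r d' (US G) Y (phi G) (oWf G oP) oF)
    (hs : Sm S om) (hcl : Cl S om) (hom : Hom (r + 1) om)
    (hc : ∀ z ∈ US G, J r (US G ∩ phi G ⁻¹' {phi G z}) (oWf G oP) (lam (Gm G) om) = c)
    (sy : Sm (US G) y) (cy : Cl (US G) y) (dy : Hom e y) (hed : r + 1 + e = d) :
    (2 * Real.pi) ^ 2 * J (r + (r + (r + d))) (N4 h) (o4 G oP oU)
      (psiK (2 * Real.pi) (WF (Fm G ε) om) (xiF (Fm G ε) om) * pull (pr4 0) y) =
      -(3 * c ^ 3 * J d (US G) oU (pull Prod.fst om * y)) := by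
  have w := four h hO
  obtain ⟨v, vT, v0, hv⟩ := exists_v h hd hr
  have L1 := L.next h hoP hr
  have L2 := L1.next h hoP hr
  have L3 := L2.next h hoP hr
  have hK : Clo (r + (r + (r + d))) (N4 h) := L3.clo
  have ho : Ori (r + (r + (r + d))) (N4 h) (o4 G oP oU) := L3.ori
  have he : ∀ y, inv (om y) = om y := by
    intro y
    obtain ⟨j, hj⟩ := ev
    exact inv_of_isDeg (j := j) (by rw [← two_mul] at hj; rw [← hj]; exact hom y)
  have h1 : ∀ i, ∀ x ∈ N4 h, (pr4 i x).1 = (pr4 0 x).1 := by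
    intro i x hx
    fin_cases i <;> rfl
  have hp0 : ∀ i, ∀ x ∈ N4 h, Gm G (pr4 i x, 0) = Gm G (pr4 0 x, 0) := by
    intro i x hx
    show Exp G (pr4 i x).1 ((Real.pi * 0) • (pr4 i x).2) =
      Exp G (pr4 0 x).1 ((Real.pi * 0) • (pr4 0 x).2)
    rw [mul_zero, zero_smul, zero_smul, h1 i x hx]
  have hp1 : ∀ i, ∀ x ∈ N4 h, Gm G (pr4 i x, 1) = Gm G (pr4 0 x, 1) := by
    intro i x hx
    rw [Gm_one, Gm_one, (smap_pr4 h i).2 x hx]
  have h2 := w.J_psi hs hcl he hK ho hp0 hp1 vT v0 hv sy cy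
  rw [h2]
  congr 1
  set lm := lam (Gm G) om with hlm
  set W : Euc N × Euc N → Ext (Euc N × Euc N) :=
    ((2 : ℝ) • (fun z => WF (Gm G) om (z, 0)) + fun z => WF (Gm G) om (z, 1)) * y with hWd
  have sW : ∀ c : ℝ, Sm (US G) (fun z => WF (Gm G) om (z, c)) := fun c z hz =>
    ((fam_Gm G).smF_W hs).slice hz c
  have sWd : Sm (US G) W := (((sW 0).smul 2).add (sW 1)).mul sy
  have dWd : Hom d W := by
    rw [← hed]
    exact (((hom_WF hom 0).smul 2).add (hom_WF hom 1)).mul dy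
  have e1 : ((2 : ℝ) • pull (pr4 0) (fun z => WF (Gm G) om (z, 0)) +
      pull (pr4 0) (fun z => WF (Gm G) om (z, 1))) * pull (pr4 0) y = pull (pr4 0) W := by
    rw [hWd, pull_mul', pull_add', pull_smul']
  rw [e1, J_N4 h hoP L ev hr hW (sm_lam (fam_Gm G) hs) (hom_lam hom) hc sWd dWd, hWd,
    J_end L hs hcl sy cy]
  ring

end Crest.Agent.R208.AF
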