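import Crest.Agent.R208.VC5

/-! Row 208, block VC (helper997), part VC6: complements.  `d` commutes with averaging, closed forms
are cohomologous to their averages (explicit primitive), integral formulas for `Av`, `ι YY`, `Λ`. -/

set_option autoImplicit false
set_option linter.unusedSectionVars false
set_option linter.unusedVariables false

open MeasureTheory Set Filter Topology Module
open scoped ContDiff
open Crest.Agent.R208.F Crest.Agent.R208.FI Crest.Agent.R208.CW Crest.Agent.R208.T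
open Crest.Agent.R208.CM (Cir gen)

noncomputable section

namespace Crest.Agent.R208.VC

/-! ### one orbit -/
section curve
variable {T : Type*} [NormedAddCommGroup T] [NormedSpace ℝ T] [FiniteDimensional ℝ T]
  {V : T} {w L : ℝ → Ext T}

theorem ii_LAM (V : T) (hw : Continuous w) (s : ℝ) : ii V (LAM V w s) = 0 := by
  rw [LAM_eq V hw, ii_ii]

/-- `ι YY` as an integral -/
theorem ii_YA (V : T) (hw : Continuous w) (he : ∀ s, F.inv (w s) = w s) :
    ii V (YA V w) = ∫ s in (0 : ℝ)..1, ((2 : ℝ) • (w s * ii V (w s)) + ii V (MM w) * w s +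
      MM w * ii V (w s)) * LAM V w s := by
  have h1 : ii V (YA V w) = ∫ s in (0 : ℝ)..1, ii V ((w s * w s + MM w * w s) * LAM V w s) :=
    ((iiL V).intervalIntegral_comp_comm ((continuous_int V hw).intervalIntegrable 0 1)).symm
  rw [h1]
  refine intervalIntegral.integral_congr fun s _ => ?_
  have hM := inv_MM hw he
  have h2 : ii V (w s) * w s = w s * ii V (w s) := (even_comm (he s) _).symm
  have h3 : ii V ((w s * w s + MM w * w s) * LAM V w s) = ii V (w s * w s + MM w * w s) * LAM V w s := by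
    rw [ii_mul, ii_LAM V hw, mul_zero, add_zero]
  have h4 : ii V (w s * w s + MM w * w s) = (2 : ℝ) • (w s * ii V (w s)) + ii V (MM w) * w s +
      MM w * ii V (w s) := by
    rw [map_add, ii_mul, ii_mul, he s, hM, h2, two_smul]
    abel
  show ii V ((w s * w s + MM w * w s) * LAM V w s) = _
  rw [h3, h4]

theorem ftc_prim {D : ℝ → Ext T} (hL : Continuous L) (hD : Continuous D)
    (hd : ∀ t, HasDerivAt L ((2 * Real.pi) • D t) t) :
    ∫ t in (0 : ℝ)..1, (2 * Real.pi * (1 - t)) • D t = (∫ t in (0 : ℝ)..1, L t) - L 0 :=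
  ftc_aux hL hD hd

/-- `Λ_s = ∫_0^1 L(s+τ) dτ - L(s)` for every primitive `L' = 2π ι_V w` -/
theorem LAM_prim (V : T) (hw : Continuous w)
    (hd : ∀ t, HasDerivAt L ((2 * Real.pi) • ii V (w t)) t) (s : ℝ) :
    LAM V w s = (∫ τ in (0 : ℝ)..1, L (s + τ)) - L s := by
  have hL : Continuous L := continuous_iff_continuousAt.2 fun t => (hd t).continuousAt
  have h1 := ftc_aux (w := fun t => L (s + t)) (D := fun t => ii V (w (s + t)))
    (hL.comp (by fun_prop)) ((continuous_ii V hw).comp (by fun_prop))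
    (fun t => HasDerivAt.comp_const_add s t (hd (s + t)))
  rw [add_zero] at h1
  exact h1

/-- `Λ_s = ∫_0^1 L - L(s) + s (L 1 - L 0)` for periodic `w` -/
theorem LAM_prim' (V : T) (hw : Continuous w) (hp : Function.Periodic w 1)
    (hd : ∀ t, HasDerivAt L ((2 * Real.pi) • ii V (w t)) t) (s : ℝ) :
    LAM V w s = (∫ τ in (0 : ℝ)..1, L τ) - L s + s • (L 1 - L 0) := by
  have hL : Continuous L := continuous_iff_continuousAt.2 fun t => (hd t).continuousAt
  -- the increment over one period is constant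
  have e1 : ∀ t, L (t + 1) - L t = L 1 - L 0 := by
    intro t
    have h1 : ∀ t, HasDerivAt (fun t => L (t + 1) - L t) 0 t := fun t => by
      have h2 := (HasDerivAt.comp_add_const t 1 (hd (t + 1))).sub (hd t)
      rw [hp t, sub_self] at h2
      exact h2
    have h3 := is_const_of_deriv_eq_zero (f := fun t => L (t + 1) - L t)
      (fun t => (h1 t).differentiableAt) (fun t => (h1 t).deriv) t 0
    simp only [zero_add] at h3
    exact h3
  have e2 : ∀ s, HasDerivAt (fun s => (∫ τ in (0 : ℝ)..1, L (s + τ)) - s • (L 1 - L 0)) 0 s := by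
    intro s
    have h1 : (fun s => ∫ τ in (0 : ℝ)..1, L (s + τ)) =
        fun s => (∫ τ in (0 : ℝ)..(s + 1), L τ) - ∫ τ in (0 : ℝ)..s, L τ := by
      funext s
      rw [intervalIntegral.integral_comp_add_left (fun τ => L τ) s, add_zero]
      exact (intervalIntegral.integral_interval_sub_left (hL.intervalIntegrable _ _)
        (hL.intervalIntegrable _ _)).symm
    have h2 : ∀ u, HasDerivAt (fun u => ∫ τ in (0 : ℝ)..u, L τ) (L u) u := fun u =>
      intervalIntegral.integral_hasDerivAt_right (hL.intervalIntegrable _ _)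
        (hL.stronglyMeasurableAtFilter volume (𝓝 u)) hL.continuousAt
    have h3 : HasDerivAt (fun s => (∫ τ in (0 : ℝ)..(s + 1), L τ) - ∫ τ in (0 : ℝ)..s, L τ)
        (L (s + 1) - L s) s := (HasDerivAt.comp_add_const s 1 (h2 (s + 1))).sub (h2 s)
    rw [← h1, e1 s] at h3
    have h4 : HasDerivAt (fun s : ℝ => s • (L 1 - L 0)) ((1 : ℝ) • (L 1 - L 0)) s :=
      (hasDerivAt_id s).smul_const _
    have h5 := h3.sub h4
    rw [one_smul, sub_self] at h5
    exact h5
  have e3 := is_const_of_deriv_eq_zero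
    (f := fun s => (∫ τ in (0 : ℝ)..1, L (s + τ)) - s • (L 1 - L 0))
    (fun t => (e2 t).differentiableAt) (fun t => (e2 t).deriv) s 0
  simp only [zero_add, zero_smul, sub_zero] at e3
  rw [LAM_prim V hw hd, sub_eq_iff_eq_add.1 e3]
  abel

end curve

/-! ### fields -/

universe u v
variable {E : Type u} [NormedAddCommGroup E] [NormedSpace ℝ E] [FiniteDimensional ℝ E]
  {m : ℕ} {X : Set E} {φ : ℝ → E → E} {a b : E → Ext E} {x : E}

/-- `Av φ b x = (1/2π) ∫_0^{2π} (φ_t^* b)(x) dt` -/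
theorem Av_integral (h : Act X φ) (b : E → Ext E) (hx : x ∈ X) :
    Av φ b x = (2 * Real.pi)⁻¹ • ∫ t in (0 : ℝ)..(2 * Real.pi), F.pull (φ t) b x := by
  have h1 := intervalIntegral.integral_comp_mul_left (fun t => F.pull (φ t) b x)
    (c := 2 * Real.pi) (a := 0) (b := 1) (by positivity)
  rw [mul_zero, mul_one] at h1
  rw [← h1, Av, I1]
  exact intervalIntegral.integral_congr fun t _ => Wn_eq h hx t

theorem rs_Wn_d (h : Act X φ) (hX : Sub m X) (ha : Sm X a) (hx : x ∈ X) (s : ℝ) :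
    rsL X x (F.d (fun y => Wn φ a (y, s)) x) = rsL X x (Wn φ (F.d a) (x, s)) := by
  have h1 : Eqv X (F.d (fun y => Wn φ a (y, s))) (F.d (F.pull (φ (2 * Real.pi * s)) a)) :=
    Eqv.d hX ((smT_Wn h ha).slice s) (ha.pull (smap h _)) (eqv_Wn h s)
  have h2 : Eqv X (F.d (F.pull (φ (2 * Real.pi * s)) a)) (F.pull (φ (2 * Real.pi * s)) (F.d a)) :=
    d_pull_eqv (smap h _) ha
  exact eqv_iff.1 ((h1.trans h2).trans (eqv_Wn h s).symm) x hx

/-- **`d` commutes with averaging** -/
theorem d_Av (h : Act X φ) (hX : Sub m X) (ha : Sm X a) :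
    Eqv X (F.d (Av φ a)) (Av φ (F.d a)) := eqv_iff.2 fun x hx => by
  have h1 := rs_d_I1 (smT_Wn h ha) hx
  have h2 := rs_Av h ha.d hx
  rw [rsL_apply] at h1 h2
  rw [Av, h1, h2, MM]
  exact intervalIntegral.integral_congr fun s _ => rs_Wn_d h hX ha hx s

/-- the primitive of `Av b - b` -/
def La (φ : ℝ → E → E) (b : E → Ext E) (y : E) : Ext E := Lf φ b (y, 0)

theorem sm_La (h : Act X φ) (hb : Sm X b) : Sm X (La φ b) := (smT_Lf h hb).slice 0

theorem cv_zero (h : Act X φ) (hx : x ∈ X) : cv X φ b x 0 = rsL X x (b x) := by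
  rw [cv, Wn_eq h hx, mul_zero]
  have := Eqv.pull_congr (w := b) ((smap h 0).diff hx) differentiableAt_id hx
    (fun z hz => h.zero z hz)
  rw [rsL_apply, rsL_apply, this]
  congr 1
  exact F.pull_id b x

/-- **closed forms are cohomologous to their averages** -/
theorem d_La (h : Act X φ) (hX : Sub m X) (hb : Sm X b) (hc : Cl X b) :
    Eqv X (Av φ b - b) (F.d (La φ b)) := eqv_iff.2 fun x hx => by
  have h1 := rs_d_Lf h hX hb hc hx 0
  rw [cv_zero h hx, ← rs_Av h hb hx] at h1
  rw [Pi.sub_apply, map_sub]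
  exact h1.symm

theorem coh_Av (h : Act X φ) (hX : Sub m X) (hb : Sm X b) (hc : Cl X b) : Coh X (Av φ b) b :=
  ⟨La φ b, sm_La h hb, d_La h hX hb hc⟩

theorem hz_La (h : Act X φ) (hb : Sm X b) : Hz X φ (La φ b) := (hz_iff h).2 fun x hx => by
  show ii (tg h hx) (rsL X x (Lf φ b (x, 0))) = 0
  rw [rs_Lf h hb hx]
  exact ii_LAM (w := cv X φ b x) (tg h hx) (continuous_cv h hb hx) 0

/-- averages of invariant forms -/
theorem Av_of_inv (h : Act X φ) (ha : Sm X a) (hi : Inv X φ a) : Eqv X (Av φ a) a :=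
  eqv_iff.2 fun x hx => by
  have h1 : ∀ s, cv X φ a x s = rsL X x (a x) := fun s => by
    rw [cv, Wn_eq h hx]
    exact eqv_iff.1 (hi (2 * Real.pi * s)) x hx
  have h2 := rs_Av h ha hx
  have h3 : MM (cv X φ a x) = rsL X x (a x) := by
    rw [MM]
    simp only [h1]
    simp
  rw [h3] at h2
  exact h2

/-- averages of products with invariant forms -/
theorem Av_mul_inv (h : Act X φ) (ha : Sm X a) (hb : Sm X b) (hi : Inv X φ a) :
    Eqv X (Av φ (a * b)) (a * Av φ b) := eqv_iff.2 fun x hx => by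
  have h1 : ∀ s, cv X φ (a * b) x s = rsL X x (a x) * cv X φ b x s := fun s => by
    have h3 := eqv_iff.1 (hi (2 * Real.pi * s)) x hx
    rw [cv, cv, Wn_eq h hx, Wn_eq h hx, pull_mul', Pi.mul_apply, rsL_apply, rsL_apply, rsL_apply,
      map_mul, h3]
  have h2 := rs_Av h (ha.mul hb) hx
  have h4 : MM (cv X φ (a * b) x) = rsL X x (a x) * MM (cv X φ b x) := by
    rw [MM]
    simp only [h1]
    exact (mulL _ (rsL X x (a x))).intervalIntegral_comp_comm
      ((continuous_cv h hb hx).intervalIntegrable 0 1)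
  rw [h4, ← rs_Av h hb hx] at h2
  rw [Pi.mul_apply, map_mul]
  exact h2

theorem Av_add (h : Act X φ) (ha : Sm X a) (hb : Sm X b) :
    ∀ x ∈ X, Av φ (a + b) x = Av φ a x + Av φ b x := fun x hx => by
  have h1 : ∀ s, Wn φ (a + b) (x, s) = Wn φ a (x, s) + Wn φ b (x, s) := fun s => by
    rw [Wn_eq h hx, Wn_eq h hx, Wn_eq h hx, pull_add']; rfl
  rw [Av, I1]
  simp only [h1]
  exact intervalIntegral.integral_add ((smT_Wn h ha).int hx 0 1) ((smT_Wn h hb).int hx 0 1)

theorem Av_smul (h : Act X φ) (r : ℝ) (b : E → Ext E) :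
    ∀ x ∈ X, Av φ (r • b) x = r • Av φ b x := fun x hx => by
  have h1 : ∀ s, Wn φ (r • b) (x, s) = r • Wn φ b (x, s) := fun s => by
    rw [Wn_eq h hx, Wn_eq h hx, pull_smul']; rfl
  rw [Av, I1]
  simp only [h1]
  exact intervalIntegral.integral_smul _ _

/-- `iV φ (Av φ b) = Av φ (iV φ b)` -/
theorem iV_Av (h : Act X φ) (hb : Sm X b) : Eqv X (iV φ (Av φ b)) (Av φ (iV φ b)) :=
  eqv_iff.2 fun x hx => by
  have h1 : ∀ s, cv X φ (iV φ b) x s = ii (tg h hx) (cv X φ b x s) := fun s => by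
    have e1 : rsL X x (F.pull (φ (2 * Real.pi * s)) (iV φ b) x) =
        pb (dr X (φ (2 * Real.pi * s)) x) (iV φ b (φ (2 * Real.pi * s) x)) := pb_dr _ _
    have e2 : rsL X x (F.pull (φ (2 * Real.pi * s)) b x) =
        pb (dr X (φ (2 * Real.pi * s)) x) (b (φ (2 * Real.pi * s) x)) := pb_dr _ _
    rw [cv, cv, Wn_eq h hx, Wn_eq h hx, e1, e2, ii_pb,
      dr_gen h h (smap h _) (comm_act h _) hx]
    rfl
  have h2 := rs_Av h (Sm.iV h hb) hx
  have h3 := rs_xi h hb hx
  have h4 : MM (cv X φ (iV φ b) x) = ii (tg h hx) (MM (cv X φ b x)) := by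
    rw [MM]
    simp only [h1]
    exact (iiL (tg h hx)).intervalIntegral_comp_comm ((continuous_cv h hb hx).intervalIntegrable 0 1)
  rw [h4, ← h3] at h2
  exact h2.symm

/-- `ι_V YY` restricted, as an integral -/
theorem rs_iYY (h : Act X φ) (hb : Sm X b) (he : ∀ x ∈ X, F.inv (b x) = b x) (hx : x ∈ X) :
    rsL X x (iV φ (YY φ b) x) = ∫ s in (0 : ℝ)..1,
      ((2 : ℝ) • (cv X φ b x s * ii (tg h hx) (cv X φ b x s)) +
        ii (tg h hx) (MM (cv X φ b x)) * cv X φ b x s +
        MM (cv X φ b x) * ii (tg h hx) (cv X φ b x s)) * LAM (tg h hx) (cv X φ b x) s := by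
  rw [← ii_YA (w := cv X φ b x) (tg h hx) (continuous_cv h hb hx) (cv_even h he hx),
    ← rs_YY h hb hx]
  exact pb_ii_tan (h.gen_mem hx) _

end Crest.Agent.R208.VC
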