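import Crest.Agent.R208.AF4
import Crest.Agent.R208.VC6

/-! Row 208, block (A2) (helper601).  AF15: the restriction of helper997's form `psi φ (f^* om)`
along a map `s : K → X` is `psiK (2π)` of the family of loops `Fm (κ, t) = f (φ_t (s κ))`. -/

set_option autoImplicit false
set_option linter.unusedSectionVars false
set_option linter.unusedVariables false

open MeasureTheory Set Filter Topology Module
open scoped ContDiff
open Crest.Agent.R208.F Crest.Agent.R208.FI Crest.Agent.R208.CW Crest.Agent.R208.T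
open Crest.Agent.R208.VC (Act Wn iV cv tg dr rsL MM LAM YY)
open Crest.Agent.R208.CM (gen)

noncomputable section

namespace Crest.Agent.R208.AF

theorem fderiv_eq_tan {E F : Type*} [NormedAddCommGroup E] [NormedSpace ℝ E]
    [NormedAddCommGroup F] [NormedSpace ℝ F] {X : Set E} {f g : E → F} {x w : E}
    (hf : DifferentiableAt ℝ f x) (hg : DifferentiableAt ℝ g x) (h : ∀ y ∈ X, f y = g y)
    (hw : w ∈ Tan X x) : fderiv ℝ f x w = fderiv ℝ g x w := by
  refine Submodule.span_induction (p := fun w _ => fderiv ℝ f x w = fderiv ℝ g x w) ?_ ?_ ?_ ?_ hw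
  · rintro w ⟨γ, rfl, hγ, hS⟩
    have h1 := hf.hasFDerivAt.comp_hasDerivAt 0 hγ
    have h2 := hg.hasFDerivAt.comp_hasDerivAt 0 hγ
    have h3 : (f ∘ γ) =ᶠ[𝓝 0] (g ∘ γ) := hS.mono fun t ht => h _ ht
    exact (h1.congr_of_eventuallyEq h3.symm).unique h2
  · simp
  · intro a b _ _ ha hb; simp only [map_add, ha, hb]
  · intro r a _ ha; simp only [map_smul, ha]

universe u v
variable {E : Type u} [NormedAddCommGroup E] [NormedSpace ℝ E] [FiniteDimensional ℝ E]
  {F' : Type v} [NormedAddCommGroup F'] [NormedSpace ℝ F'] [FiniteDimensional ℝ F']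
  {E'' : Type*} [NormedAddCommGroup E''] [NormedSpace ℝ E''] [FiniteDimensional ℝ E'']
  {X : Set E} {φ : ℝ → E → E} {K : Set F'} {Y : Set E''} {s : F' → E} {f : E → E''}
  {Fm : F' × ℝ → E''} {om : E'' → Ext E''} {k : F'} {t : ℝ}

/-- the derivative of `s`, as a map of tangent spaces -/
def drT (hs : SMap K X s) (hk : k ∈ K) : Tan K k →ₗ[ℝ] Tan X (s k) :=
  (dr K s k).codRestrict _ fun w => fderiv_mapsTo_Tan (hs.diff hk) hs.maps w.2

theorem pb_drT (hs : SMap K X s) (hk : k ∈ K) (c : Ext E) :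
    pb (drT hs hk) (rsL X (s k) c) = pb (dr K s k) c := by
  rw [VC.rsL_apply, pb_comp]
  rfl

theorem alg_aux {V' : Type*} [NormedAddCommGroup V'] [NormedSpace ℝ V'] [FiniteDimensional ℝ V']
    {K : Set F'} {k : F'} {D : Tan K k →ₗ[ℝ] V'} {w z mw mz l : Ext V'}
    {W Z : F' × ℝ → Ext F'} {T : ℝ} {q : F' × ℝ}
    (h1 : pb D w = rs K k (W q)) (h2 : pb D z = rs K k (Z q))
    (h3 : pb D mw = rs K k (av T W q.1)) (h4 : pb D mz = rs K k (av T Z q.1))
    (h5 : pb D l = rs K k (Lm T Z q)) (he : inv (rs K k (W q)) = rs K k (W q)) :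
    pb D (((2 : ℝ) • (w * z) + mz * w + mw * z) * l) = rs K k (GK T W Z q) := by
  have e1 : rs K k (W q) * rs K k (Z q) = rs K k (Z q) * rs K k (W q) := even_comm he _
  rw [GK, rs_mul, map_add, map_add, map_smul, rs_mul, rs_mul, rs_mul, ← e1, map_mul, map_add,
    map_add, map_smul, map_mul, map_mul, map_mul, h1, h2, h3, h4, h5]

theorem scale_int {V' : Type*} [NormedAddCommGroup V'] [NormedSpace ℝ V'] (g : ℝ → V') :
    ∫ r in (0 : ℝ)..1, g (2 * Real.pi * r) =
      (2 * Real.pi)⁻¹ • ∫ t in (0 : ℝ)..(2 * Real.pi), g t := by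
  have hpi : (2 * Real.pi) ≠ 0 := by have := Real.pi_pos; positivity
  rw [intervalIntegral.integral_comp_mul_left g hpi, mul_zero, mul_one]

section slice
variable {V' : Type*} [NormedAddCommGroup V'] [NormedSpace ℝ V'] [FiniteDimensional ℝ V']
  {D : Tan K k →ₗ[ℝ] V'} {V : V'} {w : ℝ → Ext V'} {W Z : F' × ℝ → Ext F'}

/-- averages -/
theorem pb_avg (cw : Continuous w) (cW : Continuous fun t => W (k, t))
    (hu : ∀ r, pb D (w r) = rs K k (W (k, 2 * Real.pi * r))) :
    pb D (∫ r in (0 : ℝ)..1, w r) = rs K k (av (2 * Real.pi) W k) := by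
  rw [VC.pb_int D cw, rs_av cW]
  simp only [hu]
  exact scale_int fun t => rs K k (W (k, t))

theorem pb_MM_slice (cw : Continuous w) (cW : Continuous fun t => W (k, t))
    (hu : ∀ r, pb D (w r) = rs K k (W (k, 2 * Real.pi * r))) :
    pb D (MM w) = rs K k (av (2 * Real.pi) W k) := pb_avg cw cW hu

theorem pb_iMM_slice (cw : Continuous w) (cZ : Continuous fun t => Z (k, t))
    (hv : ∀ r, pb D (ii V (w r)) = rs K k (Z (k, 2 * Real.pi * r))) :
    pb D (ii V (MM w)) = rs K k (av (2 * Real.pi) Z k) := by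
  have h1 : ii V (MM w) = ∫ r in (0 : ℝ)..1, ii V (w r) :=
    ((iiL V).intervalIntegral_comp_comm (cw.intervalIntegrable 0 1)).symm
  rw [h1]
  exact pb_avg (VC.continuous_ii V cw) cZ hv

theorem pb_LAM_slice (cw : Continuous w) (cZ : Continuous fun t => Z (k, t))
    (hv : ∀ r, pb D (ii V (w r)) = rs K k (Z (k, 2 * Real.pi * r))) (r : ℝ) :
    pb D (LAM V w r) = rs K k (Lm (2 * Real.pi) Z (k, 2 * Real.pi * r)) := by
  have hpi : (2 * Real.pi) ≠ 0 := by have := Real.pi_pos; positivity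
  have c1 : Continuous fun τ : ℝ => (2 * Real.pi * (1 - τ)) • ii V (w (r + τ)) :=
    (by fun_prop : Continuous fun τ : ℝ => 2 * Real.pi * (1 - τ)).smul
      ((VC.continuous_ii V cw).comp (by fun_prop))
  have c2 : Continuous fun τ : ℝ => (1 - τ / (2 * Real.pi)) • Z (k, 2 * Real.pi * r + τ) := by
    have h2 : Continuous fun τ : ℝ => 2 * Real.pi * r + τ := by fun_prop
    have h3 : Continuous fun τ : ℝ => 1 - τ / (2 * Real.pi) := by fun_prop
    exact h3.smul (cZ.comp h2)
  rw [LAM, VC.pb_int D c1]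
  show _ = rs K k (∫ τ in (0 : ℝ)..(2 * Real.pi), (1 - τ / (2 * Real.pi)) •
    Z (k, 2 * Real.pi * r + τ))
  rw [rs_int c2]
  set g0 : ℝ → Ext (Tan K k) := fun t => rs K k ((1 - t / (2 * Real.pi)) •
      Z (k, 2 * Real.pi * r + t)) with hg0
  have h4 : ∫ t in (0 : ℝ)..(2 * Real.pi), g0 t =
      ∫ τ in (0 : ℝ)..1, (2 * Real.pi) • g0 (2 * Real.pi * τ) := by
    rw [intervalIntegral.integral_smul, scale_int g0, smul_smul, mul_inv_cancel₀ hpi, one_smul]
  rw [h4]
  refine intervalIntegral.integral_congr fun τ _ => ?_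
  simp only [hg0, map_smul, hv]
  rw [smul_smul, mul_div_cancel_left₀ _ hpi, mul_add]

/-- the second factor -/
theorem pb_iYA_slice (cw : Continuous w) (cW : Continuous fun t => W (k, t))
    (cZ : Continuous fun t => Z (k, t))
    (cL : Continuous fun t => Lm (2 * Real.pi) Z (k, t))
    (hu : ∀ r, pb D (w r) = rs K k (W (k, 2 * Real.pi * r)))
    (hv : ∀ r, pb D (ii V (w r)) = rs K k (Z (k, 2 * Real.pi * r)))
    (he : ∀ t, inv (rs K k (W (k, t))) = rs K k (W (k, t))) :
    pb D (∫ r in (0 : ℝ)..1, ((2 : ℝ) • (w r * ii V (w r)) + ii V (MM w) * w r +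
      MM w * ii V (w r)) * LAM V w r) = rs K k (av (2 * Real.pi) (GK (2 * Real.pi) W Z) k) := by
  have cii := VC.continuous_ii V cw
  have cI : Continuous fun r => ((2 : ℝ) • (w r * ii V (w r)) + ii V (MM w) * w r +
      MM w * ii V (w r)) * LAM V w r :=
    VC.continuous_mul' ((((VC.continuous_mul' cw cii).const_smul 2).add
      (VC.continuous_mul' continuous_const cw)).add (VC.continuous_mul' continuous_const cii))
      (VC.continuous_LAM V cw)
  have cG : Continuous fun t => GK (2 * Real.pi) W Z (k, t) := by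
    have q1 := (cont_mul cZ cW).const_smul (2 : ℝ)
    have q2 : Continuous fun t => av (2 * Real.pi) Z k * W (k, t) := cont_mul continuous_const cW
    have q3 : Continuous fun t => av (2 * Real.pi) W k * Z (k, t) := cont_mul continuous_const cZ
    exact cont_mul ((q1.add q2).add q3) cL
  refine pb_avg cI cG fun r => ?_
  exact alg_aux (hu r) (hv r) (pb_MM_slice cw cW hu) (pb_iMM_slice cw cZ hv)
    (pb_LAM_slice cw cZ hv r) (he _)

end slice

section key
variable (h : Act X φ) (hs : SMap K X s) (hf : SMap X Y f) (hF : Fam K Y Fm)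
  (he : ∀ k ∈ K, ∀ t, Fm (k, t) = f (φ t (s k)))
include h hs hf hF he

theorem diff_comp (hk : k ∈ K) (t : ℝ) : DifferentiableAt ℝ (fun y => f (φ t (s y))) k := by
  have h1 := hs.diff hk
  have h2 := (VC.smap h t).diff (hs.maps hk)
  have h3 := hf.diff (h.maps t (hs.maps hk))
  exact DifferentiableAt.comp (g := f) (f := fun y => φ t (s y)) k h3
    (DifferentiableAt.comp (g := φ t) (f := s) k h2 h1)

/-- `W_t` -/
theorem u_eq (hk : k ∈ K) (t : ℝ) : pb (dr K s k) (F.pull (φ t) (F.pull f om) (s k)) =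
    rs K k (WF Fm om (k, t)) := by
  have hx := hs.maps hk
  have h2 : F.pull (φ t) (F.pull f om) (s k) = F.pull (fun y => f (φ t y)) om (s k) :=
    F.pull_comp (f := φ t) (g := f) ((VC.smap h t).diff hx) (hf.diff (h.maps t hx))
  have h3 : F.pull s (F.pull (fun y => f (φ t y)) om) k = F.pull (fun y => f (φ t (s y))) om k :=
    F.pull_comp (f := s) (g := fun y => f (φ t y)) (hs.diff hk)
      (DifferentiableAt.comp (g := f) (f := φ t) (s k) (hf.diff (h.maps t hx))
        ((VC.smap h t).diff hx))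
  rw [h2]
  have h4 : pb (dr K s k) (F.pull (fun y => f (φ t y)) om (s k)) =
      rsL K k (F.pull s (F.pull (fun y => f (φ t y)) om) k) := (VC.pb_dr _ _).symm
  rw [h4, h3]
  have dF : DifferentiableAt ℝ (fun y => Fm (y, t)) k :=
    ((hF.sm k hk t).comp k (contDiffAt_id.prodMk contDiffAt_const)).differentiableAt (by simp)
  exact Eqv.pull_congr (diff_comp h hs hf hF he hk t) dF hk fun y hy => (he y hy t).symm

/-- `ξ_t` -/
theorem v_eq (hk : k ∈ K) (t : ℝ) :
    pb (dr K s k) (ii (gen φ (s k)) (F.pull (φ t) (F.pull f om) (s k))) =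
      rs K k (xiF Fm om (k, t)) := by
  have hx := hs.maps hk
  have hdφ := (VC.smap h t).diff hx
  have hdf := hf.diff (h.maps t hx)
  have h2 : F.pull (φ t) (F.pull f om) (s k) = F.pull (fun y => f (φ t y)) om (s k) :=
    F.pull_comp (f := φ t) (g := f) hdφ hdf
  have hdA : DifferentiableAt ℝ (fun y => f (φ t y)) (s k) :=
    DifferentiableAt.comp (g := f) (f := φ t) (s k) hdf hdφ
  have dFm : HasFDerivAt Fm (fderiv ℝ Fm (k, t)) (k, t) :=
    ((hF.sm k hk t).differentiableAt (by simp)).hasFDerivAt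
  -- time derivative
  have e1 : fderiv ℝ (fun y => f (φ t y)) (s k) (gen φ (s k)) = fderiv ℝ Fm (k, t) (0, 1) := by
    have h3 : HasDerivAt (fun r => f (φ t (φ r (s k))))
        (fderiv ℝ (fun y => f (φ t y)) (s k) (gen φ (s k))) 0 := by
      have h4 := h.hasDerivAt hx 0
      rw [h.zero _ hx] at h4
      have h5 : HasFDerivAt (fun y => f (φ t y)) (fderiv ℝ (fun y => f (φ t y)) (s k))
          (φ 0 (s k)) := by rw [h.zero _ hx]; exact hdA.hasFDerivAt
      exact HasFDerivAt.comp_hasDerivAt (l := fun y => f (φ t y)) (f := fun r => φ r (s k)) 0 h5 h4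
    have h6 : HasDerivAt (fun r => Fm (k, t + r)) (fderiv ℝ Fm (k, t) (0, 1)) 0 := by
      have h7 : HasDerivAt (fun r : ℝ => ((k, t + r) : F' × ℝ)) (0, 1) 0 :=
        (hasDerivAt_const 0 k).prodMk ((hasDerivAt_id 0).const_add t)
      have h8 : HasFDerivAt Fm (fderiv ℝ Fm (k, t)) (k, t + 0) := by rw [add_zero]; exact dFm
      exact h8.comp_hasDerivAt 0 h7
    have h9 : (fun r => f (φ t (φ r (s k)))) = fun r => Fm (k, t + r) := by
      funext r
      rw [he k hk, h.add _ _ _ hx]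
    rw [h9] at h3
    exact h3.unique h6
  -- space derivatives
  have e2 : ∀ w ∈ Tan K k, fderiv ℝ (fun y => f (φ t y)) (s k) (fderiv ℝ s k w) =
      fderiv ℝ Fm (k, t) (w, 0) := by
    intro w hw
    have dF2 : HasFDerivAt (fun y => Fm (y, t)) ((fderiv ℝ Fm (k, t)).comp
        (ContinuousLinearMap.inl ℝ F' ℝ)) k :=
      dFm.comp k ((hasFDerivAt_id k).prodMk (hasFDerivAt_const t k))
    have dG : HasFDerivAt (fun y => f (φ t (s y)))
        ((fderiv ℝ (fun y => f (φ t y)) (s k)).comp (fderiv ℝ s k)) k :=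
      HasFDerivAt.comp (g := fun y => f (φ t y)) (f := s) k hdA.hasFDerivAt (hs.diff hk).hasFDerivAt
    have := fderiv_eq_tan (X := K) dG.differentiableAt dF2.differentiableAt
      (fun y hy => (he y hy t).symm) hw
    rw [dG.fderiv, dF2.fderiv] at this
    simpa using this
  rw [h2, rs_apply, xiF_eq, F.pull, ii_pb, pb_comp, pb_comp, ← he k hk]
  have e1' : (((fderiv ℝ (fun y => f (φ t y)) (s k) : E →L[ℝ] E'') : E →ₗ[ℝ] E'') (gen φ (s k))) =
    fderiv ℝ Fm (k, t) (0, 1) := e1
  rw [e1']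
  congr 1
  refine congrArg _ (LinearMap.ext fun w => ?_)
  exact e2 w w.2

/-- **the restriction of `psi`** -/
theorem psi_slice (hm : Sm Y om) (hev : ∀ y, inv (om y) = om y) :
    Eqv K (F.pull s (VC.psi φ (F.pull f om)))
      (psiK (2 * Real.pi) (WF Fm om) (xiF Fm om)) := by
  refine eqv_rs.2 fun k hk => ?_
  have hx := hs.maps hk
  have hb : Sm X (F.pull f om) := hm.pull hf
  have hbe : ∀ x ∈ X, F.inv (F.pull f om x) = F.pull f om x := fun x _ => by
    rw [F.pull, ← pb_inv, hev]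
  have hpi : (2 * Real.pi) ≠ 0 := by have := Real.pi_pos; positivity
  have cw := VC.continuous_cv h hb hx
  have cU : Continuous fun t => WF Fm om (k, t) := (hF.smF_W hm).cont hk
  have cZ : Continuous fun t => xiF Fm om (k, t) := (hF.smF_xi hm).cont hk
  have cL := cont_Lm (T := 2 * Real.pi) (hF.smF_xi hm) hk
  have hu : ∀ r, pb (drT hs hk) (cv X φ (F.pull f om) (s k) r) =
      rs K k (WF Fm om (k, 2 * Real.pi * r)) := by
    intro r
    rw [cv, pb_drT, VC.Wn_eq h hx]
    exact u_eq h hs hf hF he hk _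
  have hv : ∀ r, pb (drT hs hk) (ii (tg h hx) (cv X φ (F.pull f om) (s k) r)) =
      rs K k (xiF Fm om (k, 2 * Real.pi * r)) := by
    intro r
    have h1 : ii (tg h hx) (cv X φ (F.pull f om) (s k) r) =
        rsL X (s k) (ii (gen φ (s k)) (Wn φ (F.pull f om) (s k, r))) :=
      (VC.pb_ii_tan (h.gen_mem hx) _).symm
    rw [h1, pb_drT, VC.Wn_eq h hx]
    exact v_eq h hs hf hF he hk _
  have h1 : rs K k (F.pull s (VC.psi φ (F.pull f om)) k) =
      pb (drT hs hk) (rsL X (s k) (VC.psi φ (F.pull f om) (s k))) := by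
    rw [pb_drT]
    exact VC.pb_dr _ _
  have h2 : rsL X (s k) (VC.psi φ (F.pull f om) (s k)) =
      rsL X (s k) (VC.xi φ (F.pull f om) (s k)) *
      rsL X (s k) (iV φ (YY φ (F.pull f om)) (s k)) := by
    rw [VC.rsL_apply, VC.rsL_apply, VC.rsL_apply, ← map_mul]
    rfl
  have h3 := pb_iYA_slice cw cU cZ cL hu hv (fun t => by rw [rs_inv, inv_WF hev])
  rw [h1, h2, map_mul, VC.rs_xi h hb hx, VC.rs_iYY h hb hbe hx, h3, pb_iMM_slice cw cZ hv, psiK,
    rs_mul]

end key

end Crest.Agent.R208.AF
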