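import Crest.Agent.R208.AF14
import Crest.Agent.R208.AF15

/-! Row 208, block (A2) (helper601).  AF16: the end statement of the form part: the integral of
helper997's `psi` and `vv` over helper10's flat family. -/

set_option autoImplicit false
set_option linter.unusedSectionVars false
set_option linter.unusedVariables false

open MeasureTheory Set Filter Topology Module
open scoped ContDiff RealInnerProductSpace
open Crest.GeometryTopology.Submanifold
open Crest.Agent.R241.DDefs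
open Crest.Agent.R241.D2
open Crest.Agent.R241.D3c
open Crest.Agent.R208.F Crest.Agent.R208.FI Crest.Agent.R208.CW Crest.Agent.R208.T
open Crest.Agent.R208.FG (OSubm)
open Crest.Agent.R208.SB (OPr oV)
open Crest.Agent.R208.L (US)
open Crest.Agent.R208.FV (phi PVB up dn)
open Crest.Agent.R208.KG (N2 N3 N4 nest4 hf sgi idx Km)
open Crest.Agent.R208.VC (Act psi vv xi Av)

noncomputable section

namespace Crest.Agent.R208.AF

section high
variable {E : Type*} [NormedAddCommGroup E] [NormedSpace ℝ E] [FiniteDimensional ℝ E]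
  {X : Set E} {m j : ℕ} {a : E → Ext E}

/-- forms of degree above the dimension restrict to zero -/
theorem eqv_zero_of_hom (hX : Sub m X) (ha : Hom j a) (hj : m < j) : Eqv X a 0 :=
  eqv_iff.2 fun x hx => by
    have h1 : IsDeg j (pb (Tan X x).subtype (a x)) := (ha x).pb _
    rw [h1.eq_zero (by rw [hX.finrank_Tan hx]; exact hj)]
    exact (map_zero _).symm

end high

section vvs
variable {E : Type*} [NormedAddCommGroup E] [NormedSpace ℝ E] [FiniteDimensional ℝ E]
  {F' : Type*} [NormedAddCommGroup F'] [NormedSpace ℝ F'] [FiniteDimensional ℝ F']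
  {E₁ : Type*} [NormedAddCommGroup E₁] [NormedSpace ℝ E₁] [FiniteDimensional ℝ E₁]
  {φ : ℝ → E → E} {K : Set F'} {U : Set E₁} {s : F' → E} {pr : F' → E₁}
  {ee b : E → Ext E} {e0 y : E₁ → Ext E₁} {p q d e : ℕ} {r₁ r₂ : ℝ}

theorem pull_pow'' (f : F' → E) (w : E → Ext E) (p : ℕ) :
    F.pull f (w ^ p) = (F.pull f w) ^ p := funext fun x => map_pow (pb _) (w (f x)) p

theorem eqv_pow {X : Set F'} {a b : F' → Ext F'} (h : Eqv X a b) (p : ℕ) :
    Eqv X (a ^ p) (b ^ p) := by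
  induction p with
  | zero => rw [pow_zero, pow_zero]; exact Eqv.refl _
  | succ p ih => rw [pow_succ, pow_succ]; exact ih.mul h

theorem kill_pow (hpr : SMap K U pr) (hU : Sub d U) (he : Eqv K (F.pull s ee) (F.pull pr e0))
    (h0 : Hom 2 e0) (hy : Hom e y) (hd : d < 2 * p + e) (B : F' → Ext F') :
    Eqv K (F.pull s (ee ^ p) * B * F.pull pr y) 0 := by
  have h1 : Eqv K (F.pull s (ee ^ p)) (F.pull pr (e0 ^ p)) := by
    rw [pull_pow'', pull_pow'']; exact eqv_pow he p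
  have h2 : Hom (2 * p) (e0 ^ p) := h0.pow p
  have h3 : Eqv K (F.pull pr (e0 ^ p * y)) 0 := by
    have h4 := (eqv_zero_of_hom hU (h2.mul hy) hd).pull hpr
    rwa [pull_zero'] at h4
  have h5 : F.pull pr (e0 ^ p) * B * F.pull pr y = B * F.pull pr (e0 ^ p * y) := by
    rw [pull_mul', ← mul_assoc]
    congr 1
    funext x
    have h6 : inv (F.pull pr (e0 ^ p) x) = F.pull pr (e0 ^ p) x := by
      rw [F.pull, ← pb_inv, inv_of_isDeg (h2 _)]
    exact even_comm h6 (B x)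
  refine ((h1.mul (Eqv.refl B)).mul (Eqv.refl _)).trans ?_
  rw [h5]
  have h7 := (Eqv.refl (X := K) B).mul h3
  rwa [mul_zero] at h7

/-- the correction terms of `vv` do not contribute -/
theorem vv_slice (hpr : SMap K U pr) (hU : Sub d U) (he : Eqv K (F.pull s ee) (F.pull pr e0))
    (h0 : Hom 2 e0) (hy : Hom e y) (hp : d < 2 * p + e) (hq : d < 2 * q + e) :
    Eqv K (F.pull s (vv φ ee p q r₁ r₂ b) * F.pull pr y)
      (F.pull s (psi φ b) * F.pull pr y) := by
  have k1 := (kill_pow hpr hU he h0 hy hp (F.pull s (xi φ b))).smul r₁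
  have k2 := (kill_pow hpr hU he h0 hy hq (F.pull s (Av φ b * xi φ b))).smul r₂
  have e1 : F.pull s (vv φ ee p q r₁ r₂ b) * F.pull pr y =
      F.pull s (psi φ b) * F.pull pr y -
        r₁ • (F.pull s (ee ^ p) * F.pull s (xi φ b) * F.pull pr y) -
        r₂ • (F.pull s (ee ^ q) * F.pull s (Av φ b * xi φ b) * F.pull pr y) := by
    rw [vv, pull_sub', pull_sub', pull_smul', pull_smul', pull_mul', pull_mul', sub_mul, sub_mul,
      smul_mul_assoc, smul_mul_assoc]
  rw [e1]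
  have k3 := ((Eqv.refl (X := K) (F.pull s (psi φ b) * F.pull pr y)).sub k1).sub k2
  rwa [smul_zero, smul_zero, sub_zero, sub_zero] at k3

end vvs

section endst
variable {n N r d e : ℕ} {κ : ℝ} {S : Set (Euc N)} {G : Geo n N κ S} {c ε : ℝ}
  {om : Euc N → Ext (Euc N)} {oP : Euc N × Euc N → Ext (Euc N)}
  {y oU e0 : Euc N × Euc N → Ext (Euc N × Euc N)}

/-- the orientation of `US → F` -/
theorem osubm_W (h : GT.Bla G (r + 1)) (hoP : OPr (GT.FF S) (r + 1) (PVB h) oP) {d' : ℕ}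
    (hd' : d' + (r + 1) = 2 * n) {oF : Euc N × Euc N → Ext (Euc N × Euc N)}
    (ho : Ori d' (GT.FF S) oF) (hoF : ∀ x, IsDeg d' (oF x)) :
    OSubm r d' (US G) (GT.FF S) (phi G) (oWf G oP) oF := by
  have h1 := SB.osubm_Sph (FV.clo_FF' h hd') (FV.pfield_PVB h) hoP ho hoF
  exact (SB.dif_US h).osubm (SB.clo_US h (d := r + d') (by omega)) h1

variable {E : Type} [NormedAddCommGroup E] [NormedSpace ℝ E] [FiniteDimensional ℝ E]
  {X : Set E} {φ : ℝ → E → E} {s : E4 N → E} {f : E → Euc N} {ee : E → Ext E}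
  {p q : ℕ} {r₁ r₂ : ℝ}

/-- **END STATEMENT** (form part of (A2)): the integral of `psi` over the flat four arc family -/
theorem J_psi_flat (h : GT.Bla G (r + 1)) (hO : KG.OK G 4 ε)
    (hoP : OPr (GT.FF S) (r + 1) (PVB h) oP) (hd : d + 1 = 2 * n)
    (L : Lv G d (US G) (fun z => z) oU) (ev : Even (r + 1)) (hr : 1 ≤ r)
    {Y : Set (Euc N × Euc N)} {oF : Euc N × Euc N → Ext (Euc N × Euc N)} {d' : ℕ}
    (hW : OSubm r d' (US G) Y (phi G) (oWf G oP) oF)
    (hs : Sm S om) (hcl : Cl S om) (hom : Hom (r + 1) om)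
    {z₀ : Euc N × Euc N} (hz₀ : z₀ ∈ US G)
    (hc : J r (US G ∩ phi G ⁻¹' {phi G z₀}) (oWf G oP) (lam (Gm G) om) = c)
    (sy : Sm (US G) y) (cy : Cl (US G) y) (dy : Hom e y) (hed : r + 1 + e = d)
    (hφ : Act X φ) (hsm : SMap (N4 h) X s) (hf : SMap X S f)
    (hfs : ∀ k ∈ N4 h, ∀ t, f (φ t (s k)) = KG.F G 4 ε (nest4 k) 1 t) :
    (2 * Real.pi) ^ 2 * J (r + (r + (r + d))) (N4 h) (o4 G oP oU)
      (F.pull s (psi φ (F.pull f om)) * F.pull (fun z => z.1.1.1) y) =
      -(3 * c ^ 3 * J d (US G) oU (F.pull Prod.fst om * y)) := by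
  have L1 := L.next h hoP hr
  have L2 := L1.next h hoP hr
  have L3 := L2.next h hoP hr
  have hK : Clo (r + (r + (r + d))) (N4 h) := L3.clo
  have hev : ∀ y, inv (om y) = om y := by
    intro y
    obtain ⟨j, hj⟩ := ev
    exact inv_of_isDeg (j := j) (by rw [← two_mul] at hj; rw [← hj]; exact hom y)
  have hc' : ∀ z ∈ US G, J r (US G ∩ phi G ⁻¹' {phi G z}) (oWf G oP) (lam (Gm G) om) = c := by
    intro z hz
    rw [← hc]
    exact c_const h hoP L ev hr hW (sm_lam (fam_Gm G) hs) (dlam_phi h hs hcl) hz hz₀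
  have h1 := J_flat h hO hoP hd L ev hr hW hs hcl hom hc' sy cy dy hed
  have h2 := psi_slice (Fm := Fm G ε) hφ hsm hf (fam_Fm h hO) (fun k hk t => (hfs k hk t).symm)
    hs hev
  rw [← h1]
  congr 1
  exact J_eqv hK (h2.mul (Eqv.refl (F.pull (pr4 0) y)))

/-- **END STATEMENT** for `vv` -/
theorem J_vv_flat (h : GT.Bla G (r + 1)) (hO : KG.OK G 4 ε)
    (hoP : OPr (GT.FF S) (r + 1) (PVB h) oP) (hd : d + 1 = 2 * n)
    (L : Lv G d (US G) (fun z => z) oU) (ev : Even (r + 1)) (hr : 1 ≤ r)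
    {Y : Set (Euc N × Euc N)} {oF : Euc N × Euc N → Ext (Euc N × Euc N)} {d' : ℕ}
    (hW : OSubm r d' (US G) Y (phi G) (oWf G oP) oF)
    (hs : Sm S om) (hcl : Cl S om) (hom : Hom (r + 1) om)
    {z₀ : Euc N × Euc N} (hz₀ : z₀ ∈ US G)
    (hc : J r (US G ∩ phi G ⁻¹' {phi G z₀}) (oWf G oP) (lam (Gm G) om) = c)
    (sy : Sm (US G) y) (cy : Cl (US G) y) (dy : Hom e y) (hed : r + 1 + e = d)
    (hφ : Act X φ) (hsm : SMap (N4 h) X s) (hf : SMap X S f)
    (hfs : ∀ k ∈ N4 h, ∀ t, f (φ t (s k)) = KG.F G 4 ε (nest4 k) 1 t)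
    (he : Eqv (N4 h) (F.pull s ee) (F.pull (fun z => z.1.1.1) e0)) (he0 : Hom 2 e0)
    (hp : d < 2 * p + e) (hq : d < 2 * q + e) :
    (2 * Real.pi) ^ 2 * J (r + (r + (r + d))) (N4 h) (o4 G oP oU)
      (F.pull s (vv φ ee p q r₁ r₂ (F.pull f om)) * F.pull (fun z => z.1.1.1) y) =
      -(3 * c ^ 3 * J d (US G) oU (F.pull Prod.fst om * y)) := by
  have L1 := L.next h hoP hr
  have L2 := L1.next h hoP hr
  have L3 := L2.next h hoP hr
  have hK : Clo (r + (r + (r + d))) (N4 h) := L3.clo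
  rw [← J_psi_flat h hO hoP hd L ev hr hW hs hcl hom hz₀ hc sy cy dy hed hφ hsm hf hfs]
  congr 1
  exact J_eqv hK (vv_slice (smap_pr4 h 0).1 L.clo.sub he he0 dy hp hq)

/-- another orientation of `N4` only changes the sign -/
theorem sign_N4 (h : GT.Bla G (r + 1)) (hoP : OPr (GT.FF S) (r + 1) (PVB h) oP)
    (L : Lv G d (US G) (fun z => z) oU) (hr : 1 ≤ r) {oK : E4 N → Ext (E4 N)}
    (hoK : Ori (r + (r + (r + d))) (N4 h) oK) :
    ∃ sg : ℝ, (sg = 1 ∨ sg = -1) ∧ ∀ a, J (r + (r + (r + d))) (N4 h) oK a =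
      sg * J (r + (r + (r + d))) (N4 h) (o4 G oP oU) a := by
  have L1 := L.next h hoP hr
  have L2 := L1.next h hoP hr
  have L3 := L2.next h hoP hr
  have hK : Clo (r + (r + (r + d))) (N4 h) := L3.clo
  have ho : Ori (r + (r + (r + d))) (N4 h) (o4 G oP oU) := L3.ori
  have hc : IsPreconnected (N4 h) := L3.conn
  rcases J_ori_connected hK ho hoK hc with h1 | h1
  · exact ⟨1, Or.inl rfl, fun a => by rw [h1, one_mul]⟩
  · exact ⟨-1, Or.inr rfl, fun a => by rw [h1, neg_one_mul]⟩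

end endst

end Crest.Agent.R208.AF
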