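import Crest.Agent.R208.AF16

/-! Row 208, block (A2) (helper601).  AF17: two arcs: the integral of helper997's `xi` over the flat
two arc family. -/

set_option autoImplicit false
set_option linter.unusedSectionVars false
set_option linter.unusedVariables false

open MeasureTheory Set Filter Topology Module
open scoped ContDiff RealInnerProductSpace
open Crest.GeometryTopology.Submanifold
open Crest.Agent.R241.DDefs
open Crest.Agent.R241.D2
open Crest.Agent.R241.D3c
open Crest.Agent.R208.F Crest.Agent.R208.FI Crest.Agent.R208.CW Crest.Agent.R208.T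
open Crest.Agent.R208.FG (OSubm)
open Crest.Agent.R208.SB (OPr oV)
open Crest.Agent.R208.L (US)
open Crest.Agent.R208.FV (phi PVB up dn)
open Crest.Agent.R208.KG (N2 nest2 hf sgi idx Km)
open Crest.Agent.R208.VC (Act psi vv xi Av cv tg Wn)

noncomputable section

namespace Crest.Agent.R208.AF

section slice
universe u v
variable {E : Type u} [NormedAddCommGroup E] [NormedSpace ℝ E] [FiniteDimensional ℝ E]
  {F' : Type v} [NormedAddCommGroup F'] [NormedSpace ℝ F'] [FiniteDimensional ℝ F']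
  {E'' : Type*} [NormedAddCommGroup E''] [NormedSpace ℝ E''] [FiniteDimensional ℝ E'']
  {X : Set E} {φ : ℝ → E → E} {K : Set F'} {Y : Set E''} {s : F' → E} {f : E → E''}
  {Fm : F' × ℝ → E''} {om : E'' → Ext E''}

/-- **the restriction of `xi`** -/
theorem xi_slice (h : Act X φ) (hs : SMap K X s) (hf : SMap X Y f) (hF : Fam K Y Fm)
    (he : ∀ k ∈ K, ∀ t, Fm (k, t) = f (φ t (s k))) (hm : Sm Y om) :
    Eqv K (F.pull s (VC.xi φ (F.pull f om))) (av (2 * Real.pi) (xiF Fm om)) := by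
  refine eqv_rs.2 fun k hk => ?_
  have hx := hs.maps hk
  have hb : Sm X (F.pull f om) := hm.pull hf
  have cw := VC.continuous_cv h hb hx
  have cZ : Continuous fun t => xiF Fm om (k, t) := (hF.smF_xi hm).cont hk
  have hv : ∀ r, pb (drT hs hk) (ii (tg h hx) (cv X φ (F.pull f om) (s k) r)) =
      rs K k (xiF Fm om (k, 2 * Real.pi * r)) := by
    intro r
    have h1 : ii (tg h hx) (cv X φ (F.pull f om) (s k) r) =
        VC.rsL X (s k) (ii (CM.gen φ (s k)) (Wn φ (F.pull f om) (s k, r))) :=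
      (VC.pb_ii_tan (h.gen_mem hx) _).symm
    rw [h1, pb_drT, VC.Wn_eq h hx]
    exact v_eq h hs hf hF he hk _
  have h1 : rs K k (F.pull s (VC.xi φ (F.pull f om)) k) =
      pb (drT hs hk) (VC.rsL X (s k) (VC.xi φ (F.pull f om) (s k))) := by
    rw [pb_drT]
    exact VC.pb_dr _ _
  rw [h1, VC.rs_xi h hb hx, pb_iMM_slice cw cZ hv]

end slice

section two
variable {n N r d : ℕ} {κ : ℝ} {S : Set (Euc N)} {G : Geo n N κ S} {c ε : ℝ}
  {om : Euc N → Ext (Euc N)} {oP : Euc N × Euc N → Ext (Euc N)}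
  {y oU : Euc N × Euc N → Ext (Euc N × Euc N)}

/-- the flat two arc family on `N2` -/
def Fm2 (G : Geo n N κ S) (ε : ℝ) (z : ((Euc N × Euc N) × Euc N) × ℝ) : Euc N :=
  KG.F G 2 ε (nest2 z.1) 1 z.2

theorem fam_Fm2 (h : GT.Bla G (r + 1)) (hO : KG.OK G 2 ε) : Fam (N2 h) S (Fm2 G ε) where
  sm := by
    intro z hz t
    have h1 := KG.F_smooth hO (KG.nest2_mem h hz) ⟨zero_le_one, le_rfl⟩ t
    have h2 : ContDiff ℝ ∞ (fun q : ((Euc N × Euc N) × Euc N) × ℝ =>
        ((nest2 q.1, (1 : ℝ), q.2) : (Euc N × (Fin 2 → Euc N)) × ℝ × ℝ)) :=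
      (KG.contDiff_nest2.comp contDiff_fst).prodMk (contDiff_const.prodMk contDiff_snd)
    exact ContDiffAt.comp (g := fun q : (Euc N × (Fin 2 → Euc N)) × ℝ × ℝ =>
      KG.F G 2 ε q.1 q.2.1 q.2.2)
      (f := fun q : ((Euc N × Euc N) × Euc N) × ℝ =>
        ((nest2 q.1, (1 : ℝ), q.2) : (Euc N × (Fin 2 → Euc N)) × ℝ × ℝ)) (z, t) h1 h2.contDiffAt
  maps := fun z hz t => KG.F_mem hO (KG.nest2_mem h hz) ⟨zero_le_one, le_rfl⟩ t

/-- `∫_0^{2π} ξ = λ₀ - λ₁` -/
theorem TI_two (h : GT.Bla G (r + 1)) (hO : KG.OK G 2 ε) (hs : Sm S om) :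
    Eqv (N2 h) (TI 0 (2 * Real.pi) (xiF (Fm2 G ε) om))
      (F.pull (fun z => z.1) (lam (Gm G) om) -
        F.pull (ar (fun z => z) (-1)) (lam (Gm G) om)) := by
  have hpi := Real.pi_pos
  have hcd := KG.contDiff_hf hO.pos hO.le
  have hε := hO.pos
  have m0 : SMap (US G) (US G) (fun z => z) := ⟨fun _ _ => contDiffAt_id, fun _ hz => hz⟩
  have hval : ∀ (j : ℤ) (t : ℝ), t = j * Real.pi → hf ε t = if Even j then 0 else 1 := by
    intro j t ht
    exact KG.hf_near hO.pos hO.le (by rw [ht, sub_self, abs_zero]; linarith)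
  have v0 : hf ε 0 = 0 := by rw [hval 0 _ (by simp)]; simp
  have v1 : hf ε Real.pi = 1 := by rw [hval 1 _ (by push_cast; ring)]; simp
  have v2 : hf ε (2 * Real.pi) = 0 := by rw [hval 2 _ (by push_cast; ring)]; simp
  have hh : ∀ t, HasDerivAt (hf ε) (deriv (hf ε) t) t := fun t =>
    ((hcd.differentiable (by simp)) _).hasDerivAt
  have hc' : Continuous (deriv (hf ε)) := hcd.continuous_deriv (by simp)
  have w0 : Win (N2 h) (US G) S (Fm2 G ε) (Gm G) (fun z => z.1) (hf ε) (deriv (hf ε)) 0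
      Real.pi :=
    { hF := fam_Fm2 h hO, hG := fam_Gm G, hpr := smap_bf h m0, lt := hpi, hh := hh, ch := hc'
      eq := fun z hz t ht => by
        have h6 := KG.F_hf hO (KG.nest2_mem h hz) (i := 0) (α := t)
          (by push_cast; linarith [ht.1]) (by push_cast; linarith [ht.2])
        have h7 : ((2 : ℕ) : ℝ) / 2 * t = t := by push_cast; ring
        show KG.F G 2 ε (nest2 z) 1 t = _
        rw [h6, h7, show idx 2 0 = 0 by decide]
        simp only [sgi]
        rw [if_pos (by decide), one_smul]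
        rfl }
  have w1 : Win (N2 h) (US G) S (Fm2 G ε) (Gm G) (ar (fun z => z) (-1)) (hf ε) (deriv (hf ε))
      Real.pi (2 * Real.pi) :=
    { hF := fam_Fm2 h hO, hG := fam_Gm G, hpr := smap_ar h m0 (Or.inr rfl), lt := by linarith
      hh := hh, ch := hc'
      eq := fun z hz t ht => by
        have h6 := KG.F_hf hO (KG.nest2_mem h hz) (i := 1) (α := t)
          (by push_cast; linarith [ht.1]) (by push_cast; linarith [ht.2])
        have h7 : ((2 : ℕ) : ℝ) / 2 * t = t := by push_cast; ring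
        show KG.F G 2 ε (nest2 z) 1 t = _
        rw [h6, h7, show idx 2 1 = 1 by decide]
        simp only [sgi]
        rw [if_neg (by decide)]
        rfl }
  refine eqv_rs.2 fun x hx => ?_
  have z : ∀ z, ell (Gm G) om (z, 0) = 0 := fun z => PL_zero _ _
  have o : ∀ z, ell (Gm G) om (z, 1) = lam (Gm G) om z := fun z => rfl
  have a1 := w0.PL hs hx Real.pi ⟨hpi.le, le_rfl⟩
  rw [PL_zero, v0, z, map_zero, map_zero, sub_zero, zero_add, v1, o] at a1
  have a2 := w1.PL hs hx (2 * Real.pi) ⟨by linarith, le_rfl⟩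
  rw [a1, v1, v2, z, o, map_zero, add_zero] at a2
  rw [Pi.sub_apply, map_sub]
  exact a2

variable {E : Type} [NormedAddCommGroup E] [NormedSpace ℝ E] [FiniteDimensional ℝ E]
  {X : Set E} {φ : ℝ → E → E} {s : (Euc N × Euc N) × Euc N → E} {f : E → Euc N}

/-- orientation of `N2` -/
def o2 (G : Geo n N κ S) (oP : Euc N × Euc N → Ext (Euc N))
    (oU : Euc N × Euc N → Ext (Euc N × Euc N)) :
    (Euc N × Euc N) × Euc N → Ext ((Euc N × Euc N) × Euc N) := oN G oP (fun z => z) oU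

/-- **END STATEMENT for `xi`**: the integral over the flat two arc family -/
theorem J_xi_flat (h : GT.Bla G (r + 1)) (hO : KG.OK G 2 ε)
    (hoP : OPr (GT.FF S) (r + 1) (PVB h) oP)
    (L : Lv G d (US G) (fun z => z) oU) (ev : Even (r + 1)) (hr : 1 ≤ r)
    {Y : Set (Euc N × Euc N)} {oF : Euc N × Euc N → Ext (Euc N × Euc N)} {d' : ℕ}
    (hW : OSubm r d' (US G) Y (phi G) (oWf G oP) oF)
    (hs : Sm S om) (hcl : Cl S om) (hom : Hom (r + 1) om)
    {z₀ : Euc N × Euc N} (hz₀ : z₀ ∈ US G)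
    (hc : J r (US G ∩ phi G ⁻¹' {phi G z₀}) (oWf G oP) (lam (Gm G) om) = c)
    (sy : Sm (US G) y) (dy : Hom d y)
    (hφ : Act X φ) (hsm : SMap (N2 h) X s) (hf : SMap X S f)
    (hfs : ∀ k ∈ N2 h, ∀ t, f (φ t (s k)) = KG.F G 2 ε (nest2 k) 1 t) :
    (2 * Real.pi) * J (r + d) (N2 h) (o2 G oP oU)
      (F.pull s (xi φ (F.pull f om)) * F.pull (fun z => z.1) y) = -(c * J d (US G) oU y) := by
  have hpi : (2 * Real.pi) ≠ 0 := by have := Real.pi_pos; positivity
  have L1 := L.next h hoP hr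
  have hK : Clo (r + d) (N2 h) := L1.clo
  have hc' : ∀ z ∈ US G, J r (US G ∩ phi G ⁻¹' {phi G z}) (oWf G oP) (lam (Gm G) om) = c := by
    intro z hz
    rw [← hc]
    exact c_const h hoP L ev hr hW (sm_lam (fam_Gm G) hs) (dlam_phi h hs hcl) hz hz₀
  have h2 := xi_slice (Fm := Fm2 G ε) hφ hsm hf (fam_Fm2 h hO) (fun k hk t => (hfs k hk t).symm) hs
  have h3 : Eqv (N2 h) (F.pull s (xi φ (F.pull f om)) * F.pull (fun z => z.1) y)
      ((-(2 * Real.pi)⁻¹) • (mu (lam (Gm G) om) (fun z => z) (-1) * F.pull Prod.fst y)) := by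
    refine (h2.mul (Eqv.refl _)).trans ?_
    have h4 := ((TI_two h hO hs).smul (2 * Real.pi)⁻¹).mul
      (Eqv.refl (X := N2 h) (F.pull (fun z => z.1) y))
    have h5 : ∀ A B C : (Euc N × Euc N) × Euc N → Ext ((Euc N × Euc N) × Euc N),
        ((2 * Real.pi)⁻¹ • (A - B)) * C = (-(2 * Real.pi)⁻¹) • ((B - A) * C) := fun A B C => by
      rw [neg_smul, ← smul_neg, ← neg_mul, neg_sub, smul_mul_assoc]
    rw [h5] at h4
    exact h4
  rw [J_eqv hK h3, J_smul']
  have h5 := L.step h hoP (σ := -1) (Or.inr rfl) ev hr hW (sm_lam (fam_Gm G) hs) hc' sy dy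
  have h6 : J (r + d) (N2 h) (o2 G oP oU) (mu (lam (Gm G) om) (fun z => z) (-1) *
      F.pull Prod.fst y) = c * J d (US G) oU y := h5
  rw [h6]
  field_simp

/-- another orientation of `N2` only changes the sign -/
theorem sign_N2 (h : GT.Bla G (r + 1)) (hoP : OPr (GT.FF S) (r + 1) (PVB h) oP)
    (L : Lv G d (US G) (fun z => z) oU) (hr : 1 ≤ r)
    {oK : (Euc N × Euc N) × Euc N → Ext ((Euc N × Euc N) × Euc N)}
    (hoK : Ori (r + d) (N2 h) oK) :
    ∃ sg : ℝ, (sg = 1 ∨ sg = -1) ∧ ∀ a, J (r + d) (N2 h) oK a =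
      sg * J (r + d) (N2 h) (o2 G oP oU) a := by
  have L1 := L.next h hoP hr
  have hK : Clo (r + d) (N2 h) := L1.clo
  have ho : Ori (r + d) (N2 h) (o2 G oP oU) := L1.ori
  have hc : IsPreconnected (N2 h) := L1.conn
  rcases J_ori_connected hK ho hoK hc with h1 | h1
  · exact ⟨1, Or.inl rfl, fun a => by rw [h1, one_mul]⟩
  · exact ⟨-1, Or.inr rfl, fun a => by rw [h1, neg_one_mul]⟩

end two

end Crest.Agent.R208.AF
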