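import Crest.Agent.R208.AF1

/-! Row 208, block (A2) (helper601).  AF2: one variable identities behind the 29-form `psi` of a
family of loops. -/

set_option autoImplicit false
set_option linter.unusedSectionVars false

open MeasureTheory Set Filter Topology Module
open scoped ContDiff
open Crest.Agent.R208.F Crest.Agent.R208.FI Crest.Agent.R208.CW Crest.Agent.R208.T

noncomputable section

namespace Crest.Agent.R208.AF

section one
variable {V : Type*} [NormedAddCommGroup V] [NormedSpace ℝ V] [FiniteDimensional ℝ V]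
  {X D' L D : ℝ → Ext V} {T : ℝ} {α : Ext V}

theorem int_comb {f1 f2 f3 f4 : ℝ → Ext V} {a b : ℝ} (h1 : Continuous f1) (h2 : Continuous f2)
    (h3 : Continuous f3) (h4 : Continuous f4) :
    ∫ t in a..b, (f1 t + f2 t - f3 t + f4 t) = (∫ t in a..b, f1 t) + (∫ t in a..b, f2 t) -
      (∫ t in a..b, f3 t) + ∫ t in a..b, f4 t := by
  have i1 := h1.intervalIntegrable (μ := volume) a b
  have i2 := h2.intervalIntegrable (μ := volume) a b
  have i3 := h3.intervalIntegrable (μ := volume) a b
  have i4 := h4.intervalIntegrable (μ := volume) a b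
  have e1 : ∫ t in a..b, (f1 t + f2 t - f3 t + f4 t) = (∫ t in a..b, (f1 t + f2 t - f3 t)) +
      ∫ t in a..b, f4 t := intervalIntegral.integral_add ((i1.add i2).sub i3) i4
  have e2 : ∫ t in a..b, (f1 t + f2 t - f3 t) = (∫ t in a..b, (f1 t + f2 t)) -
      ∫ t in a..b, f3 t := intervalIntegral.integral_sub (i1.add i2) i3
  rw [e1, e2, intervalIntegral.integral_add i1 i2]

theorem shift_T (hL : ∀ t, HasDerivAt L (X t) t) (hper : ∀ t, X (t + T) = X t) (h0 : L 0 = 0)
    (t : ℝ) : L (t + T) = L t + L T := by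
  have h1 : ∀ t, HasDerivAt (fun t => L (t + T) - L t) 0 t := by
    intro t
    have h2 : HasDerivAt (fun t => L (t + T)) (X (t + T)) t := by
      have h3 : HasDerivAt (fun t : ℝ => t + T) 1 t := (hasDerivAt_id t).add_const T
      have h4 := (hL (t + T)).scomp t h3
      rw [one_smul] at h4
      exact h4
    have := h2.sub (hL t)
    rwa [hper, sub_self] at this
  have h5 := is_const_of_deriv_eq_zero (fun t => (h1 t).differentiableAt) (fun t => (h1 t).deriv) t 0
  simp only [zero_add, h0, sub_zero] at h5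
  rw [← h5]; abel

/-- the weighted average of `X` -/
theorem int_weight (hT : T ≠ 0) (hX : Continuous X) (hL : ∀ t, HasDerivAt L (X t) t)
    (hper : ∀ t, X (t + T) = X t) (h0 : L 0 = 0) (r : ℝ) :
    ∫ τ in (0 : ℝ)..T, (1 - τ / T) • X (r + τ) =
      T⁻¹ • (∫ s in (0 : ℝ)..T, L s) - L r + (r / T) • L T := by
  have cL : Continuous L := continuous_iff_continuousAt.2 fun t => (hL t).continuousAt
  have h1 : ∀ τ, HasDerivAt (fun τ => (1 - τ / T) • L (r + τ))
      ((1 - τ / T) • X (r + τ) - T⁻¹ • L (r + τ)) τ := by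
    intro τ
    have h2 : HasDerivAt (fun τ : ℝ => 1 - τ / T) (-T⁻¹) τ := by
      have := ((hasDerivAt_id τ).div_const T).const_sub 1
      simpa [one_div] using this
    have h3 : HasDerivAt (fun τ => L (r + τ)) (X (r + τ)) τ := by
      have h3' : HasDerivAt (fun t : ℝ => r + t) 1 τ := (hasDerivAt_id τ).const_add r
      have h4 := (hL (r + τ)).scomp τ h3'
      rw [one_smul] at h4
      exact h4
    have := h2.smul h3
    rw [neg_smul, ← sub_eq_add_neg] at this
    exact this
  have c1 : Continuous fun τ => (1 - τ / T) • X (r + τ) := by fun_prop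
  have c2 : Continuous fun τ => T⁻¹ • L (r + τ) := by fun_prop
  have h5 := intervalIntegral.integral_eq_sub_of_hasDerivAt (a := 0) (b := T) (fun τ _ => h1 τ)
    ((c1.sub c2).intervalIntegrable _ _)
  rw [intervalIntegral.integral_sub (c1.intervalIntegrable _ _) (c2.intervalIntegrable _ _),
    intervalIntegral.integral_smul, intervalIntegral.integral_comp_add_left (fun s => L s) r] at h5
  simp only [add_zero, div_self hT, sub_self, zero_smul, zero_div, sub_zero, one_smul,
    zero_sub] at h5
  have h6 : ∫ s in r..r + T, L s = (∫ s in (0 : ℝ)..T, L s) + r • L T := by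
    have h7 : ∫ s in T..r + T, L s = ∫ s in (0 : ℝ)..r, L (s + T) := by
      rw [intervalIntegral.integral_comp_add_right (fun s => L s) T, zero_add]
    have h8 : ∫ s in (0 : ℝ)..r, L (s + T) = (∫ s in (0 : ℝ)..r, L s) + r • L T := by
      simp only [shift_T hL hper h0]
      rw [intervalIntegral.integral_add (cL.intervalIntegrable _ _) (intervalIntegrable_const),
        intervalIntegral.integral_const, sub_zero]
    have i := fun a b => cL.intervalIntegrable (μ := volume) a b
    have h9 := intervalIntegral.integral_add_adjacent_intervals (i 0 r) (i r (r + T))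
    have h10 := intervalIntegral.integral_add_adjacent_intervals (i 0 T) (i T (r + T))
    rw [← h10, h7, h8] at h9
    have : ∫ s in r..r + T, L s = (∫ s in (0 : ℝ)..T, L s) + ((∫ s in (0 : ℝ)..r, L s) + r • L T) -
        ∫ s in (0 : ℝ)..r, L s := by rw [← h9]; abel
    rw [this]; abel
  rw [h6, smul_add, smul_smul] at h5
  have h11 : ∫ τ in (0 : ℝ)..T, (1 - τ / T) • X (r + τ) =
      -L r + (T⁻¹ • (∫ s in (0 : ℝ)..T, L s) + (T⁻¹ * r) • L T) := by
    rw [← h5]; abel
  rw [h11, inv_mul_eq_div]
  abel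

/-- **the identity**: `T² ψ = - λ B + λ D̄ η - 2 λ L̄ C`. -/
theorem psi_one (hT : T ≠ 0) (hX : Continuous X) (hL : ∀ t, HasDerivAt L (X t) t)
    (hD : ∀ t, HasDerivAt D (D' t) t)
    (hper : ∀ t, X (t + T) = X t) (h0 : L 0 = 0)
    (oX : ∀ t, inv (X t) = - X t) (oL : ∀ t, inv (L t) = - L t) (eD : ∀ t, inv (D t) = D t)
    (eα : inv α = α) :
    (T ^ 2) • ((T⁻¹ • ∫ s in (0 : ℝ)..T, X s) * (T⁻¹ • ∫ r in (0 : ℝ)..T,
      ((2 : ℝ) • (X r * (α + D r)) + (T⁻¹ • ∫ s in (0 : ℝ)..T, X s) * (α + D r) +
        (T⁻¹ • ∫ s in (0 : ℝ)..T, (α + D s)) * X r) *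
          ∫ τ in (0 : ℝ)..T, (1 - τ / T) • X (r + τ))) =
    - (L T * ∫ r in (0 : ℝ)..T, ((3 : ℝ) • α + (2 : ℝ) • D r) * X r * L r)
      + L T * (T⁻¹ • ∫ s in (0 : ℝ)..T, D s) * (∫ r in (0 : ℝ)..T, L r * X r)
      - L T * (T⁻¹ • ∫ s in (0 : ℝ)..T, L s) * ((2 : ℝ) • ∫ r in (0 : ℝ)..T, D r * X r) := by
  have cL : Continuous L := continuous_iff_continuousAt.2 fun t => (hL t).continuousAt
  have cD : Continuous D := continuous_iff_continuousAt.2 fun t => (hD t).continuousAt
  have hXi : ∫ s in (0 : ℝ)..T, X s = L T := by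
    rw [intervalIntegral.integral_eq_sub_of_hasDerivAt (fun t _ => hL t) (hX.intervalIntegrable _ _),
      h0, sub_zero]
  have hAD : T⁻¹ • ∫ s in (0 : ℝ)..T, (α + D s) = α + T⁻¹ • ∫ s in (0 : ℝ)..T, D s := by
    rw [intervalIntegral.integral_add (intervalIntegrable_const) (cD.intervalIntegrable _ _),
      intervalIntegral.integral_const, sub_zero, smul_add, smul_smul, inv_mul_cancel₀ hT, one_smul]
  set lam := L T with hlam
  set Lb := T⁻¹ • ∫ s in (0 : ℝ)..T, L s with hLb
  set Db := T⁻¹ • ∫ s in (0 : ℝ)..T, D s with hDb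
  have olam : inv lam = - lam := oL T
  have oLb : inv Lb = - Lb := by
    rw [hLb, map_smul, inv_int cL, ← smul_neg, ← intervalIntegral.integral_neg]
    simp only [oL]
  have eDb : inv Db = Db := by
    rw [hDb, map_smul, inv_int cD]
    simp only [eD]
  have hW : ∀ r, ∫ τ in (0 : ℝ)..T, (1 - τ / T) • X (r + τ) = Lb - L r + (r / T) • lam := fun r =>
    int_weight hT hX hL hper h0 r
  simp only [hW, hXi, hAD]
  clear_value lam Lb Db
  -- the pointwise identity
  have key : ∀ r, lam * (((2 : ℝ) • (X r * (α + D r)) + (T⁻¹ • lam) * (α + D r) +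
      (α + Db) * X r) * (Lb - L r + (r / T) • lam)) =
      (lam * ((3 : ℝ) • α + Db)) * X r * Lb + (2 : ℝ) • (lam * (D r * X r) * Lb) -
        lam * (((3 : ℝ) • α + (2 : ℝ) • D r) * X r * L r) + lam * Db * (L r * X r) := by
    intro r
    have hll : lam * lam = 0 := odd_sq olam
    have hlXl : lam * X r * lam = 0 := by
      rw [odd_anti olam (oX r), neg_mul, mul_assoc, hll, mul_zero, neg_zero]
    have cα : ∀ b, b * α = α * b := fun b => (even_comm eα b).symm
    have cDr : ∀ b, b * D r = D r * b := fun b => (even_comm (eD r) b).symm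
    have cDb : ∀ b, b * Db = Db * b := fun b => (even_comm eDb b).symm
    have hXL : X r * L r = - (L r * X r) := odd_anti (oX r) (oL r)
    have z1 : lam * (α * X r) * lam = 0 := by rw [← mul_assoc, cα, mul_assoc, mul_assoc, ← mul_assoc lam, hlXl, mul_zero]
    have z2 : lam * (D r * X r) * lam = 0 := by
      rw [← mul_assoc, cDr, mul_assoc, mul_assoc, ← mul_assoc lam, hlXl, mul_zero]
    have z3 : lam * (Db * X r) * lam = 0 := by
      rw [← mul_assoc, cDb, mul_assoc, mul_assoc, ← mul_assoc lam, hlXl, mul_zero]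
    have e1 : X r * (α + D r) = α * X r + D r * X r := by rw [mul_add, cα, cDr]
    have e2 : lam * ((T⁻¹ • lam) * (α + D r)) = 0 := by
      rw [smul_mul_assoc, mul_smul_comm, ← mul_assoc, hll, zero_mul, smul_zero]
    have e3 : lam * ((2 : ℝ) • (X r * (α + D r)) + (T⁻¹ • lam) * (α + D r) + (α + Db) * X r) =
        (3 : ℝ) • (lam * (α * X r)) + (2 : ℝ) • (lam * (D r * X r)) + lam * (Db * X r) := by
      rw [mul_add, mul_add, e2, add_zero, e1, add_mul, mul_smul_comm, mul_add, mul_add, smul_add]
      have : (3 : ℝ) • (lam * (α * X r)) = (2 : ℝ) • (lam * (α * X r)) + lam * (α * X r) := by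
        rw [show (3 : ℝ) = 2 + 1 by norm_num, add_smul, one_smul]
      rw [this]; abel
    rw [← mul_assoc, e3, mul_add _ _ ((r / T) • lam), mul_smul_comm _ _ lam]
    have e4 : ((3 : ℝ) • (lam * (α * X r)) + (2 : ℝ) • (lam * (D r * X r)) + lam * (Db * X r)) * lam
        = 0 := by
      rw [add_mul, add_mul, smul_mul_assoc, smul_mul_assoc, z1, z2, z3]; simp
    rw [e4, smul_zero, add_zero]
    simp only [add_mul, mul_add, mul_sub, smul_mul_assoc, mul_smul_comm, mul_assoc, hXL,
      mul_neg, smul_neg]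
    abel
  have cXc : ∀ c : Ext V, Continuous fun r => c * X r := fun c => cont_mul continuous_const hX
  have c1 : Continuous fun r => (lam * ((3 : ℝ) • α + Db)) * X r * Lb :=
    cont_mul (cXc _) continuous_const
  have c2 : Continuous fun r => (2 : ℝ) • (lam * (D r * X r) * Lb) :=
    (cont_mul (cont_mul continuous_const (cont_mul cD hX)) continuous_const).const_smul 2
  have cB : Continuous fun r => ((3 : ℝ) • α + (2 : ℝ) • D r) * X r * L r :=
    cont_mul (cont_mul (continuous_const.add (cD.const_smul 2)) hX) cL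
  have c3 : Continuous fun r => lam * (((3 : ℝ) • α + (2 : ℝ) • D r) * X r * L r) :=
    cont_mul continuous_const cB
  have c4 : Continuous fun r => lam * Db * (L r * X r) := cont_mul continuous_const (cont_mul cL hX)
  have cG : Continuous fun r => ((2 : ℝ) • (X r * (α + D r)) + (T⁻¹ • lam) * (α + D r) +
      (α + Db) * X r) * (Lb - L r + (r / T) • lam) := by
    refine cont_mul ((((cont_mul hX (continuous_const.add cD)).const_smul 2).add
      (cont_mul continuous_const (continuous_const.add cD))).add (cXc _)) ?_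
    exact (continuous_const.sub cL).add (by fun_prop)
  rw [smul_mul_assoc, mul_smul_comm, smul_smul, smul_smul,
    show T ^ 2 * T⁻¹ * T⁻¹ = 1 by field_simp, one_smul, ← int_left lam cG]
  simp only [key]
  rw [int_comb c1 c2 c3 c4, int_right Lb (cXc _), int_left _ hX, hXi,
    intervalIntegral.integral_smul, int_right Lb (cont_mul continuous_const (cont_mul cD hX)),
    int_left lam (cont_mul cD hX), int_left lam cB, int_left (lam * Db) (cont_mul cL hX)]
  -- `lam * even * lam = 0`
  have hl0 : lam * ((3 : ℝ) • α + Db) * lam = 0 := by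
    have he : inv ((3 : ℝ) • α + Db) = (3 : ℝ) • α + Db := by rw [map_add, map_smul, eα, eDb]
    rw [← even_comm he, mul_assoc, odd_sq olam, mul_zero]
  set C := ∫ r in (0 : ℝ)..T, D r * X r with hC
  have oC : inv C = - C := by
    rw [hC, inv_int (cont_mul cD hX), ← intervalIntegral.integral_neg]
    simp only [map_mul, eD, oX, mul_neg]
  clear_value C
  rw [hl0, zero_mul, zero_add, mul_smul_comm, mul_assoc lam C Lb, odd_anti oC oLb, mul_neg,
    ← mul_assoc lam Lb C, smul_neg]
  abel

/-- `2 ∫ D X = ∫ (D X - L D')` if `L 0 = 0`, `D T = 0`. -/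
theorem two_C (hX : Continuous X) (hL : ∀ t, HasDerivAt L (X t) t)
    (hD' : Continuous D') (hD : ∀ t, HasDerivAt D (D' t) t) (h0 : L 0 = 0)
    (eD : ∀ t, inv (D t) = D t) :
    (2 : ℝ) • ∫ r in (0 : ℝ)..T, D r * X r =
      (∫ r in (0 : ℝ)..T, (D r * X r + -(L r) * D' r)) + L T * D T := by
  have cL : Continuous L := continuous_iff_continuousAt.2 fun t => (hL t).continuousAt
  have cD : Continuous D := continuous_iff_continuousAt.2 fun t => (hD t).continuousAt
  have h1 := int_parts (a := 0) (b := T) hL hD hX hD'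
  rw [h0, zero_mul, sub_zero] at h1
  have h2 : ∫ t in (0 : ℝ)..T, X t * D t = ∫ t in (0 : ℝ)..T, D t * X t := by
    refine intervalIntegral.integral_congr fun t _ => ?_
    exact (even_comm (eD t) (X t)).symm
  rw [h2] at h1
  have cLn : Continuous fun r => -(L r) := cL.neg
  rw [intervalIntegral.integral_add ((cont_mul cD hX).intervalIntegrable _ _)
    ((cont_mul cLn hD').intervalIntegrable _ _)]
  have h3 : ∫ t in (0 : ℝ)..T, -(L t) * D' t = - ∫ t in (0 : ℝ)..T, L t * D' t := by
    rw [← intervalIntegral.integral_neg]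
    simp only [neg_mul]
  rw [h3, h1, two_smul]
  abel

end one

end Crest.Agent.R208.AF
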