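import Crest.Agent.R208.AF2

/-! Row 208, block (A2) (helper601).  AF3: the restriction of the 29-form `psi` to a slice
`K × {1}` of a family of loops `K × S¹ → S`: `T² ψ = - L B - d (L L̄ η)` on `K`. -/

set_option autoImplicit false
set_option linter.unusedSectionVars false

open MeasureTheory Set Filter Topology Module
open scoped ContDiff
open Crest.Agent.R208.F Crest.Agent.R208.FI Crest.Agent.R208.CW Crest.Agent.R208.T

noncomputable section

namespace Crest.Agent.R208.AF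

section rs
variable {E : Type*} [NormedAddCommGroup E] [NormedSpace ℝ E] [FiniteDimensional ℝ E]
  (X : Set E) (x : E)

/-- restriction to the tangent space -/
def rs : Ext E →L[ℝ] Ext (Tan X x) :=
  LinearMap.toContinuousLinearMap (pb (Tan X x).subtype).toLinearMap

theorem rs_apply (c : Ext E) : rs X x c = pb (Tan X x).subtype c := rfl
theorem rs_mul (a b : Ext E) : rs X x (a * b) = rs X x a * rs X x b := by
  simp only [rs_apply, map_mul]
theorem rs_inv (a : Ext E) : inv (rs X x a) = rs X x (inv a) := by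
  simp only [rs_apply, pb_inv]

variable {X} {a b : E → Ext E}
theorem eqv_rs : Eqv X a b ↔ ∀ x ∈ X, rs X x (a x) = rs X x (b x) := eqv_iff

end rs

section psiK
universe u
variable {E : Type u} [NormedAddCommGroup E] [NormedSpace ℝ E] [FiniteDimensional ℝ E]

/-- average over a period -/
def av (T : ℝ) (g : E × ℝ → Ext E) (x : E) : Ext E := T⁻¹ • TI 0 T g x

/-- the weighted average -/
def Lm (T : ℝ) (ξ : E × ℝ → Ext E) (p : E × ℝ) : Ext E :=
  ∫ τ in (0 : ℝ)..T, (1 - τ / T) • ξ (p.1, p.2 + τ)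

/-- integrand of the second factor of `psiK` -/
def GK (T : ℝ) (W ξ : E × ℝ → Ext E) (p : E × ℝ) : Ext E :=
  ((2 : ℝ) • (ξ p * W p) + av T ξ p.1 * W p + av T W p.1 * ξ p) * Lm T ξ p

/-- the 29-form of a family of loops, on the slice -/
def psiK (T : ℝ) (W ξ : E × ℝ → Ext E) (x : E) : Ext E := av T ξ x * av T (GK T W ξ) x

/-- the cubic integrand -/
def bb (a : E → Ext E) (ξ : E × ℝ → Ext E) (p : E × ℝ) : Ext E :=
  ((3 : ℝ) • a p.1 + (2 : ℝ) • dF (PL ξ) p) * ξ p * PL ξ p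

variable {X : Set E} {ξ W : E × ℝ → Ext E} {T : ℝ} {a : E → Ext E} {x : E}

theorem cont_Lm (hξ : SmF X ξ) (hx : x ∈ X) : Continuous fun t => Lm T ξ (x, t) := by
  have h1 := hξ.cont hx
  refine intervalIntegral.continuous_parametric_intervalIntegral_of_continuous'
    (f := fun t τ : ℝ => (1 - τ / T) • ξ (x, t + τ)) ?_ 0 T
  have h2 : Continuous fun p : ℝ × ℝ => p.1 + p.2 := by fun_prop
  have h3 : Continuous fun p : ℝ × ℝ => 1 - p.2 / T := by fun_prop
  exact h3.smul (h1.comp h2)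

theorem SmF.av (hg : SmF X W) (T : ℝ) : Sm X (av T W) := fun _ hx =>
  ContDiffAt.smul (f := fun _ : E => T⁻¹) (g := AF.TI 0 T W) contDiffAt_const (hg.TI 0 T hx)

theorem SmF.d_av (hg : SmF X W) (T : ℝ) (hx : x ∈ X) :
    F.d (AF.av T W) x = AF.av T (AF.dF W) x := by
  have h : AF.av T W = fun x => T⁻¹ • AF.TI 0 T W x := rfl
  rw [h, d_const_smul _ ((SmF.TI hg 0 T hx).differentiableAt (by simp)), hg.d_TI 0 T hx]
  rfl

theorem rs_int {g : ℝ → Ext E} (hg : Continuous g) (c d : ℝ) :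
    rs X x (∫ t in c..d, g t) = ∫ t in c..d, rs X x (g t) :=
  ((rs X x).intervalIntegral_comp_comm (hg.intervalIntegrable _ _)).symm

theorem rs_TI {g : E × ℝ → Ext E} (hg : Continuous fun t => g (x, t)) (c d : ℝ) :
    rs X x (TI c d g x) = ∫ t in c..d, rs X x (g (x, t)) := rs_int hg c d

theorem rs_av {g : E × ℝ → Ext E} (hg : Continuous fun t => g (x, t)) (T : ℝ) :
    rs X x (av T g x) = T⁻¹ • ∫ t in (0 : ℝ)..T, rs X x (g (x, t)) := by
  rw [av, map_smul, rs_TI hg]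

theorem inv_d_of_odd {f : E → Ext E} (hf : DifferentiableAt ℝ f x) (ho : ∀ᶠ y in 𝓝 x, inv (f y) = - f y) :
    inv (F.d f x) = F.d f x := by
  have h1 := CW.d_inv hf
  have h2 : (fun y => inv (f y)) =ᶠ[𝓝 x] fun y => - f y := ho
  rw [d_congr h2, F.d_neg] at h1
  exact neg_injective h1.symm

/-- **main identity on the slice**. -/
theorem psiK_eqv (hT : T ≠ 0) (hξ : SmF X ξ) (hW : SmF X W)
    (oξ : ∀ p, inv (ξ p) = - ξ p) (ea : ∀ x, inv (a x) = a x)
    (hper : ∀ x ∈ X, ∀ t, rs X x (ξ (x, t + T)) = rs X x (ξ (x, t)))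
    (hWa : ∀ x ∈ X, ∀ t, rs X x (W (x, t)) = rs X x (a x + dF (PL ξ) (x, t)))
    (hD0 : ∀ x ∈ X, rs X x (dF (PL ξ) (x, T)) = 0) :
    Eqv X ((T ^ 2) • psiK T W ξ)
      (-(TI 0 T ξ * TI 0 T (bb a ξ)) -
        F.d (TI 0 T ξ * (av T (PL ξ) * TI 0 T (fun p => PL ξ p * ξ p)))) := by
  refine eqv_rs.2 fun x hx => ?_
  have hP : SmF X (PL ξ) := hξ.PL
  have hPξ : SmF X (fun p => PL ξ p * ξ p) := hP.mul hξ
  have cξ := hξ.cont hx
  have cW := hW.cont hx
  have cP := hP.cont hx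
  have cDP := hP.dF.cont hx
  have oP : ∀ t, inv (PL ξ (x, t)) = - PL ξ (x, t) := by
    intro t
    show inv (∫ s in (0 : ℝ)..t, ξ (x, s)) = - ∫ s in (0 : ℝ)..t, ξ (x, s)
    rw [inv_int cξ, ← intervalIntegral.integral_neg]
    simp only [oξ]
  have hdP : ∀ t, dF (PL ξ) (x, t) = ∫ s in (0 : ℝ)..t, dF ξ (x, s) := fun t => hξ.dF_PL hx t
  have cdξ := hξ.dF.cont hx
  have eD : ∀ t, inv (dF (PL ξ) (x, t)) = dF (PL ξ) (x, t) := by
    intro t
    rw [hdP, inv_int cdξ]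
    refine intervalIntegral.integral_congr fun s _ => ?_
    exact inv_d_of_odd ((hξ.slice hx s).differentiableAt (by simp))
      (Eventually.of_forall fun y => oξ _)
  -- curves
  set R := rs X x with hR
  set X1 : ℝ → Ext (Tan X x) := fun t => R (ξ (x, t)) with hX1
  set L1 : ℝ → Ext (Tan X x) := fun t => R (PL ξ (x, t)) with hL1
  set D1 : ℝ → Ext (Tan X x) := fun t => R (dF (PL ξ) (x, t)) with hD1
  set D1' : ℝ → Ext (Tan X x) := fun t => R (dF ξ (x, t)) with hD1'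
  have cX1 : Continuous X1 := R.continuous.comp cξ
  have cD1' : Continuous D1' := R.continuous.comp cdξ
  have dL1 : ∀ t, HasDerivAt L1 (X1 t) t := fun t =>
    R.hasFDerivAt.comp_hasDerivAt t (hξ.hasDerivAt_PL hx t)
  have dD1 : ∀ t, HasDerivAt D1 (D1' t) t := by
    intro t
    have h1 := hξ.dF.hasDerivAt_PL hx t
    have h2 : D1 = fun t => R (PL (dF ξ) (x, t)) := by
      funext t
      simp only [hD1]
      rw [hdP]; rfl
    rw [h2]
    exact R.hasFDerivAt.comp_hasDerivAt t h1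
  have L10 : L1 0 = 0 := by simp only [hL1, PL_zero, map_zero]
  have oX1 : ∀ t, inv (X1 t) = - X1 t := fun t => by
    simp only [hX1, hR]; rw [rs_inv, oξ, map_neg]
  have oL1 : ∀ t, inv (L1 t) = - L1 t := fun t => by
    simp only [hL1, hR]; rw [rs_inv, oP, map_neg]
  have eD1 : ∀ t, inv (D1 t) = D1 t := fun t => by
    simp only [hD1, hR]; rw [rs_inv, eD]
  have eα : inv (R (a x)) = R (a x) := by rw [hR, rs_inv, ea]
  have hpsi := psi_one (α := R (a x)) hT cX1 dL1 dD1 (hper x hx) L10 oX1 oL1 eD1 eα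
  have h2C := two_C (T := T) cX1 dL1 cD1' dD1 L10 eD1
  have hDT : D1 T = 0 := hD0 x hx
  rw [hDT, mul_zero, add_zero] at h2C
  -- left side
  have rW : ∀ t, R (W (x, t)) = R (a x) + D1 t := fun t => by
    rw [hWa x hx t, map_add]
  have rav : R (av T ξ x) = T⁻¹ • ∫ s in (0 : ℝ)..T, X1 s := rs_av cξ T
  have ravW : R (av T W x) = T⁻¹ • ∫ s in (0 : ℝ)..T, (R (a x) + D1 s) := by
    rw [hR, rs_av cW]
    simp only [← hR, rW]
  have rLm : ∀ t, R (Lm T ξ (x, t)) = ∫ τ in (0 : ℝ)..T, (1 - τ / T) • X1 (t + τ) := by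
    intro t
    have c1 : Continuous fun τ => (1 - τ / T) • ξ (x, t + τ) := by
      have h2 : Continuous fun τ : ℝ => t + τ := by fun_prop
      have h3 : Continuous fun τ : ℝ => 1 - τ / T := by fun_prop
      exact h3.smul (cξ.comp h2)
    show R (∫ τ in (0 : ℝ)..T, (1 - τ / T) • ξ (x, t + τ)) = _
    rw [hR, rs_int c1]
    simp only [map_smul, hX1, hR]
  have cG : Continuous fun t => GK T W ξ (x, t) := by
    have q1 : Continuous fun t => (2 : ℝ) • (ξ (x, t) * W (x, t)) := (cont_mul cξ cW).const_smul 2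
    have q2 : Continuous fun t => av T ξ x * W (x, t) := cont_mul continuous_const cW
    have q3 : Continuous fun t => av T W x * ξ (x, t) := cont_mul continuous_const cξ
    have q4 : Continuous fun t => (2 : ℝ) • (ξ (x, t) * W (x, t)) + av T ξ x * W (x, t) +
      av T W x * ξ (x, t) := (q1.add q2).add q3
    exact cont_mul q4 (cont_Lm hξ hx)
  have rG : R (av T (GK T W ξ) x) = T⁻¹ • ∫ r in (0 : ℝ)..T,
      ((2 : ℝ) • (X1 r * (R (a x) + D1 r)) + (T⁻¹ • ∫ s in (0 : ℝ)..T, X1 s) * (R (a x) + D1 r) +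
        (T⁻¹ • ∫ s in (0 : ℝ)..T, (R (a x) + D1 s)) * X1 r) *
          ∫ τ in (0 : ℝ)..T, (1 - τ / T) • X1 (r + τ) := by
    rw [hR, rs_av cG]
    congr 1
    refine intervalIntegral.integral_congr fun t _ => ?_
    simp only [GK, ← hR]
    rw [hR, rs_mul, map_add, map_add, map_smul, rs_mul, rs_mul, rs_mul, ← hR, rW, rav, ravW, rLm]
  have lhs : R (((T ^ 2) • psiK T W ξ) x) = (T ^ 2) • (R (av T ξ x) * R (av T (GK T W ξ) x)) := by
    rw [Pi.smul_apply, map_smul, psiK, hR, rs_mul]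
  rw [lhs, rav, rG, hpsi]
  -- right side
  have sT : Sm X (TI 0 T ξ) := hξ.sm_TI 0 T
  have sav : Sm X (av T (PL ξ)) := hP.av T
  have sη : Sm X (TI 0 T (fun p => PL ξ p * ξ p)) := hPξ.sm_TI 0 T
  have rT : R (TI 0 T ξ x) = L1 T := rfl
  have odT : inv (TI 0 T ξ x) = - TI 0 T ξ x := oP T
  have oav : inv (av T (PL ξ) x) = - av T (PL ξ) x := by
    show inv (T⁻¹ • ∫ s in (0 : ℝ)..T, PL ξ (x, s)) = - (T⁻¹ • ∫ s in (0 : ℝ)..T, PL ξ (x, s))
    rw [map_smul, inv_int cP, ← smul_neg, ← intervalIntegral.integral_neg]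
    simp only [oP]
  have cbb : Continuous fun t => bb a ξ (x, t) := by
    have q1 : Continuous fun t => (3 : ℝ) • a x + (2 : ℝ) • dF (PL ξ) (x, t) :=
      continuous_const.add (cDP.const_smul 2)
    exact cont_mul (cont_mul q1 cξ) cP
  have rB : R (TI 0 T (bb a ξ) x) = ∫ r in (0 : ℝ)..T,
      ((3 : ℝ) • R (a x) + (2 : ℝ) • D1 r) * X1 r * L1 r := by
    rw [hR, rs_TI cbb]
    refine intervalIntegral.integral_congr fun t _ => ?_
    simp only [bb]
    rw [rs_mul, rs_mul, map_add, map_smul, map_smul]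
  have hd : F.d (TI 0 T ξ * (av T (PL ξ) * TI 0 T (fun p => PL ξ p * ξ p))) x =
      F.d (TI 0 T ξ) x * (av T (PL ξ) x * TI 0 T (fun p => PL ξ p * ξ p) x) +
        inv (TI 0 T ξ x) * (F.d (av T (PL ξ)) x * TI 0 T (fun p => PL ξ p * ξ p) x +
          inv (av T (PL ξ) x) * F.d (TI 0 T (fun p => PL ξ p * ξ p)) x) := by
    have e1 : F.d (TI 0 T ξ * (av T (PL ξ) * TI 0 T (fun p => PL ξ p * ξ p))) x =
      F.d (TI 0 T ξ) x * (av T (PL ξ) * TI 0 T (fun p => PL ξ p * ξ p)) x +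
        inv (TI 0 T ξ x) * F.d (av T (PL ξ) * TI 0 T (fun p => PL ξ p * ξ p)) x :=
      F.d_mul (sT.diff hx) ((sav.mul sη).diff hx)
    have e2 : F.d (av T (PL ξ) * TI 0 T (fun p => PL ξ p * ξ p)) x =
      F.d (av T (PL ξ)) x * TI 0 T (fun p => PL ξ p * ξ p) x +
          inv (av T (PL ξ) x) * F.d (TI 0 T (fun p => PL ξ p * ξ p)) x :=
      F.d_mul (sav.diff hx) (sη.diff hx)
    rw [e1, e2]; rfl
  have rdT : R (F.d (TI 0 T ξ) x) = 0 := hD0 x hx
  have rdav : R (F.d (av T (PL ξ)) x) = T⁻¹ • ∫ s in (0 : ℝ)..T, D1 s := by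
    rw [hP.d_av T hx, hR, rs_av cDP]
  have rη : R (TI 0 T (fun p => PL ξ p * ξ p) x) = ∫ r in (0 : ℝ)..T, L1 r * X1 r := by
    rw [hR, rs_TI (cont_mul cP cξ)]
    refine intervalIntegral.integral_congr fun t _ => ?_
    exact rs_mul X x _ _
  have rav2 : R (av T (PL ξ) x) = T⁻¹ • ∫ s in (0 : ℝ)..T, L1 s := by rw [hR, rs_av cP]
  have rdη : R (F.d (TI 0 T (fun p => PL ξ p * ξ p)) x) =
      ∫ r in (0 : ℝ)..T, (D1 r * X1 r + -(L1 r) * D1' r) := by
    rw [hPξ.d_TI 0 T hx, hR, rs_TI (hPξ.dF.cont hx)]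
    refine intervalIntegral.integral_congr fun t _ => ?_
    show rs X x (dF (fun p => PL ξ p * ξ p) (x, t)) = _
    rw [dF_mul hP hξ hx t, map_add, rs_mul, rs_mul, oP, map_neg]
  have Rm : ∀ a b, R (a * b) = R a * R b := rs_mul X x
  rw [Pi.sub_apply, Pi.neg_apply, Pi.mul_apply, hd, odT, oav]
  simp only [map_sub, map_neg, map_add, Rm, rdT, rT, rB, zero_mul, zero_add, rdav, rη, rav2, rdη]
  rw [← h2C]
  simp only [neg_mul, mul_neg, mul_add, mul_assoc]
  abel

end psiK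

end Crest.Agent.R208.AF
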