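import Crest.Agent.R208.AF3

/-! Row 208, block (A2) (helper601).  AF4: the forms `ξ_t`, `W_t` of a family of maps
`Fm : X × ℝ → Y`, and their values on a window where the family is `G (pr x, h t)`. -/

set_option autoImplicit false
set_option linter.unusedSectionVars false

open MeasureTheory Set Filter Topology Module
open scoped ContDiff
open Crest.Agent.R208.F Crest.Agent.R208.FI Crest.Agent.R208.CW Crest.Agent.R208.T

noncomputable section

namespace Crest.Agent.R208.AF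

section fam
universe u
variable {E : Type u} [NormedAddCommGroup E] [NormedSpace ℝ E] [FiniteDimensional ℝ E]
  {E' : Type*} [NormedAddCommGroup E'] [NormedSpace ℝ E'] [FiniteDimensional ℝ E']
  {X : Set E} {Y : Set E'} {Fm : E × ℝ → E'} {om : E' → Ext E'} {x : E} {t : ℝ}

/-- smooth families of maps -/
structure Fam (X : Set E) (Y : Set E') (Fm : E × ℝ → E') : Prop where
  sm : ∀ x ∈ X, ∀ t, ContDiffAt ℝ ∞ Fm (x, t)
  maps : ∀ x ∈ X, ∀ t, Fm (x, t) ∈ Y

/-- `ι_{∂_t} F^* om` on the slices -/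
def xiF (Fm : E × ℝ → E') (om : E' → Ext E') (p : E × ℝ) : Ext E :=
  hopL (ContinuousLinearMap.inl ℝ E ℝ) ((0, 1) : E × ℝ) (pull Fm om p)

/-- `F_t^* om` -/
def WF (Fm : E × ℝ → E') (om : E' → Ext E') (p : E × ℝ) : Ext E :=
  pull (fun y => Fm (y, p.2)) om p.1

theorem xiF_eq (Fm : E × ℝ → E') (om : E' → Ext E') (p : E × ℝ) : xiF Fm om p =
    pb (((fderiv ℝ Fm p).comp (ContinuousLinearMap.inl ℝ E ℝ) : E →L[ℝ] E') : E →ₗ[ℝ] E')
      (ii (fderiv ℝ Fm p (0, 1)) (om (Fm p))) := by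
  rw [xiF, hopL_apply, pull, ii_pb, pb_comp]
  rfl

theorem WF_eq {p : E × ℝ} (h : DifferentiableAt ℝ Fm p) :
    WF Fm om p = pbL (ContinuousLinearMap.inl ℝ E ℝ) (pull Fm om p) := by
  have h1 := pbL_pull (j := ContinuousLinearMap.inl ℝ E ℝ) (v := ((0, 1) : E × ℝ)) (Fh := Fm)
    (om := om) (x := p.1) (t := p.2) (by rw [jv_inl]; exact h)
  simp only [jv_inl] at h1
  exact h1.symm

theorem Fam.smF_xi (h : Fam X Y Fm) (hs : Sm Y om) : SmF X (xiF Fm om) := fun x hx t =>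
  (hopL _ _).contDiff.contDiffAt.comp (x, t)
    (contDiffAt_pull (h.sm x hx t) (by simp) (hs _ (h.maps x hx t)))

theorem Fam.smF_W (h : Fam X Y Fm) (hs : Sm Y om) : SmF X (WF Fm om) := by
  intro x hx t
  have h1 : ContDiffAt ℝ ∞ (fun p => pbL (ContinuousLinearMap.inl ℝ E ℝ) (pull Fm om p)) (x, t) :=
    (pbL _).contDiff.contDiffAt.comp (x, t)
      (contDiffAt_pull (h.sm x hx t) (by simp) (hs _ (h.maps x hx t)))
  refine h1.congr_of_eventuallyEq ?_
  have h2 : ∀ᶠ p in 𝓝 (x, t), ContDiffAt ℝ 1 Fm p :=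
    ((h.sm x hx t).of_le (by exact_mod_cast le_top)).eventually (by simp)
  filter_upwards [h2] with p hp
  exact WF_eq (hp.differentiableAt (by norm_num))

theorem inv_xiF (he : ∀ y, inv (om y) = om y) (p : E × ℝ) : inv (xiF Fm om p) = - xiF Fm om p := by
  rw [xiF_eq, ← pb_inv, inv_ii, he, map_neg]

theorem inv_WF (he : ∀ y, inv (om y) = om y) (p : E × ℝ) : inv (WF Fm om p) = WF Fm om p := by
  rw [WF, pull, ← pb_inv, he]

/-- `PL ξ (x,t)` is the homotopy operator for the path `s ↦ (x, s t)` -/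
theorem hop_eq_PL (Fm : E × ℝ → E') (om : E' → Ext E') (t : ℝ) :
    hop (ContinuousLinearMap.inl ℝ E ℝ) ((0, t) : E × ℝ) (pull Fm om) =
      fun x => PL (xiF Fm om) (x, t) := by
  funext x
  rw [PL_eq]
  show (∫ s in (0 : ℝ)..1, hopg (ContinuousLinearMap.inl ℝ E ℝ) ((0, t) : E × ℝ) (pull Fm om) (x, s))
    = t • ∫ s in (0 : ℝ)..1, xiF Fm om (x, t * s)
  rw [← intervalIntegral.integral_smul]
  refine intervalIntegral.integral_congr fun s _ => ?_
  have h1 : jv (ContinuousLinearMap.inl ℝ E ℝ) ((0, t) : E × ℝ) (x, s) = (x, t * s) := by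
    rw [jv_apply]; simp [mul_comm]
  have h2 : ((0, t) : E × ℝ) = t • ((0, 1) : E × ℝ) := by simp
  simp only [hopg, h1]
  rw [hopL_apply, xiF, hopL_apply, h2, map_smul, LinearMap.smul_apply, map_smul]

/-- `W_t = W_0 + d (∫_0^t ξ)` -/
theorem Fam.rs_W (h : Fam X Y Fm) (hs : Sm Y om) (hc : Cl Y om) (hx : x ∈ X) (t : ℝ) :
    rs X x (WF Fm om (x, t)) = rs X x (WF Fm om (x, 0) + dF (PL (xiF Fm om)) (x, t)) := by
  have hj : ∀ (y : E) (s : ℝ), jv (ContinuousLinearMap.inl ℝ E ℝ) ((0, t) : E × ℝ) (y, s) =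
      (y, s * t) := by
    intro y s; rw [jv_apply]; simp
  have h1 := resZero_homotopy (j := ContinuousLinearMap.inl ℝ E ℝ) (v := ((0, t) : E × ℝ))
    (Fh := Fm) (om := om) (X := X) (Y := Y)
    (fun x hx s _ => by rw [hj]; exact (h.sm x hx _).of_le two_le)
    (fun x hx s _ => by rw [hj]; exact h.maps x hx _)
    (fun y hy => (hs y hy).of_le (by exact_mod_cast le_top)) hc x hx
  simp only [hj, one_mul, zero_mul] at h1
  rw [hop_eq_PL] at h1
  have h2 : rs X x (WF Fm om (x, t) - WF Fm om (x, 0) - dF (PL (xiF Fm om)) (x, t)) = 0 := h1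
  rw [map_sub, map_sub, sub_sub, sub_eq_zero, ← map_add] at h2
  exact h2

end fam

/-! ### windows -/
section window
universe u v
variable {E : Type u} [NormedAddCommGroup E] [NormedSpace ℝ E] [FiniteDimensional ℝ E]
  {E₁ : Type v} [NormedAddCommGroup E₁] [NormedSpace ℝ E₁] [FiniteDimensional ℝ E₁]
  {E' : Type*} [NormedAddCommGroup E'] [NormedSpace ℝ E'] [FiniteDimensional ℝ E']
  {X : Set E} {U : Set E₁} {Y : Set E'} {Fm : E × ℝ → E'} {G : E₁ × ℝ → E'} {om : E' → Ext E'}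
  {pr : E → E₁} {h h' : ℝ → ℝ} {x : E} {t : ℝ} {I : Set ℝ}

/-- **window lemma** -/
theorem xiF_window (hF : Fam X Y Fm) (hG : Fam U Y G) (hpr : SMap X U pr)
    (hI : IsOpen I) (hh : ∀ t, HasDerivAt h (h' t) t)
    (he : ∀ x ∈ X, ∀ t ∈ I, Fm (x, t) = G (pr x, h t)) (hx : x ∈ X) (ht : t ∈ I) :
    rs X x (xiF Fm om (x, t)) = h' t • rs X x (pull pr (fun z => xiF G om (z, h t)) x) := by
  have dF' : HasFDerivAt Fm (fderiv ℝ Fm (x, t)) (x, t) :=
    ((hF.sm x hx t).differentiableAt (by simp)).hasFDerivAt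
  have dG : HasFDerivAt G (fderiv ℝ G (pr x, h t)) (pr x, h t) :=
    ((hG.sm _ (hpr.maps hx) (h t)).differentiableAt (by simp)).hasFDerivAt
  have dpr : HasFDerivAt pr (fderiv ℝ pr x) x := (hpr.diff hx).hasFDerivAt
  -- time derivative
  have e1 : fderiv ℝ Fm (x, t) (0, 1) = h' t • fderiv ℝ G (pr x, h t) (0, 1) := by
    have h1 : HasDerivAt (fun s => ((x, s) : E × ℝ)) (0, 1) t :=
      (hasDerivAt_const t x).prodMk (hasDerivAt_id t)
    have h2 : HasDerivAt (fun s => Fm (x, s)) (fderiv ℝ Fm (x, t) (0, 1)) t :=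
      dF'.comp_hasDerivAt t h1
    have h3 : HasDerivAt (fun s => ((pr x, h s) : E₁ × ℝ)) (0, h' t) t :=
      (hasDerivAt_const t (pr x)).prodMk (hh t)
    have h4 : HasDerivAt (fun s => G (pr x, h s)) (fderiv ℝ G (pr x, h t) (0, h' t)) t :=
      dG.comp_hasDerivAt t h3
    have h5 : (fun s => Fm (x, s)) =ᶠ[𝓝 t] fun s => G (pr x, h s) := by
      filter_upwards [hI.mem_nhds ht] with s hs using he x hx s hs
    have h6 := (h4.congr_of_eventuallyEq h5).unique h2
    rw [← h6, ← map_smul]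
    congr 1
    simp
  -- space derivatives
  have e2 : ∀ w ∈ Tan X x, fderiv ℝ Fm (x, t) (w, 0) =
      fderiv ℝ G (pr x, h t) (fderiv ℝ pr x w, 0) := by
    intro w hw
    have dF2 : HasFDerivAt (fun y => Fm (y, t)) ((fderiv ℝ Fm (x, t)).comp
        (ContinuousLinearMap.inl ℝ E ℝ)) x :=
      dF'.comp x ((hasFDerivAt_id x).prodMk (hasFDerivAt_const t x))
    have dG2 : HasFDerivAt (fun y => G (pr y, h t)) ((fderiv ℝ G (pr x, h t)).comp
        ((fderiv ℝ pr x).prod 0)) x :=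
      dG.comp x (dpr.prodMk (hasFDerivAt_const (h t) x))
    have key : ∀ w ∈ Tan X x, ((fderiv ℝ Fm (x, t)).comp (ContinuousLinearMap.inl ℝ E ℝ)) w =
        ((fderiv ℝ G (pr x, h t)).comp ((fderiv ℝ pr x).prod 0)) w := by
      intro w hw
      refine Submodule.span_induction (p := fun w _ =>
        ((fderiv ℝ Fm (x, t)).comp (ContinuousLinearMap.inl ℝ E ℝ)) w =
        ((fderiv ℝ G (pr x, h t)).comp ((fderiv ℝ pr x).prod 0)) w) ?_ ?_ ?_ ?_ hw
      · rintro w ⟨γ, rfl, hγ, hS⟩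
        have h1 := dF2.comp_hasDerivAt 0 hγ
        have h2 := dG2.comp_hasDerivAt 0 hγ
        have h3 : ((fun y => Fm (y, t)) ∘ γ) =ᶠ[𝓝 0] ((fun y => G (pr y, h t)) ∘ γ) :=
          hS.mono fun s hs => he _ hs t ht
        exact (h1.congr_of_eventuallyEq h3.symm).unique h2
      · simp only [map_zero]
      · intro a b _ _ ha hb; simp only [map_add, ha, hb]
      · intro r a _ ha; simp only [map_smul, ha]
    have := key w hw
    simpa using this
  rw [rs_apply, rs_apply, xiF_eq, pull, xiF_eq, e1, map_smul, LinearMap.smul_apply, map_smul,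
    map_smul, he x hx t ht, pb_comp, pb_comp, pb_comp]
  congr 3
  refine LinearMap.ext fun w => ?_
  have := e2 w w.2
  simpa using this

end window

end Crest.Agent.R208.AF
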