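import Crest.Agent.R208.AF4

/-! Row 208, block (A2) (helper601).  AF5: the integrals over one window. -/

set_option autoImplicit false
set_option linter.unusedSectionVars false

open MeasureTheory Set Filter Topology Module
open scoped ContDiff
open Crest.Agent.R208.F Crest.Agent.R208.FI Crest.Agent.R208.CW Crest.Agent.R208.T

noncomputable section

namespace Crest.Agent.R208.AF

section um
universe v
variable {E₁ : Type v} [NormedAddCommGroup E₁] [NormedSpace ℝ E₁] [FiniteDimensional ℝ E₁]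
  {E' : Type*} [NormedAddCommGroup E'] [NormedSpace ℝ E'] [FiniteDimensional ℝ E']

/-- `∫_0^s ι G^* om` -/
def ell (G : E₁ × ℝ → E') (om : E' → Ext E') : E₁ × ℝ → Ext E₁ := PL (xiF G om)
/-- `∫_0^1 ι G^* om` -/
def lam (G : E₁ × ℝ → E') (om : E' → Ext E') : E₁ → Ext E₁ := TI 0 1 (xiF G om)
/-- `∫ ℓ θ` -/
def eta (G : E₁ × ℝ → E') (om : E' → Ext E') : E₁ → Ext E₁ :=
  TI 0 1 (fun p => ell G om p * xiF G om p)
/-- `∫ W θ` -/
def MM (G : E₁ × ℝ → E') (om : E' → Ext E') : E₁ → Ext E₁ :=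
  TI 0 1 (fun p => WF G om p * xiF G om p)
/-- `∫ W θ ℓ` -/
def NN (G : E₁ × ℝ → E') (om : E' → Ext E') : E₁ → Ext E₁ :=
  TI 0 1 (fun p => WF G om p * xiF G om p * ell G om p)

variable {U : Set E₁} {Y : Set E'} {G : E₁ × ℝ → E'} {om : E' → Ext E'}

theorem sm_lam (hG : Fam U Y G) (hs : Sm Y om) : Sm U (lam G om) := (hG.smF_xi hs).sm_TI 0 1
theorem sm_eta (hG : Fam U Y G) (hs : Sm Y om) : Sm U (eta G om) :=
  ((hG.smF_xi hs).PL.mul (hG.smF_xi hs)).sm_TI 0 1
theorem sm_MM (hG : Fam U Y G) (hs : Sm Y om) : Sm U (MM G om) :=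
  ((hG.smF_W hs).mul (hG.smF_xi hs)).sm_TI 0 1
theorem sm_NN (hG : Fam U Y G) (hs : Sm Y om) : Sm U (NN G om) :=
  (((hG.smF_W hs).mul (hG.smF_xi hs)).mul (hG.smF_xi hs).PL).sm_TI 0 1

end um

section win
universe u v
variable {E : Type u} [NormedAddCommGroup E] [NormedSpace ℝ E] [FiniteDimensional ℝ E]
  {E₁ : Type v} [NormedAddCommGroup E₁] [NormedSpace ℝ E₁] [FiniteDimensional ℝ E₁]
  {E' : Type*} [NormedAddCommGroup E'] [NormedSpace ℝ E'] [FiniteDimensional ℝ E']
  {X : Set E} {U : Set E₁} {Y : Set E'} {Fm : E × ℝ → E'} {G : E₁ × ℝ → E'} {om : E' → Ext E'}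
  {pr : E → E₁} {h h' : ℝ → ℝ} {x : E} {t α β : ℝ}

/-- restriction of a pulled back form, at a point -/
def Pr (X : Set E) (pr : E → E₁) (x : E) : Ext E₁ →L[ℝ] Ext (Tan X x) :=
  (rs X x).comp (pbL (fderiv ℝ pr x))

theorem Pr_apply (w : E₁ → Ext E₁) : Pr X pr x (w (pr x)) = rs X x (pull pr w x) := rfl
theorem Pr_mul (a b : Ext E₁) : Pr X pr x (a * b) = Pr X pr x a * Pr X pr x b := by
  show rs X x (pb _ (a * b)) = rs X x (pb _ a) * rs X x (pb _ b)
  rw [map_mul, rs_mul]
theorem Pr_inv (a : Ext E₁) : inv (Pr X pr x a) = Pr X pr x (inv a) := by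
  show inv (rs X x (pb _ a)) = rs X x (pb _ (inv a))
  rw [rs_inv, ← pb_inv]

/-- data of one window -/
structure Win (X : Set E) (U : Set E₁) (Y : Set E') (Fm : E × ℝ → E') (G : E₁ × ℝ → E')
    (pr : E → E₁) (h h' : ℝ → ℝ) (α β : ℝ) : Prop where
  hF : Fam X Y Fm
  hG : Fam U Y G
  hpr : SMap X U pr
  lt : α < β
  hh : ∀ t, HasDerivAt h (h' t) t
  ch : Continuous h'
  eq : ∀ x ∈ X, ∀ t ∈ Ioo α β, Fm (x, t) = G (pr x, h t)

variable (w : Win X U Y Fm G pr h h' α β) (hs : Sm Y om)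
include w

theorem Win.c_h : Continuous h := continuous_iff_continuousAt.2 fun t => (w.hh t).continuousAt

theorem Win.eqOn {f g : ℝ → Ext (Tan X x)} (hf : Continuous f) (hg : Continuous g)
    (he : ∀ t ∈ Ioo α β, f t = g t) : ∀ t ∈ Icc α β, f t = g t := by
  have h1 : EqOn f g (closure (Ioo α β)) := EqOn.closure he hf hg
  rwa [closure_Ioo w.lt.ne] at h1

include hs

theorem Win.cont_th (hx : x ∈ X) : Continuous fun s => Pr X pr x (xiF G om (pr x, s)) :=
  (Pr X pr x).continuous.comp ((w.hG.smF_xi hs).cont (w.hpr.maps hx))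

theorem Win.cont_ell (hx : x ∈ X) : Continuous fun s => Pr X pr x (ell G om (pr x, s)) :=
  (Pr X pr x).continuous.comp ((w.hG.smF_xi hs).PL.cont (w.hpr.maps hx))

theorem Win.cont_W (hx : x ∈ X) : Continuous fun s => Pr X pr x (WF G om (pr x, s)) :=
  (Pr X pr x).continuous.comp ((w.hG.smF_W hs).cont (w.hpr.maps hx))

theorem Win.xi (hx : x ∈ X) : ∀ t ∈ Icc α β, rs X x (xiF Fm om (x, t)) =
    h' t • Pr X pr x (xiF G om (pr x, h t)) := by
  refine w.eqOn (f := fun t => rs X x (xiF Fm om (x, t)))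
    (g := fun t => h' t • Pr X pr x (xiF G om (pr x, h t)))
    ((rs X x).continuous.comp ((w.hF.smF_xi hs).cont hx))
    (w.ch.smul ((w.cont_th hs hx).comp w.c_h)) ?_
  intro t ht
  exact xiF_window w.hF w.hG w.hpr isOpen_Ioo w.hh w.eq hx ht

theorem Win.W (hx : x ∈ X) : ∀ t ∈ Icc α β, rs X x (WF Fm om (x, t)) =
    Pr X pr x (WF G om (pr x, h t)) := by
  refine w.eqOn (f := fun t => rs X x (WF Fm om (x, t)))
    (g := fun t => Pr X pr x (WF G om (pr x, h t)))
    ((rs X x).continuous.comp ((w.hF.smF_W hs).cont hx))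
    ((w.cont_W hs hx).comp w.c_h) ?_
  intro t ht
  have d1 : ∀ y ∈ X, DifferentiableAt ℝ (fun y => Fm (y, t)) y := fun y hy =>
    ((w.hF.sm y hy t).comp y (contDiffAt_id.prodMk contDiffAt_const)).differentiableAt (by simp)
  have d2 : ∀ z ∈ U, DifferentiableAt ℝ (fun z => G (z, h t)) z := fun y hy =>
    ((w.hG.sm y hy _).comp y (contDiffAt_id.prodMk contDiffAt_const)).differentiableAt (by simp)
  have h1 := eqv_rs.1 (eqv_pull_of_eq (X := X) (f := fun y => Fm (y, t))
    (g := fun y => G (pr y, h t)) om d1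
    (fun y hy => (d2 _ (w.hpr.maps hy)).comp y (w.hpr.diff hy)) (fun y hy => w.eq y hy t ht)) x hx
  have h2 : pull (fun y => G (pr y, h t)) om x = pull pr (fun z => WF G om (z, h t)) x :=
    (pull_comp (f := pr) (g := fun z => G (z, h t)) (w.hpr.diff hx) (d2 _ (w.hpr.maps hx))).symm
  show rs X x (pull (fun y => Fm (y, t)) om x) = _
  rw [h1, h2]
  rfl

theorem Win.PL (hx : x ∈ X) : ∀ t ∈ Icc α β, rs X x (AF.PL (xiF Fm om) (x, t)) =
    rs X x (AF.PL (xiF Fm om) (x, α)) - Pr X pr x (ell G om (pr x, h α)) +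
      Pr X pr x (ell G om (pr x, h t)) := by
  intro t ht
  have sF := w.hF.smF_xi hs
  have sG := w.hG.smF_xi hs
  have hz := w.hpr.maps hx
  have h1 : ∫ s in α..t, rs X x (xiF Fm om (x, s)) = rs X x (AF.PL (xiF Fm om) (x, t)) -
      rs X x (AF.PL (xiF Fm om) (x, α)) :=
    intervalIntegral.integral_eq_sub_of_hasDerivAt
      (fun s _ => (rs X x).hasFDerivAt.comp_hasDerivAt s (sF.hasDerivAt_PL hx s))
      (((rs X x).continuous.comp (sF.cont hx)).intervalIntegrable _ _)
  have h2 : ∀ s, HasDerivAt (fun s => Pr X pr x (ell G om (pr x, h s)))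
      (h' s • Pr X pr x (xiF G om (pr x, h s))) s := by
    intro s
    have h3 : HasDerivAt (fun s => Pr X pr x (ell G om (pr x, s)))
        (Pr X pr x (xiF G om (pr x, h s))) (h s) :=
      (Pr X pr x).hasFDerivAt.comp_hasDerivAt (h s) (sG.hasDerivAt_PL hz (h s))
    exact h3.scomp s (w.hh s)
  have h4 : ∫ s in α..t, h' s • Pr X pr x (xiF G om (pr x, h s)) =
      Pr X pr x (ell G om (pr x, h t)) - Pr X pr x (ell G om (pr x, h α)) :=
    intervalIntegral.integral_eq_sub_of_hasDerivAt (fun s _ => h2 s)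
      ((w.ch.smul ((w.cont_th hs hx).comp w.c_h)).intervalIntegrable _ _)
  have h5 : ∫ s in α..t, rs X x (xiF Fm om (x, s)) =
      ∫ s in α..t, h' s • Pr X pr x (xiF G om (pr x, h s)) := by
    refine intervalIntegral.integral_congr fun s hs' => ?_
    rw [uIcc_of_le ht.1] at hs'
    exact w.xi hs hx s ⟨hs'.1, hs'.2.trans ht.2⟩
  rw [h5, h4] at h1
  rw [sub_add_eq_add_sub, add_sub_assoc, h1]
  abel

/-- the integrand in terms of `s = h t` -/
theorem Win.int (hx : x ∈ X) (ra : Ext (Tan X x)) (σ : Ext (Tan X x))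
    (hσ : rs X x (AF.PL (xiF Fm om) (x, α)) - Pr X pr x (ell G om (pr x, h α)) = σ) :
    ∫ t in α..β, (ra + (2 : ℝ) • rs X x (WF Fm om (x, t))) * rs X x (xiF Fm om (x, t)) *
        rs X x (AF.PL (xiF Fm om) (x, t)) =
      ∫ s in h α..h β, (ra + (2 : ℝ) • Pr X pr x (WF G om (pr x, s))) *
        Pr X pr x (xiF G om (pr x, s)) * (σ + Pr X pr x (ell G om (pr x, s))) := by
  have cq : Continuous fun s => (ra + (2 : ℝ) • Pr X pr x (WF G om (pr x, s))) *
        Pr X pr x (xiF G om (pr x, s)) * (σ + Pr X pr x (ell G om (pr x, s))) := by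
    have q1 : Continuous fun s => ra + (2 : ℝ) • Pr X pr x (WF G om (pr x, s)) :=
      continuous_const.add ((w.cont_W hs hx).const_smul 2)
    have q2 : Continuous fun s => σ + Pr X pr x (ell G om (pr x, s)) :=
      continuous_const.add (w.cont_ell hs hx)
    exact cont_mul (cont_mul q1 (w.cont_th hs hx)) q2
  have h1 := intervalIntegral.integral_deriv_smul_comp (a := α) (b := β) (f := h) (f' := h')
    (g := fun s => (ra + (2 : ℝ) • Pr X pr x (WF G om (pr x, s))) *
        Pr X pr x (xiF G om (pr x, s)) * (σ + Pr X pr x (ell G om (pr x, s))))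
    (fun t _ => w.hh t) w.ch.continuousOn cq
  rw [← h1]
  refine intervalIntegral.integral_congr fun t ht => ?_
  rw [uIcc_of_le w.lt.le] at ht
  simp only [Function.comp_apply]
  rw [w.xi hs hx t ht, w.W hs hx t ht, w.PL hs hx t ht, hσ, mul_smul_comm, smul_mul_assoc]

/-- evaluation over `[0,1]` -/
theorem Win.val (he : ∀ y, inv (om y) = om y) (hx : x ∈ X) (ra σ : Ext (Tan X x)) :
    ∫ s in (0 : ℝ)..1, (ra + (2 : ℝ) • Pr X pr x (WF G om (pr x, s))) *
        Pr X pr x (xiF G om (pr x, s)) * (σ + Pr X pr x (ell G om (pr x, s))) =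
      ra * Pr X pr x (lam G om (pr x)) * σ - ra * Pr X pr x (eta G om (pr x)) +
        (2 : ℝ) • (Pr X pr x (MM G om (pr x)) * σ) + (2 : ℝ) • Pr X pr x (NN G om (pr x)) := by
  have cth := w.cont_th hs hx
  have cell := w.cont_ell hs hx
  have cW := w.cont_W hs hx
  have hz := w.hpr.maps hx
  have sG := w.hG.smF_xi hs
  have c1 : Continuous fun s => ra * Pr X pr x (xiF G om (pr x, s)) * σ :=
    cont_mul (cont_mul continuous_const cth) continuous_const
  have c2 : Continuous fun s => (2 : ℝ) • (Pr X pr x (WF G om (pr x, s)) *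
      Pr X pr x (xiF G om (pr x, s)) * σ) :=
    (cont_mul (cont_mul cW cth) continuous_const).const_smul 2
  have c3 : Continuous fun s => ra * (Pr X pr x (ell G om (pr x, s)) *
      Pr X pr x (xiF G om (pr x, s))) := cont_mul continuous_const (cont_mul cell cth)
  have c4 : Continuous fun s => (2 : ℝ) • (Pr X pr x (WF G om (pr x, s)) *
      Pr X pr x (xiF G om (pr x, s)) * Pr X pr x (ell G om (pr x, s))) :=
    (cont_mul (cont_mul cW cth) cell).const_smul 2
  have oell : ∀ s, inv (ell G om (pr x, s)) = - ell G om (pr x, s) := by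
    intro s
    show inv (∫ r in (0 : ℝ)..s, xiF G om (pr x, r)) = - ∫ r in (0 : ℝ)..s, xiF G om (pr x, r)
    rw [inv_int (sG.cont hz), ← intervalIntegral.integral_neg]
    simp only [inv_xiF he]
  have hpt : ∀ s, (ra + (2 : ℝ) • Pr X pr x (WF G om (pr x, s))) *
        Pr X pr x (xiF G om (pr x, s)) * (σ + Pr X pr x (ell G om (pr x, s))) =
      ra * Pr X pr x (xiF G om (pr x, s)) * σ + (2 : ℝ) • (Pr X pr x (WF G om (pr x, s)) *
      Pr X pr x (xiF G om (pr x, s)) * σ) - ra * (Pr X pr x (ell G om (pr x, s)) *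
      Pr X pr x (xiF G om (pr x, s))) + (2 : ℝ) • (Pr X pr x (WF G om (pr x, s)) *
      Pr X pr x (xiF G om (pr x, s)) * Pr X pr x (ell G om (pr x, s))) := by
    intro s
    have h1 : Pr X pr x (xiF G om (pr x, s)) * Pr X pr x (ell G om (pr x, s)) =
        - (Pr X pr x (ell G om (pr x, s)) * Pr X pr x (xiF G om (pr x, s))) :=
      odd_anti (by rw [Pr_inv, inv_xiF he, map_neg]) (by rw [Pr_inv, oell, map_neg])
    rw [mul_add, add_mul, add_mul, smul_mul_assoc, smul_mul_assoc, add_mul, smul_mul_assoc,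
      mul_assoc ra _ (Pr X pr x (ell G om (pr x, s))), h1, mul_neg]
    abel
  simp only [hpt]
  rw [int_comb c1 c2 c3 c4, int_right σ (cont_mul continuous_const cth), int_left ra cth,
    intervalIntegral.integral_smul, int_right σ (cont_mul cW cth), int_left ra (cont_mul cell cth),
    intervalIntegral.integral_smul]
  have r1 : ∫ s in (0 : ℝ)..1, Pr X pr x (xiF G om (pr x, s)) = Pr X pr x (lam G om (pr x)) :=
    (Pr X pr x).intervalIntegral_comp_comm ((sG.cont hz).intervalIntegrable _ _)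
  have r2 : ∫ s in (0 : ℝ)..1, Pr X pr x (WF G om (pr x, s)) * Pr X pr x (xiF G om (pr x, s)) =
      Pr X pr x (MM G om (pr x)) := by
    simp only [← Pr_mul]
    exact (Pr X pr x).intervalIntegral_comp_comm
      ((((w.hG.smF_W hs).mul sG).cont hz).intervalIntegrable _ _)
  have r3 : ∫ s in (0 : ℝ)..1, Pr X pr x (ell G om (pr x, s)) * Pr X pr x (xiF G om (pr x, s)) =
      Pr X pr x (eta G om (pr x)) := by
    simp only [← Pr_mul]
    exact (Pr X pr x).intervalIntegral_comp_comm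
      (((sG.PL.mul sG).cont hz).intervalIntegrable _ _)
  have r4 : ∫ s in (0 : ℝ)..1, Pr X pr x (WF G om (pr x, s)) * Pr X pr x (xiF G om (pr x, s)) *
      Pr X pr x (ell G om (pr x, s)) = Pr X pr x (NN G om (pr x)) := by
    simp only [← Pr_mul]
    exact (Pr X pr x).intervalIntegral_comp_comm
      (((((w.hG.smF_W hs).mul sG).mul sG.PL).cont hz).intervalIntegrable _ _)
  rw [r1, r2, r3, r4]
  abel

end win

end Crest.Agent.R208.AF
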