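import Crest.Agent.R208.AF5

/-! Row 208, block (A2) (helper601).  AF6: the family of loops with four arcs
`p -u₀-> q -u₁-> p -u₂-> q -u₃-> p`. -/

set_option autoImplicit false
set_option linter.unusedSectionVars false

open MeasureTheory Set Filter Topology Module
open scoped ContDiff
open Crest.Agent.R208.F Crest.Agent.R208.FI Crest.Agent.R208.CW Crest.Agent.R208.T

noncomputable section

namespace Crest.Agent.R208.AF

universe u v
variable {E : Type u} [NormedAddCommGroup E] [NormedSpace ℝ E] [FiniteDimensional ℝ E]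
  {E₁ : Type v} [NormedAddCommGroup E₁] [NormedSpace ℝ E₁] [FiniteDimensional ℝ E₁]
  {E' : Type*} [NormedAddCommGroup E'] [NormedSpace ℝ E'] [FiniteDimensional ℝ E']

/-- a family of loops of period `T` over `K`, with four arcs `G (pr i x, ·)`, run through forwards
(`i = 0, 2`) and backwards (`i = 1, 3`). -/
structure Four (K : Set E) (U : Set E₁) (Y : Set E') (Fm : E × ℝ → E') (G : E₁ × ℝ → E')
    (pr : Fin 4 → E → E₁) (h h' : ℝ → ℝ) (T : ℝ) : Prop where
  pos : 0 < T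
  hF : Fam K Y Fm
  hG : Fam U Y G
  hpr : ∀ i, SMap K U (pr i)
  hh : ∀ t, HasDerivAt h (h' t) t
  ch : Continuous h'
  h0 : h 0 = 0
  h1 : h (T / 4) = 1
  h2 : h (T / 2) = 0
  h3 : h (3 * T / 4) = 1
  h4 : h T = 0
  per : ∀ x ∈ K, ∀ t, Fm (x, t + T) = Fm (x, t)
  e0 : ∀ x ∈ K, ∀ t ∈ Ioo 0 (T / 4), Fm (x, t) = G (pr 0 x, h t)
  e1 : ∀ x ∈ K, ∀ t ∈ Ioo (T / 4) (T / 2), Fm (x, t) = G (pr 1 x, h t)
  e2 : ∀ x ∈ K, ∀ t ∈ Ioo (T / 2) (3 * T / 4), Fm (x, t) = G (pr 2 x, h t)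
  e3 : ∀ x ∈ K, ∀ t ∈ Ioo (3 * T / 4) T, Fm (x, t) = G (pr 3 x, h t)

/-- value of an arc: `a λ σ - a η + 2 M σ + 2 N` -/
def Ph (G : E₁ × ℝ → E') (om : E' → Ext E') (a : E → Ext E) (p : E → E₁) (σ : E → Ext E) :
    E → Ext E :=
  a * pull p (lam G om) * σ - a * pull p (eta G om) + (2 : ℝ) • (pull p (MM G om) * σ) +
    (2 : ℝ) • pull p (NN G om)

variable {K : Set E} {U : Set E₁} {Y : Set E'} {Fm : E × ℝ → E'} {G : E₁ × ℝ → E'}
    {pr : Fin 4 → E → E₁} {h h' : ℝ → ℝ} {T : ℝ} {om : E' → Ext E'} {x : E}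

/-- periodicity of `ξ` -/
theorem rs_per (hF : Fam K Y Fm) (per : ∀ x ∈ K, ∀ t, Fm (x, t + T) = Fm (x, t)) (hx : x ∈ K)
    (t : ℝ) : rs K x (xiF Fm om (x, t + T)) = rs K x (xiF Fm om (x, t)) := by
  have h1 := xiF_window (om := om) (pr := fun y : E => y) (h := fun t => t + T) (h' := fun _ => 1)
    (I := univ) hF hF
    (⟨fun _ _ => contDiffAt_id, fun _ h => h⟩ : SMap K K (fun y : E => y)) isOpen_univ
    (fun t => (hasDerivAt_id t).add_const T) (fun x hx t _ => (per x hx t).symm) hx (mem_univ t)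
  rw [one_smul, pull_id] at h1
  exact h1.symm

variable (w : Four K U Y Fm G pr h h' T) (hs : Sm Y om) (hc : Cl Y om)
  (he : ∀ y, inv (om y) = om y)
include w

theorem Four.w0 : Win K U Y Fm G (pr 0) h h' 0 (T / 4) :=
  ⟨w.hF, w.hG, w.hpr 0, by have := w.pos; linarith, w.hh, w.ch, w.e0⟩
theorem Four.w1 : Win K U Y Fm G (pr 1) h h' (T / 4) (T / 2) :=
  ⟨w.hF, w.hG, w.hpr 1, by have := w.pos; linarith, w.hh, w.ch, w.e1⟩
theorem Four.w2 : Win K U Y Fm G (pr 2) h h' (T / 2) (3 * T / 4) :=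
  ⟨w.hF, w.hG, w.hpr 2, by have := w.pos; linarith, w.hh, w.ch, w.e2⟩
theorem Four.w3 : Win K U Y Fm G (pr 3) h h' (3 * T / 4) T :=
  ⟨w.hF, w.hG, w.hpr 3, by have := w.pos; linarith, w.hh, w.ch, w.e3⟩

include hs

/-- `∫_0^{c_i} ξ` at the corners -/
theorem Four.corners (hx : x ∈ K) :
    rs K x (PL (xiF Fm om) (x, T / 4)) = Pr K (pr 0) x (lam G om (pr 0 x)) ∧
    rs K x (PL (xiF Fm om) (x, T / 2)) = Pr K (pr 0) x (lam G om (pr 0 x)) -
      Pr K (pr 1) x (lam G om (pr 1 x)) ∧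
    rs K x (PL (xiF Fm om) (x, 3 * T / 4)) = Pr K (pr 0) x (lam G om (pr 0 x)) -
      Pr K (pr 1) x (lam G om (pr 1 x)) + Pr K (pr 2) x (lam G om (pr 2 x)) ∧
    rs K x (PL (xiF Fm om) (x, T)) = Pr K (pr 0) x (lam G om (pr 0 x)) -
      Pr K (pr 1) x (lam G om (pr 1 x)) + Pr K (pr 2) x (lam G om (pr 2 x)) -
      Pr K (pr 3) x (lam G om (pr 3 x)) := by
  have hT := w.pos
  have z : ∀ z, ell G om (z, 0) = 0 := fun z => PL_zero _ _
  have o : ∀ z, ell G om (z, 1) = lam G om z := fun z => rfl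
  have a1 := w.w0.PL hs hx (T / 4) ⟨by linarith, le_rfl⟩
  rw [PL_zero, w.h0, z, map_zero, map_zero, sub_zero, zero_add, w.h1, o] at a1
  have a2 := w.w1.PL hs hx (T / 2) ⟨by linarith, le_rfl⟩
  rw [a1, w.h1, w.h2, z, o, map_zero, add_zero] at a2
  have a3 := w.w2.PL hs hx (3 * T / 4) ⟨by linarith, le_rfl⟩
  rw [a2, w.h2, w.h3, z, o, map_zero, sub_zero] at a3
  have a4 := w.w3.PL hs hx T ⟨by linarith, le_rfl⟩
  rw [a3, w.h3, w.h4, z, o, map_zero, add_zero] at a4
  exact ⟨a1, a2, a3, a4⟩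

/-- `∫_0^T ξ = λ₀ - λ₁ + λ₂ - λ₃` -/
theorem Four.L_eqv : Eqv K (TI 0 T (xiF Fm om))
    (pull (pr 0) (lam G om) - pull (pr 1) (lam G om) + pull (pr 2) (lam G om) -
      pull (pr 3) (lam G om)) := by
  refine eqv_rs.2 fun x hx => ?_
  have h1 := (w.corners hs hx).2.2.2
  rw [Pi.sub_apply, Pi.add_apply, Pi.sub_apply, map_sub, map_add, map_sub]
  exact h1

include hc he

theorem Four.dD (hx : x ∈ K) (t : ℝ) : rs K x (WF Fm om (x, t)) =
    rs K x (pull (pr 0) (fun z => WF G om (z, 0)) x + dF (PL (xiF Fm om)) (x, t)) := by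
  have h1 := w.hF.rs_W hs hc hx t
  have h2 := w.w0.W hs hx 0 ⟨le_rfl, by have := w.pos; linarith⟩
  rw [w.h0] at h2
  rw [h1, map_add, map_add, h2]
  rfl

theorem Four.D0 (hx : x ∈ K) : rs K x (dF (PL (xiF Fm om)) (x, T)) = 0 := by
  have h1 := w.hF.rs_W hs hc hx T
  have d1 : ∀ t, ∀ y ∈ K, DifferentiableAt ℝ (fun y => Fm (y, t)) y := fun t y hy =>
    ((w.hF.sm y hy t).comp y (contDiffAt_id.prodMk contDiffAt_const)).differentiableAt (by simp)
  have h2 := eqv_rs.1 (eqv_pull_of_eq (X := K) om (d1 T) (d1 0)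
    (fun y hy => by have := w.per y hy 0; rwa [zero_add] at this)) x hx
  have h3 : rs K x (WF Fm om (x, T)) = rs K x (WF Fm om (x, 0)) := h2
  rw [h3, map_add] at h1
  exact left_eq_add.1 h1

/-- the cubic integral of the family -/
theorem Four.B_eqv : Eqv K (TI 0 T (bb (pull (pr 0) (fun z => WF G om (z, 0))) (xiF Fm om)))
    (Ph G om (pull (pr 0) (fun z => WF G om (z, 0))) (pr 0) 0
      - Ph G om (pull (pr 0) (fun z => WF G om (z, 0))) (pr 1)
          (pull (pr 0) (lam G om) - pull (pr 1) (lam G om))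
      + Ph G om (pull (pr 0) (fun z => WF G om (z, 0))) (pr 2)
          (pull (pr 0) (lam G om) - pull (pr 1) (lam G om))
      - Ph G om (pull (pr 0) (fun z => WF G om (z, 0))) (pr 3)
          (pull (pr 0) (lam G om) - pull (pr 1) (lam G om) + pull (pr 2) (lam G om) -
            pull (pr 3) (lam G om))) := by
  refine eqv_rs.2 fun x hx => ?_
  have hT := w.pos
  have sF := w.hF.smF_xi hs
  have cξ := sF.cont hx
  have cP := sF.PL.cont hx
  have cDP := sF.PL.dF.cont hx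
  have cW := (w.hF.smF_W hs).cont hx
  set a : E → Ext E := pull (pr 0) (fun z => WF G om (z, 0)) with ha
  have cbb : Continuous fun t => bb a (xiF Fm om) (x, t) := by
    have q1 : Continuous fun t => (3 : ℝ) • a x + (2 : ℝ) • dF (PL (xiF Fm om)) (x, t) :=
      continuous_const.add (cDP.const_smul 2)
    exact cont_mul (cont_mul q1 cξ) cP
  rw [rs_TI cbb]
  set g : ℝ → Ext (Tan K x) := fun t => (rs K x (a x) + (2 : ℝ) • rs K x (WF Fm om (x, t))) *
    rs K x (xiF Fm om (x, t)) * rs K x (PL (xiF Fm om) (x, t)) with hg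
  have hbb : ∀ t, rs K x (bb a (xiF Fm om) (x, t)) = g t := by
    intro t
    simp only [bb, hg]
    rw [rs_mul, rs_mul, w.dD hs hc he hx t, map_add, map_add, map_smul, map_smul, smul_add]
    congr 2
    rw [← add_assoc]
    congr 1
    have : (3 : ℝ) • rs K x (a x) = (1 : ℝ) • rs K x (a x) + (2 : ℝ) • rs K x (a x) := by
      rw [← add_smul]; norm_num
    rw [this, one_smul]
  simp only [hbb]
  have R : ∀ {f : ℝ → Ext E}, Continuous f → Continuous fun t => rs K x (f t) := fun hf =>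
    (rs K x).continuous.comp hf
  have cg : Continuous g := by
    have q1 : Continuous fun t => rs K x (a x) + (2 : ℝ) • rs K x (WF Fm om (x, t)) :=
      continuous_const.add ((R cW).const_smul 2)
    exact cont_mul (cont_mul q1 (R cξ)) (R cP)
  have i := fun a b => cg.intervalIntegrable (μ := volume) a b
  rw [← intervalIntegral.integral_add_adjacent_intervals (i 0 (3 * T / 4)) (i (3 * T / 4) T),
    ← intervalIntegral.integral_add_adjacent_intervals (i 0 (T / 2)) (i (T / 2) (3 * T / 4)),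
    ← intervalIntegral.integral_add_adjacent_intervals (i 0 (T / 4)) (i (T / 4) (T / 2))]
  obtain ⟨c1, c2, c3, c4⟩ := w.corners hs hx
  have z : ∀ z, ell G om (z, 0) = 0 := fun z => PL_zero _ _
  have o : ∀ z, ell G om (z, 1) = lam G om z := fun z => rfl
  have v0 := w.w0.int hs hx (rs K x (a x)) 0 (by rw [w.h0, z, PL_zero, map_zero, map_zero, sub_zero])
  have v1 := w.w1.int hs hx (rs K x (a x)) _ rfl
  have v2 := w.w2.int hs hx (rs K x (a x)) _ rfl
  have v3 := w.w3.int hs hx (rs K x (a x)) _ rfl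
  rw [w.h0, w.h1, w.w0.val hs he hx] at v0
  rw [w.h1, w.h2, intervalIntegral.integral_symm 0 1, w.w1.val hs he hx, c1, o] at v1
  rw [w.h2, w.h3, w.w2.val hs he hx, c2, z, map_zero, sub_zero] at v2
  rw [w.h3, w.h4, intervalIntegral.integral_symm 0 1, w.w3.val hs he hx, c3, o] at v3
  rw [v0, v1, v2, v3]
  have hPh : ∀ (p : E → E₁) (σ : E → Ext E), rs K x (Ph G om a p σ x) =
      rs K x (a x) * Pr K p x (lam G om (p x)) * rs K x (σ x) -
        rs K x (a x) * Pr K p x (eta G om (p x)) +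
        (2 : ℝ) • (Pr K p x (MM G om (p x)) * rs K x (σ x)) +
        (2 : ℝ) • Pr K p x (NN G om (p x)) := by
    intro p σ
    simp only [Ph, Pi.add_apply, Pi.sub_apply, Pi.mul_apply, Pi.smul_apply, map_add, map_sub,
      map_smul, rs_mul, Pr_apply]
  simp only [Pi.add_apply, Pi.sub_apply, map_add, map_sub, hPh, Pi.zero_apply, map_zero,
    Pr_apply]
  abel

/-- **`T² ψ` of a four arc family** -/
theorem Four.psi_eqv : ∃ τ : E → Ext E, Sm K τ ∧ Eqv K ((T ^ 2) • psiK T (WF Fm om) (xiF Fm om))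
    (-((pull (pr 0) (lam G om) - pull (pr 1) (lam G om) + pull (pr 2) (lam G om) -
        pull (pr 3) (lam G om)) *
      (Ph G om (pull (pr 0) (fun z => WF G om (z, 0))) (pr 0) 0
      - Ph G om (pull (pr 0) (fun z => WF G om (z, 0))) (pr 1)
          (pull (pr 0) (lam G om) - pull (pr 1) (lam G om))
      + Ph G om (pull (pr 0) (fun z => WF G om (z, 0))) (pr 2)
          (pull (pr 0) (lam G om) - pull (pr 1) (lam G om))
      - Ph G om (pull (pr 0) (fun z => WF G om (z, 0))) (pr 3)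
          (pull (pr 0) (lam G om) - pull (pr 1) (lam G om) + pull (pr 2) (lam G om) -
            pull (pr 3) (lam G om)))) - F.d τ) := by
  have sF := w.hF.smF_xi hs
  refine ⟨_, ?_, (psiK_eqv (X := K) (a := pull (pr 0) (fun z => WF G om (z, 0))) w.pos.ne' sF
    (w.hF.smF_W hs) (inv_xiF he) ?_ (fun x hx t => rs_per w.hF w.per hx t)
    (fun x hx t => w.dD hs hc he hx t) (fun x hx => w.D0 hs hc he hx)).trans
    (((w.L_eqv hs).mul (w.B_eqv hs hc he)).neg.sub (Eqv.refl _))⟩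
  · exact (sF.sm_TI 0 T).mul ((sF.PL.av T).mul ((sF.PL.mul sF).sm_TI 0 T))
  · intro y
    rw [pull, ← pb_inv, inv_WF he]

end Crest.Agent.R208.AF
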