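import Crest.Agent.R208.AF6

/-! Row 208, block (A2) (helper601).  AF7: top forms killed by a tangent vector field integrate to
zero; the integral of `ψ * y` over the four arc family. -/

set_option autoImplicit false
set_option linter.unusedSectionVars false

open MeasureTheory Set Filter Topology Module
open scoped ContDiff
open Crest.Agent.R208.F Crest.Agent.R208.FI Crest.Agent.R208.CW Crest.Agent.R208.T

noncomputable section

namespace Crest.Agent.R208.AF

section kill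
variable {E : Type*} [NormedAddCommGroup E] [NormedSpace ℝ E] [FiniteDimensional ℝ E]
  {E₁ : Type*} [NormedAddCommGroup E₁] [NormedSpace ℝ E₁] [FiniteDimensional ℝ E₁]
  {d : ℕ} {K : Set E} {v : E → E} {a b : E → Ext E} {o : E → Ext E}

/-- killed by the contraction with `v` -/
def Kl (K : Set E) (v : E → E) (a : E → Ext E) : Prop := ∀ x ∈ K, ii (v x) (a x) = 0

theorem Kl.mul (ha : Kl K v a) (hb : Kl K v b) : Kl K v (a * b) := fun x hx => by
  rw [Pi.mul_apply, ii_mul, ha x hx, hb x hx, zero_mul, mul_zero, add_zero]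
theorem Kl.add (ha : Kl K v a) (hb : Kl K v b) : Kl K v (a + b) := fun x hx => by
  rw [Pi.add_apply, map_add, ha x hx, hb x hx, add_zero]
theorem Kl.sub (ha : Kl K v a) (hb : Kl K v b) : Kl K v (a - b) := fun x hx => by
  rw [Pi.sub_apply, map_sub, ha x hx, hb x hx, sub_zero]
theorem Kl.neg (ha : Kl K v a) : Kl K v (-a) := fun x hx => by
  rw [Pi.neg_apply, map_neg, ha x hx, neg_zero]
theorem Kl.smul (r : ℝ) (ha : Kl K v a) : Kl K v (r • a) := fun x hx => by
  rw [Pi.smul_apply, map_smul, ha x hx, smul_zero]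
theorem Kl.zero : Kl K v (0 : E → Ext E) := fun _ _ => map_zero _
theorem Kl.pull {p : E → E₁} (h : ∀ x ∈ K, fderiv ℝ p x (v x) = 0) (w : E₁ → Ext E₁) :
    Kl K v (F.pull p w) := fun x hx => by
  have h1 : ((fderiv ℝ p x : E →L[ℝ] E₁) : E →ₗ[ℝ] E₁) (v x) = 0 := h x hx
  rw [F.pull, ii_pb, h1, map_zero, LinearMap.zero_apply, map_zero]

theorem evA_eq_zero_of_ii {T : Submodule ℝ E} (hT : finrank ℝ T = d) {u : E} (hu : u ∈ T)
    (h0 : u ≠ 0) {c : Ext E} (hc : ii u c = 0) {w : Fin d → E} (hw : ∀ i, w i ∈ T) :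
    evA E d c w = 0 := by
  obtain ⟨l, hl⟩ : ∃ l : Module.Dual ℝ E, l u ≠ 0 := by
    by_contra h
    push Not at h
    exact h0 ((Module.forall_dual_apply_eq_zero_iff ℝ u).1 h)
  have h1 : ii u (io l * c) = l u • c := by rw [ii_io_mul, hc, mul_zero, sub_zero]
  have h2 := evA_ii d (io l * c) u w
  rw [h1, map_smul, AlternatingMap.smul_apply, smul_eq_mul] at h2
  have h3 : evA E (d + 1) (io l * c) (Matrix.vecCons u w) = 0 := by
    refine AlternatingMap.map_linearDependent _ _ fun hli => ?_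
    have hmem : ∀ i, Matrix.vecCons u w i ∈ T := by
      intro i
      refine Fin.cases ?_ (fun j => ?_) i
      · exact hu
      · exact hw j
    have h4 : LinearIndependent ℝ (fun i => (⟨Matrix.vecCons u w i, hmem i⟩ : T)) := by
      rw [← LinearMap.linearIndependent_iff T.subtype (Submodule.ker_subtype T)]
      exact hli
    have h5 := h4.fintype_card_le_finrank
    rw [hT, Fintype.card_fin] at h5
    omega
  rw [h3] at h2
  exact (mul_eq_zero.1 h2.symm).resolve_left hl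

/-- **killed top forms have integral zero** -/
theorem J_kl (hK : Clo d K) (hv : ∀ x ∈ K, v x ∈ Tan K x) (h0 : ∀ x ∈ K, v x ≠ 0)
    (ha : Kl K v a) : J d K o a = 0 :=
  J_eq_zero hK fun x hx _ hw => evA_eq_zero_of_ii (hK.finrank_Tan hx) (hv x hx) (h0 x hx)
    (ha x hx) hw

theorem J_eqv (hK : Clo d K) (h : Eqv K a b) : J d K o a = J d K o b := by
  refine J_congr hK fun x hx w hw => ?_
  have h1 := eqv_iff.1 h x hx
  let w' : Fin d → Tan K x := fun i => ⟨w i, hw i⟩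
  have h2 : w = fun i => (Tan K x).subtype (w' i) := rfl
  rw [h2, ← evA_pb, ← evA_pb, h1]

/-- smooth with integral zero -/
def Nu (d : ℕ) (K : Set E) (o a : E → Ext E) : Prop := Sm K a ∧ J d K o a = 0

theorem Sm.contOn (ha : Sm K a) : ContinuousOn a K := fun x hx =>
  (ha x hx).continuousAt.continuousWithinAt

theorem J_add' (hK : Clo d K) (ho : Ori d K o) (ha : Sm K a) (hb : Sm K b) :
    J d K o (a + b) = J d K o a + J d K o b := FI.J_add hK ho (Sm.contOn ha) (Sm.contOn hb)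
theorem J_sub' (hK : Clo d K) (ho : Ori d K o) (ha : Sm K a) (hb : Sm K b) :
    J d K o (a - b) = J d K o a - J d K o b := FI.J_sub hK ho (Sm.contOn ha) (Sm.contOn hb)
theorem J_smul' (r : ℝ) : J d K o (r • a) = r * J d K o a := FI.J_smul r
theorem J_neg' : J d K o (-a) = - J d K o a := FI.J_neg

theorem Nu.add (hK : Clo d K) (ho : Ori d K o) (ha : Nu d K o a) (hb : Nu d K o b) :
    Nu d K o (a + b) := ⟨ha.1.add hb.1, by rw [J_add' hK ho ha.1 hb.1, ha.2, hb.2, add_zero]⟩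
theorem Nu.sub (hK : Clo d K) (ho : Ori d K o) (ha : Nu d K o a) (hb : Nu d K o b) :
    Nu d K o (a - b) := ⟨ha.1.sub hb.1, by rw [J_sub' hK ho ha.1 hb.1, ha.2, hb.2, sub_zero]⟩
theorem Nu.neg (ha : Nu d K o a) : Nu d K o (-a) := ⟨ha.1.neg, by rw [J_neg', ha.2, neg_zero]⟩
theorem Nu.smul (r : ℝ) (ha : Nu d K o a) : Nu d K o (r • a) :=
  ⟨ha.1.smul r, by rw [J_smul', ha.2, mul_zero]⟩
theorem Nu.dd (hK : Clo d K) (ho : Ori d K o) (ha : Sm K a) : Nu d K o (F.d a) :=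
  ⟨ha.d, J_d hK ho fun x hx => (ha x hx).of_le (by exact_mod_cast le_top)⟩
theorem Nu.of_eqv (hK : Clo d K) (ha : Sm K a) (h : Eqv K a b) (hb : Nu d K o b) : Nu d K o a :=
  ⟨ha, by rw [J_eqv hK h, hb.2]⟩

end kill

/-! ### the computation -/
section comp
variable {E : Type*} [NormedAddCommGroup E] [NormedSpace ℝ E] [FiniteDimensional ℝ E]
  {d : ℕ} {K : Set E} {o : E → Ext E}

/-- the differential forms on `K` occurring in the computation: `l i = λ_i`, `e i = η_i`,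
`M i`, `N i`; `a`, `y` basic; `v j` vertical vector of the `j`-th sphere. -/
structure Alg (d : ℕ) (K : Set E) (o : E → Ext E) (v : Fin 4 → E → E) (l e M N : Fin 4 → E → Ext E)
    (a b y : E → Ext E) : Prop where
  hK : Clo d K
  ho : Ori d K o
  vT : ∀ j, j ≠ 0 → ∀ x ∈ K, v j x ∈ Tan K x
  v0 : ∀ j, j ≠ 0 → ∀ x ∈ K, v j x ≠ 0
  sl : ∀ i, Sm K (l i)
  se : ∀ i, Sm K (e i)
  sM : ∀ i, Sm K (M i)
  sN : ∀ i, Sm K (N i)
  sa : Sm K a
  sb : Sm K b
  sy : Sm K y
  kl : ∀ i j, j ≠ 0 → i ≠ j → Kl K (v j) (l i)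
  ke : ∀ i j, j ≠ 0 → i ≠ j → Kl K (v j) (e i)
  kM : ∀ i j, j ≠ 0 → i ≠ j → Kl K (v j) (M i)
  kN : ∀ i j, j ≠ 0 → i ≠ j → Kl K (v j) (N i)
  ka : ∀ j, j ≠ 0 → Kl K (v j) a
  kb : ∀ j, j ≠ 0 → Kl K (v j) b
  ky : ∀ j, j ≠ 0 → Kl K (v j) y
  ol : ∀ i x, inv (l i x) = - l i x
  ee : ∀ i x, inv (e i x) = e i x
  oM : ∀ i x, inv (M i x) = - M i x
  ea : ∀ x, inv (a x) = a x
  eb : ∀ x, inv (b x) = b x
  dl : ∀ i, Eqv K (F.d (l i)) (b - a)
  dM : ∀ i, Eqv K ((2 : ℝ) • M i) ((a + b) * l i + F.d (e i))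
  dy : Cl K y

variable {v : Fin 4 → E → E} {l e M N : Fin 4 → E → Ext E} {a b y : E → Ext E}
  (A : Alg d K o v l e M N a b y)
include A

theorem Alg.nu_of_kl {f : E → Ext E} (hf : Sm K f) {j : Fin 4} (hj : j ≠ 0) (hk : Kl K (v j) f) :
    Nu d K o f := ⟨hf, J_kl A.hK (A.vT j hj) (A.v0 j hj) hk⟩

omit A in
theorem exists_j : ∀ m i : Fin 4, ∃ j : Fin 4, j ≠ 0 ∧ m ≠ j ∧ i ≠ j := by decide

/-- `l m * f * y` for `f` killed by all `v j`, `j ≠ 0, i` -/
theorem Alg.nu3 (m i : Fin 4) {f : E → Ext E} (hf : Sm K f)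
    (hk : ∀ j, j ≠ 0 → i ≠ j → Kl K (v j) f) : Nu d K o (l m * f * y) := by
  obtain ⟨j, hj0, hjm, hji⟩ := exists_j m i
  exact A.nu_of_kl (((A.sl m).mul hf).mul A.sy) hj0
    (((A.kl m j hj0 hjm).mul (hk j hj0 hji)).mul (A.ky j hj0))

/-- `L * f * y` -/
theorem Alg.nuL (i : Fin 4) {f : E → Ext E} (hf : Sm K f)
    (hk : ∀ j, j ≠ 0 → i ≠ j → Kl K (v j) f) : Nu d K o ((l 0 - l 1 + l 2 - l 3) * f * y) := by
  have h := fun m => A.nu3 m i hf hk
  have e1 : (l 0 - l 1 + l 2 - l 3) * f * y = l 0 * f * y - l 1 * f * y + l 2 * f * y - l 3 * f * y := by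
    simp only [add_mul, sub_mul]
  rw [e1]
  exact (((h 0).sub A.hK A.ho (h 1)).add A.hK A.ho (h 2)).sub A.hK A.ho (h 3)

/-- value of an arc -/
def Phi (l e M N : Fin 4 → E → Ext E) (a : E → Ext E) (i : Fin 4) (σ : E → Ext E) : E → Ext E :=
  a * l i * σ - a * e i + (2 : ℝ) • (M i * σ) + (2 : ℝ) • N i

theorem Alg.sPhi (i : Fin 4) {σ : E → Ext E} (hσ : Sm K σ) : Sm K (Phi l e M N a i σ) :=
  ((((A.sa.mul (A.sl i)).mul hσ).sub (A.sa.mul (A.se i))).add (((A.sM i).mul hσ).smul 2)).add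
    ((A.sN i).smul 2)

theorem Alg.kPhi (i : Fin 4) {σ : E → Ext E} {j : Fin 4} (hj : j ≠ 0) (hij : i ≠ j)
    (hσ : Kl K (v j) σ) : Kl K (v j) (Phi l e M N a i σ) :=
  (((((A.ka j hj).mul (A.kl i j hj hij)).mul hσ).sub ((A.ka j hj).mul (A.ke i j hj hij))).add
    (((A.kM i j hj hij).mul hσ).smul 2)).add ((A.kN i j hj hij).smul 2)

/-- the odd form `L` -/
theorem Alg.oL (x : E) : inv ((l 0 - l 1 + l 2 - l 3) x) = - (l 0 - l 1 + l 2 - l 3) x := by
  simp only [Pi.sub_apply, Pi.add_apply, map_sub, map_add, A.ol]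
  abel

/-- **first reduction** -/
theorem Alg.red1 : J d K o ((l 0 - l 1 + l 2 - l 3) *
      (Phi l e M N a 0 0 - Phi l e M N a 1 (l 0 - l 1) + Phi l e M N a 2 (l 0 - l 1)
        - Phi l e M N a 3 (l 0 - l 1 + l 2 - l 3)) * y) =
    J d K o (l 3 * ((a * l 2 + (2 : ℝ) • M 2) * l 1) * y) := by
  have hK := A.hK
  have ho := A.ho
  have s01 : Sm K (l 0 - l 1) := (A.sl 0).sub (A.sl 1)
  have sL : Sm K (l 0 - l 1 + l 2 - l 3) := ((s01.add (A.sl 2)).sub (A.sl 3))
  set L := l 0 - l 1 + l 2 - l 3 with hL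
  -- arc 0
  have n0 : Nu d K o (L * Phi l e M N a 0 0 * y) :=
    A.nuL 0 (A.sPhi 0 Sm.zero) fun j hj hij => A.kPhi 0 hj hij Kl.zero
  -- arc 1
  have n1 : Nu d K o (L * Phi l e M N a 1 (l 0 - l 1) * y) :=
    A.nuL 1 (A.sPhi 1 s01) fun j hj hij => A.kPhi 1 hj hij
      ((A.kl 0 j hj hj.symm).sub (A.kl 1 j hj hij))
  -- arc 3
  have n3 : Nu d K o (L * Phi l e M N a 3 L * y) := by
    have h1 : Nu d K o (L * ((2 : ℝ) • N 3 - a * e 3) * y) :=
      A.nuL 3 (((A.sN 3).smul 2).sub (A.sa.mul (A.se 3))) fun j hj hij =>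
        ((A.kN 3 j hj hij).smul 2).sub ((A.ka j hj).mul (A.ke 3 j hj hij))
    have h2 : L * Phi l e M N a 3 L * y = L * ((2 : ℝ) • N 3 - a * e 3) * y := by
      funext x
      have hll : L x * L x = 0 := odd_sq (A.oL x)
      have z : ∀ c : Ext E, L x * (c * L x) = 0 := fun c => by
        rw [← mul_assoc, odd_comm (A.oL x), mul_assoc, hll, mul_zero]
      have e1 : L x * Phi l e M N a 3 L x = L x * ((2 : ℝ) • N 3 x - a x * e 3 x) := by
        simp only [Phi, Pi.add_apply, Pi.sub_apply, Pi.mul_apply, Pi.smul_apply, mul_add, mul_sub,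
          mul_smul_comm, z]
        rw [smul_zero]; abel
      simp only [Pi.mul_apply, Pi.sub_apply, Pi.smul_apply]
      rw [e1]
    rw [h2]; exact h1
  -- arc 2
  have n2 : Nu d K o (L * (Phi l e M N a 2 (l 0)) * y) :=
    A.nuL 2 (A.sPhi 2 (A.sl 0)) fun j hj hij => A.kPhi 2 hj hij (A.kl 0 j hj hj.symm)
  set Q : E → Ext E := (a * l 2 + (2 : ℝ) • M 2) * l 1 with hQ
  have sQ : Sm K Q := ((A.sa.mul (A.sl 2)).add ((A.sM 2).smul 2)).mul (A.sl 1)
  have kQ : Kl K (v 3) Q := (((A.ka 3 (by decide)).mul (A.kl 2 3 (by decide) (by decide))).add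
    ((A.kM 2 3 (by decide) (by decide)).smul 2)).mul (A.kl 1 3 (by decide) (by decide))
  have nQ : ∀ m : Fin 4, m ≠ 3 → Nu d K o (l m * Q * y) := fun m hm =>
    A.nu_of_kl (((A.sl m).mul sQ).mul A.sy) (j := 3) (by decide)
      (((A.kl m 3 (by decide) hm).mul kQ).mul (A.ky 3 (by decide)))
  have key : L * (Phi l e M N a 0 0 - Phi l e M N a 1 (l 0 - l 1) + Phi l e M N a 2 (l 0 - l 1)
        - Phi l e M N a 3 L) * y = l 3 * Q * y + (L * Phi l e M N a 0 0 * y -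
        L * Phi l e M N a 1 (l 0 - l 1) * y - L * Phi l e M N a 3 L * y + L * Phi l e M N a 2 (l 0) * y
        - l 0 * Q * y + l 1 * Q * y - l 2 * Q * y) := by
    have e2 : Phi l e M N a 2 (l 0 - l 1) = Phi l e M N a 2 (l 0) - Q := by
      simp only [Phi, hQ, mul_sub, add_mul, smul_sub, smul_mul_assoc]
      abel
    have e3 : L * Q * y = l 0 * Q * y - l 1 * Q * y + l 2 * Q * y - l 3 * Q * y := by
      simp only [hL, add_mul, sub_mul]
    rw [e2]
    simp only [mul_add, mul_sub, add_mul, sub_mul, e3]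
    abel
  rw [key]
  have hN : Nu d K o (L * Phi l e M N a 0 0 * y -
        L * Phi l e M N a 1 (l 0 - l 1) * y - L * Phi l e M N a 3 L * y + L * Phi l e M N a 2 (l 0) * y
        - l 0 * Q * y + l 1 * Q * y - l 2 * Q * y) :=
    ((((((n0.sub hK ho n1).sub hK ho n3).add hK ho n2).sub hK ho (nQ 0 (by decide))).add hK ho
      (nQ 1 (by decide))).sub hK ho (nQ 2 (by decide)))
  rw [J_add' hK ho (((A.sl 3).mul sQ).mul A.sy) hN.1, hN.2, add_zero]

/-- **second reduction** -/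
theorem Alg.red2 : J d K o (l 3 * ((a * l 2 + (2 : ℝ) • M 2) * l 1) * y) =
    J d K o ((l 3 - l 0) * ((l 2 - l 0) * ((l 1 - l 0) * (((2 : ℝ) • a + b) * y)))) := by
  have hK := A.hK
  have ho := A.ho
  set c : E → Ext E := (2 : ℝ) • a + b with hc
  have sc : Sm K c := (A.sa.smul 2).add A.sb
  have kc : ∀ j, j ≠ 0 → Kl K (v j) c := fun j hj => ((A.ka j hj).smul 2).add (A.kb j hj)
  have ec : ∀ x, inv (c x) = c x := fun x => by
    simp only [hc, Pi.add_apply, Pi.smul_apply, map_add, map_smul, A.ea, A.eb]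
  have scy : Sm K (c * y) := sc.mul A.sy
  -- replace `2 M`
  have e1 : J d K o (l 3 * ((a * l 2 + (2 : ℝ) • M 2) * l 1) * y) =
      J d K o (l 3 * ((c * l 2) * l 1) * y + l 3 * (F.d (e 2) * l 1) * y) := by
    refine J_eqv hK ?_
    have h1 : Eqv K (l 3 * ((a * l 2 + (2 : ℝ) • M 2) * l 1) * y)
        (l 3 * ((a * l 2 + ((a + b) * l 2 + F.d (e 2))) * l 1) * y) :=
      ((Eqv.refl (l 3)).mul (((Eqv.refl _).add (A.dM 2)).mul (Eqv.refl _))).mul (Eqv.refl _)
    have h2 : l 3 * ((a * l 2 + ((a + b) * l 2 + F.d (e 2))) * l 1) * y =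
        l 3 * ((c * l 2) * l 1) * y + l 3 * (F.d (e 2) * l 1) * y := by
      simp only [hc, two_smul, add_mul, mul_add]
      abel
    rwa [h2] at h1
  -- the exact part
  have n1 : Nu d K o (l 3 * (F.d (e 2) * l 1) * y) := by
    have s1 : Sm K (l 1 * y) := (A.sl 1).mul A.sy
    have s2 : Sm K (e 2 * (l 1 * y)) := (A.se 2).mul s1
    have sba : Sm K (b - a) := A.sb.sub A.sa
    have n2 : Nu d K o (F.d (l 3 * (e 2 * (l 1 * y)))) := Nu.dd hK ho ((A.sl 3).mul s2)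
    have e3 : Eqv K (F.d (l 3 * (e 2 * (l 1 * y))))
        ((b - a) * (e 2 * (l 1 * y)) - l 3 * (F.d (e 2) * (l 1 * y) + e 2 * ((b - a) * y))) := by
      have d1 := d_mul_eqv (A.sl 3) s2
      have d2 := d_mul_eqv (A.se 2) s1
      have d3 := d_mul_eqv (A.sl 1) A.sy
      have i3 : (fun x => inv (l 3 x)) = - l 3 := funext fun x => A.ol 3 x
      have i2 : (fun x => inv (e 2 x)) = e 2 := funext fun x => A.ee 2 x
      have i1 : (fun x => inv (l 1 x)) = - l 1 := funext fun x => A.ol 1 x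
      rw [i3] at d1; rw [i2] at d2; rw [i1] at d3
      have hy : Eqv K (F.d y) 0 := resZero_iff.1 A.dy
      have d3' : Eqv K (F.d (l 1 * y)) ((b - a) * y) := by
        refine d3.trans ?_
        have := ((A.dl 1).mul (Eqv.refl y)).add ((Eqv.refl (-(l 1))).mul hy)
        rwa [mul_zero, add_zero] at this
      have d2' := d2.trans ((Eqv.refl (F.d (e 2) * (l 1 * y))).add ((Eqv.refl (e 2)).mul d3'))
      have d1' := d1.trans (((A.dl 3).mul (Eqv.refl (e 2 * (l 1 * y)))).add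
        ((Eqv.refl (-(l 3))).mul d2'))
      rwa [neg_mul, ← sub_eq_add_neg] at d1'
    have k1 : Nu d K o ((b - a) * (e 2 * (l 1 * y))) :=
      A.nu_of_kl (sba.mul s2) (j := 3) (by decide)
        (((A.kb 3 (by decide)).sub (A.ka 3 (by decide))).mul
          ((A.ke 2 3 (by decide) (by decide)).mul ((A.kl 1 3 (by decide) (by decide)).mul
            (A.ky 3 (by decide)))))
    have k2 : Nu d K o (l 3 * (e 2 * ((b - a) * y))) :=
      A.nu_of_kl ((A.sl 3).mul ((A.se 2).mul (sba.mul A.sy))) (j := 1) (by decide)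
        ((A.kl 3 1 (by decide) (by decide)).mul ((A.ke 2 1 (by decide) (by decide)).mul
          (((A.kb 1 (by decide)).sub (A.ka 1 (by decide))).mul (A.ky 1 (by decide)))))
    have sde : Sm K (l 3 * (F.d (e 2) * l 1) * y) := ((A.sl 3).mul ((A.se 2).d.mul (A.sl 1))).mul A.sy
    refine Nu.of_eqv hK sde ?_ ((k1.sub hK ho k2).sub hK ho n2)
    have e4 := (Eqv.refl ((b - a) * (e 2 * (l 1 * y)) - l 3 * (e 2 * ((b - a) * y)))).sub e3.symm
    have e5 : (b - a) * (e 2 * (l 1 * y)) - l 3 * (e 2 * ((b - a) * y)) -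
        ((b - a) * (e 2 * (l 1 * y)) - l 3 * (F.d (e 2) * (l 1 * y) + e 2 * ((b - a) * y))) =
        l 3 * (F.d (e 2) * l 1) * y := by
      simp only [mul_add, mul_assoc]
      abel
    rw [e5] at e4
    exact e4
  have sm1 : Sm K (l 3 * ((c * l 2) * l 1) * y) := ((A.sl 3).mul ((sc.mul (A.sl 2)).mul (A.sl 1))).mul A.sy
  rw [e1, J_add' hK ho sm1 n1.1, n1.2, add_zero]
  have e6 : l 3 * ((c * l 2) * l 1) * y = l 3 * (l 2 * (l 1 * (c * y))) := by
    funext x
    simp only [Pi.mul_apply]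
    have cc : ∀ b, c x * b = b * c x := fun b => even_comm (ec x) b
    simp only [mul_assoc]
    rw [← mul_assoc (c x), cc (l 2 x), mul_assoc, ← mul_assoc (c x), cc (l 1 x), mul_assoc]
  rw [e6]
  -- replace `l j` by `l j - l 0`
  have k0 : ∀ j, j ≠ 0 → Kl K (v j) (l 0) := fun j hj => A.kl 0 j hj hj.symm
  have kcy : ∀ j, j ≠ 0 → Kl K (v j) (c * y) := fun j hj => (kc j hj).mul (A.ky j hj)
  have key : (l 3 - l 0) * ((l 2 - l 0) * ((l 1 - l 0) * (c * y))) =
      l 3 * (l 2 * (l 1 * (c * y))) - (l 0 * ((l 2 - l 0) * ((l 1 - l 0) * (c * y))) +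
        l 3 * (l 0 * ((l 1 - l 0) * (c * y))) + l 3 * (l 2 * (l 0 * (c * y)))) := by
    simp only [mul_sub, sub_mul]
    abel
  have sl0 := fun i => (A.sl i).sub (A.sl 0)
  have t3 : Nu d K o (l 0 * ((l 2 - l 0) * ((l 1 - l 0) * (c * y)))) :=
    A.nu_of_kl ((A.sl 0).mul ((sl0 2).mul ((sl0 1).mul scy))) (j := 3) (by decide)
      ((k0 3 (by decide)).mul (((A.kl 2 3 (by decide) (by decide)).sub (k0 3 (by decide))).mul
        (((A.kl 1 3 (by decide) (by decide)).sub (k0 3 (by decide))).mul (kcy 3 (by decide)))))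
  have t2 : Nu d K o (l 3 * (l 0 * ((l 1 - l 0) * (c * y)))) :=
    A.nu_of_kl ((A.sl 3).mul ((A.sl 0).mul ((sl0 1).mul scy))) (j := 2) (by decide)
      ((A.kl 3 2 (by decide) (by decide)).mul ((k0 2 (by decide)).mul
        (((A.kl 1 2 (by decide) (by decide)).sub (k0 2 (by decide))).mul (kcy 2 (by decide)))))
  have t1 : Nu d K o (l 3 * (l 2 * (l 0 * (c * y)))) :=
    A.nu_of_kl ((A.sl 3).mul ((A.sl 2).mul ((A.sl 0).mul scy))) (j := 1) (by decide)
      ((A.kl 3 1 (by decide) (by decide)).mul ((A.kl 2 1 (by decide) (by decide)).mul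
        ((k0 1 (by decide)).mul (kcy 1 (by decide)))))
  have tt := (t3.add hK ho t2).add hK ho t1
  rw [key, J_sub' hK ho ((A.sl 3).mul ((A.sl 2).mul ((A.sl 1).mul scy))) tt.1, tt.2, sub_zero]

end comp

end Crest.Agent.R208.AF
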