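import Crest.Agent.R208.AF7

/-! Row 208, block (A2) (helper601).  AF8: the integral of `ψ * y` over the four arc family is
`- T⁻² ∫ (λ₃-λ₀)(λ₂-λ₀)(λ₁-λ₀)(2a+b) y`. -/

set_option autoImplicit false
set_option linter.unusedSectionVars false

open MeasureTheory Set Filter Topology Module
open scoped ContDiff
open Crest.Agent.R208.F Crest.Agent.R208.FI Crest.Agent.R208.CW Crest.Agent.R208.T

noncomputable section

namespace Crest.Agent.R208.AF

section par
variable {V : Type*} [NormedAddCommGroup V] [NormedSpace ℝ V] [FiniteDimensional ℝ V]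

/-- the grade involution as an equivalence -/
def invE : Ext V ≃L[ℝ] Ext V :=
  (LinearEquiv.ofInvolutive (inv : Ext V →ₐ[ℝ] Ext V).toLinearMap
    (fun x => F.inv_inv x)).toContinuousLinearEquiv

theorem inv_int' (g : ℝ → Ext V) (a b : ℝ) : inv (∫ t in a..b, g t) = ∫ t in a..b, inv (g t) := by
  have h : ∀ c : Ext V, invE c = inv c := fun _ => rfl
  rw [intervalIntegral, intervalIntegral, map_sub, ← h, ← h, ← ContinuousLinearEquiv.integral_comp_comm,
    ← ContinuousLinearEquiv.integral_comp_comm]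
  rfl

theorem inv_int_odd {g : ℝ → Ext V} (a b : ℝ) (hg : ∀ t, inv (g t) = - g t) :
    inv (∫ t in a..b, g t) = - ∫ t in a..b, g t := by
  rw [inv_int']
  simp only [hg, intervalIntegral.integral_neg]

theorem inv_int_even {g : ℝ → Ext V} (a b : ℝ) (hg : ∀ t, inv (g t) = g t) :
    inv (∫ t in a..b, g t) = ∫ t in a..b, g t := by
  rw [inv_int']
  simp only [hg]

end par

section um
universe v
variable {E₁ : Type v} [NormedAddCommGroup E₁] [NormedSpace ℝ E₁] [FiniteDimensional ℝ E₁]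
  {E' : Type*} [NormedAddCommGroup E'] [NormedSpace ℝ E'] [FiniteDimensional ℝ E']
  {U : Set E₁} {Y : Set E'} {G : E₁ × ℝ → E'} {om : E' → Ext E'}

theorem inv_ell (he : ∀ y, inv (om y) = om y) (p : E₁ × ℝ) :
    inv (ell G om p) = - ell G om p := inv_int_odd _ _ fun _ => inv_xiF he _
theorem inv_lam (he : ∀ y, inv (om y) = om y) (z : E₁) :
    inv (lam G om z) = - lam G om z := inv_int_odd _ _ fun _ => inv_xiF he _
theorem inv_eta (he : ∀ y, inv (om y) = om y) (z : E₁) : inv (eta G om z) = eta G om z :=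
  inv_int_even _ _ fun _ => by rw [map_mul, inv_ell he, inv_xiF he, neg_mul_neg]
theorem inv_MM (he : ∀ y, inv (om y) = om y) (z : E₁) : inv (MM G om z) = - MM G om z :=
  inv_int_odd _ _ fun _ => by rw [map_mul, inv_WF he, inv_xiF he, mul_neg]

/-- `d λ = b - a` on `U` -/
theorem d_lam (hG : Fam U Y G) (hs : Sm Y om) (hc : Cl Y om) :
    Eqv U (F.d (lam G om)) ((fun z => WF G om (z, 1)) - fun z => WF G om (z, 0)) := by
  refine eqv_rs.2 fun z hz => ?_
  have h1 := hG.rs_W hs hc hz 1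
  rw [Pi.sub_apply, map_sub, h1, map_add, add_sub_cancel_left]
  rfl

/-- `2 ∫ W θ = (a + b) λ + d η` on `U` -/
theorem two_MM (hG : Fam U Y G) (hs : Sm Y om) (hc : Cl Y om) (he : ∀ y, inv (om y) = om y) :
    Eqv U ((2 : ℝ) • MM G om)
      (((fun z => WF G om (z, 0)) + fun z => WF G om (z, 1)) * lam G om + F.d (eta G om)) := by
  refine eqv_rs.2 fun z hz => ?_
  have sG := hG.smF_xi hs
  have cξ := sG.cont hz
  have cP := sG.PL.cont hz
  have cDP := sG.PL.dF.cont hz
  have cdξ := sG.dF.cont hz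
  have hPξ : SmF U (fun p => PL (xiF G om) p * xiF G om p) := sG.PL.mul sG
  set R := rs U z with hR
  have Rm : ∀ a b, R (a * b) = R a * R b := rs_mul U z
  have Rinv : ∀ a, inv (R a) = R (inv a) := rs_inv U z
  have cX1 : Continuous fun t => R (xiF G om (z, t)) := R.continuous.comp cξ
  have dL1 : ∀ t, HasDerivAt (fun t => R (PL (xiF G om) (z, t))) (R (xiF G om (z, t))) t := fun t =>
    R.hasFDerivAt.comp_hasDerivAt t (sG.hasDerivAt_PL hz t)
  have hdP : ∀ t, dF (PL (xiF G om)) (z, t) = PL (dF (xiF G om)) (z, t) := fun t => sG.dF_PL hz t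
  have dD1 : ∀ t, HasDerivAt (fun t => R (dF (PL (xiF G om)) (z, t))) (R (dF (xiF G om) (z, t))) t := by
    intro t
    have h1 := sG.dF.hasDerivAt_PL hz t
    simp only [hdP]
    exact R.hasFDerivAt.comp_hasDerivAt t h1
  have eD : ∀ t, inv (dF (PL (xiF G om)) (z, t)) = dF (PL (xiF G om)) (z, t) := by
    intro t
    rw [hdP]
    show inv (∫ s in (0 : ℝ)..t, dF (xiF G om) (z, s)) = ∫ s in (0 : ℝ)..t, dF (xiF G om) (z, s)
    rw [inv_int']
    refine intervalIntegral.integral_congr fun s _ => ?_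
    exact inv_d_of_odd ((sG.slice hz s).differentiableAt (by simp))
      (Eventually.of_forall fun y => inv_xiF he _)
  have cRD : Continuous fun t => R (dF (PL (xiF G om)) (z, t)) := R.continuous.comp cDP
  have cRd : Continuous fun t => R (dF (xiF G om) (z, t)) := R.continuous.comp cdξ
  have h2C := two_C (T := 1) cX1 dL1 cRd dD1
    (by simp only [PL_zero, map_zero]) (fun t => by rw [Rinv, eD])
  -- left side
  have rW : ∀ t, R (WF G om (z, t)) = R (WF G om (z, 0)) + R (dF (PL (xiF G om)) (z, t)) := by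
    intro t
    rw [← map_add]
    exact hG.rs_W hs hc hz t
  have e1 : R (((2 : ℝ) • MM G om) z) = (2 : ℝ) • (R (WF G om (z, 0)) * R (lam G om z)) +
      (2 : ℝ) • ∫ t in (0 : ℝ)..1, R (dF (PL (xiF G om)) (z, t)) * R (xiF G om (z, t)) := by
    have cWθ : Continuous fun t => WF G om (z, t) * xiF G om (z, t) :=
      cont_mul ((hG.smF_W hs).cont hz) cξ
    have h1 : R (MM G om z) = ∫ t in (0 : ℝ)..1, R (WF G om (z, t) * xiF G om (z, t)) := by
      rw [hR]; exact rs_TI cWθ 0 1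
    have h2 : R (lam G om z) = ∫ t in (0 : ℝ)..1, R (xiF G om (z, t)) := by
      rw [hR]; exact rs_TI cξ 0 1
    rw [Pi.smul_apply, map_smul, h1, h2, ← int_left _ cX1, ← smul_add,
      ← intervalIntegral.integral_add ((cont_mul continuous_const cX1).intervalIntegrable _ _)
        ((cont_mul cRD cX1).intervalIntegrable _ _)]
    congr 1
    refine intervalIntegral.integral_congr fun t _ => ?_
    show R (WF G om (z, t) * xiF G om (z, t)) = _
    rw [Rm, rW t, add_mul]
  have rdη : R (F.d (eta G om) z) =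
      ∫ t in (0 : ℝ)..1, (R (dF (PL (xiF G om)) (z, t)) * R (xiF G om (z, t)) +
        -(R (PL (xiF G om) (z, t))) * R (dF (xiF G om) (z, t))) := by
    have h1 : F.d (eta G om) z = TI 0 1 (dF (fun p => PL (xiF G om) p * xiF G om p)) z :=
      hPξ.d_TI 0 1 hz
    rw [h1, hR, rs_TI (hPξ.dF.cont hz)]
    refine intervalIntegral.integral_congr fun t _ => ?_
    show rs U z (dF (fun p => PL (xiF G om) p * xiF G om p) (z, t)) = _
    rw [dF_mul sG.PL sG hz t, map_add, rs_mul, rs_mul]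
    have : inv (PL (xiF G om) (z, t)) = - PL (xiF G om) (z, t) := inv_ell he (z, t)
    rw [this, map_neg]
  have eW : inv (R (WF G om (z, 0))) = R (WF G om (z, 0)) := by rw [Rinv, inv_WF he]
  rw [e1, h2C, Pi.add_apply, Pi.mul_apply, Pi.add_apply, map_add, Rm, map_add, rdη, rW 1]
  have hl : R (PL (xiF G om) (z, 1)) = R (lam G om z) := rfl
  rw [hl]
  have c1 : R (lam G om z) * R (dF (PL (xiF G om)) (z, 1)) =
      R (dF (PL (xiF G om)) (z, 1)) * R (lam G om z) :=
    (even_comm (by rw [Rinv, eD]) _).symm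
  rw [c1, two_smul, add_mul, add_mul]
  abel

end um

section four
universe u v
variable {E : Type u} [NormedAddCommGroup E] [NormedSpace ℝ E] [FiniteDimensional ℝ E]
  {E₁ : Type v} [NormedAddCommGroup E₁] [NormedSpace ℝ E₁] [FiniteDimensional ℝ E₁]
  {E' : Type*} [NormedAddCommGroup E'] [NormedSpace ℝ E'] [FiniteDimensional ℝ E']
  {K : Set E} {U : Set E₁} {Y : Set E'} {Fm : E × ℝ → E'} {G : E₁ × ℝ → E'}
  {pr : Fin 4 → E → E₁} {h h' : ℝ → ℝ} {T : ℝ} {om : E' → Ext E'} {d : ℕ} {o : E → Ext E}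
  {v : Fin 4 → E → E} {y : E₁ → Ext E₁}

/-- pull-backs of the end forms do not depend on the arc -/
theorem end_eqv (hG : Fam U Y G) {p q : E → E₁} (hp : SMap K U p) (hq : SMap K U q)
    (c : ℝ) (h : ∀ x ∈ K, G (p x, c) = G (q x, c)) :
    Eqv K (pull p (fun z => WF G om (z, c))) (pull q (fun z => WF G om (z, c))) := by
  have dG : ∀ z ∈ U, DifferentiableAt ℝ (fun z => G (z, c)) z := fun z hz =>
    ((hG.sm z hz c).comp z (contDiffAt_id.prodMk contDiffAt_const)).differentiableAt (by simp)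
  have e : ∀ {p : E → E₁}, SMap K U p → ∀ x ∈ K, pull p (fun z => WF G om (z, c)) x =
      pull (fun x => G (p x, c)) om x := fun {p} hp x hx =>
    pull_comp (f := p) (g := fun z => G (z, c)) (hp.diff hx) (dG _ (hp.maps hx))
  refine (Eqv.of_eq (e hp)).trans (Eqv.trans ?_ (Eqv.of_eq (e hq)).symm)
  exact eqv_pull_of_eq om (fun x hx => (dG _ (hp.maps hx)).comp x (hp.diff hx))
    (fun x hx => (dG _ (hq.maps hx)).comp x (hq.diff hx)) h

variable (w : Four K U Y Fm G pr h h' T) (hs : Sm Y om) (hc : Cl Y om)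
  (he : ∀ y, inv (om y) = om y)
include w hs hc he

/-- the data of AF7 -/
theorem Four.alg (hK : Clo d K) (ho : Ori d K o)
    (hp0 : ∀ i, ∀ x ∈ K, G (pr i x, 0) = G (pr 0 x, 0))
    (hp1 : ∀ i, ∀ x ∈ K, G (pr i x, 1) = G (pr 0 x, 1))
    (vT : ∀ j, j ≠ 0 → ∀ x ∈ K, v j x ∈ Tan K x) (v0 : ∀ j, j ≠ 0 → ∀ x ∈ K, v j x ≠ 0)
    (hv : ∀ i j, j ≠ 0 → i ≠ j → ∀ x ∈ K, fderiv ℝ (pr i) x (v j x) = 0)
    (sy : Sm U y) (cy : Cl U y) :
    Alg d K o v (fun i => pull (pr i) (lam G om)) (fun i => pull (pr i) (eta G om))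
      (fun i => pull (pr i) (MM G om)) (fun i => pull (pr i) (NN G om))
      (pull (pr 0) (fun z => WF G om (z, 0))) (pull (pr 0) (fun z => WF G om (z, 1)))
      (pull (pr 0) y) := by
  have hG := w.hG
  have hW := hG.smF_W hs
  have sW : ∀ c : ℝ, Sm U (fun z => WF G om (z, c)) := fun c z hz => hW.slice hz c
  have kill : ∀ i j, j ≠ 0 → i ≠ j → ∀ f : E₁ → Ext E₁, Kl K (v j) (pull (pr i) f) :=
    fun i j hj hij f => Kl.pull (hv i j hj hij) f
  refine
    { hK := hK, ho := ho, vT := vT, v0 := v0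
      sl := fun i => (sm_lam hG hs).pull (w.hpr i)
      se := fun i => (sm_eta hG hs).pull (w.hpr i)
      sM := fun i => (sm_MM hG hs).pull (w.hpr i)
      sN := fun i => (sm_NN hG hs).pull (w.hpr i)
      sa := (sW 0).pull (w.hpr 0)
      sb := (sW 1).pull (w.hpr 0)
      sy := sy.pull (w.hpr 0)
      kl := fun i j hj hij => kill i j hj hij _
      ke := fun i j hj hij => kill i j hj hij _
      kM := fun i j hj hij => kill i j hj hij _
      kN := fun i j hj hij => kill i j hj hij _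
      ka := fun j hj => kill 0 j hj hj.symm _
      kb := fun j hj => kill 0 j hj hj.symm _
      ky := fun j hj => kill 0 j hj hj.symm _
      ol := fun i x => by rw [pull, ← pb_inv, inv_lam he, map_neg]
      ee := fun i x => by rw [pull, ← pb_inv, inv_eta he]
      oM := fun i x => by rw [pull, ← pb_inv, inv_MM he, map_neg]
      ea := fun x => by rw [pull, ← pb_inv, inv_WF he]
      eb := fun x => by rw [pull, ← pb_inv, inv_WF he]
      dl := ?_
      dM := ?_
      dy := Cl.pull (w.hpr 0) sy cy }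
  · intro i
    refine (d_pull_eqv (w.hpr i) (sm_lam hG hs)).trans ?_
    refine ((d_lam hG hs hc).pull (w.hpr i)).trans ?_
    rw [pull_sub']
    exact (end_eqv hG (w.hpr i) (w.hpr 0) 1 (hp1 i)).sub (end_eqv hG (w.hpr i) (w.hpr 0) 0 (hp0 i))
  · intro i
    have h1 := (two_MM hG hs hc he).pull (w.hpr i)
    rw [pull_smul', pull_add', pull_mul', pull_add'] at h1
    refine h1.trans ?_
    exact (((end_eqv hG (w.hpr i) (w.hpr 0) 0 (hp0 i)).add
      (end_eqv hG (w.hpr i) (w.hpr 0) 1 (hp1 i))).mul (Eqv.refl _)).add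
      (d_pull_eqv (w.hpr i) (sm_eta hG hs)).symm

/-- **the integral of `ψ * y` over a four arc family** -/
theorem Four.J_psi (hK : Clo d K) (ho : Ori d K o)
    (hp0 : ∀ i, ∀ x ∈ K, G (pr i x, 0) = G (pr 0 x, 0))
    (hp1 : ∀ i, ∀ x ∈ K, G (pr i x, 1) = G (pr 0 x, 1))
    (vT : ∀ j, j ≠ 0 → ∀ x ∈ K, v j x ∈ Tan K x) (v0 : ∀ j, j ≠ 0 → ∀ x ∈ K, v j x ≠ 0)
    (hv : ∀ i j, j ≠ 0 → i ≠ j → ∀ x ∈ K, fderiv ℝ (pr i) x (v j x) = 0)
    (sy : Sm U y) (cy : Cl U y) :
    T ^ 2 * J d K o (psiK T (WF Fm om) (xiF Fm om) * pull (pr 0) y) =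
      - J d K o ((pull (pr 3) (lam G om) - pull (pr 0) (lam G om)) *
        ((pull (pr 2) (lam G om) - pull (pr 0) (lam G om)) *
        ((pull (pr 1) (lam G om) - pull (pr 0) (lam G om)) *
        (((2 : ℝ) • pull (pr 0) (fun z => WF G om (z, 0)) + pull (pr 0) (fun z => WF G om (z, 1))) *
          pull (pr 0) y)))) := by
  have A := w.alg hs hc he hK ho hp0 hp1 vT v0 hv sy cy
  obtain ⟨τ, sτ, hτ⟩ := w.psi_eqv hs hc he
  have r1 := A.red1
  have r2 := A.red2
  have e1 : (T ^ 2) • (psiK T (WF Fm om) (xiF Fm om) * pull (pr 0) y) =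
      ((T ^ 2) • psiK T (WF Fm om) (xiF Fm om)) * pull (pr 0) y := by
    rw [smul_mul_assoc]
  rw [← J_smul', e1, J_eqv hK (hτ.mul (Eqv.refl (pull (pr 0) y)))]
  have s01 : Sm K (pull (pr 0) (lam G om) - pull (pr 1) (lam G om)) := (A.sl 0).sub (A.sl 1)
  have sL : Sm K (pull (pr 0) (lam G om) - pull (pr 1) (lam G om) + pull (pr 2) (lam G om) -
    pull (pr 3) (lam G om)) := (s01.add (A.sl 2)).sub (A.sl 3)
  have sB := (((A.sPhi 0 Sm.zero).sub (A.sPhi 1 s01)).add (A.sPhi 2 s01)).sub (A.sPhi 3 sL)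
  have nτ : Nu d K o (F.d τ * pull (pr 0) y) := by
    refine Nu.of_eqv hK (sτ.d.mul A.sy) ?_ (Nu.dd hK ho (sτ.mul A.sy))
    have h1 := d_mul_eqv sτ A.sy
    have h2 : Eqv K (F.d (pull (pr 0) y)) 0 := resZero_iff.1 A.dy
    have h3 := h1.trans ((Eqv.refl (F.d τ * pull (pr 0) y)).add
      ((Eqv.refl (fun x => inv (τ x))).mul h2))
    rw [mul_zero, add_zero] at h3
    exact h3.symm
  rw [sub_mul, neg_mul]
  refine (J_sub' hK ho ((sL.mul sB).mul A.sy).neg nτ.1).trans ?_
  rw [nτ.2, sub_zero, J_neg']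
  congr 1
  exact r1.trans r2

end four

end Crest.Agent.R208.AF
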