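import Crest.Agent.R208.T2a

/-! Row 208, block T (helper316).  T2: closed forms of low degree on a sphere bundle come from the
base (`sph_low`), and the Gysin lemma (`gysin`). -/

set_option autoImplicit false
set_option linter.unusedSectionVars false

open MeasureTheory Set Filter Topology Module
open scoped ContDiff
open Crest.Agent.R208.F Crest.Agent.R208.FI Crest.Agent.R208.CW

noncomputable section

namespace Crest.Agent.R208.T

universe u w

section deg
variable {E : Type*} [NormedAddCommGroup E] [NormedSpace ℝ E] [FiniteDimensional ℝ E]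
  {a e : E → Ext E} {r : ℕ}

theorem dp_mul_hom (he : Hom r e) (i : ℕ) : dp (i + r) (a * e) = dp i a * e := by
  funext x
  have h1 := sum_dpl (a x)
  change dpl (i + r) (a x * e x) = dpl i (a x) * e x
  have h2 : a x * e x = ∑ k ∈ Finset.range (finrank ℝ E + 1), dpl k (a x) * e x := by
    rw [← Finset.sum_mul, h1]
  have h3 : ∀ k, dpl (i + r) (dpl k (a x) * e x) = if k = i then dpl k (a x) * e x else 0 := by
    intro k
    split_ifs with h
    · subst h; exact dpl_of_isDeg (isDeg_mul (isDeg_dpl _ _) (he x))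
    · exact dpl_of_isDeg_ne (isDeg_mul (isDeg_dpl _ _) (he x)) (by omega)
  rw [h2, _root_.map_sum]
  simp only [h3]
  rw [Finset.sum_ite_eq']
  split_ifs with h
  · rfl
  · rw [Finset.mem_range] at h
    rw [(isDeg_dpl i (a x)).eq_zero (by omega), zero_mul]

theorem dp_mul_hom_low (he : Hom r e) {j : ℕ} (hj : j < r) : dp j (a * e) = 0 := by
  funext x
  have h1 := sum_dpl (a x)
  change dpl j (a x * e x) = 0
  have h2 : a x * e x = ∑ k ∈ Finset.range (finrank ℝ E + 1), dpl k (a x) * e x := by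
    rw [← Finset.sum_mul, h1]
  rw [h2, _root_.map_sum]
  exact Finset.sum_eq_zero fun k _ =>
    dpl_of_isDeg_ne (isDeg_mul (isDeg_dpl _ _) (he x)) (by omega)

end deg

variable {E : Type u} {H : Type w} [NormedAddCommGroup E] [NormedSpace ℝ E] [FiniteDimensional ℝ E]
  [NormedAddCommGroup H] [InnerProductSpace ℝ H] [FiniteDimensional ℝ H]
  {X : Set E} {P : E → H →L[ℝ] H} {r d : ℕ} {R c₀ : ℝ} {e : E → Ext E}
  {τ τ' om : E × H → Ext (E × H)}

/-- unit sphere bundle -/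
def Sph (X : Set E) (P : E → H →L[ℝ] H) : Set (E × H) := {z | z ∈ Tot X P ∧ ‖z.2‖ = 1}

/-- `0` for `‖h‖² ≤ 1/2`, `1` for `‖h‖ ≥ 1` -/
def kp (h : H) : ℝ := Real.smoothTransition (2 * ‖h‖ ^ 2 - 1)

theorem contDiff_kp : ContDiff ℝ ∞ (kp (H := H)) :=
  Real.smoothTransition.contDiff.comp ((contDiff_const.mul (contDiff_norm_sq ℝ)).sub contDiff_const)

theorem kp_one {h : H} (hh : 1 ≤ ‖h‖) : kp h = 1 := by
  refine Real.smoothTransition.one_of_one_le ?_
  nlinarith

theorem kp_zero {h : H} (hh : ‖h‖ < 1 / 2) : kp h = 0 := by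
  refine Real.smoothTransition.zero_of_nonpos ?_
  have := norm_nonneg h
  nlinarith

/-- radial retraction -/
def rh (z : E × H) : E × H := (z.1, ‖z.2‖⁻¹ • z.2)

/-- radial extension -/
def rx (b : E × H → Ext (E × H)) (z : E × H) : Ext (E × H) := kp z.2 • F.pull rh b z

/-- zero section -/
def zs (x : E) : E × H := (x, 0)

/-- collapse to the zero section -/
def z0 (z : E × H) : E × H := (z.1, 0)

theorem CSF.mono {R' : ℝ} (hR : R ≤ R') (h : CSF X P R om) : CSF X P R' om :=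
  ⟨h.smooth, fun z hz => h.supp z (hR.trans_lt hz), h.closed⟩

theorem ThomPair.mono [MeasurableSpace H] {μ : Measure H} {R' : ℝ} (hR : R ≤ R')
    (h : ThomPair μ X P r R c₀ e τ τ') : ThomPair μ X P r R' c₀ e τ τ' :=
  ⟨h.csf.mono hR, h.csf'.mono hR, h.even, h.deg, h.deg', h.unit, h.ne, h.zero⟩

theorem isOpen_out (R : ℝ) : IsOpen {z : E × H | R < ‖z.2‖} :=
  isOpen_lt continuous_const (by fun_prop)

theorem isOpen_ne : IsOpen {z : E × H | z.2 ≠ 0} :=
  isOpen_ne_fun (by fun_prop) continuous_const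

theorem smap_rh :
    SMap (Tot X P ∩ {z | z.2 ≠ 0}) (Sph X P) (rh (E := E) (H := H)) := by
  refine ⟨fun z hz => ?_, fun z hz => ?_⟩
  · have h1 : ContDiffAt ℝ ∞ (fun z : E × H => ‖z.2‖) z :=
      (contDiffAt_norm ℝ hz.2).comp z contDiffAt_snd
    exact contDiffAt_fst.prodMk ((h1.inv (norm_ne_zero_iff.2 hz.2)).smul contDiffAt_snd)
  · refine ⟨⟨hz.1.1, ?_⟩, ?_⟩
    · change P z.1 (‖z.2‖⁻¹ • z.2) = ‖z.2‖⁻¹ • z.2
      rw [map_smul, hz.1.2]
    · change ‖‖z.2‖⁻¹ • z.2‖ = 1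
      rw [norm_smul, norm_inv, norm_norm, inv_mul_cancel₀ (norm_ne_zero_iff.2 hz.2)]

theorem smap_zs : SMap X (Tot X P) (zs (E := E) (H := H)) :=
  ⟨fun _ _ => contDiffAt_id.prodMk contDiffAt_const, fun x hx => ⟨hx, map_zero (P x)⟩⟩

theorem smap_z0 : SMap (Tot X P) (Tot X P) (z0 (E := E) (H := H)) :=
  ⟨fun _ _ => contDiffAt_fst.prodMk contDiffAt_const, fun z hz => ⟨hz.1, map_zero (P z.1)⟩⟩

theorem smap_fstS : SMap (Sph X P) X (Prod.fst : E × H → E) :=
  ⟨fun _ _ => contDiffAt_fst, fun _ hz => hz.1.1⟩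

theorem rx_near_zero (b : E × H → Ext (E × H)) {z : E × H} (hz : ‖z.2‖ < 1 / 2) :
    rx b =ᶠ[𝓝 z] fun _ => 0 := by
  have ho : IsOpen {z : E × H | ‖z.2‖ < 1 / 2} := isOpen_lt (by fun_prop) continuous_const
  filter_upwards [ho.mem_nhds hz] with y hy
  rw [rx, kp_zero hy, zero_smul]

theorem rx_near_out (b : E × H → Ext (E × H)) {z : E × H} (hz : 1 < ‖z.2‖) :
    rx b =ᶠ[𝓝 z] F.pull rh b := by
  filter_upwards [(isOpen_out 1).mem_nhds hz] with y hy
  rw [rx, kp_one (le_of_lt hy), one_smul]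

theorem Sm.rx {b : E × H → Ext (E × H)} (h : Sm (Sph X P) b) :
    Sm (Tot X P) (rx b) := by
  intro z hz
  by_cases h0 : z.2 = 0
  · exact contDiffAt_const.congr_of_eventuallyEq (rx_near_zero b (by rw [h0]; simp))
  · exact ((contDiff_kp).contDiffAt.comp z contDiffAt_snd).smul
      ((h.pull smap_rh) z ⟨hz, h0⟩)

theorem d_rx {b : E × H → Ext (E × H)} (h : Sm (Sph X P) b) :
    Eqv (Tot X P ∩ {z | 1 < ‖z.2‖}) (F.d (rx b)) (F.pull rh (F.d b)) := by
  refine Eqv.of_eq fun z hz => ?_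
  rw [F.d_congr (rx_near_out b hz.2)]
  have h0 : z.2 ≠ 0 := fun h => by
    have := hz.2
    rw [mem_ofPred_eq, h, norm_zero] at this
    linarith
  exact F.d_pull (smap_rh.c2 ⟨hz.1, h0⟩) (h.diff (smap_rh.maps ⟨hz.1, h0⟩))

theorem smap_rh' :
    SMap (Tot X P ∩ {z | 1 < ‖z.2‖}) (Sph X P) (rh (E := E) (H := H)) :=
  smap_rh.mono fun z hz => ⟨hz.1, fun h => by
    have := hz.2
    rw [mem_ofPred_eq, h, norm_zero] at this
    linarith⟩

/-- cutting off a closed form which vanishes on `X` outside a ball bundle -/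
theorem eqv_cutH' (hR : 0 ≤ R) (h : Eqv (Tot X P ∩ {z | R < ‖z.2‖}) om 0) :
    Eqv (Tot X P) (cutH R om) om := by
  refine eqv_iff.2 fun z hz => ?_
  rcases le_or_gt ‖z.2‖ R with h1 | h1
  · rw [cutH, chi_one hR h1, one_smul]
  · have h2 := eqv_of_open (isOpen_out R) h hz h1
    rw [cutH, map_smul, h2]
    simp

theorem csf_cutH (hX : Sub d X) (hP : PField X r P) (hR : 0 ≤ R) (hs : Sm (Tot X P) om)
    (hc : Cl (Tot X P) om) (h : Eqv (Tot X P ∩ {z | R < ‖z.2‖}) om 0) :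
    CSF X P (R + 1) (cutH R om) :=
  ⟨hs.cutH, Vt.cutH hR, Cl.of_eqv (hP.sub_tot hX) hs.cutH hs (eqv_cutH' hR h) hc⟩

theorem Hom.cutH {E H : Type*} [NormedAddCommGroup E] [NormedSpace ℝ E] [FiniteDimensional ℝ E]
  [NormedAddCommGroup H] [InnerProductSpace ℝ H] [FiniteDimensional ℝ H]
  {om : E × H → Ext (E × H)} {j : ℕ} {R : ℝ} (h : Hom j om) : Hom j (cutH R om) :=
  fun z => (h z).smul _

theorem Hom.rx {j : ℕ} {b : E × H → Ext (E × H)} (h : Hom j b) : Hom j (rx b) :=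
  fun z => ((h _).pb _).smul _

/-- contraction to the zero section -/
theorem coh_z0 (hs : Sm (Tot X P) om) (hc : Cl (Tot X P) om) :
    Coh (Tot X P) om (F.pull (z0 (E := E) (H := H)) om) := by
  have h1 := coh_homotopy (X := Tot X P) (Y := Tot X P)
    (Fh := fun p : (E × H) × ℝ => ((p.1.1, p.2 • p.1.2) : E × H)) (w := om)
    (fun z _ t _ => by fun_prop) (fun z hz t _ => ⟨hz.1, by
      change P z.1 (t • z.2) = t • z.2
      rw [map_smul, hz.2]⟩) hs hc
  have h2 : (fun y : E × H => ((y.1, (1 : ℝ) • y.2) : E × H)) = fun y => y :=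
    funext fun y => by simp
  have h3 : (fun y : E × H => ((y.1, (0 : ℝ) • y.2) : E × H)) = z0 := funext fun y => by
    simp [z0]
  simp only [h2, h3] at h1
  rwa [show F.pull (fun y : E × H => y) om = om from funext fun z => F.pull_id om z] at h1

variable [MeasurableSpace H] [BorelSpace H] {μ : Measure H} [μ.IsAddHaarMeasure]

/-- **(B1)** a closed form of degree `j < r - 1` on the sphere bundle comes from the base. -/
theorem sph_low (hX : Sub d X) (hP : PField X r P) (hT : ThomPair μ X P r R c₀ e τ τ')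
    (hrN : r ≤ finrank ℝ H) {j : ℕ} (hj : j + 1 < r) {b : E × H → Ext (E × H)}
    (hb : Sm (Sph X P) b) (hc : Cl (Sph X P) b) (hd : Hom j b) :
    ∃ c : E → Ext E, Sm X c ∧ Cl X c ∧ Hom j c ∧ Coh (Sph X P) b (F.pull Prod.fst c) := by
  set a := rx b with ha
  have sa : Sm (Tot X P) a := hb.rx
  set om0 := F.d a with hom0
  have s0 : Sm (Tot X P) om0 := sa.d
  have c0 : Cl (Tot X P) om0 := d_d' sa
  have e0 : Eqv (Tot X P ∩ {z | 1 < ‖z.2‖}) om0 0 := by
    refine (d_rx hb).trans ?_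
    have := Eqv.pull (smap_rh') (resZero_iff.1 hc)
    rwa [pull_zero'] at this
  set R' := max R 2 with hR'
  have hR0 : 0 ≤ R' := le_trans (by norm_num) (le_max_right R 2)
  set om := cutH 1 om0 with hom
  have hom2 : CSF X P R' om := (csf_cutH hX hP zero_le_one s0 c0 e0).mono
    (by rw [hR']; norm_num)
  have he : Eqv (Tot X P) om om0 := eqv_cutH' zero_le_one e0
  obtain ⟨-, -, L, sL, vL, eL⟩ := thom μ hX hP (hT.mono (le_max_left R 2)) hR0 hom2
  have hz : pI μ (thE' P τ' om) = 0 := by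
    funext x
    refine pI_eq_zero μ (p := (finrank ℝ H - r) + (j + 1)) (fun z => ?_) (by omega) x
    exact isDeg_mul ((hT.deg' _).pb _) ((Hom.cutH (Hom.d hd.rx) _).pb _)
  rw [hz] at eL
  have eL2 : Eqv (Tot X P) (c₀ • om) (F.d L) := by
    have : F.pull (Prod.fst : E × H → E) (0 : E → Ext E) = 0 := pull_zero' _
    rw [this, zero_mul, sub_zero] at eL
    exact eL
  set ξ := c₀ • a - L with hξ
  have sξ : Sm (Tot X P) ξ := (sa.smul c₀).sub sL
  have cξ : Cl (Tot X P) ξ := by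
    rw [Cl, resZero_iff]
    refine (d_sub_eqv (sa.smul c₀) sL).trans ?_
    have h1 : Eqv (Tot X P) (F.d (c₀ • a)) (F.d L) :=
      (d_smul_eqv c₀ sa).trans ((he.symm.smul c₀).trans eL2)
    have := h1.sub (Eqv.refl (F.d L))
    rwa [sub_self] at this
  have k1 := coh_z0 sξ cξ
  -- the sphere of radius `2 R' + 2`
  set ρ : ℝ := 2 * R' + 2 with hρ
  have hρ1 : 1 < ρ := by rw [hρ]; linarith
  let s : E × H → E × H := fun z => (z.1, ρ • z.2)
  have hs : SMap (Sph X P) (Tot X P ∩ {z | 1 < ‖z.2‖}) s := by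
    refine ⟨fun z _ => by fun_prop, fun z hz => ⟨⟨hz.1.1, ?_⟩, ?_⟩⟩
    · change P z.1 (ρ • z.2) = ρ • z.2
      rw [map_smul, hz.1.2]
    · change 1 < ‖ρ • z.2‖
      rw [norm_smul, hz.2, mul_one, Real.norm_of_nonneg (by linarith)]
      exact hρ1
  have hs' : SMap (Sph X P) (Tot X P) s := ⟨hs.smooth, fun z hz => (hs.maps hz).1⟩
  have k2 := k1.pull hs'
  have k3 : Eqv (Sph X P) (F.pull s ξ) (c₀ • b) := by
    rw [hξ, pull_sub', pull_smul']
    have h1 : Eqv (Sph X P) (F.pull s L) 0 := Eqv.of_eq fun z hz => by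
      refine pull_of_zero (vL _ ?_)
      change 2 * R' + 1 < ‖ρ • z.2‖
      rw [norm_smul, hz.2, mul_one, Real.norm_of_nonneg (by linarith), hρ]
      linarith
    have h2 : Eqv (Sph X P) (F.pull s a) b := by
      have h3 : Eqv (Sph X P) (F.pull s a) (F.pull s (F.pull rh b)) := Eqv.of_eq fun z hz => by
        rw [F.pull, F.pull, ha, (rx_near_out b (hs.maps hz).2).eq_of_nhds]
      refine h3.trans ((eqv_pull_pull hs (smap_rh') (SMap.id _) (fun z hz => ?_) b).trans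
        (Eqv.of_eq fun z _ => F.pull_id b z))
      refine Prod.ext rfl ?_
      change ‖ρ • z.2‖⁻¹ • (ρ • z.2) = z.2
      rw [norm_smul, hz.2, mul_one, Real.norm_of_nonneg (by linarith), smul_smul,
        inv_mul_cancel₀ (by linarith), one_smul]
    have := (h2.smul c₀).sub h1
    rwa [sub_zero] at this
  have k4 : Eqv (Sph X P) (F.pull s (F.pull z0 ξ)) (F.pull Prod.fst (F.pull zs ξ)) := by
    have h1 : SMap (Sph X P) (Tot X P) (z0 (E := E) (H := H)) :=
      ⟨fun _ _ => contDiffAt_fst.prodMk contDiffAt_const, fun z hz => ⟨hz.1.1, map_zero (P z.1)⟩⟩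
    exact (eqv_pull_pull hs' smap_z0 h1 (fun _ _ => rfl) ξ).trans
      (eqv_pull_pull smap_fstS smap_zs h1 (fun _ _ => rfl) ξ).symm
  have k5 : Coh (Sph X P) (c₀ • b) (F.pull Prod.fst (F.pull zs ξ)) :=
    (Coh.of_eqv k3.symm).trans (k2.trans (Coh.of_eqv k4))
  have k6 := (k5.smul c₀⁻¹).dp j
  have h7 : c₀⁻¹ • c₀ • b = b := by rw [smul_smul, inv_mul_cancel₀ hT.ne, one_smul]
  rw [h7, hd.dp_eq, ← pull_smul', dp_pull] at k6
  have s1 : Sm X (c₀⁻¹ • F.pull zs ξ) := (sξ.pull smap_zs).smul _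
  exact ⟨dp j (c₀⁻¹ • F.pull zs ξ), s1.dp j,
    Cl.dp j s1 (Cl.smul _ (sξ.pull smap_zs) (cξ.pull smap_zs sξ)), hom_dp _ _, k6⟩

/-- **(B2) Gysin**, before taking components. -/
theorem gysin0 (hX : Sub d X) (hP : PField X r P) (hT : ThomPair μ X P r R c₀ e τ τ')
    {b : E → Ext E} (hb : Sm X b) (hc : Cl X b) (h : Coh (Sph X P) (F.pull Prod.fst b) 0) :
    ∃ c : E → Ext E, Sm X c ∧ Cl X c ∧ Coh X b (c * F.pull zs τ) := by
  obtain ⟨γ, sγ, eγ⟩ := h
  rw [sub_zero] at eγ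
  have sp : Sm (Tot X P) (F.pull Prod.fst b) := hb.pull smap_fst'
  set om0 := F.pull (Prod.fst : E × H → E) b - F.d (rx γ) with hom0
  have s0 : Sm (Tot X P) om0 := sp.sub (sγ.rx).d
  have c0 : Cl (Tot X P) om0 := Cl.sub sp (sγ.rx).d (hc.pull smap_fst' hb) (d_d' (sγ.rx))
  have hfs : SMap (Tot X P ∩ {z | 1 < ‖z.2‖}) X (Prod.fst : E × H → E) :=
    ⟨fun _ _ => contDiffAt_fst, fun _ hz => hz.1.1⟩
  have e0 : Eqv (Tot X P ∩ {z | 1 < ‖z.2‖}) om0 0 := by
    have h1 : Eqv (Tot X P ∩ {z | 1 < ‖z.2‖}) (F.d (rx γ)) (F.pull Prod.fst b) := by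
      refine (d_rx sγ).trans (((Eqv.pull (smap_rh') eγ).symm).trans ?_)
      exact eqv_pull_pull (smap_rh') smap_fstS hfs (fun _ _ => rfl) b
    have := (Eqv.refl (X := Tot X P ∩ {z | 1 < ‖z.2‖}) (F.pull (Prod.fst : E × H → E) b)).sub h1
    rwa [sub_self] at this
  set R' := max R 2 with hR'
  have hR0 : 0 ≤ R' := le_trans (by norm_num) (le_max_right R 2)
  set om := cutH 1 om0 with hom
  have hom2 : CSF X P R' om := (csf_cutH hX hP zero_le_one s0 c0 e0).mono
    (by rw [hR']; norm_num)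
  have he : Eqv (Tot X P) om om0 := eqv_cutH' zero_le_one e0
  obtain ⟨sc, cc, L, sL, -, eL⟩ := thom μ hX hP (hT.mono (le_max_left R 2)) hR0 hom2
  set c' := pI μ (thE' P τ' om) with hc'
  have k1 : Coh (Tot X P) (c₀ • om) (F.pull Prod.fst c' * τ) := ⟨L, sL, eL⟩
  have k2 := k1.pull (smap_zs (X := X) (P := P))
  rw [pull_smul', pull_mul'] at k2
  have k3 : Eqv X (F.pull zs om) b := by
    refine (Eqv.pull smap_zs he).trans ?_
    rw [hom0, pull_sub']
    have h1 : Eqv X (F.pull zs (F.d (rx γ))) 0 := Eqv.of_eq fun x _ => by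
      refine pull_of_zero ?_
      have : rx γ =ᶠ[𝓝 (zs (E := E) (H := H) x)] fun _ => 0 :=
        rx_near_zero γ (by rw [zs]; simp)
      rw [F.d_congr this, F.d_const]
    have h2 : Eqv X (F.pull zs (F.pull (Prod.fst : E × H → E) b)) b :=
      (eqv_pull_pull smap_zs (smap_fst' (X := X) (P := P)) (SMap.id X) (fun _ _ => rfl) b).trans
        (Eqv.of_eq fun x _ => F.pull_id b x)
    have := h2.sub h1
    rwa [sub_zero] at this
  have k4 : Eqv X (F.pull zs (F.pull (Prod.fst : E × H → E) c')) c' :=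
    (eqv_pull_pull smap_zs (smap_fst' (X := X) (P := P)) (SMap.id X) (fun _ _ => rfl) c').trans
      (Eqv.of_eq fun x _ => F.pull_id c' x)
  have k5 : Coh X (c₀ • b) (c' * F.pull zs τ) :=
    (Coh.of_eqv (k3.smul c₀).symm).trans (k2.trans (Coh.of_eqv (k4.mul (Eqv.refl _))))
  have k6 := k5.smul c₀⁻¹
  rw [smul_smul, inv_mul_cancel₀ hT.ne, one_smul, ← smul_mul_assoc] at k6
  exact ⟨c₀⁻¹ • c', sc.smul _, Cl.smul _ sc cc, k6⟩

/-- **(B2) Gysin lemma** -/
theorem gysin (hX : Sub d X) (hP : PField X r P) (hT : ThomPair μ X P r R c₀ e τ τ')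
    {j : ℕ} {b : E → Ext E} (hb : Sm X b) (hc : Cl X b) (hd : Hom (j + r) b)
    (h : Coh (Sph X P) (F.pull Prod.fst b) 0) :
    ∃ c : E → Ext E, Sm X c ∧ Cl X c ∧ Hom j c ∧ Coh X b (c * e) := by
  obtain ⟨c, sc, cc, h1⟩ := gysin0 hX hP hT hb hc h
  have hτ : Hom r (F.pull (zs (E := E) (H := H)) τ) := fun x => (hT.deg _).pb _
  have h2 := h1.dp (j + r)
  rw [hd.dp_eq, dp_mul_hom hτ] at h2
  exact ⟨dp j c, sc.dp j, Cl.dp j sc cc, hom_dp _ _,
    h2.trans (Coh.of_eqv ((Eqv.refl _).mul hT.zero))⟩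

/-- **(B2) Gysin lemma**, low degrees -/
theorem gysin_low (hX : Sub d X) (hP : PField X r P) (hT : ThomPair μ X P r R c₀ e τ τ')
    {j : ℕ} {b : E → Ext E} (hb : Sm X b) (hc : Cl X b) (hd : Hom j b) (hj : j < r)
    (h : Coh (Sph X P) (F.pull Prod.fst b) 0) : Coh X b 0 := by
  obtain ⟨c, sc, cc, h1⟩ := gysin0 hX hP hT hb hc h
  have hτ : Hom r (F.pull (zs (E := E) (H := H)) τ) := fun x => (hT.deg _).pb _
  have h2 := h1.dp j
  rwa [hd.dp_eq, dp_mul_hom_low hτ hj] at h2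

end Crest.Agent.R208.T
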