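import Crest.Agent.R208.FV5
import Crest.Agent.R208.T2

/-! Row 208, block F2 (helper349), part FV6 ((SPH) of helper316's #11157): the sphere bundles
`Sph (Cut S p) (V_{·p}) ≅ Sph {p} T_p` and `Sph F V ≅ Sph S T = US`. -/

set_option autoImplicit false
set_option linter.unusedSectionVars false
set_option linter.unusedVariables false

open Set Filter Topology Module
open scoped ContDiff RealInnerProductSpace
open Crest.GeometryTopology.Submanifold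
open Crest.Agent.R241.DDefs
open Crest.Agent.R241.D2
open Crest.Agent.R241
open Crest.Agent.R208.F Crest.Agent.R208.FI Crest.Agent.R208.CW
open Crest.Agent.R208.L (US TanTS)

noncomputable section

namespace Crest.Agent.R208.FV

variable {n N : ℕ} {κ : ℝ} {S : Set (Euc N)} {G : Geo n N κ S} {k : ℕ}

/-- the arrival map `(p,v) ↦ (Exp_p (π v), - γ_v'(π))` -/
def arr (G : Geo n N κ S) (z : Euc N × Euc N) : Euc N × Euc N :=
  (Exp G z.1 (Real.pi • z.2), GT.ar G z.1 z.2)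

theorem arr_eq {z : Euc N × Euc N} (hz : z ∈ TS G) : arr G z = rev (fl G (z, Real.pi)) :=
  Prod.ext (Exp_smul G hz.1 hz.2 Real.pi) rfl

theorem contDiffAt_arr {z : Euc N × Euc N} (hz : z ∈ TS G) : ContDiffAt ℝ ∞ (arr G) z := by
  have h1 : ContDiffAt ℝ ∞ (fun y : Euc N × Euc N => Exp G y.1 (Real.pi • y.2)) z :=
    contDiffAt_snd.comp z (contDiffAt_phi hz) |>.congr_of_eventuallyEq (Eventually.of_forall
      fun y => rfl)
  have h2 : ContDiffAt ℝ ∞ (fun y : Euc N × Euc N => fl G (y, Real.pi)) z :=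
    (contDiffAt_fl' G hz Real.pi).comp z
      (f := fun y : Euc N × Euc N => (y, Real.pi)) (by fun_prop)
  exact h1.prodMk (h2.snd.neg)

theorem arr_mem {z : Euc N × Euc N} (hz : z ∈ US G) : arr G z ∈ US G := by
  rw [arr_eq hz.1]
  refine ⟨rev_mem G (fl_mem G hz.1 _), ?_⟩
  change ‖-(fl G (z, Real.pi)).2‖ = 1
  rw [norm_neg, norm_fl G hz.1]
  exact hz.2

theorem arr_arr {z : Euc N × Euc N} (hz : z ∈ US G) : arr G (arr G z) = z := by
  have h0 := arr_mem hz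
  rw [arr_eq h0.1, arr_eq hz.1]
  have h1 := K.fl_rev_back G hz.1 Real.pi
  rw [h1]
  simp [rev]

theorem smap_arr : SMap (US G) (US G) (arr G) := ⟨fun z hz => contDiffAt_arr hz.1, fun z hz => arr_mem hz⟩

theorem arr_phi {z : Euc N × Euc N} : ((phi G z).2, GT.ar G z.1 z.2) = arr G z := rfl

/-- `Sph S G.P` is the unit tangent bundle -/
theorem Sph_S : T.Sph S G.P = US G := by
  ext z
  constructor
  · rintro ⟨h1, h2⟩
    rw [LB.Tot_eq] at h1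
    exact ⟨h1, h2⟩
  · rintro ⟨h1, h2⟩
    refine ⟨?_, h2⟩
    rw [LB.Tot_eq]; exact h1

/-- the field `q ↦ V_{qp}` over the cut locus of `p` -/
def PC (h : GT.Bla G k) (p : Euc N) (q : Euc N) : Euc N →L[ℝ] Euc N := PVB h (q, p)

theorem contDiff_PC (h : GT.Bla G k) (p : Euc N) : ContDiff ℝ ∞ (PC h p) :=
  (contDiff_PVB h).comp (contDiff_id.prodMk contDiff_const)

theorem Cut_swap {p q : Euc N} (hp : p ∈ S) (hq : q ∈ GP.Cut S p) : (q, p) ∈ GT.FF S :=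
  GT.FF_symm' ⟨hp, hq.1, hq.2⟩

theorem smap_Cut {p : Euc N} (hp : p ∈ S) :
    SMap (GP.Cut S p) (GT.FF S) (fun q : Euc N => (q, p)) :=
  ⟨fun q _ => by fun_prop, fun q hq => Cut_swap hp hq⟩

theorem pfield_PC (h : GT.Bla G k) {p : Euc N} (hp : p ∈ S) :
    PField (GP.Cut S p) k (PC h p) where
  smooth := fun q _ => (contDiff_PC h p).contDiffAt
  idem := fun q hq v => (pfield_PVB h).idem _ (Cut_swap hp hq) v
  rank := fun q hq => (pfield_PVB h).rank _ (Cut_swap hp hq)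

theorem mem_Sph_PC (h : GT.Bla G k) {p : Euc N} (hp : p ∈ S) {z : Euc N × Euc N} :
    z ∈ T.Sph (GP.Cut S p) (PC h p) ↔ z ∈ US G ∧ (arr G z).1 = p := by
  constructor
  · rintro ⟨⟨h1, h2⟩, h3⟩
    have hF := Cut_swap hp h1
    have hv : z.2 ∈ Vl G (z.1, p) := (PV_eq_self h.bl h.ty (sub_S h.bl) hF).1 h2
    exact ⟨⟨⟨h1.1, Vl_le h.ty hF hv⟩, h3⟩, h.Exp_pi hF hv h3⟩
  · rintro ⟨h1, h2⟩
    have hF := phi_mem h.bl h1
    have h3 : phi G z = (z.1, p) := Prod.ext rfl h2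
    rw [h3] at hF
    have hC : z.1 ∈ GP.Cut S p := ⟨hF.1, (GT.FF_symm' hF).2.2⟩
    refine ⟨⟨hC, ?_⟩, h1.2⟩
    refine (PV_eq_self h.bl h.ty (sub_S h.bl) hF).2 ?_
    rw [← h3]
    exact snd_mem_Vl h.bl h.ty h1

theorem mem_Sph_pt {p : Euc N} (hp : p ∈ S) {z : Euc N × Euc N} :
    z ∈ T.Sph {p} (fun _ : Euc N => G.P p) ↔ z ∈ US G ∧ z.1 = p := by
  constructor
  · rintro ⟨⟨h1, h2⟩, h3⟩
    have h1' : z.1 = p := h1
    refine ⟨⟨⟨by rw [h1']; exact hp, ?_⟩, h3⟩, h1'⟩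
    rw [h1']
    exact (P_eq_self G hp).2 h2
  · rintro ⟨h1, h2⟩
    refine ⟨⟨h2, ?_⟩, h1.2⟩
    have := h1.1.2
    rw [h2] at this
    exact (P_eq_self G hp).1 this

/-- (SPH)(a), forward: `(q,v) ↦ (p, w)`, `Exp_p (π w) = q` -/
theorem smap_Sph_Cut (h : GT.Bla G k) {p : Euc N} (hp : p ∈ S) :
    SMap (T.Sph (GP.Cut S p) (PC h p)) (T.Sph {p} (fun _ : Euc N => G.P p)) (arr G) where
  smooth := fun z hz => contDiffAt_arr ((mem_Sph_PC h hp).1 hz).1.1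
  maps := fun z hz => by
    obtain ⟨h1, h2⟩ := (mem_Sph_PC h hp).1 hz
    exact (mem_Sph_pt hp).2 ⟨arr_mem h1, h2⟩

/-- (SPH)(a), inverse: `(p,w) ↦ (Exp_p (π w), ar p w)` -/
theorem smap_Sph_pt (h : GT.Bla G k) {p : Euc N} (hp : p ∈ S) :
    SMap (T.Sph {p} (fun _ : Euc N => G.P p)) (T.Sph (GP.Cut S p) (PC h p)) (arr G) where
  smooth := fun z hz => contDiffAt_arr ((mem_Sph_pt hp).1 hz).1.1
  maps := fun z hz => by
    obtain ⟨h1, h2⟩ := (mem_Sph_pt hp).1 hz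
    refine (mem_Sph_PC h hp).2 ⟨arr_mem h1, ?_⟩
    rw [arr_arr h1, h2]

theorem arr_arr_Cut (h : GT.Bla G k) {p : Euc N} (hp : p ∈ S) {z : Euc N × Euc N}
    (hz : z ∈ T.Sph (GP.Cut S p) (PC h p)) : arr G (arr G z) = z :=
  arr_arr ((mem_Sph_PC h hp).1 hz).1

theorem arr_arr_pt {p : Euc N} (hp : p ∈ S) {z : Euc N × Euc N}
    (hz : z ∈ T.Sph {p} (fun _ : Euc N => G.P p)) : arr G (arr G z) = z :=
  arr_arr ((mem_Sph_pt hp).1 hz).1

/-! ### (SPH)(b) -/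

/-- `((p,q),v) ↦ (p,v)` -/
def dn (ζ : (Euc N × Euc N) × Euc N) : Euc N × Euc N := (ζ.1.1, ζ.2)

/-- `(p,v) ↦ ((p, Exp_p (π v)), v)` -/
def up (G : Geo n N κ S) (z : Euc N × Euc N) : (Euc N × Euc N) × Euc N := (phi G z, z.2)

theorem mem_Sph_F (h : GT.Bla G k) {ζ : (Euc N × Euc N) × Euc N} :
    ζ ∈ T.Sph (GT.FF S) (PVB h) ↔ dn ζ ∈ US G ∧ phi G (dn ζ) = ζ.1 := by
  constructor
  · rintro ⟨⟨h1, h2⟩, h3⟩
    have hv : ζ.2 ∈ Vl G ζ.1 := (PV_eq_self h.bl h.ty (sub_S h.bl) h1).1 h2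
    exact ⟨⟨⟨h1.1, Vl_le h.ty h1 hv⟩, h3⟩, Prod.ext rfl (h.Exp_pi h1 hv h3)⟩
  · rintro ⟨h1, h2⟩
    have hF := phi_mem h.bl h1
    rw [h2] at hF
    refine ⟨⟨hF, ?_⟩, h1.2⟩
    refine (PV_eq_self h.bl h.ty (sub_S h.bl) hF).2 ?_
    rw [← h2]
    exact snd_mem_Vl h.bl h.ty h1

theorem smap_dn (h : GT.Bla G k) : SMap (T.Sph (GT.FF S) (PVB h)) (T.Sph S G.P) dn where
  smooth := fun ζ _ => by unfold dn; fun_prop
  maps := fun ζ hζ => by rw [Sph_S]; exact ((mem_Sph_F h).1 hζ).1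

theorem smap_up (h : GT.Bla G k) : SMap (T.Sph S G.P) (T.Sph (GT.FF S) (PVB h)) (up G) where
  smooth := fun z hz => by
    rw [Sph_S] at hz
    exact (contDiffAt_phi hz.1).prodMk contDiffAt_snd
  maps := fun z hz => by
    rw [Sph_S] at hz
    exact (mem_Sph_F h).2 ⟨hz, rfl⟩

theorem up_dn (h : GT.Bla G k) {ζ : (Euc N × Euc N) × Euc N}
    (hζ : ζ ∈ T.Sph (GT.FF S) (PVB h)) : up G (dn ζ) = ζ :=
  Prod.ext ((mem_Sph_F h).1 hζ).2 rfl

theorem dn_up (z : Euc N × Euc N) : dn (up G z) = z := rfl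

end Crest.Agent.R208.FV
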