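import Crest.Agent.R208.KG6
import Crest.Agent.R208.FV6

/-!
Row 208, block KG (helper10), part KG7: the height function of the flat family; the nested sphere
bundle over `US` (helper601's `K_4`) and its map to `Km G 4`.
-/

set_option autoImplicit false

open Set Filter Topology MeasureTheory
open scoped ContDiff RealInnerProductSpace Interval
open Crest.GeometryTopology.Submanifold
open Crest.Agent.R241.DDefs
open Crest.Agent.R241.D2
open Crest.Agent.R241.D3c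

noncomputable section

namespace Crest.Agent.R208.KG

variable {n N : ℕ} {κ : ℝ} {S : Set (Euc N)} {G : Geo n N κ S} {m : ℕ} {ε : ℝ}

/-! ### the height function -/

/-- `0 → 1 → 0 → 1 …` : `hf ε t = hfi ε i t` on `[iπ, (i+1)π]` -/
def hf (ε t : ℝ) : ℝ := hfi ε ⌊t / Real.pi⌋ t

lemma hfi_near (hε : 0 < ε) (hε1 : ε ≤ 1 / 2) {i j : ℤ} {t : ℝ} (hij : j = i ∨ j = i + 1)
    (h1 : |t - j * Real.pi| ≤ ε / 4) : hfi ε i t = if Even j then 0 else 1 := by
  have hpi := Real.pi_ne_zero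
  unfold hfi
  rw [Rf_near hε hε1 h1]
  rcases hij with rfl | rfl
  · by_cases he : Even j
    · rw [if_pos he, if_pos he, sub_self, zero_div]
    · rw [if_neg he, if_neg he, add_mul, add_sub_cancel_left, one_mul, div_self hpi]
  · by_cases he : Even i
    · have h2 : ¬ Even (i + 1) := by simpa [Int.even_add_one] using he
      rw [if_pos he, if_neg h2]
      push_cast
      rw [add_mul, add_sub_cancel_left, one_mul, div_self hpi]
    · have h2 : Even (i + 1) := by simpa [Int.even_add_one] using he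
      rw [if_neg he, if_pos h2]
      push_cast
      rw [sub_self, zero_div]

lemma contDiff_hfi (hε : 0 < ε) (hε1 : ε ≤ 1 / 2) (i : ℤ) : ContDiff ℝ ∞ (hfi ε i) := by
  unfold hfi
  by_cases he : Even i
  · simp only [if_pos he]
    exact ((contDiff_Rf hε hε1).sub contDiff_const).div_const _
  · simp only [if_neg he]
    exact (contDiff_const.sub (contDiff_Rf hε hε1)).div_const _

lemma floor_cases (t₀ : ℝ) {t : ℝ} (h : |t - t₀| < 1) :
    ⌊t / Real.pi⌋ = ⌊t₀ / Real.pi⌋ ∨ ⌊t / Real.pi⌋ = ⌊t₀ / Real.pi⌋ + 1 ∨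
      ⌊t / Real.pi⌋ = ⌊t₀ / Real.pi⌋ - 1 := by
  have hpi := Real.pi_gt_three
  obtain ⟨a1, a2⟩ := abs_lt.1 h
  have e1 := Int.floor_le (t / Real.pi)
  have e2 := Int.lt_floor_add_one (t / Real.pi)
  have e3 := Int.floor_le (t₀ / Real.pi)
  have e4 := Int.lt_floor_add_one (t₀ / Real.pi)
  have h5 : |t / Real.pi - t₀ / Real.pi| < 1 := by
    rw [← sub_div, abs_div, abs_of_pos Real.pi_pos, div_lt_one Real.pi_pos]
    linarith
  obtain ⟨b1, b2⟩ := abs_lt.1 h5
  have c1 : (⌊t / Real.pi⌋ : ℝ) < ⌊t₀ / Real.pi⌋ + 2 := by linarith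
  have c2 : (⌊t₀ / Real.pi⌋ : ℝ) < ⌊t / Real.pi⌋ + 2 := by linarith
  have c1' : ⌊t / Real.pi⌋ < ⌊t₀ / Real.pi⌋ + 2 := by exact_mod_cast c1
  have c2' : ⌊t₀ / Real.pi⌋ < ⌊t / Real.pi⌋ + 2 := by exact_mod_cast c2
  omega

/-- near every time the height is one of the smooth functions `hfi` -/
lemma hf_eventually (hε : 0 < ε) (hε1 : ε ≤ 1 / 2) (t₀ : ℝ) :
    hf ε =ᶠ[𝓝 t₀] hfi ε ⌊t₀ / Real.pi⌋ := by
  have hpi := Real.pi_pos
  set i := ⌊t₀ / Real.pi⌋ with hi
  have e3 := Int.floor_le (t₀ / Real.pi)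
  have e4 := Int.lt_floor_add_one (t₀ / Real.pi)
  rw [← hi] at e3 e4
  have f3 : i * Real.pi ≤ t₀ := by rwa [le_div_iff₀ hpi] at e3
  have f4 : t₀ < (i + 1) * Real.pi := by rwa [div_lt_iff₀ hpi] at e4
  have hmem : Metric.ball t₀ (min (ε / 4) ((i + 1) * Real.pi - t₀)) ∈ 𝓝 t₀ :=
    Metric.ball_mem_nhds _ (lt_min (by positivity) (by linarith))
  filter_upwards [hmem] with t ht
  rw [Metric.mem_ball, Real.dist_eq, lt_min_iff] at ht
  obtain ⟨h1, h2⟩ := ht
  obtain ⟨a1, a2⟩ := abs_lt.1 h1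
  obtain ⟨a3, a4⟩ := abs_lt.1 h2
  have g2 : t < (i + 1) * Real.pi := by linarith
  unfold hf
  rcases lt_or_ge t (i * Real.pi) with hlt | hge
  · -- `⌊t/π⌋ = i - 1` and `t` is near `iπ`
    have hfl : ⌊t / Real.pi⌋ = i - 1 := by
      rcases floor_cases t₀ (t := t) (by linarith) with h | h | h
      · exfalso
        have := Int.floor_le (t / Real.pi)
        rw [h, ← hi, le_div_iff₀ hpi] at this
        linarith
      · exfalso
        have := Int.floor_le (t / Real.pi)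
        rw [h, ← hi, le_div_iff₀ hpi] at this
        push_cast at this
        linarith
      · rw [h]
    rw [hfl, hfi_near hε hε1 (i := i - 1) (j := i) (Or.inr (by ring))
      (by rw [abs_le]; constructor <;> linarith),
      hfi_near hε hε1 (i := i) (j := i) (Or.inl rfl) (by rw [abs_le]; constructor <;> linarith)]
  · have hfl : ⌊t / Real.pi⌋ = i := by
      rw [Int.floor_eq_iff]
      constructor
      · rw [le_div_iff₀ hpi]; exact hge
      · rw [div_lt_iff₀ hpi]; exact g2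
    rw [hfl]

theorem contDiff_hf (hε : 0 < ε) (hε1 : ε ≤ 1 / 2) : ContDiff ℝ ∞ (hf ε) := by
  rw [contDiff_iff_contDiffAt]
  intro t₀
  exact (contDiff_hfi hε hε1 _).contDiffAt.congr_of_eventuallyEq (hf_eventually hε hε1 t₀)

lemma hf_eq (hε : 0 < ε) (hε1 : ε ≤ 1 / 2) {i : ℤ} {t : ℝ} (h1 : i * Real.pi ≤ t)
    (h2 : t ≤ (i + 1) * Real.pi) : hf ε t = hfi ε i t := by
  have hpi := Real.pi_pos
  rcases h2.lt_or_eq with h | h
  · have hfl : ⌊t / Real.pi⌋ = i := by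
      rw [Int.floor_eq_iff]
      constructor
      · rw [le_div_iff₀ hpi]; exact h1
      · rw [div_lt_iff₀ hpi]; exact h
    unfold hf
    rw [hfl]
  · have hfl : ⌊t / Real.pi⌋ = i + 1 := by
      rw [h, mul_div_assoc, div_self hpi.ne', mul_one]
      exact_mod_cast Int.floor_intCast (i + 1)
    unfold hf
    rw [hfl, hfi_near hε hε1 (i := i + 1) (j := i + 1) (Or.inl rfl)
      (by rw [h]; push_cast; rw [sub_self, abs_zero]; positivity),
      hfi_near hε hε1 (i := i) (j := i + 1) (Or.inr rfl)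
      (by rw [h]; push_cast; rw [sub_self, abs_zero]; positivity)]

/-- near `jπ` the height is constant, `0` for even and `1` for odd `j` -/
lemma hf_near (hε : 0 < ε) (hε1 : ε ≤ 1 / 2) {j : ℤ} {t : ℝ} (h1 : |t - j * Real.pi| ≤ ε / 4) :
    hf ε t = if Even j then 0 else 1 := by
  have hpi := Real.pi_gt_three
  obtain ⟨a1, a2⟩ := abs_le.1 h1
  rcases le_total t (j * Real.pi) with h | h
  · rw [hf_eq hε hε1 (i := j - 1) (by push_cast; linarith) (by push_cast; linarith),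
      hfi_near hε hε1 (Or.inr (by ring)) h1]
  · rw [hf_eq hε hε1 (i := j) h (by linarith), hfi_near hε hε1 (Or.inl rfl) h1]

lemma hf_mem (hε : 0 < ε) (hε1 : ε ≤ 1 / 2) (t : ℝ) : hf ε t ∈ Icc (0 : ℝ) 1 := by
  have hpi := Real.pi_pos
  set i := ⌊t / Real.pi⌋ with hi
  have e3 := Int.floor_le (t / Real.pi)
  have e4 := Int.lt_floor_add_one (t / Real.pi)
  rw [← hi] at e3 e4
  have f3 : i * Real.pi ≤ t := by rwa [le_div_iff₀ hpi] at e3
  have f4 : t < (i + 1) * Real.pi := by rwa [div_lt_iff₀ hpi] at e4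
  obtain ⟨g1, g2⟩ := Rf_mem hε hε1 f3 f4.le
  have h5 : hf ε t = hfi ε i t := rfl
  rw [h5]
  unfold hfi
  split_ifs
  · exact ⟨div_nonneg (by linarith) hpi.le, by rw [div_le_one hpi]; linarith⟩
  · exact ⟨div_nonneg (by linarith) hpi.le, by rw [div_le_one hpi]; linarith⟩

lemma hf_add (t : ℝ) (ε : ℝ) : hf ε (t + 2 * Real.pi) = hf ε t := by
  have hpi := Real.pi_ne_zero
  unfold hf
  have e1 : (t + 2 * Real.pi) / Real.pi = t / Real.pi + 2 := by field_simp
  rw [e1]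
  have e2 : ⌊t / Real.pi + 2⌋ = ⌊t / Real.pi⌋ + 2 := by
    exact_mod_cast Int.floor_add_intCast (t / Real.pi) 2
  rw [e2]
  unfold hfi
  have e3 : Rf ε (t + 2 * Real.pi) = Rf ε t + 2 * Real.pi := by
    have : t + 2 * Real.pi = t + Real.pi + Real.pi := by ring
    rw [this, Rf_add, Rf_add]; ring
  rw [e3]
  have e4 : Even (⌊t / Real.pi⌋ + 2) ↔ Even ⌊t / Real.pi⌋ := by
    rw [Int.even_add]; simp
  simp only [e4]
  push_cast
  split_ifs
  · congr 1; ring
  · congr 1; ring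

variable [NeZero m] {z : Euc N × (Fin m → Euc N)}

/-- **the flat family in terms of the height** -/
theorem F_hf (h : OK G m ε) (hz : z ∈ Km G m) {i : ℤ} {α : ℝ}
    (h1 : i * Real.pi ≤ (m : ℝ) / 2 * α) (h2 : (m : ℝ) / 2 * α ≤ (i + 1) * Real.pi) :
    F G m ε z 1 α =
      Exp G z.1 ((Real.pi * hf ε ((m : ℝ) / 2 * α)) • (sgi i • z.2 (idx m i))) := by
  rw [F_flat' h hz h1 h2, hf_eq h.pos h.le h1 h2]

/-! ### the nested sphere bundle -/

open Crest.Agent.R208.FV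

variable {k : ℕ}

/-- `K_2` over `US` -/
def N2 (h : GT.Bla G k) : Set ((Euc N × Euc N) × Euc N) :=
  T.Sph (L.US G) (fun z => PVB h (phi G z))

/-- `K_3` -/
def N3 (h : GT.Bla G k) : Set (((Euc N × Euc N) × Euc N) × Euc N) :=
  T.Sph (N2 h) (fun z => PVB h (phi G z.1))

/-- `K_4` -/
def N4 (h : GT.Bla G k) : Set ((((Euc N × Euc N) × Euc N) × Euc N) × Euc N) :=
  T.Sph (N3 h) (fun z => PVB h (phi G z.1.1))

/-- the map to chains -/
def nest4 (z : (((Euc N × Euc N) × Euc N) × Euc N) × Euc N) : Euc N × (Fin 4 → Euc N) :=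
  (z.1.1.1.1, ![z.1.1.1.2, z.1.1.2, z.1.2, z.2])

/-- the map to chains, two arcs -/
def nest2 (z : (Euc N × Euc N) × Euc N) : Euc N × (Fin 2 → Euc N) := (z.1.1, ![z.1.2, z.2])

omit [NeZero m] in
lemma contDiff_nest4 : ContDiff ℝ ∞
    (nest4 : (((Euc N × Euc N) × Euc N) × Euc N) × Euc N → Euc N × (Fin 4 → Euc N)) := by
  unfold nest4
  refine ContDiff.prodMk (by fun_prop) (contDiff_pi.2 fun i => ?_)
  fin_cases i <;> simp <;> fun_prop

omit [NeZero m] in
lemma contDiff_nest2 : ContDiff ℝ ∞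
    (nest2 : (Euc N × Euc N) × Euc N → Euc N × (Fin 2 → Euc N)) := by
  unfold nest2
  refine ContDiff.prodMk (by fun_prop) (contDiff_pi.2 fun i => ?_)
  fin_cases i <;> simp <;> fun_prop

omit [NeZero m] in
/-- membership in a link -/
lemma link_spec (h : GT.Bla G k) {z : Euc N × Euc N} (hz : z ∈ L.US G) {a : Euc N}
    (ha : PVB h (phi G z) a = a) (ha1 : ‖a‖ = 1) :
    a ∈ G.T z.1 ∧ ‖a‖ = 1 ∧ Exp G z.1 (Real.pi • a) = Exp G z.1 (Real.pi • z.2) := by
  have hF := phi_mem h.bl hz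
  have h1 := (PV_eq_self h.bl h.ty (sub_S h.bl) hF).1 ha
  exact (mem_Vl h.ty hF).1 ⟨h1, ha1⟩

omit [NeZero m] in
theorem nest4_mem (h : GT.Bla G k) {z : (((Euc N × Euc N) × Euc N) × Euc N) × Euc N}
    (hz : z ∈ N4 h) : nest4 z ∈ Km G 4 := by
  obtain ⟨⟨⟨⟨⟨⟨hz0, h1⟩, h1'⟩, h2⟩, h2'⟩, h3⟩, h3'⟩ := hz
  have e1 := link_spec h hz0 h1 h1'
  have e2 := link_spec h hz0 h2 h2'
  have e3 := link_spec h hz0 h3 h3'
  refine ⟨hz0.1.1, ?_, ?_⟩
  · intro i
    fin_cases i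
    · exact ⟨hz0.1.2, hz0.2⟩
    · exact ⟨e1.1, e1.2.1⟩
    · exact ⟨e2.1, e2.2.1⟩
    · exact ⟨e3.1, e3.2.1⟩
  · have key : ∀ i, Exp G (nest4 z).1 (Real.pi • (nest4 z).2 i) =
        Exp G z.1.1.1.1 (Real.pi • z.1.1.1.2) := by
      intro i
      fin_cases i
      · rfl
      · exact e1.2.2
      · exact e2.2.2
      · exact e3.2.2
    intro i i'
    rw [key, key]

omit [NeZero m] in
theorem nest2_mem (h : GT.Bla G k) {z : (Euc N × Euc N) × Euc N}
    (hz : z ∈ N2 h) : nest2 z ∈ Km G 2 := by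
  obtain ⟨⟨hz0, h1⟩, h1'⟩ := hz
  have e1 := link_spec h hz0 h1 h1'
  refine ⟨hz0.1.1, ?_, ?_⟩
  · intro i
    fin_cases i
    · exact ⟨hz0.1.2, hz0.2⟩
    · exact ⟨e1.1, e1.2.1⟩
  · have key : ∀ i, Exp G (nest2 z).1 (Real.pi • (nest2 z).2 i) =
        Exp G z.1.1 (Real.pi • z.1.2) := by
      intro i
      fin_cases i
      · rfl
      · exact e1.2.2
    intro i i'
    rw [key, key]

end Crest.Agent.R208.KG
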