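import Crest.Agent.R208.CW6a

/-! Row 208, block CW (helper586).  CW6b: moving oriented subspaces by linear maps, and the
orthogonal complement. -/

set_option autoImplicit false
set_option linter.unusedSectionVars false
set_option linter.unusedSimpArgs false
set_option linter.unusedVariables false

open scoped BigOperators ContDiff Topology RealInnerProductSpace
open Module Set Matrix

noncomputable section

namespace Crest.Agent.R208.CW

open Crest.Agent.R208.F Crest.Agent.R208.FI

universe u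

section alg
variable {R : Type*} [CommRing R] {A B n : Type*} [Fintype A] [DecidableEq A] [Fintype B]
  [DecidableEq B] [Fintype n] [DecidableEq n]

theorem det_rows (M : Matrix A A R) :
    M.det = ∑ σ : Equiv.Perm A, ((Equiv.Perm.sign σ : ℤ) : R) * ∏ p, M p (σ p) := by
  rw [← det_transpose, det_apply']
  rfl

/-- Cauchy–Binet, unordered form -/
theorem det_mul_expand (M : Matrix A n R) (N : Matrix n A R) :
    (M * N).det = ∑ I : A → n, (∏ p, M p (I p)) * (N.submatrix I id).det := by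
  rw [det_rows]
  simp only [det_rows (N.submatrix _ id), Finset.mul_sum]
  rw [Finset.sum_comm]
  refine Finset.sum_congr rfl fun σ _ => ?_
  simp only [Matrix.mul_apply]
  rw [Finset.prod_univ_sum, Fintype.piFinset_univ, Finset.mul_sum]
  refine Finset.sum_congr rfl fun I _ => ?_
  rw [Finset.prod_mul_distrib]
  simp only [submatrix_apply, id_eq]
  ring

end alg

section clm
variable {H : Type*} [NormedAddCommGroup H] [InnerProductSpace ℝ H]
  {H' : Type*} [NormedAddCommGroup H'] [InnerProductSpace ℝ H']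
  {H'' : Type*} [NormedAddCommGroup H''] [InnerProductSpace ℝ H'']
  {A B ι n m l : Type*} [Fintype A] [DecidableEq A] [Fintype B] [DecidableEq B] [Fintype ι]
  [DecidableEq ι] [Fintype n] [DecidableEq n] [Fintype m] [DecidableEq m] [Fintype l]
  [DecidableEq l]

/-- moving tensors -/
def pushT (b : OrthonormalBasis n ℝ H) (b' : OrthonormalBasis m ℝ H') (S : H →L[ℝ] H')
    (w : TW A n) : TW A m := fun J => ∑ I, (∏ p, ⟪b' (J p), S (b (I p))⟫) * w I

theorem pushT_tn (b : OrthonormalBasis n ℝ H) (b' : OrthonormalBasis m ℝ H') (S : H →L[ℝ] H')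
    (f : A → H) : pushT b b' S (tn b f) = tn b' (fun p => S (f p)) := by
  funext J
  have e : (Matrix.of fun p q => ⟪b' (J p), S (f q)⟫)
      = (Matrix.of fun (p : A) (i : n) => ⟪b' (J p), S (b i)⟫)
        * (Matrix.of fun (i : n) (q : A) => ⟪b i, f q⟫) := by
    refine Matrix.ext fun p q => ?_
    rw [Matrix.mul_apply]
    simp only [of_apply]
    conv_lhs => rw [← b.sum_repr' (f q)]
    rw [map_sum, inner_sum]
    refine Finset.sum_congr rfl fun i _ => ?_
    rw [map_smul, inner_smul_right, mul_comm]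
  rw [tn, e, det_mul_expand]
  rfl

theorem pushT_pushT (b : OrthonormalBasis n ℝ H) (b' : OrthonormalBasis m ℝ H')
    (b'' : OrthonormalBasis l ℝ H'') (S : H →L[ℝ] H') (S' : H' →L[ℝ] H'') (w : TW A n) :
    pushT b' b'' S' (pushT b b' S w) = pushT b b'' (S'.comp S) w := by
  funext J
  simp only [pushT, Finset.mul_sum]
  rw [Finset.sum_comm]
  refine Finset.sum_congr rfl fun I _ => ?_
  have e : ∀ p, ⟪b'' (J p), (S'.comp S) (b (I p))⟫
      = ∑ k, ⟪b'' (J p), S' (b' k)⟫ * ⟪b' k, S (b (I p))⟫ := fun p => by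
    rw [ContinuousLinearMap.comp_apply]
    conv_lhs => rw [← b'.sum_repr' (S (b (I p)))]
    rw [map_sum, inner_sum]
    refine Finset.sum_congr rfl fun i _ => ?_
    rw [map_smul, inner_smul_right, mul_comm]
  simp only [e]
  rw [Finset.prod_univ_sum, Fintype.piFinset_univ, Finset.sum_mul]
  refine Finset.sum_congr rfl fun K _ => ?_
  rw [Finset.prod_mul_distrib]; ring

theorem pushT_neg (b : OrthonormalBasis n ℝ H) (b' : OrthonormalBasis m ℝ H') (S : H →L[ℝ] H')
    (w : TW A n) : pushT b b' S (-w) = - pushT b b' S w := by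
  funext J
  simp only [pushT, Pi.neg_apply, mul_neg, Finset.sum_neg_distrib]

/-- complex matrix of `S` -/
def sM (b : OrthonormalBasis n ℝ H) (b' : OrthonormalBasis m ℝ H') (S : H →L[ℝ] H') :
    Matrix m n ℂ := Matrix.of fun j i => ((⟪b' j, S (b i)⟫ : ℝ) : ℂ)

theorem cW_push (b : OrthonormalBasis n ℝ H) (b' : OrthonormalBasis m ℝ H') (S : H →L[ℝ] H')
    (w : TW (ι × Fin 2) n) : cW (pushT b b' S w) = pushW (sM b b' S) (cW w) := by
  funext J
  simp only [cW, pushT, pushW, sM, of_apply]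
  push_cast
  rfl

variable [FiniteDimensional ℝ H] [FiniteDimensional ℝ H'] [FiniteDimensional ℝ H'']

/-- moving projections -/
def pushP (S : H →L[ℝ] H') (P : H →L[ℝ] H) : H' →L[ℝ] H' :=
  S.comp (P.comp (ContinuousLinearMap.adjoint S))

theorem FrR.push (b : OrthonormalBasis n ℝ H) (b' : OrthonormalBasis m ℝ H') {P : H →L[ℝ] H}
    {w : TW A n} (h : FrR b P w) {S : H →L[ℝ] H'} (hS : ∀ v, ‖S (P v)‖ = ‖P v‖) :
    FrR b' (pushP S P) (pushT b b' S w) := by
  obtain ⟨f, h1, h2, rfl⟩ := h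
  have hf : ∀ p, P (f p) = f p := fun p => by
    rw [h2, Finset.sum_eq_single p]
    · rw [real_inner_self_eq_norm_sq, h1.1 p, one_pow, one_smul]
    · intro q _ hq; rw [h1.2 hq, zero_smul]
    · intro hp; exact absurd (Finset.mem_univ _) hp
  have hin : ∀ p q, ⟪S (f p), S (f q)⟫ = ⟪f p, f q⟫ := fun p q => by
    have e1 := hS (f p + f q)
    have e2 := hS (f p)
    have e3 := hS (f q)
    rw [map_add, map_add, hf, hf] at e1
    rw [hf] at e2 e3
    have n1 := norm_add_sq_real (S (f p)) (S (f q))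
    have n2 := norm_add_sq_real (f p) (f q)
    rw [e1, e2, e3] at n1
    linarith
  refine ⟨fun p => S (f p), ⟨fun p => ?_, fun p q hpq => ?_⟩, fun v => ?_, pushT_tn b b' S f⟩
  · have := hS (f p); rw [hf] at this; rw [this, h1.1 p]
  · change ⟪S (f p), S (f q)⟫ = 0
    rw [hin, h1.2 hpq]
  · rw [pushP, ContinuousLinearMap.comp_apply, ContinuousLinearMap.comp_apply, h2, map_sum]
    refine Finset.sum_congr rfl fun p _ => ?_
    rw [map_smul, ContinuousLinearMap.adjoint_inner_right]

theorem cM_push (b : OrthonormalBasis n ℝ H) (b' : OrthonormalBasis m ℝ H') (S : H →L[ℝ] H')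
    (P : H →L[ℝ] H) : cM b' (pushP S P) = sM b b' S * cM b P * (sM b b' S)ᵀ := by
  refine Matrix.ext fun i j => ?_
  rw [cM_apply, pushP, ContinuousLinearMap.comp_apply, ContinuousLinearMap.comp_apply,
    Matrix.mul_apply]
  simp only [Matrix.mul_apply, transpose_apply, cM_apply, sM, of_apply]
  have e1 : ∀ v : H, ⟪b' i, S v⟫ = ∑ k, ⟪b' i, S (b k)⟫ * ⟪b k, v⟫ := fun v => by
    conv_lhs => rw [← b.sum_repr' v]
    rw [map_sum, inner_sum]
    exact Finset.sum_congr rfl fun k _ => by rw [map_smul, inner_smul_right, mul_comm]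
  have e2 : ∀ k, ⟪b k, P (ContinuousLinearMap.adjoint S (b' j))⟫
      = ∑ l, ⟪b k, P (b l)⟫ * ⟪b' j, S (b l)⟫ := fun k => by
    conv_lhs => rw [← b.sum_repr' (ContinuousLinearMap.adjoint S (b' j))]
    rw [map_sum, inner_sum]
    refine Finset.sum_congr rfl fun l _ => ?_
    rw [map_smul, inner_smul_right, mul_comm, ContinuousLinearMap.adjoint_inner_right,
      real_inner_comm (b' j) (S (b l))]
  rw [e1]
  simp only [e2, Finset.mul_sum, Finset.sum_mul]
  rw [Finset.sum_comm]
  push_cast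
  refine Finset.sum_congr rfl fun l _ => Finset.sum_congr rfl fun k _ => by ring

section smooth
variable {G : Type*} [NormedAddCommGroup G] [NormedSpace ℝ G] {x : G} {k : WithTop ℕ∞}

theorem contDiffAt_pushT (b : OrthonormalBasis n ℝ H) (b' : OrthonormalBasis m ℝ H')
    {S : G → H →L[ℝ] H'} {w : G → TW A n} (hS : ContDiffAt ℝ k S x) (hw : ContDiffAt ℝ k w x) :
    ContDiffAt ℝ k (fun y => pushT b b' (S y) (w y)) x :=
  contDiffAt_pi.2 fun J => ContDiffAt.sum fun I _ =>
    (contDiffAt_prod fun p _ => contDiffAt_const.inner ℝ (hS.clm_apply contDiffAt_const)).mul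
      (contDiffAt_pi.1 hw I)

theorem contDiffAt_pushP {S : G → H →L[ℝ] H'} {P : G → H →L[ℝ] H} (hS : ContDiffAt ℝ k S x)
    (hP : ContDiffAt ℝ k P x) : ContDiffAt ℝ k (fun y => pushP (S y) (P y)) x := by
  have ha : ContDiffAt ℝ k (fun y => ContinuousLinearMap.adjoint (S y)) x :=
    (ContinuousLinearMap.adjoint (𝕜 := ℝ) (E := H) (F := H')).toContinuousLinearEquiv.contDiff.contDiffAt.comp x hS
  exact hS.clm_comp (hP.clm_comp ha)

end smooth

section fam
variable {E : Type u} [NormedAddCommGroup E] [NormedSpace ℝ E] [FiniteDimensional ℝ E] {x : E}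
  {X : Set E} {dX : ℕ}

theorem OFR.push {b : OrthonormalBasis n ℝ H} (b' : OrthonormalBasis m ℝ H')
    {P : E → H →L[ℝ] H} {w : E → TW A n} (h : OFR b X P w) {S : E → H →L[ℝ] H'}
    (hS : ∀ x ∈ X, ContDiffAt ℝ ∞ S x) (hi : ∀ x ∈ X, ∀ v, ‖S x (P x v)‖ = ‖P x v‖) :
    OFR b' X (fun x => pushP (S x) (P x)) (fun x => pushT b b' (S x) (w x)) :=
  ⟨fun x hx => contDiffAt_pushP (hS x hx) (h.sP x hx),
    fun x hx => contDiffAt_pushT b b' (hS x hx) (h.sW x hx),
    fun x hx => (h.fr x hx).push b b' (hi x hx)⟩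

/-- a constant isometric embedding does not change the Euler form on `X` -/
theorem OFR.er_push_const {b : OrthonormalBasis n ℝ H} (b' : OrthonormalBasis m ℝ H')
    {P : E → H →L[ℝ] H} {w : E → TW (ι × Fin 2) n} (h : OFR b X P w) (S : H →ₗᵢ[ℝ] H') (hx : x ∈ X) :
    pb (Tan X x).subtype (er b' (fun x => pushP S.toContinuousLinearMap (P x))
      (fun x => pushT b b' S.toContinuousLinearMap (w x)) x)
      = pb (Tan X x).subtype (er b P w x) := by
  set L : H →L[ℝ] H' := S.toContinuousLinearMap with hL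
  have h' : OFR b' X (fun x => pushP L (P x)) (fun x => pushT b b' L (w x)) :=
    h.push b' (S := fun _ => L) (fun x hx => contDiffAt_const) fun x hx v => S.norm_map _
  have hSS : (sM b b' L)ᵀ * sM b b' L = 1 := by
    refine Matrix.ext fun i j => ?_
    rw [Matrix.mul_apply]
    simp only [transpose_apply, sM, of_apply]
    have e := b'.sum_inner_mul_inner (L (b i)) (L (b j))
    have e1 : ⟪L (b i), L (b j)⟫ = ⟪b i, b j⟫ := S.inner_map_map _ _
    have e2 := (orthonormal_iff_ite.1 b.orthonormal) i j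
    rw [e1, e2] at e
    have e3 : ∑ k, ((⟪b' k, L (b i)⟫ : ℝ) : ℂ) * ((⟪b' k, L (b j)⟫ : ℝ) : ℂ)
        = ((if i = j then (1 : ℝ) else 0 : ℝ) : ℂ) := by
      rw [← e]; push_cast
      exact Finset.sum_congr rfl fun k _ => by rw [real_inner_comm (b' k) (L (b i))]
    rw [e3, Matrix.one_apply]
    split_ifs <;> simp
  have key := rs_ef_const_push h.of hSS hx
  have e1 : (fun x => sM b b' L * cM b (P x) * (sM b b' L)ᵀ) = fun x => cM b' (pushP L (P x)) :=
    funext fun x => (cM_push b b' L (P x)).symm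
  have e2 : (fun x => pushW (sM b b' L) (cW (w x))) = fun x => cW (pushT b b' L (w x)) :=
    funext fun x => (cW_push b b' L (w x)).symm
  rw [e1, e2, h.ofR_er hx, h'.ofR_er hx] at key
  exact congrArg Cx.re key

end fam

/-! ### the complement -/

/-- signs of index functions -/
def sg {A B n : Type*} [Fintype A] [DecidableEq A] [Fintype B] [DecidableEq B] [DecidableEq n]
    (e : A ⊕ B ≃ n) (I : A → n) (K : B → n) : ℝ :=
  (Matrix.of fun (s : A ⊕ B) (j : A ⊕ B) => if Sum.elim I K s = e j then (1 : ℝ) else 0).det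

/-- complement tensor (Hodge star), linear in `w` -/
def star (e : A ⊕ B ≃ n) (w : TW A n) : TW B n := fun K =>
  ((Fintype.card A).factorial : ℝ)⁻¹ * ∑ I, w I * sg e I K

theorem star_neg (e : A ⊕ B ≃ n) (w : TW A n) : star e (-w) = - star e w := by
  funext K
  simp only [star, Pi.neg_apply, neg_mul, Finset.sum_neg_distrib, mul_neg]

theorem contDiff_star (e : A ⊕ B ≃ n) {k : WithTop ℕ∞} : ContDiff ℝ k (star e : TW A n → TW B n) :=
  contDiff_pi.2 fun K => contDiff_const.mul (ContDiff.sum fun I _ =>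
    (contDiff_apply ℝ ℝ I).mul contDiff_const)

/-- the matrix of a family indexed by `A ⊕ B` -/
def oM (e : A ⊕ B ≃ n) (b : OrthonormalBasis n ℝ H) (h : A ⊕ B → H) :
    Matrix (A ⊕ B) (A ⊕ B) ℝ := Matrix.of fun i j => ⟪b (e i), h j⟫

theorem sg_mul (e : A ⊕ B ≃ n) (b : OrthonormalBasis n ℝ H) (h : A ⊕ B → H) (I : A → n)
    (K : B → n) : sg e I K * (oM e b h).det
      = (Matrix.of fun (s : A ⊕ B) (j : A ⊕ B) => ⟪b (Sum.elim I K s), h j⟫).det := by
  rw [sg, ← det_mul]
  congr 1
  refine Matrix.ext fun s j => ?_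
  rw [Matrix.mul_apply]
  simp only [of_apply, oM, ite_mul, one_mul, zero_mul]
  rw [Finset.sum_eq_single (e.symm (Sum.elim I K s))]
  · simp
  · intro t _ ht
    rw [if_neg]
    intro h0
    exact ht (by rw [h0, e.symm_apply_apply])
  · intro h0; exact absurd (Finset.mem_univ _) h0

theorem star_tn (e : A ⊕ B ≃ n) (b : OrthonormalBasis n ℝ H) {h : A ⊕ B → H}
    (ho : Orthonormal ℝ h) (hd : (oM e b h).det = 1) :
    star e (tn b (fun a => h (Sum.inl a))) = tn b (fun a => h (Sum.inr a)) := by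
  funext K
  have h1 : ∀ I, sg e I K
      = (Matrix.of fun (s : A ⊕ B) (j : A ⊕ B) => ⟪b (Sum.elim I K s), h j⟫).det := fun I => by
    rw [← sg_mul, hd, mul_one]
  have hoi := orthonormal_iff_ite.1 ho
  have h2 : ∀ (σ : Equiv.Perm A), ∑ I : A → n, (∏ p, ⟪b (I p), h (Sum.inl (σ p))⟫)
      * (Matrix.of fun (s : A ⊕ B) (j : A ⊕ B) => ⟪b (Sum.elim I K s), h j⟫).det
      = ((Equiv.Perm.sign σ : ℤ) : ℝ) * tn b (fun a => h (Sum.inr a)) K := by
    intro σ
    have e1 : ∀ I : A → n,
        (Matrix.of fun (s : A ⊕ B) (j : A ⊕ B) => ⟪b (Sum.elim I K s), h j⟫).det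
        = ∑ τ : Equiv.Perm (A ⊕ B), ((Equiv.Perm.sign τ : ℤ) : ℝ)
          * ((∏ a, ⟪b (I a), h (τ (Sum.inl a))⟫) * ∏ c, ⟪b (K c), h (τ (Sum.inr c))⟫) := by
      intro I
      rw [det_rows]
      refine Finset.sum_congr rfl fun τ _ => ?_
      rw [Fintype.prod_sum_type]
      rfl
    simp only [e1, Finset.mul_sum]
    rw [Finset.sum_comm]
    have e2 : ∀ τ : Equiv.Perm (A ⊕ B), ∑ I : A → n, (∏ p, ⟪b (I p), h (Sum.inl (σ p))⟫)
        * (((Equiv.Perm.sign τ : ℤ) : ℝ) * ((∏ a, ⟪b (I a), h (τ (Sum.inl a))⟫)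
          * ∏ c, ⟪b (K c), h (τ (Sum.inr c))⟫))
        = ((Equiv.Perm.sign τ : ℤ) : ℝ) * ((∏ a, ⟪h (Sum.inl (σ a)), h (τ (Sum.inl a))⟫)
          * ∏ c, ⟪b (K c), h (τ (Sum.inr c))⟫) := by
      intro τ
      have e3 : ∀ a, ⟪h (Sum.inl (σ a)), h (τ (Sum.inl a))⟫
          = ∑ i, ⟪b i, h (Sum.inl (σ a))⟫ * ⟪b i, h (τ (Sum.inl a))⟫ := fun a => by
        rw [← b.sum_inner_mul_inner]
        exact Finset.sum_congr rfl fun i _ => by rw [real_inner_comm]
      simp only [e3]
      rw [Finset.prod_univ_sum, Fintype.piFinset_univ, Finset.sum_mul, Finset.mul_sum]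
      refine Finset.sum_congr rfl fun I _ => ?_
      rw [Finset.prod_mul_distrib]; ring
    simp only [e2]
    have e4 : ∑ τ : Equiv.Perm (A ⊕ B), ((Equiv.Perm.sign τ : ℤ) : ℝ)
        * ((∏ a, ⟪h (Sum.inl (σ a)), h (τ (Sum.inl a))⟫) * ∏ c, ⟪b (K c), h (τ (Sum.inr c))⟫)
        = (Matrix.of fun (s : A ⊕ B) (j : A ⊕ B) =>
          Sum.elim (fun a => ⟪h (Sum.inl (σ a)), h j⟫) (fun c => ⟪b (K c), h j⟫) s).det := by
      rw [det_rows]
      refine Finset.sum_congr rfl fun τ _ => ?_
      rw [Fintype.prod_sum_type]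
      rfl
    rw [e4]
    have e5 : (Matrix.of fun (s : A ⊕ B) (j : A ⊕ B) =>
          Sum.elim (fun a => ⟪h (Sum.inl (σ a)), h j⟫) (fun c => ⟪b (K c), h j⟫) s)
        = Matrix.fromBlocks ((1 : Matrix A A ℝ).submatrix σ id) 0
          (Matrix.of fun c a => ⟪b (K c), h (Sum.inl a)⟫)
          (Matrix.of fun c d => ⟪b (K c), h (Sum.inr d)⟫) := by
      refine Matrix.ext fun s j => ?_
      rcases s with s | s <;> rcases j with j | j
      · simp only [of_apply, Sum.elim_inl, fromBlocks_apply₁₁, submatrix_apply, id_eq, hoi,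
          Matrix.one_apply, Sum.inl.injEq]
      · simp only [of_apply, Sum.elim_inl, fromBlocks_apply₁₂, Matrix.zero_apply, hoi, reduceCtorEq,
          if_false]
      · rfl
      · rfl
    rw [e5, det_fromBlocks_zero₁₂]
    congr 1
    rw [det_permute, det_one, mul_one]
  have h3 : ∑ I, tn b (fun a => h (Sum.inl a)) I * sg e I K
      = (Fintype.card A).factorial * tn b (fun a => h (Sum.inr a)) K := by
    simp only [h1]
    have e1 : ∀ I : A → n, tn b (fun a => h (Sum.inl a)) I
        = ∑ σ : Equiv.Perm A, ((Equiv.Perm.sign σ : ℤ) : ℝ) * ∏ p, ⟪b (I p), h (Sum.inl (σ p))⟫ :=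
      fun I => det_rows _
    simp only [e1, Finset.sum_mul, mul_assoc]
    rw [Finset.sum_comm]
    simp only [← Finset.mul_sum, h2]
    have e6 : ∀ σ : Equiv.Perm A, ((Equiv.Perm.sign σ : ℤ) : ℝ)
        * (((Equiv.Perm.sign σ : ℤ) : ℝ) * tn b (fun a => h (Sum.inr a)) K)
        = tn b (fun a => h (Sum.inr a)) K := fun σ => by
      rw [← mul_assoc]
      norm_cast
      rw [Int.units_mul_self]
      simp
    simp only [e6, Finset.sum_const, Finset.card_univ, Fintype.card_perm, nsmul_eq_mul]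
  rw [star, h3, ← mul_assoc, inv_mul_cancel₀ (by positivity), one_mul]

theorem oM_det_sq (e : A ⊕ B ≃ n) (b : OrthonormalBasis n ℝ H) {h : A ⊕ B → H}
    (ho : Orthonormal ℝ h) : (oM e b h).det = 1 ∨ (oM e b h).det = -1 := by
  have h1 : (oM e b h)ᵀ * oM e b h = 1 := by
    refine Matrix.ext fun i j => ?_
    rw [Matrix.mul_apply]
    simp only [transpose_apply, oM, of_apply]
    have e1 := b.sum_inner_mul_inner (h i) (h j)
    rw [(orthonormal_iff_ite.1 ho) i j] at e1
    rw [Matrix.one_apply, ← e1, ← e.sum_comp]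
    exact Finset.sum_congr rfl fun k _ => by rw [real_inner_comm]
  have h2 := congrArg Matrix.det h1
  rw [det_mul, det_transpose, det_one] at h2
  exact mul_self_eq_one_iff.1 h2

/-- an orthonormal frame of a subspace extends to a positively oriented one -/
theorem exists_compl [Nonempty B] (e : A ⊕ B ≃ n) (b : OrthonormalBasis n ℝ H) {f : A → H}
    (hf : Orthonormal ℝ f) : ∃ g : B → H, Orthonormal ℝ (Sum.elim f g) ∧
      (oM e b (Sum.elim f g)).det = 1 := by
  classical
  obtain ⟨b0⟩ := ‹Nonempty B›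
  set V : Submodule ℝ H := Submodule.span ℝ (Set.range f) with hV
  have hV1 : finrank ℝ V = Fintype.card A := finrank_span_eq_card hf.linearIndependent
  have hH : finrank ℝ H = Fintype.card A + Fintype.card B := by
    rw [Module.finrank_eq_card_basis b.toBasis, ← Fintype.card_congr e, Fintype.card_sum]
  have hV2 : finrank ℝ Vᗮ = Fintype.card B := by
    have := V.finrank_add_finrank_orthogonal
    omega
  have c : OrthonormalBasis B ℝ Vᗮ := (stdOrthonormalBasis ℝ Vᗮ).reindex
    (Fintype.equivFinOfCardEq hV2.symm).symm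
  have hfV : ∀ a, f a ∈ V := fun a => Submodule.subset_span ⟨a, rfl⟩
  have hor : ∀ g : B → H, Orthonormal ℝ g → (∀ i, g i ∈ Vᗮ) → Orthonormal ℝ (Sum.elim f g) := by
    intro g hg hgV
    rw [orthonormal_iff_ite]
    have h1 := orthonormal_iff_ite.1 hf
    have h2 := orthonormal_iff_ite.1 hg
    rintro (i | i) (j | j)
    · simp only [Sum.elim_inl, h1, Sum.inl.injEq]
    · simp only [Sum.elim_inl, Sum.elim_inr, reduceCtorEq, if_false]
      exact hgV j _ (hfV i)
    · simp only [Sum.elim_inl, Sum.elim_inr, reduceCtorEq, if_false]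
      rw [real_inner_comm]; exact hgV i _ (hfV j)
    · simp only [Sum.elim_inr, h2, Sum.inr.injEq]
  have hg0 : Orthonormal ℝ (fun i => (c i : H)) := by
    have := c.orthonormal
    exact this.comp_linearIsometry Vᗮ.subtypeₗᵢ
  have hg0V : ∀ i, ((c i : Vᗮ) : H) ∈ Vᗮ := fun i => (c i).2
  rcases oM_det_sq e b (hor _ hg0 hg0V) with hd | hd
  · exact ⟨_, hor _ hg0 hg0V, hd⟩
  · set g : B → H := fun i => (if i = b0 then (-1 : ℝ) else 1) • (c i : H) with hg
    have hg1 : Orthonormal ℝ g := by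
      rw [orthonormal_iff_ite] at hg0 ⊢
      intro i j
      rw [hg]
      simp only [inner_smul_left, inner_smul_right, hg0]
      by_cases hij : i = j
      · subst hij
        split_ifs <;> simp
      · simp [hij]
    have hg1V : ∀ i, g i ∈ Vᗮ := fun i => Vᗮ.smul_mem _ (hg0V i)
    refine ⟨g, hor _ hg1 hg1V, ?_⟩
    have : oM e b (Sum.elim f g) = (oM e b (Sum.elim f fun i => (c i : H)))
        * Matrix.diagonal (Sum.elim (fun _ => 1) fun i => if i = b0 then (-1 : ℝ) else 1) := by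
      refine Matrix.ext fun i j => ?_
      rw [Matrix.mul_diagonal]
      rcases j with j | j
      · simp [oM]
      · simp only [oM, of_apply, Sum.elim_inr, hg, inner_smul_right]; ring
    rw [this, det_mul, hd, det_diagonal, Fintype.prod_sum_type]
    simp

/-- **complement**: if `w` orients the range of `P`, then `star e w` orients its complement -/
theorem FrR.compl [Nonempty B] (e : A ⊕ B ≃ n) {b : OrthonormalBasis n ℝ H} {P : H →L[ℝ] H}
    {w : TW A n} (h : FrR b P w) : FrR b (1 - P) (star e w) := by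
  obtain ⟨f, h1, h2, rfl⟩ := h
  obtain ⟨g, hg, hd⟩ := exists_compl e b h1
  have hst := star_tn e b hg hd
  simp only [Sum.elim_inl, Sum.elim_inr] at hst
  refine ⟨g, ?_, fun v => ?_, hst⟩
  · exact hg.comp (Sum.inr : B → A ⊕ B) Sum.inr_injective
  · have hcard : Fintype.card (A ⊕ B) = finrank ℝ H := by
      rw [Module.finrank_eq_card_basis b.toBasis, Fintype.card_congr e]
    have hsp : ⊤ ≤ Submodule.span ℝ (Set.range (Sum.elim f g)) := by
      rw [top_le_iff]
      exact hg.linearIndependent.span_eq_top_of_card_eq_finrank' hcard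
    let c := OrthonormalBasis.mk hg hsp
    have e1 := c.sum_repr' v
    rw [Fintype.sum_sum_type] at e1
    have e2 : ∀ i, c i = Sum.elim f g i := fun i => by rw [OrthonormalBasis.coe_mk]
    simp only [e2, Sum.elim_inl, Sum.elim_inr] at e1
    have e5 : (1 - P) v = v - P v := rfl
    rw [e5, h2, ← e1]
    have e3 : ∀ p, ⟪f p, ∑ i, ⟪f i, v⟫ • f i + ∑ i, ⟪g i, v⟫ • g i⟫ = ⟪f p, v⟫ := fun p => by
      rw [e1]
    have e4 : ∀ p, ⟪g p, ∑ i, ⟪f i, v⟫ • f i + ∑ i, ⟪g i, v⟫ • g i⟫ = ⟪g p, v⟫ := fun p => by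
      rw [e1]
    simp only [e3, e4, add_sub_cancel_left]

theorem OFR.compl {E : Type*} [NormedAddCommGroup E] [NormedSpace ℝ E] [FiniteDimensional ℝ E]
    {X : Set E} [Nonempty B] (e : A ⊕ B ≃ n) {b : OrthonormalBasis n ℝ H} {P : E → H →L[ℝ] H}
    {w : E → TW A n} (h : OFR b X P w) : OFR b X (fun x => 1 - P x) (fun x => star e (w x)) :=
  ⟨fun x hx => contDiffAt_const.sub (h.sP x hx),
    fun x hx => (contDiff_star e).contDiffAt.comp x (h.sW x hx), fun x hx => (h.fr x hx).compl e⟩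

end clm

end Crest.Agent.R208.CW
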