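import Crest.Agent.R208.FH3

/-! Row 208, block F2 (helper198), part FH4: fibres of a submersion `π : Z → X` of closed manifolds
are closed manifolds; product charts. -/

set_option autoImplicit false
set_option linter.unusedSectionVars false

open MeasureTheory Set Filter Topology Module
open scoped ContDiff
open Crest.Agent.R208.F

noncomputable section

namespace Crest.Agent.R208.FI

variable {E E' : Type*} [NormedAddCommGroup E] [NormedSpace ℝ E] [FiniteDimensional ℝ E]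
  [NormedAddCommGroup E'] [NormedSpace ℝ E'] [FiniteDimensional ℝ E']

/-- chart of `Z` adapted to `π` and to the chart `f` of `X`. -/
structure Adapted (r d : ℕ) (Z : Set E') (X : Set E) (π : E' → E) (f : Eu d → E) (V : Set (Eu d))
    (Φ : Eu (r + d) → E') (A : Set (Eu r)) (B : Set (Eu d)) : Prop where
  hA : IsOpen A
  hB : IsOpen B
  sub : B ⊆ V
  base : Chart d X f V
  chart : Chart (r + d) Z Φ (kap r d ⁻¹' (A ×ˢ B))
  comm : ∀ p ∈ kap r d ⁻¹' (A ×ˢ B), π (Φ p) = f (kap r d p).2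

/-- the hypotheses on `π : Z → X` -/
structure Subm (r d : ℕ) (Z : Set E') (X : Set E) (π : E' → E) : Prop where
  cloZ : Clo (r + d) Z
  cloX : Clo d X
  smooth : ∀ z ∈ Z, ContDiffAt ℝ ∞ π z
  mapsTo : MapsTo π Z X
  sub : ∀ z ∈ Z, ∀ w ∈ Tan X (π z), ∃ v ∈ Tan Z z, fderiv ℝ π z v = w

theorem Subm.exists_adapted {r d : ℕ} {Z : Set E'} {X : Set E} {π : E' → E} (h : Subm r d Z X π)
    {z : E'} (hz : z ∈ Z) : ∃ (f : Eu d → E) (V : Set (Eu d)) (Φ : Eu (r + d) → E')
      (A : Set (Eu r)) (B : Set (Eu d)), Adapted r d Z X π f V Φ A B ∧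
        z ∈ Φ '' (kap r d ⁻¹' (A ×ˢ B)) := by
  obtain ⟨φ, W, hφ, w₀, hw₀, rfl⟩ := h.cloZ.chart z hz
  obtain ⟨f, V, hf, hx⟩ := h.cloX.chart _ (h.mapsTo hz)
  obtain ⟨Φ, A, B, hA, hB, hBV, hΦ, hz', hc⟩ :=
    FI.exists_adapted hφ hw₀ h.smooth h.mapsTo hf hx (h.sub _ hz)
  exact ⟨f, V, Φ, A, B, ⟨hA, hB, hBV, hf, hΦ, hc⟩, hz'⟩

namespace Adapted
variable {r d : ℕ} {Z : Set E'} {X : Set E} {π : E' → E} {f : Eu d → E} {V : Set (Eu d)}
  {Φ : Eu (r + d) → E'} {A : Set (Eu r)} {B : Set (Eu d)}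

theorem comm' (h : Adapted r d Z X π f V Φ A B) {a : Eu r} (ha : a ∈ A) {b : Eu d} (hb : b ∈ B) :
    π (Φ ((kap r d).symm (a, b))) = f b := by
  have := h.comm ((kap r d).symm (a, b))
    (by rw [mem_preimage, ContinuousLinearEquiv.apply_symm_apply]; exact ⟨ha, hb⟩)
  rwa [ContinuousLinearEquiv.apply_symm_apply] at this

theorem mem_dom {a : Eu r} (ha : a ∈ A) {b : Eu d} (hb : b ∈ B) :
    (kap r d).symm (a, b) ∈ kap r d ⁻¹' (A ×ˢ B) := by
  rw [mem_preimage, ContinuousLinearEquiv.apply_symm_apply]; exact ⟨ha, hb⟩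

/-- the map `a ↦ (a, b)` -/
def inA (r d : ℕ) (b : Eu d) (a : Eu r) : Eu (r + d) := (kap r d).symm (a, b)

theorem hasFDerivAt_inA (b : Eu d) (a : Eu r) :
    HasFDerivAt (inA r d b) (((kap r d).symm : (Eu r × Eu d) →L[ℝ] Eu (r + d)).comp
      (ContinuousLinearMap.inl ℝ (Eu r) (Eu d))) a := by
  have h1 : HasFDerivAt (fun a : Eu r => (a, b)) (ContinuousLinearMap.inl ℝ (Eu r) (Eu d)) a := by
    exact (hasFDerivAt_id a).prodMk (hasFDerivAt_const b a)
  exact ((kap r d).symm : (Eu r × Eu d) →L[ℝ] Eu (r + d)).hasFDerivAt.comp a h1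

/-- chart of the fibre over `f b` -/
theorem fibre (h : Adapted r d Z X π f V Φ A B) {b : Eu d} (hb : b ∈ B) :
    Chart r (Z ∩ π ⁻¹' {f b}) (fun a => Φ (inA r d b a)) A where
  isOpen := h.hA
  contDiffOn := by
    intro a ha
    have h1 : ContDiffAt ℝ ∞ Φ (inA r d b a) := h.chart.contDiffAt (mem_dom ha hb)
    have h2 : ContDiffAt ℝ ∞ (inA r d b) a :=
      ((kap r d).symm : (Eu r × Eu d) →L[ℝ] Eu (r + d)).contDiff.contDiffAt.comp a
        (contDiffAt_id.prodMk contDiffAt_const)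
    exact (h1.comp a h2).contDiffWithinAt
  injOn := by
    intro a ha a' ha' haa
    have := h.chart.injOn (mem_dom ha hb) (mem_dom ha' hb) haa
    have := (kap r d).symm.injective this
    exact congrArg Prod.fst this
  inj := by
    intro a ha
    have h1 : HasFDerivAt Φ (fderiv ℝ Φ (inA r d b a)) (inA r d b a) :=
      (h.chart.differentiableAt (mem_dom ha hb)).hasFDerivAt
    have h2 := (h1.comp a (hasFDerivAt_inA b a)).fderiv
    have h3 : fderiv ℝ (fun a => Φ (inA r d b a)) a = _ := h2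
    rw [h3]
    intro v w hvw
    have h4 := h.chart.inj _ (mem_dom ha hb) hvw
    have h5 := (kap r d).symm.injective h4
    exact congrArg Prod.fst h5
  image_open := by
    intro W hW hWo
    have hsub : kap r d ⁻¹' (W ×ˢ B) ⊆ kap r d ⁻¹' (A ×ˢ B) := fun p hp => ⟨hW hp.1, hp.2⟩
    obtain ⟨U, hU, hUe⟩ := h.chart.image_open _ hsub ((hWo.prod h.hB).preimage (kap r d).continuous)
    refine ⟨U, hU, ?_⟩
    ext z
    constructor
    · rintro ⟨a, ha, rfl⟩
      have h1 : Φ (inA r d b a) ∈ Φ '' (kap r d ⁻¹' (W ×ˢ B)) := ⟨_, mem_dom ha hb, rfl⟩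
      rw [hUe] at h1
      exact ⟨⟨h1.1, h.comm' (hW ha) hb⟩, h1.2⟩
    · rintro ⟨⟨hzZ, hzπ⟩, hzU⟩
      have h1 : z ∈ Φ '' (kap r d ⁻¹' (W ×ˢ B)) := by rw [hUe]; exact ⟨hzZ, hzU⟩
      obtain ⟨p, hp, rfl⟩ := h1
      have h2 : π (Φ p) = f (kap r d p).2 := h.comm p (hsub hp)
      have h3 : f (kap r d p).2 = f b := by rw [← h2]; exact hzπ
      have h4 : (kap r d p).2 = b := h.base.injOn (h.sub hp.2) (h.sub hb) h3
      refine ⟨(kap r d p).1, hp.1, ?_⟩
      show Φ ((kap r d).symm ((kap r d p).1, b)) = Φ p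
      rw [← h4]
      show Φ ((kap r d).symm (kap r d p)) = Φ p
      rw [ContinuousLinearEquiv.symm_apply_apply]

theorem comp_snd_eq (h : Adapted r d Z X π f V Φ A B) {p : Eu (r + d)}
    (hp : p ∈ kap r d ⁻¹' (A ×ˢ B)) (hπ : DifferentiableAt ℝ π (Φ p)) (v : Eu (r + d)) :
    fderiv ℝ π (Φ p) (fderiv ℝ Φ p v) = fderiv ℝ f (kap r d p).2 (kap r d v).2 := by
  have h1 : HasFDerivAt (fun p => π (Φ p)) ((fderiv ℝ π (Φ p)).comp (fderiv ℝ Φ p)) p :=
    hπ.hasFDerivAt.comp p (h.chart.differentiableAt hp).hasFDerivAt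
  have h2 : HasFDerivAt (fun p : Eu (r + d) => (kap r d p).2)
      ((ContinuousLinearMap.snd ℝ (Eu r) (Eu d)).comp (kap r d : Eu (r + d) →L[ℝ] Eu r × Eu d)) p :=
    ((ContinuousLinearMap.snd ℝ (Eu r) (Eu d)).comp
      (kap r d : Eu (r + d) →L[ℝ] Eu r × Eu d)).hasFDerivAt
  have h3 : HasFDerivAt (fun p : Eu (r + d) => f (kap r d p).2) ((fderiv ℝ f (kap r d p).2).comp
      ((ContinuousLinearMap.snd ℝ (Eu r) (Eu d)).comp
        (kap r d : Eu (r + d) →L[ℝ] Eu r × Eu d))) p :=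
    (h.base.differentiableAt (h.sub hp.2)).hasFDerivAt.comp p h2
  have h4 : HasFDerivAt (fun p : Eu (r + d) => f (kap r d p).2)
      ((fderiv ℝ π (Φ p)).comp (fderiv ℝ Φ p)) p := by
    refine h1.congr_of_eventuallyEq ?_
    filter_upwards [h.chart.isOpen.mem_nhds hp] with q hq
    exact (h.comm q hq).symm
  exact congrArg (fun L : Eu (r + d) →L[ℝ] E => L v) (h4.unique h3)

theorem fderiv_fibre (h : Adapted r d Z X π f V Φ A B) {a : Eu r} (ha : a ∈ A) {b : Eu d}
    (hb : b ∈ B) (v : Eu r) :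
    fderiv ℝ (fun a => Φ (inA r d b a)) a v = fderiv ℝ Φ (inA r d b a) ((kap r d).symm (v, 0)) := by
  have h1 : HasFDerivAt Φ (fderiv ℝ Φ (inA r d b a)) (inA r d b a) :=
    (h.chart.differentiableAt (mem_dom ha hb)).hasFDerivAt
  have h2 := (h1.comp a (hasFDerivAt_inA b a)).fderiv
  have h3 : fderiv ℝ (fun a => Φ (inA r d b a)) a = _ := h2
  rw [h3]
  simp only [ContinuousLinearMap.comp_apply, ContinuousLinearMap.inl_apply]
  rfl

/-- **top coefficient of `η ∧ π^*om` in an adapted chart** -/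
theorem top_pull (h : Adapted r d Z X π f V Φ A B) {a : Eu r} (ha : a ∈ A) {b : Eu d} (hb : b ∈ B)
    (hπ : DifferentiableAt ℝ π (Φ (inA r d b a))) (η : E' → Ext E') (om : E → Ext E)
    (hom : ∀ q < d, evA E q (om (f b)) = 0) :
    top (r + d) (pull Φ (fun z => η z * pull π om z) (inA r d b a)) =
      top r (pull (fun a => Φ (inA r d b a)) η a) * top d (pull f om b) := by
  have hp := mem_dom (r := r) (d := d) ha hb
  have hab : kap r d (inA r d b a) = (a, b) := ContinuousLinearEquiv.apply_symm_apply _ _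
  have e1 : top (r + d) (pull Φ (fun z => η z * pull π om z) (inA r d b a)) =
      evA E' (r + d) (η (Φ (inA r d b a)) * pull π om (Φ (inA r d b a)))
        (fun i => ((fderiv ℝ Φ (inA r d b a) : Eu (r + d) →L[ℝ] E') :
          Eu (r + d) →ₗ[ℝ] E') (sb (r + d) i)) := top_pb _ _ _
  have e2 : top r (pull (fun a => Φ (inA r d b a)) η a) = evA E' r (η (Φ (inA r d b a)))
      (fun i => fderiv ℝ (fun a => Φ (inA r d b a)) a (sb r i)) := top_pb _ _ _
  have e3 : top d (pull f om b) = evA E d (om (f b)) (fun j => fderiv ℝ f b (sb d j)) :=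
    top_pb _ _ _
  rw [e1, e2, e3]
  have hfr : (fun i => ((fderiv ℝ Φ (inA r d b a) : Eu (r + d) →L[ℝ] E') :
      Eu (r + d) →ₗ[ℝ] E') (sb (r + d) i)) =
      Fin.append (fun i => fderiv ℝ (fun a => Φ (inA r d b a)) a (sb r i))
        (fun j => fderiv ℝ Φ (inA r d b a) ((kap r d).symm (0, sb d j))) := by
    funext i
    refine Fin.addCases (fun i => ?_) (fun j => ?_) i
    · rw [Fin.append_left, h.fderiv_fibre ha hb, ← kap_castAdd,
        ContinuousLinearEquiv.symm_apply_apply]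
      rfl
    · rw [Fin.append_right, ← kap_natAdd, ContinuousLinearEquiv.symm_apply_apply]
      rfl
  rw [hfr]
  have hπΦ : π (Φ (inA r d b a)) = f b := h.comm' ha hb
  have hcomm := h.comp_snd_eq hp hπ
  rw [show (kap r d).symm (a, b) = inA r d b a from rfl] at hcomm
  rw [pull, evA_mul_pb _ _ (by rw [hπΦ]; exact hom)]
  · rw [hπΦ]
    congr 2
    funext j
    have := hcomm ((kap r d).symm (0, sb d j))
    rw [ContinuousLinearEquiv.apply_symm_apply, hab] at this
    exact this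
  · intro i
    rw [h.fderiv_fibre ha hb]
    have := hcomm ((kap r d).symm (sb r i, 0))
    rw [ContinuousLinearEquiv.apply_symm_apply, map_zero] at this
    exact this

end Adapted

/-- fibres of a submersion are closed manifolds. -/
theorem Subm.clo_fibre {r d : ℕ} {Z : Set E'} {X : Set E} {π : E' → E} (h : Subm r d Z X π)
    (x : E) : Clo r (Z ∩ π ⁻¹' {x}) where
  compact := by
    have hc : ContinuousOn π Z := fun z hz => (h.smooth z hz).continuousAt.continuousWithinAt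
    exact h.cloZ.compact.of_isClosed_subset
      (hc.preimage_isClosed_of_isClosed h.cloZ.compact.isClosed isClosed_singleton)
      inter_subset_left
  chart := by
    rintro z ⟨hz, hzx⟩
    obtain ⟨f, V, Φ, A, B, hAd, p, hp, rfl⟩ := h.exists_adapted hz
    have h1 : π (Φ p) = f (kap r d p).2 := hAd.comm p hp
    have h2 : x = f (kap r d p).2 := by rw [← h1]; exact hzx.symm
    rw [h2]
    refine ⟨_, A, hAd.fibre hp.2, (kap r d p).1, hp.1, ?_⟩
    show Φ ((kap r d).symm ((kap r d p).1, (kap r d p).2)) = Φ p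
    rw [Prod.mk.eta, ContinuousLinearEquiv.symm_apply_apply]

end Crest.Agent.R208.FI
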