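import Crest.Agent.R208.I6

/-!
R208, block I, file 7 (helper499): the rigidity half of the Blaschke theorem, assembled.
-/

set_option autoImplicit false

open MeasureTheory Measure Set Filter Topology Module Metric
open scoped ContDiff RealInnerProductSpace ENNReal
open Crest.GeometryTopology.Submanifold
open Crest.Agent.R241.DDefs
open Crest.Agent.R241.D2
open Crest.Agent.R208.L (cst)

noncomputable section

namespace Crest.Agent.R208.I

variable {n N : ℕ} {κ : ℝ} {S : Set (Euc N)} {G : Geo n N κ S}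

/-- The structure of a Blaschke manifold of diameter `π` and type `k`: all geodesics closed, the
links `V_pq` (`d(p,q) = π`) are great spheres of dimension `k - 1`, and the kernel of `d exp` is
tangent to the link. -/
structure Typ (G : Geo n N κ S) (k : ℕ) : Prop where
  one_le : 1 ≤ k
  le : k ≤ n
  per : HS.Per G
  link : ∀ p ∈ S, ∀ q ∈ S, intrinsicDist S p q = Real.pi → ∃ V : Submodule ℝ (Euc N),
    V ≤ G.T p ∧ finrank ℝ V = k ∧
      (∀ v : Euc N, (v ∈ V ∧ ‖v‖ = 1) ↔ (v ∈ G.T p ∧ ‖v‖ = 1 ∧ Exp G p (Real.pi • v) = q)) ∧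
      (∀ v ∈ V, ‖v‖ = 1 → ∀ b : Euc N,
        (b ∈ G.T p ∧ fderiv ℝ (Exp G p) (Real.pi • v) b = 0) ↔ (b ∈ V ∧ ⟪v, b⟫ = 0))
  mult : ∀ z ∈ K.US G, K.mult G Real.pi z + 1 = k

theorem exists_typ (hB : Bl n N κ S G Real.pi) (hmc : K.MultConst G Real.pi) :
    ∃ k, Typ G k := by
  obtain ⟨k, h1, h2, h3, h4, h5⟩ := (hyp hB).links hmc
  exact ⟨k, h1, h2, fun z hz hz1 => h3 z ⟨hz, hz1⟩, h4, h5⟩

lemma Typ.finrank_ker {k : ℕ} (hT : Typ G k) : ∀ z ∈ TS G, ‖z.2‖ = 1 → finrank ℝ
    (G.T z.1 ⊓ LinearMap.ker (fderiv ℝ (Exp G z.1) (Real.pi • z.2)).toLinearMap :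
      Submodule ℝ (Euc N)) = k - 1 := by
  intro z hz hz1
  have h1 : K.mult G Real.pi z + 1 = k := hT.mult z ⟨hz, hz1⟩
  have h2 : K.mult G Real.pi z = finrank ℝ
    (G.T z.1 ⊓ LinearMap.ker (fderiv ℝ (Exp G z.1) (Real.pi • z.2)).toLinearMap :
      Submodule ℝ (Euc N)) := rfl
  omega

/-- **NCK**: the volume is at least that of the model of the same type. -/
theorem vol_ge (hcore : Crest.Agent.R208.N.CoreStmt) (hB : Bl n N κ S G Real.pi) {k : ℕ}
    (hT : Typ G k) : cst n * IM (k - 1) (n - k) ≤ μHE[n] S := by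
  have h1 := nck hB hT.per hT.finrank_ker hcore
  have h2 : n - 1 - (k - 1) = n - k := by have := hT.one_le; have := hT.le; omega
  rwa [h2] at h1

/-- **Rigidity**: if the volume is at most that of the model, `S` is two-point homogeneous. -/
theorem rigid (hcore : Crest.Agent.R208.N.CoreStmt) (heq : Crest.Agent.R208.N.EqStmt)
    (hB : Bl n N κ S G Real.pi) {k : ℕ} (hT : Typ G k)
    (hle : μHE[n] S ≤ cst n * IM (k - 1) (n - k)) : TwoPt S := by
  have h2 : n - 1 - (k - 1) = n - k := by have := hT.one_le; have := hT.le; omega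
  refine HS.hom hB hT.per ?_ ?_
  · exact nck_eq hB hT.per hT.finrank_ker hcore heq (by rw [h2]; exact hle)
  · intro p hp q hq hpq
    obtain ⟨V, h3, -, h4, -⟩ := hT.link p hp q hq hpq
    exact ⟨V, h3, h4⟩

/-- What the topological half has to deliver. -/
def VolLe : Prop :=
  ∀ (n N : ℕ) (κ : ℝ) (S : Set (Euc N)) (G : Geo n N κ S) (k : ℕ), Bl n N κ S G Real.pi →
    Typ G k → cst n * IM (k - 1) (n - k) ≤ μHE[n] S → μHE[n] S ≤ cst n * IM (k - 1) (n - k)

/-- **The Blaschke theorem from its parts.** -/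
theorem main (hcore : Crest.Agent.R208.N.CoreStmt) (heq : Crest.Agent.R208.N.EqStmt)
    (hmc : ∀ (n N : ℕ) (κ : ℝ) (S : Set (Euc N)) (G : Geo n N κ S),
      Bl n N κ S G Real.pi → K.MultConst G Real.pi) (hvol : VolLe) :
    ∀ (n N : ℕ) (κ : ℝ) (S : Set (Euc N)) (G : Geo n N κ S), Bl n N κ S G Real.pi → TwoPt S := by
  intro n N κ S G hB
  obtain ⟨k, hT⟩ := exists_typ hB (hmc n N κ S G hB)
  exact rigid hcore heq hB hT (hvol n N κ S G k hB hT (vol_ge hcore hB hT))

end Crest.Agent.R208.I
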