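import Mathlib

/-!
R208, block G6 (helper589): the noncommutative Kazdan inequality for ONE closed geodesic.
Definitions: Jacobi cocycle along a closed geodesic in a parallel orthonormal frame.
-/

set_option autoImplicit false

open Real Matrix

namespace Crest.Agent.R208.N

/-- Jacobi cocycle along a closed geodesic of length `2π`, in a parallel orthonormal frame.
`A s t` maps `x` to `J t`, where `J` is the Jacobi field with `J s = 0`, `J' s = x`. -/
structure JLoop (m a : ℕ) where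
  R : ℝ → Matrix (Fin m) (Fin m) ℝ
  Q : Matrix (Fin m) (Fin m) ℝ
  A : ℝ → ℝ → Matrix (Fin m) (Fin m) ℝ
  At : ℝ → ℝ → Matrix (Fin m) (Fin m) ℝ
  R_cont : Continuous R
  R_symm : ∀ t, (R t)ᵀ = R t
  Q_orth : Qᵀ * Q = 1
  hA : ∀ s t i j, HasDerivAt (fun t => A s t i j) (At s t i j) t
  hAt : ∀ s t i j, HasDerivAt (fun t => At s t i j) ((-(R t * A s t)) i j) t
  A_diag : ∀ s, A s s = 0
  At_diag : ∀ s, At s s = 1
  per : ∀ s t, A s (t + 2 * π) = Q * A s t
  ndeg : ∀ s t, 0 < t - s → t - s < π → (A s t).det ≠ 0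
  mult : ∀ s, (A s (s + π)).rank + a = m

/-- the inequality for one closed geodesic -/
def CoreStmt : Prop :=
  ∀ (m a : ℕ) (G : JLoop m a) (u : ℝ), 0 < u → u < π →
    (a : ℝ) * log (sin u) + ((m - a : ℕ) : ℝ) * log (2 * sin (u / 2)) ≤
      (1 / (2 * π)) * ∫ s in (0 : ℝ)..(2 * π), log |(G.A s (s + u)).det|

/-- the equality case for one closed geodesic -/
def EqStmt : Prop :=
  ∀ (m a : ℕ) (G : JLoop m a),
    (∀ u : ℝ, 0 < u → u < π →
      (1 / (2 * π)) * (∫ s in (0 : ℝ)..(2 * π), log |(G.A s (s + u)).det|) =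
        (a : ℝ) * log (sin u) + ((m - a : ℕ) : ℝ) * log (2 * sin (u / 2))) →
    ∀ s : ℝ, ∃ P : Matrix (Fin m) (Fin m) ℝ, Pᵀ = P ∧ P * P = P ∧ P.trace = a ∧
      ∀ u : ℝ, 0 ≤ u → u ≤ π →
        (G.A s (s + u))ᵀ * G.A s (s + u) =
          (sin u ^ 2) • P + (4 * sin (u / 2) ^ 2) • (1 - P)

end Crest.Agent.R208.N
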