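import Crest.Agent.R208.LB1
import Crest.Agent.R208.J4

/-!
R208, block LB (helper971), part 2: `US G` is a closed submanifold, its tangent spaces, and the contact
orientation `al * dal^(n-1)`.
-/

set_option autoImplicit false
set_option linter.unusedSectionVars false

open Set Filter Topology Module
open scoped ContDiff RealInnerProductSpace
open Crest.GeometryTopology.Submanifold
open Crest.Agent.R241.DDefs
open Crest.Agent.R241.D2
open Crest.Agent.R241
open Crest.Agent.R208.F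
open Crest.Agent.R208.FI (Clo Sub Chart Tan J Ori dens frame)
open Crest.Agent.R208.L (US TS0)

noncomputable section

namespace Crest.Agent.R208.LB

variable {n N : ℕ} {κ : ℝ} {S : Set (Euc N)} (G : Geo n N κ S)

theorem range_P {p : Euc N} (hp : p ∈ S) :
    LinearMap.range (G.P p : Euc N →ₗ[ℝ] Euc N) = G.T p := by
  apply le_antisymm
  · rintro _ ⟨v, rfl⟩
    exact P_mem G hp
  · intro v hv
    exact ⟨v, (P_eq_self G hp).1 hv⟩

theorem pfield : FI.PField S n G.P where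
  smooth := fun x _ => G.contDiff_P.contDiffAt
  idem := fun x hx v => P_idem G hx v
  rank := fun x hx => by rw [range_P G hx, G.finrank_T x hx]

theorem Tot_eq : FI.Tot S G.P = TS G := by
  ext z
  constructor
  · rintro ⟨h1, h2⟩
    exact ⟨h1, (P_eq_self G h1).2 h2⟩
  · rintro ⟨h1, h2⟩
    exact ⟨h1, (P_eq_self G h1).1 h2⟩

variable {G}

theorem Tan_S (hS : Sub n S) {p : Euc N} (hp : p ∈ S) : Tan S p = G.T p := by
  apply Submodule.eq_of_le_of_finrank_eq
  · rw [Tan, Submodule.span_le]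
    rintro v ⟨γ, hγ0, hγ, hγS⟩
    have := G.deriv_mem γ v 0 hγS hγ
    rwa [hγ0] at this
  · rw [hS.finrank_Tan hp, G.finrank_T p hp]

theorem sub_TS (hS : Sub n S) : Sub (n + n) (TS G) := by
  rw [← Tot_eq G]
  exact (pfield G).sub_tot hS

theorem mem_Tan_TS (hS : Sub n S) {q ξ : Euc N × Euc N} (hq : q ∈ TS G) :
    ξ ∈ Tan (TS G) q ↔ ξ.1 ∈ G.T q.1 ∧ ξ.2 - G.P q.1 ξ.2 = fderiv ℝ G.P q.1 ξ.1 q.2 := by
  rw [← Tot_eq G, ← Tan_S (G := G) hS hq.1]
  exact (pfield G).mem_Tan_tot hS hq.1 ((P_eq_self G hq.1).1 hq.2)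

/-- the function `‖v‖² - 1` -/
def gn (z : Euc N × Euc N) : ℝ := ‖z.2‖ ^ 2 - 1

theorem contDiff_gn {k : WithTop ℕ∞} : ContDiff ℝ k (gn (N := N)) :=
  ((contDiff_norm_sq ℝ).comp contDiff_snd).sub contDiff_const

theorem fderiv_gn (q ξ : Euc N × Euc N) : fderiv ℝ gn q ξ = 2 * ⟪q.2, ξ.2⟫ := by
  have h1 : HasFDerivAt (fun z : Euc N × Euc N => ‖z.2‖ ^ 2)
      ((2 • innerSL ℝ q.2).comp (ContinuousLinearMap.snd ℝ (Euc N) (Euc N))) q :=
    (hasStrictFDerivAt_norm_sq q.2).hasFDerivAt.comp q hasFDerivAt_snd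
  have h2 : HasFDerivAt gn
      ((2 • innerSL ℝ q.2).comp (ContinuousLinearMap.snd ℝ (Euc N) (Euc N))) q := h1.sub_const 1
  rw [h2.fderiv]
  simp [two_mul]

variable (G) in
theorem US_eq : US G = {z ∈ TS G | gn z = 0} := by
  ext z
  constructor
  · rintro ⟨h1, h2⟩
    exact ⟨h1, by unfold gn; rw [h2]; norm_num⟩
  · rintro ⟨h1, h2⟩
    refine ⟨h1, ?_⟩
    have h3 : ‖z.2‖ ^ 2 = 1 := sub_eq_zero.1 h2
    exact (pow_eq_one_iff_of_nonneg (norm_nonneg _) two_ne_zero).1 h3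

theorem gn_surj (hS : Sub n S) {q : Euc N × Euc N} (hq : q ∈ TS G) (h : gn q = 0) (y : ℝ) :
    ∃ ξ ∈ Tan (TS G) q, fderiv ℝ gn q ξ = y := by
  refine ⟨(0, (y / 2) • q.2), ?_, ?_⟩
  · rw [mem_Tan_TS hS hq]
    refine ⟨(G.T q.1).zero_mem, ?_⟩
    have h1 : G.P q.1 ((y / 2) • q.2) = (y / 2) • q.2 := by
      rw [map_smul, (P_eq_self G hq.1).1 hq.2]
    simp only [h1, sub_self, map_zero, zero_apply]
  · have h3 : ‖q.2‖ ^ 2 = 1 := sub_eq_zero.1 h
    rw [fderiv_gn]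
    simp only [inner_smul_right, real_inner_self_eq_norm_sq, h3]
    ring

theorem sub_US (hS : Sub n S) {d : ℕ} (hd : d + 1 = 2 * n) : Sub d (US G) := by
  have h1 := (sub_TS (G := G) hS).level (g := gn) (fun x _ => contDiff_gn.contDiffAt)
    (fun x hx h y => gn_surj hS hx h y)
  rw [← US_eq, finrank_self] at h1
  have h2 : n + n - 1 = d := by omega
  rwa [h2] at h1

theorem mem_Tan_US (hS : Sub n S) {q ξ : Euc N × Euc N} (hq : q ∈ US G) :
    ξ ∈ Tan (US G) q ↔ ξ.1 ∈ G.T q.1 ∧ ξ.2 - G.P q.1 ξ.2 = fderiv ℝ G.P q.1 ξ.1 q.2 ∧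
      ⟪q.2, ξ.2⟫ = 0 := by
  have h0 : gn q = 0 := by
    have := hq; rw [US_eq] at this; exact this.2
  have h1 := (sub_TS (G := G) hS).Tan_level (g := gn) (fun x _ => contDiff_gn.contDiffAt)
    (fun x hx h y => gn_surj hS hx h y) hq.1 h0
  rw [← US_eq] at h1
  rw [h1, Submodule.mem_inf, mem_Tan_TS hS hq.1, LinearMap.mem_ker, and_assoc]
  have h2 : ((fderiv ℝ gn q : Euc N × Euc N →L[ℝ] ℝ) : Euc N × Euc N →ₗ[ℝ] ℝ) ξ =
      2 * ⟪q.2, ξ.2⟫ := fderiv_gn q ξ
  rw [h2]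
  simp

theorem isCompact_US (hc : IsCompact S) : IsCompact (US G) := by
  have h1 : IsCompact (S ×ˢ Metric.closedBall (0 : Euc N) 1) := hc.prod (isCompact_closedBall _ _)
  refine h1.of_isClosed_subset (L.isClosed_US G) ?_
  rintro q ⟨h1, h2⟩
  exact ⟨h1.1, by rw [mem_closedBall_zero_iff, h2]⟩

/-- the unit tangent bundle is a closed manifold -/
theorem clo_US (hS : Sub n S) (hc : IsCompact S) {d : ℕ} (hd : d + 1 = 2 * n) : Clo d (US G) :=
  (sub_US hS hd).clo (isCompact_US hc)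

/-! ### the geodesic field and the contact form on `US` -/

theorem X_mem_Tan (hS : Sub n S) {q : Euc N × Euc N} (hq : q ∈ US G) : X G q ∈ Tan (US G) q := by
  rw [mem_Tan_US hS hq]
  refine ⟨hq.1.2, ?_, inner_II G hq.1.1 hq.1.2 hq.1.2 hq.1.2 ▸ real_inner_comm _ _⟩
  have h1 : G.P q.1 (X G q).2 = 0 := II_normal G hq.1.1 hq.1.2 hq.1.2
  rw [h1, sub_zero]
  rfl

theorem alL_X {q : Euc N × Euc N} (hq : q ∈ US G) : alL q (X G q) = 1 := by
  rw [alL_apply]
  change ⟪q.2, q.2⟫ = 1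
  rw [real_inner_self_eq_norm_sq, hq.2]; norm_num

theorem om_X_Tan (hS : Sub n S) {q ξ : Euc N × Euc N} (hq : q ∈ US G) (hξ : ξ ∈ Tan (US G) q) :
    L.om (X G q) ξ = 0 := by
  rw [mem_Tan_US hS hq] at hξ
  unfold L.om
  have h1 : ⟪(X G q).2, ξ.1⟫ = 0 := inner_II G hq.1.1 hq.1.2 hq.1.2 hξ.1
  have h2 : ⟪ξ.2, (X G q).1⟫ = 0 := by rw [real_inner_comm]; exact hξ.2.2
  rw [h1, h2, sub_zero]

/-- the contact volume form -/
def oUS (n N : ℕ) (z : Euc N × Euc N) : Ext (Euc N × Euc N) := al z * dal N ^ (n - 1)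

theorem continuous_oUS : Continuous (oUS n N) :=
  (contDiff_mul (n := 0) contDiff_al contDiff_const).continuous

variable (G) in
/-- horizontal lift -/
def hl (q : Euc N × Euc N) (u : Euc N) : Euc N × Euc N := (u, fderiv ℝ G.P q.1 u q.2)

theorem hl_mem (hS : Sub n S) {q : Euc N × Euc N} (hq : q ∈ US G) {u : Euc N} (hu : u ∈ G.T q.1) :
    hl G q u ∈ Tan (US G) q := by
  rw [mem_Tan_US hS hq]
  have h1 : G.P q.1 (fderiv ℝ G.P q.1 u q.2) = 0 := II_normal G hq.1.1 hu hq.1.2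
  refine ⟨hu, ?_, ?_⟩
  · change fderiv ℝ G.P q.1 u q.2 - G.P q.1 (fderiv ℝ G.P q.1 u q.2) = _
    rw [h1, sub_zero]; rfl
  · rw [real_inner_comm]; exact inner_II G hq.1.1 hu hq.1.2 hq.1.2

theorem vert_mem (hS : Sub n S) {q : Euc N × Euc N} (hq : q ∈ US G) {u : Euc N}
    (hu : u ∈ J.Vp G q) : ((0, u) : Euc N × Euc N) ∈ Tan (US G) q := by
  rw [J.mem_Vp] at hu
  rw [mem_Tan_US hS hq]
  refine ⟨(G.T q.1).zero_mem, ?_, by rw [real_inner_comm]; exact hu.2⟩
  have h1 : G.P q.1 u = u := (P_eq_self G hq.1.1).1 hu.1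
  simp only [h1, sub_self, map_zero, zero_apply]

/-- an adapted frame of `Tan (US G) q` on which the contact volume form has the value `(n-1)!`. -/
theorem exists_frame (hS : Sub n S) {m d : ℕ} (hm : m + 1 = n) (hd : d = 2 * m + 1)
    {q : Euc N × Euc N} (hq : q ∈ US G) :
    ∃ w : Fin d → Euc N × Euc N, (∀ i, w i ∈ Tan (US G) q) ∧
      evA _ d (oUS n N q) w = (m.factorial : ℝ) := by
  subst hd
  obtain ⟨b⟩ := J.exists_basis hm hq.1 hq.2
  let w' : Fin (2 * m) → Euc N × Euc N := fun i =>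
    if (i : ℕ) % 2 = 0 then ((0, (b ⟨(i : ℕ) / 2, by omega⟩ : Euc N)) : Euc N × Euc N)
    else hl G q (b ⟨(i : ℕ) / 2, by omega⟩)
  have hbT : ∀ j, (b j : Euc N) ∈ G.T q.1 := fun j => (J.mem_Vp.1 (b j).2).1
  have hbv : ∀ j, ⟪(b j : Euc N), q.2⟫ = 0 := fun j => (J.mem_Vp.1 (b j).2).2
  have hw'mem : ∀ i, w' i ∈ Tan (US G) q := by
    intro i
    by_cases h : (i : ℕ) % 2 = 0
    · simp only [w', h, if_true]
      exact vert_mem hS hq (b _).2
    · simp only [w', h, if_false]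
      exact hl_mem hS hq (hbT _)
  refine ⟨Matrix.vecCons (X G q) w', ?_, ?_⟩
  · intro i
    refine Fin.cases ?_ (fun i => ?_) i
    · exact X_mem_Tan hS hq
    · exact hw'mem i
  · have hal : ∀ i, alL q (w' i) = 0 := by
      intro i
      rw [alL_apply]
      by_cases h : (i : ℕ) % 2 = 0
      · simp only [w', h, if_true]
        exact inner_zero_right _
      · simp only [w', h, if_false, hl]
        rw [real_inner_comm]
        exact hbv _
    have hbb : ∀ i j, ⟪(b i : Euc N), (b j : Euc N)⟫ = if i = j then 1 else 0 := fun i j =>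
      orthonormal_iff_ite.1 b.orthonormal i j
    rw [evA_ii]
    unfold oUS al
    rw [ii_io_mul, alL_X hq, one_smul, map_sub, AlternatingMap.sub_apply,
      evA_io_mul_zero _ _ _ _ hal, sub_zero]
    have hmn : n - 1 = m := by omega
    rw [hmn]
    apply two_dal.evA_pow
    intro i j
    rw [omB_apply]
    unfold L.om Jm
    have hII : ∀ i j, ⟪fderiv ℝ G.P q.1 (b i) q.2, (b j : Euc N)⟫ = 0 := fun i j =>
      inner_II G hq.1.1 (hbT i) hq.1.2 (hbT j)
    have hi : (i : ℕ) % 2 = 0 ∨ (i : ℕ) % 2 = 1 := Nat.mod_two_eq_zero_or_one _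
    have hj : (j : ℕ) % 2 = 0 ∨ (j : ℕ) % 2 = 1 := Nat.mod_two_eq_zero_or_one _
    rcases hi with hi | hi <;> rcases hj with hj | hj <;>
      simp only [w', hi, hj, hl, hbb, hII, Fin.ext_iff, if_true, if_false, one_ne_zero,
        zero_ne_one, inner_zero_left, inner_zero_right, sub_zero, zero_sub, and_true, true_and,
        and_false, false_and] <;>
      by_cases hij : (i : ℕ) / 2 = (j : ℕ) / 2 <;> simp [hij, Ne.symm, eq_comm]

theorem ori_US (hS : Sub n S) (hc : IsCompact S) (hn : 1 ≤ n) {d : ℕ} (hd : d + 1 = 2 * n) :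
    Ori d (US G) (oUS n N) := by
  refine FI.ori_of (clo_US hS hc hd) continuous_oUS.continuousOn fun q hq => ?_
  obtain ⟨w, hw, h⟩ := exists_frame (m := n - 1) (d := d) hS (by omega) (by omega) hq
  exact ⟨w, hw, by rw [h]; positivity⟩

end Crest.Agent.R208.LB
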