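import Mathlib

/-!
# Pfaffian algebra, part 1 (block PF of 586's #10833)

`pfS M = ∑_σ sign σ ∏_j M (σ (j,0)) (σ (j,1)) = 2^r r! Pf M`.
* `pfS_conj` (PF1') : expansion of `pfS (fᵀ * M * f)` for rectangular `f`;
* `pfS_congr` (PF1) : `pfS (Bᵀ * M * B) = B.det * pfS M`;
* `pfS_smul`, `pfS_map`, `pfS_reindex`, `pfS_perm`.
-/

namespace Crest.Agent.R208.PF

open Matrix Finset

variable {ι : Type*} [Fintype ι] [DecidableEq ι] {A : Type*} [CommRing A]

/-- `2^r r! Pf M`. -/
def pfS (M : Matrix (ι × Fin 2) (ι × Fin 2) A) : A :=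
  ∑ σ : Equiv.Perm (ι × Fin 2), ((Equiv.Perm.sign σ : ℤ) : A) * ∏ j : ι, M (σ (j, 0)) (σ (j, 1))

/-- The mixed version: one matrix for each pair. -/
def mixS (N : ι → Matrix (ι × Fin 2) (ι × Fin 2) A) : A :=
  ∑ σ : Equiv.Perm (ι × Fin 2), ((Equiv.Perm.sign σ : ℤ) : A) * ∏ j : ι, N j (σ (j, 0)) (σ (j, 1))

theorem pfS_eq_mixS (M : Matrix (ι × Fin 2) (ι × Fin 2) A) : pfS M = mixS fun _ => M := rfl

omit [DecidableEq ι] in
/-- product over `ι × Fin 2`. -/
theorem prod_pairs {β : Type*} [CommMonoid β] (g : ι × Fin 2 → β) :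
    ∏ p, g p = ∏ j : ι, g (j, 0) * g (j, 1) := by
  rw [Fintype.prod_prod_type]
  exact Finset.prod_congr rfl fun j _ => by rw [Fin.prod_univ_two]

/-- functions on pairs. -/
def pairEquiv (n : Type*) : (ι → n × n) ≃ (ι × Fin 2 → n) where
  toFun g p := if p.2 = 0 then (g p.1).1 else (g p.1).2
  invFun I j := (I (j, 0), I (j, 1))
  left_inv g := by
    funext j
    simp
  right_inv I := by
    funext p
    obtain ⟨j, b⟩ := p
    fin_cases b <;> simp

theorem det_eq_sum {m : Type*} [Fintype m] [DecidableEq m] (P : Matrix m m A) :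
    P.det = ∑ σ : Equiv.Perm m, ((Equiv.Perm.sign σ : ℤ) : A) * ∏ p, P p (σ p) := by
  rw [← det_transpose, det_apply']
  rfl

/-- expansion of the mixed form. -/
theorem mixS_expand {n : Type*} [Fintype n] (f g : ι → Matrix n (ι × Fin 2) A)
    (M : ι → Matrix n n A) :
    mixS (fun j => (f j)ᵀ * M j * g j) = ∑ I : ι × Fin 2 → n,
      (Matrix.of fun p q => (if p.2 = 0 then f p.1 (I p) q else g p.1 (I p) q)).det
        * ∏ j, M j (I (j, 0)) (I (j, 1)) := by
  classical
  have h1 : ∀ σ : Equiv.Perm (ι × Fin 2),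
      ((Equiv.Perm.sign σ : ℤ) : A) * ∏ j : ι, ((f j)ᵀ * M j * g j) (σ (j, 0)) (σ (j, 1))
      = ∑ I : ι × Fin 2 → n, (((Equiv.Perm.sign σ : ℤ) : A) *
          ∏ p, (if p.2 = 0 then f p.1 (I p) (σ p) else g p.1 (I p) (σ p)))
          * ∏ j, M j (I (j, 0)) (I (j, 1)) := by
    intro σ
    have h2 : ∀ j : ι, ((f j)ᵀ * M j * g j) (σ (j, 0)) (σ (j, 1))
        = ∑ x : n × n, f j x.1 (σ (j, 0)) * g j x.2 (σ (j, 1)) * M j x.1 x.2 := by
      intro j
      rw [Fintype.sum_prod_type]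
      simp only [mul_apply, transpose_apply, Finset.sum_mul]
      rw [Finset.sum_comm]
      refine Finset.sum_congr rfl fun x _ => Finset.sum_congr rfl fun y _ => ?_
      ring
    rw [Finset.prod_congr rfl fun j _ => h2 j, Finset.prod_univ_sum, Fintype.piFinset_univ,
      Finset.mul_sum, ← (pairEquiv (ι := ι) n).sum_comp]
    refine Finset.sum_congr rfl fun x _ => ?_
    rw [prod_pairs, mul_assoc, ← Finset.prod_mul_distrib]
    simp [pairEquiv]
  unfold mixS
  rw [Finset.sum_congr rfl fun σ _ => h1 σ, Finset.sum_comm]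
  refine Finset.sum_congr rfl fun I _ => ?_
  rw [det_eq_sum, Finset.sum_mul]
  simp only [Matrix.of_apply]

/-- **(PF1')**. -/
theorem pfS_conj {n : Type*} [Fintype n] (f : Matrix n (ι × Fin 2) A) (M : Matrix n n A) :
    pfS (fᵀ * M * f) = ∑ I : ι × Fin 2 → n,
      (f.submatrix I id).det * ∏ j, M (I (j, 0)) (I (j, 1)) := by
  rw [pfS_eq_mixS, mixS_expand (fun _ => f) (fun _ => f) (fun _ => M)]
  refine Finset.sum_congr rfl fun I _ => ?_
  congr 2
  ext p q
  simp

/-- **(PF1)**. -/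
theorem pfS_congr (B M : Matrix (ι × Fin 2) (ι × Fin 2) A) :
    pfS (Bᵀ * M * B) = B.det * pfS M := by
  classical
  rw [pfS_conj]
  have h0 : ∀ I : ι × Fin 2 → ι × Fin 2, ¬ Function.Bijective I →
      (B.submatrix I id).det * ∏ j, M (I (j, 0)) (I (j, 1)) = 0 := by
    intro I hI
    have : ¬ Function.Injective I := fun h => hI (Finite.injective_iff_bijective.1 h)
    rw [Function.Injective] at this
    push Not at this
    obtain ⟨a, b, hab, hne⟩ := this
    rw [det_zero_of_row_eq hne (by ext q; simp [hab]), zero_mul]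
  rw [pfS, Finset.mul_sum]
  symm
  refine Finset.sum_of_injOn (fun σ : Equiv.Perm (ι × Fin 2) => (σ : ι × Fin 2 → ι × Fin 2))
    (fun σ _ τ _ h => Equiv.ext (congrFun h)) (fun _ _ => Finset.mem_coe.2 (Finset.mem_univ _)) ?_ ?_
  · intro I _ hI
    refine h0 I fun hb => hI ?_
    exact ⟨Equiv.ofBijective I hb, by simp, rfl⟩
  · intro σ _
    rw [det_permute]
    ring

theorem pfS_smul (c : A) (M : Matrix (ι × Fin 2) (ι × Fin 2) A) :
    pfS (c • M) = c ^ Fintype.card ι * pfS M := by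
  unfold pfS
  rw [Finset.mul_sum]
  refine Finset.sum_congr rfl fun σ _ => ?_
  simp only [Matrix.smul_apply, smul_eq_mul, Finset.prod_mul_distrib, Finset.prod_const,
    Finset.card_univ]
  ring

theorem pfS_map {A' : Type*} [CommRing A'] (φ : A →+* A')
    (M : Matrix (ι × Fin 2) (ι × Fin 2) A) : pfS (M.map φ) = φ (pfS M) := by
  unfold pfS
  simp [map_sum, map_mul, map_prod]

/-- permuting the pairs. -/
theorem mixS_perm (N : ι → Matrix (ι × Fin 2) (ι × Fin 2) A) (τ : Equiv.Perm ι) :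
    mixS (fun j => N (τ j)) = mixS N := by
  unfold mixS
  have hs : Equiv.Perm.sign (Equiv.prodCongrLeft (fun _ : Fin 2 => τ)) = 1 := by
    rw [Equiv.Perm.sign_prodCongrLeft]
    simp only [Finset.prod_const, Finset.card_univ, Fintype.card_fin]
    exact Int.units_sq _
  rw [← Equiv.sum_comp (Equiv.mulRight (Equiv.prodCongrLeft (fun _ : Fin 2 => τ)))]
  refine Finset.sum_congr rfl fun σ _ => ?_
  rw [Equiv.coe_mulRight, Equiv.Perm.sign_mul, hs, mul_one,
    ← Equiv.prod_comp τ (fun j => N j (σ (j, 0)) (σ (j, 1)))]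
  rfl

/-- reindexing. -/
theorem pfS_reindex {κ : Type*} [Fintype κ] [DecidableEq κ] (e : κ ≃ ι)
    (M : Matrix (ι × Fin 2) (ι × Fin 2) A) :
    pfS (M.submatrix (e.prodCongr (Equiv.refl (Fin 2))) (e.prodCongr (Equiv.refl (Fin 2))))
      = pfS M := by
  unfold pfS
  set E := e.prodCongr (Equiv.refl (Fin 2)) with hE
  rw [← Equiv.sum_comp E.permCongr]
  refine Finset.sum_congr rfl fun σ _ => ?_
  rw [Equiv.Perm.sign_permCongr, ← Equiv.prod_comp e]
  congr 1
  refine Finset.prod_congr rfl fun j _ => ?_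
  simp [hE, Equiv.permCongr_apply]

/-- permuting the index set. -/
theorem pfS_perm (M : Matrix (ι × Fin 2) (ι × Fin 2) A) (π : Equiv.Perm (ι × Fin 2)) :
    pfS (M.submatrix π π) = ((Equiv.Perm.sign π : ℤ) : A) * pfS M := by
  unfold pfS
  rw [← Equiv.sum_comp (Equiv.mulLeft π)
    (fun σ : Equiv.Perm (ι × Fin 2) =>
      ((Equiv.Perm.sign σ : ℤ) : A) * ∏ j : ι, M (σ (j, 0)) (σ (j, 1))), Finset.mul_sum]
  refine Finset.sum_congr rfl fun σ _ => ?_
  rw [Equiv.coe_mulLeft, Equiv.Perm.sign_mul]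
  simp only [submatrix_apply, Equiv.Perm.coe_mul, Function.comp_apply, Units.val_mul, Int.cast_mul]
  rw [← mul_assoc, ← mul_assoc, ← Int.cast_mul (Equiv.Perm.sign π : ℤ), Int.units_coe_mul_self,
    Int.cast_one, one_mul]

/-- the standard symplectic matrix. -/
def stdJ (ι : Type*) [DecidableEq ι] (A : Type*) [CommRing A] :
    Matrix (ι × Fin 2) (ι × Fin 2) A :=
  Matrix.of fun p q => if p.1 = q.1 then
    (if p.2 = 0 ∧ q.2 = 1 then 1 else if p.2 = 1 ∧ q.2 = 0 then -1 else 0) else 0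

theorem eps_perm (c : Equiv.Perm (Fin 2)) :
    (if c 0 = 0 ∧ c 1 = 1 then (1 : A) else if c 0 = 1 ∧ c 1 = 0 then -1 else 0)
      = ((Equiv.Perm.sign c : ℤ) : A) := by
  have h : c = 1 ∨ c = Equiv.swap 0 1 := by
    revert c
    decide
  rcases h with rfl | rfl
  · simp
  · simp

/-- `pfS J = 2^r r!`. -/
theorem pfS_stdJ : pfS (stdJ ι A) = (2 : A) ^ Fintype.card ι * (Fintype.card ι).factorial := by
  classical
  have key : ∀ x : Equiv.Perm ι × (ι → Equiv.Perm (Fin 2)),
      ((Equiv.Perm.sign (Equiv.prodShear x.1 x.2) : ℤ) : A) *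
        ∏ j : ι, stdJ ι A (Equiv.prodShear x.1 x.2 (j, 0)) (Equiv.prodShear x.1 x.2 (j, 1)) = 1 := by
    rintro ⟨τ, c⟩
    have h1 : (Equiv.prodShear τ c : Equiv.Perm (ι × Fin 2))
        = Equiv.prodCongrLeft (fun _ : Fin 2 => τ) * Equiv.prodCongrRight c := by
      ext p <;> rfl
    have hs : Equiv.Perm.sign (Equiv.prodShear τ c : Equiv.Perm (ι × Fin 2))
        = ∏ j, Equiv.Perm.sign (c j) := by
      rw [h1, Equiv.Perm.sign_mul, Equiv.Perm.sign_prodCongrLeft, Equiv.Perm.sign_prodCongrRight]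
      simp only [Finset.prod_const, Finset.card_univ, Fintype.card_fin]
      rw [Int.units_sq, one_mul]
    rw [hs]
    have h2 : ∀ j, stdJ ι A (Equiv.prodShear τ c (j, 0)) (Equiv.prodShear τ c (j, 1))
        = ((Equiv.Perm.sign (c j) : ℤ) : A) := by
      intro j
      rw [← eps_perm]
      simp [stdJ, Equiv.prodShear]
    rw [Finset.prod_congr rfl fun j _ => h2 j]
    rw [Units.coe_prod, Int.cast_prod, ← Finset.prod_mul_distrib]
    refine Finset.prod_eq_one fun j _ => ?_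
    rw [← Int.cast_mul, Int.units_coe_mul_self, Int.cast_one]
  have hcard : ((2 : A) ^ Fintype.card ι * (Fintype.card ι).factorial)
      = ∑ x : Equiv.Perm ι × (ι → Equiv.Perm (Fin 2)),
        ((Equiv.Perm.sign (Equiv.prodShear x.1 x.2) : ℤ) : A) *
        ∏ j : ι, stdJ ι A (Equiv.prodShear x.1 x.2 (j, 0)) (Equiv.prodShear x.1 x.2 (j, 1)) := by
    rw [Finset.sum_congr rfl fun x _ => key x]
    simp only [Finset.sum_const, Finset.card_univ, Fintype.card_prod, Fintype.card_pi,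
      Fintype.card_perm, Fintype.card_fin, Finset.prod_const, nsmul_eq_mul, mul_one]
    push_cast
    norm_num [Nat.factorial]
    ring
  rw [hcard, pfS]
  symm
  refine Finset.sum_of_injOn (fun x : Equiv.Perm ι × (ι → Equiv.Perm (Fin 2)) =>
    (Equiv.prodShear x.1 x.2 : Equiv.Perm (ι × Fin 2))) ?_
    (fun _ _ => Finset.mem_coe.2 (Finset.mem_univ _)) ?_ (fun _ _ => rfl)
  · rintro ⟨τ, c⟩ _ ⟨τ', c'⟩ _ h
    have h' : ∀ p, Equiv.prodShear τ c p = Equiv.prodShear τ' c' p := fun p => by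
      exact congrArg (fun e : Equiv.Perm (ι × Fin 2) => e p) h
    have h1 : τ = τ' := Equiv.ext fun j => congrArg Prod.fst (h' (j, 0))
    have h2 : c = c' := funext fun j => Equiv.ext fun b => congrArg Prod.snd (h' (j, b))
    rw [h1, h2]
  · intro σ _ hσ
    by_contra hne
    refine hσ ?_
    have hJ : ∀ j, stdJ ι A (σ (j, 0)) (σ (j, 1)) ≠ 0 := by
      intro j h0
      exact hne (by rw [Finset.prod_eq_zero (Finset.mem_univ j) h0, mul_zero])
    have h1 : ∀ j, (σ (j, 0)).1 = (σ (j, 1)).1 := by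
      intro j
      by_contra h
      exact hJ j (by simp [stdJ, h])
    have h1' : ∀ j b, (σ (j, b)).1 = (σ (j, 0)).1 := by
      intro j b
      fin_cases b
      · rfl
      · exact (h1 j).symm
    have hτ : Function.Bijective fun j => (σ (j, 0)).1 := by
      rw [← Finite.surjective_iff_bijective]
      intro i
      refine ⟨(σ.symm (i, 0)).1, ?_⟩
      show (σ ((σ.symm (i, 0)).1, 0)).1 = i
      rw [← h1' _ (σ.symm (i, 0)).2, Prod.mk.eta, Equiv.apply_symm_apply]
    have hc : ∀ j, Function.Bijective fun b => (σ (j, b)).2 := by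
      intro j
      rw [← Finite.injective_iff_bijective]
      intro b b' hb
      have : σ (j, b) = σ (j, b') := Prod.ext (by rw [h1' j b, h1' j b']) hb
      exact congrArg Prod.snd (σ.injective this)
    refine ⟨(Equiv.ofBijective _ hτ, fun j => Equiv.ofBijective _ (hc j)), by simp, ?_⟩
    ext p
    · obtain ⟨j, b⟩ := p
      simp [Equiv.prodShear, h1' j b]
    · obtain ⟨j, b⟩ := p
      simp [Equiv.prodShear]

end Crest.Agent.R208.PF
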