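import Crest.Agent.R208.CW5
import Crest.Agent.R208.PF1

/-! Row 208, block CW (helper586).  CW5b: the Euler class: naturality, homotopy invariance,
isometry invariance, vanishing in the presence of a constant unit section. -/

set_option autoImplicit false
set_option linter.unusedSectionVars false
set_option linter.unusedSimpArgs false
set_option linter.unusedVariables false

open scoped BigOperators ContDiff Topology
open Module Set Matrix

noncomputable section

namespace Crest.Agent.R208.CW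

open Crest.Agent.R208.F Crest.Agent.R208.FI

universe u

section pt
variable {T : Type*} [AddCommGroup T] [Module ℝ T] {ι n m l : Type*} [Fintype ι] [DecidableEq ι]
  [Fintype n] [DecidableEq n] [Fintype m] [DecidableEq m] [Fintype l] [DecidableEq l]

theorem eu_frame {f : Matrix n (ι × Fin 2) ℂ} {W : (ι × Fin 2 → n) → ℂ}
    (hf : ∀ I, W I = (f.submatrix I id).det) (w : Matrix n n (EvC T)) :
    eu W w = PF.pfS ((hv T f)ᵀ * w * hv T f) := by
  rw [PF.pfS_conj, eu]
  refine Finset.sum_congr rfl fun I _ => ?_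
  rw [hf, Algebra.smul_def]
  congr 1
  exact RingHom.map_det (algebraMap ℂ (EvC T)) (f.submatrix I id)

theorem eu_neg (W : (ι × Fin 2 → n) → ℂ) (w : Matrix n n (EvC T)) :
    eu (fun I => - W I) w = - eu W w := by
  simp only [eu, neg_smul, Finset.sum_neg_distrib]

/-- push forward of an orientation tensor -/
def pushW (S : Matrix m n ℂ) (W : (ι × Fin 2 → n) → ℂ) (J : ι × Fin 2 → m) : ℂ :=
  ∑ I : ι × Fin 2 → n, (∏ p, S (J p) (I p)) * W I

theorem pushW_frame (S : Matrix m n ℂ) (f : Matrix n (ι × Fin 2) ℂ) {W : (ι × Fin 2 → n) → ℂ}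
    (hf : ∀ I, W I = (f.submatrix I id).det) (J : ι × Fin 2 → m) :
    pushW S W J = ((S * f).submatrix J id).det := by
  rw [pushW, det_sub]
  simp only [hf, det_sub, Finset.mul_sum]
  rw [Finset.sum_comm]
  refine Finset.sum_congr rfl fun σ _ => ?_
  simp only [Matrix.mul_apply]
  rw [Finset.prod_univ_sum, Fintype.piFinset_univ, Finset.mul_sum]
  refine Finset.sum_congr rfl fun I _ => ?_
  rw [Finset.prod_mul_distrib]; ring

theorem Fr.push {P : Matrix n n ℂ} {W : (ι × Fin 2 → n) → ℂ} (h : Fr P W) {S : Matrix m n ℂ}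
    (hS : P * (Sᵀ * S) * P = P) : Fr (S * P * Sᵀ) (pushW S W) := by
  obtain ⟨f, h1, h2, h3⟩ := h
  have hPf : P * f = f := by rw [← h2, Matrix.mul_assoc, h1, Matrix.mul_one]
  have hPt : Pᵀ = P := by rw [← h2, transpose_mul, transpose_transpose]
  have hfP : fᵀ * P = fᵀ := by rw [← hPt, ← transpose_mul, hPf]
  refine ⟨S * f, ?_, ?_, pushW_frame S f h3⟩
  · rw [transpose_mul]
    calc fᵀ * Sᵀ * (S * f) = fᵀ * P * Sᵀ * (S * (P * f)) := by rw [hfP, hPf]
      _ = fᵀ * (P * (Sᵀ * S) * P) * f := by simp only [Matrix.mul_assoc]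
      _ = 1 := by rw [hS, hfP, h1]
  · rw [transpose_mul, ← h2]; simp only [Matrix.mul_assoc]

theorem pushW_pushW (S : Matrix m n ℂ) (S' : Matrix l m ℂ) (W : (ι × Fin 2 → n) → ℂ) :
    pushW S' (pushW S W) = pushW (S' * S) W := by
  funext J
  simp only [pushW, Finset.mul_sum]
  rw [Finset.sum_comm]
  refine Finset.sum_congr rfl fun I _ => ?_
  simp only [Matrix.mul_apply]
  rw [Finset.prod_univ_sum, Fintype.piFinset_univ, Finset.sum_mul]
  refine Finset.sum_congr rfl fun K _ => ?_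
  rw [Finset.prod_mul_distrib]; ring

theorem pushW_one (W : (ι × Fin 2 → n) → ℂ) : pushW 1 W = W := by
  funext J
  rw [pushW, Finset.sum_eq_single J]
  · simp
  · intro I _ hI
    obtain ⟨p, hp⟩ := Function.ne_iff.1 hI
    have h0 : (1 : Matrix n n ℂ) (J p) (I p) = 0 := Matrix.one_apply_ne (fun h => hp h.symm)
    rw [Finset.prod_eq_zero (Finset.mem_univ p) h0, zero_mul]
  · intro h; exact absurd (Finset.mem_univ _) h

/-- a matrix with a zero row has zero Pfaffian -/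
theorem pfS_zero_row {A : Type*} [CommRing A] {M : Matrix (ι × Fin 2) (ι × Fin 2) A}
    {p : ι × Fin 2} (h1 : ∀ q, M p q = 0) (h2 : ∀ q, M q p = 0) : PF.pfS M = 0 := by
  rw [PF.pfS]
  refine Finset.sum_eq_zero fun σ _ => ?_
  obtain ⟨⟨j, e⟩, hq⟩ := σ.surjective p
  have : ∏ j : ι, M (σ (j, 0)) (σ (j, 1)) = 0 := by
    refine Finset.prod_eq_zero (Finset.mem_univ j) ?_
    fin_cases e
    · simp only [Fin.zero_eta] at hq; rw [hq, h1]
    · simp only [Fin.mk_one] at hq; rw [hq, h2]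
  rw [this, mul_zero]

/-- a null vector kills the Pfaffian -/
theorem pfS_null {M : Matrix (ι × Fin 2) (ι × Fin 2) (EvC T)} {v : ι × Fin 2 → ℂ} (hv0 : v ≠ 0)
    (h1 : M.mulVec (fun p => algebraMap ℂ (EvC T) (v p)) = 0)
    (h2 : Matrix.vecMul (fun p => algebraMap ℂ (EvC T) (v p)) M = 0) : PF.pfS M = 0 := by
  obtain ⟨p, hp⟩ := Function.ne_iff.1 hv0
  let B : Matrix (ι × Fin 2) (ι × Fin 2) ℂ := (1 : Matrix _ _ ℂ).updateCol p v
  have hB : B.det = v p := by
    have := Matrix.cramer_apply (1 : Matrix (ι × Fin 2) (ι × Fin 2) ℂ) v p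
    rw [Matrix.cramer_one] at this
    exact this.symm
  have hcol : ∀ q, B q p = v q := fun q => by simp [B]
  have hz : PF.pfS ((hv T B)ᵀ * M * hv T B) = 0 := by
    refine pfS_zero_row (p := p) (fun q => ?_) (fun q => ?_)
    · rw [Matrix.mul_assoc, Matrix.mul_apply]
      have : ∀ a, ((hv T B)ᵀ) p a = algebraMap ℂ (EvC T) (v a) := fun a => by
        rw [transpose_apply, hv_apply, hcol]
      simp only [this, Matrix.mul_apply, Finset.mul_sum]
      rw [Finset.sum_comm]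
      refine Finset.sum_eq_zero fun c _ => ?_
      have h3 := congrFun h2 c
      simp only [Matrix.vecMul, dotProduct, Pi.zero_apply] at h3
      simp only [← mul_assoc, ← Finset.sum_mul, h3, zero_mul]
    · rw [Matrix.mul_assoc, Matrix.mul_apply]
      refine Finset.sum_eq_zero fun a _ => ?_
      have h3 := congrFun h1 a
      simp only [Matrix.mulVec, dotProduct, Pi.zero_apply] at h3
      have : (M * hv T B) a p = 0 := by
        rw [Matrix.mul_apply]
        simp only [hv_apply, hcol]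
        exact h3
      rw [this, mul_zero]
  rw [PF.pfS_congr] at hz
  have h4 : (hv T B).det = algebraMap ℂ (EvC T) (v p) := by
    rw [← hB]; exact (RingHom.map_det (algebraMap ℂ (EvC T)) B).symm
  rw [h4, ← Algebra.smul_def] at hz
  exact (smul_eq_zero.1 hz).resolve_left hp

end pt

section field
variable {E F : Type*} [NormedAddCommGroup E] [NormedSpace ℝ E] [FiniteDimensional ℝ E]
  [NormedAddCommGroup F] [NormedSpace ℝ F] [FiniteDimensional ℝ F]
  {ι n m : Type*} [Fintype ι] [DecidableEq ι] [Fintype n] [DecidableEq n] [Fintype m]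
  [DecidableEq m] {x : E} {X : Set E} {Y : Set F} {dX dY : ℕ}

/-! ### naturality -/

/-- pull-back of even forms -/
def pbE {E F : Type*} [AddCommGroup E] [Module ℝ E] [AddCommGroup F] [Module ℝ F]
    (A : E →ₗ[ℝ] F) : EvC F →+* EvC E where
  toFun a := ⟨pbC A a, by
    change invC (pbC A a) = pbC A a
    rw [← pbC_invC, EvC.inv]⟩
  map_one' := Subtype.ext (map_one _)
  map_mul' a b := Subtype.ext (map_mul (pbC A) _ _)
  map_zero' := Subtype.ext (map_zero _)
  map_add' a b := Subtype.ext (map_add (pbC A) _ _)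

theorem pbE_algebraMap {E F : Type*} [AddCommGroup E] [Module ℝ E] [AddCommGroup F] [Module ℝ F]
    (A : E →ₗ[ℝ] F) (z : ℂ) : pbE A (algebraMap ℂ (EvC F) z) = algebraMap ℂ (EvC E) z :=
  Subtype.ext (pbC_algebraMap A z)

theorem map_eu {T T' : Type*} [AddCommGroup T] [Module ℝ T] [AddCommGroup T'] [Module ℝ T']
    (φ : EvC T →+* EvC T') (hφ : ∀ z, φ (algebraMap ℂ (EvC T) z) = algebraMap ℂ (EvC T') z)
    (W : (ι × Fin 2 → n) → ℂ) (w : Matrix n n (EvC T)) : φ (eu W w) = eu W (w.map φ) := by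
  simp only [eu, map_sum]
  refine Finset.sum_congr rfl fun I _ => ?_
  rw [Algebra.smul_def, map_mul, hφ, map_prod, Algebra.smul_def]
  rfl

theorem rsE_algebraMap (z : ℂ) :
    rsE X x (algebraMap ℂ (EvC E) z) = algebraMap ℂ (EvC (Tan X x)) z :=
  Subtype.ext (rs_algebraMap z)

theorem rs_ef (P : E → Matrix n n ℂ) (W : E → (ι × Fin 2 → n) → ℂ) (x : E) :
    rs X x (ef P W x) = (eu (W x) (wv (P x) (dl X P x) (invM_dl P x)) : EvC (Tan X x)) := by
  rw [ef, ← rsE_coe, map_eu (rsE X x) rsE_algebraMap, rsE_Om]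

theorem pbE_Om {f : E → F} {P : F → Matrix n n ℂ} (hf : ContDiffAt ℝ 2 f x) (hP : SM 1 P (f x)) :
    (Om P (f x)).map (pbE ((fderiv ℝ f x : E →L[ℝ] F) : E →ₗ[ℝ] F)) = Om (fun y => P (f y)) x := by
  refine vl_inj ?_
  set φ : CF F →+* CF E := pbC ((fderiv ℝ f x : E →L[ℝ] F) : E →ₗ[ℝ] F) with hφ
  have h1 : vl ((Om P (f x)).map (pbE ((fderiv ℝ f x : E →L[ℝ] F) : E →ₗ[ℝ] F)))
      = φ.mapMatrix (vl (Om P (f x))) := rfl
  have h3 : φ.mapMatrix (DD P (f x)) = DD (fun y => P (f y)) x := pbC_DD hf hP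
  have h4 : φ.mapMatrix (hat F (P (f x))) = hat E (P (f x)) :=
    Matrix.ext fun i j => pbC_algebraMap _ _
  rw [h1, vl_Om, vl_Om, map_mul, map_mul, map_mul, h3, h4]

theorem pullC_ef {f : E → F} {P : F → Matrix n n ℂ} {W : F → (ι × Fin 2 → n) → ℂ}
    (hf : ContDiffAt ℝ 2 f x) (hP : SM 1 P (f x)) :
    pullC f (ef P W) x = ef (fun y => P (f y)) (fun y => W (f y)) x := by
  change (pbE ((fderiv ℝ f x : E →L[ℝ] F) : E →ₗ[ℝ] F) (eu (W (f x)) (Om P (f x))) : CF E) = _
  rw [map_eu _ (pbE_algebraMap _), pbE_Om hf hP]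
  rfl

theorem OF.comp {P : F → Matrix n n ℂ} {W : F → (ι × Fin 2 → n) → ℂ} (h : OF Y P W) {f : E → F}
    (hf : SMap X Y f) : OF X (fun x => P (f x)) (fun x => W (f x)) :=
  ⟨fun x hx => (h.sP _ (hf.maps hx)).comp (hf.smooth x hx),
    fun x hx I => (h.sW _ (hf.maps hx) I).comp x (hf.smooth x hx), fun x hx => h.fr _ (hf.maps hx)⟩

theorem ec_map {P : F → Matrix n n ℂ} {W : F → (ι × Fin 2 → n) → ℂ} (h : OF Y P W) {f : E → F}
    (hf : SMap X Y f) : H.map hf (ec h) = ec (h.comp hf) := by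
  rw [ec, H.map_cls]
  exact cls_congr fun x hx => by
    rw [pullC_ef (hf.c2 hx) (h.idF.s1 (hf.maps hx))]

theorem OF.neg {P : E → Matrix n n ℂ} {W : E → (ι × Fin 2 → n) → ℂ} (h : OF X P W) [Nonempty ι] :
    OF X P (fun x I => - W x I) := by
  refine ⟨h.sP, fun x hx I => (h.sW x hx I).neg, fun x hx => ?_⟩
  obtain ⟨f, h1, h2, h3⟩ := h.fr x hx
  obtain ⟨j0⟩ := ‹Nonempty ι›
  let p0 : ι × Fin 2 := (j0, 0)
  let D : Matrix (ι × Fin 2) (ι × Fin 2) ℂ := Matrix.diagonal fun p => if p = p0 then -1 else 1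
  have hD : D * Dᵀ = 1 := by
    rw [Matrix.diagonal_transpose, Matrix.diagonal_mul_diagonal, ← Matrix.diagonal_one]
    congr 1
    funext p
    split_ifs <;> simp
  have hD' : Dᵀ * D = 1 := by
    rw [Matrix.diagonal_transpose]; rw [Matrix.diagonal_transpose] at hD; exact hD
  have hdet : D.det = -1 := by
    rw [Matrix.det_diagonal, Finset.prod_ite_eq' Finset.univ p0 (fun _ => (-1 : ℂ))]
    simp
  refine ⟨f * D, ?_, ?_, fun I => ?_⟩
  · rw [transpose_mul, Matrix.mul_assoc, ← Matrix.mul_assoc fᵀ, h1, Matrix.one_mul, hD']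
  · rw [transpose_mul, Matrix.mul_assoc, ← Matrix.mul_assoc D, hD, Matrix.one_mul, h2]
  · have : (f * D).submatrix I id = f.submatrix I id * D := rfl
    change - W x I = _
    rw [this, det_mul, hdet, h3]; ring

theorem ef_neg (P : E → Matrix n n ℂ) (W : E → (ι × Fin 2 → n) → ℂ) (x : E) :
    ef P (fun x I => - W x I) x = - ef P W x := by
  rw [ef, eu_neg]; rfl

theorem ec_congr {P P' : E → Matrix n n ℂ} {W W' : E → (ι × Fin 2 → n) → ℂ} (h : OF X P W)
    (h' : OF X P' W') (hP : ∀ x ∈ X, P x = P' x) (hW : ∀ x ∈ X, W x = W' x) : ec h = ec h' :=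
  cls_congr fun x hx => by
    rw [rs_ef, rs_ef]
    have e1 := dl_congr_gen (X := X) hx (h.idF.s1 hx) (h'.idF.s1 hx) hP
    have e2 : wv (P x) (dl X P x) (invM_dl P x) = wv (P' x) (dl X P' x) (invM_dl P' x) := by
      refine vl_inj ?_
      rw [vl_wv, vl_wv, hP x hx, e1]
    rw [e2, hW x hx]

/-! ### the universal set and homotopy invariance -/

/-- the universal oriented Grassmannian -/
def GRS (ι n : Type*) [Fintype ι] [DecidableEq ι] [Fintype n] [DecidableEq n] :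
    Set ((n → n → ℂ) × ((ι × Fin 2 → n) → ℂ)) :=
  {z | Fr (Matrix.of z.1) z.2}

theorem oF_taut : OF (GRS ι n) (fun z => Matrix.of z.1) (fun z => z.2) := by
  refine ⟨fun z _ i j => ?_, fun z _ I => ?_, fun z hz => hz⟩
  · exact ((contDiff_apply_apply ℝ ℂ i j).contDiffAt.comp z contDiffAt_fst : _)
  · exact ((contDiff_apply ℝ ℂ I).contDiffAt.comp z contDiffAt_snd : _)

theorem OF.smap {P : E → Matrix n n ℂ} {W : E → (ι × Fin 2 → n) → ℂ} (h : OF X P W) :
    SMap X (GRS ι n) (fun x => ((fun i j => P x i j : n → n → ℂ), W x)) :=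
  ⟨fun x hx => (contDiffAt_cl (h.sP x hx)).prodMk (contDiffAt_pi.2 fun I => h.sW x hx I),
    fun x hx => h.fr x hx⟩

theorem ec_eq_map {P : E → Matrix n n ℂ} {W : E → (ι × Fin 2 → n) → ℂ} (h : OF X P W) :
    ec h = H.map h.smap (ec (oF_taut (ι := ι) (n := n))) := by
  rw [ec_map]; exact ec_congr _ _ (fun _ _ => rfl) (fun _ _ => rfl)

end field

section hom
variable {E : Type u} [NormedAddCommGroup E] [NormedSpace ℝ E] [FiniteDimensional ℝ E]
  {ι n m : Type*} [Fintype ι] [DecidableEq ι] [Fintype n] [DecidableEq n] [Fintype m]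
  [DecidableEq m] {x : E} {X : Set E} {dX : ℕ}

theorem ec_homotopy {P : E × ℝ → Matrix n n ℂ} {W : E × ℝ → (ι × Fin 2 → n) → ℂ}
    (hP : ∀ x ∈ X, ∀ t ∈ Icc (0 : ℝ) 1, SM ∞ P (x, t))
    (hW : ∀ x ∈ X, ∀ t ∈ Icc (0 : ℝ) 1, ∀ I, ContDiffAt ℝ ∞ (fun z => W z I) (x, t))
    (hF : ∀ x ∈ X, ∀ t ∈ Icc (0 : ℝ) 1, Fr (P (x, t)) (W (x, t)))
    (h0 : OF X (fun y => P (y, 0)) (fun y => W (y, 0)))
    (h1 : OF X (fun y => P (y, 1)) (fun y => W (y, 1))) : ec h1 = ec h0 := by
  rw [ec_eq_map h1, ec_eq_map h0]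
  exact H.map_homotopy (Fh := fun z => ((fun i j => P z i j : n → n → ℂ), W z))
    (fun x hx t ht => (contDiffAt_cl (hP x hx t ht)).prodMk
      (contDiffAt_pi.2 fun I => hW x hx t ht I)) (fun x hx t ht => hF x hx t ht)
    h0.smap h1.smap _

end hom

section iso
variable {E : Type*} [NormedAddCommGroup E] [NormedSpace ℝ E] [FiniteDimensional ℝ E]
  {ι n m : Type*} [Fintype ι] [DecidableEq ι] [Fintype n] [DecidableEq n] [Fintype m]
  [DecidableEq m] {x : E} {X : Set E} {dX : ℕ}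

theorem SM.push {G : Type*} [NormedAddCommGroup G] [NormedSpace ℝ G] {x : G} {k : WithTop ℕ∞}
    {S : G → Matrix m n ℂ} {P : G → Matrix n n ℂ} (hS : SM k S x)
    (hP : SM k P x) : SM k (fun y => S y * P y * (S y)ᵀ) x := (hS.mul hP).mul hS.transpose

theorem contDiffAt_pushW {G : Type*} [NormedAddCommGroup G] [NormedSpace ℝ G] {x : G}
    {k : WithTop ℕ∞} {S : G → Matrix m n ℂ} {W : G → (ι × Fin 2 → n) → ℂ} (hS : SM k S x)
    (hW : ∀ I, ContDiffAt ℝ k (fun y => W y I) x) (J : ι × Fin 2 → m) :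
    ContDiffAt ℝ k (fun y => pushW (S y) (W y) J) x :=
  ContDiffAt.sum fun I _ => (contDiffAt_prod fun p _ => hS (J p) (I p)).mul (hW I)

theorem OF.push {P : E → Matrix n n ℂ} {W : E → (ι × Fin 2 → n) → ℂ} (h : OF X P W)
    {S : E → Matrix m n ℂ} (hS : ∀ x ∈ X, SM ∞ S x)
    (hi : ∀ x ∈ X, P x * ((S x)ᵀ * S x) * P x = P x) :
    OF X (fun x => S x * P x * (S x)ᵀ) (fun x => pushW (S x) (W x)) :=
  ⟨fun x hx => (hS x hx).push (h.sP x hx), fun x hx J => contDiffAt_pushW (hS x hx) (h.sW x hx) J,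
    fun x hx => (h.fr x hx).push (hi x hx)⟩

/-- constant isometric embeddings do not change the Euler form on `X` -/
theorem rs_ef_const_push {P : E → Matrix n n ℂ} {W : E → (ι × Fin 2 → n) → ℂ} (h : OF X P W)
    {S : Matrix m n ℂ} (hS : Sᵀ * S = 1) (hx : x ∈ X) :
    rs X x (ef (fun x => S * P x * Sᵀ) (fun x => pushW S (W x)) x) = rs X x (ef P W x) := by
  obtain ⟨f, h1, h2, h3⟩ := h.fr x hx
  rw [rs_ef, rs_ef, eu_frame h3, eu_frame (pushW_frame S f h3)]
  congr 2
  have e1 : dl X (fun x => S * P x * Sᵀ) x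
      = hat (Tan X x) S * dl X P x * hat (Tan X x) Sᵀ := by
    have hSc : SM 1 (fun _ : E => S) x := SM.const S
    have hSc' : SM 1 (fun _ : E => Sᵀ) x := SM.const _
    rw [dl_mul (hSc.mul (h.idF.s1 hx)) hSc', dl_mul hSc (h.idF.s1 hx), dl_const, dl_const,
      Matrix.zero_mul, zero_add, Matrix.mul_zero, add_zero]
  have hSS : hat (Tan X x) Sᵀ * hat (Tan X x) S = 1 := by rw [← hat_mul, hS, hat_one]
  have e2 : wv (S * P x * Sᵀ) (dl X (fun x => S * P x * Sᵀ) x) (invM_dl _ x)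
      = hv (Tan X x) S * wv (P x) (dl X P x) (invM_dl P x) * (hv (Tan X x) S)ᵀ := by
    refine vl_inj ?_
    have e3 : vl ((hv (Tan X x) S)ᵀ) = hat (Tan X x) Sᵀ := rfl
    rw [vl_wv, vl_mul, vl_mul, vl_wv, e3, vl_hv, e1, hat_mul, hat_mul]
    calc hat (Tan X x) S * hat (Tan X x) (P x) * hat (Tan X x) Sᵀ *
          (hat (Tan X x) S * dl X P x * hat (Tan X x) Sᵀ *
            (hat (Tan X x) S * dl X P x * hat (Tan X x) Sᵀ)) *
        (hat (Tan X x) S * hat (Tan X x) (P x) * hat (Tan X x) Sᵀ)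
        = hat (Tan X x) S * hat (Tan X x) (P x) * (hat (Tan X x) Sᵀ * hat (Tan X x) S) *
          dl X P x * (hat (Tan X x) Sᵀ * hat (Tan X x) S) * dl X P x *
          (hat (Tan X x) Sᵀ * hat (Tan X x) S) * hat (Tan X x) (P x) * hat (Tan X x) Sᵀ := by
          simp only [Matrix.mul_assoc]
      _ = _ := by rw [hSS]; simp only [Matrix.mul_one, Matrix.mul_assoc]
  rw [e2, hv_mul, transpose_mul]
  have hSS' : (hv (Tan X x) S)ᵀ * hv (Tan X x) S = 1 := by
    refine vl_inj ?_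
    have e3 : vl ((hv (Tan X x) S)ᵀ) = hat (Tan X x) Sᵀ := rfl
    rw [vl_mul, e3, vl_hv, hSS]
    exact (Matrix.map_one _ (map_zero _) (map_one _)).symm
  set w := wv (P x) (dl X P x) (invM_dl P x)
  calc (hv (Tan X x) f)ᵀ * (hv (Tan X x) S)ᵀ * (hv (Tan X x) S * w * (hv (Tan X x) S)ᵀ) *
        (hv (Tan X x) S * hv (Tan X x) f)
      = (hv (Tan X x) f)ᵀ * ((hv (Tan X x) S)ᵀ * hv (Tan X x) S) * w
          * ((hv (Tan X x) S)ᵀ * hv (Tan X x) S) * hv (Tan X x) f := by
        simp only [Matrix.mul_assoc]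
    _ = _ := by rw [hSS']; simp only [Matrix.mul_one]

theorem ec_const_push {P : E → Matrix n n ℂ} {W : E → (ι × Fin 2 → n) → ℂ} (h : OF X P W)
    {S : Matrix m n ℂ} (hS : Sᵀ * S = 1)
    (h' : OF X (fun x => S * P x * Sᵀ) (fun x => pushW S (W x))) : ec h' = ec h :=
  cls_congr fun x hx => rs_ef_const_push h hS hx

end iso

end Crest.Agent.R208.CW
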