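import Crest.Agent.R208.FH11

/-! Row 208, block F2 (helper198), part FH12: forms of degree `> dim` vanish, bump forms,
properties of the mapping degree. -/

set_option autoImplicit false
set_option linter.unusedSectionVars false

open MeasureTheory MeasureTheory.Measure Set Filter Topology Module
open scoped ContDiff
open Crest.Agent.R208.F

noncomputable section

namespace Crest.Agent.R208.FI

section alg
variable {E : Type*} [AddCommGroup E] [Module ℝ E] [FiniteDimensional ℝ E]

/-- an element of the exterior algebra of the dual is determined by its evaluations. -/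
theorem eq_zero_of_evA {c : Ext E} (h : ∀ q, evA E q c = 0) : c = 0 := by
  classical
  set b := Module.finBasis ℝ E with hb
  set B := b.dualBasis.ExteriorAlgebra with hB
  refine B.ext_elem fun t => ?_
  rw [map_zero, Finsupp.zero_apply]
  have hBs : ∀ s, B s = ExteriorAlgebra.ιMulti ℝ s.card
      (fun i => b.dualBasis ((s.orderEmbOfFin rfl) i)) := by
    intro s
    rw [hB, ExteriorAlgebra.basis_apply]
    rfl
  let L : Ext E →ₗ[ℝ] ℝ :=
    { toFun := fun c => evA E t.card c (fun i => b ((t.orderEmbOfFin rfl) i))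
      map_add' := fun x y => by rw [map_add]; rfl
      map_smul' := fun r x => by rw [map_smul]; rfl }
  have hL : ∀ x, L x = evA E t.card x (fun i => b ((t.orderEmbOfFin rfl) i)) := fun _ => rfl
  have h1 : L c = 0 := by rw [hL, h]; rfl
  rw [← B.sum_repr c, _root_.map_sum] at h1
  rw [Finset.sum_eq_single t] at h1
  · rw [map_smul, hL, hBs t, evA_iMulti] at h1
    have h2 : (Matrix.of fun i j => (b.dualBasis ((t.orderEmbOfFin rfl) j))
        (b ((t.orderEmbOfFin rfl) i))) = (1 : Matrix (Fin t.card) (Fin t.card) ℝ) := by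
      ext i j
      rw [Matrix.of_apply, Basis.dualBasis_apply_self, Matrix.one_apply]
      by_cases hij : i = j
      · simp [hij]
      · rw [if_neg, if_neg hij]
        intro h3
        exact hij ((t.orderEmbOfFin rfl).injective h3)
    rw [h2, Matrix.det_one, smul_eq_mul, mul_one] at h1
    exact h1
  · intro s _ hst
    rw [map_smul, hL, hBs s]
    by_cases hc : s.card = t.card
    · -- some element of `t` is not in `s`
      obtain ⟨x, hxt, hxs⟩ : ∃ x ∈ t, x ∉ s := by
        by_contra hcon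
        push Not at hcon
        exact hst (Finset.eq_of_subset_of_card_le hcon hc.le).symm
      obtain ⟨i, hi⟩ : ∃ i, (t.orderEmbOfFin rfl) i = x := by
        have : x ∈ Set.range (t.orderEmbOfFin rfl) := by
          rw [Finset.range_orderEmbOfFin]; exact hxt
        exact this
      have h3 : evA E t.card (ExteriorAlgebra.ιMulti ℝ s.card
          (fun i => b.dualBasis ((s.orderEmbOfFin rfl) i))) (fun i => b ((t.orderEmbOfFin rfl) i))
          = evA E s.card (ExteriorAlgebra.ιMulti ℝ s.card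
          (fun i => b.dualBasis ((s.orderEmbOfFin rfl) i)))
            (fun i => b ((t.orderEmbOfFin rfl) (Fin.cast hc i))) := by
        rw [← evA_cast hc.symm]
        rfl
      rw [h3, evA_iMulti, Matrix.det_eq_zero_of_row_eq_zero (Fin.cast hc.symm i), smul_zero]
      intro j
      rw [Matrix.of_apply, Basis.dualBasis_apply_self, if_neg]
      intro h4
      have h5 : Fin.cast hc (Fin.cast hc.symm i) = i := by ext; simp
      rw [h5, hi] at h4
      apply hxs
      rw [h4]
      exact Finset.orderEmbOfFin_mem _ _ _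
    · rw [evA_iMulti_ne hc]; simp
  · intro ht; exact absurd (Finset.mem_univ t) ht

theorem evA_eq_zero_of_gt {q : ℕ} (hq : finrank ℝ E < q) (c : Ext E) : evA E q c = 0 := by
  ext w
  rw [AlternatingMap.zero_apply]
  apply AlternatingMap.map_linearDependent
  intro hli
  have := hli.fintype_card_le_finrank
  simp at this
  omega

theorem IsDeg.eq_zero {p : ℕ} {c : Ext E} (h : IsDeg p c) (hp : finrank ℝ E < p) : c = 0 := by
  refine eq_zero_of_evA fun q => ?_
  by_cases hq : q = p
  · subst hq; exact evA_eq_zero_of_gt hp c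
  · exact h q hq

end alg

variable {E E' : Type*} [NormedAddCommGroup E] [NormedSpace ℝ E] [FiniteDimensional ℝ E]
  [NormedAddCommGroup E'] [NormedSpace ℝ E'] [FiniteDimensional ℝ E']

/-- forms of degree `n = dim Y` are closed on `Y`. -/
theorem resZero_d_of_isDeg {n : ℕ} {Y : Set E'} (hY : Clo n Y) {om : E' → Ext E'}
    (h : ∀ x ∈ Y, ∀ᶠ y in 𝓝 x, IsDeg n (om y)) : ResZero Y (F.d om) := fun x hx =>
  ((IsDeg.d (h x hx)).pb _).eq_zero (by rw [hY.finrank_Tan hx]; omega)

theorem jac_pos_chart {n : ℕ} {Y : Set E'} {f : Eu n → E'} {V : Set (Eu n)} (hf : Chart n Y f V)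
    {u : Eu n} (hu : u ∈ V) : 0 < Crest.Agent.R241.AF.jac (LE E' ∘L fderiv ℝ f u) :=
  jac_pos_of_injective (hf.inj u hu)

/-- **bump forms** of top degree. -/
theorem exists_bump_form {n : ℕ} {Y : Set E'} {oY : E' → Ext E'} (hY : Clo n Y)
    (hoY : Ori n Y oY) {x₀ : E'} (hx₀ : x₀ ∈ Y) {O' : Set E'} (hO' : IsOpen O') (hx₀' : x₀ ∈ O') :
    ∃ om : E' → Ext E', (∀ y, ContDiffAt ℝ ∞ om y) ∧ (∀ y, IsDeg n (om y)) ∧ tsupport om ⊆ O' ∧
      (∀ y ∈ Y, 0 ≤ dens n Y oY om y) ∧ 0 < dens n Y oY om x₀ ∧ 0 < J n Y oY om := by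
  classical
  obtain ⟨f, V, hf, u₀, hu₀, rfl⟩ := hY.chart x₀ hx₀
  obtain ⟨O, ℓ, hO, hxO, hℓ, hℓV, hℓx, hℓS⟩ := exists_coord hf hu₀
  -- a ball where the sign is constant
  obtain ⟨ρ, hρ, hρs⟩ := Metric.mem_nhds_iff.1 (hf.isOpen.mem_nhds hu₀)
  set V' := Metric.ball u₀ ρ with hV'
  have hf' : Chart n Y f V' := hf.mono hρs Metric.isOpen_ball
  have hu₀' : u₀ ∈ V' := Metric.mem_ball_self hρ
  obtain ⟨ε, hε⟩ := hf'.exists_sign hoY (convex_ball _ _).isPreconnected
  have hε0 : ε ≠ 0 := by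
    rw [← hε u₀ hu₀']
    intro h
    exact hf'.top_ne_zero hoY hu₀' (Real.sign_eq_zero_iff.1 h)
  obtain ⟨U, hU, hUe⟩ := hf.image_open V' hρs Metric.isOpen_ball
  have hU0 : f u₀ ∈ U := by
    have : f u₀ ∈ f '' V' := ⟨u₀, hu₀', rfl⟩
    rw [hUe] at this; exact this.2
  obtain ⟨s, hs, hsO⟩ := Metric.isOpen_iff.1 ((hO.inter hO').inter hU) (f u₀)
    ⟨⟨hxO, hx₀'⟩, hU0⟩
  let χ : ContDiffBump (f u₀) := ⟨s / 4, s / 2, by positivity, by linarith⟩
  have hχt : tsupport χ ⊆ (O ∩ O') ∩ U := by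
    rw [χ.tsupport_eq]
    exact (Metric.closedBall_subset_ball (by show s / 2 < s; linarith)).trans hsO
  set η : E' → Ext E' := pull ℓ (fun _ => vol n) with hη
  set om : E' → Ext E' := fun q => (ε * χ q) • η q with hom
  have hdeg : ∀ y, IsDeg n (om y) := fun y => ((isDeg_vol n).pb _).smul _
  have hsupp : Function.support om ⊆ tsupport χ := by
    intro y hy
    by_contra h
    apply hy
    have : χ y = 0 := image_eq_zero_of_notMem_tsupport h
    show (ε * χ y) • η y = 0
    rw [this, mul_zero, zero_smul]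
  have hts : tsupport om ⊆ tsupport χ := closure_minimal hsupp (isClosed_tsupport _)
  have hC : ∀ y, ContDiffAt ℝ ∞ om y := by
    intro y
    by_cases hy : y ∈ O
    · refine ContDiffAt.smul (contDiffAt_const.mul χ.contDiff.contDiffAt) ?_
      exact contDiffAt_pull (n := ∞) (hℓ.contDiffAt (hO.mem_nhds hy)) (by simp)
        contDiffAt_const
    · have h1 : y ∉ tsupport om := fun h => hy (hχt (hts h)).1.1
      exact contDiffAt_const.congr_of_eventuallyEq (notMem_tsupport_iff_eventuallyEq.1 h1)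
  -- the density
  have hdens : ∀ u ∈ V', f u ∈ O → dens n Y oY om (f u) =
      (ε * ε * χ (f u)) / Crest.Agent.R241.AF.jac (LE E' ∘L fderiv ℝ f u) := by
    intro u hu huO
    rw [hf'.dens_eq hu, hε u hu]
    have h1 : pull f om u = (ε * χ (f u)) • pull f η u := pull_smul _ _ _ _
    have h2 : pull f η u = vol n := by
      rw [hη, pull_comp (hf'.differentiableAt hu)
        ((hℓ.contDiffAt (hO.mem_nhds huO)).differentiableAt (by simp))]
      have h3 : (ℓ ∘ f) =ᶠ[𝓝 u] fun y => y := by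
        have h4 : ContinuousAt f u := (hf'.contDiffAt hu).continuousAt
        filter_upwards [hf.isOpen.mem_nhds (hρs hu), h4.preimage_mem_nhds (hO.mem_nhds huO)]
          with u' hu' hu'O
        exact hf.injOn (hℓV _ hu'O) hu' (hℓS _ hu'O (hf.mem hu'))
      rw [pull_congr h3, pull_id]
    rw [h1, h2, map_smul, top_vol]
    simp only [smul_eq_mul, mul_one]
    ring
  have hnn : ∀ y ∈ Y, 0 ≤ dens n Y oY om y := by
    intro y hy
    by_cases h : y ∈ tsupport χ
    · have h1 := hχt h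
      have h2 : y ∈ f '' V' := by rw [hUe]; exact ⟨hy, h1.2⟩
      obtain ⟨u, hu, rfl⟩ := h2
      rw [hdens u hu h1.1.1]
      have h3 := jac_pos_chart hf' hu
      have h4 : 0 ≤ χ (f u) := χ.nonneg
      have h5 := mul_self_nonneg ε
      positivity
    · have h1 : om y = 0 := by
        by_contra h2
        exact h (hsupp h2)
      have h3 : dens n Y oY om y = 0 := by
        rw [dens, h1, map_zero]; simp
      rw [h3]
  have hpos : 0 < dens n Y oY om (f u₀) := by
    rw [hdens u₀ hu₀' hxO]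
    have h3 := jac_pos_chart hf' hu₀'
    have h4 : χ (f u₀) = 1 := χ.one_of_mem_closedBall (Metric.mem_closedBall_self (by positivity))
    rw [h4]
    have h5 : 0 < ε * ε := mul_self_pos.2 hε0
    positivity
  exact ⟨om, hC, hdeg, hts.trans (fun y hy => (hχt hy).1.2), hnn, hpos,
    J_pos_of hY hoY (fun y _ => (hC y).continuousAt.continuousWithinAt) hnn hx₀ hpos⟩

section deg
variable {n : ℕ} {X : Set E} {Y : Set E'} {f g : E → E'} {oX : E → Ext E} {oY : E' → Ext E'}

/-- the **mapping degree** -/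
def deg (n : ℕ) (X : Set E) (oX : E → Ext E) (Y : Set E') (oY : E' → Ext E') (f : E → E') : ℝ :=
  J n X oX (pull f oY) / J n Y oY oY

theorem deg_spec (hX : Clo n X) (hoX : Ori n X oX) (hY : Clo n Y) (hoY : Ori n Y oY)
    (hYc : IsPreconnected Y) (hf : ∀ x ∈ X, ContDiffAt ℝ 2 f x) (hm : MapsTo f X Y) :
    (∃ m : ℤ, deg n X oX Y oY f = m) ∧
      ∀ om : E' → Ext E', ContinuousOn om Y →
        J n X oX (pull f om) = deg n X oX Y oY f * J n Y oY om := by
  obtain ⟨m, hm'⟩ := exists_degree hX hoX hY hoY hYc hf hm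
  rcases Y.eq_empty_or_nonempty with hYe | hne
  · have h1 : ∀ om, J n Y oY om = 0 := fun om => by rw [J, hYe, image_empty]; simp
    refine ⟨⟨0, by rw [deg, h1, div_zero]; simp⟩, fun om hom => ?_⟩
    rw [hm' om hom, h1, mul_zero, mul_zero]
  · have h1 : J n Y oY oY ≠ 0 := (J_pos hY hoY hne).ne'
    have h2 : deg n X oX Y oY f = m := by
      rw [deg, hm' _ hoY.cont, mul_div_assoc, div_self h1, mul_one]
    exact ⟨⟨m, h2⟩, fun om hom => by rw [h2]; exact hm' om hom⟩

/-- the degree is determined by one form. -/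
theorem deg_eq_of (hX : Clo n X) (hoX : Ori n X oX) (hY : Clo n Y) (hoY : Ori n Y oY)
    (hYc : IsPreconnected Y) (hf : ∀ x ∈ X, ContDiffAt ℝ 2 f x) (hm : MapsTo f X Y)
    {om : E' → Ext E'} (hom : ContinuousOn om Y) (h0 : J n Y oY om ≠ 0) {c : ℝ}
    (h : J n X oX (pull f om) = c * J n Y oY om) : deg n X oX Y oY f = c := by
  rw [(deg_spec hX hoX hY hoY hYc hf hm).2 om hom] at h
  exact mul_right_cancel₀ h0 h

/-- homotopic maps have the same degree -/
theorem deg_homotopy (hX : Clo n X) (hoX : Ori n X oX) (hY : Clo n Y) (hoY : Ori n Y oY)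
    (hYc : IsPreconnected Y) {Fh : E × ℝ → E'}
    (hF : ∀ x ∈ X, ∀ t ∈ Icc (0 : ℝ) 1, ContDiffAt ℝ 2 Fh (x, t))
    (hm : ∀ x ∈ X, ∀ t ∈ Icc (0 : ℝ) 1, Fh (x, t) ∈ Y) :
    deg n X oX Y oY (fun x => Fh (x, 1)) = deg n X oX Y oY (fun x => Fh (x, 0)) := by
  rcases Y.eq_empty_or_nonempty with hYe | ⟨x₁, hx₁⟩
  · have h1 : ∀ om, J n Y oY om = 0 := fun om => by rw [J, hYe, image_empty]; simp
    rw [deg, deg, h1, div_zero, div_zero]
  obtain ⟨om, h1, h2, -, -, -, h6⟩ := exists_bump_form hY hoY hx₁ isOpen_univ (mem_univ _)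
  have hs : ∀ t ∈ Icc (0 : ℝ) 1, ∀ x ∈ X, ContDiffAt ℝ 2 (fun x => Fh (x, t)) x := fun t ht x hx =>
    (hF x hx t ht).comp x (contDiffAt_id.prodMk contDiffAt_const)
  have hcont : ContinuousOn om Y := fun y _ => (h1 y).continuousAt.continuousWithinAt
  refine deg_eq_of hX hoX hY hoY hYc (hs 1 (by simp)) (fun x hx => hm x hx 1 (by simp)) hcont
    h6.ne' ?_
  rw [← (deg_spec hX hoX hY hoY hYc (hs 0 (by simp)) (fun x hx => hm x hx 0 (by simp))).2 om hcont]
  exact J_homotopy hX hoX hF hm (fun y _ => (h1 y).of_le (by simp))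
    (resZero_d_of_isDeg hY fun x _ => Eventually.of_forall h2)

/-- a map of nonzero degree is onto. -/
theorem deg_eq_zero_of_not_surj (hX : Clo n X) (hoX : Ori n X oX) (hY : Clo n Y)
    (hoY : Ori n Y oY) (hYc : IsPreconnected Y) (hf : ∀ x ∈ X, ContDiffAt ℝ 2 f x)
    (hm : MapsTo f X Y) {y₀ : E'} (hy₀ : y₀ ∈ Y) (hy : y₀ ∉ f '' X) :
    deg n X oX Y oY f = 0 := by
  have hfc : ContinuousOn f X := fun x hx => (hf x hx).continuousAt.continuousWithinAt
  have hO : IsOpen (f '' X)ᶜ := (hX.compact.image_of_continuousOn hfc).isClosed.isOpen_compl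
  obtain ⟨om, h1, h2, h3, -, -, h6⟩ := exists_bump_form hY hoY hy₀ hO hy
  refine deg_eq_of hX hoX hY hoY hYc hf hm (fun y _ => (h1 y).continuousAt.continuousWithinAt)
    h6.ne' ?_
  rw [zero_mul, ← J_zero (d := n) (X := X) (o := oX)]
  refine J_congr' hX fun x hx => ?_
  have h4 : om (f x) = 0 := by
    by_contra h5
    exact h3 (subset_tsupport _ h5) ⟨x, hx, rfl⟩
  show pb _ (om (f x)) = 0
  rw [h4, map_zero]

theorem deg_surj (hX : Clo n X) (hoX : Ori n X oX) (hY : Clo n Y)
    (hoY : Ori n Y oY) (hYc : IsPreconnected Y) (hf : ∀ x ∈ X, ContDiffAt ℝ 2 f x)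
    (hm : MapsTo f X Y) (hd : deg n X oX Y oY f ≠ 0) : f '' X = Y := by
  refine Subset.antisymm (image_subset_iff.2 hm) fun y hy => ?_
  by_contra h
  exact hd (deg_eq_zero_of_not_surj hX hoX hY hoY hYc hf hm hy h)

/-- a bijective immersion of a connected manifold has degree `±1`. -/
theorem deg_bijOn (hX : Clo n X) (hoX : Ori n X oX) (hXc : IsPreconnected X) (hY : Clo n Y)
    (hoY : Ori n Y oY) (hne : Y.Nonempty) (hf : ∀ x ∈ X, ContDiffAt ℝ 1 f x) (hb : BijOn f X Y)
    (hi : ∀ x ∈ X, ∀ v ∈ Tan X x, fderiv ℝ f x v = 0 → v = 0) :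
    deg n X oX Y oY f = 1 ∨ deg n X oX Y oY f = -1 := by
  have ho' := Ori.pull hX hY hf hb.mapsTo hi hoY
  have h1 : J n X (pull f oY) (pull f oY) = J n Y oY oY :=
    J_pull hX hY (fun x hx => (hf x hx).differentiableAt (by norm_num)) hb hoY hoY.cont
  have h0 : J n Y oY oY ≠ 0 := (J_pos hY hoY hne).ne'
  rcases J_ori_connected hX hoX ho' hXc with h | h
  · left; rw [deg, ← h, h1, div_self h0]
  · right
    rw [deg]
    have h2 := h (pull f oY)
    rw [h1] at h2
    rw [h2] at h0 ⊢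
    rw [div_neg, div_self (neg_ne_zero.1 h0)]

theorem deg_comp {E'' : Type*} [NormedAddCommGroup E''] [NormedSpace ℝ E'']
    [FiniteDimensional ℝ E''] {W : Set E''} {oW : E'' → Ext E''} {h : E' → E''}
    (hX : Clo n X) (hoX : Ori n X oX) (hY : Clo n Y) (hoY : Ori n Y oY) (hYc : IsPreconnected Y)
    (hW : Clo n W) (hoW : Ori n W oW) (hWc : IsPreconnected W)
    (hf : ∀ x ∈ X, ContDiffAt ℝ 2 f x) (hm : MapsTo f X Y)
    (hh : ∀ y ∈ Y, ContDiffAt ℝ 2 h y) (hm' : MapsTo h Y W) :
    deg n X oX W oW (h ∘ f) = deg n Y oY W oW h * deg n X oX Y oY f := by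
  rcases W.eq_empty_or_nonempty with hWe | hne
  · have h1 : ∀ om, J n W oW om = 0 := fun om => by rw [J, hWe, image_empty]; simp
    rw [deg, deg, h1, div_zero, div_zero, zero_mul]
  · refine deg_eq_of hX hoX hW hoW hWc (fun x hx => (hh _ (hm hx)).comp x (hf x hx))
      (hm'.comp hm) hoW.cont (J_pos hW hoW hne).ne' ?_
    have h1 : J n X oX (pull (h ∘ f) oW) = J n X oX (pull f (pull h oW)) :=
      J_congr' hX fun x hx => (pull_comp ((hf x hx).differentiableAt (by norm_num))
        ((hh _ (hm hx)).differentiableAt (by norm_num))).symm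
    have hc : ContinuousOn (pull h oW) Y := FI.continuousOn_pull
      (fun x hx => (hh x hx).continuousAt.continuousWithinAt)
      (fun x hx => ((hh x hx).fderiv_right (m := 0) (by norm_num)).continuousAt.continuousWithinAt)
      hm' hoW.cont
    rw [h1, (deg_spec hX hoX hY hoY hYc hf hm).2 _ hc,
      (deg_spec hY hoY hW hoW hWc hh hm').2 _ hoW.cont]
    ring

end deg

end Crest.Agent.R208.FI
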