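import Crest.Agent.R208.FI2c

/-! Row 208, block F2 (helper349), part FI2d: frame manifolds of fields of orthogonal (or arbitrary)
projections: `Fr X P r = {(x, v₁, …, v_r) | x ∈ X, vᵢ ∈ range (P x) orthonormal}`. -/

set_option autoImplicit false
set_option linter.unusedSectionVars false
set_option linter.unusedVariables false

open Set Filter Topology Module
open scoped ContDiff RealInnerProductSpace
open Crest.Agent.R208.F

noncomputable section

namespace Crest.Agent.R208.FI

variable {E : Type*} [NormedAddCommGroup E] [NormedSpace ℝ E] [FiniteDimensional ℝ E]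
  {H : Type*} [NormedAddCommGroup H] [InnerProductSpace ℝ H] [FiniteDimensional ℝ H]
  {n k : ℕ} {X : Set E} {P : E → H →L[ℝ] H}

/-- `r` copies of a field of projections -/
def powP (r : ℕ) (P : E → H →L[ℝ] H) (x : E) : (Fin r → H) →L[ℝ] (Fin r → H) :=
  ContinuousLinearMap.pi fun i => (P x) ∘L ContinuousLinearMap.proj i

@[simp] theorem powP_apply (r : ℕ) (x : E) (v : Fin r → H) (i : Fin r) :
    powP r P x v i = P x (v i) := rfl

variable (H) in
/-- the linear map `A ↦ A ⊕ ⋯ ⊕ A` -/
def powL (r : ℕ) : (H →L[ℝ] H) →L[ℝ] ((Fin r → H) →L[ℝ] (Fin r → H)) :=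
  LinearMap.toContinuousLinearMap
    { toFun := fun A => ContinuousLinearMap.pi fun i => A ∘L ContinuousLinearMap.proj i
      map_add' := fun A B => by ext v i; rfl
      map_smul' := fun c A => by ext v i; rfl }

theorem powL_apply (r : ℕ) (A : H →L[ℝ] H) (v : Fin r → H) (i : Fin r) :
    powL H r A v i = A (v i) := rfl

theorem powP_eq (r : ℕ) (x : E) : powP r P x = powL H r (P x) := rfl

theorem contDiff_powL (r : ℕ) : ContDiff ℝ ∞ (fun A : H →L[ℝ] H => powL H r A) := by
  rw [contDiff_clm_apply_iff]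
  intro v
  refine contDiff_pi.2 fun i => ?_
  simp only [powL_apply]
  exact contDiff_id.clm_apply contDiff_const

theorem PField.pow (hP : PField X k P) (r : ℕ) : PField X (r * k) (powP r P) := by
  refine ⟨fun x hx => ?_, fun x hx v => ?_, fun x hx => ?_⟩
  · exact (contDiff_powL (H := H) r).contDiffAt.comp x (hP.smooth x hx)
  · funext i; exact hP.idem x hx _
  · let e : LinearMap.range (powP r P x : (Fin r → H) →ₗ[ℝ] (Fin r → H)) ≃ₗ[ℝ]
        (Fin r → LinearMap.range (P x : H →ₗ[ℝ] H)) :=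
      { toFun := fun v i => ⟨(v : Fin r → H) i, by
          obtain ⟨w, hw⟩ := v.2
          exact ⟨w i, by rw [← hw]; rfl⟩⟩
        map_add' := fun v w => by funext i; rfl
        map_smul' := fun c v => by funext i; rfl
        invFun := fun v => ⟨fun i => (v i : H), by
          choose w hw using fun i => (v i).2
          exact ⟨w, by funext i; exact hw i⟩⟩
        left_inv := fun v => rfl
        right_inv := fun v => rfl }
    rw [e.finrank_eq, Module.finrank_pi_fintype]
    simp [hP.rank x hx]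

theorem fderiv_field {H' : Type*} [NormedAddCommGroup H'] [NormedSpace ℝ H']
    (L : (H →L[ℝ] H) →L[ℝ] (H' →L[ℝ] H')) {x : E} (hd : DifferentiableAt ℝ P x) (a : E) :
    fderiv ℝ (fun y => L (P y)) x a = L (fderiv ℝ P x a) := by
  have := (L.hasFDerivAt.comp x hd.hasFDerivAt).fderiv
  have h2 : fderiv ℝ (fun y => L (P y)) x = L ∘L fderiv ℝ P x := this
  rw [h2]; rfl

theorem fderiv_powP (hP : PField X k P) (r : ℕ) {x : E} (hx : x ∈ X) (a : E) :
    fderiv ℝ (powP r P) x a = powL H r (fderiv ℝ P x a) :=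
  fderiv_field (powL H r) ((hP.smooth x hx).differentiableAt (by simp)) a

/-- the manifold of orthonormal `r`-frames in the ranges of `P` -/
def Fr (X : Set E) (P : E → H →L[ℝ] H) (r : ℕ) : Set (E × (Fin r → H)) :=
  {z | z.1 ∈ X ∧ (∀ i, P z.1 (z.2 i) = z.2 i) ∧ Orthonormal ℝ z.2}

/-- pairs `i ≤ j` -/
abbrev Pr (r : ℕ) := {p : Fin r × Fin r // p.1 ≤ p.2}

/-- Gram constraints -/
def gram (r : ℕ) (z : E × (Fin r → H)) : Pr r → ℝ :=
  fun p => ⟪z.2 p.1.1, z.2 p.1.2⟫ - (if p.1.1 = p.1.2 then 1 else 0)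

theorem gram_eq_zero_iff {r : ℕ} {z : E × (Fin r → H)} : gram r z = 0 ↔ Orthonormal ℝ z.2 := by
  classical
  rw [orthonormal_iff_ite]
  constructor
  · intro h i j
    rcases le_total i j with hij | hij
    · have := congrFun h ⟨(i, j), hij⟩
      simp only [gram, Pi.zero_apply] at this
      linarith
    · have := congrFun h ⟨(j, i), hij⟩
      simp only [gram, Pi.zero_apply] at this
      rw [real_inner_comm]
      by_cases hh : i = j
      · subst hh
        simp only [if_true] at this ⊢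
        linarith
      · rw [if_neg hh]; rw [if_neg (Ne.symm hh)] at this; linarith
  · intro h
    funext p
    simp only [gram, Pi.zero_apply, h]
    split_ifs <;> simp

theorem Fr_eq (r : ℕ) : Fr X P r = {z ∈ Tot X (powP r P) | gram r z = 0} := by
  ext z
  constructor
  · rintro ⟨h1, h2, h3⟩
    exact ⟨⟨h1, funext h2⟩, gram_eq_zero_iff.2 h3⟩
  · rintro ⟨⟨h1, h2⟩, h3⟩
    exact ⟨h1, fun i => congrFun h2 i, gram_eq_zero_iff.1 h3⟩

theorem hasFDerivAt_gram (r : ℕ) (z : E × (Fin r → H)) :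
    ContDiffAt ℝ ∞ (gram r : E × (Fin r → H) → Pr r → ℝ) z ∧
    ∀ a b, fderiv ℝ (gram r : E × (Fin r → H) → Pr r → ℝ) z (a, b) = fun p : Pr r =>
      ⟪z.2 p.1.1, b p.1.2⟫ + ⟪b p.1.1, z.2 p.1.2⟫ := by
  have hc : ContDiff ℝ ∞ (gram r : E × (Fin r → H) → Pr r → ℝ) := by
    refine contDiff_pi.2 fun p => ?_
    unfold gram
    refine ContDiff.sub ?_ contDiff_const
    exact ContDiff.inner ℝ (by fun_prop) (by fun_prop)
  refine ⟨hc.contDiffAt, fun a b => ?_⟩
  have hd : DifferentiableAt ℝ (gram r : E × (Fin r → H) → Pr r → ℝ) z :=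
    hc.contDiffAt.differentiableAt (by simp)
  funext p
  have h1 : HasDerivAt (fun t : ℝ => gram r (z + t • (a, b))) (fderiv ℝ (gram r) z (a, b)) 0 := by
    have h2 : HasDerivAt (fun t : ℝ => z + t • (a, b)) (a, b) 0 := by
      simpa using ((hasDerivAt_id (0 : ℝ)).smul_const (a, b)).const_add z
    have h3 : HasFDerivAt (gram r : E × (Fin r → H) → Pr r → ℝ) (fderiv ℝ (gram r) z)
        (z + (0 : ℝ) • (a, b)) := by simpa using hd.hasFDerivAt
    exact h3.comp_hasDerivAt (0 : ℝ) h2
  have h4 := (hasDerivAt_pi.1 h1) p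
  have h5 : HasDerivAt (fun t : ℝ => gram r (z + t • (a, b)) p)
      (⟪z.2 p.1.1, b p.1.2⟫ + ⟪b p.1.1, z.2 p.1.2⟫) 0 := by
    have h6 : ∀ i : Fin r, HasDerivAt (fun t : ℝ => z.2 i + t • b i) (b i) 0 := fun i => by
      simpa using ((hasDerivAt_id (0 : ℝ)).smul_const (b i)).const_add (z.2 i)
    have h7 := ((h6 p.1.1).inner ℝ (h6 p.1.2)).sub_const (if p.1.1 = p.1.2 then (1 : ℝ) else 0)
    simp only [zero_smul, add_zero] at h7
    exact h7
  exact h4.unique h5

theorem gram_surj (hX : Sub n X) (hP : PField X k P) (r : ℕ) {z : E × (Fin r → H)}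
    (hz : z ∈ Tot X (powP r P)) (hg : gram r z = 0) (y : Pr r → ℝ) :
    ∃ b : Fin r → H, ((0 : E), b) ∈ Tan (Tot X (powP r P)) z ∧
      fderiv ℝ (gram r : E × (Fin r → H) → Pr r → ℝ) z (0, b) = y := by
  classical
  obtain ⟨x, v⟩ := z
  have hon := gram_eq_zero_iff.1 hg
  simp only at hon
  rw [orthonormal_iff_ite] at hon
  let c : Fin r → Fin r → ℝ := fun i j =>
    if h : i ≤ j then y ⟨(i, j), h⟩ else y ⟨(j, i), (le_of_not_ge h)⟩
  have hcs : ∀ i j, c i j = c j i := by
    intro i j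
    simp only [c]
    by_cases h1 : i ≤ j
    · by_cases h2 : j ≤ i
      · have : i = j := le_antisymm h1 h2
        subst this; rfl
      · rw [dif_pos h1, dif_neg h2]
    · have h2 : j ≤ i := le_of_not_ge h1
      rw [dif_neg h1, dif_pos h2]
  let b : Fin r → H := fun i => (1 / 2 : ℝ) • ∑ j, c i j • v j
  have hbv : ∀ i j, ⟪b i, v j⟫ = (1 / 2) * c i j := by
    intro i j
    simp only [b, real_inner_smul_left, sum_inner, hon]
    simp
  have hPv : ∀ i, P x (v i) = v i := fun i => congrFun hz.2 i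
  refine ⟨b, ?_, ?_⟩
  · refine ((hP.pow r).mem_Tan_tot hX hz.1 hz.2).2 ⟨Submodule.zero_mem _, ?_⟩
    funext i
    simp only [map_zero, Pi.sub_apply, powP_apply, zero_apply, Pi.zero_apply]
    simp only [b, map_smul, map_sum, hPv, sub_self]
  · rw [(hasFDerivAt_gram r (x, v)).2]
    funext p
    simp only
    rw [real_inner_comm, hbv, hbv, hcs p.1.2 p.1.1]
    have : c p.1.1 p.1.2 = y p := by
      simp only [c]; rw [dif_pos p.2]
    rw [this]; ring

/-- **frame manifolds are submanifolds** -/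
theorem sub_Fr (hX : Sub n X) (hP : PField X k P) (r : ℕ) :
    Sub (n + r * k - Fintype.card (Pr r)) (Fr X P r) := by
  rw [Fr_eq]
  have := ((hP.pow r).sub_tot hX).level (g := gram r) (fun z hz => (hasFDerivAt_gram r z).1)
    (fun z hz hg y => by
      obtain ⟨b, h1, h2⟩ := gram_surj hX hP r hz hg y
      exact ⟨_, h1, h2⟩)
  rwa [Module.finrank_fintype_fun_eq_card] at this

theorem isCompact_Fr (hX : IsCompact X) (hP : PField X k P) (r : ℕ) : IsCompact (Fr X P r) := by
  have hPc : ContinuousOn P X := fun x hx => (hP.smooth x hx).continuousAt.continuousWithinAt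
  have hK : IsCompact (X ×ˢ (Set.univ.pi fun _ : Fin r => Metric.closedBall (0 : H) 1)) :=
    hX.prod (isCompact_univ_pi fun _ => isCompact_closedBall _ _)
  have hc : ContinuousOn (fun z : E × (Fin r → H) =>
      ((fun i => P z.1 (z.2 i) - z.2 i : Fin r → H), gram r z))
      (X ×ˢ (Set.univ.pi fun _ : Fin r => Metric.closedBall (0 : H) 1)) := by
    refine ContinuousOn.prodMk ?_ ?_
    · refine continuousOn_pi.2 fun i => ?_
      refine ContinuousOn.sub ?_ (by fun_prop)
      exact (hPc.comp continuousOn_fst fun z hz => hz.1).clm_apply (by fun_prop)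
    · exact fun z hz => (hasFDerivAt_gram r z).1.continuousAt.continuousWithinAt
  have heq : Fr X P r = (X ×ˢ (Set.univ.pi fun _ : Fin r => Metric.closedBall (0 : H) 1)) ∩
      (fun z : E × (Fin r → H) => ((fun i => P z.1 (z.2 i) - z.2 i : Fin r → H), gram r z)) ⁻¹' {0} := by
    ext z
    constructor
    · rintro ⟨h1, h2, h3⟩
      refine ⟨⟨h1, fun i _ => ?_⟩, ?_⟩
      · simp [h3.1 i]
      · refine Prod.ext ?_ (gram_eq_zero_iff.2 h3)
        funext i; simp [h2 i]
    · rintro ⟨⟨h1, -⟩, h2⟩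
      have h3 := Prod.ext_iff.1 h2
      exact ⟨h1, fun i => sub_eq_zero.1 (congrFun h3.1 i), gram_eq_zero_iff.1 h3.2⟩
  rw [heq]
  obtain ⟨u, hu, hu2⟩ := continuousOn_iff_isClosed.1 hc {0} isClosed_singleton
  rw [inter_comm, hu2, inter_comm]
  exact hK.inter_right hu

theorem clo_Fr (hX : Clo n X) (hP : PField X k P) (r : ℕ) :
    Clo (n + r * k - Fintype.card (Pr r)) (Fr X P r) :=
  (sub_Fr hX.sub hP r).clo (isCompact_Fr hX.compact hP r)

/-- tangent spaces of frame manifolds -/
theorem mem_Tan_Fr (hX : Sub n X) (hP : PField X k P) (r : ℕ) {x : E} {v : Fin r → H}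
    (hz : (x, v) ∈ Fr X P r) {a : E} {b : Fin r → H} :
    (a, b) ∈ Tan (Fr X P r) (x, v) ↔ a ∈ Tan X x ∧ (∀ i, b i - P x (b i) = fderiv ℝ P x a (v i)) ∧
      ∀ i j, ⟪v i, b j⟫ + ⟪b i, v j⟫ = 0 := by
  have hz' : (x, v) ∈ Tot X (powP r P) ∧ gram r (x, v) = 0 := by
    rw [Fr_eq] at hz; exact hz
  have h1 := ((hP.pow r).sub_tot hX).Tan_level (g := gram r) (fun z hz => (hasFDerivAt_gram r z).1)
    (fun z hz hg y => by
      obtain ⟨b, h1, h2⟩ := gram_surj hX hP r hz hg y
      exact ⟨_, h1, h2⟩) hz'.1 hz'.2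
  rw [Fr_eq, h1]
  rw [Submodule.mem_inf, (hP.pow r).mem_Tan_tot hX hz.1 (funext hz.2.1), and_assoc]
  refine and_congr_right fun _ => ?_
  refine and_congr ?_ ?_
  · constructor
    · intro h i
      have := congrFun h i
      rw [fderiv_powP hP r hz.1] at this
      exact this
    · intro h
      rw [fderiv_powP hP r hz.1]
      funext i
      exact h i
  · have h3 : (a, b) ∈ LinearMap.ker (fderiv ℝ (gram r : E × (Fin r → H) → Pr r → ℝ) (x, v) :
        E × (Fin r → H) →ₗ[ℝ] (Pr r → ℝ)) ↔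
        fderiv ℝ (gram r : E × (Fin r → H) → Pr r → ℝ) (x, v) (a, b) = 0 := Iff.rfl
    rw [h3, (hasFDerivAt_gram r (x, v)).2]
    constructor
    · intro h i j
      rcases le_total i j with hij | hij
      · exact congrFun h ⟨(i, j), hij⟩
      · have := congrFun h ⟨(j, i), hij⟩
        simp only [Pi.zero_apply] at this
        rw [real_inner_comm (b j) (v i), real_inner_comm (v j) (b i), add_comm]
        exact this
    · intro h; funext p; exact h _ _

theorem card_Pr_one : Fintype.card (Pr 1) = 1 := by decide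
theorem card_Pr_two : Fintype.card (Pr 2) = 3 := by decide

end Crest.Agent.R208.FI
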