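import Crest.Agent.R208.T0b
import Crest.Agent.R208.CW5b
import Crest.Agent.R208.FH12
import Crest.Agent.R208.FI2d

/-! Row 208, block T (helper316).  TDefs: compactly supported closed forms on total spaces, Thom
pairs, and the model maps from which Thom forms are built. -/

set_option autoImplicit false
set_option linter.unusedSectionVars false

open MeasureTheory Set Filter Topology Module Matrix
open scoped ContDiff
open Crest.Agent.R208.F Crest.Agent.R208.FI Crest.Agent.R208.CW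

noncomputable section

namespace Crest.Agent.R208.T

section pair
variable {E H : Type*} [NormedAddCommGroup E] [NormedSpace ℝ E] [FiniteDimensional ℝ E]
  [NormedAddCommGroup H] [NormedSpace ℝ H] [FiniteDimensional ℝ H]

/-- closed forms on the total space of the field of projections `P` over `X` with support in the
disk bundle of radius `R`. -/
structure CSF (X : Set E) (P : E → H →L[ℝ] H) (R : ℝ) (w : E × H → Ext (E × H)) : Prop where
  smooth : Sm (Tot X P) w
  supp : ∀ z : E × H, R < ‖z.2‖ → w z = 0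
  closed : Cl (Tot X P) w

/-- `(x,h) ↦ (x,(1-P)h)` -/
def gam (P : E → H →L[ℝ] H) (z : E × H) : E × H := (z.1, z.2 - P z.1 z.2)

/-- `(x,h) ↦ (x,Ph)` -/
def bet (P : E → H →L[ℝ] H) (z : E × H) : E × H := (z.1, P z.1 z.2)

/-- fibre integral over `H` of forms on `E × H` -/
def pI [MeasurableSpace H] (μ : Measure H) (w : E × H → Ext (E × H)) : E → Ext E :=
  prH μ (ContinuousLinearMap.inl ℝ E H) (ContinuousLinearMap.inr ℝ E H) w

/-- Thom forms `τ` of `P` and `τ'` of `1 - P`, normalised by `∫_H τ' τ = c₀ ≠ 0`; `e` is the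
restriction of `τ` to the zero section. -/
structure ThomPair [MeasurableSpace H] (μ : Measure H) (X : Set E) (P : E → H →L[ℝ] H) (r : ℕ)
    (R c₀ : ℝ) (e : E → Ext E) (τ τ' : E × H → Ext (E × H)) : Prop where
  csf : CSF X P R τ
  csf' : CSF X (fun x => 1 - P x) R τ'
  even : ∀ z, F.inv (τ z) = τ z
  deg : ∀ z, IsDeg r (τ z)
  deg' : ∀ z, IsDeg (finrank ℝ H - r) (τ' z)
  unit : Eqv X (pI μ (F.pull (gam P) τ' * F.pull (bet P) τ)) (fun _ => algebraMap ℝ (Ext E) c₀)
  ne : c₀ ≠ 0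
  zero : Eqv X (F.pull (fun x => ((x, 0) : E × H)) τ) e

end pair

/-! ### the model map -/
section model
variable {n : Type*} [Fintype n] [DecidableEq n]

/-- `0` for `s ≤ 1/2`, `π` for `s ≥ 1` -/
def ph (s : ℝ) : ℝ := Real.pi * Real.smoothTransition (2 * s - 1)

def ca (s : ℝ) : ℝ := (Real.cos (ph s) - 1) / s
def cb (s : ℝ) : ℝ := - Real.sin (ph s) / Real.sqrt s

/-- the isometric embedding `H → H ⊕ ℝ`, `w ↦ w + ((cos φ - 1) v̂ - sin φ e₀) ⟪v̂, w⟫`,
`φ = ph (‖v‖²)`: the image of `V ∋ v` is the orthogonal complement in `V ⊕ ℝ` of the point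
`(sin φ v̂, cos φ)` of the unit sphere. -/
def SS (v : EuclideanSpace ℝ n) : Matrix (n ⊕ Unit) n ℂ :=
  Matrix.of fun a j => match a with
    | Sum.inl i => (if i = j then 1 else 0) + ((ca (‖v‖ ^ 2) * v i * v j : ℝ) : ℂ)
    | Sum.inr _ => ((cb (‖v‖ ^ 2) * v j : ℝ) : ℂ)

/-- complexified matrix of an endomorphism of `EuclideanSpace ℝ n` -/
def mtx (A : EuclideanSpace ℝ n →L[ℝ] EuclideanSpace ℝ n) : Matrix n n ℂ :=
  Matrix.of fun i j => ((A (EuclideanSpace.single j 1) i : ℝ) : ℂ)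

variable {E : Type*} [NormedAddCommGroup E] [NormedSpace ℝ E] [FiniteDimensional ℝ E]
  {ι : Type*} [Fintype ι] [DecidableEq ι]

/-- oriented orthogonal projection field on `EuclideanSpace ℝ n`, rank `2 * card ι`; the
orientation tensor `W` is real -/
structure OR (X : Set E) (P : E → EuclideanSpace ℝ n →L[ℝ] EuclideanSpace ℝ n)
    (W : E → (ι × Fin 2 → n) → ℝ) : Prop where
  sP : ∀ x ∈ X, ContDiffAt ℝ ∞ P x
  sW : ∀ x ∈ X, ∀ I, ContDiffAt ℝ ∞ (fun y => W y I) x
  fr : ∀ x ∈ X, ∃ f : Matrix n (ι × Fin 2) ℝ, fᵀ * f = 1 ∧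
    (∀ v i, P x v i = ∑ j, (f * fᵀ) i j * v j) ∧ ∀ I, W x I = (f.submatrix I id).det

/-- complexified orientation tensor -/
def wC (W : E → (ι × Fin 2 → n) → ℝ) (x : E) (I : ι × Fin 2 → n) : ℂ := ((W x I : ℝ) : ℂ)

/-- the Euler form of the orthogonal complement of `u(v)` in `V ⊕ ℝ`, on `E × H` -/
def ue (P : E → EuclideanSpace ℝ n →L[ℝ] EuclideanSpace ℝ n) (W : E → (ι × Fin 2 → n) → ℝ) :
    E × EuclideanSpace ℝ n → CF (E × EuclideanSpace ℝ n) :=
  ef (fun z => SS z.2 * mtx (P z.1) * (SS z.2)ᵀ) (fun z => pushW (SS z.2) (wC W z.1))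

/-- Euler form of `P`, real -/
def eR (P : E → EuclideanSpace ℝ n →L[ℝ] EuclideanSpace ℝ n) (W : E → (ι × Fin 2 → n) → ℝ)
    (x : E) : Ext E := (ef (fun y => mtx (P y)) (wC W) x).re

/-- cut-off: `1` for `‖v‖ ≤ 2`, `0` for `‖v‖ ≥ 3` -/
def cut (v : EuclideanSpace ℝ n) : ℝ := Real.smoothTransition (9 - ‖v‖ ^ 2)

/-- the Thom form -/
def thomF (P : E → EuclideanSpace ℝ n →L[ℝ] EuclideanSpace ℝ n) (W : E → (ι × Fin 2 → n) → ℝ)
    (z : E × EuclideanSpace ℝ n) : Ext (E × EuclideanSpace ℝ n) :=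
  cut z.2 • ((ue P W z).re + F.pull (fun z : E × EuclideanSpace ℝ n => z.1) (eR P W) z)

end model

end Crest.Agent.R208.T
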