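import Crest.Agent.R208.GP3b
import Crest.Agent.R208.FV2
import Crest.Agent.R208.TDefs

/-! Row 208, block GP (helper198), part GP3c: smooth fields of lines over `F = {d = π}` have smooth
unit sections (`k ≥ 2`, `n ≥ 3`); orientation of the link bundle `V` in the format `T.OR`. -/

set_option autoImplicit false
set_option linter.unusedSectionVars false

open MeasureTheory Measure Set Filter Topology Module Metric
open scoped ContDiff RealInnerProductSpace
open Crest.GeometryTopology.Submanifold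
open Crest.Agent.R241.DDefs
open Crest.Agent.R241.D2
open Crest.Agent.R208.F Crest.Agent.R208.FI
open Crest.Agent.R208.FV (FF Vl phi PV)

noncomputable section

namespace Crest.Agent.R208.GP

variable {n N k : ℕ} {κ : ℝ} {S : Set (Euc N)} {G : Geo n N κ S}
variable {W : Type*} [NormedAddCommGroup W] [InnerProductSpace ℝ W]

theorem phi_fibre (hB : Bl n N κ S G Real.pi) (hT : I.Typ G k) (hk : 2 ≤ k)
    {z : Euc N × Euc N} (hz : z ∈ FF G) : IsPreconnected (L.US G ∩ phi G ⁻¹' {z}) := by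
  have h1 := (sphere_preconn (V := Vl G z) (by rw [FV.finrank_Vl hT hz]; exact hk)).image
    (fun v => (z.1, v)) (by fun_prop)
  have h2 : (fun v => (z.1, v)) '' {v : Euc N | v ∈ Vl G z ∧ ‖v‖ = 1} =
      L.US G ∩ phi G ⁻¹' {z} := by
    ext ⟨p, v⟩
    constructor
    · rintro ⟨v', hv', h⟩
      obtain ⟨rfl, rfl⟩ := Prod.mk.inj h
      have h3 := (FV.mem_Vl hT hz).1 hv'
      refine ⟨⟨⟨hz.1, h3.1⟩, h3.2.1⟩, ?_⟩
      show (z.1, Exp G z.1 (Real.pi • v')) = z
      rw [h3.2.2]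
    · rintro ⟨⟨⟨hp, hv⟩, hv1⟩, h⟩
      have h' : (p, Exp G p (Real.pi • v)) = z := h
      subst h'
      exact ⟨v, (FV.mem_Vl hT hz).2 ⟨hv, hv1, rfl⟩, rfl⟩
  rwa [h2] at h1

/-- **lifting over `F`** -/
theorem lift_FF (hB : Bl n N κ S G Real.pi) (hT : I.Typ G k) (hk : 2 ≤ k) (hn : 3 ≤ n)
    {P : Euc N × Euc N → (W →L[ℝ] W)} (hP : ∀ z ∈ FF G, ContDiffAt ℝ ∞ P z)
    (hR : ∀ z ∈ FF G, R1 (P z)) :
    ∃ w : Euc N × Euc N → W, (∀ z ∈ FF G, ContDiffAt ℝ ∞ w z) ∧
      ∀ z ∈ FF G, ‖w z‖ = 1 ∧ P z (w z) = w z := by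
  have hUS : ∀ q ∈ L.US G, q ∈ TS G := fun q hq => hq.1
  have hphic : ContinuousOn (phi G) (L.US G) := fun q hq =>
    (FV.contDiffAt_phi (hUS q hq)).continuousAt.continuousWithinAt
  have hphim : ∀ q ∈ L.US G, phi G q ∈ FF G := fun q hq => FV.phi_mem hB hq
  have hPc : ContinuousOn P (FF G) := fun x hx => (hP x hx).continuousAt.continuousWithinAt
  obtain ⟨w, hw, hw1⟩ := lift_US hB hT hk hn (P := fun q => P (phi G q))
    (hPc.comp hphic hphim) (fun q hq => hR _ (hphim q hq))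
  obtain ⟨w', h1, h2, -⟩ := descend (LB.isCompact_US hB.cpt) hphic
    (FV.FF_eq_image hB hT).symm (fun z hz => phi_fibre hB hT hk hz) hR hw hw1
  obtain ⟨w'', h3, h4⟩ := smooth_lift (FV.isCompact_FF hB hT) hP hR h1 h2
  exact ⟨w'', h3, fun z hz => by rw [h4 z hz]; exact h2 z hz⟩

theorem R1_V (hB : Bl n N κ S G Real.pi) (hT : I.Typ G k) (hS : Sub n S) {z : Euc N × Euc N}
    (hz : z ∈ FF G) : R1 (TP k (PV hB hT hS z)) := by
  obtain ⟨e, he, -⟩ := exists_OF (Vl G z) (FV.finrank_Vl hT hz)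
  rw [FV.PV_eq hB hT hS hz]
  exact R1_TP he

/-- **orientation of `V`** by unit tensors. -/
theorem exists_orient_V (hB : Bl n N κ S G Real.pi) (hT : I.Typ G k) (hk : 2 ≤ k) (hn : 3 ≤ n)
    (hS : Sub n S) : ∃ w : Euc N × Euc N → Ten k N, (∀ z ∈ FF G, ContDiffAt ℝ ∞ w z) ∧
      ∀ z ∈ FF G, ∃ e, OF k (PV hB hT hS z) e ∧ (∀ a, e a ∈ Vl G z) ∧ w z = udt e := by
  obtain ⟨w, h1, h2⟩ := lift_FF hB hT hk hn (P := fun z => TP k (PV hB hT hS z))
    (fun z _ => (contDiff_TP k).contDiffAt.comp z (FV.contDiff_PV hB hT hS).contDiffAt)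
    (fun z hz => R1_V hB hT hS hz)
  refine ⟨w, h1, fun z hz => ?_⟩
  obtain ⟨e, he, -⟩ := exists_OF (Vl G z) (FV.finrank_Vl hT hz)
  rw [← FV.PV_eq hB hT hS hz] at he
  obtain ⟨e', he', hwe⟩ := exists_frame_of_unit (by omega) he (h2 z hz).1 (h2 z hz).2
  refine ⟨e', he', fun a => ?_, hwe⟩
  rw [← FV.PV_eq_self hB hT hS hz, he'.eq, Finset.sum_eq_single a]
  · rw [real_inner_self_eq_norm_sq, he'.on.1 a]; simp
  · intro c _ hc
    rw [he'.on.2 hc, zero_smul]
  · intro h; exact absurd (Finset.mem_univ _) h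

/-- conversion to the format of block T. -/
theorem or_of {E : Type*} [NormedAddCommGroup E] [NormedSpace ℝ E] {ι : Type*} [Fintype ι]
    [DecidableEq ι] {r : ℕ} (φ : ι × Fin 2 ≃ Fin r) {X : Set E}
    {P : E → (EuclideanSpace ℝ (Fin N) →L[ℝ] EuclideanSpace ℝ (Fin N))}
    (hP : ∀ x ∈ X, ContDiffAt ℝ ∞ P x) {w : E → Ten r N} (hw : ∀ x ∈ X, ContDiffAt ℝ ∞ w x)
    (h : ∀ x ∈ X, ∃ e, OF r (P x) e ∧ w x = udt e) :
    T.OR X P (fun x (I : ι × Fin 2 → Fin N) => Real.sqrt r.factorial * w x (I ∘ φ.symm)) where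
  sP := hP
  sW := fun x hx I => contDiffAt_const.mul
    ((EuclideanSpace.proj (𝕜 := ℝ) (I ∘ φ.symm)).contDiff.contDiffAt.comp x (hw x hx))
  fr := by
    intro x hx
    obtain ⟨e, he, hwe⟩ := h x hx
    refine ⟨Matrix.of fun i a => e (φ a) i, ?_, ?_, ?_⟩
    · ext a b
      rw [Matrix.mul_apply, Matrix.one_apply]
      have h1 := (orthonormal_iff_ite.1 he.on) (φ a) (φ b)
      rw [PiLp.inner_apply] at h1
      simp only [Matrix.transpose_apply, Matrix.of_apply]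
      have h2 : (∑ i, e (φ a) i * e (φ b) i) = ∑ i, (⟪e (φ a) i, e (φ b) i⟫ : ℝ) :=
        Finset.sum_congr rfl fun i _ => by simp [mul_comm]
      rw [h2, h1]
      simp
    · intro v i
      rw [he.eq]
      simp only [WithLp.ofLp_sum, Finset.sum_apply, PiLp.smul_apply, smul_eq_mul]
      simp only [Matrix.mul_apply, Matrix.transpose_apply, Matrix.of_apply]
      simp only [Finset.sum_mul]
      rw [Finset.sum_comm, ← φ.sum_comp]
      refine Finset.sum_congr rfl fun a _ => ?_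
      rw [PiLp.inner_apply, Finset.sum_mul]
      refine Finset.sum_congr rfl fun j _ => ?_
      simp
      ring
    · intro I
      simp only
      rw [hwe, udt, PiLp.smul_apply, smul_eq_mul, ← mul_assoc,
        mul_inv_cancel₀ (sqrt_fact_pos r).ne', one_mul, dtn_apply]
      rw [← Matrix.det_transpose, ← Matrix.det_submatrix_equiv_self φ.symm]
      congr 1
      ext a b
      simp

/-- **`V → F` is oriented**, format of block T. -/
theorem exists_OR_V (hB : Bl n N κ S G Real.pi) (hT : I.Typ G k) (hk : 2 ≤ k) (hn : 3 ≤ n)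
    (hS : Sub n S) {ι : Type*} [Fintype ι] [DecidableEq ι] (hι : 2 * Fintype.card ι = k) :
    ∃ Wt : Euc N × Euc N → (ι × Fin 2 → Fin N) → ℝ, T.OR (FF G) (PV hB hT hS) Wt := by
  obtain ⟨w, h1, h2⟩ := exists_orient_V hB hT hk hn hS
  have hc : Fintype.card (ι × Fin 2) = k := by rw [Fintype.card_prod, Fintype.card_fin]; omega
  let φ : ι × Fin 2 ≃ Fin k := Fintype.equivFinOfCardEq hc
  exact ⟨_, or_of φ (fun z _ => (FV.contDiff_PV hB hT hS).contDiffAt) h1 fun z hz => by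
    obtain ⟨e, he, -, hwe⟩ := h2 z hz
    exact ⟨e, he, hwe⟩⟩

/-- **`S` is oriented**, format of block T (`n` even). -/
theorem exists_OR_S (hB : Bl n N κ S G Real.pi) (hT : I.Typ G k) (hk : 2 ≤ k)
    {ι : Type*} [Fintype ι] [DecidableEq ι] (hι : 2 * Fintype.card ι = n) :
    ∃ Wt : Euc N → (ι × Fin 2 → Fin N) → ℝ, T.OR S G.P Wt := by
  obtain ⟨w, h1, h2⟩ := exists_orient hB hT hk
  have hc : Fintype.card (ι × Fin 2) = n := by rw [Fintype.card_prod, Fintype.card_fin]; omega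
  let φ : ι × Fin 2 ≃ Fin n := Fintype.equivFinOfCardEq hc
  exact ⟨_, or_of φ (fun z _ => G.contDiff_P.contDiffAt) h1 fun z hz => by
    obtain ⟨e, he, -, hwe⟩ := h2 z hz
    exact ⟨e, he, hwe⟩⟩

end Crest.Agent.R208.GP
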