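import Crest.Agent.R208.SP7

/-!
# R208, block SPEC, part 8: the package: `T_J` and `F_J` for a pencil `S₁`, `S₂` of real matrices
-/

set_option autoImplicit false

namespace Crest.Agent.R208.SP

open Filter Topology Matrix

section Real

variable {m n : Type*} [Fintype m] [Fintype n] [DecidableEq n]

/-- complexification of rectangular real matrices -/
noncomputable def cr {m n : Type*} (M : Matrix m n ℝ) : Matrix m n ℂ := M.map Complex.ofReal

theorem cr_eq_cx (M : Matrix n n ℝ) : cr M = cx M := rfl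

omit [Fintype m] [Fintype n] [DecidableEq n] in
@[simp] theorem cr_apply (M : Matrix m n ℝ) (i : m) (j : n) : cr M i j = (M i j : ℂ) := rfl

omit [Fintype m] [DecidableEq n] in
theorem cr_mul {l : Type*} (M : Matrix m n ℝ) (N : Matrix n l ℝ) : cr (M * N) = cr M * cr N := by
  ext i j
  simp [Matrix.mul_apply]

omit [Fintype m] [Fintype n] [DecidableEq n] in
theorem cr_add (M N : Matrix m n ℝ) : cr (M + N) = cr M + cr N := by
  ext i j; simp

omit [Fintype m] [Fintype n] [DecidableEq n] in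
theorem cr_neg (M : Matrix m n ℝ) : cr (-M) = -cr M := by
  ext i j; simp

omit [Fintype m] [Fintype n] [DecidableEq n] in
theorem cr_smul (c : ℝ) (M : Matrix m n ℝ) : cr (c • M) = (c : ℂ) • cr M := by
  ext i j; simp

omit [DecidableEq n] in
theorem PIso.cr {P : Matrix n n ℝ} {P' : Matrix m m ℝ} {S : Matrix m n ℝ} {W : Matrix n m ℝ}
    (h : PIso P P' S W) : PIso (cr P) (cr P') (cr S) (cr W) := by
  refine ⟨?_, ?_, ?_, ?_, ?_, ?_⟩
  · rw [← cr_mul, h.sp]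
  · rw [← cr_mul, h.ps]
  · rw [← cr_mul, h.wp]
  · rw [← cr_mul, h.pw]
  · rw [← cr_mul, h.ws]
  · rw [← cr_mul, h.sw]

/-- A pencil of isomorphisms `S_θ = cos θ S₁ + sin θ S₂ : range P → range P'`. -/
structure Pencil (P : Matrix n n ℝ) (P' : Matrix m m ℝ) (S₁ S₂ : Matrix m n ℝ) : Prop where
  pp : P * P = P
  pp' : P' * P' = P'
  sp1 : S₁ * P = S₁
  sp2 : S₂ * P = S₂
  ps1 : P' * S₁ = S₁
  ps2 : P' * S₂ = S₂
  inj : ∀ a b : ℝ, a ^ 2 + b ^ 2 = 1 → ∀ v : n → ℝ, P.mulVec v = v →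
    (a • S₁ + b • S₂).mulVec v = 0 → v = 0
  rank : P.rank = P'.rank

variable {P : Matrix n n ℝ} {P' : Matrix m m ℝ} {S₁ S₂ : Matrix m n ℝ}

omit [DecidableEq n] in
/-- onto from injective and equal ranks -/
theorem surj_of_rank {S : Matrix m n ℝ} (hP : P * P = P) (hPS : P' * S = S)
    (hr : P.rank = P'.rank) (hinj : ∀ v : n → ℝ, P.mulVec v = v → S.mulVec v = 0 → v = 0)
    (w : m → ℝ) (hw : P'.mulVec w = w) : ∃ v, S.mulVec v = w := by
  -- `range P →ₗ range P'`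
  have h1 : LinearMap.range S.mulVecLin ≤ LinearMap.range P'.mulVecLin := by
    rintro _ ⟨v, rfl⟩
    refine ⟨S.mulVec v, ?_⟩
    simp only [Matrix.mulVecLin_apply, Matrix.mulVec_mulVec, hPS]
  have h2 : LinearMap.range S.mulVecLin = LinearMap.range P'.mulVecLin := by
    refine Submodule.eq_of_le_of_finrank_le h1 ?_
    have h3 : Module.finrank ℝ (LinearMap.range P'.mulVecLin) = P'.rank := rfl
    rw [h3, ← hr]
    -- `S` restricted to `range P` is injective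
    let f : LinearMap.range P.mulVecLin →ₗ[ℝ] LinearMap.range S.mulVecLin :=
      LinearMap.codRestrict _ (S.mulVecLin.comp (Submodule.subtype _))
        (fun v => ⟨v, rfl⟩)
    have hf : Function.Injective f := by
      rw [injective_iff_map_eq_zero]
      rintro ⟨v, u, hu⟩ hv
      have h4 : S.mulVec v = 0 := congrArg Subtype.val hv
      have h5 : P.mulVec v = v := by
        rw [← hu]; simp only [Matrix.mulVecLin_apply, Matrix.mulVec_mulVec, hP]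
      exact Subtype.ext (hinj v h5 h4)
    exact LinearMap.finrank_le_finrank_of_injective hf
  have h3 : w ∈ LinearMap.range P'.mulVecLin := ⟨w, hw⟩
  rw [← h2] at h3
  obtain ⟨v, hv⟩ := h3
  exact ⟨v, hv⟩

theorem Pencil.pIso (h : Pencil P P' S₁ S₂) {a b : ℝ} (hab : a ^ 2 + b ^ 2 = 1) :
    PIso P P' (a • S₁ + b • S₂) (pinv P P' (a • S₁ + b • S₂)) := by
  have e1 : (a • S₁ + b • S₂) * P = a • S₁ + b • S₂ := by
    rw [Matrix.add_mul, Matrix.smul_mul, Matrix.smul_mul, h.sp1, h.sp2]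
  have e2 : P' * (a • S₁ + b • S₂) = a • S₁ + b • S₂ := by
    rw [Matrix.mul_add, Matrix.mul_smul, Matrix.mul_smul, h.ps1, h.ps2]
  exact exists_pIso h.pp h.pp' e1 e2 (h.inj a b hab)
    (surj_of_rank h.pp e2 h.rank (h.inj a b hab))

theorem Pencil.pIso1 (h : Pencil P P' S₁ S₂) : PIso P P' S₁ (pinv P P' S₁) := by
  have := h.pIso (a := 1) (b := 0) (by norm_num)
  simpa using this

/-- `J = S₁⁻¹ S₂` -/
noncomputable def jj (P : Matrix n n ℝ) (P' : Matrix m m ℝ) (S₁ S₂ : Matrix m n ℝ) :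
    Matrix n n ℝ := pinv P P' S₁ * S₂

theorem Pencil.noRealR (h : Pencil P P' S₁ S₂) : NoRealR P (jj P P' S₁ S₂) := by
  have hi := h.pIso1
  refine ⟨h.pp, ?_, ?_, ?_⟩
  · rw [jj, ← Matrix.mul_assoc, hi.pw]
  · rw [jj, Matrix.mul_assoc, h.sp2]
  · intro t v hv hJ
    have h1 : S₂.mulVec v = t • S₁.mulVec v := by
      have h2 : S₁.mulVec ((jj P P' S₁ S₂).mulVec v) = S₂.mulVec v := by
        rw [jj, Matrix.mulVec_mulVec, ← Matrix.mul_assoc, hi.sw, h.ps2]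
      rw [← h2, hJ, Matrix.mulVec_smul]
    have hpos : 0 < 1 + t ^ 2 := by positivity
    set r := Real.sqrt (1 + t ^ 2) with hr
    have hr2 : r ^ 2 = 1 + t ^ 2 := Real.sq_sqrt hpos.le
    have hr0 : r ≠ 0 := (Real.sqrt_pos.mpr hpos).ne'
    refine h.inj (-t / r) (1 / r) ?_ v hv ?_
    · rw [div_pow, div_pow, hr2]; field_simp; ring
    · rw [Matrix.add_mulVec, Matrix.smul_mulVec, Matrix.smul_mulVec, h1, smul_smul, ← add_smul]
      have : -t / r + 1 / r * t = 0 := by field_simp; ring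
      rw [this, zero_smul]

/-- the real complex structure of the pencil -/
noncomputable def ij (P : Matrix n n ℝ) (P' : Matrix m m ℝ) (S₁ S₂ : Matrix m n ℝ) :
    Matrix n n ℝ := polR P (jj P P' S₁ S₂)

/-- the complex idempotent `T_J` -/
noncomputable def tj (P : Matrix n n ℝ) (P' : Matrix m m ℝ) (S₁ S₂ : Matrix m n ℝ) :
    Matrix n n ℂ := qp (cx P) (cx (ij P P' S₁ S₂))

/-- the complex idempotent `F_J = S₁ T_J S₁⁻¹` -/
noncomputable def fj (P : Matrix n n ℝ) (P' : Matrix m m ℝ) (S₁ S₂ : Matrix m n ℝ) :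
    Matrix m m ℂ := cr S₁ * tj P P' S₁ S₂ * cr (pinv P P' S₁)

theorem cj_qp (P I : Matrix n n ℝ) : cj (qp (cx P) (cx I)) = qm (cx P) (cx I) := by
  have h2 : (starRingEnd ℂ) 2 = 2 := map_ofNat _ 2
  ext i j
  simp [qp, qm, h2]

theorem Pencil.polR (h : Pencil P P' S₁ S₂) : PolR P (jj P P' S₁ S₂) (ij P P' S₁ S₂) :=
  polR_spec h.noRealR

theorem Pencil.pol (h : Pencil P P' S₁ S₂) :
    Pol (cr P) (cr (pinv P P' S₁) * cr S₂) (cr (ij P P' S₁ S₂)) := by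
  have := h.polR
  rw [← cr_mul]
  exact this

theorem Pencil.tj_idem (h : Pencil P P' S₁ S₂) :
    tj P P' S₁ S₂ * tj P P' S₁ S₂ = tj P P' S₁ S₂ := Pol.qp_qp h.polR

theorem Pencil.tj_rank (h : Pencil P P' S₁ S₂) : 2 * (tj P P' S₁ S₂).rank = P.rank :=
  PolR.rank h.polR

/-- `P_C = T_J + conj T_J` -/
theorem Pencil.tj_add_cj (_h : Pencil P P' S₁ S₂) :
    tj P P' S₁ S₂ + cj (tj P P' S₁ S₂) = cx P := by
  have h1 : cj (tj P P' S₁ S₂) = qm (cx P) (cx (ij P P' S₁ S₂)) := cj_qp _ _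
  rw [h1]; exact qp_add_qm _ _

theorem Pencil.tj_mul_cj (h : Pencil P P' S₁ S₂) :
    tj P P' S₁ S₂ * cj (tj P P' S₁ S₂) = 0 := by
  have h1 : cj (tj P P' S₁ S₂) = qm (cx P) (cx (ij P P' S₁ S₂)) := cj_qp _ _
  rw [h1]; exact Pol.qp_qm h.polR

theorem Pencil.cj_mul_tj (h : Pencil P P' S₁ S₂) :
    cj (tj P P' S₁ S₂) * tj P P' S₁ S₂ = 0 := by
  have h1 : cj (tj P P' S₁ S₂) = qm (cx P) (cx (ij P P' S₁ S₂)) := cj_qp _ _
  rw [h1]; exact Pol.qm_qp h.polR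

/-- the intertwiner `T_J ≅ F_J` (over the frames) -/
theorem Pencil.hat (h : Pencil P P' S₁ S₂) :
    PIso (tj P P' S₁ S₂) (fj P P' S₁ S₂)
      (sHat (cr P) (cr (ij P P' S₁ S₂)) (cr S₁) (cr S₂))
      (wHat (cr P) (cr (pinv P P' S₁) * cr S₂) (cr (ij P P' S₁ S₂)) (cr (pinv P P' S₁))) := by
  refine PIso.hat h.pIso1.cr ?_ h.pol
  rw [← cr_mul, h.ps2]

theorem Pencil.fj_idem (h : Pencil P P' S₁ S₂) :
    fj P P' S₁ S₂ * fj P P' S₁ S₂ = fj P P' S₁ S₂ := h.hat.idem'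

/-- `F_J` as a restriction: `S₁ : T_J ≅ F_J` (this is not rotation covariant) -/
theorem Pencil.restrict (h : Pencil P P' S₁ S₂) :
    PIso (tj P P' S₁ S₂) (fj P P' S₁ S₂) (cr S₁ * tj P P' S₁ S₂)
      (tj P P' S₁ S₂ * cr (pinv P P' S₁)) :=
  PIso.restrict h.pIso1.cr h.tj_idem (Pol.P_qp h.polR)

omit [DecidableEq n] in
/-- the rotated pencil -/
theorem Pencil.rot (h : Pencil P P' S₁ S₂) {c s : ℝ} (hcs : c ^ 2 + s ^ 2 = 1) :
    Pencil P P' (c • S₁ + s • S₂) (-(s • S₁) + c • S₂) := by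
  refine ⟨h.pp, h.pp', ?_, ?_, ?_, ?_, ?_, h.rank⟩
  · rw [Matrix.add_mul, Matrix.smul_mul, Matrix.smul_mul, h.sp1, h.sp2]
  · rw [Matrix.add_mul, Matrix.neg_mul, Matrix.smul_mul, Matrix.smul_mul, h.sp1, h.sp2]
  · rw [Matrix.mul_add, Matrix.mul_smul, Matrix.mul_smul, h.ps1, h.ps2]
  · rw [Matrix.mul_add, Matrix.mul_neg, Matrix.mul_smul, Matrix.mul_smul, h.ps1, h.ps2]
  · intro a b hab v hv h0
    refine h.inj (a * c - b * s) (a * s + b * c) ?_ v hv ?_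
    · calc (a * c - b * s) ^ 2 + (a * s + b * c) ^ 2 = (a ^ 2 + b ^ 2) * (c ^ 2 + s ^ 2) := by ring
        _ = 1 := by rw [hab, hcs, one_mul]
    · rw [← h0]
      congr 1
      ext i j
      simp only [Matrix.add_apply, Matrix.smul_apply, Matrix.neg_apply, smul_eq_mul]
      ring

theorem Pencil.ij_rot (h : Pencil P P' S₁ S₂) {c s : ℝ} (hcs : c ^ 2 + s ^ 2 = 1) :
    ij P P' (c • S₁ + s • S₂) (-(s • S₁) + c • S₂) = ij P P' S₁ S₂ := by
  have hr := h.rot hcs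
  refine PolR.unique hr.polR ?_
  have hi := h.pIso1
  have hi' := hr.pIso1
  refine h.polR.rotate hcs ?_ ?_ ?_
  · rw [jj, ← Matrix.mul_assoc, hi'.pw]
  · rw [jj, Matrix.mul_assoc, hr.sp2]
  · have e1 : c • P + s • jj P P' S₁ S₂ = pinv P P' S₁ * (c • S₁ + s • S₂) := by
      rw [Matrix.mul_add, Matrix.mul_smul, Matrix.mul_smul, hi.ws, jj]
    rw [e1, jj, Matrix.mul_assoc, ← Matrix.mul_assoc (c • S₁ + s • S₂), hi'.sw, hr.ps2,
      Matrix.mul_add, Matrix.mul_neg, Matrix.mul_smul, Matrix.mul_smul, hi.ws, jj]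

theorem Pencil.tj_rot (h : Pencil P P' S₁ S₂) {c s : ℝ} (hcs : c ^ 2 + s ^ 2 = 1) :
    tj P P' (c • S₁ + s • S₂) (-(s • S₁) + c • S₂) = tj P P' S₁ S₂ := by
  rw [tj, tj, h.ij_rot hcs]

theorem Pencil.fj_rot (h : Pencil P P' S₁ S₂) {c s : ℝ} (hcs : c ^ 2 + s ^ 2 = 1) :
    fj P P' (c • S₁ + s • S₂) (-(s • S₁) + c • S₂) = fj P P' S₁ S₂ := by
  rw [fj, fj, h.tj_rot hcs]
  have h1 := (h.pIso (a := c) (b := s) hcs).cr
  rw [cr_add, cr_smul, cr_smul] at h1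
  have h2 := (h.pIso1.cr).rotate (S₂ := cr S₂) (by rw [← cr_mul, h.ps2]) (by rw [← cr_mul, h.sp2])
    h.pol hcs h1
  rw [cr_add, cr_smul, cr_smul]
  exact h2.2.1

/-- the intertwiner rotates by the phase -/
theorem Pencil.sHat_rot (h : Pencil P P' S₁ S₂) {c s : ℝ} (hcs : c ^ 2 + s ^ 2 = 1) :
    sHat (cr P) (cr (ij P P' (c • S₁ + s • S₂) (-(s • S₁) + c • S₂))) (cr (c • S₁ + s • S₂))
      (cr (-(s • S₁) + c • S₂)) =
    ((c : ℂ) + s * Complex.I) • sHat (cr P) (cr (ij P P' S₁ S₂)) (cr S₁) (cr S₂) := by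
  rw [h.ij_rot hcs]
  have h1 := (h.pIso (a := c) (b := s) hcs).cr
  rw [cr_add, cr_smul, cr_smul] at h1
  have h2 := (h.pIso1.cr).rotate (S₂ := cr S₂) (by rw [← cr_mul, h.ps2]) (by rw [← cr_mul, h.sp2])
    h.pol hcs h1
  rw [cr_add, cr_smul, cr_smul, cr_add, cr_neg, cr_smul, cr_smul]
  exact h2.2.2.2

omit [DecidableEq n] in
/-- the reflected pencil `(S₁, -S₂)` -/
theorem Pencil.refl (h : Pencil P P' S₁ S₂) : Pencil P P' S₁ (-S₂) := by
  refine ⟨h.pp, h.pp', h.sp1, ?_, h.ps1, ?_, ?_, h.rank⟩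
  · rw [Matrix.neg_mul, h.sp2]
  · rw [Matrix.mul_neg, h.ps2]
  · intro a b hab v hv h0
    refine h.inj a (-b) (by rw [neg_sq]; exact hab) v hv ?_
    rw [← h0]
    congr 1
    rw [neg_smul, smul_neg]

theorem Pencil.ij_refl (h : Pencil P P' S₁ S₂) : ij P P' S₁ (-S₂) = -ij P P' S₁ S₂ := by
  refine PolR.unique h.refl.polR ?_
  have h1 : jj P P' S₁ (-S₂) = -jj P P' S₁ S₂ := by rw [jj, jj, Matrix.mul_neg]
  rw [h1]
  have h2 := Pol.neg h.polR
  unfold PolR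
  rw [map_neg, map_neg]
  exact h2

theorem Pencil.tj_refl (h : Pencil P P' S₁ S₂) : tj P P' S₁ (-S₂) = cj (tj P P' S₁ S₂) := by
  rw [tj, h.ij_refl, tj, cj_qp, qm_eq_neg, map_neg]

/-! ### smoothness -/

section Smooth

variable {X : Type*} [NormedAddCommGroup X] [NormedSpace ℝ X] {k : WithTop ℕ∞} {x : X}
variable {P : X → Matrix n n ℝ} {P' : X → Matrix m m ℝ} {S₁ S₂ : X → Matrix m n ℝ}

omit [Fintype m] [Fintype n] [DecidableEq n] in
theorem MSm.cr {M : X → Matrix m n ℝ} (h : MSm k M x) : MSm k (fun y => SP.cr (M y)) x :=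
  fun i j => Complex.ofRealCLM.contDiff.contDiffAt.comp x (h i j)

theorem Pencil.smooth_jj (h : Pencil (P x) (P' x) (S₁ x) (S₂ x)) (hP : MSm k P x)
    (hP' : MSm k P' x) (h1 : MSm k S₁ x) (h2 : MSm k S₂ x) :
    MSm k (fun y => jj (P y) (P' y) (S₁ y) (S₂ y)) x :=
  (MSm.pinv hP hP' h1 h.pIso1).mul h2

theorem Pencil.smooth_ij (h : Pencil (P x) (P' x) (S₁ x) (S₂ x)) (hP : MSm k P x)
    (hP' : MSm k P' x) (h1 : MSm k S₁ x) (h2 : MSm k S₂ x) :
    MSm k (fun y => ij (P y) (P' y) (S₁ y) (S₂ y)) x :=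
  hP.polR (h.smooth_jj hP hP' h1 h2) h.noRealR

theorem Pencil.smooth_tj (h : Pencil (P x) (P' x) (S₁ x) (S₂ x)) (hP : MSm k P x)
    (hP' : MSm k P' x) (h1 : MSm k S₁ x) (h2 : MSm k S₂ x) :
    MSm k (fun y => tj (P y) (P' y) (S₁ y) (S₂ y)) x :=
  hP.cx.qp (h.smooth_ij hP hP' h1 h2).cx

theorem Pencil.smooth_fj (h : Pencil (P x) (P' x) (S₁ x) (S₂ x)) (hP : MSm k P x)
    (hP' : MSm k P' x) (h1 : MSm k S₁ x) (h2 : MSm k S₂ x) :
    MSm k (fun y => fj (P y) (P' y) (S₁ y) (S₂ y)) x :=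
  (h1.cr.mul (h.smooth_tj hP hP' h1 h2)).mul (MSm.pinv hP hP' h1 h.pIso1).cr

end Smooth

end Real

end Crest.Agent.R208.SP
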