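import Crest.Agent.R208.CW2
import Crest.Agent.R208.SP8

/-! Row 208, block CW (helper586).  CW4: conjugate bundles, real bundles, Chern series, bundles with
a nowhere vanishing section. -/

set_option autoImplicit false
set_option linter.unusedSectionVars false
set_option linter.unusedSimpArgs false
set_option linter.unusedVariables false

open scoped BigOperators ContDiff Topology
open Module Set

noncomputable section

namespace Crest.Agent.R208.CW

open Crest.Agent.R208.F Crest.Agent.R208.FI Crest.Agent.R208.SP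

universe u

section rank
variable {n m : Type*} [Fintype n] [Fintype m] [DecidableEq n] [DecidableEq m]

theorem surj_of_rank' {P : Matrix n n ℂ} {P' : Matrix m m ℂ} {S : Matrix m n ℂ} (hP : P * P = P)
    (hPS : P' * S = S) (hr : P.rank = P'.rank)
    (hinj : ∀ v : n → ℂ, P.mulVec v = v → S.mulVec v = 0 → v = 0) (w : m → ℂ)
    (hw : P'.mulVec w = w) : ∃ v, S.mulVec v = w := by
  let V := LinearMap.range P.mulVecLin
  let V' := LinearMap.range P'.mulVecLin
  have hmem : ∀ v : V, S.mulVecLin v ∈ V' := fun v => ⟨S.mulVec v, by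
    simp only [Matrix.mulVecLin_apply, Matrix.mulVec_mulVec, hPS]⟩
  let f : V →ₗ[ℂ] V' := (S.mulVecLin ∘ₗ V.subtype).codRestrict V' hmem
  have hfi : Function.Injective f := by
    rw [injective_iff_map_eq_zero]
    rintro ⟨v, u, rfl⟩ hv
    have h1 : S.mulVec (P.mulVecLin u) = 0 := congrArg Subtype.val hv
    refine Subtype.ext (hinj _ ?_ h1)
    simp only [Matrix.mulVecLin_apply, Matrix.mulVec_mulVec, hP]
  have hfr : finrank ℂ V = finrank ℂ V' := hr
  have hfs := (LinearMap.injective_iff_surjective_of_finrank_eq_finrank hfr).1 hfi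
  obtain ⟨v, hv⟩ := hfs ⟨w, w, hw⟩
  exact ⟨v, congrArg Subtype.val hv⟩

/-- an intertwiner injective on the range, equal ranks: a partial isomorphism -/
theorem pIso_of_rank {P : Matrix n n ℂ} {P' : Matrix m m ℂ} {S : Matrix m n ℂ} (hP : P * P = P)
    (hP' : P' * P' = P') (hSP : S * P = S) (hPS : P' * S = S) (hr : P.rank = P'.rank)
    (hinj : ∀ v : n → ℂ, P.mulVec v = v → S.mulVec v = 0 → v = 0) :
    PIso P P' S (pinv P P' S) :=
  exists_pIso hP hP' hSP hPS hinj (surj_of_rank' hP hPS hr hinj)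

open scoped ComplexOrder in
theorem conj_pIso {Q : Matrix n n ℂ} (hQ : Q * Q = Q) :
    ∃ W, PIso (Q.map (starRingEnd ℂ)) Q.transpose (Q.transpose * Q.map (starRingEnd ℂ)) W := by
  set Qb := Q.map (starRingEnd ℂ) with hQb
  have e : Qb = (Q.transpose).conjTranspose := by
    refine Matrix.ext fun i j => ?_
    simp [hQb, Matrix.conjTranspose_apply]
  have h1 : Qb * Qb = Qb := by rw [hQb, ← Matrix.map_mul, hQ]
  have h2 : Q.transpose * Q.transpose = Q.transpose := by rw [← Matrix.transpose_mul, hQ]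
  refine ⟨_, pIso_of_rank h1 h2 (by rw [mul_assoc, h1]) (by rw [← mul_assoc, h2]) ?_ ?_⟩
  · rw [e, Matrix.rank_conjTranspose]
  · intro v hv hS
    have h3 : (Q.transpose).mulVec v = 0 := by
      rw [← Matrix.mulVec_mulVec, hv] at hS; exact hS
    have e' : Qb.conjTranspose = Q.transpose := by rw [e, Matrix.conjTranspose_conjTranspose]
    have h4 : star v ⬝ᵥ v = 0 := by
      calc star v ⬝ᵥ v = star v ⬝ᵥ Qb.mulVec v := by rw [hv]
        _ = Matrix.vecMul (star v) Qb ⬝ᵥ v := Matrix.dotProduct_mulVec _ _ _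
        _ = star (Qb.conjTranspose.mulVec v) ⬝ᵥ v := by
          rw [Matrix.star_mulVec, Matrix.conjTranspose_conjTranspose]
        _ = 0 := by rw [e', h3, star_zero, zero_dotProduct]
    exact dotProduct_star_self_eq_zero.1 h4

end rank

section cls
variable {E : Type u} [NormedAddCommGroup E] [NormedSpace ℝ E] [FiniteDimensional ℝ E]
  {n m : Type*} [Fintype n] [Fintype m] [DecidableEq n] [DecidableEq m]
  {x : E} {X : Set E} {dX : ℕ}

/-- **conjugate bundle**: `s_j(conj Q) = (-1)^j s_j(Q)` -/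
theorem sc_conj' (hX : Sub dX X) {Q : E → Matrix n n ℂ} (hQ : IdF X Q) (j : ℕ) :
    sc hX hQ.conj j = (-1) ^ j * sc hX hQ j := by
  rw [← sc_transpose hX hQ j]
  exact sc_iso hX hQ.conj hQ.transpose (S := fun x => (Q x).transpose * (Q x).map (starRingEnd ℂ))
    (fun x hx => (hQ.smooth x hx).transpose.mul (hQ.smooth x hx).conj)
    (fun x hx => conj_pIso (hQ.idem x hx)) j

/-- reality of the classes: `conj s_j = (-1)^j s_j` -/
theorem conj_sc (hX : Sub dX X) {Q : E → Matrix n n ℂ} (hQ : IdF X Q) (j : ℕ) :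
    H.conj X (sc hX hQ j) = (-1) ^ j * sc hX hQ j := by rw [← sc_conj, sc_conj']

/-- odd classes of a real bundle vanish -/
theorem sc_real_odd (hX : Sub dX X) {Q : E → Matrix n n ℂ} (hQ : IdF X Q)
    (hr : ∀ x ∈ X, (Q x).map (starRingEnd ℂ) = Q x) {j : ℕ} (hj : Odd j) : sc hX hQ j = 0 := by
  have h1 := sc_conj' hX hQ j
  rw [sc_congr hX hQ.conj hQ hr j, hj.neg_one_pow, neg_one_mul] at h1
  have h2 : (2 : ℂ) • sc hX hQ j = 0 := by
    rw [two_smul]; nth_rewrite 1 [h1]; exact neg_add_cancel _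
  have h3 := congrArg (fun a => (2 : ℂ)⁻¹ • a) h2
  simpa only [smul_smul, smul_zero, inv_mul_cancel₀ (two_ne_zero' ℂ), one_smul] using h3

/-- `R = Q ⊕ conj Q`: `s_j(R) = (1 + (-1)^j) s_j(Q)` -/
theorem sc_add_conj (hX : Sub dX X) {R Q : E → Matrix n n ℂ} (hR : IdF X R) (hQ : IdF X Q)
    (hs : ∀ x ∈ X, R x = Q x + (Q x).map (starRingEnd ℂ))
    (h12 : ∀ x ∈ X, Q x * (Q x).map (starRingEnd ℂ) = 0)
    (h21 : ∀ x ∈ X, (Q x).map (starRingEnd ℂ) * Q x = 0) (j : ℕ) :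
    sc hX hR j = (1 + (-1) ^ j) * sc hX hQ j := by
  rw [sc_orth hX hR hQ hQ.conj hs h12 h21 j, sc_conj' hX hQ j]; ring

/-! ### Chern series -/

/-- the Chern series `∑ c_j(Q) t^j` -/
def cs (hX : Sub dX X) {Q : E → Matrix n n ℂ} (hQ : IdF X Q) : PowerSeries (H X) :=
  cser (sc hX hQ)

theorem coeff_cs (hX : Sub dX X) {Q : E → Matrix n n ℂ} (hQ : IdF X Q) (j : ℕ) :
    PowerSeries.coeff j (cs hX hQ) = cc hX hQ j := by rw [cs, coeff_cser, cc_eq_el]

theorem cs_of_sc {A : Type*} {hX : Sub dX X} {Q : E → Matrix n n ℂ} {Q' : E → Matrix m m ℂ}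
    {hQ : IdF X Q} {hQ' : IdF X Q'} (h : ∀ j, 1 ≤ j → sc hX hQ j = sc hX hQ' j) :
    cs hX hQ = cs hX hQ' := cser_congr h

theorem cs_bsum (hX : Sub dX X) {Q : E → Matrix n n ℂ} {Q' : E → Matrix m m ℂ} (hQ : IdF X Q)
    (hQ' : IdF X Q') : cs hX (hQ.bsum hQ') = cs hX hQ * cs hX hQ' := by
  rw [cs, cs, cs, ← cser_add]
  exact cser_congr fun j _ => sc_bsum hX hQ hQ' j

theorem cs_orth (hX : Sub dX X) {Q P₁ P₂ : E → Matrix n n ℂ} (hQ : IdF X Q) (h₁ : IdF X P₁)
    (h₂ : IdF X P₂) (hs : ∀ x ∈ X, Q x = P₁ x + P₂ x) (h12 : ∀ x ∈ X, P₁ x * P₂ x = 0)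
    (h21 : ∀ x ∈ X, P₂ x * P₁ x = 0) : cs hX hQ = cs hX h₁ * cs hX h₂ := by
  rw [cs, cs, cs, ← cser_add]
  exact cser_congr fun j _ => sc_orth hX hQ h₁ h₂ hs h12 h21 j

theorem cs_iso (hX : Sub dX X) {Q : E → Matrix n n ℂ} {Q' : E → Matrix m m ℂ} (hQ : IdF X Q)
    (hQ' : IdF X Q') {S : E → Matrix m n ℂ} (hS : ∀ x ∈ X, SM ∞ S x)
    (h : ∀ x ∈ X, ∃ W, PIso (Q x) (Q' x) (S x) W) : cs hX hQ = cs hX hQ' :=
  cser_congr fun j _ => sc_iso hX hQ hQ' hS h j

theorem cs_const (hX : Sub dX X) {M : Matrix n n ℂ} (h : IdF X (fun _ => M)) : cs hX h = 1 :=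
  cser_zero' fun j hj => sc_const hX h hj

theorem cc_conj (hX : Sub dX X) {Q : E → Matrix n n ℂ} (hQ : IdF X Q) (j : ℕ) :
    cc hX hQ.conj j = (-1) ^ j * cc hX hQ j := by
  rw [cc_eq_el, cc_eq_el, ← el_scale]
  exact el_congr fun i _ _ => sc_conj' hX hQ i

theorem cs_map {F : Type*} [NormedAddCommGroup F] [NormedSpace ℝ F] [FiniteDimensional ℝ F]
    {Y : Set F} {dY : ℕ} (hX : Sub dX X) (hY : Sub dY Y) {f : E → F} (hf : SMap X Y f)
    {Q : F → Matrix n n ℂ} (hQ : IdF Y Q) :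
    (cs hY hQ).map (H.map hf : H Y →+* H X) = cs hX (hQ.comp hf) := by
  rw [cs, cser_map]
  exact cser_congr fun j _ => map_sc hX hY hf hQ j

theorem cc_map {F : Type*} [NormedAddCommGroup F] [NormedSpace ℝ F] [FiniteDimensional ℝ F]
    {Y : Set F} {dY : ℕ} (hX : Sub dX X) (hY : Sub dY Y) {f : E → F} (hf : SMap X Y f)
    {Q : F → Matrix n n ℂ} (hQ : IdF Y Q) (j : ℕ) :
    H.map hf (cc hY hQ j) = cc hX (hQ.comp hf) j := by
  rw [← coeff_cs, ← coeff_cs, ← cs_map hX hY hf hQ, PowerSeries.coeff_map]; rfl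

/-! ### a nowhere vanishing section kills the top Chern class -/

/-- the projection onto the line of `s` along `ker (s^* Q)` -/
def secP (Q : Matrix n n ℂ) (s : n → ℂ) : Matrix n n ℂ :=
  (star s ⬝ᵥ s)⁻¹ • (Matrix.vecMulVec s (Matrix.vecMul (star s) Q))

theorem secP_spec {Q : Matrix n n ℂ} {s : n → ℂ} (hQ : Q * Q = Q) (hs : Q.mulVec s = s)
    (h0 : s ≠ 0) : secP Q s * secP Q s = secP Q s ∧ Q * secP Q s = secP Q s ∧
      secP Q s * Q = secP Q s ∧ (secP Q s).mulVec s = s ∧ (secP Q s).trace = 1 := by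
  have hn : star s ⬝ᵥ s ≠ 0 := by
    intro h
    open scoped ComplexOrder in
    exact h0 (dotProduct_star_self_eq_zero.1 h)
  have h1 : Matrix.vecMul (star s) Q ⬝ᵥ s = star s ⬝ᵥ s := by
    rw [← Matrix.dotProduct_mulVec, hs]
  refine ⟨?_, ?_, ?_, ?_, ?_⟩
  · rw [secP, Matrix.smul_mul, Matrix.mul_smul, Matrix.vecMulVec_mul_vecMulVec, h1,
      Matrix.vecMulVec_smul, smul_smul, smul_smul]
    congr 1
    field_simp
  · rw [secP, Matrix.mul_smul, Matrix.mul_vecMulVec, hs]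
  · rw [secP, Matrix.smul_mul, Matrix.vecMulVec_mul, Matrix.vecMul_vecMul, hQ]
  · rw [secP, Matrix.smul_mulVec, Matrix.vecMulVec_mulVec, h1, op_smul_eq_smul, smul_smul,
      inv_mul_cancel₀ hn, one_smul]
  · rw [secP, Matrix.trace_smul, Matrix.trace_vecMulVec, dotProduct_comm s, h1, smul_eq_mul,
      inv_mul_cancel₀ hn]

theorem SM.secP {Q : E → Matrix n n ℂ} {s : E → n → ℂ} {k : WithTop ℕ∞} (hQ : SM k Q x)
    (hs : ∀ i, ContDiffAt ℝ k (fun y => s y i) x) (h0 : s x ≠ 0) :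
    SM k (fun y => CW.secP (Q y) (s y)) x := by
  have hst : ∀ i, ContDiffAt ℝ k (fun y => star (s y i)) x := fun i =>
    (Complex.conjCLE : ℂ ≃L[ℝ] ℂ).contDiff.contDiffAt.comp x (hs i)
  have hd : ContDiffAt ℝ k (fun y => star (s y) ⬝ᵥ s y) x :=
    ContDiffAt.sum fun i _ => (hst i).mul (hs i)
  have hn : star (s x) ⬝ᵥ s x ≠ 0 := by
    intro h
    open scoped ComplexOrder in
    exact h0 (dotProduct_star_self_eq_zero.1 h)
  intro i j
  refine (hd.inv hn).mul ((hs i).mul ?_)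
  exact ContDiffAt.sum fun a _ => (hst a).mul (hQ a j)

/-- `Q` with a nowhere vanishing section: `Q = line ⊕ Q'` -/
theorem exists_split (hX : Sub dX X) {Q : E → Matrix n n ℂ} (hQ : IdF X Q) {s : E → n → ℂ}
    (hs : ∀ x ∈ X, ∀ i, ContDiffAt ℝ ∞ (fun y => s y i) x) (hQs : ∀ x ∈ X, (Q x).mulVec (s x) = s x)
    (h0 : ∀ x ∈ X, s x ≠ 0) :
    ∃ (Q' : E → Matrix n n ℂ) (hQ' : IdF X Q'), (∀ x ∈ X, ((Q' x).rank : ℂ) + 1 = (Q x).rank) ∧
      (∀ j, 1 ≤ j → sc hX hQ' j = sc hX hQ j) ∧ cs hX hQ' = cs hX hQ := by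
  have hP : IdF X (fun x => CW.secP (Q x) (s x)) :=
    ⟨fun x hx => (hQ.smooth x hx).secP (hs x hx) (h0 x hx), fun x hx =>
      (secP_spec (hQ.idem x hx) (hQs x hx) (h0 x hx)).1⟩
  have hQ' : IdF X (fun x => Q x - CW.secP (Q x) (s x)) :=
    ⟨fun x hx => (hQ.smooth x hx).sub (hP.smooth x hx), fun x hx => by
      obtain ⟨a1, a2, a3, a4, a5⟩ := secP_spec (hQ.idem x hx) (hQs x hx) (h0 x hx)
      rw [mul_sub, sub_mul, sub_mul, hQ.idem x hx, a1, a2, a3, sub_self, sub_zero]⟩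
  have hsum : ∀ x ∈ X, Q x = CW.secP (Q x) (s x) + (Q x - CW.secP (Q x) (s x)) := fun x hx => by
    abel
  have h12 : ∀ x ∈ X, CW.secP (Q x) (s x) * (Q x - CW.secP (Q x) (s x)) = 0 := fun x hx => by
    obtain ⟨a1, a2, a3, a4, a5⟩ := secP_spec (hQ.idem x hx) (hQs x hx) (h0 x hx)
    rw [mul_sub, a3, a1, sub_self]
  have h21 : ∀ x ∈ X, (Q x - CW.secP (Q x) (s x)) * CW.secP (Q x) (s x) = 0 := fun x hx => by
    obtain ⟨a1, a2, a3, a4, a5⟩ := secP_spec (hQ.idem x hx) (hQs x hx) (h0 x hx)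
    rw [sub_mul, a2, a1, sub_self]
  have hone : IdF X (fun _ : E => (1 : Matrix Unit Unit ℂ)) := IdF.const (mul_one 1)
  -- the line is trivial
  have hline : ∀ j, 1 ≤ j → sc hX hP j = 0 := by
    intro j hj
    rw [← sc_const hX hone hj]
    symm
    refine sc_iso hX hone hP (S := fun x => Matrix.of fun i _ => s x i)
      (fun x hx i _ => hs x hx i) (fun x hx => ?_) j
    obtain ⟨a1, a2, a3, a4, a5⟩ := secP_spec (hQ.idem x hx) (hQs x hx) (h0 x hx)
    have e1 : ∀ M : Matrix n n ℂ, M.mulVec (s x) = s x →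
        M * (Matrix.of fun i (_ : Unit) => s x i) = Matrix.of fun i (_ : Unit) => s x i := by
      intro M hM
      refine Matrix.ext fun i u => ?_
      exact congrFun hM i
    refine ⟨_, pIso_of_rank (mul_one 1) a1 (Matrix.mul_one _) (e1 _ a4) ?_ ?_⟩
    · have b1 : ((1 : Matrix Unit Unit ℂ).rank : ℂ) = 1 := by
        rw [rank_eq_trace (mul_one 1)]; simp
      have b2 : ((CW.secP (Q x) (s x)).rank : ℂ) = 1 := by
        rw [rank_eq_trace a1, a5]
      exact_mod_cast b1.trans b2.symm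
    · intro v _ hv
      obtain ⟨i, hi⟩ := Function.ne_iff.1 (h0 x hx)
      have h1 := congrFun hv i
      simp only [Matrix.mulVec, dotProduct, Matrix.of_apply, Finset.univ_unique,
        Finset.sum_singleton, Pi.zero_apply, mul_eq_zero] at h1
      funext u
      rcases h1 with h1 | h1
      · exact absurd h1 hi
      · exact h1
  have hsc : ∀ j, 1 ≤ j → sc hX hQ' j = sc hX hQ j := fun j hj => by
    rw [sc_orth hX hQ hP hQ' hsum h12 h21 j, hline j hj, zero_add]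
  refine ⟨_, hQ', fun x hx => ?_, hsc, cser_congr hsc⟩
  obtain ⟨a1, a2, a3, a4, a5⟩ := secP_spec (hQ.idem x hx) (hQs x hx) (h0 x hx)
  rw [rank_eq_trace (hQ'.idem x hx), rank_eq_trace (hQ.idem x hx), Matrix.trace_sub, a5,
    sub_add_cancel]

/-- **the top Chern class of a bundle with a nowhere vanishing section is zero** -/
theorem cc_eq_zero_of_section (hX : Sub dX X) {Q : E → Matrix n n ℂ} (hQ : IdF X Q)
    {s : E → n → ℂ} (hs : ∀ x ∈ X, ∀ i, ContDiffAt ℝ ∞ (fun y => s y i) x)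
    (hQs : ∀ x ∈ X, (Q x).mulVec (s x) = s x) (h0 : ∀ x ∈ X, s x ≠ 0) {r : ℕ}
    (hr : ∀ x ∈ X, (Q x).rank ≤ r) {j : ℕ} (hj : r ≤ j) : cc hX hQ j = 0 := by
  obtain ⟨Q', hQ', h1, h2, h3⟩ := exists_split hX hQ hs hQs h0
  rw [← coeff_cs, ← h3, coeff_cs]
  refine cc_eq_zero hX hQ' fun x hx => ?_
  have h4 : (Q' x).rank + 1 = (Q x).rank := by exact_mod_cast h1 x hx
  have h5 := hr x hx
  omega

end cls

end Crest.Agent.R208.CW
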