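import Crest.Agent.R208.SP8

/-!
Row 208, block GT (helper989), part GT3: the transposed pencil, `T_J` of the transposed pencil is
the transpose of `F_J`.
-/

set_option autoImplicit false

namespace Crest.Agent.R208.SP

variable {m n : Type*} [Fintype m] [Fintype n] [DecidableEq n] [DecidableEq m]

theorem Rhp.transpose {M : Matrix n n ℂ} (h : Rhp M) : Rhp M.transpose := by
  intro z hz
  have h1 : M.transpose - algebraMap ℂ (Matrix n n ℂ) z =
      (M - algebraMap ℂ (Matrix n n ℂ) z).transpose := by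
    rw [Matrix.transpose_sub]
    congr 1
    rw [Matrix.algebraMap_eq_diagonal, Matrix.diagonal_transpose]
  rw [h1]
  exact (Matrix.isUnit_transpose _).2 (h z hz)

theorem Pol.transpose {P J I : Matrix n n ℂ} (h : Pol P J I) :
    Pol P.transpose J.transpose I.transpose := by
  refine ⟨?_, ?_, ?_, ?_, ?_, ?_, ?_, ?_⟩
  · rw [← Matrix.transpose_mul, h.PP]
  · rw [← Matrix.transpose_mul, h.JP]
  · rw [← Matrix.transpose_mul, h.PJ]
  · rw [← Matrix.transpose_mul, h.IP]
  · rw [← Matrix.transpose_mul, h.PI]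
  · rw [← Matrix.transpose_mul, h.II, Matrix.transpose_neg]
  · rw [Commute, SemiconjBy, ← Matrix.transpose_mul, ← Matrix.transpose_mul, h.comm.eq]
  · have h1 := h.rhp.transpose
    rwa [Matrix.transpose_add, Matrix.transpose_neg, Matrix.transpose_sub, Matrix.transpose_one,
      h.comm.eq, Matrix.transpose_mul] at h1

omit [DecidableEq n] [DecidableEq m] in
theorem PIso.transpose {R : Type*} [CommRing R] {P : Matrix n n R} {P' : Matrix m m R}
    {S : Matrix m n R} {W : Matrix n m R} (h : PIso P P' S W) :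
    PIso P'.transpose P.transpose S.transpose W.transpose :=
  ⟨by rw [← Matrix.transpose_mul, h.ps], by rw [← Matrix.transpose_mul, h.sp],
    by rw [← Matrix.transpose_mul, h.pw], by rw [← Matrix.transpose_mul, h.wp],
    by rw [← Matrix.transpose_mul, h.sw], by rw [← Matrix.transpose_mul, h.ws]⟩

variable {P : Matrix n n ℝ} {P' : Matrix m m ℝ} {S₁ S₂ : Matrix m n ℝ}

omit [DecidableEq m] in
theorem Pencil.transpose (h : Pencil P P' S₁ S₂) (hP : P.transpose = P)
    (hP' : P'.transpose = P') : Pencil P' P S₁.transpose S₂.transpose := by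
  refine ⟨h.pp', h.pp, ?_, ?_, ?_, ?_, ?_, h.rank.symm⟩
  · conv_lhs => rw [← hP']
    rw [← Matrix.transpose_mul, h.ps1]
  · conv_lhs => rw [← hP']
    rw [← Matrix.transpose_mul, h.ps2]
  · conv_lhs => rw [← hP]
    rw [← Matrix.transpose_mul, h.sp1]
  · conv_lhs => rw [← hP]
    rw [← Matrix.transpose_mul, h.sp2]
  · intro a b hab v hv h0
    have h1 := (h.pIso hab).transpose
    rw [hP, hP'] at h1
    have h2 : a • S₁.transpose + b • S₂.transpose = (a • S₁ + b • S₂).transpose := by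
      rw [Matrix.transpose_add, Matrix.transpose_smul, Matrix.transpose_smul]
    rw [h2] at h0
    rw [← hv, ← h1.ws, ← Matrix.mulVec_mulVec, h0, Matrix.mulVec_zero]

theorem pinv_transpose (h : Pencil P P' S₁ S₂) (hP : P.transpose = P)
    (hP' : P'.transpose = P') : pinv P' P S₁.transpose = (pinv P P' S₁).transpose := by
  have h1 := h.pIso1.transpose
  rw [hP, hP'] at h1
  exact (h.transpose hP hP').pIso1.unique h1

theorem cr_transpose {m n : Type*} (M : Matrix m n ℝ) : (cr M).transpose = cr M.transpose := rfl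

theorem qp_transpose (P I : Matrix n n ℂ) : (qp P I).transpose = qp P.transpose I.transpose := by
  rw [qp, qp, Matrix.transpose_smul, Matrix.transpose_sub, Matrix.transpose_smul]

theorem Pencil.ij_transpose (h : Pencil P P' S₁ S₂) (hP : P.transpose = P)
    (hP' : P'.transpose = P') : ij P' P S₁.transpose S₂.transpose =
      (S₁ * ij P P' S₁ S₂ * pinv P P' S₁).transpose := by
  refine PolR.unique (h.transpose hP hP').polR ?_
  have h1 := (h.pIso1.cr.pol h.pol).transpose
  have h2 : (cr P').transpose = cx P' := by rw [cr_transpose, hP', cr_eq_cx]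
  rw [h2] at h1
  have h3 : (cr S₁ * (cr (pinv P P' S₁) * cr S₂) * cr (pinv P P' S₁)).transpose =
      cx (jj P' P S₁.transpose S₂.transpose) := by
    rw [← cr_mul, ← cr_mul, ← cr_mul, cr_transpose, ← cr_eq_cx, jj, pinv_transpose h hP hP',
      ← Matrix.transpose_mul]
    congr 2
    rw [← Matrix.mul_assoc, h.pIso1.sw, h.ps2]
  have h4 : (cr S₁ * cr (ij P P' S₁ S₂) * cr (pinv P P' S₁)).transpose =
      cx (S₁ * ij P P' S₁ S₂ * pinv P P' S₁).transpose := by
    rw [← cr_mul, ← cr_mul, cr_transpose, ← cr_eq_cx]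
  rw [h3, h4] at h1
  exact h1

/-- **`T_J` of the transposed pencil is the transpose of `F_J`.** -/
theorem Pencil.tj_transpose (h : Pencil P P' S₁ S₂) (hP : P.transpose = P)
    (hP' : P'.transpose = P') : tj P' P S₁.transpose S₂.transpose =
      (fj P P' S₁ S₂).transpose := by
  have h1 : fj P P' S₁ S₂ = qp (cr P') (cr (S₁ * ij P P' S₁ S₂ * pinv P P' S₁)) := by
    rw [fj, tj, ← cr_eq_cx, ← cr_eq_cx, ← h.pIso1.cr.qp_transfer, cr_mul, cr_mul]
  rw [h1, qp_transpose, cr_transpose, cr_transpose, hP', tj, h.ij_transpose hP hP', cr_eq_cx,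
    cr_eq_cx]

/-! ### `F_J + conj F_J = P'_ℂ` -/

theorem cj_cr_mul (A : Matrix m n ℝ) (B : Matrix n n ℂ) (C : Matrix n m ℝ) :
    cj (cr A * B * cr C) = cr A * cj B * cr C := by
  have h1 : ∀ M : Matrix m m ℂ, cj M = M.map (starRingEnd ℂ) := fun M => rfl
  have h2 : ∀ M : Matrix n n ℂ, cj M = M.map (starRingEnd ℂ) := fun M => rfl
  have h3 : (cr A).map (starRingEnd ℂ) = cr A := by ext i j; simp
  have h4 : (cr C).map (starRingEnd ℂ) = cr C := by ext i j; simp
  rw [h1, h2, Matrix.map_mul, Matrix.map_mul, h3, h4]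

omit [DecidableEq m] in
theorem Pencil.cx_mul_tj (h : Pencil P P' S₁ S₂) : cr P * tj P P' S₁ S₂ = tj P P' S₁ S₂ := by
  rw [cr_eq_cx]; exact Pol.P_qp h.polR

omit [DecidableEq m] in
theorem Pencil.cx_mul_cj_tj (h : Pencil P P' S₁ S₂) :
    cr P * cj (tj P P' S₁ S₂) = cj (tj P P' S₁ S₂) := by
  have h1 := congrArg cj h.cx_mul_tj
  rwa [map_mul, cr_eq_cx, cj_cx] at h1

theorem Pencil.fj_add_cj (h : Pencil P P' S₁ S₂) :
    fj P P' S₁ S₂ + cj (fj P P' S₁ S₂) = cx P' := by
  rw [fj, cj_cr_mul, ← Matrix.add_mul, ← Matrix.mul_add, h.tj_add_cj, ← cr_eq_cx, ← cr_eq_cx,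
    ← cr_mul, ← cr_mul, h.sp1, h.pIso1.sw]

theorem Pencil.fj_mul_cj (h : Pencil P P' S₁ S₂) :
    fj P P' S₁ S₂ * cj (fj P P' S₁ S₂) = 0 := by
  rw [fj, cj_cr_mul]
  have e : cr (pinv P P' S₁) * (cr S₁ * cj (tj P P' S₁ S₂) * cr (pinv P P' S₁)) =
      cj (tj P P' S₁ S₂) * cr (pinv P P' S₁) := by
    rw [← Matrix.mul_assoc, ← Matrix.mul_assoc, ← cr_mul, h.pIso1.ws, h.cx_mul_cj_tj]
  rw [Matrix.mul_assoc, e, ← Matrix.mul_assoc, Matrix.mul_assoc (cr S₁), h.tj_mul_cj,
    Matrix.mul_zero, Matrix.zero_mul]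

theorem Pencil.cj_mul_fj (h : Pencil P P' S₁ S₂) :
    cj (fj P P' S₁ S₂) * fj P P' S₁ S₂ = 0 := by
  rw [fj, cj_cr_mul]
  have e : cr (pinv P P' S₁) * (cr S₁ * tj P P' S₁ S₂ * cr (pinv P P' S₁)) =
      tj P P' S₁ S₂ * cr (pinv P P' S₁) := by
    rw [← Matrix.mul_assoc, ← Matrix.mul_assoc, ← cr_mul, h.pIso1.ws, h.cx_mul_tj]
  rw [Matrix.mul_assoc, e, ← Matrix.mul_assoc, Matrix.mul_assoc (cr S₁), h.cj_mul_tj,
    Matrix.mul_zero, Matrix.zero_mul]

end Crest.Agent.R208.SP
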