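import Crest.Agent.R208.FG1c
import Crest.Agent.R208.FV5
import Crest.Agent.R208.GP3c
import Crest.Agent.R208.GT4

/-! Row 208, block FG (helper586), part FG1d: `F → S` is an oriented submersion; the fibre product
`FFF = F ×_M F`. -/

set_option autoImplicit false
set_option linter.unusedSectionVars false

open Set Filter Topology Module
open scoped ContDiff RealInnerProductSpace
open Crest.GeometryTopology.Submanifold
open Crest.Agent.R241.DDefs
open Crest.Agent.R241.D2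
open Crest.Agent.R208.F Crest.Agent.R208.FI
open Crest.Agent.R208.CW (SMap integ cls)

noncomputable section

namespace Crest.Agent.R208.FG

variable {n N k : ℕ} {κ : ℝ} {S : Set (Euc N)} {G : Geo n N κ S}
  {PV : Euc N × Euc N → Euc N →L[ℝ] Euc N}

theorem PTC_eq (hV : GT.VField G PV) (h : GT.Bla G k) {z : Euc N × Euc N} (hz : z ∈ GT.FF S) :
    GT.PTC G PV z = (GT.TC G z.1 z.2).starProjection := by
  ext1 x
  obtain ⟨p, q⟩ := z
  refine (Submodule.eq_starProjection_of_mem_of_inner_eq_zero (hV.PTC_mem h hz x) ?_).symm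
  intro w hw
  rw [inner_sub_left, hV.inner_PTC hz, hV.PTC_eq_self hz hw, sub_self]

/-- orientation of `T_q C_p` by unit tensors -/
theorem exists_orient_TC (h : GT.Bla G k) (hk : 2 ≤ k) (hkn : k < n) :
    ∃ w : Euc N × Euc N → GP.Ten (n - k) N, (∀ z ∈ GT.FF S, ContDiffAt ℝ ∞ w z) ∧
      ∀ z ∈ GT.FF S, ∃ e : Fin (n - k) → Euc N, Orthonormal ℝ e ∧
        (∀ a, e a ∈ GT.TC G z.1 z.2) ∧ w z = GP.udt e := by
  have hV := FV.vfield_PVB h
  have hof : ∀ z ∈ GT.FF S, ∃ e : Fin (n - k) → Euc N, GP.OF (n - k) (GT.PTC G (FV.PVB h) z) e := by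
    intro z hz
    have hr : finrank ℝ (GT.TC G z.1 z.2) = n - k := by
      have := h.finrank_TC (p := z.1) (q := z.2) hz
      omega
    obtain ⟨e, he, -⟩ := GP.exists_OF (GT.TC G z.1 z.2) hr
    exact ⟨e, by rw [PTC_eq hV h hz]; exact he⟩
  obtain ⟨w, h1, h2⟩ := GP.lift_FF h.bl h.ty hk (by omega)
    (P := fun z => GP.TP (n - k) (GT.PTC G (FV.PVB h) z))
    (fun z hz => (GP.contDiff_TP (n - k)).contDiffAt.comp z (GT.smooth_PTC hV hz))
    (fun z hz => by
      obtain ⟨e, he⟩ := hof z hz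
      exact GP.R1_TP he)
  refine ⟨w, h1, fun z hz => ?_⟩
  obtain ⟨e, he⟩ := hof z hz
  obtain ⟨e', he', hwe⟩ := GP.exists_frame_of_unit (by omega) he (h2 z hz).1 (h2 z hz).2
  refine ⟨e', he'.on, fun a => ?_, hwe⟩
  have h3 : GT.PTC G (FV.PVB h) z (e' a) = e' a := by
    rw [he'.eq, Finset.sum_eq_single a]
    · rw [real_inner_self_eq_norm_sq, he'.on.1 a]; simp
    · intro c _ hc
      rw [he'.on.2 hc, zero_smul]
    · intro h; exact absurd (Finset.mem_univ _) h
  rw [← h3]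
  exact hV.PTC_mem h (p := z.1) (q := z.2) hz _

/-- **`F → S`, `(p,q) ↦ p`, is an oriented submersion** -/
theorem exists_osubm (h : GT.Bla G k) (hk : 2 ≤ k) (hkn : k < n) {oS : Euc N → Ext (Euc N)}
    (hoS : Ori n S oS) (hd : ∀ x, IsDeg n (oS x)) :
    ∃ oV : Euc N × Euc N → Ext (Euc N × Euc N), (∀ z, IsDeg (n - k) (oV z)) ∧
      OSubm (n - k) n (GT.FF S) S Prod.fst oV oS := by
  obtain ⟨w, hw, hwe⟩ := exists_orient_TC h hk hkn
  have hc0 : ContinuousOn (fun z : Euc N × Euc N =>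
      pb (ContinuousLinearMap.snd ℝ (Euc N) (Euc N) : Euc N × Euc N →ₗ[ℝ] Euc N)
        (GP.fm (n - k) N (w z))) (GT.FF S) := by
    have h1 : ContinuousOn w (GT.FF S) := fun z hz => (hw z hz).continuousAt.continuousWithinAt
    exact (pbL (ContinuousLinearMap.snd ℝ (Euc N) (Euc N))).continuous.comp_continuousOn
      ((GP.fmL (n - k) N).continuous.comp_continuousOn h1)
  refine ⟨fun z => pb (ContinuousLinearMap.snd ℝ (Euc N) (Euc N) : Euc N × Euc N →ₗ[ℝ] Euc N)
    (GP.fm (n - k) N (w z)), fun z => (GP.isDeg_fm _).pb _, ⟨FV.subm_fst h, hc0, ?_, hoS, hd⟩⟩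
  have hclo := (FV.subm_fst h).cloZ
  refine ori_of hclo ?_ ?_
  · exact continuousOn_mul hc0 ((FV.subm_fst h).continuousOn_pull hoS.cont)
  · rintro ⟨p, q⟩ hz
    obtain ⟨e, he, heT, hwz⟩ := hwe (p, q) hz
    set ξ : Fin n → Euc N := frame n S p with hξ
    have hξT : ∀ i, ξ i ∈ G.T p := fun i => by
      have := (frame_isFrame (((GP.clo_S h.bl).finrank_Tan hz.1))).2 i
      rwa [LB.Tan_S (G := G) (FV.sub_S h.bl) hz.1] at this
    have hξ0 : evA _ n (oS p) ξ ≠ 0 := hoS.ne p hz.1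
    refine ⟨Fin.append (fun a => ((0 : Euc N), e a))
      (fun i => (ξ i, -GT.lf G p q ((GT.Vs G p q).starProjection (ξ i)))), ?_, ?_⟩
    · intro i
      refine Fin.addCases (fun i => ?_) (fun i => ?_) i
      · rw [Fin.append_left]
        exact (FV.inr_mem_Tan_FF h hz).2 (heT i)
      · rw [Fin.append_right]
        exact FV.exists_lift_fst h hz (hξT i)
    · rw [pull_fst_apply,
        evA_mul_pb (ContinuousLinearMap.fst ℝ (Euc N) (Euc N) : Euc N × Euc N →ₗ[ℝ] Euc N) (oS p)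
          (fun q' hq' => hd p q' (by omega))
          (fun i => (ξ i, -GT.lf G p q ((GT.Vs G p q).starProjection (ξ i)))) _
          (fun a => ((0 : Euc N), e a)) (fun i => rfl), evA_pb, hwz]
      refine mul_ne_zero ?_ hξ0
      change evA _ (n - k) (GP.fm (n - k) N (GP.udt e)) e ≠ 0
      rw [GP.evA_fm_udt he]
      exact (GP.sqrt_fact_pos _).ne'

/-- the fibre product `F ×_M F` -/
def FFF (S : Set (Euc N)) : Set ((Euc N × Euc N) × (Euc N × Euc N)) :=
  FP (GT.FF S) (GT.FF S) Prod.fst Prod.fst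

theorem bc_FF (h : GT.Bla G k) {d : ℕ} (hd : d + k = 2 * n) : BC d (GT.FF S) S Prod.fst :=
  ⟨FV.clo_FF' h hd, fun _ _ => contDiffAt_fst, fun _ hz => hz.1⟩

theorem clo_FFF (h : GT.Bla G k) {d : ℕ} (hd : d + k = 2 * n) :
    Clo (n - k + d) (FFF S) := bc_clo (FV.subm_fst h) (bc_FF h hd)

theorem mem_Tan_FFF (h : GT.Bla G k) {z : (Euc N × Euc N) × (Euc N × Euc N)} (hz : z ∈ FFF S)
    {u u' : Euc N × Euc N} : (u, u') ∈ Tan (FFF S) z ↔
      u ∈ Tan (GT.FF S) z.1 ∧ u' ∈ Tan (GT.FF S) z.2 ∧ u.1 = u'.1 := by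
  have hk := h.ty.le
  have h1 := (fpd (FV.subm_fst h) (bc_FF h (show (2 * n - k) + k = 2 * n by omega))).mem_Tan hz
    (u := u) (u' := u')
  rw [hasFDerivAt_fst.fderiv, hasFDerivAt_fst.fderiv] at h1
  exact h1

end Crest.Agent.R208.FG
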