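import Crest.Agent.R208.FI1e

/-! Row 208, block F2 (helper349), part FI2a: submanifolds by local parametrisations with ambient
smooth inverses (`Loc`), products, transport, regular level sets. -/

set_option autoImplicit false
set_option linter.unusedSectionVars false
set_option linter.unusedVariables false

open Set Filter Topology Module
open scoped ContDiff
open Crest.Agent.R208.F

noncomputable section

namespace Crest.Agent.R208.FI

variable {E : Type*} [NormedAddCommGroup E] [NormedSpace ℝ E]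
  {F : Type*} [NormedAddCommGroup F] [NormedSpace ℝ F]
  {P : Type*} [NormedAddCommGroup P] [NormedSpace ℝ P]
  {Q : Type*} [NormedAddCommGroup Q] [NormedSpace ℝ Q]

/-- `X` is an `n`-dimensional submanifold (no compactness) of `E`. -/
def Sub (n : ℕ) (X : Set E) : Prop :=
  ∀ x ∈ X, ∃ (f : Eu n → E) (V : Set (Eu n)), Chart n X f V ∧ x ∈ f '' V

theorem Clo.sub {n : ℕ} {X : Set E} (h : Clo n X) : Sub n X := h.chart

theorem Sub.clo {n : ℕ} {X : Set E} (h : Sub n X) (hc : IsCompact X) : Clo n X := ⟨hc, h⟩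

/-- local parametrisation `f : W → X ∩ O` (`W` open in `P`) with ambient smooth inverse
`ℓ : O → W`. -/
structure Loc (X : Set E) (f : P → E) (W : Set P) (O : Set E) (ℓ : E → P) : Prop where
  oW : IsOpen W
  oO : IsOpen O
  fC : ContDiffOn ℝ ∞ f W
  lC : ContDiffOn ℝ ∞ ℓ O
  img : f '' W = X ∩ O
  inv : ∀ w ∈ W, ℓ (f w) = w
  maps : ∀ q ∈ O, ℓ q ∈ W

namespace Loc
variable {X : Set E} {f : P → E} {W : Set P} {O : Set E} {ℓ : E → P}

/-- constructor without `maps` (shrink `O`). -/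
theorem mk' (oW : IsOpen W) (oO : IsOpen O) (fC : ContDiffOn ℝ ∞ f W) (lC : ContDiffOn ℝ ∞ ℓ O)
    (img : f '' W = X ∩ O) (inv : ∀ w ∈ W, ℓ (f w) = w) : Loc X f W (O ∩ ℓ ⁻¹' W) ℓ := by
  refine ⟨oW, lC.continuousOn.isOpen_inter_preimage oO oW, fC, lC.mono inter_subset_left, ?_, inv,
    fun q hq => hq.2⟩
  apply Subset.antisymm
  · rintro _ ⟨w, hw, rfl⟩
    have : f w ∈ X ∩ O := by rw [← img]; exact ⟨w, hw, rfl⟩
    exact ⟨this.1, this.2, by rw [mem_preimage, inv w hw]; exact hw⟩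
  · rintro q ⟨hq, hqO, -⟩
    rw [img]; exact ⟨hq, hqO⟩

theorem mem (h : Loc X f W O ℓ) {w : P} (hw : w ∈ W) : f w ∈ X ∩ O := by
  rw [← h.img]; exact ⟨w, hw, rfl⟩

theorem right_inv (h : Loc X f W O ℓ) {q : E} (hq : q ∈ X) (hqO : q ∈ O) : f (ℓ q) = q := by
  have : q ∈ f '' W := by rw [h.img]; exact ⟨hq, hqO⟩
  obtain ⟨w, hw, rfl⟩ := this
  rw [h.inv w hw]

theorem fC' (h : Loc X f W O ℓ) {w : P} (hw : w ∈ W) : ContDiffAt ℝ ∞ f w :=
  h.fC.contDiffAt (h.oW.mem_nhds hw)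

theorem lC' (h : Loc X f W O ℓ) {q : E} (hq : q ∈ O) : ContDiffAt ℝ ∞ ℓ q :=
  h.lC.contDiffAt (h.oO.mem_nhds hq)

/-- restrict to a smaller open set of parameters -/
theorem restrict (h : Loc X f W O ℓ) {W' : Set P} (hW' : W' ⊆ W) (ho : IsOpen W') :
    Loc X f W' (O ∩ ℓ ⁻¹' W') ℓ := by
  refine ⟨ho, h.lC.continuousOn.isOpen_inter_preimage h.oO ho, h.fC.mono hW',
    h.lC.mono inter_subset_left, ?_, fun w hw => h.inv w (hW' hw), fun q hq => hq.2⟩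
  apply Subset.antisymm
  · rintro _ ⟨w, hw, rfl⟩
    have := h.mem (hW' hw)
    exact ⟨this.1, this.2, by rw [mem_preimage, h.inv w (hW' hw)]; exact hw⟩
  · rintro q ⟨hq, hqO, hqW⟩
    exact ⟨ℓ q, hqW, h.right_inv hq hqO⟩

/-- restrict to a smaller open set of the ambient space -/
theorem restrictO (h : Loc X f W O ℓ) {O' : Set E} (ho : IsOpen O') :
    Loc X f (W ∩ f ⁻¹' O') (O ∩ ℓ ⁻¹' (W ∩ f ⁻¹' O')) ℓ :=
  h.restrict inter_subset_left (h.fC.continuousOn.isOpen_inter_preimage h.oW ho)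

theorem subset_of_restrictO (h : Loc X f W O ℓ) {O' : Set E} (ho : IsOpen O') :
    X ∩ (O ∩ ℓ ⁻¹' (W ∩ f ⁻¹' O')) ⊆ O' := by
  rintro q ⟨hq, hqO, hq2⟩
  have := hq2.2
  rw [mem_preimage, h.right_inv hq hqO] at this
  exact this

/-- change of the parameter space by a linear isomorphism -/
theorem comp_equiv (h : Loc X f W O ℓ) (e : Q ≃L[ℝ] P) :
    Loc X (fun q => f (e q)) (e ⁻¹' W) O (fun q => e.symm (ℓ q)) := by
  refine ⟨h.oW.preimage e.continuous, h.oO, ?_, ?_, ?_, ?_, ?_⟩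
  · exact h.fC.comp e.contDiff.contDiffOn (fun q hq => hq)
  · exact e.symm.contDiff.comp_contDiffOn h.lC
  · rw [← h.img]
    apply Subset.antisymm
    · rintro _ ⟨q, hq, rfl⟩; exact ⟨e q, hq, rfl⟩
    · rintro _ ⟨w, hw, rfl⟩; exact ⟨e.symm w, by simpa using hw, by simp⟩
  · intro w hw; simp only [h.inv _ hw, ContinuousLinearEquiv.symm_apply_apply]
  · intro q hq; simpa using h.maps q hq

/-- products -/
theorem prod {Y : Set F} {f' : Q → F} {W' : Set Q} {O' : Set F} {ℓ' : F → Q}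
    (h : Loc X f W O ℓ) (h' : Loc Y f' W' O' ℓ') :
    Loc (X ×ˢ Y) (Prod.map f f') (W ×ˢ W') (O ×ˢ O') (Prod.map ℓ ℓ') := by
  refine ⟨h.oW.prod h'.oW, h.oO.prod h'.oO, ?_, ?_, ?_, ?_, ?_⟩
  · exact (h.fC.comp contDiffOn_fst fun q hq => hq.1).prodMk
      (h'.fC.comp contDiffOn_snd fun q hq => hq.2)
  · exact (h.lC.comp contDiffOn_fst fun q hq => hq.1).prodMk
      (h'.lC.comp contDiffOn_snd fun q hq => hq.2)
  · rw [prodMap_image_prod, h.img, h'.img, prod_inter_prod]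
  · rintro ⟨w, w'⟩ ⟨hw, hw'⟩
    exact Prod.ext (h.inv w hw) (h'.inv w' hw')
  · rintro ⟨q, q'⟩ ⟨hq, hq'⟩
    exact ⟨h.maps q hq, h'.maps q' hq'⟩

/-- a `Loc` with Euclidean parameter space is a chart -/
theorem chart {n : ℕ} {X : Set E} {f : Eu n → E} {W : Set (Eu n)} {O : Set E} {ℓ : E → Eu n}
    (h : Loc X f W O ℓ) : Chart n X f W := by
  refine ⟨h.oW, h.fC, fun u hu v hv huv => ?_, fun u hu => ?_, fun W' hW' ho => ?_⟩
  · rw [← h.inv u hu, ← h.inv v hv, huv]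
  · have h1 : HasFDerivAt (fun w => ℓ (f w)) (fderiv ℝ ℓ (f u) ∘L fderiv ℝ f u) u :=
      (((h.lC' (h.mem hu).2).differentiableAt (by simp)).hasFDerivAt).comp u
        ((h.fC' hu).differentiableAt (by simp)).hasFDerivAt
    have h2 : HasFDerivAt (fun w => ℓ (f w)) (ContinuousLinearMap.id ℝ (Eu n)) u := by
      refine (hasFDerivAt_id u).congr_of_eventuallyEq ?_
      filter_upwards [h.oW.mem_nhds hu] with w hw using h.inv w hw
    have h3 := h1.unique h2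
    intro v w hvw
    have h4 : ∀ z, fderiv ℝ ℓ (f u) (fderiv ℝ f u z) = z := fun z => by
      have := congrArg (fun L => L z) h3
      simpa using this
    rw [← h4 v, ← h4 w, hvw]
  · exact ⟨_, (h.restrict hW' ho).oO, (h.restrict hW' ho).img⟩

end Loc

theorem Chart.exists_loc [FiniteDimensional ℝ E] {n : ℕ} {X : Set E} {f : Eu n → E}
    {V : Set (Eu n)} (hf : Chart n X f V) {u : Eu n} (hu : u ∈ V) :
    ∃ (W : Set (Eu n)) (O : Set E) (ℓ : E → Eu n), Loc X f W O ℓ ∧ f u ∈ O ∧ u ∈ W ∧ W ⊆ V := by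
  obtain ⟨O, ℓ, hO, hxO, hℓ, hℓV, hℓx, hℓS⟩ := exists_coord hf hu
  have h1 := Loc.mk' (X := X) (f := f) (W := V ∩ f ⁻¹' O) (O := O) (ℓ := ℓ)
    (hf.contDiffOn.continuousOn.isOpen_inter_preimage hf.isOpen hO) hO
    (hf.contDiffOn.mono inter_subset_left) hℓ ?_ ?_
  · exact ⟨_, _, _, h1, ⟨hxO, by rw [mem_preimage, hℓx]; exact ⟨hu, hxO⟩⟩, ⟨hu, hxO⟩,
      inter_subset_left⟩
  · apply Subset.antisymm
    · rintro _ ⟨w, ⟨hw, hwO⟩, rfl⟩; exact ⟨hf.mem hw, hwO⟩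
    · rintro q ⟨hq, hqO⟩
      refine ⟨ℓ q, ⟨hℓV q hqO, ?_⟩, hℓS q hqO hq⟩
      rw [mem_preimage, hℓS q hqO hq]; exact hqO
  · rintro w ⟨hw, hwO⟩
    exact hf.injOn (hℓV _ hwO) hw (hℓS _ hwO (hf.mem hw))

theorem Sub.exists_loc [FiniteDimensional ℝ E] {n : ℕ} {X : Set E} (h : Sub n X) {x : E}
    (hx : x ∈ X) :
    ∃ (f : Eu n → E) (W : Set (Eu n)) (O : Set E) (ℓ : E → Eu n), Loc X f W O ℓ ∧ x ∈ O := by
  obtain ⟨f, V, hf, u, hu, rfl⟩ := h x hx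
  obtain ⟨W, O, ℓ, h1, h2, -, -⟩ := hf.exists_loc hu
  exact ⟨f, W, O, ℓ, h1, h2⟩

/-- submanifolds from local parametrisations over arbitrary parameter spaces of dimension `n`. -/
theorem Sub.of_loc [FiniteDimensional ℝ P] {n : ℕ} (hP : finrank ℝ P = n) {X : Set E}
    (h : ∀ x ∈ X, ∃ (f : P → E) (W : Set P) (O : Set E) (ℓ : E → P), Loc X f W O ℓ ∧ x ∈ O) :
    Sub n X := by
  intro x hx
  obtain ⟨f, W, O, ℓ, h1, h2⟩ := h x hx
  have e : Eu n ≃L[ℝ] P := ContinuousLinearEquiv.ofFinrankEq (by rw [hP]; simp)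
  have h3 := h1.comp_equiv e
  refine ⟨_, _, h3.chart, ?_⟩
  rw [h3.img]; exact ⟨hx, h2⟩

/-- pointwise version: the parameter space may depend on the point. -/
theorem Sub.of_loc' {n : ℕ} {X : Set E}
    (h : ∀ x ∈ X, ∃ (f : Eu n → E) (W : Set (Eu n)) (O : Set E) (ℓ : E → Eu n),
      Loc X f W O ℓ ∧ x ∈ O) : Sub n X := by
  intro x hx
  obtain ⟨f, W, O, ℓ, h1, h2⟩ := h x hx
  exact ⟨_, _, h1.chart, by rw [h1.img]; exact ⟨hx, h2⟩⟩

theorem Loc.toEu [FiniteDimensional ℝ P] {n : ℕ} (hP : finrank ℝ P = n) {X : Set E}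
    {f : P → E} {W : Set P} {O : Set E} {ℓ : E → P} (h : Loc X f W O ℓ) :
    ∃ (f' : Eu n → E) (W' : Set (Eu n)) (ℓ' : E → Eu n), Loc X f' W' O ℓ' := by
  have e : Eu n ≃L[ℝ] P := ContinuousLinearEquiv.ofFinrankEq (by rw [hP]; simp)
  exact ⟨_, _, _, h.comp_equiv e⟩

theorem Sub.prod [FiniteDimensional ℝ E] [FiniteDimensional ℝ F] {m n : ℕ} {X : Set E} {Y : Set F}
    (hX : Sub m X) (hY : Sub n Y) : Sub (m + n) (X ×ˢ Y) := by
  refine Sub.of_loc (P := Eu m × Eu n) (by simp) ?_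
  rintro ⟨x, y⟩ ⟨hx, hy⟩
  obtain ⟨f, W, O, ℓ, h1, h2⟩ := hX.exists_loc hx
  obtain ⟨f', W', O', ℓ', h1', h2'⟩ := hY.exists_loc hy
  exact ⟨_, _, _, _, h1.prod h1', ⟨h2, h2'⟩⟩

theorem Clo.prod [FiniteDimensional ℝ E] [FiniteDimensional ℝ F] {m n : ℕ} {X : Set E} {Y : Set F}
    (hX : Clo m X) (hY : Clo n Y) : Clo (m + n) (X ×ˢ Y) :=
  (hX.sub.prod hY.sub).clo (hX.compact.prod hY.compact)

/-- an open subset of a finite-dimensional space -/
theorem sub_open [FiniteDimensional ℝ E] {n : ℕ} (hE : finrank ℝ E = n) {U : Set E}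
    (hU : IsOpen U) : Sub n U :=
  Sub.of_loc (P := E) hE fun x hx => ⟨id, U, U, id, ⟨hU, hU, contDiffOn_id, contDiffOn_id,
    by simp, fun _ _ => rfl, fun q hq => hq⟩, hx⟩

theorem Sub.inter_open [FiniteDimensional ℝ E] {n : ℕ} {X : Set E} (hX : Sub n X) {U : Set E}
    (hU : IsOpen U) : Sub n (X ∩ U) := by
  refine Sub.of_loc' fun x hx => ?_
  obtain ⟨f, W, O, ℓ, h1, h2⟩ := hX.exists_loc hx.1
  have h3 := h1.restrictO hU
  refine ⟨f, W ∩ f ⁻¹' U, O ∩ ℓ ⁻¹' (W ∩ f ⁻¹' U), ℓ, ⟨h3.oW, h3.oO, h3.fC, h3.lC, ?_, h3.inv,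
    h3.maps⟩, h2, h1.maps x h2, ?_⟩
  · rw [h3.img]
    apply Subset.antisymm
    · rintro q ⟨hq, hq2⟩; exact ⟨⟨hq, h1.subset_of_restrictO hU ⟨hq, hq2⟩⟩, hq2⟩
    · rintro q ⟨⟨hq, -⟩, hq2⟩; exact ⟨hq, hq2⟩
  · rw [mem_preimage, h1.right_inv hx.1 h2]; exact hx.2

/-! ### tangent spaces -/

theorem Sub.finrank_Tan [FiniteDimensional ℝ E] {n : ℕ} {X : Set E} (hX : Sub n X) {x : E}
    (hx : x ∈ X) : finrank ℝ (Tan X x) = n := by
  obtain ⟨f, V, hf, u, hu, rfl⟩ := hX x hx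
  exact finrank_Tan_chart hf hu

/-- the tangent space in a `Loc` parametrisation: range of `Df`, fixed space of `D(f ∘ ℓ)`. -/
theorem Loc.range_eq_Tan {X : Set E} {f : P → E} {W : Set P} {O : Set E} {ℓ : E → P}
    (h : Loc X f W O ℓ) {w : P} (hw : w ∈ W) :
    LinearMap.range (fderiv ℝ f w : P →ₗ[ℝ] E) = Tan X (f w) := by
  have hfd : DifferentiableAt ℝ f w := (h.fC' hw).differentiableAt (by simp)
  apply le_antisymm
  · rintro _ ⟨v, rfl⟩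
    exact fderiv_mem_Tan hfd
      (by filter_upwards [h.oW.mem_nhds hw] with z hz using (h.mem hz).1) v
  · rw [Tan, Submodule.span_le]
    rintro v ⟨γ, hγ0, hγ, hS⟩
    have hO : f w ∈ O := (h.mem hw).2
    have hγc : Tendsto γ (𝓝 0) (𝓝 (f w)) := by rw [← hγ0]; exact hγ.continuousAt
    have hev : γ =ᶠ[𝓝 0] fun t => f (ℓ (γ t)) := by
      filter_upwards [hS, hγc.eventually (h.oO.mem_nhds hO)] with t h1 h2
      exact (h.right_inv h1 h2).symm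
    have hℓd : HasFDerivAt ℓ (fderiv ℝ ℓ (f w)) (γ 0) := by
      rw [hγ0]
      exact ((h.lC' hO).differentiableAt (by simp)).hasFDerivAt
    have h1 : HasDerivAt (fun t => ℓ (γ t)) (fderiv ℝ ℓ (f w) v) 0 := hℓd.comp_hasDerivAt 0 hγ
    have h2 : HasFDerivAt f (fderiv ℝ f w) (ℓ (γ 0)) := by
      rw [hγ0, h.inv w hw]; exact hfd.hasFDerivAt
    have h3 : HasDerivAt (fun t => f (ℓ (γ t))) (fderiv ℝ f w (fderiv ℝ ℓ (f w) v)) 0 :=
      h2.comp_hasDerivAt 0 h1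
    exact ⟨_, (h3.congr_of_eventuallyEq hev).unique hγ⟩

theorem Tan_mono_of_subset {X Y : Set E} (h : X ⊆ Y) (x : E) : Tan X x ≤ Tan Y x := by
  rw [Tan, Submodule.span_le]
  rintro v ⟨γ, hγ0, hγ, hS⟩
  exact Submodule.subset_span ⟨γ, hγ0, hγ, by filter_upwards [hS] with t ht using h ht⟩

theorem Tan_prod {X : Set E} {Y : Set F} [FiniteDimensional ℝ E] [FiniteDimensional ℝ F]
    {m n : ℕ} (hX : Sub m X) (hY : Sub n Y) {x : E} {y : F} (hx : x ∈ X) (hy : y ∈ Y) :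
    Tan (X ×ˢ Y) (x, y) = (Tan X x).prod (Tan Y y) := by
  obtain ⟨f, W, O, ℓ, h1, h2⟩ := hX.exists_loc hx
  obtain ⟨f', W', O', ℓ', h1', h2'⟩ := hY.exists_loc hy
  have h3 := h1.prod h1'
  have e1 := h1.right_inv hx h2
  have e2 := h1'.right_inv hy h2'
  have hw : ℓ x ∈ W := h1.maps x h2
  have hw' : ℓ' y ∈ W' := h1'.maps y h2'
  have h4 := h3.range_eq_Tan (w := (ℓ x, ℓ' y)) ⟨hw, hw'⟩
  have h5 := h1.range_eq_Tan hw
  have h6 := h1'.range_eq_Tan hw'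
  have h7 : fderiv ℝ (Prod.map f f') (ℓ x, ℓ' y) = (fderiv ℝ f (ℓ x)).prodMap (fderiv ℝ f' (ℓ' y)) :=
    (HasFDerivAt.prodMap (ℓ x, ℓ' y) ((h1.fC' hw).differentiableAt (by simp)).hasFDerivAt
      ((h1'.fC' hw').differentiableAt (by simp)).hasFDerivAt).fderiv
  rw [e1] at h5
  rw [e2] at h6
  rw [Prod.map_apply, e1, e2, h7] at h4
  rw [← h4, ← h5, ← h6]
  ext ⟨a, b⟩
  constructor
  · rintro ⟨⟨p, q⟩, hpq⟩
    have := Prod.ext_iff.1 hpq
    exact ⟨⟨p, this.1⟩, ⟨q, this.2⟩⟩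
  · rintro ⟨⟨p, hp⟩, ⟨q, hq⟩⟩
    exact ⟨(p, q), Prod.ext hp hq⟩

end Crest.Agent.R208.FI
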