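import Crest.Agent.R208.GP1
import Crest.Agent.R208.FI2a

/-! Row 208, block GP (helper198), part GP1b: closed forms of positive degree are exact off the cut
locus. -/

set_option autoImplicit false
set_option linter.unusedSectionVars false

open MeasureTheory Measure Set Filter Topology Module Metric
open scoped ContDiff RealInnerProductSpace
open Crest.GeometryTopology.Submanifold
open Crest.Agent.R241.DDefs
open Crest.Agent.R241.D2
open Crest.Agent.R208.F Crest.Agent.R208.FI

noncomputable section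

namespace Crest.Agent.R208.GP

section gen
variable {E E' : Type*} [NormedAddCommGroup E] [NormedSpace ℝ E] [FiniteDimensional ℝ E]
  [NormedAddCommGroup E'] [NormedSpace ℝ E'] [FiniteDimensional ℝ E']

/-- pull back by the zero map kills forms without degree `0` part. -/
theorem pb_zero_map {c : Ext E'} (h : evA E' 0 c = 0) : pb (0 : E →ₗ[ℝ] E') c = 0 := by
  refine eq_zero_of_evA fun q => ?_
  ext v
  rw [evA_pb, AlternatingMap.zero_apply]
  rcases q with _ | q
  · rw [h]; rfl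
  · exact (evA E' (q + 1) c).map_coord_zero 0 rfl

/-- if `f` is the identity on `X` near `x` then `f^*` is the identity on restrictions. -/
theorem fderiv_eq_of_id {X : Set E} {f : E → E} {x : E} (hf : DifferentiableAt ℝ f x)
    (h : ∀ᶠ y in 𝓝 x, y ∈ X → f y = y) {v : E} (hv : v ∈ FI.Tan X x) : fderiv ℝ f x v = v := by
  induction hv using Submodule.span_induction with
  | mem v hv =>
    obtain ⟨γ, h0, hγ, hX⟩ := hv
    subst h0
    have h1 : HasDerivAt (fun t => f (γ t)) (fderiv ℝ f (γ 0) v) 0 :=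
      hf.hasFDerivAt.comp_hasDerivAt 0 hγ
    have h2 : (fun t => f (γ t)) =ᶠ[𝓝 0] γ := by
      filter_upwards [hX, hγ.continuousAt.eventually h] with t h3 h4 using h4 h3
    exact (h1.congr_of_eventuallyEq h2.symm).unique hγ
  | zero => rw [map_zero]
  | add x y _ _ hx hy => rw [map_add, hx, hy]
  | smul a x _ hx => rw [map_smul, hx]

theorem res_pull_of_id {X : Set E} {f : E → E} {x : E} (hx : x ∈ X) (hf : DifferentiableAt ℝ f x)
    (h : ∀ᶠ y in 𝓝 x, y ∈ X → f y = y) (β : E → Ext E) :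
    pb (FI.Tan X x).subtype (F.pull f β x) = pb (FI.Tan X x).subtype (β x) := by
  have h1 : f x = x := h.self_of_nhds hx
  rw [F.pull, pb_comp, h1]
  have h2 : ((fderiv ℝ f x : E →L[ℝ] E) : E →ₗ[ℝ] E) ∘ₗ (FI.Tan X x).subtype =
      (FI.Tan X x).subtype := LinearMap.ext fun v => fderiv_eq_of_id hf h v.2
  rw [h2]

theorem Tan_open {X X' : Set E} {x : E} (h : ∀ᶠ y in 𝓝 x, y ∈ X → y ∈ X') :
    FI.Tan X x ≤ FI.Tan X' x := by
  refine Submodule.span_mono ?_
  rintro v ⟨γ, h0, hγ, hX⟩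
  refine ⟨γ, h0, hγ, ?_⟩
  have h1 : Tendsto γ (𝓝 0) (𝓝 x) := by rw [← h0]; exact hγ.continuousAt
  filter_upwards [hX, h1.eventually h] with t h2 h3 using h3 h2

theorem pb_subtype_of_le {T T' : Submodule ℝ E} (h : T ≤ T') {c : Ext E}
    (hc : pb T'.subtype c = 0) : pb T.subtype c = 0 := by
  have h1 : T.subtype = T'.subtype ∘ₗ Submodule.inclusion h := by ext v; rfl
  rw [h1, ← pb_comp, hc, map_zero]

end gen

variable {n N : ℕ} {κ : ℝ} {S : Set (Euc N)} {G : Geo n N κ S}

theorem contDiffAt_Exp_comp {F : Type*} [NormedAddCommGroup F] [NormedSpace ℝ F] {p : Euc N}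
    (hp : p ∈ S) {g : F → Euc N} {x : F} (hg : ContDiffAt ℝ ∞ g x) (hx : g x ∈ G.T p) :
    ContDiffAt ℝ ∞ (fun y => Exp G p (g y)) x := by
  have h1 := contDiffAt_Exp G hp hx
  have h2 : ContDiffAt ℝ ∞ (fun y => ((p, g y) : Euc N × Euc N)) x := contDiffAt_const.prodMk hg
  exact ContDiffAt.comp (g := fun q : Euc N × Euc N => Exp G q.1 q.2) x h1 h2

/-- **closed forms without degree 0 part are exact off the cut locus.** -/
theorem exists_primitive (hB : Bl n N κ S G Real.pi) {p : Euc N} (hp : p ∈ S) {r : ℝ}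
    (hr : r < Real.pi) {β : Euc N → Ext (Euc N)} (hβ : ∀ x ∈ S, ContDiffAt ℝ ∞ β x)
    (hcl : ResZero S (F.d β)) (h0 : evA (Euc N) 0 (β p) = 0) :
    ∃ γ : Euc N → Ext (Euc N), (∀ y ∈ S, intrinsicDist S p y < r → ContDiffAt ℝ ∞ γ y) ∧
      ∀ y ∈ S, intrinsicDist S p y < r → pb (FI.Tan S y).subtype (β y - F.d γ y) = 0 := by
  obtain ⟨L, hL1, hL2⟩ := exists_log hB hp hr
  set Fh : Euc N × ℝ → Euc N := fun q => Exp G p (q.2 • L q.1) with hFh
  set X : Set (Euc N) := {y | y ∈ S ∧ intrinsicDist S p y < r} with hX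
  have hFC : ∀ y ∈ X, ∀ t ∈ Icc (0 : ℝ) 1, ContDiffAt ℝ ∞ Fh (y, t) := by
    rintro y ⟨hy, hyr⟩ t -
    refine contDiffAt_Exp_comp hp ?_ ((G.T p).smul_mem _ (hL2 y hy hyr.le).1)
    exact contDiffAt_snd.smul ((hL1 y hy hyr.le).comp (y, t) contDiffAt_fst)
  have hFm : ∀ y ∈ X, ∀ t ∈ Icc (0 : ℝ) 1, Fh (y, t) ∈ S := by
    rintro y ⟨hy, hyr⟩ t -
    exact Exp_mem G hp ((G.T p).smul_mem _ (hL2 y hy hyr.le).1)
  have h1 := resZero_Hop (X := X) (Y := S) (om := β) (fun x hx t ht => (hFC x hx t ht).of_le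
    two_le_infty) hFm (fun y hy => (hβ y hy).of_le (by simp)) hcl
  have hnear : ∀ y ∈ X, ∀ᶠ z in 𝓝 y, z ∈ S → z ∈ X := by
    rintro y ⟨hy, hyr⟩
    have h2 := (continuousOn_dist_left hB hp) y hy
    have h3 : ∀ᶠ z in 𝓝[S] y, intrinsicDist S p z < r := h2.eventually (gt_mem_nhds hyr)
    rw [eventually_nhdsWithin_iff] at h3
    filter_upwards [h3] with z hz hzS using ⟨hzS, hz hzS⟩
  refine ⟨Hop Fh β, fun y hy hyr => ?_, fun y hy hyr => ?_⟩
  · exact contDiffAt_Hop (fun t ht => hFC y ⟨hy, hyr⟩ t ht)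
      (fun t ht => hβ _ (hFm y ⟨hy, hyr⟩ t ht))
  · have hyX : y ∈ X := ⟨hy, hyr⟩
    have h2 := h1 y hyX
    have hT : FI.Tan S y ≤ FI.Tan X y := Tan_open (hnear y hyX)
    have h3 := pb_subtype_of_le hT h2
    rw [map_sub, map_sub] at h3
    have h4 : F.pull (fun y => Fh (y, 0)) β y = 0 := by
      have h5 : (fun y => Fh (y, 0)) = fun _ => p := by
        funext z
        show Exp G p ((0 : ℝ) • L z) = p
        rw [zero_smul, Exp_zero G hp]
      rw [h5, F.pull]
      have h6 : fderiv ℝ (fun _ : Euc N => p) y = 0 := fderiv_const_apply _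
      rw [h6]
      exact pb_zero_map h0
    have h5 : pb (FI.Tan S y).subtype (F.pull (fun y => Fh (y, 1)) β y) =
        pb (FI.Tan S y).subtype (β y) := by
      refine res_pull_of_id hy ?_ ?_ β
      · exact DifferentiableAt.comp (g := Fh) (f := fun z => (z, (1 : ℝ))) y
          ((hFC y hyX 1 (by simp)).differentiableAt (by simp))
          (differentiableAt_id.prodMk (differentiableAt_const _))
      · filter_upwards [hnear y hyX] with z hz hzS
        obtain ⟨h7, h8⟩ := hz hzS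
        show Exp G p ((1 : ℝ) • L z) = z
        rw [one_smul]
        exact (hL2 z hzS h8.le).2.2
    rw [h4, map_zero, sub_zero, h5, ← map_sub] at h3
    exact h3

end Crest.Agent.R208.GP
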