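import Crest.Agent.R208.TDefs

/-! Row 208, block TH-B (helper854).  THB3: degrees of products, degree of the Euler form. -/

set_option autoImplicit false
set_option linter.unusedSectionVars false
set_option linter.unusedSimpArgs false
set_option linter.unusedVariables false

open MeasureTheory Set Filter Topology Module Matrix
open scoped ContDiff
open Crest.Agent.R208.F Crest.Agent.R208.FI Crest.Agent.R208.CW

noncomputable section

namespace Crest.Agent.R208.T

section deg
variable {E : Type*} [NormedAddCommGroup E] [NormedSpace ℝ E] [FiniteDimensional ℝ E]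

theorem isDeg_of_mem {p : ℕ} {c : Ext E} (h : c ∈ ⋀[ℝ]^p (Module.Dual ℝ E)) : IsDeg p c := by
  rw [← ExteriorAlgebra.ιMulti_span_fixedDegree] at h
  induction h using Submodule.span_induction with
  | mem x hx => obtain ⟨l, rfl⟩ := hx; exact IsDeg.iMulti l
  | zero => exact IsDeg.zero
  | add x y _ _ hx hy => exact hx.add hy
  | smul r x _ hx => exact hx.smul r

theorem IsDeg.mem {p : ℕ} {c : Ext E} (h : IsDeg p c) : c ∈ ⋀[ℝ]^p (Module.Dual ℝ E) := by
  classical
  set A : ℕ → Submodule ℝ (Ext E) := fun i => ⋀[ℝ]^i (Module.Dual ℝ E) with hA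
  have hmem : ∀ i, ((DirectSum.decompose A c i : A i) : Ext E) ∈ ⋀[ℝ]^i (Module.Dual ℝ E) :=
    fun i => (DirectSum.decompose A c i).2
  have hsum := DirectSum.sum_support_decompose A c
  have hz : ∀ i, i ≠ p → ((DirectSum.decompose A c i : A i) : Ext E) = 0 := by
    intro i hi
    refine eq_zero_of_evA fun q => ?_
    by_cases hq : q = i
    · subst hq
      have h1 : evA E q c = evA E q ((DirectSum.decompose A c q : A q) : Ext E) := by
        conv_lhs => rw [← hsum]
        rw [map_sum]
        by_cases hqs : q ∈ (DirectSum.decompose A c).support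
        · rw [Finset.sum_eq_single q]
          · intro j _ hj
            exact isDeg_of_mem (hmem j) q hj.symm
          · intro hn; exact absurd hqs hn
        · rw [Finset.sum_eq_zero, DFinsupp.notMem_support_iff.1 hqs]
          · simp
          · intro j hj
            have : j ≠ q := fun e => hqs (e ▸ hj)
            exact isDeg_of_mem (hmem j) q this.symm
      rw [← h1, h q hi]
    · exact isDeg_of_mem (hmem i) q hq
  rw [← hsum]
  refine Submodule.sum_mem _ fun i _ => ?_
  by_cases hi : i = p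
  · subst hi; exact hmem i
  · rw [hz i hi]; exact Submodule.zero_mem _

theorem IsDeg.mul {p q : ℕ} {a b : Ext E} (ha : IsDeg p a) (hb : IsDeg q b) :
    IsDeg (p + q) (a * b) := by
  refine isDeg_of_mem ?_
  have h1 := IsDeg.mem ha
  have h2 := IsDeg.mem hb
  exact SetLike.mul_mem_graded h1 h2

theorem IsDeg.sub {p : ℕ} {a b : Ext E} (ha : IsDeg p a) (hb : IsDeg p b) : IsDeg p (a - b) := by
  have : a - b = a + (-1 : ℝ) • b := by rw [neg_one_smul, sub_eq_add_neg]
  rw [this]; exact ha.add (hb.smul _)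

theorem isDeg_algebraMap (r : ℝ) : IsDeg 0 (algebraMap ℝ (Ext E) r) := by
  intro q hq
  obtain ⟨q, rfl⟩ := Nat.exists_eq_succ_of_ne_zero hq
  exact evA_succ_algebraMap q r

/-- complex forms of degree `p` -/
def DegC (p : ℕ) (z : CF E) : Prop := IsDeg p z.re ∧ IsDeg p z.im

theorem DegC.add {p : ℕ} {a b : CF E} (ha : DegC p a) (hb : DegC p b) : DegC p (a + b) :=
  ⟨ha.1.add hb.1, ha.2.add hb.2⟩

theorem DegC.zero {p : ℕ} : DegC p (0 : CF E) := ⟨IsDeg.zero, IsDeg.zero⟩

theorem DegC.sum {p : ℕ} {κ : Type*} (s : Finset κ) {a : κ → CF E} (h : ∀ i ∈ s, DegC p (a i)) :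
    DegC p (∑ i ∈ s, a i) := by
  classical
  induction s using Finset.induction_on with
  | empty => exact DegC.zero
  | insert j s hj ih =>
    rw [Finset.sum_insert hj]
    exact (h j (Finset.mem_insert_self _ _)).add (ih fun i hi => h i (Finset.mem_insert_of_mem hi))

theorem DegC.mul {p q : ℕ} {a b : CF E} (ha : DegC p a) (hb : DegC q b) : DegC (p + q) (a * b) :=
  ⟨IsDeg.sub (IsDeg.mul ha.1 hb.1) (IsDeg.mul ha.2 hb.2),
    (IsDeg.mul ha.1 hb.2).add (IsDeg.mul ha.2 hb.1)⟩

theorem degC_algebraMap (z : ℂ) : DegC 0 (algebraMap ℂ (CF E) z) := by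
  refine ⟨?_, ?_⟩
  · rw [Cx.algebraMap_re]; exact isDeg_algebraMap _
  · rw [Cx.algebraMap_im]; exact isDeg_algebraMap _

theorem degC_one : DegC 0 (1 : CF E) := by
  have := degC_algebraMap (E := E) 1
  rwa [map_one] at this

theorem degC_dC {g : E → ℂ} (x : E) : DegC 1 (dC (fun y => algebraMap ℂ (CF E) (g y)) x) := by
  refine ⟨?_, ?_⟩
  · exact IsDeg.d (p := 0) (Eventually.of_forall fun y => (degC_algebraMap (g y)).1)
  · exact IsDeg.d (p := 0) (Eventually.of_forall fun y => (degC_algebraMap (g y)).2)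

/-- matrices of forms of degree `p` -/
def MDeg {n m : Type*} (p : ℕ) (A : Matrix n m (CF E)) : Prop := ∀ i j, DegC p (A i j)

theorem MDeg.mul {n m l : Type*} [Fintype n] [Fintype m] [Fintype l] {p q : ℕ}
    {A : Matrix n m (CF E)} {B : Matrix m l (CF E)} (hA : MDeg p A) (hB : MDeg q B) :
    MDeg (p + q) (A * B) := fun i j => by
  rw [Matrix.mul_apply]
  exact DegC.sum _ fun a _ => (hA i a).mul (hB a j)

theorem mDeg_hat {n m : Type*} (M : Matrix n m ℂ) : MDeg 0 (hat E M) := fun i j =>
  degC_algebraMap _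

theorem mDeg_DD {n m : Type*} [Fintype n] [Fintype m] (M : E → Matrix n m ℂ) (x : E) :
    MDeg 1 (DD M x) := fun i j => degC_dC x

theorem degC_Om {n : Type*} [Fintype n] [DecidableEq n] (P : E → Matrix n n ℂ) (x : E) (a b : n) :
    DegC 2 (Om P x a b : CF E) := by
  have h : MDeg (0 + (1 + 1) + 0) (hat E (P x) * (DD P x * DD P x) * hat E (P x)) :=
    ((mDeg_hat _).mul ((mDeg_DD P x).mul (mDeg_DD P x))).mul (mDeg_hat _)
  rw [← vl_Om] at h
  exact h a b

theorem degC_prod {κ : Type*} (s : Finset κ) {a : κ → EvC E}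
    (h : ∀ j ∈ s, DegC 2 (a j : CF E)) : DegC (2 * s.card) ((∏ j ∈ s, a j : EvC E) : CF E) := by
  classical
  induction s using Finset.induction_on with
  | empty => simpa using degC_one (E := E)
  | insert j s hj ih =>
    rw [Finset.prod_insert hj, Finset.card_insert_of_notMem hj]
    have h1 := (h j (Finset.mem_insert_self _ _)).mul
      (ih fun i hi => h i (Finset.mem_insert_of_mem hi))
    have e : 2 + 2 * s.card = 2 * (s.card + 1) := by ring
    rw [e] at h1
    exact h1

theorem degC_ef {n ι : Type*} [Fintype n] [DecidableEq n] [Fintype ι] [DecidableEq ι]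
    (P : E → Matrix n n ℂ) (W : E → (ι × Fin 2 → n) → ℂ) (x : E) :
    DegC (2 * Fintype.card ι) (ef P W x) := by
  rw [ef_apply]
  refine DegC.sum _ fun I _ => ?_
  have h1 := (degC_algebraMap (E := E) (W x I)).mul
    (degC_prod Finset.univ fun j _ => degC_Om P x (I (j, 0)) (I (j, 1)))
  rwa [zero_add, Finset.card_univ] at h1

theorem DegC.pbC {F : Type*} [NormedAddCommGroup F] [NormedSpace ℝ F] [FiniteDimensional ℝ F]
    {p : ℕ} {z : CF F} (h : DegC p z) (A : E →ₗ[ℝ] F) : DegC p (CW.pbC A z) :=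
  ⟨h.1.pb A, h.2.pb A⟩

end deg

end Crest.Agent.R208.T
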