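import Crest.Agent.R208.THB2
import Crest.Agent.R208.THB3

/-! Row 208, block TH-B (helper854).  THB4: the Thom form `thomF` is closed with compact vertical
support, even, of degree `2 card ι`, and restricts to `2 e` on the zero section. -/

set_option autoImplicit false
set_option linter.unusedSectionVars false
set_option linter.unusedSimpArgs false
set_option linter.unusedVariables false

open MeasureTheory Set Filter Topology Module Matrix
open scoped ContDiff
open Crest.Agent.R208.F Crest.Agent.R208.FI Crest.Agent.R208.CW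

noncomputable section

namespace Crest.Agent.R208.T

variable {n ι : Type*} [Fintype n] [DecidableEq n] [Fintype ι] [DecidableEq ι]
  {E : Type*} [NormedAddCommGroup E] [NormedSpace ℝ E] [FiniteDimensional ℝ E]
  {d : ℕ} {X : Set E} {P : E → EuclideanSpace ℝ n →L[ℝ] EuclideanSpace ℝ n}
  {W : E → (ι × Fin 2 → n) → ℝ}

/-! ### the cut-off -/

theorem cut_contDiff : ContDiff ℝ ∞ (cut (n := n)) :=
  Real.smoothTransition.contDiff.comp (contDiff_const.sub (contDiff_norm_sq ℝ))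

theorem cut_of_le {v : EuclideanSpace ℝ n} (h : ‖v‖ ≤ 2) : cut v = 1 :=
  Real.smoothTransition.one_of_one_le (by nlinarith [norm_nonneg v])

theorem cut_of_ge {v : EuclideanSpace ℝ n} (h : 3 ≤ ‖v‖) : cut v = 0 :=
  Real.smoothTransition.zero_of_nonpos (by nlinarith)

/-! ### the two ingredients -/

theorem sMap_fst : SMap (Tot X P) X (Prod.fst : E × EuclideanSpace ℝ n → E) :=
  ⟨fun _ _ => contDiffAt_fst, fun _ hz => hz.1⟩

theorem OR.of_ue (h : OR X P W) :
    OF (Tot X P) (fun z : E × EuclideanSpace ℝ n => SS z.2 * mtx (P z.1) * (SS z.2)ᵀ)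
      (fun z => pushW (SS z.2) (wC W z.1)) :=
  ((OR.of h).comp sMap_fst).push (S := fun z : E × EuclideanSpace ℝ n => SS z.2)
    (fun z _ => (SM_SS z.2).comp contDiffAt_snd)
    (fun z hz => by
      rw [SS_transpose_mul, Matrix.mul_one]
      exact ((OR.of h).fr _ hz.1).idem)

/-- the pull-back of the complex Euler form -/
def eC (P : E → EuclideanSpace ℝ n →L[ℝ] EuclideanSpace ℝ n) (W : E → (ι × Fin 2 → n) → ℝ)
    (z : E × EuclideanSpace ℝ n) : CF (E × EuclideanSpace ℝ n) :=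
  pullC (Prod.fst : E × EuclideanSpace ℝ n → E) (ef (fun y => mtx (P y)) (wC W)) z

/-- complex Thom form -/
def thC (P : E → EuclideanSpace ℝ n →L[ℝ] EuclideanSpace ℝ n) (W : E → (ι × Fin 2 → n) → ℝ)
    (z : E × EuclideanSpace ℝ n) : CF (E × EuclideanSpace ℝ n) :=
  algebraMap ℂ (CF (E × EuclideanSpace ℝ n)) ((cut z.2 : ℝ) : ℂ) * (ue P W z + eC P W z)

theorem thC_re (z : E × EuclideanSpace ℝ n) : (thC P W z).re = thomF P W z := by
  rw [thC, thomF, Cx.mul_re, Cx.algebraMap_re, Cx.algebraMap_im, Complex.ofReal_re,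
    Complex.ofReal_im, map_zero, zero_mul, sub_zero, ← Algebra.smul_def]
  rfl

theorem ue_mem (h : OR X P W) : ue P W ∈ Z (Tot X P) := ef_mem_Z (OR.of_ue h)

theorem eC_mem (h : OR X P W) : eC P W ∈ Z (Tot X P) :=
  pullC_mem_Z sMap_fst (ef_mem_Z (OR.of h))

theorem eC_eq (h : OR X P W) {z : E × EuclideanSpace ℝ n} (hz : z.1 ∈ X) :
    eC P W z = ef (fun y : E × EuclideanSpace ℝ n => mtx (P y.1)) (fun y => wC W y.1) z :=
  pullC_ef contDiffAt_fst (((OR.of h).sP _ hz).of_le one_le_inf)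

/-! ### outside the unit ball -/

theorem rs_outside [Nonempty ι] (h : OR X P W) {z : E × EuclideanSpace ℝ n} (hz : z ∈ Tot X P)
    (hz1 : 1 < ‖z.2‖) : rs (Tot X P) z (ue P W z + eC P W z) = 0 := by
  set X' : Set (E × EuclideanSpace ℝ n) := {y | y ∈ Tot X P ∧ 1 < ‖y.2‖} with hX'
  have hopen : ∀ᶠ y : E × EuclideanSpace ℝ n in 𝓝 z, 1 < ‖y.2‖ :=
    (isOpen_lt continuous_const continuous_snd.norm).mem_nhds hz1
  refine rs_mono_zero (X' := X') (hopen.mono fun y hy hyT => ⟨hyT, hy⟩) ?_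
  have hzX' : z ∈ X' := ⟨hz, hz1⟩
  have h1 : OF X' (fun y => mtx (P y.1)) (fun y => wC W y.1) :=
    (OR.of h).comp ⟨fun _ _ => contDiffAt_fst, fun _ hy => hy.1.1⟩
  have h2 := h1.neg
  have hcol : ∀ y ∈ X', mtx (P y.1) * col y.2 = col y.2 := fun y hy => by
    rw [OR.mul_col h hy.1.1, hy.1.2]
  have hne : ∀ y ∈ X', y.2 ≠ 0 := fun y hy h0 => by
    have := hy.2
    rw [h0, norm_zero] at this
    linarith
  have hP : ∀ y ∈ X', SS y.2 * mtx (P y.1) * (SS y.2)ᵀ = S0 n * mtx (P y.1) * (S0 n)ᵀ := by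
    intro y hy
    have hc := Rf_conj (Fr.transpose_eq (h1.fr y hy)) (hne y hy) (hcol y hy)
    calc SS y.2 * mtx (P y.1) * (SS y.2)ᵀ
        = S0 n * (Rf y.2 * mtx (P y.1) * (Rf y.2)ᵀ) * (S0 n)ᵀ := by
          rw [SS_of_ge hy.2.le, transpose_mul]
          simp only [Matrix.mul_assoc]
      _ = _ := by rw [hc]
  have hW : pushW (SS z.2) (wC W z.1) = pushW (S0 n) (fun I => - wC W z.1 I) := by
    rw [SS_of_ge hz1.le, ← pushW_pushW, pushW_Rf (h1.fr z hzX') (hne z hzX') (hcol z hzX')]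
  have hs1 : SM 1 (fun y : E × EuclideanSpace ℝ n => SS y.2 * mtx (P y.1) * (SS y.2)ᵀ) z :=
    ((OR.of_ue h).sP z hz).of_le one_le_inf
  have hs2 : SM 1 (fun y : E × EuclideanSpace ℝ n => S0 n * mtx (P y.1) * (S0 n)ᵀ) z :=
    ((SM.const (S0 n)).mul ((h1.sP z hzX').of_le one_le_inf)).mul (SM.const _)
  have e1 : rs X' z (ue P W z) = rs X' z (ef (fun y : E × EuclideanSpace ℝ n =>
      S0 n * mtx (P y.1) * (S0 n)ᵀ) (fun y => pushW (S0 n) (fun I => - wC W y.1 I)) z) :=
    rs_ef_congr hzX' hs1 hs2 hP hW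
  rw [map_add, e1, rs_ef_const_push h2 S0_transpose_mul hzX', ef_neg, map_neg, eC_eq h hz.1,
    neg_add_cancel]

/-! ### the complex Thom form -/

theorem CD_thC (h : OR X P W) {z : E × EuclideanSpace ℝ n} (hz : z ∈ Tot X P) :
    CD ∞ (thC P W) z := by
  have h1 : ContDiffAt ℝ ∞ (fun y : E × EuclideanSpace ℝ n => ((cut y.2 : ℝ) : ℂ)) z :=
    Complex.ofRealCLM.contDiff.contDiffAt.comp z
      (cut_contDiff.contDiffAt.comp z contDiffAt_snd)
  exact (CD.of_fun h1).mul (((ue_mem h).2.1 z hz).add ((eC_mem h).2.1 z hz))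

theorem invC_thC (z : E × EuclideanSpace ℝ n) : invC (thC P W z) = thC P W z := by
  rw [thC, map_mul, invC_algebraMap, map_add]
  congr 2
  · exact EvC.inv _
  · rw [eC, pullC, ← pbC_invC]
    congr 1
    exact EvC.inv _

theorem degC_thC (z : E × EuclideanSpace ℝ n) : DegC (2 * Fintype.card ι) (thC P W z) := by
  have h := (degC_algebraMap (E := E × EuclideanSpace ℝ n) ((cut z.2 : ℝ) : ℂ)).mul
    ((degC_ef (fun z : E × EuclideanSpace ℝ n => SS z.2 * mtx (P z.1) * (SS z.2)ᵀ)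
      (fun z => pushW (SS z.2) (wC W z.1)) z).add
      ((degC_ef (fun y => mtx (P y)) (wC W) z.1).pbC
        ((fderiv ℝ (Prod.fst : E × EuclideanSpace ℝ n → E) z : _ →L[ℝ] E) : _ →ₗ[ℝ] E)))
  rwa [zero_add] at h

theorem rs_dC_thC [Nonempty ι] (hX : Sub d X) (h : OR X P W) {z : E × EuclideanSpace ℝ n}
    (hz : z ∈ Tot X P) : rs (Tot X P) z (dC (thC P W) z) = 0 := by
  rcases lt_or_ge ‖z.2‖ 2 with h2 | h2
  · have hopen : ∀ᶠ y : E × EuclideanSpace ℝ n in 𝓝 z, ‖y.2‖ < 2 :=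
      (isOpen_lt continuous_snd.norm continuous_const).mem_nhds h2
    have he : thC P W =ᶠ[𝓝 z] ue P W + eC P W := hopen.mono fun y hy => by
      rw [thC, cut_of_le hy.le, Complex.ofReal_one, map_one, one_mul]; rfl
    rw [dC_congr he]
    exact ((Z (Tot X P)).add_mem (ue_mem h) (eC_mem h)).2.2 z hz
  · have hopen : ∀ᶠ y : E × EuclideanSpace ℝ n in 𝓝 z, 1 < ‖y.2‖ :=
      (isOpen_lt continuous_const continuous_snd.norm).mem_nhds (by
        change 1 < ‖z.2‖; linarith)
    refine rs_dC_zero ((OR.pfield h).sub_tot hX) hz ((CD_thC h hz).of_le one_le_inf) ?_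
    filter_upwards [hopen] with y hy hyT
    rw [thC, map_mul, rs_outside h hyT hy, mul_zero]

/-! ### the Thom form -/

/-- **TH-B (1)** -/
theorem csf_thomF [Nonempty ι] (hX : Sub d X) (h : OR X P W) : CSF X P 3 (thomF P W) := by
  have he : thomF P W = fun z => (thC P W z).re := funext fun z => (thC_re z).symm
  refine ⟨fun z hz => ?_, fun z hz => ?_, fun z hz => ?_⟩
  · rw [he]; exact (CD_thC h hz).re
  · rw [thomF, cut_of_ge hz.le, zero_smul]
  · have h1 := congrArg Cx.re (rs_dC_thC hX h hz)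
    rw [he]
    exact h1

/-- **TH-B (2)** -/
theorem thomF_even (z : E × EuclideanSpace ℝ n) : F.inv (thomF P W z) = thomF P W z := by
  rw [← thC_re]
  exact congrArg Cx.re (invC_thC z)

/-- **TH-B (3)** -/
theorem thomF_deg (z : E × EuclideanSpace ℝ n) : IsDeg (2 * Fintype.card ι) (thomF P W z) := by
  rw [← thC_re]
  exact (degC_thC z).1

theorem rs_pullC_thC (h : OR X P W) {x : E} (hx : x ∈ X) :
    rs X x (pullC (fun x : E => ((x, 0) : E × EuclideanSpace ℝ n)) (thC P W) x)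
      = rs X x (ef (fun y => mtx (P y)) (wC W) x + ef (fun y => mtx (P y)) (wC W) x) := by
  have hi : ContDiffAt ℝ 2 (fun x : E => ((x, 0) : E × EuclideanSpace ℝ n)) x := by fun_prop
  have h0 : ((x, 0) : E × EuclideanSpace ℝ n) ∈ Tot X P := ⟨hx, map_zero _⟩
  have e1 : pullC (fun x : E => ((x, 0) : E × EuclideanSpace ℝ n)) (thC P W) x
      = pullC (fun x : E => ((x, 0) : E × EuclideanSpace ℝ n)) (ue P W) x
        + pullC (fun x : E => ((x, 0) : E × EuclideanSpace ℝ n)) (eC P W) x := by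
    simp only [pullC, thC]
    rw [map_mul, pbC_algebraMap, cut_of_le (by simp), Complex.ofReal_one, map_one, one_mul, map_add]
  have e2 : pullC (fun x : E => ((x, 0) : E × EuclideanSpace ℝ n)) (ue P W) x
      = ef (fun y => SS (0 : EuclideanSpace ℝ n) * mtx (P y) * (SS (0 : EuclideanSpace ℝ n))ᵀ)
        (fun y => pushW (SS (0 : EuclideanSpace ℝ n)) (wC W y)) x :=
    pullC_ef hi (((OR.of_ue h).sP _ h0).of_le one_le_inf)
  have e3 : pullC (fun x : E => ((x, 0) : E × EuclideanSpace ℝ n)) (eC P W) x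
      = ef (fun y => mtx (P y)) (wC W) x := by
    have h1 : pullC (fun x : E => ((x, 0) : E × EuclideanSpace ℝ n)) (eC P W) x
        = pullC (fun x : E => ((x, 0) : E × EuclideanSpace ℝ n))
          (ef (fun y : E × EuclideanSpace ℝ n => mtx (P y.1)) (fun y => wC W y.1)) x := by
      rw [pullC, pullC, eC_eq h (z := (x, 0)) hx]
    rw [h1]
    exact pullC_ef hi ((((OR.of h).sP _ hx).comp (f := Prod.fst) (y := ((x, 0) : E × EuclideanSpace ℝ n))
      contDiffAt_fst).of_le one_le_inf)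
  rw [e1, map_add, e2, e3, rs_ef_const_push (OR.of h) (SS_transpose_mul 0) hx, map_add]

/-- **TH-B (4)** -/
theorem thomF_zero (h : OR X P W) :
    Eqv X (F.pull (fun x => ((x, 0) : E × EuclideanSpace ℝ n)) (thomF P W))
      ((2 : ℝ) • eR P W) := by
  refine eqv_iff.2 fun x hx => ?_
  have he : thomF P W = fun z => (thC P W z).re := funext fun z => (thC_re z).symm
  rw [he]
  have h1 := congrArg Cx.re (rs_pullC_thC h hx)
  refine h1.trans ?_
  rw [Pi.smul_apply, two_smul]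
  rfl

end Crest.Agent.R208.T
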