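import Crest.Agent.R208.SB1
import Crest.Agent.R208.FV6
import Crest.Agent.R208.FG1d
import Crest.Agent.R208.CW6b
import Crest.Agent.R208.THB4
import Crest.Agent.R208.GP1b

/-! Row 208, block SB (helper349), part SB2: orientations of fields (`OPr`) from `T.OR` and from
unit tensors, oriented submersions along diffeomorphisms, the instances `F → S` (both projections),
`US → F`, `US → S`. -/

set_option autoImplicit false
set_option linter.unusedSectionVars false

open Set Filter Topology Module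
open scoped ContDiff RealInnerProductSpace
open Crest.GeometryTopology.Submanifold
open Crest.Agent.R241.DDefs
open Crest.Agent.R241.D2
open Crest.Agent.R208.F Crest.Agent.R208.FI Crest.Agent.R208.T Crest.Agent.R208.FG
open Crest.Agent.R208.CW (SMap)

noncomputable section

namespace Crest.Agent.R208.SB

/-! ### `OPr` from `T.OR` -/
section orient
variable {n ι : Type*} [Fintype n] [DecidableEq n] [Fintype ι] [DecidableEq ι]
  {E : Type*} [NormedAddCommGroup E] [NormedSpace ℝ E] [FiniteDimensional ℝ E] {X : Set E}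
  {P : E → EuclideanSpace ℝ n →L[ℝ] EuclideanSpace ℝ n} {W : E → (ι × Fin 2 → n) → ℝ} {r : ℕ}

/-- coordinate covector -/
def cvn (i : n) : Module.Dual ℝ (EuclideanSpace ℝ n) :=
  ((EuclideanSpace.proj i : EuclideanSpace ℝ n →L[ℝ] ℝ) : Module.Dual ℝ (EuclideanSpace ℝ n))

@[simp] theorem cvn_apply (i : n) (v : EuclideanSpace ℝ n) : cvn i v = v i := rfl

/-- the form of degree `r = 2 card ι` given by an orientation tensor -/
def oW (φ : ι × Fin 2 ≃ Fin r) (W : (ι × Fin 2 → n) → ℝ) : Ext (EuclideanSpace ℝ n) :=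
  ∑ I, W I • ExteriorAlgebra.ιMulti ℝ r (fun k => cvn (I (φ.symm k)))

theorem isDeg_oW (φ : ι × Fin 2 ≃ Fin r) (W : (ι × Fin 2 → n) → ℝ) : IsDeg r (oW φ W) :=
  IsDeg.sum _ fun _ _ => (IsDeg.iMulti _).smul _

/-- column of a frame -/
def colE (f : Matrix n (ι × Fin 2) ℝ) (p : ι × Fin 2) : EuclideanSpace ℝ n :=
  WithLp.toLp 2 fun i => f i p

/-- evaluation as a linear map -/
def evL {E : Type*} [NormedAddCommGroup E] [NormedSpace ℝ E] [FiniteDimensional ℝ E] (r : ℕ)
    (v : Fin r → E) : Ext E →ₗ[ℝ] ℝ where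
  toFun c := evA E r c v
  map_add' a b := by simp
  map_smul' a b := by simp

open Matrix in
theorem evA_oW (φ : ι × Fin 2 ≃ Fin r) {W : (ι × Fin 2 → n) → ℝ} {f : Matrix n (ι × Fin 2) ℝ}
    (hW : ∀ I, W I = (f.submatrix I id).det) :
    evA _ r (oW φ W) (fun k => colE f (φ.symm k)) = ∑ I, W I * W I := by
  have h0 : evA _ r (oW φ W) (fun k => colE f (φ.symm k))
      = evL r (fun k => colE f (φ.symm k)) (oW φ W) := rfl
  rw [h0, oW, map_sum]
  refine Finset.sum_congr rfl fun I _ => ?_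
  rw [map_smul, smul_eq_mul]
  congr 1
  change evA _ r (ExteriorAlgebra.ιMulti ℝ r (fun k => cvn (I (φ.symm k))))
    (fun k => colE f (φ.symm k)) = _
  rw [evA_iMulti]
  have : (Matrix.of fun i j : Fin r => cvn (I (φ.symm j)) (colE f (φ.symm i)))
      = ((f.submatrix I id)ᵀ).submatrix φ.symm φ.symm := by
    ext i j; rfl
  rw [this, Matrix.det_submatrix_equiv_self, Matrix.det_transpose, hW]

open Matrix in
/-- **orientation form of an oriented field** -/
theorem opr_of_OR (φ : ι × Fin 2 ≃ Fin r) (h : OR X P W) : OPr X r P (fun x => oW φ (W x)) := by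
  have hr : 2 * Fintype.card ι = r := by
    have := Fintype.card_congr φ
    rw [Fintype.card_prod, Fintype.card_fin, Fintype.card_fin] at this
    omega
  have hP : PField X r P := hr ▸ h.pfield
  refine OPr.of hP (fun x hx => ?_) (fun x => isDeg_oW φ _) (fun x hx => ?_)
  · refine ContDiffAt.sum fun I _ => ?_
    exact (h.sW x hx I).smul contDiffAt_const
  · obtain ⟨f, hf, hPf, hW⟩ := h.fr x hx
    refine ⟨fun k => colE f (φ.symm k), fun k => ?_, ?_⟩
    · ext i
      rw [hPf]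
      have h1 : ∑ j, (f * fᵀ) i j * colE f (φ.symm k) j = (f * fᵀ * f) i (φ.symm k) := by
        rw [Matrix.mul_apply (M := f * fᵀ)]
        rfl
      rw [h1, Matrix.mul_assoc, hf, Matrix.mul_one]
      rfl
    · rw [evA_oW φ hW]
      intro h0
      have h1 : ∀ I, W x I = 0 := by
        intro I
        have := (Finset.sum_eq_zero_iff_of_nonneg (fun I _ => mul_self_nonneg (W x I))).1 h0 I
          (Finset.mem_univ _)
        exact mul_self_eq_zero.1 this
      have h2 := CW.det_mul_expand fᵀ f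
      rw [hf, det_one] at h2
      have h3 : ∑ I : ι × Fin 2 → n, (∏ p, fᵀ p (I p)) * (f.submatrix I id).det = 0 :=
        Finset.sum_eq_zero fun I _ => by rw [← hW, h1, mul_zero]
      rw [h3] at h2
      exact one_ne_zero h2

end orient

/-- orientation form from unit tensors -/
theorem opr_of_ten {E : Type*} [NormedAddCommGroup E] [NormedSpace ℝ E] [FiniteDimensional ℝ E]
    {X : Set E} {N r : ℕ} {P : E → EuclideanSpace ℝ (Fin N) →L[ℝ] EuclideanSpace ℝ (Fin N)}
    (hP : PField X r P) {w : E → GP.Ten r N} (hw : ∀ x ∈ X, ContDiffAt ℝ ∞ w x)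
    (h : ∀ x ∈ X, ∃ e : Fin r → EuclideanSpace ℝ (Fin N), Orthonormal ℝ e ∧
      (∀ a, P x (e a) = e a) ∧ w x = GP.udt e) : OPr X r P (fun x => GP.fm r N (w x)) := by
  refine OPr.of hP (fun x hx => (GP.fmL r N).contDiff.contDiffAt.comp x (hw x hx))
    (fun x => GP.isDeg_fm _) fun x hx => ?_
  obtain ⟨e, he, heP, hwe⟩ := h x hx
  refine ⟨e, heP, ?_⟩
  rw [hwe, GP.evA_fm_udt he]
  exact (GP.sqrt_fact_pos _).ne'

/-! ### diffeomorphisms -/
section dif
variable {E E' B : Type*} [NormedAddCommGroup E] [NormedSpace ℝ E] [FiniteDimensional ℝ E]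
  [NormedAddCommGroup E'] [NormedSpace ℝ E'] [FiniteDimensional ℝ E']
  [NormedAddCommGroup B] [NormedSpace ℝ B] [FiniteDimensional ℝ B]
  {X : Set E} {Z : Set E'} {Y : Set B} {g : E' → E} {g' : E → E'} {f : E → B} {r b : ℕ}
  {oV : E → Ext E} {oY : B → Ext B}

/-- `g : Z → X` is a diffeomorphism with inverse `g'` -/
structure Dif (Z : Set E') (X : Set E) (g : E' → E) (g' : E → E') : Prop where
  fw : SMap Z X g
  inv : SMap X Z g'
  left : ∀ z ∈ Z, g' (g z) = z
  right : ∀ x ∈ X, g (g' x) = x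

theorem Dif.symm (h : Dif Z X g g') : Dif X Z g' g := ⟨h.inv, h.fw, h.right, h.left⟩

theorem Dif.fd_left (h : Dif Z X g g') {z : E'} (hz : z ∈ Z) {v : E'} (hv : v ∈ Tan Z z) :
    fderiv ℝ g' (g z) (fderiv ℝ g z v) = v := by
  have h1 : DifferentiableAt ℝ g z := h.fw.diff hz
  have h2 : DifferentiableAt ℝ g' (g z) := h.inv.diff (h.fw.maps hz)
  have h3 := GP.fderiv_eq_of_id (f := g' ∘ g) (h2.comp z h1)
    (Eventually.of_forall fun y hy => h.left y hy) hv
  rw [fderiv_comp z h2 h1] at h3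
  exact h3

theorem Dif.fd_right (h : Dif Z X g g') {z : E'} (hz : z ∈ Z) {w : E} (hw : w ∈ Tan X (g z)) :
    fderiv ℝ g z (fderiv ℝ g' (g z) w) = w := by
  have h1 := h.symm.fd_left (h.fw.maps hz) hw
  rwa [h.left z hz] at h1

theorem Dif.inj (h : Dif Z X g g') {z : E'} (hz : z ∈ Z) {v : E'} (hv : v ∈ Tan Z z)
    (h0 : fderiv ℝ g z v = 0) : v = 0 := by
  rw [← h.fd_left hz hv, h0, map_zero]

theorem Dif.subm (h : Dif Z X g g') (hZ : Clo (r + b) Z) (hf : Subm r b X Y f) :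
    Subm r b Z Y (f ∘ g) where
  cloZ := hZ
  cloX := hf.cloX
  smooth z hz := (hf.smooth _ (h.fw.maps hz)).comp z (h.fw.smooth z hz)
  mapsTo z hz := hf.mapsTo (h.fw.maps hz)
  sub := by
    intro z hz w hw
    obtain ⟨v, hv, hvw⟩ := hf.sub _ (h.fw.maps hz) w hw
    refine ⟨fderiv ℝ g' (g z) v, ?_, ?_⟩
    · have := fderiv_mapsTo_Tan (h.inv.diff (h.fw.maps hz)) h.inv.maps hv
      rwa [h.left z hz] at this
    · have h1 : DifferentiableAt ℝ g z := h.fw.diff hz
      have h2 : DifferentiableAt ℝ f (g z) := (hf.smooth _ (h.fw.maps hz)).differentiableAt (by simp)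
      rw [fderiv_comp z h2 h1, ContinuousLinearMap.comp_apply, h.fd_right hz hv, hvw]

theorem Dif.cont_pull (h : Dif Z X g g') {om : E → Ext E} (ho : ContinuousOn om X) :
    ContinuousOn (F.pull g om) Z :=
  FI.continuousOn_pull (fun x hx => (h.fw.smooth x hx).continuousAt.continuousWithinAt)
    (fun x hx => (((h.fw.smooth x hx).fderiv_right (m := 0)
      (by exact_mod_cast le_top)).continuousAt).continuousWithinAt) h.fw.maps ho

theorem Dif.osubm (h : Dif Z X g g') (hZ : Clo (r + b) Z) (hf : OSubm r b X Y f oV oY) :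
    OSubm r b Z Y (f ∘ g) (F.pull g oV) oY where
  subm := h.subm hZ hf.subm
  cV := h.cont_pull hf.cV
  base := hf.base
  dY := hf.dY
  tot := by
    have h1 := Ori.pull hZ hf.subm.cloZ (fun x hx => (h.fw.smooth x hx).of_le (by exact_mod_cast le_top))
      h.fw.maps (fun x hx v hv h0 => h.inj hx hv h0) hf.tot
    refine ⟨?_, ?_⟩
    · refine h1.cont.congr fun z hz => ?_
      rw [pull_mul, pull_comp (h.fw.diff hz)
        ((hf.subm.smooth _ (h.fw.maps hz)).differentiableAt (by simp))]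
    · intro z hz
      have h2 := h1.ne z hz
      rwa [pull_mul, pull_comp (h.fw.diff hz)
        ((hf.subm.smooth _ (h.fw.maps hz)).differentiableAt (by simp))] at h2

end dif

/-! ### instances -/
section inst
open Crest.Agent.R208.L (US)
open Crest.Agent.R208.FV (phi PVB up dn)

variable {n N k : ℕ} {κ : ℝ} {S : Set (Euc N)} {G : Geo n N κ S}

theorem dif_swap : Dif (GT.FF S) (GT.FF S) (Prod.swap : Euc N × Euc N → _) Prod.swap where
  fw := ⟨fun _ _ => contDiffAt_snd.prodMk contDiffAt_fst, fun z hz =>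
    ⟨hz.2.1, hz.1, by rw [intrinsicDist_comm]; exact hz.2.2⟩⟩
  inv := ⟨fun _ _ => contDiffAt_snd.prodMk contDiffAt_fst, fun z hz =>
    ⟨hz.2.1, hz.1, by rw [intrinsicDist_comm]; exact hz.2.2⟩⟩
  left _ _ := rfl
  right _ _ := rfl

/-- orientation form of `V` -/
theorem exists_opr_V (h : GT.Bla G k) (hk : 2 ≤ k) (hkn : k < n) :
    ∃ oP, OPr (GT.FF S) k (PVB h) oP := by
  obtain ⟨w, h1, h2⟩ := GP.exists_orient_V h.bl h.ty hk (by omega) (FV.sub_S h.bl)
  refine ⟨_, opr_of_ten (FV.pfield_PVB h) h1 fun z hz => ?_⟩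
  obtain ⟨e, he, heV, hwe⟩ := h2 z hz
  exact ⟨e, he.on, fun a => (FV.PV_eq_self h.bl h.ty (FV.sub_S h.bl) hz).2 (heV a), hwe⟩

/-- orientation form of `TM` -/
theorem exists_opr_S (h : GT.Bla G k) (hk : 2 ≤ k) : ∃ oP, OPr S n G.P oP := by
  obtain ⟨w, h1, h2⟩ := GP.exists_orient h.bl h.ty hk
  refine ⟨_, opr_of_ten (LB.pfield (G := G)) h1 fun z hz => ?_⟩
  obtain ⟨e, he, heV, hwe⟩ := h2 z hz
  exact ⟨e, he.on, fun a => (P_eq_self G hz).1 (heV a), hwe⟩

theorem dif_US (h : GT.Bla G k) : Dif (US G) (T.Sph (GT.FF S) (PVB h)) (up G) dn where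
  fw := by have := FV.smap_up h; rwa [FV.Sph_S] at this
  inv := by have := FV.smap_dn h; rwa [FV.Sph_S] at this
  left _ _ := rfl
  right _ hz := FV.up_dn h hz

theorem clo_US (h : GT.Bla G k) {d : ℕ} (hd : d + 1 = 2 * n) : Clo d (US G) :=
  LB.clo_US (FV.sub_S h.bl) h.bl.cpt hd

/-- **`US → F` is an oriented submersion** (fibres `S(V)`), with a smooth vertical form. -/
theorem exists_osubm_phi (h : GT.Bla G k) (hk : 2 ≤ k) (hkn : k < n) {d : ℕ} (hd : d + k = 2 * n)
    {oF : Euc N × Euc N → Ext (Euc N × Euc N)} (ho : Ori d (GT.FF S) oF)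
    (hoF : ∀ x, IsDeg d (oF x)) :
    ∃ oW : Euc N × Euc N → Ext (Euc N × Euc N), (∀ z ∈ US G, ContDiffAt ℝ ∞ oW z) ∧
      (∀ z, IsDeg (k - 1) (oW z)) ∧ OSubm (k - 1) d (US G) (GT.FF S) (phi G) oW oF := by
  obtain ⟨r, rfl⟩ : ∃ r, k = r + 1 := ⟨k - 1, by omega⟩
  obtain ⟨oP, hoP⟩ := exists_opr_V h hk hkn
  have h1 := osubm_Sph (FV.clo_FF' h hd) (FV.pfield_PVB h) hoP ho hoF
  have h2 := (dif_US h).osubm (clo_US h (d := r + d) (by omega)) h1
  refine ⟨_, fun z hz => ?_, fun z => ?_, h2⟩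
  · have h3 : ContDiffAt ℝ ∞ (up G) z := (dif_US h).fw.smooth z hz
    exact contDiffAt_pull h3 (by simp) (contDiffAt_oV hoP ((dif_US h).fw.maps hz).1.1)
  · exact (isDeg_oV hoP _).pb _

/-- **`US → S` is an oriented submersion** (fibres the unit spheres) -/
theorem exists_osubm_fst (h : GT.Bla G k) (hk : 2 ≤ k) {oS : Euc N → Ext (Euc N)}
    (ho : Ori n S oS) (hoS : ∀ x, IsDeg n (oS x)) :
    ∃ oW : Euc N × Euc N → Ext (Euc N × Euc N), (∀ z ∈ US G, ContDiffAt ℝ ∞ oW z) ∧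
      (∀ z, IsDeg (n - 1) (oW z)) ∧ OSubm (n - 1) n (US G) S Prod.fst oW oS := by
  obtain ⟨r, hr⟩ : ∃ r, n = r + 1 := ⟨n - 1, by have := h.bl.hn; omega⟩
  obtain ⟨oP, hoP⟩ := exists_opr_S h hk
  have hP : PField S (n - 1 + 1) G.P := by
    have := LB.pfield (G := G) 
    rwa [show n - 1 + 1 = n by omega]
  have hoP' : OPr S (n - 1 + 1) G.P oP := by rwa [show n - 1 + 1 = n by omega]
  have h1 := osubm_Sph (GP.clo_S h.bl) hP hoP' ho hoS
  rw [FV.Sph_S] at h1
  exact ⟨_, fun z hz => contDiffAt_oV hoP' hz.1.1, fun z => isDeg_oV hoP' z, h1⟩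

/-- **`F → S`, `(p,q) ↦ p`, is an oriented submersion**, with a smooth vertical form of the form
`(p,q) ↦ snd^* w(p,q)`; `w(p,·)` orients `C_p`. -/
theorem exists_osubm_F (h : GT.Bla G k) (hk : 2 ≤ k) (hkn : k < n) {oS : Euc N → Ext (Euc N)}
    (hoS : Ori n S oS) (hd : ∀ x, IsDeg n (oS x)) :
    ∃ w : Euc N × Euc N → Ext (Euc N), (∀ z ∈ GT.FF S, ContDiffAt ℝ ∞ w z) ∧
      (∀ z, IsDeg (n - k) (w z)) ∧
      (∀ p ∈ S, Ori (n - k) (GP.Cut S p) (fun q => w (p, q))) ∧
      OSubm (n - k) n (GT.FF S) S Prod.fst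
        (fun z => pb (ContinuousLinearMap.snd ℝ (Euc N) (Euc N) : Euc N × Euc N →ₗ[ℝ] Euc N) (w z))
        oS := by
  obtain ⟨w, hw, hwe⟩ := exists_orient_TC h hk hkn
  have hws : ∀ z ∈ GT.FF S, ContDiffAt ℝ ∞ (fun z => GP.fm (n - k) N (w z)) z := fun z hz =>
    (GP.fmL (n - k) N).contDiff.contDiffAt.comp z (hw z hz)
  have hc0 : ContinuousOn (fun z : Euc N × Euc N =>
      pb (ContinuousLinearMap.snd ℝ (Euc N) (Euc N) : Euc N × Euc N →ₗ[ℝ] Euc N)
        (GP.fm (n - k) N (w z))) (GT.FF S) := by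
    have h1 : ContinuousOn w (GT.FF S) := fun z hz => (hw z hz).continuousAt.continuousWithinAt
    exact (pbL (ContinuousLinearMap.snd ℝ (Euc N) (Euc N))).continuous.comp_continuousOn
      ((GP.fmL (n - k) N).continuous.comp_continuousOn h1)
  refine ⟨fun z => GP.fm (n - k) N (w z), hws, fun z => GP.isDeg_fm _, ?_,
    ⟨FV.subm_fst h, hc0, ?_, hoS, hd⟩⟩
  · intro p hp
    refine ori_of (FV.clo_Cut h hp) ?_ ?_
    · intro q hq
      have h1 : ContDiffAt ℝ ∞ (fun q : Euc N => (p, q)) q := contDiffAt_const.prodMk contDiffAt_id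
      exact ((hws (p, q) ⟨hp, hq.1, hq.2⟩).comp q h1).continuousAt.continuousWithinAt
    · intro q hq
      obtain ⟨e, he, heT, hwz⟩ := hwe (p, q) ⟨hp, hq.1, hq.2⟩
      refine ⟨e, fun i => ?_, ?_⟩
      · have := heT i
        rwa [← FV.Tan_Cut h ⟨hp, hq.1, hq.2⟩] at this
      · change evA _ (n - k) (GP.fm (n - k) N (w (p, q))) e ≠ 0
        rw [hwz, GP.evA_fm_udt he]
        exact (GP.sqrt_fact_pos _).ne'
  have hclo := (FV.subm_fst h).cloZ
  refine ori_of hclo ?_ ?_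
  · exact continuousOn_mul hc0 ((FV.subm_fst h).continuousOn_pull hoS.cont)
  · rintro ⟨p, q⟩ hz
    obtain ⟨e, he, heT, hwz⟩ := hwe (p, q) hz
    set ξ : Fin n → Euc N := frame n S p with hξ
    have hξT : ∀ i, ξ i ∈ G.T p := fun i => by
      have := (frame_isFrame (((GP.clo_S h.bl).finrank_Tan hz.1))).2 i
      rwa [LB.Tan_S (G := G) (FV.sub_S h.bl) hz.1] at this
    have hξ0 : evA _ n (oS p) ξ ≠ 0 := hoS.ne p hz.1
    refine ⟨Fin.append (fun a => ((0 : Euc N), e a))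
      (fun i => (ξ i, -GT.lf G p q ((GT.Vs G p q).starProjection (ξ i)))), ?_, ?_⟩
    · intro i
      refine Fin.addCases (fun i => ?_) (fun i => ?_) i
      · rw [Fin.append_left]
        exact (FV.inr_mem_Tan_FF h hz).2 (heT i)
      · rw [Fin.append_right]
        exact FV.exists_lift_fst h hz (hξT i)
    · rw [pull_fst_apply,
        evA_mul_pb (ContinuousLinearMap.fst ℝ (Euc N) (Euc N) : Euc N × Euc N →ₗ[ℝ] Euc N) (oS p)
          (fun q' hq' => hd p q' (by omega))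
          (fun i => (ξ i, -GT.lf G p q ((GT.Vs G p q).starProjection (ξ i)))) _
          (fun a => ((0 : Euc N), e a)) (fun i => rfl), evA_pb]
      refine mul_ne_zero ?_ hξ0
      change evA _ (n - k) (GP.fm (n - k) N (w (p, q))) e ≠ 0
      rw [hwz, GP.evA_fm_udt he]
      exact (GP.sqrt_fact_pos _).ne'

/-- the same for `(p,q) ↦ q` -/
theorem exists_osubm_F' (h : GT.Bla G k) (hk : 2 ≤ k) (hkn : k < n) {oS : Euc N → Ext (Euc N)}
    (hoS : Ori n S oS) (hd : ∀ x, IsDeg n (oS x)) :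
    ∃ oV : Euc N × Euc N → Ext (Euc N × Euc N), (∀ z ∈ GT.FF S, ContDiffAt ℝ ∞ oV z) ∧
      (∀ z, IsDeg (n - k) (oV z)) ∧ OSubm (n - k) n (GT.FF S) S Prod.snd oV oS := by
  obtain ⟨w, hw, hwd, -, h1⟩ := exists_osubm_F h hk hkn hoS hd
  have h2 := (dif_swap (S := S)).osubm h1.subm.cloZ h1
  refine ⟨_, fun z hz => ?_, fun z => ?_, h2⟩
  · have h3 : ContDiffAt ℝ ∞ (Prod.swap : Euc N × Euc N → _) z := (dif_swap (S := S)).fw.smooth z hz
    refine contDiffAt_pull h3 (by simp) ?_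
    exact (pbL (ContinuousLinearMap.snd ℝ (Euc N) (Euc N))).contDiff.contDiffAt.comp _
      (hw _ ((dif_swap (S := S)).fw.maps hz))
  · exact ((hwd _).pb _).pb _

end inst

end Crest.Agent.R208.SB
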