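import Crest.Agent.R208.F1c

/-! Row 208, block F2 (helper198), part FH2: evaluation of `b * π^*a` on fibre vectors followed by
horizontal vectors, and the measure preserving splitting `ℝ^(r+d) = ℝ^r × ℝ^d`. -/

set_option autoImplicit false
set_option linter.unusedSectionVars false

open MeasureTheory Set Filter Topology Module
open Crest.Agent.R208.F

noncomputable section

namespace Crest.Agent.R208.FI

section alg
variable {E F : Type*} [AddCommGroup E] [Module ℝ E] [AddCommGroup F] [Module ℝ F]

theorem evA_cast {p q : ℕ} (h : q = p) (c : Ext E) (v : Fin p → E) :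
    evA E q c (v ∘ Fin.cast h) = evA E p c v := by
  subst h; rfl

theorem evA_zero_io_mul (l : Module.Dual ℝ E) (c : Ext E) (v : Fin 0 → E) :
    evA E 0 (io l * c) v = 0 := by
  let f : Ext E →ₗ[ℝ] ℝ :=
    { toFun := fun c => evA E 0 (io l * c) v
      map_add' := fun a b => by simp [mul_add]
      map_smul' := fun r a => by simp }
  refine ext_lin (f := f) (g := 0) (fun p m => ?_) c
  change evA E 0 (io l * _) v = 0
  rw [io_mul_iMulti, evA_iMulti_ne (by omega)]; rfl

/-- if `a` has no components of degree `< d`, neither has `x * π^*a`. -/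
theorem evA_mul_pb_low {d : ℕ} (P : E →ₗ[ℝ] F) (a : Ext F) (ha : ∀ q < d, evA F q a = 0)
    (x : Ext E) : ∀ q < d, ∀ v : Fin q → E, evA E q (x * pb P a) v = 0 := by
  induction x using ind with
  | h0 r =>
    intro q hq v
    rw [← Algebra.smul_def, map_smul, AlternatingMap.smul_apply, evA_pb, ha q hq]
    simp
  | hadd x y hx hy =>
    intro q hq v
    rw [add_mul, map_add, AlternatingMap.add_apply, hx q hq, hy q hq, add_zero]
  | hmul x l hx =>
    intro q hq v
    rw [mul_assoc]
    cases q with
    | zero => exact evA_zero_io_mul l _ v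
    | succ q =>
      rw [evA_io_mul]
      refine Finset.sum_eq_zero fun i _ => ?_
      rw [hx q (by omega), mul_zero]

theorem evA_mul_pb_zero {d : ℕ} (P : E →ₗ[ℝ] F) (a : Ext F) (ha : ∀ q < d, evA F q a = 0)
    (x : Ext E) (v : Fin d → E) (w : Fin 0 → E) :
    evA E d (x * pb P a) v = evA E 0 x w * evA F d a fun i => P (v i) := by
  induction x using ind with
  | h0 r =>
    rw [← Algebra.smul_def, map_smul, AlternatingMap.smul_apply, evA_pb, evA_zero_algebraMap,
      smul_eq_mul]
  | hadd x y hx hy =>
    rw [add_mul, map_add, AlternatingMap.add_apply, hx, hy, map_add, AlternatingMap.add_apply,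
      add_mul]
  | hmul x l hx =>
    rw [mul_assoc, evA_zero_io_mul, zero_mul]
    cases d with
    | zero => exact evA_zero_io_mul l _ v
    | succ q =>
      rw [evA_io_mul]
      refine Finset.sum_eq_zero fun i _ => ?_
      rw [evA_mul_pb_low P a ha x q (by omega), mul_zero]

/-- **evaluation of `b ∧ π^*a`** on `(w, v)` with `w` vertical: if `a` has no components of degree
`< d` then it is `b(w) a(π v)`. -/
theorem evA_mul_pb {d : ℕ} (P : E →ₗ[ℝ] F) (a : Ext F) (ha : ∀ q < d, evA F q a = 0)
    (v : Fin d → E) {r : ℕ} : ∀ (b : Ext E) (w : Fin r → E), (∀ i, P (w i) = 0) →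
    evA E (r + d) (b * pb P a) (Fin.append w v) = evA E r b w * evA F d a fun i => P (v i) := by
  induction r with
  | zero =>
    intro b w _
    have h0 : Fin.append w v = v ∘ Fin.cast (Nat.zero_add d) := by
      rw [Fin.append_left_nil _ _ rfl]
    rw [h0, evA_cast]
    exact evA_mul_pb_zero P a ha b v w
  | succ r ih =>
    intro b w hw
    have h1 : Fin.append w v = (Matrix.vecCons (w 0) (Fin.append (fun i => w i.succ) v)) ∘
        Fin.cast (by omega : r + 1 + d = r + d + 1) := by
      have : w = Fin.cons (w 0) (fun i => w i.succ) := by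
        funext i; refine Fin.cases ?_ (fun i => ?_) i <;> simp
      conv_lhs => rw [this]
      rw [Fin.append_cons]
      rfl
    rw [h1, evA_cast, evA_ii, ii_mul, ii_pb, hw 0]
    rw [map_zero (ii (E := F)), LinearMap.zero_apply, map_zero, mul_zero, add_zero]
    rw [ih (ii (w 0) b) (fun i => w i.succ) fun i => hw i.succ, ← evA_ii]
    congr 2
    funext i
    refine Fin.cases ?_ (fun i => ?_) i <;> simp

end alg

section kap
variable (r d : ℕ)

/-- `ℝ^(r+d) = ℝ^r × ℝ^d` -/
abbrev kap : Eu (r + d) ≃L[ℝ] Eu r × Eu d := EuclideanSpace.finAddEquivProd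

theorem measurePreserving_kap : MeasurePreserving (kap r d) (volume : Measure (Eu (r + d)))
    (volume : Measure (Eu r × Eu d)) := by
  have h1 : MeasurePreserving
      (LinearIsometryEquiv.piLpCongrLeft 2 ℝ ℝ (finSumFinEquiv (m := r) (n := d)).symm) :=
    LinearIsometryEquiv.measurePreserving _
  have h2 : MeasurePreserving (PiLp.sumPiLpEquivProdLpPiLp (ι := Fin r) (κ := Fin d) 2
      (fun _ => ℝ)) := LinearIsometryEquiv.measurePreserving _
  have h3 : MeasurePreserving (@WithLp.ofLp 2 (Eu r × Eu d)) := WithLp.volume_preserving_ofLp _ _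
  exact h3.comp (h2.comp h1)

theorem kap_castAdd (i : Fin r) : kap r d (sb (r + d) (Fin.castAdd d i)) = (sb r i, 0) := by
  ext j <;> simp [EuclideanSpace.basisFun_apply, Fin.ext_iff]

theorem kap_natAdd (j : Fin d) : kap r d (sb (r + d) (Fin.natAdd r j)) = (0, sb d j) := by
  ext j <;> simp [EuclideanSpace.basisFun_apply, Fin.ext_iff]

end kap

end Crest.Agent.R208.FI
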