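import Crest.Agent.R208.FI1
import Crest.Agent.R208.FH2

/-! Row 208, block F2 (helper198), part FH3: left inverses of charts, reparametrisation, adapted
charts for submersions. -/

set_option autoImplicit false
set_option linter.unusedSectionVars false

open MeasureTheory Set Filter Topology Module
open scoped ContDiff
open Crest.Agent.R208.F

noncomputable section

namespace Crest.Agent.R208.FI

variable {E E' : Type*} [NormedAddCommGroup E] [NormedSpace ℝ E] [FiniteDimensional ℝ E]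
  [NormedAddCommGroup E'] [NormedSpace ℝ E'] [FiniteDimensional ℝ E']

namespace Chart
variable {d : ℕ} {X : Set E} {f : Eu d → E} {V : Set (Eu d)}

theorem mapsTo (h : Chart d X f V) : MapsTo f V X := by
  intro u hu
  obtain ⟨U, _, hU⟩ := h.image_open V Subset.rfl h.isOpen
  have : f u ∈ X ∩ U := hU ▸ mem_image_of_mem f hu
  exact this.1

/-- smooth left inverse of a chart near a point -/
theorem leftInv (h : Chart d X f V) {u : Eu d} (hu : u ∈ V) :
    ∃ (g : E → Eu d) (U : Set E), IsOpen U ∧ f u ∈ U ∧ (∀ y ∈ U, ContDiffAt ℝ ∞ g y) ∧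
      (∀ y ∈ X ∩ U, g y ∈ V ∧ f (g y) = y) ∧ (∀ w ∈ V, f w ∈ U → g (f w) = w) := by
  set A := fderiv ℝ f u with hA
  obtain ⟨L, hL⟩ := (A : Eu d →ₗ[ℝ] E).exists_leftInverse_of_injective
    (LinearMap.ker_eq_bot.2 (h.inj u hu))
  set Lc : E →L[ℝ] Eu d := LinearMap.toContinuousLinearMap L with hLc
  have hLA : Lc.comp A = ContinuousLinearMap.id ℝ (Eu d) := by
    ext1 v
    exact LinearMap.congr_fun hL v
  set φ : Eu d → Eu d := fun w => Lc (f w) with hφ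
  have hφd : ∀ w ∈ V, HasFDerivAt φ (Lc.comp (fderiv ℝ f w)) w := fun w hw =>
    Lc.hasFDerivAt.comp w (h.differentiableAt hw).hasFDerivAt
  have hφc : ∀ w ∈ V, ContDiffAt ℝ ∞ φ w := fun w hw =>
    Lc.contDiff.contDiffAt.comp w (h.contDiffAt hw)
  have hφu : HasFDerivAt φ ((ContinuousLinearEquiv.refl ℝ (Eu d) : Eu d ≃L[ℝ] Eu d) :
      Eu d →L[ℝ] Eu d) u := by
    have := hφd u hu
    rw [← hA, hLA] at this
    exact this
  set e := (hφc u hu).toOpenPartialHomeomorph φ hφu (by simp) with he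
  have heφ : (e : Eu d → Eu d) = φ := rfl
  -- the open set where the derivative of `φ` is invertible
  have hcont : ContinuousOn (fun w => fderiv ℝ φ w) V := by
    have h1 : ContDiffOn ℝ ∞ φ V := fun w hw => (hφc w hw).contDiffWithinAt
    exact h1.continuousOn_fderiv_of_isOpen h.isOpen (by simp)
  set W : Set (Eu d) := V ∩ (fun w => fderiv ℝ φ w) ⁻¹'
    (range ((↑) : (Eu d ≃L[ℝ] Eu d) → (Eu d →L[ℝ] Eu d))) with hW
  have hWo : IsOpen W := hcont.isOpen_inter_preimage h.isOpen ContinuousLinearEquiv.isOpen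
  have huW : u ∈ W := ⟨hu, ⟨ContinuousLinearEquiv.refl ℝ (Eu d), hφu.fderiv.symm⟩⟩
  set W' : Set (Eu d) := e.source ∩ W with hW'
  have hW'o : IsOpen W' := e.open_source.inter hWo
  have huW' : u ∈ W' := ⟨(hφc u hu).mem_toOpenPartialHomeomorph_source hφu (by simp), huW⟩
  obtain ⟨U₀, hU₀o, hU₀⟩ := h.image_open W' (fun w hw => hw.2.1) hW'o
  have htgt : IsOpen (e '' W') := e.isOpen_image_of_subset_source hW'o inter_subset_left
  refine ⟨fun y => e.symm (Lc y), U₀ ∩ Lc ⁻¹' (e '' W'), hU₀o.inter (htgt.preimage Lc.continuous),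
    ⟨?_, ?_⟩, ?_, ?_, ?_⟩
  · have : f u ∈ X ∩ U₀ := hU₀ ▸ mem_image_of_mem f huW'
    exact this.2
  · exact ⟨u, huW', rfl⟩
  · rintro y ⟨_, w, hw, hwy⟩
    have h1 : ContDiffAt ℝ ∞ e.symm (Lc y) := by
      rw [← hwy]
      obtain ⟨A', hA'⟩ := hw.2.2
      have hsw : e.symm (e w) = w := e.left_inv hw.1
      refine e.contDiffAt_symm (f₀' := A') (e.map_source hw.1) ?_ ?_
      · rw [hsw, heφ]
        have := (hφd w hw.2.1)
        have hA'' : (A' : Eu d →L[ℝ] Eu d) = fderiv ℝ φ w := hA'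
        rwa [← this.fderiv, ← hA''] at this
      · rw [hsw, heφ]; exact hφc w hw.2.1
    exact h1.comp y Lc.contDiff.contDiffAt
  · rintro y ⟨hyX, hyU, _⟩
    have : y ∈ f '' W' := by rw [hU₀]; exact ⟨hyX, hyU⟩
    obtain ⟨w, hw, rfl⟩ := this
    have hsw : e.symm (Lc (f w)) = w := e.left_inv hw.1
    simp only [hsw]
    exact ⟨hw.2.1, trivial⟩
  · rintro w hw ⟨hwU, _⟩
    have : f w ∈ f '' W' := by rw [hU₀]; exact ⟨h.mapsTo hw, hwU⟩
    obtain ⟨w', hw', hww'⟩ := this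
    have : w' = w := h.injOn hw'.2.1 hw hww'
    subst this
    exact e.left_inv hw'.1

/-- the tangent space in a chart -/
theorem tan_eq (h : Chart d X f V) {u : Eu d} (hu : u ∈ V) :
    Tan X (f u) = LinearMap.range (fderiv ℝ f u : Eu d →ₗ[ℝ] E) :=
  (range_fderiv_eq_Tan h hu).symm

/-- reparametrisation of a chart by a local diffeomorphism `e` with values in `V`. -/
theorem comp (h : Chart d X f V) {W : Set (Eu d)} (hW : IsOpen W) {τ : Eu d → Eu d}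
    (hτV : MapsTo τ W V) (hτ : ∀ w ∈ W, ContDiffAt ℝ ∞ τ w) (hinj : InjOn τ W)
    (hopen : ∀ W' ⊆ W, IsOpen W' → IsOpen (τ '' W'))
    (hτ' : ∀ w ∈ W, Function.Injective (fderiv ℝ τ w)) : Chart d X (f ∘ τ) W where
  isOpen := hW
  contDiffOn w hw := ((h.contDiffAt (hτV hw)).comp w (hτ w hw)).contDiffWithinAt
  injOn := h.injOn.comp hinj hτV
  inj w hw := by
    rw [fderiv_comp w (h.differentiableAt (hτV hw)) ((hτ w hw).differentiableAt (by simp))]
    exact (h.inj _ (hτV hw)).comp (hτ' w hw)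
  image_open W' hW' hW'o := by
    rw [image_comp]
    exact h.image_open _ (by rintro _ ⟨w, hw, rfl⟩; exact hτV (hW' hw)) (hopen W' hW' hW'o)

end Chart

/-- smooth local inverse: if `T : ℝ^n → ℝ^n` is smooth on the open set `W` and its derivative at
`w₀ ∈ W` is injective, then on an open set `W₁ ∋ T w₀` there is a smooth inverse. -/
theorem exists_local_inverse {n : ℕ} {T : Eu n → Eu n} {W : Set (Eu n)} (hW : IsOpen W)
    (hT : ∀ w ∈ W, ContDiffAt ℝ ∞ T w) {w₀ : Eu n} (hw₀ : w₀ ∈ W)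
    (hinj : Function.Injective (fderiv ℝ T w₀)) :
    ∃ (τ : Eu n → Eu n) (W₁ : Set (Eu n)), IsOpen W₁ ∧ T w₀ ∈ W₁ ∧ τ (T w₀) = w₀ ∧
      MapsTo τ W₁ W ∧ (∀ p ∈ W₁, T (τ p) = p) ∧ (∀ p ∈ W₁, ContDiffAt ℝ ∞ τ p) ∧
      InjOn τ W₁ ∧ (∀ W' ⊆ W₁, IsOpen W' → IsOpen (τ '' W')) ∧
      ∀ p ∈ W₁, Function.Injective (fderiv ℝ τ p) := by
  have hTd : ∀ w ∈ W, HasFDerivAt T (fderiv ℝ T w) w := fun w hw =>
    ((hT w hw).differentiableAt (by simp)).hasFDerivAt
  set A : Eu n ≃L[ℝ] Eu n := (LinearEquiv.ofInjectiveEndo (fderiv ℝ T w₀ : Eu n →ₗ[ℝ] Eu n)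
    hinj).toContinuousLinearEquiv with hA
  have hA' : (A : Eu n →L[ℝ] Eu n) = fderiv ℝ T w₀ := by ext1 v; rfl
  have hT0 : HasFDerivAt T (A : Eu n →L[ℝ] Eu n) w₀ := by rw [hA']; exact hTd w₀ hw₀
  set e := (hT w₀ hw₀).toOpenPartialHomeomorph T hT0 (by simp) with he
  have heT : (e : Eu n → Eu n) = T := rfl
  have hcont : ContinuousOn (fun w => fderiv ℝ T w) W := by
    have h1 : ContDiffOn ℝ ∞ T W := fun w hw => (hT w hw).contDiffWithinAt
    exact h1.continuousOn_fderiv_of_isOpen hW (by simp)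
  set W' : Set (Eu n) := W ∩ (fun w => fderiv ℝ T w) ⁻¹'
    (range ((↑) : (Eu n ≃L[ℝ] Eu n) → (Eu n →L[ℝ] Eu n))) with hW'
  have hW'o : IsOpen W' := hcont.isOpen_inter_preimage hW ContinuousLinearEquiv.isOpen
  have hw₀' : w₀ ∈ W' := ⟨hw₀, ⟨A, hA'⟩⟩
  set e' := e.restrOpen W' hW'o with he'
  have hsrc : e'.source = e.source ∩ W' := rfl
  have hw₀s : w₀ ∈ e'.source := by
    rw [hsrc]
    exact ⟨(hT w₀ hw₀).mem_toOpenPartialHomeomorph_source hT0 (by simp), hw₀'⟩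
  have he'T : (e' : Eu n → Eu n) = T := rfl
  have hsm : ∀ p ∈ e'.target, ContDiffAt ℝ ∞ e'.symm p := by
    intro p hp
    have hps : e'.symm p ∈ e'.source := e'.map_target hp
    rw [hsrc] at hps
    obtain ⟨B, hB⟩ := hps.2.2
    have hB' : (B : Eu n →L[ℝ] Eu n) = fderiv ℝ T (e'.symm p) := hB
    refine e'.contDiffAt_symm (f₀' := B) hp ?_ ?_
    · rw [hB', he'T]; exact hTd _ hps.2.1
    · rw [he'T]; exact hT _ hps.2.1
  refine ⟨e'.symm, e'.target, e'.open_target, ?_, ?_, ?_, ?_, hsm, ?_, ?_, ?_⟩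
  · exact e'.map_source hw₀s
  · exact e'.left_inv hw₀s
  · intro p hp
    have := e'.map_target hp
    rw [hsrc] at this
    exact this.2.1
  · intro p hp
    exact e'.right_inv hp
  · exact e'.symm.injOn
  · intro W₂ hW₂ hW₂o
    exact e'.symm.isOpen_image_of_subset_source hW₂o hW₂
  · intro p hp v w hvw
    have hps : e'.symm p ∈ e'.source := e'.map_target hp
    rw [hsrc] at hps
    have h1 : HasFDerivAt (fun q => T (e'.symm q)) ((fderiv ℝ T (e'.symm p)).comp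
        (fderiv ℝ e'.symm p)) p :=
      (hTd _ hps.2.1).comp p ((hsm p hp).differentiableAt (by simp)).hasFDerivAt
    have h2 : HasFDerivAt (fun q => T (e'.symm q)) (ContinuousLinearMap.id ℝ (Eu n)) p := by
      refine (hasFDerivAt_id p).congr_of_eventuallyEq ?_
      filter_upwards [e'.open_target.mem_nhds hp] with q hq
      exact e'.right_inv hq
    have h3 := h1.unique h2
    have h4 : ∀ x, fderiv ℝ T (e'.symm p) (fderiv ℝ e'.symm p x) = x := fun x => by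
      have := congrArg (fun B : Eu n →L[ℝ] Eu n => B x) h3
      simpa using this
    rw [← h4 v, ← h4 w, hvw]

/-- **adapted charts of a submersion** `π : Z → X`: near every point of `Z` there is a chart `Φ` of
`Z` on a product domain `A × B ⊆ ℝ^r × ℝ^d` with `π (Φ (a, b)) = f b`, `f` a given chart of `X`. -/
theorem exists_adapted {r d : ℕ} {Z : Set E'} {X : Set E} {π : E' → E} {φ : Eu (r + d) → E'}
    {W : Set (Eu (r + d))} (hφ : Chart (r + d) Z φ W) {w₀ : Eu (r + d)} (hw₀ : w₀ ∈ W)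
    (hπ : ∀ z ∈ Z, ContDiffAt ℝ ∞ π z) (hm : MapsTo π Z X) {f : Eu d → E} {V : Set (Eu d)}
    (hf : Chart d X f V) (hx : π (φ w₀) ∈ f '' V)
    (hsub : ∀ w ∈ Tan X (π (φ w₀)), ∃ v ∈ Tan Z (φ w₀), fderiv ℝ π (φ w₀) v = w) :
    ∃ (Φ : Eu (r + d) → E') (A : Set (Eu r)) (B : Set (Eu d)), IsOpen A ∧ IsOpen B ∧ B ⊆ V ∧
      Chart (r + d) Z Φ (kap r d ⁻¹' (A ×ˢ B)) ∧ φ w₀ ∈ Φ '' (kap r d ⁻¹' (A ×ˢ B)) ∧
      ∀ p ∈ kap r d ⁻¹' (A ×ˢ B), π (Φ p) = f (kap r d p).2 := by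
  obtain ⟨u₀, hu₀, hu₀x⟩ := hx
  obtain ⟨g, U, hU, huU, hg, hfg, hgf⟩ := hf.leftInv hu₀
  have hgu : g (f u₀) = u₀ := hgf u₀ hu₀ huU
  -- `q = g ∘ π ∘ φ`
  have hπφ : ∀ w ∈ W, ContDiffAt ℝ ∞ (fun w => π (φ w)) w := fun w hw =>
    (hπ _ (hφ.mapsTo hw)).comp w (hφ.contDiffAt hw)
  have hWcont : ContinuousOn (fun w => π (φ w)) W := fun w hw =>
    (hπφ w hw).continuousAt.continuousWithinAt
  set W₁ : Set (Eu (r + d)) := W ∩ (fun w => π (φ w)) ⁻¹' U with hW₁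
  have hW₁o : IsOpen W₁ := hWcont.isOpen_inter_preimage hφ.isOpen hU
  have hw₀₁ : w₀ ∈ W₁ := ⟨hw₀, by show π (φ w₀) ∈ U; rw [← hu₀x]; exact huU⟩
  have hq : ∀ w ∈ W₁, ContDiffAt ℝ ∞ (fun w => g (π (φ w))) w := fun w hw =>
    (hg _ hw.2).comp w (hπφ w hw.1)
  set Q : Eu (r + d) →L[ℝ] Eu d := fderiv ℝ (fun w => g (π (φ w))) w₀ with hQ
  have hQeq : Q = (fderiv ℝ g (π (φ w₀))).comp ((fderiv ℝ π (φ w₀)).comp (fderiv ℝ φ w₀)) := by
    have h1 : HasFDerivAt φ (fderiv ℝ φ w₀) w₀ := (hφ.differentiableAt hw₀).hasFDerivAt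
    have h2 : HasFDerivAt π (fderiv ℝ π (φ w₀)) (φ w₀) :=
      ((hπ _ (hφ.mapsTo hw₀)).differentiableAt (by simp)).hasFDerivAt
    have h3 : HasFDerivAt g (fderiv ℝ g (π (φ w₀))) (π (φ w₀)) :=
      ((hg _ hw₀₁.2).differentiableAt (by simp)).hasFDerivAt
    exact (h3.comp w₀ (h2.comp w₀ h1)).fderiv
  -- `Q` is surjective
  have hgfd : ∀ c, fderiv ℝ g (f u₀) (fderiv ℝ f u₀ c) = c := by
    have h1 : HasFDerivAt (fun w => g (f w)) ((fderiv ℝ g (f u₀)).comp (fderiv ℝ f u₀)) u₀ :=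
      ((hg _ huU).differentiableAt (by simp)).hasFDerivAt.comp u₀
        (hf.differentiableAt hu₀).hasFDerivAt
    have h2 : HasFDerivAt (fun w => g (f w)) (ContinuousLinearMap.id ℝ (Eu d)) u₀ := by
      refine (hasFDerivAt_id u₀).congr_of_eventuallyEq ?_
      filter_upwards [hf.isOpen.mem_nhds hu₀,
        (hf.contDiffAt hu₀).continuousAt (hU.mem_nhds huU)] with w hw hwU
      exact hgf w hw hwU
    intro c
    have := congrArg (fun B : Eu d →L[ℝ] Eu d => B c) (h1.unique h2)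
    simpa using this
  have hQs : Function.Surjective Q := by
    intro c
    have h1 : fderiv ℝ f u₀ c ∈ Tan X (π (φ w₀)) := by
      rw [← hu₀x, hf.tan_eq hu₀]; exact ⟨c, rfl⟩
    obtain ⟨v, hv, hvw⟩ := hsub _ h1
    rw [hφ.tan_eq hw₀] at hv
    obtain ⟨a, ha⟩ := hv
    refine ⟨a, ?_⟩
    have ha' : fderiv ℝ φ w₀ a = v := ha
    rw [hQeq]
    simp only [ContinuousLinearMap.comp_apply]
    rw [ha', hvw, ← hu₀x, hgfd]
  -- complement
  have hker : finrank ℝ (LinearMap.ker (Q : Eu (r + d) →ₗ[ℝ] Eu d)) = r := by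
    have h1 := LinearMap.finrank_range_add_finrank_ker (Q : Eu (r + d) →ₗ[ℝ] Eu d)
    rw [LinearMap.range_eq_top.2 hQs, finrank_top, finrank_euclideanSpace_fin,
      finrank_euclideanSpace_fin] at h1
    omega
  set K := LinearMap.ker (Q : Eu (r + d) →ₗ[ℝ] Eu d) with hK
  obtain ⟨Pr, hPr⟩ := K.subtype.exists_leftInverse_of_injective
    (LinearMap.ker_eq_bot.2 K.injective_subtype)
  have hiK : finrank ℝ K = finrank ℝ (Eu r) := by rw [hker, finrank_euclideanSpace_fin]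
  let iK : K ≃ₗ[ℝ] Eu r := LinearEquiv.ofFinrankEq K (Eu r) hiK
  let ρ : Eu (r + d) →L[ℝ] Eu r := LinearMap.toContinuousLinearMap (iK.toLinearMap ∘ₗ Pr)
  have hρinj : ∀ v, ρ v = 0 → Q v = 0 → v = 0 := by
    intro v h1 h2
    have h3 : Pr v = 0 := iK.map_eq_zero_iff.1 h1
    have h4 : Pr (K.subtype ⟨v, h2⟩) = ⟨v, h2⟩ := LinearMap.congr_fun hPr ⟨v, h2⟩
    rw [Submodule.subtype_apply, h3] at h4
    exact (congrArg Subtype.val h4).symm
  let T : Eu (r + d) → Eu (r + d) := fun w => (kap r d).symm (ρ w, g (π (φ w)))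
  have hT : ∀ w ∈ W₁, ContDiffAt ℝ ∞ T w := fun w hw =>
    (kap r d).symm.contDiff.contDiffAt.comp w (ρ.contDiff.contDiffAt.prodMk (hq w hw))
  have hTd : HasFDerivAt T (((kap r d).symm : (Eu r × Eu d) →L[ℝ] Eu (r + d)).comp (ρ.prod Q)) w₀ :=
    ((kap r d).symm : (Eu r × Eu d) →L[ℝ] Eu (r + d)).hasFDerivAt.comp w₀
      (ρ.hasFDerivAt.prodMk ((hq w₀ hw₀₁).differentiableAt (by simp)).hasFDerivAt)
  have hTinj : Function.Injective (fderiv ℝ T w₀) := by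
    rw [hTd.fderiv, injective_iff_map_eq_zero]
    intro v hv
    have h1 : (ρ v, Q v) = 0 := (kap r d).symm.map_eq_zero_iff.1 hv
    exact hρinj v (congrArg Prod.fst h1) (congrArg Prod.snd h1)
  obtain ⟨τ, W₂, hW₂o, hTw₀, hτw₀, hτW, hTτ, hτs, hτi, hτo, hτd⟩ :=
    exists_local_inverse hW₁o hT hw₀₁ hTinj
  have hkapT : kap r d (T w₀) = (ρ w₀, u₀) := by
    show kap r d ((kap r d).symm (ρ w₀, g (π (φ w₀)))) = _
    rw [ContinuousLinearEquiv.apply_symm_apply, ← hu₀x, hgu]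
  have hnb : (kap r d).symm ⁻¹' W₂ ∈ 𝓝 (ρ w₀, u₀) := by
    refine (kap r d).symm.continuous.continuousAt.preimage_mem_nhds ?_
    rw [← hkapT, ContinuousLinearEquiv.symm_apply_apply]
    exact hW₂o.mem_nhds hTw₀
  obtain ⟨A, B, hA, hρA, hB, huB, hAB⟩ := mem_nhds_prod_iff'.1 hnb
  refine ⟨φ ∘ τ, A, B ∩ V, hA, hB.inter hf.isOpen, inter_subset_right, ?_, ?_, ?_⟩
  · have hsubW : kap r d ⁻¹' (A ×ˢ (B ∩ V)) ⊆ W₂ := by
      intro p hp
      have h1 : (kap r d p) ∈ A ×ˢ B := ⟨hp.1, hp.2.1⟩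
      have h2 := hAB h1
      rwa [mem_preimage, ContinuousLinearEquiv.symm_apply_apply] at h2
    have ho : IsOpen (kap r d ⁻¹' (A ×ˢ (B ∩ V))) :=
      (hA.prod (hB.inter hf.isOpen)).preimage (kap r d).continuous
    exact (hφ.comp hW₂o (fun p hp => (hτW hp).1) hτs hτi hτo hτd).mono hsubW ho
  · refine ⟨T w₀, ?_, ?_⟩
    · rw [mem_preimage, hkapT]; exact ⟨hρA, huB, hu₀⟩
    · show φ (τ (T w₀)) = φ w₀
      rw [hτw₀]
  · intro p hp
    have hpW : p ∈ W₂ := by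
      have h1 : (kap r d p) ∈ A ×ˢ B := ⟨hp.1, hp.2.1⟩
      have h2 := hAB h1
      rwa [mem_preimage, ContinuousLinearEquiv.symm_apply_apply] at h2
    have h1 : kap r d (T (τ p)) = (ρ (τ p), g (π (φ (τ p)))) := by
      show kap r d ((kap r d).symm (ρ (τ p), g (π (φ (τ p))))) = _
      rw [ContinuousLinearEquiv.apply_symm_apply]
    rw [hTτ p hpW] at h1
    rw [h1]
    have h2 := hτW hpW
    exact (hfg _ ⟨hm (hφ.mapsTo h2.1), h2.2⟩).2.symm

end Crest.Agent.R208.FI
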