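import Crest.Agent.R208.GP0c
import Crest.Agent.R208.GP1

/-! Row 208, block GP (helper198), part GP3: a Blaschke manifold of type `k ≥ 2` is orientable. -/

set_option autoImplicit false
set_option linter.unusedSectionVars false

open MeasureTheory Measure Set Filter Topology Module Metric
open scoped ContDiff RealInnerProductSpace
open Crest.GeometryTopology.Submanifold
open Crest.Agent.R241.DDefs
open Crest.Agent.R241.D2
open Crest.Agent.R208.F Crest.Agent.R208.FI

noncomputable section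

namespace Crest.Agent.R208.GP

variable {n N k : ℕ} {κ : ℝ} {S : Set (Euc N)} {G : Geo n N κ S}

/-- left inverse of a frame -/
def binv (b : Euc n →ₗᵢ[ℝ] Euc N) : Euc N →L[ℝ] Euc n := b.toContinuousLinearMap.adjoint

theorem binv_b (b : Euc n →ₗᵢ[ℝ] Euc N) (v : Euc n) : binv b (b v) = v := by
  refine ext_inner_right ℝ fun w => ?_
  rw [binv, ContinuousLinearMap.adjoint_inner_left]
  exact b.inner_map_map v w

theorem b_binv {b : Euc n →ₗᵢ[ℝ] Euc N} {T : Submodule ℝ (Euc N)}
    (hb : LinearMap.range b.toLinearMap = T) {x : Euc N} (hx : x ∈ T) : b (binv b x) = x := by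
  rw [← hb] at hx
  obtain ⟨v, rfl⟩ := hx
  show b (binv b (b v)) = b v
  rw [binv_b]

theorem sphere_preconn {V : Submodule ℝ (Euc N)} (hV : 2 ≤ finrank ℝ V) :
    IsPreconnected {v : Euc N | v ∈ V ∧ ‖v‖ = 1} := by
  have h1 : IsPreconnected (sphere (0 : V) 1) := by
    apply isPreconnected_sphere
    rw [← Module.finrank_eq_rank]
    exact_mod_cast hV
  have h2 := h1.image (fun v : V => (v : Euc N)) continuous_subtype_val.continuousOn
  have h3 : (fun v : V => (v : Euc N)) '' sphere (0 : V) 1 = {v : Euc N | v ∈ V ∧ ‖v‖ = 1} := by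
    ext v
    constructor
    · rintro ⟨w, hw, rfl⟩
      rw [mem_sphere_zero_iff_norm] at hw
      exact ⟨w.2, hw⟩
    · rintro ⟨hv, hv1⟩
      exact ⟨⟨v, hv⟩, by rw [mem_sphere_zero_iff_norm]; exact hv1, rfl⟩
  rwa [h3] at h2

/-- the fibres of `Exp_p` on the closed ball of radius `π` are connected for `k ≥ 2`. -/
theorem fibre_preconn (hB : Bl n N κ S G Real.pi) (hT : I.Typ G k) (hk : 2 ≤ k) {p : Euc N}
    (hp : p ∈ S) {b : Euc n →ₗᵢ[ℝ] Euc N} (hb : LinearMap.range b.toLinearMap = G.T p)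
    {q : Euc N} (hq : q ∈ S) :
    IsPreconnected (closedBall (0 : Euc n) Real.pi ∩ (fun v => Exp G p (b v)) ⁻¹' {q}) := by
  by_cases hd : intrinsicDist S p q = Real.pi
  · obtain ⟨V, hV1, hV2, hV3, -⟩ := hT.link p hp q hq hd
    have h1 := (sphere_preconn (V := V) (by rw [hV2]; exact hk)).image
      (fun v : Euc N => Real.pi • binv b v)
      ((binv b).continuous.const_smul (Real.pi : ℝ)).continuousOn
    have h2 : (fun v : Euc N => Real.pi • binv b v) '' {v : Euc N | v ∈ V ∧ ‖v‖ = 1} =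
        closedBall (0 : Euc n) Real.pi ∩ (fun v => Exp G p (b v)) ⁻¹' {q} := by
      ext v
      constructor
      · rintro ⟨u, ⟨hu, hu1⟩, rfl⟩
        have hbu : b (binv b u) = u := b_binv hb (hV1 hu)
        refine ⟨?_, ?_⟩
        · rw [mem_closedBall_zero_iff, norm_smul, ← norm_b (b := b), hbu, hu1]
          rw [mul_one, Real.norm_eq_abs, abs_of_pos Real.pi_pos]
        · show Exp G p (b (Real.pi • binv b u)) = q
          rw [map_smul, hbu]
          exact ((hV3 u).1 ⟨hu, hu1⟩).2.2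
      · rintro ⟨hv, hvq⟩
        rw [mem_closedBall_zero_iff] at hv
        have hvq' : Exp G p (b v) = q := hvq
        have hn : ‖v‖ = Real.pi := by
          have := dist_exp hB hp hb hv
          rw [hvq', hd] at this
          exact this.symm
        have h3 : Real.pi • (Real.pi⁻¹ • b v) = b v := by
          rw [smul_smul, mul_inv_cancel₀ Real.pi_pos.ne', one_smul]
        have h4 := (hV3 (Real.pi⁻¹ • b v)).2 ⟨(G.T p).smul_mem _ (frame_mem hb v), by
          rw [norm_smul, norm_b, hn, norm_inv, Real.norm_eq_abs, abs_of_pos Real.pi_pos,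
            inv_mul_cancel₀ Real.pi_pos.ne'], by rw [h3, hvq']⟩
        refine ⟨_, h4, ?_⟩
        show Real.pi • binv b (Real.pi⁻¹ • b v) = v
        rw [map_smul, binv_b, smul_smul, mul_inv_cancel₀ Real.pi_pos.ne', one_smul]
    rwa [h2] at h1
  · have hlt : intrinsicDist S p q < Real.pi := lt_of_le_of_ne (hB.dist_le p hp q hq) hd
    apply Set.Subsingleton.isPreconnected
    rintro v ⟨hv, hvq⟩ w ⟨hw, hwq⟩
    rw [mem_closedBall_zero_iff] at hv hw
    have hvq' : Exp G p (b v) = q := hvq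
    have hwq' : Exp G p (b w) = q := hwq
    have hnv : ‖v‖ = intrinsicDist S p q := by rw [← dist_exp hB hp hb hv, hvq']
    apply b.injective
    exact hB.Exp_inj hp (frame_mem hb v) (frame_mem hb w) (by rw [norm_b, hnv]; exact hlt)
      (by rw [norm_b]; exact hw) (by rw [hvq', hwq'])

theorem image_closedBall (hB : Bl n N κ S G Real.pi) {p : Euc N} (hp : p ∈ S)
    {b : Euc n →ₗᵢ[ℝ] Euc N} (hb : LinearMap.range b.toLinearMap = G.T p) :
    (fun v => Exp G p (b v)) '' closedBall 0 Real.pi = S := by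
  ext q
  constructor
  · rintro ⟨v, -, rfl⟩; exact Exp_mem G hp (frame_mem hb v)
  · intro hq
    obtain ⟨v, h1, h2⟩ := exists_v hB hp hb hq
    exact ⟨v, by rw [mem_closedBall_zero_iff, h1]; exact hB.dist_le p hp q hq, h2⟩

/-- **lifting theorem on `S`**: a smooth field of lines over `S` has a smooth unit section. -/
theorem lift_S {W : Type*} [NormedAddCommGroup W] [InnerProductSpace ℝ W]
    (hB : Bl n N κ S G Real.pi) (hT : I.Typ G k) (hk : 2 ≤ k)
    {P : Euc N → (W →L[ℝ] W)} (hP : ∀ x ∈ S, ContDiffAt ℝ ∞ P x) (hR : ∀ x ∈ S, R1 (P x)) :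
    ∃ w : Euc N → W, (∀ x ∈ S, ContDiffAt ℝ ∞ w x) ∧ ∀ x ∈ S, ‖w x‖ = 1 ∧ P x (w x) = w x := by
  obtain ⟨p, hp⟩ := hB.conn.nonempty
  obtain ⟨b, hb⟩ := exists_frame G hp
  set f : Euc n → Euc N := fun v => Exp G p (b v) with hf
  have hfS : ∀ v, f v ∈ S := fun v => Exp_mem G hp (frame_mem hb v)
  have hfc : Continuous f := (contDiff_Exp_frame G hp hb).continuous
  have hPc : ContinuousOn P S := fun x hx => (hP x hx).continuousAt.continuousWithinAt
  obtain ⟨w, hw, hw1⟩ := star_lift (A := closedBall (0 : Euc n) Real.pi)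
    (P := fun v => P (f v)) (isCompact_closedBall _ _)
    (mem_closedBall_self Real.pi_pos.le) (fun x hx t ht => by
      rw [mem_closedBall_zero_iff] at hx ⊢
      rw [norm_smul, Real.norm_eq_abs, abs_of_nonneg ht.1]
      calc t * ‖x‖ ≤ 1 * ‖x‖ := mul_le_mul_of_nonneg_right ht.2 (norm_nonneg _)
        _ ≤ Real.pi := by rw [one_mul]; exact hx)
    (hPc.comp hfc.continuousOn fun v _ => hfS v) (fun x _ => hR _ (hfS x))
  obtain ⟨w', hw', hw1', -⟩ := descend (isCompact_closedBall _ _) hfc.continuousOn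
    (image_closedBall hB hp hb) (fun q hq => fibre_preconn hB hT hk hp hb hq) hR hw hw1
  obtain ⟨w'', h1, h2⟩ := smooth_lift hB.cpt hP hR hw' hw1'
  exact ⟨w'', h1, fun x hx => by rw [h2 x hx]; exact hw1' x hx⟩

theorem R1_T (x : Euc N) (hx : x ∈ S) : R1 (TP n (G.P x)) := by
  obtain ⟨e, he, -⟩ := exists_OF (G.T x) (G.finrank_T x hx)
  rw [G.P_eq x hx]
  exact R1_TP he

/-- **orientation of `S`** by unit tensors. -/
theorem exists_orient (hB : Bl n N κ S G Real.pi) (hT : I.Typ G k) (hk : 2 ≤ k) :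
    ∃ w : Euc N → Ten n N, (∀ x ∈ S, ContDiffAt ℝ ∞ w x) ∧
      ∀ x ∈ S, ∃ e, OF n (G.P x) e ∧ (∀ a, e a ∈ G.T x) ∧ w x = udt e := by
  obtain ⟨w, h1, h2⟩ := lift_S hB hT hk (P := fun x => TP n (G.P x))
    (fun x _ => (contDiff_TP n).contDiffAt.comp x G.contDiff_P.contDiffAt)
    (fun x hx => R1_T x hx)
  refine ⟨w, h1, fun x hx => ?_⟩
  obtain ⟨e, he, -⟩ := exists_OF (G.T x) (G.finrank_T x hx)
  rw [← G.P_eq x hx] at he
  obtain ⟨e', he', hwe⟩ := exists_frame_of_unit hB.hn he (h2 x hx).1 (h2 x hx).2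
  refine ⟨e', he', fun a => ?_, hwe⟩
  rw [P_eq_self G hx, he'.eq, Finset.sum_eq_single a]
  · rw [real_inner_self_eq_norm_sq, he'.on.1 a]; simp
  · intro c _ hc
    rw [he'.on.2 hc, zero_smul]
  · intro h; exact absurd (Finset.mem_univ _) h

theorem clo_S (hB : Bl n N κ S G Real.pi) : Clo n S := clo_of_isSubmanifold hB.sub hB.cpt

/-- **orientation form of `S`**, smooth and of pure degree. -/
theorem exists_ori (hB : Bl n N κ S G Real.pi) (hT : I.Typ G k) (hk : 2 ≤ k) :
    ∃ o : Euc N → Ext (Euc N), Ori n S o ∧ (∀ x ∈ S, ContDiffAt ℝ ∞ o x) ∧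
      ∀ x, IsDeg n (o x) := by
  obtain ⟨w, h1, h2⟩ := exists_orient hB hT hk
  refine ⟨fun x => fm n N (w x), ?_, fun x hx => ?_, fun x => isDeg_fm _⟩
  · refine ori_of_field (clo_S hB) (fun x hx => (h1 x hx).continuousAt.continuousWithinAt) ?_
    intro x hx
    obtain ⟨e, he, heT, hwe⟩ := h2 x hx
    refine ⟨e, he.on, fun a => ?_, hwe⟩
    have := heT a
    rw [T_eq_Tan G hx] at this
    exact this
  · exact (fmL n N).contDiff.contDiffAt.comp x (h1 x hx)

end Crest.Agent.R208.GP
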