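import Crest.Agent.R208.SP8

/-!
# R208, block SPEC, part 9: matrices of continuous linear maps (format of projection fields)
-/

set_option autoImplicit false

namespace Crest.Agent.R208.SP

open Filter Topology Matrix Module

section Mt

variable {m n l : Type*} [Fintype m] [Fintype n] [Fintype l] [DecidableEq n] [DecidableEq m]
variable {H H' H'' : Type*} [NormedAddCommGroup H] [NormedSpace ℝ H] [NormedAddCommGroup H']
  [NormedSpace ℝ H'] [NormedAddCommGroup H''] [NormedSpace ℝ H'']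

/-- matrix of a continuous linear map in bases -/
noncomputable def mt (b : Basis n ℝ H) (b' : Basis m ℝ H') (T : H →L[ℝ] H') : Matrix m n ℝ :=
  LinearMap.toMatrix b b' (T : H →ₗ[ℝ] H')

omit [DecidableEq m] in
theorem mt_apply (b : Basis n ℝ H) (b' : Basis m ℝ H') (T : H →L[ℝ] H') (i : m) (j : n) :
    mt b b' T i j = b'.repr (T (b j)) i := by
  rw [mt, LinearMap.toMatrix_apply]; rfl

omit [Fintype m] in
theorem mt_comp (b : Basis n ℝ H) (b' : Basis m ℝ H') (b'' : Basis l ℝ H'') [Fintype m]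
    (T : H' →L[ℝ] H'') (S : H →L[ℝ] H') : mt b b'' (T.comp S) = mt b' b'' T * mt b b' S := by
  rw [mt, ContinuousLinearMap.toLinearMap_comp, LinearMap.toMatrix_comp b b' b'']; rfl

theorem mt_one (b : Basis n ℝ H) : mt b b (1 : H →L[ℝ] H) = 1 := by
  rw [mt]; exact LinearMap.toMatrix_one b

omit [DecidableEq m] in
theorem mt_add (b : Basis n ℝ H) (b' : Basis m ℝ H') (T S : H →L[ℝ] H') :
    mt b b' (T + S) = mt b b' T + mt b b' S := by
  rw [mt, ContinuousLinearMap.toLinearMap_add, map_add]; rfl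

omit [DecidableEq m] in
theorem mt_smul (b : Basis n ℝ H) (b' : Basis m ℝ H') (c : ℝ) (T : H →L[ℝ] H') :
    mt b b' (c • T) = c • mt b b' T := by
  rw [mt, ContinuousLinearMap.toLinearMap_smul, map_smul]; rfl

omit [DecidableEq m] in
theorem mt_neg (b : Basis n ℝ H) (b' : Basis m ℝ H') (T : H →L[ℝ] H') :
    mt b b' (-T) = -mt b b' T := by
  rw [mt, ContinuousLinearMap.toLinearMap_neg, map_neg]; rfl

omit [DecidableEq m] in
theorem mt_injective (b : Basis n ℝ H) (b' : Basis m ℝ H') :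
    Function.Injective (mt b b' : (H →L[ℝ] H') → Matrix m n ℝ) := by
  intro T S h
  have h1 := (LinearMap.toMatrix b b').injective h
  ext v
  exact congrArg (fun f => f v) h1

omit [DecidableEq m] in
theorem mt_mulVec (b : Basis n ℝ H) (b' : Basis m ℝ H') (T : H →L[ℝ] H') (v : H) :
    (mt b b' T).mulVec (b.repr v) = b'.repr (T v) := by
  rw [mt, LinearMap.toMatrix_mulVec_repr]; rfl

omit [DecidableEq m] in
theorem rank_mt (b : Basis n ℝ H) (b' : Basis m ℝ H') (T : H →L[ℝ] H') :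
    (mt b b' T).rank = finrank ℝ (LinearMap.range (T : H →ₗ[ℝ] H')) := by
  rw [Matrix.rank_eq_finrank_range_toLin _ b' b, mt, Matrix.toLin_toMatrix]

omit [DecidableEq m] in
/-- smoothness of the matrix entries -/
theorem MSm.mt {X : Type*} [NormedAddCommGroup X] [NormedSpace ℝ X] {k : WithTop ℕ∞} {x : X}
    (b : Basis n ℝ H) (b' : Basis m ℝ H') {T : X → H →L[ℝ] H'} (hT : ContDiffAt ℝ k T x) :
    MSm k (fun y => SP.mt b b' (T y)) x := by
  intro i j
  have : FiniteDimensional ℝ H' := b'.finiteDimensional_of_finite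
  have h1 : (fun y => SP.mt b b' (T y) i j) =
      fun y => (LinearMap.toContinuousLinearMap (b'.coord i)) (T y (b j)) := by
    funext y
    rw [mt_apply]; rfl
  rw [h1]
  exact (LinearMap.toContinuousLinearMap (b'.coord i)).contDiff.contDiffAt.comp x
    (hT.clm_apply contDiffAt_const)

omit [Fintype m] [Fintype n] [DecidableEq n] [DecidableEq m] in
/-- Pencils of continuous linear maps. -/
theorem pencil_of_clm [Fintype m] [Fintype n] [DecidableEq n] [DecidableEq m]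
    (b : Basis n ℝ H) (b' : Basis m ℝ H') {P : H →L[ℝ] H} {P' : H' →L[ℝ] H'}
    {S₁ S₂ : H →L[ℝ] H'} (pp : ∀ v, P (P v) = P v) (pp' : ∀ v, P' (P' v) = P' v)
    (sp1 : ∀ v, S₁ (P v) = S₁ v) (sp2 : ∀ v, S₂ (P v) = S₂ v) (ps1 : ∀ v, P' (S₁ v) = S₁ v)
    (ps2 : ∀ v, P' (S₂ v) = S₂ v)
    (inj : ∀ s t : ℝ, s ^ 2 + t ^ 2 = 1 → ∀ v, P v = v → s • S₁ v + t • S₂ v = 0 → v = 0)
    (rk : finrank ℝ (LinearMap.range (P : H →ₗ[ℝ] H)) =
      finrank ℝ (LinearMap.range (P' : H' →ₗ[ℝ] H'))) :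
    Pencil (mt b b P) (mt b' b' P') (mt b b' S₁) (mt b b' S₂) := by
  refine ⟨?_, ?_, ?_, ?_, ?_, ?_, ?_, ?_⟩
  · rw [← mt_comp]; congr 1; ext v; exact pp v
  · rw [← mt_comp]; congr 1; ext v; exact pp' v
  · rw [← mt_comp]; congr 1; ext v; exact sp1 v
  · rw [← mt_comp]; congr 1; ext v; exact sp2 v
  · rw [← mt_comp]; congr 1; ext v; exact ps1 v
  · rw [← mt_comp]; congr 1; ext v; exact ps2 v
  · intro s t hst v hv h0
    obtain ⟨u, hu⟩ : ∃ u : H, ⇑(b.repr u) = v := by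
      refine ⟨b.equivFun.symm v, ?_⟩
      rw [← Basis.equivFun_apply]; exact LinearEquiv.apply_symm_apply _ _
    have h1 : P u = u := by
      rw [← hu, mt_mulVec] at hv
      exact b.repr.injective (DFunLike.coe_injective hv)
    have h2 : s • S₁ u + t • S₂ u = 0 := by
      rw [← mt_smul, ← mt_smul, ← mt_add, ← hu, mt_mulVec] at h0
      have h3 : b'.repr ((s • S₁ + t • S₂) u) = 0 := DFunLike.coe_injective h0
      have h4 := (LinearEquiv.map_eq_zero_iff b'.repr).mp h3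
      exact h4
    have h3 := inj s t hst u h1 h2
    rw [← hu, h3]; simp
  · rw [rank_mt, rank_mt, rk]

end Mt

section Tensor

variable {m n o : Type*} [Fintype m] [Fintype n] [Fintype o] [DecidableEq n] [DecidableEq o]

/-- **`F_J = T_J ⊗ ℓ`** for the pencil of a bilinear map `u ↦ S_u = ∑ u_c B_c` and an orthonormal
pair `u₁`, `u₂` (only `|u₁| = |u₂| = 1` is used). -/
theorem Pencil.tensor {P : Matrix n n ℝ} {P' : Matrix m m ℝ} {B : o → Matrix m n ℝ}
    {u₁ u₂ : o → ℝ} (h11 : u₁ ⬝ᵥ u₁ = 1) (h22 : u₂ ⬝ᵥ u₂ = 1)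
    (h : Pencil P P' (∑ c, u₁ c • B c) (∑ c, u₂ c • B c)) :
    PIso (Matrix.kroneckerMap (· * ·) (tj P P' (∑ c, u₁ c • B c) (∑ c, u₂ c • B c)) (qL u₁ u₂))
      (fj P P' (∑ c, u₁ c • B c) (∑ c, u₂ c • B c))
      (sT B (tj P P' (∑ c, u₁ c • B c) (∑ c, u₂ c • B c)) (qL u₁ u₂))
      (pinv (Matrix.kroneckerMap (· * ·) (tj P P' (∑ c, u₁ c • B c) (∑ c, u₂ c • B c))
        (qL u₁ u₂)) (fj P P' (∑ c, u₁ c • B c) (∑ c, u₂ c • B c))
        (sT B (tj P P' (∑ c, u₁ c • B c) (∑ c, u₂ c • B c)) (qL u₁ u₂))) := by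
  obtain ⟨W, hW⟩ := PIso.tensor h11 h22 h.pIso1.cr (by
    have := congrArg cr h.ps2
    rw [cr_mul] at this
    exact this) h.pol
  exact PIso.to_pinv hW

variable {X : Type*} [NormedAddCommGroup X] [NormedSpace ℝ X] {k : WithTop ℕ∞} {x : X}

omit [Fintype o] [DecidableEq o] in
theorem MSm.qL {u₁ u₂ : X → o → ℝ} (h1 : ∀ c, ContDiffAt ℝ k (fun y => u₁ y c) x)
    (h2 : ∀ c, ContDiffAt ℝ k (fun y => u₂ y c) x) :
    MSm k (fun y => SP.qL (u₁ y) (u₂ y)) x := by
  intro a b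
  have e : ∀ {u : X → o → ℝ}, (∀ c, ContDiffAt ℝ k (fun y => u y c) x) → ∀ c,
      ContDiffAt ℝ k (fun y => ((u y c : ℝ) : ℂ)) x := fun h c =>
    Complex.ofRealCLM.contDiff.contDiffAt.comp x (h c)
  exact contDiffAt_const.mul (((e h1 a).sub (contDiffAt_const.mul (e h2 a))).mul
    ((e h1 b).add (contDiffAt_const.mul (e h2 b))))

omit [Fintype m] [DecidableEq n] [DecidableEq o] in
theorem MSm.sT {B : X → o → Matrix m n ℝ} {Q : X → Matrix n n ℂ} {L : X → Matrix o o ℂ}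
    (hB : ∀ c, MSm k (fun y => B y c) x) (hQ : MSm k Q x) (hL : MSm k L x) :
    MSm k (fun y => SP.sT (B y) (Q y) (L y)) x := by
  intro a bc
  exact ContDiffAt.sum fun c _ => (((hB c).cr.mul hQ) a bc.1).mul (hL c bc.2)

end Tensor

end Crest.Agent.R208.SP
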