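import Crest.Agent.R208.GT1
import Crest.Agent.R208.SP9

/-!
Row 208, block GT (helper989), part GT2: the derivative of the field of links in the direction of
the cut locus; the operators `S_v : T_q C_p → T_p C_q`; the pencil of an orthonormal pair of
`V_pq`.
-/

set_option autoImplicit false

open MeasureTheory Measure Set Filter Topology Module Metric
open scoped ContDiff RealInnerProductSpace
open Crest.GeometryTopology.Submanifold
open Crest.Agent.R241.DDefs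
open Crest.Agent.R241.D2

noncomputable section

namespace Crest.Agent.R208.GT

variable {n N k : ℕ} {κ : ℝ} {S : Set (Euc N)} {G : Geo n N κ S} {p q v w a b y x : Euc N}
  {PV : Euc N × Euc N → Euc N →L[ℝ] Euc N}

/-- `PV` is a smooth extension of the field of orthogonal projections onto `V_pq`. -/
structure VField (G : Geo n N κ S) (PV : Euc N × Euc N → Euc N →L[ℝ] Euc N) : Prop where
  eq : ∀ z ∈ FF S, PV z = (Vs G z.1 z.2).starProjection
  smooth : ∀ z ∈ FF S, ContDiffAt ℝ ∞ PV z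

/-- the projection onto `T_q C_p` -/
def PTC (G : Geo n N κ S) (PV : Euc N × Euc N → Euc N →L[ℝ] Euc N) (z : Euc N × Euc N) :
    Euc N →L[ℝ] Euc N := G.P z.2 - PV z.swap

/-- the operator `S_v : T_q C_p → T_p C_q`, `y ↦ (D_{(0,y)} PV) v` -/
def Sf (G : Geo n N κ S) (PV : Euc N × Euc N → Euc N →L[ℝ] Euc N) (z : Euc N × Euc N)
    (v : Euc N) : Euc N →L[ℝ] Euc N :=
  ((fderiv ℝ PV z).flip v).comp
    ((ContinuousLinearMap.inr ℝ (Euc N) (Euc N)).comp (PTC G PV z))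

lemma Sf_apply (z : Euc N × Euc N) (v y : Euc N) :
    Sf G PV z v y = fderiv ℝ PV z (0, PTC G PV z y) v := rfl

namespace VField

variable (hV : VField G PV) (h : Bla G k)

include hV

lemma PV_eq_self (hz : (p, q) ∈ FF S) (hx : x ∈ Vs G p q) : PV (p, q) x = x := by
  rw [hV.eq _ hz]; exact Submodule.starProjection_eq_self_iff.2 hx

lemma PV_mem (hz : (p, q) ∈ FF S) (x : Euc N) : PV (p, q) x ∈ Vs G p q := by
  rw [hV.eq _ hz]; exact Submodule.starProjection_apply_mem _ _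

lemma PV_eq_zero (hz : (p, q) ∈ FF S) (hx : x ∈ (Vs G p q)ᗮ) : PV (p, q) x = 0 := by
  rw [hV.eq _ hz]; exact (Submodule.starProjection_apply_eq_zero_iff _).2 hx

lemma inner_PV (hz : (p, q) ∈ FF S) (x y : Euc N) : ⟪PV (p, q) x, y⟫ = ⟪x, PV (p, q) y⟫ := by
  rw [hV.eq _ hz]
  exact Submodule.inner_starProjection_left_eq_right _ _ _

lemma PV_idem (hz : (p, q) ∈ FF S) (x : Euc N) : PV (p, q) (PV (p, q) x) = PV (p, q) x :=
  hV.PV_eq_self hz (hV.PV_mem hz x)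

include h

lemma PTC_mem (hz : (p, q) ∈ FF S) (x : Euc N) : PTC G PV (p, q) x ∈ TC G p q := by
  have hz' := FF_symm' hz
  have h1 : PTC G PV (p, q) x = G.P q x - PV (q, p) x := rfl
  rw [h1]
  refine Submodule.mem_inf.2 ⟨Submodule.sub_mem _ (P_mem G hz.2.1)
    (h.Vs_le hz' (hV.PV_mem hz' x)), ?_⟩
  rw [Submodule.mem_orthogonal]
  intro u hu
  rw [inner_sub_right, ← hV.inner_PV hz', hV.PV_eq_self hz' hu, ← inner_P_left G hz.2.1,
    (P_eq_self G hz.2.1).1 (h.Vs_le hz' hu), sub_self]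

omit h in
lemma PTC_eq_self (hz : (p, q) ∈ FF S) (hx : x ∈ TC G p q) : PTC G PV (p, q) x = x := by
  have hz' := FF_symm' hz
  have h1 : PTC G PV (p, q) x = G.P q x - PV (q, p) x := rfl
  rw [h1, hV.PV_eq_zero hz' hx.2, (P_eq_self G hz.2.1).1 hx.1, sub_zero]

lemma PTC_eq_zero (hz : (p, q) ∈ FF S) (hx : x ∈ Vs G q p) : PTC G PV (p, q) x = 0 := by
  have hz' := FF_symm' hz
  have h1 : PTC G PV (p, q) x = G.P q x - PV (q, p) x := rfl
  rw [h1, hV.PV_eq_self hz' hx, (P_eq_self G hz.2.1).1 (h.Vs_le hz' hx), sub_self]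

lemma PTC_idem (hz : (p, q) ∈ FF S) (x : Euc N) :
    PTC G PV (p, q) (PTC G PV (p, q) x) = PTC G PV (p, q) x :=
  hV.PTC_eq_self hz (hV.PTC_mem h hz x)

omit h in
lemma inner_PTC (hz : (p, q) ∈ FF S) (x y : Euc N) :
    ⟪PTC G PV (p, q) x, y⟫ = ⟪x, PTC G PV (p, q) y⟫ := by
  have hz' := FF_symm' hz
  have h1 : ∀ x, PTC G PV (p, q) x = G.P q x - PV (q, p) x := fun _ => rfl
  rw [h1, h1, inner_sub_left, inner_sub_right, inner_P_left G hz.2.1, hV.inner_PV hz']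

lemma range_PTC (hz : (p, q) ∈ FF S) :
    LinearMap.range (PTC G PV (p, q) : Euc N →ₗ[ℝ] Euc N) = TC G p q := by
  apply le_antisymm
  · rintro _ ⟨x, rfl⟩
    exact hV.PTC_mem h hz x
  · intro x hx
    exact ⟨x, hV.PTC_eq_self hz hx⟩

/-- **derivative of the links along the cut locus** -/
theorem dPV (hz : (p, q) ∈ FF S) (hv : v ∈ Vs G p q) (hv1 : ‖v‖ = 1) (hb : b ∈ TC G q p) :
    fderiv ℝ PV (p, q) (0, fderiv ℝ (Exp G p) (Real.pi • v) (Real.pi • b)) v = b := by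
  have hvT := h.Vs_le hz hv
  have hvb : ⟪v, b⟫ = 0 := inner_TC hv hb
  set c : ℝ → Euc N := fun s => (‖v + s • b‖⁻¹ : ℝ) • (v + s • b) with hc
  set Q : ℝ → Euc N := fun s => Exp G p (Real.pi • c s) with hQ
  have hc0 : c 0 = v := by simp [hc, hv1]
  have hQ0 : Q 0 = q := by rw [hQ]; simp only [hc0]; exact h.Exp_pi hz hv hv1
  have hcd : HasDerivAt c b 0 := by
    have h1 := K.hasDerivAt_normalize (w := b) hv1
    rwa [hvb, zero_smul, sub_zero] at h1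
  have hQd : HasDerivAt Q (fderiv ℝ (Exp G p) (Real.pi • v) (Real.pi • b)) 0 := by
    have h1 := K.hasDerivAt_Exp_normalize (w := b) hz.1 hvT hv1 Real.pi
    rwa [hvb, zero_smul, sub_zero] at h1
  have hne := K.eventually_ne_zero (v := v) (w := b) hv1
  have hev : ∀ᶠ s in 𝓝 (0 : ℝ), PV (p, Q s) (c s) = c s := by
    filter_upwards [hne] with s hs
    have h1 : c s ∈ G.T p := K.normalize_mem hvT hb.1 s
    have h2 : ‖c s‖ = 1 := unit_of hs
    exact hV.PV_eq_self (h.mem_FF hz.1 h1 h2) (mem_Vs h1 h2)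
  have hPV : HasDerivAt (fun s => PV (p, Q s))
      (fderiv ℝ PV (p, q) (0, fderiv ℝ (Exp G p) (Real.pi • v) (Real.pi • b))) 0 := by
    have h1 : HasFDerivAt PV (fderiv ℝ PV (p, q)) (p, Q 0) := by
      rw [hQ0]; exact ((hV.smooth _ hz).differentiableAt (by simp)).hasFDerivAt
    exact h1.comp_hasDerivAt (0 : ℝ) ((hasDerivAt_const (0 : ℝ) p).prodMk hQd)
  have h1 := hPV.clm_apply hcd
  rw [hc0, hQ0] at h1
  have h2 := (h1.congr_of_eventuallyEq (hev.mono fun s hs => hs.symm)).unique hcd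
  rw [hV.PV_eq_zero hz hb.2, add_zero] at h2
  exact h2

/-- `S_v` inverts `π A_v`. -/
theorem Sf_unit (hz : (p, q) ∈ FF S) (hv : v ∈ Vs G p q) (hv1 : ‖v‖ = 1) (hb : b ∈ TC G q p) :
    Sf G PV (p, q) v (fderiv ℝ (Exp G p) (Real.pi • v) (Real.pi • b)) = b := by
  have h1 := h.fderiv_mem_TC hz hv hv1 (TC_le (TC G q p |>.smul_mem Real.pi hb))
    (inner_TC hv (TC G q p |>.smul_mem Real.pi hb))
  rw [Sf_apply, hV.PTC_eq_self hz h1]
  exact hV.dPV h hz hv hv1 hb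

lemma exists_of_mem (hz : (p, q) ∈ FF S) (hv : v ∈ Vs G p q) (hv1 : ‖v‖ = 1)
    (hy : y ∈ TC G p q) : ∃ b ∈ TC G q p,
      fderiv ℝ (Exp G p) (Real.pi • v) (Real.pi • b) = y ∧ Sf G PV (p, q) v y = b := by
  obtain ⟨a, ha, hay⟩ := h.fderiv_surj hz hv hv1 hy
  have hb : (Real.pi⁻¹ : ℝ) • a ∈ TC G q p := Submodule.smul_mem _ _ ha
  have h1 : fderiv ℝ (Exp G p) (Real.pi • v) (Real.pi • ((Real.pi⁻¹ : ℝ) • a)) = y := by
    rw [smul_smul, mul_inv_cancel₀ Real.pi_ne_zero, one_smul, hay]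
  refine ⟨_, hb, h1, ?_⟩
  have h2 := hV.Sf_unit h hz hv hv1 hb
  rwa [h1] at h2

lemma Sf_mem (hz : (p, q) ∈ FF S) (hv : v ∈ Vs G p q) (y : Euc N) :
    Sf G PV (p, q) v y ∈ TC G q p := by
  by_cases h0 : v = 0
  · subst h0
    rw [Sf_apply, map_zero]; exact Submodule.zero_mem _
  · have h1 : (‖v‖⁻¹ : ℝ) • v ∈ Vs G p q := Submodule.smul_mem _ _ hv
    have h2 : Sf G PV (p, q) v y =
        ‖v‖ • Sf G PV (p, q) ((‖v‖⁻¹ : ℝ) • v) (PTC G PV (p, q) y) := by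
      rw [Sf_apply, Sf_apply, hV.PTC_idem h hz, ← map_smul, smul_unit h0]
    obtain ⟨b, hb, -, hb'⟩ := hV.exists_of_mem h hz h1 (unit_of h0) (hV.PTC_mem h hz y)
    rw [h2, hb']
    exact Submodule.smul_mem _ _ hb

omit hV h in
lemma Sf_add (z : Euc N × Euc N) (v w y : Euc N) :
    Sf G PV z (v + w) y = Sf G PV z v y + Sf G PV z w y := by
  simp only [Sf_apply, map_add]

omit hV h in
lemma Sf_smul (z : Euc N × Euc N) (c : ℝ) (v y : Euc N) :
    Sf G PV z (c • v) y = c • Sf G PV z v y := by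
  simp only [Sf_apply, map_smul]

lemma Sf_PTC (hz : (p, q) ∈ FF S) (v y : Euc N) :
    Sf G PV (p, q) v (PTC G PV (p, q) y) = Sf G PV (p, q) v y := by
  rw [Sf_apply, Sf_apply, hV.PTC_idem h hz]

lemma Sf_inj (hz : (p, q) ∈ FF S) (hv : v ∈ Vs G p q) (hv0 : v ≠ 0) (hy : y ∈ TC G p q)
    (h0 : Sf G PV (p, q) v y = 0) : y = 0 := by
  have h1 : (‖v‖⁻¹ : ℝ) • v ∈ Vs G p q := Submodule.smul_mem _ _ hv
  obtain ⟨b, hb, hby, hb'⟩ := hV.exists_of_mem h hz h1 (unit_of hv0) hy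
  rw [Sf_smul, h0, smul_zero] at hb'
  rw [← hby, ← hb', smul_zero, map_zero]

/-- **swap symmetry**: `S_v : T_q C_p → T_p C_q` and `S_{f v} : T_p C_q → T_q C_p` are adjoint. -/
theorem Sf_swap_unit (hz : (p, q) ∈ FF S) (hv : v ∈ Vs G p q) (hv1 : ‖v‖ = 1)
    (hy : y ∈ TC G p q) (hx : x ∈ TC G q p) :
    ⟪Sf G PV (p, q) v y, x⟫ = ⟪y, Sf G PV (q, p) (ar G p v) x⟫ := by
  obtain ⟨hu, hu1, huv⟩ := h.ar_spec hz hv hv1
  obtain ⟨b, hb, hby, hb'⟩ := hV.exists_of_mem h hz hv hv1 hy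
  obtain ⟨c, hc, hcx, hc'⟩ := hV.exists_of_mem h (FF_symm' hz) hu hu1 hx
  rw [hb', hc', ← hby, ← hcx, map_smul, map_smul, inner_smul_right, real_inner_smul_left,
    h.adj_pi hz hv hv1 hb.1 hc.1]

theorem Sf_swap (hz : (p, q) ∈ FF S) (hv : v ∈ Vs G p q) (hy : y ∈ TC G p q)
    (hx : x ∈ TC G q p) :
    ⟪Sf G PV (p, q) v y, x⟫ = ⟪y, Sf G PV (q, p) (lf G p q v) x⟫ := by
  by_cases h0 : v = 0
  · rw [h0, map_zero]
    simp [Sf_apply]
  · have h1 : (‖v‖⁻¹ : ℝ) • v ∈ Vs G p q := Submodule.smul_mem _ _ hv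
    have h2 := hV.Sf_swap_unit h hz h1 (unit_of h0) hy hx
    rw [← h.lf_unit hz h1 (unit_of h0), map_smul, Sf_smul, Sf_smul, real_inner_smul_left,
      real_inner_smul_right] at h2
    exact mul_left_cancel₀ (inv_ne_zero (norm_ne_zero_iff.2 h0)) h2

/-- **the pencil** of an orthonormal pair of vectors of `V_pq` -/
theorem pencil (hz : (p, q) ∈ FF S) (hv : v ∈ Vs G p q) (hw : w ∈ Vs G p q) (hv1 : ‖v‖ = 1)
    (hw1 : ‖w‖ = 1) (hvw : ⟪v, w⟫ = 0) {ι : Type*} [Fintype ι] [DecidableEq ι]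
    (β : Basis ι ℝ (Euc N)) :
    SP.Pencil (SP.mt β β (PTC G PV (p, q))) (SP.mt β β (PTC G PV (q, p)))
      (SP.mt β β (Sf G PV (p, q) v)) (SP.mt β β (Sf G PV (p, q) w)) := by
  have hz' := FF_symm' hz
  refine SP.pencil_of_clm β β (hV.PTC_idem h hz) (hV.PTC_idem h hz') (hV.Sf_PTC h hz v)
    (hV.Sf_PTC h hz w) (fun y => hV.PTC_eq_self hz' (hV.Sf_mem h hz hv y))
    (fun y => hV.PTC_eq_self hz' (hV.Sf_mem h hz hw y)) ?_ ?_
  · intro s t hst y hy h0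
    have h1 : y ∈ TC G p q := by rw [← hy]; exact hV.PTC_mem h hz y
    refine hV.Sf_inj h hz (Submodule.add_mem _ (Submodule.smul_mem _ s hv)
      (Submodule.smul_mem _ t hw)) ?_ h1 (by rw [Sf_add, Sf_smul, Sf_smul, h0])
    intro h2
    have h3 : ‖s • v + t • w‖ ^ 2 = s ^ 2 + t ^ 2 := by
      rw [norm_add_sq_real, norm_smul, norm_smul, hv1, hw1, real_inner_smul_left,
        real_inner_smul_right, hvw, mul_one, mul_one, Real.norm_eq_abs, Real.norm_eq_abs, sq_abs,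
        sq_abs]
      ring
    rw [h2, norm_zero, hst] at h3
    norm_num at h3
  · rw [hV.range_PTC h hz, hV.range_PTC h hz']
    have h1 := h.finrank_TC hz
    have h2 := h.finrank_TC hz'
    omega

end VField

end Crest.Agent.R208.GT
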