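import Crest.Agent.R208.FI2d
import Mathlib.Topology.MetricSpace.HausdorffDimension

/-!
R208, (8,2), block Q (helper378), file QH1: a smooth map from an `a`-dimensional manifold does not
cover a `b`-dimensional one if `a < b` (Hausdorff dimension).
-/

set_option autoImplicit false

open Set Filter Topology Module
open scoped ContDiff ENNReal NNReal

noncomputable section

namespace Crest.Agent.R208.QH

open Crest.Agent.R208.F Crest.Agent.R208.FI

variable {E : Type*} [NormedAddCommGroup E] [NormedSpace ℝ E] [FiniteDimensional ℝ E]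
  {F : Type*} [NormedAddCommGroup F] [NormedSpace ℝ F] [FiniteDimensional ℝ F]

omit [FiniteDimensional ℝ F] in
theorem dimH_image_le {X : Set E} {g : E → F} (hg : ∀ x ∈ X, ContDiffAt ℝ ∞ g x) :
    dimH (g '' X) ≤ dimH X := by
  have : ProperSpace E := FiniteDimensional.proper ℝ E
  refine dimH_image_le_of_locally_lipschitzOn fun x hx => ?_
  obtain ⟨K, t, ht, hK⟩ := ((hg x hx).of_le (by simp) : ContDiffAt ℝ 1 g x).exists_lipschitzOnWith
  exact ⟨K, t, mem_nhdsWithin_of_mem_nhds ht, hK⟩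

theorem dimH_Eu (d : ℕ) : dimH (univ : Set (Eu d)) = d := by
  rw [Real.dimH_of_nonempty_interior (by simp)]
  simp

theorem dimH_sub_le {d : ℕ} {X : Set E} (hX : Sub d X) : dimH X ≤ d := by
  have : ProperSpace E := FiniteDimensional.proper ℝ E
  by_contra h
  push Not at h
  obtain ⟨x, hx, ht⟩ := exists_mem_nhdsWithin_lt_dimH_of_lt_dimH h
  obtain ⟨f, V, hf, hxf⟩ := hX x hx
  obtain ⟨U, hU, he⟩ := hf.image_open V le_rfl hf.isOpen
  have hxU : x ∈ U := by
    rw [he] at hxf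
    exact hxf.2
  have h1 : f '' V ∈ 𝓝[X] x := by
    rw [he]
    exact inter_mem_nhdsWithin X (hU.mem_nhds hxU)
  have h2 := ht _ h1
  have h3 : dimH (f '' V) ≤ dimH V := dimH_image_le fun u hu => hf.contDiffAt hu
  have h4 : dimH V ≤ d := (dimH_mono (subset_univ V)).trans (dimH_Eu d).le
  exact absurd (h3.trans h4) (not_le.2 h2)

theorem le_dimH_sub {d : ℕ} {X : Set E} (hX : Sub d X) (hne : X.Nonempty) : (d : ℝ≥0∞) ≤ dimH X := by
  obtain ⟨x, hx⟩ := hne
  obtain ⟨γ, W, O, ℓ, hL, hxO⟩ := hX.exists_loc hx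
  have h1 : W ⊆ ℓ '' (X ∩ O) := fun w hw => ⟨γ w, hL.mem hw, hL.inv w hw⟩
  have h2 : dimH (ℓ '' (X ∩ O)) ≤ dimH (X ∩ O) := dimH_image_le fun y hy => hL.lC' hy.2
  have h3 : dimH W = d := by
    rw [Real.dimH_of_nonempty_interior]
    · simp
    · rw [hL.oW.interior_eq]
      exact ⟨ℓ x, hL.maps x hxO⟩
  calc (d : ℝ≥0∞) = dimH W := h3.symm
    _ ≤ dimH (ℓ '' (X ∩ O)) := dimH_mono h1
    _ ≤ dimH (X ∩ O) := h2
    _ ≤ dimH X := dimH_mono inter_subset_left

/-- a smooth image of an `a`-dimensional manifold misses a point of every nonempty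
`b`-dimensional manifold, `a < b` -/
theorem exists_notMem_image {a b : ℕ} {X : Set E} {Y : Set F} (hX : Sub a X) (hY : Sub b Y)
    (hne : Y.Nonempty) (hab : a < b) {g : E → F} (hg : ∀ x ∈ X, ContDiffAt ℝ ∞ g x) :
    ∃ y ∈ Y, ∀ x ∈ X, g x ≠ y := by
  by_contra h
  push Not at h
  have h1 : Y ⊆ g '' X := fun y hy => by
    obtain ⟨x, hx, he⟩ := h y hy
    exact ⟨x, hx, he⟩
  have h2 : (b : ℝ≥0∞) ≤ a := (le_dimH_sub hY hne).trans ((dimH_mono h1).trans
    ((dimH_image_le hg).trans (dimH_sub_le hX)))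
  exact absurd (by exact_mod_cast h2 : b ≤ a) (not_le.2 hab)

/-- version with two maps at once and with a finite-dimensional vector space as a target -/
theorem exists_notMem_image₂ {a a' b : ℕ} {E' : Type*} [NormedAddCommGroup E'] [NormedSpace ℝ E']
    [FiniteDimensional ℝ E'] {X : Set E} {X' : Set E'} {Y : Set F} (hX : Sub a X)
    (hX' : Sub a' X') (hY : Sub b Y) (hne : Y.Nonempty) (hab : a < b) (hab' : a' < b)
    {g : E → F} (hg : ∀ x ∈ X, ContDiffAt ℝ ∞ g x)
    {g' : E' → F} (hg' : ∀ x ∈ X', ContDiffAt ℝ ∞ g' x) :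
    ∃ y ∈ Y, (∀ x ∈ X, g x ≠ y) ∧ ∀ x ∈ X', g' x ≠ y := by
  by_contra h
  push Not at h
  have h1 : Y ⊆ g '' X ∪ g' '' X' := fun y hy => by
    by_cases h0 : ∀ x ∈ X, g x ≠ y
    · obtain ⟨x, hx, he⟩ := h y hy h0
      exact Or.inr ⟨x, hx, he⟩
    · push Not at h0
      obtain ⟨x, hx, he⟩ := h0
      exact Or.inl ⟨x, hx, he⟩
  have h2 : (b : ℝ≥0∞) ≤ max (a : ℝ≥0∞) a' := (le_dimH_sub hY hne).trans ((dimH_mono h1).trans (by
    rw [dimH_union]
    exact max_le_max ((dimH_image_le hg).trans (dimH_sub_le hX))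
      ((dimH_image_le hg').trans (dimH_sub_le hX'))))
  rcases le_max_iff.1 h2 with h3 | h3
  · exact absurd (by exact_mod_cast h3 : b ≤ a) (not_le.2 hab)
  · exact absurd (by exact_mod_cast h3 : b ≤ a') (not_le.2 hab')

end Crest.Agent.R208.QH
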