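import Crest.Agent.R208.SN6
import Crest.Agent.R208.QH1
import Crest.Agent.R208.FV3
import Crest.Agent.R208.THB3

/-! Row 208, block SN (helper900).  SN7: the tower of sphere bundles; the spread number. -/

set_option autoImplicit false
set_option linter.unusedSectionVars false

open MeasureTheory Set Filter Topology Module Matrix
open scoped ContDiff RealInnerProductSpace ENNReal
open Crest.Agent.R208.F Crest.Agent.R208.FI Crest.Agent.R208.CW Crest.Agent.R208.T

noncomputable section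

namespace Crest.Agent.R208.SN

section conn
variable {E H : Type*} [NormedAddCommGroup E] [NormedSpace ℝ E] [FiniteDimensional ℝ E]
  [NormedAddCommGroup H] [InnerProductSpace ℝ H] [FiniteDimensional ℝ H]
  {X : Set E} {P : E → H →L[ℝ] H} {r d : ℕ}

theorem image_pB : (pB : (E × H) × ℝ → E) '' SB X P = X := by
  refine Subset.antisymm ?_ fun x hx => ⟨((x, 0), 1), SB_iff.2 ⟨hx, by simp, by simp⟩, rfl⟩
  rintro _ ⟨z, hz, rfl⟩
  exact hz.1.1.1

theorem preconn_sph {V : Submodule ℝ H} (hV : 2 ≤ finrank ℝ V) :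
    IsPreconnected {v : H | v ∈ V ∧ ‖v‖ = 1} := by
  have h1 : IsPreconnected (Metric.sphere (0 : V) 1) := by
    apply isPreconnected_sphere
    rw [← Module.finrank_eq_rank]
    exact_mod_cast hV
  have h2 := h1.image (fun v : V => (v : H)) continuous_subtype_val.continuousOn
  have h3 : (fun v : V => (v : H)) '' Metric.sphere (0 : V) 1 = {v : H | v ∈ V ∧ ‖v‖ = 1} := by
    ext v
    constructor
    · rintro ⟨w, hw, rfl⟩
      exact ⟨w.2, by simpa using hw⟩
    · rintro ⟨h1, h2⟩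
      exact ⟨⟨v, h1⟩, by simpa using h2, rfl⟩
  rwa [h3] at h2

theorem preconn_fib (hP : PField X r P) (hr : 2 ≤ r) {x : E} (hx : x ∈ X) :
    IsPreconnected (SB X P ∩ pB ⁻¹' {x}) := by
  set V : Submodule ℝ H := LinearMap.range (P x : H →ₗ[ℝ] H) with hV
  have hV2 : 2 ≤ finrank ℝ V := by
    have := hP.rank x hx
    rw [hV]
    omega
  have h1 := (preconn_sph hV2).prod (isPreconnected_Icc (a := (0 : ℝ)) (b := Real.pi))
  have h2 := h1.image (fun y : H × ℝ => ((x, Real.sin y.2 • y.1), Real.cos y.2))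
    (by fun_prop)
  have h3 : (fun y : H × ℝ => (((x, Real.sin y.2 • y.1), Real.cos y.2) : (E × H) × ℝ)) ''
      ({v : H | v ∈ V ∧ ‖v‖ = 1} ×ˢ Icc (0 : ℝ) Real.pi) = SB X P ∩ pB ⁻¹' {x} := by
    ext z
    constructor
    · rintro ⟨⟨v, θ⟩, ⟨⟨hv, hv1⟩, hθ⟩, rfl⟩
      refine ⟨SB_iff.2 ⟨hx, ?_, ?_⟩, rfl⟩
      · obtain ⟨u, rfl⟩ := hv
        have : P x (P x u) = P x u := hP.idem x hx u
        show P x (Real.sin θ • (P x u)) = Real.sin θ • (P x u)
        rw [map_smul, this]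
      · show ⟪Real.sin θ • v, Real.sin θ • v⟫ + Real.cos θ * Real.cos θ = 1
        rw [real_inner_smul_left, real_inner_smul_right, real_inner_self_eq_norm_sq, hv1]
        nlinarith [Real.sin_sq_add_cos_sq θ]
    · rintro ⟨hz, hzx⟩
      obtain ⟨h4, h5, h6⟩ := SB_iff.1 hz
      have hx' : z.1.1 = x := hzx
      set s : ℝ := ‖z.1.2‖ with hs
      have hs0 : 0 ≤ s := norm_nonneg _
      rw [real_inner_self_eq_norm_sq, ← hs] at h6
      have hz2 : -1 ≤ z.2 ∧ z.2 ≤ 1 := by
        constructor <;> nlinarith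
      have hcos : Real.cos (Real.arccos z.2) = z.2 := Real.cos_arccos hz2.1 hz2.2
      have hsin : Real.sin (Real.arccos z.2) = s := by
        rw [Real.sin_arccos]
        have : 1 - z.2 ^ 2 = s ^ 2 := by linarith
        rw [this, Real.sqrt_sq hs0]
      -- a unit vector
      obtain ⟨u, hu, hu1⟩ : ∃ u ∈ V, ‖u‖ = 1 := by
        have : 0 < finrank ℝ V := by omega
        have : Nontrivial V := Module.nontrivial_of_finrank_pos this
        obtain ⟨u, hu⟩ := exists_norm_eq V (c := 1) zero_le_one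
        exact ⟨u, u.2, hu⟩
      by_cases h0 : z.1.2 = 0
      · refine ⟨(u, Real.arccos z.2), ⟨⟨hu, hu1⟩, Real.arccos_nonneg _, Real.arccos_le_pi _⟩, ?_⟩
        have hs' : s = 0 := by rw [hs, h0, norm_zero]
        refine Prod.ext (Prod.ext hx'.symm ?_) hcos
        show Real.sin (Real.arccos z.2) • u = z.1.2
        rw [hsin, hs', zero_smul, h0]
      · have hs' : s ≠ 0 := by rw [hs]; exact norm_ne_zero_iff.2 h0
        refine ⟨(s⁻¹ • z.1.2, Real.arccos z.2), ⟨⟨V.smul_mem _ ⟨z.1.2, ?_⟩, ?_⟩,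
          Real.arccos_nonneg _, Real.arccos_le_pi _⟩, ?_⟩
        · rw [← hx']; exact h5
        · show ‖s⁻¹ • z.1.2‖ = 1
          rw [norm_smul, norm_inv, Real.norm_of_nonneg hs0, ← hs, inv_mul_cancel₀ hs']
        · refine Prod.ext (Prod.ext hx'.symm ?_) hcos
          show Real.sin (Real.arccos z.2) • (s⁻¹ • z.1.2) = z.1.2
          rw [hsin, smul_smul, mul_inv_cancel₀ hs', one_smul]
  rwa [h3] at h2

theorem preconn_SB (hX : Clo d X) (hXc : IsPreconnected X) (hP : PField X r P) (hr : 2 ≤ r) :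
    IsPreconnected (SB X P) :=
  FV.preconn_of_fibres (isCompact_SB hX.compact hP)
    (by unfold pB; fun_prop : ContinuousOn (pB : (E × H) × ℝ → E) (SB X P)) image_pB hXc
    fun x hx => preconn_fib hP hr hx

theorem SB_nonempty (hX : X.Nonempty) : (SB X P).Nonempty := by
  obtain ⟨x, hx⟩ := hX
  exact ⟨((x, 0), 1), SB_iff.2 ⟨hx, by simp, by simp⟩⟩

end conn

section gen
variable {n ι : Type*} [Fintype n] [DecidableEq n] [Fintype ι] [DecidableEq ι]
  {T : Submodule ℝ (EuclideanSpace ℝ n)} {C : Set (EuclideanSpace ℝ n)}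
  {P : EuclideanSpace ℝ n → EuclideanSpace ℝ n →L[ℝ] EuclideanSpace ℝ n}
  {W : EuclideanSpace ℝ n → (ι × Fin 2 → n) → ℝ} {rho : EuclideanSpace ℝ n → EuclideanSpace ℝ n}
  {E : Type*} [NormedAddCommGroup E] [NormedSpace ℝ E] [FiniteDimensional ℝ E]
  {X : Set E} {f : E → EuclideanSpace ℝ n} {d : ℕ}

/-- a generic vector lies in none of the planes over `X` -/
theorem exists_w (h : Spr T C P W rho) (hX : Sub d X) (hf : SMap X C f)
    (hlt : Fintype.card ι * 2 + d < finrank ℝ T) : ∃ w ∈ T, ∀ x ∈ X, P (f x) w ≠ w := by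
  by_contra hcon
  push Not at hcon
  have h1 : (T : Set (EuclideanSpace ℝ n)) ⊆ Prod.snd '' Tot X (fun x => P (f x)) := by
    intro w hw
    obtain ⟨x, hx, he⟩ := hcon w hw
    exact ⟨(x, w), ⟨hx, he⟩, rfl⟩
  have h2 : dimH (T : Set (EuclideanSpace ℝ n)) ≤ ((d + Fintype.card ι * 2 : ℕ) : ℝ≥0∞) :=
    (dimH_mono h1).trans ((QH.dimH_image_le fun z _ => contDiff_snd.contDiffAt).trans
      (QH.dimH_sub_le ((pf h hf).sub_tot hX)))
  have h3 : dimH (T : Set (EuclideanSpace ℝ n)) = (finrank ℝ T : ℝ≥0∞) := by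
    have h4 := T.subtypeₗᵢ.isometry.dimH_image (univ : Set T)
    rw [image_univ, Real.dimH_univ_eq_finrank] at h4
    rw [← h4]
    congr 1
    ext v
    simp
  rw [h3] at h2
  have h5 : finrank ℝ T ≤ d + Fintype.card ι * 2 := by exact_mod_cast h2
  omega

theorem isDeg_oVf (W : E → (ι × Fin 2 → n) → ℝ) (z : (E × EuclideanSpace ℝ n) × ℝ) :
    IsDeg (Fintype.card ι * 2) (oVf W z) := by
  unfold oVf
  refine IsDeg.ii ?_ _
  have h1 : IsDeg (Fintype.card ι * 2) (volW (W z.1.1)) := by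
    unfold volW
    exact IsDeg.sum _ fun I _ => (IsDeg.iMulti _).smul _
  have h2 : IsDeg 1 (io (p3 (E := E) (n := n))) := by
    have e1 : io (p3 (E := E) (n := n)) = ExteriorAlgebra.ιMulti ℝ 1 (fun _ : Fin 1 => p3) := by
      rw [ExteriorAlgebra.ιMulti_apply]; simp
    rw [e1]
    exact IsDeg.iMulti _
  exact isDeg_mul (h1.pb _) h2

end gen

end Crest.Agent.R208.SN
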