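import Crest.Agent.R208.AF8
import Crest.Agent.R208.SB2
import Crest.Agent.R208.SN7
import Crest.Agent.R208.KG7

/-! Row 208, block (A2) (helper601).  AF9: integration over the nested sphere bundle. -/

set_option autoImplicit false
set_option linter.unusedSectionVars false

open MeasureTheory Set Filter Topology Module
open scoped ContDiff RealInnerProductSpace
open Crest.GeometryTopology.Submanifold
open Crest.Agent.R241.DDefs
open Crest.Agent.R241.D2
open Crest.Agent.R208.F Crest.Agent.R208.FI Crest.Agent.R208.CW Crest.Agent.R208.T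
open Crest.Agent.R208.FG (OSubm)
open Crest.Agent.R208.SB (OPr oV)

noncomputable section

namespace Crest.Agent.R208.AF

section gen
variable {E H : Type*} [NormedAddCommGroup E] [NormedSpace ℝ E] [FiniteDimensional ℝ E]
  [NormedAddCommGroup H] [InnerProductSpace ℝ H] [FiniteDimensional ℝ H]
  {X : Set E} {P : E → H →L[ℝ] H} {r : ℕ}

theorem preconn_Sph (hX : IsCompact X) (hXc : IsPreconnected X) (hP : PField X r P) (hr : 2 ≤ r) :
    IsPreconnected (Sph X P) := by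
  have key : ∀ x ∈ X, Sph X P ∩ Prod.fst ⁻¹' {x} =
      (fun v : H => (x, v)) '' {v : H | v ∈ LinearMap.range (P x : H →ₗ[ℝ] H) ∧ ‖v‖ = 1} := by
    intro x hx
    ext ⟨y, v⟩
    constructor
    · rintro ⟨⟨⟨h1, h2⟩, h3⟩, h4⟩
      obtain rfl : y = x := h4
      exact ⟨v, ⟨⟨v, h2⟩, h3⟩, rfl⟩
    · rintro ⟨w, ⟨⟨u, hu⟩, h3⟩, h4⟩
      obtain ⟨rfl, rfl⟩ := Prod.mk.inj h4
      have hu' : P x u = w := hu
      exact ⟨⟨⟨hx, by show P x w = w; rw [← hu', hP.idem x hx]⟩, h3⟩, rfl⟩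
  have hfr : ∀ x ∈ X, 2 ≤ finrank ℝ (LinearMap.range (P x : H →ₗ[ℝ] H)) := fun x hx => by
    rw [hP.rank x hx]; exact hr
  refine FV.preconn_of_fibres (SB.isCompact_Sph hX hP) continuousOn_fst ?_ hXc fun x hx => ?_
  · refine Subset.antisymm ?_ fun x hx => ?_
    · rintro _ ⟨z, hz, rfl⟩
      exact hz.1.1
    · have : Nontrivial (LinearMap.range (P x : H →ₗ[ℝ] H)) :=
        Module.nontrivial_of_finrank_pos (R := ℝ) (by have := hfr x hx; omega)
      obtain ⟨u, hu⟩ := exists_norm_eq (LinearMap.range (P x : H →ₗ[ℝ] H)) (c := 1) zero_le_one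
      have h1 : (x, (u : H)) ∈ Sph X P ∩ Prod.fst ⁻¹' {x} := by
        rw [key x hx]; exact ⟨u, ⟨u.2, hu⟩, rfl⟩
      exact ⟨_, h1.1, rfl⟩
  · rw [key x hx]
    exact (SN.preconn_sph (hfr x hx)).image _ (by fun_prop)

theorem J_ori_eq {n : ℕ} {o o' om : E → Ext E} (hX : Clo n X) (h : ∀ x ∈ X, o x = o' x) :
    J n X o om = J n X o' om := by
  rw [J, J]
  refine setIntegral_congr_fun hX.measurableSet ?_
  rintro _ ⟨x, hx, rfl⟩
  simp only [ContinuousLinearEquiv.symm_apply_apply, dens, h x hx]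

end gen

section step
variable {E E' : Type*} [NormedAddCommGroup E] [NormedSpace ℝ E] [FiniteDimensional ℝ E]
  [NormedAddCommGroup E'] [NormedSpace ℝ E'] [FiniteDimensional ℝ E']
  {r b : ℕ} {Z : Set E'} {X : Set E} {π : E' → E} {oV' : E' → Ext E'} {oX : E → Ext E}

theorem step (h : OSubm r b Z X π oV' oX) {μ : E' → Ext E'} (hμ : ContinuousOn μ Z) {c : ℝ}
    (hc : ∀ x ∈ X, J r (Z ∩ π ⁻¹' {x}) oV' μ = c) {w : E → Ext E} (hw : ContinuousOn w X)
    (hd : Hom b w) :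
    J (r + b) Z (fun z => oV' z * pull π oX z) (μ * pull π w) = c * J b X oX w := by
  have h1 := fibre_integration h.subm h.cV h.tot h.low hμ hw (fun x _ q hq => hd x q (by omega))
  change J _ Z _ (fun z => μ z * pull π w z) = _
  rw [h1, ← J_smul]
  exact J_congr' h.subm.cloX fun x hx => by rw [hc x hx]

end step

section link
variable {n N k r d : ℕ} {κ : ℝ} {S : Set (Euc N)} {G : Geo n N κ S}
  {E : Type*} [NormedAddCommGroup E] [NormedSpace ℝ E] [FiniteDimensional ℝ E]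
  {X : Set E} {b : E → Euc N × Euc N} {σ : ℝ} {oX : E → Ext E}
  {oP : Euc N × Euc N → Ext (Euc N)} {lm : Euc N × Euc N → Ext (Euc N × Euc N)}
open Crest.Agent.R208.L (US)
open Crest.Agent.R208.FV (phi PVB up dn)

/-- the link field along `b` -/
def PB (h : GT.Bla G k) (b : E → Euc N × Euc N) (z : E) : Euc N →L[ℝ] Euc N := PVB h (phi G (b z))

/-- `(x, v) ↦ (p, σ v)` -/
def ar (b : E → Euc N × Euc N) (σ : ℝ) (z : E × Euc N) : Euc N × Euc N := ((b z.1).1, σ • z.2)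

theorem smap_phi (h : GT.Bla G k) : SMap (US G) (GT.FF S) (phi G) :=
  ⟨fun _ hz => FV.contDiffAt_phi hz.1, fun _ hz => FV.phi_mem h.bl hz⟩

theorem pfield_PB (h : GT.Bla G k) (hb : SMap X (US G) b) : PField X k (PB h b) where
  smooth x hx := ((FV.pfield_PVB h).smooth _ ((smap_phi h).maps (hb.maps hx))).comp x
    (((smap_phi h).smooth _ (hb.maps hx)).comp x (hb.smooth x hx))
  idem x hx := (FV.pfield_PVB h).idem _ ((smap_phi h).maps (hb.maps hx))
  rank x hx := (FV.pfield_PVB h).rank _ ((smap_phi h).maps (hb.maps hx))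

theorem ar_spec (h : GT.Bla G k) (hb : SMap X (US G) b) (hσ : σ = 1 ∨ σ = -1) {z : E × Euc N}
    (hz : z ∈ Sph X (PB h b)) : ar b σ z ∈ US G ∧ phi G (ar b σ z) = phi G (b z.1) := by
  have h0 := hb.maps hz.1.1
  have h1 : PVB h (phi G (b z.1)) (σ • z.2) = σ • z.2 := by
    rw [map_smul]; congr 1; exact hz.1.2
  have h2 : ‖σ • z.2‖ = 1 := by
    rw [norm_smul, hz.2, mul_one]
    rcases hσ with rfl | rfl <;> simp
  obtain ⟨e1, e2, e3⟩ := KG.link_spec h h0 h1 h2
  exact ⟨⟨⟨h0.1.1, e1⟩, e2⟩, Prod.ext rfl e3⟩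

theorem smap_ar (h : GT.Bla G k) (hb : SMap X (US G) b) (hσ : σ = 1 ∨ σ = -1) :
    SMap (Sph X (PB h b)) (US G) (ar b σ) where
  smooth z hz := by
    have h1 : ContDiffAt ℝ ∞ (fun z : E × Euc N => (b z.1).1) z :=
      contDiffAt_fst.comp z ((hb.smooth z.1 hz.1.1).comp z contDiffAt_fst)
    exact h1.prodMk (by fun_prop)
  maps z hz := (ar_spec h hb hσ hz).1

theorem smap_bf (h : GT.Bla G k) (hb : SMap X (US G) b) :
    SMap (Sph X (PB h b)) (US G) (fun z => b z.1) :=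
  ⟨fun z hz => (hb.smooth z.1 hz.1.1).comp z contDiffAt_fst, fun z hz => hb.maps hz.1.1⟩

theorem smap_pb (h : GT.Bla G k) (hb : SMap X (US G) b) :
    SMap X (GT.FF S) (fun z => phi G (b z)) :=
  ⟨fun z hz => ((smap_phi h).smooth _ (hb.maps hz)).comp z (hb.smooth z hz),
    fun _ hz => (smap_phi h).maps (hb.maps hz)⟩

theorem opr_PB (h : GT.Bla G k) (hb : SMap X (US G) b) (hoP : OPr (GT.FF S) k (PVB h) oP) :
    OPr X k (PB h b) (fun z => oP (phi G (b z))) :=
  ⟨fun z hz => (hoP.sm _ ((smap_pb h hb).maps hz)).comp z ((smap_pb h hb).smooth z hz),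
    fun z => hoP.deg _, fun z hz e he hPe => hoP.ne _ ((smap_pb h hb).maps hz) e he hPe⟩

/-- vertical orientation form of `US → F` -/
def oWf (G : Geo n N κ S) (oP : Euc N × Euc N → Ext (Euc N)) :
    Euc N × Euc N → Ext (Euc N × Euc N) := F.pull (up G) (oV oP)

theorem oWf_eq {z : Euc N × Euc N} (hz : z ∈ US G) : oWf G oP z =
    pb (ContinuousLinearMap.snd ℝ (Euc N) (Euc N) : Euc N × Euc N →ₗ[ℝ] Euc N)
      (ii z.2 (oP (phi G z))) := by
  have h1 : DifferentiableAt ℝ (phi G) z := (FV.contDiffAt_phi hz.1).differentiableAt (by simp)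
  have h2 : HasFDerivAt (up G) ((fderiv ℝ (phi G) z).prod
      (ContinuousLinearMap.snd ℝ (Euc N) (Euc N))) z := h1.hasFDerivAt.prodMk hasFDerivAt_snd
  rw [oWf, F.pull, h2.fderiv, oV, pb_comp]
  rfl

theorem pb_neg_deg {V : Type*} [NormedAddCommGroup V] [NormedSpace ℝ V] [FiniteDimensional ℝ V]
    {c : Ext V} (hc : IsDeg r c) (σ : ℝ) : pb (σ • (LinearMap.id : V →ₗ[ℝ] V)) c = σ ^ r • c :=
  isDeg_pb_smul hc σ

/-- **the fibre integral of an arc** -/
theorem fib_int (h : GT.Bla G (r + 1)) (hX : Clo d X) (hb : SMap X (US G) b)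
    (hσ : σ = 1 ∨ σ = -1) (ev : Even (r + 1)) (hoP : OPr (GT.FF S) (r + 1) (PVB h) oP)
    {Y : Set (Euc N × Euc N)} {oF : Euc N × Euc N → Ext (Euc N × Euc N)} {d' : ℕ}
    (hW : OSubm r d' (US G) Y (phi G) (oWf G oP) oF) (hr : 1 ≤ r)
    (hl : Sm (US G) lm) {x : E} (hx : x ∈ X) :
    J r (Sph X (PB h b) ∩ Prod.fst ⁻¹' {x}) (oV fun z => oP (phi G (b z)))
      (pull (ar b σ) lm - pull (fun z => b z.1) lm) =
    J r (US G ∩ phi G ⁻¹' {phi G (b x)}) (oWf G oP) lm := by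
  have hP := pfield_PB h hb
  have hS := SB.subm_Sph hX hP
  have hFx := hS.clo_fibre x
  have hF' := hW.subm.clo_fibre (phi G (b x))
  have sar := smap_ar h hb hσ
  have hσ2 : σ * σ = 1 := by rcases hσ with rfl | rfl <;> norm_num
  have hev : σ ^ r * σ = 1 := by
    rw [← pow_succ]
    rcases hσ with rfl | rfl
    · exact one_pow _
    · exact ev.neg_one_pow
  -- the bijection of fibres
  have hbij : BijOn (ar b σ) (Sph X (PB h b) ∩ Prod.fst ⁻¹' {x})
      (US G ∩ phi G ⁻¹' {phi G (b x)}) := by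
    refine ⟨?_, ?_, ?_⟩
    · rintro ⟨y, v⟩ ⟨hz, hy⟩
      obtain rfl : y = x := hy
      exact ⟨(ar_spec h hb hσ hz).1, (ar_spec h hb hσ hz).2⟩
    · rintro ⟨y, v⟩ ⟨hz, hy⟩ ⟨y', v'⟩ ⟨hz', hy'⟩ e
      obtain rfl : y = x := hy
      obtain rfl : y' = y := hy'
      have h2 : σ • v = σ • v' := (Prod.mk.inj e).2
      have h3 : v = v' := by
        have := congrArg (fun u => σ • u) h2
        simpa only [smul_smul, hσ2, one_smul] using this
      rw [h3]
    · rintro ⟨p, v⟩ ⟨hz, hz'⟩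
      have hz' : phi G (p, v) = phi G (b x) := hz'
      have e1 : p = (b x).1 := congrArg Prod.fst hz'
      have hF := FV.phi_mem h.bl hz
      have h1 : PVB h (phi G (b x)) v = v := by
        rw [← hz']
        exact (FV.PV_eq_self h.bl h.ty (FV.sub_S h.bl) hF).2 (FV.snd_mem_Vl h.bl h.ty hz)
      refine ⟨(x, σ • v), ⟨⟨⟨hx, ?_⟩, ?_⟩, rfl⟩, ?_⟩
      · show PVB h (phi G (b x)) (σ • v) = σ • v
        rw [map_smul, h1]
      · show ‖σ • v‖ = 1
        rw [norm_smul, hz.2, mul_one]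
        rcases hσ with rfl | rfl <;> simp
      · show ((b x).1, σ • σ • v) = (p, v)
        rw [smul_smul, hσ2, one_smul, e1]
  have hdar : ∀ z ∈ Sph X (PB h b) ∩ Prod.fst ⁻¹' {x}, DifferentiableAt ℝ (ar b σ) z :=
    fun z hz => sar.diff hz.1
  have e0 := J_pull hFx hF' hdar hbij (hW.fib _)
    (om := lm) (fun z hz => ((hl z hz.1).continuousAt).continuousWithinAt)
  rw [← e0]
  -- orientations
  have hor : ∀ z ∈ Sph X (PB h b) ∩ Prod.fst ⁻¹' {x},
      oV (fun z => oP (phi G (b z))) z = pull (ar b σ) (oWf G oP) z := by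
    rintro ⟨y, v⟩ ⟨hz, hy⟩
    obtain ⟨h1, h2⟩ := ar_spec h hb hσ hz
    have hd : DifferentiableAt ℝ (ar b σ) (y, v) := sar.diff hz
    have h3 : (ContinuousLinearMap.snd ℝ (Euc N) (Euc N)).comp (fderiv ℝ (ar b σ) (y, v)) =
        σ • ContinuousLinearMap.snd ℝ E (Euc N) := by
      have h4 : HasFDerivAt (fun z : E × Euc N => (ar b σ z).2)
          ((ContinuousLinearMap.snd ℝ (Euc N) (Euc N)).comp (fderiv ℝ (ar b σ) (y, v))) (y, v) :=
        hasFDerivAt_snd.comp (y, v) hd.hasFDerivAt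
      have h5 : HasFDerivAt (fun z : E × Euc N => (ar b σ z).2)
          (σ • ContinuousLinearMap.snd ℝ E (Euc N)) (y, v) := hasFDerivAt_snd.const_smul σ
      exact h4.unique h5
    rw [F.pull, oWf_eq h1, pb_comp]
    have h6 : ((ContinuousLinearMap.snd ℝ (Euc N) (Euc N) : Euc N × Euc N →ₗ[ℝ] Euc N) ∘ₗ
        (fderiv ℝ (ar b σ) (y, v) : E × Euc N →ₗ[ℝ] Euc N × Euc N)) =
        (σ • (LinearMap.id : Euc N →ₗ[ℝ] Euc N)) ∘ₗ
          (ContinuousLinearMap.snd ℝ E (Euc N) : E × Euc N →ₗ[ℝ] Euc N) := by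
      refine LinearMap.ext fun u => ?_
      exact DFunLike.congr_fun h3 u
    rw [h6, ← pb_comp, pb_neg_deg ((hoP.deg _).ii _), h2]
    show _ = pb _ (σ ^ r • ii (σ • v) (oP (phi G (b y))))
    rw [map_smul ii, LinearMap.smul_apply, smul_smul, hev, one_smul]
    rfl
  rw [J_ori_eq hFx hor]
  -- forms
  refine J_congr hFx ?_
  rintro ⟨y, v⟩ ⟨hz, hy⟩ w hw
  rw [Pi.sub_apply, map_sub, AlternatingMap.sub_apply]
  have h1 : evA _ r (pull (fun z : E × Euc N => b z.1) lm (y, v)) w = 0 := by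
    rw [F.pull, evA_pb]
    refine AlternatingMap.map_coord_zero _ (⟨0, by omega⟩ : Fin r) ?_
    have h2 : w ⟨0, by omega⟩ ∈ Tan (Sph X (PB h b) ∩ Prod.fst ⁻¹' {Prod.fst (y, v)}) (y, v) := by
      have := hw ⟨0, by omega⟩
      obtain rfl : y = x := hy
      exact this
    rw [hS.tan_fibre hz] at h2
    have h3 : (w ⟨0, by omega⟩).1 = 0 := by
      have h5 : fderiv ℝ (Prod.fst : E × Euc N → E) (y, v) (w ⟨0, by omega⟩) = 0 := h2.2
      rwa [hasFDerivAt_fst.fderiv] at h5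
    have h4 : HasFDerivAt (fun z : E × Euc N => b z.1)
        ((fderiv ℝ b y).comp (ContinuousLinearMap.fst ℝ E (Euc N))) (y, v) :=
      (hb.diff hz.1.1).hasFDerivAt.comp (y, v) hasFDerivAt_fst
    show fderiv ℝ (fun z : E × Euc N => b z.1) (y, v) (w ⟨0, by omega⟩) = 0
    rw [h4.fderiv]
    show fderiv ℝ b y (w ⟨0, by omega⟩).1 = 0
    rw [h3, map_zero]
  rw [h1, sub_zero]

end link

end Crest.Agent.R208.AF
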