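import Crest.Agent.R208.SV1

/-!
R208, block AK (helper952), part 1: uniform Taylor estimates for smooth families of curves in `S`.
-/

set_option autoImplicit false

open Set Filter Topology MeasureTheory
open scoped ContDiff RealInnerProductSpace Interval
open Crest.GeometryTopology.Submanifold
open Crest.Agent.R241.DDefs
open Crest.Agent.R241.D2

noncomputable section

namespace Crest.Agent.R208.AK

section taylor
variable {H : Type*} [NormedAddCommGroup H] [NormedSpace ℝ H]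

lemma taylor_one {β β' : ℝ → H} {η : ℝ}
    (h1 : ∀ s ∈ Icc (0:ℝ) 1, HasDerivWithinAt β (β' s) (Icc 0 1) s)
    (hη : ∀ s ∈ Icc (0:ℝ) 1, ‖β' s - β' 0‖ ≤ η) {s : ℝ} (hs : s ∈ Icc (0:ℝ) 1) :
    ‖β s - β 0 - s • β' 0‖ ≤ η := by
  have h2 : ∀ u ∈ Icc (0:ℝ) 1,
      HasDerivWithinAt (fun u => β u - β 0 - u • β' 0) (β' u - β' 0) (Icc 0 1) u := by
    intro u hu
    have := ((h1 u hu).sub_const (β 0)).fun_sub
      ((hasDerivWithinAt_id u (Icc 0 1)).smul_const (β' 0))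
    simpa using this
  have h3 := norm_image_sub_le_of_norm_deriv_le_segment' h2
    (fun u hu => hη u ⟨hu.1, hu.2.le⟩) s hs
  simp only [zero_smul, sub_self, sub_zero] at h3
  have h0 : 0 ≤ η := le_trans (norm_nonneg _) (hη 0 ⟨le_rfl, zero_le_one⟩)
  refine h3.trans ?_
  calc η * s ≤ η * 1 := by gcongr; exact hs.2
    _ = η := mul_one η

lemma taylor_two {β β' β'' : ℝ → H} {η : ℝ}
    (h1 : ∀ s ∈ Icc (0:ℝ) 1, HasDerivWithinAt β (β' s) (Icc 0 1) s)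
    (h2 : ∀ s ∈ Icc (0:ℝ) 1, HasDerivWithinAt β' (β'' s) (Icc 0 1) s)
    (hη : ∀ s ∈ Icc (0:ℝ) 1, ‖β'' s - β'' 0‖ ≤ η) :
    ‖β 1 - β 0 - β' 0 - (1 / 2 : ℝ) • β'' 0‖ ≤ η := by
  have h3 : ∀ u ∈ Icc (0:ℝ) 1,
      HasDerivWithinAt (fun u => β u - β 0 - u • β' 0 - (u ^ 2 / 2) • β'' 0)
        (β' u - β' 0 - u • β'' 0) (Icc 0 1) u := by
    intro u hu
    have e1 : HasDerivWithinAt (fun u : ℝ => u ^ 2 / 2) u (Icc 0 1) u := by
      have := ((hasDerivAt_pow 2 u).div_const 2).hasDerivWithinAt (s := Icc (0:ℝ) 1)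
      refine this.congr_deriv ?_
      simp
    have := (((h1 u hu).sub_const (β 0)).fun_sub
      ((hasDerivWithinAt_id u (Icc 0 1)).smul_const (β' 0))).fun_sub (e1.smul_const (β'' 0))
    simpa using this
  have h4 := norm_image_sub_le_of_norm_deriv_le_segment' h3
    (fun u hu => taylor_one h2 hη ⟨hu.1, hu.2.le⟩) 1 ⟨zero_le_one, le_rfl⟩
  simpa using h4

end taylor

section unif
variable {E V H : Type*} [NormedAddCommGroup E] [NormedSpace ℝ E]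
  [NormedAddCommGroup V] [NormedSpace ℝ V] [NormedAddCommGroup H] [NormedSpace ℝ H]

omit [NormedSpace ℝ E] [NormedSpace ℝ V] in
lemma norm_vec (ζ : V) : ‖(((0 : E), ζ), (0 : ℝ))‖ = ‖ζ‖ := by
  simp [Prod.norm_def]

omit [NormedSpace ℝ E] [NormedSpace ℝ V] in
lemma norm_tvec : ‖((0 : E × V), (1 : ℝ))‖ = 1 := by
  simp [Prod.norm_def]

lemma ev_osc {X W : Type*} [TopologicalSpace X] [SeminormedAddCommGroup W] {f : X → W}
    {ϖ : X → X} {p : X} (hf : ContinuousAt f p) (hϖ : ContinuousAt ϖ p) (hp : ϖ p = p) {η : ℝ}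
    (hη : 0 < η) : ∀ᶠ x in 𝓝 p, ‖f x - f (ϖ x)‖ < η := by
  have h1 : ContinuousAt (fun x => f (ϖ x)) p := by
    refine ContinuousAt.comp (g := f) (f := ϖ) ?_ hϖ
    rw [hp]
    exact hf
  refine (hf.sub h1).norm.eventually_lt continuousAt_const ?_
  simpa [hp] using hη

/-- compactness: the second derivative along the fibre is close to the one on the zero section -/
lemma unif {F : (E × V) × ℝ → H} {K : Set E} (hK : IsCompact K) {T : ℝ}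
    (hF : ∀ x ∈ K, ∀ t ∈ Icc (0:ℝ) T, ContDiffAt ℝ 3 F ((x, 0), t)) {η : ℝ} (hη : 0 < η) :
    ∃ r > 0, ∀ x ∈ K, ∀ ζ : V, ‖ζ‖ < r → ∀ t ∈ Icc (0:ℝ) T, ContDiffAt ℝ 3 F ((x, ζ), t) ∧
      ‖fderiv ℝ (fderiv ℝ F) ((x, ζ), t) - fderiv ℝ (fderiv ℝ F) ((x, 0), t)‖ ≤ η := by
  set Q : Set ((E × V) × ℝ) := (fun p : E × ℝ => ((p.1, (0 : V)), p.2)) '' (K ×ˢ Icc 0 T) with hQ
  have hQc : IsCompact Q := (hK.prod isCompact_Icc).image (by fun_prop)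
  set U : Set ((E × V) × ℝ) := {p | ContDiffAt ℝ 3 F p ∧
      ‖fderiv ℝ (fderiv ℝ F) p - fderiv ℝ (fderiv ℝ F) ((p.1.1, 0), p.2)‖ < η} with hU
  have hUQ : U ∈ 𝓝ˢ Q := by
    rw [mem_nhdsSet_iff_forall]
    rintro _ ⟨⟨x, t⟩, ⟨hx, ht⟩, rfl⟩
    have h1 := hF x hx t ht
    have h2 : ContinuousAt (fderiv ℝ (fderiv ℝ F)) ((x, 0), t) :=
      ((h1.fderiv_right (m := 2) (by norm_num)).fderiv_right (m := 1) (by norm_num)).continuousAt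
    have hπ : ContinuousAt (fun p : (E × V) × ℝ => ((p.1.1, (0 : V)), p.2)) ((x, 0), t) := by
      fun_prop
    have h5 : ∀ᶠ p : (E × V) × ℝ in 𝓝 ((x, 0), t),
        ‖fderiv ℝ (fderiv ℝ F) p - fderiv ℝ (fderiv ℝ F) ((p.1.1, 0), p.2)‖ < η :=
      ev_osc (W := (E × V) × ℝ →L[ℝ] (E × V) × ℝ →L[ℝ] H) (f := fderiv ℝ (fderiv ℝ F))
        (ϖ := fun p : (E × V) × ℝ => ((p.1.1, (0 : V)), p.2)) h2 hπ rfl hη
    filter_upwards [h1.eventually (by simp), h5] with p hp1 hp2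
    exact ⟨hp1, hp2⟩
  obtain ⟨O, hO, hQO, hOU⟩ := mem_nhdsSet_iff_exists.1 hUQ
  obtain ⟨δ, hδ, hδO⟩ := hQc.exists_thickening_subset_open hO hQO
  refine ⟨δ, hδ, fun x hx ζ hζ t ht => ?_⟩
  have hm : ((x, ζ), t) ∈ U := by
    refine hOU (hδO ?_)
    rw [Metric.mem_thickening_iff]
    refine ⟨((x, 0), t), ⟨(x, t), ⟨hx, ht⟩, rfl⟩, ?_⟩
    rw [dist_eq_norm]
    have : (((x, ζ), t) : (E × V) × ℝ) - ((x, 0), t) = ((0, ζ), 0) := by
      ext <;> simp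
    rw [this, norm_vec]
    exact hζ
  exact ⟨hm.1, hm.2.le⟩

variable {F : (E × V) × ℝ → H} {x : E} {ζ : V} {t : ℝ}

lemma hasDerivAt_ray (s : ℝ) : HasDerivAt (fun s : ℝ => (((x, s • ζ), t) : (E × V) × ℝ))
    ((0, ζ), 0) s := by
  have h1 : HasDerivAt (fun s : ℝ => s • ζ) ζ s := by
    simpa using (hasDerivAt_id s).smul_const ζ
  exact ((hasDerivAt_const s x).prodMk h1).prodMk (hasDerivAt_const s t)

/-- second order estimate on a ray -/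
lemma ray_two {r η : ℝ}
    (h : ∀ ζ' : V, ‖ζ'‖ < r → ContDiffAt ℝ 3 F ((x, ζ'), t) ∧
      ‖fderiv ℝ (fderiv ℝ F) ((x, ζ'), t) - fderiv ℝ (fderiv ℝ F) ((x, 0), t)‖ ≤ η)
    (hζ : ‖ζ‖ < r) :
    ‖F ((x, ζ), t) - F ((x, 0), t) - fderiv ℝ F ((x, 0), t) ((0, ζ), 0) -
      (1 / 2 : ℝ) • fderiv ℝ (fderiv ℝ F) ((x, 0), t) ((0, ζ), 0) ((0, ζ), 0)‖ ≤
      η * ‖ζ‖ ^ 2 := by
  have hb : ∀ s ∈ Icc (0:ℝ) 1, ‖s • ζ‖ < r := by
    intro s hs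
    rw [norm_smul, Real.norm_of_nonneg hs.1]
    refine lt_of_le_of_lt ?_ hζ
    calc s * ‖ζ‖ ≤ 1 * ‖ζ‖ := by gcongr; exact hs.2
      _ = ‖ζ‖ := one_mul _
  have h1 : ∀ s ∈ Icc (0:ℝ) 1, HasDerivWithinAt (fun s : ℝ => F ((x, s • ζ), t))
      (fderiv ℝ F ((x, s • ζ), t) ((0, ζ), 0)) (Icc 0 1) s := by
    intro s hs
    have h2 := (h (s • ζ) (hb s hs)).1
    have h3 := (h2.differentiableAt (by simp)).hasFDerivAt
    exact (h3.comp_hasDerivAt s (hasDerivAt_ray s)).hasDerivWithinAt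
  have h2 : ∀ s ∈ Icc (0:ℝ) 1, HasDerivWithinAt
      (fun s : ℝ => fderiv ℝ F ((x, s • ζ), t) ((0, ζ), 0))
      (fderiv ℝ (fderiv ℝ F) ((x, s • ζ), t) ((0, ζ), 0) ((0, ζ), 0)) (Icc 0 1) s := by
    intro s hs
    have h2 := (h (s • ζ) (hb s hs)).1
    have h3 := ((h2.fderiv_right (m := 2) (by norm_num)).differentiableAt (by simp)).hasFDerivAt
    have h4 := h3.comp_hasDerivAt s (hasDerivAt_ray (t := t) (x := x) (ζ := ζ) s)
    have h5 := h4.clm_apply (hasDerivAt_const s (((0 : E), ζ), (0 : ℝ)))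
    simpa using h5.hasDerivWithinAt
  have h3 : ∀ s ∈ Icc (0:ℝ) 1, ‖fderiv ℝ (fderiv ℝ F) ((x, s • ζ), t) ((0, ζ), 0) ((0, ζ), 0) -
      fderiv ℝ (fderiv ℝ F) ((x, (0:ℝ) • ζ), t) ((0, ζ), 0) ((0, ζ), 0)‖ ≤ η * ‖ζ‖ ^ 2 := by
    intro s hs
    have h4 := (h (s • ζ) (hb s hs)).2
    rw [zero_smul]
    have h5 : fderiv ℝ (fderiv ℝ F) ((x, s • ζ), t) ((0, ζ), 0) ((0, ζ), 0) -
      fderiv ℝ (fderiv ℝ F) ((x, 0), t) ((0, ζ), 0) ((0, ζ), 0) =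
      (fderiv ℝ (fderiv ℝ F) ((x, s • ζ), t) - fderiv ℝ (fderiv ℝ F) ((x, 0), t))
        ((0, ζ), 0) ((0, ζ), 0) := by simp
    rw [h5]
    refine (ContinuousLinearMap.le_opNorm₂ _ _ _).trans ?_
    rw [norm_vec]
    calc _ ≤ η * ‖ζ‖ * ‖ζ‖ := by gcongr
      _ = η * ‖ζ‖ ^ 2 := by ring
  have h4 := taylor_two h1 h2 h3
  simpa using h4

/-- first order estimate for the time derivative on a ray -/
lemma ray_one {r η : ℝ}
    (h : ∀ ζ' : V, ‖ζ'‖ < r → ContDiffAt ℝ 3 F ((x, ζ'), t) ∧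
      ‖fderiv ℝ (fderiv ℝ F) ((x, ζ'), t) - fderiv ℝ (fderiv ℝ F) ((x, 0), t)‖ ≤ η)
    (hζ : ‖ζ‖ < r) :
    ‖fderiv ℝ F ((x, ζ), t) (0, 1) - fderiv ℝ F ((x, 0), t) (0, 1) -
      fderiv ℝ (fderiv ℝ F) ((x, 0), t) ((0, ζ), 0) (0, 1)‖ ≤ η * ‖ζ‖ := by
  have hb : ∀ s ∈ Icc (0:ℝ) 1, ‖s • ζ‖ < r := by
    intro s hs
    rw [norm_smul, Real.norm_of_nonneg hs.1]
    refine lt_of_le_of_lt ?_ hζ
    calc s * ‖ζ‖ ≤ 1 * ‖ζ‖ := by gcongr; exact hs.2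
      _ = ‖ζ‖ := one_mul _
  have h2 : ∀ s ∈ Icc (0:ℝ) 1, HasDerivWithinAt
      (fun s : ℝ => fderiv ℝ F ((x, s • ζ), t) (0, 1))
      (fderiv ℝ (fderiv ℝ F) ((x, s • ζ), t) ((0, ζ), 0) (0, 1)) (Icc 0 1) s := by
    intro s hs
    have h2 := (h (s • ζ) (hb s hs)).1
    have h3 := ((h2.fderiv_right (m := 2) (by norm_num)).differentiableAt (by simp)).hasFDerivAt
    have h4 := h3.comp_hasDerivAt s (hasDerivAt_ray (t := t) (x := x) (ζ := ζ) s)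
    have h5 := h4.clm_apply (hasDerivAt_const s ((0 : E × V), (1 : ℝ)))
    simpa using h5.hasDerivWithinAt
  have h3 : ∀ s ∈ Icc (0:ℝ) 1, ‖fderiv ℝ (fderiv ℝ F) ((x, s • ζ), t) ((0, ζ), 0) (0, 1) -
      fderiv ℝ (fderiv ℝ F) ((x, (0:ℝ) • ζ), t) ((0, ζ), 0) (0, 1)‖ ≤ η * ‖ζ‖ := by
    intro s hs
    have h4 := (h (s • ζ) (hb s hs)).2
    rw [zero_smul]
    have h5 : fderiv ℝ (fderiv ℝ F) ((x, s • ζ), t) ((0, ζ), 0) (0, 1) -
      fderiv ℝ (fderiv ℝ F) ((x, 0), t) ((0, ζ), 0) (0, 1) =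
      (fderiv ℝ (fderiv ℝ F) ((x, s • ζ), t) - fderiv ℝ (fderiv ℝ F) ((x, 0), t))
        ((0, ζ), 0) (0, 1) := by simp
    rw [h5]
    refine (ContinuousLinearMap.le_opNorm₂ _ _ _).trans ?_
    rw [norm_vec, norm_tvec, mul_one]
    gcongr
  have h4 := taylor_one h2 h3 (s := 1) ⟨zero_le_one, le_rfl⟩
  simpa using h4

end unif

variable {n N : ℕ} {κ : ℝ} {S : Set (Euc N)} {G : Geo n N κ S}

/-- first and second derivative of a curve in `S`, normal components -/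
lemma curve_normal {β β' : ℝ → Euc N} {b : Euc N} (hS : ∀ᶠ s in 𝓝 (0:ℝ), β s ∈ S)
    (h1 : ∀ᶠ s in 𝓝 (0:ℝ), HasDerivAt β (β' s) s) (h2 : HasDerivAt β' b 0) :
    β' 0 ∈ G.T (β 0) ∧ b = G.P (β 0) b + II G (β 0) (β' 0) (β' 0) := by
  have h10 := h1.self_of_nhds
  have hS0 := hS.self_of_nhds
  have hm : ∀ᶠ s in 𝓝 (0:ℝ), β' s ∈ G.T (β s) := by
    filter_upwards [h1, eventually_eventually_nhds.2 hS] with s hs hs'
    exact G.deriv_mem β (β' s) s hs' hs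
  refine ⟨hm.self_of_nhds, ?_⟩
  have h3 : HasDerivAt (fun s => G.P (β s)) (fderiv ℝ G.P (β 0) (β' 0)) 0 :=
    ((differentiable_P G) (β 0)).hasFDerivAt.comp_hasDerivAt (0 : ℝ) h10
  have h4 := h3.clm_apply h2
  have h5 : (fun s => G.P (β s) (β' s)) =ᶠ[𝓝 0] β' := by
    filter_upwards [hm, hS] with s hs hs'
    exact (P_eq_self G hs').1 hs
  have h6 := (h4.congr_of_eventuallyEq h5.symm).unique h2
  rw [← h6]
  simp only [II]
  have h7 : G.P (β 0) (fderiv ℝ G.P (β 0) (β' 0) (β' 0) + G.P (β 0) b) = G.P (β 0) b := by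
    have := II_normal G hS0 hm.self_of_nhds hm.self_of_nhds
    rw [map_add, P_idem G hS0]
    simp only [II] at this
    rw [this, zero_add]
  rw [h7, add_comm]

end Crest.Agent.R208.AK
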