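import Crest.Agent.R208.AK9

/-!
R208, block AK (helper952), part 10: retraction families, scaling of fields, the path from the
broken chains to the sum of the antiperiodic and the periodic part, and the junction.
-/

set_option autoImplicit false
set_option linter.unusedSectionVars false

open Set Filter Topology MeasureTheory Module
open scoped ContDiff RealInnerProductSpace Interval
open Crest.GeometryTopology.Submanifold
open Crest.Agent.R241.DDefs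
open Crest.Agent.R241.D2
open Crest.Agent.R241.D3c
open Crest.Agent.R208.SV (ixd ix Fld jf jf')
open Crest.Agent.R208.NN (V0 qq Wt nuP fd fd')
open Crest.Agent.R208.KG (idx Km cc sta pc rnd gT OK)
open Crest.Agent.R208.NB (npr V0s)

noncomputable section

namespace Crest.Agent.R208.AK

section gen

variable {n N k : ℕ} {κ : ℝ} {S : Set (Euc N)} {G : Geo n N κ S}
  {E V : Type*} [NormedAddCommGroup E] [NormedSpace ℝ E]
  [NormedAddCommGroup V] [NormedSpace ℝ V]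
  {K : Set E} {P : E → V →L[ℝ] V} {T σ δ : ℝ} {g : E → Euc N × Euc N}

/-! ### retraction families -/

/-- the family `R(γ + B)` -/
def retF (G : Geo n N κ S) (R : Euc N → Euc N) (g : E → Euc N × Euc N)
    (B : (E × V) × ℝ → Euc N) (p : (E × V) × ℝ) : Euc N :=
  R ((fl G (g p.1.1, p.2)).1 + B p)

lemma LMap.zero {B : (E × V) × ℝ → Euc N} (h : LMap G K P T σ g B) {x : E} (hx : x ∈ K) (t : ℝ) :
    B ((x, 0), t) = 0 := by
  have h1 := h.hom x hx 0 (map_zero _) 0 t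
  rwa [smul_zero, zero_smul] at h1

theorem exists_lfam_ret {R : Euc N → Euc N} {O : Set (Euc N)} (hO : IsOpen O) (hSO : S ⊆ O)
    (hR : ContDiffOn ℝ ∞ R O) (hRS : MapsTo R O S) (hRid : ∀ x ∈ S, R x = x)
    (hK : IsCompact K) (hT : 0 < T) (hg : ∀ x ∈ K, g x ∈ TS G)
    (hgs : ∀ x ∈ K, ContDiffAt ℝ ∞ g x) (hgT : ∀ x ∈ K, fl G (g x, T) = g x)
    {B : (E × V) × ℝ → Euc N} (hB : LMap G K P T 1 g B) :
    ∃ r > 0, LFam G K P T g (retF G R g B) r ∧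
      ∀ x ∈ K, ∀ ζ : V, P x ζ = ζ → ∀ t, lA (retF G R g B) x ζ t = B ((x, ζ), t) := by
  set Y : (E × V) × ℝ → Euc N := fun p => (fl G (g p.1.1, p.2)).1 + B p with hY
  have hYs : ∀ x ∈ K, ∀ ζ : V, P x ζ = ζ → ∀ t, ContDiffAt ℝ ∞ Y ((x, ζ), t) := by
    intro x hx ζ hζ t
    have e1 : ContDiffAt ℝ ∞ (fun p : (E × V) × ℝ => p.1.1) ((x, ζ), t) := by fun_prop
    have e3 := ContDiffAt.comp (g := g) (f := fun p : (E × V) × ℝ => p.1.1) ((x, ζ), t)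
      (hgs x hx) e1
    have e4 : ContDiffAt ℝ ∞ (fun p : (E × V) × ℝ => (g p.1.1, p.2)) ((x, ζ), t) :=
      e3.prodMk contDiffAt_snd
    have e5 : ContDiffAt ℝ ∞ (fun p : (E × V) × ℝ => fl G (g p.1.1, p.2)) ((x, ζ), t) :=
      ContDiffAt.comp ((x, ζ), t) (g := fl G) (contDiffAt_fl' G (hg x hx) t) e4
    exact e5.fst.add (hB.smooth x hx ζ hζ t)
  have hY0 : ∀ x ∈ K, ∀ t, Y ((x, 0), t) = (fl G (g x, t)).1 := fun x hx t => by
    simp only [hY]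
    rw [hB.zero hx, add_zero]
  have hYper : ∀ x ∈ K, ∀ ζ : V, P x ζ = ζ → ∀ t, Y ((x, ζ), t + T) = Y ((x, ζ), t) := by
    intro x hx ζ hζ t
    simp only [hY]
    rw [hB.per x hx ζ hζ, one_smul, add_comm t T, fl_add' G (hg x hx), hgT x hx]
  obtain ⟨r1, hr1, hr1O⟩ : ∃ r1 > 0, ∀ x ∈ K, ∀ ζ : V, ‖ζ‖ < r1 →
      ∀ t ∈ Icc (0:ℝ) T, Y ((x, ζ), t) ∈ O := by
    set Q : Set ((E × V) × ℝ) :=
      (fun p : E × ℝ => ((p.1, (0 : V)), p.2)) '' (K ×ˢ Icc 0 T) with hQ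
    have hQc : IsCompact Q := (hK.prod isCompact_Icc).image (by fun_prop)
    have hUQ : Y ⁻¹' O ∈ 𝓝ˢ Q := by
      rw [mem_nhdsSet_iff_forall]
      rintro _ ⟨⟨x, t⟩, ⟨hx, ht⟩, rfl⟩
      have c1 := (hYs x hx 0 (map_zero (P x)) t).continuousAt
      refine c1.preimage_mem_nhds (hO.mem_nhds (hSO ?_))
      change Y ((x, 0), t) ∈ S
      rw [hY0 x hx t]
      exact (fl_mem G (hg x hx) t).1
    obtain ⟨O', hO', hQO', hO'U⟩ := mem_nhdsSet_iff_exists.1 hUQ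
    obtain ⟨ε, hε, hεO⟩ := hQc.exists_thickening_subset_open hO' hQO'
    refine ⟨ε, hε, fun x hx ζ hζ t ht => hO'U (hεO ?_)⟩
    rw [Metric.mem_thickening_iff]
    refine ⟨((x, 0), t), ⟨(x, t), ⟨hx, ht⟩, rfl⟩, ?_⟩
    rw [dist_eq_norm]
    have : (((x, ζ), t) : (E × V) × ℝ) - ((x, 0), t) = ((0, ζ), 0) := by
      ext <;> simp
    rw [this, norm_vec]
    exact hζ
  have hO2 : ∀ x ∈ K, ∀ ζ : V, P x ζ = ζ → ‖ζ‖ < r1 → ∀ t, Y ((x, ζ), t) ∈ O := by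
    intro x hx ζ hζP hζ t
    have hper : Function.Periodic (fun t => Y ((x, ζ), t)) T := fun t => hYper x hx ζ hζP t
    obtain ⟨y, hy, hty⟩ := hper.exists_mem_Ico₀ hT t
    rw [hty]
    exact hr1O x hx ζ hζ y ⟨hy.1, hy.2.le⟩
  have hLF : LFam G K P T g (retF G R g B) r1 := by
    refine ⟨hr1, fun x hx ζ hζP hζ t => ?_, fun x hx ζ hζP hζ t => hRS (hO2 x hx ζ hζP hζ t),
      fun x hx ζ hζP hζ t => ?_, fun x hx t => ?_⟩
    · exact ContDiffAt.comp ((x, ζ), t)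
        (hR.contDiffAt (hO.mem_nhds (hO2 x hx ζ hζP hζ t))) (hYs x hx ζ hζP t)
    · change R (Y ((x, ζ), t + T)) = R (Y ((x, ζ), t))
      rw [hYper x hx ζ hζP]
    · change R (Y ((x, 0), t)) = _
      rw [hY0 x hx t]
      exact hRid _ (fl_mem G (hg x hx) t).1
  refine ⟨r1, hr1, hLF, fun x hx ζ hζP t => ?_⟩
  have hxS : (fl G (g x, t)).1 ∈ S := (fl_mem G (hg x hx) t).1
  have k1 : HasDerivAt (fun s : ℝ => Y ((x, s • ζ), t)) (B ((x, ζ), t)) 0 := by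
    have e1 : (fun s : ℝ => Y ((x, s • ζ), t)) =
        fun s : ℝ => (fl G (g x, t)).1 + s • B ((x, ζ), t) := by
      funext s
      simp only [hY]
      rw [hB.hom x hx ζ hζP]
    rw [e1]
    simpa using ((hasDerivAt_id (0:ℝ)).smul_const (B ((x, ζ), t))).const_add (fl G (g x, t)).1
  have k2 : HasDerivAt (fun s : ℝ => retF G R g B ((x, s • ζ), t))
      (fderiv ℝ R (fl G (g x, t)).1 (B ((x, ζ), t))) 0 := by
    have h2 : HasFDerivAt R (fderiv ℝ R (fl G (g x, t)).1) (Y ((x, (0:ℝ) • ζ), t)) := by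
      rw [zero_smul, hY0 x hx t]
      exact ((hR.contDiffAt (hO.mem_nhds (hSO hxS))).differentiableAt (by simp)).hasFDerivAt
    exact h2.comp_hasDerivAt (0:ℝ) k1
  have k3 : HasDerivAt (fun s : ℝ => retF G R g B ((x, s • ζ), t))
      (lA (retF G R g B) x ζ t) 0 := by
    have h2 : HasFDerivAt (retF G R g B) (fderiv ℝ (retF G R g B) ((x, 0), t))
        ((x, (0:ℝ) • ζ), t) := by
      rw [zero_smul]
      exact ((hLF.zero_mem hx t).differentiableAt (by simp)).hasFDerivAt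
    exact h2.comp_hasDerivAt (0:ℝ) (hasDerivAt_ray (t := t) (x := x) (ζ := ζ) 0)
  rw [k3.unique k2]
  exact (MS.retract_fderiv (G := G) hO hSO hR hRS hRid hxS).2 _ (hB.tan x hx ζ hζP t)

/-! ### scaling -/

theorem LMap.smul {B : (E × V) × ℝ → Euc N} (h : LMap G K P T σ g B) (c : ℝ) :
    LMap G K P T σ g (fun p => c • B p) where
  smooth x hx ζ hζ t := (h.smooth x hx ζ hζ t).const_smul c
  hom x hx ζ hζ s t := by
    change c • B ((x, s • ζ), t) = s • (c • B ((x, ζ), t))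
    rw [h.hom x hx ζ hζ, smul_comm]
  tan x hx ζ hζ t := (G.T _).smul_mem _ (h.tan x hx ζ hζ t)
  per x hx ζ hζ t := by
    change c • B ((x, ζ), t + T) = σ • (c • B ((x, ζ), t))
    rw [h.per x hx ζ hζ, smul_comm]

theorem LMap.add {B B' : (E × V) × ℝ → Euc N} (h : LMap G K P T σ g B)
    (h' : LMap G K P T σ g B') : LMap G K P T σ g (fun p => B p + B' p) where
  smooth x hx ζ hζ t := (h.smooth x hx ζ hζ t).add (h'.smooth x hx ζ hζ t)
  hom x hx ζ hζ s t := by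
    rw [h.hom x hx ζ hζ, h'.hom x hx ζ hζ, smul_add]
  tan x hx ζ hζ t := (G.T _).add_mem (h.tan x hx ζ hζ t) (h'.tan x hx ζ hζ t)
  per x hx ζ hζ t := by
    rw [h.per x hx ζ hζ, h'.per x hx ζ hζ, smul_add]

/-- end map of a path -/
theorem SPath.lmap {A : ((E × ℝ) × V) × ℝ → Euc N} (h : SPath G K P T σ g A δ) {τ : ℝ}
    (hτ : τ ∈ Icc (0:ℝ) 1) : LMap G K P T σ g (fun p => A (((p.1.1, τ), p.1.2), p.2)) where
  smooth x hx ζ hζ t :=
    ContDiffAt.comp (g := A) (f := fun p : (E × V) × ℝ => (((p.1.1, τ), p.1.2), p.2)) ((x, ζ), t)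
      (h.smooth x hx τ hτ ζ hζ t) (by fun_prop)
  hom x hx ζ hζ s t := h.hom x hx τ hτ ζ hζ s t
  tan x hx ζ hζ t := h.tan x hx τ hτ ζ hζ t
  per x hx ζ hζ t := h.per x hx τ hτ ζ hζ t

lemma ix_smul_smul {q : Euc N × Euc N} {a b : ℝ} {A : ℝ → Euc N} (hA : Differentiable ℝ A)
    (s r : ℝ) :
    ix G q a b (fun t => s • A t) (deriv fun t => s • A t) (fun t => r • A t)
      (deriv fun t => r • A t) = s * r * ix G q a b A (deriv A) A (deriv A) := by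
  have e : ∀ c : ℝ, (deriv fun t => c • A t) = c • deriv A := fun c => by
    funext t
    exact ((hA t).hasDerivAt.const_smul c).deriv
  have e2 : ∀ c : ℝ, (fun t => c • A t) = c • A := fun c => rfl
  rw [e, e, e2, e2, SV.ix_smul_left, SV.ix_smul_right]
  ring

/-- **scaling**: the straight path from `B` to `c B` -/
theorem SPath.scale {B : (E × V) × ℝ → Euc N} (hg : ∀ x ∈ K, g x ∈ TS G) (hT : 0 ≤ T)
    (hB : LMap G K P T σ g B) (hδ : 0 < δ) {c : ℝ} (hc : 0 < c)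
    (h0 : ∀ x ∈ K, ∀ ζ : V, P x ζ = ζ →
      ix G (g x) 0 T (fun t => B ((x, ζ), t)) (deriv fun t => B ((x, ζ), t))
        (fun t => B ((x, ζ), t)) (deriv fun t => B ((x, ζ), t)) ≤ -δ * ‖ζ‖ ^ 2) :
    SPath G K P T σ g (lin B (fun p => c • B p)) (min 1 (c ^ 2) * δ / 2) := by
  have hm : 0 < min 1 (c ^ 2) := lt_min one_pos (by positivity)
  refine SPath.line hg hT hB (hB.smul c) (by positivity) (fun x hx ζ hζ => ?_)
    (fun x hx ζ hζ => ?_) (fun x hx ζ hζ => ?_)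
  · refine (h0 x hx ζ hζ).trans ?_
    have h1 : min 1 (c ^ 2) * (δ * ‖ζ‖ ^ 2) ≤ 1 * (δ * ‖ζ‖ ^ 2) := by
      gcongr; exact min_le_left _ _
    linarith
  · have hd := (hB.cd hx hζ).differentiable (by simp)
    rw [ix_smul_smul hd]
    have h1 := mul_le_mul_of_nonneg_left (h0 x hx ζ hζ) (by positivity : 0 ≤ c * c)
    have h2 : min 1 (c ^ 2) * (δ * ‖ζ‖ ^ 2) ≤ c ^ 2 * (δ * ‖ζ‖ ^ 2) := by
      gcongr; exact min_le_right _ _
    nlinarith
  · have hd := (hB.cd hx hζ).differentiable (by simp)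
    have h3 := ix_smul_smul (G := G) (q := g x) (a := 0) (b := T) hd c 1
    simp only [one_smul] at h3
    rw [h3]
    have h1 := mul_le_mul_of_nonneg_left (h0 x hx ζ hζ) (by positivity : 0 ≤ c * 1)
    have h2 : 0 ≤ c * 1 * (δ * ‖ζ‖ ^ 2) := by positivity
    linarith

theorem LPath.toSPath {A : ((E × ℝ) × V) × ℝ → Euc N} (h : LPath G K P T g A δ) :
    SPath G K P T 1 g A δ where
  smooth := h.smooth
  hom := h.hom
  tan := h.tan
  per x hx τ hτ ζ hζ t := by rw [h.per x hx τ hτ ζ hζ t, one_smul]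
  neg := h.neg

end gen

/-! ### the path from the chains -/

section main

variable {n N k Kn : ℕ} {κ : ℝ} {S : Set (Euc N)} {G : Geo n N κ S} {z : Euc N × Euc N}
  {δ ε δ' : ℝ} {PN : Euc N × Euc N → Wt N Kn →L[ℝ] Wt N Kn}
  {H₂ : Type*} [NormedAddCommGroup H₂] [NormedSpace ℝ H₂]
  {P₂ : Euc N × Euc N → H₂ →L[ℝ] H₂} {j : H₂ →L[ℝ] Wt N Kn × Wt N Kn}
  {A₂ : (((Euc N × Euc N) × ℝ) × H₂) × ℝ → Euc N}
  {A₁ : (((Euc N × Euc N) × ℝ) × Wt N Kn) × ℝ → Euc N}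

/-- the chain map of both parts -/
def Lall (h : GT.Bla G k) (ε δ : ℝ) (PN : Euc N × Euc N → Wt N Kn →L[ℝ] Wt N Kn)
    (j : H₂ →L[ℝ] Wt N Kn × Wt N Kn) (z : Euc N × Euc N) :
    (H₂ × Wt N Kn) →L[ℝ] (Fin 4 → Euc N) :=
  (LA h PN z).comp (j.comp (ContinuousLinearMap.fst ℝ H₂ (Wt N Kn))) +
    (LP h ε δ PN z).comp (ContinuousLinearMap.snd ℝ H₂ (Wt N Kn))

lemma Lall_apply (h : GT.Bla G k) (z : Euc N × Euc N) (ζ : H₂ × Wt N Kn) :
    Lall h ε δ PN j z ζ = LA h PN z (j ζ.1) + LP h ε δ PN z ζ.2 := rfl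

lemma fla_Lall (h : GT.Bla G k) (z : Euc N × Euc N) (ζ : H₂ × Wt N Kn) (t : ℝ) :
    fla G ε (fun z => z) (Lall h ε δ PN j) ((z, ζ), t) =
      QA h ε PN ((z, j ζ.1), t) + fla G ε (fun z => z) (LP h ε δ PN) ((z, ζ.2), t) := by
  simp only [fla, QA]
  rw [Lall_apply, AZ_add]

variable (hO : OK G 4 ε) (h : GT.Bla G k) (hk : 1 ≤ k) (H : NB.NegB G (k - 1) (nuP Kn) δ PN)
  {c : ℝ} (hc0 : 0 < c) (hc : HC G ε c)
  (hj : ∀ z ∈ L.US G, ∀ ν, P₂ z ν = ν → PP PN PN z (j ν) = j ν)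

include hO hk H hc0 hc hj in
theorem linC_Lall : LinC G (L.US G) (PP P₂ PN) (fun z => z) (Lall h ε δ PN j) where
  gs _ _ := contDiffAt_id
  gm _ hx := hx
  smooth x hx := by
    have h1 := (linC_LA h (kr_of_nb h hk H)).smooth x hx
    have h2 := (linC_LP hO h H hc0 hc).smooth x hx
    exact (h1.clm_comp contDiffAt_const).add (h2.clm_comp contDiffAt_const)
  mem x hx ζ hζ i := by
    rw [PP_eq] at hζ
    rw [Lall_apply]
    exact (V0 G x).add_mem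
      ((linC_LA h (kr_of_nb h hk H)).mem x hx _ (hj x hx _ hζ.1) i)
      ((linC_LP hO h H hc0 hc).mem x hx _ hζ.2 i)

include hO hk H hc0 hc hj in
/-- **the path from the chains to the sum of the two parts** -/
theorem exists_lpath (hδ' : 0 < δ') (h₂ : SPath G (L.US G) P₂ (2 * Real.pi) (-1) (fun z => z) A₂ δ')
    (h₁ : SPath G (L.US G) PN (2 * Real.pi) 1 (fun z => z) A₁ δ')
    (e₂ : ∀ z ∈ L.US G, ∀ ν, P₂ z ν = ν → ∀ t, A₂ (((z, 0), ν), t) = QA h ε PN ((z, j ν), t))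
    (e₁ : ∀ z ∈ L.US G, ∀ w, PN z w = w → ∀ t,
      A₁ (((z, 0), w), t) = fla G ε (fun z => z) (LP h ε δ PN) ((z, w), t)) :
    ∃ A : (((Euc N × Euc N) × ℝ) × (H₂ × Wt N Kn)) × ℝ → Euc N,
      LPath G (L.US G) (PP P₂ PN) (4 * Real.pi) (fun z => z) A (δ' / 2) ∧
      (∀ z ∈ L.US G, ∀ ζ, PP P₂ PN z ζ = ζ → ∀ t,
        A (((z, 0), ζ), t) = fla G ε (fun z => z) (AK.rem (Lall h ε δ PN j)) ((z, ζ), t)) ∧
      (∀ z ∈ L.US G, ∀ ζ, PP P₂ PN z ζ = ζ → ∀ t,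
        A (((z, 1), ζ), t) = A₂ (((z, 1), ζ.1), t) + A₁ (((z, 1), ζ.2), t)) := by
  have hL := linC_Lall (P₂ := P₂) (j := j) hO h hk H hc0 hc hj
  have hg : ∀ x ∈ L.US G, (fun z : Euc N × Euc N => z) x ∈ TS G := fun x hx => hx.1
  have hs := SPath.sum hg (fun x hx => NN.fl_two_pi h hx) hδ' h₂ h₁
  have hE : ∀ z ∈ L.US G, ∀ ζ, PP P₂ PN z ζ = ζ → ∀ t,
      fla G ε (fun z => z) (Lall h ε δ PN j) ((z, ζ), t) = sumP A₂ A₁ (((z, 0), ζ), t) := by
    intro z hz ζ hζ t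
    rw [PP_eq] at hζ
    rw [fla_Lall]
    simp only [sumP]
    rw [e₂ z hz _ hζ.1, e₁ z hz _ hζ.2]
  have e4 : ((4 : ℕ) : ℝ) * Real.pi = 4 * Real.pi := by push_cast; ring
  have hp1 := hL.spath_rem (δ := δ') (l := 2) hO h (by norm_num) hδ'.le (fun z hz ζ hζ => by
    rw [funext (hE z hz ζ hζ), e4]
    exact hs.neg z hz 0 ⟨le_rfl, zero_le_one⟩ ζ hζ)
  rw [e4] at hp1
  have hp2 : SPath G (L.US G) (PP P₂ PN) (4 * Real.pi) 1 (fun z => z) (sumP A₂ A₁) (δ' / 2) :=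
    hs.toSPath.mono (by linarith)
  have hjn : ∀ z ∈ L.US G, ∀ ζ, PP P₂ PN z ζ = ζ → ∀ t,
      lin (fla G ε (fun z => z) (AK.rem (Lall h ε δ PN j)))
        (fla G ε (fun z => z) (Lall h ε δ PN j)) (((z, 1), ζ), t) =
      sumP A₂ A₁ (((z, 0), ζ), t) := fun z hz ζ hζ t => by
    rw [lin_one, hE z hz ζ hζ]
  refine ⟨cat (lin (fla G ε (fun z => z) (AK.rem (Lall h ε δ PN j)))
        (fla G ε (fun z => z) (Lall h ε δ PN j))) (sumP A₂ A₁),
    (SPath.trans hp1 hp2 hjn).toLPath (by linarith), fun z hz ζ hζ t => ?_,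
    fun z hz ζ hζ t => ?_⟩
  · rw [cat_zero, lin_zero]
  · rw [cat_one (hjn z hz ζ hζ t)]
    rfl

end main

end Crest.Agent.R208.AK
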