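import Crest.Agent.R208.AK10

/-!
R208, block AK (helper952), part 11: **the junction**: the broken four-arc family near the diagonal
is joined to the family `R(γ + ε₂ ξ(ν) + ε₁ nf(w))` by families of energy `< 2π` (period `4π`).
-/

set_option autoImplicit false
set_option linter.unusedSectionVars false

open Set Filter Topology MeasureTheory Module
open scoped ContDiff RealInnerProductSpace Interval
open Crest.GeometryTopology.Submanifold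
open Crest.Agent.R241.DDefs
open Crest.Agent.R241.D2
open Crest.Agent.R241.D3c
open Crest.Agent.R208.SV (ixd ix Fld jf jf')
open Crest.Agent.R208.NN (V0 qq Wt nuP fd fd')
open Crest.Agent.R208.KG (idx Km cc sta pc rnd gT OK)
open Crest.Agent.R208.NB (npr V0s)

noncomputable section

namespace Crest.Agent.R208.AK

variable {n N k Kn : ℕ} {κ : ℝ} {S : Set (Euc N)} {G : Geo n N κ S} {z : Euc N × Euc N}
  {δ ε δ₂ : ℝ} {PN : Euc N × Euc N → Wt N Kn →L[ℝ] Wt N Kn}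

section anti

variable {XI : (((Euc N × Euc N) × ℝ) × (Wt N Kn × Wt N Kn)) × ℝ → Euc N}

/-- helper844's cross condition at the end of the path of angle functions -/
def Cross (h : GT.Bla G k) (ε : ℝ) (PN : Euc N × Euc N → Wt N Kn →L[ℝ] Wt N Kn)
    (XI : (((Euc N × Euc N) × ℝ) × (Wt N Kn × Wt N Kn)) × ℝ → Euc N) : Prop :=
  ∀ z ∈ L.US G, ∀ ζ : Wt N Kn × Wt N Kn, PP PN PN z ζ = ζ →
    ix G z 0 (2 * Real.pi) (fun t => XI (((z, 1), ζ), t)) (deriv fun t => XI (((z, 1), ζ), t))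
      (fun t => QA h ε PN ((z, ζ), t)) (deriv fun t => QA h ε PN ((z, ζ), t)) ≤ 0

/-- **the antiperiodic path** from the chains `(a,-b,-a,b)` to `XI (τ = 0)` -/
theorem exists_spath_A (hS : IsCompact S) (hO : OK G 4 ε) (h : GT.Bla G k) (hk : 1 ≤ k)
    (H : NB.NegB G (k - 1) (nuP Kn) δ PN) {c : ℝ} (hc0 : 0 < c) (hc : HC G ε c) (hδ₂ : 0 < δ₂)
    (hXI : SPath G (L.US G) (PP PN PN) (2 * Real.pi) (-1) (fun z => z) XI δ₂)
    (hX : Cross h ε PN XI) :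
    ∃ (A : (((Euc N × Euc N) × ℝ) × (Wt N Kn × Wt N Kn)) × ℝ → Euc N) (δ' : ℝ), 0 < δ' ∧
      SPath G (L.US G) (PP PN PN) (2 * Real.pi) (-1) (fun z => z) A δ' ∧
      (∀ z ∈ L.US G, ∀ ζ : Wt N Kn × Wt N Kn, PP PN PN z ζ = ζ → ∀ t,
        A (((z, 0), ζ), t) = QA h ε PN ((z, ζ), t)) ∧
      (∀ z ∈ L.US G, ∀ ζ : Wt N Kn × Wt N Kn, PP PN PN z ζ = ζ → ∀ t,
        A (((z, 1), ζ), t) = XI (((z, 0), ζ), t)) := by
  have hP := kr_of_nb h hk H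
  obtain ⟨cu, hcu, hcu'⟩ := exists_le_uu hS h hk H
  have hpi := Real.pi_pos
  have h1 : (1:ℝ) ∈ Icc (0:ℝ) 1 := ⟨zero_le_one, le_rfl⟩
  have hM := lmap_QA hO h hP
  have hM1 := hXI.lmap h1
  set δ1 := min (2 * c * cu ^ 2) δ₂ with hδ1
  have hδ1p : 0 < δ1 := lt_min (by positivity) hδ₂
  have hl := SPath.line (δ := δ1) (fun z (hz : z ∈ L.US G) => hz.1) (by positivity) hM hM1 hδ1p.le
    (fun z hz ζ hζ => by
      refine (ix_QA_le hO h hP hc hz hζ).trans ?_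
      rw [PP_eq] at hζ
      have k1 := pow_le_pow_left₀ (by positivity) (hcu' z hz _ hζ.1) 2
      have k2 := pow_le_pow_left₀ (by positivity) (hcu' z hz _ hζ.2) 2
      rw [mul_pow] at k1 k2
      have k3 : ‖ζ‖ ^ 2 ≤ ‖ζ.1‖ ^ 2 + ‖ζ.2‖ ^ 2 := by
        rw [Prod.norm_def]
        rcases le_total ‖ζ.1‖ ‖ζ.2‖ with h | h
        · rw [max_eq_right h]; nlinarith [sq_nonneg ‖ζ.1‖]
        · rw [max_eq_left h]; nlinarith [sq_nonneg ‖ζ.2‖]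
      have k4 : δ1 * ‖ζ‖ ^ 2 ≤ 2 * c * cu ^ 2 * (‖ζ.1‖ ^ 2 + ‖ζ.2‖ ^ 2) := by
        gcongr; exact min_le_left _ _
      have k5 : 2 * c * (cu ^ 2 * ‖ζ.1‖ ^ 2 + cu ^ 2 * ‖ζ.2‖ ^ 2) ≤
          2 * c * (‖KR.uu h PN z ζ.1‖ ^ 2 + ‖KR.uu h PN z ζ.2‖ ^ 2) := by gcongr
      linarith)
    (fun z hz ζ hζ => by
      refine (hXI.neg z hz 1 h1 ζ hζ).trans ?_
      have k4 : δ1 * ‖ζ‖ ^ 2 ≤ δ₂ * ‖ζ‖ ^ 2 := by gcongr; exact min_le_right _ _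
      linarith)
    (fun z hz ζ hζ => hX z hz ζ hζ)
  have hs : SPath G (L.US G) (PP PN PN) (2 * Real.pi) (-1) (fun z => z)
      (fun p => XI (((p.1.1.1, 1 - p.1.1.2), p.1.2), p.2)) (δ1 / 2) :=
    hXI.symm.mono (by have := min_le_right (2 * c * cu ^ 2) δ₂; linarith)
  have he : ∀ z ∈ L.US G, ∀ ζ, PP PN PN z ζ = ζ → ∀ t,
      lin (QA h ε PN) (fun p => XI (((p.1.1, 1), p.1.2), p.2)) (((z, 1), ζ), t) =
      (fun p : (((Euc N × Euc N) × ℝ) × (Wt N Kn × Wt N Kn)) × ℝ =>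
        XI (((p.1.1.1, 1 - p.1.1.2), p.1.2), p.2)) (((z, 0), ζ), t) := by
    intro z hz ζ hζ t
    rw [lin_one]
    simp
  refine ⟨_, δ1 / 2, by linarith, SPath.trans hl hs he, fun z hz ζ hζ t => ?_,
    fun z hz ζ hζ t => ?_⟩
  · rw [cat_zero, lin_zero]
  · rw [cat_one (he z hz ζ hζ t)]
    simp

end anti

section junction

variable {H₂ : Type*} [NormedAddCommGroup H₂] [NormedSpace ℝ H₂]
  {P₂ : Euc N × Euc N → H₂ →L[ℝ] H₂} {j : H₂ →L[ℝ] Wt N Kn × Wt N Kn}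
  {XI : (((Euc N × Euc N) × ℝ) × (Wt N Kn × Wt N Kn)) × ℝ → Euc N}

/-- the model fields `ε₂ ξ(ν) + ε₁ nf(w)` -/
def BM (G : Geo n N κ S) (Kn : ℕ) (j : H₂ →L[ℝ] Wt N Kn × Wt N Kn)
    (XI : (((Euc N × Euc N) × ℝ) × (Wt N Kn × Wt N Kn)) × ℝ → Euc N) (ε₁ ε₂ : ℝ)
    (p : ((Euc N × Euc N) × (H₂ × Wt N Kn)) × ℝ) : Euc N :=
  ε₂ • XI (((p.1.1, 0), j p.1.2.1), p.2) + ε₁ • fd G p.1.1 (nuP Kn) p.1.2.2 p.2

/-- the model family -/
def FM (G : Geo n N κ S) (Kn : ℕ) (j : H₂ →L[ℝ] Wt N Kn × Wt N Kn)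
    (XI : (((Euc N × Euc N) × ℝ) × (Wt N Kn × Wt N Kn)) × ℝ → Euc N) (ε₁ ε₂ : ℝ)
    (R : Euc N → Euc N) (p : ((Euc N × Euc N) × (H₂ × Wt N Kn)) × ℝ) : Euc N :=
  R ((fl G (p.1.1, p.2)).1 + BM G Kn j XI ε₁ ε₂ p)

/-- **the junction**: the broken family near the diagonal is joined to the model family -/
theorem exists_junction (hS : IsCompact S) (hO : OK G 4 ε) (h : GT.Bla G k) (hk : 1 ≤ k)
    (H : NB.NegB G (k - 1) (nuP Kn) δ PN) {c : ℝ} (hc0 : 0 < c) (hc : HC G ε c) (hδ₂ : 0 < δ₂)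
    (hXI : SPath G (L.US G) (PP PN PN) (2 * Real.pi) (-1) (fun z => z) XI δ₂)
    (hX : Cross h ε PN XI)
    (hj : ∀ z ∈ L.US G, ∀ ν, P₂ z ν = ν → PP PN PN z (j ν) = j ν) {cj : ℝ} (hcj : 0 < cj)
    (hjc : ∀ z ∈ L.US G, ∀ ν, P₂ z ν = ν → cj * ‖ν‖ ^ 2 ≤ ‖j ν‖ ^ 2)
    {ε₁ ε₂ : ℝ} (hε₁ : 0 < ε₁) (hε₂ : 0 < ε₂)
    {R : Euc N → Euc N} {O : Set (Euc N)} (hOo : IsOpen O) (hSO : S ⊆ O)
    (hR : ContDiffOn ℝ ∞ R O) (hRS : MapsTo R O S) (hRid : ∀ x ∈ S, R x = x) :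
    ∃ (Hm : (((Euc N × Euc N) × ℝ) × (H₂ × Wt N Kn)) × ℝ → Euc N) (r δf : ℝ), 0 < r ∧ 0 < δf ∧
      LFam G (L.US G ×ˢ Icc (0:ℝ) 1) (fun p => PP P₂ PN p.1) (4 * Real.pi) (fun p => p.1) Hm r ∧
      (∀ z ∈ L.US G, ∀ ζ, PP P₂ PN z ζ = ζ → ‖ζ‖ < r → ∀ t,
        Hm (((z, 0), ζ), t) = FT G 4 ε (kap z (AK.rem (Lall h ε δ PN j) z ζ), t)) ∧
      (∀ z ∈ L.US G, ∀ ζ, PP P₂ PN z ζ = ζ → ‖ζ‖ < r → ∀ t,
        Hm (((z, 1), ζ), t) = FM G Kn j XI ε₁ ε₂ R ((z, ζ), t)) ∧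
      (∀ z ∈ L.US G, ∀ τ ∈ Icc (0:ℝ) 1, ∀ ζ, PP P₂ PN z ζ = ζ → ‖ζ‖ < r →
        EnT (4 * Real.pi) (fun t => Hm (((z, τ), ζ), t)) ≤ 2 * Real.pi - δf * ‖ζ‖ ^ 2) := by
  have hpi := Real.pi_pos
  have hUS : IsCompact (L.US G) := LB.isCompact_US hS
  have hg : ∀ z ∈ L.US G, (fun z : Euc N × Euc N => z) z ∈ TS G := fun z hz => hz.1
  have h0 : (0:ℝ) ∈ Icc (0:ℝ) 1 := ⟨le_rfl, zero_le_one⟩
  -- antiperiodic part
  obtain ⟨A, δa, hδa, hA, hA0, hA1⟩ := exists_spath_A hS hO h hk H hc0 hc hδ₂ hXI hX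
  have hAj := hA.comp (P' := P₂) (j := j) hδa.le hj hjc
  have hXIj := hXI.comp (P' := P₂) (j := j) hδ₂.le hj hjc
  have hsc2 := SPath.scale (c := ε₂) hg (by positivity) (hXIj.lmap h0) (by positivity) hε₂
    (fun z hz ν hν => hXIj.neg z hz 0 h0 ν hν)
  set da := min (δa * cj) (min 1 (ε₂ ^ 2) * (δ₂ * cj) / 2) with hda
  have hm2 : 0 < min 1 (ε₂ ^ 2) := lt_min one_pos (by positivity)
  have hdap : 0 < da := lt_min (by positivity) (by positivity)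
  have he2 : ∀ z ∈ L.US G, ∀ ν, P₂ z ν = ν → ∀ t,
      pbj j A (((z, 1), ν), t) = lin (fun p => pbj j XI (((p.1.1, 0), p.1.2), p.2))
        (fun p => ε₂ • pbj j XI (((p.1.1, 0), p.1.2), p.2)) (((z, 0), ν), t) := by
    intro z hz ν hν t
    rw [lin_zero]
    exact hA1 z hz _ (hj z hz ν hν) t
  have h₂ := SPath.trans (hAj.mono (min_le_left _ _ : da ≤ _)) (hsc2.mono (min_le_right _ _)) he2
  -- periodic part
  obtain ⟨δn, hδn, hN⟩ := exists_spath_N hO h H hS hc0 hc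
  have h1 : (1:ℝ) ∈ Icc (0:ℝ) 1 := ⟨zero_le_one, le_rfl⟩
  have hN1 : ∀ z ∈ L.US G, ∀ w, PN z w = w →
      ix G z 0 (2 * Real.pi) (fun t => nfF G Kn ((z, w), t)) (deriv fun t => nfF G Kn ((z, w), t))
        (fun t => nfF G Kn ((z, w), t)) (deriv fun t => nfF G Kn ((z, w), t)) ≤
        -δn * ‖w‖ ^ 2 := by
    intro z hz w hw
    have := hN.neg z hz 1 h1 w hw
    simp only [lin_one] at this
    exact this
  have hsc1 := SPath.scale (c := ε₁) hg (by positivity) (lmap_nf (PN := PN) h) hδn hε₁ hN1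
  set dn := min δn (min 1 (ε₁ ^ 2) * δn / 2) with hdn
  have hm1 : 0 < min 1 (ε₁ ^ 2) := lt_min one_pos (by positivity)
  have hdnp : 0 < dn := lt_min hδn (by positivity)
  have he1 : ∀ z ∈ L.US G, ∀ w, PN z w = w → ∀ t,
      lin (fla G ε (fun z => z) (LP h ε δ PN)) (nfF G Kn) (((z, 1), w), t) =
        lin (nfF G Kn) (fun p => ε₁ • nfF G Kn p) (((z, 0), w), t) := by
    intro z hz w hw t
    rw [lin_one, lin_zero]
  have h₁ := SPath.trans (hN.mono (min_le_left _ _ : dn ≤ _)) (hsc1.mono (min_le_right _ _)) he1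
  set δ' := min da dn with hδ'
  have hδ'p : 0 < δ' := lt_min hdap hdnp
  -- the path
  obtain ⟨B, hB, hB0, hB1⟩ := exists_lpath (P₂ := P₂) (j := j) hO h hk H hc0 hc hj hδ'p
    (h₂.mono (min_le_left _ _ : δ' ≤ _)) (h₁.mono (min_le_right _ _))
    (fun z hz ν hν t => by
      rw [cat_zero]
      exact hA0 z hz _ (hj z hz ν hν) t)
    (fun z hz w hw t => by rw [cat_zero, lin_zero])
  have hB1' : ∀ z ∈ L.US G, ∀ ζ, PP P₂ PN z ζ = ζ → ∀ t,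
      B (((z, 1), ζ), t) = BM G Kn j XI ε₁ ε₂ ((z, ζ), t) := by
    intro z hz ζ hζ t
    rw [hB1 z hz ζ hζ t]
    rw [PP_eq] at hζ
    rw [cat_one (he2 z hz _ hζ.1 t), cat_one (he1 z hz _ hζ.2 t), lin_one, lin_one]
    rfl
  -- the model family
  have hfl4 : ∀ z ∈ L.US G, fl G (z, 4 * Real.pi) = z := by
    intro z hz
    have e1 : 4 * Real.pi = 2 * Real.pi + 2 * Real.pi := by ring
    rw [e1, fl_add_two_pi hz.1 (NN.fl_two_pi h hz), NN.fl_two_pi h hz]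
  have hBMm : LMap G (L.US G) (PP P₂ PN) (4 * Real.pi) 1 (fun z => z) (BM G Kn j XI ε₁ ε₂) := by
    have hl := hB.toSPath.lmap h1
    refine ⟨fun z hz ζ hζ t => ?_, fun z hz ζ hζ s t => ?_, fun z hz ζ hζ t => ?_,
      fun z hz ζ hζ t => ?_⟩
    · have hζ' := PP_eq.1 hζ
      have m2 := (hXIj.lmap h0).smul ε₂
      have m1 := (lmap_nf (PN := PN) (Kn := Kn) h).smul ε₁
      have c2 : ContDiffAt ℝ ∞ (fun p : ((Euc N × Euc N) × (H₂ × Wt N Kn)) × ℝ =>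
          ε₂ • pbj j XI (((p.1.1, 0), p.1.2.1), p.2)) ((z, ζ), t) :=
        ContDiffAt.comp
          (g := fun p : ((Euc N × Euc N) × H₂) × ℝ => ε₂ • pbj j XI (((p.1.1, 0), p.1.2), p.2))
          (f := fun p : ((Euc N × Euc N) × (H₂ × Wt N Kn)) × ℝ => ((p.1.1, p.1.2.1), p.2))
          ((z, ζ), t) (m2.smooth z hz _ hζ'.1 t) (by fun_prop)
      have c1 : ContDiffAt ℝ ∞ (fun p : ((Euc N × Euc N) × (H₂ × Wt N Kn)) × ℝ =>
          ε₁ • nfF G Kn ((p.1.1, p.1.2.2), p.2)) ((z, ζ), t) :=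
        ContDiffAt.comp
          (g := fun p : ((Euc N × Euc N) × Wt N Kn) × ℝ => ε₁ • nfF G Kn p)
          (f := fun p : ((Euc N × Euc N) × (H₂ × Wt N Kn)) × ℝ => ((p.1.1, p.1.2.2), p.2))
          ((z, ζ), t) (m1.smooth z hz _ hζ'.2 t) (by fun_prop)
      exact c2.add c1
    · rw [← hB1' z hz ζ hζ, ← hB1' z hz _ (by rw [map_smul, hζ])]
      exact hB.hom z hz 1 h1 ζ hζ s t
    · rw [← hB1' z hz ζ hζ]
      exact hB.tan z hz 1 h1 ζ hζ t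
    · rw [← hB1' z hz ζ hζ, ← hB1' z hz ζ hζ, one_smul]
      exact hB.per z hz 1 h1 ζ hζ t
  obtain ⟨r1, hr1, hF1, hF1l⟩ := exists_lfam_ret (E := Euc N × Euc N) (K := L.US G)
    (g := fun z => z) (B := BM G Kn j XI ε₁ ε₂) hOo hSO hR hRS hRid hUS (by positivity) hg
    (fun z _ => contDiffAt_id) hfl4 hBMm
  -- the broken family
  have hL := linC_Lall (P₂ := P₂) (j := j) hO h hk H hc0 hc hj
  have hF0 := hL.rem.lfam hO h hr1
  have e4 : ((4 : ℕ) : ℝ) * Real.pi = 4 * Real.pi := by push_cast; ring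
  rw [e4] at hF0
  obtain ⟨Hm, r, hr, -, hLF, hm0, hm1, hen⟩ := join h.bl hUS (by positivity) hg hF0 hF1 hB
    (fun z hz ζ hζ t => by rw [hB0 z hz ζ hζ, hL.rem.lA_fam hO h hz hζ])
    (fun z hz ζ hζ t => by rw [hB1' z hz ζ hζ, hF1l z hz ζ hζ])
  refine ⟨Hm, r, δ' / 2 / 4, hr, by positivity, hLF, hm0, hm1, fun z hz τ hτ ζ hζ hζr => ?_⟩
  have h5 := hen z hz τ hτ ζ hζ hζr
  rw [int_fl hz] at h5
  linarith

end junction

end Crest.Agent.R208.AK
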