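import Crest.Agent.R208.EX8

/-!
R208, block EX (helper530), part EX9: **the relative form of a family of loops** over a manifold
without action (`ED.IsRel`): existence, naturality, comparison with families over circle actions,
homotopies.
-/

set_option autoImplicit false
set_option linter.unusedSectionVars false
set_option linter.unusedVariables false

open MeasureTheory Set Filter Topology Module
open scoped ContDiff RealInnerProductSpace Real
open Crest.GeometryTopology.Submanifold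
open Crest.Agent.R241.DDefs Crest.Agent.R241.D Crest.Agent.R241.D2
open Crest.Agent.R208.F Crest.Agent.R208.FI Crest.Agent.R208.CW Crest.Agent.R208.T
open Crest.Agent.R208.CM (Cir gen)
open Crest.Agent.R208.VC
open Crest.Agent.R208.MS (Fam oc En Loop loop_oc)

noncomputable section

namespace Crest.Agent.R208.EX

variable {N : ℕ} {S : Set (Euc N)}

/-- smooth families of loops in `S` -/
structure LF {E : Type} [NormedAddCommGroup E] [NormedSpace ℝ E] (S : Set (Euc N)) (X : Set E)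
    (f : E → ℝ → Euc N) : Prop where
  smooth : ∀ y ∈ X, ∀ t, ContDiffAt ℝ ∞ (fun q : E × ℝ => f q.1 q.2) (y, t)
  per : ∀ y ∈ X, ∀ t, f y (t + 2 * π) = f y t
  mem : ∀ y ∈ X, ∀ t, f y t ∈ S

section lf
variable {E : Type} [NormedAddCommGroup E] [NormedSpace ℝ E] {X : Set E} {f : E → ℝ → Euc N}
  {E' : Type} [NormedAddCommGroup E'] [NormedSpace ℝ E'] {X' : Set E'}

theorem LF.mono {X₁ : Set E} (h : LF S X f) (hs : X₁ ⊆ X) : LF S X₁ f :=
  ⟨fun y hy => h.smooth y (hs hy), fun y hy => h.per y (hs hy), fun y hy => h.mem y (hs hy)⟩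

theorem LF.comp {g : E' → E} (h : LF S X f) (hg : ∀ y ∈ X', ContDiffAt ℝ ∞ g y)
    (hm : MapsTo g X' X) : LF S X' (fun y => f (g y)) where
  smooth := fun y hy t => ContDiffAt.comp (g := fun q : E × ℝ => f q.1 q.2) (y, t)
    (h.smooth _ (hm hy) t) (((hg y hy).comp (y, t) contDiffAt_fst).prodMk contDiffAt_snd)
  per := fun y hy => h.per _ (hm hy)
  mem := fun y hy => h.mem _ (hm hy)

/-- the circle form is a family -/
theorem LF.fam (h : LF S X f) : Fam S (X ×ˢ Cc) (circ f) where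
  smooth := fun z hz => contDiffAt_circ hz.2 (h.smooth z.1 hz.1)
  maps := fun z hz => by
    obtain ⟨y, u⟩ := z
    obtain ⟨t, rfl⟩ := exists_ex hz.2
    rw [circ_ex (h.per y hz.1)]
    exact h.mem y hz.1 t

theorem LF.oc_eq (h : LF S X f) {y : E} (hy : y ∈ X) (s : ℝ) :
    oc rot (circ f) (y, ex s) = fun t => f y (t + s) := by
  funext t
  change circ f (y, ex t * ex s) = _
  rw [← ex_add, circ_ex (h.per y hy)]

theorem LF.loop (h : LF S X f) {y : E} (hy : y ∈ X) : Loop S (f y) where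
  smooth := by
    rw [contDiff_iff_contDiffAt]
    intro t
    exact ContDiffAt.comp (g := fun q : E × ℝ => f q.1 q.2) t (h.smooth y hy t)
      (contDiffAt_const.prodMk contDiffAt_id)
  per := h.per y hy
  mem := h.mem y hy

/-- shifts do not change the energy -/
theorem En_shift' {c : ℝ → Euc N} (hp : ∀ t, c (t + 2 * π) = c t) (s : ℝ) :
    En (fun t => c (t + s)) = En c := by
  have h1 : ∀ t, deriv (fun t => c (t + s)) t = deriv c (t + s) := fun t =>
    deriv_comp_add_const c s t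
  have h2 : Function.Periodic (fun t => ‖deriv c t‖ ^ 2) (2 * π) := fun t => by
    have h3 : (fun t => c (t + 2 * π)) = c := funext hp
    have h4 := deriv_comp_add_const c (2 * π) t
    rw [h3] at h4
    change ‖deriv c (t + 2 * π)‖ ^ 2 = ‖deriv c t‖ ^ 2
    rw [← h4]
  unfold En
  simp only [h1]
  rw [intervalIntegral.integral_comp_add_right (fun t => ‖deriv c t‖ ^ 2) s, zero_add,
    add_comm (2 * π) s, h2.intervalIntegral_add_eq s 0, zero_add]

theorem LF.En_eq (h : LF S X f) {z : E × ℂ} (hz : z ∈ X ×ˢ Cc) :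
    En (oc rot (circ f) z) = En (f z.1) := by
  obtain ⟨y, u⟩ := z
  obtain ⟨s, rfl⟩ := exists_ex hz.2
  rw [h.oc_eq hz.1]
  exact En_shift' (h.per y hz.1) s

end lf

section main
variable {E : Type} [NormedAddCommGroup E] [NormedSpace ℝ E] [FiniteDimensional ℝ E]
  {E' : Type} [NormedAddCommGroup E'] [NormedSpace ℝ E'] [FiniteDimensional ℝ E']
  {D : ED N} {m m' : ℕ} {X : Set E} {α : E → Ext E} {f : E → ℝ → Euc N} {c : E → ℝ}
  {Om Om' : E → Ext E} {y : E}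

/-- the function on `X × circle` -/
def cf (c : E → ℝ) (z : E × ℂ) : ℝ := c z.1

/-- `Om` is the relative form on `X` of the loops `f` with connection `dt + α` and cut off `c` -/
def ED.IsRel (D : ED N) (X : Set E) (α : E → Ext E) (f : E → ℝ → Euc N) (c : E → ℝ)
    (Om : E → Ext E) : Prop :=
  Sm X Om ∧ ∃ η : E × ℂ → Ext (E × ℂ),
    D.IsEta (Up (X ×ˢ Cc) (cf c)) rot (th α) (circ f) η ∧
    Eqv X Om (F.pull sl (D.rel rot (th α) (circ f) (cf c) η))

/-- the form of the loops `f` -/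
def ED.vs (D : ED N) (α : E → Ext E) (f : E → ℝ → Euc N) : E → Ext E :=
  F.pull sl (D.vf rot (th α) (circ f))

theorem up_prod (X : Set E) (c : E → ℝ) : Up (X ×ˢ Cc) (cf c) = Up X c ×ˢ Cc := by
  ext z
  constructor
  · rintro ⟨⟨h1, h2⟩, h3⟩; exact ⟨⟨h1, h3⟩, h2⟩
  · rintro ⟨⟨h1, h3⟩, h2⟩; exact ⟨⟨h1, h2⟩, h3⟩

theorem act_rot (X : Set E) : Act (X ×ˢ Cc) rot := Act.of_cir (cir_rot X)

theorem smooth_cf (hc : ∀ y ∈ X, ContDiffAt ℝ ∞ c y) :
    ∀ z ∈ X ×ˢ Cc, ContDiffAt ℝ ∞ (cf c) z := fun z hz =>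
  (hc z.1 hz.1).comp z contDiffAt_fst

theorem cf_rot : ∀ z ∈ X ×ˢ Cc, ∀ t, cf c (rot t z) = cf c z := fun _ _ _ => rfl

/-- **existence of the relative form** -/
theorem ED.exists_rel (hD : D.OK) (hX : Sub m X) (hα : Sm X α) (hα1 : Hom 1 α) (hf : LF D.S X f)
    (hc : ∀ y ∈ X, ContDiffAt ℝ ∞ c y) (hE : ∀ y ∈ X, 0 < c y → En (f y) ≤ D.B) :
    ∃ Om, D.IsRel X α f c Om := by
  have hcu := smooth_cf hc
  obtain ⟨η, hη⟩ := ED.exists_eta hD (cir_up (cir_rot X) (cf_rot (c := c)))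
    (sub_up hcu (sub_prodC hX)) ((cn_th hα hα1).mono inter_subset_left) (fam_up hf.fam)
    (fun z hz => by rw [hf.En_eq hz.1]; exact hE _ hz.1.1 hz.2)
  refine ⟨_, ?_, η, hη, Eqv.refl _⟩
  exact (ED.sm_rel hD (act_rot X) (sub_prodC hX) (cn_th hα hα1) hf.fam hcu hη).pull (smap_sl X)

theorem rs_up_pt {x : E} (hc : ∀ x ∈ X, ContDiffAt ℝ ∞ c x) (hx : x ∈ Up X c) {w w' : Ext E}
    (h : rsL (Up X c) x w = rsL (Up X c) x w') : rsL X x w = rsL X x w' := by
  have hx' := hx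
  rw [up_eq hc] at h hx'
  have h5 : Tan (X ∩ interior {x | 0 < c x}) x = Tan X x := Tan_inter_open isOpen_interior hx'.2
  have h6 : ∀ (K K' : Submodule ℝ E), K = K' → pb K.subtype w = pb K.subtype w' →
      pb K'.subtype w = pb K'.subtype w' := by
    rintro K K' rfl h; exact h
  exact h6 _ _ h5 h

/-- **where the orbit loops are constant** the relative form vanishes -/
theorem ED.rel_const {φ : ℝ → E → E} {θ η : E → Ext E} {f : E → Euc N} {x : E} (hD : D.OK)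
    (h : Act X φ) (hX : Sub m X) (hθ : Cn X φ θ) (hf : Fam D.S X f)
    (hc : ∀ x ∈ X, ContDiffAt ℝ ∞ c x) (hci : ∀ x ∈ X, ∀ t, c (φ t x) = c x)
    (hη : D.IsEta (Up X c) φ θ f η) {U : Set E} (hU : IsOpen U)
    (hcst : ∀ x ∈ X ∩ U, ∀ t, f (φ t x) = f x) (hx : x ∈ X ∩ U) :
    rsL X x (D.rel φ θ f c η x) = 0 := by
  have hfs : SMap X D.S f := ⟨hf.smooth, hf.maps⟩
  have hau := act_up h hci
  have hXu := sub_up hc hX
  have hθu := hθ.mono (X' := Up X c) inter_subset_left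
  have h1 : rsL X x (D.vf φ θ f x) = 0 :=
    rs_vv_eq_zero h (hD.dat hf).sm hx.1
      (ii_cv_pull h hx.1 (fun t => hfs.diff (h.maps t hx.1)) (hcst x hx))
  have h2 : Eqv (X ∩ U) (fun x => kx (c x) • η x) 0 := by
    refine eqv_iff.2 fun z hz => ?_
    refine rs_sub (X' := X ∩ U) (X := X) (c := kx (c z) • η z) (c' := 0) inter_subset_left ?_
    rw [map_smul, map_zero]
    rcases le_or_gt (c z) 0 with h0 | h0
    · rw [kx_zero (by linarith), zero_smul]
    · have h3 : rsL (Up X c) z (η z) = 0 := hη.zero hD hau hXu hθu ⟨hz.1, h0⟩ (hcst z hz)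
      have h4 := rs_up_pt hc ⟨hz.1, h0⟩ (w := η z) (w' := 0) (by rw [h3, map_zero])
      rw [h4, map_zero, smul_zero]
  have hs := sm_cut hc hη.sm
  have h3 := h2.d (Sub.inter_open' hX hU) (hs.mono inter_subset_left) Sm.zero
  rw [d_zero'] at h3
  have h4 := eqv_of_open hU h3 hx.1 hx.2
  change rsL X x (D.vf φ θ f x - F.d (fun x => kx (c x) • η x) x) = 0
  rw [map_sub, h1, rsL_apply, h4, zero_sub, neg_eq_zero]
  exact map_zero _

section basics
variable (hD : D.OK) (hX : Sub m X) (hα : Sm X α) (hα1 : Hom 1 α) (hf : LF D.S X f)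
  (hc : ∀ y ∈ X, ContDiffAt ℝ ∞ c y) (hO : D.IsRel X α f c Om)

include hD hX hα hα1 hf

theorem ED.sm_vs : Sm X (D.vs α f) :=
  (ED.sm_vf hD (act_rot X) (sub_prodC hX) (cn_th hα hα1) hf.fam).pull (smap_sl X)

theorem ED.cl_vs : Cl X (D.vs α f) :=
  (ED.cl_vf hD (act_rot X) (sub_prodC hX) (cn_th hα hα1) hf.fam).pull (smap_sl X)
    (ED.sm_vf hD (act_rot X) (sub_prodC hX) (cn_th hα hα1) hf.fam)

include hc hO

theorem ED.IsRel.cl : Cl X Om := by
  obtain ⟨h1, η, h2, h3⟩ := hO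
  have h4 := ED.sm_rel hD (act_rot X) (sub_prodC hX) (cn_th hα hα1) hf.fam (smooth_cf hc) h2
  exact Cl.of_eqv hX h1 (h4.pull (smap_sl X)) h3
    ((ED.cl_rel hD (act_rot X) (sub_prodC hX) (cn_th hα hα1) hf.fam (smooth_cf hc) h2).pull
      (smap_sl X) h4)

/-- it vanishes where `c > 3/4` -/
theorem ED.IsRel.zero (hy : y ∈ X) (hcy : 3 / 4 < c y) : rsL X y (Om y) = 0 := by
  obtain ⟨h1, η, h2, h3⟩ := hO
  have h4 := ED.rel_zero hD (act_rot X) (sub_prodC hX) (cn_th hα hα1) hf.fam (smooth_cf hc)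
    (cf_rot (c := c)) h2 (x := (y, 1)) ⟨hy, one_mem_Cc⟩ hcy
  have h5 := rs_pull_zero (smap_sl X) hy h4
  rw [rsL_apply] at h5 ⊢
  rw [eqv_iff.1 h3 y hy, h5]

/-- **where the loops are constant** the relative form vanishes -/
theorem ED.IsRel.zero_const {U : Set E} (hU : IsOpen U) (hcst : ∀ y ∈ X ∩ U, ∀ t, f y t = f y 0)
    (hy : y ∈ X ∩ U) : rsL X y (Om y) = 0 := by
  obtain ⟨h1, η, h2, h3⟩ := hO
  have h4 := ED.rel_const hD (act_rot X) (sub_prodC hX) (cn_th hα hα1) hf.fam (smooth_cf hc)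
    (cf_rot (c := c)) h2 (hU.preimage continuous_fst) (fun z hz t => by
      obtain ⟨z, u⟩ := z
      obtain ⟨s, rfl⟩ := exists_ex hz.1.2
      change circ f (z, ex t * ex s) = circ f (z, ex s)
      rw [← ex_add, circ_ex (hf.per z hz.1.1), circ_ex (hf.per z hz.1.1),
        hcst z ⟨hz.1.1, hz.2⟩, hcst z ⟨hz.1.1, hz.2⟩ s])
    (x := (y, 1)) ⟨⟨hy.1, one_mem_Cc⟩, hy.2⟩
  have h5 := rs_pull_zero (smap_sl X) hy.1 h4
  rw [rsL_apply] at h5 ⊢
  rw [eqv_iff.1 h3 y hy.1, h5]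

end basics

/-- **where `c < 1/4`** the relative form is the form of the loops -/
theorem ED.IsRel.eq (hc : ∀ y ∈ X, ContDiffAt ℝ ∞ c y) (hO : D.IsRel X α f c Om) (hy : y ∈ X)
    (hcy : c y < 1 / 4) : rsL X y (Om y) = rsL X y (D.vs α f y) := by
  obtain ⟨h1, η, h2, h3⟩ := hO
  have h4 := ED.rel_eq (D := D) (φ := rot) (θ := th α) (f := circ f) (η := η) (smooth_cf hc)
    (x := (y, 1)) ⟨hy, one_mem_Cc⟩ hcy
  rw [rsL_apply, rsL_apply, eqv_iff.1 h3 y hy]
  congr 1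
  exact congrArg (pb (fderiv ℝ sl y : E →ₗ[ℝ] E × ℂ)) h4

/-- the product map -/
def gC (g : E' → E) (z : E' × ℂ) : E × ℂ := (g z.1, z.2)

theorem smap_gC {X' : Set E'} {g : E' → E} (hg : SMap X' X g) :
    SMap (X' ×ˢ Cc) (X ×ˢ Cc) (gC g) :=
  ⟨fun z hz => ((hg.smooth z.1 hz.1).comp z contDiffAt_fst).prodMk contDiffAt_snd,
    fun z hz => ⟨hg.maps hz.1, hz.2⟩⟩

/-- **naturality** -/
theorem ED.IsRel.nat {X' : Set E'} {α' : E' → Ext E'} {f' : E' → ℝ → Euc N} {c' : E' → ℝ}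
    {Om' : E' → Ext E'} {g : E' → E} (hD : D.OK) (hX : Sub m X) (hα : Sm X α) (hα1 : Hom 1 α)
    (hf : LF D.S X f) (hc : ∀ y ∈ X, ContDiffAt ℝ ∞ c y) (hO : D.IsRel X α f c Om)
    (hX' : Sub m' X') (hα' : Sm X' α') (hα1' : Hom 1 α') (hf' : LF D.S X' f') (hc' : ∀ y ∈ X', ContDiffAt ℝ ∞ c' y)
    (hO' : D.IsRel X' α' f' c' Om') (hg : SMap X' X g) (hff : ∀ y ∈ X', ∀ t, f' y t = f (g y) t)
    (hcc : ∀ y ∈ X', c' y = c (g y)) (hαα : Eqv X' (F.pull g α) α') :
    Eqv X' (F.pull g Om) Om' := by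
  obtain ⟨h1, η, h2, h3⟩ := hO
  obtain ⟨h1', η', h2', h3'⟩ := hO'
  have hgC := smap_gC hg
  have e0 : Eqv (X' ×ˢ Cc) (F.pull (gC g) (th α)) (th α') := by
    rw [th, th, pull_add']
    refine Eqv.add (Eqv.of_eq fun z hz => ?_) (Eqv.trans (b := F.pull (fun z : E' × ℂ => z.1)
      (F.pull g α)) (Eqv.of_eq fun z hz => ?_) (hαα.pull (smap_pr X')))
    · rw [F.pull_comp (hgC.diff hz) differentiableAt_snd]; rfl
    · rw [F.pull_comp (hgC.diff hz) differentiableAt_fst, F.pull_comp differentiableAt_fst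
        (hg.diff hz.1)]; rfl
  have e1 := ED.rel_nat hD (act_rot X) (sub_prodC hX) (cn_th hα hα1) hf.fam (smooth_cf hc)
    (cf_rot (c := c)) h2 (act_rot X') (sub_prodC hX') (cn_th hα' hα1') hf'.fam (smooth_cf hc')
    (cf_rot (c := c')) h2' hgC (fun t y _ => rfl) (fun z hz => by
      obtain ⟨y, u⟩ := z
      obtain ⟨t, rfl⟩ := exists_ex hz.2
      change circ f' (y, ex t) = circ f (g y, ex t)
      rw [circ_ex (hf'.per y hz.1), circ_ex (hf.per _ (hg.maps hz.1)), hff y hz.1]) e0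
    (fun z hz => hcc z.1 hz.1)
  have e2 := e1.pull (smap_sl X')
  refine (h3.pull hg).trans (Eqv.trans ?_ (e2.trans h3'.symm))
  refine Eqv.of_eq fun y hy => ?_
  rw [F.pull_comp (hg.diff hy) ((smap_sl X).diff (hg.maps hy)),
    F.pull_comp ((smap_sl X').diff hy) (hgC.diff ((smap_sl X').maps hy))]
  rfl

theorem ED.IsRel.unique (hD : D.OK) (hX : Sub m X) (hα : Sm X α) (hα1 : Hom 1 α)
    (hf : LF D.S X f) (hc : ∀ y ∈ X, ContDiffAt ℝ ∞ c y) (hO : D.IsRel X α f c Om)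
    (hO' : D.IsRel X α f c Om') : Eqv X Om Om' := by
  have := hO.nat hD hX hα hα1 hf hc hX hα hα1 hf hc hO' (SMap.id X) (fun _ _ _ => rfl)
    (fun _ _ => rfl) (Eqv.of_eq fun y _ => F.pull_id α y)
  exact (Eqv.of_eq fun y _ => (F.pull_id Om y).symm).trans this

/-- one may change the form up to restriction -/
theorem ED.IsRel.of_eqv (hO : D.IsRel X α f c Om) (hs : Sm X Om') (h : Eqv X Om' Om) :
    D.IsRel X α f c Om' := by
  obtain ⟨h1, η, h2, h3⟩ := hO
  exact ⟨hs, η, h2, h.trans h3⟩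

/-! ### comparison with families over circle actions -/

section cir
variable {φ : ℝ → E → E} {θ η : E → Ext E} {fc : E → Euc N} {K : Set E'} {g : E' → E}

/-- the orbit map -/
def evm (φ : ℝ → E → E) (g : E' → E) : E' × ℂ → E := circ fun y t => φ t (g y)

theorem evm_ex (h : Act X φ) (hg : SMap K X g) {y : E'} (hy : y ∈ K) (t : ℝ) :
    evm φ g (y, ex t) = φ t (g y) :=
  circ_ex (H := fun y t => φ t (g y)) (fun t => by
    rw [h.add t (2 * π) _ (hg.maps hy), h.per _ (hg.maps hy)]) t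

theorem evm_sl (h : Act X φ) (hg : SMap K X g) {y : E'} (hy : y ∈ K) : evm φ g (sl y) = g y := by
  have := evm_ex h hg hy 0
  rw [ex_zero, h.zero _ (hg.maps hy)] at this
  exact this

theorem smooth_orb (h : Act X φ) (hg : SMap K X g) {y : E'} (hy : y ∈ K) (t : ℝ) :
    ContDiffAt ℝ ∞ (fun q : E' × ℝ => φ q.2 (g q.1)) (y, t) :=
  ContDiffAt.comp (g := fun q : ℝ × E => φ q.1 q.2) (f := fun q : E' × ℝ => (q.2, g q.1)) (y, t)
    (h.smooth t _ (hg.maps hy))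
    (contDiffAt_snd.prodMk ((hg.smooth y hy).comp (y, t) contDiffAt_fst))

theorem smap_evm (h : Act X φ) (hg : SMap K X g) : SMap (K ×ˢ Cc) X (evm φ g) where
  smooth := fun z hz => contDiffAt_circ hz.2 (smooth_orb h hg hz.1)
  maps := fun z hz => by
    obtain ⟨y, u⟩ := z
    obtain ⟨t, rfl⟩ := exists_ex hz.2
    rw [evm_ex h hg hz.1]
    exact h.maps t (hg.maps hz.1)

theorem evm_equi (h : Act X φ) (hg : SMap K X g) (s : ℝ) :
    ∀ z ∈ K ×ˢ Cc, evm φ g (rot s z) = φ s (evm φ g z) := by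
  rintro ⟨y, u⟩ hz
  obtain ⟨t, rfl⟩ := exists_ex hz.2
  change evm φ g (y, ex s * ex t) = _
  rw [← ex_add, evm_ex h hg hz.1, evm_ex h hg hz.1, h.add s t _ (hg.maps hz.1)]

theorem pull_sl_th (α : E → Ext E) : F.pull sl (th α) = α := by
  funext y
  have d1 : DifferentiableAt ℝ (sl (E := E)) y :=
    (hasFDerivAt_id y |>.prodMk (hasFDerivAt_const (1 : ℂ) y)).differentiableAt
  have h1 := congrFun (pull_sl_pr α) y
  have h2 : F.pull sl (F.pull (fun y : E × ℂ => y.2) dtC) y = 0 := by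
    rw [F.pull_comp d1 differentiableAt_snd, F.pull]
    have e1 : ((fun y : E × ℂ => y.2) ∘ sl : E → ℂ) = fun _ => 1 := rfl
    rw [e1, dtC, pb_io, fderiv_fun_const]
    have e2 : (dtc 1 ∘ₗ (((0 : E → E →L[ℝ] ℂ) y : E →L[ℝ] ℂ) : E →ₗ[ℝ] ℂ)) = 0 := by
      refine LinearMap.ext fun v => ?_
      change dtc 1 ((0 : E →L[ℝ] ℂ) v) = 0
      rw [_root_.zero_apply, map_zero]
    rw [e2, map_zero]
  rw [th, pull_add', Pi.add_apply, h1, h2, zero_add]

/-- the pulled back connection -/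
theorem evm_th (h : Act X φ) (hθ : Cn X φ θ) (hg : SMap K X g) :
    Eqv (K ×ˢ Cc) (F.pull (evm φ g) θ) (th (F.pull g θ)) := by
  have c1 : Cn (K ×ˢ Cc) rot (F.pull (evm φ g) θ) :=
    hθ.pull h (act_rot K) (smap_evm h hg) fun t z hz => evm_equi h hg t z hz
  have c2 : Cn (K ×ˢ Cc) rot (th (F.pull g θ)) := cn_th (hθ.sm.pull hg) hθ.hom.pull
  have h1 : Eqv (K ×ˢ Cc) (F.pull (evm φ g) θ - th (F.pull g θ)) 0 := by
    refine basic_zero (c1.sub_inv c2) (c1.sub_hz c2) ?_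
    rw [pull_sub', pull_sl_th]
    have e1 : Eqv K (F.pull sl (F.pull (evm φ g) θ)) (F.pull g θ) := by
      refine Eqv.trans (b := F.pull (fun y => evm φ g (sl y)) θ) (Eqv.of_eq fun y hy =>
        F.pull_comp ((smap_sl K).diff hy) ((smap_evm h hg).diff ((smap_sl K).maps hy))) ?_
      exact eqv_pull_of_eq θ (fun y hy => ((smap_evm h hg).comp (smap_sl K)).diff hy)
        (fun y hy => hg.diff hy) fun y hy => evm_sl h hg hy
    have := e1.sub (Eqv.refl (F.pull g θ))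
    rwa [sub_self] at this
  have := h1.add (Eqv.refl (th (F.pull g θ)))
  rwa [sub_add_cancel, zero_add] at this

theorem lf_orb (h : Act X φ) (hf : Fam D.S X fc) (hg : SMap K X g) :
    LF D.S K (fun y t => fc (φ t (g y))) where
  smooth := fun y hy t => ContDiffAt.comp (g := fc) (f := fun q : E' × ℝ => φ q.2 (g q.1)) (y, t)
    (hf.smooth _ (h.maps t (hg.maps hy))) (smooth_orb h hg hy t)
  per := fun y hy t => by rw [h.add t (2 * π) _ (hg.maps hy), h.per _ (hg.maps hy)]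
  mem := fun y hy t => hf.maps _ (h.maps t (hg.maps hy))

/-- **comparison**: the relative form of a family over a circle action, pulled back by any map, is
the relative form of the orbit loops -/
theorem ED.isRel_of_cir (hD : D.OK) (h : Cir X φ) (hX : Sub m X) (hθ : Cn X φ θ)
    (hf : Fam D.S X fc) (hc : ∀ x ∈ X, ContDiffAt ℝ ∞ c x)
    (hci : ∀ x ∈ X, ∀ t, c (φ t x) = c x) (hE : ∀ x ∈ X, 0 < c x → En (oc φ fc x) ≤ D.B)
    (hη : D.IsEta (Up X c) φ θ fc η) (hK : Sub m' K) (hg : SMap K X g) :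
    D.IsRel K (F.pull g θ) (fun y t => fc (φ t (g y))) (fun y => c (g y))
      (F.pull g (D.rel φ θ fc c η)) := by
  have hA := Act.of_cir h
  have hl := lf_orb hA hf hg
  have hck : ∀ y ∈ K, ContDiffAt ℝ ∞ (fun y => c (g y)) y := fun y hy =>
    (hc _ (hg.maps hy)).comp y (hg.smooth y hy)
  obtain ⟨Om, hO⟩ := ED.exists_rel hD hK (hθ.sm.pull hg) hθ.hom.pull hl hck
    fun y hy h0 => hE _ (hg.maps hy) h0
  have hO' := hO
  obtain ⟨h1, ζ, h2, h3⟩ := hO
  have hcm : ∀ z ∈ K ×ˢ Cc, cf (fun y => c (g y)) z = c (evm φ g z) := by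
    rintro ⟨y, u⟩ hz
    obtain ⟨t, rfl⟩ := exists_ex hz.2
    rw [evm_ex hA hg hz.1, hci _ (hg.maps hz.1)]
    rfl
  have e1 := ED.rel_nat hD hA hX hθ hf hc hci hη (act_rot K) (sub_prodC hK)
    (cn_th (hθ.sm.pull hg) hθ.hom.pull) hl.fam (smooth_cf hck) (cf_rot (c := fun y => c (g y))) h2
    (smap_evm hA hg) (fun t z hz => evm_equi hA hg t z hz) (fun z hz => by
      obtain ⟨y, u⟩ := z
      obtain ⟨t, rfl⟩ := exists_ex hz.2
      rw [circ_ex (hl.per y hz.1), evm_ex hA hg hz.1]) (evm_th hA hθ hg) hcm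
  refine hO'.of_eqv ((ED.sm_rel hD hA hX hθ hf hc hη).pull hg) ?_
  refine Eqv.trans (b := F.pull sl (F.pull (evm φ g) (D.rel φ θ fc c η))) ?_
    ((e1.pull (smap_sl K)).trans h3.symm)
  refine Eqv.trans (b := F.pull (fun y => evm φ g (sl y)) (D.rel φ θ fc c η))
    (eqv_pull_of_eq _ (fun y hy => hg.diff hy)
      (fun y hy => ((smap_evm hA hg).comp (smap_sl K)).diff hy)
      fun y hy => (evm_sl hA hg hy).symm) (Eqv.of_eq fun y hy => ?_)
  rw [F.pull_comp ((smap_sl K).diff hy) ((smap_evm hA hg).diff ((smap_sl K).maps hy))]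
  rfl

end cir

/-! ### homotopies -/

section hom
variable {I : Set ℝ} {fh : E × ℝ → ℝ → Euc N} {ch : E × ℝ → ℝ} {Om₀ Om₁ : E → Ext E}

theorem smap_at (hI : I = I) {t : ℝ} (ht : t ∈ I) :
    SMap X (X ×ˢ I) (fun x : E => ((x, t) : E × ℝ)) :=
  ⟨fun _ _ => contDiffAt_id.prodMk contDiffAt_const, fun _ hx => ⟨hx, ht⟩⟩

/-- **homotopy invariance** -/
theorem ED.IsRel.coh (hD : D.OK) (hX : Sub m X) (hα : Sm X α) (hα1 : Hom 1 α) (hI : IsOpen I)
    (h01 : Icc (0 : ℝ) 1 ⊆ I) (hf : LF D.S (X ×ˢ I) fh)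
    (hc : ∀ y ∈ X ×ˢ I, ContDiffAt ℝ ∞ ch y) (hE : ∀ y ∈ X ×ˢ I, 0 < ch y → En (fh y) ≤ D.B)
    (h0 : D.IsRel X α (fun y => fh (y, 0)) (fun y => ch (y, 0)) Om₀)
    (h1 : D.IsRel X α (fun y => fh (y, 1)) (fun y => ch (y, 1)) Om₁) : Coh X Om₁ Om₀ := by
  have hXI : Sub (m + 1) (X ×ˢ I) := hX.prod (sub_open (by simp) hI)
  have hfst : SMap (X ×ˢ I) X (fun y : E × ℝ => y.1) :=
    ⟨fun _ _ => contDiffAt_fst, fun _ hy => hy.1⟩
  have hαI := hα.pull hfst
  have hαI1 : Hom 1 (F.pull (fun y : E × ℝ => y.1) α) := hα1.pull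
  obtain ⟨Om, hO⟩ := ED.exists_rel hD hXI hαI hαI1 hf hc hE
  have key : ∀ t ∈ I, ∀ Omt : E → Ext E, D.IsRel X α (fun y => fh (y, t)) (fun y => ch (y, t)) Omt →
      Eqv X (F.pull (fun x : E => ((x, t) : E × ℝ)) Om) Omt := fun t ht Omt hOt => by
    have hg : SMap X (X ×ˢ I) (fun x : E => ((x, t) : E × ℝ)) := smap_at rfl ht
    refine hO.nat hD hXI hαI hαI1 hf hc hX hα hα1 (hf.comp hg.smooth hg.maps)
      (fun y hy => (hc _ (hg.maps hy)).comp y (hg.smooth y hy)) hOt hg (fun _ _ _ => rfl)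
      (fun _ _ => rfl) (Eqv.of_eq fun y hy => ?_)
    rw [F.pull_comp (hg.diff hy) differentiableAt_fst]
    exact F.pull_id α y
  have hc1 := ED.IsRel.cl hD hXI hαI hαI1 hf hc hO
  have h := coh_homotopy (X := X) (Y := X ×ˢ I) (Fh := fun p : E × ℝ => p) (w := Om)
    (fun _ _ _ _ => contDiffAt_id) (fun _ hx _ ht => ⟨hx, h01 ht⟩) hO.1 hc1
  exact (Coh.of_eqv (key 1 (h01 ⟨zero_le_one, le_rfl⟩) _ h1).symm).trans
    (h.trans (Coh.of_eqv (key 0 (h01 ⟨le_rfl, zero_le_one⟩) _ h0)))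

end hom

end main

end Crest.Agent.R208.EX
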