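import Crest.Agent.R208.CM3d
import Crest.Agent.R208.THB4

/-! Row 208, block CM (helper971), part CM3e: curvature forms on the quotient; all of them are
cohomologous to `-(1/2)` times the Euler form of the tautological line. -/

set_option autoImplicit false
set_option linter.unusedSectionVars false
set_option linter.unusedVariables false

open Set Filter Topology Module MeasureTheory
open scoped ContDiff RealInnerProductSpace ComplexConjugate
open Crest.Agent.R208.F Crest.Agent.R208.FI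
open Crest.Agent.R208.CW
open Crest.Agent.R208.T (Sm Cl Eqv Coh eqv_iff Hom mtx wC)

noncomputable section

namespace Crest.Agent.R208.CM

section euler

variable {E : Type*} [NormedAddCommGroup E] [NormedSpace ℝ E] [FiniteDimensional ℝ E]
  {X : Set E} {n ι : Type*} [Fintype n] [DecidableEq n] [Fintype ι] [DecidableEq ι]
  {P : E → EuclideanSpace ℝ n →L[ℝ] EuclideanSpace ℝ n} {W : E → (ι × Fin 2 → n) → ℝ}

theorem sm_eR (h : T.OR X P W) : Sm X (T.eR P W) := fun x hx =>
  (CD_ef ((T.OR.of h).sP x hx) ((T.OR.of h).sW x hx)).re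

theorem cl_eR (h : T.OR X P W) : Cl X (T.eR P W) := fun x hx =>
  congrArg Cx.re (rs_dC_ef (T.OR.of h) hx)

theorem hom_eR (P : E → EuclideanSpace ℝ n →L[ℝ] EuclideanSpace ℝ n)
    (W : E → (ι × Fin 2 → n) → ℝ) : Hom (2 * Fintype.card ι) (T.eR P W) :=
  fun x => (T.degC_ef _ _ x).1

end euler

variable {m : ℕ} {E : Type} [NormedAddCommGroup E] [NormedSpace ℝ E] [FiniteDimensional ℝ E]
  {X : Set E} {φ : ℝ → E → E} {g : E → Fin m → ℂ} {n : ℕ} {al al' : E → Ext E}
  {Fc Fc' : MM m → Ext (MM m)}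

/-- **the curvature form of a connection**, on the quotient -/
structure Curv (X : Set E) (g : E → Fin m → ℂ) (al : E → Ext E) (Fc : MM m → Ext (MM m)) :
    Prop where
  sm : Sm (Quo X g) Fc
  hom : Hom 2 Fc
  cl : Cl (Quo X g) Fc
  pull : Eqv X (F.pull (jj g) Fc) (F.d al)

/-- the difference of two connections is basic -/
theorem Conn.exists_diff (hg : Emb X φ g) (h : Cir X φ) (hX : Clo (n + 1) X)
    (ha : Conn X φ al) (ha' : Conn X φ al') :
    ∃ b : MM m → Ext (MM m), Sm (Quo X g) b ∧ Hom 1 b ∧ Eqv X (F.pull (jj g) b) (al - al') := by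
  obtain ⟨b, h1, h2⟩ := hg.exists_basic h hX (om := al - al') (ha.sm.sub ha'.sm)
    (fun t => by
      rw [T.pull_sub']
      exact (ha.inv t).sub (ha'.inv t))
    (Eqv.of_eq fun x hx => by
      change ii (gen φ x) (al x - al' x) = 0
      rw [map_sub, ha.unit x hx, ha'.unit x hx, sub_self])
  refine ⟨T.dp 1 b, T.Sm.dp 1 fun x _ => h1.contDiffAt, T.hom_dp 1 b, ?_⟩
  rw [← T.dp_pull]
  have h3 := T.Eqv.dp 1 h2
  rwa [(ha.hom.sub ha'.hom).dp_eq] at h3

namespace Emb

/-- the Euler form is (up to the factor) the curvature of the standard connection -/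
theorem curv_th (hg : Emb X φ g) (h : Cir X φ) :
    Curv X g (th g) ((-(1 / 2) : ℝ) • T.eR (PL (m := m)) WL) := by
  refine ⟨(sm_eR hg.or_L).smul _, ?_, (cl_eR hg.or_L).smul _ (sm_eR hg.or_L), ?_⟩
  · exact T.Hom.smul _ (hom_eR (ι := Unit) PL WL)
  · rw [T.pull_smul']
    have h1 := (hg.pull_eR h).smul (-(1 / 2) : ℝ)
    rw [smul_smul] at h1
    have h2 : (-(1 / 2) : ℝ) * -2 = 1 := by norm_num
    rwa [h2, one_smul] at h1

end Emb

/-- **curvature forms exist** -/
theorem Conn.exists_curv (hg : Emb X φ g) (h : Cir X φ) (hX : Clo (n + 1) X)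
    (ha : Conn X φ al) : ∃ Fc : MM m → Ext (MM m), Curv X g al Fc := by
  have h0 := hg.curv_th h
  obtain ⟨b, b1, b2, b3⟩ := ha.exists_diff hg h hX (hg.conn_th h)
  have hs : Sm (Quo X g) ((-(1 / 2) : ℝ) • T.eR (PL (m := m)) WL + F.d b) := h0.sm.add b1.d
  refine ⟨(-(1 / 2) : ℝ) • T.eR (PL (m := m)) WL + F.d b, hs, h0.hom.add b2.d,
    T.Cl.add h0.sm b1.d h0.cl (T.d_d' b1), ?_⟩
  rw [T.pull_add']
  have e1 : Eqv X (F.pull (jj g) (F.d b)) (F.d al - F.d (th g)) :=
    ((T.d_pull_eqv hg.smap_jj b1).symm.trans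
      (Eqv.d hX.sub (b1.pull hg.smap_jj) (ha.sm.sub (hg.conn_th h).sm) b3)).trans
      (T.d_sub_eqv ha.sm (hg.conn_th h).sm)
  have e2 := h0.pull.add e1
  rwa [add_sub_cancel] at e2

/-- **the class of the curvature does not depend on the connection** -/
theorem Curv.coh (hg : Emb X φ g) (h : Cir X φ) (hX : Clo (n + 1) X)
    (ha : Conn X φ al) (ha' : Conn X φ al') (hc : Curv X g al Fc) (hc' : Curv X g al' Fc') :
    Coh (Quo X g) Fc Fc' := by
  obtain ⟨b, b1, b2, b3⟩ := ha.exists_diff hg h hX ha'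
  refine ⟨b, b1, hg.eqv_of_pull h hX ?_⟩
  rw [T.pull_sub']
  have e1 : Eqv X (F.pull (jj g) (F.d b)) (F.d al - F.d al') :=
    ((T.d_pull_eqv hg.smap_jj b1).symm.trans
      (Eqv.d hX.sub (b1.pull hg.smap_jj) (ha.sm.sub ha'.sm) b3)).trans
      (T.d_sub_eqv ha.sm ha'.sm)
  exact (hc.pull.sub hc'.pull).trans e1.symm

/-- **the curvature is `-(1/2)` times the Euler form of the tautological line** -/
theorem Curv.coh_eR (hg : Emb X φ g) (h : Cir X φ) (hX : Clo (n + 1) X)
    (ha : Conn X φ al) (hc : Curv X g al Fc) :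
    Coh (Quo X g) Fc ((-(1 / 2) : ℝ) • T.eR (PL (m := m)) WL) :=
  hc.coh hg h hX ha (hg.conn_th h) (hg.curv_th h)

/-- the contraction of the curvature with the generator vanishes -/
theorem Curv.ii_gen (hg : Emb X φ g) (h : Cir X φ) (hc : Curv X g al Fc) :
    ∀ x ∈ X, ii (gen φ x) (F.pull (jj g) Fc x) = 0 := by
  intro x hx
  rw [F.pull, ii_pb]
  have h1 : ((fderiv ℝ (jj g) x : E →L[ℝ] MM m) : E →ₗ[ℝ] MM m) (gen φ x) = 0 :=
    (hg.ker_jj h hx (h.gen_mem hx)).2 ⟨1, (one_smul ℝ _).symm⟩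
  rw [h1, map_zero, LinearMap.zero_apply, map_zero]

end Crest.Agent.R208.CM
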