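import Crest.Agent.R208.T2b

/-! Row 208, block T (helper316).  T3a: abstract consequences of (B1), (B2): spheres, classes on a
base whose sphere bundle is a sphere, gluing, annuli. -/

set_option autoImplicit false
set_option linter.unusedSectionVars false

open MeasureTheory Set Filter Topology Module
open scoped ContDiff
open Crest.Agent.R208.F Crest.Agent.R208.FI Crest.Agent.R208.CW

noncomputable section

namespace Crest.Agent.R208.T

universe u w

/-! ### generalities -/
section gen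
variable {E : Type u} {F' : Type w} [NormedAddCommGroup E] [NormedSpace ℝ E] [FiniteDimensional ℝ E]
  [NormedAddCommGroup F'] [NormedSpace ℝ F'] [FiniteDimensional ℝ F']
  {X : Set E} {Y : Set F'} {a b e : E → Ext E} {j : ℕ}

/-- closed forms of degree `j` are exact -/
def ExactIn (X : Set E) (j : ℕ) : Prop := ∀ b : E → Ext E, Sm X b → Cl X b → Hom j b → Coh X b 0

theorem ExactIn.transport {f : E → F'} {g : F' → E} (hf : SMap X Y f) (hg : SMap Y X g)
    (hgf : ∀ x ∈ X, g (f x) = x) (h : ExactIn Y j) : ExactIn X j := by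
  intro b hb hc hd
  have h1 := h (F.pull g b) (hb.pull hg) (hc.pull hg hb) hd.pull
  have h2 := h1.pull hf
  rw [pull_zero'] at h2
  refine (Coh.of_eqv ?_).trans h2
  exact ((eqv_pull_pull hf hg (SMap.id X) hgf b).trans (Eqv.of_eq fun x _ => F.pull_id b x)).symm

theorem Eqv.pow (h : Eqv X a b) (i : ℕ) : Eqv X (a ^ i) (b ^ i) := by
  induction i with
  | zero => rw [pow_zero, pow_zero]; exact Eqv.refl _
  | succ i ih => rw [pow_succ, pow_succ]; exact ih.mul h

theorem Sm.pow (h : Sm X a) (i : ℕ) : Sm X (a ^ i) := by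
  induction i with
  | zero => rw [pow_zero]; exact fun _ _ => contDiffAt_const
  | succ i ih => rw [pow_succ]; exact ih.mul h

theorem Cl.pow (hs : Sm X a) (h : Cl X a) (i : ℕ) : Cl X (a ^ i) := by
  induction i with
  | zero => rw [pow_zero]; exact Cl.const _
  | succ i ih => rw [pow_succ]; exact Cl.mul (hs.pow i) hs ih h

theorem isDeg_one {E : Type*} [AddCommGroup E] [Module ℝ E] : IsDeg 0 (1 : Ext E) := by
  intro q hq
  obtain ⟨q, rfl⟩ := Nat.exists_eq_succ_of_ne_zero hq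
  have := evA_succ_algebraMap (E := E) q 1
  rwa [map_one] at this

theorem Hom.pow {r : ℕ} (h : Hom r a) (i : ℕ) : Hom (r * i) (a ^ i) := by
  induction i with
  | zero => rw [pow_zero, mul_zero]; exact fun x => isDeg_one
  | succ i ih => rw [pow_succ, Nat.mul_succ]; exact ih.mul h

theorem pull_pow' (f : E → F') (w : F' → Ext F') (i : ℕ) : F.pull f (w ^ i) = F.pull f w ^ i :=
  funext fun x => map_pow (pb _) (w (f x)) i

theorem pull_one' (f : E → F') : F.pull f (1 : F' → Ext F') = 1 := funext fun _ => map_one (pb _)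

theorem Coh.mul_left (hc : Sm X e) (hcc : Cl X e) (h : Coh X a b) : Coh X (e * a) (e * b) := by
  obtain ⟨ξ, h1, h2⟩ := h
  have hi : Sm X (fun x => F.inv (e x)) := hc.inv
  refine ⟨(fun x => F.inv (e x)) * ξ, hi.mul h1, ?_⟩
  rw [← mul_sub]
  refine ((Eqv.refl e).mul h2).trans ((d_mul_eqv hi h1).trans ?_).symm
  have h3 : Eqv X (F.d fun x => F.inv (e x)) 0 := by
    refine eqv_iff.2 fun x hx => ?_
    have h4 : F.d (fun x => F.inv (e x)) x = - F.inv (F.d e x) := by
      have h5 : HasFDerivAt (fun x => F.inv (e x)) ((invL (E := E)).comp (fderiv ℝ e x)) x :=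
        (invL (E := E)).hasFDerivAt.comp x (hc.diff hx).hasFDerivAt
      rw [F.d_of_hasFDerivAt h5, F.d, wd_apply, wd_apply, _root_.map_sum, ← Finset.sum_neg_distrib]
      refine Finset.sum_congr rfl fun i _ => ?_
      rw [map_mul, inv_io, neg_mul, neg_neg]; rfl
    rw [h4, map_neg, pb_inv, hcc x hx]
    simp
  have h6 := (h3.mul (Eqv.refl ξ)).add (Eqv.refl ((fun x => F.inv (F.inv (e x))) * F.d ξ))
  rw [zero_mul, zero_add] at h6
  refine h6.trans (Eqv.of_eq fun x _ => ?_)
  simp only [Pi.mul_apply, F.inv_inv]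

theorem Coh.mul (ha : Sm X a) (hac : Cl X a) {b' a' : E → Ext E} (hb : Sm X b') (hbc : Cl X b')
    (h : Coh X a b) (h' : Coh X a' b') : Coh X (a * a') (b * b') :=
  (Coh.mul_left ha hac h').trans (Coh.mul_right hb hbc h)

/-- on a point every form of positive degree vanishes -/
theorem eqv_point {p : E} (hj : 1 ≤ j) (hb : Hom j b) (hS : Sub 0 ({p} : Set E)) :
    Eqv ({p} : Set E) b 0 := by
  refine eqv_iff.2 fun x hx => ?_
  have h1 : IsDeg j (pb (Tan {p} x).subtype (b x)) := (hb x).pb _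
  have h2 : finrank ℝ (Tan {p} x) = 0 := hS.finrank_Tan hx
  rw [h1.eq_zero (by omega)]
  simp

theorem sub_point (p : E) : Sub 0 ({p} : Set E) := by
  intro x hx
  refine ⟨fun _ => p, univ, ⟨isOpen_univ, contDiff_const.contDiffOn, ?_, ?_, ?_⟩, ⟨0, mem_univ _, ?_⟩⟩
  · intro a _ b _ _; exact Subsingleton.elim a b
  · intro u _ a b _; exact Subsingleton.elim a b
  · intro W _ hWo
    rcases W.eq_empty_or_nonempty with rfl | ⟨w, hw⟩
    · exact ⟨∅, isOpen_empty, by simp⟩
    · refine ⟨univ, isOpen_univ, ?_⟩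
      ext y
      constructor
      · rintro ⟨v, _, rfl⟩; exact ⟨rfl, mem_univ _⟩
      · rintro ⟨hy, _⟩; exact ⟨w, hw, hy.symm⟩
  · exact hx.symm

end gen

/-! ### the two lemmas as properties -/
section props
variable {E : Type u} {H : Type w} [NormedAddCommGroup E] [NormedSpace ℝ E] [FiniteDimensional ℝ E]
  [NormedAddCommGroup H] [InnerProductSpace ℝ H] [FiniteDimensional ℝ H]
  {X : Set E} {P : E → H →L[ℝ] H} {r d : ℕ} {e : E → Ext E}

/-- (B1) -/
def PB1 (X : Set E) (P : E → H →L[ℝ] H) (r : ℕ) : Prop :=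
  ∀ (j : ℕ) (b : E × H → Ext (E × H)), j + 1 < r → Sm (Sph X P) b → Cl (Sph X P) b → Hom j b →
    ∃ c : E → Ext E, Sm X c ∧ Cl X c ∧ Hom j c ∧ Coh (Sph X P) b (F.pull Prod.fst c)

/-- (B2) -/
structure PB2 (X : Set E) (P : E → H →L[ℝ] H) (r : ℕ) (e : E → Ext E) : Prop where
  high : ∀ (j : ℕ) (b : E → Ext E), Sm X b → Cl X b → Hom (j + r) b →
    Coh (Sph X P) (F.pull Prod.fst b) 0 →
    ∃ c : E → Ext E, Sm X c ∧ Cl X c ∧ Hom j c ∧ Coh X b (c * e)
  low : ∀ (j : ℕ) (b : E → Ext E), Sm X b → Cl X b → Hom j b → j < r →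
    Coh (Sph X P) (F.pull Prod.fst b) 0 → Coh X b 0

/-- spheres -/
theorem exactIn_sphere {p : E} {P₀ : H →L[ℝ] H} {n : ℕ} (h : PB1 ({p} : Set E) (fun _ => P₀) n)
    {j : ℕ} (hj : 1 ≤ j) (hjn : j + 1 < n) : ExactIn (Sph ({p} : Set E) (fun _ => P₀)) j := by
  intro b hb hc hd
  obtain ⟨c, -, -, h3, h4⟩ := h j b hjn hb hc hd
  refine h4.trans (Coh.of_eqv ?_)
  have := Eqv.pull (smap_fstS (X := ({p} : Set E)) (P := fun _ => P₀)) (eqv_point hj h3 (sub_point p))
  rwa [pull_zero'] at this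

/-- **(B3)** classes on a base whose sphere bundle has no cohomology in degrees `1 ≤ j < D`. -/
theorem base_classes (hX : Sub d X) (hc : IsPreconnected X) (hr : 1 ≤ r) (h2 : PB2 X P r e)
    (he : Sm X e) (hec : Cl X e) {D : ℕ} (hS : ∀ j, 1 ≤ j → j < D → ExactIn (Sph X P) j) :
    ∀ (j : ℕ) (b : E → Ext E), j < D → Sm X b → Cl X b → Hom j b →
      ∃ c : ℝ, (¬ r ∣ j → c = 0) ∧ Coh X b (c • e ^ (j / r)) := by
  intro j
  induction j using Nat.strong_induction_on with
  | _ j ih =>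
  intro b hjD hb hcl hd
  rcases Nat.eq_zero_or_pos j with rfl | hj
  · obtain ⟨c, hc⟩ := const_of_closed hX hc hb hcl hd
    refine ⟨c, fun h => absurd (dvd_zero r) h, Coh.of_eqv (Eqv.of_eq fun x hx => ?_)⟩
    rw [hc x hx, Nat.zero_div, pow_zero, Pi.smul_apply, Pi.one_apply, Algebra.algebraMap_eq_smul_one]
  have h0 : Coh (Sph X P) (F.pull Prod.fst b) 0 :=
    hS j hj hjD _ (hb.pull smap_fstS) (hcl.pull smap_fstS hb) hd.pull
  rcases lt_or_ge j r with hlt | hge
  · refine ⟨0, fun _ => rfl, ?_⟩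
    rw [zero_smul]
    exact h2.low j b hb hcl hd hlt h0
  · obtain ⟨i, rfl⟩ := Nat.exists_eq_add_of_le' hge
    obtain ⟨c', k1, k2, k3, k4⟩ := h2.high i b hb hcl hd h0
    obtain ⟨c, k5, k6⟩ := ih i (by omega) c' (by omega) k1 k2 k3
    refine ⟨c, fun h => k5 fun h' => h (h'.add (dvd_refl r)), k4.trans ?_⟩
    have := Coh.mul_right he hec k6
    rwa [smul_mul_assoc, ← pow_succ, ← Nat.add_div_right i (by omega : 0 < r)] at this

end props

end Crest.Agent.R208.T
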