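import Crest.Agent.R208.HW1
import Crest.Agent.R208.CM3e
import Crest.Agent.R208.T3a

/-!
R208, block HW (helper664), part 2: the map `pi' : B' → B`, the half connection `θ' = θ/2`, the
standard connection `b0` of `S^{2k+1}`, and their curvatures.
-/

set_option autoImplicit false
set_option linter.unusedSectionVars false
set_option linter.unusedVariables false

open Set Filter Topology Module
open scoped ContDiff RealInnerProductSpace
open Crest.Agent.R208.F Crest.Agent.R208.FI Crest.Agent.R208.T Crest.Agent.R208.CM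
open Crest.Agent.R208.CW (SMap)

noncomputable section

namespace Crest.Agent.R208.HW

variable {k : ℕ} {E : Type} [NormedAddCommGroup E] [NormedSpace ℝ E] [FiniteDimensional ℝ E]
  {X : Set E} {φ : ℝ → E → E} {n m m' : ℕ} {g : E → Fin m → ℂ} {g' : E × U k → Fin m' → ℂ}
  {p : MM m' → MM m}

theorem clo_XX' (hX : Clo (n + 1) X) : Clo (n + (2 * k + 1) + 1) (XX X k) := by
  have h := clo_XX (k := k) hX
  have e : n + 1 + (2 * k + 1) = n + (2 * k + 1) + 1 := by omega
  rwa [e] at h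

/-- The data of the half-weight construction: `X → B = Quo X g`, `X' = XX X k → B' = Quo X' g'` and
`p : B' → B`. -/
structure HD (n k : ℕ) (X : Set E) (φ : ℝ → E → E) {m m' : ℕ} (g : E → Fin m → ℂ)
    (g' : E × U k → Fin m' → ℂ) (p : MM m' → MM m) : Prop where
  clo : Clo (n + 1) X
  cir : Cir X φ
  emb : Emb X φ g
  emb' : Emb (XX X k) (ph k φ) g'
  smooth : ContDiff ℝ ∞ p
  eq : ∀ z ∈ XX X k, p (jj g' z) = jj g z.1

theorem exists_HD' (h : Cir X φ) (hg : Emb X φ g) (hX : Clo (n + 1) X)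
    (hg' : Emb (XX X k) (ph k φ) g') : ∃ p : MM m' → MM m, HD n k X φ g g' p := by
  have h1 : ∀ z ∈ XX X k, ContDiffAt ℝ ∞ (fun z : E × U k => jj g z.1) z := fun z hz =>
    (hg.contDiffAt_jj (mem_XX.1 hz).1).comp z contDiffAt_fst
  obtain ⟨p, hp, hp'⟩ := hg'.exists_desc (cir_XX h) (clo_XX' hX) h1 (fun z hz t => by
    show jj g (φ (2 * t) z.1) = jj g z.1
    exact hg.jj_act (mem_XX.1 hz).1 _)
  exact ⟨p, hX, h, hg, hg', hp, hp'⟩

/-- **existence of the half-weight data** -/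
theorem exists_HD (k : ℕ) (h : Cir X φ) (hg : Emb X φ g) (hX : Clo (n + 1) X) :
    ∃ (m' : ℕ) (g' : E × U k → Fin m' → ℂ) (p : MM m' → MM m), HD n k X φ g g' p := by
  obtain ⟨m', g', hg'⟩ := exists_emb (cir_XX (k := k) h) (clo_XX' hX)
  obtain ⟨p, hp⟩ := exists_HD' h hg hX hg'
  exact ⟨m', g', p, hp⟩

theorem smap_fst : SMap (XX X k) X (Prod.fst : E × U k → E) :=
  ⟨fun z _ => contDiffAt_fst, fun z hz => (mem_XX.1 hz).1⟩

theorem smap_snd : SMap (XX X k) (SU k) (Prod.snd : E × U k → U k) :=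
  ⟨fun z _ => contDiffAt_snd, fun z hz => (mem_XX.1 hz).2⟩

theorem smap_ph (h : Cir X φ) (t : ℝ) : SMap (XX X k) (XX X k) (ph k φ t) :=
  ⟨fun z hz => (cir_XX h).smooth_right t hz, (cir_XX h).maps t⟩

namespace HD

variable (H : HD n k X φ g g' p)
include H

theorem cir' : Cir (XX X k) (ph k φ) := cir_XX H.cir

theorem clo' : Clo (n + (2 * k + 1) + 1) (XX X k) := clo_XX' H.clo

theorem cloB : Clo n (Quo X g) := H.emb.clo_Quo H.cir H.clo

theorem cloB' : Clo (n + (2 * k + 1)) (Quo (XX X k) g') := H.emb'.clo_Quo H.cir' H.clo'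

theorem smap : SMap (Quo (XX X k) g') (Quo X g) p :=
  ⟨fun z _ => H.smooth.contDiffAt, by
    rintro _ ⟨z, hz, rfl⟩
    rw [H.eq z hz]
    exact jj_mem (mem_XX.1 hz).1⟩

theorem smap_jj' : SMap (XX X k) (Quo (XX X k) g') (jj g') := H.emb'.smap_jj

theorem smap_jj : SMap X (Quo X g) (jj g) := H.emb.smap_jj

theorem surj : ∀ b ∈ Quo X g, ∃ b' ∈ Quo (XX X k) g', p b' = b := by
  rintro _ ⟨x, hx, rfl⟩
  obtain ⟨u, hu⟩ := SU_nonempty (k := k)
  have hz : (x, u) ∈ XX X k := mem_XX.2 ⟨hx, hu⟩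
  exact ⟨_, jj_mem hz, H.eq _ hz⟩

/-- **naturality**: `jj'^* p^* a = pr_1^* jj^* a` on `X'`. -/
theorem pull_pull (a : MM m → Ext (MM m)) :
    Eqv (XX X k) (pull (jj g') (pull p a)) (pull Prod.fst (pull (jj g) a)) := by
  have h1 : Eqv (XX X k) (pull (jj g') (pull p a)) (pull (p ∘ jj g') a) :=
    Eqv.of_eq fun z hz => pull_comp (H.smap_jj'.diff hz) ((H.smooth.differentiable (by simp)) _)
  have h2 : Eqv (XX X k) (pull Prod.fst (pull (jj g) a)) (pull (jj g ∘ Prod.fst) a) :=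
    Eqv.of_eq fun z hz => pull_comp differentiableAt_fst (H.smap_jj.diff (mem_XX.1 hz).1)
  have h3 : Eqv (XX X k) (pull (p ∘ jj g') a) (pull (jj g ∘ Prod.fst) a) :=
    eqv_pull_of_eq a
      (fun z hz => ((H.smooth.differentiable (by simp)) _).comp z (H.smap_jj'.diff hz))
      (fun z hz => (H.smap_jj.diff (mem_XX.1 hz).1).comp z differentiableAt_fst)
      (fun z hz => H.eq z hz)
  exact h1.trans (h3.trans h2.symm)

end HD

/-! ### connections -/

/-- the half connection on `X'` -/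
def th (k : ℕ) (θ : E → Ext E) : E × U k → Ext (E × U k) := (1 / 2 : ℝ) • pull Prod.fst θ

theorem th_apply (θ : E → Ext E) (z : E × U k) :
    th k θ z = (1 / 2 : ℝ) • pb ((fderiv ℝ Prod.fst z : (E × U k) →L[ℝ] E) : (E × U k) →ₗ[ℝ] E)
      (θ z.1) := rfl

theorem fderiv_fst' (z : E × U k) :
    fderiv ℝ (Prod.fst : E × U k → E) z = ContinuousLinearMap.fst ℝ E (U k) := fderiv_fst

theorem conn_th (h : Cir X φ) {θ : E → Ext E} (hθ : Conn X φ θ) :
    Conn (XX X k) (ph k φ) (th k θ) where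
  sm := (hθ.sm.pull smap_fst).smul _
  hom := (hθ.hom.pull).smul _
  unit := fun z hz => by
    rw [th_apply, map_smul, ii_pb, gen_ph h hz, fderiv_fst']
    have e1 : ((ContinuousLinearMap.fst ℝ E (U k) : (E × U k) →L[ℝ] E) : (E × U k) →ₗ[ℝ] E)
        ((2 : ℝ) • gen φ z.1, JJ k z.2) = (2 : ℝ) • gen φ z.1 := rfl
    rw [e1, map_smul, LinearMap.smul_apply, hθ.unit _ (mem_XX.1 hz).1, map_smul, map_one, smul_smul]
    norm_num
  inv := fun t => by
    unfold th
    rw [pull_smul']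
    refine Eqv.smul _ ?_
    have h1 : Eqv (XX X k) (pull (ph k φ t) (pull Prod.fst θ))
        (pull (Prod.fst ∘ ph k φ t) θ) :=
      Eqv.of_eq fun z hz => pull_comp ((smap_ph h t).diff hz) differentiableAt_fst
    have h2 : (Prod.fst ∘ ph k φ t : E × U k → E) = φ (2 * t) ∘ Prod.fst := rfl
    have h3 : Eqv (XX X k) (pull Prod.fst (pull (φ (2 * t)) θ))
        (pull (φ (2 * t) ∘ Prod.fst) θ) :=
      Eqv.of_eq fun z hz => pull_comp differentiableAt_fst
        ((h.smooth_right _ (mem_XX.1 hz).1).differentiableAt (by simp))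
    rw [h2] at h1
    exact h1.trans (h3.symm.trans ((hθ.inv (2 * t)).pull smap_fst))

theorem d_th {θ : E → Ext E} (hθ : Sm X θ) :
    Eqv (XX X k) (F.d (th k θ)) ((1 / 2 : ℝ) • pull Prod.fst (F.d θ)) :=
  (d_smul_eqv _ (hθ.pull smap_fst)).trans ((d_pull_eqv smap_fst hθ).smul _)

/-- **the curvature forms**: `p^* e = 2 e'`. -/
theorem HD.pull_e (H : HD n k X φ g g' p) {θ : E → Ext E} (hθ : Sm X θ)
    {eB : MM m → Ext (MM m)} {eB' : MM m' → Ext (MM m')} (he : Eqv X (pull (jj g) eB) (F.d θ))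
    (he' : Eqv (XX X k) (pull (jj g') eB') (F.d (th k θ))) :
    Eqv (Quo (XX X k) g') (pull p eB) ((2 : ℝ) • eB') := by
  refine H.emb'.eqv_of_pull H.cir' H.clo' ?_
  rw [pull_smul']
  refine (H.pull_pull eB).trans ((he.pull smap_fst).trans ?_)
  have h1 := (he'.trans (d_th (k := k) hθ)).smul 2
  rw [smul_smul] at h1
  norm_num at h1
  exact h1.symm

/-- **existence of the curvature forms** `e` on `B`, `e'` on `B'`, and `p^* e = 2 e'` -/
theorem HD.exists_curv (H : HD n k X φ g g' p) {θ : E → Ext E} (hθ : Conn X φ θ) :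
    ∃ (eB : MM m → Ext (MM m)) (eB' : MM m' → Ext (MM m')), Curv X g θ eB ∧
      Curv (XX X k) g' (th k θ) eB' ∧ Eqv (Quo (XX X k) g') (pull p eB) ((2 : ℝ) • eB') := by
  obtain ⟨eB, h1⟩ := hθ.exists_curv H.emb H.cir H.clo
  obtain ⟨eB', h2⟩ := (conn_th (k := k) H.cir hθ).exists_curv H.emb' H.cir' H.clo'
  exact ⟨eB, eB', h1, h2, H.pull_e hθ.sm h1.pull h2.pull⟩

/-! ### the standard connection on the sphere -/

/-- `β_0(v) = ⟪J u, v⟫` as a linear map in `u` -/
def b0L (k : ℕ) : U k →ₗ[ℝ] Module.Dual ℝ (U k) where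
  toFun u := (innerSL ℝ (JJ k u) : U k →L[ℝ] ℝ)
  map_add' x y := by ext v; simp
  map_smul' r x := by ext v; simp

theorem b0L_apply (u v : U k) : b0L k u v = ⟪JJ k u, v⟫ := rfl

/-- the standard connection form on `S^{2k+1}` -/
def b0 (k : ℕ) (u : U k) : Ext (U k) := io (b0L k u)

/-- the differential of a linear family of covectors -/
theorem ii_wd_io {V : Type*} [NormedAddCommGroup V] [NormedSpace ℝ V] [FiniteDimensional ℝ V]
    (L : V →ₗ[ℝ] Module.Dual ℝ V) (v : V) :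
    ii v (wd V (LinearMap.toContinuousLinearMap (io ∘ₗ L))) = io (L v - L.flip v) := by
  set b := finBasis ℝ V
  rw [wd_basis b, map_sum]
  have h1 : ∀ i, ii v (io (b.coord i) * (LinearMap.toContinuousLinearMap (io ∘ₗ L)) (b i)) =
      io (b.coord i v • L (b i)) - io (L (b i) v • b.coord i) := fun i => by
    have e : (LinearMap.toContinuousLinearMap (io ∘ₗ L)) (b i) = io (L (b i)) := rfl
    rw [e, ii_io_mul, ii_io, map_smul, map_smul, ← Algebra.commutes, ← Algebra.smul_def]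
  simp only [h1]
  rw [Finset.sum_sub_distrib, ← map_sum, ← map_sum, map_sub]
  congr 2
  · have h2 : ∑ i, b.coord i v • L (b i) = L (∑ i, b.coord i v • b i) := by
      rw [map_sum]; simp only [map_smul]
    rw [h2]
    congr 1
    simp only [Basis.coord_apply]
    exact b.sum_repr v
  · exact coord_sum b (L.flip v)

theorem inv_wd_io {V : Type*} [NormedAddCommGroup V] [NormedSpace ℝ V] [FiniteDimensional ℝ V]
    (L : V →ₗ[ℝ] Module.Dual ℝ V) :
    F.inv (wd V (LinearMap.toContinuousLinearMap (io ∘ₗ L))) =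
      wd V (LinearMap.toContinuousLinearMap (io ∘ₗ L)) := by
  rw [wd_apply, map_sum]
  refine Finset.sum_congr rfl fun i _ => ?_
  have e : (LinearMap.toContinuousLinearMap (io ∘ₗ L)) (finBasis ℝ V i) = io (L (finBasis ℝ V i)) :=
    rfl
  rw [e, map_mul, inv_io, inv_io, neg_mul_neg]

/-- the differential of `b0`, a constant form -/
def kp2 (k : ℕ) : Ext (U k) := wd (U k) (LinearMap.toContinuousLinearMap (io ∘ₗ b0L k))

theorem hasFDerivAt_b0 (u : U k) :
    HasFDerivAt (b0 k) (LinearMap.toContinuousLinearMap (io ∘ₗ b0L k)) u :=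
  (LinearMap.toContinuousLinearMap (io ∘ₗ b0L k)).hasFDerivAt

theorem contDiff_b0 {j : WithTop ℕ∞} : ContDiff ℝ j (b0 k) :=
  (LinearMap.toContinuousLinearMap (io ∘ₗ b0L k)).contDiff

theorem d_b0 : F.d (b0 k) = fun _ => kp2 k := funext fun u => d_of_hasFDerivAt (hasFDerivAt_b0 u)

theorem inv_kp2 : F.inv (kp2 k) = kp2 k := inv_wd_io _

theorem ii_kp2 (v : U k) : ii v (kp2 k) = io ((2 : ℝ) • b0L k v) := by
  rw [kp2, ii_wd_io]
  congr 1
  ext w
  show ⟪JJ k v, w⟫ - ⟪JJ k w, v⟫ = 2 * ⟪JJ k v, w⟫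
  rw [inner_JJ_left w v, real_inner_comm]
  ring

theorem hom_b0 : Hom 1 (b0 k) := fun u => by
  have := IsDeg.iMulti (E := U k) (p := 1) (fun _ => b0L k u)
  have e : (ExteriorAlgebra.ιMulti ℝ 1 fun _ : Fin 1 => b0L k u) = io (b0L k u) := by
    simp [ExteriorAlgebra.ιMulti_apply]
  rw [e] at this
  exact this

theorem isDeg_kp2 : IsDeg 2 (kp2 k) := by
  have := (hom_b0 (k := k)).d
  rw [d_b0] at this
  exact this 0

theorem sm_b0 : Sm (SU k) (b0 k) := fun u _ => contDiff_b0.contDiffAt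

/-- the standard circle action on the sphere -/
theorem rot_b0 : ∀ t, pull (fun u => rt k t u) (b0 k) = b0 k := fun t => by
  funext u
  have h1 : fderiv ℝ (fun u => rt k t u) u = rt k t := (rt k t).fderiv
  show pb ((fderiv ℝ (fun u => rt k t u) u : U k →L[ℝ] U k) : U k →ₗ[ℝ] U k) (io _) = io _
  rw [h1, pb_io]
  congr 1
  ext v
  show ⟪JJ k (rt k t u), rt k t v⟫ = ⟪JJ k u, v⟫
  rw [← rt_JJ, inner_rt]

/-- the second connection of `X'` -/
def bb (E : Type) [NormedAddCommGroup E] [NormedSpace ℝ E] [FiniteDimensional ℝ E] (k : ℕ) :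
    E × U k → Ext (E × U k) := pull Prod.snd (b0 k)

theorem bb_apply (z : E × U k) :
    bb E k z = pb ((fderiv ℝ Prod.snd z : (E × U k) →L[ℝ] U k) : (E × U k) →ₗ[ℝ] U k)
      (io (b0L k z.2)) := rfl

theorem conn_bb (h : Cir X φ) : Conn (XX X k) (ph k φ) (bb E k) where
  sm := sm_b0.pull smap_snd
  hom := hom_b0.pull
  unit := fun z hz => by
    rw [bb_apply, ii_pb, gen_ph h hz, fderiv_snd]
    have e1 : ((ContinuousLinearMap.snd ℝ E (U k) : (E × U k) →L[ℝ] U k) : (E × U k) →ₗ[ℝ] U k)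
        ((2 : ℝ) • gen φ z.1, JJ k z.2) = JJ k z.2 := rfl
    rw [e1, ii_io, b0L_apply, real_inner_self_eq_norm_sq, norm_JJ, (mem_XX.1 hz).2]
    simp
  inv := fun t => by
    unfold bb
    have h1 : Eqv (XX X k) (pull (ph k φ t) (pull Prod.snd (b0 k)))
        (pull (Prod.snd ∘ ph k φ t) (b0 k)) :=
      Eqv.of_eq fun z hz => pull_comp ((smap_ph h t).diff hz) differentiableAt_snd
    have h2 : (Prod.snd ∘ ph k φ t : E × U k → U k) = (fun u => rt k t u) ∘ Prod.snd := rfl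
    have h3 : Eqv (XX X k) (pull Prod.snd (pull (fun u => rt k t u) (b0 k)))
        (pull ((fun u => rt k t u) ∘ Prod.snd) (b0 k)) :=
      Eqv.of_eq fun z hz => pull_comp differentiableAt_snd (rt k t).differentiableAt
    rw [h2] at h1
    refine h1.trans (h3.symm.trans ?_)
    rw [rot_b0]
    exact Eqv.refl _

theorem d_bb : Eqv (XX X k) (F.d (bb E k)) (pull Prod.snd (fun _ => kp2 k)) := by
  have := d_pull_eqv (smap_snd (X := X) (k := k)) sm_b0
  rw [d_b0] at this
  exact this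

end Crest.Agent.R208.HW
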