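import Crest.Agent.R208.FT3
import Crest.Agent.R208.HW2

/-!
R208, (8,2), block F2 (helper336), part FT4: the level two family over any `X` with an equivariant
map to `US G` (doubled flow), for example `X' = US G × S^31`.
-/

set_option autoImplicit false
set_option linter.unusedSectionVars false
set_option linter.unusedVariables false

open Set Filter Topology MeasureTheory
open scoped ContDiff RealInnerProductSpace Real
open Crest.GeometryTopology.Submanifold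
open Crest.Agent.R241.DDefs Crest.Agent.R241.D Crest.Agent.R241.D2

noncomputable section

namespace Crest.Agent.R208.FT

open Crest.Agent.R208.SV Crest.Agent.R208.MS Crest.Agent.R208.NN Crest.Agent.R208.FL
open Crest.Agent.R208.CM (Cir Rep phR gf)

variable {n N K k : ℕ} {κ : ℝ} {S : Set (Euc N)} {G : Geo n N κ S} {lg : Euc N → Euc N → Euc N}
  {ρ : Euc N → Euc N} {r C r' Kr B w δ : ℝ} {PN : Euc N × Euc N → Wt N K →L[ℝ] Wt N K}
  {H₂ : Type} [NormedAddCommGroup H₂] [InnerProductSpace ℝ H₂] [FiniteDimensional ℝ H₂]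
  {P₂ : Euc N × Euc N → H₂ →L[ℝ] H₂} {Rr : ℝ → H₂ →L[ℝ] H₂}
  {xi0 : Euc N × Euc N → H₂ →L[ℝ] Euc N} {δ₂ : ℝ} {ε ε₂ E₀ η : ℝ} {J : ℕ}
  {E : Type} [NormedAddCommGroup E] [NormedSpace ℝ E] [FiniteDimensional ℝ E]
  {X : Set E} {φ : ℝ → E → E} {pi0 : E → Euc N × Euc N}

/-- `4π`-periodicity of the rotation -/
theorem XI.four (h : XI G P₂ Rr xi0 δ₂) (ν : H₂) : Rr (2 * (2 * π)) ν = ν := by
  rw [show 2 * (2 * π) = 2 * π + 2 * π by ring, h.add, h.anti, h.anti, neg_neg]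

/-- the rotation in phase time -/
theorem XI.rep (h : XI G P₂ Rr xi0 δ₂) : Rep (fun t => Rr (2 * t)) where
  smooth := h.smR.comp (contDiff_const.mul contDiff_id)
  zero ν := by rw [mul_zero]; exact h.zero ν
  add s t ν := by rw [mul_add]; exact h.add _ _ ν
  per ν := h.four ν
  iso t ν := h.iso _ ν

theorem rep_two : Rep (fun t => (Rt (nuP K) (2 * t) : Wt N K →L[ℝ] Wt N K)) where
  smooth := (rep_Rt (N := N) (K := K)).smooth.comp (contDiff_const.mul contDiff_id)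
  zero w := by rw [mul_zero]; exact Rt_zero _ w
  add s t w := by rw [mul_add]; exact Rt_add _ _ _ w
  per w := by
    rw [show 2 * (2 * π) = 2 * π + 2 * π by ring, Rt_add, Rt_per, Rt_per]
  iso t w := norm_Rt _ _ w

/-- an equivariant map to `US G` with the doubled flow -/
structure Eqm (G : Geo n N κ S) (X : Set E) (φ : ℝ → E → E) (pi0 : E → Euc N × Euc N) : Prop where
  smooth : ∀ x ∈ X, ContDiffAt ℝ ∞ pi0 x
  maps : ∀ x ∈ X, pi0 x ∈ L.US G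
  eq : ∀ x ∈ X, ∀ t, pi0 (φ t x) = fl G (pi0 x, 2 * t)

/-- forget down to `US G` -/
def Fg (pi0 : E → Euc N × Euc N) (p : (E × H₂) × Wt N K) : ((Euc N × Euc N) × H₂) × Wt N K :=
  ((pi0 p.1.1, p.1.2), p.2)

/-- the level two family over `X` -/
def f2x (G : Geo n N κ S) (lg : Euc N → Euc N → Euc N) (ρ : Euc N → Euc N) (w : ℝ) (J : ℕ)
    (xi0 : Euc N × Euc N → H₂ →L[ℝ] Euc N) (ε ε₂ : ℝ) (pi0 : E → Euc N × Euc N)
    (p : (E × H₂) × Wt N K) : Euc N := f2 G lg ρ w J xi0 ε ε₂ (Fg pi0 p)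

/-- the action on the total space -/
abbrev P2x (φ : ℝ → E → E) (N K : ℕ) (Rr : ℝ → H₂ →L[ℝ] H₂) : ℝ → (E × H₂) × Wt N K →
    (E × H₂) × Wt N K := phR (phR φ fun t => Rr (2 * t)) fun t => Rt (nuP K) (2 * t)

/-- the total space -/
abbrev TX (X : Set E) (pi0 : E → Euc N × Euc N)
    (P₂ : Euc N × Euc N → H₂ →L[ℝ] H₂) (PN : Euc N × Euc N → Wt N K →L[ℝ] Wt N K) :
    Set ((E × H₂) × Wt N K) := TP.TT X (fun x => P₂ (pi0 x)) (fun x => PN (pi0 x))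

theorem Eqm.Fg_mem (hm : Eqm G X φ pi0) {p : (E × H₂) × Wt N K} (hp : p ∈ TX X pi0 P₂ PN) :
    Fg pi0 p ∈ TP.TT (L.US G) P₂ PN := ⟨⟨hm.maps _ hp.1.1, hp.1.2⟩, hp.2⟩

theorem Eqm.Fg_P2x (hm : Eqm G X φ pi0) {p : (E × H₂) × Wt N K} (hp : p.1.1 ∈ X) (t : ℝ) :
    Fg pi0 (P2x φ N K Rr t p) = Ph2 G K Rr t (Fg pi0 p) := by
  unfold Fg Ph2
  exact Prod.ext (Prod.ext (hm.eq _ hp t) rfl) rfl

/-- cut-off for the natural primitive: `0` for `‖a‖² + ‖b‖² ≤ 1/4`, `1` for `≥ 1/2` -/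
def c2 (p : (E × H₂) × Wt N K) : ℝ := ct (1 / 4) (‖p.2‖ ^ 2 + ‖p.1.2‖ ^ 2)

theorem contDiff_c2 : ContDiff ℝ ∞ (c2 : (E × H₂) × Wt N K → ℝ) :=
  (contDiff_ct _).comp (((contDiff_norm_sq ℝ).comp contDiff_snd).add
    ((contDiff_norm_sq ℝ).comp (contDiff_snd.comp contDiff_fst)))

namespace D2

variable (h : D2 G k K lg ρ r C r' Kr B w δ PN ε J E₀ η P₂ Rr xi0 δ₂ ε₂)

include h

theorem cir_TX (hφ : Cir X φ) (hm : Eqm G X φ pi0) :
    Cir (TX X pi0 P₂ PN) (P2x φ N K Rr) := by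
  have h1 : Cir (FI.Tot X fun x => P₂ (pi0 x)) (phR φ fun t => Rr (2 * t)) :=
    hφ.tot h.xi.rep fun x hx t ν => by
      rw [hm.eq x hx]
      exact h.xi.equi _ (hm.maps x hx) _ _
  exact h1.tot rep_two fun x hx t v => by
    change PN (pi0 (φ t x.1)) _ = _
    rw [hm.eq x.1 hx.1]
    exact h.neg.equi _ (hm.maps x.1 hx.1) _ _

theorem fam_f2x (hm : Eqm G X φ pi0) :
    Fam S (TX X pi0 P₂ PN) (f2x G lg ρ w J xi0 ε ε₂ pi0) := by
  refine ⟨fun p hp => ?_, fun p hp => h.f2_mem (hm.Fg_mem hp)⟩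
  have h1 : ContDiffAt ℝ ∞ (Fg (H₂ := H₂) (K := K) pi0) p := by
    have h2 : ContDiffAt ℝ ∞ (fun p : (E × H₂) × Wt N K => pi0 p.1.1) p :=
      ContDiffAt.comp (g := pi0) p (hm.smooth _ hp.1.1) (by fun_prop)
    unfold Fg
    exact (h2.prodMk (by fun_prop)).prodMk contDiffAt_snd
  exact ContDiffAt.comp (g := f2 G lg ρ w J xi0 ε ε₂) p (h.contDiffAt_f2 (hm.Fg_mem hp)) h1

theorem oc_f2x (hm : Eqm G X φ pi0) {p : (E × H₂) × Wt N K} (hp : p ∈ TX X pi0 P₂ PN) :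
    oc (P2x φ N K Rr) (f2x G lg ρ w J xi0 ε ε₂ pi0) p =
      fun t => f2 G lg ρ w J xi0 ε ε₂ (Ph2 G K Rr t (Fg pi0 p)) := by
  funext t
  unfold oc f2x
  rw [hm.Fg_P2x hp.1.1]

theorem c2_inv (t : ℝ) (p : (E × H₂) × Wt N K) : c2 (P2x φ N K Rr t p) = c2 p := by
  unfold c2
  change ct (1 / 4) (‖Rt (nuP K) (2 * t) p.2‖ ^ 2 + ‖Rr (2 * t) p.1.2‖ ^ 2) = _
  rw [norm_Rt, h.xi.iso]

/-- constant loops for `‖a‖² ≥ 5/4` -/
theorem f2x_const (hm : Eqm G X φ pi0) {p : (E × H₂) × Wt N K} (hp : p ∈ TX X pi0 P₂ PN)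
    (h1 : 5 / 4 ≤ ‖p.2‖ ^ 2) (t : ℝ) : f2x G lg ρ w J xi0 ε ε₂ pi0 (P2x φ N K Rr t p) =
      f2x G lg ρ w J xi0 ε ε₂ pi0 p := by
  unfold f2x
  rw [hm.Fg_P2x hp.1.1]
  exact h.f2_const (hm.Fg_mem hp) h1 t

/-- **energies**: there is a level `B₂ < 4π` bounding all orbit energies where `c2 > 0` -/
theorem exists_level : ∃ B₂ < 4 * π, ∀ (E : Type) (_ : NormedAddCommGroup E) (_ : NormedSpace ℝ E)
    (_ : FiniteDimensional ℝ E) (X : Set E) (φ : ℝ → E → E) (pi0 : E → Euc N × Euc N),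
    Eqm G X φ pi0 → ∀ p ∈ TX X pi0 P₂ PN, 0 < c2 p →
      En (oc (P2x φ N K Rr) (f2x G lg ρ w J xi0 ε ε₂ pi0) p) ≤ B₂ := by
  obtain ⟨δ', hδ', hE⟩ := h.exists_En_le
  refine ⟨4 * π - δ' / 4, by linarith, fun E _ _ _ X φ pi0 hm p hp hc => ?_⟩
  rw [h.oc_f2x hm hp]
  refine (hE _ (hm.Fg_mem hp)).trans ?_
  have h1 : 1 / 4 < ‖p.2‖ ^ 2 + ‖p.1.2‖ ^ 2 := by
    by_contra h2
    unfold c2 at hc
    rw [ct_zero (not_lt.1 h2)] at hc
    exact lt_irrefl _ hc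
  have h2 : (1:ℝ) / 4 ≤ min 1 (‖(Fg pi0 p).2‖ ^ 2 + ‖(Fg pi0 p).1.2‖ ^ 2) :=
    le_min (by norm_num) h1.le
  nlinarith

end D2

theorem c2_one {p : (E × H₂) × Wt N K} (h : 1 < ‖p.2‖ ∨ 1 < ‖p.1.2‖) : c2 p = 1 := by
  unfold c2
  refine ct_one ?_
  rcases h with h | h
  · nlinarith [sq_nonneg ‖p.1.2‖]
  · nlinarith [sq_nonneg ‖p.2‖]

/-- the instance `X' = US G × S^{2l+1}` -/
theorem eqm_XX (l : ℕ) : Eqm G (HW.XX (L.US G) l) (HW.ph l (gf G)) Prod.fst where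
  smooth x _ := contDiffAt_fst
  maps x hx := (HW.mem_XX.1 hx).1
  eq x _ t := rfl

end Crest.Agent.R208.FT
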