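import Crest.Agent.R208.LB4
import Crest.Agent.R208.I7

/-!
R208, block LB (helper971), part 5: **integration of the contact volume form over the unit tangent bundle
is integration with respect to the Liouville measure** (times `(n-1)!`); reformulation of `VolLe`.
-/

set_option autoImplicit false
set_option linter.unusedSectionVars false

open MeasureTheory Measure Set Filter Topology Module
open scoped ContDiff RealInnerProductSpace ENNReal
open Crest.GeometryTopology.Submanifold
open Crest.Agent.R241.DDefs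
open Crest.Agent.R241.D2
open Crest.Agent.R241
open Crest.Agent.R241.AF (jac jac_nonneg jac_sq_gram finrank_Euc)
open Crest.Agent.R208.F
open Crest.Agent.R208.FI (Clo Sub Chart Tan J Ori dens frame LE)
open Crest.Agent.R208.L (US TS0 cst nu)

noncomputable section

namespace Crest.Agent.R208.LB

variable {n N d : ℕ} {κ : ℝ} {S : Set (Euc N)} {G : Geo n N κ S}

/-- the contact volume as a measure -/
def mu1 (G : Geo n N κ S) (d : ℕ) : Measure (Euc N × Euc N) :=
  Measure.map (toEuclidean : (Euc N × Euc N) ≃L[ℝ] _).symm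
    ((μHE[d].restrict ((toEuclidean : (Euc N × Euc N) ≃L[ℝ] _) '' US G)).withDensity
      fun y => ENNReal.ofReal (dens d (US G) (oUS n N) (oUS n N)
        ((toEuclidean : (Euc N × Euc N) ≃L[ℝ] _).symm y)))

theorem measurable_te : Measurable ((toEuclidean : (Euc N × Euc N) ≃L[ℝ] _).symm) :=
  (toEuclidean : (Euc N × Euc N) ≃L[ℝ] _).symm.continuous.measurable

theorem embedding_te : MeasurableEmbedding ((toEuclidean : (Euc N × Euc N) ≃L[ℝ] _).symm) :=
  (toEuclidean : (Euc N × Euc N) ≃L[ℝ] _).symm.toHomeomorph.measurableEmbedding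

theorem te_preimage (A : Set (Euc N × Euc N)) :
    (toEuclidean : (Euc N × Euc N) ≃L[ℝ] _).symm ⁻¹' A = (toEuclidean : (Euc N × Euc N) ≃L[ℝ] _) '' A := by
  ext y
  constructor
  · intro h
    exact ⟨_, h, (toEuclidean : (Euc N × Euc N) ≃L[ℝ] _).apply_symm_apply y⟩
  · rintro ⟨x, hx, rfl⟩
    rw [mem_preimage, ContinuousLinearEquiv.symm_apply_apply]; exact hx

theorem mu1_apply {A : Set (Euc N × Euc N)} (hA : MeasurableSet A) (hAU : A ⊆ US G) :
    mu1 G d A = ∫⁻ y in (toEuclidean : (Euc N × Euc N) ≃L[ℝ] _) '' A,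
      ENNReal.ofReal (dens d (US G) (oUS n N) (oUS n N)
        ((toEuclidean : (Euc N × Euc N) ≃L[ℝ] _).symm y)) ∂μHE[d] := by
  unfold mu1
  rw [map_apply measurable_te hA, withDensity_apply _ (measurable_te hA),
    Measure.restrict_restrict (measurable_te hA), te_preimage,
    inter_eq_left.2 (image_mono hAU)]

theorem mu1_compl (hc : IsCompact S) : mu1 G d (US G)ᶜ = 0 := by
  have hm : MeasurableSet (US G) := (L.isClosed_US G).measurableSet
  unfold mu1
  rw [map_apply measurable_te hm.compl, withDensity_apply _ (measurable_te hm.compl),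
    Measure.restrict_restrict (measurable_te hm.compl), te_preimage]
  have h1 : (toEuclidean : (Euc N × Euc N) ≃L[ℝ] _) '' (US G)ᶜ ∩
      (toEuclidean : (Euc N × Euc N) ≃L[ℝ] _) '' US G = ∅ := by
    rw [← image_inter (toEuclidean : (Euc N × Euc N) ≃L[ℝ] _).injective, compl_inter_self,
      image_empty]
  rw [h1]
  simp

/-- `mu1` in a chart -/
theorem mu1_chart {g : Eu d → Euc N × Euc N} {W : Set (Eu d)}
    (hg : Chart d (US G) g W) {A : Set (Euc N × Euc N)} (hA : MeasurableSet A)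
    (hAg : A ⊆ g '' W) :
    mu1 G d A = ∫⁻ u in g ⁻¹' A ∩ W, ENNReal.ofReal |top d (pull g (oUS n N) u)| := by
  classical
  have hVm : MeasurableSet W := hg.isOpen.measurableSet
  have hA₀m : MeasurableSet (g ⁻¹' A ∩ W) := by
    obtain ⟨u, u_meas, uf⟩ : ∃ u, Measurable u ∧ EqOn u g W := by
      refine ⟨piecewise W g 0, ?_, piecewise_eqOn _ _ _⟩
      exact ContinuousOn.measurable_piecewise hg.contDiffOn.continuousOn
        continuous_zero.continuousOn hVm
    have h1 : g ⁻¹' A ∩ W = u ⁻¹' A ∩ W := by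
      ext x
      constructor
      · rintro ⟨h1, h2⟩; exact ⟨by rw [mem_preimage, uf h2]; exact h1, h2⟩
      · rintro ⟨h1, h2⟩; exact ⟨by rw [mem_preimage, ← uf h2]; exact h1, h2⟩
    rw [h1]
    exact (u_meas hA).inter hVm
  rw [mu1_apply hA (hAg.trans hg.image_subset)]
  have h1 : ∀ u ∈ g ⁻¹' A ∩ W, HasFDerivWithinAt (fun u => (toEuclidean : (Euc N × Euc N) ≃L[ℝ] _) (g u))
      (LE (Euc N × Euc N) ∘L fderiv ℝ g u) (g ⁻¹' A ∩ W) u := fun u hu =>
    ((toEuclidean : (Euc N × Euc N) ≃L[ℝ] _).hasFDerivAt.comp u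
      (hg.differentiableAt hu.2).hasFDerivAt).hasFDerivWithinAt
  have h2 : InjOn (fun u => (toEuclidean : (Euc N × Euc N) ≃L[ℝ] _) (g u)) (g ⁻¹' A ∩ W) :=
    fun u hu v hv huv => hg.injOn hu.2 hv.2 ((toEuclidean : (Euc N × Euc N) ≃L[ℝ] _).injective huv)
  have h3 := AF.lintegral_image_eq hA₀m h1 h2 (fun y =>
    ENNReal.ofReal (dens d (US G) (oUS n N) (oUS n N)
        ((toEuclidean : (Euc N × Euc N) ≃L[ℝ] _).symm y)))
  have hdim : finrank ℝ (Eu d) = d := finrank_euclideanSpace_fin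
  rw [hdim] at h3
  have h4 : (fun u => (toEuclidean : (Euc N × Euc N) ≃L[ℝ] _) (g u)) '' (g ⁻¹' A ∩ W) =
      (toEuclidean : (Euc N × Euc N) ≃L[ℝ] _) '' A := by
    rw [← image_image (toEuclidean : (Euc N × Euc N) ≃L[ℝ] _) g]
    congr 1
    apply Subset.antisymm
    · rintro _ ⟨u, hu, rfl⟩; exact hu.1
    · intro q hq
      obtain ⟨u, hu, rfl⟩ := hAg hq
      exact ⟨u, ⟨hq, hu⟩, rfl⟩
  rw [h4] at h3
  rw [h3]
  refine setLIntegral_congr_fun hA₀m fun u hu => ?_
  rw [← ENNReal.ofReal_mul (jac_nonneg _)]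
  congr 1
  rw [ContinuousLinearEquiv.symm_apply_apply,
    FI.jac_mul_dens (FI.finrank_Tan_chart hg hu.2) (fun w => hg.fderiv_mem hu.2 w)]
  exact FI.mul_sign _

/-- **the contact volume is `(n-1)!` times the Liouville measure** -/
theorem mu1_eq (hn : 1 ≤ n) (hd : d + 1 = 2 * n) (hS : IsSubmanifold n N S) (hc : IsCompact S) :
    mu1 G d = ((n - 1).factorial : ℝ≥0∞) • nu G := by
  classical
  have hX : Clo d (US G) := clo_US (FI.clo_of_isSubmanifold hS hc).sub hc hd
  have hm : MeasurableSet (US G) := (L.isClosed_US G).measurableSet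
  -- local equality
  have hloc : ∀ q ∈ US G, ∃ O : Set (Euc N × Euc N), IsOpen O ∧ q ∈ O ∧
      ∀ A ⊆ US G ∩ O, MeasurableSet A →
        mu1 G d A = ((n - 1).factorial : ℝ≥0∞) * nu G A := by
    intro q hq
    obtain ⟨g, W, hg, hqW⟩ := hX.chart q hq
    obtain ⟨f, V, hf⟩ := hS q.1 hq.1.1
    obtain ⟨O, ℓ, hO, h0O, hℓ, hℓV, -, hℓS⟩ := D.exists_coord hf hf.zero_mem
    rw [hf.map_zero] at h0O
    obtain ⟨U, hU, hUX⟩ := hg.image_open W le_rfl hg.isOpen
    refine ⟨U ∩ {z | z.1 ∈ O}, hU.inter (hO.preimage continuous_fst), ⟨?_, h0O⟩, ?_⟩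
    · rw [hUX] at hqW; exact hqW.2
    · intro A hA hAm
      have hAg : A ⊆ g '' W := by
        rw [hUX]; exact fun z hz => ⟨(hA hz).1, (hA hz).2.1⟩
      rw [mu1_chart hg hAm hAg, nu_chart hn hd hg hf hO hℓ hℓV hℓS hAm hAg
        (fun z hz => (hA hz).2.2)]
  choose! O hO hqO hOA using hloc
  obtain ⟨t, hts, htc, ht⟩ := TopologicalSpace.countable_cover_nhdsWithin (s := US G) (f := O)
    (fun q hq => mem_nhdsWithin_of_mem_nhds ((hO q hq).mem_nhds (hqO q hq)))
  -- restrictions
  have hres : ∀ q ∈ t, (mu1 G d).restrict (US G ∩ O q) =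
      (((n - 1).factorial : ℝ≥0∞) • nu G).restrict (US G ∩ O q) := by
    intro q hq
    have hm2 : MeasurableSet (US G ∩ O q) := hm.inter (hO q (hts hq)).measurableSet
    ext A hA
    rw [Measure.restrict_apply hA, Measure.restrict_apply hA,
      hOA q (hts hq) _ inter_subset_right (hA.inter hm2), Measure.smul_apply, smul_eq_mul]
  have hU := (Measure.restrict_biUnion_congr (μ := mu1 G d)
    (ν := ((n - 1).factorial : ℝ≥0∞) • nu G) htc).2 hres
  have hcov : (⋃ i ∈ t, US G ∩ O i) = US G := by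
    apply Subset.antisymm
    · exact iUnion₂_subset fun _ _ => inter_subset_left
    · intro q hq
      obtain ⟨x, hx, hqx⟩ := mem_iUnion₂.1 (ht hq)
      exact mem_iUnion₂.2 ⟨x, hx, hq, hqx⟩
  rw [hcov] at hU
  have h1 : (mu1 G d).restrict (US G) = mu1 G d :=
    Measure.restrict_eq_self_of_ae_mem (by rw [ae_iff]; exact mu1_compl hc)
  have h2 : (((n - 1).factorial : ℝ≥0∞) • nu G).restrict (US G) =
      ((n - 1).factorial : ℝ≥0∞) • nu G :=
    Measure.restrict_eq_self_of_ae_mem (by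
      rw [ae_iff, Measure.smul_apply]
      have : nu G {a | ¬a ∈ US G} = 0 := L.nu_compl_US G hn
      rw [this, smul_zero])
  rw [h1, h2] at hU
  exact hU

theorem continuousOn_densU (hn : 1 ≤ n) (hd : d + 1 = 2 * n) (hS : IsSubmanifold n N S)
    (hc : IsCompact S) : ContinuousOn (dens d (US G) (oUS n N) (oUS n N)) (US G) :=
  FI.continuousOn_dens (clo_US (FI.clo_of_isSubmanifold hS hc).sub hc hd)
    (ori_US (FI.clo_of_isSubmanifold hS hc).sub hc hn hd) continuous_oUS.continuousOn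

/-- **integration of the contact volume form = integration for the Liouville measure** -/
theorem J_smul (hn : 1 ≤ n) (hd : d + 1 = 2 * n) (hS : IsSubmanifold n N S) (hc : IsCompact S)
    (h : Euc N × Euc N → ℝ) :
    J d (US G) (oUS n N) (fun z => h z • oUS n N z) =
      ((n - 1).factorial : ℝ) * ∫ z, h z ∂(nu G) := by
  have hX : Clo d (US G) := clo_US (FI.clo_of_isSubmanifold hS hc).sub hc hd
  have e1 : ∫ z, h z ∂(mu1 G d) = ((n - 1).factorial : ℝ) * ∫ z, h z ∂(nu G) := by
    rw [mu1_eq hn hd hS hc, integral_smul_measure, smul_eq_mul, ENNReal.toReal_natCast]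
  rw [← e1]
  unfold mu1
  rw [embedding_te.integral_map]
  have hcont : ContinuousOn (fun y => ENNReal.ofReal (dens d (US G) (oUS n N) (oUS n N)
        ((toEuclidean : (Euc N × Euc N) ≃L[ℝ] _).symm y)))
        ((toEuclidean : (Euc N × Euc N) ≃L[ℝ] _) '' US G) := by
    refine ENNReal.continuous_ofReal.comp_continuousOn ?_
    refine (continuousOn_densU hn hd hS hc).comp
      (toEuclidean : (Euc N × Euc N) ≃L[ℝ] _).symm.continuous.continuousOn ?_
    rintro _ ⟨x, hx, rfl⟩
    rw [ContinuousLinearEquiv.symm_apply_apply]; exact hx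
  rw [integral_withDensity_eq_integral_toReal_smul₀ (hcont.aemeasurable hX.measurableSet)
    (ae_of_all _ fun _ => ENNReal.ofReal_lt_top)]
  unfold J
  refine setIntegral_congr_fun hX.measurableSet ?_
  rintro _ ⟨x, hx, rfl⟩
  simp only [ContinuousLinearEquiv.symm_apply_apply]
  have h3 : 0 ≤ dens d (US G) (oUS n N) (oUS n N) x := by
    unfold dens; rw [FI.mul_sign]; exact abs_nonneg _
  rw [ENNReal.toReal_ofReal h3]
  unfold dens
  rw [map_smul, AlternatingMap.smul_apply, smul_eq_mul, smul_eq_mul]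
  ring

/-- **volume of the unit tangent bundle** -/
theorem J_vol (hn : 1 ≤ n) (hd : d + 1 = 2 * n) (hS : IsSubmanifold n N S) (hc : IsCompact S) :
    J d (US G) (oUS n N) (oUS n N) =
      ((n - 1).factorial : ℝ) * ((cst n).toReal * (μHE[n] S).toReal) := by
  have h1 := J_smul (G := G) hn hd hS hc (fun _ => 1)
  have h2 : (fun z => (1 : ℝ) • oUS n N z) = oUS n N := by funext z; rw [one_smul]
  rw [h2] at h1
  rw [h1, integral_const, smul_eq_mul, mul_one]
  congr 1
  rw [Measure.real, L.nu_univ, ENNReal.toReal_mul]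

/-- the form version of the volume bound of `VolLe` -/
theorem vol_le_of_J (hn : 1 ≤ n) (hd : d + 1 = 2 * n) (hS : IsSubmanifold n N S) (hc : IsCompact S)
    {a b : ℕ} (h : J d (US G) (oUS n N) (oUS n N) ≤
      ((n - 1).factorial : ℝ) * ((cst n).toReal ^ 2 * (I.IM a b).toReal)) :
    μHE[n] S ≤ cst n * I.IM a b := by
  rw [J_vol hn hd hS hc] at h
  have h1 : (0 : ℝ) < ((n - 1).factorial : ℝ) := by positivity
  have h2 := le_of_mul_le_mul_left h h1
  have h3 : 0 < (cst n).toReal := ENNReal.toReal_pos (L.cst_ne_zero hn) (L.cst_ne_top n)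
  have h4 : (μHE[n] S).toReal ≤ (cst n * I.IM a b).toReal := by
    rw [ENNReal.toReal_mul]
    refine le_of_mul_le_mul_left ?_ h3
    calc _ ≤ _ := h2
      _ = _ := by ring
  exact (ENNReal.toReal_le_toReal (L.muHE_lt_top hS hc).ne
    (ENNReal.mul_ne_top (L.cst_ne_top n) (I.IM_ne_top a b))).1 h4

end Crest.Agent.R208.LB
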