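import Crest.Agent.R208.CM6a
import Crest.Agent.R208.LB5
import Crest.Agent.R208.FV3

/-! Row 208, block CM (helper971), part CM6b: the geodesic flow on the unit tangent bundle as a free
circle action; the contact form is a connection. -/

set_option autoImplicit false
set_option linter.unusedSectionVars false
set_option linter.unusedVariables false

open Set Filter Topology Module MeasureTheory
open scoped ContDiff RealInnerProductSpace
open Crest.GeometryTopology.Submanifold
open Crest.Agent.R241.DDefs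
open Crest.Agent.R241.D2
open Crest.Agent.R208.F Crest.Agent.R208.FI
open Crest.Agent.R208.CW (SMap)
open Crest.Agent.R208.T (Sm Cl Eqv Coh eqv_iff Hom)
open Crest.Agent.R208.L (US TanTS dfl om)
open Crest.Agent.R208.LB (al alL dal oUS)

noncomputable section

namespace Crest.Agent.R208.CM

variable {n N : ℕ} {κ : ℝ} {S : Set (Euc N)} {G : Geo n N κ S} {z ξ : Euc N × Euc N}

/-- the geodesic flow -/
def gf (G : Geo n N κ S) (t : ℝ) (z : Euc N × Euc N) : Euc N × Euc N := fl G (z, t)

theorem gf_mem (hz : z ∈ US G) (t : ℝ) : gf G t z ∈ US G :=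
  ⟨fl_mem G hz.1 t, by rw [gf, norm_fl G hz.1]; exact hz.2⟩

theorem gf_int (hper : HS.Per G) (hz : z ∈ US G) (t : ℝ) (k : ℤ) :
    gf G (t + 2 * Real.pi * k) z = gf G t z := by
  have hp : Function.Periodic (fun t => gf G t z) (2 * Real.pi) := fun t => by
    change fl G (z, t + 2 * Real.pi) = fl G (z, t)
    rw [fl_add' G hz.1]
    exact hper _ (gf_mem hz t).1 (gf_mem hz t).2
  have := hp.int_mul k t
  rw [← this]; congr 1; ring

/-- **the geodesic flow of a Blaschke manifold is a free circle action on the unit tangent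
bundle** -/
theorem cir_US (hB : Bl n N κ S G Real.pi) (hper : HS.Per G) : Cir (US G) (gf G) where
  smooth := fun t z hz => by
    have h1 := contDiffAt_fl' G hz.1 t
    have h2 : ContDiffAt ℝ ∞ (fun q : ℝ × (Euc N × Euc N) => (q.2, q.1)) (t, z) :=
      contDiffAt_snd.prodMk contDiffAt_fst
    exact ContDiffAt.comp (g := fl G) (t, z) h1 h2
  maps := fun t z hz => gf_mem hz t
  zero := fun z hz => fl_zero G z
  add := fun s t z hz => by
    change fl G (z, s + t) = fl G (fl G (z, t), s)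
    rw [add_comm, fl_add' G hz.1]
  per := fun z hz => hper z hz.1 hz.2
  free := fun t z hz ht => by
    have hpi := Real.pi_pos
    have h2pi : (0 : ℝ) < 2 * Real.pi := by positivity
    set k : ℤ := ⌊t / (2 * Real.pi)⌋ with hk
    set t' : ℝ := t - 2 * Real.pi * k with ht'
    have h0 : 0 ≤ t' := by
      have h1 := Int.floor_le (t / (2 * Real.pi))
      rw [le_div_iff₀ h2pi] at h1
      rw [ht']; nlinarith
    have h1 : t' < 2 * Real.pi := by
      have h1 := Int.lt_floor_add_one (t / (2 * Real.pi))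
      rw [div_lt_iff₀ h2pi] at h1
      rw [ht']; nlinarith
    have h2 : fl G (z, t') = z := by
      have h3 := gf_int hper hz t' k
      rw [ht', sub_add_cancel] at h3
      rw [← ht'] at h3
      exact h3.symm.trans ht
    have h3 : t' = 0 := by
      by_contra hne
      have hpos : 0 < t' := lt_of_le_of_ne h0 (Ne.symm hne)
      rcases le_or_gt t' Real.pi with h4 | h4
      · have h5 := hB.dist_fl z hz.1 hz.2 0 t' h0 (by linarith)
        rw [fl_zero, h2, intrinsicDist_self hz.1.1] at h5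
        linarith
      · have h5 := hB.dist_fl z hz.1 hz.2 t' (2 * Real.pi) h1.le (by linarith)
        rw [h2, hper z hz.1 hz.2, intrinsicDist_self hz.1.1] at h5
        linarith
    exact ⟨k, by linarith⟩

theorem gen_gf (hz : z ∈ US G) : gen (gf G) z = X G z := by
  have h1 := hasDerivAt_fl G (complete G hz.1 0)
  rw [fl_zero] at h1
  exact h1.deriv

/-- the contact form along the Jacobi field -/
theorem alL_dfl_of_curve (hz : z ∈ US G) (hξ : TanTS G z ξ) (h0 : ⟪z.2, ξ.2⟫ = 0) (t : ℝ) :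
    alL (fl G (z, t)) (dfl G z t ξ) = alL z ξ := by
  have hder : ∀ t, HasDerivAt (fun t => ⟪(fl G (z, t)).2, (dfl G z t ξ).1⟫) 0 t := by
    intro t
    have h1 := hasDerivAt_fl G (complete G hz.1 t)
    have h2 := L.hasDerivAt_dfl hz.1 ξ t
    have h3 := (hda_snd h1).inner ℝ (hda_fst h2)
    refine h3.congr_deriv ?_
    have hm := fl_mem G hz.1 t
    have hT := L.tanTS_dfl hz.1 hξ t
    rw [L.fderiv_X_fst]
    have e1 : ⟪(X G (fl G (z, t))).2, (dfl G z t ξ).1⟫ = 0 :=
      inner_II G hm.1 hm.2 hm.2 hT.fst_mem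
    have e2 := L.om_dfl hz.1 (L.tanTS_X hz.1) hξ t
    rw [L.dfl_X hz.1, L.om_X hz.1 hξ, L.om_X hm hT, h0, neg_zero, neg_eq_zero] at e2
    rw [e1, e2, add_zero]
  have h1 := is_const_of_deriv_eq_zero (fun t => (hder t).differentiableAt)
    (fun t => (hder t).deriv) t 0
  simp only [L.dfl_zero hz.1, fl_zero] at h1
  rw [LB.alL_apply, LB.alL_apply]
  exact h1

/-- **the contact form is invariant** -/
theorem alL_dfl (hS : Sub n S) (hz : z ∈ US G) (hξ : ξ ∈ Tan (US G) z) (t : ℝ) :
    alL (fl G (z, t)) (dfl G z t ξ) = alL z ξ := by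
  have key : Tan (US G) z ≤ LinearMap.ker
      ((alL (fl G (z, t)) ∘ₗ (dfl G z t : Euc N × Euc N →ₗ[ℝ] Euc N × Euc N)) - alL z) := by
    rw [Tan, Submodule.span_le]
    rintro v ⟨γ, hγ0, hγ, hγS⟩
    have h1 : TanTS G z v := ⟨γ, hγ0, hγ, hγS.mono fun s hs => hs.1⟩
    have h2 : v ∈ Tan (US G) z := Submodule.subset_span ⟨γ, hγ0, hγ, hγS⟩
    have h3 := alL_dfl_of_curve hz h1 ((LB.mem_Tan_US hS hz).1 h2).2.2 t
    change alL (fl G (z, t)) (dfl G z t v) - alL z v = 0
    rw [h3, sub_self]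
  exact sub_eq_zero.1 (key hξ)

/-- **the contact form is a connection** -/
theorem conn_al (hS : Sub n S) : Conn (US G) (gf G) (al (N := N)) := by
  refine ⟨fun z _ => LB.contDiff_al.contDiffAt, fun z => isDeg_io _, fun z hz => ?_, fun t => ?_⟩
  · rw [gen_gf hz, LB.al, ii_io, LB.alL_X hz, map_one]
  · refine eqv_iff.2 fun z hz => ?_
    rw [F.pull, LB.al, LB.al, pb_io, pb_io, pb_io]
    congr 1
    refine LinearMap.ext fun ξ => ?_
    exact alL_dfl hS hz ξ.2 t

/-! ### the manifold of geodesics -/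

variable {m : ℕ} {g : Euc N × Euc N → Fin m → ℂ} {Fc : MM m → Ext (MM m)}

theorem oUS_eq : (fun x => al (N := N) x * F.d al x ^ (n - 1)) = oUS n N := by
  funext x
  rw [LB.d_al]; rfl

theorem clo_US' (hB : Bl n N κ S G Real.pi) : Clo (2 * (n - 1) + 1) (US G) := by
  have hn := hB.hn
  exact LB.clo_US (FV.sub_S hB) hB.cpt (by omega)

/-- **THE INTEGRALS OVER THE UNIT TANGENT BUNDLE AND OVER THE MANIFOLD OF GEODESICS**:
`B = Quo (US G) g`, `Fc` the curvature of the contact form (`pull (jj g) Fc = dal`). -/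
theorem J_US (hB : Bl n N κ S G Real.pi) (hper : HS.Per G) (hg : Emb (US G) (gf G) g)
    (hc : Curv (US G) g (al (N := N)) Fc) :
    Ori (2 * (n - 1)) (Quo (US G) g) (fun y => Fc y ^ (n - 1)) ∧
    (∀ η : MM m → Ext (MM m), ContinuousOn η (Quo (US G) g) →
      J (2 * (n - 1) + 1) (US G) (oUS n N) (fun x => al x * F.pull (jj g) η x) =
        2 * Real.pi * J (2 * (n - 1)) (Quo (US G) g) (fun y => Fc y ^ (n - 1)) η) ∧
    J (2 * (n - 1) + 1) (US G) (oUS n N) (oUS n N) =
        2 * Real.pi * J (2 * (n - 1)) (Quo (US G) g) (fun y => Fc y ^ (n - 1))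
          (fun y => Fc y ^ (n - 1)) := by
  have hn := hB.hn
  have hS := FV.sub_S hB
  have hX := clo_US' hB
  have ho : Ori (2 * (n - 1) + 1) (US G) (fun x => al x * F.d al x ^ (n - 1)) := by
    rw [oUS_eq]; exact LB.ori_US hS hB.cpt hn (by omega)
  have h1 := (conn_al hS).J_eq hg (cir_US hB hper) hX hc ho
  rw [oUS_eq] at h1
  refine ⟨h1.1, h1.2, ?_⟩
  have hFc : ContinuousOn (fun y => Fc y ^ (n - 1)) (Quo (US G) g) := continuousOn_pow'
    (fun y hy => (hc.sm y hy).continuousAt.continuousWithinAt) _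
  rw [← h1.2 _ hFc]
  refine J_congr_dens hX (fun x hx => rfl) (fun x hx => ?_)
  refine evA_of_res ?_ (frame_isFrame (hX.finrank_Tan hx)).2
  have e1 : F.pull (jj g) (fun y => Fc y ^ (n - 1)) x = F.pull (jj g) Fc x ^ (n - 1) := by
    rw [F.pull, map_pow]; rfl
  rw [e1, oUS, map_mul, map_mul, map_pow, map_pow, eqv_iff.1 hc.pull x hx, LB.d_al]

/-- existence of the manifold of geodesics with its curvature form -/
theorem exists_CM (hB : Bl n N κ S G Real.pi) (hper : HS.Per G) :
    ∃ (m : ℕ) (g : Euc N × Euc N → Fin m → ℂ) (Fc : MM m → Ext (MM m)),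
      Emb (US G) (gf G) g ∧ Clo (2 * (n - 1)) (Quo (US G) g) ∧ Curv (US G) g (al (N := N)) Fc := by
  have hX := clo_US' hB
  have h := cir_US hB hper
  obtain ⟨m, g, hg⟩ := exists_emb h hX
  obtain ⟨Fc, hFc⟩ := (conn_al (FV.sub_S hB)).exists_curv hg h hX
  exact ⟨m, g, Fc, hg, hg.clo_Quo h hX, hFc⟩

end Crest.Agent.R208.CM
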