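import Crest.Agent.R208.CM1c
import Crest.Agent.R208.FI2d

/-! Row 208, block CM (helper423), part CM4a: an orthogonal representation `R` of the circle is
trivialised along a free circle action: isometric embeddings `T x` with `T (φ t x) (R t w) = T x w`. -/

set_option autoImplicit false
set_option linter.unusedSectionVars false
set_option linter.unusedVariables false

open Set Filter Topology Module MeasureTheory
open scoped ContDiff RealInnerProductSpace
open Crest.Agent.R208.F Crest.Agent.R208.FI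

noncomputable section

namespace Crest.Agent.R208.CM

local notation "π" => Real.pi

/-- orthogonal representation of the circle -/
structure Rep {W : Type*} [NormedAddCommGroup W] [NormedSpace ℝ W] (R : ℝ → W →L[ℝ] W) : Prop where
  smooth : ContDiff ℝ ∞ R
  zero : ∀ w, R 0 w = w
  add : ∀ s t w, R (s + t) w = R s (R t w)
  per : ∀ w, R (2 * π) w = w
  iso : ∀ t w, ‖R t w‖ = ‖w‖

section rep
variable {W : Type*} [NormedAddCommGroup W] [NormedSpace ℝ W] {R : ℝ → W →L[ℝ] W}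

theorem Rep.neg_add (h : Rep R) (t : ℝ) (w : W) : R (-t) (R t w) = w := by
  rw [← h.add, neg_add_cancel, h.zero]

theorem Rep.add_neg (h : Rep R) (t : ℝ) (w : W) : R t (R (-t) w) = w := by
  rw [← h.add, add_neg_cancel, h.zero]

theorem Rep.add_two_pi (h : Rep R) (t : ℝ) : R (t + 2 * π) = R t := by
  ext w
  rw [h.add, h.per]

theorem Rep.add_int (h : Rep R) (t : ℝ) (k : ℤ) : R (t + 2 * π * k) = R t := by
  have hp : Function.Periodic R (2 * π) := fun t => h.add_two_pi t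
  have := hp.int_mul k t
  rw [← this]; congr 1; ring

/-- the representation at minus the phase of `z` -/
def rot (R : ℝ → W →L[ℝ] W) (z : ℂ) : W →L[ℝ] W := R (-(Complex.arg z))

theorem Rep.rot_eq (h : Rep R) {z : ℂ} {θ : ℝ}
    (hθ : Complex.exp (θ * Complex.I) = Complex.exp ((Complex.arg z : ℂ) * Complex.I)) :
    rot R z = R (-θ) := by
  obtain ⟨n, hn⟩ := Complex.exp_eq_exp_iff_exists_int.1 hθ
  have h1 : θ = Complex.arg z + 2 * π * n := by
    have h2 : ((θ : ℂ)) * Complex.I = ((Complex.arg z + 2 * π * n : ℝ) : ℂ) * Complex.I := by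
      rw [hn]; push_cast; ring
    have h3 := mul_right_cancel₀ Complex.I_ne_zero h2
    exact_mod_cast h3
  unfold rot
  rw [h1, show -(Complex.arg z + 2 * π * n) = -Complex.arg z + 2 * π * ((-n : ℤ) : ℝ) by
    push_cast; ring, h.add_int]

theorem Rep.rot_exp_mul (h : Rep R) {z : ℂ} (hz : z ≠ 0) (t : ℝ) :
    rot R (Complex.exp (t * Complex.I) * z) = (rot R z).comp (R (-t)) := by
  have h0 : Complex.exp (t * Complex.I) * z ≠ 0 := mul_ne_zero (Complex.exp_ne_zero _) hz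
  have h1 : rot R (Complex.exp (t * Complex.I) * z) = R (-(t + Complex.arg z)) := by
    refine h.rot_eq ?_
    rw [exp_arg h0, norm_mul, Complex.norm_exp_ofReal_mul_I, one_mul]
    push_cast
    rw [add_mul, Complex.exp_add, exp_arg hz, mul_div_assoc]
  rw [h1]
  ext w
  rw [show -(t + Complex.arg z) = -Complex.arg z + -t by ring, h.add]
  rfl

theorem Rep.contDiffAt_rot (h : Rep R) {z : ℂ} (hz : z ≠ 0) : ContDiffAt ℝ ∞ (rot R) z := by
  have h1 : ContDiffAt ℝ ∞ (fun y : ℂ => R (-(Complex.arg (y / z) + Complex.arg z))) z :=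
    ContDiffAt.comp (g := R) (f := fun y : ℂ => -(Complex.arg (y / z) + Complex.arg z)) z
      h.smooth.contDiffAt (contDiffAt_ph (u := fun y : ℂ => y) contDiffAt_id hz)
  refine h1.congr_of_eventuallyEq ?_
  filter_upwards [isOpen_ne.mem_nhds hz] with y hy
  have hy0 : y ≠ 0 := hy
  refine h.rot_eq ?_
  push_cast
  have h1 : y / z ≠ 0 := div_ne_zero hy0 hz
  have h2 : (‖z‖ : ℂ) ≠ 0 := by simpa using hz
  have h3 : (‖y‖ : ℂ) ≠ 0 := by simpa using hy0
  rw [add_mul, Complex.exp_add, exp_arg h1, exp_arg hz, exp_arg hy0, norm_div]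
  push_cast
  field_simp

end rep

section T
variable {E : Type} [NormedAddCommGroup E] [NormedSpace ℝ E] [FiniteDimensional ℝ E]
  {W : Type*} [NormedAddCommGroup W] [InnerProductSpace ℝ W] [FiniteDimensional ℝ W]
  {X : Set E} {φ : ℝ → E → E} {R : ℝ → W →L[ℝ] W} {ι : Type} [Fintype ι] [DecidableEq ι]
  {g : E → ι → ℂ}

/-- cut off rotations -/
def rc (R : ℝ → W →L[ℝ] W) (ε : ℝ) (z : ℂ) : W →L[ℝ] W := lam ε z • rot R z

theorem Rep.contDiff_rc (h : Rep R) {ε : ℝ} (hε : 0 < ε) : ContDiff ℝ ∞ (rc R ε) := by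
  rw [contDiff_iff_contDiffAt]
  intro z
  by_cases hz : z = 0
  · have h1 : rc R ε =ᶠ[𝓝 z] fun _ => 0 := by
      have ho : IsOpen {w : ℂ | ‖w‖ ^ 2 < ε} := isOpen_lt (by fun_prop) continuous_const
      filter_upwards [ho.mem_nhds (by simp [hz, hε])] with w hw
      rw [rc, lam_zero (le_of_lt hw), zero_smul]
    exact contDiffAt_const.congr_of_eventuallyEq h1
  · exact (contDiff_lam ε).contDiffAt.smul (h.contDiffAt_rot hz)

/-- the sum of the squares of the weights -/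
def Sq (ε : ℝ) (u : ι → ℂ) : ℝ := ∑ a, lam ε (u a) ^ 2

theorem Sq_pos {ε : ℝ} {u : ι → ℂ} (hu : ∑ a, ‖u a‖ ^ 2 = 1)
    (hε : ε * Fintype.card ι < 1) : 0 < Sq ε u := by
  have h1 : ∃ a, ε < ‖u a‖ ^ 2 := by
    by_contra hc
    push Not at hc
    have h2 : ∑ a, ‖u a‖ ^ 2 ≤ ∑ _a : ι, ε := Finset.sum_le_sum fun a _ => hc a
    rw [hu, Finset.sum_const, Finset.card_univ, nsmul_eq_mul, mul_comm] at h2
    linarith
  obtain ⟨a, ha⟩ := h1
  exact Finset.sum_pos' (fun a _ => sq_nonneg _) ⟨a, Finset.mem_univ _, pow_pos (lam_pos ha) 2⟩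

theorem contDiff_Sq (ε : ℝ) : ContDiff ℝ ∞ (Sq (ι := ι) ε) :=
  ContDiff.sum fun a _ => ((contDiff_lam ε).comp (contDiff_apply ℝ ℂ a)).pow 2

/-- inclusion of a summand -/
def Js (W : Type*) [NormedAddCommGroup W] [InnerProductSpace ℝ W] [FiniteDimensional ℝ W] (a : ι) :
    W →L[ℝ] PiLp 2 (fun _ : ι => W) :=
  LinearMap.toContinuousLinearMap
    ((WithLp.linearEquiv 2 ℝ (ι → W)).symm.toLinearMap ∘ₗ LinearMap.single ℝ (fun _ : ι => W) a)

theorem Js_apply (a b : ι) (w : W) : Js W a w b = if b = a then w else 0 := by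
  change (Pi.single a w : ι → W) b = _
  rw [Pi.single_apply]

/-- the trivialisation -/
def Tt (R : ℝ → W →L[ℝ] W) (ε : ℝ) (u : ι → ℂ) : W →L[ℝ] PiLp 2 (fun _ : ι => W) :=
  ∑ a, (Js W a).comp ((Real.sqrt (Sq ε u))⁻¹ • rc R ε (u a))

theorem Tt_apply (ε : ℝ) (u : ι → ℂ) (w : W) (b : ι) :
    Tt R ε u w b = (Real.sqrt (Sq ε u))⁻¹ • (lam ε (u b) • rot R (u b) w) := by
  have h1 : Tt R ε u w = ∑ a, Js W a ((Real.sqrt (Sq ε u))⁻¹ • rc R ε (u a) w) := by
    simp only [Tt, _root_.smul_apply, _root_.sum_apply, ContinuousLinearMap.comp_apply]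
  rw [h1, WithLp.ofLp_sum, Finset.sum_apply]
  simp only [Js_apply]
  rw [Finset.sum_ite_eq]
  simp [rc]

theorem Rep.norm_rot (h : Rep R) (z : ℂ) (w : W) : ‖rot R z w‖ = ‖w‖ := h.iso _ _

theorem Rep.norm_Tt (h : Rep R) {ε : ℝ} {u : ι → ℂ} (hu : 0 < Sq ε u) (w : W) :
    ‖Tt R ε u w‖ = ‖w‖ := by
  have h1 : ‖Tt R ε u w‖ ^ 2 = ‖w‖ ^ 2 := by
    rw [PiLp.norm_sq_eq_of_L2]
    have h2 : ∀ b, ‖Tt R ε u w b‖ ^ 2 = (Sq ε u)⁻¹ * (lam ε (u b) ^ 2 * ‖w‖ ^ 2) := by
      intro b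
      rw [Tt_apply, norm_smul, norm_smul, h.norm_rot, mul_pow, mul_pow, norm_inv, inv_pow,
        Real.norm_eq_abs, Real.norm_eq_abs, sq_abs, sq_abs, Real.sq_sqrt hu.le]
    simp only [h2]
    rw [← Finset.mul_sum, ← Finset.sum_mul, ← mul_assoc]
    change (Sq ε u)⁻¹ * Sq ε u * ‖w‖ ^ 2 = _
    rw [inv_mul_cancel₀ hu.ne', one_mul]
  exact (sq_eq_sq₀ (norm_nonneg _) (norm_nonneg _)).1 h1

theorem Rep.contDiffAt_Tt (h : Rep R) {ε : ℝ} (hε : 0 < ε) {u : ι → ℂ} (hu : 0 < Sq ε u) :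
    ContDiffAt ℝ ∞ (Tt R ε) u := by
  have h1 : ContDiffAt ℝ ∞ (fun u : ι → ℂ => (Real.sqrt (Sq ε u))⁻¹) u :=
    (((contDiff_Sq ε).contDiffAt.sqrt hu.ne')).inv (Real.sqrt_ne_zero'.2 hu)
  refine ContDiffAt.sum fun a _ => ?_
  exact contDiffAt_const.clm_comp
    (h1.smul (((h.contDiff_rc hε).comp (contDiff_apply ℝ ℂ a)).contDiffAt))

theorem lam_exp (ε t : ℝ) (z : ℂ) : lam ε (Complex.exp (t * Complex.I) * z) = lam ε z := by
  rw [lam, lam, norm_mul, Complex.norm_exp_ofReal_mul_I, one_mul]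

theorem Rep.rc_exp (h : Rep R) {ε : ℝ} (hε : 0 < ε) (t : ℝ) (z : ℂ) (w : W) :
    rc R ε (Complex.exp (t * Complex.I) * z) (R t w) = rc R ε z w := by
  by_cases hz : z = 0
  · simp [hz, rc, lam_zero (z := 0) (ε := ε) (by simp [hε.le])]
  · simp only [rc, _root_.smul_apply]
    rw [lam_exp, h.rot_exp_mul hz, ContinuousLinearMap.comp_apply, h.neg_add]

theorem Rep.Tt_equi (h : Rep R) {ε : ℝ} (hε : 0 < ε) (t : ℝ) (u : ι → ℂ) (w : W) :
    Tt R ε (Complex.exp (t * Complex.I) • u) (R t w) = Tt R ε u w := by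
  have h1 : Sq ε (Complex.exp (t * Complex.I) • u) = Sq ε u := by
    simp only [Sq, Pi.smul_apply, smul_eq_mul, lam_exp]
  have h2 : ∀ u : ι → ℂ, ∀ w, Tt R ε u w = ∑ a, Js W a ((Real.sqrt (Sq ε u))⁻¹ • rc R ε (u a) w) := by
    intro u w
    simp only [Tt, _root_.smul_apply, _root_.sum_apply, ContinuousLinearMap.comp_apply]
  rw [h2, h2, h1]
  simp only [Pi.smul_apply, smul_eq_mul, h.rc_exp hε]

/-- **CM4a**: equivariant trivialisation of a representation along a free circle action -/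
theorem exists_T (hg : Emb X φ g) (hR : Rep R) :
    ∃ (p : ℕ) (T : E → W →L[ℝ] EuclideanSpace ℝ (Fin p)),
      (∀ x ∈ X, ContDiffAt ℝ ∞ T x) ∧ (∀ x ∈ X, ∀ w, ‖T x w‖ = ‖w‖) ∧
      ∀ x ∈ X, ∀ t w, T (φ t x) (R t w) = T x w := by
  set V := PiLp 2 (fun _ : ι => W)
  set e : V ≃ₗᵢ[ℝ] EuclideanSpace ℝ (Fin (finrank ℝ V)) := (stdOrthonormalBasis ℝ V).repr
  set ε : ℝ := 1 / (2 * (Fintype.card ι + 1)) with hεd
  have hc : (0 : ℝ) < Fintype.card ι + 1 := by positivity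
  have hε : 0 < ε := by positivity
  have hε1 : ε * Fintype.card ι < 1 := by
    rw [hεd, div_mul_eq_mul_div, one_mul, div_lt_one (by positivity)]
    linarith
  have hpos : ∀ x ∈ X, 0 < Sq ε (g x) := fun x hx => Sq_pos (hg.unit x hx) hε1
  set L : V →L[ℝ] EuclideanSpace ℝ (Fin (finrank ℝ V)) :=
    LinearMap.toContinuousLinearMap e.toLinearEquiv.toLinearMap
  refine ⟨finrank ℝ V, fun x => L.comp (Tt R ε (g x)), fun x hx => ?_, fun x hx w => ?_,
    fun x hx t w => ?_⟩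
  · exact contDiffAt_const.clm_comp
      ((hR.contDiffAt_Tt hε (hpos x hx)).comp x (hg.smooth x hx))
  · change ‖e (Tt R ε (g x) w)‖ = ‖w‖
    rw [e.norm_map, hR.norm_Tt (hpos x hx)]
  · change L (Tt R ε (g (φ t x)) (R t w)) = L (Tt R ε (g x) w)
    rw [hg.equi x hx, hR.Tt_equi hε]

end T

end Crest.Agent.R208.CM
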