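import Crest.Agent.R208.GT6

/-!
Row 208, block GT (helper989), part GT7: the swap of `Z = V_2(V)`, its action on `T_J`, `ℓ`; the
decomposition `V ⊗ ℂ = ℓ + conj ℓ + V₀`.
-/

set_option autoImplicit false

open Set Filter Topology Module Metric
open scoped ContDiff RealInnerProductSpace Kronecker Matrix
open Crest.GeometryTopology.Submanifold
open Crest.Agent.R241.DDefs
open Crest.Agent.R241.D2
open Crest.Agent.R208.CW (IdF SM)
open Crest.Agent.R208.FI (Sub)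

noncomputable section

namespace Crest.Agent.R208.GT

variable {n N k d : ℕ} {κ : ℝ} {S : Set (Euc N)} {G : Geo n N κ S}
  {PV : Euc N × Euc N → Euc N →L[ℝ] Euc N} {ζ : (Euc N × Euc N) × (Fin 2 → Euc N)}

/-- the swap `(p,q,v₀,v₁) ↦ (q,p,f v₀,f v₁)` -/
def swz (G : Geo n N κ S) (PV : Euc N × Euc N → Euc N →L[ℝ] Euc N)
    (ζ : (Euc N × Euc N) × (Fin 2 → Euc N)) : (Euc N × Euc N) × (Fin 2 → Euc N) :=
  (ζ.1.swap, fun i => vec ((LM G PV ζ.1).mulVec ((bas N).repr (ζ.2 i))))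

lemma smooth_vec {X : Type*} [NormedAddCommGroup X] [NormedSpace ℝ X] {x : X}
    {f : X → Fin N → ℝ} (hf : ∀ c, ContDiffAt ℝ ∞ (fun y => f y c) x) :
    ContDiffAt ℝ ∞ (fun y => vec (f y)) x :=
  ContDiffAt.sum fun c _ => (hf c).smul contDiffAt_const

lemma smooth_repr {X : Type*} [NormedAddCommGroup X] [NormedSpace ℝ X] {x : X}
    {f : X → Euc N} (hf : ContDiffAt ℝ ∞ f x) (c : Fin N) :
    ContDiffAt ℝ ∞ (fun y => (bas N).repr (f y) c) x := by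
  have h1 : ContDiff ℝ ∞ (LinearMap.toContinuousLinearMap ((bas N).coord c)) :=
    ContinuousLinearMap.contDiff _
  exact ContDiffAt.comp x h1.contDiffAt hf

variable (hV : VField G PV) (h : Bla G k)

include hV h

lemma swz_snd (hkn : k < n) (hζ : ζ ∈ ZZ S PV) (i : Fin 2) :
    (swz G PV ζ).2 i = lf G ζ.1.1 ζ.1.2 (ζ.2 i) := by
  change vec ((LM G PV ζ.1).mulVec ((bas N).repr (ζ.2 i))) = _
  rw [LM_eq hV h hkn hζ.1, SP.mt_mulVec]
  exact (bas N).sum_repr _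

lemma smap_swz (hkn : k < n) : CW.SMap (ZZ S PV) (ZZ S PV) (swz G PV) := by
  refine ⟨fun ζ hζ => (smooth_swap ζ).prodMk (contDiffAt_pi.2 fun i => smooth_vec fun c => ?_),
    fun ζ hζ => ?_⟩
  · have h1 : ContDiffAt ℝ ∞ (fun y : (Euc N × Euc N) × (Fin 2 → Euc N) =>
        ∑ e, LM G PV y.1 c e * (bas N).repr (y.2 i) e) ζ := by
      refine ContDiffAt.sum fun e _ => ?_
      exact (ContDiffAt.comp (g := fun z => LM G PV z c e) ζ
        (smooth_LM hV h hkn hζ.1 c e) (smooth_z ζ)).mul (smooth_repr (smooth_v ζ i) e)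
    exact h1
  · have hm : ∀ i, ζ.2 i ∈ Vs G ζ.1.1 ζ.1.2 := mem_Vs_of_ZZ hV hζ
    refine ⟨FF_symm hζ.1, fun i => ?_, ?_⟩
    · rw [swz_snd hV h hkn hζ]
      exact hV.PV_eq_self (p := ζ.1.2) (q := ζ.1.1) (FF_symm hζ.1) (h.lf_mem hζ.1 _)
    · have h1 : (swz G PV ζ).2 = fun i => lf G ζ.1.1 ζ.1.2 (ζ.2 i) :=
        funext fun i => swz_snd hV h hkn hζ i
      rw [h1, orthonormal_iff_ite]
      intro i j
      rw [h.inner_lf hζ.1 (hm i) (hm j)]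
      exact orthonormal_iff_ite.1 hζ.2.2 i j

/-- **`T_J` at the swapped point is the transpose of `F_J`** -/
theorem TJ_swz (hkn : k < n) (hζ : ζ ∈ ZZ S PV) :
    TJ G PV (swz G PV ζ) = (FJ G PV ζ).transpose := by
  have hm : ∀ i, ζ.2 i ∈ Vs G ζ.1.1 ζ.1.2 := mem_Vs_of_ZZ hV hζ
  have h1 := (pencil_ZZ hV h hζ).tj_transpose (mP_transpose hV hζ.1)
    (mP_transpose hV (FF_symm hζ.1))
  rw [← mS_lf hV h hζ.1 (hm 0), ← mS_lf hV h hζ.1 (hm 1), ← swz_snd hV h hkn hζ,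
    ← swz_snd hV h hkn hζ] at h1
  exact h1

theorem map_TJ (hkn : k < n) (hZ : Sub d (ZZ S PV)) (j : ℕ) :
    CW.H.map (smap_swz hV h hkn) (CW.sc hZ (idf_TJ hV h) j) =
      (-1) ^ j * CW.sc hZ (idf_FJ hV h) j := by
  rw [CW.map_sc hZ hZ, ← CW.sc_transpose hZ (idf_FJ hV h) j]
  exact CW.sc_congr hZ _ _ (fun ζ hζ => TJ_swz hV h hkn hζ) j

/-! ### the line -/

omit hV h in
lemma LL_apply (ζ : (Euc N × Euc N) × (Fin 2 → Euc N)) (a b : Fin N) :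
    LL ζ a b = (1 / 2) * ((ζ.2 0 a - Complex.I * ζ.2 1 a) * (ζ.2 0 b + Complex.I * ζ.2 1 b)) :=
  rfl

omit hV h in
lemma bas_repr (v : Euc N) (c : Fin N) : (bas N).repr v c = v c := by
  simp [bas]

omit hV h in
/-- a real operator applied to `ℓ` -/
lemma mE_LL (T : Euc N →L[ℝ] Euc N) (ζ : (Euc N × Euc N) × (Fin 2 → Euc N)) (a b : Fin N) :
    (SP.cr (mE T) * LL ζ) a b = (1 / 2) * (((T (ζ.2 0) a : ℝ) - Complex.I * (T (ζ.2 1) a : ℝ)) *
      (ζ.2 0 b + Complex.I * ζ.2 1 b)) := by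
  have h1 : ∀ v : Euc N, ((T v a : ℝ) : ℂ) = ∑ c, (mE T a c : ℂ) * (v c : ℂ) := by
    intro v
    have h2 := congrFun (SP.mt_mulVec (bas N) (bas N) T v) a
    rw [bas_repr] at h2
    rw [← h2, Matrix.mulVec, dotProduct]
    push_cast
    exact Finset.sum_congr rfl fun c _ => by rw [bas_repr]
  rw [h1, h1, Matrix.mul_apply, Finset.mul_sum, ← Finset.sum_sub_distrib, Finset.sum_mul,
    Finset.mul_sum]
  refine Finset.sum_congr rfl fun c _ => ?_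
  rw [SP.cr_apply, LL_apply]
  ring

omit hV h in
lemma LL_mE (T : Euc N →L[ℝ] Euc N) (ζ : (Euc N × Euc N) × (Fin 2 → Euc N)) (a b : Fin N) :
    (LL ζ * (SP.cr (mE T)).transpose) a b = (1 / 2) * ((ζ.2 0 a - Complex.I * ζ.2 1 a) *
      ((T (ζ.2 0) b : ℝ) + Complex.I * (T (ζ.2 1) b : ℝ))) := by
  have h1 : ∀ v : Euc N, ((T v b : ℝ) : ℂ) = ∑ c, (mE T b c : ℂ) * (v c : ℂ) := by
    intro v
    have h2 := congrFun (SP.mt_mulVec (bas N) (bas N) T v) b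
    rw [bas_repr] at h2
    rw [← h2, Matrix.mulVec, dotProduct]
    push_cast
    exact Finset.sum_congr rfl fun c _ => by rw [bas_repr]
  rw [h1, h1, Matrix.mul_apply, Finset.mul_sum, ← Finset.sum_add_distrib, Finset.mul_sum,
    Finset.mul_sum]
  refine Finset.sum_congr rfl fun c _ => ?_
  rw [Matrix.transpose_apply, SP.cr_apply, LL_apply]
  ring

omit hV h in
/-- `M ℓ Mᵀ` is the line of the image plane -/
lemma mE_LL_mE (T : Euc N →L[ℝ] Euc N) (ζ ζ' : (Euc N × Euc N) × (Fin 2 → Euc N))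
    (h' : ∀ i, ζ'.2 i = T (ζ.2 i)) :
    SP.cr (mE T) * LL ζ * (SP.cr (mE T)).transpose = LL ζ' := by
  ext a b
  rw [Matrix.mul_assoc, Matrix.mul_apply]
  have h1 : ∀ c, SP.cr (mE T) a c * (LL ζ * (SP.cr (mE T)).transpose) c b =
      (SP.cr (mE T) a c * (ζ.2 0 c - Complex.I * ζ.2 1 c)) * ((1 / 2) *
        ((T (ζ.2 0) b : ℝ) + Complex.I * (T (ζ.2 1) b : ℝ))) := by
    intro c; rw [LL_mE]; ring
  rw [Finset.sum_congr rfl fun c _ => h1 c, ← Finset.sum_mul]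
  have h2 : ∀ v : Euc N, ((T v a : ℝ) : ℂ) = ∑ c, (mE T a c : ℂ) * (v c : ℂ) := by
    intro v
    have h3 := congrFun (SP.mt_mulVec (bas N) (bas N) T v) a
    rw [bas_repr] at h3
    rw [← h3, Matrix.mulVec, dotProduct]
    push_cast
    exact Finset.sum_congr rfl fun c _ => by rw [bas_repr]
  have h4 : ∑ c, SP.cr (mE T) a c * (ζ.2 0 c - Complex.I * ζ.2 1 c) =
      (T (ζ.2 0) a : ℝ) - Complex.I * (T (ζ.2 1) a : ℝ) := by
    rw [h2, h2, Finset.mul_sum, ← Finset.sum_sub_distrib]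
    refine Finset.sum_congr rfl fun c _ => ?_
    rw [SP.cr_apply]; ring
  rw [h4, LL_apply, h', h']
  ring

omit hV h in
lemma LL_of_fixed (T : Euc N →L[ℝ] Euc N) (h' : ∀ i, T (ζ.2 i) = ζ.2 i) :
    SP.cr (mE T) * LL ζ = LL ζ := by
  ext a b
  rw [mE_LL, h', h', LL_apply]

/-- adjointness of the link isometries -/
lemma inner_lf' {z : Euc N × Euc N} (hz : z ∈ FF S) (x y : Euc N) :
    ⟪lf G z.1 z.2 x, y⟫ = ⟪x, lf G z.2 z.1 y⟫ := by
  have hz' := FF_symm hz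
  have key : ∀ {y : Euc N × Euc N}, y ∈ FF S → ∀ v, lf G y.1 y.2 (PV y v) = lf G y.1 y.2 v := by
    intro y hy v
    have h1 := congrArg (fun M => vec (M.mulVec ((bas N).repr v))) (pIso_lf hV h hy).sp
    simp only [← Matrix.mulVec_mulVec] at h1
    rw [SP.mt_mulVec, SP.mt_mulVec, SP.mt_mulVec] at h1
    have h2 : ∀ u : Euc N, vec ((bas N).repr u) = u := fun u => (bas N).sum_repr u
    rw [h2, h2] at h1
    exact h1
  have hm1 := hV.PV_mem (p := z.1) (q := z.2) hz x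
  have hm2 := h.lf_mem (p := z.2) (q := z.1) hz' y
  have hm3 := hV.PV_mem (p := z.2) (q := z.1) hz' y
  have e1 : ⟪lf G z.1 z.2 x, y⟫ = ⟪lf G z.1 z.2 (PV z x), PV z.swap y⟫ := by
    rw [key hz]
    have h1 := hV.inner_PV (p := z.2) (q := z.1) hz' (lf G z.1 z.2 x) y
    rw [hV.PV_eq_self (p := z.2) (q := z.1) hz' (h.lf_mem (p := z.1) (q := z.2) hz x)] at h1
    exact h1
  have e2 : ⟪x, lf G z.2 z.1 y⟫ = ⟪PV z x, lf G z.2 z.1 (PV z.swap y)⟫ := by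
    have h0 : lf G z.2 z.1 (PV z.swap y) = lf G z.2 z.1 y := key hz' y
    rw [h0]
    have h1 := hV.inner_PV (p := z.1) (q := z.2) hz x (lf G z.2 z.1 y)
    rw [hV.PV_eq_self (p := z.1) (q := z.2) hz hm2] at h1
    exact h1.symm
  rw [e1, e2]
  have h3 := h.inner_lf (p := z.1) (q := z.2) hz hm1
    (h.lf_mem (p := z.2) (q := z.1) hz' (PV z.swap y))
  have h4 := h.lf_lf (p := z.2) (q := z.1) hz' hm3
  have h5 : PV z.swap y = lf G z.1 z.2 (lf G z.2 z.1 (PV z.swap y)) := h4.symm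
  conv_lhs => rw [h5]
  exact h3

lemma lf_transpose {z : Euc N × Euc N} (hz : z ∈ FF S) :
    (mE (lf G z.1 z.2)).transpose = mE (lf G z.2 z.1) := by
  ext i j
  change SP.mt (bas N) (bas N) (lf G z.1 z.2) j i = SP.mt (bas N) (bas N) (lf G z.2 z.1) i j
  rw [mt_bas, mt_bas, real_inner_comm, inner_lf' hV h hz]

/-- `ℓ` at the swapped point -/
theorem LL_swz (hkn : k < n) (hζ : ζ ∈ ZZ S PV) :
    SP.PIso (LL ζ) (LL (swz G PV ζ)) (SP.cr (LM G PV ζ.1) * LL ζ)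
      (LL ζ * (SP.cr (LM G PV ζ.1)).transpose) := by
  have hP' := mE_LL_mE (lf G ζ.1.1 ζ.1.2) ζ (swz G PV ζ) (fun i => swz_snd hV h hkn hζ i)
  have hLL : LL ζ * LL ζ = LL ζ := (idf_LL (PV := PV)).idem ζ hζ
  rw [LM_eq hV h hkn hζ.1]
  set M := SP.cr (mE (lf G ζ.1.1 ζ.1.2)) with hM
  have hMM : M.transpose * M * LL ζ = LL ζ := by
    rw [hM, SP.cr_transpose, lf_transpose hV h hζ.1, ← SP.cr_mul, (pIso_lf hV h hζ.1).ws]
    exact LL_of_fixed _ hζ.2.1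
  have e1 : LL ζ * M.transpose * (M * LL ζ) = LL ζ := by
    rw [Matrix.mul_assoc, ← Matrix.mul_assoc M.transpose, hMM, hLL]
  rw [← hP']
  refine ⟨?_, ?_, ?_, ?_, e1, ?_⟩
  · rw [Matrix.mul_assoc, hLL]
  · rw [Matrix.mul_assoc (M * LL ζ), ← Matrix.mul_assoc M.transpose, hMM, Matrix.mul_assoc, hLL]
  · have h1 : LL ζ * M.transpose * (M * LL ζ * M.transpose) =
        LL ζ * M.transpose * (M * LL ζ) * M.transpose := by
      simp only [Matrix.mul_assoc]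
    rw [h1, e1]
  · rw [← Matrix.mul_assoc, hLL]
  · rw [Matrix.mul_assoc, ← Matrix.mul_assoc (LL ζ), hLL, ← Matrix.mul_assoc]

theorem map_LL (hkn : k < n) (hZ : Sub d (ZZ S PV)) (j : ℕ) :
    CW.H.map (smap_swz hV h hkn) (CW.sc hZ (idf_LL (PV := PV) (S := S)) j) =
      CW.sc hZ idf_LL j := by
  rw [CW.map_sc hZ hZ]
  symm
  refine CW.sc_iso hZ idf_LL _ (S := fun ζ => SP.cr (LM G PV ζ.1) * LL ζ) ?_ ?_ j
  · intro ζ hζ
    have h1 : SP.MSm ∞ (fun y : (Euc N × Euc N) × (Fin 2 → Euc N) => LM G PV y.1) ζ :=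
      fun a b => ContDiffAt.comp (g := fun z => LM G PV z a b) ζ
        (smooth_LM hV h hkn hζ.1 a b) (smooth_z ζ)
    exact h1.cr.mul (smooth_LL ζ)
  · intro ζ hζ
    exact ⟨_, LL_swz hV h hkn hζ⟩

/-! ### `V ⊗ ℂ = ℓ + conj ℓ + V₀` -/

omit hV h in
lemma LL_mul_conj (hζ : ζ ∈ ZZ S PV) : LL ζ * (LL ζ).map (starRingEnd ℂ) = 0 := by
  have h0 := dot_self (hζ.2.2.1 0)
  have h1 := dot_self (hζ.2.2.1 1)
  have h01 : ∑ c, (ζ.2 0 c) * (ζ.2 1 c) = 0 := by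
    have h2 : ⟪ζ.2 0, ζ.2 1⟫ = 0 := hζ.2.2.2 (show (0 : Fin 2) ≠ 1 by decide)
    rw [PiLp.inner_apply] at h2
    rw [← h2]
    exact Finset.sum_congr rfl fun c _ => by simp [mul_comm]
  have h3 : ∑ c, ((ζ.2 0 c : ℂ) + Complex.I * ζ.2 1 c) * ((ζ.2 0 c : ℂ) + Complex.I * ζ.2 1 c)
      = 0 := by
    have h4 : ∀ c, ((ζ.2 0 c : ℂ) + Complex.I * ζ.2 1 c) * ((ζ.2 0 c : ℂ) + Complex.I * ζ.2 1 c)
        = ((ζ.2 0 c * ζ.2 0 c : ℝ) : ℂ) - ((ζ.2 1 c * ζ.2 1 c : ℝ) : ℂ) +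
          2 * Complex.I * ((ζ.2 0 c * ζ.2 1 c : ℝ) : ℂ) := by
      intro c
      push_cast
      linear_combination (ζ.2 1 c : ℂ) * (ζ.2 1 c : ℂ) * Complex.I_mul_I
    rw [Finset.sum_congr rfl fun c _ => h4 c, Finset.sum_add_distrib, Finset.sum_sub_distrib,
      ← Finset.mul_sum, ← Complex.ofReal_sum, ← Complex.ofReal_sum, ← Complex.ofReal_sum, h01]
    rw [dotProduct] at h0 h1
    rw [h0, h1]; simp
  ext a b
  rw [Matrix.mul_apply]
  have h5 : ∀ c, LL ζ a c * ((LL ζ).map (starRingEnd ℂ)) c b =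
      (1 / 4 * (ζ.2 0 a - Complex.I * ζ.2 1 a) * (ζ.2 0 b - Complex.I * ζ.2 1 b)) *
        (((ζ.2 0 c : ℂ) + Complex.I * ζ.2 1 c) * ((ζ.2 0 c : ℂ) + Complex.I * ζ.2 1 c)) := by
    intro c
    rw [Matrix.map_apply, LL_apply, LL_apply]
    simp only [map_mul, map_sub, map_add, map_div₀, map_one, map_ofNat, Complex.conj_ofReal,
      Complex.conj_I]
    ring
  rw [Finset.sum_congr rfl fun c _ => h5 c, ← Finset.mul_sum, h3, mul_zero]
  rfl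

omit hV h in
lemma LL_hermitian (ζ : (Euc N × Euc N) × (Fin 2 → Euc N)) :
    (LL ζ).transpose = (LL ζ).map (starRingEnd ℂ) := by
  ext a b
  rw [Matrix.transpose_apply, Matrix.map_apply, LL_apply, LL_apply]
  simp only [map_mul, map_sub, map_add, map_div₀, map_one, map_ofNat, Complex.conj_ofReal,
    Complex.conj_I]
  ring

omit hV h in
lemma conj_mul_LL (hζ : ζ ∈ ZZ S PV) : (LL ζ).map (starRingEnd ℂ) * LL ζ = 0 := by
  have h1 := congrArg (fun M => M.map (starRingEnd ℂ)) (LL_mul_conj hζ)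
  simp only [Matrix.map_mul, Matrix.map_map] at h1
  have h2 : (LL ζ).map (⇑(starRingEnd ℂ) ∘ ⇑(starRingEnd ℂ)) = LL ζ := by
    ext a b; simp
  rw [h2] at h1
  rw [h1]; ext a b; simp

/-- `V₀ = V ⊖ ⟨v₀, v₁⟩` (complexified) -/
def V0 (PV : Euc N × Euc N → Euc N →L[ℝ] Euc N) (ζ : (Euc N × Euc N) × (Fin 2 → Euc N)) :
    Matrix (Fin N) (Fin N) ℂ := mV PV ζ.1 - (LL ζ + (LL ζ).map (starRingEnd ℂ))

omit hV h in
lemma mV_LL (hζ : ζ ∈ ZZ S PV) : mV PV ζ.1 * LL ζ = LL ζ := LL_of_fixed _ hζ.2.1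

omit h in
lemma mV_transpose (hζ : ζ ∈ ZZ S PV) : (mV PV ζ.1).transpose = mV PV ζ.1 := by
  rw [mV, SP.cr_transpose]
  congr 1
  ext i j
  rw [Matrix.transpose_apply, mt_bas, mt_bas, real_inner_comm,
    hV.inner_PV (p := ζ.1.1) (q := ζ.1.2) hζ.1]

omit hV h in
lemma mV_conj (ζ : (Euc N × Euc N) × (Fin 2 → Euc N)) :
    (mV PV ζ.1).map (starRingEnd ℂ) = mV PV ζ.1 := by
  ext i j; simp [mV]

omit hV h in
lemma mV_conjLL (hζ : ζ ∈ ZZ S PV) :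
    mV PV ζ.1 * (LL ζ).map (starRingEnd ℂ) = (LL ζ).map (starRingEnd ℂ) := by
  have h1 := congrArg (fun M => M.map (starRingEnd ℂ)) (mV_LL hζ)
  simp only [Matrix.map_mul, mV_conj] at h1
  exact h1

omit h in
lemma LL_mV (hζ : ζ ∈ ZZ S PV) : LL ζ * mV PV ζ.1 = LL ζ := by
  have h1 := congrArg Matrix.transpose (mV_conjLL hζ)
  rw [Matrix.transpose_mul, mV_transpose hV hζ, ← LL_hermitian, Matrix.transpose_transpose] at h1
  exact h1

omit h in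
lemma conjLL_mV (hζ : ζ ∈ ZZ S PV) :
    (LL ζ).map (starRingEnd ℂ) * mV PV ζ.1 = (LL ζ).map (starRingEnd ℂ) := by
  have h1 := congrArg Matrix.transpose (mV_LL hζ)
  rw [Matrix.transpose_mul, mV_transpose hV hζ, LL_hermitian] at h1
  exact h1

omit hV h in
lemma idf_LLc : IdF (ZZ S PV) (fun ζ => LL ζ + (LL ζ).map (starRingEnd ℂ)) :=
  ⟨fun ζ hζ => (idf_LL.smooth ζ hζ).add (idf_LL.conj.smooth ζ hζ), fun ζ hζ => by
    have h1 : LL ζ * LL ζ = LL ζ := (idf_LL (PV := PV)).idem ζ hζ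
    have h2 : (LL ζ).map (starRingEnd ℂ) * (LL ζ).map (starRingEnd ℂ) =
      (LL ζ).map (starRingEnd ℂ) := (idf_LL (PV := PV)).conj.idem ζ hζ
    rw [add_mul, mul_add, mul_add, h1, h2, LL_mul_conj hζ, conj_mul_LL hζ, add_zero, zero_add]⟩

omit h in
lemma idf_V0 : IdF (ZZ S PV) (V0 PV) :=
  ⟨fun ζ hζ => (((idf_mV hV).comp smap_fst).smooth ζ hζ).sub (idf_LLc.smooth ζ hζ),
    fun ζ hζ => by
    have h1 : mV PV ζ.1 * mV PV ζ.1 = mV PV ζ.1 := (idf_mV hV).idem _ hζ.1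
    have h2 : (LL ζ + (LL ζ).map (starRingEnd ℂ)) * (LL ζ + (LL ζ).map (starRingEnd ℂ)) =
      LL ζ + (LL ζ).map (starRingEnd ℂ) := idf_LLc.idem ζ hζ
    have h3 : mV PV ζ.1 * (LL ζ + (LL ζ).map (starRingEnd ℂ)) =
      LL ζ + (LL ζ).map (starRingEnd ℂ) := by rw [mul_add, mV_LL hζ, mV_conjLL hζ]
    have h4 : (LL ζ + (LL ζ).map (starRingEnd ℂ)) * mV PV ζ.1 =
      LL ζ + (LL ζ).map (starRingEnd ℂ) := by rw [add_mul, LL_mV hV hζ, conjLL_mV hV hζ]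
    rw [V0, sub_mul, mul_sub, mul_sub, h1, h2, h3, h4, sub_self, sub_zero]⟩

omit h in
/-- `V ⊗ ℂ = ℓ + conj ℓ + V₀` on classes -/
theorem sc_V (hZ : Sub d (ZZ S PV)) (j : ℕ) : CW.sc hZ ((idf_mV hV).comp smap_fst) j =
    (1 + (-1) ^ j) * CW.sc hZ (idf_LL (PV := PV) (S := S)) j + CW.sc hZ (idf_V0 hV) j := by
  have h1 := CW.sc_add_conj hZ (idf_LLc (PV := PV) (S := S)) idf_LL (fun ζ _ => rfl)
    (fun ζ hζ => LL_mul_conj hζ) (fun ζ hζ => conj_mul_LL hζ) j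
  rw [← h1]
  refine CW.sc_orth hZ _ idf_LLc (idf_V0 hV) ?_ ?_ ?_ j
  · intro ζ _
    rw [V0, add_sub_cancel]
  · intro ζ hζ
    have h2 : (LL ζ + (LL ζ).map (starRingEnd ℂ)) * (LL ζ + (LL ζ).map (starRingEnd ℂ)) =
      LL ζ + (LL ζ).map (starRingEnd ℂ) := (idf_LLc (PV := PV)).idem ζ hζ
    rw [V0, mul_sub, add_mul, LL_mV hV hζ, conjLL_mV hV hζ, h2, sub_self]
  · intro ζ hζ
    have h2 : (LL ζ + (LL ζ).map (starRingEnd ℂ)) * (LL ζ + (LL ζ).map (starRingEnd ℂ)) =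
      LL ζ + (LL ζ).map (starRingEnd ℂ) := (idf_LLc (PV := PV)).idem ζ hζ
    rw [V0, sub_mul, mul_add, mV_LL hζ, mV_conjLL hζ, h2, sub_self]

end Crest.Agent.R208.GT
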