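import Crest.Agent.R208.DD2
import Crest.Agent.R208.HW2
import Crest.Agent.R208.NB9
import Crest.Agent.R208.CM6b

/-! Row 208, block DD (helper683).  DD3: the doubled bundle over `US G` and over `US G × S^(2k+1)`;
Chern forms of the descended fields over `B'` are pulled back from `B`. -/

set_option autoImplicit false
set_option linter.unusedSectionVars false
set_option linter.unusedVariables false
set_option linter.unusedSimpArgs false

open Set Filter Topology Module MeasureTheory Matrix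
open scoped ContDiff RealInnerProductSpace ComplexConjugate Kronecker
open Crest.Agent.R208.F Crest.Agent.R208.FI Crest.Agent.R208.CW
open Crest.Agent.R208.CM
open Crest.Agent.R208.T
open Crest.Agent.R208.EW

noncomputable section

namespace Crest.Agent.R208.DD

/-! ### comparison of two quotients -/
section map
variable {E E' : Type} [NormedAddCommGroup E] [NormedSpace ℝ E] [FiniteDimensional ℝ E]
  [NormedAddCommGroup E'] [NormedSpace ℝ E'] [FiniteDimensional ℝ E']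
  {a p₁ p₂ : Type} [Fintype a] [DecidableEq a] [Fintype p₁] [DecidableEq p₁] [Fintype p₂]
  [DecidableEq p₂]
  {X : Set E} {φ : ℝ → E → E} {m m' d d' r : ℕ} {g : E → Fin m → ℂ}
  {X' : Set E'} {φ' : ℝ → E' → E'} {g' : E' → Fin m' → ℂ} {f : E' → E} {p : MM m' → MM m} {c : ℝ}
  {R : ℝ → EuclideanSpace ℝ a →L[ℝ] EuclideanSpace ℝ a}
  {N : E → EuclideanSpace ℝ a →L[ℝ] EuclideanSpace ℝ a}
  {Tr : E → EuclideanSpace ℝ a →L[ℝ] EuclideanSpace ℝ p₁}
  {P' : MM m → EuclideanSpace ℝ p₁ →L[ℝ] EuclideanSpace ℝ p₁}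
  {Tr' : E' → EuclideanSpace ℝ a →L[ℝ] EuclideanSpace ℝ p₂}
  {P'' : MM m' → EuclideanSpace ℝ p₂ →L[ℝ] EuclideanSpace ℝ p₂}

/-- pull back of an equivariant field along a map intertwining the actions up to the speed `c` -/
theorem EqF.pull (h : EqF X φ R r N) (hR' : Rep fun t => R (c * t)) (hf : SMap X' X f)
    (hfc : ∀ z ∈ X', ∀ t, f (φ' t z) = φ (c * t) (f z)) :
    EqF X' φ' (fun t => R (c * t)) r (fun z => N (f z)) where
  rep := hR'
  pf := ⟨fun z hz => (h.pf.smooth _ (hf.maps hz)).comp z (hf.smooth z hz),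
    fun z hz => h.pf.idem _ (hf.maps hz), fun z hz => h.pf.rank _ (hf.maps hz)⟩
  sy z hz := h.sy _ (hf.maps hz)
  eq z hz t v := by rw [hfc z hz t]; exact h.eq _ (hf.maps hz) (c * t) v

/-- the intertwiner between the two descended fields -/
def Sx (Tr : E → EuclideanSpace ℝ a →L[ℝ] EuclideanSpace ℝ p₁)
    (N : E → EuclideanSpace ℝ a →L[ℝ] EuclideanSpace ℝ a)
    (Tr' : E' → EuclideanSpace ℝ a →L[ℝ] EuclideanSpace ℝ p₂) (f : E' → E) (z : E') :
    EuclideanSpace ℝ p₂ →L[ℝ] EuclideanSpace ℝ p₁ :=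
  (Tr (f z)).comp ((N (f z)).comp (ContinuousLinearMap.adjoint (Tr' z)))

theorem mc_Sx (z : E') : EW.mc (Sx Tr N Tr' f z)
    = EW.mc (Tr (f z)) * EW.mc (N (f z)) * (EW.mc (Tr' z))ᵀ := by
  rw [Sx, mc_comp, mc_comp, mc_adj, Matrix.mul_assoc]

theorem contDiffAt_Sx (hT : Triv X φ R Tr) (hf : SMap X' X f)
    (hT' : Triv X' φ' (fun t => R (c * t)) Tr') (hN : PField X r N) {z : E'} (hz : z ∈ X') :
    ContDiffAt ℝ ∞ (Sx Tr N Tr' f) z := by
  have ha : ContDiffAt ℝ ∞ (fun y => ContinuousLinearMap.adjoint (Tr' y)) z :=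
    (ContinuousLinearMap.adjoint (𝕜 := ℝ) (E := EuclideanSpace ℝ a)
      (F := EuclideanSpace ℝ p₂)).toContinuousLinearEquiv.contDiff.contDiffAt.comp z
        (hT'.smooth z hz)
  exact ((hT.smooth _ (hf.maps hz)).comp z (hf.smooth z hz)).clm_comp
    (((hN.smooth _ (hf.maps hz)).comp z (hf.smooth z hz)).clm_comp ha)

theorem Sx_inv (h : EqF X φ R r N) (hT : Triv X φ R Tr) (hf : SMap X' X f)
    (hR' : Rep fun t => R (c * t)) (hfc : ∀ z ∈ X', ∀ t, f (φ' t z) = φ (c * t) (f z))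
    (hT' : Triv X' φ' (fun t => R (c * t)) Tr') {z : E'} (hz : z ∈ X') (t : ℝ) :
    Sx Tr N Tr' f (φ' t z) = Sx Tr N Tr' f z := by
  ext1 v
  change Tr (f (φ' t z)) (N (f (φ' t z)) (ContinuousLinearMap.adjoint (Tr' (φ' t z)) v))
    = Tr (f z) (N (f z) (ContinuousLinearMap.adjoint (Tr' z) v))
  rw [hT'.adj_equi hR' hz, hfc z hz t, h.eq _ (hf.maps hz), hT.equi _ (hf.maps hz)]

/-- **the Chern classes of the descended field over `B'` are pulled back from `B`** -/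
theorem cs_map_desc (hg : Emb X φ g) (hC : Cir X φ) (hX : Clo (d + 1) X)
    (hg' : Emb X' φ' g') (hC' : Cir X' φ') (hX' : Clo (d' + 1) X') (hf : SMap X' X f)
    (hR' : Rep fun t => R (c * t)) (hfc : ∀ z ∈ X', ∀ t, f (φ' t z) = φ (c * t) (f z))
    (hp : ContDiff ℝ ∞ p) (hpq : ∀ z ∈ X', p (jj g' z) = jj g (f z)) (h : EqF X φ R r N)
    (D : Dsc X g φ R r N Tr P')
    (D' : Dsc X' g' φ' (fun t => R (c * t)) r (fun z => N (f z)) Tr' P'')
    (hsm : SMap (Quo X' g') (Quo X g) p) :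
    cs (hg'.sub_Quo hC' hX') (idF_of_pfield D'.pf)
      = cs (hg'.sub_Quo hC' hX') ((idF_of_pfield D.pf).comp hsm) := by
  obtain ⟨F, hF, hF'⟩ := hg'.exists_desc hC' hX' (f := Sx Tr N Tr' f)
    (fun z hz => contDiffAt_Sx D.triv hf D'.triv h.pf hz)
    (fun z hz t => Sx_inv h D.triv hf hR' hfc D'.triv hz t)
  refine cs_iso _ _ _ (S := fun y => EW.mc (F y))
    (fun y _ i j => contDiffAt_mc hF.contDiffAt i j) ?_
  rintro _ ⟨z, hz, rfl⟩
  have hfz := hf.maps hz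
  have t1 : (EW.mc (Tr (f z)))ᵀ * EW.mc (Tr (f z)) = 1 := mc_iso (D.triv.iso _ hfz)
  have t2 : (EW.mc (Tr' z))ᵀ * EW.mc (Tr' z) = 1 := mc_iso (D'.triv.iso _ hz)
  have nn : EW.mc (N (f z)) * EW.mc (N (f z)) = EW.mc (N (f z)) := by
    rw [← mc_comp]
    congr 1
    ext1 v
    exact h.pf.idem _ hfz v
  have e1 : mtx (P'' (jj g' z)) = EW.mc (Tr' z) * EW.mc (N (f z)) * (EW.mc (Tr' z))ᵀ := by
    rw [D'.eq z hz, mc_Qd]
  have e2 : mtx (P' (p (jj g' z)))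
      = EW.mc (Tr (f z)) * EW.mc (N (f z)) * (EW.mc (Tr (f z)))ᵀ := by
    rw [hpq z hz, D.eq _ hfz, mc_Qd]
  have e3 : EW.mc (F (jj g' z)) = EW.mc (Tr (f z)) * EW.mc (N (f z)) * (EW.mc (Tr' z))ᵀ := by
    rw [hF' z hz, mc_Sx]
  refine ⟨EW.mc (Tr' z) * EW.mc (N (f z)) * (EW.mc (Tr (f z)))ᵀ, ?_⟩
  rw [e1, e2, e3]
  generalize EW.mc (Tr (f z)) = A at *
  generalize EW.mc (Tr' z) = B at *
  generalize EW.mc (N (f z)) = M at *
  have key : ∀ {u v w x : Type} [Fintype u] [Fintype v] [Fintype w] [Fintype x] [DecidableEq a]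
      (C : Matrix u a ℂ) (K : Matrix v a ℂ) (L : Matrix x a ℂ), Kᵀ * K = 1 →
      (C * M * Kᵀ) * (K * M * Lᵀ) = C * M * Lᵀ := fun C K L hK => by
    calc (C * M * Kᵀ) * (K * M * Lᵀ) = C * (M * (Kᵀ * K) * M) * Lᵀ := by
          simp only [Matrix.mul_assoc]
      _ = _ := by rw [hK, Matrix.mul_one, nn]
  refine ⟨?_, ?_, ?_, ?_, ?_, ?_⟩
  · exact key (w := a) A B B t2
  · exact key (w := a) A A B t1
  · exact key (w := a) B A A t1
  · exact key (w := a) B B A t2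
  · exact key (w := a) B A B t1
  · exact key (w := a) A B A t2

theorem coh_cR_map (hg : Emb X φ g) (hC : Cir X φ) (hX : Clo (d + 1) X)
    (hg' : Emb X' φ' g') (hC' : Cir X' φ') (hX' : Clo (d' + 1) X') (hf : SMap X' X f)
    (hR' : Rep fun t => R (c * t)) (hfc : ∀ z ∈ X', ∀ t, f (φ' t z) = φ (c * t) (f z))
    (hp : ContDiff ℝ ∞ p) (hpq : ∀ z ∈ X', p (jj g' z) = jj g (f z)) (h : EqF X φ R r N)
    (D : Dsc X g φ R r N Tr P')
    (D' : Dsc X' g' φ' (fun t => R (c * t)) r (fun z => N (f z)) Tr' P'') (j : ℕ) :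
    Coh (Quo X' g') (cR j P'') (F.pull p (cR j P')) := by
  have hsm : SMap (Quo X' g') (Quo X g) p := ⟨fun y _ => hp.contDiffAt, by
    rintro _ ⟨z, hz, rfl⟩
    rw [hpq z hz]
    exact jj_mem (hf.maps hz)⟩
  have hB := hg.sub_Quo hC hX
  have hB' := hg'.sub_Quo hC' hX'
  have hI := idF_of_pfield D.pf
  have hI' := idF_of_pfield D'.pf
  have h0 := cs_map_desc hg hC hX hg' hC' hX' hf hR' hfc hp hpq h D D' hsm
  have h1 := cc_map hB' hB hsm hI j
  have h2 : cc hB' hI' j = cc hB' (hI.comp hsm) j := by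
    rw [← coeff_cs, ← coeff_cs, h0]
  have h3 := rcl_cfr hB hI (fun y i j => Complex.ofReal_im _) j
  have h4 := rcl_cfr hB' hI' (fun y i j => Complex.ofReal_im _) j
  have h5 : rcl (ec_cfr hB' hI' j) = rcl ((ec_cfr hB hI j).pull hsm) := by
    rw [rcl_pull hsm (ec_cfr hB hI j), h3, h1, h4, h2]
  exact (rcl_eq_iff _ _).1 h5

end map

/-! ### existence with a free rank -/
section ex
variable {E : Type} [NormedAddCommGroup E] [NormedSpace ℝ E] [FiniteDimensional ℝ E]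
  {a ι : Type} [Fintype a] [DecidableEq a] [Fintype ι] [DecidableEq ι]
  {X : Set E} {φ : ℝ → E → E} {m d r : ℕ} {g : E → Fin m → ℂ}
  {R : ℝ → EuclideanSpace ℝ a →L[ℝ] EuclideanSpace ℝ a} {w : ℝ}
  {N : E → EuclideanSpace ℝ a →L[ℝ] EuclideanSpace ℝ a}

theorem EqF.or' (h : EqF X φ R r N) (hι : Fintype.card ι = r) : OR (ι := ι) X (NN N) (Wc ι N) := by
  subst hι; exact h.or

theorem EqF.exists_dsc2' (h : EqF X φ R r N) (hι : Fintype.card ι = r) (hg : Emb X φ g)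
    (hC : Cir X φ) (hX : Clo (d + 1) X) (hw : ∃ k : ℤ, w = k) :
    ∃ (q : ℕ) (T₂ : E → EuclideanSpace ℝ (a ⊕ a) →L[ℝ] EuclideanSpace ℝ (Fin q))
      (P₂ : MM m → EuclideanSpace ℝ (Fin q) →L[ℝ] EuclideanSpace ℝ (Fin q))
      (W₂ : MM m → (ι × Fin 2 → Fin q) → ℝ), Dsc2 ι X g φ R w N T₂ P₂ W₂ := by
  subst hι; exact h.exists_dsc2 hg hC hX hw

end ex

/-! ### the half-weight construction -/
section hd
variable {k : ℕ} {E : Type} [NormedAddCommGroup E] [NormedSpace ℝ E] [FiniteDimensional ℝ E]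
  {a p₁ p₂ : Type} [Fintype a] [DecidableEq a] [Fintype p₁] [DecidableEq p₁] [Fintype p₂]
  [DecidableEq p₂]
  {X : Set E} {φ : ℝ → E → E} {n m m' r : ℕ} {g : E → Fin m → ℂ} {g' : E × HW.U k → Fin m' → ℂ}
  {p : MM m' → MM m} {R : ℝ → EuclideanSpace ℝ a →L[ℝ] EuclideanSpace ℝ a}
  {N : E → EuclideanSpace ℝ a →L[ℝ] EuclideanSpace ℝ a}
  {Tr : E → EuclideanSpace ℝ a →L[ℝ] EuclideanSpace ℝ p₁}
  {P' : MM m → EuclideanSpace ℝ p₁ →L[ℝ] EuclideanSpace ℝ p₁}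
  {Tr' : E × HW.U k → EuclideanSpace ℝ a →L[ℝ] EuclideanSpace ℝ p₂}
  {P'' : MM m' → EuclideanSpace ℝ p₂ →L[ℝ] EuclideanSpace ℝ p₂}
  {al : E × HW.U k → Ext (E × HW.U k)} {Fc : MM m' → Ext (MM m')}

/-- the field over `X' = X × S^(2k+1)` -/
theorem EqF.xx (h : EqF X φ R r N) (k : ℕ) :
    EqF (HW.XX X k) (HW.ph k φ) (fun t => R (2 * t)) r (fun z => N z.1) :=
  h.pull h.rep.two HW.smap_fst fun z _ t => rfl

/-- **Chern forms over `B'` are pulled back from `B`** -/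
theorem coh_cR_xx (H : HW.HD n k X φ g g' p) (h : EqF X φ R r N) (D : Dsc X g φ R r N Tr P')
    (D' : Dsc (HW.XX X k) g' (HW.ph k φ) (fun t => R (2 * t)) r (fun z => N z.1) Tr' P'') (j : ℕ) :
    Coh (Quo (HW.XX X k) g') (cR j P'') (F.pull p (cR j P')) :=
  coh_cR_map H.emb H.cir H.clo H.emb' H.cir' H.clo' HW.smap_fst h.rep.two (fun z _ t => rfl)
    H.smooth H.eq h D D' j

/-- the Euler class polynomial over `B'`, in terms of the field over `B` -/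
def top7' (p : MM m' → MM m) (P' : MM m → EuclideanSpace ℝ p₁ →L[ℝ] EuclideanSpace ℝ p₁)
    (Fc : MM m' → Ext (MM m')) : MM m' → Ext (MM m') :=
  Fc ^ 7 - F.pull p (cR 2 P') * Fc ^ 5 + F.pull p (cR 4 P') * Fc ^ 3 - F.pull p (cR 6 P') * Fc

theorem coh_top7 (H : HW.HD n k X φ g g' p) (h : EqF X φ R r N) (D : Dsc X g φ R r N Tr P')
    (D' : Dsc (HW.XX X k) g' (HW.ph k φ) (fun t => R (2 * t)) r (fun z => N z.1) Tr' P'')
    (hE : EC (Quo (HW.XX X k) g') Fc) :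
    Coh (Quo (HW.XX X k) g') (top7 1 P'' Fc) (top7' p P' Fc) := by
  have hB := H.emb.sub_Quo H.cir H.clo
  have hB' := H.emb'.sub_Quo H.cir' H.clo'
  have hI := idF_of_pfield D.pf
  have hI' := idF_of_pfield D'.pf
  have e : ∀ j, EC (Quo (HW.XX X k) g') (cR j P'') := fun j => ec_cfr hB' hI' j
  have e' : ∀ j, EC (Quo (HW.XX X k) g') (F.pull p (cR j P')) := fun j =>
    (ec_cfr hB hI j).pull H.smap
  have c : ∀ j, rcl (e j) = rcl (e' j) := fun j => (rcl_eq_iff _ _).2 (coh_cR_xx H h D D' j)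
  have t : ∀ j i, EC (Quo (HW.XX X k) g') (cR j P'' * Fc ^ i) := fun j i => (e j).mul (hE.pow i)
  have t' : ∀ j i, EC (Quo (HW.XX X k) g') (F.pull p (cR j P') * Fc ^ i) := fun j i =>
    (e' j).mul (hE.pow i)
  have ct : ∀ j i, rcl (t j i) = rcl (t' j i) := fun j i => by
    rw [rcl_mul (e j) (hE.pow i), rcl_mul (e' j) (hE.pow i), c j]
  have A : EC (Quo (HW.XX X k) g') (top7 1 P'' Fc) :=
    ((((hE.pow 7).smul _).add ((t 2 5).smul _)).add ((t 4 3).smul _)).add (((e 6).mul hE).smul _)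
  have hh : EC (Quo (HW.XX X k) g') ((1 : ℝ) • Fc ^ 7 + (-1 : ℝ) • (F.pull p (cR 2 P') * Fc ^ 5)
      + (1 : ℝ) • (F.pull p (cR 4 P') * Fc ^ 3) + (-1 : ℝ) • (F.pull p (cR 6 P') * Fc)) :=
    ((((hE.pow 7).smul _).add ((t' 2 5).smul _)).add ((t' 4 3).smul _)).add
      (((e' 6).mul hE).smul _)
  have hA : rcl A = rcl hh := by
    have a1 : rcl A = rcl ((hE.pow 7).smul (1 ^ 7)) + rcl ((t 2 5).smul (-(1 ^ 5)))
        + rcl ((t 4 3).smul (1 ^ 3)) + rcl (((e 6).mul hE).smul (-1)) := by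
      rw [← rcl_add ((hE.pow 7).smul (1 ^ 7)) ((t 2 5).smul (-(1 ^ 5))),
        ← rcl_add (((hE.pow 7).smul (1 ^ 7)).add ((t 2 5).smul (-(1 ^ 5))))
          ((t 4 3).smul (1 ^ 3)),
        ← rcl_add ((((hE.pow 7).smul (1 ^ 7)).add ((t 2 5).smul (-(1 ^ 5)))).add
          ((t 4 3).smul (1 ^ 3))) (((e 6).mul hE).smul (-1))]
      rfl
    have a2 : rcl hh = rcl ((hE.pow 7).smul 1) + rcl ((t' 2 5).smul (-1))
        + rcl ((t' 4 3).smul 1) + rcl (((e' 6).mul hE).smul (-1)) := by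
      rw [← rcl_add ((hE.pow 7).smul 1) ((t' 2 5).smul (-1)),
        ← rcl_add (((hE.pow 7).smul 1).add ((t' 2 5).smul (-1)))
          ((t' 4 3).smul 1),
        ← rcl_add ((((hE.pow 7).smul 1).add ((t' 2 5).smul (-1))).add
          ((t' 4 3).smul 1)) (((e' 6).mul hE).smul (-1))]
    have c6 : rcl ((e 6).mul hE) = rcl ((e' 6).mul hE) := by
      rw [rcl_mul (e 6) hE, rcl_mul (e' 6) hE, c 6]
    rw [a1, a2, rcl_smul _ (hE.pow 7), rcl_smul _ (t 2 5), rcl_smul _ (t 4 3),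
      rcl_smul _ ((e 6).mul hE), rcl_smul _ (hE.pow 7), rcl_smul _ (t' 2 5), rcl_smul _ (t' 4 3),
      rcl_smul _ ((e' 6).mul hE), ct, ct, c6]
    norm_num
  have h1 := (rcl_eq_iff _ _).1 hA
  have h2 : ((1 : ℝ) • Fc ^ 7 + (-1 : ℝ) • (F.pull p (cR 2 P') * Fc ^ 5)
      + (1 : ℝ) • (F.pull p (cR 4 P') * Fc ^ 3) + (-1 : ℝ) • (F.pull p (cR 6 P') * Fc))
      = top7' p P' Fc := by
    rw [top7']
    module
  rw [h2] at h1
  exact h1

/-- **THE EULER FORM OF `WW'` OVER `B'`** (rank `14`), either sign of the weight. -/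
theorem exists_WW (H : HW.HD n k X φ g g' p) (hXc : IsPreconnected X) (h : EqF X φ R 7 N)
    (D : Dsc X g φ R 7 N Tr P') (ha : Conn (HW.XX X k) (HW.ph k φ) al)
    (hF : Curv (HW.XX X k) g' al Fc) {s : ℝ} (hs : s = 1 ∨ s = -1)
    {q : Type} [Fintype q] [DecidableEq q]
    {T₂ : E × HW.U k → EuclideanSpace ℝ (a ⊕ a) →L[ℝ] EuclideanSpace ℝ q}
    {P₂ : MM m' → EuclideanSpace ℝ q →L[ℝ] EuclideanSpace ℝ q}
    {W₂ : MM m' → (Fin 7 × Fin 2 → q) → ℝ}
    (D₂ : Dsc2 (Fin 7) (HW.XX X k) g' (HW.ph k φ) (fun t => R (2 * t)) s (fun z => N z.1)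
      T₂ P₂ W₂) :
    ∃ ε : ℝ, (ε = 1 ∨ ε = -1) ∧ Coh (Quo (HW.XX X k) g') (eR P₂ W₂)
      ((ε * (2 ^ 7 * (Nat.factorial 7))) • top7' p P' Fc) := by
  obtain ⟨q', Tr', P'', D'⟩ := (h.xx k).exists_dsc H.emb' H.cir' H.clo'
  have hXX := HW.isPreconnected_XX (k := k) hXc
  have hE : EC (Quo (HW.XX X k) g') Fc := curvEC hF
  have key : ∃ ε : ℝ, (ε = 1 ∨ ε = -1) ∧ Coh (Quo (HW.XX X k) g') (eR P₂ W₂)
      ((ε * (2 ^ 7 * (Nat.factorial 7))) • top7 1 P'' Fc) := by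
    rcases hs with rfl | rfl
    · exact ((h.xx k).dd2 (wgt_one H.emb') D'.triv D₂.triv).coh_eR_one H.emb' H.cir' H.clo' hXX
        D'.pf D'.eq D₂.or (Fintype.card_fin 7) D₂.eqP ha hF
    · exact ((h.xx k).dd2' (wgt_one H.emb') D'.triv D₂.triv).coh_eR_one H.emb' H.cir' H.clo' hXX
        D'.pf D'.eq D₂.or (Fintype.card_fin 7) D₂.eqP ha hF
  obtain ⟨ε, hε, h1⟩ := key
  exact ⟨ε, hε, h1.trans ((coh_top7 H h D D' hE).smul _)⟩

end hd

/-! ### the unit tangent bundle -/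
section us
open Crest.GeometryTopology.Submanifold
open Crest.Agent.R241.DDefs
open Crest.Agent.R241.D2
open Crest.Agent.R208.NN

variable {n N K r : ℕ} {κ δ : ℝ} {S : Set (Euc N)} {G : Geo n N κ S}
  {PN : Euc N × Euc N → Wt N K →L[ℝ] Wt N K}

/-- the negative bundle as an equivariant field over `US G` -/
theorem eqF_US (H : NB.NegB G r (nuP K) δ PN) :
    EqF (L.US G) (gf G) (fun s => (Rt (nuP K) s : Wt N K →L[ℝ] Wt N K)) r PN where
  rep := NB.rep_per N K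
  pf := ⟨H.smooth, fun z _ => H.idem z, H.rank⟩
  sy z _ := H.sy z
  eq z hz t v := H.equi z hz t v

end us

end Crest.Agent.R208.DD

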