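import Crest.Agent.R208.KR9

/-!
R208, block KF (helper844), file KR10: joint smoothness of the fields `xi` and uniform negativity.
-/

set_option autoImplicit false

open Set Filter Topology MeasureTheory Real Module
open scoped RealInnerProductSpace Interval ContDiff
open Crest.GeometryTopology.Submanifold
open Crest.Agent.R241.DDefs
open Crest.Agent.R241.D2
open Crest.Agent.R208.L (om TanTS dfl om_dfl)
open Crest.Agent.R208.FI (Tan Sub)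
open Crest.Agent.R208.NN (Wt nuP qq V0 fd fd' qf Rt ev ev')

noncomputable section

namespace Crest.Agent.R208.KR

variable {n N k K : ℕ} {κ : ℝ} {S : Set (Euc N)} {G : Geo n N κ S} {z ξ η : Euc N × Euc N}
  {h : GT.Bla G k} {P : Euc N × Euc N → Wt N K →L[ℝ] Wt N K} {a b : Wt N K}

/-- the parameter space: `((z, (a, b)), (s, t))` -/
abbrev Par (N K : ℕ) : Type := ((Euc N × Euc N) × (Wt N K × Wt N K)) × (ℝ × ℝ)

/-- the family of fields: `s` is the parameter of the angle `Θ (s, ·)`, `t` is the time -/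
def xF (h : GT.Bla G k) (P : Euc N × Euc N → Wt N K →L[ℝ] Wt N K) (Θ Θ' : ℝ × ℝ → ℝ)
    (p : Par N K) : Euc N :=
  xi G p.1.1 (C1 h P p.1.1 (fun r => Θ (p.2.1, r)) (fun r => Θ' (p.2.1, r)) p.1.2.1 p.1.2.2) p.2.2

/-- time derivative of the family -/
def xF' (h : GT.Bla G k) (P : Euc N × Euc N → Wt N K →L[ℝ] Wt N K) (Θ Θ' : ℝ × ℝ → ℝ)
    (p : Par N K) : Euc N :=
  xi' G p.1.1 (C1 h P p.1.1 (fun r => Θ (p.2.1, r)) (fun r => Θ' (p.2.1, r)) p.1.2.1 p.1.2.2) p.2.2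

/-- the integrand after normalising the interval -/
def ig (h : GT.Bla G k) (P : Euc N × Euc N → Wt N K →L[ℝ] Wt N K) (Θ Θ' : ℝ × ℝ → ℝ)
    (q : Par N K × ℝ) : Euc N × Euc N :=
  π • (Θ' (q.1.2.1, q.1.2.2 - π + π * q.2) • Jr h P q.1.1.1 (q.1.2.2 - π + π * q.2)
    (Nt q.1.1.2.1 q.1.1.2.2 (Θ (q.1.2.1, q.1.2.2 - π + π * q.2))))

theorem int_eq_I1 (Θ Θ' : ℝ × ℝ → ℝ) (p : Par N K) :
    ∫ r in (p.2.2 - π)..p.2.2, C1 h P p.1.1 (fun r => Θ (p.2.1, r)) (fun r => Θ' (p.2.1, r))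
      p.1.2.1 p.1.2.2 r = FI.I1 (ig h P Θ Θ') p := by
  unfold FI.I1 ig
  rw [intervalIntegral.integral_smul]
  have h1 := intervalIntegral.smul_integral_comp_add_mul (a := 0) (b := 1)
    (fun r => C1 h P p.1.1 (fun r => Θ (p.2.1, r)) (fun r => Θ' (p.2.1, r)) p.1.2.1 p.1.2.2 r)
    π (p.2.2 - π)
  rw [mul_zero, mul_one, add_zero, sub_add_cancel] at h1
  rw [← h1]
  rfl

theorem contDiff_Nt2 : ContDiff ℝ ∞ (fun q : (Wt N K × Wt N K) × ℝ => Nt q.1.1 q.1.2 q.2) := by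
  unfold Nt; fun_prop

theorem contDiff_Nt3 {F : Type*} [NormedAddCommGroup F] [NormedSpace ℝ F] {u : F → Wt N K × Wt N K}
    {v : F → ℝ} {x : F} (hu : ContDiffAt ℝ ∞ u x) (hv : ContDiffAt ℝ ∞ v x) :
    ContDiffAt ℝ ∞ (fun y => Nt (u y).1 (u y).2 (v y)) x := by
  unfold Nt
  have h1 : ContDiffAt ℝ ∞ (fun y => cos (v y / 2)) x := (hv.div_const 2).cos
  have h2 : ContDiffAt ℝ ∞ (fun y => sin (v y / 2)) x := (hv.div_const 2).sin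
  exact (h1.smul hu.fst).add (h2.smul hu.snd)

theorem NegB.contDiffAt_Jr3 (hP : NegB h K P) {F : Type*} [NormedAddCommGroup F] [NormedSpace ℝ F]
    {u : F → Euc N × Euc N} {v : F → ℝ} {x : F} (hu : ContDiffAt ℝ ∞ u x)
    (hv : ContDiffAt ℝ ∞ v x) (hz : u x ∈ L.US G) :
    ContDiffAt ℝ ∞ (fun y => Jr h P (u y) (v y)) x := by
  have h1 := hP.contDiffAt_Jr hz (v x)
  exact ContDiffAt.comp (f := fun y => (u y, v y)) x h1 (hu.prodMk hv)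

theorem NegB.contDiffAt_ig (hP : NegB h K P) {Θ Θ' : ℝ × ℝ → ℝ} (hΘ : ContDiff ℝ ∞ Θ)
    (hΘ' : ContDiff ℝ ∞ Θ') (hz : z ∈ L.US G) (ν : Wt N K × Wt N K) (st : ℝ × ℝ) (x : ℝ) :
    ContDiffAt ℝ ∞ (ig h P Θ Θ') ((((z, ν), st), x) : Par N K × ℝ) := by
  have h0 : ContDiffAt ℝ ∞ (fun q : Par N K × ℝ => q.1.2.2 - π + π * q.2)
      ((((z, ν), st), x) : Par N K × ℝ) := by fun_prop
  have h1 : ContDiffAt ℝ ∞ (fun q : Par N K × ℝ => (q.1.2.1, q.1.2.2 - π + π * q.2))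
      ((((z, ν), st), x) : Par N K × ℝ) := by fun_prop
  have h2 : ContDiffAt ℝ ∞ (fun q : Par N K × ℝ => Θ' (q.1.2.1, q.1.2.2 - π + π * q.2))
      ((((z, ν), st), x) : Par N K × ℝ) := hΘ'.contDiffAt.comp _ h1
  have h3 : ContDiffAt ℝ ∞ (fun q : Par N K × ℝ => Θ (q.1.2.1, q.1.2.2 - π + π * q.2))
      ((((z, ν), st), x) : Par N K × ℝ) := hΘ.contDiffAt.comp _ h1
  have h4 : ContDiffAt ℝ ∞ (fun q : Par N K × ℝ => q.1.1.2)
      ((((z, ν), st), x) : Par N K × ℝ) := by fun_prop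
  have h5 : ContDiffAt ℝ ∞ (fun q : Par N K × ℝ => q.1.1.1)
      ((((z, ν), st), x) : Par N K × ℝ) := by fun_prop
  have h6 := hP.contDiffAt_Jr3 h5 h0 hz
  have h7 := contDiff_Nt3 h4 h3
  have h8 := h2.smul (h6.clm_apply h7)
  exact h8.const_smul π

theorem NegB.contDiffAt_I (hP : NegB h K P) {Θ Θ' : ℝ × ℝ → ℝ} (hΘ : ContDiff ℝ ∞ Θ)
    (hΘ' : ContDiff ℝ ∞ Θ') (hz : z ∈ L.US G) (ν : Wt N K × Wt N K) (st : ℝ × ℝ) :
    ContDiffAt ℝ ∞ (FI.I1 (ig h P Θ Θ')) ((z, ν), st) :=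
  FI.contDiffAt_I1 fun x _ => hP.contDiffAt_ig hΘ hΘ' hz ν st x

theorem NegB.contDiffAt_pair (hP : NegB h K P) {Θ Θ' : ℝ × ℝ → ℝ} (hΘ : ContDiff ℝ ∞ Θ)
    (hΘ' : ContDiff ℝ ∞ Θ') (hz : z ∈ L.US G) (ν : Wt N K × Wt N K) (st : ℝ × ℝ) :
    ContDiffAt ℝ ∞ (fun p : Par N K => dfl G p.1.1 p.2.2 (FI.I1 (ig h P Θ Θ') p))
      ((z, ν), st) := by
  have h1 : ContDiffAt ℝ ∞ (fun p : Par N K => (p.1.1, p.2.2)) ((z, ν), st) := by fun_prop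
  have h2 : ContDiffAt ℝ ∞ (fun p : Par N K => dfl G p.1.1 p.2.2) ((z, ν), st) :=
    ContDiffAt.comp ((z, ν), st) (g := fun p : (Euc N × Euc N) × ℝ => dfl G p.1 p.2)
      (contDiffAt_dfl hz.1 _) h1
  exact h2.clm_apply (hP.contDiffAt_I hΘ hΘ' hz ν st)

/-- **joint smoothness of the family** -/
theorem NegB.contDiffAt_xF (hP : NegB h K P) {Θ Θ' : ℝ × ℝ → ℝ} (hΘ : ContDiff ℝ ∞ Θ)
    (hΘ' : ContDiff ℝ ∞ Θ') (hz : z ∈ L.US G) (ν : Wt N K × Wt N K) (st : ℝ × ℝ) :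
    ContDiffAt ℝ ∞ (xF h P Θ Θ' : Par N K → Euc N) ((z, ν), st) := by
  have h1 := (hP.contDiffAt_pair hΘ hΘ' hz ν st).fst
  refine h1.congr_of_eventuallyEq (Eventually.of_forall fun p => ?_)
  unfold xF xi SV.jf
  rw [int_eq_I1]

theorem NegB.contDiffAt_xF' (hP : NegB h K P) {Θ Θ' : ℝ × ℝ → ℝ} (hΘ : ContDiff ℝ ∞ Θ)
    (hΘ' : ContDiff ℝ ∞ Θ') (hz : z ∈ L.US G) (ν : Wt N K × Wt N K) (st : ℝ × ℝ) :
    ContDiffAt ℝ ∞ (xF' h P Θ Θ' : Par N K → Euc N) ((z, ν), st) := by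
  have h1 := (hP.contDiffAt_pair hΘ hΘ' hz ν st).snd
  refine h1.congr_of_eventuallyEq (Eventually.of_forall fun p => ?_)
  unfold xF' xi' SV.jf'
  rw [int_eq_I1]

/-! ### the index form as a continuous function of the parameters -/

/-- the index form of the family -/
def IX (h : GT.Bla G k) (P : Euc N × Euc N → Wt N K →L[ℝ] Wt N K) (Θ Θ' : ℝ × ℝ → ℝ)
    (p : ((Euc N × Euc N) × (Wt N K × Wt N K)) × ℝ) : ℝ :=
  SV.ix G p.1.1 0 (2 * π) (fun t => xF h P Θ Θ' (p.1, (p.2, t)))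
    (fun t => xF' h P Θ Θ' (p.1, (p.2, t))) (fun t => xF h P Θ Θ' (p.1, (p.2, t)))
    (fun t => xF' h P Θ Θ' (p.1, (p.2, t)))

theorem NegB.contDiffAt_IX (hP : NegB h K P) {Θ Θ' : ℝ × ℝ → ℝ} (hΘ : ContDiff ℝ ∞ Θ)
    (hΘ' : ContDiff ℝ ∞ Θ') (hz : z ∈ L.US G) (ν : Wt N K × Wt N K) (s : ℝ) :
    ContDiffAt ℝ ∞ (IX h P Θ Θ' : ((Euc N × Euc N) × (Wt N K × Wt N K)) × ℝ → ℝ)
      ((z, ν), s) := by
  unfold IX SV.ix
  refine NB.contDiffAt_int (x := (((z, ν), s) : ((Euc N × Euc N) × (Wt N K × Wt N K)) × ℝ))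
    (g := fun q : (((Euc N × Euc N) × (Wt N K × Wt N K)) × ℝ) × ℝ =>
      SV.ixd G q.1.1.1 (fun t => xF h P Θ Θ' (q.1.1, (q.1.2, t)))
    (fun t => xF' h P Θ Θ' (q.1.1, (q.1.2, t))) (fun t => xF h P Θ Θ' (q.1.1, (q.1.2, t)))
    (fun t => xF' h P Θ Θ' (q.1.1, (q.1.2, t))) q.2) (by positivity) (fun t _ => ?_)
  unfold SV.ixd
  have e0 : ContDiffAt ℝ ∞ (fun q : (((Euc N × Euc N) × (Wt N K × Wt N K)) × ℝ) × ℝ =>
      ((q.1.1, (q.1.2, q.2)) : Par N K)) (((z, ν), s), t) := by fun_prop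
  have e1 : ContDiffAt ℝ ∞ (fun q : (((Euc N × Euc N) × (Wt N K × Wt N K)) × ℝ) × ℝ =>
      xF h P Θ Θ' (q.1.1, (q.1.2, q.2))) (((z, ν), s), t) :=
    ContDiffAt.comp (((z, ν), s), t) (g := (xF h P Θ Θ' : Par N K → Euc N))
      (hP.contDiffAt_xF hΘ hΘ' hz ν (s, t)) e0
  have e2 : ContDiffAt ℝ ∞ (fun q : (((Euc N × Euc N) × (Wt N K × Wt N K)) × ℝ) × ℝ =>
      xF' h P Θ Θ' (q.1.1, (q.1.2, q.2))) (((z, ν), s), t) :=
    ContDiffAt.comp (((z, ν), s), t) (g := (xF' h P Θ Θ' : Par N K → Euc N))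
      (hP.contDiffAt_xF' hΘ hΘ' hz ν (s, t)) e0
  have e3 : ContDiffAt ℝ ∞ (fun q : (((Euc N × Euc N) × (Wt N K × Wt N K)) × ℝ) × ℝ =>
      fl G (q.1.1.1, q.2)) (((z, ν), s), t) := by
    have e4 : ContDiffAt ℝ ∞ (fun q : (((Euc N × Euc N) × (Wt N K × Wt N K)) × ℝ) × ℝ =>
      (q.1.1.1, q.2)) (((z, ν), s), t) := by fun_prop
    exact ContDiffAt.comp (((z, ν), s), t) (g := fl G) (contDiffAt_fl' G hz.1 t) e4
  have e5 : ContDiffAt ℝ ∞ (fun q : (((Euc N × Euc N) × (Wt N K × Wt N K)) × ℝ) × ℝ =>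
      (X G (fl G (q.1.1.1, q.2))).2) (((z, ν), s), t) :=
    ((contDiff_X G).contDiffAt.comp (((z, ν), s), t) e3).snd
  have e6 : ContDiffAt ℝ ∞ (fun q : (((Euc N × Euc N) × (Wt N K × Wt N K)) × ℝ) × ℝ =>
      fderiv ℝ G.P (fl G (q.1.1.1, q.2)).1) (((z, ν), s), t) := by
    have e7 : ContDiff ℝ ∞ (fderiv ℝ G.P) := G.contDiff_P.fderiv_right (m := ∞) (by simp)
    exact e7.contDiffAt.comp (((z, ν), s), t) e3.fst
  exact (e2.inner ℝ e2).sub (e5.inner ℝ ((e6.clm_apply e1).clm_apply e1))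

/-- a smooth family of angles -/
structure SAng (Θ Θ' : ℝ × ℝ → ℝ) : Prop where
  sm : ContDiff ℝ ∞ Θ
  sm' : ContDiff ℝ ∞ Θ'
  ang : ∀ s ∈ Icc (0:ℝ) 1, Ang (fun r => Θ (s, r)) (fun r => Θ' (s, r))

theorem IX_eq (Θ Θ' : ℝ × ℝ → ℝ) (z : Euc N × Euc N) (a b : Wt N K) (s : ℝ) :
    IX h P Θ Θ' ((z, (a, b)), s) = SV.ix G z 0 (2 * π)
      (xi G z (C1 h P z (fun r => Θ (s, r)) (fun r => Θ' (s, r)) a b))
      (xi' G z (C1 h P z (fun r => Θ (s, r)) (fun r => Θ' (s, r)) a b))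
      (xi G z (C1 h P z (fun r => Θ (s, r)) (fun r => Θ' (s, r)) a b))
      (xi' G z (C1 h P z (fun r => Θ (s, r)) (fun r => Θ' (s, r)) a b)) := rfl

theorem IX_smul (Θ Θ' : ℝ × ℝ → ℝ) (z : Euc N × Euc N) (a b : Wt N K) (s r : ℝ) :
    IX h P Θ Θ' ((z, (r • a, r • b)), s) = r ^ 2 * IX h P Θ Θ' ((z, (a, b)), s) := by
  rw [IX_eq, IX_eq]
  have e1 : ∀ θ θ' : ℝ → ℝ, xi G z (C1 h P z θ θ' (r • a) (r • b)) =
      r • xi G z (C1 h P z θ θ' a b) := fun θ θ' => funext fun t => xi_smul z r a b t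
  have e2 : ∀ θ θ' : ℝ → ℝ, xi' G z (C1 h P z θ θ' (r • a) (r • b)) =
      r • xi' G z (C1 h P z θ θ' a b) := fun θ θ' => funext fun t => xi'_smul z r a b t
  rw [e1, e2, SV.ix_smul_left, SV.ix_smul_right]
  ring

theorem isCompact_US (h : GT.Bla G k) : IsCompact (L.US G) := LB.isCompact_US h.bl.cpt

/-- **UNIFORM NEGATIVITY** -/
theorem NegB.ix_unif (hP : NegB h K P) {Θ Θ' : ℝ × ℝ → ℝ} (hΘ : SAng Θ Θ') :
    ∃ δ > 0, ∀ z ∈ L.US G, ∀ a b : Wt N K, P z a = a → P z b = b → ∀ s ∈ Icc (0:ℝ) 1,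
      IX h P Θ Θ' ((z, (a, b)), s) ≤ -(δ * (‖a‖ ^ 2 + ‖b‖ ^ 2)) := by
  classical
  -- the compact parameter set
  set T : Set (((Euc N × Euc N) × (Wt N K × Wt N K)) × ℝ) :=
    {p | (p.1.1 ∈ L.US G ∧ P p.1.1 p.1.2.1 = p.1.2.1 ∧ P p.1.1 p.1.2.2 = p.1.2.2) ∧
      ‖p.1.2.1‖ ^ 2 + ‖p.1.2.2‖ ^ 2 = 1 ∧ p.2 ∈ Icc (0:ℝ) 1} with hT
  have hPc : ContinuousOn P (L.US G) := fun z hz => (hP.smooth z hz).continuousAt.continuousWithinAt
  have hTc : IsCompact T := by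
    have hB : IsCompact ((L.US G ×ˢ (Metric.closedBall (0 : Wt N K) 1 ×ˢ
        Metric.closedBall (0 : Wt N K) 1)) ×ˢ Icc (0:ℝ) 1) :=
      ((isCompact_US h).prod ((isCompact_closedBall _ _).prod (isCompact_closedBall _ _))).prod
        isCompact_Icc
    refine hB.of_isClosed_subset ?_ ?_
    · have hU : IsClosed {p : ((Euc N × Euc N) × (Wt N K × Wt N K)) × ℝ | p.1.1 ∈ L.US G} :=
        (isCompact_US h).isClosed.preimage (by fun_prop)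
      have hf1 : ContinuousOn (fun p : ((Euc N × Euc N) × (Wt N K × Wt N K)) × ℝ =>
          P p.1.1 p.1.2.1 - p.1.2.1) {p | p.1.1 ∈ L.US G} := by
        have h1 : ContinuousOn (fun p : ((Euc N × Euc N) × (Wt N K × Wt N K)) × ℝ => P p.1.1)
            {p | p.1.1 ∈ L.US G} := hPc.comp (by fun_prop) (fun p hp => hp)
        exact (h1.clm_apply (by fun_prop)).sub (by fun_prop)
      have hf2 : ContinuousOn (fun p : ((Euc N × Euc N) × (Wt N K × Wt N K)) × ℝ =>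
          P p.1.1 p.1.2.2 - p.1.2.2) {p | p.1.1 ∈ L.US G} := by
        have h1 : ContinuousOn (fun p : ((Euc N × Euc N) × (Wt N K × Wt N K)) × ℝ => P p.1.1)
            {p | p.1.1 ∈ L.US G} := hPc.comp (by fun_prop) (fun p hp => hp)
        exact (h1.clm_apply (by fun_prop)).sub (by fun_prop)
      have c1 := hf1.preimage_isClosed_of_isClosed hU (isClosed_singleton (x := (0 : Wt N K)))
      have c2 := hf2.preimage_isClosed_of_isClosed hU (isClosed_singleton (x := (0 : Wt N K)))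
      have c3 : IsClosed {p : ((Euc N × Euc N) × (Wt N K × Wt N K)) × ℝ |
          ‖p.1.2.1‖ ^ 2 + ‖p.1.2.2‖ ^ 2 = 1} := isClosed_eq (by fun_prop) continuous_const
      have c4 : IsClosed {p : ((Euc N × Euc N) × (Wt N K × Wt N K)) × ℝ | p.2 ∈ Icc (0:ℝ) 1} :=
        isClosed_Icc.preimage continuous_snd
      have hEq : T = ((({p | p.1.1 ∈ L.US G} ∩ (fun p : ((Euc N × Euc N) ×
          (Wt N K × Wt N K)) × ℝ => P p.1.1 p.1.2.1 - p.1.2.1) ⁻¹' {0}) ∩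
          ({p | p.1.1 ∈ L.US G} ∩ (fun p : ((Euc N × Euc N) × (Wt N K × Wt N K)) × ℝ =>
            P p.1.1 p.1.2.2 - p.1.2.2) ⁻¹' {0})) ∩ ({p | ‖p.1.2.1‖ ^ 2 + ‖p.1.2.2‖ ^ 2 = 1} ∩
          {p | p.2 ∈ Icc (0:ℝ) 1})) := by
        ext p
        simp only [hT, mem_ofPred_eq, mem_inter_iff, mem_preimage, mem_singleton_iff, sub_eq_zero]
        tauto
      rw [hEq]
      exact (c1.inter c2).inter (c3.inter c4)
    · rintro p ⟨⟨h1, -, -⟩, h2, h3⟩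
      have b1 : ‖p.1.2.1‖ ≤ 1 := by
        have := sq_nonneg ‖p.1.2.2‖
        have h4 := norm_nonneg p.1.2.1
        nlinarith
      have b2 : ‖p.1.2.2‖ ≤ 1 := by
        have := sq_nonneg ‖p.1.2.1‖
        have h4 := norm_nonneg p.1.2.2
        nlinarith
      exact ⟨⟨h1, mem_closedBall_zero_iff.2 b1, mem_closedBall_zero_iff.2 b2⟩, h3⟩
  have hcont : ContinuousOn (IX h P Θ Θ') T := fun p hp =>
    (hP.contDiffAt_IX hΘ.sm hΘ.sm' hp.1.1 p.1.2 p.2).continuousAt.continuousWithinAt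
  have hneg : ∀ p ∈ T, IX h P Θ Θ' p < 0 := by
    rintro ⟨⟨z, a, b⟩, s⟩ ⟨⟨h1, h2, h3⟩, h4, h5⟩
    rw [IX_eq]
    refine hP.ix_neg h1 (hΘ.ang s h5) h2 h3 ?_
    intro h0
    rw [Prod.mk_eq_zero] at h0
    simp only at h4
    rw [h0.1, h0.2, norm_zero] at h4
    norm_num at h4
  obtain ⟨δ, hδ, hle⟩ : ∃ δ > 0, ∀ p ∈ T, IX h P Θ Θ' p ≤ -δ := by
    rcases T.eq_empty_or_nonempty with he | hne
    · exact ⟨1, one_pos, fun p hp => by rw [he] at hp; exact absurd hp (notMem_empty _)⟩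
    · obtain ⟨p₀, hp₀, hmax⟩ := hTc.exists_isMaxOn hne hcont
      exact ⟨-IX h P Θ Θ' p₀, by have := hneg p₀ hp₀; linarith, fun p hp => by
        rw [neg_neg]; exact hmax hp⟩
  refine ⟨δ, hδ, fun z hz a b ha hb s hs => ?_⟩
  by_cases h0 : ‖a‖ ^ 2 + ‖b‖ ^ 2 = 0
  · have ha0 : a = 0 := by
      have : ‖a‖ ^ 2 = 0 := by nlinarith [sq_nonneg ‖a‖, sq_nonneg ‖b‖]
      exact norm_eq_zero.1 (pow_eq_zero_iff two_ne_zero |>.1 this)
    have hb0 : b = 0 := by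
      have : ‖b‖ ^ 2 = 0 := by nlinarith [sq_nonneg ‖a‖, sq_nonneg ‖b‖]
      exact norm_eq_zero.1 (pow_eq_zero_iff two_ne_zero |>.1 this)
    have h2 := IX_smul (h := h) (P := P) Θ Θ' z (0 : Wt N K) 0 s 0
    rw [smul_zero] at h2
    rw [ha0, hb0, h2, norm_zero]; simp
  · have hpos : 0 < ‖a‖ ^ 2 + ‖b‖ ^ 2 := lt_of_le_of_ne (by positivity) (Ne.symm h0)
    set r := √(‖a‖ ^ 2 + ‖b‖ ^ 2) with hr
    have hr0 : 0 < r := Real.sqrt_pos.2 hpos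
    have hr2 : r ^ 2 = ‖a‖ ^ 2 + ‖b‖ ^ 2 := Real.sq_sqrt hpos.le
    have h1 := hle ((z, (r⁻¹ • a, r⁻¹ • b)), s) ⟨⟨hz, by simp only [map_smul, ha],
      by simp only [map_smul, hb]⟩, by
        simp only [norm_smul, norm_inv, Real.norm_eq_abs, abs_of_pos hr0, mul_pow]
        rw [← mul_add, ← hr2, ← mul_pow, inv_mul_cancel₀ hr0.ne', one_pow], hs⟩
    have h2 := IX_smul (h := h) (P := P) Θ Θ' z (r⁻¹ • a) (r⁻¹ • b) s r
    rw [smul_smul, smul_smul, mul_inv_cancel₀ hr0.ne', one_smul, one_smul] at h2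
    rw [h2, ← hr2]
    nlinarith [sq_nonneg r, mul_le_mul_of_nonneg_left h1 (sq_nonneg r)]

end Crest.Agent.R208.KR
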