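import Crest.Agent.R208.NB5

/-! Row 208, block NB (helper537), part NB6: the projection `n(W)` of an arbitrary (continuous)
field `W` along a closed geodesic to the negative space `N_z`; no derivative of `W` is used. -/

set_option autoImplicit false
set_option linter.unusedSectionVars false
set_option linter.unusedVariables false

open MeasureTheory Set Filter Topology Module
open scoped ContDiff RealInnerProductSpace
open Crest.GeometryTopology.Submanifold
open Crest.Agent.R241.DDefs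
open Crest.Agent.R241.D2
open Crest.Agent.R208.NN

noncomputable section

namespace Crest.Agent.R208.NB

variable {n N k K r : ℕ} {κ : ℝ} {S : Set (Euc N)} {G : Geo n N κ S} {z : Euc N × Euc N}
  {ν : Fin K → ℝ} {δ : ℝ} {PN : Euc N × Euc N → Wt N K →L[ℝ] Wt N K} {V V' W W' : ℝ → Euc N}

/-! ### parametric integrals over `[0, 2π]` -/

section par
variable {E H : Type} [NormedAddCommGroup E] [NormedSpace ℝ E] [FiniteDimensional ℝ E]
  [NormedAddCommGroup H] [NormedSpace ℝ H]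

theorem contDiffAt_int {g : E × ℝ → H} {x : E} {T : ℝ} (hT : 0 ≤ T)
    (hg : ∀ t ∈ Icc (0 : ℝ) T, ContDiffAt ℝ ∞ g (x, t)) :
    ContDiffAt ℝ ∞ (fun x => ∫ t in (0 : ℝ)..T, g (x, t)) x := by
  have h1 : ContDiffAt ℝ ∞ (FI.I1 (fun p : E × ℝ => g (p.1, T * p.2))) x := by
    refine FI.contDiffAt_I1 fun t ht => ?_
    have h2 : ContDiffAt ℝ ∞ (fun p : E × ℝ => (p.1, T * p.2)) (x, t) := by fun_prop
    exact ContDiffAt.comp (x, t) (g := g)
      (hg (T * t) ⟨mul_nonneg hT ht.1, by nlinarith [ht.2]⟩) h2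
  have h2 : (fun x => ∫ t in (0 : ℝ)..T, g (x, t)) = fun x => T •
      FI.I1 (fun p : E × ℝ => g (p.1, T * p.2)) x := by
    funext x
    have := intervalIntegral.smul_integral_comp_mul_left (a := 0) (b := 1) (fun t => g (x, t)) T
    rw [mul_zero, mul_one] at this
    exact this.symm
  rw [h2]
  exact h1.const_smul T

end par

/-! ### second derivative -/

lemma contDiff_Dp' : ContDiff ℝ ∞ (Dp G ν : (Euc N × Euc N) × ℝ → Wt N K →L[ℝ] Euc N) := by
  rw [contDiff_clm_apply_iff]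
  exact fun w => contDiff_Dp w

lemma contDiff_Fp' : ContDiff ℝ ∞ (Fp G ν : (Euc N × Euc N) × ℝ → Wt N K →L[ℝ] Euc N) := by
  rw [contDiff_clm_apply_iff]
  exact fun w => contDiff_Fp w

/-- the second derivative of `fd` -/
def D2p (G : Geo n N κ S) (ν : Fin K → ℝ) (p : (Euc N × Euc N) × ℝ) : Wt N K →L[ℝ] Euc N :=
  fderiv ℝ (Dp G ν) p (X G p.1, 1)

lemma contDiff_D2p : ContDiff ℝ ∞ (D2p G ν : (Euc N × Euc N) × ℝ → Wt N K →L[ℝ] Euc N) :=
  ((contDiff_Dp' (G := G) (ν := ν)).fderiv_right (m := ∞) (by simp)).clm_apply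
    (((contDiff_X G).comp contDiff_fst).prodMk contDiff_const)

theorem hasDerivAt_fd' (hz : z ∈ TS G) (w : Wt N K) (t : ℝ) :
    HasDerivAt (fd' G z ν w) (D2p G ν (fl G (z, t), t) w) t := by
  have h1 : HasDerivAt (fun t => (fl G (z, t), t)) (X G (fl G (z, t)), 1) t :=
    (hasDerivAt_fl G (complete G hz t)).prodMk (hasDerivAt_id t)
  have h2 : HasFDerivAt (Dp G ν) (fderiv ℝ (Dp G ν) (fl G (z, t), t)) (fl G (z, t), t) :=
    ((contDiff_Dp' (G := G) (ν := ν)).differentiable (by simp)).differentiableAt.hasFDerivAt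
  have h3 : HasDerivAt (fun t => Dp G ν (fl G (z, t), t)) (D2p G ν (fl G (z, t), t)) t :=
    HasFDerivAt.comp_hasDerivAt (f := fun t => (fl G (z, t), t)) t h2 h1
  have h4 := h3.clm_apply (hasDerivAt_const t w)
  refine h4.congr_deriv ?_
  simp

lemma hasLine (p : (Euc N × Euc N) × ℝ) (v : (Euc N × Euc N) × ℝ) (w : Wt N K) :
    HasDerivAt (fun r : ℝ => Dp G ν (p + r • v) w) (fderiv ℝ (Dp G ν) p v w) 0 := by
  have hd : HasFDerivAt (fun p => Dp G ν p w) ((fderiv ℝ (Dp G ν) p).flip w) p := by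
    have h1 := (((contDiff_Dp' (G := G) (ν := ν)).differentiable (by simp)) p).hasFDerivAt
    have h2 := h1.clm_apply (hasFDerivAt_const w p)
    refine h2.congr_fderiv ?_
    simp
  exact hd.hasLineDerivAt v

lemma D2p_Rt (x : Euc N × Euc N) (t s : ℝ) (w : Wt N K) :
    D2p G ν (x, t) (Rt ν s w) = D2p G ν (x, t + s) w := by
  have h1 := hasLine (G := G) (ν := ν) (x, t) (X G x, 1) (Rt ν s w)
  have h1' := hasLine (G := G) (ν := ν) (x, t + s) (X G x, 1) w
  refine h1.unique (h1'.congr_of_eventuallyEq ?_)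
  refine Eventually.of_forall fun r => ?_
  change Dp G ν (x + r • X G x, t + r • (1 : ℝ)) (Rt ν s w) =
    Dp G ν (x + r • X G x, t + s + r • (1 : ℝ)) w
  rw [Dp_Rt]
  congr 2
  ring_nf

/-! ### the pairing density -/

/-- `v ↦ m ↦ -⟪v, (fd m)''⟫ - ⟪X, II (v, fd m)⟫` -/
def bq (G : Geo n N κ S) (ν : Fin K → ℝ) (p : (Euc N × Euc N) × ℝ) :
    Euc N →L[ℝ] Wt N K →L[ℝ] ℝ :=
  -((ip N).bilinearComp (ContinuousLinearMap.id ℝ (Euc N)) (D2p G ν p)) -
    (bII G p.1).bilinearComp (ContinuousLinearMap.id ℝ (Euc N)) (Fp G ν p)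

lemma bq_apply (p : (Euc N × Euc N) × ℝ) (v : Euc N) (m : Wt N K) :
    bq G ν p v m = -⟪v, D2p G ν p m⟫ -
      ⟪(X G p.1).2, fderiv ℝ G.P p.1.1 v (Fp G ν p m)⟫ := rfl

theorem contDiff_bq : ContDiff ℝ ∞ (bq G ν : (Euc N × Euc N) × ℝ → _) := by
  rw [contDiff_clm_apply_iff]
  intro v
  rw [contDiff_clm_apply_iff]
  intro m
  have hX : ContDiff ℝ ∞ (fun p : (Euc N × Euc N) × ℝ => (X G p.1).2) :=
    contDiff_snd.comp ((contDiff_X G).comp contDiff_fst)
  have h1 : ContDiff ℝ ∞ (fun p : (Euc N × Euc N) × ℝ => ⟪v, D2p G ν p m⟫) :=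
    contDiff_const.inner ℝ ((contDiff_D2p (G := G) (ν := ν)).clm_apply contDiff_const)
  have h2 : ContDiff ℝ ∞ (fun p : (Euc N × Euc N) × ℝ =>
      ⟪(X G p.1).2, fderiv ℝ G.P p.1.1 v (Fp G ν p m)⟫) :=
    hX.inner ℝ (((contDiff_dP_p (G := G)).clm_apply contDiff_const).clm_apply
    (contDiff_Fp (G := G) (ν := ν) m))
  exact h1.neg.sub h2

lemma bq_Rt (x : Euc N × Euc N) (t s : ℝ) (v : Euc N) (m : Wt N K) :
    bq G ν (x, t) v (Rt ν s m) = bq G ν (x, t + s) v m := by
  rw [bq_apply, bq_apply, D2p_Rt, Fp_Rt]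

lemma continuous_fl_t (hz : z ∈ TS G) : Continuous fun t : ℝ => (fl G (z, t), t) :=
  (SV.continuous_fl (G := G) hz).prodMk continuous_id

lemma contOn_bq (hz : z ∈ TS G) (m : Wt N K) {s : Set ℝ} (hW : ContinuousOn W s) :
    ContinuousOn (fun t => bq G ν (fl G (z, t), t) (W t) m) s :=
  (((contDiff_bq (G := G) (ν := ν)).continuous.comp
    (continuous_fl_t hz)).continuousOn.clm_apply hW).clm_apply continuousOn_const

/-- integration by parts -/
theorem ix_eq_bq (h : GT.Bla G k) (hz : z ∈ L.US G) {σ : ℝ} (hσ : Sig N ν σ) (m : Wt N K)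
    (hW : SV.Fld G z 0 (2 * Real.pi) W W') (hper : W (2 * Real.pi) = σ • W 0) :
    SV.ix G z 0 (2 * Real.pi) W W' (fd G z ν m) (fd' G z ν m) =
      ∫ t in (0 : ℝ)..(2 * Real.pi), bq G ν (fl G (z, t), t) (W t) m := by
  have hπ : (0 : ℝ) ≤ 2 * Real.pi := by positivity
  have hF := fld_fd hz.1 ν m 0 (2 * Real.pi)
  have hcont : ContinuousOn (fun t => ⟪W t, fd' G z ν m t⟫) (Icc 0 (2 * Real.pi)) :=
    hW.contX.inner hF.cont
  have hi1 := hW.intble hz.1 hπ hF
  have hi2 : IntervalIntegrable (fun t => bq G ν (fl G (z, t), t) (W t) m) volume 0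
      (2 * Real.pi) := by
    refine ContinuousOn.intervalIntegrable ?_
    rw [uIcc_of_le hπ]
    exact contOn_bq hz.1 m hW.contX
  have hder : ∀ t ∈ Ioo 0 (2 * Real.pi), HasDerivAt (fun t => ⟪W t, fd' G z ν m t⟫)
      (SV.ixd G z W W' (fd G z ν m) (fd' G z ν m) t -
        bq G ν (fl G (z, t), t) (W t) m) t := by
    intro t ht
    have ht' : t ∈ Icc 0 (2 * Real.pi) := ⟨ht.1.le, ht.2.le⟩
    have h1 := hasDerivAt_fd' (ν := ν) hz.1 m t
    have h2 := (hW.der t ht').hasDerivAt (Icc_mem_nhds ht.1 ht.2)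
    refine (h2.inner ℝ h1).congr_deriv ?_
    rw [bq_apply, SV.ixd]
    have e : II G (fl G (z, t)).1 (W t) (fd G z ν m t) =
      fderiv ℝ G.P (fl G (z, t)).1 (W t) (Fp G ν (fl G (z, t), t) m) := rfl
    rw [e]
    ring
  have key := intervalIntegral.integral_eq_sub_of_hasDerivAt_of_le hπ hcont hder
    (hi1.sub hi2)
  have e2 : fd' G z ν m (2 * Real.pi) = σ • fd' G z ν m 0 := by
    change Dp G ν (fl G (z, 2 * Real.pi), 2 * Real.pi) m = σ • Dp G ν (fl G (z, 0), 0) m
    rw [fl_two_pi h hz, fl_zero]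
    have := Dp_Rt (G := G) (ν := ν) z 0 (2 * Real.pi) m
    rw [zero_add] at this
    rw [← this, hσ.2, map_smul]
  rw [intervalIntegral.integral_sub hi1 hi2, hper, e2, real_inner_smul_left,
    real_inner_smul_right, ← mul_assoc, hσ.1, one_mul, sub_self, sub_eq_zero] at key
  exact key

/-- the vector of pairings with `W` -/
def bv (G : Geo n N κ S) (ν : Fin K → ℝ) (z : Euc N × Euc N) (W : ℝ → Euc N) : Wt N K :=
  ∑ j, (∫ t in (0 : ℝ)..(2 * Real.pi), bq G ν (fl G (z, t), t) (W t)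
    (stdOrthonormalBasis ℝ (Wt N K) j)) • (stdOrthonormalBasis ℝ (Wt N K) j : Wt N K)

theorem inner_bv (hz : z ∈ TS G) (hW : ContinuousOn W (Icc 0 (2 * Real.pi))) (m : Wt N K) :
    ⟪bv G ν z W, m⟫ = ∫ t in (0 : ℝ)..(2 * Real.pi), bq G ν (fl G (z, t), t) (W t) m := by
  have hπ : (0 : ℝ) ≤ 2 * Real.pi := by positivity
  set e := stdOrthonormalBasis ℝ (Wt N K) with he
  rw [bv, sum_inner]
  have h1 : ∀ t, bq G ν (fl G (z, t), t) (W t) m =
      ∑ j, ⟪(e j : Wt N K), m⟫ * bq G ν (fl G (z, t), t) (W t) (e j) := by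
    intro t
    conv_lhs => rw [← e.sum_repr' m]
    rw [map_sum]
    refine Finset.sum_congr rfl fun j _ => ?_
    rw [map_smul, smul_eq_mul]
  simp only [h1]
  rw [intervalIntegral.integral_finsetSum]
  · refine Finset.sum_congr rfl fun j _ => ?_
    rw [real_inner_smul_left, intervalIntegral.integral_const_mul, mul_comm]
  · intro j _
    refine ContinuousOn.intervalIntegrable ?_
    rw [uIcc_of_le hπ]
    exact continuousOn_const.mul (contOn_bq hz _ hW)

theorem bv_congr (h : EqOn V W (Icc 0 (2 * Real.pi))) : bv G ν z V = bv G ν z W := by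
  have hπ : (0 : ℝ) ≤ 2 * Real.pi := by positivity
  unfold bv
  refine Finset.sum_congr rfl fun j _ => ?_
  congr 1
  refine intervalIntegral.integral_congr fun t ht => ?_
  rw [uIcc_of_le hπ] at ht
  change bq G ν (fl G (z, t), t) (V t) _ = bq G ν (fl G (z, t), t) (W t) _
  rw [h ht]

theorem bv_add (hz : z ∈ TS G) (hV : ContinuousOn V (Icc 0 (2 * Real.pi)))
    (hW : ContinuousOn W (Icc 0 (2 * Real.pi))) :
    bv G ν z (V + W) = bv G ν z V + bv G ν z W := by
  have hπ : (0 : ℝ) ≤ 2 * Real.pi := by positivity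
  refine ext_inner_right ℝ fun m => ?_
  rw [inner_add_left, inner_bv hz (hV.add hW), inner_bv hz hV, inner_bv hz hW,
    ← intervalIntegral.integral_add]
  · refine intervalIntegral.integral_congr fun t _ => ?_
    change bq G ν (fl G (z, t), t) (V t + W t) m = _
    rw [map_add]; rfl
  · exact ContinuousOn.intervalIntegrable (by rw [uIcc_of_le hπ]; exact contOn_bq hz _ hV)
  · exact ContinuousOn.intervalIntegrable (by rw [uIcc_of_le hπ]; exact contOn_bq hz _ hW)

theorem bv_smul (hz : z ∈ TS G) (c : ℝ) (hW : ContinuousOn W (Icc 0 (2 * Real.pi))) :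
    bv G ν z (c • W) = c • bv G ν z W := by
  refine ext_inner_right ℝ fun m => ?_
  rw [real_inner_smul_left, inner_bv hz (hW.const_smul c), inner_bv hz hW,
    ← intervalIntegral.integral_const_mul]
  refine intervalIntegral.integral_congr fun t _ => ?_
  change bq G ν (fl G (z, t), t) (c • W t) m = _
  rw [map_smul]; rfl

/-- smoothness along smooth families -/
theorem contDiffAt_bv {E : Type} [NormedAddCommGroup E] [NormedSpace ℝ E] [FiniteDimensional ℝ E]
    {zz : E → Euc N × Euc N} {F : E × ℝ → Euc N} {x : E} (hzz : ContDiffAt ℝ ∞ zz x)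
    (hx : zz x ∈ TS G) (hF : ∀ t ∈ Icc (0 : ℝ) (2 * Real.pi), ContDiffAt ℝ ∞ F (x, t)) :
    ContDiffAt ℝ ∞ (fun x => bv G ν (zz x) (fun t => F (x, t))) x := by
  have hπ : (0 : ℝ) ≤ 2 * Real.pi := by positivity
  have key : ∀ m : Wt N K, ContDiffAt ℝ ∞ (fun x => ∫ t in (0 : ℝ)..(2 * Real.pi),
      bq G ν (fl G (zz x, t), t) (F (x, t)) m) x := by
    intro m
    refine contDiffAt_int (E := E) (H := ℝ) (g := fun p : E × ℝ =>
      bq G ν (fl G (zz p.1, p.2), p.2) (F p) m) (x := x) hπ fun t ht => ?_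
    have h0 : ContDiffAt ℝ ∞ (fun p : E × ℝ => zz p.1) (x, t) :=
      ContDiffAt.comp (x, t) (g := zz) hzz contDiffAt_fst
    have h1 : ContDiffAt ℝ ∞ (fun p : E × ℝ => (zz p.1, p.2)) (x, t) := h0.prodMk contDiffAt_snd
    have h2 : ContDiffAt ℝ ∞ (fun p : E × ℝ => fl G (zz p.1, p.2)) (x, t) :=
      ContDiffAt.comp (x, t) (g := fl G) (contDiffAt_fl' G hx _) h1
    have h3 : ContDiffAt ℝ ∞ (fun p : E × ℝ => bq G ν (fl G (zz p.1, p.2), p.2)) (x, t) :=
      (contDiff_bq (G := G) (ν := ν)).contDiffAt.comp (x, t) (h2.prodMk contDiffAt_snd)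
    exact (h3.clm_apply (hF t ht)).clm_apply contDiffAt_const
  unfold bv
  exact ContDiffAt.sum fun j _ => (key _).smul contDiffAt_const

/-! ### equivariance -/

theorem bv_equiv (hper : HS.Per G) (hz : z ∈ TS G) (h1 : ‖z.2‖ = 1) {σ : ℝ} (hσ : Sig N ν σ)
    (hc : Continuous W) (hW : ∀ t, W (t + 2 * Real.pi) = σ • W t) (s : ℝ) :
    bv G ν (fl G (z, s)) (fun t => W (t + s)) = Rt ν s (bv G ν z W) := by
  have hs := fl_mem G hz s
  refine ext_inner_right ℝ fun m => ?_
  have h2 : m = Rt ν s (Rt ν (-s) m) := by rw [← Rt_add, add_neg_cancel, Rt_zero]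
  set m' := Rt ν (-s) m with hm'
  have hcs : Continuous fun t => W (t + s) := hc.comp (continuous_add_const s)
  rw [h2, inner_Rt, inner_bv hs hcs.continuousOn, inner_bv hz hc.continuousOn]
  have h3 : ∀ t, bq G ν (fl G (fl G (z, s), t), t) (W (t + s)) (Rt ν s m') =
      bq G ν (fl G (z, t + s), t + s) (W (t + s)) m' := by
    intro t
    rw [bq_Rt, ← fl_add' G hz, add_comm s t]
  simp only [h3]
  rw [intervalIntegral.integral_comp_add_right
    (fun t => bq G ν (fl G (z, t), t) (W t) m') s, zero_add]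
  have hp : Function.Periodic (fun t => bq G ν (fl G (z, t), t) (W t) m') (2 * Real.pi) := by
    intro t
    change bq G ν (fl G (z, t + 2 * Real.pi), t + 2 * Real.pi) (W (t + 2 * Real.pi)) m' = _
    have h4 : fl G (z, t + 2 * Real.pi) = fl G (z, t) := by
      rw [add_comm, fl_add' G hz, hper z hz h1]
    rw [h4, ← bq_Rt, hσ.2, hW, map_smul, map_smul]
    change σ • (σ • bq G ν (fl G (z, t), t) (W t) m') = _
    rw [smul_smul, hσ.1, one_smul]
  have h5 := hp.intervalIntegral_add_eq s 0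
  rw [zero_add, add_comm s] at h5
  exact h5

end Crest.Agent.R208.NB
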