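import Crest.Agent.R208.FT1
import Crest.Agent.R208.KR10
import Crest.Agent.R208.KRa286
import Crest.Agent.R208.DD3

/-!
R208, (8,2), block F2 (helper336), part FT5: the instance of `XI` for the doubled negative bundle
`N ⊕ N` (683's `DD`), the half speed rotation and the Krein–Fourier fields of helper844 with
`θ = id`.
-/

set_option autoImplicit false
set_option linter.unusedSectionVars false
set_option linter.unusedVariables false

open Set Filter Topology MeasureTheory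
open scoped ContDiff RealInnerProductSpace Real
open Crest.GeometryTopology.Submanifold
open Crest.Agent.R241.DDefs Crest.Agent.R241.D Crest.Agent.R241.D2

noncomputable section

namespace Crest.Agent.R208.FT

open Crest.Agent.R208.SV Crest.Agent.R208.NN
open Crest.Agent.R208.CM (Rep)
open Crest.Agent.R208.DD (pl pr R2 pl_R2 pr_R2 ext_d norm_sq_eq)

variable {n N K k : ℕ} {κ : ℝ} {S : Set (Euc N)} {G : Geo n N κ S} {δ : ℝ}
  {PN : Euc N × Euc N → Wt N K →L[ℝ] Wt N K} {z : Euc N × Euc N}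

/-- `Wt ⊕ Wt` as a Euclidean space -/
abbrev W2 (N K : ℕ) : Type :=
  EuclideanSpace ℝ (((Fin K × Fin 2) × Fin N) ⊕ ((Fin K × Fin 2) × Fin N))

/-- the half speed rotation, in geodesic time -/
def RN (N K : ℕ) (t : ℝ) : W2 N K →L[ℝ] W2 N K :=
  R2 (fun s => (Rt (nuP K) s : Wt N K →L[ℝ] Wt N K)) (-1 / 2) t

/-- in phase time it is 683's rotation of weight `-1` -/
theorem RN_two (t : ℝ) : RN N K (2 * t) =
    R2 (fun s => (Rt (nuP K) (2 * s) : Wt N K →L[ℝ] Wt N K)) (-1) t := by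
  unfold RN R2
  rw [show (-1 / 2 : ℝ) * (2 * t) = -1 * t by ring]

/-- the Krein–Fourier fields at time `0` -/
def xiN (h : GT.Bla G k) (PN : Euc N × Euc N → Wt N K →L[ℝ] Wt N K) (z : Euc N × Euc N) :
    W2 N K →L[ℝ] Euc N :=
  (KR.Xi h PN (fun r => r) (fun _ => 1) z 0).comp ((pl : W2 N K →L[ℝ] Wt N K).prod pr)

theorem xiN_apply (h : GT.Bla G k) (ν : W2 N K) :
    xiN h PN z ν = KR.Xi h PN (fun r => r) (fun _ => 1) z 0 (pl ν, pr ν) := rfl

theorem ang_id : KR.Ang (fun r => r) (fun _ => 1) where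
  der r := hasDerivAt_id r
  cont := continuous_const
  pos _ := one_pos
  per _ := rfl

theorem pl_RN (t : ℝ) (ν : W2 N K) : pl (RN N K t ν) = Rt (nuP K) t (KR.na t (pl ν) (pr ν)) := by
  unfold RN KR.na
  rw [pl_R2, show (-1 / 2 : ℝ) * t = -(t / 2) by ring, Real.cos_neg, Real.sin_neg, map_add,
    map_smul, map_smul, neg_smul, sub_neg_eq_add]

theorem pr_RN (t : ℝ) (ν : W2 N K) : pr (RN N K t ν) = Rt (nuP K) t (KR.nb t (pl ν) (pr ν)) := by
  unfold RN KR.nb
  rw [pr_R2, show (-1 / 2 : ℝ) * t = -(t / 2) by ring, Real.cos_neg, Real.sin_neg, map_add,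
    map_neg, map_smul, map_smul, neg_smul]

/-- the fields of the instance are 844's fields -/
theorem xf_xiN (h : GT.Bla G k) (H : NB.NegB G (k - 1) (nuP K) δ PN) (hz : z ∈ L.US G)
    (ν : W2 N K) (t : ℝ) : xf G (RN N K) (xiN h PN) z ν t =
      KR.xi G z (KR.C1 h PN z (fun r => r) (fun _ => 1) (pl ν) (pr ν)) t := by
  have hP := KR.NegB.of_NB h H
  have hzt := NB.fl_mem_US hz t
  unfold xf
  rw [xiN_apply, pl_RN, pr_RN, ← hP.xi_eq (θ := fun r => r) (θ' := fun _ => 1) hzt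
    continuous_id continuous_const, hP.xi_shift hz, zero_add]

theorem deriv_xf (h : GT.Bla G k) (H : NB.NegB G (k - 1) (nuP K) δ PN) (hz : z ∈ L.US G)
    (ν : W2 N K) : deriv (xf G (RN N K) (xiN h PN) z ν) =
      KR.xi' G z (KR.C1 h PN z (fun r => r) (fun _ => 1) (pl ν) (pr ν)) := by
  have hP := KR.NegB.of_NB h H
  have e : xf G (RN N K) (xiN h PN) z ν =
      KR.xi G z (KR.C1 h PN z (fun r => r) (fun _ => 1) (pl ν) (pr ν)) :=
    funext fun t => xf_xiN h H hz ν t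
  funext t
  rw [e]
  exact ((hP.gf_xi hz ang_id (pl ν) (pr ν)).der t).deriv

theorem norm_RN (t : ℝ) (ν : W2 N K) : ‖RN N K t ν‖ = ‖ν‖ := by
  have hR := NB.rep_per N K
  have h1 : ‖RN N K t ν‖ ^ 2 = ‖ν‖ ^ 2 := by
    unfold RN
    rw [norm_sq_eq, norm_sq_eq ν, pl_R2, pr_R2, norm_sub_sq_real, norm_add_sq_real]
    simp only [norm_smul, norm_Rt, real_inner_smul_left, real_inner_smul_right, mul_pow,
      Real.norm_eq_abs, sq_abs]
    linear_combination (‖pl ν‖ ^ 2 + ‖pr ν‖ ^ 2) * (Real.sin_sq_add_cos_sq (-1 / 2 * t))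
  exact (sq_eq_sq₀ (norm_nonneg _) (norm_nonneg _)).1 h1

theorem RN_zero (ν : W2 N K) : RN N K 0 ν = ν := by
  refine ext_d ?_ ?_
  · unfold RN
    rw [pl_R2, mul_zero, Real.cos_zero, Real.sin_zero, one_smul, zero_smul, sub_zero]
    exact Rt_zero _ _
  · unfold RN
    rw [pr_R2, mul_zero, Real.cos_zero, Real.sin_zero, one_smul, zero_smul, zero_add]
    exact Rt_zero _ _

theorem RN_add (s t : ℝ) (ν : W2 N K) : RN N K (s + t) ν = RN N K s (RN N K t ν) := by
  refine ext_d ?_ ?_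
  · unfold RN
    rw [pl_R2, pl_R2, pl_R2, pr_R2, mul_add, Real.cos_add, Real.sin_add, Rt_add, Rt_add]
    simp only [map_sub, map_add, map_smul]
    module
  · unfold RN
    rw [pr_R2, pr_R2, pl_R2, pr_R2, mul_add, Real.cos_add, Real.sin_add, Rt_add, Rt_add]
    simp only [map_sub, map_add, map_smul]
    module

theorem RN_anti (ν : W2 N K) : RN N K (2 * π) ν = -ν := by
  have h1 : (-1 / 2 : ℝ) * (2 * π) = -π := by ring
  refine ext_d ?_ ?_
  · unfold RN
    rw [pl_R2, h1, Real.cos_neg, Real.sin_neg, Real.cos_pi, Real.sin_pi, Rt_per, map_neg]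
    simp
  · unfold RN
    rw [pr_R2, h1, Real.cos_neg, Real.sin_neg, Real.cos_pi, Real.sin_pi, map_neg]
    simp [Rt_per]

theorem contDiff_RN : ContDiff ℝ ∞ (RN N K) := by
  rw [contDiff_iff_contDiffAt]
  intro t
  have hR := (NB.rep_per N K).smooth.contDiffAt (x := t)
  have h1 : ContDiffAt ℝ ∞ (fun s : ℝ => (-1 / 2 : ℝ) * s) t := contDiffAt_const.mul contDiffAt_id
  exact ((Real.contDiff_cos.contDiffAt.comp t h1).smul (DD.contDiffAt_dd hR)).add
    ((Real.contDiff_sin.contDiffAt.comp t h1).smul (DD.contDiffAt_dj hR))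

theorem contDiffAt_xiN (h : GT.Bla G k) (H : NB.NegB G (k - 1) (nuP K) δ PN) (hz : z ∈ L.US G) :
    ContDiffAt ℝ ∞ (xiN h PN) z := by
  have hP := KR.NegB.of_NB h H
  have h1 := hP.contDiffAt_Xi (E := ℝ) (Th := fun _ r => r) (Th' := fun _ _ => 1) (s₀ := 0) hz
    (fun r => contDiffAt_snd) (fun r => contDiffAt_const) 0
  have h2 : ContDiffAt ℝ ∞ (fun y : Euc N × Euc N => ((y, (0:ℝ)), (0:ℝ))) z := by fun_prop
  have h3 := ContDiffAt.comp z (g := fun q : ((Euc N × Euc N) × ℝ) × ℝ =>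
    KR.Xi h PN (fun r => r) (fun _ => 1) q.1.1 q.2) h1 h2
  exact h3.clm_comp contDiffAt_const

theorem sang_id : KR.SAng (fun p : ℝ × ℝ => p.2) (fun _ => 1) where
  sm := contDiff_snd
  sm' := contDiff_const
  ang _ _ := ang_id

/-- **the instance**: the doubled negative bundle with the Krein–Fourier fields -/
theorem exists_XI (h : GT.Bla G k) (H : NB.NegB G (k - 1) (nuP K) δ PN) :
    ∃ δ₂, XI G (DD.NN PN) (RN N K) (xiN h PN) δ₂ := by
  have hP := KR.NegB.of_NB h H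
  obtain ⟨δ₂, hδ₂, hle⟩ := hP.ix_unif sang_id
  refine ⟨δ₂, hδ₂, contDiff_RN, RN_zero, RN_add, norm_RN, RN_anti,
    fun z hz => contDiffAt_xiN h H hz, ?_, ?_, ?_⟩
  · intro z hz ν hν
    have h1 := (hP.gf_xi hz ang_id (pl ν) (pr ν)).mem 0
    rw [← xf_xiN h H hz, fl_zero] at h1
    unfold xf at h1
    rwa [fl_zero, RN_zero] at h1
  · intro z hz s ν
    have h1 := DD.NN_equi (φ := CM.gf G) (R := fun s => (Rt (nuP K) s : Wt N K →L[ℝ] Wt N K))
      (N := PN) (x := z) (-1 / 2) (fun t v => H.equi z hz t v) s ν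
    exact h1
  · intro z hz ν hν
    obtain ⟨ha, hb⟩ := DD.NN_eq_self_iff.1 hν
    have h1 := hle z hz (pl ν) (pr ν) ha hb 0 ⟨le_rfl, zero_le_one⟩
    rw [KR.IX_eq, ← norm_sq_eq] at h1
    rw [deriv_xf h H hz]
    rw [show xf G (RN N K) (xiN h PN) z ν =
      KR.xi G z (KR.C1 h PN z (fun r => r) (fun _ => 1) (pl ν) (pr ν)) from
      funext fun t => xf_xiN h H hz ν t]
    exact h1

end Crest.Agent.R208.FT
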