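import Crest.Agent.R208.FT2
import Crest.Agent.R208.FT4
import Crest.Agent.R208.FT5

/-!
R208, (8,2), block F2 (helper336), part FT6: existence of the data `D2` of the level two family.
-/

set_option autoImplicit false
set_option linter.unusedSectionVars false
set_option linter.unusedVariables false

open Set Filter Topology MeasureTheory
open scoped ContDiff RealInnerProductSpace Real
open Crest.GeometryTopology.Submanifold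
open Crest.Agent.R241.DDefs Crest.Agent.R241.D Crest.Agent.R241.D2

noncomputable section

namespace Crest.Agent.R208.FT

open Crest.Agent.R208.SV Crest.Agent.R208.MS Crest.Agent.R208.NN Crest.Agent.R208.FL

variable {n N K k : ℕ} {κ : ℝ} {S : Set (Euc N)} {G : Geo n N κ S} {lg : Euc N → Euc N → Euc N}
  {ρ : Euc N → Euc N} {r C r' Kr B w δ : ℝ} {PN : Euc N × Euc N → Wt N K →L[ℝ] Wt N K}
  {H₂ : Type} [NormedAddCommGroup H₂] [InnerProductSpace ℝ H₂] [FiniteDimensional ℝ H₂]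
  {P₂ : Euc N × Euc N → H₂ →L[ℝ] H₂} {Rr : ℝ → H₂ →L[ℝ] H₂}
  {xi0 : Euc N × Euc N → H₂ →L[ℝ] Euc N} {δ₂ : ℝ}

/-- **existence of the level two data**, from `D0` and any `XI` -/
theorem exists_D2 (h : D0 G k K lg ρ r C r' Kr B w δ PN) (hX : XI G P₂ Rr xi0 δ₂) :
    ∃ ε₀ > 0, ∀ ε, 0 < ε → ε ≤ ε₀ → ∀ ε₂, 0 < ε₂ → 3 * ε₂ ≤ ε₀ →
      ∀ E₁ < π, ∀ η₁ > 0, ∃ E₀ η : ℝ, E₁ ≤ E₀ ∧ η ≤ η₁ ∧ ∃ J₀ : ℕ, ∀ J, J₀ ≤ J →
        D2 G k K lg ρ r C r' Kr B w δ PN ε J E₀ η P₂ Rr xi0 δ₂ ε₂ := by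
  obtain ⟨a, ha, hA⟩ := h.exists_D1
  obtain ⟨b, hb, hB⟩ := exists_energy h.bla h.rt h.der h.neg hX
  refine ⟨min a b, lt_min ha hb, fun ε hε hε' ε₂ hε₂ hε₂' E₁ hE₁ η₁ hη₁ => ?_⟩
  obtain ⟨E₀, η, h1, h2, J₀, h3⟩ := hA ε hε (hε'.trans (min_le_left _ _)) E₁ hE₁ η₁ hη₁
  refine ⟨E₀, η, h1, h2, J₀, fun J hJ => ?_⟩
  have hb1 := hε'.trans (min_le_right a b)
  have hb2 := hε₂'.trans (min_le_right a b)
  exact
    { toD1 := h3 J hJ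
      xi := hX
      e2_pos := hε₂
      small2 := fun z hz v hv hv1 ν hν c hc hc' =>
        (hB ε c hε hb1 z hz v hv hv1 ν hν hc (hc'.trans hb2)).1
      en2 := fun z hz v hv hv1 ν hν c hc hc' =>
        (hB ε c hε hb1 z hz v hv hv1 ν hν hc (hc'.trans hb2)).2 }

/-- **everything together**: the level two family for the doubled negative bundle of a Blaschke
manifold, for arbitrarily small constants -/
theorem exists_level_two (h : GT.Bla G k) {B : ℝ} (hB : π ≤ B) (hB4 : B < 4 * π) :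
    ∃ (lg : Euc N → Euc N → Euc N) (ρ : Euc N → Euc N) (r C r' Kr : ℝ) (K : ℕ) (δ : ℝ)
      (PN : Euc N × Euc N → Wt N K →L[ℝ] Wt N K) (δ₂ : ℝ), ∃ w₀ > 0, ∀ w, 0 < w → w ≤ w₀ →
        D0 G k K lg ρ r C r' Kr B w δ PN ∧ XI G (DD.NN PN) (RN N K) (xiN h PN) δ₂ ∧
        ∃ ε₀ > 0, ∀ ε, 0 < ε → ε ≤ ε₀ → ∀ ε₂, 0 < ε₂ → 3 * ε₂ ≤ ε₀ →
          ∀ E₁ < π, ∀ η₁ > 0, ∃ E₀ η : ℝ, E₁ ≤ E₀ ∧ η ≤ η₁ ∧ ∃ J₀ : ℕ, ∀ J, J₀ ≤ J →
            D2 G k K lg ρ r C r' Kr B w δ PN ε J E₀ η (DD.NN PN) (RN N K) (xiN h PN) δ₂ ε₂ := by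
  obtain ⟨lg, ρ, r, C, r', Kr, K, δ, PN, w₀, hw₀, hD⟩ := exists_D0 h hB hB4
  obtain ⟨δ₂, hX⟩ := exists_XI h (hD w₀ hw₀ le_rfl).neg
  exact ⟨lg, ρ, r, C, r', Kr, K, δ, PN, δ₂, w₀, hw₀, fun w h0 h1 =>
    ⟨hD w h0 h1, hX, exists_D2 (hD w h0 h1) hX⟩⟩

end Crest.Agent.R208.FT
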