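import Crest.Agent.R208.FI2a

/-!
R208, block E4a (helper131): smooth nearest point retraction onto a compact submanifold.
-/

set_option autoImplicit false

open Set Filter Topology Module
open scoped ContDiff RealInnerProductSpace
open Crest.Agent.R208.F Crest.Agent.R208.FI

noncomputable section

namespace Crest.Agent.R208.E

variable {E : Type*} [NormedAddCommGroup E] [InnerProductSpace ℝ E] [FiniteDimensional ℝ E]

/-- `x` is a nearest point of `X` to `y` -/
def Near (X : Set E) (y x : E) : Prop := x ∈ X ∧ ∀ x' ∈ X, ‖x - y‖ ≤ ‖x' - y‖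

theorem local_retract {n : ℕ} {X : Set E} (hX : Sub n X) {x0 : E} (hx0 : x0 ∈ X) :
    ∃ (O : Set E) (ρ : E → E), IsOpen O ∧ x0 ∈ O ∧ ContDiffOn ℝ ∞ ρ O ∧
      ∀ y ∈ O, ∀ x, Near X y x → x = ρ y := by
  classical
  obtain ⟨f, W, O1, ℓ, hl, hxO⟩ := hX.exists_loc hx0
  set u0 := ℓ x0 with hu0
  have hfu0 : f u0 = x0 := hl.right_inv hx0 hxO
  have hu0W : u0 ∈ W := hl.maps x0 hxO
  set eb : Fin n → Eu n := fun i => EuclideanSpace.single i (1:ℝ) with heb
  set F : Eu n × E → Eu n := fun p =>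
    WithLp.toLp 2 (fun i => ⟪f p.1 - p.2, fderiv ℝ f p.1 (eb i)⟫) with hF
  set G : Eu n × E → Eu n × E := fun p => (F p, p.2) with hG
  have hfc : ∀ p : Eu n × E, p.1 ∈ W → ContDiffAt ℝ ∞ (fun p : Eu n × E => f p.1) p := fun p hp =>
    (hl.fC' hp).comp p contDiffAt_fst
  have hfc' : ∀ p : Eu n × E, p.1 ∈ W → ContDiffAt ℝ ∞ (fun p : Eu n × E => fderiv ℝ f p.1) p :=
    fun p hp => ((hl.fC' hp).fderiv_right (m := ∞) (by simp)).comp p contDiffAt_fst
  have hFc : ∀ p : Eu n × E, p.1 ∈ W → ContDiffAt ℝ ∞ F p := by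
    intro p hp
    rw [contDiffAt_euclidean]
    intro i
    exact ((hfc p hp).sub contDiffAt_snd).inner ℝ ((hfc' p hp).clm_apply contDiffAt_const)
  have hGc : ∀ p : Eu n × E, p.1 ∈ W → ContDiffAt ℝ ∞ G p := fun p hp =>
    (hFc p hp).prodMk contDiffAt_snd
  set p0 : Eu n × E := (u0, x0) with hp0
  set A := fderiv ℝ f u0 with hA
  -- the derivative at `p0` is injective
  have hinj : Function.Injective (fderiv ℝ G p0) := by
    rw [injective_iff_map_eq_zero]
    rintro ⟨du, dy⟩ h0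
    have hGd : HasFDerivAt G (fderiv ℝ G p0) p0 :=
      ((hGc p0 hu0W).differentiableAt (by simp)).hasFDerivAt
    have h2 : HasFDerivAt (fun p : Eu n × E => p.2) ((ContinuousLinearMap.snd ℝ _ _) ∘L fderiv ℝ G p0) p0 :=
      hGd.snd
    have h3 : dy = 0 := by
      have h4 := h2.unique (hasFDerivAt_snd (𝕜 := ℝ) (E := Eu n) (F := E) (p := p0))
      have h5 := congrArg (fun L => L (du, dy)) h4
      simp only [ContinuousLinearMap.comp_apply, h0] at h5
      simpa using h5.symm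
    subst h3
    have h1 : HasFDerivAt F ((ContinuousLinearMap.fst ℝ _ _) ∘L fderiv ℝ G p0) p0 := hGd.fst
    have hcomp : ∀ i, ⟪A du, A (eb i)⟫ = (0:ℝ) := by
      intro i
      have h6 : HasFDerivAt (fun p : Eu n × E => F p i)
          ((EuclideanSpace.proj i : Eu n →L[ℝ] ℝ) ∘L ((ContinuousLinearMap.fst ℝ _ _) ∘L fderiv ℝ G p0)) p0 :=
        (EuclideanSpace.proj i : Eu n →L[ℝ] ℝ).hasFDerivAt.comp p0 h1
      have h7 : HasFDerivAt (fun p : Eu n × E => f p.1 - p.2)
          (A ∘L (ContinuousLinearMap.fst ℝ _ _) - ContinuousLinearMap.snd ℝ _ _) p0 := by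
        refine HasFDerivAt.sub ?_ hasFDerivAt_snd
        exact (((hl.fC' hu0W).differentiableAt (by simp)).hasFDerivAt (x := u0)).comp p0
          (hasFDerivAt_fst (p := p0))
      have h8 : HasFDerivAt (fun p : Eu n × E => fderiv ℝ f p.1 (eb i))
          (fderiv ℝ (fun p : Eu n × E => fderiv ℝ f p.1 (eb i)) p0) p0 :=
        (((hfc' p0 hu0W).clm_apply contDiffAt_const).differentiableAt (by simp)).hasFDerivAt
      have h9 := (h6.unique (h7.inner ℝ h8))
      have h10 := congrArg (fun L => L (du, (0:E))) h9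
      simp only [ContinuousLinearMap.comp_apply, h0] at h10
      simp only [hp0, hfu0, sub_self, ContinuousLinearMap.prod_apply, fderivInnerCLM_apply,
        inner_zero_left, zero_add] at h10
      simpa using h10.symm
    have h11 : A du = ∑ i, du i • A (eb i) := by
      conv_lhs => rw [← (EuclideanSpace.basisFun (Fin n) ℝ).sum_repr du]
      rw [map_sum]
      refine Finset.sum_congr rfl fun i _ => ?_
      rw [map_smul]
      simp [heb]
    have h12 : ⟪A du, A du⟫ = (0:ℝ) := by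
      conv_lhs => rw [h11]
      nth_rewrite 2 [← h11]
      rw [real_inner_comm, inner_sum]
      refine Finset.sum_eq_zero fun i _ => ?_
      rw [inner_smul_right, hcomp i, mul_zero]
    have h13 : A du = 0 := inner_self_eq_zero.1 h12
    have h14 : du = 0 := by
      have := hl.chart.inj u0 hu0W
      exact this (by rw [map_zero]; exact h13)
    rw [h14]
    rfl
  -- the local inverse
  set Me : (Eu n × E) ≃L[ℝ] (Eu n × E) :=
    (LinearEquiv.ofInjectiveEndo (fderiv ℝ G p0).toLinearMap hinj).toContinuousLinearEquiv with hMe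
  have hMev : (Me : Eu n × E →L[ℝ] Eu n × E) = fderiv ℝ G p0 := by
    exact ContinuousLinearMap.ext fun x => rfl
  have hGp : HasFDerivAt G (Me : Eu n × E →L[ℝ] Eu n × E) p0 := by
    rw [hMev]
    exact ((hGc p0 hu0W).differentiableAt (by simp)).hasFDerivAt
  set e := (hGc p0 hu0W).toOpenPartialHomeomorph G hGp (by simp) with he
  have hpe : p0 ∈ e.source := ContDiffAt.mem_toOpenPartialHomeomorph_source _ _ _
  have hWo : IsOpen (W ×ˢ (univ : Set E)) := hl.oW.prod isOpen_univ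
  have hcont : ContinuousOn (fderiv ℝ G) (W ×ˢ (univ : Set E)) := by
    have h1 : ContDiffOn ℝ ∞ G (W ×ˢ (univ : Set E)) := fun p hp => (hGc p hp.1).contDiffWithinAt
    exact h1.continuousOn_fderiv_of_isOpen hWo (by simp)
  set Pn : Set (Eu n × E) := ((W ×ˢ (univ : Set E)) ∩ (fderiv ℝ G) ⁻¹'
    {L | ∃ M : (Eu n × E) ≃L[ℝ] (Eu n × E), (M : Eu n × E →L[ℝ] Eu n × E) = L}) ∩ e.source with hPn
  have hPo : IsOpen Pn := (hcont.isOpen_inter_preimage hWo ContinuousLinearEquiv.isOpen).inter e.open_source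
  have hp0P : p0 ∈ Pn := ⟨⟨⟨hu0W, mem_univ _⟩, Me, hMev⟩, hpe⟩
  have hT : IsOpen (G '' Pn) := e.isOpen_image_of_subset_source hPo (fun y hy => hy.2)
  have hFp0 : F p0 = 0 := by
    ext i
    simp [hF, hp0, hfu0]
  have hGp0 : G p0 = (0, x0) := by
    change (F p0, p0.2) = _
    rw [hFp0]
  -- the set
  have hnb : {q : E × E | q.1 ∈ O1 ∧ (ℓ q.1, q.2) ∈ Pn} ∈ 𝓝 (x0, x0) := by
    have hc : ContinuousAt (fun q : E × E => (ℓ q.1, q.2)) (x0, x0) :=
      ((hl.lC' hxO).continuousAt.comp (x := (x0, x0)) continuousAt_fst).prodMk continuousAt_snd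
    have h1 : (Prod.fst ⁻¹' O1 : Set (E × E)) ∈ 𝓝 (x0, x0) :=
      (continuousAt_fst (p := (x0, x0))).preimage_mem_nhds (hl.oO.mem_nhds hxO)
    exact Filter.inter_mem h1 (hc.preimage_mem_nhds (hPo.mem_nhds hp0P))
  obtain ⟨δ, hδ, hδb⟩ := Metric.mem_nhds_iff.1 hnb
  refine ⟨(fun y : E => ((0 : Eu n), y)) ⁻¹' (G '' Pn) ∩ Metric.ball x0 (δ / 2),
    fun y => f (e.symm (0, y)).1, ?_, ?_, ?_, ?_⟩
  · exact (hT.preimage (by fun_prop)).inter Metric.isOpen_ball
  · exact ⟨⟨p0, hp0P, hGp0⟩, Metric.mem_ball_self (by positivity)⟩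
  · rintro y ⟨⟨p, hpP, hpy⟩, -⟩
    apply ContDiffAt.contDiffWithinAt
    have hBq : ((0 : Eu n), y) = e p := hpy.symm
    have hys : e.symm (0, y) = p := by rw [hBq]; exact e.left_inv hpP.2
    obtain ⟨M, hM⟩ := hpP.1.2
    have hM' : HasFDerivAt e (M : (Eu n × E) →L[ℝ] (Eu n × E)) (e.symm (0, y)) := by
      rw [hys, hM]
      exact ((hGc p hpP.1.1.1).differentiableAt (by simp)).hasFDerivAt
    have h1 : ContDiffAt ℝ ∞ e.symm ((0 : Eu n), y) :=
      e.contDiffAt_symm (by rw [hBq]; exact e.map_source hpP.2) hM'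
        (by rw [hys]; exact hGc p hpP.1.1.1)
    have h2 : ContDiffAt ℝ ∞ (fun y : E => (e.symm ((0 : Eu n), y)).1) y :=
      contDiffAt_fst.comp y (h1.comp y (contDiffAt_const.prodMk contDiffAt_id))
    refine ContDiffAt.comp y ?_ h2
    rw [hys]
    exact hl.fC' hpP.1.1.1
  · rintro y ⟨-, hy⟩ x ⟨hxX, hxn⟩
    have hyx : ‖x - y‖ ≤ ‖x0 - y‖ := hxn x0 hx0
    have hy' : ‖x0 - y‖ < δ / 2 := by rwa [Metric.mem_ball, dist_comm, dist_eq_norm] at hy
    have hxx : dist x x0 < δ := by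
      rw [dist_eq_norm]
      have : x - x0 = (x - y) - (x0 - y) := by abel
      rw [this]
      linarith [norm_sub_le (x - y) (x0 - y)]
    have hyd : dist y x0 < δ := lt_of_lt_of_le hy (by linarith)
    obtain ⟨hxO1, hPx⟩ := hδb (show (x, y) ∈ Metric.ball (x0, x0) δ by
      rw [Metric.mem_ball, Prod.dist_eq]
      exact max_lt hxx hyd)
    simp only at hxO1 hPx
    have hfx : f (ℓ x) = x := hl.right_inv hxX hxO1
    have hℓW : ℓ x ∈ W := hPx.1.1.1
    have hmin : IsLocalMin (fun v => ‖f v - y‖ ^ 2) (ℓ x) := by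
      filter_upwards [hl.oW.mem_nhds hℓW] with v hv
      have h1 := hxn (f v) (hl.mem hv).1
      rw [hfx]
      exact pow_le_pow_left₀ (norm_nonneg _) h1 2
    have hd : HasFDerivAt (fun v => f v - y) (fderiv ℝ f (ℓ x)) (ℓ x) :=
      (((hl.fC' hℓW).differentiableAt (by simp)).hasFDerivAt).sub_const y
    have h0 := hmin.hasFDerivAt_eq_zero hd.norm_sq
    have hF0 : F (ℓ x, y) = 0 := by
      ext i
      have h1 := congrArg (fun L => L (eb i)) h0
      simp only [smul_apply, ContinuousLinearMap.comp_apply,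
        innerSL_apply_apply, zero_apply, nsmul_eq_mul, Nat.cast_ofNat] at h1
      have h2 : ⟪f (ℓ x) - y, fderiv ℝ f (ℓ x) (eb i)⟫ = (0:ℝ) := by
        rcases mul_eq_zero.1 h1 with h3 | h3
        · norm_num at h3
        · exact h3
      simpa [hF] using h2
    have hGe : G (ℓ x, y) = ((0 : Eu n), y) := by simp only [hG, hF0]
    have hsy : e.symm ((0 : Eu n), y) = (ℓ x, y) := by
      rw [← hGe]
      exact e.left_inv hPx.2
    simp only [hsy, hfx]

/-- **smooth nearest point retraction** onto a compact submanifold -/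
theorem exists_retract {n : ℕ} {X : Set E} (hX : Clo n X) :
    ∃ (r : E → E) (O : Set E), IsOpen O ∧ X ⊆ O ∧ ContDiffOn ℝ ∞ r O ∧ MapsTo r O X ∧
      ∀ x ∈ X, r x = x := by
  classical
  rcases X.eq_empty_or_nonempty with rfl | hne
  · exact ⟨id, ∅, isOpen_empty, empty_subset _, contDiffOn_id, fun _ h => h, by simp⟩
  have hex : ∀ y : E, ∃ x, Near X y x := by
    intro y
    obtain ⟨x, hx, hmin⟩ := hX.compact.exists_isMinOn hne
      (f := fun x => ‖x - y‖) (by fun_prop)
    exact ⟨x, hx, fun x' hx' => hmin hx'⟩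
  choose r hr using hex
  choose! O ρ hO hxO hρ hρn using fun x (hx : x ∈ X) => local_retract hX.sub hx
  refine ⟨r, ⋃ x ∈ X, O x, isOpen_biUnion fun x hx => hO x hx, fun x hx => ?_, ?_, fun y _ => (hr y).1,
    fun x hx => ?_⟩
  · exact mem_iUnion₂.2 ⟨x, hx, hxO x hx⟩
  · intro y hy
    obtain ⟨x, hx, hyx⟩ := mem_iUnion₂.1 hy
    apply ContDiffAt.contDiffWithinAt
    have h1 : ContDiffAt ℝ ∞ (ρ x) y := (hρ x hx).contDiffAt ((hO x hx).mem_nhds hyx)
    refine h1.congr_of_eventuallyEq ?_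
    filter_upwards [(hO x hx).mem_nhds hyx] with y' hy'
    exact hρn x hx y' hy' (r y') (hr y')
  · have h1 := (hr x).2 x hx
    rw [sub_self, norm_zero] at h1
    have h2 := norm_le_zero_iff.1 h1
    exact (sub_eq_zero.1 h2)

end Crest.Agent.R208.E
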