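import Crest.Agent.R208.TU3
import Crest.Agent.R208.OE1

/-!
Row 208, block TU (helper10), part TU5: the tubes are open embeddings in the sense of helper997's
`OE`.
-/

set_option autoImplicit false
set_option linter.unusedSectionVars false
set_option linter.unusedVariables false

open Set Filter Topology MeasureTheory Module
open scoped ContDiff RealInnerProductSpace Interval
open Crest.GeometryTopology.Submanifold
open Crest.Agent.R241.DDefs
open Crest.Agent.R241.D2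
open Crest.Agent.R208.F Crest.Agent.R208.FI Crest.Agent.R208.T Crest.Agent.R208.FG
open Crest.Agent.R208.FV (PVB phi phi_mem PV_eq_self pfield_PVB contDiffAt_phi)
open Crest.Agent.R208.KG (N2 N3 N4 nest4 nest2 idx)

noncomputable section

namespace Crest.Agent.R208.TU

variable {n N k d r : ℕ} {κ : ℝ} {S : Set (Euc N)} {G : Geo n N κ S}
  {H₁ H₂ : Type*} [NormedAddCommGroup H₁] [InnerProductSpace ℝ H₁] [FiniteDimensional ℝ H₁]
  [NormedAddCommGroup H₂] [InnerProductSpace ℝ H₂] [FiniteDimensional ℝ H₂]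
  {P₁ : Euc N × Euc N → H₁ →L[ℝ] H₁} {P₂ : Euc N × Euc N → H₂ →L[ℝ] H₂}
  {h : GT.Bla G k} {Lz : Euc N × Euc N → (H₂ × H₁) →L[ℝ] (Fin 4 → Euc N)}
  {L2 : Euc N × Euc N → H₁ →L[ℝ] (Fin 2 → Euc N)} {r₁ r₂ : ℕ}

/-- the total space of `P₂ ⊕ P₁` -/
theorem sub_TT (h : GT.Bla G k) (hd : d + 1 = 2 * n) (hP₂ : PField (L.US G) r₂ P₂)
    (hP₁ : PField (L.US G) r₁ P₁) : Sub (d + r₂ + r₁) (TP.TT (L.US G) P₂ P₁) := by
  have h1 : Sub (d + r₂) (Tot (L.US G) P₂) := hP₂.sub_tot (SB.clo_US h hd).sub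
  refine PField.sub_tot (P := fun z : (Euc N × Euc N) × H₂ => P₁ z.1) h1 ?_
  exact ⟨fun z hz => ContDiffAt.comp (g := P₁) (f := fun z : (Euc N × Euc N) × H₂ => z.1) z
      (hP₁.smooth _ hz.1) contDiffAt_fst, fun z hz => hP₁.idem _ hz.1, fun z hz => hP₁.rank _ hz.1⟩

theorem LinK.oe (hL : LinK h P₂ P₁ Lz) (hd : d + 1 = 2 * n) (hr : r + 1 = k)
    (hP₂ : PField (L.US G) r₂ P₂) (hP₁ : PField (L.US G) r₁ P₁) (hr₁ : r₁ + r₂ = r + r + r) :
    OE.OE (r + (r + (r + d))) (TP.TT (L.US G) P₂ P₁) (N4 h) (Psi Lz) where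
  sub := by
    have h1 := sub_TT h hd hP₂ hP₁
    rwa [show d + r₂ + r₁ = r + (r + (r + d)) by omega] at h1
  clo := clo_N4 h hr hd
  smap := hL.smap_Psi
  inj := hL.injOn
  imm := fun z hz v hv h0 => hL.fderiv_inj hP₂ hP₁ hz hv h0

theorem LinK2.oe (hL : LinK2 h P₁ L2) (hd : d + 1 = 2 * n) (hr : r + 1 = k)
    (hP₁ : PField (L.US G) r P₁) :
    OE.OE (r + d) (Tot (L.US G) P₁) (N2 h) (Psi2 L2) where
  sub := by
    have h1 : Sub (d + r) (Tot (L.US G) P₁) := hP₁.sub_tot (SB.clo_US h hd).sub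
    rwa [Nat.add_comm d r] at h1
  clo := clo_N2 h hr hd
  smap := hL.smap_Psi
  inj := hL.injOn
  imm := fun z hz v hv h0 => hL.fderiv_inj hP₁ hz hv h0

end Crest.Agent.R208.TU
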