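import Crest.Agent.R208.NW7
import Crest.Agent.R208.FT6
import Crest.Agent.R208.TU5
import Crest.Agent.R208.EX9

/-!
R208, block AK (helper952), part 13: **the junction in the coordinates of the total space**
`TT (US G) P₂ PN`: the linear map `Lz` (`TU.LinK`), the family `fJ` over `TT × ℝ`, its end points
(`KG.F .. (nest4 (Psi x)) 0` and the orbits of the level two family) and its energies.
-/

set_option autoImplicit false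
set_option linter.unusedSectionVars false
set_option linter.unusedVariables false

open Set Filter Topology MeasureTheory Module
open scoped ContDiff RealInnerProductSpace Real
open Crest.GeometryTopology.Submanifold
open Crest.Agent.R241.DDefs
open Crest.Agent.R241.D2
open Crest.Agent.R208.NN (V0 qq Wt nuP fd fd')
open Crest.Agent.R208.KG (idx Km OK N4 nest4)
open Crest.Agent.R208.MS (En)
open Crest.Agent.R208.EX (LF)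

noncomputable section

namespace Crest.Agent.R208.AK

variable {n N k Kn : ℕ} {κ : ℝ} {S : Set (Euc N)} {G : Geo n N κ S} {z : Euc N × Euc N}
  {δ ε : ℝ} {PN : Euc N × Euc N → Wt N Kn →L[ℝ] Wt N Kn}

/-- the energy of the geodesic -/
lemma EnT_fl (hz : z ∈ L.US G) (T : ℝ) : EnT T (fun t => (fl G (z, t)).1) = T / 2 := by
  have h1 : ∀ t, deriv (fun t => (fl G (z, t)).1) t = (fl G (z, t)).2 := fun t =>
    (hda_fst (hasDerivAt_fl G (complete G hz.1 t))).deriv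
  unfold EnT
  simp only [h1]
  exact int_fl hz T

section link

variable {H₂ : Type*} [NormedAddCommGroup H₂] [InnerProductSpace ℝ H₂] [FiniteDimensional ℝ H₂]
  {P₂ : Euc N × Euc N → H₂ →L[ℝ] H₂} {j : H₂ →L[ℝ] Wt N Kn × Wt N Kn}

/-- **the linear map of the tube** -/
theorem linK_rem (hS : IsCompact S) (hO : OK G 4 ε) (h : GT.Bla G k) (hk : 1 ≤ k)
    (H : NB.NegB G (k - 1) (nuP Kn) δ PN) {c : ℝ} (hc0 : 0 < c) (hc : HC G ε c)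
    (hj : ∀ z ∈ L.US G, ∀ ν, P₂ z ν = ν → PP PN PN z (j ν) = j ν) {cj : ℝ} (hcj : 0 < cj)
    (hjc : ∀ z ∈ L.US G, ∀ ν, P₂ z ν = ν → cj * ‖ν‖ ^ 2 ≤ ‖j ν‖ ^ 2)
    {R : Euc N → Euc N} {O : Set (Euc N)} (hOo : IsOpen O) (hSO : S ⊆ O)
    (hR : ContDiffOn ℝ ∞ R O) (hRS : MapsTo R O S) (hRid : ∀ x ∈ S, R x = x) :
    TU.LinK h P₂ PN (AK.rem (Lall h ε δ PN j)) := by
  have hL := (linC_Lall (P₂ := P₂) (j := j) hO h hk H hc0 hc hj).rem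
  refine ⟨hL.smooth, fun z hz ζ h2 h1 i => hL.mem z hz ζ (PP_eq.2 ⟨h2, h1⟩) i,
    fun z _ ζ _ _ => rem_zero z ζ, fun z hz ζ h2 h1 h0 => ?_⟩
  obtain ⟨Hm, r, δf, hr, hδf, -, hm0, -, hen⟩ := NW.exists_junction (P₂ := P₂) (j := j) hS hO h hk
    H hc0 hc hj hcj hjc (ε₁ := 1) (ε₂ := 1) one_pos one_pos hOo hSO hR hRS hRid
  by_contra hne
  have hn : 0 < ‖ζ‖ := norm_pos_iff.2 hne
  set s : ℝ := r / (2 * ‖ζ‖) with hs
  have hs0 : 0 < s := by positivity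
  have hP : PP P₂ PN z (s • ζ) = s • ζ := by rw [map_smul, PP_eq.2 ⟨h2, h1⟩]
  have hns : ‖s • ζ‖ = r / 2 := by
    rw [norm_smul, Real.norm_eq_abs, abs_of_pos hs0, hs]
    field_simp
  have hlt : ‖s • ζ‖ < r := by rw [hns]; linarith
  have e1 : ∀ t, Hm (((z, 0), s • ζ), t) = (fl G (z, t)).1 := fun t => by
    rw [hm0 z hz _ hP hlt t, map_smul, h0, smul_zero]
    exact FT_diag hO hz h t
  have h3 := hen z hz 0 ⟨le_rfl, zero_le_one⟩ _ hP hlt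
  rw [funext e1, EnT_fl hz, hns] at h3
  have h4 : 0 < δf * (r / 2) ^ 2 := by positivity
  linarith [Real.pi_pos]

end link

/-! ### the family over the total space -/

section fam

variable {H₂ : Type} [NormedAddCommGroup H₂] [InnerProductSpace ℝ H₂] [FiniteDimensional ℝ H₂]
  {P₂ : Euc N × Euc N → H₂ →L[ℝ] H₂} {r : ℝ}

/-- the polydisc bundle -/
def ZR (G : Geo n N κ S) (P₂ : Euc N × Euc N → H₂ →L[ℝ] H₂)
    (PN : Euc N × Euc N → Wt N Kn →L[ℝ] Wt N Kn) (r : ℝ) :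
    Set (((Euc N × Euc N) × H₂) × Wt N Kn) :=
  TP.TT (L.US G) P₂ PN ∩ {x | ‖x.1.2‖ < r ∧ ‖x.2‖ < r}

/-- the family in phase time -/
def fJ (Hm : (((Euc N × Euc N) × ℝ) × (H₂ × Wt N Kn)) × ℝ → Euc N)
    (q : (((Euc N × Euc N) × H₂) × Wt N Kn) × ℝ) (t : ℝ) : Euc N :=
  Hm (((q.1.1.1, Real.smoothTransition q.2), (q.1.1.2, q.1.2)), 2 * t)

variable {Hm : (((Euc N × Euc N) × ℝ) × (H₂ × Wt N Kn)) × ℝ → Euc N}

theorem lf_fJ (hF : LFam G (L.US G ×ˢ Icc (0:ℝ) 1) (fun p => PP P₂ PN p.1) (4 * Real.pi)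
    (fun p => p.1) Hm r) : LF S (ZR G P₂ PN r ×ˢ (univ : Set ℝ)) (fJ Hm) := by
  have key : ∀ q ∈ ZR G P₂ PN r ×ˢ (univ : Set ℝ),
      (q.1.1.1, Real.smoothTransition q.2) ∈ L.US G ×ˢ Icc (0:ℝ) 1 ∧
      PP P₂ PN q.1.1.1 (q.1.1.2, q.1.2) = (q.1.1.2, q.1.2) ∧ ‖(q.1.1.2, q.1.2)‖ < r := by
    rintro ⟨x, τ⟩ ⟨⟨hx, h1, h2⟩, -⟩
    rw [TU.mem_TT] at hx
    exact ⟨⟨hx.1, st_mem τ⟩, PP_eq.2 ⟨hx.2.1, hx.2.2⟩, by rw [Prod.norm_def]; exact max_lt h1 h2⟩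
  refine ⟨fun q hq t => ?_, fun q hq t => ?_, fun q hq t => ?_⟩
  · obtain ⟨k1, k2, k3⟩ := key q hq
    have h1 := hF.smooth _ k1 _ k2 k3 (2 * t)
    have h2 : ContDiffAt ℝ ∞ (fun p : ((((Euc N × Euc N) × H₂) × Wt N Kn) × ℝ) × ℝ =>
        Real.smoothTransition p.1.2) (q, t) :=
      ContDiffAt.comp (g := Real.smoothTransition)
        (f := fun p : ((((Euc N × Euc N) × H₂) × Wt N Kn) × ℝ) × ℝ => p.1.2) (q, t)
        Real.smoothTransition.contDiffAt (by fun_prop)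
    exact ContDiffAt.comp (g := Hm)
      (f := fun p : ((((Euc N × Euc N) × H₂) × Wt N Kn) × ℝ) × ℝ =>
        ((((p.1.1.1.1, Real.smoothTransition p.1.2), (p.1.1.1.2, p.1.1.2)), 2 * p.2) :
          (((Euc N × Euc N) × ℝ) × (H₂ × Wt N Kn)) × ℝ)) (q, t) h1
      ((((by fun_prop : ContDiffAt ℝ ∞
        (fun p : ((((Euc N × Euc N) × H₂) × Wt N Kn) × ℝ) × ℝ => p.1.1.1.1) (q, t)).prodMk
        h2).prodMk (by fun_prop)).prodMk (by fun_prop))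
  · obtain ⟨k1, k2, k3⟩ := key q hq
    have h1 := hF.per _ k1 _ k2 k3 (2 * t)
    have e : 2 * (t + 2 * Real.pi) = 2 * t + 4 * Real.pi := by ring
    change Hm (_, 2 * (t + 2 * Real.pi)) = Hm (_, 2 * t)
    rw [e]
    exact h1
  · obtain ⟨k1, k2, k3⟩ := key q hq
    exact hF.mem _ k1 _ k2 k3 (2 * t)

theorem En_fJ {δf : ℝ} (hδ : 0 < δf)
    (hen : ∀ z ∈ L.US G, ∀ τ ∈ Icc (0:ℝ) 1, ∀ ζ, PP P₂ PN z ζ = ζ → ‖ζ‖ < r →
        EnT (4 * Real.pi) (fun t => Hm (((z, τ), ζ), t)) ≤ 2 * Real.pi - δf * ‖ζ‖ ^ 2)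
    {x : ((Euc N × Euc N) × H₂) × Wt N Kn} (hx : x ∈ ZR G P₂ PN r) (τ : ℝ) :
    En (fJ Hm (x, τ)) ≤ 4 * Real.pi - δf * (‖x.1.2‖ ^ 2 + ‖x.2‖ ^ 2) := by
  obtain ⟨hx0, h1, h2⟩ := hx
  rw [TU.mem_TT] at hx0
  have h3 := hen x.1.1 hx0.1 _ (st_mem τ) (x.1.2, x.2) (PP_eq.2 ⟨hx0.2.1, hx0.2.2⟩)
    (by rw [Prod.norm_def]; exact max_lt h1 h2)
  have h4 : En (fJ Hm (x, τ)) =
      2 * EnT (4 * Real.pi) (fun t => Hm (((x.1.1, Real.smoothTransition τ), (x.1.2, x.2)), t)) := by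
    have h5 := FT.En_double
      (fun t => Hm (((x.1.1, Real.smoothTransition τ), (x.1.2, x.2)), t))
    rw [EnT, ← mul_assoc, mul_one_div_cancel two_ne_zero, one_mul, ← h5]
    rfl
  have h6 : ‖x.1.2‖ ^ 2 + ‖x.2‖ ^ 2 ≤ 2 * ‖((x.1.2, x.2) : H₂ × Wt N Kn)‖ ^ 2 := by
    have k1 := pow_le_pow_left₀ (norm_nonneg _) (norm_fst_le ((x.1.2, x.2) : H₂ × Wt N Kn)) 2
    have k2 := pow_le_pow_left₀ (norm_nonneg _) (norm_snd_le ((x.1.2, x.2) : H₂ × Wt N Kn)) 2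
    simp only at k1 k2
    linarith
  have h7 := mul_le_mul_of_nonneg_left h6 hδ.le
  rw [h4]
  linarith

/-- the start of the family -/
theorem fJ_zero {h : GT.Bla G k} {Lz : Euc N × Euc N → (H₂ × Wt N Kn) →L[ℝ] (Fin 4 → Euc N)}
    (hL : TU.LinK h P₂ PN Lz)
    (hm0 : ∀ z ∈ L.US G, ∀ ζ, PP P₂ PN z ζ = ζ → ‖ζ‖ < r → ∀ t,
        Hm (((z, 0), ζ), t) = FT G 4 ε (kap z (Lz z ζ), t))
    {x : ((Euc N × Euc N) × H₂) × Wt N Kn} (hx : x ∈ ZR G P₂ PN r) (t : ℝ) :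
    fJ Hm (x, 0) t = KG.F G 4 ε (nest4 (TU.Psi Lz x)) 0 t := by
  obtain ⟨hx0, h1, h2⟩ := hx
  have hx1 := hx0
  rw [TU.mem_TT] at hx0
  unfold fJ
  rw [Real.smoothTransition.zero]
  rw [hm0 x.1.1 hx0.1 _ (PP_eq.2 ⟨hx0.2.1, hx0.2.2⟩) (by rw [Prod.norm_def]; exact max_lt h1 h2),
    hL.nest4_Psi hx1, FT]
  congr 1
  push_cast
  ring

end fam

section d2

variable {lg : Euc N → Euc N → Euc N} {ρ : Euc N → Euc N} {rr C r' Kr B w δ δ₂ ε₁ ε₂ E₀ η r : ℝ}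
  {J : ℕ} {Hm : (((Euc N × Euc N) × ℝ) × (FT.W2 N Kn × Wt N Kn)) × ℝ → Euc N}

/-- the two projections -/
def j2 (N Kn : ℕ) : FT.W2 N Kn →L[ℝ] Wt N Kn × Wt N Kn :=
  (DD.pl : FT.W2 N Kn →L[ℝ] Wt N Kn).prod DD.pr

/-- the end of the family: the orbits of the level two family -/
theorem fJ_one (h : GT.Bla G k) (H : NB.NegB G (k - 1) (nuP Kn) δ PN)
    (hD : FT.D2 G k Kn lg ρ rr C r' Kr B w δ PN ε₁ J E₀ η (DD.NN PN) (FT.RN N Kn) (FT.xiN h PN) δ₂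
      ε₂) (hr : r ≤ 1 / 2)
    (hm1 : ∀ z ∈ L.US G, ∀ ζ, PP (DD.NN PN) PN z ζ = ζ → ‖ζ‖ < r → ∀ t,
        Hm (((z, 1), ζ), t) = NW.FX h PN (j2 N Kn) ε₁ ε₂ ρ ((z, ζ), t))
    {x : ((Euc N × Euc N) × FT.W2 N Kn) × Wt N Kn} (hx : x ∈ ZR G (DD.NN PN) PN r) (t : ℝ) :
    fJ Hm (x, 1) t =
      FT.f2 G lg ρ w J (FT.xiN h PN) ε₁ ε₂ (FT.Ph2 G Kn (FT.RN N Kn) t x) := by
  obtain ⟨hx0, h1, h2⟩ := hx
  have hx1 := hx0
  rw [TU.mem_TT] at hx0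
  have hP := KR.NegB.of_NB h H
  have n1 : ‖x.2‖ ^ 2 ≤ 1 / 4 := by nlinarith [norm_nonneg x.2]
  have n2 : ‖x.1.2‖ ^ 2 ≤ 4 := by nlinarith [norm_nonneg x.1.2]
  rw [hD.orb_near hx1 (by linarith), FT.bb, FT.cu_one n1, FL.th_one n2, mul_one, mul_one,
    FT.xf_xiN h H hx0.1]
  unfold fJ
  rw [Real.smoothTransition.one, hm1 x.1.1 hx0.1 _ (PP_eq.2 ⟨hx0.2.1, hx0.2.2⟩)
    (by rw [Prod.norm_def]; exact max_lt h1 h2)]
  unfold NW.FX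
  rw [hP.xi_eq (θ := fun r => r) (θ' := fun _ => 1) hx0.1 continuous_id continuous_const,
    add_comm (ε₁ • _)]
  rfl

lemma j2_mem {ν : FT.W2 N Kn} {z : Euc N × Euc N} (hν : DD.NN PN z ν = ν) :
    PP PN PN z (j2 N Kn ν) = j2 N Kn ν := by
  rw [PP_eq]
  exact DD.NN_eq_self_iff.1 hν

lemma j2_norm (ν : FT.W2 N Kn) : 1 / 2 * ‖ν‖ ^ 2 ≤ ‖j2 N Kn ν‖ ^ 2 := by
  rw [DD.norm_sq_eq]
  have k1 := pow_le_pow_left₀ (norm_nonneg _) (norm_fst_le (j2 N Kn ν)) 2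
  have k2 := pow_le_pow_left₀ (norm_nonneg _) (norm_snd_le (j2 N Kn ν)) 2
  change ‖DD.pl ν‖ ^ 2 ≤ _ at k1
  change ‖DD.pr ν‖ ^ 2 ≤ _ at k2
  linarith

/-- the tube map of the instance -/
abbrev Lz2 (h : GT.Bla G k) (ε δ : ℝ) (PN : Euc N × Euc N → Wt N Kn →L[ℝ] Wt N Kn) :
    Euc N × Euc N → (FT.W2 N Kn × Wt N Kn) →L[ℝ] (Fin 4 → Euc N) :=
  AK.rem (Lall h ε δ PN (j2 N Kn))

/-- **the family of the instance**; the constants depend on `ρ`, `ε₁`, `ε₂` only (not on `J`, `E₀`,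
`η`, `w`) -/
theorem exists_fam (h : GT.Bla G k) (hk : 1 ≤ k) (hO : OK G 4 ε) {c : ℝ} (hc0 : 0 < c)
    (hc : HC G ε c) (H : NB.NegB G (k - 1) (nuP Kn) δ PN) (hR : MS.Retr S ρ r' Kr)
    (he1 : 0 < ε₁) (he2 : 0 < ε₂) :
    TU.LinK h (DD.NN PN) PN (Lz2 h ε δ PN) ∧
    ∃ (f : (((Euc N × Euc N) × FT.W2 N Kn) × Wt N Kn) × ℝ → ℝ → Euc N) (r δf : ℝ), 0 < r ∧
      r ≤ 1 / 2 ∧ 0 < δf ∧ LF S (ZR G (DD.NN PN) PN r ×ˢ (univ : Set ℝ)) f ∧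
      (∀ x ∈ ZR G (DD.NN PN) PN r, ∀ t,
        f (x, 0) t = KG.F G 4 ε (nest4 (TU.Psi (Lz2 h ε δ PN) x)) 0 t) ∧
      (∀ (lg : Euc N → Euc N → Euc N) (rr C B w δ₂ E₀ η : ℝ) (J : ℕ),
        FT.D2 G k Kn lg ρ rr C r' Kr B w δ PN ε₁ J E₀ η (DD.NN PN) (FT.RN N Kn) (FT.xiN h PN) δ₂
          ε₂ → ∀ x ∈ ZR G (DD.NN PN) PN r, ∀ t, f (x, 1) t =
        FT.f2 G lg ρ w J (FT.xiN h PN) ε₁ ε₂ (FT.Ph2 G Kn (FT.RN N Kn) t x)) ∧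
      (∀ x ∈ ZR G (DD.NN PN) PN r, ∀ τ,
        En (f (x, τ)) ≤ 4 * Real.pi - δf * (‖x.1.2‖ ^ 2 + ‖x.2‖ ^ 2)) := by
  set O : Set (Euc N) := ⋃ p ∈ S, Metric.ball p r' with hOd
  have hOo : IsOpen O := isOpen_biUnion fun p _ => Metric.isOpen_ball
  have hSO : S ⊆ O := fun p hp => mem_biUnion hp (Metric.mem_ball_self hR.r_pos)
  have hOm : ∀ y ∈ O, ∃ p ∈ S, ‖y - p‖ < r' := fun y hy => by
    obtain ⟨p, hp, hy⟩ := mem_iUnion₂.1 hy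
    exact ⟨p, hp, by rwa [mem_ball_iff_norm] at hy⟩
  have hRc : ContDiffOn ℝ ∞ ρ O := fun y hy => by
    obtain ⟨p, hp, h1⟩ := hOm y hy
    exact (hR.smooth p hp y h1).contDiffWithinAt
  have hRm : MapsTo ρ O S := fun y hy => by
    obtain ⟨p, hp, h1⟩ := hOm y hy
    exact hR.mem p hp y h1
  have hj : ∀ z ∈ L.US G, ∀ ν : FT.W2 N Kn, DD.NN PN z ν = ν →
      PP PN PN z (j2 N Kn ν) = j2 N Kn ν := fun z _ ν hν => j2_mem hν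
  have hjc : ∀ z ∈ L.US G, ∀ ν : FT.W2 N Kn, DD.NN PN z ν = ν →
      1 / 2 * ‖ν‖ ^ 2 ≤ ‖j2 N Kn ν‖ ^ 2 := fun z _ ν _ => j2_norm ν
  have hLK : TU.LinK h (DD.NN PN) PN (Lz2 h ε δ PN) := linK_rem (cj := 1 / 2) hO.cpt hO h hk H hc0
    hc hj (by norm_num) hjc hOo hSO hRc hRm hR.eq
  refine ⟨hLK, ?_⟩
  obtain ⟨Hm, r, δf, hr, hδf, hF, hm0, hm1, hen⟩ := NW.exists_junction (P₂ := DD.NN PN)
    (j := j2 N Kn) (cj := 1 / 2) hO.cpt hO h hk H hc0 hc hj (by norm_num) hjc (ε₁ := ε₁)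
    (ε₂ := ε₂) he1 he2 hOo hSO hRc hRm hR.eq
  set s : ℝ := min r (1 / 2) with hs
  have hs0 : 0 < s := lt_min hr (by norm_num)
  have hsr : s ≤ r := min_le_left _ _
  have hF' : LFam G (L.US G ×ˢ Icc (0:ℝ) 1) (fun p => PP (DD.NN PN) PN p.1) (4 * Real.pi)
      (fun p => p.1) Hm s :=
    ⟨hs0, fun x hx ζ h1 h2 => hF.smooth x hx ζ h1 (h2.trans_le hsr),
      fun x hx ζ h1 h2 => hF.mem x hx ζ h1 (h2.trans_le hsr),
      fun x hx ζ h1 h2 => hF.per x hx ζ h1 (h2.trans_le hsr), hF.zero⟩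
  refine ⟨fJ Hm, s, δf, hs0, min_le_right _ _, hδf, lf_fJ hF', fun x hx t => ?_,
    fun lg rr C B w δ₂ E₀ η J hD x hx t => ?_, fun x hx τ => ?_⟩
  · exact fJ_zero hLK (fun z hz ζ hζ h1 t => hm0 z hz ζ hζ (h1.trans_le hsr) t) hx t
  · exact fJ_one h H hD (min_le_right _ _)
      (fun z hz ζ hζ h1 t => hm1 z hz ζ hζ (h1.trans_le hsr) t) hx t
  · exact En_fJ hδf (fun z hz τ hτ ζ hζ h1 => hen z hz τ hτ ζ hζ (h1.trans_le hsr)) hx τ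

end d2

end Crest.Agent.R208.AK
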