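import Crest.Agent.R208.HO1

/-! Row 208, block HO (helper537), part HO2: AK15 in the form asked for by helper952. -/

set_option autoImplicit false
set_option linter.unusedSectionVars false
set_option linter.unusedVariables false

open MeasureTheory Set Filter Topology Module
open scoped ContDiff RealInnerProductSpace
open Crest.Agent.R208.F Crest.Agent.R208.FI Crest.Agent.R208.CW Crest.Agent.R208.T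
open Crest.Agent.R208.TP
open Crest.Agent.R208.CM (Triv Qd)

noncomputable section

namespace Crest.Agent.R208.HO

universe u
variable {E : Type u} [NormedAddCommGroup E] [NormedSpace ℝ E] [FiniteDimensional ℝ E]
  {H₁ V₁ : Type*} [NormedAddCommGroup H₁] [InnerProductSpace ℝ H₁] [FiniteDimensional ℝ H₁]
  [NormedAddCommGroup V₁] [InnerProductSpace ℝ V₁] [FiniteDimensional ℝ V₁]
  [MeasurableSpace V₁] [BorelSpace V₁] (μ₁ : Measure V₁) [μ₁.IsAddHaarMeasure]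
  {H₂ V₂ : Type*} [NormedAddCommGroup H₂] [InnerProductSpace ℝ H₂] [FiniteDimensional ℝ H₂]
  [NormedAddCommGroup V₂] [InnerProductSpace ℝ V₂] [FiniteDimensional ℝ V₂]
  [MeasurableSpace V₂] [BorelSpace V₂] (μ₂ : Measure V₂) [μ₂.IsAddHaarMeasure]
  {X : Set E} {P₁ : E → H₁ →L[ℝ] H₁} {P₂ : E → H₂ →L[ℝ] H₂}
  {Q₁ : E → V₁ →L[ℝ] V₁} {Q₂ : E → V₂ →L[ℝ] V₂}
  {T₁ : E → H₁ →L[ℝ] V₁} {T₂ : E → H₂ →L[ℝ] V₂}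
  {r₁ r₂ d : ℕ} {R R₀ R₁ R₂ : ℝ}
  {τ₁' : E × V₁ → Ext (E × V₁)} {τ₂' : E × V₂ → Ext (E × V₂)}
  {Om : ((E × H₂) × H₁) × ℝ → Ext (((E × H₂) × H₁) × ℝ)}
  {V0 V1 : (E × V₂) × V₁ → Ext ((E × V₂) × V₁)}

/-- **AK15**, with smooth fields of isometries `T_i` and `Q_i = T_i P_i T_i^*` -/
theorem hom_iso (hX : Sub d X)
    (s₁ : ∀ x ∈ X, ContDiffAt ℝ ∞ T₁ x) (i₁ : ∀ x ∈ X, ∀ w, ‖T₁ x w‖ = ‖w‖)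
    (s₂ : ∀ x ∈ X, ContDiffAt ℝ ∞ T₂ x) (i₂ : ∀ x ∈ X, ∀ w, ‖T₂ x w‖ = ‖w‖)
    (q₁ : ∀ x ∈ X, Q₁ x = Qd T₁ P₁ x) (q₂ : ∀ x ∈ X, Q₂ x = Qd T₂ P₂ x)
    (hQ₁ : PField X r₁ Q₁) (hQ₂ : PField X r₂ Q₂)
    (hτ₁ : CSF X (fun x => 1 - Q₁ x) R₁ τ₁') (hτ₂ : CSF X (fun x => 1 - Q₂ x) R₂ τ₂')
    (hR : 0 ≤ R) (sO : Sm (TT X P₂ P₁ ×ˢ (univ : Set ℝ)) Om)
    (cO : Cl (TT X P₂ P₁ ×ˢ (univ : Set ℝ)) Om)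
    (zO : ∀ p ∈ TT X P₂ P₁ ×ˢ (univ : Set ℝ), (R < ‖p.1.2‖ ∨ R < ‖p.1.1.2‖) →
      pb (Tan (TT X P₂ P₁ ×ˢ (univ : Set ℝ)) p).subtype (Om p) = 0) (j : ℕ)
    (hV0 : CV X Q₂ Q₁ R₀ V0) (hV1 : CV X Q₂ Q₁ R₀ V1)
    (e0 : Eqv (TT X P₂ P₁) (F.pull (fun z : (E × H₂) × H₁ => ((z.1.1, T₂ z.1.1 z.1.2),
        T₁ z.1.1 z.2)) V0) (T.dp j (F.pull (fun z : (E × H₂) × H₁ => (z, (0 : ℝ))) Om)))
    (e1 : Eqv (TT X P₂ P₁) (F.pull (fun z : (E × H₂) × H₁ => ((z.1.1, T₂ z.1.1 z.1.2),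
        T₁ z.1.1 z.2)) V1) (T.dp j (F.pull (fun z : (E × H₂) × H₁ => (z, (1 : ℝ))) Om))) :
    Coh X (pu₂ μ₁ μ₂ Q₂ τ₂' Q₁ τ₁' V1) (pu₂ μ₁ μ₂ Q₂ τ₂' Q₁ τ₁' V0) :=
  hom μ₁ μ₂ hX (pt_of_iso s₁ i₁ q₁) (pt_of_iso s₂ i₂ q₂) hQ₁ hQ₂ hτ₁ hτ₂ hR sO cO zO j hV0 hV1
    e0 e1

/-- existence of a form of type `CV` in the target fields for a closed form on `TT X P₂ P₁`
which vanishes outside the disks -/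
theorem exists_CV_iso (hX : Sub d X)
    (s₁ : ∀ x ∈ X, ContDiffAt ℝ ∞ T₁ x) (i₁ : ∀ x ∈ X, ∀ w, ‖T₁ x w‖ = ‖w‖)
    (s₂ : ∀ x ∈ X, ContDiffAt ℝ ∞ T₂ x) (i₂ : ∀ x ∈ X, ∀ w, ‖T₂ x w‖ = ‖w‖)
    (q₁ : ∀ x ∈ X, Q₁ x = Qd T₁ P₁ x) (q₂ : ∀ x ∈ X, Q₂ x = Qd T₂ P₂ x)
    (hQ₁ : PField X r₁ Q₁) (hQ₂ : PField X r₂ Q₂) (hR : 0 ≤ R)
    {V : (E × H₂) × H₁ → Ext ((E × H₂) × H₁)} (sV : Sm (TT X P₂ P₁) V) (cV : Cl (TT X P₂ P₁) V)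
    (zV : ∀ z ∈ TT X P₂ P₁, (R < ‖z.2‖ ∨ R < ‖z.1.2‖) →
      pb (Tan (TT X P₂ P₁) z).subtype (V z) = 0) (hP₁ : PField X r₁ P₁) (hP₂ : PField X r₂ P₂) :
    ∃ V' : (E × V₂) × V₁ → Ext ((E × V₂) × V₁), CV X Q₂ Q₁ (R + 1) V' ∧
      Eqv (TT X P₂ P₁) (F.pull (fun z : (E × H₂) × H₁ => ((z.1.1, T₂ z.1.1 z.1.2),
        T₁ z.1.1 z.2)) V') V := by
  have h₁ := pt_of_iso s₁ i₁ q₁
  have h₂ := pt_of_iso s₂ i₂ q₂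
  set B₁ : E → V₁ →L[ℝ] H₁ := fun x => ContinuousLinearMap.adjoint (T₁ x) with hB₁
  set B₂ : E → V₂ →L[ℝ] H₂ := fun x => ContinuousLinearMap.adjoint (T₂ x) with hB₂
  have sΨ : SMap (TT X Q₂ Q₁) (TT X P₂ P₁) (Ph2 B₂ B₁) := smap_Ph2 h₂.sB h₁.sB h₂.mB h₁.mB
  have sΦ : SMap (TT X P₂ P₁) (TT X Q₂ Q₁) (Ph2 T₂ T₁) := smap_Ph2 h₂.sT h₁.sT h₂.mT h₁.mT
  have hS : Sub (d + r₂ + r₁) (TT X Q₂ Q₁) := sub_TT hX hQ₁ hQ₂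
  set W₀ := F.pull (Ph2 B₂ B₁) V with hW₀
  have sW₀ : Sm (TT X Q₂ Q₁) W₀ := sV.pull sΨ
  have cW₀ : Cl (TT X Q₂ Q₁) W₀ := cV.pull sΨ sV
  have zW₀ : ∀ z ∈ TT X Q₂ Q₁, (R < ‖z.2‖ ∨ R < ‖z.1.2‖) →
      pb (Tan (TT X Q₂ Q₁) z).subtype (W₀ z) = 0 := by
    intro z hz hz2
    have n1 : ‖(Ph2 B₂ B₁ z).2‖ = ‖z.2‖ := h₁.nB _ hz.1.1 _ hz.2
    have n2 : ‖(Ph2 B₂ B₁ z).1.2‖ = ‖z.1.2‖ := h₂.nB _ hz.1.1 _ hz.1.2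
    exact pb_pull_eq_zero (sΨ.diff hz) sΨ.maps
      (zV (Ph2 B₂ B₁ z) (sΨ.maps hz) (by rw [n1, n2]; exact hz2))
  have eW := eqv_cut₂ hR zW₀
  have sW : Sm (TT X Q₂ Q₁) (cut₂ R W₀) := fun z hz =>
    ((((contDiff_chi R).comp contDiff_snd).mul
      ((contDiff_chi R).comp (contDiff_snd.comp contDiff_fst))).contDiffAt).smul (sW₀ z hz)
  refine ⟨cut₂ R W₀, ⟨sW, fun z hz => by rw [cut₂, chi_zero hR hz.le, zero_mul, zero_smul],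
    fun z hz => by rw [cut₂, chi_zero hR hz.le, mul_zero, zero_smul],
    Cl.of_eqv hS sW sW₀ eW cW₀⟩, ?_⟩
  have a1 : Eqv (TT X P₂ P₁) (F.pull (Ph2 T₂ T₁) W₀) V := by
    refine (eqv_pull_pull sΦ sΨ (SMap.id _) (fun z hz => ?_) V).trans
      (Eqv.of_eq fun z _ => F.pull_id V z)
    have hT₁ : Triv X (fun _ x => x) (fun _ => ContinuousLinearMap.id ℝ H₁) T₁ :=
      ⟨s₁, i₁, fun _ _ _ _ => rfl⟩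
    have hT₂ : Triv X (fun _ x => x) (fun _ => ContinuousLinearMap.id ℝ H₂) T₂ :=
      ⟨s₂, i₂, fun _ _ _ _ => rfl⟩
    exact Prod.ext (Prod.ext rfl (hT₂.adj hz.1.1 _)) (hT₁.adj hz.1.1 _)
  exact (eW.pull sΦ).trans a1

end Crest.Agent.R208.HO
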