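import Crest.Agent.R208.TU8

/-!
Row 208, block TU (helper10), part TU9: the cut off with the energy bound, in the order of the
constants of helper952: `ρ` given, then `c`, `ρ'`, `δ'`, then every `D` with `4π - δ' ≤ D.B`.
-/

set_option autoImplicit false
set_option linter.unusedSectionVars false
set_option linter.unusedVariables false

open Set Filter Topology MeasureTheory Module
open scoped ContDiff RealInnerProductSpace Interval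
open Crest.GeometryTopology.Submanifold
open Crest.Agent.R241.DDefs
open Crest.Agent.R241.D2
open Crest.Agent.R241.D3c
open Crest.Agent.R208.F Crest.Agent.R208.FI Crest.Agent.R208.CW Crest.Agent.R208.T
open Crest.Agent.R208.MS (En)
open Crest.Agent.R208.KG (OK N2 N3 N4 nest4 nest2 idx)
open Crest.Agent.R208.EX
open Crest.Agent.R208.AK (HC)

noncomputable section

namespace Crest.Agent.R208.TU

variable {n N k d r : ℕ} {κ : ℝ} {S : Set (Euc N)} {G : Geo n N κ S} {ε : ℝ}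
  {H₁ H₂ : Type} [NormedAddCommGroup H₁] [InnerProductSpace ℝ H₁] [FiniteDimensional ℝ H₁]
  [NormedAddCommGroup H₂] [InnerProductSpace ℝ H₂] [FiniteDimensional ℝ H₂]
  {P₁ : Euc N × Euc N → H₁ →L[ℝ] H₁} {P₂ : Euc N × Euc N → H₂ →L[ℝ] H₂}
  {h : GT.Bla G k} {Lz : Euc N × Euc N → (H₂ × H₁) →L[ℝ] (Fin 4 → Euc N)} {r₁ r₂ : ℕ}

/-- properties of the cut off function -/
structure Cut (h : GT.Bla G k) (P₂ : Euc N × Euc N → H₂ →L[ℝ] H₂)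
    (P₁ : Euc N × Euc N → H₁ →L[ℝ] H₁) (Lz : Euc N × Euc N → (H₂ × H₁) →L[ℝ] (Fin 4 → Euc N))
    (ε : ℝ) (c : (((Euc N × Euc N) × Euc N) × Euc N) × Euc N → ℝ) (ρ ρ' δ' : ℝ) : Prop where
  smooth : ContDiff ℝ ∞ c
  nonneg : ∀ z, 0 ≤ c z
  le_one : ∀ z, c z ≤ 1
  tube : ∀ z ∈ N4 h, c z < 1 → ∃ x ∈ TP.TT (L.US G) P₂ P₁, ‖x.1.2‖ < ρ ∧ ‖x.2‖ < ρ ∧ Psi Lz x = z
  zero : ∀ x ∈ TP.TT (L.US G) P₂ P₁, ‖x.1.2‖ < ρ' → ‖x.2‖ < ρ' → c (Psi Lz x) = 0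
  en : ∀ z ∈ N4 h, 0 < c z → En (FK G ε 0 z) ≤ 4 * Real.pi - δ'

/-- on the total space the cut off equals one outside the disc bundle -/
theorem Cut.one {c : (((Euc N × Euc N) × Euc N) × Euc N) × Euc N → ℝ} {ρ ρ' δ' : ℝ}
    (hc : Cut h P₂ P₁ Lz ε c ρ ρ' δ') (hL : LinK h P₂ P₁ Lz)
    {x : ((Euc N × Euc N) × H₂) × H₁} (hx : x ∈ TP.TT (L.US G) P₂ P₁)
    (hxn : ¬ (‖x.1.2‖ < ρ ∧ ‖x.2‖ < ρ)) : c (Psi Lz x) = 1 := by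
  by_contra hcon
  have h1 : c (Psi Lz x) < 1 := lt_of_le_of_ne (hc.le_one _) hcon
  obtain ⟨y, hy, h2, h3, h4⟩ := hc.tube _ (hL.Psi_mem hx) h1
  have : y = x := hL.injOn hy hx h4
  exact hxn (this ▸ ⟨h2, h3⟩)

theorem LinK.exists_Cut (hS : IsCompact S) (hO : OK G 4 ε) {c₀ : ℝ} (hc0 : 0 < c₀)
    (hHC : HC G ε c₀) (hL : LinK h P₂ P₁ Lz) (hP₂ : PField (L.US G) r₂ P₂)
    (hP₁ : PField (L.US G) r₁ P₁) (hr : r₁ + r₂ + 3 = 3 * k) {ρ : ℝ} (hρ : 0 < ρ) :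
    ∃ (c : (((Euc N × Euc N) × Euc N) × Euc N) × Euc N → ℝ) (ρ' δ' : ℝ), 0 < ρ' ∧ ρ' < ρ ∧
      0 < δ' ∧ Cut h P₂ P₁ Lz ε c ρ ρ' δ' := by
  obtain ⟨c, ρ', b, h1, h2, h3, h4, h5, h6, h7, h8, h9⟩ := hL.exists_cut hS hP₂ hP₁ hr hρ
  refine ⟨c, ρ', c₀ / 4 * b, h1, h2, by positivity, h4, h5, h6, h7, h8, fun z hz hcz => ?_⟩
  obtain ⟨i, hi⟩ := h9 z hcz
  have h10 := HC.en hO hc0 hHC (nest4 z) (KG.nest4_mem h hz) i
  have h11 : c₀ / 4 * b ≤ c₀ / 4 * ‖(nest4 z).2 i - (nest4 z).2 (idx 4 0)‖ ^ 2 := by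
    have : b ≤ ‖(nest4 z).2 i - (nest4 z).2 (idx 4 0)‖ ^ 2 := hi.le
    gcongr
  change En (KG.F G 4 ε (nest4 z) 0) ≤ _
  linarith

/-- **the pair of forms**, all constants in order -/
theorem Cut.exists_pair {c : (((Euc N × Euc N) × Euc N) × Euc N) × Euc N → ℝ} {ρ ρ' δ' : ℝ}
    (hc : Cut h P₂ P₁ Lz ε c ρ ρ' δ') (hL : LinK h P₂ P₁ Lz) (hd : d + 1 = 2 * n)
    (hr : r + 1 = k) (hP₂ : PField (L.US G) r₂ P₂) (hP₁ : PField (L.US G) r₁ P₁)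
    (hO : OK G 4 ε) {D : ED N} (hD : D.OK) (hDS : D.S = S) (hDB : 4 * Real.pi - δ' ≤ D.B)
    (hρ : 0 < ρ) {ρ₁ : ℝ} (hρ₁ : ρ < ρ₁) {α : Euc N × Euc N → Ext (Euc N × Euc N)}
    (hα : Sm (L.US G) α) (hα1 : Hom 1 α) : ∃ om V, Pair D h P₂ P₁ Lz ε c ρ ρ₁ α om V :=
  hL.exists_pair hd hr hP₂ hP₁ hO hD hDS hρ hρ₁ hc.smooth hc.le_one hc.tube
    (fun z hz h0 => (hc.en z hz h0).trans hDB) hα hα1

end Crest.Agent.R208.TU
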