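import Crest.Agent.R208.LC3
import Crest.Agent.R208.HO2
import Crest.Agent.R208.TU9

/-!
R208, block AK (helper952), part 17: the tube `Psi` in the fields `Q₂ ⊕ Q₁` (pushes of `P₂`, `P₁`) is
a tube in the sense of helper125's `LC`; `N4 h → US G` is an oriented submersion in his sense.
-/

set_option autoImplicit false
set_option linter.unusedSectionVars false
set_option linter.unusedVariables false

open Set Filter Topology MeasureTheory Module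
open scoped ContDiff RealInnerProductSpace
open Crest.GeometryTopology.Submanifold
open Crest.Agent.R241.DDefs
open Crest.Agent.R241.D2
open Crest.Agent.R208.F Crest.Agent.R208.FI Crest.Agent.R208.CW Crest.Agent.R208.T
open Crest.Agent.R208.FV (PVB phi)
open Crest.Agent.R208.SB (OPr)
open Crest.Agent.R208.KG (N4)
open Crest.Agent.R208.TP (TT CV pu₂)
open Crest.Agent.R208.HO (Pt Ph2 smap_Ph2)

noncomputable section

namespace Crest.Agent.R208.AK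

section tub
variable {n N k d r r₁ r₂ : ℕ} {κ : ℝ} {S : Set (Euc N)} {G : Geo n N κ S}
  {H₁ V₁ : Type*} [NormedAddCommGroup H₁] [InnerProductSpace ℝ H₁] [FiniteDimensional ℝ H₁]
  [NormedAddCommGroup V₁] [InnerProductSpace ℝ V₁] [FiniteDimensional ℝ V₁]
  {H₂ V₂ : Type*} [NormedAddCommGroup H₂] [InnerProductSpace ℝ H₂] [FiniteDimensional ℝ H₂]
  [NormedAddCommGroup V₂] [InnerProductSpace ℝ V₂] [FiniteDimensional ℝ V₂]
  {P₁ : Euc N × Euc N → H₁ →L[ℝ] H₁} {P₂ : Euc N × Euc N → H₂ →L[ℝ] H₂}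
  {Q₁ : Euc N × Euc N → V₁ →L[ℝ] V₁} {Q₂ : Euc N × Euc N → V₂ →L[ℝ] V₂}
  {T₁ : Euc N × Euc N → H₁ →L[ℝ] V₁} {T₂ : Euc N × Euc N → H₂ →L[ℝ] V₂}
  {B₁ : Euc N × Euc N → V₁ →L[ℝ] H₁} {B₂ : Euc N × Euc N → V₂ →L[ℝ] H₂}
  {h : GT.Bla G k} {Lz : Euc N × Euc N → (H₂ × H₁) →L[ℝ] (Fin 4 → Euc N)}

/-- the tube in the fields `Q₂ ⊕ Q₁` -/
def PsiQ (Lz : Euc N × Euc N → (H₂ × H₁) →L[ℝ] (Fin 4 → Euc N))
    (B₂ : Euc N × Euc N → V₂ →L[ℝ] H₂) (B₁ : Euc N × Euc N → V₁ →L[ℝ] H₁)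
    (z : ((Euc N × Euc N) × V₂) × V₁) : (((Euc N × Euc N) × Euc N) × Euc N) × Euc N :=
  TU.Psi Lz (Ph2 B₂ B₁ z)

variable (hL : TU.LinK h P₂ P₁ Lz) (h₁ : Pt (L.US G) P₁ Q₁ T₁ B₁) (h₂ : Pt (L.US G) P₂ Q₂ T₂ B₂)

include h₁ h₂ in
theorem smap_B : SMap (TT (L.US G) Q₂ Q₁) (TT (L.US G) P₂ P₁) (Ph2 B₂ B₁) :=
  smap_Ph2 h₂.sB h₁.sB h₂.mB h₁.mB

include h₁ h₂ in
theorem smap_T : SMap (TT (L.US G) P₂ P₁) (TT (L.US G) Q₂ Q₁) (Ph2 T₂ T₁) :=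
  smap_Ph2 h₂.sT h₁.sT h₂.mT h₁.mT

include h₁ h₂ in
theorem Ph2_TB {z : ((Euc N × Euc N) × V₂) × V₁} (hz : z ∈ TT (L.US G) Q₂ Q₁) :
    Ph2 T₂ T₁ (Ph2 B₂ B₁ z) = z :=
  Prod.ext (Prod.ext rfl (h₂.TB _ hz.1.1 _ hz.1.2)) (h₁.TB _ hz.1.1 _ hz.2)

include hL h₁ h₂ in
theorem smap_PsiQ : SMap (TT (L.US G) Q₂ Q₁) (N4 h) (PsiQ Lz B₂ B₁) :=
  hL.smap_Psi.comp (smap_B h₁ h₂)

include hL h₁ h₂ in
/-- **the tube in the sense of helper125**, for any size function -/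
theorem tub_PsiQ (hP₂ : PField (L.US G) r₂ P₂) (hP₁ : PField (L.US G) r₁ P₁)
    (Nf : ((Euc N × Euc N) × V₂) × V₁ → ℝ) {ρ : ℝ} (hρ : 0 < ρ) :
    LC.Tub (TT (L.US G) Q₂ Q₁) (fun z => z.1.1) Nf (N4 h) (fun z => z.1.1.1) (PsiQ Lz B₂ B₁) ρ where
  pos := hρ
  smooth z hz _ := (smap_PsiQ hL h₁ h₂).smooth z hz
  maps z hz _ := (smap_PsiQ hL h₁ h₂).maps hz
  pr z hz _ := rfl
  inj z hz z' hz' _ _ he := by
    have h3 := hL.injOn ((smap_B h₁ h₂).maps hz) ((smap_B h₁ h₂).maps hz') he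
    rw [← Ph2_TB h₁ h₂ hz, h3, Ph2_TB h₁ h₂ hz']
  imm z hz _ v hv h0 := by
    have sB := smap_B h₁ h₂
    have sT := smap_T h₁ h₂
    have dB : DifferentiableAt ℝ (Ph2 B₂ B₁) z := sB.diff hz
    have dT : DifferentiableAt ℝ (Ph2 T₂ T₁) (Ph2 B₂ B₁ z) := sT.diff (sB.maps hz)
    have dP : DifferentiableAt ℝ (TU.Psi Lz) (Ph2 B₂ B₁ z) := hL.smap_Psi.diff (sB.maps hz)
    have e1 : fderiv ℝ (PsiQ Lz B₂ B₁) z v =
        fderiv ℝ (TU.Psi Lz) (Ph2 B₂ B₁ z) (fderiv ℝ (Ph2 B₂ B₁) z v) := by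
      have : PsiQ Lz B₂ B₁ = TU.Psi Lz ∘ Ph2 B₂ B₁ := rfl
      rw [this, fderiv_comp z dP dB]
      rfl
    rw [e1] at h0
    have h3 : fderiv ℝ (Ph2 B₂ B₁) z v = 0 := hL.fderiv_inj hP₂ hP₁ (sB.maps hz)
      (fderiv_mapsTo_Tan dB (fun y hy => sB.maps hy) hv) h0
    have h4 : fderiv ℝ (Ph2 T₂ T₁ ∘ Ph2 B₂ B₁) z v = fderiv ℝ (fun y => y) z v :=
      TU.fderiv_eq_on (X := TT (L.US G) Q₂ Q₁) (dT.comp z dB) differentiableAt_id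
        (fun y hy => Ph2_TB h₁ h₂ hy) hv
    rw [fderiv_comp z dT dB, ContinuousLinearMap.comp_apply, h3, map_zero] at h4
    have h5 : fderiv ℝ (fun y : ((Euc N × Euc N) × V₂) × V₁ => y) z v = v := by
      rw [show (fun y : ((Euc N × Euc N) × V₂) × V₁ => y) = id from rfl, fderiv_id]
      rfl
    rw [h5] at h4
    exact h4.symm

end tub

section os
variable {n N k d r : ℕ} {κ : ℝ} {S : Set (Euc N)} {G : Geo n N κ S} {h : GT.Bla G k}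
  {oP : Euc N × Euc N → Ext (Euc N)} {oX : Euc N × Euc N → Ext (Euc N × Euc N)}

/-- **`N4 h → US G` in the sense of helper125** -/
theorem os_N4 (hr : r + 1 = k) (hd : d + 1 = 2 * n)
    (ho : OPr (L.US G) k (fun z => PVB h (phi G z)) oP) (hoX : Ori d (L.US G) oX)
    (hsX : Sm (L.US G) oX) (hdX : Hom d oX) :
    LC.OS (r + (r + r)) d (N4 h) (L.US G) (fun z => z.1.1.1) (TU.v4 oP) oX where
  subm := (TU.osubm_N4_US hr hd ho hoX hdX).subm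
  sV := fun z hz => TU.contDiffAt_v4 ho hz
  hV := TU.hom_v4 hr ho
  sX := hsX
  hX := hdX
  ori := (TU.osubm_N4_US hr hd ho hoX hdX).tot

end os

end Crest.Agent.R208.AK
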