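import Crest.Agent.R208.FI1d
import Crest.Prelude.Def_Submanifold

/-! Row 208, block F2 (helper349), part FI1e: positivity, change of orientation, conversion. -/

set_option autoImplicit false
set_option linter.unusedSectionVars false
set_option linter.unusedVariables false

open Set Filter Topology Module MeasureTheory MeasureTheory.Measure
open scoped ContDiff
open Crest.Agent.R208.F

noncomputable section

namespace Crest.Agent.R208.FI

/-- a compact `C^∞` submanifold of `ℝ^N` (in the sense of the prelude) is a `Clo`. -/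
theorem clo_of_isSubmanifold {n N : ℕ} {S : Set (EuclideanSpace ℝ (Fin N))}
    (hS : Crest.GeometryTopology.Submanifold.IsSubmanifold n N S) (hc : IsCompact S) :
    Clo n S := by
  refine ⟨hc, fun x hx => ?_⟩
  obtain ⟨f, V, hf⟩ := hS x hx
  exact ⟨f, V, ⟨hf.isOpen, hf.contDiffOn, hf.injOn, hf.injective_fderiv, hf.image_open⟩,
    0, hf.zero_mem, hf.map_zero⟩

variable {E : Type*} [NormedAddCommGroup E] [NormedSpace ℝ E] [FiniteDimensional ℝ E]
  {n : ℕ} {X : Set E} {o o' om om' β : E → Ext E}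
  {f : Eu n → E} {V : Set (Eu n)}

/-- evaluation on an arbitrary family of tangent vectors, in terms of the frame -/
theorem exists_det {x : E} (hT : finrank ℝ (Tan X x) = n) {w : Fin n → E}
    (hw : ∀ i, w i ∈ Tan X x) :
    ∃ δ : ℝ, (∀ c : Ext E, evA E n c w = δ * evA E n c (frame n X x)) ∧
      (LinearIndependent ℝ w → δ ≠ 0) := by
  classical
  set fr := frame n X x with hfr
  have hfrT := frame_isFrame hT
  let M : Matrix (Fin n) (Fin n) ℝ := Matrix.of fun i j =>
    (inner ℝ ((toEuclidean : E ≃L[ℝ] _) (fr j)) ((toEuclidean : E ≃L[ℝ] _) (w i)) : ℝ)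
  have hM : ∀ i, w i = ∑ j, M i j • fr j := fun i => hfrT.sum_eq hT (hw i)
  refine ⟨M.det, fun c => evA_comb n c fr w M hM, fun hli hdet => ?_⟩
  obtain ⟨c, hc0, hc⟩ := Matrix.exists_vecMul_eq_zero_iff.2 hdet
  have h1 : ∑ i, c i • w i = 0 := by
    have : ∑ i, c i • w i = ∑ j, (Matrix.vecMul c M) j • fr j := by
      simp_rw [hM, Finset.smul_sum, smul_smul]
      rw [Finset.sum_comm]
      refine Finset.sum_congr rfl fun j _ => ?_
      rw [← Finset.sum_smul]
      rfl
    rw [this, hc]; simp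
  have h2 := Fintype.linearIndependent_iff.1 hli c h1
  exact hc0 (funext h2)

theorem Clo.exists_det (hX : Clo n X) {x : E} (hx : x ∈ X) {w : Fin n → E}
    (hw : ∀ i, w i ∈ Tan X x) :
    ∃ δ : ℝ, (∀ c : Ext E, evA E n c w = δ * evA E n c (frame n X x)) ∧
      (LinearIndependent ℝ w → δ ≠ 0) := FI.exists_det (hX.finrank_Tan hx) hw

/-- to check `Ori` any tangent frames can be used. -/
theorem ori_of (hX : Clo n X) (hc : ContinuousOn o X)
    (h : ∀ x ∈ X, ∃ w : Fin n → E, (∀ i, w i ∈ Tan X x) ∧ evA E n (o x) w ≠ 0) : Ori n X o := by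
  refine ⟨hc, fun x hx h0 => ?_⟩
  obtain ⟨w, hw, hne⟩ := h x hx
  obtain ⟨δ, h1, -⟩ := hX.exists_det hx hw
  exact hne (by rw [h1, h0, mul_zero])

theorem Ori.ne' (ho : Ori n X o) (hX : Clo n X) {x : E} (hx : x ∈ X) {w : Fin n → E}
    (hw : ∀ i, w i ∈ Tan X x) (hli : LinearIndependent ℝ w) : evA E n (o x) w ≠ 0 := by
  obtain ⟨δ, h1, h2⟩ := hX.exists_det hx hw
  rw [h1]
  exact mul_ne_zero (h2 hli) (ho.ne x hx)

/-- the density, computed with any basis `w` of the tangent space -/
theorem dens_eq_of_basis (hX : Clo n X) {x : E} (hx : x ∈ X) {w : Fin n → E}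
    (hw : ∀ i, w i ∈ Tan X x) (hli : LinearIndependent ℝ w) (ho : Ori n X o) :
    dens n X o om x = evA E n (om x) w / evA E n (o x) w * |evA E n (o x) (frame n X x)| := by
  obtain ⟨δ, h1, h2⟩ := hX.exists_det hx hw
  have h3 := ho.ne x hx
  have h4 := h2 hli
  rw [dens, h1, h1, ← mul_sign]
  field_simp

/-- comparison of the densities of `om` and `r • om'` -/
theorem dens_nonneg_iff (hX : Clo n X) {x : E} (hx : x ∈ X) {w : Fin n → E}
    (hw : ∀ i, w i ∈ Tan X x) (hli : LinearIndependent ℝ w) (ho : Ori n X o) :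
    0 ≤ dens n X o om x ↔ 0 ≤ evA E n (om x) w * evA E n (o x) w := by
  have h3 := abs_pos.2 (ho.ne x hx)
  have h4 := ho.ne' hX hx hw hli
  rw [dens_eq_of_basis hX hx hw hli ho, mul_nonneg_iff_of_pos_right h3, div_nonneg_iff,
    mul_nonneg_iff]

/-! ### positivity -/

theorem J_nonneg (hX : Clo n X) (h : ∀ x ∈ X, 0 ≤ dens n X o om x) : 0 ≤ J n X o om := by
  refine setIntegral_nonneg hX.measurableSet ?_
  rintro _ ⟨x, hx, rfl⟩
  simpa using h x hx

theorem J_mono (hX : Clo n X) (ho : Ori n X o) (hom : ContinuousOn om X)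
    (hom' : ContinuousOn om' X) (h : ∀ x ∈ X, dens n X o om x ≤ dens n X o om' x) :
    J n X o om ≤ J n X o om' := by
  refine setIntegral_mono_on (integrableOn_dens hX ho hom) (integrableOn_dens hX ho hom')
    hX.measurableSet ?_
  rintro _ ⟨x, hx, rfl⟩
  simpa using h x hx

theorem J_pos_of (hX : Clo n X) (ho : Ori n X o) (hom : ContinuousOn om X)
    (h : ∀ x ∈ X, 0 ≤ dens n X o om x) {x0 : E} (hx0 : x0 ∈ X) (h0 : 0 < dens n X o om x0) :
    0 < J n X o om := by
  have hc := continuousOn_dens hX ho hom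
  set c := dens n X o om x0 with hcdef
  -- a neighbourhood of `x0` where the density is `≥ c/2`
  have h1 : {y | c / 2 < dens n X o om y} ∈ 𝓝[X] x0 :=
    (hc x0 hx0) (lt_mem_nhds (by linarith))
  obtain ⟨U, hU, hxU, hUX⟩ := mem_nhdsWithin.1 h1
  have hsub : (toEuclidean : E ≃L[ℝ] _) '' (X ∩ U) ⊆ (toEuclidean : E ≃L[ℝ] _) '' X :=
    image_mono inter_subset_left
  have hmeas : MeasurableSet ((toEuclidean : E ≃L[ℝ] _) '' (X ∩ U)) := by
    rw [image_inter (toEuclidean : E ≃L[ℝ] _).injective]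
    exact hX.measurableSet.inter
      ((toEuclidean : E ≃L[ℝ] _).toHomeomorph.isOpenMap U hU).measurableSet
  have hint := integrableOn_dens hX ho hom
  have h2 : ∫ y in (toEuclidean : E ≃L[ℝ] _) '' (X ∩ U), dens n X o om (toEuclidean.symm y) ∂μHE[n]
      ≤ J n X o om := by
    refine setIntegral_mono_set hint ?_ (Eventually.of_forall fun y hy => hsub hy)
    filter_upwards [ae_restrict_mem hX.measurableSet] with y hy
    obtain ⟨x, hx, rfl⟩ := hy
    simpa using h x hx
  have hfin : μHE[n] ((toEuclidean : E ≃L[ℝ] _) '' (X ∩ U)) < ⊤ :=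
    lt_of_le_of_lt (measure_mono hsub) hX.measure_lt_top
  have h3 : ∫ y in (toEuclidean : E ≃L[ℝ] _) '' (X ∩ U), (c / 2 : ℝ) ∂μHE[n] ≤
      ∫ y in (toEuclidean : E ≃L[ℝ] _) '' (X ∩ U), dens n X o om (toEuclidean.symm y) ∂μHE[n] := by
    refine setIntegral_mono_on (integrableOn_const hfin.ne) (hint.mono_set hsub) hmeas ?_
    rintro _ ⟨x, hx, rfl⟩
    have : x ∈ {y | c / 2 < dens n X o om y} := hUX ⟨hx.2, hx.1⟩
    simpa using le_of_lt this
  rw [setIntegral_const, smul_eq_mul] at h3
  have h4 : 0 < μHE[n].real ((toEuclidean : E ≃L[ℝ] _) '' (X ∩ U)) :=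
    ENNReal.toReal_pos (hX.measure_pos hU ⟨x0, hx0, hxU⟩).ne' hfin.ne
  have h5 : 0 < μHE[n].real ((toEuclidean : E ≃L[ℝ] _) '' (X ∩ U)) * (c / 2) :=
    mul_pos h4 (by linarith)
  linarith

theorem dens_self (ho : Ori n X o) {x : E} (hx : x ∈ X) : 0 < dens n X o o x := by
  rw [dens, mul_sign]; exact abs_pos.2 (ho.ne x hx)

/-- the orientation form itself has positive integral -/
theorem J_pos (hX : Clo n X) (ho : Ori n X o) (hne : X.Nonempty) : 0 < J n X o o := by
  obtain ⟨x0, hx0⟩ := hne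
  exact J_pos_of hX ho ho.cont (fun x hx => (dens_self ho hx).le) hx0 (dens_self ho hx0)

/-! ### change of orientation -/

theorem Ori.neg (ho : Ori n X o) : Ori n X (fun x => - o x) :=
  ⟨ho.cont.neg, fun x hx h => ho.ne x hx (by simpa using h)⟩

theorem dens_neg_ori (x : E) : dens n X (fun x => - o x) om x = - dens n X o om x := by
  simp only [dens, map_neg, AlternatingMap.neg_apply, Real.sign_neg]; ring

theorem J_neg_ori : J n X (fun x => - o x) om = - J n X o om := by
  rw [J, J, ← integral_neg]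
  simp only [dens_neg_ori]

/-- orientations with the same sign give the same integral. -/
theorem J_ori_congr (hX : Clo n X)
    (h : ∀ x ∈ X, 0 < evA E n (o x) (frame n X x) * evA E n (o' x) (frame n X x)) :
    J n X o om = J n X o' om := by
  rw [J, J]
  refine setIntegral_congr_fun hX.measurableSet ?_
  rintro _ ⟨x, hx, rfl⟩
  simp only [ContinuousLinearEquiv.symm_apply_apply, dens]
  congr 1
  have h1 := h x hx
  rcases pos_and_pos_or_neg_and_neg_of_mul_pos h1 with ⟨h2, h3⟩ | ⟨h2, h3⟩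
  · rw [Real.sign_of_pos h2, Real.sign_of_pos h3]
  · rw [Real.sign_of_neg h2, Real.sign_of_neg h3]

theorem J_ori_smul (hX : Clo n X) (ho : Ori n X o) {g : E → ℝ} (hg : ∀ x ∈ X, 0 < g x) :
    J n X (fun x => g x • o x) om = J n X o om := by
  refine J_ori_congr hX fun x hx => ?_
  simp only [map_smul, AlternatingMap.smul_apply, smul_eq_mul, mul_assoc]
  exact mul_pos (hg x hx) (mul_self_pos.2 (ho.ne x hx))

/-- on a connected `X` two orientations agree up to a global sign. -/
theorem J_ori_connected (hX : Clo n X) (ho : Ori n X o) (ho' : Ori n X o')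
    (hconn : IsPreconnected X) :
    (∀ om : E → Ext E, J n X o' om = J n X o om) ∨ (∀ om : E → Ext E, J n X o' om = - J n X o om) := by
  classical
  have hc := continuousOn_dens hX ho ho'.cont
  have hne : ∀ x ∈ X, dens n X o o' x ≠ 0 := by
    intro x hx
    rw [dens]
    refine mul_ne_zero (ho'.ne x hx) ?_
    rcases Real.sign_apply_eq_of_ne_zero _ (ho.ne x hx) with h | h <;> rw [h] <;> norm_num
  have himg := (hconn.image _ hc).ordConnected
  have h0 : (0 : ℝ) ∉ dens n X o o' '' X := by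
    rintro ⟨x, hx, h⟩; exact hne x hx h
  have hsgn : (∀ x ∈ X, 0 < dens n X o o' x) ∨ (∀ x ∈ X, dens n X o o' x < 0) := by
    by_contra hcon
    push Not at hcon
    obtain ⟨⟨x, hx, hx'⟩, y, hy, hy'⟩ := hcon
    exact h0 (himg.out ⟨x, hx, rfl⟩ ⟨y, hy, rfl⟩ ⟨hx', hy'⟩)
  have hmul : ∀ x ∈ X, dens n X o o' x * |evA E n (o x) (frame n X x)| =
      evA E n (o x) (frame n X x) * evA E n (o' x) (frame n X x) := by
    intro x hx
    rw [dens, ← mul_sign]
    have : Real.sign (evA E n (o x) (frame n X x)) * Real.sign (evA E n (o x) (frame n X x)) = 1 := by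
      rcases Real.sign_apply_eq_of_ne_zero _ (ho.ne x hx) with h | h <;> rw [h] <;> norm_num
    calc _ = evA E n (o x) (frame n X x) * evA E n (o' x) (frame n X x) *
        (Real.sign (evA E n (o x) (frame n X x)) * Real.sign (evA E n (o x) (frame n X x))) := by ring
      _ = _ := by rw [this, mul_one]
  rcases hsgn with h | h
  · left
    intro om
    refine (J_ori_congr hX fun x hx => ?_).symm
    rw [← hmul x hx]
    exact mul_pos (h x hx) (abs_pos.2 (ho.ne x hx))
  · right
    intro om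
    rw [← J_neg_ori]
    refine (J_ori_congr hX fun x hx => ?_).symm
    rw [map_neg, AlternatingMap.neg_apply, neg_mul, ← hmul x hx]
    have := mul_neg_of_neg_of_pos (h x hx) (abs_pos.2 (ho.ne x hx))
    linarith

end Crest.Agent.R208.FI
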