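import Crest.Agent.R208.FH6
import Crest.Agent.R208.FI1e

/-! Row 208, block F2 (helper198), part FH8: the tangent space of the fibres; **continuity of
fibre integrals**. -/

set_option autoImplicit false
set_option linter.unusedSectionVars false

open MeasureTheory MeasureTheory.Measure Set Filter Topology Module
open scoped ContDiff
open Crest.Agent.R208.F

noncomputable section

namespace Crest.Agent.R208.FI

variable {E E' : Type*} [NormedAddCommGroup E] [NormedSpace ℝ E] [FiniteDimensional ℝ E]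
  [NormedAddCommGroup E'] [NormedSpace ℝ E'] [FiniteDimensional ℝ E']

/-- parametric integrals over compact sets are continuous. -/
theorem continuousAt_integral_compact {r d : ℕ} {g : Eu r × Eu d → ℝ} {K : Set (Eu r)}
    (hK : IsCompact K) {B : Set (Eu d)} (hB : IsOpen B) (hg : ContinuousOn g (K ×ˢ B))
    {b₀ : Eu d} (hb₀ : b₀ ∈ B) : ContinuousAt (fun b => ∫ a in K, g (a, b)) b₀ := by
  obtain ⟨U, hUn, hU, hUB⟩ := exists_mem_nhds_isCompact_mapsTo (f := id) (s := B) (x := b₀)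
    continuous_id (hB.mem_nhds hb₀)
  have hUB' : U ⊆ B := hUB
  have hcU : ContinuousOn g (K ×ˢ U) := hg.mono (prod_mono_right hUB')
  obtain ⟨C, hC⟩ := (hK.prod hU).exists_bound_of_continuousOn hcU
  refine continuousAt_of_dominated (bound := fun _ => C) ?_ ?_ ?_ ?_
  · filter_upwards [hUn] with b hb
    refine ContinuousOn.aestronglyMeasurable ?_ hK.measurableSet
    exact hcU.comp (by fun_prop) fun a ha => ⟨ha, hb⟩
  · filter_upwards [hUn] with b hb
    filter_upwards [ae_restrict_mem hK.measurableSet] with a ha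
    exact hC _ ⟨ha, hb⟩
  · exact integrableOn_const hK.measure_ne_top
  · filter_upwards [ae_restrict_mem hK.measurableSet] with a ha
    have h1 : ContinuousOn (fun b => g (a, b)) B :=
      hg.comp (by fun_prop) fun b hb => ⟨ha, hb⟩
    exact h1.continuousAt (hB.mem_nhds hb₀)

theorem continuousOn_pb {Y : Type*} [TopologicalSpace Y] {S : Set Y} {A : Y → (E' →L[ℝ] E)}
    {c : Y → Ext E} (hA : ContinuousOn A S) (hc : ContinuousOn c S) :
    ContinuousOn (fun y => pb ((A y : E' →L[ℝ] E) : E' →ₗ[ℝ] E) (c y)) S := by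
  have : (fun y => pb ((A y : E' →L[ℝ] E) : E' →ₗ[ℝ] E) (c y)) = fun y => ∑ J,
      (extBasis E).coord J (c y) • pb ((A y : E' →L[ℝ] E) : E' →ₗ[ℝ] E) (extBasis E J) := by
    funext y
    conv_lhs => rw [← (extBasis E).sum_repr (c y)]
    simp only [_root_.map_sum, _root_.map_smul]
    rfl
  rw [this]
  refine continuousOn_finsetSum _ fun J _ => ?_
  refine ContinuousOn.smul (f := fun y => (extBasis E).coord J (c y))
    (g := fun y => pb ((A y : E' →L[ℝ] E) : E' →ₗ[ℝ] E) (extBasis E J)) ?_ ?_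
  · exact (LinearMap.toContinuousLinearMap ((extBasis E).coord J)).continuous.comp_continuousOn hc
  · exact (contDiff_pb_apply (n := 0) (extBasis E J)).continuous.comp_continuousOn hA

section fib
open Adapted (inA)
variable {r d : ℕ} {Z : Set E'} {X : Set E} {π : E' → E} {f : Eu d → E} {V : Set (Eu d)}
  {Φ : Eu (r + d) → E'} {A : Set (Eu r)} {B : Set (Eu d)}
  {oX : E → Ext E} {oV η ψ : E' → Ext E'}

/-- the tangent spaces of the fibres -/
theorem Subm.tan_fibre (h : Subm r d Z X π) {z : E'} (hz : z ∈ Z) :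
    Tan (Z ∩ π ⁻¹' {π z}) z = Tan Z z ⊓ LinearMap.ker (fderiv ℝ π z : E' →ₗ[ℝ] E) := by
  obtain ⟨f, V, Φ, A, B, hAd, p, hp, rfl⟩ := h.exists_adapted hz
  have ha : (kap r d p).1 ∈ A := hp.1
  have hb : (kap r d p).2 ∈ B := hp.2
  have hp' : inA r d (kap r d p).2 (kap r d p).1 = p :=
    ContinuousLinearEquiv.symm_apply_apply _ _
  have h1 : π (Φ p) = f (kap r d p).2 := hAd.comm p hp
  have hF := hAd.fibre hb
  have hdπ : DifferentiableAt ℝ π (Φ p) := (h.smooth _ hz).differentiableAt (by simp)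
  have hR := range_fderiv_eq_Tan hF ha
  simp only [hp'] at hR
  rw [h1, ← hR, ← range_fderiv_eq_Tan hAd.chart hp]
  have hv : ∀ v, fderiv ℝ (fun a => Φ (inA r d (kap r d p).2 a)) (kap r d p).1 v =
      fderiv ℝ Φ p ((kap r d).symm (v, 0)) := fun v => by
    have := hAd.fderiv_fibre ha hb v
    rwa [hp'] at this
  ext w
  rw [Submodule.mem_inf, LinearMap.mem_ker, LinearMap.mem_range, LinearMap.mem_range]
  constructor
  · rintro ⟨v, rfl⟩
    refine ⟨⟨(kap r d).symm (v, 0), (hv v).symm⟩, ?_⟩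
    have h2 := hAd.comp_snd_eq hp hdπ ((kap r d).symm (v, 0))
    rw [ContinuousLinearEquiv.apply_symm_apply, map_zero, ← hv] at h2
    exact h2
  · rintro ⟨⟨u, rfl⟩, hu⟩
    have h2 := hAd.comp_snd_eq hp hdπ u
    have h3 : fderiv ℝ f (kap r d p).2 (kap r d u).2 = 0 := by rw [← h2]; exact hu
    have h4 : (kap r d u).2 = 0 := hAd.base.inj _ (hAd.sub hb) (by rw [h3, map_zero])
    refine ⟨(kap r d u).1, ?_⟩
    have h5 : (kap r d).symm ((kap r d u).1, 0) = u := by
      rw [← h4]; exact ContinuousLinearEquiv.symm_apply_apply _ _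
    have h6 := hv (kap r d u).1
    rw [h5] at h6
    exact h6

/-- the integrand of the fibre integral -/
def gF (r d : ℕ) (Φ : Eu (r + d) → E') (oV ψ : E' → Ext E') (q : Eu r × Eu d) : ℝ :=
  top r (pull (fun a => Φ (inA r d q.2 a)) ψ q.1) *
    Real.sign (top r (pull (fun a => Φ (inA r d q.2 a)) oV q.1))

/-- local expression of the fibre integral of a form supported in a chart -/
theorem fibre_integral_local (h : Subm r d Z X π) (hAd : Adapted r d Z X π f V Φ A B)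
    (hs : Z ∩ tsupport ψ ⊆ Φ '' (kap r d ⁻¹' (A ×ˢ B))) {b : Eu d} (hb : b ∈ B) :
    J r (Z ∩ π ⁻¹' {f b}) oV ψ = ∫ a in A, gF r d Φ oV ψ (a, b) := by
  have h0 : ∀ z ∈ Z ∩ π ⁻¹' {f b}, z ∉ (fun a => Φ (inA r d b a)) '' A →
      evA E' r (ψ z) (frame r (Z ∩ π ⁻¹' {f b}) z) = 0 := ?_
  · have h1 := J_eq_chart (o := oV) (om := ψ) (h.clo_fibre (f b)) (hAd.fibre hb) h0
    rw [h1]
    simp only [gF]
  rintro z ⟨hz, hzb⟩ hzA
  by_cases hψ : z ∈ tsupport ψ
  · exfalso
    apply hzA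
    have h1 : z ∈ Φ '' (kap r d ⁻¹' (A ×ˢ B)) ∩ π ⁻¹' {f b} := ⟨hs ⟨hz, hψ⟩, hzb⟩
    rw [← fibre_image hAd Subset.rfl hb] at h1
    obtain ⟨a, ha, rfl⟩ := h1
    refine ⟨a, ?_, rfl⟩
    have h2 : kap r d (inA r d b a) ∈ A ×ˢ B := ha
    rw [show kap r d (inA r d b a) = (a, b) from ContinuousLinearEquiv.apply_symm_apply _ _] at h2
    exact h2.1
  · rw [image_eq_zero_of_notMem_tsupport hψ, map_zero]; rfl

theorem continuousOn_top_fibre (h : Subm r d Z X π) (hAd : Adapted r d Z X π f V Φ A B)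
    (hψ : ContinuousOn ψ Z) :
    ContinuousOn (fun q : Eu r × Eu d => top r (pull (fun a => Φ (inA r d q.2 a)) ψ q.1))
      (A ×ˢ B) := by
  have h1 : ContinuousOn (fun q : Eu r × Eu d => (fderiv ℝ Φ ((kap r d).symm q)).comp
      (((kap r d).symm : (Eu r × Eu d) →L[ℝ] Eu (r + d)).comp
        (ContinuousLinearMap.inl ℝ (Eu r) (Eu d)))) (A ×ˢ B) := by
    refine ContinuousOn.clm_comp ?_ continuousOn_const
    refine (continuousOn_fderiv_chart hAd.chart).comp (kap r d).symm.continuous.continuousOn ?_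
    rintro ⟨a, b⟩ ⟨ha, hb⟩
    exact Adapted.mem_dom ha hb
  have h2 : ContinuousOn (fun q : Eu r × Eu d => ψ (Φ ((kap r d).symm q))) (A ×ˢ B) := by
    refine hψ.comp (hAd.chart.contDiffOn.continuousOn.comp
      (kap r d).symm.continuous.continuousOn ?_) ?_
    · rintro ⟨a, b⟩ ⟨ha, hb⟩
      exact Adapted.mem_dom ha hb
    · rintro ⟨a, b⟩ ⟨ha, hb⟩
      exact hAd.chart.mem (Adapted.mem_dom ha hb)
  refine (continuous_top.comp_continuousOn (continuousOn_pb h1 h2)).congr ?_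
  rintro ⟨a, b⟩ ⟨ha, hb⟩
  have h3 : fderiv ℝ (fun a => Φ (inA r d b a)) a = (fderiv ℝ Φ ((kap r d).symm (a, b))).comp
      (((kap r d).symm : (Eu r × Eu d) →L[ℝ] Eu (r + d)).comp
        (ContinuousLinearMap.inl ℝ (Eu r) (Eu d))) := by
    ext1 v
    rw [hAd.fderiv_fibre ha hb]
    rfl
  show top r (pb ((fderiv ℝ (fun a => Φ (inA r d b a)) a : Eu r →L[ℝ] E') : Eu r →ₗ[ℝ] E')
    (ψ (Φ (inA r d b a)))) = _
  rw [h3]
  rfl

theorem continuousOn_gF (h : Subm r d Z X π) (hAd : Adapted r d Z X π f V Φ A B)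
    (hoV : ContinuousOn oV Z) (hori : ∀ x, Ori r (Z ∩ π ⁻¹' {x}) oV) (hψ : ContinuousOn ψ Z) :
    ContinuousOn (gF r d Φ oV ψ) (A ×ˢ B) := by
  refine ContinuousOn.mul (continuousOn_top_fibre h hAd hψ) ?_
  rintro ⟨a, b⟩ ⟨ha, hb⟩
  exact ContinuousAt.comp_continuousWithinAt (g := Real.sign)
    (f := fun q : Eu r × Eu d => top r (pull (fun a => Φ (inA r d q.2 a)) oV q.1))
    (continuousAt_sign ((hAd.fibre hb).top_ne_zero (hori (f b)) ha))
    (continuousOn_top_fibre h hAd hoV (a, b) ⟨ha, hb⟩)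

/-- continuity of the fibre integral of a form supported in a chart -/
theorem continuousOn_fibre_local (h : Subm r d Z X π) (hAd : Adapted r d Z X π f V Φ A B)
    (hoV : ContinuousOn oV Z) (hori : ∀ x, Ori r (Z ∩ π ⁻¹' {x}) oV) (hψ : ContinuousOn ψ Z)
    (hs : Z ∩ tsupport ψ ⊆ Φ '' (kap r d ⁻¹' (A ×ˢ B))) :
    ContinuousOn (fun x => J r (Z ∩ π ⁻¹' {x}) oV ψ) X := by
  set D := kap r d ⁻¹' (A ×ˢ B) with hD
  have hinv : ∀ v ∈ D, Function.invFunOn Φ D (Φ v) = v := fun v hv =>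
    hAd.chart.injOn (Function.invFunOn_mem ⟨v, hv, rfl⟩) hv (Function.invFunOn_eq ⟨v, hv, rfl⟩)
  have hC : IsCompact (Z ∩ tsupport ψ) := h.cloZ.compact.inter_right (isClosed_tsupport ψ)
  set K := Function.invFunOn Φ D '' (Z ∩ tsupport ψ) with hKdef
  have hK : IsCompact K := hC.image_of_continuousOn (hAd.chart.continuousOn_inv.mono hs)
  have hKD : K ⊆ D := by
    rintro _ ⟨x, hx, rfl⟩
    exact Function.invFunOn_mem (hs hx)
  set KA := (fun p => (kap r d p).1) '' K with hKA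
  have hKAc : IsCompact KA := hK.image (continuous_fst.comp (kap r d).continuous)
  have hKAA : KA ⊆ A := by
    rintro _ ⟨p, hp, rfl⟩
    exact (hKD hp).1
  have hloc : ∀ b ∈ B, J r (Z ∩ π ⁻¹' {f b}) oV ψ = ∫ a in KA, gF r d Φ oV ψ (a, b) := by
    intro b hb
    rw [fibre_integral_local h hAd hs hb]
    refine setIntegral_eq_of_subset_of_forall_sdiff_eq_zero hAd.hA.measurableSet hKAA ?_
    rintro a ⟨ha, haK⟩
    have hz : Φ (inA r d b a) ∉ tsupport ψ := by
      intro hz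
      apply haK
      have hmem : inA r d b a ∈ D := Adapted.mem_dom ha hb
      refine ⟨inA r d b a, ⟨Φ (inA r d b a), ⟨hAd.chart.mem hmem, hz⟩, hinv _ hmem⟩, ?_⟩
      show (kap r d (inA r d b a)).1 = a
      rw [show kap r d (inA r d b a) = (a, b) from ContinuousLinearEquiv.apply_symm_apply _ _]
    rw [gF]
    have h1 : pull (fun a => Φ (inA r d b a)) ψ a = 0 := by
      show pb _ (ψ (Φ (inA r d b a))) = 0
      rw [image_eq_zero_of_notMem_tsupport hz, map_zero]
    show top r (pull (fun a => Φ (inA r d b a)) ψ a) * _ = 0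
    rw [h1, map_zero, zero_mul]
  have hcont : ∀ b ∈ B, ContinuousAt (fun b => ∫ a in KA, gF r d Φ oV ψ (a, b)) b :=
    fun b hb => continuousAt_integral_compact hKAc hAd.hB
      ((continuousOn_gF h hAd hoV hori hψ).mono (prod_mono_left hKAA)) hb
  have hfB : Chart d X f B := hAd.base.mono hAd.sub hAd.hB
  obtain ⟨U, hU, hUe⟩ := hfB.image_open B Subset.rfl hAd.hB
  intro x hx
  by_cases hxB : x ∈ f '' B
  · have hinvf : ∀ v ∈ B, Function.invFunOn f B (f v) = v := fun v hv =>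
      hfB.injOn (Function.invFunOn_mem ⟨v, hv, rfl⟩) hv (Function.invFunOn_eq ⟨v, hv, rfl⟩)
    obtain ⟨b, hb, rfl⟩ := hxB
    have h1 : ContinuousWithinAt (fun x => ∫ a in KA, gF r d Φ oV ψ
        (a, Function.invFunOn f B x)) (f '' B) (f b) := by
      have h2 := hfB.continuousOn_inv (f b) ⟨b, hb, rfl⟩
      have h3 := hcont b hb
      rw [← hinvf b hb] at h3
      exact ContinuousAt.comp_continuousWithinAt (g := fun b => ∫ a in KA, gF r d Φ oV ψ (a, b)) h3 h2
    have h4 : ContinuousWithinAt (fun x => J r (Z ∩ π ⁻¹' {x}) oV ψ) (f '' B) (f b) := by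
      refine h1.congr ?_ ?_
      · rintro _ ⟨b', hb', rfl⟩
        rw [hinvf b' hb']; exact hloc b' hb'
      · rw [hinvf b hb]; exact hloc b hb
    rw [hUe] at h4
    have hbU : f b ∈ U := by
      have : f b ∈ f '' B := ⟨b, hb, rfl⟩
      rw [hUe] at this; exact this.2
    exact (continuousWithinAt_inter (hU.mem_nhds hbU)).1 h4
  · have hπK : IsCompact (π '' (Z ∩ tsupport ψ)) :=
      hC.image_of_continuousOn (h.continuousOn.mono inter_subset_left)
    have hxK : x ∉ π '' (Z ∩ tsupport ψ) := by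
      rintro ⟨z, hz, rfl⟩
      obtain ⟨p, hp, hpz⟩ := hs hz
      apply hxB
      refine ⟨(kap r d p).2, hp.2, ?_⟩
      rw [← hpz]
      exact (hAd.comm p hp).symm
    have hev : ∀ᶠ y in 𝓝 x, y ∉ π '' (Z ∩ tsupport ψ) :=
      hπK.isClosed.isOpen_compl.mem_nhds hxK
    have h0 : ∀ y, y ∉ π '' (Z ∩ tsupport ψ) → J r (Z ∩ π ⁻¹' {y}) oV ψ = 0 := by
      intro y hy
      refine J_eq_zero (h.clo_fibre y) ?_
      rintro z ⟨hz, hzy⟩ w -
      have hzs : z ∉ tsupport ψ := fun hzs => hy ⟨z, ⟨hz, hzs⟩, hzy⟩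
      rw [image_eq_zero_of_notMem_tsupport hzs, map_zero]; rfl
    have h5 : (fun y => J r (Z ∩ π ⁻¹' {y}) oV ψ) =ᶠ[𝓝 x] fun _ => 0 := by
      filter_upwards [hev] with y hy using h0 y hy
    exact (continuousAt_const.congr h5.symm).continuousWithinAt

/-- **continuity of fibre integrals** -/
theorem Subm.continuousOn_fibre (h : Subm r d Z X π) (hoV : ContinuousOn oV Z)
    (hori : ∀ x, Ori r (Z ∩ π ⁻¹' {x}) oV) (hη : ContinuousOn η Z) :
    ContinuousOn (fun x => J r (Z ∩ π ⁻¹' {x}) oV η) X := by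
  classical
  have key : ∀ z : E', z ∈ Z → ∃ (φ : E' → ℝ) (f : Eu d → E) (V : Set (Eu d))
      (Φ : Eu (r + d) → E') (A : Set (Eu r)) (B : Set (Eu d)) (U : Set E'),
      Adapted r d Z X π f V Φ A B ∧ Φ '' (kap r d ⁻¹' (A ×ˢ B)) = Z ∩ U ∧ tsupport φ ⊆ U ∧
      Continuous φ ∧ (∀ y, 0 ≤ φ y) ∧ 0 < φ z := by
    intro z hz
    obtain ⟨f, V, Φ, A, B, hAd, hz'⟩ := h.exists_adapted hz
    obtain ⟨U, hU, hUe⟩ := hAd.chart.image_open _ Subset.rfl hAd.chart.isOpen
    rw [hUe] at hz'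
    obtain ⟨φ, h1, h2, h3, h4, h5⟩ := exists_contDiff_tsupport_subset (n := 1) (hU.mem_nhds hz'.2)
    exact ⟨φ, f, V, Φ, A, B, U, hAd, hUe, h1, h3.continuous, fun y => (h4 ⟨y, rfl⟩).1,
      by rw [h5]; norm_num⟩
  choose! φ f V Φ A B U hAd hUe hs hφ hφ0 hφp using key
  obtain ⟨t, htZ, ht⟩ := h.cloZ.compact.elim_nhds_subcover (fun z => {y | 0 < φ z y})
    (fun z hz => (isOpen_lt continuous_const (hφ z hz)).mem_nhds (hφp z hz))
  set Ψ : E' → ℝ := fun y => ∑ z ∈ t, φ z y with hΨ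
  have hΨC : Continuous Ψ := continuous_finsetSum _ fun z hz => hφ z (htZ z hz)
  have hΨp : ∀ y ∈ Z, 0 < Ψ y := by
    intro y hy
    obtain ⟨z, hz, hzy⟩ := mem_iUnion₂.1 (ht hy)
    exact Finset.sum_pos' (fun z hz => hφ0 z (htZ z hz) y) ⟨z, hz, hzy⟩
  set η' : E' → Ext E' := fun y => (Ψ y)⁻¹ • η y with hη'
  have hη'C : ContinuousOn η' Z := (hΨC.continuousOn.inv₀ fun y hy => (hΨp y hy).ne').smul hη
  have hterm : ∀ i ∈ t, ContinuousOn (fun y => φ i y • η' y) Z := fun i hi =>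
    (hφ i (htZ i hi)).continuousOn.smul hη'C
  have hsum : ∀ x, J r (Z ∩ π ⁻¹' {x}) oV η =
      ∑ i ∈ t, J r (Z ∩ π ⁻¹' {x}) oV (fun y => φ i y • η' y) := by
    intro x
    rw [← J_sum (h.clo_fibre x) (hori x) t fun i hi => (hterm i hi).mono inter_subset_left]
    refine J_congr' (h.clo_fibre x) ?_
    rintro y ⟨hy, -⟩
    rw [← Finset.sum_smul, hη', smul_smul]
    change η y = (Ψ y * (Ψ y)⁻¹) • η y
    rw [mul_inv_cancel₀ (hΨp y hy).ne', one_smul]
  simp only [hsum]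
  refine continuousOn_finsetSum _ fun i hi => ?_
  refine continuousOn_fibre_local h (hAd i (htZ i hi)) hoV hori (hterm i hi) ?_
  rw [hUe i (htZ i hi)]
  exact inter_subset_inter_right _ ((tsupport_smul_subset_left _ _).trans (hs i (htZ i hi)))

end fib

end Crest.Agent.R208.FI
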