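import Crest.Agent.R208.T1

/-! Row 208, block T (helper316).  T2a: homogeneous components of forms; restriction to open
subsets. -/

set_option autoImplicit false
set_option linter.unusedSectionVars false

open MeasureTheory Set Filter Topology Module
open scoped ContDiff
open Crest.Agent.R208.F Crest.Agent.R208.FI Crest.Agent.R208.CW

noncomputable section

namespace Crest.Agent.R208.T

section dp
variable {E : Type*} [AddCommGroup E] [Module ℝ E]

/-- homogeneous component of degree `j` -/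
def dpl (j : ℕ) : Ext E →ₗ[ℝ] Ext E :=
  GradedAlgebra.proj (fun i : ℕ => ⋀[ℝ]^i (Module.Dual ℝ E)) j

theorem dpl_iMulti_same (j : ℕ) (l : Fin j → Module.Dual ℝ E) :
    dpl j (ExteriorAlgebra.ιMulti ℝ j l : Ext E) = ExteriorAlgebra.ιMulti ℝ j l := by
  rw [dpl, GradedAlgebra.proj_apply, DirectSum.decompose_of_mem_same]
  exact ExteriorAlgebra.ιMulti_range ℝ j ⟨l, rfl⟩

theorem dpl_iMulti_ne {p j : ℕ} (h : p ≠ j) (l : Fin p → Module.Dual ℝ E) :
    dpl j (ExteriorAlgebra.ιMulti ℝ p l : Ext E) = 0 := by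
  rw [dpl, GradedAlgebra.proj_apply, DirectSum.decompose_of_mem_ne _ _ h]
  exact ExteriorAlgebra.ιMulti_range ℝ p ⟨l, rfl⟩

theorem evA_dpl (q j : ℕ) (c : Ext E) :
    evA E q (dpl j c) = if q = j then evA E q c else 0 := by
  refine ext_lin (f := (evA E q).comp (dpl j)) (g := if q = j then evA E q else 0)
    (fun p l => ?_) c |>.trans (by split_ifs <;> rfl)
  change evA E q (dpl j (ExteriorAlgebra.ιMulti ℝ p l)) = _
  by_cases h : p = j
  · subst h
    rw [dpl_iMulti_same]
    split_ifs with h2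
    · rfl
    · exact evA_iMulti_ne (Ne.symm h2) l
  · rw [dpl_iMulti_ne h, map_zero]
    split_ifs with h2
    · subst h2; exact (evA_iMulti_ne h l).symm
    · rfl

theorem isDeg_dpl (j : ℕ) (c : Ext E) : IsDeg j (dpl j c) := fun q hq => by
  rw [evA_dpl, if_neg hq]

variable [FiniteDimensional ℝ E]

theorem ext_evA {a b : Ext E} (h : ∀ q, evA E q a = evA E q b) : a = b := by
  rw [← sub_eq_zero]
  exact eq_zero_of_evA fun q => by rw [map_sub, h q, sub_self]

theorem dpl_of_isDeg {j : ℕ} {c : Ext E} (h : IsDeg j c) : dpl j c = c := by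
  refine ext_evA fun q => ?_
  rw [evA_dpl]
  split_ifs with h2
  · rfl
  · rw [h q h2]

theorem dpl_of_isDeg_ne {i j : ℕ} {c : Ext E} (h : IsDeg i c) (hij : i ≠ j) : dpl j c = 0 := by
  refine ext_evA fun q => ?_
  rw [evA_dpl, map_zero]
  split_ifs with h2
  · exact h q (by omega)
  · rfl

theorem dpl_pb {F' : Type*} [AddCommGroup F'] [Module ℝ F'] (A : E →ₗ[ℝ] F')
    (j : ℕ) (c : Ext F') : dpl j (pb A c) = pb A (dpl j c) := by
  refine ext_evA fun q => ?_
  ext v
  rw [evA_dpl, evA_pb, evA_dpl]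
  split_ifs
  · rw [evA_pb]
  · rfl

theorem dpl_io_mul (j : ℕ) (l : Module.Dual ℝ E) (c : Ext E) :
    dpl (j + 1) (io l * c) = io l * dpl j c := by
  refine ext_evA fun q => ?_
  cases q with
  | zero => rw [evA_dpl, if_neg (by omega), evA_zero_io_mul']
  | succ q =>
    ext v
    rw [evA_dpl, evA_io_mul]
    by_cases h : q = j
    · subst h
      rw [if_pos rfl, evA_io_mul]
      refine Finset.sum_congr rfl fun i _ => ?_
      rw [evA_dpl, if_pos rfl]
    · rw [if_neg (by omega)]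
      symm
      refine Finset.sum_eq_zero fun i _ => ?_
      rw [evA_dpl, if_neg h]
      simp

theorem dpl_zero_io_mul (l : Module.Dual ℝ E) (c : Ext E) : dpl 0 (io l * c) = 0 := by
  refine ext_evA fun q => ?_
  rw [evA_dpl, map_zero]
  split_ifs with h
  · subst h; exact evA_zero_io_mul' l c
  · rfl

theorem sum_dpl (c : Ext E) : ∑ j ∈ Finset.range (finrank ℝ E + 1), dpl j c = c := by
  refine ext_evA fun q => ?_
  rw [_root_.map_sum]
  simp only [evA_dpl]
  rw [Finset.sum_ite_eq]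
  split_ifs with h
  · rfl
  · rw [Finset.mem_range] at h
    exact (evA_eq_zero_of_gt (by omega) c).symm

end dp

section forms
variable {E F' : Type*} [NormedAddCommGroup E] [NormedSpace ℝ E] [FiniteDimensional ℝ E]
  [NormedAddCommGroup F'] [NormedSpace ℝ F'] [FiniteDimensional ℝ F']
  {m : ℕ} {X X' : Set E} {Y : Set F'} {a b : E → Ext E} {x : E} {j : ℕ}

/-- homogeneous component of a form -/
def dp (j : ℕ) (a : E → Ext E) (x : E) : Ext E := dpl j (a x)

/-- homogeneous forms -/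
def Hom (j : ℕ) (a : E → Ext E) : Prop := ∀ x, IsDeg j (a x)

theorem hom_dp (j : ℕ) (a : E → Ext E) : Hom j (dp j a) := fun _ => isDeg_dpl _ _
theorem Hom.dp_eq (h : Hom j a) : dp j a = a := funext fun x => dpl_of_isDeg (h x)
theorem Hom.add (h : Hom j a) (h' : Hom j b) : Hom j (a + b) := fun x => (h x).add (h' x)
theorem Hom.smul (r : ℝ) (h : Hom j a) : Hom j (r • a) := fun x => (h x).smul r
theorem Hom.zero : Hom j (0 : E → Ext E) := fun _ => IsDeg.zero
theorem Hom.neg (h : Hom j a) : Hom j (-a) := by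
  have := h.smul (-1); simpa using this
theorem Hom.sub (h : Hom j a) (h' : Hom j b) : Hom j (a - b) := by
  rw [sub_eq_add_neg]; exact h.add h'.neg
theorem Hom.mul {i : ℕ} (h : Hom i a) (h' : Hom j b) : Hom (i + j) (a * b) := fun x =>
  isDeg_mul (h x) (h' x)
theorem Hom.pull {f : E → F'} {w : F' → Ext F'} (h : Hom j w) : Hom j (F.pull f w) := fun x =>
  (h (f x)).pb _
theorem Hom.d (h : Hom j a) : Hom (j + 1) (F.d a) := fun _ => IsDeg.d (Eventually.of_forall h)

/-- continuous version -/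
def dplL (j : ℕ) : Ext E →L[ℝ] Ext E := LinearMap.toContinuousLinearMap (dpl j)

theorem Sm.dp (j : ℕ) (h : Sm X a) : Sm X (dp j a) := fun x hx =>
  (dplL (E := E) j).contDiff.contDiffAt.comp x (h x hx)

theorem dp_sub (j : ℕ) (a b : E → Ext E) : dp j (a - b) = dp j a - dp j b :=
  funext fun x => map_sub (dpl j) (a x) (b x)

theorem dp_pull (j : ℕ) (f : E → F') (w : F' → Ext F') : dp j (F.pull f w) = F.pull f (dp j w) :=
  funext fun _ => dpl_pb _ _ _

theorem Eqv.dp (j : ℕ) (h : Eqv X a b) : Eqv X (dp j a) (dp j b) := by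
  refine eqv_iff.2 fun x hx => ?_
  have := congrArg (dpl j) (eqv_iff.1 h x hx)
  rwa [dpl_pb, dpl_pb] at this

theorem dp_d (j : ℕ) (h : DifferentiableAt ℝ a x) : dp (j + 1) (F.d a) x = F.d (dp j a) x := by
  have h1 : HasFDerivAt (dp j a) ((dplL j).comp (fderiv ℝ a x)) x :=
    (dplL (E := E) j).hasFDerivAt.comp x h.hasFDerivAt
  rw [F.d_of_hasFDerivAt h1, dp, F.d, wd_apply, wd_apply, _root_.map_sum]
  exact Finset.sum_congr rfl fun i _ => dpl_io_mul _ _ _

theorem dp_zero_d (a : E → Ext E) (x : E) : dp 0 (F.d a) x = 0 := by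
  rw [dp, F.d, wd_apply, _root_.map_sum]
  exact Finset.sum_eq_zero fun i _ => dpl_zero_io_mul _ _

theorem Cl.dp (j : ℕ) (hs : Sm X a) (h : Cl X a) : Cl X (dp j a) := by
  rw [Cl, resZero_iff] at *
  refine (Eqv.of_eq fun x hx => (dp_d j (hs.diff hx)).symm).trans ?_
  have := h.dp (j + 1)
  have h0 : T.dp (j + 1) (0 : E → Ext E) = 0 := funext fun x => map_zero (dpl (j + 1))
  rwa [h0] at this

/-- homogeneous primitive -/
theorem Coh.dp (j : ℕ) (h : Coh X a b) : Coh X (dp j a) (dp j b) := by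
  obtain ⟨ξ, h1, h2⟩ := h
  cases j with
  | zero =>
    refine ⟨0, Sm.zero, ?_⟩
    have h3 := h2.dp 0
    rw [dp_sub, show T.dp 0 (F.d ξ) = 0 from funext fun x => dp_zero_d ξ x] at h3
    rw [d_zero']
    exact h3
  | succ j =>
    refine ⟨T.dp j ξ, h1.dp j, ?_⟩
    rw [← dp_sub]
    exact (h2.dp (j + 1)).trans (Eqv.of_eq fun x hx => dp_d j (h1.diff hx))

/-! ### open subsets -/

theorem Tan_inter_open {U : Set E} (hU : IsOpen U) (hx : x ∈ U) : Tan (X ∩ U) x = Tan X x := by
  refine le_antisymm (Tan_mono_of_subset inter_subset_left x) ?_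
  refine Submodule.span_le.2 ?_
  rintro v ⟨γ, h0, hγ, hS⟩
  refine Submodule.subset_span ⟨γ, h0, hγ, ?_⟩
  have h1 : ∀ᶠ t in 𝓝 (0 : ℝ), γ t ∈ U :=
    hγ.continuousAt.eventually (by rw [h0]; exact hU.mem_nhds hx)
  filter_upwards [hS, h1] with t h2 h3 using ⟨h2, h3⟩

theorem eqv_of_open {U : Set E} (hU : IsOpen U) (h : Eqv (X ∩ U) a b) (hx : x ∈ X) (hxU : x ∈ U) :
    pb (Tan X x).subtype (a x) = pb (Tan X x).subtype (b x) := by
  have h1 := eqv_iff.1 h x ⟨hx, hxU⟩
  have h2 : Tan (X ∩ U) x = Tan X x := Tan_inter_open hU hxU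
  have h3 : ∀ (K K' : Submodule ℝ E), K = K' → pb K.subtype (a x) = pb K.subtype (b x) →
      pb K'.subtype (a x) = pb K'.subtype (b x) := by
    rintro K K' rfl h; exact h
  exact h3 _ _ h2 h1

theorem Sub.inter_open' {d : ℕ} (hX : Sub d X) {U : Set E} (hU : IsOpen U) : Sub d (X ∩ U) :=
  hX.inter_open hU

end forms

end Crest.Agent.R208.T
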