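import Crest.Agent.R208.CM0
import Crest.Agent.R208.FH8
import Crest.Agent.R208.T2a

/-!
R208, block CM5 (helper631): integration along the orbits of a free circle action,
`∫_X α ∧ π^*η = 2π ∫_{X/S¹} η` whenever `α(gen) = 1`.
-/

set_option autoImplicit false
set_option linter.unusedSectionVars false

open Set Filter Topology Module MeasureTheory
open scoped ContDiff RealInnerProductSpace
open Crest.Agent.R208.F Crest.Agent.R208.FI Crest.Agent.R208.T

noncomputable section

namespace Crest.Agent.R208.CM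

variable {E : Type*} [NormedAddCommGroup E] [NormedSpace ℝ E] [FiniteDimensional ℝ E]
variable {E' : Type*} [NormedAddCommGroup E'] [NormedSpace ℝ E'] [FiniteDimensional ℝ E']

/-- the parametrised orbit -/
def orb (φ : ℝ → E → E) (x : E) (u : Eu 1) : E := φ (u 0) x

theorem hasFDerivAt_orb {X : Set E} {φ : ℝ → E → E} (h : Cir X φ) {x : E} (hx : x ∈ X) (u : Eu 1) :
    HasFDerivAt (orb φ x) ((ContinuousLinearMap.toSpanSingleton ℝ (gen φ (φ (u 0) x))).comp
      (EuclideanSpace.proj (0 : Fin 1) : Eu 1 →L[ℝ] ℝ)) u := by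
  have h1 : HasFDerivAt (fun s => φ s x)
      (ContinuousLinearMap.toSpanSingleton ℝ (gen φ (φ (u 0) x))) (u 0) :=
    (h.hasDerivAt hx (u 0)).hasFDerivAt
  have h2 : HasFDerivAt (fun u : Eu 1 => u 0) (EuclideanSpace.proj (0 : Fin 1) : Eu 1 →L[ℝ] ℝ) u :=
    (EuclideanSpace.proj (0 : Fin 1) : Eu 1 →L[ℝ] ℝ).hasFDerivAt
  exact h1.comp u h2

theorem volume_slab : volume {u : Eu 1 | u 0 ∈ Ico (0 : ℝ) (2 * Real.pi)} =
    ENNReal.ofReal (2 * Real.pi) := by
  have h1 : MeasurePreserving (fun u : Eu 1 => u 0) := by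
    have h2 := (PiLp.volume_preserving_ofLp (Fin 1))
    have h3 := (volume_preserving_funUnique (Fin 1) ℝ)
    exact h3.comp h2
  have h4 := h1.measure_preimage (s := Ico (0 : ℝ) (2 * Real.pi))
    measurableSet_Ico.nullMeasurableSet
  rw [Real.volume_Ico, sub_zero] at h4
  exact h4

theorem two_pi_pos_aux : (0 : ℝ) < 2 * Real.pi := by positivity

/-- the integral of `α` over one orbit -/
theorem J_orbit {X : Set E} {φ : ℝ → E → E} (h : Cir X φ) {O : Set E} (hO : Clo 1 O) {x : E}
    (hx : x ∈ X) (hOx : O = range fun t => φ t x) {al : E → Ext E}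
    (hal : ∀ y ∈ O, evA E 1 (al y) (fun _ => gen φ y) = 1) : J 1 O al al = 2 * Real.pi := by
  have hπ := Real.pi_pos
  set A : Set (Eu 1) := {u : Eu 1 | u 0 ∈ Ico (0 : ℝ) (2 * Real.pi)} with hA
  have hAm : MeasurableSet A := by
    have : Measurable fun u : Eu 1 => u 0 :=
      ((EuclideanSpace.proj (0 : Fin 1) : Eu 1 →L[ℝ] ℝ).continuous).measurable
    exact this measurableSet_Ico
  have hmemO : ∀ u, orb φ x u ∈ O := fun u => by rw [hOx]; exact ⟨u 0, rfl⟩
  have himg : orb φ x '' A = O := by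
    refine Subset.antisymm (by rintro _ ⟨u, -, rfl⟩; exact hmemO u) ?_
    rw [hOx]
    rintro _ ⟨t, rfl⟩
    obtain ⟨s, hs, k, hk⟩ : ∃ s ∈ Ico (0 : ℝ) (2 * Real.pi), ∃ k : ℤ, t = s + 2 * Real.pi * k := by
      refine ⟨toIcoMod (two_pi_pos_aux) 0 t, ?_, toIcoDiv two_pi_pos_aux 0 t, ?_⟩
      · have := toIcoMod_mem_Ico two_pi_pos_aux 0 t
        rwa [zero_add] at this
      · have := toIcoMod_add_toIcoDiv_zsmul two_pi_pos_aux 0 t
        rw [zsmul_eq_mul] at this
        linarith
    refine ⟨!₂[s], ?_, ?_⟩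
    · simpa [hA] using hs
    · show φ ((!₂[s] : Eu 1) 0) x = φ t x
      rw [hk, h.add_int s k hx]
      rfl
  have hinj : InjOn (orb φ x) A := by
    intro u hu v hv huv
    obtain ⟨k, hk⟩ := (h.eq_iff hx).1 huv
    have hu' : 0 ≤ u 0 ∧ u 0 < 2 * Real.pi := hu
    have hv' : 0 ≤ v 0 ∧ v 0 < 2 * Real.pi := hv
    have hk0 : k = 0 := by
      have h1 : (k : ℝ) < 1 := by
        by_contra hc
        push Not at hc
        nlinarith
      have h2 : (-1 : ℝ) < k := by
        by_contra hc
        push Not at hc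
        nlinarith
      have h1' : k < 1 := by exact_mod_cast h1
      have h2' : -1 < k := by exact_mod_cast h2
      omega
    rw [hk0] at hk
    ext i
    rw [Fin.fin_one_eq_zero i]
    simpa using hk
  have hd : ∀ u, HasFDerivAt (orb φ x) _ u := fun u => hasFDerivAt_orb h hx u
  have key := integral_param (X := O) (o := al) (om := al) (f := orb φ x) hAm
    (fun u _ => (hd u).differentiableAt) hinj (fun u _ => hO.finrank_Tan (hmemO u))
    (fun u _ w => fderiv_mem_Tan (hd u).differentiableAt (Eventually.of_forall hmemO) w)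
  rw [himg] at key
  have htop : ∀ u ∈ A, top 1 (pull (orb φ x) al u) * Real.sign (top 1 (pull (orb φ x) al u)) =
      1 := by
    intro u _
    have h1 : top 1 (pull (orb φ x) al u) = 1 := by
      unfold pull
      rw [top_pb, ← hal _ (hmemO u)]
      congr 1
      funext i
      rw [ContinuousLinearMap.coe_coe, (hd u).fderiv, Fin.fin_one_eq_zero i]
      simp [orb, sb]
    rw [h1, Real.sign_one, mul_one]
  unfold J
  rw [key, setIntegral_congr_fun hAm htop]
  simp only [integral_const, smul_eq_mul, mul_one, MeasurableSet.univ, measureReal_restrict_apply,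
    univ_inter]
  rw [Measure.real, volume_slab, ENNReal.toReal_ofReal (by positivity)]

/-- the degree `n` component -/
theorem evA_mul_dpl {a : Ext E} (ha : IsDeg 1 a) (n : ℕ) (c : Ext E) :
    evA E (1 + n) (a * c) = evA E (1 + n) (a * dpl n c) := by
  have h1 : ∀ j, j ≠ n → evA E (1 + n) (a * dpl j c) = 0 := fun j hj =>
    isDeg_mul ha (isDeg_dpl j c) (1 + n) (by omega)
  have h2 : ∀ j, j ≠ n → dpl n (dpl j c) = 0 := fun j hj => dpl_of_isDeg_ne (isDeg_dpl j c) hj
  have h3 := sum_dpl c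
  by_cases hn : n ∈ Finset.range (finrank ℝ E + 1)
  · conv_lhs => rw [← h3, Finset.mul_sum, map_sum]
    rw [Finset.sum_eq_single_of_mem n hn fun j _ hj => h1 j hj]
  · have h4 : dpl n c = 0 := by
      conv_lhs => rw [← h3, map_sum]
      exact Finset.sum_eq_zero fun j hj => h2 j (fun h => hn (h ▸ hj))
    rw [h4, mul_zero, map_zero]
    conv_lhs => rw [← h3, Finset.mul_sum, map_sum]
    exact Finset.sum_eq_zero fun j hj => h1 j (fun h => hn (h ▸ hj))

theorem evA_dpl_same (n : ℕ) (c : Ext E) : evA E n (dpl n c) = evA E n c := by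
  rw [evA_dpl, if_pos rfl]

theorem J_congr_dens {n : ℕ} {X : Set E} (hX : Clo n X) {o om o' om' : E → Ext E}
    (h : ∀ x ∈ X, evA E n (o x) (frame n X x) = evA E n (o' x) (frame n X x))
    (h' : ∀ x ∈ X, evA E n (om x) (frame n X x) = evA E n (om' x) (frame n X x)) :
    J n X o om = J n X o' om' := by
  unfold J
  refine setIntegral_congr_fun hX.measurableSet fun y hy => ?_
  obtain ⟨x, hx, rfl⟩ := hy
  simp only [dens, ContinuousLinearEquiv.symm_apply_apply]
  rw [h x hx, h' x hx]

variable {X : Set E} {φ : ℝ → E → E} {B : Set E'} {π : E → E'} {n : ℕ}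

theorem fderiv_gen_zero (h : Cir X φ) (hS : Subm 1 n X B π)
    (hinv : ∀ x ∈ X, ∀ t, π (φ t x) = π x) {x : E} (hx : x ∈ X) :
    fderiv ℝ π x (gen φ x) = 0 := by
  have h1 := h.hasDerivAt hx 0
  rw [h.zero x hx] at h1
  have h2 : HasFDerivAt π (fderiv ℝ π x) (φ 0 x) := by
    rw [h.zero x hx]
    exact ((hS.smooth x hx).differentiableAt (by simp)).hasFDerivAt
  have h3 : HasDerivAt (fun s => π (φ s x)) (fderiv ℝ π x (gen φ x)) 0 :=
    h2.comp_hasDerivAt 0 h1
  have h4 : (fun s => π (φ s x)) = fun _ => π x := funext fun s => hinv x hx s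
  rw [h4] at h3
  exact h3.unique (hasDerivAt_const _ _)

/-- **INTEGRATION ALONG THE ORBITS OF A FREE CIRCLE ACTION** -/
theorem J_fib (h : Cir X φ) (hS : Subm 1 n X B π) (hinv : ∀ x ∈ X, ∀ t, π (φ t x) = π x)
    (hfib : ∀ x ∈ X, ∀ y ∈ X, π y = π x → ∃ t, y = φ t x) (hsur : ∀ b ∈ B, ∃ x ∈ X, π x = b)
    {al : E → Ext E} (halc : ContinuousOn al X) (hal1 : ∀ x ∈ X, IsDeg 1 (al x))
    (halV : ∀ x ∈ X, evA E 1 (al x) (fun _ => gen φ x) = 1)
    {oB η : E' → Ext E'} (hoB : Ori n B oB) (hη : ContinuousOn η B) :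
    Ori (n + 1) X (fun x => al x * pull π oB x) ∧
      J (n + 1) X (fun x => al x * pull π oB x) (fun x => al x * pull π η x) =
        2 * Real.pi * J n B oB η := by
  have e1 : n + 1 = 1 + n := add_comm _ _
  rw [e1]
  set oB' : E' → Ext E' := dp n oB with hoB'
  set η' : E' → Ext E' := dp n η with hη'
  have hdc : Continuous fun c : Ext E' => dpl n c := (dplL (E := E') n).continuous
  have hoB'c : ContinuousOn oB' B := hdc.comp_continuousOn hoB.cont
  have hη'c : ContinuousOn η' B := hdc.comp_continuousOn hη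
  have hev : ∀ (om : E' → Ext E'), ∀ x ∈ X, evA E (1 + n) (al x * pull π om x) =
      evA E (1 + n) (al x * pull π (dp n om) x) := fun om x hx => by
    rw [evA_mul_dpl (hal1 x hx) n]
    have : dpl n (pull π om x) = pull π (dp n om) x := by
      rw [← dp_pull]; rfl
    rw [this]
  have hoB0 : ∀ b ∈ B, ∀ q < n, evA E' q (oB' b) = 0 := fun b _ q hq =>
    isDeg_dpl n (oB b) q (by omega)
  have hη0 : ∀ b ∈ B, ∀ q < n, evA E' q (η' b) = 0 := fun b _ q hq =>
    isDeg_dpl n (η b) q (by omega)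
  have hcl : Clo (1 + n) X := hS.cloZ
  -- orientation
  have hori' : Ori (1 + n) X (fun x => al x * pull π oB' x) := by
    refine ori_of hcl (FI.continuousOn_mul halc (hS.continuousOn_pull hoB'c)) fun x hx => ?_
    have hb : π x ∈ B := hS.mapsTo hx
    have hfr := frame_isFrame (hS.cloX.finrank_Tan hb)
    choose v hv hvf using fun i => hS.sub x hx _ (hfr.2 i)
    refine ⟨Fin.append (fun _ => gen φ x) v, fun i => ?_, ?_⟩
    · refine Fin.addCases (fun j => ?_) (fun j => ?_) i
      · rw [Fin.append_left]; exact h.gen_mem hx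
      · rw [Fin.append_right]; exact hv j
    · have h1 := evA_mul_pb (fderiv ℝ π x : E →ₗ[ℝ] E') (oB' (π x)) (hoB0 _ hb) v (al x)
        (fun _ : Fin 1 => gen φ x) (fun _ => fderiv_gen_zero h hS hinv hx)
      have h2 : (fun i => (fderiv ℝ π x : E →ₗ[ℝ] E') (v i)) = frame n B (π x) := funext hvf
      have h3 : evA E (1 + n) (al x * pull π oB' x) (Fin.append (fun _ => gen φ x) v) =
          evA E' n (oB (π x)) (frame n B (π x)) := by
        show evA E (1 + n) (al x * pb (fderiv ℝ π x : E →ₗ[ℝ] E') (oB' (π x))) _ = _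
        rw [h1, halV x hx, one_mul, h2]
        show evA E' n (dpl n (oB (π x))) _ = _
        rw [evA_dpl_same]
      rw [h3]
      exact hoB.ne _ hb
  have hori : Ori (1 + n) X (fun x => al x * pull π oB x) :=
    ⟨FI.continuousOn_mul halc (hS.continuousOn_pull hoB.cont), fun x hx => by
      rw [hev oB x hx]; exact hori'.ne x hx⟩
  refine ⟨hori, ?_⟩
  -- reduction to homogeneous forms
  have h1 : J (1 + n) X (fun x => al x * pull π oB x) (fun x => al x * pull π η x) =
      J (1 + n) X (fun x => al x * pull π oB' x) (fun x => al x * pull π η' x) :=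
    J_congr_dens hcl (fun x hx => by rw [hev oB x hx]) (fun x hx => by rw [hev η x hx])
  have h2 := fibre_integration hS halc hori' hoB0 halc hη'c hη0
  rw [h1, h2]
  have h3 : ∀ b ∈ B, J 1 (X ∩ π ⁻¹' {b}) al al = 2 * Real.pi := fun b hb => by
    obtain ⟨x, hx, rfl⟩ := hsur b hb
    refine J_orbit h (hS.clo_fibre _) hx ?_ fun y hy => halV y hy.1
    ext y
    constructor
    · rintro ⟨hy, hyx⟩
      obtain ⟨t, rfl⟩ := hfib x hx y hy hyx
      exact ⟨t, rfl⟩
    · rintro ⟨t, rfl⟩
      exact ⟨h.maps t hx, hinv x hx t⟩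
  have h4 : J n B oB' (fun b => J 1 (X ∩ π ⁻¹' {b}) al al • η' b) =
      J n B oB' (fun b => (2 * Real.pi) • η' b) :=
    J_congr' hS.cloX fun b hb => by rw [h3 b hb]
  rw [h4, J_smul]
  congr 1
  exact J_congr_dens hS.cloX (fun b _ => by rw [hoB']; show evA E' n (dpl n _) _ = _; rw [evA_dpl_same])
    (fun b _ => by rw [hη']; show evA E' n (dpl n _) _ = _; rw [evA_dpl_same])

end Crest.Agent.R208.CM
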