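import Crest.Agent.R208.T2b

/-! Row 208, block SN (helper900): the spread number.  SN1: comparison of two compactly supported
top forms on `Eu k` (radial homotopy). -/

set_option autoImplicit false
set_option linter.unusedSectionVars false

open MeasureTheory Set Filter Topology Module
open scoped ContDiff
open Crest.Agent.R208.F Crest.Agent.R208.FI Crest.Agent.R208.T

noncomputable section

namespace Crest.Agent.R208.SN

section basic
variable {E F' : Type*} [NormedAddCommGroup E] [NormedSpace ℝ E] [FiniteDimensional ℝ E]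
  [NormedAddCommGroup F'] [NormedSpace ℝ F'] [FiniteDimensional ℝ F']

theorem Tan_univ (x : E) : Tan (univ : Set E) x = ⊤ := by
  refine eq_top_iff.2 fun v _ => ?_
  have h := mem_Tan_of_curve (X := (univ : Set E)) (γ := fun t : ℝ => x + t • v) (v := v) (t := 0)
    (by simpa using ((hasDerivAt_id (0 : ℝ)).smul_const v).const_add x)
    (Eventually.of_forall fun _ => mem_univ _)
  simpa using h

theorem pb_top_inj {c c' : Ext E}
    (h : pb (Tan (univ : Set E) (0 : E)).subtype c = pb (Tan (univ : Set E) (0 : E)).subtype c') :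
    c = c' := by
  have h0 : ∀ v : E, v ∈ Tan (univ : Set E) (0 : E) := fun v => by rw [Tan_univ]; trivial
  let B : E →ₗ[ℝ] Tan (univ : Set E) (0 : E) :=
    { toFun := fun v => ⟨v, h0 v⟩, map_add' := fun _ _ => rfl, map_smul' := fun _ _ => rfl }
  have h1 := congrArg (pb B) h
  rw [pb_comp, pb_comp] at h1
  have h2 : (Tan (univ : Set E) (0 : E)).subtype ∘ₗ B = LinearMap.id := rfl
  rwa [h2, pb_id, pb_id] at h1

theorem eq_of_eqv_univ {a b : E → Ext E} (h : Eqv (univ : Set E) a b) (x : E) : a x = b x := by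
  have h1 := eqv_iff.1 h x (mem_univ x)
  have h2 : Tan (univ : Set E) x = Tan (univ : Set E) (0 : E) := by rw [Tan_univ, Tan_univ]
  rw [h2] at h1
  exact pb_top_inj h1

/-- cover lemma for `Eqv` -/
theorem Eqv.of_cover {X U U' : Set E} {a b : E → Ext E} (hU : IsOpen U) (hU' : IsOpen U')
    (hc : ∀ x ∈ X, x ∈ U ∨ x ∈ U') (h : Eqv (X ∩ U) a b) (h' : Eqv (X ∩ U') a b) : Eqv X a b := by
  refine eqv_iff.2 fun x hx => ?_
  rcases hc x hx with h1 | h1
  · exact eqv_of_open hU h hx h1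
  · exact eqv_of_open hU' h' hx h1

/-- cohomologous forms have the same integral -/
theorem J_of_coh {m : ℕ} {X : Set E} {o a b : E → Ext E} (hX : Clo m X) (ho : Ori m X o)
    (ha : Sm X a) (hb : Sm X b) (h : Coh X a b) : J m X o a = J m X o b := by
  obtain ⟨ξ, h1, h2⟩ := h
  have hc : ∀ {c : E → Ext E}, Sm X c → ContinuousOn c X := fun hc x hx =>
    (hc x hx).continuousAt.continuousWithinAt
  have e1 : J m X o (F.d ξ) = 0 := J_d hX ho fun x hx => (h1 x hx).of_le (by simp)
  have e2 : J m X o (fun x => a x - b x) = J m X o (F.d ξ) := by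
    refine J_congr hX fun x hx w hw => ?_
    have h3 := eqv_iff.1 h2 x hx
    have h4 := congrArg (fun c => evA _ m c (fun i => (⟨w i, hw i⟩ : Tan X x))) h3
    simp only [evA_pb] at h4
    exact h4
  rw [J_sub hX ho (hc ha) (hc hb), e1] at e2
  linarith

end basic

section comp
variable {k : ℕ}

/-- the cut off: `0` for `‖a‖ ≤ 1/2`, `1` for `‖a‖ ≥ 1` -/
structure Cf (κ : Eu k → ℝ) : Prop where
  sm : ContDiff ℝ ∞ κ
  lo : ∀ a, ‖a‖ ≤ 1 / 2 → κ a = 0
  hi : ∀ a, 1 ≤ ‖a‖ → κ a = 1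
  nn : ∀ a, 0 ≤ κ a
  le : ∀ a, κ a ≤ 1

/-- radial projection to the sphere of radius 4 -/
def mu (a : Eu k) : Eu k := (4 * ‖a‖⁻¹) • a

theorem contDiffAt_mu {a : Eu k} (ha : a ≠ 0) : ContDiffAt ℝ ∞ (mu (k := k)) a :=
  (contDiffAt_const.mul ((contDiffAt_norm ℝ ha).inv (norm_ne_zero_iff.2 ha))).smul contDiffAt_id

theorem norm_mu {a : Eu k} (ha : a ≠ 0) : ‖mu a‖ = 4 := by
  rw [mu, norm_smul, norm_mul, norm_inv, norm_norm, mul_assoc,
    inv_mul_cancel₀ (norm_ne_zero_iff.2 ha)]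
  norm_num

/-- the form `κ • μ^* θ` -/
def kf (κ : Eu k → ℝ) (θ : Eu k → Ext (Eu k)) (a : Eu k) : Ext (Eu k) := κ a • F.pull mu θ a

theorem ne_of_half {a : Eu k} (h : 1 / 4 < ‖a‖) : a ≠ 0 := by
  rintro rfl
  rw [norm_zero] at h
  linarith

theorem contDiff_kf {κ : Eu k → ℝ} (hκ : Cf κ) {θ : Eu k → Ext (Eu k)} (hθ : ContDiff ℝ ∞ θ) :
    ContDiff ℝ ∞ (kf κ θ) := by
  rw [contDiff_iff_contDiffAt]
  intro a
  by_cases h : ‖a‖ < 1 / 2
  · have : kf κ θ =ᶠ[𝓝 a] fun _ => 0 := by
      filter_upwards [(isOpen_lt continuous_norm continuous_const).mem_nhds h] with b hb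
      have hb' : ‖b‖ < 1 / 2 := hb
      rw [kf, hκ.lo b hb'.le, zero_smul]
    exact contDiffAt_const.congr_of_eventuallyEq this
  · have ha : a ≠ 0 := ne_of_half (by push Not at h; linarith)
    exact hκ.sm.contDiffAt.smul (contDiffAt_pull (contDiffAt_mu ha) (by simp) hθ.contDiffAt)

/-- the map `M` -/
def gM (κ : Eu k → ℝ) (a : Eu k) : ℝ := (1 - κ a) + κ a * (4 * ‖a‖⁻¹)

theorem contDiff_gM {κ : Eu k → ℝ} (hκ : Cf κ) : ContDiff ℝ ∞ (gM κ) := by
  rw [contDiff_iff_contDiffAt]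
  intro a
  by_cases h : ‖a‖ < 1 / 2
  · have : gM κ =ᶠ[𝓝 a] fun _ => 1 := by
      filter_upwards [(isOpen_lt continuous_norm continuous_const).mem_nhds h] with b hb
      have hb' : ‖b‖ < 1 / 2 := hb
      rw [gM, hκ.lo b hb'.le]; ring
    exact contDiffAt_const.congr_of_eventuallyEq this
  · have ha : a ≠ 0 := ne_of_half (by push Not at h; linarith)
    exact (contDiffAt_const.sub hκ.sm.contDiffAt).add (hκ.sm.contDiffAt.mul
      (contDiffAt_const.mul ((contDiffAt_norm ℝ ha).inv (norm_ne_zero_iff.2 ha))))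

/-- the homotopy -/
def hM (κ : Eu k → ℝ) (p : Eu k × ℝ) : Eu k :=
  ((1 - Real.smoothTransition p.2) + Real.smoothTransition p.2 * gM κ p.1) • p.1

theorem contDiff_hM {κ : Eu k → ℝ} (hκ : Cf κ) : ContDiff ℝ ∞ (hM κ) := by
  have h1 : ContDiff ℝ ∞ fun p : Eu k × ℝ => Real.smoothTransition p.2 :=
    Real.smoothTransition.contDiff.comp contDiff_snd
  have h2 : ContDiff ℝ ∞ fun p : Eu k × ℝ => gM κ p.1 := (contDiff_gM hκ).comp contDiff_fst
  exact ((contDiff_const.sub h1).add (h1.mul h2)).smul contDiff_fst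

theorem hM_zero (κ : Eu k → ℝ) (a : Eu k) : hM κ (a, 0) = a := by
  simp [hM]

theorem hM_one (κ : Eu k → ℝ) (a : Eu k) : hM κ (a, 1) = gM κ a • a := by
  simp [hM]

theorem hM_norm {κ : Eu k → ℝ} (hκ : Cf κ) {a : Eu k} (ha : 4 < ‖a‖) (s : ℝ) :
    3 < ‖hM κ (a, s)‖ := by
  have h0 : (0 : ℝ) < ‖a‖ := by linarith
  have hg : gM κ a = 4 * ‖a‖⁻¹ := by
    rw [gM, hκ.hi a (by linarith)]; ring
  have h1 := Real.smoothTransition.nonneg s
  have h2 := Real.smoothTransition.le_one s
  set σ := Real.smoothTransition s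
  have h3 : hM κ (a, s) = ((1 - σ) + σ * (4 * ‖a‖⁻¹)) • a := by rw [hM, hg]
  have h4 : 0 ≤ (1 - σ) + σ * (4 * ‖a‖⁻¹) := by
    have : 0 ≤ ‖a‖⁻¹ := inv_nonneg.2 h0.le
    have : 0 ≤ σ * (4 * ‖a‖⁻¹) := by positivity
    linarith
  rw [h3, norm_smul, Real.norm_of_nonneg h4, add_mul]
  have h5 : σ * (4 * ‖a‖⁻¹) * ‖a‖ = 4 * σ := by
    field_simp
  rw [h5]
  nlinarith

theorem hasCompactSupport_of_norm {Y : Type*} [NormedAddCommGroup Y] {g : Eu k → Y} {R : ℝ}
    (h : ∀ a, R < ‖a‖ → g a = 0) : HasCompactSupport g := by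
  refine HasCompactSupport.of_support_subset_isCompact (isCompact_closedBall (0 : Eu k) R) ?_
  intro a ha
  rw [mem_closedBall_zero_iff]
  by_contra hcon
  exact ha (h a (not_le.1 hcon))

theorem integral_top_d_eq_zero {β : Eu k → Ext (Eu k)} (hβ : ContDiff ℝ ∞ β) {R : ℝ}
    (h : ∀ a, R < ‖a‖ → β a = 0) : ∫ a, top k (F.d β a) = 0 :=
  integral_functional_d_eq_zero volume (hβ.of_le (by simp)) (hasCompactSupport_of_norm h) (top k)

theorem d_zero_of_norm {β : Eu k → Ext (Eu k)} {R : ℝ} (h : ∀ a, R < ‖a‖ → β a = 0) {a : Eu k}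
    (ha : R < ‖a‖) : F.d β a = 0 := by
  have : β =ᶠ[𝓝 a] fun _ => 0 := by
    filter_upwards [(isOpen_lt continuous_const continuous_norm).mem_nhds ha] with b hb
    exact h b hb
  rw [F.d_congr this, F.d_const]

theorem integrable_top {t : Eu k → Ext (Eu k)} (hc : Continuous t) {R : ℝ}
    (h : ∀ a, R < ‖a‖ → t a = 0) : Integrable fun a => top k (t a) := by
  refine Continuous.integrable_of_hasCompactSupport (continuous_top.comp hc) ?_
  exact hasCompactSupport_of_norm (R := R) fun a ha => by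
    show top k (t a) = 0
    rw [h a ha, map_zero]

/-- **comparison** -/
theorem integral_kf {κ : Eu k → ℝ} (hκ : Cf κ) {θ : Eu k → Ext (Eu k)} (hθ : ContDiff ℝ ∞ θ)
    (h0 : ∀ a, 3 < ‖a‖ → F.d θ a = 0) :
    ∫ a, top k (F.d (kf κ θ) a) = ∫ a, top k (F.d θ a) := by
  set t : Eu k → Ext (Eu k) := F.d θ with ht
  have st : Sm (univ : Set (Eu k)) t := fun x _ => contDiffAt_d hθ.contDiffAt (by simp)
  have ct : Cl (univ : Set (Eu k)) t := d_d' (fun x _ => hθ.contDiffAt)
  have hhM := contDiff_hM hκ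
  set M : Eu k → Eu k := fun a => hM κ (a, 1) with hM'
  have sM : ContDiff ℝ ∞ M := hhM.comp (contDiff_id.prodMk contDiff_const)
  set K : Eu k → Ext (Eu k) := Hop (hM κ) t with hK
  have sK : ContDiff ℝ ∞ K := contDiff_iff_contDiffAt.2 fun a =>
    contDiffAt_Hop (fun s _ => hhM.contDiffAt) fun s _ => st _ (mem_univ _)
  have h1 := resZero_Hop (X := (univ : Set (Eu k))) (Y := (univ : Set (Eu k))) (Fh := hM κ) (om := t)
    (fun x _ s _ => hhM.contDiffAt.of_le CW.two_le) (fun _ _ _ _ => mem_univ _)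
    (fun y hy => (st y hy).of_le CW.one_le_inf) ct
  have h2 : ∀ a, F.pull M t a = t a + F.d K a := by
    intro a
    have h3 := eq_of_eqv_univ (resZero_iff.1 h1) a
    have h4 : F.pull (fun y => hM κ (y, 0)) t a = t a := by
      have : (fun y : Eu k => hM κ (y, 0)) = fun y => y := funext fun y => hM_zero κ y
      rw [this, F.pull_id]
    rw [h4] at h3
    have h5 : F.pull M t a - t a - F.d K a = 0 := h3
    rw [sub_sub, sub_eq_zero] at h5
    exact h5
  have h3 : ∀ a, 4 < ‖a‖ → K a = 0 := fun a ha =>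
    Hop_eq_zero fun s => h0 _ (hM_norm hκ ha s)
  -- the integral of `M^* t`
  have i1 : ∫ a, top k (F.pull M t a) = ∫ a, top k (t a) := by
    have e1 : (fun a => top k (F.pull M t a)) = fun a => top k (t a) + top k (F.d K a) := by
      funext a; rw [h2, map_add]
    have ht' : Continuous t := continuous_iff_continuousAt.2 fun a => (st a (mem_univ _)).continuousAt
    have hK' : Continuous (F.d K) := continuous_iff_continuousAt.2 fun a =>
      (contDiffAt_d (n := ∞) (m := ∞) sK.contDiffAt (by simp)).continuousAt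
    rw [e1, integral_add (integrable_top ht' h0) (integrable_top hK' fun a ha => d_zero_of_norm h3 ha),
      integral_top_d_eq_zero sK h3, add_zero]
  rw [← i1]
  -- `M^*t - d (kf κ θ) = d β`
  set β : Eu k → Ext (Eu k) := fun a => F.pull M θ a - kf κ θ a with hβ
  have sMθ : ContDiff ℝ ∞ (F.pull M θ) := contDiff_iff_contDiffAt.2 fun a =>
    contDiffAt_pull sM.contDiffAt (by simp) hθ.contDiffAt
  have skf := contDiff_kf hκ hθ
  have sβ : ContDiff ℝ ∞ β := sMθ.sub skf
  have hβ0 : ∀ a, 1 < ‖a‖ → β a = 0 := by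
    intro a ha
    have e1 : M =ᶠ[𝓝 a] mu := by
      filter_upwards [(isOpen_lt continuous_const continuous_norm).mem_nhds ha] with b hb
      have hb' : 1 < ‖b‖ := hb
      show hM κ (b, 1) = mu b
      rw [hM_one, gM, hκ.hi b hb'.le, mu]
      congr 1; ring
    show F.pull M θ a - κ a • F.pull mu θ a = 0
    rw [F.pull_congr e1, hκ.hi a ha.le, one_smul, sub_self]
  have e2 : ∀ a, top k (F.pull M t a) = top k (F.d (kf κ θ) a) + top k (F.d β a) := by
    intro a
    have e3 : F.d β a = F.d (F.pull M θ) a - F.d (kf κ θ) a :=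
      F.d_sub (sMθ.differentiable (by simp) a) (skf.differentiable (by simp) a)
    have e4 : F.d (F.pull M θ) a = F.pull M t a :=
      d_pull (sM.contDiffAt.of_le CW.two_le) (hθ.differentiable (by simp) _)
    rw [e3, e4, map_sub]; ring
  have hkf0 : ∀ a, 1 < ‖a‖ → F.d (kf κ θ) a = 0 := by
    intro a ha
    have e1 : kf κ θ =ᶠ[𝓝 a] F.pull mu θ := by
      filter_upwards [(isOpen_lt continuous_const continuous_norm).mem_nhds ha] with b hb
      have hb' : 1 < ‖b‖ := hb
      rw [kf, hκ.hi b hb'.le, one_smul]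
    have ha0 : a ≠ 0 := ne_of_half (by linarith)
    rw [F.d_congr e1, d_pull ((contDiffAt_mu ha0).of_le CW.two_le)
      (hθ.differentiable (by simp) _)]
    exact pull_of_zero (h0 _ (by rw [norm_mu ha0]; norm_num))
  have ckf : Continuous (F.d (kf κ θ)) := continuous_iff_continuousAt.2 fun a =>
      (contDiffAt_d (n := ∞) (m := ∞) skf.contDiffAt (by simp)).continuousAt
  have cβ : Continuous (F.d β) := continuous_iff_continuousAt.2 fun a =>
      (contDiffAt_d (n := ∞) (m := ∞) sβ.contDiffAt (by simp)).continuousAt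
  simp only [e2]
  rw [integral_add (integrable_top ckf hkf0) (integrable_top cβ fun a ha => d_zero_of_norm hβ0 ha),
    integral_top_d_eq_zero sβ hβ0, add_zero]

end comp

end Crest.Agent.R208.SN
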