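import Crest.Agent.R208.AK17
import Crest.Agent.R208.CM5
import Crest.Agent.R208.SN1

/-!
R208, block AK (helper952), part 18: the localisation formula of helper125 applied to helper10's
pair of forms on `N4 h`: the integral of the vertical integral over `US G` is the integral of the
form of the flat loops over `N4 h`.
-/

set_option autoImplicit false
set_option linter.unusedSectionVars false
set_option linter.unusedVariables false

open Set Filter Topology MeasureTheory Module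
open scoped ContDiff RealInnerProductSpace
open Crest.GeometryTopology.Submanifold
open Crest.Agent.R241.DDefs
open Crest.Agent.R241.D2
open Crest.Agent.R208.F Crest.Agent.R208.FI Crest.Agent.R208.CW Crest.Agent.R208.T
open Crest.Agent.R208.FV (PVB phi)
open Crest.Agent.R208.SB (OPr)
open Crest.Agent.R208.KG (OK N4)
open Crest.Agent.R208.TP (TT CV pu₂)
open Crest.Agent.R208.HO (Pt Ph2 smap_Ph2)
open Crest.Agent.R208.EX (ED LF)

noncomputable section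

namespace Crest.Agent.R208.AK

section gen
variable {E : Type*} [NormedAddCommGroup E] [NormedSpace ℝ E] [FiniteDimensional ℝ E]
  {d : ℕ} {X : Set E} {o om : E → Ext E}

theorem J_dp_right (hX : Clo d X) : J d X o (T.dp d om) = J d X o om :=
  CM.J_congr_dens hX (fun _ _ => rfl) (fun x _ => by
    show evA E d (dpl d (om x)) _ = _
    rw [CM.evA_dpl_same])

end gen

/-- the form of a family of loops is smooth -/
theorem sm_vs {N m : ℕ} {E : Type} [NormedAddCommGroup E] [NormedSpace ℝ E] [FiniteDimensional ℝ E]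
    {X : Set E} {D : ED N} {α : E → Ext E} {f : E → ℝ → Euc N} (hD : D.OK) (hX : Sub m X)
    (hα : Sm X α) (hα1 : Hom 1 α) (hf : LF D.S X f) : Sm X (D.vs α f) := by
  have hA := EX.act_rot X
  have hdat := hD.dat hf.fam
  have hcn := EX.cn_th hα hα1
  have hb := hcn.bas hA (EX.sub_prodC hX)
  exact (VC.sm_vv (p := D.p) (q := D.q) (r := D.r) (s := D.s) hA hb hdat).pull (EX.smap_sl _)

section loc
variable {n N k d r b j mK : ℕ} {κ : ℝ} {S : Set (Euc N)} {G : Geo n N κ S}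
  {H₁ H₂ : Type} [NormedAddCommGroup H₁] [InnerProductSpace ℝ H₁] [FiniteDimensional ℝ H₁]
  [NormedAddCommGroup H₂] [InnerProductSpace ℝ H₂] [FiniteDimensional ℝ H₂]
  {V₁ V₂ : Type*} [NormedAddCommGroup V₁] [InnerProductSpace ℝ V₁] [FiniteDimensional ℝ V₁]
  [NormedAddCommGroup V₂] [InnerProductSpace ℝ V₂] [FiniteDimensional ℝ V₂]
  {P₁ : Euc N × Euc N → H₁ →L[ℝ] H₁} {P₂ : Euc N × Euc N → H₂ →L[ℝ] H₂}
  {Q₁ : Euc N × Euc N → V₁ →L[ℝ] V₁} {Q₂ : Euc N × Euc N → V₂ →L[ℝ] V₂}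
  {T₁ : Euc N × Euc N → H₁ →L[ℝ] V₁} {T₂ : Euc N × Euc N → H₂ →L[ℝ] V₂}
  {B₁ : Euc N × Euc N → V₁ →L[ℝ] H₁} {B₂ : Euc N × Euc N → V₂ →L[ℝ] H₂}
  {h : GT.Bla G k} {Lz : Euc N × Euc N → (H₂ × H₁) →L[ℝ] (Fin 4 → Euc N)}
  {oP : Euc N × Euc N → Ext (Euc N)} {oX : Euc N × Euc N → Ext (Euc N × Euc N)}
  {ε ρ ρ₁ R kk : ℝ} {D : ED N} {c : (((Euc N × Euc N) × Euc N) × Euc N) × Euc N → ℝ}
  {α : Euc N × Euc N → Ext (Euc N × Euc N)}
  {om : (((Euc N × Euc N) × Euc N) × Euc N) × Euc N →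
    Ext ((((Euc N × Euc N) × Euc N) × Euc N) × Euc N)}
  {V : ((Euc N × Euc N) × H₂) × H₁ → Ext (((Euc N × Euc N) × H₂) × H₁)}
  {V₀ : ((Euc N × Euc N) × V₂) × V₁ → Ext (((Euc N × Euc N) × V₂) × V₁)}
  {pu : (((Euc N × Euc N) × V₂) × V₁ → Ext (((Euc N × Euc N) × V₂) × V₁)) →
    Euc N × Euc N → Ext (Euc N × Euc N)}

/-- **LOCALISATION for helper10's pair of forms** -/
theorem loc_pair (hL : TU.LinK h P₂ P₁ Lz) (h₁ : Pt (L.US G) P₁ Q₁ T₁ B₁)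
    (h₂ : Pt (L.US G) P₂ Q₂ T₂ B₂) {r₁ r₂ : ℕ}
    (hP₂ : PField (L.US G) r₂ P₂) (hP₁ : PField (L.US G) r₁ P₁)
    (iB₁ : ∀ x ∈ L.US G, ∀ w, P₁ x w = w → B₁ x (T₁ x w) = w ∧ ‖T₁ x w‖ = ‖w‖)
    (iB₂ : ∀ x ∈ L.US G, ∀ w, P₂ x w = w → B₂ x (T₂ x w) = w ∧ ‖T₂ x w‖ = ‖w‖)
    (hFO : LC.FO (r + (r + r)) kk (L.US G) (TT (L.US G) Q₂ Q₁) (fun z => z.1.1)
      (fun z => max ‖z.1.2‖ ‖z.2‖) pu)
    (hr : r + 1 = k) (hd : d + 1 = 2 * n) (hUc : IsPreconnected (L.US G))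
    (ho : OPr (L.US G) k (fun z => PVB h (phi G z)) oP) (hoX : Ori d (L.US G) oX)
    (hsX : Sm (L.US G) oX) (hdX : Hom d oX) (hO : OK G 4 ε) (hD : D.OK) (hDS : D.S = S)
    (hα : Sm (L.US G) α) (hα1 : Hom 1 α) (hP : TU.Pair D h P₂ P₁ Lz ε c ρ ρ₁ α om V)
    (hV₀ : CV (L.US G) Q₂ Q₁ R V₀)
    (e₀ : Eqv (TT (L.US G) P₂ P₁) (F.pull (Ph2 T₂ T₁) V₀) (T.dp j V)) :
    ∃ s : ℝ, (s = 1 ∨ s = -1) ∧ ∀ y : Euc N × Euc N → Ext (Euc N × Euc N), Sm (L.US G) y →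
      Cl (L.US G) y → Hom b y → j + b = r + (r + r) + d →
      J d (L.US G) oX (pu V₀ * y) = s * kk * J (r + (r + r) + d) (N4 h)
        (fun z => TU.v4 oP z * F.pull (fun z => z.1.1.1) oX z)
        (D.vs (F.pull TU.bN α) (TU.FK G ε 1) * F.pull (fun z => z.1.1.1) y) := by
  have hS := os_N4 hr hd ho hoX hsX hdX
  set ρ' := max (max R ρ) 0 with hρ'
  have hρ'0 : 0 ≤ ρ' := le_max_right _ _
  have hT := tub_PsiQ hL h₁ h₂ hP₂ hP₁
    (fun z : ((Euc N × Euc N) × V₂) × V₁ => max ‖z.1.2‖ ‖z.2‖) (ρ := ρ' + 1) (by linarith)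
  obtain ⟨s, hs, hloc⟩ := LC.loc hFO hT hS hUc
  refine ⟨s, hs, fun y sy cy hy hjb => ?_⟩
  have sB := smap_B (G := G) h₁ h₂
  have sT := smap_T (G := G) h₁ h₂
  have hbN : SMap (N4 h) (L.US G) TU.bN := TU.smap_bN
  have hK : Clo (r + (r + r) + d) (N4 h) := hS.subm.cloZ
  have sOm : Sm (N4 h) om := hP.rel.1
  have vV₀ : ∀ z : ((Euc N × Euc N) × V₂) × V₁, ρ' < max ‖z.1.2‖ ‖z.2‖ → V₀ z = 0 := by
    intro z hz
    rcases lt_max_iff.1 hz with h1 | h1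
    · exact hV₀.supp₂ z (lt_of_le_of_lt ((le_max_left R ρ).trans (le_max_left _ _)) h1)
    · exact hV₀.supp₁ z (lt_of_le_of_lt ((le_max_left R ρ).trans (le_max_left _ _)) h1)
  -- the form on the tube
  have e1 : Eqv (TT (L.US G) Q₂ Q₁) (F.pull (PsiQ Lz B₂ B₁) (T.dp j om)) V₀ := by
    have a1 : Eqv (TT (L.US G) Q₂ Q₁) (F.pull (Ph2 B₂ B₁) (F.pull (Ph2 T₂ T₁) V₀)) V₀ := by
      refine (eqv_pull_pull sB sT (SMap.id _) (fun z hz => ?_) V₀).trans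
        (Eqv.of_eq fun z _ => F.pull_id V₀ z)
      exact Ph2_TB h₁ h₂ hz
    have a2 : Eqv (TT (L.US G) Q₂ Q₁) (F.pull (Ph2 B₂ B₁) (F.pull (Ph2 T₂ T₁) V₀))
        (T.dp j (F.pull (Ph2 B₂ B₁) V)) := by
      rw [dp_pull]; exact e₀.pull sB
    have a3 : Eqv (TT (L.US G) Q₂ Q₁) (F.pull (Ph2 B₂ B₁) V)
        (F.pull (PsiQ Lz B₂ B₁) om) := by
      refine ((Eqv.of_eq (X := TT (L.US G) P₂ P₁) (fun x hx => hP.eqV x hx)).pull sB).trans ?_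
      exact eqv_pull_pull sB hL.smap_Psi (smap_PsiQ hL h₁ h₂) (fun z hz => rfl) om
    rw [← dp_pull]
    exact (a3.dp j).symm.trans (a2.symm.trans a1)
  -- vanishing off the tube
  have e2 : ∀ w ∈ N4 h, (¬ ∃ z ∈ TT (L.US G) Q₂ Q₁, max ‖z.1.2‖ ‖z.2‖ ≤ ρ' ∧
      PsiQ Lz B₂ B₁ z = w) → pb (Tan (N4 h) w).subtype (T.dp j om w) = 0 := by
    intro w hw hne
    have h3 : om w = 0 := by
      refine hP.off w hw ?_
      rintro ⟨x, ⟨hx, hx2, hx1⟩, rfl⟩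
      have i2 := iB₂ _ hx.1.1 _ hx.1.2
      have i1 := iB₁ _ hx.1.1 _ hx.2
      refine hne ⟨Ph2 T₂ T₁ x, sT.maps hx, ?_, ?_⟩
      · have n2 : ‖(Ph2 T₂ T₁ x).1.2‖ = ‖x.1.2‖ := i2.2
        have n1 : ‖(Ph2 T₂ T₁ x).2‖ = ‖x.2‖ := i1.2
        rw [n2, n1]
        exact (max_le hx2.le hx1.le).trans ((le_max_right R ρ).trans (le_max_left _ _))
      · have : Ph2 B₂ B₁ (Ph2 T₂ T₁ x) = x := Prod.ext (Prod.ext rfl i2.1) i1.1
        rw [PsiQ, this]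
    rw [T.dp, h3, map_zero, map_zero]
  have h1 := hloc V₀ (T.dp j om) y j b ρ' (by linarith) hV₀.smooth vV₀ (sOm.dp j)
    (T.hom_dp j om) sy hy hjb (Eqv.mono_tan inter_subset_left e1) e2
  rw [h1]
  congr 1
  -- drop the degree
  have h2 : T.dp j om * F.pull (fun z => z.1.1.1) y = T.dp (r + (r + r) + d)
      (om * F.pull (fun z => z.1.1.1) y) := by
    rw [← hjb]
    exact (T.dp_mul_hom hy.pull j).symm
  rw [h2, J_dp_right hK]
  -- Stokes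
  have h3 := Coh.mul_right (sy.pull hbN) (cy.pull hbN sy) hP.flat
  have h01 : (1 : ℝ) ∈ Icc (0 : ℝ) 1 := ⟨zero_le_one, le_rfl⟩
  have s2 : Sm (N4 h) (D.vs (F.pull TU.bN α) (TU.FK G ε 1)) :=
    sm_vs hD hK.sub (hα.pull hbN) hα1.pull (by rw [hDS]; exact TU.lf_N4 hO h h01)
  exact SN.J_of_coh hK hS.ori (sOm.mul (sy.pull hbN)) (s2.mul (sy.pull hbN)) h3

end loc

end Crest.Agent.R208.AK
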