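import Crest.Agent.R208.FU3

/-!
R208, (8,2), (A2) (helper336), part FU4: **the main theorem of the `TT` half of (A2)**: the push
forward of the relative form of the family `fo` (cut off `c`) over `Z = TT (US G) P₂ P₁` is
cohomologous to the push forward of the form pulled back from `N4 h` (helper10's `Pair`).
-/

set_option autoImplicit false
set_option linter.unusedSectionVars false
set_option linter.unusedVariables false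
set_option maxHeartbeats 1600000

open MeasureTheory Set Filter Topology Module
open scoped ContDiff RealInnerProductSpace Real
open Crest.GeometryTopology.Submanifold
open Crest.Agent.R241.DDefs Crest.Agent.R241.D Crest.Agent.R241.D2
open Crest.Agent.R208.F Crest.Agent.R208.FI Crest.Agent.R208.CW Crest.Agent.R208.T
open Crest.Agent.R208.CM (Triv Qd)
open Crest.Agent.R208.VC (rsL rsL_apply)
open Crest.Agent.R208.EX
open Crest.Agent.R208.MS (En)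
open Crest.Agent.R208.TP (TT CV pu₁ pu₂)
open Crest.Agent.R208.TU (bT bN FK Psi LinK Cut Pair smap_bT)

noncomputable section

namespace Crest.Agent.R208.FU

variable {N n k d r₁ r₂ : ℕ} {κ : ℝ} {S : Set (Euc N)} {G : Geo n N κ S}
  {H₁ H₂ : Type} [NormedAddCommGroup H₁] [InnerProductSpace ℝ H₁] [FiniteDimensional ℝ H₁]
  [NormedAddCommGroup H₂] [InnerProductSpace ℝ H₂] [FiniteDimensional ℝ H₂]
  {V₁ V₂ : Type} [NormedAddCommGroup V₁] [InnerProductSpace ℝ V₁] [FiniteDimensional ℝ V₁]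
  [MeasurableSpace V₁] [BorelSpace V₁] (μ₁ : Measure V₁) [μ₁.IsAddHaarMeasure]
  [NormedAddCommGroup V₂] [InnerProductSpace ℝ V₂] [FiniteDimensional ℝ V₂]
  [MeasurableSpace V₂] [BorelSpace V₂] (μ₂ : Measure V₂) [μ₂.IsAddHaarMeasure]
  {P₁ : Euc N × Euc N → H₁ →L[ℝ] H₁} {P₂ : Euc N × Euc N → H₂ →L[ℝ] H₂}
  {Q₁ : Euc N × Euc N → V₁ →L[ℝ] V₁} {Q₂ : Euc N × Euc N → V₂ →L[ℝ] V₂}
  {T₁ : Euc N × Euc N → H₁ →L[ℝ] V₁} {T₂ : Euc N × Euc N → H₂ →L[ℝ] V₂}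
  {τ₁' : (Euc N × Euc N) × V₁ → Ext ((Euc N × Euc N) × V₁)}
  {τ₂' : (Euc N × Euc N) × V₂ → Ext ((Euc N × Euc N) × V₂)}
  {R R₀ R₀' R₁ R₂ r : ℝ}
  {D : ED N} {hb : GT.Bla G k} {Lz : Euc N × Euc N → (H₂ × H₁) →L[ℝ] (Fin 4 → Euc N)} {εg : ℝ}
  {cK : (((Euc N × Euc N) × Euc N) × Euc N) × Euc N → ℝ} {ρ ρ' δ' ρ₁ : ℝ}
  {α : Euc N × Euc N → Ext (Euc N × Euc N)}
  {om : (((Euc N × Euc N) × Euc N) × Euc N) × Euc N →
    Ext ((((Euc N × Euc N) × Euc N) × Euc N) × Euc N)}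
  {V₀ V V' : ((Euc N × Euc N) × H₂) × H₁ → Ext (((Euc N × Euc N) × H₂) × H₁)}
  {fJ : (((Euc N × Euc N) × H₂) × H₁) × ℝ → ℝ → Euc N}
  {fo : ((Euc N × Euc N) × H₂) × H₁ → ℝ → Euc N}
  {c c' : ((Euc N × Euc N) × H₂) × H₁ → ℝ}
  {W W0 W' : ((Euc N × Euc N) × V₂) × V₁ → Ext (((Euc N × Euc N) × V₂) × V₁)}

theorem dp_zero_rs {E : Type} [NormedAddCommGroup E] [NormedSpace ℝ E] [FiniteDimensional ℝ E]
    {Z : Set E} {x : E} {V : E → Ext E} (j : ℕ) (h : rsL Z x (V x) = 0) :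
    pb (Tan Z x).subtype (T.dp j V x) = 0 := by
  rw [rsL_apply] at h
  rw [T.dp, ← dpl_pb, h, map_zero]

section cutoff
variable (hX : Sub d (L.US G)) (hZ : Sub (d + r₂ + r₁) (TT (L.US G) P₂ P₁))
  (I : Iso (L.US G) r₁ r₂ P₁ P₂ Q₁ Q₂ T₁ T₂ R₁ R₂ τ₁' τ₂') (hD : D.OK)
  (hα : Sm (L.US G) α) (hα1 : Hom 1 α) (ho : LF D.S (TT (L.US G) P₂ P₁) fo)

include hX hZ I hD hα hα1 ho

/-- **change of the cut off** -/
theorem pu_cutoff (hR : 0 < R) (hc : ∀ x ∈ TT (L.US G) P₂ P₁, ContDiffAt ℝ ∞ c x)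
    (hcE : ∀ x ∈ TT (L.US G) P₂ P₁, 0 < c x → En (fo x) ≤ D.B)
    (hcR : ∀ x ∈ TT (L.US G) P₂ P₁, (R < ‖x.2‖ ∨ R < ‖x.1.2‖) → 3 / 4 < c x)
    (hc' : ∀ x ∈ TT (L.US G) P₂ P₁, ContDiffAt ℝ ∞ c' x)
    (hcE' : ∀ x ∈ TT (L.US G) P₂ P₁, 0 < c' x → En (fo x) ≤ D.B)
    (hcR' : ∀ x ∈ TT (L.US G) P₂ P₁, (R < ‖x.2‖ ∨ R < ‖x.1.2‖) → 3 / 4 < c' x)
    (hV : D.IsRel (TT (L.US G) P₂ P₁) (F.pull bT α) fo c V)
    (hV' : D.IsRel (TT (L.US G) P₂ P₁) (F.pull bT α) fo c' V') (j : ℕ)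
    (hW : CV (L.US G) Q₂ Q₁ R₀ W) (hW' : CV (L.US G) Q₂ Q₁ R₀ W')
    (eW : Eqv (TT (L.US G) P₂ P₁) (F.pull (Phi T₂ T₁) W) (T.dp j V))
    (eW' : Eqv (TT (L.US G) P₂ P₁) (F.pull (Phi T₂ T₁) W') (T.dp j V')) :
    Coh (L.US G) (pu₂ μ₁ μ₂ Q₂ τ₂' Q₁ τ₁' W') (pu₂ μ₁ μ₂ Q₂ τ₂' Q₁ τ₁' W) := by
  have hbT : SMap (TT (L.US G) P₂ P₁) (L.US G) bT := smap_bT
  have hαT := hα.pull hbT
  have hαT1 : Hom 1 (F.pull (bT (H₁ := H₁) (H₂ := H₂)) α) := hα1.pull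
  have hUo : IsOpen (Ud N H₂ H₁ (R + 2)) := isOpen_Ud _
  have hZU : Sub (d + r₂ + r₁) (TT (L.US G) P₂ P₁ ∩ Ud N H₂ H₁ (R + 2)) :=
    T.Sub.inter_open' hZ hUo
  have hsub : TT (L.US G) P₂ P₁ ∩ Ud N H₂ H₁ (R + 2) ⊆ TT (L.US G) P₂ P₁ := inter_subset_left
  have hfh : LF D.S ((TT (L.US G) P₂ P₁ ∩ Ud N H₂ H₁ (R + 2)) ×ˢ (univ : Set ℝ))
      (fun y => fo y.1) :=
    ho.comp (g := fun y : (((Euc N × Euc N) × H₂) × H₁) × ℝ => y.1)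
      (fun y _ => contDiffAt_fst) fun y hy => hy.1.1
  have hsm : ∀ t : ℝ, 0 ≤ Real.smoothTransition t ∧ Real.smoothTransition t ≤ 1 := fun t =>
    ⟨Real.smoothTransition.nonneg t, Real.smoothTransition.le_one t⟩
  have hcm : ∀ y ∈ (TT (L.US G) P₂ P₁ ∩ Ud N H₂ H₁ (R + 2)) ×ˢ (univ : Set ℝ),
      ContDiffAt ℝ ∞ (fun y : (((Euc N × Euc N) × H₂) × H₁) × ℝ =>
        (1 - Real.smoothTransition y.2) * c y.1 + Real.smoothTransition y.2 * c' y.1) y := by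
    intro y hy
    have a1 : ContDiffAt ℝ ∞ (fun y : (((Euc N × Euc N) × H₂) × H₁) × ℝ =>
        Real.smoothTransition y.2) y :=
      Real.smoothTransition.contDiff.contDiffAt.comp y contDiffAt_snd
    have a2 : ContDiffAt ℝ ∞ (fun y : (((Euc N × Euc N) × H₂) × H₁) × ℝ => c y.1) y :=
      (hc y.1 hy.1.1).comp y contDiffAt_fst
    have a3 : ContDiffAt ℝ ∞ (fun y : (((Euc N × Euc N) × H₂) × H₁) × ℝ => c' y.1) y :=
      (hc' y.1 hy.1.1).comp y contDiffAt_fst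
    exact ((contDiffAt_const.sub a1).mul a2).add (a1.mul a3)
  have hEm : ∀ y ∈ (TT (L.US G) P₂ P₁ ∩ Ud N H₂ H₁ (R + 2)) ×ˢ (univ : Set ℝ),
      0 < (1 - Real.smoothTransition y.2) * c y.1 + Real.smoothTransition y.2 * c' y.1 →
        En (fo y.1) ≤ D.B := by
    intro y hy h0
    by_cases h1 : 0 < c y.1
    · exact hcE _ hy.1.1 h1
    · by_cases h2 : 0 < c' y.1
      · exact hcE' _ hy.1.1 h2
      · exfalso
        have h3 := hsm y.2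
        have h4 : (1 - Real.smoothTransition y.2) * c y.1 ≤ 0 :=
          mul_nonpos_of_nonneg_of_nonpos (by linarith [h3.2]) (not_lt.1 h1)
        have h5 : Real.smoothTransition y.2 * c' y.1 ≤ 0 :=
          mul_nonpos_of_nonneg_of_nonpos h3.1 (not_lt.1 h2)
        linarith
  have hcom : ∀ y ∈ (TT (L.US G) P₂ P₁ ∩ Ud N H₂ H₁ (R + 2)) ×ˢ (univ : Set ℝ),
      (R < ‖y.1.2‖ ∨ R < ‖y.1.1.2‖) →
      3 / 4 < (1 - Real.smoothTransition y.2) * c y.1 + Real.smoothTransition y.2 * c' y.1 := by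
    intro y hy h0
    have h1 := hcR _ hy.1.1 h0
    have h2 := hcR' _ hy.1.1 h0
    have h3 := hsm y.2
    rcases le_total (c y.1) (c' y.1) with h4 | h4
    · nlinarith [mul_nonneg h3.1 (sub_nonneg.2 h4)]
    · nlinarith [mul_nonneg (sub_nonneg.2 h3.2) (sub_nonneg.2 h4)]
  refine pu_hom μ₁ μ₂ (R := R) (R' := R + 1) (r := R + 2) (fh := fun y => fo y.1)
    (ch := fun y => (1 - Real.smoothTransition y.2) * c y.1 + Real.smoothTransition y.2 * c' y.1)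
    hX I hD hZ hαT hαT1 hR (by linarith) (by linarith) hfh hcm hEm hcom (V0 := V) (V1 := V')
    ?_ ?_ ?_ ?_ j hW hW' eW eW'
  · exact isRel_sub hD hZ hαT hαT1 ho hc hV hZU hsub (ho.mono hsub) (fun _ _ _ => rfl)
      (fun y hy => (hcm (y, 0) ⟨hy, mem_univ _⟩).comp (g := fun y : (((Euc N × Euc N) × H₂) × H₁) × ℝ =>
        (1 - Real.smoothTransition y.2) * c y.1 + Real.smoothTransition y.2 * c' y.1) y
        (contDiffAt_id.prodMk contDiffAt_const))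
      (fun y _ => by
        show (1 - Real.smoothTransition 0) * c y + Real.smoothTransition 0 * c' y = c y
        rw [Real.smoothTransition.zero]; ring)
      (fun y hy h0 => hEm (y, 0) ⟨hy, mem_univ _⟩ h0)
  · exact isRel_sub hD hZ hαT hαT1 ho hc' hV' hZU hsub (ho.mono hsub) (fun _ _ _ => rfl)
      (fun y hy => (hcm (y, 1) ⟨hy, mem_univ _⟩).comp (g := fun y : (((Euc N × Euc N) × H₂) × H₁) × ℝ =>
        (1 - Real.smoothTransition y.2) * c y.1 + Real.smoothTransition y.2 * c' y.1) y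
        (contDiffAt_id.prodMk contDiffAt_const))
      (fun y _ => by
        show (1 - Real.smoothTransition 1) * c y + Real.smoothTransition 1 * c' y = c' y
        rw [Real.smoothTransition.one]; ring)
      (fun y hy h0 => hEm (y, 1) ⟨hy, mem_univ _⟩ h0)
  · intro z hz h0
    exact hV.zero hD hZ hαT hαT1 ho hc hz (hcR z hz h0)
  · intro z hz h0
    exact hV'.zero hD hZ hαT hαT1 ho hc' hz (hcR' z hz h0)

end cutoff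

/-- **(A2), the `TT` half.** -/
theorem main (hd : d + 1 = 2 * n) (I : Iso (L.US G) r₁ r₂ P₁ P₂ Q₁ Q₂ T₁ T₂ R₁ R₂ τ₁' τ₂')
    (hD : D.OK) (hS : D.S = S) (hO : KG.OK G 4 εg) (hL : LinK hb P₂ P₁ Lz)
    (hC : Cut hb P₂ P₁ Lz εg cK ρ ρ' δ') (hρ : 0 < ρ) (hDB : 4 * π - δ' ≤ D.B)
    (hα : Sm (L.US G) α) (hα1 : Hom 1 α) (hP : Pair D hb P₂ P₁ Lz εg cK ρ ρ₁ α om V₀)
    (hρr : ρ < r)
    (hf : LF S ((TT (L.US G) P₂ P₁ ∩ Ud N H₂ H₁ r) ×ˢ (univ : Set ℝ)) fJ)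
    (hf0 : ∀ x ∈ TT (L.US G) P₂ P₁ ∩ Ud N H₂ H₁ r, ∀ t, fJ (x, 0) t = FK G εg 0 (Psi Lz x) t)
    (hf1 : ∀ x ∈ TT (L.US G) P₂ P₁ ∩ Ud N H₂ H₁ r, ∀ t, fJ (x, 1) t = fo x t)
    (hfE : ∀ x ∈ TT (L.US G) P₂ P₁ ∩ Ud N H₂ H₁ r, ∀ τ, ¬ (‖x.1.2‖ < ρ' ∧ ‖x.2‖ < ρ') →
      En (fJ (x, τ)) ≤ D.B)
    (ho : LF S (TT (L.US G) P₂ P₁) fo)
    (hoE : ∀ x ∈ TT (L.US G) P₂ P₁, ¬ (‖x.1.2‖ < ρ' ∧ ‖x.2‖ < ρ') → En (fo x) ≤ D.B)
    (hR : 0 < R) (hc : ∀ x ∈ TT (L.US G) P₂ P₁, ContDiffAt ℝ ∞ c x)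
    (hcE : ∀ x ∈ TT (L.US G) P₂ P₁, 0 < c x → En (fo x) ≤ D.B)
    (hcR : ∀ x ∈ TT (L.US G) P₂ P₁, (R < ‖x.2‖ ∨ R < ‖x.1.2‖) → 3 / 4 < c x)
    (hV : D.IsRel (TT (L.US G) P₂ P₁) (F.pull bT α) fo c V) (j : ℕ)
    (hW : CV (L.US G) Q₂ Q₁ R₀ W) (hW0 : CV (L.US G) Q₂ Q₁ R₀' W0)
    (eW : Eqv (TT (L.US G) P₂ P₁) (F.pull (Phi T₂ T₁) W) (T.dp j V))
    (eW0 : Eqv (TT (L.US G) P₂ P₁) (F.pull (Phi T₂ T₁) W0) (T.dp j V₀)) :
    Coh (L.US G) (pu₂ μ₁ μ₂ Q₂ τ₂' Q₁ τ₁' W) (pu₂ μ₁ μ₂ Q₂ τ₂' Q₁ τ₁' W0) := by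
  have hX : Sub d (L.US G) := (SB.clo_US hb hd).sub
  have hZ := TU.sub_TT hb hd I.hP₂ I.hP₁
  have hbT : SMap (TT (L.US G) P₂ P₁) (L.US G) bT := smap_bT
  have hαT := hα.pull hbT
  have hαT1 : Hom 1 (F.pull (bT (H₁ := H₁) (H₂ := H₂)) α) := hα1.pull
  have hPs := hL.smap_Psi
  have hcP : ∀ x ∈ TT (L.US G) P₂ P₁, ContDiffAt ℝ ∞ (fun x => cK (Psi Lz x)) x := fun x hx =>
    ContDiffAt.comp (g := cK) x hC.smooth.contDiffAt (hPs.smooth x hx)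
  have hcPE : ∀ x ∈ TT (L.US G) P₂ P₁, 0 < cK (Psi Lz x) → ¬ (‖x.1.2‖ < ρ' ∧ ‖x.2‖ < ρ') := by
    intro x hx h0 h1
    rw [hC.zero x hx h1.1 h1.2] at h0
    exact lt_irrefl _ h0
  have hcP1 : ∀ x ∈ TT (L.US G) P₂ P₁, (ρ < ‖x.2‖ ∨ ρ < ‖x.1.2‖) → cK (Psi Lz x) = 1 := by
    intro x hx h0
    refine hC.one hL hx fun h1 => ?_
    rcases h0 with h0 | h0
    · exact absurd h1.2 (not_lt.2 h0.le)
    · exact absurd h1.1 (not_lt.2 h0.le)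
  have ho' : LF D.S (TT (L.US G) P₂ P₁) fo := by rw [hS]; exact ho
  have hf' : LF D.S ((TT (L.US G) P₂ P₁ ∩ Ud N H₂ H₁ r) ×ˢ (univ : Set ℝ)) fJ := by
    rw [hS]; exact hf
  have hFK : LF D.S (TT (L.US G) P₂ P₁) (fun x => FK G εg 0 (Psi Lz x)) := by
    rw [hS]
    exact (TU.lf_N4 hO hb (⟨le_rfl, zero_le_one⟩ : (0:ℝ) ∈ Icc (0:ℝ) 1)).comp hPs.smooth hPs.maps
  -- the intermediate form
  obtain ⟨V₁', hV₁⟩ := ED.exists_rel hD hZ hαT hαT1 ho' hcP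
    fun x hx h0 => hoE x hx (hcPE x hx h0)
  have zV₁ : ∀ z ∈ TT (L.US G) P₂ P₁, (ρ < ‖z.2‖ ∨ ρ < ‖z.1.2‖) →
      rsL (TT (L.US G) P₂ P₁) z (V₁' z) = 0 := fun z hz h0 =>
    hV₁.zero hD hZ hαT hαT1 ho' hcP hz (by
      show 3 / 4 < cK (Psi Lz z)
      rw [hcP1 z hz h0]; norm_num)
  have cV₁ := ED.IsRel.cl hD hZ hαT hαT1 ho' hcP hV₁
  obtain ⟨W1, hW1, eW1⟩ := HO.exists_CV_iso hX I.s₁ I.i₁ I.s₂ I.i₂ I.q₁ I.q₂ I.hQ₁ I.hQ₂ hρ.le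
    (hV₁.1.dp j) (Cl.dp j hV₁.1 cV₁) (fun z hz h0 => dp_zero_rs j (zV₁ z hz h0)) I.hP₁ I.hP₂
  -- change of the cut off
  have hm : 0 < max R ρ := lt_of_lt_of_le hR (le_max_left _ _)
  set RR := max R₀ (max R₀' (ρ + 1)) with hRR
  have hW' := HO.cv_mono (R' := RR) (le_max_left _ _) hW
  have hW0' := HO.cv_mono (R' := RR) ((le_max_left _ _).trans (le_max_right _ _)) hW0
  have hW1' := HO.cv_mono (R' := RR) ((le_max_right _ _).trans (le_max_right _ _)) hW1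
  have k2 : Coh (L.US G) (pu₂ μ₁ μ₂ Q₂ τ₂' Q₁ τ₁' W) (pu₂ μ₁ μ₂ Q₂ τ₂' Q₁ τ₁' W1) := by
    refine pu_cutoff μ₁ μ₂ hX hZ I hD hα hα1 ho' (R := max R ρ) (c := fun x => cK (Psi Lz x))
      (c' := c) hm hcP (fun x hx h0 => hoE x hx (hcPE x hx h0)) (fun x hx h0 => ?_) hc hcE
      (fun x hx h0 => ?_) hV₁ hV j hW1' hW' eW1 eW
    · rw [hcP1 x hx (h0.imp (fun h => (le_max_right _ _).trans_lt h)
        fun h => (le_max_right _ _).trans_lt h)]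
      norm_num
    · exact hcR x hx (h0.imp (fun h => (le_max_left _ _).trans_lt h)
        fun h => (le_max_left _ _).trans_lt h)
  -- the junction
  have hUo : IsOpen (Ud N H₂ H₁ r) := isOpen_Ud _
  have hZU : Sub (d + r₂ + r₁) (TT (L.US G) P₂ P₁ ∩ Ud N H₂ H₁ r) := T.Sub.inter_open' hZ hUo
  have hsub : TT (L.US G) P₂ P₁ ∩ Ud N H₂ H₁ r ⊆ TT (L.US G) P₂ P₁ := inter_subset_left
  have hft : ∀ t : ℝ, LF D.S (TT (L.US G) P₂ P₁ ∩ Ud N H₂ H₁ r) (fun y => fJ (y, t)) := fun t =>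
    hf'.comp (g := fun y : ((Euc N × Euc N) × H₂) × H₁ => (y, t))
      (fun y _ => contDiffAt_id.prodMk contDiffAt_const) fun y hy => ⟨hy, mem_univ _⟩
  have k1 : Coh (L.US G) (pu₂ μ₁ μ₂ Q₂ τ₂' Q₁ τ₁' W1) (pu₂ μ₁ μ₂ Q₂ τ₂' Q₁ τ₁' W0) := by
    refine pu_hom μ₁ μ₂ (R := ρ) (R' := (ρ + r) / 2) (r := r) (fh := fJ)
      (ch := fun y => cK (Psi Lz y.1)) hX I hD hZ hαT hαT1 hρ (by linarith) (by linarith) hf'
      (fun y hy => (hcP y.1 hy.1.1).comp y contDiffAt_fst)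
      (fun y hy h0 => hfE y.1 hy.1 y.2 (hcPE y.1 hy.1.1 h0))
      (fun y hy h0 => ?_) (V0 := V₀) (V1 := V₁') ?_ ?_ ?_ zV₁ j hW0' hW1' eW0 eW1
    · rw [hcP1 y.1 hy.1.1 h0]; norm_num
    · exact isRel_sub hD hZ hαT hαT1 hFK hcP hP.relV hZU hsub (hft 0) hf0
        (fun y hy => hcP y hy.1) (fun _ _ => rfl)
        (fun y hy h0 => hfE y hy 0 (hcPE y hy.1 h0))
    · exact isRel_sub hD hZ hαT hαT1 ho' hcP hV₁ hZU hsub (hft 1) hf1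
        (fun y hy => hcP y hy.1) (fun _ _ => rfl)
        (fun y hy h0 => hfE y hy 1 (hcPE y hy.1 h0))
    · intro z hz h0
      rw [hP.offV z hz (fun h1 => by
        rcases h0 with h0 | h0
        · exact absurd h1.2 (not_lt.2 h0.le)
        · exact absurd h1.1 (not_lt.2 h0.le)), map_zero]
  exact k2.trans k1

end Crest.Agent.R208.FU
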