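import Crest.Agent.R208.LC5

/-! Row 208, block LC (helper125), part LC6: `pu₂` is a fibre operator; **localisation** for one and
for two fields. -/

set_option autoImplicit false
set_option linter.unusedSectionVars false
set_option linter.unusedSimpArgs false
set_option linter.unusedVariables false

open MeasureTheory Set Filter Topology Module Matrix
open scoped ContDiff
open Crest.Agent.R208.F Crest.Agent.R208.FI Crest.Agent.R208.CW Crest.Agent.R208.T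
open Crest.Agent.R208.TP Crest.Agent.R208.SN

noncomputable section

namespace Crest.Agent.R208.LC

section two
variable {E : Type*} [NormedAddCommGroup E] [NormedSpace ℝ E] [FiniteDimensional ℝ E]
  {n₁ n₂ ι₁ ι₂ : Type*} [Fintype n₁] [DecidableEq n₁] [Fintype n₂] [DecidableEq n₂]
  [Fintype ι₁] [DecidableEq ι₁] [Fintype ι₂] [DecidableEq ι₂]
  {X : Set E} {P₁ : E → EuclideanSpace ℝ n₁ →L[ℝ] EuclideanSpace ℝ n₁}
  {P₂ : E → EuclideanSpace ℝ n₂ →L[ℝ] EuclideanSpace ℝ n₂}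
  {W₁ : E → (ι₁ × Fin 2 → n₁) → ℝ} {W₂ : E → (ι₂ × Fin 2 → n₂) → ℝ} {r₁ r₂ d : ℕ} {x : E}

theorem fib_pu₂ [Nonempty ι₁] [Nonempty ι₂] (hX : Sub d X) (hP₁ : PField X r₁ P₁)
    (hP₂ : PField X r₂ P₂) (h₁ : OR X (fun x => 1 - P₁ x) W₁) (h₂ : OR X (fun x => 1 - P₂ x) W₂)
    (hx : x ∈ X) {g₁ : Matrix n₁ (ι₁ × Fin 2) ℝ} {f₁ : Fin r₁ → EuclideanSpace ℝ n₁}
    {g₂ : Matrix n₂ (ι₂ × Fin 2) ℝ} {f₂ : Fin r₂ → EuclideanSpace ℝ n₂}
    (D₁ : Dat P₁ W₁ x g₁ f₁) (D₂ : Dat P₂ W₂ x g₂ f₂) :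
    Fib (r₁ + r₂) ((kGG ι₂ * del (EuclideanSpace ℝ n₂)) * (kGG ι₁ * del (EuclideanSpace ℝ n₁)))
      (TT X P₂ P₁) (fun z => z.1.1) N2
      (pu₂ volume volume P₂ (thomF (fun x => 1 - P₂ x) W₂) P₁ (thomF (fun x => 1 - P₁ x) W₁))
      x (L2 E f₁ f₂) ((x, 0), 0) ((kGG ι₂ * (D₂.adp.mat.det * (-1) ^ r₂)) *
        (kGG ι₁ * (D₁.adp.mat.det * (-1) ^ r₁))) where
  abs := by
    simp only [abs_mul, D₁.adp.abs_det, D₂.adp.abs_det, abs_of_pos (kGG_pos ι₁),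
      abs_of_pos (kGG_pos ι₂), abs_pow, abs_neg, abs_one, one_pow, mul_one]
  inj := by
    refine (injective_iff_map_eq_zero _).2 fun v hv => ?_
    rw [L2_apply] at hv
    have h1 : cmb f₁ (kap r₁ r₂ v).1 = 0 := congrArg Prod.snd hv
    have h2 : cmb f₂ (kap r₁ r₂ v).2 = 0 := congrArg (fun z => z.1.2) hv
    have h3 := norm_cmb D₁.adp.on'' (kap r₁ r₂ v).1
    have h4 := norm_cmb D₂.adp.on'' (kap r₁ r₂ v).2
    rw [h1, norm_zero] at h3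
    rw [h2, norm_zero] at h4
    have h5 := kap_norm v
    rw [← h3, ← h4] at h5
    have h6 : ‖v‖ ^ 2 = 0 := by rw [h5]; ring
    exact norm_eq_zero.1 (pow_eq_zero_iff two_ne_zero |>.1 h6)
  mem := L2_mem hx D₁ D₂
  base := fun c => by rw [add_L2]
  surj := by
    rintro ⟨⟨y, v₂⟩, v₁⟩ ⟨⟨hy, hv₂⟩, hv₁⟩ hyx
    change y = x at hyx
    change P₂ y v₂ = v₂ at hv₂
    change P₁ y v₁ = v₁ at hv₁
    subst hyx
    obtain ⟨a₁, ha₁⟩ := D₁.surj v₁ hv₁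
    obtain ⟨a₂, ha₂⟩ := D₂.surj v₂ hv₂
    refine ⟨(kap r₁ r₂).symm (a₁, a₂), ?_⟩
    rw [add_L2, ContinuousLinearEquiv.apply_symm_apply, ha₁, ha₂]
  zero := by simp [N2]
  conv := fun ρ => by
    have e : {c : Eu (r₁ + r₂) | N2 ((((x, 0), 0) :
        (E × EuclideanSpace ℝ n₂) × EuclideanSpace ℝ n₁) + L2 E f₁ f₂ c) < ρ} =
        (kap r₁ r₂ : Eu (r₁ + r₂) →L[ℝ] Eu r₁ × Eu r₂) ⁻¹'
          (Metric.ball (0 : Eu r₁) ρ ×ˢ Metric.ball (0 : Eu r₂) ρ) := by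
      ext c
      rw [mem_ofPred_eq, N2_add x (g₁ := g₁) (g₂ := g₂) D₁.adp.on'' D₂.adp.on'', max_lt_iff,
        mem_preimage, mem_prod, mem_ball_zero_iff, mem_ball_zero_iff, and_comm]
      rfl
    rw [e]
    exact ((convex_ball _ _).prod (convex_ball _ _)).linear_preimage
      ((kap r₁ r₂ : Eu (r₁ + r₂) →L[ℝ] Eu r₁ × Eu r₂) : Eu (r₁ + r₂) →ₗ[ℝ] Eu r₁ × Eu r₂)
  bdd := L2_bdd D₁ D₂
  val := fun β R sβ vβ dβ => pu₂_formula hX hP₁ hP₂ h₁ h₂ hx D₁ D₂ sβ vβ dβ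

/-- `pu₂` is a fibre operator -/
theorem fo_pu₂ [Nonempty ι₁] [Nonempty ι₂] (hX : Sub d X) (hP₁ : PField X r₁ P₁)
    (hP₂ : PField X r₂ P₂) (h₁ : OR X (fun x => 1 - P₁ x) W₁) (h₂ : OR X (fun x => 1 - P₂ x) W₂) :
    FO (r₁ + r₂) ((kGG ι₂ * del (EuclideanSpace ℝ n₂)) * (kGG ι₁ * del (EuclideanSpace ℝ n₁))) X
      (TT X P₂ P₁) (fun z => z.1.1) N2
      (pu₂ volume volume P₂ (thomF (fun x => 1 - P₂ x) W₂) P₁ (thomF (fun x => 1 - P₁ x) W₁)) := by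
  have τ₁ := csf_thomF hX h₁
  have τ₂ := csf_thomF hX h₂
  have hs : ∀ {V : (E × EuclideanSpace ℝ n₂) × EuclideanSpace ℝ n₁ →
      Ext ((E × EuclideanSpace ℝ n₂) × EuclideanSpace ℝ n₁)} {R : ℝ}, Sm (TT X P₂ P₁) V →
      (∀ z, R < N2 z → V z = 0) →
      Vt R V ∧ Sm (Tot X P₂) (pu₁ volume P₁ (thomF (fun x => 1 - P₁ x) W₁) V) ∧
        Vt R (pu₁ volume P₁ (thomF (fun x => 1 - P₁ x) W₁) V) := by
    intro V R sV vV
    have v₁ : Vt R V := fun z hz => vV z (lt_max_of_lt_right hz)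
    exact ⟨v₁, sm_push volume (X := Tot X P₂) (pfield_fst (P₂ := P₂) hP₁)
      (csf_fst (P₂ := P₂) τ₁) sV v₁, fun z hz =>
      push_eq_zero_pt volume fun h => vV (z, h) (lt_max_of_lt_left hz)⟩
  refine ⟨mul_pos (mul_pos (kGG_pos ι₂) (del_pos _)) (mul_pos (kGG_pos ι₁) (del_pos _)),
    ⟨fun z _ => contDiffAt_fst.fst, fun z hz => hz.1.1⟩, ?_, ?_, ?_, ?_, ?_, ?_⟩
  · exact (continuous_fst.snd.norm).max continuous_snd.norm
  · intro a b ha hab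
    obtain ⟨χ₁, h1, h2, h3, h4⟩ := exists_cut (EuclideanSpace ℝ n₁) a b ha hab
    obtain ⟨χ₂, h5, h6, h7, h8⟩ := exists_cut (EuclideanSpace ℝ n₂) a b ha hab
    refine ⟨fun z => χ₂ z.1.2 * χ₁ z.2, (h5.comp contDiff_fst.snd).mul (h1.comp contDiff_snd),
      fun z => mul_nonneg (h6 _) (h2 _), fun z hz => ?_, fun z hz => ?_⟩
    · change χ₂ z.1.2 * χ₁ z.2 = 1
      rw [h7 _ ((le_max_left _ _).trans hz), h3 _ ((le_max_right _ _).trans hz), one_mul]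
    · change χ₂ z.1.2 * χ₁ z.2 = 0
      rcases le_max_iff.1 hz with h | h
      · rw [h8 _ h, zero_mul]
      · rw [h4 _ h, mul_zero]
  · intro V R sV vV
    obtain ⟨v₁, s₁, v₂⟩ := hs sV vV
    exact sm_push volume hP₂ τ₂ s₁ v₂
  · intro V V' R sV vV sV' vV' h
    obtain ⟨v₁, s₁, v₂⟩ := hs sV vV
    obtain ⟨v₁', s₁', v₂'⟩ := hs sV' vV'
    exact push_congr volume hP₂ τ₂ s₁ v₂ s₁' v₂' (push_congr volume (X := Tot X P₂)
      (pfield_fst (P₂ := P₂) hP₁) (csf_fst (P₂ := P₂) τ₁) sV v₁ sV' v₁' h)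
  · intro V R y sV vV x hx
    obtain ⟨v₁, s₁, v₂⟩ := hs sV vV
    have e1 : F.pull (fun z : (E × EuclideanSpace ℝ n₂) × EuclideanSpace ℝ n₁ => z.1.1) y =
        F.pull (Prod.fst : (E × EuclideanSpace ℝ n₂) × EuclideanSpace ℝ n₁ → _)
          (F.pull (Prod.fst : E × EuclideanSpace ℝ n₂ → E) y) := funext fun z =>
      (F.pull_comp (f := (Prod.fst : (E × EuclideanSpace ℝ n₂) × EuclideanSpace ℝ n₁ → _))
        (g := (Prod.fst : E × EuclideanSpace ℝ n₂ → E)) (om := y) differentiableAt_fst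
        differentiableAt_fst).symm
    rw [e1, pu₂, pu₂, ← push_mul_fst volume hP₂ τ₂ s₁ v₂ hx (β := y)]
    refine push_congr_pt volume (fun h => hP₂.idem x hx h) (fun _ _ => rfl) fun h hh => ?_
    exact push_mul_fst volume (X := Tot X P₂) (P := fun z => P₁ z.1)
      (pfield_fst (P₂ := P₂) hP₁) (csf_fst (P₂ := P₂) τ₁) sV v₁
      (β := F.pull (Prod.fst : E × EuclideanSpace ℝ n₂ → E) y) ⟨hx, hh⟩
  · intro x hx
    obtain ⟨g₁, f₁, D₁⟩ := exists_dat h₁ hP₁ hx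
    obtain ⟨g₂, f₂, D₂⟩ := exists_dat h₂ hP₂ hx
    exact ⟨_, _, _, fib_pu₂ hX hP₁ hP₂ h₁ h₂ hx D₁ D₂⟩

end two

/-! ### the end statements -/
section final
variable {E G : Type*} [NormedAddCommGroup E] [NormedSpace ℝ E] [FiniteDimensional ℝ E]
  [NormedAddCommGroup G] [NormedSpace ℝ G] [FiniteDimensional ℝ G]
  {n ι n₁ n₂ ι₁ ι₂ : Type*} [Fintype n] [DecidableEq n] [Fintype ι] [DecidableEq ι]
  [Fintype n₁] [DecidableEq n₁] [Fintype n₂] [DecidableEq n₂]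
  [Fintype ι₁] [DecidableEq ι₁] [Fintype ι₂] [DecidableEq ι₂]
  {X : Set E} {P : E → EuclideanSpace ℝ n →L[ℝ] EuclideanSpace ℝ n}
  {W' : E → (ι × Fin 2 → n) → ℝ}
  {P₁ : E → EuclideanSpace ℝ n₁ →L[ℝ] EuclideanSpace ℝ n₁}
  {P₂ : E → EuclideanSpace ℝ n₂ →L[ℝ] EuclideanSpace ℝ n₂}
  {W₁ : E → (ι₁ × Fin 2 → n₁) → ℝ} {W₂ : E → (ι₂ × Fin 2 → n₂) → ℝ} {r r₁ r₂ d : ℕ}
  {K : Set G} {pr : G → E} {oV : G → Ext G} {oX : E → Ext E} {ρ : ℝ}

/-- **(LOC1)**: localisation for one field -/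
theorem loc1 [Nonempty ι] {Ψ : E × EuclideanSpace ℝ n → G} (hP : PField X r P)
    (h' : OR X (fun x => 1 - P x) W') (hS : OS r d K X pr oV oX)
    (hT : Tub (Tot X P) Prod.fst (fun z => ‖z.2‖) K pr Ψ ρ) (hXc : IsPreconnected X) :
    ∃ ε : ℝ, (ε = 1 ∨ ε = -1) ∧ ∀ (V : E × EuclideanSpace ℝ n → Ext (E × EuclideanSpace ℝ n))
      (om : G → Ext G) (y : E → Ext E) (a b : ℕ) (ρ' : ℝ), ρ' < ρ → Sm (Tot X P) V →
      (∀ z, ρ' < ‖z.2‖ → V z = 0) → Sm K om → Hom a om → Sm X y →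
      Hom b y → a + b = r + d → Eqv (Tot X P ∩ {z | ‖z.2‖ < ρ}) (F.pull Ψ om) V →
      (∀ w ∈ K, (¬ ∃ z ∈ Tot X P, ‖z.2‖ ≤ ρ' ∧ Ψ z = w) → pb (Tan K w).subtype (om w) = 0) →
      J d X oX (push volume P (thomF (fun x => 1 - P x) W') V * y) =
        ε * (kGG ι * del (EuclideanSpace ℝ n)) *
          J (r + d) K (fun z => oV z * F.pull pr oX z) (om * F.pull pr y) :=
  loc (fo_push hS.subm.cloX.sub hP h') hT hS hXc

/-- **(LOC2)**: localisation for two fields -/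
theorem loc2 [Nonempty ι₁] [Nonempty ι₂]
    {Ψ : (E × EuclideanSpace ℝ n₂) × EuclideanSpace ℝ n₁ → G} (hP₁ : PField X r₁ P₁)
    (hP₂ : PField X r₂ P₂) (h₁ : OR X (fun x => 1 - P₁ x) W₁) (h₂ : OR X (fun x => 1 - P₂ x) W₂)
    (hS : OS (r₁ + r₂) d K X pr oV oX)
    (hT : Tub (TT X P₂ P₁) (fun z => z.1.1) N2 K pr Ψ ρ) (hXc : IsPreconnected X) :
    ∃ ε : ℝ, (ε = 1 ∨ ε = -1) ∧
      ∀ (V : (E × EuclideanSpace ℝ n₂) × EuclideanSpace ℝ n₁ →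
        Ext ((E × EuclideanSpace ℝ n₂) × EuclideanSpace ℝ n₁))
      (om : G → Ext G) (y : E → Ext E) (a b : ℕ) (ρ' : ℝ), ρ' < ρ → Sm (TT X P₂ P₁) V →
      (∀ z, ρ' < N2 z → V z = 0) → Sm K om → Hom a om → Sm X y →
      Hom b y → a + b = r₁ + r₂ + d → Eqv (TT X P₂ P₁ ∩ {z | N2 z < ρ}) (F.pull Ψ om) V →
      (∀ w ∈ K, (¬ ∃ z ∈ TT X P₂ P₁, N2 z ≤ ρ' ∧ Ψ z = w) → pb (Tan K w).subtype (om w) = 0) →
      J d X oX (pu₂ volume volume P₂ (thomF (fun x => 1 - P₂ x) W₂) P₁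
        (thomF (fun x => 1 - P₁ x) W₁) V * y) =
        ε * ((kGG ι₂ * del (EuclideanSpace ℝ n₂)) * (kGG ι₁ * del (EuclideanSpace ℝ n₁))) *
          J (r₁ + r₂ + d) K (fun z => oV z * F.pull pr oX z) (om * F.pull pr y) :=
  loc (fo_pu₂ hS.subm.cloX.sub hP₁ hP₂ h₁ h₂) hT hS hXc

/-- **(C0)** for a projection field with orientations of `P` and of `1 - P` -/
theorem c0 [Nonempty ι] [Nonempty ι₁] {W : E → (ι₁ × Fin 2 → n) → ℝ} (h : OR X P W)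
    (h' : OR X (fun x => 1 - P x) W') {r : ℕ} {R c₀ : ℝ} {e : E → Ext E}
    (hT : ThomPair volume X P r R c₀ e (thomF P W) (thomF (fun x => 1 - P x) W'))
    (hne : X.Nonempty) : |c₀| = del (EuclideanSpace ℝ n) * (kGG ι * kGG ι₁) :=
  thomPair_c0 h h' hT hne

end final

/-! ### extension by zero -/
section ext
variable {E G M : Type*} [NormedAddCommGroup E] [NormedSpace ℝ E] [FiniteDimensional ℝ E]
  [NormedAddCommGroup G] [NormedSpace ℝ G] [FiniteDimensional ℝ G]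
  [NormedAddCommGroup M] [NormedSpace ℝ M] [FiniteDimensional ℝ M]
  {r d m : ℕ} {k ρ : ℝ} {X : Set E} {T : Set M} {K : Set G} {pT : M → E} {N : M → ℝ}
  {pu : (M → Ext M) → E → Ext E} {pr : G → E} {Ψ : M → G} {om : G → Ext G}

/-- the form `V` on the total space which belongs to a form `om` on `K` with support in the tube -/
theorem exists_ext (hO : FO r k X T pT N pu) (hT : Tub T pT N K pr Ψ ρ) (hTs : Sub m T)
    (so : Sm K om) {ρ' ρ₂ : ℝ} (h12 : ρ' < ρ₂) (h2 : ρ₂ < ρ) (h2p : 0 < ρ₂)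
    (h0 : ∀ w ∈ K, (¬ ∃ z ∈ T, N z ≤ ρ' ∧ Ψ z = w) → pb (Tan K w).subtype (om w) = 0) :
    ∃ V : M → Ext M, Sm T V ∧ (∀ z, ρ₂ < N z → V z = 0) ∧
      Eqv (T ∩ {z | N z < ρ}) (F.pull Ψ om) V ∧ (∀ a, Hom a om → Hom a V) ∧
      (Cl K om → Cl T V) := by
  have hρ := hT.pos
  set ρ₁ := max ρ' (ρ₂ / 2) with hρ₁
  have h1p : 0 < ρ₁ := lt_of_lt_of_le (by linarith) (le_max_right _ _)
  have h12' : ρ₁ < ρ₂ := max_lt h12 (by linarith)
  obtain ⟨χ, hχ, -, hχ1, hχz⟩ := hO.cut ρ₁ ρ₂ h1p h12'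
  have hΨ : SMap (T ∩ {z | N z < ρ}) K Ψ :=
    ⟨fun z hz => hT.smooth z hz.1 hz.2, fun z hz => hT.maps z hz.1 hz.2⟩
  have hopen : IsOpen {z : M | N z < ρ} := isOpen_lt hO.contN continuous_const
  set V : M → Ext M := fun z => χ z • F.pull Ψ om z with hV
  have sV : Sm T V := by
    intro z hz
    rcases lt_or_ge (N z) ρ with h | h
    · exact hχ.contDiffAt.smul
        (contDiffAt_pull (hT.smooth z hz h) (by simp) (so _ (hT.maps z hz h)))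
    · have h1 : V =ᶠ[𝓝 z] fun _ => 0 := by
        have h2 : ∀ᶠ w in 𝓝 z, ρ₂ < N w := hO.contN.continuousAt.eventually
          (lt_mem_nhds (lt_of_lt_of_le h2 h))
        filter_upwards [h2] with w hw
        simp only [hV]
        rw [hχz w hw.le, zero_smul]
      exact contDiffAt_const.congr_of_eventuallyEq h1
  have eV : Eqv (T ∩ {z | N z < ρ}) (F.pull Ψ om) V := by
    refine eqv_iff.2 fun z hz => ?_
    rcases le_or_gt (N z) ρ₁ with h | h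
    · simp only [hV]
      rw [hχ1 z h, one_smul]
    · have h3 : pb (Tan K (Ψ z)).subtype (om (Ψ z)) = 0 := by
        refine h0 _ (hT.maps z hz.1 hz.2) ?_
        rintro ⟨w, hw, hwρ, hwz⟩
        have h5 : w = z := hT.inj w hw z hz.1 (by linarith) hz.2 hwz
        rw [h5] at hwρ
        exact absurd (lt_of_le_of_lt (hwρ.trans (le_max_left _ _)) h) (lt_irrefl _)
      have h4 : pb (Tan (T ∩ {z | N z < ρ}) z).subtype (F.pull Ψ om z) = 0 :=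
        pb_pull_eq_zero (hΨ.diff hz) hΨ.maps h3
      simp only [hV]
      rw [map_smul, h4, smul_zero]
  refine ⟨V, sV, fun z hz => ?_, eV, fun a ha z => ((ha _).pb _).smul _, fun hc => ?_⟩
  · simp only [hV]
    rw [hχz z hz.le, zero_smul]
  · intro z hz
    rcases lt_or_ge (N z) ρ with h | h
    · have h1 : Cl (T ∩ {z | N z < ρ}) (F.pull Ψ om) := hc.pull hΨ so
      have h2 : Cl (T ∩ {z | N z < ρ}) V :=
        Cl.of_eqv (hTs.inter_open hopen) (sV.mono inter_subset_left) (so.pull hΨ) eV.symm h1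
      have h3 := eqv_of_open hopen (resZero_iff.1 h2) hz h
      rw [h3, Pi.zero_apply, map_zero]
    · have h1 : V =ᶠ[𝓝 z] fun _ => 0 := by
        have h2 : ∀ᶠ w in 𝓝 z, ρ₂ < N w := hO.contN.continuousAt.eventually
          (lt_mem_nhds (lt_of_lt_of_le h2 h))
        filter_upwards [h2] with w hw
        simp only [hV]
        rw [hχz w hw.le, zero_smul]
      rw [F.d_congr h1, F.d_const, map_zero]

end ext

end Crest.Agent.R208.LC
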