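import Crest.Agent.R208.AK18
import Crest.Agent.R208.FU4
import Crest.Agent.R208.LC6

/-!
R208, block AK (helper952), part 19: **the core of (A2)**: the integral over `US G` of the vertical
integral of the level two form is, up to sign and helper125's constant, the integral over `N4 h` of
the form of the flat loops.
-/

set_option autoImplicit false
set_option linter.unusedSectionVars false
set_option linter.unusedVariables false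
set_option maxHeartbeats 1600000

open Set Filter Topology MeasureTheory Module
open scoped ContDiff RealInnerProductSpace
open Crest.GeometryTopology.Submanifold
open Crest.Agent.R241.DDefs
open Crest.Agent.R241.D2
open Crest.Agent.R208.F Crest.Agent.R208.FI Crest.Agent.R208.CW Crest.Agent.R208.T
open Crest.Agent.R208.FV (PVB phi)
open Crest.Agent.R208.SB (OPr)
open Crest.Agent.R208.KG (OK N4)
open Crest.Agent.R208.MS (En)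
open Crest.Agent.R208.TP (TT CV pu₂)
open Crest.Agent.R208.CM (Triv Qd)
open Crest.Agent.R208.HO (Pt Ph2 smap_Ph2)
open Crest.Agent.R208.EX (ED LF)
open Crest.Agent.R208.SN (kGG)

noncomputable section

namespace Crest.Agent.R208.AK

section core
variable {n N k d r j : ℕ} {κ : ℝ} {S : Set (Euc N)} {G : Geo n N κ S}
  {H₁ H₂ : Type} [NormedAddCommGroup H₁] [InnerProductSpace ℝ H₁] [FiniteDimensional ℝ H₁]
  [NormedAddCommGroup H₂] [InnerProductSpace ℝ H₂] [FiniteDimensional ℝ H₂]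
  {n₁ n₂ ι₁ ι₂ : Type} [Fintype n₁] [DecidableEq n₁] [Fintype n₂] [DecidableEq n₂]
  [Fintype ι₁] [DecidableEq ι₁] [Fintype ι₂] [DecidableEq ι₂] [Nonempty ι₁] [Nonempty ι₂]
  {P₁ : Euc N × Euc N → H₁ →L[ℝ] H₁} {P₂ : Euc N × Euc N → H₂ →L[ℝ] H₂}
  {Q₁ : Euc N × Euc N → EuclideanSpace ℝ n₁ →L[ℝ] EuclideanSpace ℝ n₁}
  {Q₂ : Euc N × Euc N → EuclideanSpace ℝ n₂ →L[ℝ] EuclideanSpace ℝ n₂}
  {T₁ : Euc N × Euc N → H₁ →L[ℝ] EuclideanSpace ℝ n₁}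
  {T₂ : Euc N × Euc N → H₂ →L[ℝ] EuclideanSpace ℝ n₂}
  {W₁ : Euc N × Euc N → (ι₁ × Fin 2 → n₁) → ℝ} {W₂ : Euc N × Euc N → (ι₂ × Fin 2 → n₂) → ℝ}
  {R R₀ R₁ R₂ rJ : ℝ} {D : ED N} {h : GT.Bla G k}
  {Lz : Euc N × Euc N → (H₂ × H₁) →L[ℝ] (Fin 4 → Euc N)} {εg : ℝ}
  {cK : (((Euc N × Euc N) × Euc N) × Euc N) × Euc N → ℝ} {ρ ρ' δ' : ℝ}
  {α : Euc N × Euc N → Ext (Euc N × Euc N)}
  {V : ((Euc N × Euc N) × H₂) × H₁ → Ext (((Euc N × Euc N) × H₂) × H₁)}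
  {fJ : (((Euc N × Euc N) × H₂) × H₁) × ℝ → ℝ → Euc N}
  {fo : ((Euc N × Euc N) × H₂) × H₁ → ℝ → Euc N}
  {c : ((Euc N × Euc N) × H₂) × H₁ → ℝ}
  {W : ((Euc N × Euc N) × EuclideanSpace ℝ n₂) × EuclideanSpace ℝ n₁ →
    Ext (((Euc N × Euc N) × EuclideanSpace ℝ n₂) × EuclideanSpace ℝ n₁)}
  {oP : Euc N × Euc N → Ext (Euc N)} {oX : Euc N × Euc N → Ext (Euc N × Euc N)}

/-- **the core of (A2)** -/
theorem a2_core (hr : r + 1 = k) (hd : d + 1 = 2 * n) (hUc : IsPreconnected (L.US G))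
    (hoP : OPr (L.US G) k (fun z => PVB h (phi G z)) oP) (hoX : Ori d (L.US G) oX)
    (hsX : Sm (L.US G) oX) (hdX : Hom d oX)
    (I : FU.Iso (L.US G) r (r + r) P₁ P₂ Q₁ Q₂ T₁ T₂ R₁ R₂ (thomF (fun x => 1 - Q₁ x) W₁)
      (thomF (fun x => 1 - Q₂ x) W₂))
    (or₁ : OR (L.US G) (fun x => 1 - Q₁ x) W₁) (or₂ : OR (L.US G) (fun x => 1 - Q₂ x) W₂)
    (hD : D.OK) (hS : D.S = S) (hO : OK G 4 εg) (hL : TU.LinK h P₂ P₁ Lz)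
    (hC : TU.Cut h P₂ P₁ Lz εg cK ρ ρ' δ') (hρ : 0 < ρ) (hDB : 4 * Real.pi - δ' ≤ D.B)
    (hα : Sm (L.US G) α) (hα1 : Hom 1 α) (hρr : ρ < rJ)
    (hf : LF S ((TT (L.US G) P₂ P₁ ∩ FU.Ud N H₂ H₁ rJ) ×ˢ (univ : Set ℝ)) fJ)
    (hf0 : ∀ x ∈ TT (L.US G) P₂ P₁ ∩ FU.Ud N H₂ H₁ rJ, ∀ t,
      fJ (x, 0) t = TU.FK G εg 0 (TU.Psi Lz x) t)
    (hf1 : ∀ x ∈ TT (L.US G) P₂ P₁ ∩ FU.Ud N H₂ H₁ rJ, ∀ t, fJ (x, 1) t = fo x t)
    (hfE : ∀ x ∈ TT (L.US G) P₂ P₁ ∩ FU.Ud N H₂ H₁ rJ, ∀ τ, ¬ (‖x.1.2‖ < ρ' ∧ ‖x.2‖ < ρ') →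
      En (fJ (x, τ)) ≤ D.B)
    (ho : LF S (TT (L.US G) P₂ P₁) fo)
    (hoE : ∀ x ∈ TT (L.US G) P₂ P₁, ¬ (‖x.1.2‖ < ρ' ∧ ‖x.2‖ < ρ') → En (fo x) ≤ D.B)
    (hR : 0 < R) (hc : ∀ x ∈ TT (L.US G) P₂ P₁, ContDiffAt ℝ ∞ c x)
    (hcE : ∀ x ∈ TT (L.US G) P₂ P₁, 0 < c x → En (fo x) ≤ D.B)
    (hcR : ∀ x ∈ TT (L.US G) P₂ P₁, (R < ‖x.2‖ ∨ R < ‖x.1.2‖) → 3 / 4 < c x)
    (hV : D.IsRel (TT (L.US G) P₂ P₁) (F.pull TU.bT α) fo c V)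
    (hW : CV (L.US G) Q₂ Q₁ R₀ W)
    (eW : Eqv (TT (L.US G) P₂ P₁) (F.pull (Ph2 T₂ T₁) W) (T.dp j V)) :
    ∀ (y : Euc N × Euc N → Ext (Euc N × Euc N)) (b : ℕ), Sm (L.US G) y →
      Cl (L.US G) y → Hom b y → j + b = r + (r + r) + d →
      |J d (L.US G) oX (pu₂ volume volume Q₂ (thomF (fun x => 1 - Q₂ x) W₂) Q₁
        (thomF (fun x => 1 - Q₁ x) W₁) W * y)| =
      ((kGG ι₂ * LC.del (EuclideanSpace ℝ n₂)) * (kGG ι₁ * LC.del (EuclideanSpace ℝ n₁))) *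
        |J (r + (r + r) + d) (N4 h) (fun z => TU.v4 oP z * F.pull (fun z => z.1.1.1) oX z)
          (D.vs (F.pull TU.bN α) (TU.FK G εg 1) * F.pull (fun z => z.1.1.1) y)| := by
  intro y b sy cy hy hjb
  have hX : Clo d (L.US G) := SB.clo_US h hd
  have h₁ := HO.pt_of_iso I.s₁ I.i₁ I.q₁
  have h₂ := HO.pt_of_iso I.s₂ I.i₂ I.q₂
  have hT₁ : Triv (L.US G) (fun _ x => x) (fun _ => ContinuousLinearMap.id ℝ H₁) T₁ :=
    ⟨I.s₁, I.i₁, fun _ _ _ _ => rfl⟩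
  have hT₂ : Triv (L.US G) (fun _ x => x) (fun _ => ContinuousLinearMap.id ℝ H₂) T₂ :=
    ⟨I.s₂, I.i₂, fun _ _ _ _ => rfl⟩
  obtain ⟨om, V₀, hP⟩ := hC.exists_pair hL hd hr I.hP₂ I.hP₁ hO hD hS hDB hρ (ρ₁ := ρ + 1)
    (by linarith) hα hα1
  -- the form in the fields `Q`
  obtain ⟨W0, hW0, eW0⟩ := HO.exists_CV_iso hX.sub I.s₁ I.i₁ I.s₂ I.i₂ I.q₁ I.q₂ I.hQ₁ I.hQ₂
    hρ.le (V := T.dp j V₀) (hP.cv.smooth.dp j) (Cl.dp j hP.cv.smooth hP.cv.closed)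
    (fun z hz h0 => by
      rw [T.dp, hP.offV z hz (fun h1 => by
        rcases h0 with h0 | h0
        · exact absurd h1.2 (not_lt.2 h0.le)
        · exact absurd h1.1 (not_lt.2 h0.le)), map_zero, map_zero]) I.hP₁ I.hP₂
  have hcoh := FU.main (volume : Measure (EuclideanSpace ℝ n₁))
    (volume : Measure (EuclideanSpace ℝ n₂)) hd I hD hS hO hL hC hρ hDB hα hα1 hP hρr hf hf0 hf1
    hfE ho hoE hR hc hcE hcR hV j hW hW0 eW eW0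
  have hFO := LC.fo_pu₂ hX.sub I.hQ₁ I.hQ₂ or₁ or₂
  obtain ⟨s, hs, hloc⟩ := loc_pair (b := b) (j := j) hL h₁ h₂ I.hP₂ I.hP₁
    (fun x hx w _ => ⟨hT₁.adj hx w, I.i₁ x hx w⟩) (fun x hx w _ => ⟨hT₂.adj hx w, I.i₂ x hx w⟩)
    hFO hr hd hUc hoP hoX hsX hdX hO hD hS hα hα1 hP hW0 eW0
  have s1 := hFO.sm hW.smooth (R := R₀) (fun z hz => by
    rcases lt_max_iff.1 hz with h1 | h1
    · exact hW.supp₂ z h1
    · exact hW.supp₁ z h1)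
  have s2 := hFO.sm hW0.smooth (R := ρ + 1) (fun z hz => by
    rcases lt_max_iff.1 hz with h1 | h1
    · exact hW0.supp₂ z h1
    · exact hW0.supp₁ z h1)
  have e1 := SN.J_of_coh hX hoX (s1.mul sy) (s2.mul sy) (Coh.mul_right sy cy hcoh)
  rw [e1, hloc y sy cy hy hjb, abs_mul, abs_mul]
  have hk : 0 < (kGG ι₂ * LC.del (EuclideanSpace ℝ n₂)) *
      (kGG ι₁ * LC.del (EuclideanSpace ℝ n₁)) := hFO.kpos
  rw [abs_of_pos hk]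
  rcases hs with rfl | rfl <;> simp

end core

end Crest.Agent.R208.AK
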