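import Crest.Agent.R208.AK1

/-!
R208, block AK (helper952), part 2: the energy of a smooth family of loops in `S` near a closed
geodesic, uniformly in parameters (second variation formula for arbitrary families).
-/

set_option autoImplicit false

open Set Filter Topology MeasureTheory
open scoped ContDiff RealInnerProductSpace Interval
open Crest.GeometryTopology.Submanifold
open Crest.Agent.R241.DDefs
open Crest.Agent.R241.D2
open Crest.Agent.R208.SV (ixd ix)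

noncomputable section

namespace Crest.Agent.R208.AK

variable {n N : ℕ} {κ : ℝ} {S : Set (Euc N)} {G : Geo n N κ S}
  {E V : Type*} [NormedAddCommGroup E] [NormedSpace ℝ E]
  [NormedAddCommGroup V] [NormedSpace ℝ V]

/-- energy of a loop of period `T` -/
def EnT (T : ℝ) (c : ℝ → Euc N) : ℝ := (1 / 2) * ∫ t in (0:ℝ)..T, ‖deriv c t‖ ^ 2

/-- smooth family of `T`-periodic loops in `S`, over the discs of radius `r` of the field `P` over
`K`, which is the geodesic of `g x` over the zero section -/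
structure LFam (G : Geo n N κ S) (K : Set E) (P : E → V →L[ℝ] V) (T : ℝ)
    (g : E → Euc N × Euc N) (F : (E × V) × ℝ → Euc N) (r : ℝ) : Prop where
  rpos : 0 < r
  smooth : ∀ x ∈ K, ∀ ζ : V, P x ζ = ζ → ‖ζ‖ < r → ∀ t, ContDiffAt ℝ ∞ F ((x, ζ), t)
  mem : ∀ x ∈ K, ∀ ζ : V, P x ζ = ζ → ‖ζ‖ < r → ∀ t, F ((x, ζ), t) ∈ S
  per : ∀ x ∈ K, ∀ ζ : V, P x ζ = ζ → ‖ζ‖ < r → ∀ t, F ((x, ζ), t + T) = F ((x, ζ), t)
  zero : ∀ x ∈ K, ∀ t, F ((x, 0), t) = (fl G (g x, t)).1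

/-- linearisation of the family along the fibre at the zero section -/
def lA (F : (E × V) × ℝ → Euc N) (x : E) (ζ : V) (t : ℝ) : Euc N :=
  fderiv ℝ F ((x, 0), t) ((0, ζ), 0)

/-- its time derivative -/
def lA' (F : (E × V) × ℝ → Euc N) (x : E) (ζ : V) (t : ℝ) : Euc N :=
  fderiv ℝ (fderiv ℝ F) ((x, 0), t) (0, 1) ((0, ζ), 0)

lemma three_le : (3 : WithTop ℕ∞) ≤ ∞ := by
  have : ((3 : ℕ∞) : WithTop ℕ∞) ≤ ((⊤ : ℕ∞) : WithTop ℕ∞) := WithTop.coe_le_coe.2 le_top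
  exact this

lemma hasDerivAt_time (x : E) (ζ : V) (t : ℝ) :
    HasDerivAt (fun t : ℝ => (((x, ζ), t) : (E × V) × ℝ)) (0, 1) t :=
  (hasDerivAt_const t (x, ζ)).prodMk (hasDerivAt_id t)

lemma hasDerivAt_F {F : (E × V) × ℝ → Euc N} {x : E} {ζ : V} {t : ℝ}
    (h : ContDiffAt ℝ 3 F ((x, ζ), t)) :
    HasDerivAt (fun t => F ((x, ζ), t)) (fderiv ℝ F ((x, ζ), t) (0, 1)) t :=
  (h.differentiableAt (by simp)).hasFDerivAt.comp_hasDerivAt t (hasDerivAt_time x ζ t)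

lemma hasDerivAt_DF {F : (E × V) × ℝ → Euc N} {x : E} {ζ : V} {t : ℝ}
    (h : ContDiffAt ℝ 3 F ((x, ζ), t)) (u : (E × V) × ℝ) :
    HasDerivAt (fun t => fderiv ℝ F ((x, ζ), t) u)
      (fderiv ℝ (fderiv ℝ F) ((x, ζ), t) (0, 1) u) t := by
  have h3 := ((h.fderiv_right (m := 2) (by norm_num)).differentiableAt (by simp)).hasFDerivAt
  have h4 := h3.comp_hasDerivAt t (hasDerivAt_time x ζ t)
  have h5 := h4.clm_apply (hasDerivAt_const t u)
  simpa using h5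

lemma hasDerivAt_lA {F : (E × V) × ℝ → Euc N} {x : E} {t : ℝ}
    (h : ContDiffAt ℝ 3 F ((x, 0), t)) (ζ : V) :
    HasDerivAt (lA F x ζ) (lA' F x ζ t) t := hasDerivAt_DF h _

lemma sym_F {F : (E × V) × ℝ → Euc N} {p : (E × V) × ℝ} (h : ContDiffAt ℝ 3 F p)
    (u v : (E × V) × ℝ) : fderiv ℝ (fderiv ℝ F) p u v = fderiv ℝ (fderiv ℝ F) p v u :=
  (h.isSymmSndFDerivAt (n := 3) (by
    rw [minSmoothness_of_isRCLikeNormedField]; norm_num)).eq u v

lemma contAt_D2 {F : (E × V) × ℝ → Euc N} {x : E} {ζ : V} {t : ℝ}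
    (h : ContDiffAt ℝ 3 F ((x, ζ), t)) (u v : (E × V) × ℝ) :
    ContinuousAt (fun t => fderiv ℝ (fderiv ℝ F) ((x, ζ), t) u v) t := by
  have h2 : ContinuousAt (fderiv ℝ (fderiv ℝ F)) ((x, ζ), t) :=
    ((h.fderiv_right (m := 2) (by norm_num)).fderiv_right (m := 1) (by norm_num)).continuousAt
  have h3 : ContinuousAt (fun t => fderiv ℝ (fderiv ℝ F) ((x, ζ), t)) t :=
    ContinuousAt.comp (g := fderiv ℝ (fderiv ℝ F)) (f := fun t : ℝ => ((x, ζ), t)) h2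
      (by fun_prop)
  exact (h3.clm_apply continuousAt_const).clm_apply continuousAt_const

section bound
variable {K : Set E} {F : (E × V) × ℝ → Euc N} {T : ℝ}

lemma exists_bound (hK : IsCompact K)
    (hF : ∀ x ∈ K, ∀ t ∈ Icc (0:ℝ) T, ContDiffAt ℝ 3 F ((x, 0), t)) :
    ∃ M : ℝ, 0 ≤ M ∧ ∀ x ∈ K, ∀ t ∈ Icc (0:ℝ) T,
      ‖fderiv ℝ (fderiv ℝ F) ((x, 0), t)‖ ≤ M := by
  have h1 : ContinuousOn (fun p : E × ℝ => fderiv ℝ (fderiv ℝ F) ((p.1, 0), p.2))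
      (K ×ˢ Icc 0 T) := by
    rintro ⟨x, t⟩ ⟨hx, ht⟩
    have h := hF x hx t ht
    have h2 : ContinuousAt (fderiv ℝ (fderiv ℝ F)) ((x, 0), t) :=
      ((h.fderiv_right (m := 2) (by norm_num)).fderiv_right (m := 1) (by norm_num)).continuousAt
    have h3 : ContinuousAt (fun p : E × ℝ => (((p.1, 0), p.2) : (E × V) × ℝ)) (x, t) := by
      fun_prop
    exact (ContinuousAt.comp (g := fderiv ℝ (fderiv ℝ F)) (f := fun p : E × ℝ => ((p.1, 0), p.2))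
      h2 h3).continuousWithinAt
  obtain ⟨M, hM⟩ := (hK.prod isCompact_Icc).exists_bound_of_continuousOn
    (f := fun p : E × ℝ => ‖fderiv ℝ (fderiv ℝ F) ((p.1, 0), p.2)‖)
    (ContinuousOn.norm (E := (E × V) × ℝ →L[ℝ] (E × V) × ℝ →L[ℝ] Euc N) h1)
  refine ⟨max M 0, le_max_right _ _, fun x hx t ht => ?_⟩
  exact (Real.le_norm_self _).trans ((hM (x, t) ⟨hx, ht⟩).trans (le_max_left _ _))

end bound

lemma abs_sq_sub_le {a b : Euc N} {η M : ℝ} (h : ‖a - b‖ ≤ η) (hb : ‖b‖ ≤ M) :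
    |‖a‖ ^ 2 - ‖b‖ ^ 2| ≤ η * (2 * M + η) := by
  have h0 : 0 ≤ η := (norm_nonneg _).trans h
  have h1 : |‖a‖ - ‖b‖| ≤ η := (abs_norm_sub_norm_le a b).trans h
  have h2 : ‖a‖ ≤ M + η := by
    have := abs_le.1 h1
    linarith [this.2]
  have h3 : ‖a‖ ^ 2 - ‖b‖ ^ 2 = (‖a‖ - ‖b‖) * (‖a‖ + ‖b‖) := by ring
  rw [h3, abs_mul, abs_of_nonneg (add_nonneg (norm_nonneg a) (norm_nonneg b))]
  have h4 : ‖a‖ + ‖b‖ ≤ 2 * M + η := by linarith
  have h5 : 0 ≤ ‖a‖ + ‖b‖ := by positivity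
  calc |‖a‖ - ‖b‖| * (‖a‖ + ‖b‖) ≤ η * (2 * M + η) := by gcongr

/-- **second variation of the energy for arbitrary smooth families**, uniform in parameters -/
theorem energy_near {K : Set E} {P : E → V →L[ℝ] V} {T : ℝ} {g : E → Euc N × Euc N}
    {F : (E × V) × ℝ → Euc N} {r : ℝ} (hK : IsCompact K) (hT : 0 ≤ T)
    (hg : ∀ x ∈ K, g x ∈ TS G) (h : LFam G K P T g F r) {η : ℝ} (hη : 0 < η) :
    ∃ r' > 0, r' ≤ r ∧ ∀ x ∈ K, ∀ ζ : V, P x ζ = ζ → ‖ζ‖ < r' →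
      |EnT T (fun t => F ((x, ζ), t)) - (1 / 2) * (∫ t in (0:ℝ)..T, ‖(fl G (g x, t)).2‖ ^ 2) -
        (1 / 2) * ix G (g x) 0 T (lA F x ζ) (lA' F x ζ) (lA F x ζ) (lA' F x ζ)| ≤
        η * ‖ζ‖ ^ 2 := by
  have hF0 : ∀ x ∈ K, ∀ t ∈ Icc (0:ℝ) T, ContDiffAt ℝ 3 F ((x, 0), t) := fun x hx t _ =>
    (h.smooth x hx 0 (map_zero _) (by simpa using h.rpos) t).of_le three_le
  obtain ⟨M, hM0, hM⟩ := exists_bound hK hF0
  -- choice of the small constant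
  obtain ⟨η1, hη1, hη1'⟩ : ∃ η1 > 0, T * (M * η1 + (1 / 2) * (η1 * (2 * M + η1))) ≤ η := by
    have hc : ContinuousAt (fun y : ℝ => T * (M * y + (1 / 2) * (y * (2 * M + y)))) 0 := by
      fun_prop
    have h1 : ∀ᶠ y : ℝ in 𝓝 0, T * (M * y + (1 / 2) * (y * (2 * M + y))) < η := by
      refine hc.eventually_lt continuousAt_const ?_
      simpa using hη
    obtain ⟨ε, hε, hε'⟩ := Metric.eventually_nhds_iff.1 h1
    refine ⟨ε / 2, by positivity, (hε' ?_).le⟩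
    rw [Real.dist_eq, sub_zero, abs_of_pos (by positivity)]
    linarith
  obtain ⟨r1, hr1, hr1'⟩ := unif hK hF0 hη1
  refine ⟨min r1 r, lt_min hr1 h.rpos, min_le_right _ _, fun x hx ζ hζP hζ => ?_⟩
  have hζ1 : ‖ζ‖ < r1 := hζ.trans_le (min_le_left _ _)
  have hζr : ‖ζ‖ < r := hζ.trans_le (min_le_right _ _)
  have hq := hg x hx
  -- the curves
  set c : ℝ → Euc N := fun t => F ((x, ζ), t) with hc
  set c' : ℝ → Euc N := fun t => fderiv ℝ F ((x, ζ), t) (0, 1) with hc'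
  set γ : ℝ → Euc N := fun t => (fl G (g x, t)).1 with hγ
  set γ' : ℝ → Euc N := fun t => (fl G (g x, t)).2 with hγ'
  set γ'' : ℝ → Euc N := fun t => (X G (fl G (g x, t))).2 with hγ''
  set A := lA F x ζ with hA
  set A' := lA' F x ζ with hA'
  have hcD : ∀ t, HasDerivAt c (c' t) t := fun t =>
    hasDerivAt_F ((h.smooth x hx ζ hζP hζr t).of_le three_le)
  have hγD : ∀ t, HasDerivAt γ (γ' t) t := fun t =>
    hda_fst (hasDerivAt_fl G (complete G hq t))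
  have hγ'D : ∀ t, HasDerivAt γ' (γ'' t) t := fun t =>
    hda_snd (hasDerivAt_fl G (complete G hq t))
  have hsm0 : ∀ t, ContDiffAt ℝ 3 F ((x, 0), t) := fun t =>
    (h.smooth x hx 0 (map_zero _) (by simpa using h.rpos) t).of_le three_le
  have hF0γ : (fun t => F ((x, 0), t)) = γ := funext fun t => h.zero x hx t
  have hγ'F : ∀ t, fderiv ℝ F ((x, 0), t) (0, 1) = γ' t := fun t => by
    have h1 := hasDerivAt_F (hsm0 t)
    rw [hF0γ] at h1
    exact h1.unique (hγD t)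
  have hγ''F : ∀ t, fderiv ℝ (fderiv ℝ F) ((x, 0), t) (0, 1) (0, 1) = γ'' t := fun t => by
    have h1 := hasDerivAt_DF (hsm0 t) ((0 : E × V), (1 : ℝ))
    have h2 : (fun t => fderiv ℝ F ((x, 0), t) ((0 : E × V), (1 : ℝ))) = γ' := funext hγ'F
    rw [h2] at h1
    exact h1.unique (hγ'D t)
  have hAD : ∀ t, HasDerivAt A (A' t) t := fun t => hasDerivAt_lA (hsm0 t) ζ
  -- continuity
  have hcc : Continuous c := continuous_iff_continuousAt.2 fun t => (hcD t).continuousAt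
  have hcc' : Continuous c' := continuous_iff_continuousAt.2 fun t =>
    (hasDerivAt_DF ((h.smooth x hx ζ hζP hζr t).of_le three_le) _).continuousAt
  have hcγ : Continuous γ := continuous_iff_continuousAt.2 fun t => (hγD t).continuousAt
  have hcγ' : Continuous γ' := continuous_iff_continuousAt.2 fun t => (hγ'D t).continuousAt
  have hcγ'' : Continuous γ'' := continuous_snd.comp
    ((contDiff_X G).continuous.comp (SV.continuous_fl hq))
  have hcA : Continuous A := continuous_iff_continuousAt.2 fun t => (hAD t).continuousAt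
  have hcA' : Continuous A' := continuous_iff_continuousAt.2 fun t => contAt_D2 (hsm0 t) _ _
  have hcix : Continuous (ixd G (g x) A A' A A') := by
    rw [← continuousOn_univ]
    exact SV.contOn_ixd hq hcA.continuousOn hcA'.continuousOn hcA.continuousOn hcA'.continuousOn
  -- periodicity
  have hcT : c T = c 0 := by simpa using h.per x hx ζ hζP hζr 0
  have hγper : ∀ t, γ (t + T) = γ t := fun t => by
    rw [← hF0γ]
    exact h.per x hx 0 (map_zero _) (by simpa using h.rpos) t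
  have hγT : γ T = γ 0 := by simpa using hγper 0
  have hγ'T : γ' T = γ' 0 := by
    have h1 : HasDerivAt (fun t => γ (t + T)) (γ' (0 + T)) 0 := (hγD (0 + T)).comp_add_const 0 T
    have h2 : (fun t => γ (t + T)) = γ := funext hγper
    rw [h2, zero_add] at h1
    exact h1.unique (hγD 0)
  -- the first variation
  have hD : ∀ t ∈ uIcc 0 T, HasDerivAt (fun t => ⟪γ' t, c t - γ t⟫)
      (⟪γ' t, c' t - γ' t⟫ + ⟪γ'' t, c t - γ t⟫) t := fun t _ =>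
    (hγ'D t).inner ℝ ((hcD t).sub (hγD t))
  have hDc : Continuous (fun t => ⟪γ' t, c' t - γ' t⟫ + ⟪γ'' t, c t - γ t⟫) := by fun_prop
  have hI : ∫ t in (0:ℝ)..T, (⟪γ' t, c' t - γ' t⟫ + ⟪γ'' t, c t - γ t⟫) = 0 := by
    rw [intervalIntegral.integral_eq_sub_of_hasDerivAt hD (hDc.intervalIntegrable _ _), hcT, hγT,
      hγ'T, sub_self]
  -- pointwise estimate
  set e : ℝ → ℝ := fun t => (1 / 2) * ‖c' t‖ ^ 2 - (1 / 2) * ‖γ' t‖ ^ 2 -
    (1 / 2) * ixd G (g x) A A' A A' t with he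
  have hec : Continuous e := by fun_prop
  have hpt : ∀ t ∈ Icc (0:ℝ) T,
      |e t - (⟪γ' t, c' t - γ' t⟫ + ⟪γ'' t, c t - γ t⟫)| ≤
        (M * η1 + (1 / 2) * (η1 * (2 * M + η1))) * ‖ζ‖ ^ 2 := by
    intro t ht
    have hr2 := ray_two (fun ζ' hζ' => hr1' x hx ζ' hζ' t ht) hζ1
    have hr1'' := ray_one (fun ζ' hζ' => hr1' x hx ζ' hζ' t ht) hζ1
    set B := fderiv ℝ (fderiv ℝ F) ((x, 0), t) ((0, ζ), 0) ((0, ζ), 0) with hB
    have hsym : fderiv ℝ (fderiv ℝ F) ((x, 0), t) ((0, ζ), 0) (0, 1) = A' t :=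
      sym_F (hsm0 t) _ _
    rw [hsym, hγ'F t] at hr1''
    have hz : F ((x, 0), t) = γ t := h.zero x hx t
    rw [hz] at hr2
    -- the curve `s ↦ F ((x, s ζ), t)`
    have hSβ : ∀ᶠ s in 𝓝 (0:ℝ), F ((x, s • ζ), t) ∈ S := by
      have h1 : ∀ᶠ s : ℝ in 𝓝 0, ‖s • ζ‖ < r := by
        have : ContinuousAt (fun s : ℝ => ‖s • ζ‖) 0 := by fun_prop
        refine this.eventually_lt continuousAt_const ?_
        simpa using h.rpos
      filter_upwards [h1] with s hs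
      exact h.mem x hx (s • ζ) (by rw [map_smul, hζP]) hs t
    have hβ3 : ∀ᶠ s in 𝓝 (0:ℝ), ContDiffAt ℝ 3 F ((x, s • ζ), t) := by
      have h1 : ContinuousAt (fun s : ℝ => (((x, s • ζ), t) : (E × V) × ℝ)) 0 := by fun_prop
      have h2 : ContDiffAt ℝ 3 F ((x, (0:ℝ) • ζ), t) := by rw [zero_smul]; exact hsm0 t
      exact h1.eventually (h2.eventually (by simp))
    have hβ1 : ∀ᶠ s in 𝓝 (0:ℝ), HasDerivAt (fun s : ℝ => F ((x, s • ζ), t))
        (fderiv ℝ F ((x, s • ζ), t) ((0, ζ), 0)) s := by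
      filter_upwards [hβ3] with s hs
      exact (hs.differentiableAt (by simp)).hasFDerivAt.comp_hasDerivAt s (hasDerivAt_ray s)
    have hβ2 : HasDerivAt (fun s : ℝ => fderiv ℝ F ((x, s • ζ), t) ((0, ζ), 0)) B 0 := by
      have h0 : ContDiffAt ℝ 3 F ((x, (0:ℝ) • ζ), t) := by rw [zero_smul]; exact hsm0 t
      have h3 := ((h0.fderiv_right (m := 2) (by norm_num)).differentiableAt
        (by simp)).hasFDerivAt
      have h4 := h3.comp_hasDerivAt (0:ℝ) (hasDerivAt_ray (t := t) (x := x) (ζ := ζ) 0)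
      have h5 := h4.clm_apply (hasDerivAt_const (0:ℝ) (((0 : E), ζ), (0 : ℝ)))
      simpa using h5
    obtain ⟨hAT, hBn⟩ := curve_normal (G := G) hSβ hβ1 hβ2
    simp only [zero_smul] at hAT hBn
    rw [hz] at hAT hBn
    have hAt : fderiv ℝ F ((x, 0), t) ((0, ζ), 0) = A t := rfl
    rw [hAt] at hAT hBn hr2
    have hqt := fl_mem G hq t
    have hγS : γ t ∈ S := hqt.1
    have hγ'T' : γ' t ∈ G.T (γ t) := hqt.2
    have i1 : ⟪γ'' t, A t⟫ = 0 := inner_II G hγS hγ'T' hγ'T' hAT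
    have i2 : ⟪γ'' t, B⟫ = ⟪γ'' t, II G (γ t) (A t) (A t)⟫ := by
      rw [hBn, inner_add_right]
      have : ⟪γ'' t, G.P (γ t) B⟫ = 0 := inner_II G hγS hγ'T' hγ'T' (P_mem G hγS)
      rw [this, zero_add]
    have hid : e t - (⟪γ' t, c' t - γ' t⟫ + ⟪γ'' t, c t - γ t⟫) =
        (1 / 2) * (‖c' t - γ' t‖ ^ 2 - ‖A' t‖ ^ 2) -
        ⟪γ'' t, c t - γ t - A t - (1 / 2 : ℝ) • B⟫ := by
      have j1 : ‖c' t‖ ^ 2 = ‖γ' t‖ ^ 2 + 2 * ⟪γ' t, c' t - γ' t⟫ + ‖c' t - γ' t‖ ^ 2 := by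
        have : c' t = γ' t + (c' t - γ' t) := by abel
        conv_lhs => rw [this]
        rw [norm_add_sq_real]
      have j2 : ixd G (g x) A A' A A' t = ‖A' t‖ ^ 2 - ⟪γ'' t, II G (γ t) (A t) (A t)⟫ := by
        unfold SV.ixd
        rw [real_inner_self_eq_norm_sq]
      have j3 : ⟪γ'' t, c t - γ t - A t - (1 / 2 : ℝ) • B⟫ =
          ⟪γ'' t, c t - γ t⟫ - (1 / 2) * ⟪γ'' t, II G (γ t) (A t) (A t)⟫ := by
        rw [inner_sub_right, inner_sub_right, i1, inner_smul_right, i2]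
        ring
      simp only [he]
      rw [j1, j2, j3]
      ring
    rw [hid]
    have hMt := hM x hx t ht
    have k1 : ‖A' t‖ ≤ M * ‖ζ‖ := by
      have : ‖fderiv ℝ (fderiv ℝ F) ((x, 0), t) (0, 1) ((0, ζ), 0)‖ ≤
          ‖fderiv ℝ (fderiv ℝ F) ((x, 0), t)‖ * ‖((0 : E × V), (1 : ℝ))‖ *
            ‖(((0 : E), ζ), (0 : ℝ))‖ := ContinuousLinearMap.le_opNorm₂ _ _ _
      rw [norm_vec, norm_tvec, mul_one] at this
      calc ‖A' t‖ ≤ _ := this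
        _ ≤ M * ‖ζ‖ := by gcongr
    have k2 : ‖γ'' t‖ ≤ M := by
      rw [← hγ''F t]
      have : ‖fderiv ℝ (fderiv ℝ F) ((x, 0), t) (0, 1) (0, 1)‖ ≤
          ‖fderiv ℝ (fderiv ℝ F) ((x, 0), t)‖ * ‖((0 : E × V), (1 : ℝ))‖ *
            ‖((0 : E × V), (1 : ℝ))‖ := ContinuousLinearMap.le_opNorm₂ _ _ _
      rw [norm_tvec, mul_one, mul_one] at this
      exact this.trans hMt
    have k3 := abs_sq_sub_le (a := c' t - γ' t) (b := A' t) hr1'' k1
    have k4 : |⟪γ'' t, c t - γ t - A t - (1 / 2 : ℝ) • B⟫| ≤ M * (η1 * ‖ζ‖ ^ 2) := by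
      refine (abs_real_inner_le_norm _ _).trans ?_
      gcongr
    calc |(1 / 2) * (‖c' t - γ' t‖ ^ 2 - ‖A' t‖ ^ 2) -
        ⟪γ'' t, c t - γ t - A t - (1 / 2 : ℝ) • B⟫| ≤
        |(1 / 2) * (‖c' t - γ' t‖ ^ 2 - ‖A' t‖ ^ 2)| +
        |⟪γ'' t, c t - γ t - A t - (1 / 2 : ℝ) • B⟫| := abs_sub _ _
      _ ≤ (1 / 2) * (η1 * ‖ζ‖ * (2 * (M * ‖ζ‖) + η1 * ‖ζ‖)) + M * (η1 * ‖ζ‖ ^ 2) := by
        rw [abs_mul, abs_of_pos (by norm_num : (0:ℝ) < 1 / 2)]
        gcongr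
      _ = (M * η1 + (1 / 2) * (η1 * (2 * M + η1))) * ‖ζ‖ ^ 2 := by ring
  -- conclusion
  have hder : ∀ t, deriv (fun t => F ((x, ζ), t)) t = c' t := fun t => (hcD t).deriv
  have hfin : EnT T (fun t => F ((x, ζ), t)) -
      (1 / 2) * (∫ t in (0:ℝ)..T, ‖(fl G (g x, t)).2‖ ^ 2) -
        (1 / 2) * ix G (g x) 0 T A A' A A' =
      ∫ t in (0:ℝ)..T, (e t - (⟪γ' t, c' t - γ' t⟫ + ⟪γ'' t, c t - γ t⟫)) := by
    rw [intervalIntegral.integral_sub (hec.intervalIntegrable _ _)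
      (hDc.intervalIntegrable _ _), hI, sub_zero]
    have i1 : Continuous (fun t => (1 / 2) * ‖c' t‖ ^ 2) := by fun_prop
    have i2 : Continuous (fun t => (1 / 2) * ‖γ' t‖ ^ 2) := by fun_prop
    have i3 : Continuous (fun t => (1 / 2) * ixd G (g x) A A' A A' t) := by fun_prop
    have i4 : Continuous (fun t => (1 / 2) * ‖c' t‖ ^ 2 - (1 / 2) * ‖γ' t‖ ^ 2) := by fun_prop
    simp only [he]
    rw [intervalIntegral.integral_sub (i4.intervalIntegrable _ _)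
      (i3.intervalIntegrable _ _),
      intervalIntegral.integral_sub (i1.intervalIntegrable _ _) (i2.intervalIntegrable _ _),
      intervalIntegral.integral_const_mul, intervalIntegral.integral_const_mul,
      intervalIntegral.integral_const_mul]
    simp only [EnT, hder, SV.ix, hγ']
  rw [hfin]
  have hbd := intervalIntegral.norm_integral_le_of_norm_le_const (a := 0) (b := T)
    (f := fun t => e t - (⟪γ' t, c' t - γ' t⟫ + ⟪γ'' t, c t - γ t⟫))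
    (C := (M * η1 + (1 / 2) * (η1 * (2 * M + η1))) * ‖ζ‖ ^ 2) (fun t ht => by
      rw [uIoc_of_le hT] at ht
      rw [Real.norm_eq_abs]
      exact hpt t ⟨ht.1.le, ht.2⟩)
  rw [Real.norm_eq_abs, sub_zero, abs_of_nonneg hT] at hbd
  refine hbd.trans ?_
  calc (M * η1 + (1 / 2) * (η1 * (2 * M + η1))) * ‖ζ‖ ^ 2 * T =
      (T * (M * η1 + (1 / 2) * (η1 * (2 * M + η1)))) * ‖ζ‖ ^ 2 := by ring
    _ ≤ η * ‖ζ‖ ^ 2 := by gcongr

/-- **uniform Morse bound** -/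
theorem energy_le {K : Set E} {P : E → V →L[ℝ] V} {T : ℝ} {g : E → Euc N × Euc N}
    {F : (E × V) × ℝ → Euc N} {r δ : ℝ} (hK : IsCompact K) (hT : 0 ≤ T)
    (hg : ∀ x ∈ K, g x ∈ TS G) (h : LFam G K P T g F r) (hδ : 0 < δ)
    (hneg : ∀ x ∈ K, ∀ ζ : V, P x ζ = ζ →
      ix G (g x) 0 T (lA F x ζ) (lA' F x ζ) (lA F x ζ) (lA' F x ζ) ≤ -δ * ‖ζ‖ ^ 2) :
    ∃ r' > 0, r' ≤ r ∧ ∀ x ∈ K, ∀ ζ : V, P x ζ = ζ → ‖ζ‖ < r' →
      EnT T (fun t => F ((x, ζ), t)) ≤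
        (1 / 2) * (∫ t in (0:ℝ)..T, ‖(fl G (g x, t)).2‖ ^ 2) - (δ / 4) * ‖ζ‖ ^ 2 := by
  obtain ⟨r', hr', hrr', hb⟩ := energy_near hK hT hg h (η := δ / 4) (by positivity)
  refine ⟨r', hr', hrr', fun x hx ζ hζP hζ => ?_⟩
  have h1 := (abs_le.1 (hb x hx ζ hζP hζ)).2
  have h2 := hneg x hx ζ hζP
  linarith

end Crest.Agent.R208.AK
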