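import Crest.Agent.R208.FT6
import Crest.Agent.R208.EX9

/-!
R208, (8,2), block F2 (helper336), part FT7: the orbit loops of the level two family over the total
space over `US G`, as a smooth family of loops (`EX.LF`), and the slices of the family over `X'`.
-/

set_option autoImplicit false
set_option linter.unusedSectionVars false
set_option linter.unusedVariables false

open Set Filter Topology MeasureTheory
open scoped ContDiff RealInnerProductSpace Real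
open Crest.GeometryTopology.Submanifold
open Crest.Agent.R241.DDefs Crest.Agent.R241.D Crest.Agent.R241.D2

noncomputable section

namespace Crest.Agent.R208.FT

open Crest.Agent.R208.SV Crest.Agent.R208.MS Crest.Agent.R208.NN Crest.Agent.R208.FL
open Crest.Agent.R208.CM (Cir Rep phR gf)

variable {n N K k : ℕ} {κ : ℝ} {S : Set (Euc N)} {G : Geo n N κ S} {lg : Euc N → Euc N → Euc N}
  {ρ : Euc N → Euc N} {r C r' Kr B w δ : ℝ} {PN : Euc N × Euc N → Wt N K →L[ℝ] Wt N K}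
  {H₂ : Type} [NormedAddCommGroup H₂] [InnerProductSpace ℝ H₂] [FiniteDimensional ℝ H₂]
  {P₂ : Euc N × Euc N → H₂ →L[ℝ] H₂} {Rr : ℝ → H₂ →L[ℝ] H₂}
  {xi0 : Euc N × Euc N → H₂ →L[ℝ] Euc N} {δ₂ ε ε₂ E₀ η : ℝ} {J : ℕ}
  {E : Type} [NormedAddCommGroup E] [NormedSpace ℝ E] [FiniteDimensional ℝ E]
  {X : Set E} {φ : ℝ → E → E} {pi0 : E → Euc N × Euc N}

theorem contDiffAt_Ph2 (hR : ContDiff ℝ ∞ Rr) {p : ((Euc N × Euc N) × H₂) × Wt N K}
    (hz : p.1.1 ∈ L.US G) (t : ℝ) : ContDiffAt ℝ ∞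
      (fun q : (((Euc N × Euc N) × H₂) × Wt N K) × ℝ => Ph2 G K Rr q.2 q.1) (p, t) := by
  unfold Ph2
  have h1 : ContDiffAt ℝ ∞ (fun q : (((Euc N × Euc N) × H₂) × Wt N K) × ℝ =>
      fl G (q.1.1.1, 2 * q.2)) (p, t) := by
    have h2 : ContDiffAt ℝ ∞ (fun q : (((Euc N × Euc N) × H₂) × Wt N K) × ℝ =>
      ((q.1.1.1, 2 * q.2) : (Euc N × Euc N) × ℝ)) (p, t) := by fun_prop
    exact ContDiffAt.comp (g := fl G) (p, t) (contDiffAt_fl' G hz.1 (2 * t)) h2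
  have h3 : ContDiff ℝ ∞ (fun q : (((Euc N × Euc N) × H₂) × Wt N K) × ℝ =>
      Rr (2 * q.2) q.1.1.2) :=
    (hR.comp (by fun_prop)).clm_apply (by fun_prop)
  have h4 : ContDiff ℝ ∞ (fun q : (((Euc N × Euc N) × H₂) × Wt N K) × ℝ =>
      (Rt (nuP K) (2 * q.2) q.1.2 : Wt N K)) :=
    ((rep_Rt (N := N) (K := K)).smooth.comp (by fun_prop)).clm_apply (by fun_prop)
  exact (h1.prodMk h3.contDiffAt).prodMk h4.contDiffAt

theorem Ph2_per (hX : XI G P₂ Rr xi0 δ₂) (hfl : ∀ z ∈ L.US G, fl G (z, 2 * π) = z)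
    {p : ((Euc N × Euc N) × H₂) × Wt N K} (hz : p.1.1 ∈ L.US G) (t : ℝ) :
    Ph2 G K Rr (t + 2 * π) p = Ph2 G K Rr t p := by
  have e : 2 * (t + 2 * π) = 2 * t + 2 * π + 2 * π := by ring
  unfold Ph2
  refine Prod.ext (Prod.ext ?_ ?_) ?_
  · change fl G (p.1.1, 2 * (t + 2 * π)) = fl G (p.1.1, 2 * t)
    rw [e, AK.fl_add_two_pi hz.1 (hfl _ hz), AK.fl_add_two_pi hz.1 (hfl _ hz)]
  · change Rr (2 * (t + 2 * π)) p.1.2 = Rr (2 * t) p.1.2
    rw [show 2 * (t + 2 * π) = 2 * t + 2 * (2 * π) by ring, hX.add, hX.four]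
  · change (Rt (nuP K) (2 * (t + 2 * π)) p.2 : Wt N K) = Rt (nuP K) (2 * t) p.2
    rw [e, Rt_add, Rt_per, Rt_add, Rt_per]

namespace D2

variable (h : D2 G k K lg ρ r C r' Kr B w δ PN ε J E₀ η P₂ Rr xi0 δ₂ ε₂)

include h

/-- **the orbit loops of `f2` over the total space over `US G`** -/
theorem lf_f2 : EX.LF S (TP.TT (L.US G) P₂ PN)
    (fun p t => f2 G lg ρ w J xi0 ε ε₂ (Ph2 G K Rr t p)) where
  smooth p hp t := ContDiffAt.comp (g := f2 G lg ρ w J xi0 ε ε₂) (p, t)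
    (h.contDiffAt_f2 (h.Ph2_mem hp t)) (contDiffAt_Ph2 h.xi.smR hp.1.1 t)
  per p hp t := by
    rw [Ph2_per h.xi (fun z hz => NN.fl_two_pi h.bla hz) hp.1.1]
  mem p hp t := h.f2_mem (h.Ph2_mem hp t)

/-- slices of the family over `X` along a map `g₀` to `X` over a map to `US G`: the orbit loops -/
theorem orb_slice (hm : Eqm G X φ pi0) {p : (E × H₂) × Wt N K} (hp : p.1.1 ∈ X) (t : ℝ) :
    f2x G lg ρ w J xi0 ε ε₂ pi0 (P2x φ N K Rr t p) =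
      f2 G lg ρ w J xi0 ε ε₂ (Ph2 G K Rr t (Fg pi0 p)) := by
  unfold f2x
  rw [hm.Fg_P2x hp]

/-- the orbit loop near the zero section in geodesic time: 952's form
`ρ (γ + (ε₂ ξ + ε nf))` -/
theorem orb_small {p : ((Euc N × Euc N) × H₂) × Wt N K} (hp : p ∈ TP.TT (L.US G) P₂ PN)
    (h1 : ‖p.2‖ ^ 2 ≤ 1 / 4) (h2 : ‖p.1.2‖ ^ 2 ≤ 4) (t : ℝ) :
    f2 G lg ρ w J xi0 ε ε₂ (Ph2 G K Rr t p) =
      ρ ((fl G (p.1.1, 2 * t)).1 + (ε₂ • xf G Rr xi0 p.1.1 p.1.2 (2 * t) +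
        ε • NN.fd G p.1.1 (nuP K) p.2 (2 * t))) := by
  rw [h.orb_near hp (by linarith)]
  unfold bb
  rw [cu_one h1, th_one h2, mul_one, mul_one, add_comm (ε • _)]

/-- the level set data on the total space over `US G` -/
theorem exists_level_US : ∃ B₂ < 4 * π, ∀ p ∈ TP.TT (L.US G) P₂ PN, 0 < c2 p →
    En (fun t => f2 G lg ρ w J xi0 ε ε₂ (Ph2 G K Rr t p)) ≤ B₂ := by
  obtain ⟨δ', hδ', hE⟩ := h.exists_En_le
  refine ⟨4 * π - δ' / 4, by linarith, fun p hp hc => (hE p hp).trans ?_⟩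
  have h1 : 1 / 4 < ‖p.2‖ ^ 2 + ‖p.1.2‖ ^ 2 := by
    by_contra h2
    unfold c2 at hc
    rw [ct_zero (not_lt.1 h2)] at hc
    exact lt_irrefl _ hc
  have h2 : (1:ℝ) / 4 ≤ min 1 (‖p.2‖ ^ 2 + ‖p.1.2‖ ^ 2) := le_min (by norm_num) h1.le
  nlinarith

end D2

end Crest.Agent.R208.FT
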