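import Crest.Agent.R208.NG14

/-!
R208, block NG (helper131), part NG15: the natural operators below `4π`, the level `B'` is chosen
after `ε` (530's order of the constants).
-/

set_option autoImplicit false

open Set Filter Topology MeasureTheory
open scoped ContDiff RealInnerProductSpace Real
open Crest.GeometryTopology.Submanifold
open Crest.Agent.R241.DDefs Crest.Agent.R241.D Crest.Agent.R241.D2
open Crest.Agent.R208.NN (Wt nuP)

noncomputable section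

namespace Crest.Agent.R208.NG

variable {n N k K : ℕ} {κ : ℝ} {S : Set (Euc N)} {G : Geo n N κ S} {ρ : Euc N → Euc N}
  {δN : ℝ} {PN : Euc N × Euc N → Wt N K →L[ℝ] Wt N K}
  {lg : Euc N → Euc N → Euc N} {r Cs r' Kr B w : ℝ}

/-- **the natural operators below any `B' < 4π`** (`B'` is chosen after `ε`; `E₁` depends on
`B'`): for every level one family of the data with `E₁ ≤ E₀` -/
theorem exists_natOp' (h0 : FL.D0 G k K lg ρ r Cs r' Kr B w δN PN) (hB : π + 1 ≤ B) :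
    ∃ ε₁ > 0, ∀ ε, 0 < ε → ε ≤ ε₁ → ∀ B' < 4 * π, ∃ E₁ < π, ∀ (J : ℕ) (E₀ η : ℝ), E₁ ≤ E₀ →
      FL.D1 G k K lg ρ r Cs r' Kr B w δN PN ε J E₀ η →
        ∃ (HL : ℝ → (ℝ → Euc N) → Euc N) (mu : (ℝ → Euc N) → ℝ)
          (Gm : (ℝ → Euc N) → (Euc N × Euc N) × Wt N K),
          EX.NatOp S (FI.Tot (L.US G) PN) (FL.Ph G K) (FL.f1 G lg ρ w J ε)
            (fun y => 64 / 25 ≤ ‖y.2‖ ^ 2) B' HL mu Gm := by
  obtain ⟨gg, a, ηc, ε₁, hηc, hε₁, hN⟩ := exists_nearOp h0 hB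
  refine ⟨ε₁, hε₁, fun ε hε hε1 B' hB' => ?_⟩
  obtain ⟨δ, hδ, hd⟩ := EX.exists_delta (G := G) h0.bla.bl h0.bla.ty.per hB' hηc
  exact ⟨π - δ, by linarith, fun J E₀ η hE hD => hd _ _ _ _ _ _ _ _
    (hN ε hε hε1 J E₀ η hD δ hE)⟩

end Crest.Agent.R208.NG
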