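import Crest.Agent.R208.EX11
import Crest.Agent.R208.FT7
import Crest.Agent.R208.NG15

/-!
R208, (8,2), block ED (helper530), part EX12: **the order of the constants**. The gap of the level
two family is made independent of the contraction constants `E₀, η, J` (`D2.gap`), so that the level
`B'` of the natural primitive can be chosen before them; `exists_setup` gives the whole package.
-/

set_option autoImplicit false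
set_option linter.unusedSectionVars false
set_option linter.unusedVariables false

open Set Filter Topology MeasureTheory
open scoped ContDiff RealInnerProductSpace Real
open Crest.GeometryTopology.Submanifold
open Crest.Agent.R241.DDefs Crest.Agent.R241.D Crest.Agent.R241.D2

noncomputable section

namespace Crest.Agent.R208.FT

open Crest.Agent.R208.SV Crest.Agent.R208.MS Crest.Agent.R208.NN Crest.Agent.R208.FL
open Crest.Agent.R208.CM (Cir Rep phR gf)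

variable {n N K k : ℕ} {κ : ℝ} {S : Set (Euc N)} {G : Geo n N κ S} {lg : Euc N → Euc N → Euc N}
  {ρ : Euc N → Euc N} {r C r' Kr B w δ : ℝ} {PN : Euc N × Euc N → Wt N K →L[ℝ] Wt N K}
  {H₂ : Type} [NormedAddCommGroup H₂] [InnerProductSpace ℝ H₂] [FiniteDimensional ℝ H₂]
  {P₂ : Euc N × Euc N → H₂ →L[ℝ] H₂} {Rr : ℝ → H₂ →L[ℝ] H₂}
  {xi0 : Euc N × Euc N → H₂ →L[ℝ] Euc N} {δ₂ : ℝ} {ε ε₂ E₀ η : ℝ} {J : ℕ}
  {E : Type} [NormedAddCommGroup E] [NormedSpace ℝ E] [FiniteDimensional ℝ E]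
  {X : Set E} {φ : ℝ → E → E} {pi0 : E → Euc N × Euc N}

/-- the explicit gap: it does not depend on `E₀, η, J` -/
def gp (δ δ₂ ε ε₂ : ℝ) : ℝ := min (min δ δ₂ * ε ^ 2 / 4) (min δ δ₂ * ε₂ ^ 2)

theorem gp_pos (hδ : 0 < δ) (hδ₂ : 0 < δ₂) (hε : 0 < ε) (hε₂ : 0 < ε₂) : 0 < gp δ δ₂ ε ε₂ := by
  have h : 0 < min δ δ₂ := lt_min hδ hδ₂
  exact lt_min (by positivity) (by positivity)

/-- the explicit level -/
def lev (δ δ₂ ε ε₂ : ℝ) : ℝ := 4 * π - gp δ δ₂ ε ε₂ / 4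

theorem lev_lt (hδ : 0 < δ) (hδ₂ : 0 < δ₂) (hε : 0 < ε) (hε₂ : 0 < ε₂) :
    lev δ δ₂ ε ε₂ < 4 * π := by
  have := gp_pos hδ hδ₂ hε hε₂
  unfold lev; linarith

namespace D2

variable (h : D2 G k K lg ρ r C r' Kr B w δ PN ε J E₀ η P₂ Rr xi0 δ₂ ε₂)

include h

theorem gp_pos : 0 < gp δ δ₂ ε ε₂ := FT.gp_pos h.neg.pos_δ h.xi.pos h.eps_pos h.e2_pos

theorem lev_lt : lev δ δ₂ ε ε₂ < 4 * π := FT.lev_lt h.neg.pos_δ h.xi.pos h.eps_pos h.e2_pos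

/-- **energies of the level two family, gap independent of `E₀, η, J`** -/
theorem en_unif (hη : 2 * η ≤ π - (δ / 4) * ε ^ 2) {p : ((Euc N × Euc N) × H₂) × Wt N K}
    (hp : p ∈ TP.TT (L.US G) P₂ PN) : En (fun t => f2 G lg ρ w J xi0 ε ε₂ (Ph2 G K Rr t p)) ≤
      4 * π - gp δ δ₂ ε ε₂ * min 1 (‖p.2‖ ^ 2 + ‖p.1.2‖ ^ 2) := by
  have hδ := h.neg.pos_δ
  have hδ₂ := h.xi.pos
  have he := h.eps_pos
  have he2 := h.e2_pos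
  have hd0 := h.gp_pos
  set μ : ℝ := min δ δ₂ with hμ
  have hμ0 : 0 < μ := lt_min hδ hδ₂
  set δ' : ℝ := gp δ δ₂ ε ε₂ with hδ'
  have hd1 : δ' ≤ μ * ε ^ 2 / 4 := min_le_left _ _
  have hd2 : δ' ≤ μ * ε₂ ^ 2 := min_le_right _ _
  have hd3 : δ' ≤ δ * ε ^ 2 := by
    have h1 : μ * ε ^ 2 ≤ δ * ε ^ 2 := by
      have : μ ≤ δ := min_le_left _ _
      gcongr
    have h2 : 0 ≤ μ * ε ^ 2 := by positivity
    linarith
  have hm1 : min 1 (‖p.2‖ ^ 2 + ‖p.1.2‖ ^ 2) ≤ 1 := min_le_left _ _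
  have hm2 : min 1 (‖p.2‖ ^ 2 + ‖p.1.2‖ ^ 2) ≤ ‖p.2‖ ^ 2 + ‖p.1.2‖ ^ 2 := min_le_right _ _
  have hm0 : 0 ≤ min 1 (‖p.2‖ ^ 2 + ‖p.1.2‖ ^ 2) := le_min zero_le_one (by positivity)
  have hb0 : 0 ≤ bb ε₂ p ^ 2 * ‖p.1.2‖ ^ 2 := by positivity
  rcases le_or_gt (‖p.2‖ ^ 2) (1 / 4) with h1 | h1
  · refine (h.En_near hp (by linarith)).trans ?_
    have h3 := le_th_sq (q := ‖p.1.2‖ ^ 2) (by positivity)
    have h4 : bb ε₂ p ^ 2 * ‖p.1.2‖ ^ 2 = ε₂ ^ 2 * (th (‖p.1.2‖ ^ 2) ^ 2 * ‖p.1.2‖ ^ 2) := by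
      unfold bb; rw [cu_one h1]; ring
    rw [h4]
    have h5 : μ * (ε₂ ^ 2 * min 1 (‖p.1.2‖ ^ 2)) ≤
        μ * (ε₂ ^ 2 * (th (‖p.1.2‖ ^ 2) ^ 2 * ‖p.1.2‖ ^ 2)) := by gcongr
    have h6 : min 1 (‖p.2‖ ^ 2 + ‖p.1.2‖ ^ 2) ≤ ‖p.2‖ ^ 2 + min 1 (‖p.1.2‖ ^ 2) := by
      rcases le_total 1 (‖p.1.2‖ ^ 2) with h7 | h7
      · rw [min_eq_left h7]; exact hm1.trans (by nlinarith [sq_nonneg ‖p.2‖])
      · rw [min_eq_right h7]; exact hm2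
    have h7 : 0 ≤ min 1 (‖p.1.2‖ ^ 2) := le_min zero_le_one (by positivity)
    have h8 : δ' * min 1 (‖p.2‖ ^ 2 + ‖p.1.2‖ ^ 2) ≤
        δ' * ‖p.2‖ ^ 2 + δ' * min 1 (‖p.1.2‖ ^ 2) := by
      rw [← mul_add]; gcongr
    have h9 : δ' * ‖p.2‖ ^ 2 ≤ μ * (ε ^ 2 * ‖p.2‖ ^ 2) := by
      have h10 : δ' ≤ μ * ε ^ 2 := by
        have : 0 ≤ μ * ε ^ 2 := by positivity
        linarith
      calc δ' * ‖p.2‖ ^ 2 ≤ μ * ε ^ 2 * ‖p.2‖ ^ 2 := by gcongr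
        _ = _ := by ring
    have h10 : δ' * min 1 (‖p.1.2‖ ^ 2) ≤ μ * (ε₂ ^ 2 * min 1 (‖p.1.2‖ ^ 2)) := by
      calc δ' * min 1 (‖p.1.2‖ ^ 2) ≤ μ * ε₂ ^ 2 * min 1 (‖p.1.2‖ ^ 2) := by gcongr
        _ = _ := by ring
    linarith
  · have hlow : δ' * min 1 (‖p.2‖ ^ 2 + ‖p.1.2‖ ^ 2) ≤ δ' := by nlinarith
    rcases le_or_gt (‖p.2‖ ^ 2) 1 with h2 | h2
    · refine (h.En_near hp h2).trans ?_
      have h3 : μ * ε ^ 2 / 4 ≤ μ * (ε ^ 2 * ‖p.2‖ ^ 2) := by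
        have : μ * ε ^ 2 * (1 / 4) ≤ μ * ε ^ 2 * ‖p.2‖ ^ 2 := by gcongr
        linarith
      have h4 : 0 ≤ μ * (bb ε₂ p ^ 2 * ‖p.1.2‖ ^ 2) := by positivity
      rw [mul_add]
      linarith
    · rw [h.En_far hp (by linarith)]
      have h3 := (h.toD1.En_f1_le (mem_Tot hp)).1
      have h4 : min 1 (‖((p.1.1, p.2) : (Euc N × Euc N) × Wt N K).2‖ ^ 2) = 1 :=
        min_eq_left h2.le
      rw [h4, mul_one, max_eq_left hη] at h3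
      linarith

/-- **the level**: `lev δ δ₂ ε ε₂ < 4π` bounds all orbit energies where `c2 > 0` -/
theorem level_unif (hη : 2 * η ≤ π - (δ / 4) * ε ^ 2) (hm : Eqm G X φ pi0)
    {p : (E × H₂) × Wt N K} (hp : p ∈ TX X pi0 P₂ PN) (hc : 0 < c2 p) :
    En (oc (P2x φ N K Rr) (f2x G lg ρ w J xi0 ε ε₂ pi0) p) ≤ lev δ δ₂ ε ε₂ := by
  rw [h.oc_f2x hm hp]
  refine (h.en_unif hη (hm.Fg_mem hp)).trans ?_
  have h1 : 1 / 4 < ‖p.2‖ ^ 2 + ‖p.1.2‖ ^ 2 := by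
    by_contra h2
    unfold c2 at hc
    rw [ct_zero (not_lt.1 h2)] at hc
    exact lt_irrefl _ hc
  have h2 : (1:ℝ) / 4 ≤ min 1 (‖(Fg pi0 p).2‖ ^ 2 + ‖(Fg pi0 p).1.2‖ ^ 2) :=
    le_min (by norm_num) h1.le
  have h3 := h.gp_pos
  unfold lev
  nlinarith

/-- the same over `US G` itself -/
theorem level_unif_US (hη : 2 * η ≤ π - (δ / 4) * ε ^ 2) {p : ((Euc N × Euc N) × H₂) × Wt N K}
    (hp : p ∈ TP.TT (L.US G) P₂ PN) (hc : 0 < c2 p) :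
    En (fun t => f2 G lg ρ w J xi0 ε ε₂ (Ph2 G K Rr t p)) ≤ lev δ δ₂ ε ε₂ := by
  refine (h.en_unif hη hp).trans ?_
  have h1 : 1 / 4 < ‖p.2‖ ^ 2 + ‖p.1.2‖ ^ 2 := by
    by_contra h2
    unfold c2 at hc
    rw [ct_zero (not_lt.1 h2)] at hc
    exact lt_irrefl _ hc
  have h2 : (1:ℝ) / 4 ≤ min 1 (‖p.2‖ ^ 2 + ‖p.1.2‖ ^ 2) :=
    le_min (by norm_num) h1.le
  have h3 := h.gp_pos
  unfold lev
  nlinarith

end D2

/-- **THE SETUP**: all the data of (8,2), in the right order of constants. `B'` is any level below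
`4π`, chosen after `ε` and `ε₂` (for example above `lev δ δ₂ ε ε₂`). -/
theorem exists_setup (h : GT.Bla G k) :
    ∃ (lg : Euc N → Euc N → Euc N) (ρ : Euc N → Euc N) (r C r' Kr B : ℝ) (K : ℕ) (δ : ℝ)
      (PN : Euc N × Euc N → Wt N K →L[ℝ] Wt N K) (δ₂ w : ℝ),
      D0 G k K lg ρ r C r' Kr B w δ PN ∧ π + 1 ≤ B ∧
      XI G (DD.NN PN) (RN N K) (xiN h PN) δ₂ ∧
      ∃ ε₀ > 0, ∀ ε, 0 < ε → ε ≤ ε₀ → ∀ ε₂, 0 < ε₂ → 3 * ε₂ ≤ ε₀ → ∀ B' < 4 * π,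
        ∃ (E₀ η : ℝ) (J : ℕ),
          D2 G k K lg ρ r C r' Kr B w δ PN ε J E₀ η (DD.NN PN) (RN N K) (xiN h PN) δ₂ ε₂ ∧
          2 * η ≤ π - (δ / 4) * ε ^ 2 ∧
          ∃ (HL : ℝ → (ℝ → Euc N) → Euc N) (mu : (ℝ → Euc N) → ℝ)
            (Gm : (ℝ → Euc N) → (Euc N × Euc N) × Wt N K),
            EX.NatOp S (FI.Tot (L.US G) PN) (Ph G K) (f1 G lg ρ w J ε)
              (fun y => 64 / 25 ≤ ‖y.2‖ ^ 2) B' HL mu Gm := by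
  have hpi := Real.pi_gt_three
  obtain ⟨lg, ρ, r, C, r', Kr, K, δ, PN, w₀, hw₀, hD⟩ :=
    exists_D0 h (B := π + 1) (by linarith) (by linarith)
  have h0 := hD w₀ hw₀ le_rfl
  obtain ⟨δ₂, hX⟩ := exists_XI h h0.neg
  have hδ := h0.neg.pos_δ
  obtain ⟨a, ha, hA⟩ := exists_D2 h0 hX
  obtain ⟨b, hb, hNO⟩ := NG.exists_natOp' h0 le_rfl
  refine ⟨lg, ρ, r, C, r', Kr, π + 1, K, δ, PN, δ₂, w₀, h0, le_rfl, hX,
    min (min a b) (min 1 (1 / δ)), by positivity, fun ε hε hε' ε₂ hε₂ hε₂' B' hB' => ?_⟩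
  have e1 : ε ≤ a := hε'.trans ((min_le_left _ _).trans (min_le_left _ _))
  have e2 : ε ≤ b := hε'.trans ((min_le_left _ _).trans (min_le_right _ _))
  have e3 : ε ≤ 1 := hε'.trans ((min_le_right _ _).trans (min_le_left _ _))
  have e4 : ε ≤ 1 / δ := hε'.trans ((min_le_right _ _).trans (min_le_right _ _))
  have e5 : 3 * ε₂ ≤ a := hε₂'.trans ((min_le_left _ _).trans (min_le_left _ _))
  have e6 : δ * ε ^ 2 ≤ 1 := by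
    have h1 : δ * ε ≤ 1 := by
      rw [le_div_iff₀ hδ] at e4; linarith
    calc δ * ε ^ 2 = δ * ε * ε := by ring
      _ ≤ 1 * 1 := by gcongr
      _ = 1 := by ring
  obtain ⟨E₁, hE₁, hN⟩ := hNO ε hε e2 B' hB'
  obtain ⟨E₀, η, h1, h2, J₀, h3⟩ := hA ε hε e1 ε₂ hε₂ e5 E₁ hE₁ 1 one_pos
  have h4 := h3 J₀ le_rfl
  refine ⟨E₀, η, J₀, h4, by linarith, hN J₀ E₀ η h1 h4.toD1⟩

end Crest.Agent.R208.FT
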