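import Crest.Agent.R208.FU4
import Crest.Agent.R208.AK13
import Crest.Agent.R208.EX12

/-!
R208, (8,2), (A2) (helper336), part FU5: `FU.main` for the level two family `f2`, the cut off `c2`
and helper952's junction family (`AK.exists_fam`). All level constants are below `4π` and are chosen
before `J, E₀, η`.
-/

set_option autoImplicit false
set_option linter.unusedSectionVars false
set_option linter.unusedVariables false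
set_option maxHeartbeats 1600000

open MeasureTheory Set Filter Topology Module
open scoped ContDiff RealInnerProductSpace Real
open Crest.GeometryTopology.Submanifold
open Crest.Agent.R241.DDefs Crest.Agent.R241.D Crest.Agent.R241.D2
open Crest.Agent.R208.F Crest.Agent.R208.FI Crest.Agent.R208.CW Crest.Agent.R208.T
open Crest.Agent.R208.CM (Triv Qd)
open Crest.Agent.R208.EX
open Crest.Agent.R208.MS (En)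
open Crest.Agent.R208.NN (Wt nuP)
open Crest.Agent.R208.TP (TT CV pu₁ pu₂)
open Crest.Agent.R208.TU (bT bN FK Psi LinK Cut Pair smap_bT)

noncomputable section

namespace Crest.Agent.R208.FU

variable {n N K k d r₁ r₂ : ℕ} {κ : ℝ} {S : Set (Euc N)} {G : Geo n N κ S}
  {lg : Euc N → Euc N → Euc N} {ρ : Euc N → Euc N} {rr C r' Kr B w δ : ℝ}
  {PN : Euc N × Euc N → Wt N K →L[ℝ] Wt N K} {δ₂ ε ε₂ E₀ η : ℝ} {J : ℕ}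

section gen
variable {H₂ : Type} [NormedAddCommGroup H₂] [InnerProductSpace ℝ H₂] [FiniteDimensional ℝ H₂]
  {P₂ : Euc N × Euc N → H₂ →L[ℝ] H₂} {Rr : ℝ → H₂ →L[ℝ] H₂}
  {xi0 : Euc N × Euc N → H₂ →L[ℝ] Euc N}

theorem sq_le_of_off {a b s : ℝ} (hs : 0 < s) (h0 : ¬ (a < s ∧ b < s)) :
    s ^ 2 ≤ b ^ 2 + a ^ 2 := by
  by_cases h1 : a < s
  · have h2 : s ≤ b := not_lt.1 fun h => h0 ⟨h1, h⟩
    nlinarith [sq_nonneg a]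
  · have h2 : s ≤ a := not_lt.1 h1
    nlinarith [sq_nonneg b]

/-- energies of the level two family off a small disk -/
theorem en_off (h : FT.D2 G k K lg ρ rr C r' Kr B w δ PN ε J E₀ η P₂ Rr xi0 δ₂ ε₂)
    (hη : 2 * η ≤ π - (δ / 4) * ε ^ 2) {s : ℝ} (hs : 0 < s) (hs1 : s ≤ 1)
    {p : ((Euc N × Euc N) × H₂) × Wt N K} (hp : p ∈ TT (L.US G) P₂ PN)
    (h0 : ¬ (‖p.1.2‖ < s ∧ ‖p.2‖ < s)) :
    En (fun t => FT.f2 G lg ρ w J xi0 ε ε₂ (FT.Ph2 G K Rr t p)) ≤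
      4 * π - FT.gp δ δ₂ ε ε₂ * s ^ 2 := by
  refine (h.en_unif hη hp).trans ?_
  have h1 := h.gp_pos
  have h2 : s ^ 2 ≤ min 1 (‖p.2‖ ^ 2 + ‖p.1.2‖ ^ 2) :=
    le_min (by nlinarith) (sq_le_of_off hs h0)
  have h3 : FT.gp δ δ₂ ε ε₂ * s ^ 2 ≤
      FT.gp δ δ₂ ε ε₂ * min 1 (‖p.2‖ ^ 2 + ‖p.1.2‖ ^ 2) := by gcongr
  linarith

end gen

variable
  {V₁ V₂ : Type} [NormedAddCommGroup V₁] [InnerProductSpace ℝ V₁] [FiniteDimensional ℝ V₁]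
  [MeasurableSpace V₁] [BorelSpace V₁] (μ₁ : Measure V₁) [μ₁.IsAddHaarMeasure]
  [NormedAddCommGroup V₂] [InnerProductSpace ℝ V₂] [FiniteDimensional ℝ V₂]
  [MeasurableSpace V₂] [BorelSpace V₂] (μ₂ : Measure V₂) [μ₂.IsAddHaarMeasure]
  {Q₁ : Euc N × Euc N → V₁ →L[ℝ] V₁} {Q₂ : Euc N × Euc N → V₂ →L[ℝ] V₂}
  {T₁ : Euc N × Euc N → Wt N K →L[ℝ] V₁} {T₂ : Euc N × Euc N → FT.W2 N K →L[ℝ] V₂}
  {τ₁' : (Euc N × Euc N) × V₁ → Ext ((Euc N × Euc N) × V₁)}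
  {τ₂' : (Euc N × Euc N) × V₂ → Ext ((Euc N × Euc N) × V₂)}
  {R₀ R₀' R₁ R₂ r δf : ℝ}
  {D : ED N} {hb : GT.Bla G k} {εg : ℝ}
  {cK : (((Euc N × Euc N) × Euc N) × Euc N) × Euc N → ℝ} {ρc ρc' δ' ρ₁ : ℝ}
  {α : Euc N × Euc N → Ext (Euc N × Euc N)}
  {om : (((Euc N × Euc N) × Euc N) × Euc N) × Euc N →
    Ext ((((Euc N × Euc N) × Euc N) × Euc N) × Euc N)}
  {V₀ V : ((Euc N × Euc N) × FT.W2 N K) × Wt N K →
    Ext (((Euc N × Euc N) × FT.W2 N K) × Wt N K)}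
  {fJ : (((Euc N × Euc N) × FT.W2 N K) × Wt N K) × ℝ → ℝ → Euc N}
  {W W0 : ((Euc N × Euc N) × V₂) × V₁ → Ext (((Euc N × Euc N) × V₂) × V₁)}

/-- the family of the level two orbit loops over `US G` -/
abbrev f2o (G : Geo n N κ S) (K : ℕ) (lg : Euc N → Euc N → Euc N) (ρ : Euc N → Euc N) (w : ℝ)
    (J : ℕ) (ε ε₂ : ℝ) (hb : GT.Bla G k) (PN : Euc N × Euc N → Wt N K →L[ℝ] Wt N K)
    (x : ((Euc N × Euc N) × FT.W2 N K) × Wt N K) (t : ℝ) : Euc N :=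
  FT.f2 G lg ρ w J (FT.xiN hb PN) ε ε₂ (FT.Ph2 G K (FT.RN N K) t x)

/-- **(A2), the `TT` half, for the level two family** -/
theorem inst (hd : d + 1 = 2 * n)
    (I : Iso (L.US G) r₁ r₂ PN (DD.NN PN) Q₁ Q₂ T₁ T₂ R₁ R₂ τ₁' τ₂')
    (hD : D.OK) (hS : D.S = S) (hO : KG.OK G 4 εg)
    (hL : LinK hb (DD.NN PN) PN (AK.Lz2 hb εg δ PN))
    (hC : Cut hb (DD.NN PN) PN (AK.Lz2 hb εg δ PN) εg cK ρc ρc' δ') (hρ' : 0 < ρc')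
    (hρρ : ρc' < ρc) (hα : Sm (L.US G) α) (hα1 : Hom 1 α)
    (hP : Pair D hb (DD.NN PN) PN (AK.Lz2 hb εg δ PN) εg cK ρc ρ₁ α om V₀)
    (hρr : ρc < r) (hr : r ≤ 1 / 2) (hδf : 0 < δf)
    (hf : LF S (AK.ZR G (DD.NN PN) PN r ×ˢ (univ : Set ℝ)) fJ)
    (hf0 : ∀ x ∈ AK.ZR G (DD.NN PN) PN r, ∀ t,
      fJ (x, 0) t = KG.F G 4 εg (KG.nest4 (Psi (AK.Lz2 hb εg δ PN) x)) 0 t)
    (hf1 : ∀ x ∈ AK.ZR G (DD.NN PN) PN r, ∀ t, fJ (x, 1) t = f2o G K lg ρ w J ε ε₂ hb PN x t)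
    (hfE : ∀ x ∈ AK.ZR G (DD.NN PN) PN r, ∀ τ,
      En (fJ (x, τ)) ≤ 4 * Real.pi - δf * (‖x.1.2‖ ^ 2 + ‖x.2‖ ^ 2))
    (h2 : FT.D2 G k K lg ρ rr C r' Kr B w δ PN ε J E₀ η (DD.NN PN) (FT.RN N K) (FT.xiN hb PN)
      δ₂ ε₂) (hη : 2 * η ≤ π - (δ / 4) * ε ^ 2)
    (hB1 : 4 * π - δ' ≤ D.B) (hB2 : 4 * π - δf * ρc' ^ 2 ≤ D.B)
    (hB3 : 4 * π - FT.gp δ δ₂ ε ε₂ * ρc' ^ 2 ≤ D.B) (hB4 : FT.lev δ δ₂ ε ε₂ ≤ D.B)
    (hV : D.IsRel (TT (L.US G) (DD.NN PN) PN) (F.pull bT α) (f2o G K lg ρ w J ε ε₂ hb PN)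
      FT.c2 V) (j : ℕ)
    (hW : CV (L.US G) Q₂ Q₁ R₀ W) (hW0 : CV (L.US G) Q₂ Q₁ R₀' W0)
    (eW : Eqv (TT (L.US G) (DD.NN PN) PN) (F.pull (Phi T₂ T₁) W) (T.dp j V))
    (eW0 : Eqv (TT (L.US G) (DD.NN PN) PN) (F.pull (Phi T₂ T₁) W0) (T.dp j V₀)) :
    Coh (L.US G) (pu₂ μ₁ μ₂ Q₂ τ₂' Q₁ τ₁' W) (pu₂ μ₁ μ₂ Q₂ τ₂' Q₁ τ₁' W0) := by
  have hZ : AK.ZR G (DD.NN PN) PN r =
      TT (L.US G) (DD.NN PN) PN ∩ Ud N (FT.W2 N K) (Wt N K) r := rfl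
  rw [hZ] at hf hf0 hf1 hfE
  refine main μ₁ μ₂ hd I hD hS hO hL hC (hρ'.trans hρρ) hB1 hα hα1 hP hρr hf hf0 hf1
    (fun x hx τ h0 => (hfE x hx τ).trans (le_trans ?_ hB2)) h2.lf_f2
    (fun x hx h0 => (en_off h2 hη hρ' (by linarith) hx h0).trans hB3)
    (R := 1) one_pos (fun x _ => FT.contDiff_c2.contDiffAt)
    (fun x hx h0 => (h2.level_unif_US hη hx h0).trans hB4)
    (fun x hx h0 => by rw [FT.c2_one h0]; norm_num) hV j hW hW0 eW eW0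
  have h3 := sq_le_of_off hρ' h0
  have h4 : δf * ρc' ^ 2 ≤ δf * (‖x.1.2‖ ^ 2 + ‖x.2‖ ^ 2) := by
    have : ρc' ^ 2 ≤ ‖x.1.2‖ ^ 2 + ‖x.2‖ ^ 2 := by linarith
    gcongr
  linarith

end Crest.Agent.R208.FU
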