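import Crest.Agent.R208.SB2
import Crest.Agent.R208.NB9

/-! Row 208, block SB (helper349), part SB3: (IN1) the orientation form of the negative bundle over
`US G`; pull-back of orientation forms along fibrewise isomorphisms; contraction with a section. -/

set_option autoImplicit false
set_option linter.unusedSectionVars false
set_option linter.unusedVariables false

open Set Filter Topology Module
open scoped ContDiff RealInnerProductSpace
open Crest.GeometryTopology.Submanifold
open Crest.Agent.R241.DDefs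
open Crest.Agent.R241.D2
open Crest.Agent.R208.F Crest.Agent.R208.FI Crest.Agent.R208.T Crest.Agent.R208.FG
open Crest.Agent.R208.CW (SMap)
open Crest.Agent.R208.NN
open Crest.Agent.R208.GT (bas LM)

noncomputable section

namespace Crest.Agent.R208.SB

section gen
variable {E H H' : Type*} [NormedAddCommGroup E] [NormedSpace ℝ E] [FiniteDimensional ℝ E]
  [NormedAddCommGroup H] [InnerProductSpace ℝ H] [FiniteDimensional ℝ H]
  [NormedAddCommGroup H'] [InnerProductSpace ℝ H'] [FiniteDimensional ℝ H']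
  {X : Set E} {r : ℕ} {P : E → H →L[ℝ] H} {P' : E → H' →L[ℝ] H'} {oP : E → Ext H'}

theorem contDiffAt_pb2 {A : E → H →L[ℝ] H'} {c : E → Ext H'} {x : E} {n : WithTop ℕ∞}
    (hA : ContDiffAt ℝ n A x) (hc : ContDiffAt ℝ n c x) :
    ContDiffAt ℝ n (fun y => pb (A y : H →ₗ[ℝ] H') (c y)) x := by
  have h0 : (fun y => pb (A y : H →ₗ[ℝ] H') (c y)) = fun y =>
      ∑ J, (extBasis H').coord J (c y) • pb (A y : H →ₗ[ℝ] H') (extBasis H' J) := by
    funext y
    conv_lhs => rw [← (extBasis H').sum_repr (c y)]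
    simp only [map_sum, map_smul]
    rfl
  rw [h0]
  refine ContDiffAt.sum fun J _ => ?_
  have h1 : ContDiffAt ℝ n (fun y => (extBasis H').coord J (c y)) x :=
    (LinearMap.toContinuousLinearMap ((extBasis H').coord J)).contDiff.contDiffAt.comp x hc
  have h2 : ContDiffAt ℝ n (fun y => pb (A y : H →ₗ[ℝ] H') (extBasis H' J)) x :=
    ((contDiff_pb_apply (extBasis H' J)).contDiffAt (x := A x)).comp x hA
  exact h1.smul h2

/-- orientation forms pull back along fibrewise injective maps -/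
theorem OPr.pull (h : OPr X r P' oP) (hP : PField X r P) {A : E → H →L[ℝ] H'}
    (hA : ∀ x ∈ X, ContDiffAt ℝ ∞ A x)
    (hm : ∀ x ∈ X, ∀ w, P x w = w → P' x (A x w) = A x w)
    (hi : ∀ x ∈ X, ∀ w, P x w = w → A x w = 0 → w = 0) :
    OPr X r P (fun x => pb (A x : H →ₗ[ℝ] H') (oP x)) := by
  refine ⟨fun x hx => contDiffAt_pb2 (hA x hx) (h.sm x hx), fun x => (h.deg x).pb _,
    fun x hx e he hPe => ?_⟩
  rw [evA_pb]
  refine h.ne x hx _ ?_ fun i => hm x hx _ (hPe i)
  let V : Submodule ℝ H := LinearMap.eqLocus (P x : H →ₗ[ℝ] H) LinearMap.id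
  have heV : ∀ i, e i ∈ V := fun i => hPe i
  let f : V →ₗ[ℝ] H' := (A x : H →ₗ[ℝ] H').comp V.subtype
  have hf : LinearMap.ker f = ⊥ := by
    rw [LinearMap.ker_eq_bot']
    rintro ⟨w, hw⟩ h0
    exact Subtype.ext (hi x hx w hw h0)
  have h1 : LinearIndependent ℝ (fun i => (⟨e i, heV i⟩ : V)) :=
    LinearIndependent.of_comp V.subtype he
  exact h1.map' f hf

/-- contraction of an orientation form with a unit section -/
theorem OPr.contract {P : E → H →L[ℝ] H} {P₀ : E → H →L[ℝ] H} {oP : E → Ext H}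
    (h : OPr X (r + 1) P oP) (hP₀ : PField X r P₀) {v : E → H}
    (hv : ∀ x ∈ X, ContDiffAt ℝ ∞ v x) (hv1 : ∀ x ∈ X, v x ≠ 0)
    (hPv : ∀ x ∈ X, P x (v x) = v x)
    (hsub : ∀ x ∈ X, ∀ w, P₀ x w = w → P x w = w)
    (hperp : ∀ x ∈ X, ∀ w, P₀ x w = w → ⟪v x, w⟫ = 0) :
    OPr X r P₀ (fun x => ii (v x) (oP x)) := by
  refine ⟨fun x hx => VC.contDiffAt_ii (hv x hx) (h.sm x hx), fun x => (h.deg x).ii _,
    fun x hx e he hPe => ?_⟩
  rw [← evA_ii]
  refine h.ne x hx _ ?_ fun i => ?_
  · change LinearIndependent ℝ (Fin.cons (v x) e : Fin (r + 1) → H)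
    rw [linearIndependent_finCons]
    refine ⟨he, fun hmem => hv1 x hx ?_⟩
    have h2 : ∀ w ∈ Submodule.span ℝ (Set.range e), ⟪v x, w⟫ = 0 := by
      intro w hw
      induction hw using Submodule.span_induction with
      | mem w hw =>
        obtain ⟨i, rfl⟩ := hw
        exact hperp x hx _ (hPe i)
      | zero => rw [inner_zero_right]
      | add a b _ _ ha hb => rw [inner_add_right, ha, hb, add_zero]
      | smul c a _ ha => rw [real_inner_smul_right, ha, mul_zero]
    exact inner_self_eq_zero.1 (h2 _ hmem)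
  · refine Fin.cases ?_ (fun i => ?_) i
    · exact hPv x hx
    · exact hsub x hx _ (hPe i)

end gen

section comp
variable {E E' H : Type*} [NormedAddCommGroup E] [NormedSpace ℝ E] [FiniteDimensional ℝ E]
  [NormedAddCommGroup E'] [NormedSpace ℝ E'] [FiniteDimensional ℝ E']
  [NormedAddCommGroup H] [InnerProductSpace ℝ H] [FiniteDimensional ℝ H]
  {X : Set E} {Y : Set E'} {r : ℕ} {P : E → H →L[ℝ] H} {oP : E → Ext H}

/-- orientation forms along a map of the base -/
theorem OPr.comp (h : OPr X r P oP) {f : E' → E} (hf : SMap Y X f) :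
    OPr Y r (fun y => P (f y)) (fun y => oP (f y)) :=
  ⟨fun y hy => (h.sm _ (hf.maps hy)).comp y (hf.smooth y hy), fun y => h.deg _,
    fun y hy e he hPe => h.ne _ (hf.maps hy) e he hPe⟩

end comp

/-! ### the negative bundle -/
section neg
open Crest.Agent.R208.L (US)
open Crest.Agent.R208.FV (PVB)
open Crest.Agent.R208.NB (smap_ph V0s V0s_apply V0s_eq V0s_idem V0s_eq_self pfield_V0s lM lM_eq
  smooth_lM NegB)

variable {n N k K : ℕ} {κ : ℝ} {S : Set (Euc N)} {G : Geo n N κ S}
  {ν : Fin K → ℝ} {δ : ℝ} {PN : Euc N × Euc N → Wt N K →L[ℝ] Wt N K}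

/-- the standard basis of the window space -/
def bw (N K : ℕ) : Basis ((Fin K × Fin 2) × Fin N) ℝ (Wt N K) :=
  (EuclideanSpace.basisFun ((Fin K × Fin 2) × Fin N) ℝ).toBasis

/-- `l0 ∘ PN` as a smooth field of operators -/
def lO (h : GT.Bla G k) (ν : Fin K → ℝ) (PN : Euc N × Euc N → Wt N K →L[ℝ] Wt N K)
    (z : Euc N × Euc N) : Wt N K →L[ℝ] Euc N :=
  LinearMap.toContinuousLinearMap (Matrix.toLin (bw N K) (bas N)
    (lM h ν PN (bw N K) z))

theorem lO_eq (h : GT.Bla G k) (hkn : k < n) {z : Euc N × Euc N} (hz : z ∈ US G) :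
    lO h ν PN z = (l0 G z ν).comp (PN z) := by
  rw [lO, lM_eq h hkn hz, SP.mt, Matrix.toLin_toMatrix]
  rfl

theorem contDiffAt_lO {r : ℕ} (h : GT.Bla G k) (hkn : k < n) (H : NegB G r ν δ PN)
    {z : Euc N × Euc N} (hz : z ∈ US G) : ContDiffAt ℝ ∞ (lO h ν PN) z := by
  have hs := smooth_lM h hkn H hz (bw N K)
  have h0 : lO h ν PN = fun z => ∑ i, ∑ j, lM h ν PN (bw N K) z i j •
      LinearMap.toContinuousLinearMap (Matrix.toLin (bw N K) (bas N)
        (Matrix.single i j (1 : ℝ))) := by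
    funext z
    rw [lO]
    conv_lhs => rw [Matrix.matrix_eq_sum_single (lM h ν PN (bw N K) z)]
    simp only [map_sum]
    refine Finset.sum_congr rfl fun i _ => Finset.sum_congr rfl fun j _ => ?_
    rw [← map_smul, ← map_smul, Matrix.smul_single, smul_eq_mul, mul_one]
  rw [h0]
  refine ContDiffAt.sum fun i _ => ContDiffAt.sum fun j _ => ?_
  exact (hs i j).smul contDiffAt_const

/-- **(IN1)**: the orientation form of the negative bundle -/
theorem exists_opr_N (h : GT.Bla G k) (hk : 2 ≤ k) (hkn : k < n)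
    (H : NegB G (k - 1) (nuP K) δ PN) : ∃ oN, OPr (US G) (k - 1) PN oN := by
  obtain ⟨r, rfl⟩ : ∃ r, k = r + 1 := ⟨k - 1, by omega⟩
  obtain ⟨oP, hoP⟩ := exists_opr_V h hk hkn
  have h1 : OPr (US G) (r + 1) (fun z => PVB h (NB.ph G z)) (fun z => oP (NB.ph G z)) :=
    hoP.comp (smap_ph h)
  have h2 : OPr (US G) r (V0s h) (fun z => ii z.2 (oP (NB.ph G z))) := by
    refine h1.contract (pfield_V0s h) (v := fun z => z.2) (fun z hz => contDiffAt_snd)
      (fun z hz h0 => ?_) (fun z hz => ?_) (fun z hz w hw => ?_) (fun z hz w hw => ?_)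
    · have := hz.2
      rw [h0, norm_zero] at this
      exact zero_ne_one this
    · exact (FV.vfield_PVB h).PV_eq_self (p := z.1) (q := qq G z) (mem_FF h hz) (mem_Vs hz)
    · have h3 := mem_V0.1 ((V0s_eq_self h hz w).1 hw)
      exact (FV.vfield_PVB h).PV_eq_self (p := z.1) (q := qq G z) (mem_FF h hz) h3.1
    · rw [real_inner_comm]
      exact (mem_V0.1 ((V0s_eq_self h hz w).1 hw)).2
  have hPN : PField (US G) r PN := ⟨H.smooth, fun z _ => H.idem z, H.rank⟩
  refine ⟨_, h2.pull hPN (A := lO h (nuP K) PN) (fun z hz => contDiffAt_lO h hkn H hz)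
    (fun z hz w hw => ?_) fun z hz w hw h0 => ?_⟩
  · rw [V0s_eq_self h hz, lO_eq h hkn hz]
    exact l0_mem (nuP K) (PN z w)
  · rw [lO_eq h hkn hz, ContinuousLinearMap.comp_apply, hw] at h0
    exact H.l0_inj h hz hw h0

end neg

end Crest.Agent.R208.SB
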