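import Crest.Agent.R208.TP8
import Crest.Agent.R208.EX9

/-! Row 208, block TP (helper382).  TP9: naturality of the Thom forms and of the double
integral built from them; the slice `z ↦ (z,u₀)` of the level-two forms. -/

set_option autoImplicit false
set_option linter.unusedSectionVars false
set_option linter.unusedVariables false

open MeasureTheory Set Filter Topology Module
open scoped ContDiff Matrix RealInnerProductSpace Real
open Crest.GeometryTopology.Submanifold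
open Crest.Agent.R241.DDefs Crest.Agent.R241.D Crest.Agent.R241.D2
open Crest.Agent.R208.F Crest.Agent.R208.FI Crest.Agent.R208.CW Crest.Agent.R208.T
open Crest.Agent.R208.CM
open Crest.Agent.R208.DD
open Crest.Agent.R208.EX (ED Cn)
open Crest.Agent.R208.MS (Fam oc En)

noncomputable section

namespace Crest.Agent.R208.TP

/-! ### naturality of the Thom forms -/
section natThom
variable {n ι : Type*} [Fintype n] [DecidableEq n] [Fintype ι] [DecidableEq ι]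
  {E : Type*} [NormedAddCommGroup E] [NormedSpace ℝ E] [FiniteDimensional ℝ E]
  {E' : Type*} [NormedAddCommGroup E'] [NormedSpace ℝ E'] [FiniteDimensional ℝ E']
  {P : E → EuclideanSpace ℝ n →L[ℝ] EuclideanSpace ℝ n} {W : E → (ι × Fin 2 → n) → ℝ}
  {f : E' → E}

theorem pull_smul_add_pt {F₁ F₂ : Type*} [NormedAddCommGroup F₁] [NormedSpace ℝ F₁]
    [FiniteDimensional ℝ F₁] [NormedAddCommGroup F₂] [NormedSpace ℝ F₂] [FiniteDimensional ℝ F₂]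
    {g : F₁ → F₂} {z : F₁} {c : ℝ} {a b om : F₂ → Ext F₂}
    (h : om (g z) = c • (a (g z) + b (g z))) :
    F.pull g om z = c • (F.pull g a z + F.pull g b z) := by
  unfold F.pull
  rw [h, map_smul, map_add]

theorem pull_eR {y : E'} (hf : ContDiffAt ℝ 2 f y) (hP : ContDiffAt ℝ ∞ P (f y)) :
    F.pull f (eR P W) y = eR (fun y => P (f y)) (fun y => W (f y)) y := by
  have h1 : SM 1 (fun y => mtx (P y)) (f y) := contDiffAt_mtx (hP.of_le (by simp))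
  have h2 := pullC_ef (W := wC W) hf h1
  exact congrArg Cx.re h2

theorem cd_up {z : E' × EuclideanSpace ℝ n} (hf : ContDiffAt ℝ 2 f z.1) :
    ContDiffAt ℝ 2 (up (H := EuclideanSpace ℝ n) f) z :=
  (hf.comp z contDiffAt_fst).prodMk contDiffAt_snd

theorem pull_ue {z : E' × EuclideanSpace ℝ n} (hf : ContDiffAt ℝ 2 f z.1)
    (hP : ContDiffAt ℝ ∞ P (f z.1)) :
    F.pull (up f) (fun z => (ue P W z).re) z =
      (ue (fun y => P (f y)) (fun y => W (f y)) z).re := by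
  have hS : SM 1 (fun z : E × EuclideanSpace ℝ n => SS z.2 * mtx (P z.1) * (SS z.2)ᵀ)
      (up f z) := by
    have a1 : SM 1 (fun z : E × EuclideanSpace ℝ n => SS z.2) (up f z) :=
      SM.comp (f := (Prod.snd : E × EuclideanSpace ℝ n → EuclideanSpace ℝ n)) (M := SS (n := n))
        ((SM_SS (n := n) (up f z).2).of_le (by simp : (1 : WithTop ℕ∞) ≤ ∞)) contDiffAt_snd
    have a2 : SM 1 (fun z : E × EuclideanSpace ℝ n => mtx (P z.1)) (up f z) :=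
      SM.comp (f := (Prod.fst : E × EuclideanSpace ℝ n → E))
        (M := fun y => mtx (P y)) (contDiffAt_mtx (hP.of_le (by simp))) contDiffAt_fst
    exact (a1.mul a2).mul a1.transpose
  have h2 := pullC_ef (W := fun z : E × EuclideanSpace ℝ n => pushW (SS z.2) (wC W z.1))
    (cd_up hf) hS
  exact congrArg Cx.re h2

theorem pull_fst_eR {z : E' × EuclideanSpace ℝ n} (hf : ContDiffAt ℝ 2 f z.1)
    (hP : ContDiffAt ℝ ∞ P (f z.1)) :
    F.pull (up f) (F.pull (fun z : E × EuclideanSpace ℝ n => z.1) (eR P W)) z =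
      F.pull (fun z : E' × EuclideanSpace ℝ n => z.1)
        (eR (fun y => P (f y)) (fun y => W (f y))) z := by
  have a1 := F.pull_comp (f := up (H := EuclideanSpace ℝ n) f) (x := z)
    (g := fun z : E × EuclideanSpace ℝ n => z.1) (om := eR P W)
    ((cd_up hf).differentiableAt (by norm_num)) differentiableAt_fst
  have a2 := F.pull_comp (f := fun z : E' × EuclideanSpace ℝ n => z.1) (x := z)
    (g := f) (om := eR P W) differentiableAt_fst (hf.differentiableAt (by norm_num))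
  have a3 : F.pull (fun z : E' × EuclideanSpace ℝ n => z.1) (F.pull f (eR P W)) z =
      F.pull (fun z : E' × EuclideanSpace ℝ n => z.1)
        (eR (fun y => P (f y)) (fun y => W (f y))) z :=
    congrArg (pb _) (pull_eR hf hP)
  exact a1.trans (a2.symm.trans a3)

/-- **naturality of the Thom form** -/
theorem pull_thomF {z : E' × EuclideanSpace ℝ n} (hf : ContDiffAt ℝ 2 f z.1)
    (hP : ContDiffAt ℝ ∞ P (f z.1)) :
    F.pull (up f) (thomF P W) z = thomF (fun y => P (f y)) (fun y => W (f y)) z := by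
  have h4 := pull_smul_add_pt (g := up (H := EuclideanSpace ℝ n) f) (z := z) (c := cut z.2)
    (a := fun z => (ue P W z).re) (b := F.pull (fun z : E × EuclideanSpace ℝ n => z.1) (eR P W))
    (om := thomF P W) rfl
  rw [pull_ue hf hP, pull_fst_eR hf hP] at h4
  exact h4

end natThom

/-! ### the double integral only sees the values of `τ'`, `V` on the total spaces -/
section congr
variable {E : Type*} {H₁ H₂ : Type*} [NormedAddCommGroup E] [NormedSpace ℝ E]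
  [FiniteDimensional ℝ E]
  [NormedAddCommGroup H₁] [InnerProductSpace ℝ H₁] [FiniteDimensional ℝ H₁]
  [MeasurableSpace H₁] [BorelSpace H₁] (μ₁ : Measure H₁) [μ₁.IsAddHaarMeasure]
  [NormedAddCommGroup H₂] [InnerProductSpace ℝ H₂] [FiniteDimensional ℝ H₂]
  [MeasurableSpace H₂] [BorelSpace H₂] (μ₂ : Measure H₂) [μ₂.IsAddHaarMeasure]
  {X : Set E} {P₁ : E → H₁ →L[ℝ] H₁} {P₂ : E → H₂ →L[ℝ] H₂} {r₁ r₂ : ℕ}
  {τ₁ τ₁' : E × H₁ → Ext (E × H₁)} {τ₂ τ₂' : E × H₂ → Ext (E × H₂)}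
  {V V' : (E × H₂) × H₁ → Ext ((E × H₂) × H₁)}

theorem pu₂_congr_pt {x : E} (hx : x ∈ X) (hP₁ : PField X r₁ P₁) (hP₂ : PField X r₂ P₂)
    (h₁ : ∀ h, P₁ x h = 0 → τ₁ (x, h) = τ₁' (x, h)) (h₂ : ∀ h, P₂ x h = 0 → τ₂ (x, h) = τ₂' (x, h))
    (hV : ∀ h₂ h₁, P₂ x h₂ = h₂ → P₁ x h₁ = h₁ → V ((x, h₂), h₁) = V' ((x, h₂), h₁)) :
    pu₂ μ₁ μ₂ P₂ τ₂ P₁ τ₁ V x = pu₂ μ₁ μ₂ P₂ τ₂' P₁ τ₁' V' x := by
  refine push_congr_pt μ₂ (fun h => hP₂.idem _ hx h) h₂ fun h hh => ?_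
  refine push_congr_pt μ₁ (P := fun z : E × H₂ => P₁ z.1) (x := (x, h))
    (fun k => hP₁.idem _ hx k) (fun k hk => ?_) fun k hk => hV h k hh hk
  exact congrArg (pb _) (h₁ k hk)

end congr

/-! ### slices -/
section slice
variable {n₁ n₂ ι₁ ι₂ : Type*} [Fintype n₁] [DecidableEq n₁] [Fintype n₂] [DecidableEq n₂]
  [Fintype ι₁] [DecidableEq ι₁] [Fintype ι₂] [DecidableEq ι₂] [Nonempty ι₁] [Nonempty ι₂]
  {E : Type*} [NormedAddCommGroup E] [NormedSpace ℝ E] [FiniteDimensional ℝ E]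
  {E' : Type*} [NormedAddCommGroup E'] [NormedSpace ℝ E'] [FiniteDimensional ℝ E']
  (μ₁ : Measure (EuclideanSpace ℝ n₁)) [μ₁.IsAddHaarMeasure]
  (μ₂ : Measure (EuclideanSpace ℝ n₂)) [μ₂.IsAddHaarMeasure]
  {P₁ : E → EuclideanSpace ℝ n₁ →L[ℝ] EuclideanSpace ℝ n₁}
  {P₂ : E → EuclideanSpace ℝ n₂ →L[ℝ] EuclideanSpace ℝ n₂}
  {W₁ : E → (ι₁ × Fin 2 → n₁) → ℝ} {W₂ : E → (ι₂ × Fin 2 → n₂) → ℝ}
  {X : Set E} {X' : Set E'} {f : E' → E} {r₁ r₂ d d' : ℕ}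
  {V : (E × EuclideanSpace ℝ n₂) × EuclideanSpace ℝ n₁ →
    Ext ((E × EuclideanSpace ℝ n₂) × EuclideanSpace ℝ n₁)}

theorem OR.pull {P : E → EuclideanSpace ℝ n₁ →L[ℝ] EuclideanSpace ℝ n₁}
    {W : E → (ι₁ × Fin 2 → n₁) → ℝ} (h : OR X P W) (hf : SMap X' X f) :
    OR X' (fun y => P (f y)) (fun y => W (f y)) :=
  ⟨fun x hx => (h.sP _ (hf.maps hx)).comp x (hf.smooth x hx),
    fun x hx I => (h.sW _ (hf.maps hx) I).comp x (hf.smooth x hx), fun x hx => h.fr _ (hf.maps hx)⟩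

/-- **naturality of the double integral built from the Thom forms** -/
theorem pull_pu₂_thom (hX : Sub d X) (hf : SMap X' X f) (hP₁ : PField X r₁ P₁)
    (hP₂ : PField X r₂ P₂) (h₁ : OR X (fun x => 1 - P₁ x) W₁) (h₂ : OR X (fun x => 1 - P₂ x) W₂)
    (hV : CV X P₂ P₁ 3 V) {y : E'} (hy : y ∈ X') :
    F.pull f (pu₂ μ₁ μ₂ P₂ (thomF (fun x => 1 - P₂ x) W₂) P₁ (thomF (fun x => 1 - P₁ x) W₁) V) y =
      pu₂ μ₁ μ₂ (fun y => P₂ (f y)) (thomF (fun y => 1 - P₂ (f y)) fun y => W₂ (f y))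
        (fun y => P₁ (f y)) (thomF (fun y => 1 - P₁ (f y)) fun y => W₁ (f y))
        (F.pull (up (up f)) V) y := by
  rw [← pu₂_up μ₁ μ₂ hf hP₁ hP₂ (csf_thomF hX h₁) (csf_thomF hX h₂) hV hy]
  exact pu₂_congr_pt μ₁ μ₂ hy (pfield_up hP₁ hf) (pfield_up hP₂ hf)
    (fun h _ => pull_thomF (z := (y, h)) (hf.c2 hy) (h₁.sP _ (hf.maps hy)))
    (fun h _ => pull_thomF (z := (y, h)) (hf.c2 hy) (h₂.sP _ (hf.maps hy))) fun _ _ _ _ => rfl

end slice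


/-! ### the slice `z ↦ (z,u₀)` of the level-two data -/
section th
open Crest.Agent.R208.NN (Wt Rt nuP)

variable {n N K k : ℕ} {κ : ℝ} {S : Set (Euc N)} {G : Geo n N κ S} {lg : Euc N → Euc N → Euc N}
  {ρ : Euc N → Euc N} {r C r' Kr B w δ : ℝ} {PN : Euc N × Euc N → Wt N K →L[ℝ] Wt N K}
  {Rr : ℝ → EuclideanSpace ℝ (((Fin K × Fin 2) × Fin N) ⊕ ((Fin K × Fin 2) × Fin N)) →L[ℝ]
    EuclideanSpace ℝ (((Fin K × Fin 2) × Fin N) ⊕ ((Fin K × Fin 2) × Fin N))}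
  {xi0 : Euc N × Euc N →
    EuclideanSpace ℝ (((Fin K × Fin 2) × Fin N) ⊕ ((Fin K × Fin 2) × Fin N)) →L[ℝ] Euc N}
  {δ₂ : ℝ} {ε ε₂ E₀ η₀ : ℝ} {J : ℕ} {D : ED N}
  {nB l m m' s c s' s₂ c₂ : ℕ} {g : Euc N × Euc N → Fin m → ℂ}
  {g' : (Euc N × Euc N) × HW.U l → Fin m' → ℂ} {p : MM m' → MM m}
  {T : Euc N × Euc N → Wt N K →L[ℝ] EuclideanSpace ℝ (Fin (2 * c + 1))}
  {P' : MM m → EuclideanSpace ℝ (Fin (2 * c + 1)) →L[ℝ] EuclideanSpace ℝ (Fin (2 * c + 1))}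
  {o' : MM m → Ext (EuclideanSpace ℝ (Fin (2 * c + 1)))}
  {W' : MM m → (Fin (s' + 1) × Fin 2 → Fin (2 * c + 1)) → ℝ} {w₀ : ℝ}
  {T₂ : (Euc N × Euc N) × HW.U l →
    EuclideanSpace ℝ (((Fin K × Fin 2) × Fin N) ⊕ ((Fin K × Fin 2) × Fin N)) →L[ℝ]
      EuclideanSpace ℝ (Fin (2 * c₂))}
  {P₂' : MM m' → EuclideanSpace ℝ (Fin (2 * c₂)) →L[ℝ] EuclideanSpace ℝ (Fin (2 * c₂))}
  {W₂' : MM m' → (Fin (2 * s + 1) × Fin 2 → Fin (2 * c₂)) → ℝ}
  {W₂'' : MM m' → (Fin (s₂ + 1) × Fin 2 → Fin (2 * c₂)) → ℝ}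
  {θ : (Euc N × Euc N) × HW.U l → Ext ((Euc N × Euc N) × HW.U l)}
  {V' : (MM m' × EuclideanSpace ℝ (Fin (2 * c₂))) × EuclideanSpace ℝ (Fin (2 * c + 1)) →
    Ext ((MM m' × EuclideanSpace ℝ (Fin (2 * c₂))) × EuclideanSpace ℝ (Fin (2 * c + 1)))}
  {η : (((Euc N × Euc N) × HW.U l) ×
    EuclideanSpace ℝ (((Fin K × Fin 2) × Fin N) ⊕ ((Fin K × Fin 2) × Fin N))) × Wt N K →
      Ext ((((Euc N × Euc N) × HW.U l) ×
        EuclideanSpace ℝ (((Fin K × Fin 2) × Fin N) ⊕ ((Fin K × Fin 2) × Fin N))) × Wt N K)}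

theorem cd_slice {E F G : Type*} [NormedAddCommGroup E] [NormedSpace ℝ E]
    [NormedAddCommGroup F] [NormedSpace ℝ F] [NormedAddCommGroup G] [NormedSpace ℝ G]
    {f : E → F} {T : F → G} {z : E} (hf : ContDiffAt ℝ ∞ f z) (hT : ContDiffAt ℝ ∞ T (f z)) :
    ContDiffAt ℝ ∞ (fun z => T (f z)) z := hT.comp z hf

theorem cd_up2 {E F H₁ H₂ : Type*} [NormedAddCommGroup E] [NormedSpace ℝ E]
    [NormedAddCommGroup F] [NormedSpace ℝ F] [NormedAddCommGroup H₁] [NormedSpace ℝ H₁]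
    [NormedAddCommGroup H₂] [NormedSpace ℝ H₂]
    {f : E → F} {z : (E × H₂) × H₁} (hf : ContDiffAt ℝ ∞ f z.1.1) :
    ContDiffAt ℝ ∞ (fun z : (E × H₂) × H₁ => (((f z.1.1, z.1.2), z.2) : (F × H₂) × H₁)) z := by
  have h1 : ContDiffAt ℝ ∞ (fun z : (E × H₂) × H₁ => f z.1.1) z :=
    ContDiffAt.comp (g := f) (f := fun z : (E × H₂) × H₁ => z.1.1) z hf (by fun_prop)
  exact (h1.prodMk (by fun_prop)).prodMk contDiffAt_snd

/-- the slice through `u₀` -/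
def sj {E F : Type*} (u₀ : F) (z : E) : E × F := (z, u₀)

theorem smap_sj {E : Type} [NormedAddCommGroup E] [NormedSpace ℝ E] [FiniteDimensional ℝ E]
    {X : Set E} {u₀ : HW.U l} (hu : u₀ ∈ HW.SU l) : SMap X (HW.XX X l) (sj u₀) :=
  ⟨fun _ _ => contDiffAt_id.prodMk contDiffAt_const, fun _ hz => HW.mem_XX.2 ⟨hz, hu⟩⟩

theorem smap_sl2 {u₀ : HW.U l} (hu : u₀ ∈ HW.SU l) :
    SMap (TT (L.US G) (NN PN) PN) (TT (HW.XX (L.US G) l)
      (NN fun z : (Euc N × Euc N) × HW.U l => PN z.1) (fun z => PN z.1)) (up (up (sj u₀))) := by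
  refine ⟨fun z hz => ?_, fun z hz => ⟨⟨(smap_sj hu).maps hz.1.1, ?_⟩, hz.2⟩⟩
  · unfold up sj
    fun_prop
  · exact hz.1.2

/-- **the slice of the level-two data over `US G`**: fields, orientations, the closed form `V_US`
with compact vertical support, its integral, its relation to the relative form of 336's loops. -/
structure Slc (G : Geo n N κ S) (PN : Euc N × Euc N → Wt N K →L[ℝ] Wt N K) (s : ℕ)
    (Y : Set (MM m')) (f₀ : Euc N × Euc N → MM m')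
    (T₁ : Euc N × Euc N → Wt N K →L[ℝ] EuclideanSpace ℝ (Fin (2 * c + 1)))
    (T₂ : Euc N × Euc N →
      EuclideanSpace ℝ (((Fin K × Fin 2) × Fin N) ⊕ ((Fin K × Fin 2) × Fin N)) →L[ℝ]
        EuclideanSpace ℝ (Fin (2 * c₂)))
    (P₁' : MM m' → EuclideanSpace ℝ (Fin (2 * c + 1)) →L[ℝ] EuclideanSpace ℝ (Fin (2 * c + 1)))
    (P₂' : MM m' → EuclideanSpace ℝ (Fin (2 * c₂)) →L[ℝ] EuclideanSpace ℝ (Fin (2 * c₂)))
    (W₁ : MM m' → (Fin (s' + 1) × Fin 2 → Fin (2 * c + 1)) → ℝ)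
    (W₂ : MM m' → (Fin (s₂ + 1) × Fin 2 → Fin (2 * c₂)) → ℝ)
    (V' : (MM m' × EuclideanSpace ℝ (Fin (2 * c₂))) × EuclideanSpace ℝ (Fin (2 * c + 1)) →
      Ext ((MM m' × EuclideanSpace ℝ (Fin (2 * c₂))) × EuclideanSpace ℝ (Fin (2 * c + 1))))
    (D : ED N) (j : ℕ) (α : Euc N × Euc N → Ext (Euc N × Euc N))
    (lp : ((Euc N × Euc N) ×
      EuclideanSpace ℝ (((Fin K × Fin 2) × Fin N) ⊕ ((Fin K × Fin 2) × Fin N))) × Wt N K →
        ℝ → Euc N)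
    (V : ((Euc N × Euc N) ×
      EuclideanSpace ℝ (((Fin K × Fin 2) × Fin N) ⊕ ((Fin K × Fin 2) × Fin N))) × Wt N K →
        Ext (((Euc N × Euc N) ×
          EuclideanSpace ℝ (((Fin K × Fin 2) × Fin N) ⊕ ((Fin K × Fin 2) × Fin N))) × Wt N K)) :
    Prop where
  smap : SMap (L.US G) Y f₀
  sT₁ : ∀ z ∈ L.US G, ContDiffAt ℝ ∞ T₁ z
  iT₁ : ∀ z ∈ L.US G, ∀ w, ‖T₁ z w‖ = ‖w‖
  sT₂ : ∀ z ∈ L.US G, ContDiffAt ℝ ∞ T₂ z
  iT₂ : ∀ z ∈ L.US G, ∀ ν, ‖T₂ z ν‖ = ‖ν‖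
  q₁ : ∀ z ∈ L.US G, P₁' (f₀ z) = Qd T₁ PN z
  q₂ : ∀ z ∈ L.US G, P₂' (f₀ z) = Qd T₂ (NN PN) z
  pf₁ : PField (L.US G) (2 * s + 1) fun z => P₁' (f₀ z)
  pf₂ : PField (L.US G) (2 * (2 * s + 1)) fun z => P₂' (f₀ z)
  or₁ : OR (L.US G) (fun z => 1 - P₁' (f₀ z)) fun z => W₁ (f₀ z)
  or₂ : OR (L.US G) (fun z => 1 - P₂' (f₀ z)) fun z => W₂ (f₀ z)
  cv : CV (L.US G) (fun z => P₂' (f₀ z)) (fun z => P₁' (f₀ z)) 3 (F.pull (up (up f₀)) V')
  hom : Hom j (F.pull (up (up f₀)) V')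
  pu : ∀ z ∈ L.US G, F.pull f₀ (pu₂ (volume : Measure (EuclideanSpace ℝ (Fin (2 * c + 1))))
      (volume : Measure (EuclideanSpace ℝ (Fin (2 * c₂)))) P₂' (thomF (fun x => 1 - P₂' x) W₂)
      P₁' (thomF (fun y => 1 - P₁' y) W₁) V') z =
    pu₂ (volume : Measure (EuclideanSpace ℝ (Fin (2 * c + 1))))
      (volume : Measure (EuclideanSpace ℝ (Fin (2 * c₂)))) (fun z => P₂' (f₀ z))
      (thomF (fun z => 1 - P₂' (f₀ z)) fun z => W₂ (f₀ z)) (fun z => P₁' (f₀ z))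
      (thomF (fun z => 1 - P₁' (f₀ z)) fun z => W₁ (f₀ z)) (F.pull (up (up f₀)) V') z
  eqv : Eqv (TT (L.US G) (NN PN) PN)
    (F.pull (fun z => ((z.1.1, T₂ z.1.1 z.1.2), T₁ z.1.1 z.2)) (F.pull (up (up f₀)) V')) (dp j V)
  rel : D.IsRel (TT (L.US G) (NN PN) PN) (F.pull (fun z => z.1.1) α) lp FT.c2 V

set_option maxHeartbeats 1600000 in
/-- **the slice exists** for the outputs of `th82` -/
theorem slc82 (hD : D.OK) (hDS : D.S = S) (H : HW.HD nB l (L.US G) (gf G) g g' p)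
    (hN : EqF (L.US G) (gf G) (fun t => Rt (nuP K) t) (2 * s + 1) PN)
    (hO : DscO (L.US G) (gf G) g (fun t => Rt (nuP K) t) s PN c s' T P' o' W')
    (hRr : (fun t => Rr (2 * t)) = R2 (fun t => Rt (nuP K) (2 * t)) w₀) (hw : ∃ j : ℤ, w₀ = j)
    (D₂ : Dsc2 (Fin (2 * s + 1)) (HW.XX (L.US G) l) g' (HW.ph l (gf G))
      (fun t => Rt (nuP K) (2 * t)) w₀ (fun z => PN z.1) T₂ P₂' W₂')
    (h : FT.D2 G k K lg ρ r C r' Kr B w δ PN ε J E₀ η₀ (NN PN) Rr xi0 δ₂ ε₂)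
    (hB : ∀ z ∈ FT.TX (HW.XX (L.US G) l) Prod.fst (NN PN) PN, 0 < FT.c2 z →
      En (oc (FT.P2x (HW.ph l (gf G)) N K Rr) (FT.f2x G lg ρ w J xi0 ε ε₂ Prod.fst) z) ≤ D.B)
    (hθ : Cn (HW.XX (L.US G) l) (HW.ph l (gf G)) θ) (j : ℕ)
    (hor : OR (Quo (HW.XX (L.US G) l) g') (fun y => 1 - P₂' y) W₂'')
    (hη : D.IsEta (EX.Up (FT.TX (HW.XX (L.US G) l) Prod.fst (NN PN) PN) FT.c2)
      (FT.P2x (HW.ph l (gf G)) N K Rr) (F.pull EA.b₂ θ) (FT.f2x G lg ρ w J xi0 ε ε₂ Prod.fst) η)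
    (hV : CV (Quo (HW.XX (L.US G) l) g') P₂' (fun y => P' (p y)) 3 V') (hVj : Hom j V')
    (hQ : Eqv (FT.TX (HW.XX (L.US G) l) Prod.fst (NN PN) PN)
      (F.pull (EA.Q₂ (jj g') T₂ fun z => T z.1) V')
      (dp j (D.rel (FT.P2x (HW.ph l (gf G)) N K Rr) (F.pull EA.b₂ θ)
        (FT.f2x G lg ρ w J xi0 ε ε₂ Prod.fst) FT.c2 η)))
    {u₀ : HW.U l} (hu : u₀ ∈ HW.SU l) :
    Slc G PN s (Quo (HW.XX (L.US G) l) g') (fun z => jj g' (z, u₀)) T (fun z => T₂ (z, u₀))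
      (fun y => P' (p y)) P₂' (fun y => W' (p y)) W₂'' V' D j (F.pull (sj u₀) θ)
      (fun x t => FT.f2 G lg ρ w J xi0 ε ε₂ (FT.Ph2 G K Rr t x))
      (F.pull (up (up (sj u₀))) (D.rel (FT.P2x (HW.ph l (gf G)) N K Rr) (F.pull EA.b₂ θ)
        (FT.f2x G lg ρ w J xi0 ε ε₂ Prod.fst) FT.c2 η)) := by
  have hm : FT.Eqm G (HW.XX (L.US G) l) (HW.ph l (gf G)) Prod.fst := FT.eqm_XX l
  have hF := frm_xx (k := l) H hN hO (Fintype.card_fin _) hw D₂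
  have hf2 := fam2_of_D2 (D := D) h hm hDS hB
  have hs : SMap (L.US G) (HW.XX (L.US G) l) (sj u₀) := smap_sj hu
  have hq : SMap (HW.XX (L.US G) l) (Quo (HW.XX (L.US G) l) g') (jj g') :=
    ⟨fun z hz => H.emb'.contDiffAt_jj hz, fun z hz => ⟨z, hz, rfl⟩⟩
  have hf0 : SMap (L.US G) (Quo (HW.XX (L.US G) l) g') (fun z => jj g' (z, u₀)) := hq.comp hs
  have hp1' : PField (Quo (HW.XX (L.US G) l) g') (2 * s + 1) fun y => P' (p y) := hF.p1'
  have hp2' : PField (Quo (HW.XX (L.US G) l) g') (2 * (2 * s + 1)) P₂' := by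
    rw [two_mul (2 * s + 1)]; exact hF.p2'
  have ho1 := (hO.xx H).or
  have sT₂ : ∀ z ∈ L.US G, ContDiffAt ℝ ∞ (fun z => T₂ (z, u₀)) z := fun z hz =>
    cd_slice (hs.smooth z hz) (D₂.triv.smooth _ (hs.maps hz))
  have hsl2 : SMap (TT (L.US G) (NN PN) PN) (TT (HW.XX (L.US G) l)
      (NN fun z : (Euc N × Euc N) × HW.U l => PN z.1) (fun z => PN z.1)) (up (up (sj u₀))) :=
    smap_sl2 hu
  refine
  { smap := hf0
    sT₁ := hO.triv.smooth
    iT₁ := hO.triv.iso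
    sT₂ := sT₂
    iT₂ := fun z hz ν => D₂.triv.iso _ (hs.maps hz) ν
    q₁ := fun z hz => (hO.xx H).eqP _ (hs.maps hz)
    q₂ := fun z hz => D₂.eqP _ (hs.maps hz)
    pf₁ := pfield_up (P := fun y => P' (p y)) hp1' hf0
    pf₂ := pfield_up hp2' hf0
    or₁ := OR.pull ho1 hf0
    or₂ := OR.pull hor hf0
    cv := cv_up hf0 hV
    hom := hVj.pull
    pu := fun z hz => pull_pu₂_thom volume volume hF.hY hf0 hp1' hp2' ho1 hor hV hz
    eqv := ?_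
    rel := ?_ }
  · have e1 := hQ.pull hsl2
    rw [← dp_pull] at e1
    refine Eqv.trans (Eqv.of_eq fun y hy => ?_) e1
    have d1 : DifferentiableAt ℝ (fun z : ((Euc N × Euc N) ×
        EuclideanSpace ℝ (((Fin K × Fin 2) × Fin N) ⊕ ((Fin K × Fin 2) × Fin N))) × Wt N K =>
        ((z.1.1, T₂ (z.1.1, u₀) z.1.2), T z.1.1 z.2)) y := by
      have a1 : ContDiffAt ℝ ∞ (fun z : ((Euc N × Euc N) ×
        EuclideanSpace ℝ (((Fin K × Fin 2) × Fin N) ⊕ ((Fin K × Fin 2) × Fin N))) × Wt N K =>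
          T₂ (z.1.1, u₀)) y :=
        ContDiffAt.comp (g := fun z => T₂ (z, u₀)) y (sT₂ _ hy.1.1) (by fun_prop)
      have a2 : ContDiffAt ℝ ∞ (fun z : ((Euc N × Euc N) ×
        EuclideanSpace ℝ (((Fin K × Fin 2) × Fin N) ⊕ ((Fin K × Fin 2) × Fin N))) × Wt N K =>
          T z.1.1) y :=
        ContDiffAt.comp (g := T) y (hO.triv.smooth _ hy.1.1) (by fun_prop)
      have a3 := ((contDiffAt_fst.comp y contDiffAt_fst).prodMk
        (a1.clm_apply (contDiffAt_snd.comp y contDiffAt_fst))).prodMk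
          (a2.clm_apply contDiffAt_snd)
      exact a3.differentiableAt (by simp)
    have d2 : DifferentiableAt ℝ (up (H := EuclideanSpace ℝ (Fin (2 * c + 1)))
        (up (H := EuclideanSpace ℝ (Fin (2 * c₂))) fun z : Euc N × Euc N => jj g' (z, u₀)))
        ((y.1.1, T₂ (y.1.1, u₀) y.1.2), T y.1.1 y.2) := by
      have a1 : ContDiffAt ℝ ∞ (up (H := EuclideanSpace ℝ (Fin (2 * c + 1)))
        (up (H := EuclideanSpace ℝ (Fin (2 * c₂))) fun z : Euc N × Euc N => jj g' (z, u₀)))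
        ((y.1.1, T₂ (y.1.1, u₀) y.1.2), T y.1.1 y.2) :=
        cd_up2 (z := ((y.1.1, T₂ (y.1.1, u₀) y.1.2), T y.1.1 y.2)) (hf0.smooth _ hy.1.1)
      exact a1.differentiableAt (by simp)
    have e2 := F.pull_comp (om := V') d1 d2
    have e3 := F.pull_comp (om := V') (hsl2.diff hy) (hF.qm2.smap.diff (hsl2.maps hy))
    exact e2.trans e3.symm
  · have hF' := hF
    rw [← hRr] at hF'
    have hK : Sub (2 * (n - 1) + 1 + 2 * (2 * s + 1) + (2 * s + 1)) (TT (L.US G) (NN PN) PN) := by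
      rw [two_mul (2 * s + 1)]
      exact (TP.pfield_fst' (P₂ := NN PN) hN.pf).sub_tot
        ((pfield_NN hN.pf).sub_tot (CM.clo_US' h.toD1.bla.bl).sub)
    have e1 : F.pull (up (up (sj u₀))) (F.pull EA.b₂ θ) =
        F.pull (fun z : ((Euc N × Euc N) ×
          EuclideanSpace ℝ (((Fin K × Fin 2) × Fin N) ⊕ ((Fin K × Fin 2) × Fin N))) × Wt N K =>
            z.1.1) (F.pull (sj u₀) θ) := by
      funext y
      have a1 := F.pull_comp (om := θ) (x := y) (f := up (H := Wt N K) (up (H := EuclideanSpace ℝ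
        (((Fin K × Fin 2) × Fin N) ⊕ ((Fin K × Fin 2) × Fin N))) (sj (E := Euc N × Euc N) u₀)))
        (g := EA.b₂) (by unfold up sj; fun_prop) (by unfold EA.b₂; fun_prop)
      have a2 := F.pull_comp (om := θ) (x := y) (f := fun z : ((Euc N × Euc N) ×
          EuclideanSpace ℝ (((Fin K × Fin 2) × Fin N) ⊕ ((Fin K × Fin 2) × Fin N))) × Wt N K =>
            z.1.1) (g := sj (E := Euc N × Euc N) u₀) (by fun_prop) (by unfold sj; fun_prop)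
      exact a1.trans a2.symm
    have key := ED.isRel_of_cir hD hF'.cir2 hF'.sub2 (EA.cn2 hF' hθ) hf2.fam hf2.cs hf2.ci hf2.en
      hη hK (smap_sl2 hu)
    rw [e1] at key
    exact key

end th

end Crest.Agent.R208.TP
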