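import Crest.Agent.R208.GP2c
import Crest.Agent.R208.GP3c

/-! Row 208, block GP (helper198), part GP2d: the tube diffeomorphism of `S ∖ {p}` with the open disc
bundle of radius `π` over `C_p`, in the format of block T; orientation of `P_p` over `C_p`. -/

set_option autoImplicit false
set_option linter.unusedSectionVars false

open MeasureTheory Measure Set Filter Topology Module Metric
open scoped ContDiff RealInnerProductSpace
open Crest.GeometryTopology.Submanifold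
open Crest.Agent.R241.DDefs
open Crest.Agent.R241.D2
open Crest.Agent.R208.F Crest.Agent.R208.FI
open Crest.Agent.R208.FV (Vl phi PV)
open Crest.Agent.R208.CW (SMap)

noncomputable section

namespace Crest.Agent.R208.GP

variable {n N k : ℕ} {κ : ℝ} {S : Set (Euc N)} {G : Geo n N κ S} {p q x v : Euc N}

theorem ne_of_Cut (hB : Bl n N κ S G Real.pi) (hp : p ∈ S) (hq : q ∈ Cut S p) : q ≠ p := by
  rintro rfl
  have := hq.2
  rw [intrinsicDist_self hp] at this
  exact Real.pi_ne_zero this.symm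

/-- `S ∖ {p}` is a submanifold. -/
theorem sub_punct (hS : Sub n S) (p : Euc N) : Sub n (S \ {p}) := by
  have h1 := hS.inter_open (U := {p}ᶜ) isOpen_compl_singleton
  rwa [← sdiff_eq] at h1

/-- **THE TUBE** (316's format). -/
theorem exists_Gt (hB : Bl n N κ S G Real.pi) (hT : I.Typ G k) (hS : Sub n S) (hp : p ∈ S) :
    ∃ Gt : Euc N → Euc N × Euc N,
      SMap (Tot (Cut S p) (PC hB hT hS p) ∩ {z | ‖z.2‖ < Real.pi}) (S \ {p}) (Psi G) ∧
      SMap (S \ {p}) (Tot (Cut S p) (PC hB hT hS p) ∩ {z | ‖z.2‖ < Real.pi}) Gt ∧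
      (∀ x ∈ S \ {p}, Psi G (Gt x) = x) ∧
      (∀ z ∈ Tot (Cut S p) (PC hB hT hS p) ∩ {z | ‖z.2‖ < Real.pi}, Gt (Psi G z) = z) ∧
      (∀ q ∈ Cut S p, Gt q = (q, 0)) ∧
      (∀ x ∈ S \ {p}, ‖(Gt x).2‖ = Real.pi - intrinsicDist S p x) := by
  obtain ⟨σ, h1, h2, h3⟩ := exists_tube_inv hB hT hS hp
  rw [← DB_eq hB hT hS hp]
  refine ⟨σ, ⟨fun z hz => contDiffAt_Psi (DB_TS hB hT hp hz), fun z hz =>
    ⟨Psi_mem (DB_TS hB hT hp hz), ?_⟩⟩, ⟨fun x hx => h1 x hx.1 hx.2, fun x hx =>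
    (h2 x hx.1 hx.2).1⟩, fun x hx => (h2 x hx.1 hx.2).2.1, h3, fun q hq => ?_,
    fun x hx => (h2 x hx.1 hx.2).2.2⟩
  · intro h
    have h4 := tube_dist hB hT hp hz.1 hz.2.1 hz.2.2.le
    change intrinsicDist S p (Psi G z) = _ at h4
    rw [h, intrinsicDist_self hp] at h4
    linarith [hz.2.2]
  · have hz0 : ((q, 0) : Euc N × Euc N) ∈ DB G p :=
      ⟨hq, Submodule.zero_mem _, by simp only; rw [norm_zero]; exact Real.pi_pos⟩
    have h4 := h3 _ hz0
    have h5 : Psi G (q, 0) = q := Exp_zero G hq.1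
    rwa [h5] at h4

/-- the tube map is a bijection with `d(p, Ψ(q,v)) = π - |v|`. -/
theorem dist_Psi (hB : Bl n N κ S G Real.pi) (hT : I.Typ G k) (hS : Sub n S) (hp : p ∈ S)
    {z : Euc N × Euc N} (hz : z ∈ Tot (Cut S p) (PC hB hT hS p)) (hzπ : ‖z.2‖ ≤ Real.pi) :
    intrinsicDist S p (Psi G z) = Real.pi - ‖z.2‖ := by
  obtain ⟨h1, h2⟩ := (mem_Tot_PC hB hT hS hp).1 hz
  exact tube_dist hB hT hp h1 h2 hzπ

/-- orientation of a pulled back field. -/
theorem OR.comp {E E' : Type*} [NormedAddCommGroup E] [NormedSpace ℝ E] [NormedAddCommGroup E']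
    [NormedSpace ℝ E'] {m ι : Type*} [Fintype m] [DecidableEq m] [Fintype ι]
    [DecidableEq ι] {X : Set E} {X' : Set E'}
    {P : E → EuclideanSpace ℝ m →L[ℝ] EuclideanSpace ℝ m} {W : E → (ι × Fin 2 → m) → ℝ}
    (h : T.OR X P W) {f : E' → E} (hf : ∀ x ∈ X', ContDiffAt ℝ ∞ f x) (hm : MapsTo f X' X) :
    T.OR X' (fun x => P (f x)) (fun x => W (f x)) where
  sP := fun x hx => (h.sP _ (hm hx)).comp x (hf x hx)
  sW := fun x hx I => (h.sW _ (hm hx) I).comp x (hf x hx)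
  fr := fun x hx => h.fr _ (hm hx)

/-- **`P_p` over `C_p` is oriented.** -/
theorem exists_OR_C (hB : Bl n N κ S G Real.pi) (hT : I.Typ G k) (hk : 2 ≤ k) (hn : 3 ≤ n)
    (hS : Sub n S) (hp : p ∈ S) {ι : Type*} [Fintype ι] [DecidableEq ι]
    (hι : 2 * Fintype.card ι = k) :
    ∃ Wt : Euc N → (ι × Fin 2 → Fin N) → ℝ, T.OR (Cut S p) (PC hB hT hS p) Wt := by
  obtain ⟨Wt, h⟩ := exists_OR_V hB hT hk hn hS hι
  exact ⟨_, OR.comp h (f := fun q => (q, p)) (fun q _ => contDiffAt_id.prodMk contDiffAt_const)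
    fun q hq => mem_FF_of_Cut' hp hq⟩

end Crest.Agent.R208.GP
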