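import Crest.Agent.R208.NO1
import Crest.Agent.R208.NB9
import Crest.Agent.R208.GP2d

/-! Row 208, block NO (helper537), part NO2: `N ⊕ ℝ` is oriented over `US G`. -/

set_option autoImplicit false
set_option linter.unusedSectionVars false
set_option linter.unusedVariables false

open MeasureTheory Set Filter Topology Module
open scoped ContDiff Matrix RealInnerProductSpace
open Crest.GeometryTopology.Submanifold
open Crest.Agent.R241.DDefs
open Crest.Agent.R241.D2
open Crest.Agent.R208.NN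
open Crest.Agent.R208.NB
open Crest.Agent.R208.GT (bas LM)
open Crest.Agent.R208.FI (Sub)
open Crest.Agent.R208.T

noncomputable section

namespace Crest.Agent.R208.NO

/-! ### `H ⊕ ℝ` -/
section dsum
variable {n : Type} [Fintype n] [DecidableEq n]

/-- restriction to the first summand -/
def pL (n : Type) [Fintype n] : EuclideanSpace ℝ (n ⊕ Unit) →L[ℝ] EuclideanSpace ℝ n :=
  LinearMap.toContinuousLinearMap
    { toFun := fun w => WithLp.toLp 2 fun i => w (Sum.inl i)
      map_add' := fun _ _ => rfl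
      map_smul' := fun _ _ => rfl }

/-- the last coordinate -/
def pU (n : Type) [Fintype n] : EuclideanSpace ℝ (n ⊕ Unit) →L[ℝ] ℝ :=
  LinearMap.toContinuousLinearMap
    { toFun := fun w => w (Sum.inr ())
      map_add' := fun _ _ => rfl
      map_smul' := fun _ _ => rfl }

/-- inclusion of the first summand -/
def iL (n : Type) [Fintype n] : EuclideanSpace ℝ n →L[ℝ] EuclideanSpace ℝ (n ⊕ Unit) :=
  LinearMap.toContinuousLinearMap
    { toFun := fun w => WithLp.toLp 2 (Sum.elim w fun _ => 0)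
      map_add' := fun _ _ => by
        ext i; rcases i with i | i
        · rfl
        · change (0 : ℝ) = 0 + 0; simp
      map_smul' := fun _ _ => by
        ext i; rcases i with i | i
        · rfl
        · change (0 : ℝ) = _ * 0; simp }

/-- inclusion of the last coordinate -/
def iU (n : Type) [Fintype n] : ℝ →L[ℝ] EuclideanSpace ℝ (n ⊕ Unit) :=
  LinearMap.toContinuousLinearMap
    { toFun := fun c => WithLp.toLp 2 (Sum.elim (fun _ => 0) fun _ => c)
      map_add' := fun _ _ => by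
        ext i; rcases i with i | i
        · change (0 : ℝ) = 0 + 0; simp
        · rfl
      map_smul' := fun _ _ => by
        ext i; rcases i with i | i
        · change (0 : ℝ) = _ * 0; simp
        · rfl }

@[simp] theorem pL_apply (w : EuclideanSpace ℝ (n ⊕ Unit)) (i : n) : pL n w i = w (Sum.inl i) := rfl
@[simp] theorem pU_apply (w : EuclideanSpace ℝ (n ⊕ Unit)) : pU n w = w (Sum.inr ()) := rfl
@[simp] theorem iL_inl (w : EuclideanSpace ℝ n) (i : n) : iL n w (Sum.inl i) = w i := rfl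
@[simp] theorem iL_inr (w : EuclideanSpace ℝ n) (u : Unit) : iL n w (Sum.inr u) = 0 := rfl
@[simp] theorem iU_inl (c : ℝ) (i : n) : iU n c (Sum.inl i) = 0 := rfl
@[simp] theorem iU_inr (c : ℝ) (u : Unit) : iU n c (Sum.inr u) = c := rfl

@[simp] theorem pL_iL (w : EuclideanSpace ℝ n) : pL n (iL n w) = w := by ext i; rfl
@[simp] theorem pU_iL (w : EuclideanSpace ℝ n) : pU n (iL n w) = 0 := rfl
@[simp] theorem pL_iU (c : ℝ) : pL n (iU n c) = 0 := by ext i; rfl
@[simp] theorem pU_iU (c : ℝ) : pU n (iU n c) = c := rfl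

theorem dec (w : EuclideanSpace ℝ (n ⊕ Unit)) : iL n (pL n w) + iU n (pU n w) = w := by
  ext i; rcases i with i | i <;> simp

theorem ext_pp {w w' : EuclideanSpace ℝ (n ⊕ Unit)} (h1 : pL n w = pL n w')
    (h2 : pU n w = pU n w') : w = w' := by rw [← dec w, h1, h2, dec]

/-- `P ⊕ 1` -/
def dsum (P : EuclideanSpace ℝ n →L[ℝ] EuclideanSpace ℝ n) :
    EuclideanSpace ℝ (n ⊕ Unit) →L[ℝ] EuclideanSpace ℝ (n ⊕ Unit) :=
  (iL n).comp (P.comp (pL n)) + (iU n).comp (pU n)

theorem dsum_apply (P : EuclideanSpace ℝ n →L[ℝ] EuclideanSpace ℝ n)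
    (w : EuclideanSpace ℝ (n ⊕ Unit)) : dsum P w = iL n (P (pL n w)) + iU n (pU n w) := rfl

@[simp] theorem dsum_inl (P : EuclideanSpace ℝ n →L[ℝ] EuclideanSpace ℝ n)
    (w : EuclideanSpace ℝ (n ⊕ Unit)) (i : n) : dsum P w (Sum.inl i) = P (pL n w) i := by
  rw [dsum_apply]; simp

@[simp] theorem dsum_inr (P : EuclideanSpace ℝ n →L[ℝ] EuclideanSpace ℝ n)
    (w : EuclideanSpace ℝ (n ⊕ Unit)) (u : Unit) : dsum P w (Sum.inr u) = w (Sum.inr u) := by
  rw [dsum_apply]; simp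

@[simp] theorem pL_dsum (P : EuclideanSpace ℝ n →L[ℝ] EuclideanSpace ℝ n)
    (w : EuclideanSpace ℝ (n ⊕ Unit)) : pL n (dsum P w) = P (pL n w) := by
  rw [dsum_apply, map_add, pL_iL, pL_iU, add_zero]

@[simp] theorem pU_dsum (P : EuclideanSpace ℝ n →L[ℝ] EuclideanSpace ℝ n)
    (w : EuclideanSpace ℝ (n ⊕ Unit)) : pU n (dsum P w) = pU n w := by
  rw [dsum_apply, map_add, pU_iL, pU_iU, zero_add]

theorem dsum_idem {P : EuclideanSpace ℝ n →L[ℝ] EuclideanSpace ℝ n} (h : ∀ v, P (P v) = P v)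
    (w : EuclideanSpace ℝ (n ⊕ Unit)) : dsum P (dsum P w) = dsum P w :=
  ext_pp (by simp [h]) (by simp)

theorem inner_dec (w w' : EuclideanSpace ℝ (n ⊕ Unit)) :
    ⟪w, w'⟫ = ⟪pL n w, pL n w'⟫ + pU n w * pU n w' := by
  simp only [PiLp.inner_apply, Fintype.sum_sum_type, RCLike.inner_apply, conj_trivial,
    Finset.univ_unique, Finset.sum_singleton, pL_apply, pU_apply]
  rw [mul_comm (w' (Sum.inr _))]

theorem dsum_sym {P : EuclideanSpace ℝ n →L[ℝ] EuclideanSpace ℝ n}
    (h : ∀ v w, ⟪P v, w⟫ = ⟪v, P w⟫) (w w' : EuclideanSpace ℝ (n ⊕ Unit)) :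
    ⟪dsum P w, w'⟫ = ⟪w, dsum P w'⟫ := by
  rw [inner_dec, inner_dec, pL_dsum, pL_dsum, pU_dsum, pU_dsum, h]

theorem dsum_eq_self {P : EuclideanSpace ℝ n →L[ℝ] EuclideanSpace ℝ n}
    {w : EuclideanSpace ℝ (n ⊕ Unit)} : dsum P w = w ↔ P (pL n w) = pL n w := by
  constructor
  · intro h; rw [← pL_dsum, h]
  · intro h; exact ext_pp (by rw [pL_dsum, h]) (by rw [pU_dsum])

theorem contDiffAt_dsum {E : Type} [NormedAddCommGroup E] [NormedSpace ℝ E]
    {P : E → EuclideanSpace ℝ n →L[ℝ] EuclideanSpace ℝ n} {x : E} (h : ContDiffAt ℝ ∞ P x) :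
    ContDiffAt ℝ ∞ (fun y => dsum (P y)) x :=
  (contDiffAt_const.clm_comp (h.clm_comp contDiffAt_const)).add contDiffAt_const

theorem finrank_dsum {P : EuclideanSpace ℝ n →L[ℝ] EuclideanSpace ℝ n}
    (h : ∀ v, P (P v) = P v) :
    finrank ℝ (LinearMap.range (dsum P : EuclideanSpace ℝ (n ⊕ Unit) →ₗ[ℝ]
      EuclideanSpace ℝ (n ⊕ Unit))) =
    finrank ℝ (LinearMap.range (P : EuclideanSpace ℝ n →ₗ[ℝ] EuclideanSpace ℝ n)) + 1 := by
  set R := LinearMap.range (P : EuclideanSpace ℝ n →ₗ[ℝ] EuclideanSpace ℝ n) with hR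
  set R' := LinearMap.range (dsum P : EuclideanSpace ℝ (n ⊕ Unit) →ₗ[ℝ]
      EuclideanSpace ℝ (n ⊕ Unit)) with hR'
  have hmR : ∀ v ∈ R, P v = v := by rintro _ ⟨w, rfl⟩; exact h w
  have hmR' : ∀ v ∈ R', dsum P v = v := by rintro _ ⟨w, rfl⟩; exact dsum_idem h w
  let f : (R × ℝ) →ₗ[ℝ] R' := LinearMap.codRestrict R'
    (((iL n : EuclideanSpace ℝ n →ₗ[ℝ] _).comp (R.subtype.comp (LinearMap.fst ℝ R ℝ))) +
      (iU n : ℝ →ₗ[ℝ] _).comp (LinearMap.snd ℝ R ℝ)) (fun x => by
        refine ⟨iL n x.1 + iU n x.2, ?_⟩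
        change dsum P (iL n x.1 + iU n x.2) = iL n x.1 + iU n x.2
        rw [dsum_eq_self, map_add, pL_iL, pL_iU, add_zero]
        exact hmR _ x.1.2)
  let g : R' →ₗ[ℝ] (R × ℝ) := LinearMap.prod
    (LinearMap.codRestrict R ((pL n : EuclideanSpace ℝ (n ⊕ Unit) →ₗ[ℝ] _).comp R'.subtype)
      (fun x => ⟨pL n x, dsum_eq_self.1 (hmR' _ x.2)⟩))
    ((pU n : EuclideanSpace ℝ (n ⊕ Unit) →ₗ[ℝ] ℝ).comp R'.subtype)
  have hf : Function.Injective f := by
    rw [injective_iff_map_eq_zero]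
    rintro ⟨u, c⟩ h0
    have h1 : iL n (u : EuclideanSpace ℝ n) + iU n c = 0 := congrArg Subtype.val h0
    have h2 : (u : EuclideanSpace ℝ n) = 0 := by
      have := congrArg (pL n) h1
      rwa [map_add, pL_iL, pL_iU, add_zero, map_zero] at this
    have h3 : c = 0 := by
      have := congrArg (pU n) h1
      rwa [map_add, pU_iL, pU_iU, zero_add, map_zero] at this
    rw [h3, Prod.mk_eq_zero]
    exact ⟨Subtype.ext h2, rfl⟩
  have hg : Function.Injective g := by
    rw [injective_iff_map_eq_zero]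
    rintro ⟨w, hw⟩ h0
    have h1 : pL n w = 0 := congrArg (fun x : R × ℝ => (x.1 : EuclideanSpace ℝ n)) h0
    have h2 : pU n w = 0 := congrArg (fun x : R × ℝ => x.2) h0
    refine Subtype.ext ?_
    exact ext_pp (by rw [h1]; simp) (by rw [h2]; simp)
  have e1 := LinearMap.finrank_le_finrank_of_injective hf
  have e2 := LinearMap.finrank_le_finrank_of_injective hg
  rw [Module.finrank_prod, finrank_self] at e1 e2
  omega

end dsum

/-! ### the smooth operator `l0 ∘ PN` -/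

section lO
variable {n N k K r : ℕ} {κ : ℝ} {S : Set (Euc N)} {G : Geo n N κ S} {z : Euc N × Euc N}
  {ν : Fin K → ℝ} {δ : ℝ} {PN : Euc N × Euc N → Wt N K →L[ℝ] Wt N K}

/-- smooth operator, equal to `l0 ∘ PN` on `US G` -/
def lO (h : GT.Bla G k) (ν : Fin K → ℝ) (PN : Euc N × Euc N → Wt N K →L[ℝ] Wt N K)
    (z : Euc N × Euc N) : Wt N K →L[ℝ] Euc N :=
  ∑ i, ∑ j, lM h ν PN (EuclideanSpace.basisFun ((Fin K × Fin 2) × Fin N) ℝ).toBasis z i j •
    (EuclideanSpace.proj j : Wt N K →L[ℝ] ℝ).smulRight (EuclideanSpace.single i (1 : ℝ) : Euc N)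

theorem lO_eq (h : GT.Bla G k) (hkn : k < n) (hz : z ∈ L.US G) (w : Wt N K) :
    lO h ν PN z w = l0 G z ν (PN z w) := by
  ext i
  have h1 : lO h ν PN z w i = ∑ j, lM h ν PN
      (EuclideanSpace.basisFun ((Fin K × Fin 2) × Fin N) ℝ).toBasis z i j * w j := by
    unfold lO
    simp only [_root_.sum_apply, _root_.smul_apply, WithLp.ofLp_sum, Finset.sum_apply,
      ContinuousLinearMap.smulRight_apply, WithLp.ofLp_smul, Pi.smul_apply, smul_eq_mul]
    rw [Finset.sum_eq_single i]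
    · refine Finset.sum_congr rfl fun j _ => ?_
      simp
    · intro a _ ha
      refine Finset.sum_eq_zero fun j _ => ?_
      simp [Ne.symm ha]
    · intro h0; exact absurd (Finset.mem_univ i) h0
  rw [h1, lM_eq h hkn hz]
  have h2 := mB_mulVec ((l0 G z ν).comp (PN z)) w i
  change l0 G z ν (PN z w) i = _ at h2
  rw [h2]
  refine Finset.sum_congr rfl fun j _ => ?_
  congr 1

theorem contDiffAt_lO (h : GT.Bla G k) (hkn : k < n) (H : NegB G r ν δ PN) (hz : z ∈ L.US G) :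
    ContDiffAt ℝ ∞ (lO h ν PN) z := by
  unfold lO
  refine ContDiffAt.sum fun i _ => ContDiffAt.sum fun j _ => ?_
  exact (smooth_lM h hkn H hz _ i j).smul contDiffAt_const

/-- `(w, s) ↦ l0 w + s v` -/
def aO (h : GT.Bla G k) (ν : Fin K → ℝ) (PN : Euc N × Euc N → Wt N K →L[ℝ] Wt N K)
    (z : Euc N × Euc N) :
    EuclideanSpace ℝ (((Fin K × Fin 2) × Fin N) ⊕ Unit) →L[ℝ] Euc N :=
  (lO h ν PN z).comp (pL _) + (pU _).smulRight z.2

theorem aO_apply (h : GT.Bla G k) (w : EuclideanSpace ℝ (((Fin K × Fin 2) × Fin N) ⊕ Unit)) :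
    aO h ν PN z w = lO h ν PN z (pL _ w) + pU _ w • z.2 := rfl

/-- the isomorphism `N ⊕ ℝ → V_pq` -/
theorem isoF_aO (h : GT.Bla G k) (hk : 1 ≤ k) (hkn : k < n) (H : NegB G (k - 1) (nuP K) δ PN) :
    IsoF (L.US G) (fun z => FV.PVB h (ph G z)) (fun z => dsum (PN z))
      (aO h (nuP K) PN) k where
  sQ z hz := contDiffAt_dsum (H.smooth z hz)
  sA z hz := by
    refine ((contDiffAt_lO h hkn H hz).clm_comp contDiffAt_const).add ?_
    have h1 : ContDiff ℝ ∞ (fun z : Euc N × Euc N =>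
        (pU ((Fin K × Fin 2) × Fin N)).smulRight z.2) := by
      rw [contDiff_clm_apply_iff]
      intro w
      exact contDiff_const.smul contDiff_snd
    exact h1.contDiffAt
  idem z _ := dsum_idem (H.idem z)
  sym z _ := dsum_sym (H.sy z)
  maps z hz w := by
    have hV := FV.vfield_PVB h
    refine hV.PV_eq_self (p := z.1) (q := qq G z) (mem_FF h hz) ?_
    rw [aO_apply, lO_eq h hkn hz]
    exact Submodule.add_mem _ (mem_V0.1 (l0_mem _ _)).1 (Submodule.smul_mem _ _ (mem_Vs hz))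
  inj z hz w hw h0 := by
    rw [dsum_eq_self] at hw
    rw [aO_apply, lO_eq h hkn hz, hw] at h0
    have h1 := (mem_V0.1 (l0_mem (G := G) (z := z) (nuP K) (pL _ w))).2
    have h2 : pU _ w = 0 := by
      have h3 := congrArg (fun x => ⟪x, z.2⟫) h0
      simp only [inner_add_left, h1, real_inner_smul_left, real_inner_self_eq_norm_sq, hz.2,
        inner_zero_left, zero_add, one_pow, mul_one] at h3
      exact h3
    rw [h2, zero_smul, add_zero] at h0
    have h3 := H.l0_inj h hz hw h0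
    exact ext_pp (by rw [h3, map_zero]) (by rw [h2, map_zero])
  rank z hz := by
    rw [finrank_dsum (H.idem z), H.rank z hz]
    omega

/-- **`N ⊕ ℝ` is oriented over `US G`** -/
theorem OR_N1 {ι : Type} [Fintype ι] [DecidableEq ι] [Nonempty ι] (h : GT.Bla G k)
    (hkn : k < n) (hι : 2 * Fintype.card ι = k) (H : NegB G (k - 1) (nuP K) δ PN)
    {W : Euc N × Euc N → (ι × Fin 2 → Fin N) → ℝ} (hW : OR (GT.FF S) (FV.PVB h) W) :
    OR (L.US G) (fun z => dsum (PN z))
      (oiW (aO h (nuP K) PN) (fun z => dsum (PN z)) (fun z => W (ph G z))) := by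
  have h1 : OR (L.US G) (fun z => FV.PVB h (ph G z)) (fun z => W (ph G z)) :=
    GP.OR.comp hW (fun z hz => contDiffAt_ph hz.1) (fun z hz => mem_FF h hz)
  refine OR_iso h1 ?_
  rw [hι]
  exact isoF_aO h (h.ty.one_le) hkn H

end lO

end Crest.Agent.R208.NO
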