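import Crest.Agent.R208.AK19
import Crest.Agent.R208.FU5
import Crest.Agent.R208.UP2
import Crest.Agent.R208.SB3
import Crest.Agent.R208.TP9

/-!
R208, block AK (helper952), part 20: **the end of (A2)**: for the level two data of helper336 and
every slice of helper382: `|∫_US (pu₂ V') y| = Δ |∫_N4 (form of the flat loops) y|`; all constants
are chosen before `J, E₀, η, D`.
-/

set_option autoImplicit false
set_option linter.unusedSectionVars false
set_option linter.unusedVariables false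
set_option maxHeartbeats 1600000

open Set Filter Topology MeasureTheory Module
open scoped ContDiff RealInnerProductSpace
open Crest.GeometryTopology.Submanifold
open Crest.Agent.R241.DDefs
open Crest.Agent.R241.D2
open Crest.Agent.R208.F Crest.Agent.R208.FI Crest.Agent.R208.CW Crest.Agent.R208.T
open Crest.Agent.R208.FV (PVB phi)
open Crest.Agent.R208.SB (OPr)
open Crest.Agent.R208.KG (OK N4)
open Crest.Agent.R208.MS (En)
open Crest.Agent.R208.NN (Wt Rt nuP)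
open Crest.Agent.R208.TP (TT CV pu₂ up)
open Crest.Agent.R208.CM (Triv Qd MM)
open Crest.Agent.R208.HO (Pt Ph2 smap_Ph2)
open Crest.Agent.R208.EX (ED LF)
open Crest.Agent.R208.SN (kGG)
open Crest.Agent.R208.LB (al oUS dal)

noncomputable section

namespace Crest.Agent.R208.AK

/-! ### orientations -/
section ori
variable {E : Type*} [NormedAddCommGroup E] [NormedSpace ℝ E] [FiniteDimensional ℝ E]
  {d : ℕ} {X : Set E} {o o' om : E → Ext E}

theorem ori_dp' (ho : Ori d X o) : Ori d X (T.dp d o) where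
  cont := (dplL (E := E) d).continuous.comp_continuousOn ho.cont
  ne := fun x hx => by
    show evA E d (dpl d (o x)) _ ≠ 0
    rw [CM.evA_dpl_same]
    exact ho.ne x hx

theorem abs_J_ori (hX : Clo d X) (hc : IsPreconnected X) (ho : Ori d X o) (ho' : Ori d X o') :
    |J d X o' om| = |J d X o om| := by
  rcases J_ori_connected hX ho ho' hc with h | h
  · rw [h]
  · rw [h, abs_neg]

end ori

section main
variable {n N K k d mK : ℕ} {κ : ℝ} {S : Set (Euc N)} {G : Geo n N κ S}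
  {ρ : Euc N → Euc N} {r' Kr δ δ₂ ε ε₂ : ℝ}
  {PN : Euc N × Euc N → Wt N K →L[ℝ] Wt N K}

theorem smap_phi' (h : GT.Bla G k) : SMap (L.US G) (GT.FF S) (phi G) :=
  ⟨fun z hz => FV.contDiffAt_phi hz.1, fun z hz => FV.phi_mem h.bl hz⟩

/-- **(A2)**: all constants before `J, E₀, η, D` -/
theorem a2_D2 (h : GT.Bla G k) (hk : 2 ≤ k) (hkn : k < n)
    (H : NB.NegB G (k - 1) (nuP K) δ PN) (hR : MS.Retr S ρ r' Kr) (he1 : 0 < ε) (he2 : 0 < ε₂)
    (hδ₂ : 0 < δ₂) (hd : d + 1 = 2 * n) (hmK : mK = 3 * (k - 1) + d) :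
    ∃ (εg B₀ : ℝ) (oK : (((Euc N × Euc N) × Euc N) × Euc N) × Euc N →
        Ext ((((Euc N × Euc N) × Euc N) × Euc N) × Euc N)),
      OK G 4 εg ∧ B₀ < 4 * Real.pi ∧ Ori mK (N4 h) oK ∧
      ∀ {D : ED N} {lg : Euc N → Euc N → Euc N} {rr C B w E₀ η : ℝ} {J₀ : ℕ}, D.OK → D.S = S →
        B₀ ≤ D.B →
        FT.D2 G k K lg ρ rr C r' Kr B w δ PN ε J₀ E₀ η (DD.NN PN) (FT.RN N K) (FT.xiN h PN) δ₂ ε₂ →
        2 * η ≤ Real.pi - (δ / 4) * ε ^ 2 →
      ∀ {n₁ n₂ ι₁ ι₂ : Type} [Fintype n₁] [DecidableEq n₁] [Fintype n₂] [DecidableEq n₂]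
        [Fintype ι₁] [DecidableEq ι₁] [Fintype ι₂] [DecidableEq ι₂] [Nonempty ι₁] [Nonempty ι₂]
        {Q₁ : Euc N × Euc N → EuclideanSpace ℝ n₁ →L[ℝ] EuclideanSpace ℝ n₁}
        {Q₂ : Euc N × Euc N → EuclideanSpace ℝ n₂ →L[ℝ] EuclideanSpace ℝ n₂}
        {T₁ : Euc N × Euc N → Wt N K →L[ℝ] EuclideanSpace ℝ n₁}
        {T₂ : Euc N × Euc N → FT.W2 N K →L[ℝ] EuclideanSpace ℝ n₂}
        {W₁ : Euc N × Euc N → (ι₁ × Fin 2 → n₁) → ℝ} {W₂ : Euc N × Euc N → (ι₂ × Fin 2 → n₂) → ℝ}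
        {R₁ R₂ R₀ : ℝ} {α : Euc N × Euc N → Ext (Euc N × Euc N)}
        {V : ((Euc N × Euc N) × FT.W2 N K) × Wt N K →
          Ext (((Euc N × Euc N) × FT.W2 N K) × Wt N K)}
        {W : ((Euc N × Euc N) × EuclideanSpace ℝ n₂) × EuclideanSpace ℝ n₁ →
          Ext (((Euc N × Euc N) × EuclideanSpace ℝ n₂) × EuclideanSpace ℝ n₁)} {j : ℕ},
        Sm (L.US G) α → Hom 1 α →
        FU.Iso (L.US G) (k - 1) (k - 1 + (k - 1)) PN (DD.NN PN) Q₁ Q₂ T₁ T₂ R₁ R₂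
          (thomF (fun x => 1 - Q₁ x) W₁) (thomF (fun x => 1 - Q₂ x) W₂) →
        OR (L.US G) (fun x => 1 - Q₁ x) W₁ → OR (L.US G) (fun x => 1 - Q₂ x) W₂ →
        D.IsRel (TT (L.US G) (DD.NN PN) PN) (F.pull TU.bT α) (FU.f2o G K lg ρ w J₀ ε ε₂ h PN)
          FT.c2 V →
        CV (L.US G) Q₂ Q₁ R₀ W →
        Eqv (TT (L.US G) (DD.NN PN) PN) (F.pull (Ph2 T₂ T₁) W) (T.dp j V) →
      ∀ (oU : Euc N × Euc N → Ext (Euc N × Euc N)), Ori d (L.US G) oU →
      ∀ (y : Euc N × Euc N → Ext (Euc N × Euc N)) (b : ℕ), Sm (L.US G) y →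
        Cl (L.US G) y → Hom b y → j + b = mK →
        |J d (L.US G) oU (pu₂ volume volume Q₂ (thomF (fun x => 1 - Q₂ x) W₂) Q₁
          (thomF (fun x => 1 - Q₁ x) W₁) W * y)| =
        ((kGG ι₂ * LC.del (EuclideanSpace ℝ n₂)) * (kGG ι₁ * LC.del (EuclideanSpace ℝ n₁))) *
          |J mK (N4 h) oK (D.vs (F.pull TU.bN α) (TU.FK G εg 1) *
            F.pull (fun z => z.1.1.1) y)| := by
  have hpi := Real.pi_pos
  have hUc : IsPreconnected (L.US G) := FV.preconn_US h.bl (by omega)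
  have hX : Clo d (L.US G) := SB.clo_US h hd
  obtain ⟨r, hr⟩ : ∃ r, r + 1 = k := ⟨k - 1, by omega⟩
  have hr' : k - 1 = r := by omega
  obtain rfl : mK = r + (r + r) + d := by omega
  -- the chain loops
  obtain ⟨ε₀, h1, h2⟩ := KG.exists_En_le h.bl.cpt G h 4 (by decide)
  obtain ⟨hO, c₀, hc0, hHC⟩ := h2 ε₀ h1 le_rfl
  -- the junction
  obtain ⟨hL, f, rJ, δf, hrJ, hrJ2, hδf, hf, hf0, hf1, hfE⟩ := exists_fam h (by omega) hO hc0
    hHC H hR he1 he2
  have hP₁ : PField (L.US G) r PN := hr' ▸ UP.pfield_N H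
  have hP₂ : PField (L.US G) (r + r) (DD.NN PN) := DD.pfield_NN hP₁
  obtain ⟨cK, ρ', δ', hρ', hρρ, hδ', hC⟩ := hL.exists_Cut h.bl.cpt hO hc0 hHC hP₂ hP₁ (by omega)
    (ρ := rJ / 2) (by linarith)
  -- orientations
  obtain ⟨oP, hoP⟩ := SB.exists_opr_V h hk hkn
  have hoP' := hoP.comp (smap_phi' h)
  have hoU₀ : Ori d (L.US G) (oUS n N) := LB.ori_US (FV.sub_S h.bl) h.bl.cpt (by omega) hd
  set oX := T.dp d (oUS n N) with hoX
  have hoX' : Ori d (L.US G) oX := ori_dp' hoU₀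
  have hsX : Sm (L.US G) oX :=
    Sm.dp d (fun z _ => (contDiff_mul LB.contDiff_al contDiff_const).contDiffAt)
  have hdX : Hom d oX := T.hom_dp d _
  have hS4 := os_N4 (h := h) hr hd hoP' hoX' hsX hdX
  refine ⟨ε₀, max (max (4 * Real.pi - δ') (4 * Real.pi - δf * ρ' ^ 2))
    (max (4 * Real.pi - FT.gp δ δ₂ ε ε₂ * ρ' ^ 2) (FT.lev δ δ₂ ε ε₂)), _, hO, ?_, hS4.ori, ?_⟩
  · have h3 := FT.gp_pos H.pos_δ hδ₂ he1 he2
    have h4 := FT.lev_lt H.pos_δ hδ₂ he1 he2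
    refine max_lt (max_lt (by linarith) ?_) (max_lt ?_ h4)
    · have : 0 < δf * ρ' ^ 2 := by positivity
      linarith
    · have : 0 < FT.gp δ δ₂ ε ε₂ * ρ' ^ 2 := by positivity
      linarith
  · intro D lg rr C B w E₀ η J₀ hD hDS hB hD2 hη n₁ n₂ ι₁ ι₂ _ _ _ _ _ _ _ _ _ _ Q₁ Q₂ T₁ T₂ W₁ W₂
      R₁ R₂ R₀ α V W j hα hα1 I or₁ or₂ hV hW eW oU hoU y b sy cy hy hjb
    have hB1 := ((le_max_left _ _).trans (le_max_left _ _)).trans hB
    have hB2 := ((le_max_right _ _).trans (le_max_left _ _)).trans hB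
    have hB3 := ((le_max_left _ _).trans (le_max_right _ _)).trans hB
    have hB4 := ((le_max_right _ _).trans (le_max_right _ _)).trans hB
    rw [hr'] at I
    have key := a2_core (R := 1) (rJ := rJ) hr hd hUc hoP' hoX' hsX hdX I or₁ or₂ hD hDS hO hL hC
      (by linarith) hB1 hα hα1 (by linarith) hf hf0
      (fun x hx t => hf1 lg rr C B w δ₂ E₀ η J₀ hD2 x hx t)
      (fun x hx τ h0 => (hfE x hx τ).trans (le_trans (by
        have h3 := FU.sq_le_of_off hρ' h0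
        have h4 : δf * ρ' ^ 2 ≤ δf * (‖x.1.2‖ ^ 2 + ‖x.2‖ ^ 2) := by
          have : ρ' ^ 2 ≤ ‖x.1.2‖ ^ 2 + ‖x.2‖ ^ 2 := by linarith
          gcongr
        linarith) hB2)) hD2.lf_f2
      (fun x hx h0 => (FU.en_off hD2 hη hρ' (by linarith) hx h0).trans hB3)
      one_pos (fun x _ => FT.contDiff_c2.contDiffAt)
      (fun x hx h0 => (hD2.level_unif_US hη hx h0).trans hB4)
      (fun x hx h0 => by rw [FT.c2_one h0]; norm_num) hV hW eW y b sy cy hy hjb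
    rw [abs_J_ori hX hUc hoX' hoU]
    exact key

end main

end Crest.Agent.R208.AK
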