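import Crest.Agent.R208.AK20
import Crest.Agent.R208.TP9

/-!
R208, block AK (helper952), part 21: **(A2) for helper382's slice** of the level two data.
-/

set_option autoImplicit false
set_option linter.unusedSectionVars false
set_option linter.unusedVariables false
set_option maxHeartbeats 1600000

open Set Filter Topology MeasureTheory Module
open scoped ContDiff RealInnerProductSpace
open Crest.GeometryTopology.Submanifold
open Crest.Agent.R241.DDefs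
open Crest.Agent.R241.D2
open Crest.Agent.R208.F Crest.Agent.R208.FI Crest.Agent.R208.CW Crest.Agent.R208.T
open Crest.Agent.R208.KG (OK N4)
open Crest.Agent.R208.NN (Wt Rt nuP)
open Crest.Agent.R208.TP (TT CV pu₂ up Slc)
open Crest.Agent.R208.CM (Triv Qd MM)
open Crest.Agent.R208.EX (ED LF)
open Crest.Agent.R208.SN (kGG)

noncomputable section

namespace Crest.Agent.R208.AK

section slc
variable {n N K s m' c c₂ s' s₂ d mK : ℕ} {κ : ℝ} {S : Set (Euc N)} {G : Geo n N κ S}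
  {ρ : Euc N → Euc N} {r' Kr δ δ₂ ε ε₂ : ℝ}
  {PN : Euc N × Euc N → Wt N K →L[ℝ] Wt N K}

/-- **(A2) for the slices** -/
theorem a2_slc (h : GT.Bla G (2 * s + 2)) (hkn : 2 * s + 2 < n)
    (H : NB.NegB G (2 * s + 1) (nuP K) δ PN) (hR : MS.Retr S ρ r' Kr) (he1 : 0 < ε)
    (he2 : 0 < ε₂) (hδ₂ : 0 < δ₂) (hd : d + 1 = 2 * n) (hmK : mK = 3 * (2 * s + 1) + d) :
    ∃ (εg B₀ : ℝ) (oK : (((Euc N × Euc N) × Euc N) × Euc N) × Euc N →
        Ext ((((Euc N × Euc N) × Euc N) × Euc N) × Euc N)),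
      OK G 4 εg ∧ B₀ < 4 * Real.pi ∧ Ori mK (N4 h) oK ∧
      ∀ {D : ED N} {lg : Euc N → Euc N → Euc N} {rr C B w E₀ η : ℝ} {J₀ : ℕ}, D.OK → D.S = S →
        B₀ ≤ D.B →
        FT.D2 G (2 * s + 2) K lg ρ rr C r' Kr B w δ PN ε J₀ E₀ η (DD.NN PN) (FT.RN N K)
          (FT.xiN h PN) δ₂ ε₂ →
        2 * η ≤ Real.pi - (δ / 4) * ε ^ 2 →
      ∀ {m' c c₂ s' s₂ : ℕ} {Y : Set (MM m')} {f₀ : Euc N × Euc N → MM m'}
        {T₁ : Euc N × Euc N → Wt N K →L[ℝ] EuclideanSpace ℝ (Fin (2 * c + 1))}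
        {T₂ : Euc N × Euc N →
          EuclideanSpace ℝ (((Fin K × Fin 2) × Fin N) ⊕ ((Fin K × Fin 2) × Fin N)) →L[ℝ]
            EuclideanSpace ℝ (Fin (2 * c₂))}
        {P₁' : MM m' → EuclideanSpace ℝ (Fin (2 * c + 1)) →L[ℝ] EuclideanSpace ℝ (Fin (2 * c + 1))}
        {P₂' : MM m' → EuclideanSpace ℝ (Fin (2 * c₂)) →L[ℝ] EuclideanSpace ℝ (Fin (2 * c₂))}
        {W₁ : MM m' → (Fin (s' + 1) × Fin 2 → Fin (2 * c + 1)) → ℝ}
        {W₂ : MM m' → (Fin (s₂ + 1) × Fin 2 → Fin (2 * c₂)) → ℝ}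
        {V' : (MM m' × EuclideanSpace ℝ (Fin (2 * c₂))) × EuclideanSpace ℝ (Fin (2 * c + 1)) →
          Ext ((MM m' × EuclideanSpace ℝ (Fin (2 * c₂))) × EuclideanSpace ℝ (Fin (2 * c + 1)))}
        {j : ℕ} {α : Euc N × Euc N → Ext (Euc N × Euc N)}
        {V : ((Euc N × Euc N) ×
          EuclideanSpace ℝ (((Fin K × Fin 2) × Fin N) ⊕ ((Fin K × Fin 2) × Fin N))) × Wt N K →
            Ext (((Euc N × Euc N) ×
              EuclideanSpace ℝ (((Fin K × Fin 2) × Fin N) ⊕ ((Fin K × Fin 2) × Fin N))) × Wt N K)},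
        Slc G PN s Y f₀ T₁ T₂ P₁' P₂' W₁ W₂ V' D j α
          (fun x t => FT.f2 G lg ρ w J₀ (FT.xiN h PN) ε ε₂ (FT.Ph2 G K (FT.RN N K) t x)) V →
        Sm (L.US G) α → Hom 1 α →
      ∀ {oU : Euc N × Euc N → Ext (Euc N × Euc N)}, Ori d (L.US G) oU →
      ∀ (y : Euc N × Euc N → Ext (Euc N × Euc N)) {b : ℕ}, Sm (L.US G) y →
        Cl (L.US G) y → Hom b y → j + b = mK →
        |J d (L.US G) oU (F.pull f₀ (pu₂ (volume : Measure (EuclideanSpace ℝ (Fin (2 * c + 1))))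
            (volume : Measure (EuclideanSpace ℝ (Fin (2 * c₂)))) P₂' (thomF (fun x => 1 - P₂' x) W₂)
            P₁' (thomF (fun y => 1 - P₁' y) W₁) V') * y)| =
        ((LC.del (EuclideanSpace ℝ (Fin (2 * c + 1))) * kGG (Fin (s' + 1))) *
          (LC.del (EuclideanSpace ℝ (Fin (2 * c₂))) * kGG (Fin (s₂ + 1)))) *
          |J mK (N4 h) oK (D.vs (F.pull TU.bN α) (fun k t => KG.F G 4 εg (KG.nest4 k) 1 t) *
            F.pull (fun z => z.1.1.1) y)| := by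
  have hX : Clo d (L.US G) := SB.clo_US h hd
  obtain ⟨εg, B₀, oK, h1, h2, h3, h4⟩ := a2_D2 (K := K) (δ₂ := δ₂) (mK := mK) h (by omega) hkn H hR
    he1 he2 hδ₂ hd (by omega)
  refine ⟨εg, B₀, oK, h1, h2, h3, ?_⟩
  intro D lg rr C B w E₀ η J₀ hD hDS hB hD2 hη m' c c₂ s' s₂ Y f₀ T₁ T₂ P₁' P₂' W₁ W₂ V' j α V hs
    hα hα1 oU hoU y b sy cy hy hjb
  have hP₁ : PField (L.US G) (2 * s + 1) PN := UP.pfield_N H
  have hP₂ : PField (L.US G) (2 * s + 1 + (2 * s + 1)) (DD.NN PN) := DD.pfield_NN hP₁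
  have hQ₂ : PField (L.US G) (2 * s + 1 + (2 * s + 1)) fun z => P₂' (f₀ z) := by
    rw [← two_mul]; exact hs.pf₂
  have I : FU.Iso (L.US G) (2 * s + 1) (2 * s + 1 + (2 * s + 1)) PN (DD.NN PN)
      (fun z => P₁' (f₀ z)) (fun z => P₂' (f₀ z)) T₁ T₂ 3 3
      (thomF (fun x => 1 - P₁' (f₀ x)) fun z => W₁ (f₀ z))
      (thomF (fun x => 1 - P₂' (f₀ x)) fun z => W₂ (f₀ z)) :=
    ⟨hs.sT₁, hs.iT₁, hs.sT₂, hs.iT₂, hs.q₁, hs.q₂, hP₁, hP₂, hs.pf₁, hQ₂,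
      csf_thomF hX.sub hs.or₁, csf_thomF hX.sub hs.or₂⟩
  have key := h4 hD hDS hB hD2 hη hα hα1 I hs.or₁ hs.or₂ hs.rel hs.cv hs.eqv oU hoU y b sy cy hy
    hjb
  have e1 : J d (L.US G) oU (F.pull f₀ (pu₂ (volume : Measure (EuclideanSpace ℝ (Fin (2 * c + 1))))
            (volume : Measure (EuclideanSpace ℝ (Fin (2 * c₂)))) P₂' (thomF (fun x => 1 - P₂' x) W₂)
            P₁' (thomF (fun y => 1 - P₁' y) W₁) V') * y) =
      J d (L.US G) oU (pu₂ volume volume (fun z => P₂' (f₀ z))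
        (thomF (fun x => 1 - P₂' (f₀ x)) fun z => W₂ (f₀ z)) (fun z => P₁' (f₀ z))
        (thomF (fun x => 1 - P₁' (f₀ x)) fun z => W₁ (f₀ z)) (F.pull (up (up f₀)) V') * y) :=
    J_congr' hX fun x hx => by rw [Pi.mul_apply, Pi.mul_apply, hs.pu x hx]
  rw [e1, key]
  congr 1
  ring

end slc

end Crest.Agent.R208.AK
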