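import Crest.Agent.R208.MSDefs
import Crest.Agent.R208.E4a
import Crest.Agent.R208.FI1e

/-!
R208, block MS1b (helper131): smooth retraction onto `S` whose derivative along `S` is the
orthogonal projection, with uniform estimates.
-/

set_option autoImplicit false

open Set Filter Topology MeasureTheory
open scoped ContDiff RealInnerProductSpace Real
open Crest.GeometryTopology.Submanifold
open Crest.Agent.R241.DDefs Crest.Agent.R241.D Crest.Agent.R241.D2

noncomputable section

namespace Crest.Agent.R208.MS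

/-- uniform first and second order Lipschitz estimates near a compact set -/
theorem exists_unif {E F : Type*} [NormedAddCommGroup E] [NormedSpace ℝ E] [FiniteDimensional ℝ E]
    [NormedAddCommGroup F] [NormedSpace ℝ F] {S O : Set E} (hS : IsCompact S) (hO : IsOpen O)
    (hSO : S ⊆ O) {f : E → F} (hf : ContDiffOn ℝ ∞ f O) :
    ∃ δ > 0, ∃ C : ℝ, 1 ≤ C ∧ ∀ x ∈ S, Metric.ball x δ ⊆ O ∧
      (∀ z ∈ Metric.ball x δ, ∀ w ∈ Metric.ball x δ, ‖f z - f w‖ ≤ C * ‖z - w‖) ∧
      (∀ z ∈ Metric.ball x δ, ∀ w ∈ Metric.ball x δ,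
        ‖fderiv ℝ f z - fderiv ℝ f w‖ ≤ C * ‖z - w‖) := by
  obtain ⟨δ, hδ, hδO⟩ := hS.exists_cthickening_subset_open hO hSO
  have hcomp : IsCompact (Metric.cthickening δ S) := hS.cthickening
  have h1 : ContDiffOn ℝ ∞ (fderiv ℝ f) O := hf.fderiv_of_isOpen hO (by simp)
  have hc1 : ContinuousOn (fderiv ℝ f) (Metric.cthickening δ S) := h1.continuousOn.mono hδO
  have hc2 : ContinuousOn (fderiv ℝ (fderiv ℝ f)) (Metric.cthickening δ S) :=
    (h1.continuousOn_fderiv_of_isOpen hO (by simp)).mono hδO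
  obtain ⟨C1, hC1⟩ := hcomp.exists_bound_of_continuousOn hc1
  obtain ⟨C2, hC2'⟩ := hcomp.exists_bound_of_continuousOn
    (f := fun y => ‖fderiv ℝ (fderiv ℝ f) y‖)
    (ContinuousOn.norm (E := E →L[ℝ] E →L[ℝ] F) (f := fderiv ℝ (fderiv ℝ f)) hc2)
  have hC2 : ∀ y ∈ Metric.cthickening δ S, ‖fderiv ℝ (fderiv ℝ f) y‖ ≤ C2 := fun y hy => by
    exact (le_abs_self _).trans (hC2' y hy)
  refine ⟨δ, hδ, max 1 (max C1 C2), le_max_left _ _, fun x hx => ?_⟩
  have hb : Metric.ball x δ ⊆ Metric.cthickening δ S := fun y hy =>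
    Metric.mem_cthickening_of_dist_le y x δ S hx (Metric.mem_ball.1 hy).le
  have hbO : Metric.ball x δ ⊆ O := hb.trans hδO
  refine ⟨hbO, fun z hz w hw => ?_, fun z hz w hw => ?_⟩
  · refine (convex_ball x δ).norm_image_sub_le_of_norm_fderiv_le (𝕜 := ℝ) (fun y hy => ?_)
      (fun y hy => ?_) hw hz
    · exact (hf.contDiffAt (hO.mem_nhds (hbO hy))).differentiableAt (by simp)
    · exact (hC1 y (hb hy)).trans ((le_max_left _ _).trans (le_max_right _ _))
  · refine (convex_ball x δ).norm_image_sub_le_of_norm_fderiv_le (𝕜 := ℝ) (fun y hy => ?_)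
      (fun y hy => ?_) hw hz
    · exact (h1.contDiffAt (hO.mem_nhds (hbO hy))).differentiableAt (by simp)
    · exact (hC2 y (hb hy)).trans ((le_max_right _ _).trans (le_max_right _ _))

variable {n N : ℕ} {κ : ℝ} {S : Set (Euc N)} {G : Geo n N κ S} {D : ℝ}

theorem P_self {x v : Euc N} (hx : x ∈ S) (hv : v ∈ G.T x) : G.P x v = v := by
  rw [G.P_eq x hx]
  exact Submodule.starProjection_eq_self_iff.2 hv

theorem P_mem {x : Euc N} (hx : x ∈ S) (v : Euc N) : G.P x v ∈ G.T x := by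
  rw [G.P_eq x hx]
  exact Submodule.starProjection_apply_mem _ _

/-- derivative of a retraction along `S` -/
theorem retract_fderiv {R : Euc N → Euc N} {O : Set (Euc N)} (hO : IsOpen O) (hSO : S ⊆ O)
    (hR : ContDiffOn ℝ ∞ R O) (hRS : MapsTo R O S) (hRid : ∀ x ∈ S, R x = x) {x : Euc N}
    (hx : x ∈ S) : (∀ v, fderiv ℝ R x v ∈ G.T x) ∧ ∀ v ∈ G.T x, fderiv ℝ R x v = v := by
  have hd : HasFDerivAt R (fderiv ℝ R x) x :=
    ((hR.contDiffAt (hO.mem_nhds (hSO hx))).differentiableAt (by simp)).hasFDerivAt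
  constructor
  · intro v
    have hc : HasDerivAt (fun t : ℝ => x + t • v) v 0 := by
      simpa using ((hasDerivAt_id (0:ℝ)).smul_const v).const_add x
    have hd' : HasFDerivAt R (fderiv ℝ R x) (x + (0:ℝ) • v) := by simpa using hd
    have h1 : HasDerivAt (fun t : ℝ => R (x + t • v)) (fderiv ℝ R x v) 0 :=
      hd'.comp_hasDerivAt (0:ℝ) hc
    have h2 := G.deriv_mem (fun t : ℝ => R (x + t • v)) (fderiv ℝ R x v) 0 ?_ h1
    · simpa [hRid x hx] using h2
    · have h3 : ContinuousAt (fun t : ℝ => x + t • v) 0 := by fun_prop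
      have h4 : O ∈ 𝓝 (x + (0:ℝ) • v) := by simpa using hO.mem_nhds (hSO hx)
      filter_upwards [h3.preimage_mem_nhds h4] with t ht
      exact hRS ht
  · intro v hv
    obtain ⟨c, c', hc0, hc'0, hev⟩ := G.exists_geod x hx v hv
    have h0 := hev.self_of_nhds
    have hcd : HasDerivAt c v 0 := hc'0 ▸ h0.2.1
    have hd' : HasFDerivAt R (fderiv ℝ R x) (c 0) := by rw [hc0]; exact hd
    have h1 : HasDerivAt (fun t : ℝ => R (c t)) (fderiv ℝ R x v) 0 := hd'.comp_hasDerivAt (0:ℝ) hcd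
    have h2 : HasDerivAt (fun t : ℝ => R (c t)) v 0 := by
      refine hcd.congr_of_eventuallyEq ?_
      filter_upwards [hev] with t ht
      exact hRid _ ht.1
    exact h1.unique h2

/-- the retraction with orthogonal derivative along `S` -/
theorem exists_orth_retract (hB : Bl n N κ S G D) :
    ∃ (ρ : Euc N → Euc N) (O : Set (Euc N)), IsOpen O ∧ S ⊆ O ∧ ContDiffOn ℝ ∞ ρ O ∧
      MapsTo ρ O S ∧ (∀ x ∈ S, ρ x = x) ∧ ∀ x ∈ S, fderiv ℝ ρ x = G.P x := by
  obtain ⟨R, O, hO, hSO, hR, hRS, hRid⟩ :=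
    E.exists_retract (FI.clo_of_isSubmanifold hB.sub hB.cpt)
  set m : Euc N → Euc N := fun q => R q + G.P (R q) (q - R q) with hm
  have hmO : ContDiffOn ℝ ∞ m O := by
    refine hR.add ?_
    exact ((G.contDiff_P.comp_contDiffOn hR).clm_apply (contDiffOn_id.sub hR))
  set O' : Set (Euc N) := O ∩ m ⁻¹' O with hO'
  have hO'o : IsOpen O' := hmO.continuousOn.isOpen_inter_preimage hO hO
  have hmS : ∀ x ∈ S, m x = x := by
    intro x hx
    simp only [hm, hRid x hx, sub_self, map_zero, add_zero]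
  refine ⟨fun q => R (m q), O', hO'o, fun x hx => ⟨hSO hx, by rw [mem_preimage, hmS x hx]; exact hSO hx⟩,
    ?_, fun q hq => hRS hq.2, fun x hx => by simp only [hmS x hx, hRid x hx], fun x hx => ?_⟩
  · exact hR.comp (hmO.mono inter_subset_left) fun q hq => hq.2
  · obtain ⟨hT, hTid⟩ := retract_fderiv (G := G) hO hSO hR hRS hRid hx
    have hRd : HasFDerivAt R (fderiv ℝ R x) x :=
      ((hR.contDiffAt (hO.mem_nhds (hSO hx))).differentiableAt (by simp)).hasFDerivAt
    have hPd : HasFDerivAt (fun q => G.P (R q)) (fderiv ℝ (fun q => G.P (R q)) x) x := by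
      refine (DifferentiableAt.hasFDerivAt ?_)
      exact ((G.contDiff_P.contDiffAt (x := R x)).differentiableAt (by simp)).comp x
        hRd.differentiableAt
    have hid : HasFDerivAt (fun q : Euc N => q - R q) (ContinuousLinearMap.id ℝ _ - fderiv ℝ R x) x :=
      (hasFDerivAt_id x).sub hRd
    have hmd : HasFDerivAt m (G.P x) x := by
      have h1 := hRd.add (hPd.clm_apply hid)
      refine h1.congr_fderiv ?_
      ext1 v
      simp only [add_apply, ContinuousLinearMap.comp_apply, sub_apply,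
        hRid x hx, sub_self, map_zero, ContinuousLinearMap.id_apply,
        add_zero, map_sub]
      rw [P_self hx (hT v)]
      abel
    have hRd' : HasFDerivAt R (fderiv ℝ R x) (m x) := by rw [hmS x hx]; exact hRd
    have h2 : HasFDerivAt (fun q => R (m q)) ((fderiv ℝ R x).comp (G.P x)) x := hRd'.comp x hmd
    rw [h2.fderiv]
    ext1 v
    rw [ContinuousLinearMap.comp_apply, hTid _ (P_mem hx v)]

/-- **MS1b** -/
theorem exists_Retr (hB : Bl n N κ S G D) :
    ∃ (ρ : Euc N → Euc N) (r C : ℝ), Retr S ρ r C ∧ ∀ x ∈ S, fderiv ℝ ρ x = G.P x := by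
  obtain ⟨ρ, O, hO, hSO, hρ, hρS, hρid, hρd⟩ := exists_orth_retract hB
  obtain ⟨δ, hδ, C, hC1, hC⟩ := exists_unif hB.cpt hO hSO hρ
  refine ⟨ρ, δ / (2 + C), C, ?_, hρd⟩
  have hC0 : 0 < 2 + C := by linarith
  have hrδ : δ / (2 + C) < δ := by
    rw [div_lt_iff₀ hC0]
    nlinarith
  have hb : ∀ x q : Euc N, ‖q - x‖ < δ / (2 + C) → q ∈ Metric.ball x δ := fun x q hq => by
    rw [Metric.mem_ball, dist_eq_norm]
    exact hq.trans hrδ
  have hP1 : ∀ x ∈ S, ‖fderiv ℝ ρ x‖ ≤ 1 := by
    intro x hx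
    rw [hρd x hx, G.P_eq x hx]
    exact Submodule.starProjection_norm_le _
  refine ⟨by positivity, hC1, fun x hx q hq => ?_, fun x hx q hq => ?_, hρid, fun x hx q hq => ?_,
    fun x hx q hq => ?_, fun x hx q hq => ?_⟩
  · exact hρ.contDiffAt (hO.mem_nhds ((hC x hx).1 (hb x q hq)))
  · exact hρS ((hC x hx).1 (hb x q hq))
  · have hqb := hb x q hq
    have hy : ρ q ∈ S := hρS ((hC x hx).1 hqb)
    have h1 : ‖q - ρ q‖ < δ := by
      have h2 := (hC x hx).2.1 q hqb x (Metric.mem_ball_self hδ)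
      rw [hρid x hx] at h2
      have h3 : q - ρ q = (q - x) - (ρ q - x) := by abel
      rw [h3]
      have h4 := norm_sub_le (q - x) (ρ q - x)
      have h5 : (2 + C) * ‖q - x‖ < δ := by
        rw [lt_div_iff₀ hC0] at hq
        linarith
      nlinarith [norm_nonneg (q - x)]
    have h6 := (hC _ hy).2.2 q (by rw [Metric.mem_ball, dist_eq_norm]; exact h1) (ρ q)
      (Metric.mem_ball_self hδ)
    have h7 : fderiv ℝ ρ q = fderiv ℝ ρ (ρ q) + (fderiv ℝ ρ q - fderiv ℝ ρ (ρ q)) := by abel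
    rw [h7]
    exact (norm_add_le _ _).trans (add_le_add (hP1 _ hy) h6)
  · exact (hC x hx).2.2 q (hb x q hq) x (Metric.mem_ball_self hδ)
  · have hqb := hb x q hq
    have hxb := Metric.mem_ball_self (x := x) hδ
    have hseg : segment ℝ x q ⊆ Metric.ball x δ := (convex_ball x δ).segment_subset hxb hqb
    have h1 : ‖ρ q - ρ x - fderiv ℝ ρ q (q - x)‖ ≤ (C * ‖q - x‖) * ‖q - x‖ := by
      refine (convex_segment x q).norm_image_sub_le_of_norm_fderiv_le' (𝕜 := ℝ) (fun y hy => ?_)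
        (fun y hy => ?_) (left_mem_segment ℝ x q) (right_mem_segment ℝ x q)
      · exact (hρ.contDiffAt (hO.mem_nhds ((hC x hx).1 (hseg hy)))).differentiableAt (by simp)
      · refine ((hC x hx).2.2 y (hseg hy) q hqb).trans ?_
        refine mul_le_mul_of_nonneg_left ?_ (by linarith)
        rw [norm_sub_rev]
        obtain ⟨a, b, ha, hb', hab, rfl⟩ := hy
        have h8 : q - (a • x + b • q) = a • (q - x) := by
          have : b = 1 - a := by linarith
          rw [this]
          module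
        rw [h8, norm_smul, Real.norm_of_nonneg ha]
        nlinarith [norm_nonneg (q - x)]
    rw [hρid x hx] at h1
    calc _ ≤ (C * ‖q - x‖) * ‖q - x‖ := h1
      _ = C * ‖q - x‖ ^ 2 := by ring

end Crest.Agent.R208.MS
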