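import Crest.Agent.R208.AK2
import Crest.Agent.R208.MS1b

/-!
R208, block AK (helper952), part 3: two families of loops whose linearisations are joined by a
path of negative fields are homotopic below the level.
-/

set_option autoImplicit false
set_option linter.unusedSectionVars false

open Set Filter Topology MeasureTheory
open scoped ContDiff RealInnerProductSpace Interval
open Crest.GeometryTopology.Submanifold
open Crest.Agent.R241.DDefs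
open Crest.Agent.R241.D2
open Crest.Agent.R208.SV (ixd ix)

noncomputable section

namespace Crest.Agent.R208.AK

variable {n N : ℕ} {κ : ℝ} {S : Set (Euc N)} {G : Geo n N κ S}
  {E V : Type*} [NormedAddCommGroup E] [NormedSpace ℝ E]
  [NormedAddCommGroup V] [NormedSpace ℝ V]

lemma LFam.mono {K : Set E} {P : E → V →L[ℝ] V} {T : ℝ} {g : E → Euc N × Euc N}
    {F : (E × V) × ℝ → Euc N} {r r' : ℝ} (h : LFam G K P T g F r) (hr' : 0 < r')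
    (hrr' : r' ≤ r) : LFam G K P T g F r' where
  rpos := hr'
  smooth x hx ζ hP hζ t := h.smooth x hx ζ hP (hζ.trans_le hrr') t
  mem x hx ζ hP hζ t := h.mem x hx ζ hP (hζ.trans_le hrr') t
  per x hx ζ hP hζ t := h.per x hx ζ hP (hζ.trans_le hrr') t
  zero := h.zero

lemma LFam.zero_mem {K : Set E} {P : E → V →L[ℝ] V} {T : ℝ} {g : E → Euc N × Euc N}
    {F : (E × V) × ℝ → Euc N} {r : ℝ} (h : LFam G K P T g F r) {x : E} (hx : x ∈ K) (t : ℝ) :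
    ContDiffAt ℝ ∞ F ((x, 0), t) :=
  h.smooth x hx 0 (map_zero _) (by simpa using h.rpos) t

/-- smooth path of linear families of fields along the geodesics `g x`, `x ∈ K`, `τ ∈ [0,1]` -/
structure LPath (G : Geo n N κ S) (K : Set E) (P : E → V →L[ℝ] V) (T : ℝ)
    (g : E → Euc N × Euc N) (A : ((E × ℝ) × V) × ℝ → Euc N) (δ : ℝ) : Prop where
  smooth : ∀ x ∈ K, ∀ τ ∈ Icc (0:ℝ) 1, ∀ ζ : V, P x ζ = ζ → ∀ t,
    ContDiffAt ℝ ∞ A (((x, τ), ζ), t)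
  hom : ∀ x ∈ K, ∀ τ ∈ Icc (0:ℝ) 1, ∀ ζ : V, P x ζ = ζ → ∀ s t : ℝ,
    A (((x, τ), s • ζ), t) = s • A (((x, τ), ζ), t)
  tan : ∀ x ∈ K, ∀ τ ∈ Icc (0:ℝ) 1, ∀ ζ : V, P x ζ = ζ → ∀ t,
    A (((x, τ), ζ), t) ∈ G.T (fl G (g x, t)).1
  per : ∀ x ∈ K, ∀ τ ∈ Icc (0:ℝ) 1, ∀ ζ : V, P x ζ = ζ → ∀ t,
    A (((x, τ), ζ), t + T) = A (((x, τ), ζ), t)
  pos : 0 < δ
  neg : ∀ x ∈ K, ∀ τ ∈ Icc (0:ℝ) 1, ∀ ζ : V, P x ζ = ζ →
    ix G (g x) 0 T (fun t => A (((x, τ), ζ), t)) (deriv fun t => A (((x, τ), ζ), t))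
      (fun t => A (((x, τ), ζ), t)) (deriv fun t => A (((x, τ), ζ), t)) ≤ -δ * ‖ζ‖ ^ 2

section join

variable (F0 F1 : (E × V) × ℝ → Euc N) (A : ((E × ℝ) × V) × ℝ → Euc N)

/-- the interpolation in `ℝ^N` -/
def jn (p : ((E × ℝ) × V) × ℝ) : Euc N :=
  F0 ((p.1.1.1, 0), p.2) + A p +
    (1 - p.1.1.2) • (F0 ((p.1.1.1, p.1.2), p.2) - F0 ((p.1.1.1, 0), p.2) -
      A (((p.1.1.1, 0), p.1.2), p.2)) +
    p.1.1.2 • (F1 ((p.1.1.1, p.1.2), p.2) - F0 ((p.1.1.1, 0), p.2) -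
      A (((p.1.1.1, 1), p.1.2), p.2))

variable {F0 F1 A} {K : Set E} {P : E → V →L[ℝ] V} {T : ℝ} {g : E → Euc N × Euc N} {r δ : ℝ}

lemma contDiffAt_jn (h0 : LFam G K P T g F0 r) (h1 : LFam G K P T g F1 r)
    (hA : LPath G K P T g A δ) {x : E} (hx : x ∈ K) {τ : ℝ} (hτ : τ ∈ Icc (0:ℝ) 1) {ζ : V}
    (hζP : P x ζ = ζ) (hζ : ‖ζ‖ < r) (t : ℝ) :
    ContDiffAt ℝ ∞ (jn F0 F1 A) (((x, τ), ζ), t) := by
  have c1 : ContDiffAt ℝ ∞ (fun p : ((E × ℝ) × V) × ℝ => F0 ((p.1.1.1, 0), p.2))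
      (((x, τ), ζ), t) :=
    ContDiffAt.comp (g := F0) (f := fun p : ((E × ℝ) × V) × ℝ => ((p.1.1.1, 0), p.2))
      (((x, τ), ζ), t) (h0.zero_mem hx t) (by fun_prop)
  have c2 : ContDiffAt ℝ ∞ (fun p : ((E × ℝ) × V) × ℝ => F0 ((p.1.1.1, p.1.2), p.2))
      (((x, τ), ζ), t) :=
    ContDiffAt.comp (g := F0) (f := fun p : ((E × ℝ) × V) × ℝ => ((p.1.1.1, p.1.2), p.2))
      (((x, τ), ζ), t) (h0.smooth x hx ζ hζP hζ t) (by fun_prop)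
  have c3 : ContDiffAt ℝ ∞ (fun p : ((E × ℝ) × V) × ℝ => F1 ((p.1.1.1, p.1.2), p.2))
      (((x, τ), ζ), t) :=
    ContDiffAt.comp (g := F1) (f := fun p : ((E × ℝ) × V) × ℝ => ((p.1.1.1, p.1.2), p.2))
      (((x, τ), ζ), t) (h1.smooth x hx ζ hζP hζ t) (by fun_prop)
  have c4 : ContDiffAt ℝ ∞ (fun p : ((E × ℝ) × V) × ℝ => A (((p.1.1.1, 0), p.1.2), p.2))
      (((x, τ), ζ), t) :=
    ContDiffAt.comp (g := A) (f := fun p : ((E × ℝ) × V) × ℝ => (((p.1.1.1, 0), p.1.2), p.2))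
      (((x, τ), ζ), t) (hA.smooth x hx 0 ⟨le_rfl, zero_le_one⟩ ζ hζP t) (by fun_prop)
  have c5 : ContDiffAt ℝ ∞ (fun p : ((E × ℝ) × V) × ℝ => A (((p.1.1.1, 1), p.1.2), p.2))
      (((x, τ), ζ), t) :=
    ContDiffAt.comp (g := A) (f := fun p : ((E × ℝ) × V) × ℝ => (((p.1.1.1, 1), p.1.2), p.2))
      (((x, τ), ζ), t) (hA.smooth x hx 1 ⟨zero_le_one, le_rfl⟩ ζ hζP t) (by fun_prop)
  have c6 := hA.smooth x hx τ hτ ζ hζP t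
  have d1 : ContDiffAt ℝ ∞ (fun p : ((E × ℝ) × V) × ℝ => (1 - p.1.1.2 : ℝ))
      (((x, τ), ζ), t) := by fun_prop
  have d2 : ContDiffAt ℝ ∞ (fun p : ((E × ℝ) × V) × ℝ => p.1.1.2)
      (((x, τ), ζ), t) := by fun_prop
  exact ((c1.add c6).add (d1.smul ((c2.sub c1).sub c4))).add (d2.smul ((c3.sub c1).sub c5))

lemma jn_per (h0 : LFam G K P T g F0 r) (h1 : LFam G K P T g F1 r)
    (hA : LPath G K P T g A δ) {x : E} (hx : x ∈ K) {τ : ℝ} (hτ : τ ∈ Icc (0:ℝ) 1) {ζ : V}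
    (hζP : P x ζ = ζ) (hζ : ‖ζ‖ < r) (t : ℝ) :
    jn F0 F1 A (((x, τ), ζ), t + T) = jn F0 F1 A (((x, τ), ζ), t) := by
  simp only [jn]
  rw [h0.per x hx 0 (map_zero _) (by simpa using h0.rpos), h0.per x hx ζ hζP hζ,
    h1.per x hx ζ hζP hζ, hA.per x hx τ hτ ζ hζP, hA.per x hx 0 ⟨le_rfl, zero_le_one⟩ ζ hζP,
    hA.per x hx 1 ⟨zero_le_one, le_rfl⟩ ζ hζP]

lemma jn_zero (h0 : LFam G K P T g F0 r) (h1 : LFam G K P T g F1 r)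
    (hA : LPath G K P T g A δ) {x : E} (hx : x ∈ K) {τ : ℝ} (hτ : τ ∈ Icc (0:ℝ) 1) (t : ℝ) :
    jn F0 F1 A (((x, τ), 0), t) = (fl G (g x, t)).1 := by
  have hz : ∀ τ ∈ Icc (0:ℝ) 1, A (((x, τ), 0), t) = 0 := fun τ hτ => by
    have := hA.hom x hx τ hτ 0 (map_zero _) 0 t
    simpa using this
  simp only [jn]
  rw [hz τ hτ, hz 0 ⟨le_rfl, zero_le_one⟩, hz 1 ⟨zero_le_one, le_rfl⟩, h0.zero x hx,
    h1.zero x hx]
  simp

lemma jn_left (ζ : V) (x : E) (t : ℝ) :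
    jn F0 F1 A (((x, 0), ζ), t) = F0 ((x, ζ), t) := by
  simp only [jn]
  simp

lemma jn_right (ζ : V) (x : E) (t : ℝ) :
    jn F0 F1 A (((x, 1), ζ), t) = F1 ((x, ζ), t) := by
  simp only [jn]
  simp

/-- derivative of the interpolation along rays -/
lemma hasDerivAt_jn (h0 : LFam G K P T g F0 r) (h1 : LFam G K P T g F1 r)
    (hA : LPath G K P T g A δ)
    (e0 : ∀ x ∈ K, ∀ ζ : V, P x ζ = ζ → ∀ t, A (((x, 0), ζ), t) = lA F0 x ζ t)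
    (e1 : ∀ x ∈ K, ∀ ζ : V, P x ζ = ζ → ∀ t, A (((x, 1), ζ), t) = lA F1 x ζ t)
    {x : E} (hx : x ∈ K) {τ : ℝ} (hτ : τ ∈ Icc (0:ℝ) 1) {ζ : V}
    (hζP : P x ζ = ζ) (t : ℝ) :
    HasDerivAt (fun s : ℝ => jn F0 F1 A (((x, τ), s • ζ), t)) (A (((x, τ), ζ), t)) 0 := by
  have k0 : HasDerivAt (fun s : ℝ => F0 ((x, s • ζ), t)) (lA F0 x ζ t) 0 := by
    have h2 : HasFDerivAt F0 (fderiv ℝ F0 ((x, 0), t)) ((x, (0:ℝ) • ζ), t) := by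
      rw [zero_smul]
      exact ((h0.zero_mem hx t).differentiableAt (by simp)).hasFDerivAt
    exact h2.comp_hasDerivAt (0:ℝ) (hasDerivAt_ray (t := t) (x := x) (ζ := ζ) 0)
  have k1 : HasDerivAt (fun s : ℝ => F1 ((x, s • ζ), t)) (lA F1 x ζ t) 0 := by
    have h2 : HasFDerivAt F1 (fderiv ℝ F1 ((x, 0), t)) ((x, (0:ℝ) • ζ), t) := by
      rw [zero_smul]
      exact ((h1.zero_mem hx t).differentiableAt (by simp)).hasFDerivAt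
    exact h2.comp_hasDerivAt (0:ℝ) (hasDerivAt_ray (t := t) (x := x) (ζ := ζ) 0)
  have kA : ∀ τ ∈ Icc (0:ℝ) 1, HasDerivAt (fun s : ℝ => A (((x, τ), s • ζ), t))
      (A (((x, τ), ζ), t)) 0 := fun τ hτ => by
    have h2 : (fun s : ℝ => A (((x, τ), s • ζ), t)) = fun s : ℝ => s • A (((x, τ), ζ), t) :=
      funext fun s => hA.hom x hx τ hτ ζ hζP s t
    rw [h2]
    simpa using (hasDerivAt_id (0:ℝ)).smul_const (A (((x, τ), ζ), t))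
  have k2 := ((kA τ hτ).const_add (F0 ((x, 0), t))).fun_add
    ((((k0.sub_const (F0 ((x, 0), t))).fun_sub (kA 0 ⟨le_rfl, zero_le_one⟩)).const_smul
      (1 - τ)))
  have k3 := k2.fun_add
    ((((k1.sub_const (F0 ((x, 0), t))).fun_sub (kA 1 ⟨zero_le_one, le_rfl⟩)).const_smul τ))
  rw [e0 x hx ζ hζP, e1 x hx ζ hζP, sub_self, sub_self, smul_zero, smul_zero, add_zero,
    add_zero] at k3
  exact k3

/-- **join of two families** -/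
theorem join {D : ℝ} (hB : Bl n N κ S G D) (hK : IsCompact K) (hT : 0 < T)
    (hg : ∀ x ∈ K, g x ∈ TS G)
    (h0 : LFam G K P T g F0 r) (h1 : LFam G K P T g F1 r) (hA : LPath G K P T g A δ)
    (e0 : ∀ x ∈ K, ∀ ζ : V, P x ζ = ζ → ∀ t, A (((x, 0), ζ), t) = lA F0 x ζ t)
    (e1 : ∀ x ∈ K, ∀ ζ : V, P x ζ = ζ → ∀ t, A (((x, 1), ζ), t) = lA F1 x ζ t) :
    ∃ (H : ((E × ℝ) × V) × ℝ → Euc N) (r' : ℝ), 0 < r' ∧ r' ≤ r ∧
      LFam G (K ×ˢ Icc (0:ℝ) 1) (fun p => P p.1) T (fun p => g p.1) H r' ∧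
      (∀ x ∈ K, ∀ ζ : V, P x ζ = ζ → ‖ζ‖ < r' → ∀ t, H (((x, 0), ζ), t) = F0 ((x, ζ), t)) ∧
      (∀ x ∈ K, ∀ ζ : V, P x ζ = ζ → ‖ζ‖ < r' → ∀ t, H (((x, 1), ζ), t) = F1 ((x, ζ), t)) ∧
      (∀ x ∈ K, ∀ τ ∈ Icc (0:ℝ) 1, ∀ ζ : V, P x ζ = ζ → ‖ζ‖ < r' →
        EnT T (fun t => H (((x, τ), ζ), t)) ≤
          (1 / 2) * (∫ t in (0:ℝ)..T, ‖(fl G (g x, t)).2‖ ^ 2) - (δ / 4) * ‖ζ‖ ^ 2) := by
  obtain ⟨R, O, hO, hSO, hR, hRS, hRid⟩ :=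
    Crest.Agent.R208.E.exists_retract (FI.clo_of_isSubmanifold hB.sub hB.cpt)
  -- a uniform radius on which `jn` stays in `O`
  obtain ⟨r1, hr1, hr1O⟩ : ∃ r1 > 0, ∀ x ∈ K, ∀ τ ∈ Icc (0:ℝ) 1, ∀ ζ : V, ‖ζ‖ < r1 →
      ∀ t ∈ Icc (0:ℝ) T, jn F0 F1 A (((x, τ), ζ), t) ∈ O := by
    set Q : Set (((E × ℝ) × V) × ℝ) :=
      (fun p : (E × ℝ) × ℝ => ((p.1, (0 : V)), p.2)) '' ((K ×ˢ Icc (0:ℝ) 1) ×ˢ Icc 0 T) with hQ
    have hQc : IsCompact Q := ((hK.prod isCompact_Icc).prod isCompact_Icc).image (by fun_prop)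
    have hUQ : (jn F0 F1 A) ⁻¹' O ∈ 𝓝ˢ Q := by
      rw [mem_nhdsSet_iff_forall]
      rintro _ ⟨⟨⟨x, τ⟩, t⟩, ⟨⟨hx, hτ⟩, ht⟩, rfl⟩
      have c1 := (contDiffAt_jn h0 h1 hA hx hτ (map_zero (P x)) (by simpa using h0.rpos)
        t).continuousAt
      refine c1.preimage_mem_nhds (hO.mem_nhds (hSO ?_))
      have h2 := jn_zero h0 h1 hA hx hτ t
      simp only at h2 ⊢
      rw [h2]
      exact (fl_mem G (hg x hx) t).1
    obtain ⟨O', hO', hQO', hO'U⟩ := mem_nhdsSet_iff_exists.1 hUQ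
    obtain ⟨ε, hε, hεO⟩ := hQc.exists_thickening_subset_open hO' hQO'
    refine ⟨ε, hε, fun x hx τ hτ ζ hζ t ht => hO'U (hεO ?_)⟩
    rw [Metric.mem_thickening_iff]
    refine ⟨(((x, τ), 0), t), ⟨((x, τ), t), ⟨⟨hx, hτ⟩, ht⟩, rfl⟩, ?_⟩
    rw [dist_eq_norm]
    have : ((((x, τ), ζ), t) : ((E × ℝ) × V) × ℝ) - (((x, τ), 0), t) = ((0, ζ), 0) := by
      ext <;> simp
    rw [this, norm_vec]
    exact hζ
  set r2 := min r1 r with hr2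
  have hr2p : 0 < r2 := lt_min hr1 h0.rpos
  have hO2 : ∀ x ∈ K, ∀ τ ∈ Icc (0:ℝ) 1, ∀ ζ : V, P x ζ = ζ → ‖ζ‖ < r2 → ∀ t,
      jn F0 F1 A (((x, τ), ζ), t) ∈ O := by
    intro x hx τ hτ ζ hζP hζ t
    have hper : Function.Periodic (fun t => jn F0 F1 A (((x, τ), ζ), t)) T := fun t =>
      jn_per h0 h1 hA hx hτ hζP (hζ.trans_le (min_le_right _ _)) t
    obtain ⟨y, hy, hty⟩ := hper.exists_mem_Ico₀ hT t
    rw [hty]
    exact hr1O x hx τ hτ ζ (hζ.trans_le (min_le_left _ _)) y ⟨hy.1, hy.2.le⟩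
  set H : ((E × ℝ) × V) × ℝ → Euc N := fun p => R (jn F0 F1 A p) with hH
  have hLF : LFam G (K ×ˢ Icc (0:ℝ) 1) (fun p => P p.1) T (fun p => g p.1) H r2 := by
    refine ⟨hr2p, ?_, ?_, ?_, ?_⟩
    · rintro ⟨x, τ⟩ ⟨hx, hτ⟩ ζ hζP hζ t
      have c1 := contDiffAt_jn h0 h1 hA hx hτ hζP (hζ.trans_le (min_le_right _ _)) t
      exact ContDiffAt.comp (((x, τ), ζ), t)
        (hR.contDiffAt (hO.mem_nhds (hO2 x hx τ hτ ζ hζP hζ t))) c1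
    · rintro ⟨x, τ⟩ ⟨hx, hτ⟩ ζ hζP hζ t
      exact hRS (hO2 x hx τ hτ ζ hζP hζ t)
    · rintro ⟨x, τ⟩ ⟨hx, hτ⟩ ζ hζP hζ t
      simp only [hH]
      rw [jn_per h0 h1 hA hx hτ hζP (hζ.trans_le (min_le_right _ _)) t]
    · rintro ⟨x, τ⟩ ⟨hx, hτ⟩ t
      simp only [hH]
      rw [jn_zero h0 h1 hA hx hτ t]
      exact hRid _ (fl_mem G (hg x hx) t).1
  -- linearisation
  have hlin : ∀ x ∈ K, ∀ τ ∈ Icc (0:ℝ) 1, ∀ ζ : V, P x ζ = ζ → ∀ t,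
      lA H (x, τ) ζ t = A (((x, τ), ζ), t) := by
    intro x hx τ hτ ζ hζP t
    have hxS : (fl G (g x, t)).1 ∈ S := (fl_mem G (hg x hx) t).1
    have k1 := hasDerivAt_jn h0 h1 hA e0 e1 hx hτ hζP t
    have k2 : HasDerivAt (fun s : ℝ => H (((x, τ), s • ζ), t))
        (fderiv ℝ R (fl G (g x, t)).1 (A (((x, τ), ζ), t))) 0 := by
      have h2 : HasFDerivAt R (fderiv ℝ R (fl G (g x, t)).1)
          (jn F0 F1 A (((x, τ), (0:ℝ) • ζ), t)) := by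
        rw [zero_smul, jn_zero h0 h1 hA hx hτ t]
        exact ((hR.contDiffAt (hO.mem_nhds (hSO hxS))).differentiableAt (by simp)).hasFDerivAt
      exact h2.comp_hasDerivAt (0:ℝ) k1
    have k3 : HasDerivAt (fun s : ℝ => H (((x, τ), s • ζ), t)) (lA H (x, τ) ζ t) 0 := by
      have h2 : HasFDerivAt H (fderiv ℝ H (((x, τ), 0), t)) (((x, τ), (0:ℝ) • ζ), t) := by
        rw [zero_smul]
        exact ((hLF.zero_mem (x := (x, τ)) ⟨hx, hτ⟩ t).differentiableAt (by simp)).hasFDerivAt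
      exact h2.comp_hasDerivAt (0:ℝ) (hasDerivAt_ray (t := t) (x := (x, τ)) (ζ := ζ) 0)
    rw [k3.unique k2]
    exact (MS.retract_fderiv (G := G) hO hSO hR hRS hRid hxS).2 _ (hA.tan x hx τ hτ ζ hζP t)
  have hneg : ∀ p ∈ K ×ˢ Icc (0:ℝ) 1, ∀ ζ : V, P p.1 ζ = ζ →
      ix G (g p.1) 0 T (lA H p ζ) (lA' H p ζ) (lA H p ζ) (lA' H p ζ) ≤ -δ * ‖ζ‖ ^ 2 := by
    rintro ⟨x, τ⟩ ⟨hx, hτ⟩ ζ hζP
    have h2 : lA H (x, τ) ζ = fun t => A (((x, τ), ζ), t) :=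
      funext fun t => hlin x hx τ hτ ζ hζP t
    have h3 : lA' H (x, τ) ζ = deriv fun t => A (((x, τ), ζ), t) := by
      funext t
      have h4 := hasDerivAt_lA ((hLF.zero_mem (x := (x, τ)) ⟨hx, hτ⟩ t).of_le three_le) ζ
      rw [h2] at h4
      exact h4.deriv.symm
    rw [h2, h3]
    exact hA.neg x hx τ hτ ζ hζP
  obtain ⟨r', hr', hr'r, hen⟩ := energy_le (hK.prod isCompact_Icc) hT.le
    (g := fun p : E × ℝ => g p.1) (fun p hp => hg p.1 hp.1) hLF hA.pos hneg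
  refine ⟨H, r', hr', hr'r.trans (min_le_right _ _), hLF.mono hr' hr'r, ?_, ?_, ?_⟩
  · intro x hx ζ hζP hζ t
    simp only [hH]
    rw [jn_left]
    exact hRid _ (h0.mem x hx ζ hζP (hζ.trans_le (hr'r.trans (min_le_right _ _))) t)
  · intro x hx ζ hζP hζ t
    simp only [hH]
    rw [jn_right]
    exact hRid _ (h1.mem x hx ζ hζP (hζ.trans_le (hr'r.trans (min_le_right _ _))) t)
  · intro x hx τ hτ ζ hζP hζ
    exact hen (x, τ) ⟨hx, hτ⟩ ζ hζP hζ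

end join

end Crest.Agent.R208.AK
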