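import Crest.Agent.R208.KG4

/-!
Row 208, block KG (helper10), part KG5: the energy of the rounded chains:
`En (F z 0) ≤ m² π / 4 - c Σ ‖v_i - v_{i-1}‖²`.
-/

set_option autoImplicit false

open Set Filter Topology MeasureTheory
open scoped ContDiff RealInnerProductSpace Interval
open Crest.GeometryTopology.Submanifold
open Crest.Agent.R241.DDefs
open Crest.Agent.R241.D2
open Crest.Agent.R241.D3c

noncomputable section

namespace Crest.Agent.R208.KG

variable {n N : ℕ} {κ : ℝ} {S : Set (Euc N)} {G : Geo n N κ S} {m : ℕ} {ε : ℝ}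
  {x a b : Euc N}

/-! ### the corner on `[-π/2, π/2]` -/

lemma norm_deriv_rnd_ge (hε : 0 < ε) (hx : x ∈ S) (ha : a ∈ G.T x) (hb : b ∈ G.T x)
    (hb1 : ‖b‖ = 1) {s : ℝ} (hs : ε ≤ s) : ‖deriv (rnd G ε 0 x a b) s‖ ^ 2 = 1 := by
  have h1 : 1 ≤ s / ε := by rw [le_div_iff₀ hε]; linarith
  have h2 : -s / ε ≤ -1 := by rw [neg_div]; linarith
  rw [(hasDerivAt_rnd hε hx ha hb s).deriv, uu_of_ge hε hs]
  unfold uu'
  rw [sg_of_ge h1, sg_of_le h2, one_smul, zero_smul, add_zero, fdExp_self hx hb,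
    norm_fl G (q := (x, b)) ⟨hx, hb⟩]
  simp [hb1]

lemma norm_deriv_rnd_le (hε : 0 < ε) (hx : x ∈ S) (ha : a ∈ G.T x) (hb : b ∈ G.T x)
    (ha1 : ‖a‖ = 1) {s : ℝ} (hs : s ≤ -ε) : ‖deriv (rnd G ε 0 x a b) s‖ ^ 2 = 1 := by
  have h1 : 1 ≤ -s / ε := by rw [le_div_iff₀ hε]; linarith
  have h2 : s / ε ≤ -1 := by rw [neg_div] at h1; linarith
  rw [(hasDerivAt_rnd hε hx ha hb s).deriv, uu_of_le hε hs]
  unfold uu'
  rw [sg_of_ge h1, sg_of_le h2, one_smul, zero_smul, zero_add, fdExp_self hx ha,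
    norm_fl G (q := (x, a)) ⟨hx, ha⟩]
  simp [ha1]

lemma continuous_deriv_rnd (hε : 0 < ε) (hx : x ∈ S) (ha : a ∈ G.T x) (hb : b ∈ G.T x) :
    Continuous fun s => ‖deriv (rnd G ε 0 x a b) s‖ ^ 2 := by
  have h1 : (fun s => deriv (rnd G ε 0 x a b) s) =
      fun s => fderiv ℝ (Exp G x) (uu ε 0 a b s) (uu' ε a b s) :=
    funext fun s => (hasDerivAt_rnd hε hx ha hb s).deriv
  have h2 : Continuous fun s => fderiv ℝ (Exp G x) (uu ε 0 a b s) (uu' ε a b s) := by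
    have h3 : Continuous fun s => fderiv ℝ (Exp G x) (uu ε 0 a b s) := by
      rw [continuous_iff_continuousAt]
      intro s
      have h4 := ((contDiffAt_Exp' G hx (uu_mem (ε := ε) (τ := 0) (s := s) ha hb)).fderiv_right
        (m := ∞) (by simp)).continuousAt
      exact ContinuousAt.comp (f := uu ε 0 a b) h4 (hasDerivAt_uu hε a b s).continuousAt
    refine h3.clm_apply ?_
    unfold uu'
    have h5 := contDiff_sg.continuous
    fun_prop
  rw [← h1] at h2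
  exact h2.norm.pow 2

/-- the energy of the corner on `[-π/2, π/2]` -/
theorem int_rnd (hε : 0 < ε) (hε1 : ε ≤ 1 / 2) (hx : x ∈ S) (ha : a ∈ G.T x) (hb : b ∈ G.T x)
    (ha1 : ‖a‖ = 1) (hb1 : ‖b‖ = 1) :
    ∫ s in (-(Real.pi / 2))..(Real.pi / 2), ‖deriv (rnd G ε 0 x a b) s‖ ^ 2 =
      Real.pi - 2 * ε + ∫ s in (-ε)..ε, ‖deriv (rnd G ε 0 x a b) s‖ ^ 2 := by
  have hpi := Real.pi_gt_three
  have hc := continuous_deriv_rnd hε hx ha hb
  have hi : ∀ u v : ℝ, IntervalIntegrable (fun s => ‖deriv (rnd G ε 0 x a b) s‖ ^ 2) volume u v :=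
    fun u v => hc.intervalIntegrable _ _
  rw [← intervalIntegral.integral_add_adjacent_intervals (hi _ (-ε)) (hi _ _),
    ← intervalIntegral.integral_add_adjacent_intervals (hi (-ε) ε) (hi _ _)]
  have h1 : ∫ s in (-(Real.pi / 2))..(-ε), ‖deriv (rnd G ε 0 x a b) s‖ ^ 2 =
      Real.pi / 2 - ε := by
    rw [intervalIntegral.integral_congr (g := fun _ => (1 : ℝ))]
    · rw [intervalIntegral.integral_const, smul_eq_mul]; ring
    · intro s hs
      rw [uIcc_of_le (by linarith)] at hs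
      exact norm_deriv_rnd_le hε hx ha hb ha1 hs.2
  have h2 : ∫ s in ε..(Real.pi / 2), ‖deriv (rnd G ε 0 x a b) s‖ ^ 2 =
      Real.pi / 2 - ε := by
    rw [intervalIntegral.integral_congr (g := fun _ => (1 : ℝ))]
    · rw [intervalIntegral.integral_const, smul_eq_mul]; ring
    · intro s hs
      rw [uIcc_of_le (by linarith)] at hs
      exact norm_deriv_rnd_ge hε hx ha hb hb1 hs.1
  rw [h1, h2]
  ring

/-! ### the chain -/

variable [NeZero m] {z : Euc N × (Fin m → Euc N)}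

omit [NeZero m] in
lemma m_pos [NeZero m] : (0 : ℝ) < m := by exact_mod_cast Nat.pos_of_ne_zero (NeZero.ne m)

lemma cc_eq_F (h : OK G m ε) (hz : z ∈ Km G m) :
    cc G ε z 0 = fun t => F G m ε z 0 (2 / m * t) := by
  have hm := m_pos (m := m)
  funext t
  rw [F_eq h hz ⟨le_rfl, zero_le_one⟩]
  congr 1
  field_simp

lemma contDiff_cc (h : OK G m ε) (hz : z ∈ Km G m) : ContDiff ℝ ∞ (cc G ε z 0) := by
  rw [cc_eq_F h hz]
  exact (F_smooth_t h hz ⟨le_rfl, zero_le_one⟩).comp (by fun_prop)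

lemma En_F (h : OK G m ε) (hz : z ∈ Km G m) :
    MS.En (F G m ε z 0) = (m : ℝ) / 4 * ∫ t in (0 : ℝ)..(m * Real.pi),
      ‖deriv (cc G ε z 0) t‖ ^ 2 := by
  have hm := m_pos (m := m)
  have h1 : F G m ε z 0 = fun α => cc G ε z 0 ((m : ℝ) / 2 * α) :=
    funext fun α => F_eq h hz ⟨le_rfl, zero_le_one⟩ α
  have h2 : ∀ α, deriv (F G m ε z 0) α = ((m : ℝ) / 2) • deriv (cc G ε z 0) ((m : ℝ) / 2 * α) := by
    intro α
    rw [h1]
    exact deriv_comp_mul_left ((m : ℝ) / 2) (cc G ε z 0) α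
  unfold MS.En
  have h3 : ∀ α, ‖deriv (F G m ε z 0) α‖ ^ 2 =
      ((m : ℝ) / 2) ^ 2 * ‖deriv (cc G ε z 0) ((m : ℝ) / 2 * α)‖ ^ 2 := by
    intro α
    rw [h2, norm_smul, mul_pow, Real.norm_eq_abs, sq_abs]
  simp_rw [h3]
  rw [intervalIntegral.integral_const_mul]
  have h4 := intervalIntegral.integral_comp_mul_left (a := 0) (b := 2 * Real.pi)
    (fun t => ‖deriv (cc G ε z 0) t‖ ^ 2) (c := (m : ℝ) / 2) (by positivity)
  rw [h4, smul_eq_mul, mul_zero]
  have h5 : (m : ℝ) / 2 * (2 * Real.pi) = m * Real.pi := by ring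
  rw [h5]
  field_simp
  ring

lemma deriv_cc (h : OK G m ε) (hz : z ∈ Km G m) (j : ℤ) {s : ℝ}
    (hs : |s| < Real.pi - ε) :
    deriv (cc G ε z 0) (j * Real.pi + s) = deriv (fun s => pc G ε z 0 j s) s := by
  have h1 : (fun s => cc G ε z 0 (j * Real.pi + s)) =ᶠ[𝓝 s] fun s => pc G ε z 0 j s := by
    have h2 : ∀ᶠ s' in 𝓝 s, |s'| < Real.pi - ε := continuous_abs.continuousAt.eventually_lt
      continuousAt_const hs
    filter_upwards [h2] with s' hs'
    rw [cc_eq h.per h.pos h.le hz (j := j) (by rw [add_sub_cancel_left]; exact hs'.le),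
      add_sub_cancel_left]
  rw [← h1.deriv_eq]
  exact (deriv_comp_const_add (f := cc G ε z 0) (j * Real.pi) s).symm

/-- energy around one corner -/
lemma int_corner (h : OK G m ε) (hz : z ∈ Km G m) (j : ℤ) :
    ∫ t in (j * Real.pi - Real.pi / 2)..(j * Real.pi + Real.pi / 2),
      ‖deriv (cc G ε z 0) t‖ ^ 2 =
      Real.pi - 2 * ε + ∫ s in (-ε)..ε, ‖deriv (fun s => pc G ε z 0 j s) s‖ ^ 2 := by
  have hpi := Real.pi_gt_three
  have hx := (sta_mem hz (idx m j) j).1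
  have ha := sta_snd_mem h.per hz (idx m j) (idx m (j - 1)) j
  have hb := sta_snd_mem h.per hz (idx m j) (idx m j) j
  have h1 := intervalIntegral.integral_comp_add_left (a := -(Real.pi / 2)) (b := Real.pi / 2)
    (fun t => ‖deriv (cc G ε z 0) t‖ ^ 2) (j * Real.pi)
  have h2 : j * Real.pi + -(Real.pi / 2) = j * Real.pi - Real.pi / 2 := by ring
  rw [h2] at h1
  have h4 := int_rnd h.pos h.le hx ha hb (norm_sta hz _ _) (norm_sta hz _ _)
  refine (h1.symm.trans ?_).trans h4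
  refine intervalIntegral.integral_congr fun s hs => ?_
  rw [uIcc_of_le (by linarith)] at hs
  have h3 : |s| < Real.pi - ε := by
    have := h.le
    exact lt_of_le_of_lt (abs_le.2 hs) (by linarith)
  change ‖deriv (cc G ε z 0) (j * Real.pi + s)‖ ^ 2 = _
  rw [deriv_cc h hz j h3]
  rfl

/-- the integral over a period as a sum over the corners -/
lemma int_cc (h : OK G m ε) (hz : z ∈ Km G m) :
    ∫ t in (0 : ℝ)..(m * Real.pi), ‖deriv (cc G ε z 0) t‖ ^ 2 =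
      ∑ j ∈ Finset.range m, (Real.pi - 2 * ε +
        ∫ s in (-ε)..ε, ‖deriv (fun s => pc G ε z 0 (j : ℤ) s) s‖ ^ 2) := by
  have hcont : Continuous fun t => ‖deriv (cc G ε z 0) t‖ ^ 2 :=
    ((contDiff_cc h hz).continuous_deriv (by simp)).norm.pow 2
  have hper : Function.Periodic (fun t => ‖deriv (cc G ε z 0) t‖ ^ 2) (m * Real.pi) := by
    intro t
    simp only
    have h1 : deriv (cc G ε z 0) (t + m * Real.pi) = deriv (cc G ε z 0) t := by
      have h2 : (fun t => cc G ε z 0 (t + m * Real.pi)) = cc G ε z 0 :=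
        funext fun t => cc_period h.per h.even hz t
      have h3 := deriv_comp_add_const (f := cc G ε z 0) (m * Real.pi) t
      rw [h2] at h3
      exact h3.symm
    rw [h1]
  have h1 := hper.intervalIntegral_add_eq 0 (-(Real.pi / 2))
  rw [zero_add] at h1
  rw [h1]
  have h2 := intervalIntegral.sum_integral_adjacent_intervals
    (f := fun t => ‖deriv (cc G ε z 0) t‖ ^ 2) (μ := volume)
    (a := fun j : ℕ => (j : ℝ) * Real.pi - Real.pi / 2) (n := m)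
    (fun j _ => hcont.intervalIntegrable _ _)
  have e1 : ((0 : ℕ) : ℝ) * Real.pi - Real.pi / 2 = -(Real.pi / 2) := by simp
  have e2 : (m : ℝ) * Real.pi - Real.pi / 2 = -(Real.pi / 2) + m * Real.pi := by ring
  simp only [e1, e2] at h2
  rw [← h2]
  refine Finset.sum_congr rfl fun j _ => ?_
  have h3 := int_corner h hz (j : ℤ)
  rw [← h3]
  congr 1
  push_cast
  ring

/-- `Σ_i ‖v_i - v_{i-1}‖²` -/
def jsq {m : ℕ} [NeZero m] (z : Euc N × (Fin m → Euc N)) : ℝ :=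
  ∑ j ∈ Finset.range m, ‖z.2 (idx m (j : ℤ)) - z.2 (idx m ((j : ℤ) - 1))‖ ^ 2

/-- **energy inequality** -/
theorem exists_En_le (hS : IsCompact S) (G : Geo n N κ S) {k : ℕ} (hB : GT.Bla G k) (m : ℕ)
    [NeZero m] (hm : Even m) :
    ∃ ε₀ : ℝ, 0 < ε₀ ∧ ∀ ε, 0 < ε → ε ≤ ε₀ → OK G m ε ∧ ∃ c : ℝ, 0 < c ∧
      ∀ z ∈ Km G m, MS.En (F G m ε z 0) ≤ (m : ℝ) ^ 2 * Real.pi / 4 - c * jsq z := by
  obtain ⟨ε₀, h1, h2, h3⟩ := exists_eps hS G
  refine ⟨ε₀, h1, fun ε hε hε' => ?_⟩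
  have hOK : OK G m ε := ⟨hS, hB.ty.per, hm, hε, hε'.trans h2⟩
  have hm0 := m_pos (m := m)
  have ha0 := a0_pos
  refine ⟨hOK, (m : ℝ) / 4 * (ε * a0 / 2), by positivity, fun z hz => ?_⟩
  rw [En_F hOK hz, int_cc hOK hz]
  have key : ∀ j ∈ Finset.range m, (Real.pi - 2 * ε +
      ∫ s in (-ε)..ε, ‖deriv (fun s => pc G ε z 0 (j : ℤ) s) s‖ ^ 2) ≤
      Real.pi - (ε * a0 / 2) * ‖z.2 (idx m (j : ℤ)) - z.2 (idx m ((j : ℤ) - 1))‖ ^ 2 := by
    intro j _
    have e1 := (h3 ε hε hε' _ (sta_mem hz (idx m (j : ℤ)) j).1 _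
      (sta_snd_mem hOK.per hz (idx m (j : ℤ)) (idx m ((j : ℤ) - 1)) j) _
      (sta_snd_mem hOK.per hz (idx m (j : ℤ)) (idx m (j : ℤ)) j)
      (norm_sta hz _ _) (norm_sta hz _ _)).2
    have e2 := norm_jmp hB hz (j : ℤ)
    unfold jmp at e2
    rw [e2] at e1
    have e3 : ∫ s in (-ε)..ε, ‖deriv (fun s => pc G ε z 0 (j : ℤ) s) s‖ ^ 2 ≤
      2 * ε - (ε * a0 / 2) * ‖z.2 (idx m (j : ℤ)) - z.2 (idx m ((j : ℤ) - 1))‖ ^ 2 := e1
    linarith
  have hsum := Finset.sum_le_sum key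
  rw [Finset.sum_sub_distrib, ← Finset.mul_sum, Finset.sum_const, Finset.card_range,
    nsmul_eq_mul] at hsum
  have h5 : (m : ℝ) / 4 * (∑ j ∈ Finset.range m, (Real.pi - 2 * ε +
      ∫ s in (-ε)..ε, ‖deriv (fun s => pc G ε z 0 (j : ℤ) s) s‖ ^ 2)) ≤
      (m : ℝ) / 4 * (m * Real.pi - (ε * a0 / 2) * jsq z) :=
    mul_le_mul_of_nonneg_left hsum (by positivity)
  refine h5.trans (le_of_eq ?_)
  ring

end Crest.Agent.R208.KG
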