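import Crest.Agent.R208.NN1

/-!
Row 208, block [N], part NN1b (helper589): the linear conditions `l0`, `la` and the hypotheses
`hpos` for the spectral projections.
-/

set_option autoImplicit false

open MeasureTheory Measure Set Filter Topology Module Metric
open scoped ContDiff RealInnerProductSpace
open Crest.GeometryTopology.Submanifold
open Crest.Agent.R241.DDefs
open Crest.Agent.R241.D2
open Crest.Agent.R208.L (om TanTS dfl om_dfl)
open Crest.Agent.R208.FI (Tan Sub)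

noncomputable section

namespace Crest.Agent.R208.NN

variable {n N k K : ℕ} {κ : ℝ} {S : Set (Euc N)} {G : Geo n N κ S} {z ξ : Euc N × Euc N}
  {a b : ℝ} {V V' : ℝ → Euc N} {p q : Euc N}

/-- a subspace of prescribed dimension -/
theorem exists_sub {W : Type*} [AddCommGroup W] [Module ℝ W] [FiniteDimensional ℝ W]
    (Q₀ : Submodule ℝ W) {r : ℕ} (h1 : finrank ℝ W ≤ finrank ℝ Q₀ + r) (h2 : r ≤ finrank ℝ W) :
    ∃ Q : Submodule ℝ W, Q ≤ Q₀ ∧ finrank ℝ Q + r = finrank ℝ W := by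
  obtain ⟨m, hm⟩ : ∃ m, m + r = finrank ℝ W := ⟨finrank ℝ W - r, by omega⟩
  have hmQ : m ≤ finrank ℝ Q₀ := by omega
  let b := Module.finBasis ℝ Q₀
  let v : Fin m → W := fun i => (b (Fin.castLE hmQ i) : Q₀)
  have hv : LinearIndependent ℝ v := by
    have h3 : LinearIndependent ℝ (fun i : Fin m => b (Fin.castLE hmQ i)) :=
      b.linearIndependent.comp _ (Fin.castLE_injective hmQ)
    exact h3.map' Q₀.subtype (Submodule.ker_subtype _)
  refine ⟨Submodule.span ℝ (Set.range v), ?_, ?_⟩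
  · rw [Submodule.span_le]
    rintro _ ⟨i, rfl⟩
    exact Submodule.coe_mem _
  · rw [finrank_span_eq_card hv, Fintype.card_fin, hm]

/-- the adjoint of the link isometry is the reversed link isometry -/
theorem inner_lf_adj (h : GT.Bla G k) (hz : (p, q) ∈ GT.FF S) {u : Euc N} (hu : u ∈ GT.Vs G p q)
    (x : Euc N) : ⟪GT.lf G p q u, x⟫ = ⟪u, GT.lf G q p x⟫ := by
  set y := GT.lf G p q u with hy
  have hu' : y ∈ GT.Vs G q p := h.lf_mem hz u
  have hdec : x = (GT.Vs G q p).starProjection x + (x - (GT.Vs G q p).starProjection x) := by abel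
  have hperp : x - (GT.Vs G q p).starProjection x ∈ (GT.Vs G q p)ᗮ :=
    Submodule.sub_starProjection_mem_orthogonal _
  have h3 : GT.lf G q p x = GT.lf G q p ((GT.Vs G q p).starProjection x) := by
    conv_lhs => rw [hdec]
    rw [map_add, GT.lf_perp hperp, add_zero]
  have h4 : u = GT.lf G q p y := (h.lf_lf hz hu).symm
  rw [h3]
  conv_rhs => rw [h4]
  rw [h.inner_lf (GT.FF_symm' hz) hu' (Submodule.starProjection_apply_mem _ _)]
  conv_lhs => rw [hdec]
  rw [inner_add_right, (Submodule.mem_orthogonal _ _).1 hperp _ hu', add_zero]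

/-- the antipodal point of `z` -/
def qq (G : Geo n N κ S) (z : Euc N × Euc N) : Euc N := (fl G (z, Real.pi)).1

/-- `V_pq ⊖ v` -/
def V0 (G : Geo n N κ S) (z : Euc N × Euc N) : Submodule ℝ (Euc N) :=
  GT.Vs G z.1 (qq G z) ⊓ (Submodule.span ℝ {z.2})ᗮ

theorem mem_V0 {u : Euc N} : u ∈ V0 G z ↔ u ∈ GT.Vs G z.1 (qq G z) ∧ ⟪u, z.2⟫ = 0 := by
  rw [V0, Submodule.mem_inf, Submodule.mem_orthogonal_singleton_iff_inner_left]

theorem finrank_V0 (h : GT.Bla G k) (hz : z ∈ L.US G) : finrank ℝ (V0 G z) + 1 = k := by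
  have h1 : Submodule.span ℝ {z.2} ≤ GT.Vs G z.1 (qq G z) := by
    rw [Submodule.span_le, Set.singleton_subset_iff]; exact mem_Vs hz
  have h2 := Submodule.finrank_add_inf_finrank_orthogonal h1
  have hz0 : z.2 ≠ 0 := by
    intro h0
    have := hz.2
    rw [h0, norm_zero] at this
    exact zero_ne_one this
  have h3 : finrank ℝ (Submodule.span ℝ {z.2}) = 1 := finrank_span_singleton hz0
  have h4 : finrank ℝ (GT.Vs G z.1 (qq G z)) = k := h.finrank_Vs (mem_FF h hz)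
  rw [h3, h4, inf_comm] at h2
  change 1 + finrank ℝ (V0 G z) = k at h2
  omega

/-- the linear condition in the periodic case: `w ↦ P_{V₀} (W(0) + f' W(π))`, `W = fd w`,
`V₀ = V_pq ⊖ v`, `f' : T_q → V_pq` the reversed link isometry (zero on `V_qpᗮ`) -/
def l0 (G : Geo n N κ S) (z : Euc N × Euc N) (ν : Fin K → ℝ) : Wt N K →L[ℝ] Euc N :=
  (V0 G z).starProjection ∘L (G.P z.1 ∘L ev ν 0 +
    GT.lf G (qq G z) z.1 ∘L G.P (qq G z) ∘L ev ν Real.pi)

theorem l0_apply (ν : Fin K → ℝ) (w : Wt N K) : l0 G z ν w =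
    (V0 G z).starProjection (fd G z ν w 0 + GT.lf G (qq G z) z.1 (fd G z ν w Real.pi)) := by
  unfold fd
  rw [fl_zero]
  rfl

theorem l0_mem (ν : Fin K → ℝ) (w : Wt N K) : l0 G z ν w ∈ V0 G z :=
  Submodule.starProjection_apply_mem _ _

theorem inner_l0 (h : GT.Bla G k) (hz : z ∈ L.US G) (ν : Fin K → ℝ) (w : Wt N K) {u : Euc N}
    (hu : u ∈ V0 G z) : ⟪u, l0 G z ν w⟫ =
      ⟪u, fd G z ν w 0⟫ + ⟪GT.lf G z.1 (qq G z) u, fd G z ν w Real.pi⟫ := by
  rw [l0_apply, ← Submodule.inner_starProjection_left_eq_right,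
    Submodule.starProjection_eq_self_iff.2 hu, inner_add_right,
    inner_lf_adj (q := qq G z) h (mem_FF h hz) (mem_V0.1 hu).1]

theorem ev_two_pi (w : Wt N K) (t : ℝ) : ev (nuP K) (t + 2 * Real.pi) w = ev (nuP K) t w := by
  rw [← ev_Rt, Rt_per]

theorem ev_two_pi' (w : Wt N K) (t : ℝ) : ev (nuA K) (t + 2 * Real.pi) w = -ev (nuA K) t w := by
  rw [← ev_Rt, Rt_aper, map_neg]

theorem fd_two_pi (h : GT.Bla G k) (hz : z ∈ L.US G) (w : Wt N K) :
    fd G z (nuP K) w (2 * Real.pi) = fd G z (nuP K) w 0 := by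
  unfold fd
  rw [fl_two_pi h hz, fl_zero]
  have := ev_two_pi w 0
  rw [zero_add] at this
  rw [this]

theorem fd_two_pi' (h : GT.Bla G k) (hz : z ∈ L.US G) (w : Wt N K) :
    fd G z (nuA K) w (2 * Real.pi) = -fd G z (nuA K) w 0 := by
  unfold fd
  rw [fl_two_pi h hz, fl_zero]
  have := ev_two_pi' w 0
  rw [zero_add] at this
  rw [this, map_neg]

/-- **periodic upper bound** -/
theorem qf_nonneg_of_l0 (h : GT.Bla G k) (hz : z ∈ L.US G) {w : Wt N K}
    (hw : l0 G z (nuP K) w = 0) : 0 ≤ qf G z (nuP K) w := by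
  refine le_trans ?_ (qf_ge G z (nuP K) w)
  refine nonneg_per h hz (fld_fd hz.1 _ _ _ _) (fd_two_pi h hz w) ?_
  intro u hu hu0
  have := inner_l0 h hz (nuP K) w (mem_V0.2 ⟨hu, hu0⟩)
  rw [hw, inner_zero_right] at this
  exact this.symm

/-- first linear condition in the antiperiodic case: `W(0)` is parallel to `v` -/
def la (G : Geo n N κ S) (z : Euc N × Euc N) (ν : Fin K → ℝ) : Wt N K →L[ℝ] Euc N :=
  (1 - (innerSL ℝ z.2).smulRight z.2) ∘L G.P z.1 ∘L ev ν 0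

theorem la_apply (ν : Fin K → ℝ) (w : Wt N K) : la G z ν w = pp G z (fd G z ν w) 0 := by
  unfold pp fd
  rw [fl_zero]
  change G.P z.1 (ev ν 0 w) - ⟪z.2, G.P z.1 (ev ν 0 w)⟫ • z.2 = _
  rw [real_inner_comm]

/-- `T_p ⊖ v` -/
def T0 (G : Geo n N κ S) (z : Euc N × Euc N) : Submodule ℝ (Euc N) :=
  G.T z.1 ⊓ (Submodule.span ℝ {z.2})ᗮ

theorem finrank_T0 (hz : z ∈ L.US G) : finrank ℝ (T0 G z) + 1 = n := by
  have h1 : Submodule.span ℝ {z.2} ≤ G.T z.1 := by
    rw [Submodule.span_le, Set.singleton_subset_iff]; exact hz.1.2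
  have h2 := Submodule.finrank_add_inf_finrank_orthogonal h1
  have hz0 : z.2 ≠ 0 := by
    intro h0
    have := hz.2
    rw [h0, norm_zero] at this
    exact zero_ne_one this
  have h3 : finrank ℝ (Submodule.span ℝ {z.2}) = 1 := finrank_span_singleton hz0
  rw [h3, G.finrank_T z.1 hz.1.1, inf_comm] at h2
  change 1 + finrank ℝ (T0 G z) = n at h2
  omega

theorem la_mem (hz : z ∈ L.US G) (ν : Fin K → ℝ) (w : Wt N K) : la G z ν w ∈ T0 G z := by
  rw [T0, Submodule.mem_inf, Submodule.mem_orthogonal_singleton_iff_inner_left, la_apply]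
  have h1 := inner_pp hz.1 hz.2 (fd G z ν w) 0
  rw [fl_zero] at h1
  refine ⟨?_, h1⟩
  unfold pp
  rw [fl_zero]
  have h2 := fd_mem hz.1 ν w 0
  rw [fl_zero] at h2
  exact (G.T _).sub_mem h2 ((G.T _).smul_mem _ hz.1.2)

/-- **antiperiodic upper bound** -/
theorem qf_nonneg_of_la (h : GT.Bla G k) (hz : z ∈ L.US G) {w : Wt N K}
    (hw : la G z (nuA K) w = 0) (hw' : l0 G z (nuA K) w = 0) : 0 ≤ qf G z (nuA K) w := by
  refine le_trans ?_ (qf_ge G z (nuA K) w)
  have h0 : pp G z (fd G z (nuA K) w) 0 = 0 := by rw [← la_apply]; exact hw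
  refine nonneg_aper h hz (fld_fd hz.1 _ _ _ _) (fd_two_pi' h hz w) h0 ?_
  intro u hu hu0
  have := inner_l0 h hz (nuA K) w (mem_V0.2 ⟨hu, hu0⟩)
  rw [hw', inner_zero_right] at this
  have h1 : ⟪u, fd G z (nuA K) w 0⟫ = 0 := by
    unfold pp at h0
    rw [fl_zero, sub_eq_zero] at h0
    rw [h0, real_inner_smul_right, hu0, mul_zero]
  rw [h1, zero_add] at this
  exact this.symm

theorem finrank_Wt (N K : ℕ) : finrank ℝ (Wt N K) = K * 2 * N := by
  simp [Wt, finrank_euclideanSpace]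

theorem n_le_N (hz : z ∈ L.US G) : n ≤ N := by
  rw [← G.finrank_T z.1 hz.1.1]
  refine (Submodule.finrank_le _).trans ?_
  simp

theorem finrank_ker_ge {W : Type*} [AddCommGroup W] [Module ℝ W] [FiniteDimensional ℝ W]
    {F : Type*} [AddCommGroup F] [Module ℝ F] [FiniteDimensional ℝ F] (L : W →ₗ[ℝ] F)
    (U : Submodule ℝ F) (hU : ∀ w, L w ∈ U) :
    finrank ℝ W ≤ finrank ℝ (LinearMap.ker L) + finrank ℝ U := by
  have h1 := LinearMap.finrank_range_add_finrank_ker L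
  have h2 : finrank ℝ (LinearMap.range L) ≤ finrank ℝ U := by
    refine Submodule.finrank_mono ?_
    rintro _ ⟨w, rfl⟩
    exact hU w
  omega

/-- **`hpos`, periodic case** -/
theorem hpos_per (h : GT.Bla G k) (hK : 1 ≤ K) (hz : z ∈ L.US G) :
    ∃ Q : Submodule ℝ (Wt N K), finrank ℝ Q + (k - 1) = finrank ℝ (Wt N K) ∧
      ∀ w ∈ Q, 0 ≤ qf G z (nuP K) w := by
  have h1 := finrank_V0 h hz
  have h2 := finrank_ker_ge (l0 G z (nuP K) : Wt N K →ₗ[ℝ] Euc N) (V0 G z)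
    (fun w => l0_mem _ w)
  have h3 := n_le_N (G := G) hz
  have h4 := h.ty.le
  have h5 : N ≤ finrank ℝ (Wt N K) := by rw [finrank_Wt]; nlinarith
  obtain ⟨Q, hQ, hQ'⟩ := exists_sub (LinearMap.ker (l0 G z (nuP K) : Wt N K →ₗ[ℝ] Euc N))
    (r := k - 1) (by omega) (by omega)
  exact ⟨Q, hQ', fun w hw => qf_nonneg_of_l0 h hz (hQ hw)⟩

/-- **`hpos`, antiperiodic case** -/
theorem hpos_aper (h : GT.Bla G k) (hK : 1 ≤ K) (hz : z ∈ L.US G) :
    ∃ Q : Submodule ℝ (Wt N K), finrank ℝ Q + (n - 1 + (k - 1)) = finrank ℝ (Wt N K) ∧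
      ∀ w ∈ Q, 0 ≤ qf G z (nuA K) w := by
  have h1 := finrank_V0 h hz
  have h1' := finrank_T0 (G := G) hz
  have h2 := finrank_ker_ge ((la G z (nuA K) : Wt N K →ₗ[ℝ] Euc N).prod
    (l0 G z (nuA K) : Wt N K →ₗ[ℝ] Euc N)) ((T0 G z).prod (V0 G z))
    (fun w => ⟨la_mem hz _ w, l0_mem _ w⟩)
  have h2' : finrank ℝ ((T0 G z).prod (V0 G z) : Submodule ℝ (Euc N × Euc N)) ≤
      finrank ℝ (T0 G z) + finrank ℝ (V0 G z) := by
    rw [← Module.finrank_prod]
    let I : (T0 G z × V0 G z) →ₗ[ℝ] Euc N × Euc N := (T0 G z).subtype.prodMap (V0 G z).subtype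
    have hr : (T0 G z).prod (V0 G z) ≤ LinearMap.range I := by
      rintro ⟨a, b⟩ hab
      exact ⟨(⟨a, hab.1⟩, ⟨b, hab.2⟩), rfl⟩
    exact (Submodule.finrank_mono hr).trans (LinearMap.finrank_range_le I)
  have h3 := n_le_N (G := G) hz
  have h4 := h.ty.le
  have h5 : 2 * N ≤ finrank ℝ (Wt N K) := by rw [finrank_Wt]; nlinarith
  obtain ⟨Q, hQ, hQ'⟩ := exists_sub (LinearMap.ker ((la G z (nuA K) : Wt N K →ₗ[ℝ] Euc N).prod
    (l0 G z (nuA K) : Wt N K →ₗ[ℝ] Euc N)))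
    (r := n - 1 + (k - 1)) (by omega) (by omega)
  refine ⟨Q, hQ', fun w hw => ?_⟩
  have h6 := hQ hw
  rw [LinearMap.ker_prod] at h6
  exact qf_nonneg_of_la h hz h6.1 h6.2

end Crest.Agent.R208.NN
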