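import Crest.Agent.R208.AK4
import Crest.Agent.R208.KG5
import Crest.Agent.R208.NN1b

/-!
R208, block AK (helper952), part 5: linearisation of helper10's rounded chains at the diagonal.
-/

set_option autoImplicit false
set_option linter.unusedSectionVars false

open Set Filter Topology MeasureTheory
open scoped ContDiff RealInnerProductSpace Interval
open Crest.GeometryTopology.Submanifold
open Crest.Agent.R241.DDefs
open Crest.Agent.R241.D2
open Crest.Agent.R241.D3c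
open Crest.Agent.R208.SV (ixd ix Fld jf jf')
open Crest.Agent.R208.NN (V0 qq)
open Crest.Agent.R208.KG (idx Km cc sta pc rnd uu gT OK)

noncomputable section

namespace Crest.Agent.R208.AK

variable {n N k : ℕ} {κ : ℝ} {S : Set (Euc N)} {G : Geo n N κ S}

/-! ### normalisation -/

/-- normalised vector -/
def nrm (x : Euc N) : Euc N := (‖x‖⁻¹ : ℝ) • x

lemma norm_nrm {x : Euc N} (hx : x ≠ 0) : ‖nrm x‖ = 1 := GT.unit_of hx

lemma nrm_self {x : Euc N} (hx : ‖x‖ = 1) : nrm x = x := by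
  rw [nrm, hx, inv_one, one_smul]

lemma contDiffAt_nrm {x : Euc N} (hx : x ≠ 0) : ContDiffAt ℝ ∞ (nrm : Euc N → Euc N) x :=
  ((contDiffAt_norm ℝ hx).inv (norm_ne_zero_iff.2 hx)).smul contDiffAt_id

lemma norm_sq_add {v u : Euc N} (hv : ‖v‖ = 1) (hu : ⟪u, v⟫ = 0) :
    ‖v + u‖ ^ 2 = 1 + ‖u‖ ^ 2 := by
  rw [norm_add_sq_real, real_inner_comm, hu, hv]; ring

lemma add_ne_zero' {v u : Euc N} (hv : ‖v‖ = 1) (hu : ⟪u, v⟫ = 0) : v + u ≠ 0 := by
  intro h0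
  have h1 := norm_sq_add hv hu
  rw [h0, norm_zero] at h1
  nlinarith [sq_nonneg ‖u‖]

lemma hasDerivAt_nrm {v u : Euc N} (hv : ‖v‖ = 1) (hu : ⟪u, v⟫ = 0) :
    HasDerivAt (fun r : ℝ => nrm (v + r • u)) u 0 := by
  have h1 : ∀ r : ℝ, ‖v + r • u‖ = Real.sqrt (1 + r ^ 2 * ‖u‖ ^ 2) := by
    intro r
    have h2 := norm_sq_add (u := r • u) hv (by rw [real_inner_smul_left, hu, mul_zero])
    rw [norm_smul, mul_pow, Real.norm_eq_abs, sq_abs] at h2
    rw [← h2, Real.sqrt_sq (norm_nonneg _)]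
  have h3 : (fun r : ℝ => nrm (v + r • u)) =
      fun r : ℝ => (Real.sqrt (1 + r ^ 2 * ‖u‖ ^ 2))⁻¹ • (v + r • u) := by
    funext r
    rw [nrm, h1]
  rw [h3]
  have h4 : HasDerivAt (fun r : ℝ => 1 + r ^ 2 * ‖u‖ ^ 2) 0 0 := by
    have := ((hasDerivAt_pow 2 (0:ℝ)).mul_const (‖u‖ ^ 2)).const_add 1
    simpa using this
  have h5 : HasDerivAt (fun r : ℝ => Real.sqrt (1 + r ^ 2 * ‖u‖ ^ 2)) 0 0 := by
    have := h4.sqrt (by norm_num)
    simpa using this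
  have h6 : HasDerivAt (fun r : ℝ => (Real.sqrt (1 + r ^ 2 * ‖u‖ ^ 2))⁻¹) 0 0 := by
    have := h5.inv (by norm_num)
    exact this.congr_deriv (by simp)
  have h7 : HasDerivAt (fun r : ℝ => v + r • u) u 0 := by
    simpa using ((hasDerivAt_id (0:ℝ)).smul_const u).const_add v
  have h8 := h6.smul h7
  refine h8.congr_deriv ?_
  simp

/-! ### chains near the diagonal -/

variable {m : ℕ} {ε : ℝ} {z : Euc N × Euc N} {Z : Fin m → Euc N}

/-- the chain with initial velocities `v + Z_i`, normalised -/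
def kap (z : Euc N × Euc N) (Z : Fin m → Euc N) : Euc N × (Fin m → Euc N) :=
  (z.1, fun i => nrm (z.2 + Z i))

lemma V0_smul {u : Euc N} (hu : u ∈ V0 G z) (r : ℝ) : r • u ∈ V0 G z := (V0 G z).smul_mem r hu

lemma V0_inner {u : Euc N} (hu : u ∈ V0 G z) : ⟪u, z.2⟫ = 0 := (NN.mem_V0.1 hu).2

lemma V0_tan (h : GT.Bla G k) (hz : z ∈ L.US G) {u : Euc N} (hu : u ∈ V0 G z) :
    u ∈ G.T z.1 := h.Vs_le (NN.mem_FF h hz) (NN.mem_V0.1 hu).1

lemma kap_mem (h : GT.Bla G k) (hz : z ∈ L.US G) (hZ : ∀ i, Z i ∈ V0 G z) :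
    kap z Z ∈ Km G m := by
  have hF := NN.mem_FF h hz
  have key : ∀ i, nrm (z.2 + Z i) ∈ GT.Vs G z.1 (qq G z) ∧ ‖nrm (z.2 + Z i)‖ = 1 := fun i => by
    refine ⟨Submodule.smul_mem _ _ (Submodule.add_mem _ (NN.mem_Vs hz) (NN.mem_V0.1 (hZ i)).1),
      norm_nrm (add_ne_zero' hz.2 (V0_inner (hZ i)))⟩
  refine ⟨hz.1.1, fun i => ⟨h.Vs_le hF (key i).1, (key i).2⟩, fun i i' => ?_⟩
  change Exp G z.1 (Real.pi • nrm (z.2 + Z i)) = Exp G z.1 (Real.pi • nrm (z.2 + Z i'))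
  rw [h.Exp_pi hF (key i).1 (key i).2, h.Exp_pi hF (key i').1 (key i').2]

lemma kap_zero (hz : z ∈ L.US G) : kap z (0 : Fin m → Euc N) = (z.1, fun _ => z.2) := by
  unfold kap
  simp only [Pi.zero_apply, add_zero]
  rw [nrm_self hz.2]

lemma contDiffAt_kap (hz : z ∈ L.US G) (hZ : ∀ i, Z i ∈ V0 G z) :
    ContDiffAt ℝ ∞ (fun p : (Euc N × Euc N) × (Fin m → Euc N) => kap p.1 p.2) (z, Z) := by
  have h1 : ∀ i, ContDiffAt ℝ ∞ (fun p : (Euc N × Euc N) × (Fin m → Euc N) =>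
      nrm (p.1.2 + p.2 i)) (z, Z) := fun i =>
    ContDiffAt.comp (g := (nrm : Euc N → Euc N))
      (f := fun p : (Euc N × Euc N) × (Fin m → Euc N) => p.1.2 + p.2 i) (z, Z)
      (contDiffAt_nrm (add_ne_zero' hz.2 (V0_inner (hZ i)))) (by fun_prop)
  exact (by fun_prop : ContDiffAt ℝ ∞ (fun p : (Euc N × Euc N) × (Fin m → Euc N) => p.1.1)
    (z, Z)).prodMk (contDiffAt_pi.2 h1)

lemma hasDerivAt_kap (hz : z ∈ L.US G) (hZ : ∀ i, Z i ∈ V0 G z) :
    HasDerivAt (fun r : ℝ => kap z (r • Z)) ((0 : Euc N), Z) 0 := by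
  refine (hasDerivAt_const (0:ℝ) z.1).prodMk (hasDerivAt_pi.2 fun i => ?_)
  exact hasDerivAt_nrm hz.2 (V0_inner (hZ i))

variable [NeZero m]

/-- the rounded chains with the original time, period `m π` -/
def FT (G : Geo n N κ S) (m : ℕ) [NeZero m] (ε : ℝ) (p : (Euc N × (Fin m → Euc N)) × ℝ) : Euc N :=
  KG.F G m ε p.1 0 (2 / m * p.2)

lemma FT_eq (h : OK G m ε) {κ' : Euc N × (Fin m → Euc N)} (hκ : κ' ∈ Km G m) (t : ℝ) :
    FT G m ε (κ', t) = cc G ε κ' 0 t := by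
  have hm := KG.m_pos (m := m)
  unfold FT
  rw [KG.F_eq h hκ ⟨le_rfl, zero_le_one⟩]
  congr 1
  field_simp

lemma contDiffAt_FT (h : OK G m ε) {κ' : Euc N × (Fin m → Euc N)} (hκ : κ' ∈ Km G m) (t : ℝ) :
    ContDiffAt ℝ ∞ (FT G m ε) (κ', t) :=
  ContDiffAt.comp (g := fun q : (Euc N × (Fin m → Euc N)) × ℝ × ℝ => KG.F G m ε q.1 q.2.1 q.2.2)
    (f := fun p : (Euc N × (Fin m → Euc N)) × ℝ => (p.1, (0 : ℝ), 2 / (m:ℝ) * p.2)) (κ', t)
    (KG.F_smooth h hκ ⟨le_rfl, zero_le_one⟩ _) (by fun_prop)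

/-- linearisation of the rounded chains at the diagonal -/
def AZ (G : Geo n N κ S) (ε : ℝ) (z : Euc N × Euc N) (Z : Fin m → Euc N) (t : ℝ) : Euc N :=
  fderiv ℝ (FT G m ε) ((z.1, fun _ => z.2), t) ((0, Z), 0)

lemma AZ_add (Z Z' : Fin m → Euc N) (t : ℝ) :
    AZ G ε z (Z + Z') t = AZ G ε z Z t + AZ G ε z Z' t := by
  unfold AZ
  rw [← map_add]
  simp

lemma AZ_smul (c : ℝ) (Z : Fin m → Euc N) (t : ℝ) :
    AZ G ε z (c • Z) t = c • AZ G ε z Z t := by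
  unfold AZ
  rw [← map_smul]
  simp

lemma AZ_sub (Z Z' : Fin m → Euc N) (t : ℝ) :
    AZ G ε z (Z - Z') t = AZ G ε z Z t - AZ G ε z Z' t := by
  unfold AZ
  rw [← map_sub]
  simp

lemma AZ_neg (Z : Fin m → Euc N) (t : ℝ) :
    AZ G ε z (-Z) t = -AZ G ε z Z t := by
  have := AZ_smul (G := G) (ε := ε) (z := z) (-1) Z t
  simpa using this

lemma hasDerivAt_AZ (h : OK G m ε) (hB : GT.Bla G k) (hz : z ∈ L.US G)
    (hZ : ∀ i, Z i ∈ V0 G z) (t : ℝ) :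
    HasDerivAt (fun r : ℝ => FT G m ε (kap z (r • Z), t)) (AZ G ε z Z t) 0 := by
  have h0 : kap z ((0:ℝ) • Z) = (z.1, fun _ => z.2) := by rw [zero_smul]; exact kap_zero hz
  have h1 : HasFDerivAt (FT G m ε) (fderiv ℝ (FT G m ε) ((z.1, fun _ => z.2), t))
      (kap z ((0:ℝ) • Z), t) := by
    rw [h0]
    have hκ : ((z.1, fun _ => z.2) : Euc N × (Fin m → Euc N)) ∈ Km G m := by
      rw [← kap_zero hz]
      exact kap_mem hB hz fun i => (V0 G z).zero_mem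
    exact ((contDiffAt_FT h hκ t).differentiableAt (by simp)).hasFDerivAt
  exact h1.comp_hasDerivAt (0:ℝ) ((hasDerivAt_kap hz hZ).prodMk (hasDerivAt_const (0:ℝ) t))

lemma kap_smul_mem (hB : GT.Bla G k) (hz : z ∈ L.US G) (hZ : ∀ i, Z i ∈ V0 G z) (r : ℝ) :
    kap z (r • Z) ∈ Km G m := kap_mem hB hz fun i => V0_smul (hZ i) r

lemma FT_diag (h : OK G m ε) (hz : z ∈ L.US G) (hB : GT.Bla G k) (t : ℝ) :
    FT G m ε (kap z (0 : Fin m → Euc N), t) = (fl G (z, t)).1 := by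
  have hκ : kap z (0 : Fin m → Euc N) ∈ Km G m := kap_mem hB hz fun i => (V0 G z).zero_mem
  rw [FT_eq h hκ, KG.cc_diag h.pos hκ (v := z.2)]
  · rfl
  · intro i
    change nrm (z.2 + 0) = z.2
    rw [add_zero, nrm_self hz.2]

lemma AZ_mem (h : OK G m ε) (hB : GT.Bla G k) (hz : z ∈ L.US G) (hZ : ∀ i, Z i ∈ V0 G z)
    (t : ℝ) : AZ G ε z Z t ∈ G.T (fl G (z, t)).1 := by
  have h1 := G.deriv_mem (fun r : ℝ => FT G m ε (kap z (r • Z), t)) _ 0
    (Eventually.of_forall fun r => by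
      rw [FT_eq h (kap_smul_mem hB hz hZ r)]
      exact KG.cc_mem h.per (kap_smul_mem hB hz hZ r)) (hasDerivAt_AZ h hB hz hZ t)
  simp only [zero_smul] at h1
  rwa [FT_diag h hz hB] at h1

/-- the diagonal direction gives the Jacobi field -/
lemma AZ_const (h : OK G m ε) (hB : GT.Bla G k) (hz : z ∈ L.US G) {u : Euc N}
    (hu : u ∈ V0 G z) (t : ℝ) : AZ G ε z (fun _ : Fin m => u) t = jf G z (0, u) t := by
  have hZ : ∀ i : Fin m, (fun _ : Fin m => u) i ∈ V0 G z := fun _ => hu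
  have h1 := hasDerivAt_AZ (t := t) h hB hz hZ
  have h2 : (fun r : ℝ => FT G m ε (kap z (r • fun _ : Fin m => u), t)) =
      fun r : ℝ => (fl G ((z.1, nrm (z.2 + r • u)), t)).1 := by
    funext r
    rw [FT_eq h (kap_smul_mem hB hz hZ r), KG.cc_diag h.pos (kap_smul_mem hB hz hZ r)
      (v := nrm (z.2 + r • u)) (fun i => rfl)]
    rfl
  rw [h2] at h1
  have h3 : HasDerivAt (fun r : ℝ => ((z.1, nrm (z.2 + r • u)) : Euc N × Euc N)) (0, u) 0 :=
    (hasDerivAt_const (0:ℝ) z.1).prodMk (hasDerivAt_nrm hz.2 (V0_inner hu))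
  have h4 : HasFDerivAt (fun y => fl G (y, t)) (L.dfl G z t) (z.1, nrm (z.2 + (0:ℝ) • u)) := by
    rw [zero_smul, add_zero, nrm_self hz.2]
    exact L.hasFDerivAt_fl_left hz.1 t
  have h5 := hda_fst (h4.comp_hasDerivAt (0:ℝ) h3)
  exact h1.unique h5

lemma sta_kap_snd (hz : z ∈ L.US G) {Z : Fin m → Euc N} (hZ : ∀ i, Z i ∈ V0 G z) (i : Fin m)
    (j : ℤ) :
    HasDerivAt (fun r : ℝ => (sta G (kap z (r • Z)) i j).2)
      (jf' G z (0, Z i) (j * Real.pi)) 0 := by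
  have h3 : HasDerivAt (fun r : ℝ => ((z.1, nrm (z.2 + r • Z i)) : Euc N × Euc N)) (0, Z i) 0 :=
    (hasDerivAt_const (0:ℝ) z.1).prodMk (hasDerivAt_nrm hz.2 (V0_inner (hZ i)))
  have h4 : HasFDerivAt (fun y => fl G (y, j * Real.pi)) (L.dfl G z (j * Real.pi))
      (z.1, nrm (z.2 + (0:ℝ) • Z i)) := by
    rw [zero_smul, add_zero, nrm_self hz.2]
    exact L.hasFDerivAt_fl_left hz.1 _
  have h5 := hda_snd (h4.comp_hasDerivAt (0:ℝ) h3)
  exact h5

lemma sta_kap_fst (hB : GT.Bla G k) (hz : z ∈ L.US G) {Z : Fin m → Euc N}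
    (hZ : ∀ i, Z i ∈ V0 G z) (i : Fin m) (j : ℤ) :
    (sta G (kap z Z) i j).1 = (fl G (z, j * Real.pi)).1 := by
  have hper := hB.ty.per
  have hκ := kap_mem hB hz hZ
  have hz' : (z.1, z.2) = z := rfl
  rcases Int.even_or_odd' j with ⟨l, rfl | rfl⟩
  · rw [KG.sta_even hper hκ]
    have e : (((2 * l : ℤ) : ℝ)) * Real.pi = 0 + 2 * l * Real.pi := by push_cast; ring
    rw [e, KG.fl_int hper hz.1 hz.2, fl_zero]
    rfl
  · rw [KG.sta_odd hper hκ]
    have e : (((2 * l + 1 : ℤ) : ℝ)) * Real.pi = Real.pi + 2 * l * Real.pi := by push_cast; ring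
    rw [e, KG.fl_int hper hz.1 hz.2, ← Exp_smul G hκ.1 (hκ.2.1 i).1]
    have hF := NN.mem_FF hB hz
    exact h_aux hB hz hZ i
where
  h_aux (hB : GT.Bla G k) (hz : z ∈ L.US G) {Z : Fin m → Euc N}
    (hZ : ∀ i, Z i ∈ V0 G z) (i : Fin m) :
    Exp G (kap z Z).1 (Real.pi • (kap z Z).2 i) = (fl G (z, Real.pi)).1 :=
  hB.Exp_pi (NN.mem_FF hB hz)
    (Submodule.smul_mem _ _ (Submodule.add_mem _ (NN.mem_Vs hz) (NN.mem_V0.1 (hZ i)).1))
    (norm_nrm (add_ne_zero' hz.2 (V0_inner (hZ i))))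

lemma sta_kap_zero (hz : z ∈ L.US G) (i : Fin m) (j : ℤ) :
    sta G (kap z (0 : Fin m → Euc N)) i j = fl G (z, j * Real.pi) := by
  unfold KG.sta kap
  simp only [Pi.zero_apply, add_zero]
  rw [nrm_self hz.2]

/-- value of the linearised field at the corners -/
lemma AZ_corner (h : OK G m ε) (hB : GT.Bla G k) (hz : z ∈ L.US G) (hZ : ∀ i, Z i ∈ V0 G z)
    (j : ℤ) : AZ G ε z Z (j * Real.pi) =
      gT ε 0 0 • (jf' G z (0, Z (idx m j)) (j * Real.pi) -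
        jf' G z (0, Z (idx m (j - 1))) (j * Real.pi)) := by
  have h1 := hasDerivAt_AZ (t := j * Real.pi) h hB hz hZ
  set x := (fl G (z, j * Real.pi)).1 with hx
  have hxS : x ∈ S := (fl_mem G hz.1 _).1
  set c : ℝ → Euc N := fun r => gT ε 0 0 • (sta G (kap z (r • Z)) (idx m j) j).2 -
    gT ε 0 0 • (sta G (kap z (r • Z)) (idx m (j - 1)) j).2 with hc
  have h2 : (fun r : ℝ => FT G m ε (kap z (r • Z), j * Real.pi)) = fun r => Exp G x (c r) := by
    funext r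
    have hκ := kap_smul_mem hB hz hZ r
    rw [FT_eq h hκ, KG.cc_eq h.per h.pos h.le hκ (j := j) (by
      rw [sub_self, abs_zero]
      have := h.le
      linarith [Real.pi_gt_three])]
    rw [sub_self]
    unfold KG.pc KG.rnd KG.uu
    rw [sta_kap_fst (Z := r • Z) hB hz (fun i => V0_smul (hZ i) r), neg_zero]
  rw [h2] at h1
  have hcD : HasDerivAt c (gT ε 0 0 • jf' G z (0, Z (idx m j)) (j * Real.pi) -
      gT ε 0 0 • jf' G z (0, Z (idx m (j - 1))) (j * Real.pi)) 0 :=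
    ((sta_kap_snd hz hZ (idx m j) j).const_smul (gT ε 0 0)).fun_sub
      ((sta_kap_snd hz hZ (idx m (j - 1)) j).const_smul (gT ε 0 0))
  have hc0 : c 0 = 0 := by
    simp only [hc, zero_smul]
    rw [sta_kap_zero hz, sta_kap_zero hz, sub_self]
  set y := gT ε 0 0 • jf' G z (0, Z (idx m j)) (j * Real.pi) -
      gT ε 0 0 • jf' G z (0, Z (idx m (j - 1))) (j * Real.pi) with hy
  have hcm : ∀ r, c r ∈ G.T x := by
    intro r
    have hκ := kap_smul_mem hB hz hZ r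
    have hs : ∀ i, (sta G (kap z (r • Z)) i j).2 ∈ G.T x := fun i => by
      have := (KG.sta_mem hκ i j).2
      rwa [sta_kap_fst (Z := r • Z) hB hz (fun i => V0_smul (hZ i) r)] at this
    exact (G.T x).sub_mem ((G.T x).smul_mem _ (hs _)) ((G.T x).smul_mem _ (hs _))
  have hyT : y ∈ G.T x := by
    -- derivative of a curve in a subspace
    have h3 : HasDerivAt (fun r => G.P x (c r)) (G.P x y) 0 :=
      (G.P x).hasFDerivAt.comp_hasDerivAt (0:ℝ) hcD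
    have h4 : (fun r => G.P x (c r)) = c := funext fun r => (P_eq_self G hxS).1 (hcm r)
    rw [h4] at h3
    exact (P_eq_self G hxS).2 (h3.unique hcD)
  have h5 : HasFDerivAt (Exp G x) (fderiv ℝ (Exp G x) 0) (c 0) := by
    rw [hc0]
    exact ((contDiffAt_Exp' G hxS (G.T x).zero_mem).differentiableAt (by simp)).hasFDerivAt
  have h6 := h5.comp_hasDerivAt (0:ℝ) hcD
  rw [fderiv_Exp_zero G hxS hyT] at h6
  rw [h1.unique h6, hy, smul_sub]

/-- shift by `2π` -/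
lemma cc_shift (h : OK G m ε) {κ' : Euc N × (Fin m → Euc N)} (hκ : κ' ∈ Km G m) (t : ℝ) :
    cc G ε κ' 0 (t + 2 * Real.pi) =
      cc G ε (κ'.1, fun i : Fin m => κ'.2 (idx m (((i : ℕ) : ℤ) + 2))) 0 t := by
  have hidx : ∀ j : ℤ, idx m ((((idx m j : Fin m) : ℕ) : ℤ) + 2) = idx m (j + 2) := by
    intro j
    unfold KG.idx
    ext
    have hm0 : (0 : ℤ) < m := by exact_mod_cast Nat.pos_of_ne_zero (NeZero.ne m)
    have h2 := Int.emod_nonneg j hm0.ne'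
    simp only [Int.toNat_of_nonneg h2]
    rw [Int.emod_add_emod]
  unfold KG.cc
  have e1 : (t + 2 * Real.pi) / Real.pi = t / Real.pi + (2 : ℕ) := by
    have := Real.pi_ne_zero
    field_simp
    push_cast
    ring
  rw [e1, round_add_natCast]
  set j := round (t / Real.pi) with hj
  have e2 : t + 2 * Real.pi - ((j + ((2:ℕ) : ℤ) : ℤ) : ℝ) * Real.pi = t - j * Real.pi := by
    push_cast; ring
  rw [e2]
  unfold KG.pc
  have e3 : ∀ (i : Fin m), sta G κ' i (j + ((2:ℕ):ℤ)) = sta G κ' i j := by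
    intro i
    unfold KG.sta
    have e : (((j + ((2:ℕ):ℤ) : ℤ) : ℝ)) * Real.pi = j * Real.pi + 2 * (1:ℤ) * Real.pi := by
      push_cast; ring
    rw [e, KG.fl_int h.per (KG.kTS hκ i) (hκ.2.1 i).2]
  rw [e3, e3]
  have e4 : ∀ j' : ℤ, sta G (κ'.1, fun i : Fin m => κ'.2 (idx m (((i : ℕ) : ℤ) + 2))) (idx m j') j =
      sta G κ' (idx m (j' + 2)) j := by
    intro j'
    unfold KG.sta
    simp only [hidx]
  rw [e4, e4]
  have e5 : j - 1 + 2 = j + 2 - 1 := by ring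
  rw [e5]
  rfl

/-- index shift -/
def shf (Z : Fin m → Euc N) (i : Fin m) : Euc N := Z (idx m (((i : ℕ) : ℤ) + 2))

lemma AZ_shift (h : OK G m ε) (hB : GT.Bla G k) (hz : z ∈ L.US G) (hZ : ∀ i, Z i ∈ V0 G z)
    (t : ℝ) : AZ G ε z Z (t + 2 * Real.pi) = AZ G ε z (shf Z) t := by
  have h1 := hasDerivAt_AZ (t := t + 2 * Real.pi) h hB hz hZ
  have hZ' : ∀ i, shf Z i ∈ V0 G z := fun i => hZ _
  have h2 := hasDerivAt_AZ (t := t) h hB hz hZ'
  have h3 : (fun r : ℝ => FT G m ε (kap z (r • Z), t + 2 * Real.pi)) =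
      fun r : ℝ => FT G m ε (kap z (r • shf Z), t) := by
    funext r
    rw [FT_eq h (kap_smul_mem hB hz hZ r), FT_eq h (kap_smul_mem hB hz hZ' r),
      cc_shift h (kap_smul_mem hB hz hZ r)]
    rfl
  rw [h3] at h1
  exact h1.unique h2

end Crest.Agent.R208.AK
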