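import Crest.Agent.R208.AK5

/-!
R208, block AK (helper952), part 6: the linearised rounded chains are negative modulo the diagonal.
-/

set_option autoImplicit false
set_option linter.unusedSectionVars false

open Set Filter Topology MeasureTheory
open scoped ContDiff RealInnerProductSpace Interval
open Crest.GeometryTopology.Submanifold
open Crest.Agent.R241.DDefs
open Crest.Agent.R241.D2
open Crest.Agent.R241.D3c
open Crest.Agent.R208.SV (ixd ix Fld jf jf')
open Crest.Agent.R208.NN (V0 qq)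
open Crest.Agent.R208.KG (idx Km cc sta pc rnd uu gT OK)

noncomputable section

namespace Crest.Agent.R208.AK

variable {n N k : ℕ} {κ : ℝ} {S : Set (Euc N)} {G : Geo n N κ S} {m : ℕ} [NeZero m] {ε : ℝ}
  {z : Euc N × Euc N} {Z : Fin m → Euc N}

/-- sum of the squares of the differences -/
def dsq (Z : Fin m → Euc N) : ℝ :=
  ∑ j ∈ Finset.range m, ‖Z (idx m (j : ℤ)) - Z (idx m ((j : ℤ) - 1))‖ ^ 2

lemma dsq_nonneg (Z : Fin m → Euc N) : 0 ≤ dsq Z := Finset.sum_nonneg fun _ _ => by positivity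

lemma AZ_per (h : OK G m ε) (hB : GT.Bla G k) (hz : z ∈ L.US G) (hZ : ∀ i, Z i ∈ V0 G z)
    (t : ℝ) : AZ G ε z Z (t + m * Real.pi) = AZ G ε z Z t := by
  have h1 := hasDerivAt_AZ (t := t + m * Real.pi) h hB hz hZ
  have h2 := hasDerivAt_AZ (t := t) h hB hz hZ
  have h3 : (fun r : ℝ => FT G m ε (kap z (r • Z), t + m * Real.pi)) =
      fun r : ℝ => FT G m ε (kap z (r • Z), t) := by
    funext r
    rw [FT_eq h (kap_smul_mem hB hz hZ r), FT_eq h (kap_smul_mem hB hz hZ r),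
      KG.cc_period h.per h.even (kap_smul_mem hB hz hZ r)]
  rw [h3] at h1
  exact h1.unique h2

/-- joint smoothness of the linearised field -/
lemma contDiffAt_AZ (h : OK G m ε) (hB : GT.Bla G k) (hz : z ∈ L.US G) (Z : Fin m → Euc N)
    (t : ℝ) : ContDiffAt ℝ ∞ (fun p : ((Euc N × Euc N) × (Fin m → Euc N)) × ℝ =>
      AZ G ε p.1.1 p.1.2 p.2) ((z, Z), t) := by
  have hκ : ((z.1, fun _ => z.2) : Euc N × (Fin m → Euc N)) ∈ Km G m := by
    rw [← kap_zero hz]
    exact kap_mem hB hz fun i => (V0 G z).zero_mem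
  have h1 : ContDiffAt ℝ ∞ (fderiv ℝ (FT G m ε)) ((z.1, fun _ => z.2), t) :=
    (contDiffAt_FT h hκ t).fderiv_right (m := ∞) (by simp)
  have h2 : ContDiffAt ℝ ∞ (fun p : ((Euc N × Euc N) × (Fin m → Euc N)) × ℝ =>
      fderiv ℝ (FT G m ε) ((p.1.1.1, fun _ => p.1.1.2), p.2)) ((z, Z), t) :=
    ContDiffAt.comp (g := fderiv ℝ (FT G m ε))
      (f := fun p : ((Euc N × Euc N) × (Fin m → Euc N)) × ℝ =>
        ((p.1.1.1, fun _ => p.1.1.2), p.2)) ((z, Z), t) h1 (by fun_prop)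
  exact h2.clm_apply (by fun_prop)

lemma contDiff_AZ_t (h : OK G m ε) (hB : GT.Bla G k) (hz : z ∈ L.US G) (Z : Fin m → Euc N) :
    ContDiff ℝ ∞ (AZ G ε z Z) := by
  rw [contDiff_iff_contDiffAt]
  intro t
  exact ContDiffAt.comp (g := fun p : ((Euc N × Euc N) × (Fin m → Euc N)) × ℝ =>
      AZ G ε p.1.1 p.1.2 p.2) (f := fun t : ℝ => ((z, Z), t)) t (contDiffAt_AZ h hB hz Z t)
      (by fun_prop)

lemma int_fl (hz : z ∈ L.US G) (T : ℝ) :
    (1 / 2) * ∫ t in (0:ℝ)..T, ‖(fl G (z, t)).2‖ ^ 2 = T / 2 := by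
  have h1 : ∀ t, ‖(fl G (z, t)).2‖ ^ 2 = 1 := fun t => by
    rw [norm_fl G hz.1, hz.2, one_pow]
  simp_rw [h1]
  rw [intervalIntegral.integral_const, smul_eq_mul]
  ring

lemma EnT_FT (h : OK G m ε) {κ' : Euc N × (Fin m → Euc N)} (hκ : κ' ∈ Km G m) :
    EnT (m * Real.pi) (fun t => FT G m ε (κ', t)) = 2 / m * MS.En (KG.F G m ε κ' 0) := by
  have hm := KG.m_pos (m := m)
  rw [KG.En_F h hκ]
  have h1 : (fun t => FT G m ε (κ', t)) = cc G ε κ' 0 := funext fun t => FT_eq h hκ t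
  rw [h1, EnT]
  field_simp
  ring

/-- **the linearised field is negative modulo the diagonal** -/
theorem ix_AZ_le (h : OK G m ε) (hB : GT.Bla G k) {c : ℝ}
    (hc : ∀ κ' ∈ Km G m, MS.En (KG.F G m ε κ' 0) ≤ (m : ℝ) ^ 2 * Real.pi / 4 - c * KG.jsq κ')
    (hz : z ∈ L.US G) (hZ : ∀ i, Z i ∈ V0 G z) :
    ix G z 0 (m * Real.pi) (AZ G ε z Z) (deriv (AZ G ε z Z)) (AZ G ε z Z)
      (deriv (AZ G ε z Z)) ≤ -(4 * c / m) * dsq Z := by
  have hm := KG.m_pos (m := m)
  have hpi := Real.pi_pos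
  set I := ix G z 0 (m * Real.pi) (AZ G ε z Z) (deriv (AZ G ε z Z)) (AZ G ε z Z)
      (deriv (AZ G ε z Z)) with hI
  -- the one parameter family
  set F : (ℝ × ℝ) × ℝ → Euc N := fun p => FT G m ε (kap z (p.1.2 • Z), p.2) with hF
  have hLF : LFam G ({0} : Set ℝ) (fun _ => (1 : ℝ →L[ℝ] ℝ)) (m * Real.pi) (fun _ => z) F 1 := by
    refine ⟨one_pos, ?_, ?_, ?_, ?_⟩
    · intro x _ r _ _ t
      have h1 : ContDiffAt ℝ ∞ (fun p : (ℝ × ℝ) × ℝ => kap z (p.1.2 • Z)) ((x, r), t) :=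
        ContDiffAt.comp (g := fun p : (Euc N × Euc N) × (Fin m → Euc N) => kap p.1 p.2)
          (f := fun p : (ℝ × ℝ) × ℝ => (z, p.1.2 • Z)) ((x, r), t)
          (contDiffAt_kap hz fun i => V0_smul (hZ i) r) (by fun_prop)
      exact ContDiffAt.comp (g := FT G m ε)
        (f := fun p : (ℝ × ℝ) × ℝ => (kap z (p.1.2 • Z), p.2)) ((x, r), t)
        (contDiffAt_FT h (kap_smul_mem hB hz hZ r) t) (h1.prodMk (by fun_prop))
    · intro x _ r _ _ t
      simp only [hF]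
      rw [FT_eq h (kap_smul_mem hB hz hZ r)]
      exact KG.cc_mem h.per (kap_smul_mem hB hz hZ r)
    · intro x _ r _ _ t
      simp only [hF]
      rw [FT_eq h (kap_smul_mem hB hz hZ r), FT_eq h (kap_smul_mem hB hz hZ r),
        KG.cc_period h.per h.even (kap_smul_mem hB hz hZ r)]
    · intro x _ t
      simp only [hF]
      rw [zero_smul]
      exact FT_diag h hz hB t
  have hlA : ∀ r t, lA F 0 r t = r • AZ G ε z Z t := by
    intro r t
    have h1 : HasFDerivAt F (fderiv ℝ F ((0, 0), t)) ((0, (0:ℝ) • r), t) := by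
      rw [zero_smul]
      exact ((hLF.zero_mem (x := 0) rfl t).differentiableAt (by simp)).hasFDerivAt
    have h2 := h1.comp_hasDerivAt (0:ℝ) (hasDerivAt_ray (t := t) (x := (0:ℝ)) (ζ := r) 0)
    have h3 : HasDerivAt (fun s : ℝ => FT G m ε (kap z (s • (r • Z)), t))
        (AZ G ε z (r • Z) t) 0 := hasDerivAt_AZ h hB hz (fun i => V0_smul (hZ i) r) t
    have h4 : (F ∘ fun s : ℝ => (((0:ℝ), s • r), t)) =
        fun s : ℝ => FT G m ε (kap z (s • (r • Z)), t) := by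
      funext s
      simp only [hF, Function.comp_apply]
      rw [smul_assoc]
    rw [h4] at h2
    have h5 := h2.unique h3
    rw [AZ_smul] at h5
    exact h5
  have hsm : ContDiff ℝ ∞ (AZ G ε z Z) := contDiff_AZ_t h hB hz Z
  have hlA' : ∀ r, lA' F 0 r = r • deriv (AZ G ε z Z) := by
    intro r
    funext t
    have h1 := hasDerivAt_lA ((hLF.zero_mem (x := 0) rfl t).of_le three_le) r
    have h2 : lA F 0 r = r • AZ G ε z Z := funext fun t => hlA r t
    rw [h2] at h1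
    exact h1.unique (((hsm.differentiable (by simp)) t).hasDerivAt.const_smul r)
  have hix : ∀ r, ix G z 0 (m * Real.pi) (lA F 0 r) (lA' F 0 r) (lA F 0 r) (lA' F 0 r) =
      r ^ 2 * I := by
    intro r
    have h2 : lA F 0 r = r • AZ G ε z Z := funext fun t => hlA r t
    rw [hlA', h2, SV.ix_smul_left, SV.ix_smul_right, hI]
    ring
  -- difference quotients
  set q : ℝ → ℝ := fun r => ∑ j ∈ Finset.range m, ‖r⁻¹ • ((kap z (r • Z)).2 (idx m (j : ℤ)) -
      (kap z (r • Z)).2 (idx m ((j : ℤ) - 1)))‖ ^ 2 with hq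
  have hqt : Tendsto q (𝓝[≠] 0) (𝓝 (dsq Z)) := by
    refine tendsto_finsetSum _ fun j _ => ?_
    have h1 : HasDerivAt (fun r : ℝ => (kap z (r • Z)).2 (idx m (j : ℤ)) -
        (kap z (r • Z)).2 (idx m ((j : ℤ) - 1)))
        (Z (idx m (j : ℤ)) - Z (idx m ((j : ℤ) - 1))) 0 :=
      (hasDerivAt_nrm hz.2 (V0_inner (hZ (idx m (j : ℤ))))).fun_sub
        (hasDerivAt_nrm hz.2 (V0_inner (hZ (idx m ((j : ℤ) - 1)))))
    have h2 := hasDerivAt_iff_tendsto_slope_zero.1 h1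
    have h3 : ∀ i i' : Fin m, (kap z ((0:ℝ) • Z)).2 i - (kap z ((0:ℝ) • Z)).2 i' = 0 := by
      intro i i'
      rw [zero_smul, kap_zero hz, sub_self]
    simp only [zero_add, h3, sub_zero] at h2
    exact (h2.norm.pow 2)
  have hjsq : ∀ r : ℝ, r ≠ 0 → KG.jsq (kap z (r • Z)) = r ^ 2 * q r := by
    intro r hr
    simp only [KG.jsq, hq]
    rw [Finset.mul_sum]
    refine Finset.sum_congr rfl fun j _ => ?_
    rw [norm_smul, mul_pow, norm_inv, inv_pow, Real.norm_eq_abs, sq_abs, ← mul_assoc,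
      mul_inv_cancel₀ (pow_ne_zero 2 hr), one_mul]
  have key : ∀ η > 0, (1 / 2) * I ≤ -(2 * c / m) * dsq Z + η := by
    intro η hη
    obtain ⟨r', hr', -, hb⟩ := energy_near (G := G) isCompact_singleton (by positivity)
      (fun x _ => hz.1) hLF hη
    have hev : ∀ᶠ r in 𝓝[≠] (0:ℝ), (1 / 2) * I ≤ -(2 * c / m) * q r + η := by
      have h1 : ∀ᶠ r in 𝓝[≠] (0:ℝ), ‖r‖ < r' :=
        (Metric.eventually_nhds_iff.2 ⟨r', hr', fun y hy => by simpa using hy⟩ :
          ∀ᶠ r in 𝓝 (0:ℝ), ‖r‖ < r').filter_mono nhdsWithin_le_nhds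
      filter_upwards [h1, self_mem_nhdsWithin] with r hr hr0
      have hr0 : r ≠ 0 := hr0
      have h2 := hb 0 rfl r rfl hr
      rw [hix, int_fl hz] at h2
      have h3 : EnT (m * Real.pi) (fun t => F ((0, r), t)) ≤
          m * Real.pi / 2 - (2 * c / m) * (r ^ 2 * q r) := by
        have h4 := EnT_FT h (kap_smul_mem hB hz hZ r)
        have h5 := hc _ (kap_smul_mem hB hz hZ r)
        rw [hjsq r hr0] at h5
        change EnT (m * Real.pi) (fun t => FT G m ε (kap z (r • Z), t)) ≤ _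
        rw [h4]
        calc 2 / (m:ℝ) * MS.En (KG.F G m ε (kap z (r • Z)) 0) ≤
            2 / (m:ℝ) * ((m : ℝ) ^ 2 * Real.pi / 4 - c * (r ^ 2 * q r)) := by gcongr
          _ = m * Real.pi / 2 - (2 * c / m) * (r ^ 2 * q r) := by field_simp; ring
      have h6 := (abs_le.1 h2).1
      have hr2 : 0 < r ^ 2 := by positivity
      have hn : ‖r‖ ^ 2 = r ^ 2 := by rw [Real.norm_eq_abs, sq_abs]
      rw [hn] at h6
      have h7 : r ^ 2 * ((1 / 2) * I) ≤ r ^ 2 * (-(2 * c / m) * q r + η) := by nlinarith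
      exact le_of_mul_le_mul_left h7 hr2
    have hlim : Tendsto (fun r => -(2 * c / m) * q r + η) (𝓝[≠] (0:ℝ))
        (𝓝 (-(2 * c / m) * dsq Z + η)) := (hqt.const_mul _).add_const _
    exact ge_of_tendsto hlim hev
  have h8 := le_of_forall_pos_le_add key
  have h9 : -(2 * c / m) * dsq Z = (1 / 2) * (-(4 * c / m) * dsq Z) := by ring
  rw [h9] at h8
  linarith

/-! ### Jacobi fields in the kernel -/

lemma tanTS_zero (hB : GT.Bla G k) (hz : z ∈ L.US G) {u : Euc N} (hu : u ∈ V0 G z) :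
    L.TanTS G z (0, u) := by
  have h1 := SV.tanTS_mk (G := G) (x := z.1) (y := z.2) (a := 0) (b := u) hz.1.1 hz.1.2
    (G.T z.1).zero_mem (V0_tan hB hz hu)
  have h2 : II G z.1 z.2 0 = 0 := by simp [II]
  rw [h2, zero_add] at h1
  exact h1

lemma dfl_add_two_pi (hB : GT.Bla G k) (hz : z ∈ L.US G) {u : Euc N} (hu : u ∈ V0 G z) (t : ℝ) :
    L.dfl G z (t + 2 * Real.pi) (0, u) = L.dfl G z t (0, u) := by
  have h3 : HasDerivAt (fun r : ℝ => ((z.1, nrm (z.2 + r • u)) : Euc N × Euc N)) (0, u) 0 :=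
    (hasDerivAt_const (0:ℝ) z.1).prodMk (hasDerivAt_nrm hz.2 (V0_inner hu))
  have h4 : ∀ t, HasFDerivAt (fun y => fl G (y, t)) (L.dfl G z t)
      (z.1, nrm (z.2 + (0:ℝ) • u)) := fun t => by
    rw [zero_smul, add_zero, nrm_self hz.2]
    exact L.hasFDerivAt_fl_left hz.1 t
  have h5 := (h4 (t + 2 * Real.pi)).comp_hasDerivAt (0:ℝ) h3
  have h6 := (h4 t).comp_hasDerivAt (0:ℝ) h3
  have h7 : ((fun y => fl G (y, t + 2 * Real.pi)) ∘
      fun r : ℝ => ((z.1, nrm (z.2 + r • u)) : Euc N × Euc N)) =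
      (fun y => fl G (y, t)) ∘ fun r : ℝ => ((z.1, nrm (z.2 + r • u)) : Euc N × Euc N) := by
    funext r
    have hκ := kap_mem (m := 1) (Z := fun _ => r • u) hB hz fun _ => V0_smul hu r
    have e : t + 2 * Real.pi = t + 2 * (1 : ℤ) * Real.pi := by push_cast; ring
    simp only [Function.comp_apply]
    rw [e]
    exact KG.fl_int hB.ty.per (KG.kTS hκ 0) (hκ.2.1 0).2 t 1
  rw [h7] at h5
  exact h5.unique h6

/-- the Jacobi field of the diagonal is in the kernel of the index form on `2πl`-periodic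
fields -/
lemma ix_jf_eq_zero (hB : GT.Bla G k) (hz : z ∈ L.US G) {u : Euc N} (hu : u ∈ V0 G z) {l : ℕ}
    {T : ℝ} (hT : T = l * (2 * Real.pi)) {Y Y' : ℝ → Euc N} (hY : Fld G z 0 T Y Y')
    (hYT : Y T = Y 0) :
    ix G z 0 T (jf G z (0, u)) (jf' G z (0, u)) Y Y' = 0 := by
  have hpi := Real.pi_pos
  have hT0 : 0 ≤ T := by rw [hT]; positivity
  rw [SV.ix_jac (tanTS_zero hB hz hu) hT0 hY, hYT]
  have h1 : ∀ l : ℕ, L.dfl G z (l * (2 * Real.pi)) (0, u) = L.dfl G z 0 (0, u) := by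
    intro l
    induction l with
    | zero => simp
    | succ l ih =>
      have e : ((l + 1 : ℕ) : ℝ) * (2 * Real.pi) = l * (2 * Real.pi) + 2 * Real.pi := by
        push_cast; ring
      rw [e, dfl_add_two_pi hB hz hu, ih]
  have h2 : jf' G z (0, u) T = jf' G z (0, u) 0 := by
    unfold SV.jf'
    rw [hT, h1]
  rw [h2, sub_self]

end Crest.Agent.R208.AK
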