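import Crest.Agent.R208.AK6

/-!
R208, block AK (helper952), part 7: families of rounded chains from linear maps; removal of the
diagonal direction.
-/

set_option autoImplicit false
set_option linter.unusedSectionVars false

open Set Filter Topology MeasureTheory
open scoped ContDiff RealInnerProductSpace Interval
open Crest.GeometryTopology.Submanifold
open Crest.Agent.R241.DDefs
open Crest.Agent.R241.D2
open Crest.Agent.R241.D3c
open Crest.Agent.R208.SV (ixd ix Fld jf jf')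
open Crest.Agent.R208.NN (V0 qq)
open Crest.Agent.R208.KG (idx Km cc sta pc rnd uu gT OK)

noncomputable section

namespace Crest.Agent.R208.AK

variable {n N k : ℕ} {κ : ℝ} {S : Set (Euc N)} {G : Geo n N κ S} {m : ℕ} [NeZero m] {ε : ℝ}
  {E V : Type*} [NormedAddCommGroup E] [NormedSpace ℝ E]
  [NormedAddCommGroup V] [NormedSpace ℝ V]
  {K : Set E} {P : E → V →L[ℝ] V} {g : E → Euc N × Euc N}
  {Lm : E → V →L[ℝ] (Fin m → Euc N)} {δ σ T : ℝ}

/-- smooth linear map to chains of `V_0`-vectors -/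
structure LinC (G : Geo n N κ S) (K : Set E) (P : E → V →L[ℝ] V) (g : E → Euc N × Euc N)
    (Lm : E → V →L[ℝ] (Fin m → Euc N)) : Prop where
  gs : ∀ x ∈ K, ContDiffAt ℝ ∞ g x
  gm : ∀ x ∈ K, g x ∈ L.US G
  smooth : ∀ x ∈ K, ContDiffAt ℝ ∞ Lm x
  mem : ∀ x ∈ K, ∀ ζ : V, P x ζ = ζ → ∀ i, Lm x ζ i ∈ V0 G (g x)

/-- the family of rounded chains -/
def fam (G : Geo n N κ S) (ε : ℝ) (g : E → Euc N × Euc N) (Lm : E → V →L[ℝ] (Fin m → Euc N))
    (p : (E × V) × ℝ) : Euc N := FT G m ε (kap (g p.1.1) (Lm p.1.1 p.1.2), p.2)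

/-- its linearisation -/
def fla (G : Geo n N κ S) (ε : ℝ) (g : E → Euc N × Euc N) (Lm : E → V →L[ℝ] (Fin m → Euc N))
    (p : (E × V) × ℝ) : Euc N := AZ G ε (g p.1.1) (Lm p.1.1 p.1.2) p.2

theorem LinC.lfam (h : OK G m ε) (hB : GT.Bla G k) (hL : LinC G K P g Lm) {r : ℝ} (hr : 0 < r) :
    LFam G K P (m * Real.pi) g (fam G ε g Lm) r := by
  refine ⟨hr, fun x hx ζ hζ _ t => ?_, fun x hx ζ hζ _ t => ?_, fun x hx ζ hζ _ t => ?_,
    fun x hx t => ?_⟩
  · have hm := hL.mem x hx ζ hζ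
    have h1 : ContDiffAt ℝ ∞ (fun p : (E × V) × ℝ => (g p.1.1, Lm p.1.1 p.1.2)) ((x, ζ), t) := by
      have e1 : ContDiffAt ℝ ∞ (fun p : (E × V) × ℝ => p.1.1) ((x, ζ), t) := by fun_prop
      have e2 : ContDiffAt ℝ ∞ (fun p : (E × V) × ℝ => p.1.2) ((x, ζ), t) := by fun_prop
      have e3 := ContDiffAt.comp (g := g) (f := fun p : (E × V) × ℝ => p.1.1) ((x, ζ), t)
        (hL.gs x hx) e1
      have e4 := ContDiffAt.comp (g := Lm) (f := fun p : (E × V) × ℝ => p.1.1) ((x, ζ), t)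
        (hL.smooth x hx) e1
      exact e3.prodMk (e4.clm_apply e2)
    have h2 : ContDiffAt ℝ ∞ (fun p : (E × V) × ℝ => kap (g p.1.1) (Lm p.1.1 p.1.2))
        ((x, ζ), t) :=
      ContDiffAt.comp (g := fun p : (Euc N × Euc N) × (Fin m → Euc N) => kap p.1 p.2)
        (f := fun p : (E × V) × ℝ => (g p.1.1, Lm p.1.1 p.1.2)) ((x, ζ), t)
        (contDiffAt_kap (hL.gm x hx) hm) h1
    exact ContDiffAt.comp (g := FT G m ε)
      (f := fun p : (E × V) × ℝ => (kap (g p.1.1) (Lm p.1.1 p.1.2), p.2)) ((x, ζ), t)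
      (contDiffAt_FT h (kap_mem hB (hL.gm x hx) hm) t) (h2.prodMk (by fun_prop))
  · have hm := kap_mem hB (hL.gm x hx) (hL.mem x hx ζ hζ)
    simp only [fam]
    rw [FT_eq h hm]
    exact KG.cc_mem h.per hm
  · have hm := kap_mem hB (hL.gm x hx) (hL.mem x hx ζ hζ)
    simp only [fam]
    rw [FT_eq h hm, FT_eq h hm, KG.cc_period h.per h.even hm]
  · simp only [fam]
    rw [map_zero]
    exact FT_diag h (hL.gm x hx) hB t

theorem LinC.lA_fam (h : OK G m ε) (hB : GT.Bla G k) (hL : LinC G K P g Lm) {x : E}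
    (hx : x ∈ K) {ζ : V} (hζ : P x ζ = ζ) (t : ℝ) :
    lA (fam G ε g Lm) x ζ t = fla G ε g Lm ((x, ζ), t) := by
  have hLF := hL.lfam h hB one_pos
  have h1 : HasFDerivAt (fam G ε g Lm) (fderiv ℝ (fam G ε g Lm) ((x, 0), t))
      ((x, (0:ℝ) • ζ), t) := by
    rw [zero_smul]
    exact ((hLF.zero_mem hx t).differentiableAt (by simp)).hasFDerivAt
  have h2 := h1.comp_hasDerivAt (0:ℝ) (hasDerivAt_ray (t := t) (x := x) (ζ := ζ) 0)
  have h3 := hasDerivAt_AZ (t := t) h hB (hL.gm x hx) (hL.mem x hx ζ hζ)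
  have h4 : (fam G ε g Lm ∘ fun s : ℝ => ((x, s • ζ), t)) =
      fun s : ℝ => FT G m ε (kap (g x) (s • Lm x ζ), t) := by
    funext s
    simp only [fam, Function.comp_apply, map_smul]
  rw [h4] at h2
  exact h2.unique h3

theorem LinC.lmap (h : OK G m ε) (hB : GT.Bla G k) (hL : LinC G K P g Lm)
    (hper : ∀ x ∈ K, ∀ ζ : V, P x ζ = ζ → ∀ t,
      AZ G ε (g x) (Lm x ζ) (t + T) = σ • AZ G ε (g x) (Lm x ζ) t) :
    LMap G K P T σ g (fla G ε g Lm) := by
  refine ⟨fun x hx ζ hζ t => ?_, fun x hx ζ hζ s t => ?_, fun x hx ζ hζ t => ?_, hper⟩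
  · have e1 : ContDiffAt ℝ ∞ (fun p : (E × V) × ℝ => p.1.1) ((x, ζ), t) := by fun_prop
    have e2 : ContDiffAt ℝ ∞ (fun p : (E × V) × ℝ => p.1.2) ((x, ζ), t) := by fun_prop
    have e3 := ContDiffAt.comp (g := g) (f := fun p : (E × V) × ℝ => p.1.1) ((x, ζ), t)
      (hL.gs x hx) e1
    have e4 := ContDiffAt.comp (g := Lm) (f := fun p : (E × V) × ℝ => p.1.1) ((x, ζ), t)
      (hL.smooth x hx) e1
    have e5 : ContDiffAt ℝ ∞ (fun p : (E × V) × ℝ => ((g p.1.1, Lm p.1.1 p.1.2), p.2))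
        ((x, ζ), t) := (e3.prodMk (e4.clm_apply e2)).prodMk (by fun_prop)
    exact ContDiffAt.comp (g := fun p : ((Euc N × Euc N) × (Fin m → Euc N)) × ℝ =>
      AZ G ε p.1.1 p.1.2 p.2)
      (f := fun p : (E × V) × ℝ => ((g p.1.1, Lm p.1.1 p.1.2), p.2)) ((x, ζ), t)
      (contDiffAt_AZ h hB (hL.gm x hx) _ t) e5
  · simp only [fla, map_smul]
    exact AZ_smul s _ t
  · exact AZ_mem h hB (hL.gm x hx) (hL.mem x hx ζ hζ) t

/-! ### removal of the diagonal -/

/-- remove the zeroth component -/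
def rem (Lm : E → V →L[ℝ] (Fin m → Euc N)) (x : E) : V →L[ℝ] (Fin m → Euc N) :=
  Lm x - ContinuousLinearMap.pi fun _ => (ContinuousLinearMap.proj (0 : Fin m)).comp (Lm x)

lemma rem_apply (x : E) (ζ : V) (i : Fin m) : rem Lm x ζ i = Lm x ζ i - Lm x ζ 0 := rfl

lemma rem_zero (x : E) (ζ : V) : rem Lm x ζ 0 = 0 := by rw [rem_apply, sub_self]

theorem LinC.rem (hL : LinC G K P g Lm) : LinC G K P g (rem Lm) where
  gs := hL.gs
  gm := hL.gm
  smooth x hx := by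
    refine (hL.smooth x hx).sub ?_
    set Φ : (V →L[ℝ] (Fin m → Euc N)) →L[ℝ] (V →L[ℝ] (Fin m → Euc N)) :=
      ContinuousLinearMap.compL ℝ V (Fin m → Euc N) (Fin m → Euc N)
        (ContinuousLinearMap.pi fun _ => ContinuousLinearMap.proj (0 : Fin m)) with hΦ
    have h1 : (fun x => ContinuousLinearMap.pi fun _ : Fin m =>
        (ContinuousLinearMap.proj (0 : Fin m)).comp (Lm x)) = fun x => Φ (Lm x) := by
      funext x; ext ζ i; rfl
    change ContDiffAt ℝ ∞ (fun x => ContinuousLinearMap.pi fun _ : Fin m =>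
        (ContinuousLinearMap.proj (0 : Fin m)).comp (Lm x)) x
    rw [h1]
    exact Φ.contDiff.contDiffAt.comp x (hL.smooth x hx)
  mem x hx ζ hζ i := by
    rw [rem_apply]
    exact (V0 G (g x)).sub_mem (hL.mem x hx ζ hζ i) (hL.mem x hx ζ hζ 0)

lemma AZ_rem (h : OK G m ε) (hB : GT.Bla G k) (hL : LinC G K P g Lm) {x : E}
    (hx : x ∈ K) {ζ : V} (hζ : P x ζ = ζ) (t : ℝ) :
    fla G ε g (rem Lm) ((x, ζ), t) = fla G ε g Lm ((x, ζ), t) - jf G (g x) (0, Lm x ζ 0) t := by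
  simp only [fla]
  rw [← AZ_const h hB (hL.gm x hx) (hL.mem x hx ζ hζ 0) t, ← AZ_sub]
  rfl

/-- constant chain -/
def cst (Lm : E → V →L[ℝ] (Fin m → Euc N)) (x : E) : V →L[ℝ] (Fin m → Euc N) :=
  ContinuousLinearMap.pi fun _ => (ContinuousLinearMap.proj (0 : Fin m)).comp (Lm x)

theorem LinC.cst (hL : LinC G K P g Lm) : LinC G K P g (cst Lm) where
  gs := hL.gs
  gm := hL.gm
  smooth x hx := by
    have h1 := (hL.smooth x hx).sub (hL.rem.smooth x hx)
    have h2 : AK.cst Lm = fun x => Lm x - AK.rem Lm x := by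
      funext x; simp only [AK.rem, AK.cst, sub_sub_cancel]
    rw [h2]; exact h1
  mem x hx ζ hζ _ := hL.mem x hx ζ hζ 0

lemma fla_cst (h : OK G m ε) (hB : GT.Bla G k) (hL : LinC G K P g Lm) {x : E}
    (hx : x ∈ K) {ζ : V} (hζ : P x ζ = ζ) (t : ℝ) :
    fla G ε g (cst Lm) ((x, ζ), t) = jf G (g x) (0, Lm x ζ 0) t :=
  AZ_const h hB (hL.gm x hx) (hL.mem x hx ζ hζ 0) t

/-- index forms of a chain field and of the field without diagonal part -/
theorem LinC.ix_rem (h : OK G m ε) (hB : GT.Bla G k) (hL : LinC G K P g Lm) {l : ℕ}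
    (hm : m = 2 * l) {x : E} (hx : x ∈ K) {ζ : V} (hζ : P x ζ = ζ) :
    ix G (g x) 0 (m * Real.pi)
      (fun t => fla G ε g Lm ((x, ζ), t)) (deriv fun t => fla G ε g Lm ((x, ζ), t))
      (fun t => fla G ε g (AK.rem Lm) ((x, ζ), t))
      (deriv fun t => fla G ε g (AK.rem Lm) ((x, ζ), t)) =
    ix G (g x) 0 (m * Real.pi)
      (fun t => fla G ε g Lm ((x, ζ), t)) (deriv fun t => fla G ε g Lm ((x, ζ), t))
      (fun t => fla G ε g Lm ((x, ζ), t)) (deriv fun t => fla G ε g Lm ((x, ζ), t)) ∧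
    ix G (g x) 0 (m * Real.pi)
      (fun t => fla G ε g (AK.rem Lm) ((x, ζ), t))
      (deriv fun t => fla G ε g (AK.rem Lm) ((x, ζ), t))
      (fun t => fla G ε g (AK.rem Lm) ((x, ζ), t))
      (deriv fun t => fla G ε g (AK.rem Lm) ((x, ζ), t)) =
    ix G (g x) 0 (m * Real.pi)
      (fun t => fla G ε g Lm ((x, ζ), t)) (deriv fun t => fla G ε g Lm ((x, ζ), t))
      (fun t => fla G ε g Lm ((x, ζ), t)) (deriv fun t => fla G ε g Lm ((x, ζ), t)) := by
  have hz := hL.gm x hx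
  have hpi := Real.pi_pos
  have hT : (m : ℝ) * Real.pi = l * (2 * Real.pi) := by rw [hm]; push_cast; ring
  have hT0 : 0 ≤ (m : ℝ) * Real.pi := by positivity
  have hper : ∀ {L' : E → V →L[ℝ] (Fin m → Euc N)}, LinC G K P g L' →
      LMap G K P (m * Real.pi) 1 g (fla G ε g L') := fun {L'} hL' =>
    hL'.lmap h hB fun x hx ζ hζ t => by
      rw [one_smul]; exact AZ_per h hB (hL'.gm x hx) (hL'.mem x hx ζ hζ) t
  have hM := hper hL
  have hR := hper hL.rem
  set A := fun t => fla G ε g Lm ((x, ζ), t) with hA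
  set B := fun t => fla G ε g (AK.rem Lm) ((x, ζ), t) with hB'
  set J := jf G (g x) (0, Lm x ζ 0) with hJ
  set J' := jf' G (g x) (0, Lm x ζ 0) with hJ'
  have fA : Fld G (g x) 0 (m * Real.pi) A (deriv A) := hM.fld hx hζ _ _
  have fB : Fld G (g x) 0 (m * Real.pi) B (deriv B) := hR.fld hx hζ _ _
  have fJ : Fld G (g x) 0 (m * Real.pi) J J' :=
    SV.fld_jf (tanTS_zero hB hz (hL.mem x hx ζ hζ 0)) _ _
  have e1 : B = A - J := funext fun t => AZ_rem h hB hL hx hζ t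
  have e2 : deriv B = deriv A - J' := by
    funext t
    rw [e1]
    have dA := ((hM.cd hx hζ).differentiable (by simp) t).hasDerivAt
    have dJ := SV.hasDerivAt_jf hz.1 (0, Lm x ζ 0) t
    exact (dA.sub dJ).deriv
  have pA : A (m * Real.pi) = A 0 := by
    have := hM.per x hx ζ hζ 0
    rw [zero_add, one_smul] at this
    exact this
  have pB : B (m * Real.pi) = B 0 := by
    have := hR.per x hx ζ hζ 0
    rw [zero_add, one_smul] at this
    exact this
  have k1 : ix G (g x) 0 (m * Real.pi) J J' A (deriv A) = 0 :=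
    ix_jf_eq_zero hB hz (hL.mem x hx ζ hζ 0) hT fA pA
  have k2 : ix G (g x) 0 (m * Real.pi) J J' B (deriv B) = 0 :=
    ix_jf_eq_zero hB hz (hL.mem x hx ζ hζ 0) hT fB pB
  have k3 : ix G (g x) 0 (m * Real.pi) A (deriv A) B (deriv B) =
      ix G (g x) 0 (m * Real.pi) A (deriv A) A (deriv A) := by
    rw [e2, e1, SV.ix_sub_right hT0 hz.1 fA fA fJ, SV.ix_symm hT0 hz.1 fA fJ, k1, sub_zero]
  refine ⟨k3, ?_⟩
  have k4 : ix G (g x) 0 (m * Real.pi) B (deriv B) B (deriv B) =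
      ix G (g x) 0 (m * Real.pi) A (deriv A) B (deriv B) := by
    have : ix G (g x) 0 (m * Real.pi) (A - J) (deriv A - J') B (deriv B) =
        ix G (g x) 0 (m * Real.pi) A (deriv A) B (deriv B) := by
      rw [SV.ix_sub_left hT0 hz.1 fA fJ fB, k2, sub_zero]
    rw [← this, ← e2, ← e1]
  rw [k4, k3]

/-- **the straight path from the field without diagonal part** -/
theorem LinC.spath_rem (h : OK G m ε) (hB : GT.Bla G k) (hL : LinC G K P g Lm) {l : ℕ}
    (hm : m = 2 * l) (hδ : 0 ≤ δ)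
    (hneg : ∀ x ∈ K, ∀ ζ : V, P x ζ = ζ → ix G (g x) 0 (m * Real.pi)
      (fun t => fla G ε g Lm ((x, ζ), t)) (deriv fun t => fla G ε g Lm ((x, ζ), t))
      (fun t => fla G ε g Lm ((x, ζ), t)) (deriv fun t => fla G ε g Lm ((x, ζ), t)) ≤
        -δ * ‖ζ‖ ^ 2) :
    SPath G K P (m * Real.pi) 1 g (lin (fla G ε g (AK.rem Lm)) (fla G ε g Lm)) (δ / 2) := by
  have hper : ∀ {L' : E → V →L[ℝ] (Fin m → Euc N)}, LinC G K P g L' →
      LMap G K P (m * Real.pi) 1 g (fla G ε g L') := fun {L'} hL' =>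
    hL'.lmap h hB fun x hx ζ hζ t => by
      rw [one_smul]; exact AZ_per h hB (hL'.gm x hx) (hL'.mem x hx ζ hζ) t
  have hpi := Real.pi_pos
  refine SPath.line (fun x hx => (hL.gm x hx).1) (by positivity) (hper hL.rem) (hper hL) hδ
    (fun x hx ζ hζ => ?_) hneg (fun x hx ζ hζ => ?_)
  · rw [(hL.ix_rem h hB hm hx hζ).2]
    exact hneg x hx ζ hζ
  · rw [(hL.ix_rem h hB hm hx hζ).1]
    refine (hneg x hx ζ hζ).trans ?_
    have : 0 ≤ δ * ‖ζ‖ ^ 2 := by positivity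
    linarith

end Crest.Agent.R208.AK
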