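import Crest.Agent.R208.AK7
import Crest.Agent.R208.NB9

/-!
R208, block AK (helper952), part 8: the periodic part.  Over `US G` the negative bundle `N` is
joined to the fields of the chains `(u,-u,u,-u)`.
-/

set_option autoImplicit false
set_option linter.unusedSectionVars false

open Set Filter Topology MeasureTheory Module
open scoped ContDiff RealInnerProductSpace Interval
open Crest.GeometryTopology.Submanifold
open Crest.Agent.R241.DDefs
open Crest.Agent.R241.D2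
open Crest.Agent.R241.D3c
open Crest.Agent.R208.SV (ixd ix Fld jf jf')
open Crest.Agent.R208.NN (V0 qq Wt nuP fd fd')
open Crest.Agent.R208.KG (idx Km cc sta pc rnd uu gT OK)
open Crest.Agent.R208.NB (NegB npr V0s)

noncomputable section

namespace Crest.Agent.R208.AK

/-! ### smooth inverses -/

section sinv

variable {U W : Type*} [NormedAddCommGroup U] [InnerProductSpace ℝ U] [FiniteDimensional ℝ U]
  [NormedAddCommGroup W] [InnerProductSpace ℝ W] [FiniteDimensional ℝ W]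

/-- the operator `A'* A' + (1 - Q)* (1 - Q)` with `A' = A Q` -/
def mop (A : U →L[ℝ] W) (Q : U →L[ℝ] U) : U →L[ℝ] U :=
  (ContinuousLinearMap.adjoint (A.comp Q)).comp (A.comp Q) +
    (ContinuousLinearMap.adjoint (1 - Q)).comp (1 - Q)

/-- inverse of an injective map of the range of `Q` -/
def sinv (A : U →L[ℝ] W) (Q : U →L[ℝ] U) : W →L[ℝ] U :=
  (Ring.inverse (mop A Q)).comp (ContinuousLinearMap.adjoint (A.comp Q))

variable {A : U →L[ℝ] W} {Q : U →L[ℝ] U}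

lemma mop_inj (hA : ∀ u, Q u = u → A u = 0 → u = 0) {u : U} (h : mop A Q u = 0) : u = 0 := by
  have h1 : ⟪mop A Q u, u⟫ = ‖A (Q u)‖ ^ 2 + ‖u - Q u‖ ^ 2 := by
    simp only [mop, add_apply, ContinuousLinearMap.comp_apply]
    rw [inner_add_left, ContinuousLinearMap.adjoint_inner_left,
      ContinuousLinearMap.adjoint_inner_left]
    simp only [ContinuousLinearMap.comp_apply, sub_apply]
    rw [real_inner_self_eq_norm_sq, real_inner_self_eq_norm_sq]
    rfl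
  rw [h, inner_zero_left] at h1
  have h2 : ‖u - Q u‖ ^ 2 = 0 := by nlinarith [sq_nonneg ‖A (Q u)‖, sq_nonneg ‖u - Q u‖]
  have h3 : ‖A (Q u)‖ ^ 2 = 0 := by nlinarith [sq_nonneg ‖A (Q u)‖, sq_nonneg ‖u - Q u‖]
  have h4 : Q u = u := by
    have := norm_eq_zero.1 (pow_eq_zero_iff (two_ne_zero) |>.1 h2)
    exact (sub_eq_zero.1 this).symm
  have h5 : A (Q u) = 0 := norm_eq_zero.1 (pow_eq_zero_iff (two_ne_zero) |>.1 h3)
  rw [h4] at h5
  exact hA u h4 h5

lemma isUnit_mop (hA : ∀ u, Q u = u → A u = 0 → u = 0) : IsUnit (mop A Q) := by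
  have h1 : IsUnit (mop A Q : U →ₗ[ℝ] U) :=
    (LinearMap.isUnit_iff_ker_eq_bot _).2 (LinearMap.ker_eq_bot'.2 fun u hu => mop_inj hA hu)
  obtain ⟨u, hu⟩ := h1
  refine ⟨⟨mop A Q, LinearMap.toContinuousLinearMap (u⁻¹ : (U →ₗ[ℝ] U)ˣ).1, ?_, ?_⟩, rfl⟩
  · ext1 w
    have h2 : ((u : U →ₗ[ℝ] U) * (u⁻¹ : (U →ₗ[ℝ] U)ˣ).1) w = w := by
      rw [Units.mul_inv]; rfl
    rw [hu] at h2
    exact h2
  · ext1 w
    have h2 : ((u⁻¹ : (U →ₗ[ℝ] U)ˣ).1 * (u : U →ₗ[ℝ] U)) w = w := by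
      rw [Units.inv_mul]; rfl
    rw [hu] at h2
    exact h2

/-- left inverse -/
theorem sinv_apply (hA : ∀ u, Q u = u → A u = 0 → u = 0) {u : U} (hu : Q u = u) :
    sinv A Q (A u) = u := by
  have h1 : ContinuousLinearMap.adjoint (A.comp Q) (A u) = mop A Q u := by
    have e1 : (1 : U →L[ℝ] U) u = u := rfl
    simp only [mop, add_apply, ContinuousLinearMap.comp_apply, sub_apply,
      e1, hu, sub_self, map_zero, add_zero]
  unfold sinv
  rw [ContinuousLinearMap.comp_apply, h1]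
  have h2 := Ring.inverse_mul_cancel _ (isUnit_mop hA)
  exact congrArg (fun B : U →L[ℝ] U => B u) h2

theorem contDiffAt_sinv {E : Type*} [NormedAddCommGroup E] [NormedSpace ℝ E]
    {A : E → U →L[ℝ] W} {Q : E → U →L[ℝ] U} {x : E} (hA : ContDiffAt ℝ ∞ A x)
    (hQ : ContDiffAt ℝ ∞ Q x) (hi : ∀ u, Q x u = u → A x u = 0 → u = 0) :
    ContDiffAt ℝ ∞ (fun y => sinv (A y) (Q y)) x := by
  have hAQ : ContDiffAt ℝ ∞ (fun y => (A y).comp (Q y)) x := hA.clm_comp hQ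
  have hAQ' : ContDiffAt ℝ ∞ (fun y => ContinuousLinearMap.adjoint ((A y).comp (Q y))) x :=
    (ContinuousLinearMap.adjoint (𝕜 := ℝ) (E := U) (F := W)).toContinuousLinearEquiv.contDiff.contDiffAt.comp
      x hAQ
  have hQ1 : ContDiffAt ℝ ∞ (fun y => (1 : U →L[ℝ] U) - Q y) x := contDiffAt_const.sub hQ
  have hQ1' : ContDiffAt ℝ ∞ (fun y => ContinuousLinearMap.adjoint ((1 : U →L[ℝ] U) - Q y)) x :=
    (ContinuousLinearMap.adjoint (𝕜 := ℝ) (E := U) (F := U)).toContinuousLinearEquiv.contDiff.contDiffAt.comp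
      x hQ1
  have hm : ContDiffAt ℝ ∞ (fun y => mop (A y) (Q y)) x :=
    (hAQ'.clm_comp hAQ).add (hQ1'.clm_comp hQ1)
  obtain ⟨u, hu⟩ := isUnit_mop hi
  have h1 : ContDiffAt ℝ ∞ Ring.inverse (mop (A x) (Q x)) := by
    rw [← hu]; exact contDiffAt_ringInverse ℝ u
  exact (h1.comp x hm).clm_comp hAQ'

end sinv

/-- a continuous linear map given on the standard basis -/
def ofB {W : Type*} [NormedAddCommGroup W] [NormedSpace ℝ W] {N : ℕ} (f : Fin N → W) :
    Euc N →L[ℝ] W :=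
  ∑ j, (innerSL ℝ (EuclideanSpace.basisFun (Fin N) ℝ j)).smulRight (f j)

lemma ofB_apply {W : Type*} [NormedAddCommGroup W] [NormedSpace ℝ W] {N : ℕ}
    (ℓ : Euc N →ₗ[ℝ] W) (u : Euc N) :
    ofB (fun j => ℓ (EuclideanSpace.basisFun (Fin N) ℝ j)) u = ℓ u := by
  unfold ofB
  rw [sum_apply]
  conv_rhs => rw [← (EuclideanSpace.basisFun (Fin N) ℝ).sum_repr' u, map_sum]
  refine Finset.sum_congr rfl fun j _ => ?_
  rw [map_smul]
  rfl

lemma contDiffAt_ofB {W E : Type*} [NormedAddCommGroup W] [NormedSpace ℝ W]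
    [NormedAddCommGroup E] [NormedSpace ℝ E] {N : ℕ} {f : E → Fin N → W} {x : E}
    (hf : ∀ j, ContDiffAt ℝ ∞ (fun y => f y j) x) : ContDiffAt ℝ ∞ (fun y => ofB (f y)) x := by
  unfold ofB
  refine ContDiffAt.sum fun j _ => ?_
  have h1 : ContDiff ℝ ∞ (fun w : W =>
      (innerSL ℝ (EuclideanSpace.basisFun (Fin N) ℝ j)).smulRight w) :=
    (ContinuousLinearMap.smulRightL ℝ (Euc N) W
      (innerSL ℝ (EuclideanSpace.basisFun (Fin N) ℝ j))).contDiff
  exact h1.contDiffAt.comp x (hf j)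

/-! ### chains with four arcs -/

/-- the chain `(c₀ u, c₁ u, c₂ u, c₃ u)` -/
def mkZ {N m : ℕ} (c : Fin m → ℝ) : Euc N →L[ℝ] (Fin m → Euc N) :=
  ContinuousLinearMap.pi fun i => c i • ContinuousLinearMap.id ℝ (Euc N)

lemma mkZ_apply {N m : ℕ} (c : Fin m → ℝ) (u : Euc N) (i : Fin m) : mkZ c u i = c i • u := rfl

lemma dsq_four {N : ℕ} (Z : Fin 4 → Euc N) :
    dsq Z = ‖Z 0 - Z 3‖ ^ 2 + ‖Z 1 - Z 0‖ ^ 2 + ‖Z 2 - Z 1‖ ^ 2 + ‖Z 3 - Z 2‖ ^ 2 := by
  unfold dsq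
  simp only [Finset.sum_range_succ, Finset.sum_range_zero, zero_add]
  rfl

lemma shf_four {N : ℕ} (Z : Fin 4 → Euc N) : shf Z = ![Z 2, Z 3, Z 0, Z 1] := by
  funext i
  fin_cases i <;> rfl

/-- periodic chains -/
def cP : Fin 4 → ℝ := ![1, -1, 1, -1]

lemma shf_per {N : ℕ} (u : Euc N) : shf (mkZ cP u) = mkZ cP u := by
  rw [shf_four]
  funext i
  fin_cases i <;> simp [mkZ_apply, cP]

lemma mkZ_sub {N m : ℕ} (c : Fin m → ℝ) (u : Euc N) (i j : Fin m) :
    mkZ c u i - mkZ c u j = (c i - c j) • u := by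
  rw [mkZ_apply, mkZ_apply, sub_smul]

lemma norm_mkZ_sub {N m : ℕ} (c : Fin m → ℝ) (u : Euc N) (i j : Fin m) :
    ‖mkZ c u i - mkZ c u j‖ ^ 2 = (c i - c j) ^ 2 * ‖u‖ ^ 2 := by
  rw [mkZ_sub, norm_smul, mul_pow, Real.norm_eq_abs, sq_abs]

lemma dsq_per {N : ℕ} (u : Euc N) : dsq (mkZ cP u) = 16 * ‖u‖ ^ 2 := by
  rw [dsq_four, norm_mkZ_sub, norm_mkZ_sub, norm_mkZ_sub, norm_mkZ_sub]
  have e0 : cP 0 = 1 := rfl
  have e1 : cP 1 = -1 := rfl
  have e2 : cP 2 = 1 := rfl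
  have e3 : cP 3 = -1 := rfl
  rw [e0, e1, e2, e3]
  ring

variable {n N k : ℕ} {κ : ℝ} {S : Set (Euc N)} {G : Geo n N κ S} {z : Euc N × Euc N}

/-- index form of a `2π`-periodic field over the doubled interval -/
lemma ix_half {q : Euc N × Euc N} (hq : q ∈ TS G) (h1 : fl G (q, 2 * Real.pi) = q)
    {A : ℝ → Euc N} (hA : ContDiff ℝ ∞ A)
    (hAm : ∀ t, A t ∈ G.T (fl G (q, t)).1) {σ : ℝ} (hσ : σ = 1 ∨ σ = -1)
    (hAp : ∀ t, A (t + 2 * Real.pi) = σ • A t) :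
    ix G q 0 (4 * Real.pi) A (deriv A) A (deriv A) =
      2 * ix G q 0 (2 * Real.pi) A (deriv A) A (deriv A) := by
  have h0 : ∀ t : ℝ, (0 : Euc N) ∈ G.T (fl G (q, t)).1 := fun t => (G.T _).zero_mem
  have z0 : ix G q 0 (2 * Real.pi) (fun _ => (0 : Euc N)) (deriv fun _ => (0 : Euc N))
      (fun _ => (0 : Euc N)) (deriv fun _ => (0 : Euc N)) = 0 := by
    have := SV.ix_smul_left (G := G) (q := q) (a := 0) (b := 2 * Real.pi)
      (A := fun _ => (0 : Euc N)) (A' := fun _ => (0 : Euc N)) (C := fun _ => (0 : Euc N))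
      (C' := fun _ => (0 : Euc N)) (0 : ℝ)
    rw [zero_mul] at this
    have e : (deriv fun _ : ℝ => (0 : Euc N)) = fun _ => (0 : Euc N) := by
      funext t; simp
    rw [e]
    have e2 : ((0:ℝ) • fun _ : ℝ => (0 : Euc N)) = fun _ => (0 : Euc N) := by
      funext t; simp
    rw [e2] at this
    exact this
  rcases hσ with rfl | rfl
  · have h2 := ix_double hq h1 (A := A) (B := fun _ => 0) hA contDiff_const hAm h0 hAp
      (fun t => by simp)
    simp only [zero_add] at h2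
    rw [z0, mul_zero, zero_add] at h2
    exact h2
  · have h2 := ix_double hq h1 (A := fun _ => 0) (B := A) contDiff_const hA h0 hAm
      (fun t => by simp) hAp
    simp only [add_zero] at h2
    rw [z0, mul_zero, add_zero] at h2
    exact h2

end Crest.Agent.R208.AK
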