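import Crest.Agent.R208.AK8

/-!
R208, block AK (helper952), part 8b: the isomorphism `V_0 ≅ N` given by the chains `(u,-u,u,-u)` and
the straight line to the fields `nf w`.
-/

set_option autoImplicit false
set_option linter.unusedSectionVars false

open Set Filter Topology MeasureTheory Module
open scoped ContDiff RealInnerProductSpace Interval
open Crest.GeometryTopology.Submanifold
open Crest.Agent.R241.DDefs
open Crest.Agent.R241.D2
open Crest.Agent.R241.D3c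
open Crest.Agent.R208.SV (ixd ix Fld jf jf')
open Crest.Agent.R208.NN (V0 qq Wt nuP fd fd')
open Crest.Agent.R208.KG (idx Km cc sta pc rnd uu gT OK)
open Crest.Agent.R208.NB (NegB npr V0s)

noncomputable section

namespace Crest.Agent.R208.AK

variable {n N k Kn : ℕ} {κ : ℝ} {S : Set (Euc N)} {G : Geo n N κ S} {z : Euc N × Euc N}
  {δ ε : ℝ} {PN : Euc N × Euc N → Wt N Kn →L[ℝ] Wt N Kn}

lemma V0s_mem (h : GT.Bla G k) (hz : z ∈ L.US G) (u : Euc N) : V0s h z u ∈ V0 G z :=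
  (NB.V0s_eq_self h hz _).1 (NB.V0s_idem h hz u)

lemma mkZ_mem {m : ℕ} (c : Fin m → ℝ) {u : Euc N} (hu : u ∈ V0 G z) (i : Fin m) :
    mkZ c u i ∈ V0 G z := by rw [mkZ_apply]; exact V0_smul hu _

/-- the periodic chain field -/
def QP (h : GT.Bla G k) (ε : ℝ) (z : Euc N × Euc N) (u : Euc N) (t : ℝ) : Euc N :=
  AZ G ε z (mkZ cP (V0s h z u)) t

section

variable (hO : OK G 4 ε) (h : GT.Bla G k)

include hO in
lemma QP_per (hz : z ∈ L.US G) (u : Euc N) (t : ℝ) :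
    QP h ε z u (t + 2 * Real.pi) = QP h ε z u t := by
  unfold QP
  rw [AZ_shift hO h hz (mkZ_mem cP (V0s_mem h hz u)), shf_per]

include hO in
lemma QP_cd (hz : z ∈ L.US G) (u : Euc N) : ContDiff ℝ ∞ (QP h ε z u) :=
  contDiff_AZ_t hO h hz _

include hO in
lemma QP_tan (hz : z ∈ L.US G) (u : Euc N) (t : ℝ) : QP h ε z u t ∈ G.T (fl G (z, t)).1 :=
  AZ_mem hO h hz (mkZ_mem cP (V0s_mem h hz u)) t

include hO in
lemma QP_fld (hz : z ∈ L.US G) (u : Euc N) (a b : ℝ) :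
    Fld G z a b (QP h ε z u) (deriv (QP h ε z u)) :=
  fld_of_contDiff (QP_cd hO h hz u) (QP_tan hO h hz u)

lemma QP_add (u u' : Euc N) : QP h ε z (u + u') = QP h ε z u + QP h ε z u' := by
  funext t
  simp only [QP, Pi.add_apply]
  rw [map_add, map_add, AZ_add]

lemma QP_smul (c : ℝ) (u : Euc N) : QP h ε z (c • u) = c • QP h ε z u := by
  funext t
  simp only [QP, Pi.smul_apply]
  rw [map_smul, map_smul, AZ_smul]

include hO in
theorem contDiffAt_QP (hz : z ∈ L.US G) (u : Euc N) (t : ℝ) :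
    ContDiffAt ℝ ∞ (fun p : (Euc N × Euc N) × ℝ => QP h ε p.1 u p.2) (z, t) := by
  have h1 : ContDiffAt ℝ ∞ (fun p : (Euc N × Euc N) × ℝ => V0s h p.1) (z, t) :=
    ContDiffAt.comp (g := V0s h) (f := fun p : (Euc N × Euc N) × ℝ => p.1) (z, t)
      (NB.contDiffAt_V0s h hz.1) (by fun_prop)
  have h2 : ContDiffAt ℝ ∞ (fun p : (Euc N × Euc N) × ℝ =>
      (mkZ cP : Euc N →L[ℝ] (Fin 4 → Euc N)) (V0s h p.1 u)) (z, t) :=
    (mkZ cP : Euc N →L[ℝ] (Fin 4 → Euc N)).contDiff.contDiffAt.comp (z, t)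
      (h1.clm_apply contDiffAt_const)
  have h3 : ContDiffAt ℝ ∞ (fun p : (Euc N × Euc N) × ℝ =>
      ((p.1, (mkZ cP : Euc N →L[ℝ] (Fin 4 → Euc N)) (V0s h p.1 u)), p.2)) (z, t) :=
    (contDiffAt_fst.prodMk h2).prodMk contDiffAt_snd
  exact ContDiffAt.comp (g := fun p : ((Euc N × Euc N) × (Fin 4 → Euc N)) × ℝ =>
      AZ G ε p.1.1 p.1.2 p.2)
    (f := fun p : (Euc N × Euc N) × ℝ =>
      ((p.1, (mkZ cP : Euc N →L[ℝ] (Fin 4 → Euc N)) (V0s h p.1 u)), p.2)) (z, t)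
    (contDiffAt_AZ hO h hz _ t) h3

/-- energy bound hypothesis of helper10 -/
def HC (G : Geo n N κ S) (ε c : ℝ) : Prop :=
  ∀ κ' ∈ Km G 4, MS.En (KG.F G 4 ε κ' 0) ≤ ((4 : ℕ) : ℝ) ^ 2 * Real.pi / 4 - c * KG.jsq κ'

include hO in
/-- negativity of the periodic chain field -/
theorem ix_QP_le {c : ℝ} (hc : HC G ε c) (hz : z ∈ L.US G) {u : Euc N} (hu : u ∈ V0 G z) :
    ix G z 0 (2 * Real.pi) (QP h ε z u) (deriv (QP h ε z u)) (QP h ε z u)
      (deriv (QP h ε z u)) ≤ -(8 * c) * ‖u‖ ^ 2 := by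
  have h1 := ix_AZ_le hO h hc hz (mkZ_mem cP hu)
  have hu' : V0s h z u = u := (NB.V0s_eq_self h hz u).2 hu
  have e1 : AZ G ε z (mkZ cP u) = QP h ε z u := by
    funext t; rw [QP, hu']
  rw [e1, dsq_per] at h1
  have e2 : ((4 : ℕ) : ℝ) * Real.pi = 4 * Real.pi := by push_cast; ring
  rw [e2, ix_half hz.1 (NN.fl_two_pi h hz) (QP_cd hO h hz u) (QP_tan hO h hz u) (Or.inl rfl)
    (fun t => by rw [one_smul]; exact QP_per hO h hz u t)] at h1
  push_cast at h1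
  linarith

end

/-! ### the isomorphism -/

section iso

variable (hO : OK G 4 ε) (h : GT.Bla G k) (H : NegB G (k - 1) (nuP Kn) δ PN)

/-- `u ↦ npr (Q_u)` as a linear map, at the points of `US` -/
def psi (h : GT.Bla G k) (ε δ : ℝ) (PN : Euc N × Euc N → Wt N Kn →L[ℝ] Wt N Kn)
    (z : Euc N × Euc N) : Euc N →L[ℝ] Wt N Kn :=
  ofB fun j => npr G (nuP Kn) δ PN z (QP h ε z (EuclideanSpace.basisFun (Fin N) ℝ j))

include hO H in
theorem psi_apply (hz : z ∈ L.US G) (u : Euc N) :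
    psi h ε δ PN z u = npr G (nuP Kn) δ PN z (QP h ε z u) := by
  have hcO : ∀ u, ContinuousOn (QP h ε z u) (Icc 0 (2 * Real.pi)) := fun u =>
    (QP_cd hO h hz u).continuous.continuousOn
  let ℓ : Euc N →ₗ[ℝ] Wt N Kn :=
    { toFun := fun u => npr G (nuP Kn) δ PN z (QP h ε z u)
      map_add' := fun u u' => by rw [QP_add, H.npr_add hz.1 (hcO _) (hcO _)]
      map_smul' := fun c u => by rw [QP_smul, H.npr_smul hz.1 c (hcO _)]; rfl }
  exact ofB_apply ℓ u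

include hO H in
theorem contDiffAt_psi (hz : z ∈ L.US G) : ContDiffAt ℝ ∞ (psi h ε δ PN) z := by
  refine contDiffAt_ofB fun j => ?_
  exact H.contDiffAt_npr (E := Euc N × Euc N) (zz := fun z => z)
    (F := fun p : (Euc N × Euc N) × ℝ => QP h ε p.1 (EuclideanSpace.basisFun (Fin N) ℝ j) p.2)
    contDiffAt_id hz (fun t _ => contDiffAt_QP hO h hz _ t)

include hO H in
theorem psi_mem (hz : z ∈ L.US G) (u : Euc N) : PN z (psi h ε δ PN z u) = psi h ε δ PN z u := by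
  rw [psi_apply hO h H hz]
  exact H.npr_mem hz _

include hO H in
theorem psi_inj {c : ℝ} (hc0 : 0 < c) (hc : HC G ε c) (hz : z ∈ L.US G) {u : Euc N}
    (hu : V0s h z u = u) (h0 : psi h ε δ PN z u = 0) : u = 0 := by
  have huV : u ∈ V0 G z := (NB.V0s_eq_self h hz u).1 hu
  rw [psi_apply hO h H hz] at h0
  obtain ⟨-, -, -, h1, h2⟩ := H.decomp h hz (QP_fld hO h hz u 0 (2 * Real.pi))
    (by have := QP_per hO h hz u 0; rwa [zero_add] at this) h0
  have h3 := ix_QP_le hO h hc hz huV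
  have h4 : ix G z 0 (2 * Real.pi) (fd G z (nuP Kn) 0) (fd' G z (nuP Kn) 0)
      (fd G z (nuP Kn) 0) (fd' G z (nuP Kn) 0) = 0 := by
    have := H.ix_npr h hz NB.sig_per (W := fd G z (nuP Kn) 0) (W' := fd' G z (nuP Kn) 0)
      (NN.fld_fd hz.1 (nuP Kn) 0 0 (2 * Real.pi)) (by rw [one_smul]; exact NN.fd_two_pi h hz 0)
      (m := 0) (map_zero _)
    have e1 : fd G z (nuP Kn) (0 : Wt N Kn) = (0:ℝ) • fd G z (nuP Kn) (0 : Wt N Kn) := by
      funext t; simp [NN.fd]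
    have e2 : fd' G z (nuP Kn) (0 : Wt N Kn) = (0:ℝ) • fd' G z (nuP Kn) (0 : Wt N Kn) := by
      funext t; simp [NN.fd']
    rw [e1, e2, SV.ix_smul_left, zero_mul]
  rw [h4, add_zero] at h2
  rw [h2] at h3
  by_contra hne
  have h5 : 0 < ‖u‖ := norm_pos_iff.2 hne
  have h6 : 0 < 8 * c * ‖u‖ ^ 2 := by positivity
  linarith

include hO H in
theorem psi_surj {c : ℝ} (hc0 : 0 < c) (hc : HC G ε c) (hz : z ∈ L.US G) {w : Wt N Kn}
    (hw : PN z w = w) : ∃ u, V0s h z u = u ∧ psi h ε δ PN z u = w := by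
  set R := LinearMap.range (PN z : Wt N Kn →ₗ[ℝ] Wt N Kn) with hR
  let f : V0 G z →ₗ[ℝ] R := LinearMap.codRestrict R
    ((psi h ε δ PN z : Euc N →ₗ[ℝ] Wt N Kn).comp (V0 G z).subtype)
    (fun u => H.mem_range.2 (psi_mem hO h H hz _))
  have hinj : Function.Injective f := by
    rw [injective_iff_map_eq_zero]
    rintro ⟨u, hu⟩ h0
    have h1 : psi h ε δ PN z u = 0 := congrArg Subtype.val h0
    exact Subtype.ext (psi_inj hO h H hc0 hc hz ((NB.V0s_eq_self h hz u).2 hu) h1)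
  have hfr : finrank ℝ (V0 G z) = finrank ℝ R := by
    have h1 := H.rank z hz
    have h2 := NN.finrank_V0 h hz
    rw [hR, h1]; omega
  obtain ⟨u, hu⟩ := (LinearMap.injective_iff_surjective_of_finrank_eq_finrank hfr).1 hinj
    ⟨w, H.mem_range.2 hw⟩
  exact ⟨u, (NB.V0s_eq_self h hz _).2 u.2, congrArg Subtype.val hu⟩

/-- the inverse `N_z → V_0` -/
def uN (h : GT.Bla G k) (ε δ : ℝ) (PN : Euc N × Euc N → Wt N Kn →L[ℝ] Wt N Kn)
    (z : Euc N × Euc N) : Wt N Kn →L[ℝ] Euc N :=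
  sinv (psi h ε δ PN z) (V0s h z)

include hO H in
theorem uN_spec {c : ℝ} (hc0 : 0 < c) (hc : HC G ε c) (hz : z ∈ L.US G) {w : Wt N Kn}
    (hw : PN z w = w) :
    uN h ε δ PN z w ∈ V0 G z ∧ npr G (nuP Kn) δ PN z (QP h ε z (uN h ε δ PN z w)) = w := by
  obtain ⟨u, hu, huw⟩ := psi_surj hO h H hc0 hc hz hw
  have h1 : uN h ε δ PN z w = u := by
    rw [← huw]
    exact sinv_apply (fun u hu h0 => psi_inj hO h H hc0 hc hz hu h0) hu
  rw [h1]
  exact ⟨(NB.V0s_eq_self h hz u).1 hu, by rw [← psi_apply hO h H hz]; exact huw⟩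

include hO H in
theorem contDiffAt_uN {c : ℝ} (hc0 : 0 < c) (hc : HC G ε c) (hz : z ∈ L.US G) :
    ContDiffAt ℝ ∞ (uN h ε δ PN) z :=
  contDiffAt_sinv (contDiffAt_psi hO h H hz) (NB.contDiffAt_V0s h hz.1)
    (fun u hu h0 => psi_inj hO h H hc0 hc hz hu h0)

/-- the chain map of the periodic part -/
def LP (h : GT.Bla G k) (ε δ : ℝ) (PN : Euc N × Euc N → Wt N Kn →L[ℝ] Wt N Kn)
    (z : Euc N × Euc N) : Wt N Kn →L[ℝ] (Fin 4 → Euc N) :=
  (mkZ cP).comp (uN h ε δ PN z)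

include hO H in
theorem linC_LP {c : ℝ} (hc0 : 0 < c) (hc : HC G ε c) :
    LinC G (L.US G) PN (fun z => z) (LP h ε δ PN) where
  gs _ _ := contDiffAt_id
  gm _ hx := hx
  smooth _ hx := contDiffAt_const.clm_comp (contDiffAt_uN hO h H hc0 hc hx)
  mem _ hx _ hζ i := mkZ_mem cP (uN_spec hO h H hc0 hc hx hζ).1 i

include hO H in
lemma fla_LP {c : ℝ} (hc0 : 0 < c) (hc : HC G ε c) (hz : z ∈ L.US G) {w : Wt N Kn}
    (hw : PN z w = w) (t : ℝ) :
    fla G ε (fun z => z) (LP h ε δ PN) ((z, w), t) = QP h ε z (uN h ε δ PN z w) t := by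
  have h1 := (NB.V0s_eq_self h hz _).2 (uN_spec hO h H hc0 hc hz hw).1
  change AZ G ε z (mkZ cP (uN h ε δ PN z w)) t = AZ G ε z (mkZ cP (V0s h z (uN h ε δ PN z w))) t
  rw [h1]

/-- the fields `nf w` as a family -/
def nfF (G : Geo n N κ S) (Kn : ℕ) (p : ((Euc N × Euc N) × Wt N Kn) × ℝ) : Euc N :=
  fd G p.1.1 (nuP Kn) p.1.2 p.2

include h in
theorem lmap_nf : LMap G (L.US G) PN (2 * Real.pi) 1 (fun z => z) (nfF G Kn) := by
  refine ⟨fun z hz w _ t => (NB.contDiffAt_fd hz.1 w t).1, fun z hz w _ s t => ?_,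
    fun z hz w _ t => NN.fd_mem hz.1 _ _ t, fun z hz w _ t => ?_⟩
  · simp [nfF, NN.fd]
  · rw [one_smul]
    change fd G z (nuP Kn) w (t + 2 * Real.pi) = fd G z (nuP Kn) w t
    unfold NN.fd
    rw [fl_add_two_pi hz.1 (NN.fl_two_pi h hz), NN.ev_two_pi]

include hO H in
/-- **the periodic part** -/
theorem exists_spath_N (hS : IsCompact S) {c : ℝ} (hc0 : 0 < c) (hc : HC G ε c) :
    ∃ δ' > 0, SPath G (L.US G) PN (2 * Real.pi) 1 (fun z => z)
      (lin (fla G ε (fun z => z) (LP h ε δ PN)) (nfF G Kn)) δ' := by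
  obtain ⟨C, hC0, hC⟩ := NB.exists_bound_US (G := G) hS (f := psi h ε δ PN)
    (fun z hz => (contDiffAt_psi hO h H hz).continuousAt.continuousWithinAt)
  have hpi := Real.pi_pos
  have hδ := H.pos_δ
  -- lower bound for `uN`
  have hlow : ∀ z ∈ L.US G, ∀ w, PN z w = w → ‖w‖ ≤ (C + 1) * ‖uN h ε δ PN z w‖ := by
    intro z hz w hw
    have h1 := (uN_spec hO h H hc0 hc hz hw).2
    rw [← psi_apply hO h H hz] at h1
    calc ‖w‖ = ‖psi h ε δ PN z (uN h ε δ PN z w)‖ := by rw [h1]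
      _ ≤ ‖psi h ε δ PN z‖ * ‖uN h ε δ PN z w‖ := ContinuousLinearMap.le_opNorm _ _
      _ ≤ (C + 1) * ‖uN h ε δ PN z w‖ := by
        gcongr; exact (hC z hz).trans (by linarith)
  have hC1 : 0 < C + 1 := by linarith
  set δ1 := min (8 * c / (C + 1) ^ 2) δ with hδ1
  have hδ1p : 0 < δ1 := lt_min (by positivity) hδ
  have hM : LMap G (L.US G) PN (2 * Real.pi) 1 (fun z => z)
      (fla G ε (fun z => z) (LP h ε δ PN)) :=
    (linC_LP hO h H hc0 hc).lmap hO h fun z hz w hw t => by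
      have h1 := fla_LP hO h H hc0 hc hz hw (t + 2 * Real.pi)
      have h2 := fla_LP hO h H hc0 hc hz hw t
      rw [QP_per hO h hz] at h1
      rw [one_smul]
      exact h1.trans h2.symm
  refine ⟨δ1 / 2, by positivity, SPath.line (fun z hz => hz.1) (by positivity) hM (lmap_nf h)
    hδ1p.le (fun z hz w hw => ?_) (fun z hz w hw => ?_) (fun z hz w hw => ?_)⟩
  · have e1 : (fun t => fla G ε (fun z => z) (LP h ε δ PN) ((z, w), t)) =
        QP h ε z (uN h ε δ PN z w) := funext fun t => fla_LP hO h H hc0 hc hz hw t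
    rw [e1]
    have h1 := ix_QP_le hO h hc hz (uN_spec hO h H hc0 hc hz hw).1
    have h2 := hlow z hz w hw
    have h3 : ‖w‖ ^ 2 ≤ (C + 1) ^ 2 * ‖uN h ε δ PN z w‖ ^ 2 := by
      rw [← mul_pow]
      exact pow_le_pow_left₀ (norm_nonneg _) h2 2
    have h4 : δ1 * ‖w‖ ^ 2 ≤ 8 * c * ‖uN h ε δ PN z w‖ ^ 2 := by
      calc δ1 * ‖w‖ ^ 2 ≤ 8 * c / (C + 1) ^ 2 * ((C + 1) ^ 2 * ‖uN h ε δ PN z w‖ ^ 2) := by
            gcongr; exact min_le_left _ _
        _ = 8 * c * ‖uN h ε δ PN z w‖ ^ 2 := by field_simp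
    change _ ≤ _
    linarith
  · have h1 := H.ix_neg hz hw
    have e1 : (deriv fun t => nfF G Kn ((z, w), t)) = fd' G z (nuP Kn) w :=
      funext fun t => (NN.hasDerivAt_fd hz.1 (nuP Kn) w t).deriv
    rw [e1]
    change ix G z 0 (2 * Real.pi) (fd G z (nuP Kn) w) (fd' G z (nuP Kn) w)
      (fd G z (nuP Kn) w) (fd' G z (nuP Kn) w) ≤ -δ1 * ‖w‖ ^ 2
    have h2 : δ1 * ‖w‖ ^ 2 ≤ δ * ‖w‖ ^ 2 := by gcongr; exact min_le_right _ _
    linarith
  · have e1 : (deriv fun t => nfF G Kn ((z, w), t)) = fd' G z (nuP Kn) w :=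
      funext fun t => (NN.hasDerivAt_fd hz.1 (nuP Kn) w t).deriv
    have e2 : (fun t => fla G ε (fun z => z) (LP h ε δ PN) ((z, w), t)) =
        QP h ε z (uN h ε δ PN z w) := funext fun t => fla_LP hO h H hc0 hc hz hw t
    rw [e1, e2]
    change ix G z 0 (2 * Real.pi) (fd G z (nuP Kn) w) (fd' G z (nuP Kn) w)
      (QP h ε z (uN h ε δ PN z w)) (deriv (QP h ε z (uN h ε δ PN z w))) ≤ 0
    have hQ := QP_fld hO h hz (uN h ε δ PN z w) 0 (2 * Real.pi)
    rw [SV.ix_symm (by positivity) hz.1 (NN.fld_fd hz.1 _ _ _ _) hQ,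
      H.ix_npr h hz NB.sig_per hQ (by
        rw [one_smul]
        have := QP_per hO h hz (uN h ε δ PN z w) 0
        rwa [zero_add] at this) hw, (uN_spec hO h H hc0 hc hz hw).2]
    have h1 := H.ix_neg hz hw
    have h2 : 0 ≤ δ * ‖w‖ ^ 2 := by positivity
    linarith

end iso

end Crest.Agent.R208.AK
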