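import Crest.Agent.R208.KG7

/-!
Row 208, block KG (helper10), part KG8: the linearisation of the family of rounded chains at the
diagonal, with its properties.
-/

set_option autoImplicit false

open Set Filter Topology MeasureTheory
open scoped ContDiff RealInnerProductSpace Interval
open Crest.GeometryTopology.Submanifold
open Crest.Agent.R241.DDefs
open Crest.Agent.R241.D2
open Crest.Agent.R241.D3c
open Crest.Agent.R208.L (dfl)

noncomputable section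

namespace Crest.Agent.R208.KG

variable {n N : ℕ} {κ : ℝ} {S : Set (Euc N)} {G : Geo n N κ S} {m k : ℕ} {ε : ℝ}
  {x : Euc N × Euc N}

/-! ### normalised curves and the tube -/

/-- `(v + r a)/|v + r a|` -/
def nv (v a : Euc N) (r : ℝ) : Euc N := ‖v + r • a‖⁻¹ • (v + r • a)

lemma norm_add_smul_sq {v a : Euc N} (hv : ‖v‖ = 1) (ha : ⟪v, a⟫ = 0) (r : ℝ) :
    ‖v + r • a‖ ^ 2 = 1 + r ^ 2 * ‖a‖ ^ 2 := by
  rw [norm_add_sq_real, hv, inner_smul_right, ha, norm_smul, mul_pow, Real.norm_eq_abs, sq_abs]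
  ring

lemma norm_add_smul_pos {v a : Euc N} (hv : ‖v‖ = 1) (ha : ⟪v, a⟫ = 0) (r : ℝ) :
    0 < ‖v + r • a‖ := by
  have h := norm_add_smul_sq hv ha r
  have h2 : 0 ≤ r ^ 2 * ‖a‖ ^ 2 := by positivity
  have h3 : 0 < ‖v + r • a‖ ^ 2 := by linarith
  rcases (norm_nonneg (v + r • a)).lt_or_eq with h4 | h4
  · exact h4
  · rw [← h4] at h3; norm_num at h3

lemma norm_nv {v a : Euc N} (hv : ‖v‖ = 1) (ha : ⟪v, a⟫ = 0) (r : ℝ) : ‖nv v a r‖ = 1 := by
  unfold nv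
  rw [norm_smul, norm_inv, norm_norm, inv_mul_cancel₀ (norm_add_smul_pos hv ha r).ne']

lemma nv_zero {v a : Euc N} (hv : ‖v‖ = 1) : nv v a 0 = v := by
  unfold nv
  simp [hv]

lemma nv_zero_right {v : Euc N} (hv : ‖v‖ = 1) (r : ℝ) : nv v 0 r = v := by
  unfold nv
  simp [hv]

lemma hasDerivAt_nv {v a : Euc N} (hv : ‖v‖ = 1) (ha : ⟪v, a⟫ = 0) :
    HasDerivAt (nv v a) a 0 := by
  have h1 : HasDerivAt (fun r : ℝ => v + r • a) a 0 := by
    simpa using ((hasDerivAt_id (0 : ℝ)).smul_const a).const_add v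
  have h2 : HasDerivAt (fun r : ℝ => ‖v + r • a‖⁻¹) 0 0 := by
    have h3 : HasDerivAt (fun r : ℝ => ‖v + r • a‖ ^ 2) 0 0 := by
      have h4 : (fun r : ℝ => ‖v + r • a‖ ^ 2) = fun r => 1 + r ^ 2 * ‖a‖ ^ 2 :=
        funext fun r => norm_add_smul_sq hv ha r
      rw [h4]
      have h5 := ((hasDerivAt_pow 2 (0 : ℝ)).mul_const (‖a‖ ^ 2)).const_add 1
      simpa using h5
    have h4 : (fun r : ℝ => ‖v + r • a‖⁻¹) = fun r => (Real.sqrt (‖v + r • a‖ ^ 2))⁻¹ :=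
      funext fun r => by rw [Real.sqrt_sq (norm_nonneg _)]
    rw [h4]
    have h5 : ‖v + (0 : ℝ) • a‖ ^ 2 ≠ 0 := by simp [hv]
    have h6 := (h3.sqrt h5).fun_inv (by simp [hv])
    exact h6.congr_deriv (by simp)
  have h7 := h2.smul h1
  have h8 : (fun r : ℝ => ‖v + r • a‖⁻¹ • (v + r • a)) = nv v a := rfl
  rw [← h8]
  refine h7.congr_deriv ?_
  simp [hv]

/-- null directions at `x = (p,v)`: vectors of the link orthogonal to `v` -/
def Nul (G : Geo n N κ S) (x : Euc N × Euc N) (a : Euc N) : Prop :=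
  a ∈ GT.Vs G x.1 (Exp G x.1 (Real.pi • x.2)) ∧ ⟪x.2, a⟫ = 0

lemma Nul.smul {a : Euc N} (h : Nul G x a) (r : ℝ) : Nul G x (r • a) :=
  ⟨Submodule.smul_mem _ _ h.1, by rw [inner_smul_right, h.2, mul_zero]⟩

lemma Nul.add {a b : Euc N} (h : Nul G x a) (h' : Nul G x b) : Nul G x (a + b) :=
  ⟨Submodule.add_mem _ h.1 h'.1, by rw [inner_add_right, h.2, h'.2, add_zero]⟩

lemma Nul.zero : Nul G x 0 := ⟨Submodule.zero_mem _, inner_zero_right _⟩

lemma FF_of (h : GT.Bla G k) (hx : x ∈ L.US G) : (x.1, Exp G x.1 (Real.pi • x.2)) ∈ GT.FF S :=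
  h.mem_FF hx.1.1 hx.1.2 hx.2

lemma Nul.mem (h : GT.Bla G k) (hx : x ∈ L.US G) {a : Euc N} (ha : Nul G x a) :
    a ∈ G.T x.1 := h.Vs_le (FF_of h hx) ha.1

lemma nv_link (h : GT.Bla G k) (hx : x ∈ L.US G) {a : Euc N} (ha : Nul G x a) (r : ℝ) :
    nv x.2 a r ∈ G.T x.1 ∧ ‖nv x.2 a r‖ = 1 ∧
      Exp G x.1 (Real.pi • nv x.2 a r) = Exp G x.1 (Real.pi • x.2) := by
  have hv : x.2 ∈ GT.Vs G x.1 (Exp G x.1 (Real.pi • x.2)) := GT.mem_Vs hx.1.2 hx.2
  have h1 : nv x.2 a r ∈ GT.Vs G x.1 (Exp G x.1 (Real.pi • x.2)) :=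
    Submodule.smul_mem _ _ (Submodule.add_mem _ hv (Submodule.smul_mem _ _ ha.1))
  have h2 := norm_nv hx.2 ha.2 r
  exact ⟨h.Vs_le (FF_of h hx) h1, h2, h.Exp_pi (FF_of h hx) h1 h2⟩

/-- the tube around the diagonal -/
def tub (x : Euc N × Euc N) (ζ : Fin m → Euc N) : Euc N × (Fin m → Euc N) :=
  (x.1, fun i => nv x.2 (ζ i) 1)

lemma tub_mem (h : GT.Bla G k) (hx : x ∈ L.US G) {ζ : Fin m → Euc N} (hζ : ∀ i, Nul G x (ζ i)) :
    tub x ζ ∈ Km G m := by
  refine ⟨hx.1.1, fun i => ?_, fun i i' => ?_⟩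
  · have := nv_link h hx (hζ i) 1
    exact ⟨this.1, this.2.1⟩
  · exact (nv_link h hx (hζ i) 1).2.2.trans (nv_link h hx (hζ i') 1).2.2.symm

lemma tub_zero (hx : x ∈ L.US G) : tub x (0 : Fin m → Euc N) = (x.1, fun _ => x.2) := by
  unfold tub
  ext1
  · rfl
  · funext i
    exact nv_zero_right hx.2 1

lemma nv_one_smul (v a : Euc N) (r : ℝ) : nv v (r • a) 1 = nv v a r := by
  unfold nv; rw [one_smul]

lemma contDiffAt_tub (hx : x ∈ L.US G) {ζ : Fin m → Euc N} (hζ : ∀ i, ⟪x.2, ζ i⟫ = 0) :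
    ContDiffAt ℝ ∞ (fun q : (Euc N × Euc N) × (Fin m → Euc N) => tub q.1 q.2) (x, ζ) := by
  unfold tub nv
  refine ContDiffAt.prodMk (by fun_prop) (contDiffAt_pi.2 fun i => ?_)
  have h1 : ContDiffAt ℝ ∞ (fun q : (Euc N × Euc N) × (Fin m → Euc N) =>
      q.1.2 + (1 : ℝ) • q.2 i) (x, ζ) := by fun_prop
  have h2 := norm_add_smul_pos hx.2 (hζ i) 1
  exact ((h1.norm ℝ (norm_pos_iff.1 h2)).inv h2.ne').smul h1

/-! ### null directions and the flow -/

lemma mem_TS_nv (h : GT.Bla G k) (hx : x ∈ L.US G) {a : Euc N} (ha : Nul G x a) (r : ℝ) :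
    (x.1, nv x.2 a r) ∈ TS G := ⟨hx.1.1, (nv_link h hx ha r).1⟩

lemma hasDerivAt_fl_nv (h : GT.Bla G k) (hx : x ∈ L.US G) {a : Euc N} (ha : Nul G x a) (t : ℝ) :
    HasDerivAt (fun r => fl G ((x.1, nv x.2 a r), t)) (dfl G x t (0, a)) 0 := by
  have h1 : HasDerivAt (fun r : ℝ => ((x.1, nv x.2 a r) : Euc N × Euc N)) (0, a) 0 :=
    (hasDerivAt_const (0 : ℝ) x.1).prodMk (hasDerivAt_nv hx.2 ha.2)
  have h2 : HasFDerivAt (fun y => fl G (y, t)) (dfl G x t) (x.1, nv x.2 a 0) := by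
    rw [nv_zero hx.2]
    exact L.hasFDerivAt_fl_left hx.1 t
  exact h2.comp_hasDerivAt (0 : ℝ) h1

/-- positions at multiples of `π` -/
lemma fl_nv_fst (h : GT.Bla G k) (hx : x ∈ L.US G) {a : Euc N} (ha : Nul G x a) (r : ℝ) (j : ℤ) :
    (fl G ((x.1, nv x.2 a r), j * Real.pi)).1 = (fl G (x, j * Real.pi)).1 := by
  have hz : ((x.1, fun i : Fin 2 => if i = 0 then nv x.2 a r else x.2) :
      Euc N × (Fin 2 → Euc N)) ∈ Km G 2 := by
    have hl := nv_link h hx ha r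
    refine ⟨hx.1.1, fun i => ?_, fun i i' => ?_⟩
    · by_cases hi : i = 0
      · simp only [hi, if_true]; exact ⟨hl.1, hl.2.1⟩
      · simp only [hi, if_false]; exact ⟨hx.1.2, hx.2⟩
    · have key : ∀ i : Fin 2, Exp G x.1 (Real.pi • (if i = 0 then nv x.2 a r else x.2)) =
          Exp G x.1 (Real.pi • x.2) := by
        intro i
        by_cases hi : i = 0
        · simp only [hi, if_true]; exact hl.2.2
        · simp only [hi, if_false]
      simp only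
      rw [key, key]
  have := sta_fst h.ty.per hz 0 1 j
  simpa [sta] using this

/-- null directions: the Jacobi field vanishes at the multiples of `π` -/
lemma dfl_nul_fst (h : GT.Bla G k) (hx : x ∈ L.US G) {a : Euc N} (ha : Nul G x a) (j : ℤ) :
    (dfl G x (j * Real.pi) (0, a)).1 = 0 := by
  have h1 := hda_fst (hasDerivAt_fl_nv h hx ha (j * Real.pi))
  have h2 : (fun r => (fl G ((x.1, nv x.2 a r), j * Real.pi)).1) =
      fun _ => (fl G (x, j * Real.pi)).1 := funext fun r => fl_nv_fst h hx ha r j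
  rw [h2] at h1
  exact h1.unique (hasDerivAt_const _ _)

/-- null directions: the linearised flow is `2π`-periodic -/
lemma dfl_nul_per (h : GT.Bla G k) (hx : x ∈ L.US G) {a : Euc N} (ha : Nul G x a) (t : ℝ)
    (j : ℤ) : dfl G x (t + 2 * j * Real.pi) (0, a) = dfl G x t (0, a) := by
  have h1 := hasDerivAt_fl_nv h hx ha (t + 2 * j * Real.pi)
  have h2 : (fun r => fl G ((x.1, nv x.2 a r), t + 2 * j * Real.pi)) =
      fun r => fl G ((x.1, nv x.2 a r), t) := funext fun r =>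
    fl_int h.ty.per (mem_TS_nv h hx ha r) (nv_link h hx ha r).2.1 t j
  rw [h2] at h1
  exact h1.unique (hasDerivAt_fl_nv h hx ha t)

/-- the linearised flow in vertical directions, at any time -/
lemma dfl_vert_fst' {z : Euc N × Euc N} (hz : z ∈ TS G) {b : Euc N} (hb : b ∈ G.T z.1) (s : ℝ) :
    (dfl G z s (0, b)).1 = fderiv ℝ (Exp G z.1) (s • z.2) (s • b) := by
  have h1 : HasDerivAt (fun r : ℝ => fl G ((z.1, z.2 + r • b), s)) (dfl G z s (0, b)) 0 := by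
    have h2 : HasFDerivAt (fun y => fl G (y, s)) (dfl G z s) (z.1, z.2 + (0 : ℝ) • b) := by
      simpa using L.hasFDerivAt_fl_left hz s
    exact h2.comp_hasDerivAt (0 : ℝ) (GT.hasDerivAt_vert z b)
  have h3 : HasDerivAt (fun r : ℝ => Exp G z.1 (s • z.2 + r • (s • b)))
      (fderiv ℝ (Exp G z.1) (s • z.2) (s • b)) 0 :=
    hasDerivAt_line ((contDiffAt_Exp' G hz.1 ((G.T z.1).smul_mem s hz.2)).differentiableAt
      (by simp))
  have h4 : (fun r : ℝ => Exp G z.1 (s • z.2 + r • (s • b))) =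
      fun r => (fl G ((z.1, z.2 + r • b), s)).1 := by
    funext r
    rw [← Exp_smul G hz.1 ((G.T z.1).add_mem hz.2 ((G.T z.1).smul_mem r hb)), smul_add,
      smul_comm r s b]
  rw [h4] at h3
  exact (hda_fst h1).unique h3

/-- the linearised flow is a cocycle (vertical null directions) -/
lemma dfl_nul_add (h : GT.Bla G k) (hx : x ∈ L.US G) {a : Euc N} (ha : Nul G x a) (s t : ℝ) :
    dfl G x (s + t) (0, a) = dfl G (fl G (x, s)) t (dfl G x s (0, a)) := by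
  have h1 := hasDerivAt_fl_nv h hx ha (s + t)
  have h2 : (fun r => fl G ((x.1, nv x.2 a r), s + t)) =
      fun r => fl G (fl G ((x.1, nv x.2 a r), s), t) := funext fun r =>
    fl_add' G (mem_TS_nv h hx ha r) s t
  rw [h2] at h1
  have h3 : HasFDerivAt (fun y => fl G (y, t)) (dfl G (fl G (x, s)) t)
      (fl G ((x.1, nv x.2 a 0), s)) := by
    rw [nv_zero hx.2]
    exact L.hasFDerivAt_fl_left (fl_mem G hx.1 s) t
  have h4 := HasFDerivAt.comp_hasDerivAt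
    (f := fun r => fl G ((x.1, nv x.2 a r), s)) (0 : ℝ) h3 (hasDerivAt_fl_nv h hx ha s)
  exact h1.unique h4

/-- velocity of the null Jacobi field at `jπ` -/
def vj (G : Geo n N κ S) (x : Euc N × Euc N) (a : Euc N) (j : ℤ) : Euc N :=
  (dfl G x (j * Real.pi) (0, a)).2

lemma vj_mem (h : GT.Bla G k) (hx : x ∈ L.US G) {a : Euc N} (ha : Nul G x a) (j : ℤ) :
    vj G x a j ∈ G.T (fl G (x, j * Real.pi)).1 := by
  have h1 := L.tanTS_dfl hx.1 (GT.tanTS_vert hx.1 (ha.mem h hx)) (j * Real.pi)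
  have h2 := SV.snd_eq h1
  have h3 := dfl_nul_fst h hx ha j
  rw [h3] at h2
  unfold II at h2
  rw [map_zero, add_zero] at h2
  unfold vj
  rw [h2]
  exact P_mem G (fl_mem G hx.1 _).1

lemma jf_nul (h : GT.Bla G k) (hx : x ∈ L.US G) {a : Euc N} (ha : Nul G x a) (j : ℤ) (s : ℝ) :
    SV.jf G x (0, a) (j * Real.pi + s) =
      fderiv ℝ (Exp G (fl G (x, j * Real.pi)).1) (s • (fl G (x, j * Real.pi)).2)
        (s • vj G x a j) := by
  unfold SV.jf
  rw [dfl_nul_add h hx ha]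
  have h1 : dfl G x (j * Real.pi) (0, a) = (0, vj G x a j) :=
    Prod.ext (dfl_nul_fst h hx ha j) rfl
  rw [h1]
  exact dfl_vert_fst' (fl_mem G hx.1 _) (vj_mem h hx ha j) s

lemma vj_add (h : GT.Bla G k) (hx : x ∈ L.US G) {a : Euc N} (ha : Nul G x a) (j l : ℤ) :
    vj G x a (j + 2 * l) = vj G x a j := by
  unfold vj
  have e : ((j + 2 * l : ℤ) : ℝ) * Real.pi = j * Real.pi + 2 * l * Real.pi := by
    push_cast; ring
  rw [e, dfl_nul_per h hx ha]

/-! ### the linearised family -/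

variable [NeZero m]

/-- the linearised family near the `j`-th corner -/
def AZj (G : Geo n N κ S) (ε : ℝ) (x : Euc N × Euc N) (ζ : Fin m → Euc N) (j : ℤ) (s : ℝ) :
    Euc N :=
  fderiv ℝ (Exp G (fl G (x, j * Real.pi)).1) (s • (fl G (x, j * Real.pi)).2)
    (gT ε 0 s • vj G x (ζ (idx m j)) j - gT ε 0 (-s) • vj G x (ζ (idx m (j - 1))) j)

/-- **the linearisation at the diagonal** -/
def AZ (G : Geo n N κ S) (ε : ℝ) (x : Euc N × Euc N) (ζ : Fin m → Euc N) (t : ℝ) : Euc N :=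
  AZj G ε x ζ (round (t / Real.pi)) (t - round (t / Real.pi) * Real.pi)

/-- the derivative of the loops in the direction `ζ`, `ζ i₀ = 0` for one `i₀` -/
theorem hasDerivAt_cc (h : GT.Bla G k) (hε : 0 < ε) (hx : x ∈ L.US G)
    {ζ : Fin m → Euc N} (hζ : ∀ i, Nul G x (ζ i)) (i₀ : Fin m) (h0 : ζ i₀ = 0) (t : ℝ) :
    HasDerivAt (fun r : ℝ => cc G ε (tub x (r • ζ)) 0 t) (AZ G ε x ζ t) 0 := by
  set j := round (t / Real.pi) with hj
  set s := t - j * Real.pi with hs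
  have hmem : ∀ r : ℝ, tub x (r • ζ) ∈ Km G m := fun r => tub_mem h hx fun i => (hζ i).smul r
  have hsta : ∀ (r : ℝ) (i : Fin m) (l : ℤ), sta G (tub x (r • ζ)) i l =
      fl G ((x.1, nv x.2 (ζ i) r), l * Real.pi) := by
    intro r i l
    unfold sta tub
    simp only [Pi.smul_apply, nv_one_smul]
  have hpos : ∀ r : ℝ, (sta G (tub x (r • ζ)) (idx m j) j).1 = (fl G (x, j * Real.pi)).1 := by
    intro r
    rw [sta_fst h.ty.per (hmem r) (idx m j) i₀ j, hsta, h0, nv_zero_right hx.2]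
  have hfun : (fun r : ℝ => cc G ε (tub x (r • ζ)) 0 t) = fun r =>
      Exp G (fl G (x, j * Real.pi)).1
        (gT ε 0 s • (fl G ((x.1, nv x.2 (ζ (idx m j)) r), j * Real.pi)).2 -
          gT ε 0 (-s) • (fl G ((x.1, nv x.2 (ζ (idx m (j - 1))) r), j * Real.pi)).2) := by
    funext r
    unfold cc pc rnd uu
    rw [← hj, hpos r, hsta, hsta]
  rw [hfun]
  have hxj := fl_mem G hx.1 (j * Real.pi)
  have hb := (hda_snd (hasDerivAt_fl_nv h hx (hζ (idx m j)) (j * Real.pi))).const_smul (gT ε 0 s)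
  have ha := (hda_snd (hasDerivAt_fl_nv h hx (hζ (idx m (j - 1))) (j * Real.pi))).const_smul
    (gT ε 0 (-s))
  have hu := hb.sub ha
  have hu0 : gT ε 0 s • (fl G ((x.1, nv x.2 (ζ (idx m j)) 0), j * Real.pi)).2 -
      gT ε 0 (-s) • (fl G ((x.1, nv x.2 (ζ (idx m (j - 1))) 0), j * Real.pi)).2 =
      s • (fl G (x, j * Real.pi)).2 := by
    rw [nv_zero hx.2, nv_zero hx.2, ← sub_smul, gT_sub_neg hε]
  have hE : HasFDerivAt (Exp G (fl G (x, j * Real.pi)).1)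
      (fderiv ℝ (Exp G (fl G (x, j * Real.pi)).1) (s • (fl G (x, j * Real.pi)).2))
      (gT ε 0 s • (fl G ((x.1, nv x.2 (ζ (idx m j)) 0), j * Real.pi)).2 -
        gT ε 0 (-s) • (fl G ((x.1, nv x.2 (ζ (idx m (j - 1))) 0), j * Real.pi)).2) := by
    rw [hu0]
    exact ((contDiffAt_Exp' G hxj.1 ((G.T _).smul_mem _ hxj.2)).differentiableAt
      (by simp)).hasFDerivAt
  exact hE.comp_hasDerivAt (0 : ℝ) hu

/-- the same for `F` -/
theorem hasDerivAt_F (h : GT.Bla G k) (hO : OK G m ε) (hx : x ∈ L.US G)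
    {ζ : Fin m → Euc N} (hζ : ∀ i, Nul G x (ζ i)) (i₀ : Fin m) (h0 : ζ i₀ = 0) (α : ℝ) :
    HasDerivAt (fun r : ℝ => F G m ε (tub x (r • ζ)) 0 α) (AZ G ε x ζ ((m : ℝ) / 2 * α)) 0 := by
  have h1 : (fun r : ℝ => F G m ε (tub x (r • ζ)) 0 α) =
      fun r => cc G ε (tub x (r • ζ)) 0 ((m : ℝ) / 2 * α) := funext fun r =>
    F_eq hO (tub_mem h hx fun i => (hζ i).smul r) ⟨le_rfl, zero_le_one⟩ α
  rw [h1]
  exact hasDerivAt_cc h hO.pos hx hζ i₀ h0 _

/-! ### properties -/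

lemma AZj_ge (h : GT.Bla G k) (hε : 0 < ε) (hx : x ∈ L.US G) {ζ : Fin m → Euc N}
    (hζ : ∀ i, Nul G x (ζ i)) (j : ℤ) {s : ℝ} (hs : ε ≤ s) :
    AZj G ε x ζ j s = SV.jf G x (0, ζ (idx m j)) (j * Real.pi + s) := by
  unfold AZj
  rw [gT_of_ge hε hs, gT_of_le hε (by linarith), zero_smul, sub_zero, jf_nul h hx (hζ _)]

lemma AZj_le (h : GT.Bla G k) (hε : 0 < ε) (hx : x ∈ L.US G) {ζ : Fin m → Euc N}
    (hζ : ∀ i, Nul G x (ζ i)) (j : ℤ) {s : ℝ} (hs : s ≤ -ε) :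
    AZj G ε x ζ j s = SV.jf G x (0, ζ (idx m (j - 1))) (j * Real.pi + s) := by
  unfold AZj
  rw [gT_of_le hε hs, gT_of_ge hε (by linarith : ε ≤ -s), zero_smul, zero_sub, neg_smul, neg_neg,
    jf_nul h hx (hζ _)]

/-- the linearisation near the `j`-th corner -/
theorem AZ_eq (h : GT.Bla G k) (hε : 0 < ε) (hε1 : ε ≤ 1 / 2) (hx : x ∈ L.US G)
    {ζ : Fin m → Euc N} (hζ : ∀ i, Nul G x (ζ i)) {j : ℤ} {t : ℝ}
    (h1 : |t - j * Real.pi| ≤ Real.pi - ε) : AZ G ε x ζ t = AZj G ε x ζ j (t - j * Real.pi) := by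
  have hpi := Real.pi_gt_three
  set j' := round (t / Real.pi) with hj'
  have h2 : |t - j' * Real.pi| ≤ Real.pi / 2 := by
    have h3 := abs_sub_round (t / Real.pi)
    rw [← hj'] at h3
    have h4 : t - j' * Real.pi = (t / Real.pi - j') * Real.pi := by field_simp
    rw [h4, abs_mul, abs_of_pos Real.pi_pos]
    nlinarith
  obtain ⟨a1, a2⟩ := abs_le.1 h1
  obtain ⟨b1, b2⟩ := abs_le.1 h2
  have c1 : (j' : ℝ) < j + 2 := by nlinarith
  have c2 : (j : ℝ) < j' + 2 := by nlinarith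
  have c1' : j' < j + 2 := by exact_mod_cast c1
  have c2' : j < j' + 2 := by exact_mod_cast c2
  unfold AZ
  rw [← hj']
  rcases (by omega : j' = j - 1 ∨ j' = j ∨ j' = j + 1) with h' | h' | h'
  · rw [h'] at b1 b2 ⊢
    push_cast at b1 b2
    rw [AZj_ge h hε hx hζ _ (by push_cast; linarith), AZj_le h hε hx hζ _ (by linarith)]
    congr 1
    ring
  · rw [h']
  · rw [h'] at b1 b2 ⊢
    push_cast at b1 b2
    rw [AZj_le h hε hx hζ _ (by push_cast; linarith), AZj_ge h hε hx hζ _ (by linarith),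
      add_sub_cancel_right]
    congr 1
    ring

/-- away from the corners: the null Jacobi field of the arc -/
theorem AZ_arc (h : GT.Bla G k) (hε : 0 < ε) (hε1 : ε ≤ 1 / 2) (hx : x ∈ L.US G)
    {ζ : Fin m → Euc N} (hζ : ∀ i, Nul G x (ζ i)) {i : ℤ} {t : ℝ}
    (h1 : i * Real.pi + ε ≤ t) (h2 : t ≤ (i + 1) * Real.pi - ε) :
    AZ G ε x ζ t = SV.jf G x (0, ζ (idx m i)) t := by
  rw [AZ_eq h hε hε1 hx hζ (j := i) (by rw [abs_of_nonneg (by linarith)]; linarith),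
    AZj_ge h hε hx hζ _ (by linarith)]
  congr 1
  ring

/-- at the corners: `ε th(0)` times the jump -/
theorem AZ_corner (h : GT.Bla G k) (hε : 0 < ε) (hε1 : ε ≤ 1 / 2) (hx : x ∈ L.US G)
    {ζ : Fin m → Euc N} (hζ : ∀ i, Nul G x (ζ i)) (j : ℤ) :
    AZ G ε x ζ (j * Real.pi) =
      (ε * th 0) • (vj G x (ζ (idx m j)) j - vj G x (ζ (idx m (j - 1))) j) := by
  have hpi := Real.pi_gt_three
  rw [AZ_eq h hε hε1 hx hζ (j := j) (by rw [sub_self, abs_zero]; linarith), sub_self]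
  unfold AZj
  have hxj := fl_mem G hx.1 (j * Real.pi)
  rw [zero_smul, neg_zero, ← smul_sub, map_smul,
    fderiv_Exp_zero G hxj.1 ((G.T _).sub_mem (vj_mem h hx (hζ _) j) (vj_mem h hx (hζ _) j)),
    gT_zero, zero_div]

/-- equal directions: the Jacobi field -/
theorem AZ_const (h : GT.Bla G k) (hε : 0 < ε) (hx : x ∈ L.US G) {a : Euc N} (ha : Nul G x a)
    (t : ℝ) : AZ G ε x (fun _ : Fin m => a) t = SV.jf G x (0, a) t := by
  unfold AZ AZj
  rw [← sub_smul, gT_sub_neg hε, ← jf_nul h hx ha, add_sub_cancel]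

theorem AZ_mem (h : GT.Bla G k) (hx : x ∈ L.US G) {ζ : Fin m → Euc N}
    (hζ : ∀ i, Nul G x (ζ i)) (t : ℝ) : AZ G ε x ζ t ∈ G.T (fl G (x, t)).1 := by
  unfold AZ AZj
  set j := round (t / Real.pi) with hj
  have hxj := fl_mem G hx.1 (j * Real.pi)
  have h1 := fderiv_Exp_mem G hxj.1 ((G.T _).smul_mem (t - j * Real.pi) hxj.2)
    ((G.T _).sub_mem ((G.T _).smul_mem (gT ε 0 (t - j * Real.pi)) (vj_mem h hx (hζ (idx m j)) j))
      ((G.T _).smul_mem (gT ε 0 (-(t - j * Real.pi))) (vj_mem h hx (hζ (idx m (j - 1))) j)))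
  have h2 : Exp G (fl G (x, j * Real.pi)).1 ((t - j * Real.pi) • (fl G (x, j * Real.pi)).2) =
      (fl G (x, t)).1 := by
    rw [Exp_smul G hxj.1 hxj.2]
    have h4 := fl_add' G hx.1 (j * Real.pi) (t - j * Real.pi)
    rw [add_sub_cancel] at h4
    rw [h4]
  rw [h2] at h1
  exact h1

lemma vj_lin_add (x : Euc N × Euc N) (a b : Euc N) (j : ℤ) :
    vj G x (a + b) j = vj G x a j + vj G x b j := by
  unfold vj
  have : ((0, a + b) : Euc N × Euc N) = (0, a) + (0, b) := by simp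
  rw [this, map_add]
  rfl

lemma vj_lin_smul (x : Euc N × Euc N) (c : ℝ) (a : Euc N) (j : ℤ) :
    vj G x (c • a) j = c • vj G x a j := by
  unfold vj
  have : ((0, c • a) : Euc N × Euc N) = c • (0, a) := by simp
  rw [this, map_smul]
  rfl

lemma AZ_add (x : Euc N × Euc N) (ζ ξ : Fin m → Euc N) (t : ℝ) :
    AZ G ε x (ζ + ξ) t = AZ G ε x ζ t + AZ G ε x ξ t := by
  unfold AZ AZj
  rw [← map_add]
  congr 1
  simp only [Pi.add_apply, vj_lin_add, smul_add]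
  abel

lemma AZ_smul (x : Euc N × Euc N) (c : ℝ) (ζ : Fin m → Euc N) (t : ℝ) :
    AZ G ε x (c • ζ) t = c • AZ G ε x ζ t := by
  unfold AZ AZj
  rw [← map_smul]
  congr 1
  simp only [Pi.smul_apply, vj_lin_smul, smul_sub]
  rw [smul_comm c, smul_comm c]

/-- shift by `2π` -/
lemma AZ_shift (h : GT.Bla G k) (hx : x ∈ L.US G) {ζ ξ : Fin m → Euc N}
    (hζ : ∀ i, Nul G x (ζ i)) (hsh : ∀ j : ℤ, ζ (idx m (j + 2)) = ξ (idx m j))
    (t : ℝ) : AZ G ε x ζ (t + 2 * Real.pi) = AZ G ε x ξ t := by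
  unfold AZ
  have e1 : (t + 2 * Real.pi) / Real.pi = t / Real.pi + (2 : ℕ) := by
    push_cast
    field_simp
  rw [e1, round_add_natCast]
  set j := round (t / Real.pi)
  have e2 : t + 2 * Real.pi - ((j + ((2 : ℕ) : ℤ) : ℤ) : ℝ) * Real.pi = t - j * Real.pi := by
    push_cast; ring
  rw [e2]
  unfold AZj
  have e3 : fl G (x, ((j + ((2 : ℕ) : ℤ) : ℤ) : ℝ) * Real.pi) = fl G (x, j * Real.pi) := by
    have e4 : ((j + ((2 : ℕ) : ℤ) : ℤ) : ℝ) * Real.pi =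
        j * Real.pi + 2 * ((1 : ℤ) : ℝ) * Real.pi := by
      push_cast; ring
    rw [e4, fl_int h.ty.per hx.1 hx.2]
  have e5 : (j + ((2 : ℕ) : ℤ)) = j + 2 * 1 := by push_cast; ring
  have e6 : idx m (j + 2 * 1 - 1) = idx m ((j - 1) + 2) := by congr 1; ring
  rw [e3, e5, vj_add h hx (hζ _), vj_add h hx (hζ _), e6, hsh, mul_one, hsh]

end Crest.Agent.R208.KG
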