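import Crest.Agent.R208.KR7

/-!
R208, block KF (helper844), file KR8: **negativity of the index form on the fields `xi`.**
-/

set_option autoImplicit false

open Set Filter Topology MeasureTheory Real Module
open scoped RealInnerProductSpace Interval ContDiff
open Crest.GeometryTopology.Submanifold
open Crest.Agent.R241.DDefs
open Crest.Agent.R241.D2
open Crest.Agent.R208.L (om TanTS dfl om_dfl)
open Crest.Agent.R208.FI (Tan Sub)
open Crest.Agent.R208.NN (Wt nuP qq V0 fd fd' qf Rt ev ev')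

noncomputable section

namespace Crest.Agent.R208.KR

variable {n N k K : ℕ} {κ : ℝ} {S : Set (Euc N)} {G : Geo n N κ S} {z ξ η : Euc N × Euc N}
  {h : GT.Bla G k} {P : Euc N × Euc N → Wt N K →L[ℝ] Wt N K} {θ θ' ρ c : ℝ → ℝ} {a b : Wt N K}

theorem cont_diag {F : ℝ → ℝ → ℝ} (hF : Continuous (Function.uncurry F)) :
    Continuous fun x => F x x := hF.comp (continuous_id.prodMk continuous_id)

/-- pointwise positivity -/
theorem NegB.kk_psd (hP : NegB h K P) (hz : z ∈ L.US G) (hρ : Inv θ θ' ρ) (ha : P z a = a)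
    (hb : P z b = b) (s : Finset ℝ) (c : ℝ → ℝ) :
    0 ≤ ∑ i ∈ s, ∑ j ∈ s, c i * c j * kk h P z ρ a b i j :=
  psd_of_int (hP.continuous_kk hz hρ) (hP.kk_per hz hρ) (hP.kk_per' hz hρ)
    (fun _ hc hσ => hP.kk_pos hz hρ ha hb hc.continuous hσ) s c

/-- window integral of the trigonometric part -/
theorem win_Nt (hz : z ∈ TS G) (x : ℝ) :
    ∫ y in (x - π)..(x + π), bb G z (Nt a b x) (Nt a b y) =
      4 * bb G z (Nt a b x) (Nt a b x) := by
  have hcos : ∫ y in (x - π)..(x + π), cos (y / 2) = 4 * cos (x / 2) := by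
    have hd : ∀ y, HasDerivAt (fun y : ℝ => 2 * sin (y / 2)) (cos (y / 2)) y := by
      intro y
      have h1 : HasDerivAt (fun y : ℝ => y / 2) (1 / 2) y := (hasDerivAt_id y).div_const 2
      refine ((h1.sin).const_mul 2).congr_deriv ?_
      ring
    rw [intervalIntegral.integral_eq_sub_of_hasDerivAt (fun y _ => hd y)
      (Continuous.intervalIntegrable (by fun_prop) _ _)]
    have e1 : (x + π) / 2 = x / 2 + π / 2 := by ring
    have e2 : (x - π) / 2 = x / 2 - π / 2 := by ring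
    rw [e1, e2, sin_add_pi_div_two, sin_sub_pi_div_two]; ring
  have hsin : ∫ y in (x - π)..(x + π), sin (y / 2) = 4 * sin (x / 2) := by
    have hd : ∀ y, HasDerivAt (fun y : ℝ => -(2 * cos (y / 2))) (sin (y / 2)) y := by
      intro y
      have h1 : HasDerivAt (fun y : ℝ => y / 2) (1 / 2) y := (hasDerivAt_id y).div_const 2
      refine ((h1.cos).const_mul 2).neg.congr_deriv ?_
      ring
    rw [intervalIntegral.integral_eq_sub_of_hasDerivAt (fun y _ => hd y)
      (Continuous.intervalIntegrable (by fun_prop) _ _)]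
    have e1 : (x + π) / 2 = x / 2 + π / 2 := by ring
    have e2 : (x - π) / 2 = x / 2 - π / 2 := by ring
    rw [e1, e2, cos_add_pi_div_two, cos_sub_pi_div_two]; ring
  have hlin : ∀ w y, bb G z w (Nt a b y) = cos (y / 2) * bb G z w a + sin (y / 2) * bb G z w b := by
    intro w y
    rw [bb_eq hz, bb_eq hz, bb_eq hz, Nt, inner_add_right, real_inner_smul_right,
      real_inner_smul_right]
  rw [intervalIntegral.integral_congr fun y _ => hlin (Nt a b x) y,
    intervalIntegral.integral_add (Continuous.intervalIntegrable (by fun_prop) _ _)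
      (Continuous.intervalIntegrable (by fun_prop) _ _),
    intervalIntegral.integral_mul_const, intervalIntegral.integral_mul_const, hcos, hsin,
    hlin (Nt a b x) x]
  ring

/-- the basic curve -/
def C1 (h : GT.Bla G k) (P : Euc N × Euc N → Wt N K →L[ℝ] Wt N K) (z : Euc N × Euc N)
    (θ θ' : ℝ → ℝ) (a b : Wt N K) (r : ℝ) : Euc N × Euc N :=
  θ' r • Jr h P z r (Nt a b (θ r))

theorem C1_eq : C1 h P z θ θ' a b = Cc h P z θ θ' (fun _ => 1) a b := by
  funext r; unfold C1 Cc; rw [one_mul]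

theorem NegB.bb_nonpos (hP : NegB h K P) (hz : z ∈ L.US G) {w : Wt N K} (hw : P z w = w) :
    bb G z w w ≤ 0 := by
  by_cases h0 : w = 0
  · rw [h0, bb_eq hz.1]; simp
  · exact (hP.bb_neg hz hw h0).le

/-- **index form of `xi` as the defect of the kernel inequality** -/
theorem NegB.ix_defect (hP : NegB h K P) (hz : z ∈ L.US G) (hρ : Inv θ θ' ρ) :
    4 * SV.ix G z 0 (2 * π) (xi G z (C1 h P z θ θ' a b)) (xi' G z (C1 h P z θ θ' a b))
      (xi G z (C1 h P z θ θ' a b)) (xi' G z (C1 h P z θ θ' a b)) =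
    (∫ x in (0:ℝ)..(2 * π), ∫ y in (x - π)..(x + π), kk h P z ρ a b x y) -
      4 * ∫ x in (0:ℝ)..(2 * π), kk h P z ρ a b x x := by
  rw [C1_eq, hP.ix_kap hz hρ continuous_const (σ := 1) (by norm_num) (fun _ => (one_mul _).symm)]
  have hkc := hP.continuous_kap (a := a) (b := b) hz hρ
  have hbc := continuous_bb (a := a) (b := b) hz.1
  have e1 : ∀ x, ∫ y in (x - π)..(x + π), kk h P z ρ a b x y =
      4 * Ph h P z ρ (fun _ => 1) a b x - 4 * bb G z (Nt a b x) (Nt a b x) := by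
    intro x
    rw [← win_Nt hz.1 x]
    unfold Ph
    simp only [one_mul]
    rw [← intervalIntegral.integral_const_mul, ← intervalIntegral.integral_sub]
    · rfl
    · exact (continuous_const.mul (cont_left hkc x)).intervalIntegrable _ _
    · exact (cont_left (F := fun s t => bb G z (Nt a b s) (Nt a b t)) hbc x).intervalIntegrable _ _
  have e2 : ∀ x, kk h P z ρ a b x x = -bb G z (Nt a b x) (Nt a b x) := by
    intro x
    unfold kk
    have : kap h P z ρ a b x x = 0 := by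
      unfold kap
      rw [sub_self, sin_zero, if_pos le_rfl]
      exact L.om_self _
    rw [this]; ring
  have hdc : Continuous fun x => bb G z (Nt a b x) (Nt a b x) :=
    cont_diag (F := fun s t => bb G z (Nt a b s) (Nt a b t)) hbc
  simp only [e1, e2]
  rw [intervalIntegral.integral_sub, intervalIntegral.integral_const_mul,
    intervalIntegral.integral_const_mul, intervalIntegral.integral_neg]
  · ring
  · exact (continuous_const.mul (hP.continuous_Ph hz hρ continuous_const)).intervalIntegrable _ _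
  · exact (continuous_const.mul hdc).intervalIntegrable _ _

/-- **NEGATIVITY (KF2)** -/
theorem NegB.ix_neg (hP : NegB h K P) (hz : z ∈ L.US G) (hθ : Ang θ θ') (ha : P z a = a)
    (hb : P z b = b) (hab : (a, b) ≠ 0) :
    SV.ix G z 0 (2 * π) (xi G z (C1 h P z θ θ' a b)) (xi' G z (C1 h P z θ θ' a b))
      (xi G z (C1 h P z θ θ' a b)) (xi' G z (C1 h P z θ θ' a b)) < 0 := by
  have hpi := Real.pi_pos
  obtain ⟨ρ, g1, g2, g3, g4⟩ := hθ.exists_inv
  have hρ : Inv θ θ' ρ := ⟨hθ, g1, g2, g3, g4⟩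
  have hdef := hP.ix_defect (a := a) (b := b) hz hρ
  obtain ⟨hle, hstrict⟩ := kernel_main (hP.continuous_kk (a := a) (b := b) hz hρ)
    (hP.kk_symm hz hρ) (hP.kk_per hz hρ) (hP.kk_psd hz hρ ha hb)
  by_contra hcon
  rw [not_lt] at hcon
  obtain ⟨C, hC⟩ := hstrict (by linarith)
  -- a base point where `Nt` does not vanish
  obtain ⟨x₀, hx₀, hN0⟩ : ∃ x₀ ∈ Ico (0:ℝ) (2 * π), Nt a b x₀ ≠ 0 := by
    by_cases ha0 : a = 0
    · refine ⟨π, ⟨hpi.le, by linarith⟩, ?_⟩
      intro h0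
      apply hab
      unfold Nt at h0
      rw [cos_pi_div_two, sin_pi_div_two, zero_smul, one_smul, zero_add] at h0
      rw [ha0, h0]; rfl
    · refine ⟨0, ⟨le_rfl, by positivity⟩, ?_⟩
      unfold Nt
      rw [zero_div, cos_zero, sin_zero, one_smul, zero_smul, add_zero]
      exact ha0
  set r₀ := ρ x₀ with hr₀
  have hθr₀ : θ r₀ = x₀ := g3 x₀
  set p := fl G (z, r₀) with hp
  have hpU : p ∈ L.US G := fl_mem_US hz r₀
  set u₀ := uu h P p (Rt (nuP K) r₀ (Nt a b x₀)) with hu₀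
  have hPN : P p (Rt (nuP K) r₀ (Nt a b x₀)) = Rt (nuP K) r₀ (Nt a b x₀) := by
    rw [hp, hP.equi z hz, NegB.P_Nt ha hb]
  have hRN : Rt (nuP K) r₀ (Nt a b x₀) ≠ 0 := by
    intro h0
    apply hN0
    have := NN.norm_Rt (nuP K) r₀ (Nt a b x₀)
    rw [h0, norm_zero] at this
    exact norm_eq_zero.1 this.symm
  have hu0 : u₀ ≠ 0 := hP.uu_ne hpU hPN hRN
  -- the functions
  set A : ℝ → Euc N := fun r => uu h P (fl G (z, r)) (Rt (nuP K) r (Nt a b (θ r))) with hA
  set B : ℝ → Euc N := fun r => SV.jf G z (Jr h P z r₀ (Nt a b x₀)) r with hB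
  have hA0 : A r₀ = u₀ := by rw [hA]; simp only [hθr₀, hu₀, hp]
  have hB0 : B r₀ = 0 := Jr_v0 hz r₀ _
  have hBd : HasDerivAt B u₀ r₀ := by
    have h1 := SV.hasDerivAt_jf hz.1 (Jr h P z r₀ (Nt a b x₀)) r₀
    rw [Jr_d0 hz] at h1
    exact h1
  have hAc : ContinuousAt A r₀ := by
    have h1 : ContinuousAt (fun r => uu h P (fl G (z, r))) r₀ :=
      ContinuousAt.comp (f := fun r : ℝ => fl G (z, r)) (x := r₀)
        (hP.contDiffAt_uu hpU).continuousAt (SV.continuous_fl hz.1).continuousAt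
    have h2 : ContinuousAt (fun r => Rt (nuP K) r (Nt a b (θ r))) r₀ := by
      have h3 : Continuous fun r => (Rt (nuP K) r : Wt N K →L[ℝ] Wt N K) :=
        contDiff_Rt.continuous
      have h4 : Continuous fun r => Nt a b (θ r) :=
        (contDiff_Nt a b).continuous.comp hθ.continuous
      exact (h3.clm_apply h4).continuousAt
    exact h1.clm_apply h2
  -- the inequality
  have hineq : ∀ᶠ r in 𝓝[>] r₀, ⟪A r, (r - r₀)⁻¹ • (B r - B r₀)⟫ ≤
      (r - r₀)⁻¹ * (C / 8 * (θ r - θ r₀) ^ 2) := by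
    have h1 : Ioo r₀ (ρ (min (2 * π) (x₀ + π))) ∈ 𝓝[>] r₀ := by
      refine Ioo_mem_nhdsGT ?_
      apply hθ.strictMono.lt_iff_lt.1
      rw [hθr₀, g3]
      exact lt_min hx₀.2 (by linarith)
    filter_upwards [h1] with r hr
    have hy1 : x₀ < θ r := by rw [← hθr₀]; exact hθ.strictMono hr.1
    have hy2 : θ r < min (2 * π) (x₀ + π) := by
      have := hθ.strictMono hr.2
      rwa [g3] at this
    have hy3 := hy2.trans_le (min_le_left _ _)
    have hy4 := hy2.trans_le (min_le_right _ _)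
    have h2 := hC x₀ ⟨hx₀.1, hx₀.2.le⟩ (θ r) ⟨hx₀.1.trans hy1.le, hy3.le⟩
    have h3 : kap h P z ρ a b x₀ (θ r) = -⟪A r, B r⟫ := by
      rw [kap_of_le hy1.le hy4.le, hP.WW_eq hz]
      unfold JJ
      rw [g2, Jr_d0 hz]
    have h4 : kk h P z ρ a b x₀ x₀ + kk h P z ρ a b (θ r) (θ r) - 2 * kk h P z ρ a b x₀ (θ r) =
        -bb G z (Nt a b x₀ - Nt a b (θ r)) (Nt a b x₀ - Nt a b (θ r)) +
          8 * ⟪A r, B r⟫ := by
      have e5 : ∀ x, kap h P z ρ a b x x = 0 := by
        intro x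
        unfold kap
        rw [sub_self, sin_zero, if_pos le_rfl]
        exact L.om_self _
      unfold kk
      rw [e5, e5, h3, bb_eq hz.1, bb_eq hz.1, bb_eq hz.1, bb_eq hz.1, map_sub,
        inner_sub_left, inner_sub_right, inner_sub_right, ← bb_eq hz.1, ← bb_eq hz.1,
        ← bb_eq hz.1, ← bb_eq hz.1, bb_symm hz.1 (Nt a b (θ r)) (Nt a b x₀)]
      ring
    have h5 : bb G z (Nt a b x₀ - Nt a b (θ r)) (Nt a b x₀ - Nt a b (θ r)) ≤ 0 :=
      hP.bb_nonpos hz (by rw [map_sub, NegB.P_Nt ha hb, NegB.P_Nt ha hb])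
    rw [h4] at h2
    have h6 : ⟪A r, B r⟫ ≤ C / 8 * (θ r - θ r₀) ^ 2 := by
      rw [hθr₀]; nlinarith
    rw [hB0, sub_zero, real_inner_smul_right]
    exact mul_le_mul_of_nonneg_left h6 (inv_nonneg.2 (by linarith [hr.1]))
  -- limits
  have hlim1 : Tendsto (fun r => ⟪A r, (r - r₀)⁻¹ • (B r - B r₀)⟫) (𝓝[>] r₀) (𝓝 ⟪u₀, u₀⟫) := by
    have h1 : Tendsto (fun r => (r - r₀)⁻¹ • (B r - B r₀)) (𝓝[>] r₀) (𝓝 u₀) := by
      have h2 := hasDerivAt_iff_tendsto_slope.1 hBd
      have h3 : (𝓝[>] r₀) ≤ 𝓝[≠] r₀ := nhdsWithin_mono _ fun x hx => ne_of_gt hx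
      refine (h2.mono_left h3).congr fun r => ?_
      rw [slope_def_module]
    have h4 : Tendsto A (𝓝[>] r₀) (𝓝 u₀) := by
      rw [← hA0]; exact hAc.mono_left nhdsWithin_le_nhds
    exact h4.inner h1
  have hlim2 : Tendsto (fun r => (r - r₀)⁻¹ * (C / 8 * (θ r - θ r₀) ^ 2)) (𝓝[>] r₀) (𝓝 0) := by
    have h2 := hasDerivAt_iff_tendsto_slope.1 (hθ.der r₀)
    have h3 : (𝓝[>] r₀) ≤ 𝓝[≠] r₀ := nhdsWithin_mono _ fun x hx => ne_of_gt hx
    have h4 : Tendsto (fun r => C / 8 * (θ r - θ r₀)) (𝓝[>] r₀) (𝓝 0) := by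
      have : Continuous fun r => C / 8 * (θ r - θ r₀) := by
        have := hθ.continuous
        fun_prop
      have h5 := this.tendsto r₀
      simp only [sub_self, mul_zero] at h5
      exact h5.mono_left nhdsWithin_le_nhds
    have h6 := (h2.mono_left h3).mul h4
    rw [mul_zero] at h6
    refine h6.congr fun r => ?_
    rw [slope_def_field]
    ring
  have h7 := le_of_tendsto_of_tendsto hlim1 hlim2 hineq
  have h8 : 0 < ⟪u₀, u₀⟫ := real_inner_self_pos.2 hu0
  linarith

end Crest.Agent.R208.KR
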