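import Crest.Agent.R208.AK8b
import Crest.Agent.R208.KR8
import Crest.Agent.R208.KG8

/-!
R208, block AK (helper952), part 9: the antiperiodic part.  The fields of the chains
`(a,-b,-a,b)`, `a = uu w₁`, `b = uu w₂`.
-/

set_option autoImplicit false
set_option linter.unusedSectionVars false

open Set Filter Topology MeasureTheory Module
open scoped ContDiff RealInnerProductSpace Interval
open Crest.GeometryTopology.Submanifold
open Crest.Agent.R241.DDefs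
open Crest.Agent.R241.D2
open Crest.Agent.R241.D3c
open Crest.Agent.R208.SV (ixd ix Fld jf jf')
open Crest.Agent.R208.NN (V0 qq Wt nuP fd fd')
open Crest.Agent.R208.KG (idx Km cc sta pc rnd gT OK)
open Crest.Agent.R208.NB (npr V0s)
open Crest.Agent.R208.L (dfl)

noncomputable section

namespace Crest.Agent.R208.AK

/-! ### general pull back along a linear map of the fibre -/

section comp

variable {n N : ℕ} {κ : ℝ} {S : Set (Euc N)} {G : Geo n N κ S}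
  {E V V' : Type*} [NormedAddCommGroup E] [NormedSpace ℝ E]
  [NormedAddCommGroup V] [NormedSpace ℝ V] [NormedAddCommGroup V'] [NormedSpace ℝ V']
  {K : Set E} {P : E → V →L[ℝ] V} {P' : E → V' →L[ℝ] V'} {T σ δ : ℝ}
  {g : E → Euc N × Euc N} {j : V' →L[ℝ] V}

/-- pull back of a path of fields -/
def pbj (j : V' →L[ℝ] V) (A : ((E × ℝ) × V) × ℝ → Euc N) (p : ((E × ℝ) × V') × ℝ) : Euc N :=
  A ((p.1.1, j p.1.2), p.2)

theorem SPath.comp {A : ((E × ℝ) × V) × ℝ → Euc N} (h : SPath G K P T σ g A δ) (hδ : 0 ≤ δ)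
    (hj : ∀ x ∈ K, ∀ ζ : V', P' x ζ = ζ → P x (j ζ) = j ζ) {c : ℝ}
    (hc : ∀ x ∈ K, ∀ ζ : V', P' x ζ = ζ → c * ‖ζ‖ ^ 2 ≤ ‖j ζ‖ ^ 2) :
    SPath G K P' T σ g (pbj j A) (δ * c) where
  smooth x hx τ hτ ζ hζ t := by
    have h1 : ContDiffAt ℝ ∞ (fun p : ((E × ℝ) × V') × ℝ => ((p.1.1, j p.1.2), p.2))
        (((x, τ), ζ), t) := by
      have h2 : ContDiffAt ℝ ∞ (fun p : ((E × ℝ) × V') × ℝ => j p.1.2) (((x, τ), ζ), t) :=
        j.contDiff.contDiffAt.comp _ (by fun_prop)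
      exact ((by fun_prop : ContDiffAt ℝ ∞ (fun p : ((E × ℝ) × V') × ℝ => p.1.1)
        (((x, τ), ζ), t)).prodMk h2).prodMk (by fun_prop)
    exact ContDiffAt.comp (g := A)
      (f := fun p : ((E × ℝ) × V') × ℝ => ((p.1.1, j p.1.2), p.2)) (((x, τ), ζ), t)
      (h.smooth x hx τ hτ _ (hj x hx ζ hζ) t) h1
  hom x hx τ hτ ζ hζ s t := by
    simp only [pbj, map_smul]
    exact h.hom x hx τ hτ _ (hj x hx ζ hζ) s t
  tan x hx τ hτ ζ hζ t := h.tan x hx τ hτ _ (hj x hx ζ hζ) t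
  per x hx τ hτ ζ hζ t := h.per x hx τ hτ _ (hj x hx ζ hζ) t
  neg x hx τ hτ ζ hζ := by
    refine (h.neg x hx τ hτ _ (hj x hx ζ hζ)).trans ?_
    have := mul_le_mul_of_nonneg_left (hc x hx ζ hζ) hδ
    linarith

end comp

variable {n N k Kn : ℕ} {κ : ℝ} {S : Set (Euc N)} {G : Geo n N κ S} {z : Euc N × Euc N}
  {δ ε : ℝ} {PN : Euc N × Euc N → Wt N Kn →L[ℝ] Wt N Kn}

/-- helper844's structure from helper537's -/
theorem kr_of_nb (h : GT.Bla G k) (hk : 1 ≤ k) (H : NB.NegB G (k - 1) (nuP Kn) δ PN) :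
    KR.NegB h Kn PN where
  smooth := H.smooth
  idem z _ w := H.idem z w
  symm z _ w w' := H.sy z w w'
  equi := H.equi
  rank z hz := by rw [H.rank z hz]; omega
  neg z hz w hw hw0 := by
    have h1 := H.neg z hz w hw
    have h2 := H.pos_δ
    have h3 : 0 < ‖w‖ := norm_pos_iff.2 hw0
    have h4 : 0 < δ * ‖w‖ ^ 2 := by positivity
    linarith

/-! ### the chain map -/

/-- coefficients of `a` -/
def cA : Fin 4 → ℝ := ![1, 0, -1, 0]

/-- coefficients of `b` -/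
def cB : Fin 4 → ℝ := ![0, -1, 0, 1]

/-- the chain `(a, -b, -a, b)` -/
def zan {N : ℕ} (a b : Euc N) : Fin 4 → Euc N := mkZ cA a + mkZ cB b

lemma zan_eq {N : ℕ} (a b : Euc N) : zan a b = ![a, -b, -a, b] := by
  funext i
  unfold zan
  rw [Pi.add_apply, mkZ_apply, mkZ_apply]
  fin_cases i <;> simp [cA, cB]

lemma zan_mem {a b : Euc N} (ha : a ∈ V0 G z) (hb : b ∈ V0 G z) (i : Fin 4) :
    zan a b i ∈ V0 G z := (V0 G z).add_mem (mkZ_mem cA ha i) (mkZ_mem cB hb i)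

lemma shf_zan {N : ℕ} (a b : Euc N) : shf (zan a b) = -zan a b := by
  rw [shf_four, zan_eq]
  funext i
  fin_cases i <;> simp

lemma dsq_zan {N : ℕ} (a b : Euc N) : dsq (zan a b) = 4 * (‖a‖ ^ 2 + ‖b‖ ^ 2) := by
  rw [dsq_four]
  have e0 : zan a b 0 = a := by rw [zan_eq]; rfl
  have e1 : zan a b 1 = -b := by rw [zan_eq]; rfl
  have e2 : zan a b 2 = -a := by rw [zan_eq]; rfl
  have e3 : zan a b 3 = b := by rw [zan_eq]; rfl
  rw [e0, e1, e2, e3]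
  have k1 : ‖-b - a‖ = ‖a + b‖ := by rw [← norm_neg]; congr 1; abel
  have k2 : ‖-a - -b‖ = ‖a - b‖ := by rw [← norm_neg]; congr 1; abel
  have k3 : ‖b - -a‖ = ‖a + b‖ := by congr 1; abel
  rw [k1, k2, k3]
  have := parallelogram_law_with_norm ℝ a b
  nlinarith [this]

section

variable (hO : OK G 4 ε) (h : GT.Bla G k) (hP : KR.NegB h Kn PN)

/-- the chain map `(w₁, w₂) ↦ (uu w₁, - uu w₂, - uu w₁, uu w₂)` -/
def LA (h : GT.Bla G k) (PN : Euc N × Euc N → Wt N Kn →L[ℝ] Wt N Kn) (z : Euc N × Euc N) :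
    (Wt N Kn × Wt N Kn) →L[ℝ] (Fin 4 → Euc N) :=
  (mkZ cA).comp ((KR.uu h PN z).comp (ContinuousLinearMap.fst ℝ (Wt N Kn) (Wt N Kn))) +
    (mkZ cB).comp ((KR.uu h PN z).comp (ContinuousLinearMap.snd ℝ (Wt N Kn) (Wt N Kn)))

lemma LA_apply (ζ : Wt N Kn × Wt N Kn) :
    LA h PN z ζ = zan (KR.uu h PN z ζ.1) (KR.uu h PN z ζ.2) := rfl

include hP in
theorem linC_LA : LinC G (L.US G) (PP PN PN) (fun z => z) (LA h PN) where
  gs _ _ := contDiffAt_id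
  gm _ hx := hx
  smooth x hx := by
    have h1 := hP.contDiffAt_uu hx
    exact (contDiffAt_const.clm_comp (h1.clm_comp contDiffAt_const)).add
      (contDiffAt_const.clm_comp (h1.clm_comp contDiffAt_const))
  mem x hx ζ _ i := by
    rw [LA_apply]
    exact zan_mem (hP.uu_mem hx _) (hP.uu_mem hx _) i

/-- the antiperiodic chain field -/
def QA (h : GT.Bla G k) (ε : ℝ) (PN : Euc N × Euc N → Wt N Kn →L[ℝ] Wt N Kn)
    (p : ((Euc N × Euc N) × (Wt N Kn × Wt N Kn)) × ℝ) : Euc N :=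
  fla G ε (fun z => z) (LA h PN) p

include hO hP in
theorem lmap_QA : LMap G (L.US G) (PP PN PN) (2 * Real.pi) (-1) (fun z => z) (QA h ε PN) :=
  (linC_LA h hP).lmap hO h fun z hz ζ _ t => by
    rw [LA_apply, AZ_shift hO h hz (zan_mem (hP.uu_mem hz _) (hP.uu_mem hz _)), shf_zan, AZ_neg,
      neg_one_smul]

include hO hP in
/-- negativity of the antiperiodic chain field -/
theorem ix_QA_le {c : ℝ} (hc : HC G ε c) (hz : z ∈ L.US G) {ζ : Wt N Kn × Wt N Kn}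
    (hζ : PP PN PN z ζ = ζ) :
    ix G z 0 (2 * Real.pi) (fun t => QA h ε PN ((z, ζ), t)) (deriv fun t => QA h ε PN ((z, ζ), t))
      (fun t => QA h ε PN ((z, ζ), t)) (deriv fun t => QA h ε PN ((z, ζ), t)) ≤
      -(2 * c) * (‖KR.uu h PN z ζ.1‖ ^ 2 + ‖KR.uu h PN z ζ.2‖ ^ 2) := by
  have h1 := ix_AZ_le hO h hc hz (zan_mem (hP.uu_mem hz ζ.1) (hP.uu_mem hz ζ.2))
  have hM := lmap_QA hO h hP
  have e1 : AZ G ε z (zan (KR.uu h PN z ζ.1) (KR.uu h PN z ζ.2)) =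
      fun t => QA h ε PN ((z, ζ), t) := rfl
  rw [e1, dsq_zan] at h1
  have e2 : ((4 : ℕ) : ℝ) * Real.pi = 4 * Real.pi := by push_cast; ring
  rw [e2, ix_half hz.1 (NN.fl_two_pi h hz) (hM.cd hz hζ) (hM.tan z hz ζ hζ) (Or.inr rfl)
    (hM.per z hz ζ hζ)] at h1
  push_cast at h1
  linarith

/-! ### values at the corners -/

include hP in
lemma Jr_zero_time (hz : z ∈ L.US G) (w : Wt N Kn) :
    KR.Jr h PN z 0 w = (0, KR.uu h PN z w) := by
  rw [KR.Jr_apply, fl_zero, NN.Rt_zero, neg_zero, L.dfl_zero hz.1]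

lemma jf'_zero_time (hz : z ∈ L.US G) (u : Euc N) : jf' G z (0, u) 0 = u := by
  unfold SV.jf'
  rw [L.dfl_zero hz.1]

include hO hP in
lemma QA_zero (hz : z ∈ L.US G) (ζ : Wt N Kn × Wt N Kn) :
    QA h ε PN ((z, ζ), 0) = gT ε 0 0 • (KR.uu h PN z ζ.1 - KR.uu h PN z ζ.2) := by
  have h1 := AZ_corner hO h hz (zan_mem (hP.uu_mem hz ζ.1) (hP.uu_mem hz ζ.2)) 0
  have e0 : zan (KR.uu h PN z ζ.1) (KR.uu h PN z ζ.2) (idx 4 0) = KR.uu h PN z ζ.1 := by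
    rw [zan_eq]; rfl
  have e3 : zan (KR.uu h PN z ζ.1) (KR.uu h PN z ζ.2) (idx 4 (0 - 1)) = KR.uu h PN z ζ.2 := by
    rw [zan_eq]; rfl
  rw [e0, e3, Int.cast_zero, zero_mul, jf'_zero_time hz, jf'_zero_time hz] at h1
  exact h1

include hO hP in
lemma QA_pi (hz : z ∈ L.US G) (ζ : Wt N Kn × Wt N Kn) :
    QA h ε PN ((z, ζ), Real.pi) =
      -(gT ε 0 0 • (KR.De G z (KR.uu h PN z ζ.1) + KR.De G z (KR.uu h PN z ζ.2))) := by
  have h1 := AZ_corner hO h hz (zan_mem (hP.uu_mem hz ζ.1) (hP.uu_mem hz ζ.2)) 1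
  have e0 : zan (KR.uu h PN z ζ.1) (KR.uu h PN z ζ.2) (idx 4 1) = -KR.uu h PN z ζ.2 := by
    rw [zan_eq]; rfl
  have e3 : zan (KR.uu h PN z ζ.1) (KR.uu h PN z ζ.2) (idx 4 (1 - 1)) = KR.uu h PN z ζ.1 := by
    rw [zan_eq]; rfl
  rw [e0, e3, Int.cast_one, one_mul] at h1
  have e4 : ∀ u : Euc N, jf' G z (0, u) Real.pi = KR.De G z u := fun u => rfl
  rw [e4, e4, map_neg] at h1
  refine h1.trans ?_
  rw [← smul_neg]
  congr 1
  abel

include h in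
lemma norm_De (hz : z ∈ L.US G) {u : Euc N} (hu : u ∈ V0 G z) : ‖KR.De G z u‖ = ‖u‖ := by
  rw [KR.De_apply, KR.dfl_V0_snd h hz hu, norm_neg]
  exact h.norm_lf (NN.mem_FF h hz) (NN.mem_V0.1 hu).1

lemma gT_zero_pos (hε : 0 < ε) : 0 < gT ε 0 0 := by
  rw [KG.gT_zero, zero_div]
  exact mul_pos hε KG.th_zero_pos

include hO hP in
/-- helper844's corner condition -/
theorem corner_QA (hz : z ∈ L.US G) (ζ : Wt N Kn × Wt N Kn) :
    -⟪KR.uu h PN z ζ.1 - KR.uu h PN z ζ.2, QA h ε PN ((z, ζ), 0)⟫ +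
      ⟪KR.De G z (KR.uu h PN z ζ.1) + KR.De G z (KR.uu h PN z ζ.2),
        QA h ε PN ((z, ζ), Real.pi)⟫ =
      -(2 * gT ε 0 0) * (‖KR.uu h PN z ζ.1‖ ^ 2 + ‖KR.uu h PN z ζ.2‖ ^ 2) := by
  have hu := (V0 G z).add_mem (hP.uu_mem hz ζ.1) (hP.uu_mem hz ζ.2)
  have h1 := norm_De h hz hu
  rw [map_add] at h1
  rw [QA_zero hO h hP hz, QA_pi hO h hP hz, inner_neg_right, real_inner_smul_right,
    real_inner_smul_right, real_inner_self_eq_norm_sq, real_inner_self_eq_norm_sq, h1]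
  have h2 := parallelogram_law_with_norm ℝ (KR.uu h PN z ζ.1) (KR.uu h PN z ζ.2)
  have h3 : ∀ (g x y w : ℝ), y + x = 2 * w → -(g * x) + -(g * y) = -(2 * g) * w := by
    intro g x y w hw
    have : -(g * x) + -(g * y) = -g * (y + x) := by ring
    rw [this, hw]; ring
  exact h3 _ _ _ _ h2

end

/-! ### lower bound for `uu` -/

theorem exists_le_uu (hS : IsCompact S) (h : GT.Bla G k) (hk : 1 ≤ k)
    (H : NB.NegB G (k - 1) (nuP Kn) δ PN) :
    ∃ c > 0, ∀ z ∈ L.US G, ∀ w, PN z w = w → c * ‖w‖ ≤ ‖KR.uu h PN z w‖ := by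
  have hP := kr_of_nb h hk H
  obtain ⟨C, hC0, hC⟩ := NB.exists_bound_US (G := G) hS (f := KR.l1 h Kn)
    (fun z hz => (KR.contDiffAt_l1 h hz).continuousAt.continuousWithinAt)
  have hδ := H.pos_δ
  refine ⟨δ / (2 * (C + 1)), by positivity, fun z hz w hw => ?_⟩
  have h1 := hP.inner_uu hz (w := w) hw
  have h2 : KR.bb G z w w ≤ -(δ * ‖w‖ ^ 2) := H.ix_neg hz hw
  have h3 : ⟪KR.uu h PN z w, KR.l1 h Kn z w⟫ ≤ ‖KR.uu h PN z w‖ * ((C + 1) * ‖w‖) := by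
    refine (real_inner_le_norm _ _).trans ?_
    refine mul_le_mul_of_nonneg_left ?_ (norm_nonneg _)
    refine (ContinuousLinearMap.le_opNorm _ _).trans ?_
    gcongr
    exact (hC z hz).trans (by linarith)
  have h4 : δ / 2 * ‖w‖ ^ 2 ≤ ‖KR.uu h PN z w‖ * ((C + 1) * ‖w‖) := by linarith
  rcases eq_or_lt_of_le (norm_nonneg w) with h5 | h5
  · rw [← h5, mul_zero]; exact norm_nonneg _
  · have h6 : δ / 2 * ‖w‖ ≤ ‖KR.uu h PN z w‖ * (C + 1) := by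
      have : (δ / 2 * ‖w‖) * ‖w‖ ≤ (‖KR.uu h PN z w‖ * (C + 1)) * ‖w‖ := by
        calc (δ / 2 * ‖w‖) * ‖w‖ = δ / 2 * ‖w‖ ^ 2 := by ring
          _ ≤ _ := h4
          _ = _ := by ring
      exact le_of_mul_le_mul_right this h5
    have h7 : 0 < 2 * (C + 1) := by positivity
    rw [div_mul_eq_mul_div, div_le_iff₀ h7]
    linarith

end Crest.Agent.R208.AK
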