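import Crest.Agent.R208.EX9

/-!
R208, block EX (helper530), part EX10: the form of a family of loops is cohomologous to its
quadratic part `psi` (the connection `α` is global); the integral of the relative form over closed
manifolds.
-/

set_option autoImplicit false
set_option linter.unusedSectionVars false
set_option linter.unusedVariables false

open MeasureTheory Set Filter Topology Module
open scoped ContDiff RealInnerProductSpace Real
open Crest.GeometryTopology.Submanifold
open Crest.Agent.R241.DDefs Crest.Agent.R241.D Crest.Agent.R241.D2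
open Crest.Agent.R208.F Crest.Agent.R208.FI Crest.Agent.R208.CW Crest.Agent.R208.T
open Crest.Agent.R208.CM (Cir gen)
open Crest.Agent.R208.VC
open Crest.Agent.R208.MS (Fam oc En Loop loop_oc)

noncomputable section

namespace Crest.Agent.R208.EX

variable {N : ℕ} {E : Type} [NormedAddCommGroup E] [NormedSpace ℝ E] [FiniteDimensional ℝ E]
  {D : ED N} {m m' : ℕ} {X : Set E} {α : E → Ext E} {f : E → ℝ → Euc N} {c : E → ℝ}
  {Om Om' : E → Ext E} {y : E}

/-- the exact part: a power of an exact form times a closed form -/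
theorem coh_pow_mul {e w : E → Ext E} {p : ℕ} (hp : 1 ≤ p) (he : Sm X e) (hec : Cl X e)
    (hee : ∀ x ∈ X, F.inv (e x) = e x) (h0 : Coh X e 0) (hw : Sm X w) (hwc : Cl X w) :
    Coh X (e ^ p * w) 0 := by
  obtain ⟨q, rfl⟩ := Nat.exists_eq_add_of_le' hp
  have hpow : ∀ n : ℕ, Sm X (e ^ n) ∧ Cl X (e ^ n) := by
    intro n
    induction n with
    | zero =>
      rw [pow_zero]
      refine ⟨fun _ _ => contDiffAt_const, fun x _ => ?_⟩
      have h4 : F.d (1 : E → Ext E) = 0 := funext fun x => F.d_const 1 x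
      rw [h4]; exact map_zero _
    | succ n ih =>
      rw [pow_succ]
      exact ⟨ih.1.mul he, Cl.mul ih.1 he ih.2 hec⟩
  have h1 := Coh.mul_right ((hpow q).1.mul hw) (Cl.mul (hpow q).1 hw (hpow q).2 hwc) h0
  rw [zero_mul, ← mul_assoc, ← pow_succ'] at h1
  exact h1

/-- **the form of a family of loops is cohomologous to its quadratic part** -/
theorem ED.vs_coh (hD : D.OK) (hX : Sub m X) (hα : Sm X α) (hα1 : Hom 1 α) (hf : LF D.S X f)
    (hp : 1 ≤ D.p) (hq : 1 ≤ D.q) :
    Coh X (D.vs α f) (F.pull sl (psi rot (F.pull (circ f) D.om))) := by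
  have hA := act_rot X
  have hXC := sub_prodC hX
  have hcn := cn_th hα hα1
  have hb := hcn.bas hA hXC
  have hd := hD.dat hf.fam
  have hsl := smap_sl X
  set e := F.pull sl (F.d (th α)) with he
  set ξ := F.pull sl (xi rot (F.pull (circ f) D.om)) with hξ
  set ζ := F.pull sl (Av rot (F.pull (circ f) D.om) * xi rot (F.pull (circ f) D.om)) with hζ
  have se : Sm X e := hb.sm.pull hsl
  have ce : Cl X e := hb.cl.pull hsl hb.sm
  have h0 : Coh X e 0 := by
    have h1 : Eqv X e (F.d α) := by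
      have := (d_pull_eqv hsl hcn.sm).symm
      rwa [pull_sl_th] at this
    refine ⟨α, hα, ?_⟩
    rwa [sub_zero]
  have hee : ∀ x ∈ X, F.inv (e x) = e x := fun x hx => by
    rw [he, F.pull, ← pb_inv, hb.ev _ (hsl.maps hx)]
  have sξ := (sm_xi hA hd.sm).pull hsl
  have cξ := (cl_xi hA hXC hd.sm hd.cl).pull hsl (sm_xi hA hd.sm)
  have sζ := ((sm_Av hA hd.sm).mul (sm_xi hA hd.sm)).pull hsl
  have cζ := (cl_Av_xi hA hXC hd.sm hd.cl).pull hsl ((sm_Av hA hd.sm).mul (sm_xi hA hd.sm))
  have h1 := (coh_pow_mul hp se ce hee h0 sξ cξ).smul D.r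
  have h2 := (coh_pow_mul hq se ce hee h0 sζ cζ).smul D.s
  have h3 : D.vs α f = F.pull sl (psi rot (F.pull (circ f) D.om)) - D.r • (e ^ D.p * ξ) -
      D.s • (e ^ D.q * ζ) := by
    rw [ED.vs, ED.vf, vv, pull_sub', pull_sub', pull_smul', pull_smul', pull_mul', pull_mul',
      VC.pull_pow', VC.pull_pow']
  rw [h3]
  have h4 := ((Coh.of_eqv (Eqv.refl (F.pull sl (psi rot (F.pull (circ f) D.om))))).sub h1).sub h2
  rwa [smul_zero, sub_zero, smul_zero, sub_zero] at h4

/-- the relative form is cohomologous (without supports) to the form of the loops -/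
theorem ED.IsRel.coh_vs (hc : ∀ y ∈ X, ContDiffAt ℝ ∞ c y) (hO : D.IsRel X α f c Om) :
    Coh X Om (D.vs α f) := by
  obtain ⟨h1, η, h2, h3⟩ := hO
  have hs := sm_cut (smooth_cf hc) h2.sm
  refine (Coh.of_eqv h3).trans ?_
  refine ⟨-(F.pull sl (fun x => kx (cf c x) • η x)), (hs.pull (smap_sl X)).neg, ?_⟩
  rw [ED.rel, ED.vs, pull_sub', sub_sub_cancel_left]
  rw [d_neg']
  exact (d_pull_eqv (smap_sl X) hs).symm.neg

/-- **the relative form and `psi`** -/
theorem ED.IsRel.coh_psi (hD : D.OK) (hX : Sub m X) (hα : Sm X α) (hα1 : Hom 1 α)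
    (hf : LF D.S X f) (hc : ∀ y ∈ X, ContDiffAt ℝ ∞ c y) (hO : D.IsRel X α f c Om)
    (hp : 1 ≤ D.p) (hq : 1 ≤ D.q) :
    Coh X Om (F.pull sl (psi rot (F.pull (circ f) D.om))) :=
  (hO.coh_vs hc).trans (ED.vs_coh hD hX hα hα1 hf hp hq)

end Crest.Agent.R208.EX
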