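import Crest.Agent.R208.AF17
import Crest.Agent.R208.EX10

/-! Row 208, block (N) (helper601).  AN1: the end statements of AF16, AF17 in helper530's words:
the integral of `D.vs α F_flat` over helper10's flat four arc family. -/

set_option autoImplicit false
set_option linter.unusedSectionVars false
set_option linter.unusedVariables false

open MeasureTheory Set Filter Topology Module
open scoped ContDiff RealInnerProductSpace
open Crest.GeometryTopology.Submanifold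
open Crest.Agent.R241.DDefs
open Crest.Agent.R241.D2
open Crest.Agent.R241.D3c
open Crest.Agent.R208.F Crest.Agent.R208.FI Crest.Agent.R208.CW Crest.Agent.R208.T
open Crest.Agent.R208.FG (OSubm)
open Crest.Agent.R208.SB (OPr oV)
open Crest.Agent.R208.L (US)
open Crest.Agent.R208.FV (phi PVB up dn)
open Crest.Agent.R208.KG (N2 N3 N4 nest2 nest4 hf sgi idx Km)
open Crest.Agent.R208.VC (Act psi vv xi Av)
open Crest.Agent.R208.AF
open Crest.Agent.R208.EX (ED LF sl rot circ Cc ex)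

noncomputable section

namespace Crest.Agent.R208.AN

variable {n N d r e : ℕ} {κ ε c : ℝ} {S : Set (Euc N)} {G : Geo n N κ S}
  {oP : Euc N × Euc N → Ext (Euc N)} {om : Euc N → Ext (Euc N)}
  {oU y : Euc N × Euc N → Ext (Euc N × Euc N)}

/-- the flat family over `N4` -/
def Ff (G : Geo n N κ S) (ε : ℝ) (k : E4 N) (t : ℝ) : Euc N := KG.F G 4 ε (nest4 k) 1 t

theorem lf_Ff (h : GT.Bla G (r + 1)) (hO : KG.OK G 4 ε) : LF S (N4 h) (Ff G ε) where
  smooth := fun k hk t => (fam_Fm h hO).sm k hk t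
  per := fun k hk t => KG.F_per t
  mem := fun k hk t => (fam_Fm h hO).maps k hk t

/-- the flat family over `N2` -/
def Ff2 (G : Geo n N κ S) (ε : ℝ) (k : (Euc N × Euc N) × Euc N) (t : ℝ) : Euc N :=
  KG.F G 2 ε (nest2 k) 1 t

theorem lf_Ff2 (h : GT.Bla G (r + 1)) (hO : KG.OK G 2 ε) : LF S (N2 h) (Ff2 G ε) where
  smooth := fun k hk t => (fam_Fm2 h hO).sm k hk t
  per := fun k hk t => KG.F_per t
  mem := fun k hk t => (fam_Fm2 h hO).maps k hk t

/-- the integral of `psi` of the circle form of the flat family -/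
theorem J_psi_circ (h : GT.Bla G (r + 1)) (hO : KG.OK G 4 ε)
    (hoP : OPr (GT.FF S) (r + 1) (PVB h) oP) (hd : d + 1 = 2 * n)
    (L : Lv G d (US G) (fun z => z) oU) (ev : Even (r + 1)) (hr : 1 ≤ r)
    {Y : Set (Euc N × Euc N)} {oF : Euc N × Euc N → Ext (Euc N × Euc N)} {d' : ℕ}
    (hW : OSubm r d' (US G) Y (phi G) (oWf G oP) oF)
    (hs : Sm S om) (hcl : Cl S om) (hom : Hom (r + 1) om)
    {z₀ : Euc N × Euc N} (hz₀ : z₀ ∈ US G)
    (hc : J r (US G ∩ phi G ⁻¹' {phi G z₀}) (oWf G oP) (lam (Gm G) om) = c)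
    (sy : Sm (US G) y) (cy : Cl (US G) y) (dy : Hom e y) (hed : r + 1 + e = d) :
    (2 * Real.pi) ^ 2 * J (r + (r + (r + d))) (N4 h) (o4 G oP oU)
      (F.pull sl (psi rot (F.pull (circ (Ff G ε)) om)) * F.pull (fun z => z.1.1.1) y) =
      -(3 * c ^ 3 * J d (US G) oU (F.pull Prod.fst om * y)) := by
  have hf := (lf_Ff h hO).fam
  refine J_psi_flat h hO hoP hd L ev hr hW hs hcl hom hz₀ hc sy cy dy hed (EX.act_rot (N4 h))
    (EX.smap_sl _) ⟨hf.smooth, fun z hz => hf.maps z hz⟩ fun k hk t => ?_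
  have h1 : rot t (sl k) = (k, ex t) := by
    rw [EX.rot, sl, mul_one]
  rw [h1, EX.circ_ex ((lf_Ff h hO).per k hk)]
  rfl

/-- **the integral of `D.vs α F_flat`** over `N4` -/
theorem J_vs_flat (h : GT.Bla G (r + 1)) (hO : KG.OK G 4 ε)
    (hoP : OPr (GT.FF S) (r + 1) (PVB h) oP) (hd : d + 1 = 2 * n)
    (L : Lv G d (US G) (fun z => z) oU) (ev : Even (r + 1)) (hr : 1 ≤ r)
    {Y : Set (Euc N × Euc N)} {oF : Euc N × Euc N → Ext (Euc N × Euc N)} {d' : ℕ}
    (hW : OSubm r d' (US G) Y (phi G) (oWf G oP) oF)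
    {D : ED N} (hD : D.OK) (hS : D.S = S) {α : E4 N → Ext (E4 N)} (hα : Sm (N4 h) α)
    (hα1 : Hom 1 α) (hp : 1 ≤ D.p) (hq : 1 ≤ D.q)
    (hs : Sm S D.om) (hcl : Cl S D.om) (hom : Hom (r + 1) D.om)
    {z₀ : Euc N × Euc N} (hz₀ : z₀ ∈ US G)
    (hc : J r (US G ∩ phi G ⁻¹' {phi G z₀}) (oWf G oP) (lam (Gm G) D.om) = c)
    (sy : Sm (US G) y) (cy : Cl (US G) y) (dy : Hom e y) (hed : r + 1 + e = d) :
    (2 * Real.pi) ^ 2 * J (r + (r + (r + d))) (N4 h) (o4 G oP oU)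
      (D.vs α (Ff G ε) * F.pull (fun z => z.1.1.1) y) =
      -(3 * c ^ 3 * J d (US G) oU (F.pull Prod.fst D.om * y)) := by
  have L1 := L.next h hoP hr
  have L2 := L1.next h hoP hr
  have L3 := L2.next h hoP hr
  have hK : Clo (r + (r + (r + d))) (N4 h) := L3.clo
  have hK' : Ori (r + (r + (r + d))) (N4 h) (o4 G oP oU) := L3.ori
  have hlf : LF D.S (N4 h) (Ff G ε) := hS ▸ lf_Ff h hO
  rw [← J_psi_circ h hO hoP hd L ev hr hW hs hcl hom hz₀ hc sy cy dy hed]
  congr 1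
  have hpr : SMap (N4 h) (US G) (fun z : E4 N => z.1.1.1) := (smap_pr4 h 0).1
  have h1 := ED.vs_coh hD hK.sub hα hα1 hlf hp hq
  have h2 := Coh.mul_right (sy.pull hpr) (cy.pull hpr sy) h1
  have hA := EX.act_rot (N4 h)
  have hdat := hD.dat hlf.fam
  have s1 : Sm (N4 h) (F.pull sl (psi rot (F.pull (circ (Ff G ε)) D.om))) :=
    (VC.sm_psi hA hdat.sm).pull (EX.smap_sl _)
  have s2 : Sm (N4 h) (D.vs α (Ff G ε)) := by
    have hcn := EX.cn_th hα hα1
    have hb := hcn.bas hA (EX.sub_prodC hK.sub)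
    exact (VC.sm_vv (p := D.p) (q := D.q) (r := D.r) (s := D.s) hA hb hdat).pull (EX.smap_sl _)
  exact SN.J_of_coh hK hK' (s2.mul (sy.pull hpr)) (s1.mul (sy.pull hpr)) h2

end Crest.Agent.R208.AN
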