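import Crest.Agent.R208.RR2

/-! Row 208, block RR, piece (CG) (helper99), part CG1: calculus of the fibre integral `K`:
pull-back, reparametrisation, vanishing, the double integral and its Stokes formula. -/

set_option autoImplicit false
set_option linter.unusedSectionVars false
set_option linter.unusedVariables false

open MeasureTheory Set Filter Topology Module
open scoped ContDiff
open Crest.Agent.R208.F Crest.Agent.R208.FI Crest.Agent.R208.CW Crest.Agent.R208.T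
open Crest.Agent.R208.RR

noncomputable section

namespace Crest.Agent.R208.CG

universe u
variable {E : Type u} [NormedAddCommGroup E] [NormedSpace ℝ E] [FiniteDimensional ℝ E]
  {E' : Type u} [NormedAddCommGroup E'] [NormedSpace ℝ E'] [FiniteDimensional ℝ E']
  {H : Type u} [NormedAddCommGroup H] [NormedSpace ℝ H] [FiniteDimensional ℝ H]
  {Z : Set E} {Y : Set E'} {X : Set H} {x : E} {w w' : E × ℝ → Ext (E × ℝ)}

/-- the fibre integrand -/
def ig (w : E × ℝ → Ext (E × ℝ)) (x : E) (t : ℝ) : Ext E :=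
  hopL (ContinuousLinearMap.inl ℝ E ℝ) ((0, 1) : E × ℝ) (w (x, t))

theorem K_apply (w : E × ℝ → Ext (E × ℝ)) (x : E) : K w x = ∫ t in (0 : ℝ)..1, ig w x t := by
  rw [K, hop, I1]
  simp only [hopg, jv_inl, ig]

theorem continuous_ig (hw : Sm (Cyl Z) w) (hx : x ∈ Z) : Continuous (ig w x) := by
  refine (hopL _ _).continuous.comp ?_
  rw [continuous_iff_continuousAt]
  intro t
  have h1 : ContinuousAt w ((fun s : ℝ => ((x, s) : E × ℝ)) t) :=
    (hw _ (mem_Cyl.2 hx)).continuousAt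
  exact h1.comp (f := fun s : ℝ => ((x, s) : E × ℝ)) (by fun_prop : Continuous
    (fun s : ℝ => ((x, s) : E × ℝ))).continuousAt

/-- fibre integral over `[a,b]` -/
def Kab (a b : ℝ) (w : E × ℝ → Ext (E × ℝ)) (x : E) : Ext E := ∫ t in a..b, ig w x t

theorem K_eq_Kab : K w x = Kab 0 1 w x := K_apply w x

theorem Kab_add (hw : Sm (Cyl Z) w) (hx : x ∈ Z) (a b c : ℝ) :
    Kab a b w x + Kab b c w x = Kab a c w x :=
  intervalIntegral.integral_add_adjacent_intervals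
    ((continuous_ig hw hx).intervalIntegrable _ _) ((continuous_ig hw hx).intervalIntegrable _ _)

theorem Kab_symm (a b : ℝ) : Kab a b w x = - Kab b a w x := intervalIntegral.integral_symm _ _

/-- the map `(x,t) ↦ (f x, lam t)` -/
def fx (f : E → E') (lam : ℝ → ℝ) (y : E × ℝ) : E' × ℝ := (f y.1, lam y.2)

theorem hasFDerivAt_fx {f : E → E'} {f' : E →L[ℝ] E'} {lam : ℝ → ℝ} {l t : ℝ}
    (hf : HasFDerivAt f f' x) (hl : HasDerivAt lam l t) :
    HasFDerivAt (fx f lam) ((f'.comp (ContinuousLinearMap.fst ℝ E ℝ)).prod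
      ((ContinuousLinearMap.toSpanSingleton ℝ l).comp (ContinuousLinearMap.snd ℝ E ℝ))) (x, t) := by
  have h1 : HasFDerivAt (fun y : E × ℝ => f y.1) (f'.comp (ContinuousLinearMap.fst ℝ E ℝ)) (x, t) :=
    HasFDerivAt.comp (g := f) (f := fun y : E × ℝ => y.1) (x, t) hf hasFDerivAt_fst
  have h2 : HasFDerivAt (fun y : E × ℝ => lam y.2)
      ((ContinuousLinearMap.toSpanSingleton ℝ l).comp (ContinuousLinearMap.snd ℝ E ℝ)) (x, t) :=
    HasFDerivAt.comp (g := lam) (f := fun y : E × ℝ => y.2) (x, t) hl.hasFDerivAt hasFDerivAt_snd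
  exact h1.prodMk h2

/-- the integrand of the pull-back -/
theorem ig_fx {f : E → E'} {lam : ℝ → ℝ} {l t : ℝ} {v : E' × ℝ → Ext (E' × ℝ)}
    (hf : DifferentiableAt ℝ f x) (hl : HasDerivAt lam l t) :
    ig (F.pull (fx f lam) v) x t =
      l • pb ((fderiv ℝ f x : E →L[ℝ] E') : E →ₗ[ℝ] E') (ig v (f x) (lam t)) := by
  have hd := hasFDerivAt_fx hf.hasFDerivAt hl
  rw [ig, hopL_apply, F.pull, hd.fderiv, ii_pb, pb_comp, ig, hopL_apply, pb_comp]
  have h1 : (((fderiv ℝ f x).comp (ContinuousLinearMap.fst ℝ E ℝ)).prod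
      ((ContinuousLinearMap.toSpanSingleton ℝ l).comp (ContinuousLinearMap.snd ℝ E ℝ)) :
      E × ℝ →L[ℝ] E' × ℝ) ((0, 1) : E × ℝ) = l • ((0, 1) : E' × ℝ) := by
    simp
  have h2 : (((((fderiv ℝ f x).comp (ContinuousLinearMap.fst ℝ E ℝ)).prod
      ((ContinuousLinearMap.toSpanSingleton ℝ l).comp (ContinuousLinearMap.snd ℝ E ℝ)) :
      E × ℝ →L[ℝ] E' × ℝ)) : E × ℝ →ₗ[ℝ] E' × ℝ) ∘ₗ
      ((ContinuousLinearMap.inl ℝ E ℝ : E →L[ℝ] E × ℝ) : E →ₗ[ℝ] E × ℝ) =
      ((ContinuousLinearMap.inl ℝ E' ℝ : E' →L[ℝ] E' × ℝ) : E' →ₗ[ℝ] E' × ℝ) ∘ₗ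
      ((fderiv ℝ f x : E →L[ℝ] E') : E →ₗ[ℝ] E') := by
    ext z <;> simp
  rw [h2]
  change pb _ (ii ((((fderiv ℝ f x).comp (ContinuousLinearMap.fst ℝ E ℝ)).prod
      ((ContinuousLinearMap.toSpanSingleton ℝ l).comp (ContinuousLinearMap.snd ℝ E ℝ)) :
      E × ℝ →L[ℝ] E' × ℝ) ((0, 1) : E × ℝ)) _) = _
  rw [h1, map_smul, LinearMap.smul_apply, map_smul]
  rfl

/-- `K` commutes with pull-back -/
theorem pull_K {f : E → E'} {v : E' × ℝ → Ext (E' × ℝ)} (hf : DifferentiableAt ℝ f x)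
    (hv : Sm (Cyl Y) v) (hx : f x ∈ Y) :
    F.pull f (K v) x = K (F.pull (fx f fun t => t) v) x := by
  rw [K_apply, F.pull, K_apply]
  change (pbL (fderiv ℝ f x)) _ = _
  rw [← ContinuousLinearMap.intervalIntegral_comp_comm _
    ((continuous_ig hv hx).intervalIntegrable _ _)]
  refine intervalIntegral.integral_congr fun t _ => ?_
  rw [ig_fx hf (hasDerivAt_id' t), one_smul]
  rfl

/-- reparametrisation of the fibre -/
theorem K_repar {lam : ℝ → ℝ} (hl : ContDiff ℝ ∞ lam) (hw : Sm (Cyl Z) w) (hx : x ∈ Z) :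
    K (F.pull (fx (fun y : E => y) lam) w) x = Kab (lam 0) (lam 1) w x := by
  have h1 : ∀ t : ℝ, HasDerivAt lam (deriv lam t) t := fun t =>
    (hl.differentiable (by simp) t).hasDerivAt
  have h2 : Continuous (deriv lam) := hl.continuous_deriv (by simp)
  rw [K_apply, Kab]
  have h3 := intervalIntegral.integral_deriv_smul_comp (a := 0) (b := 1) (f := lam)
    (f' := deriv lam) (g := ig w x) (fun t _ => h1 t) h2.continuousOn (continuous_ig hw hx)
  rw [← h3]
  refine intervalIntegral.integral_congr fun t _ => ?_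
  simp only [Function.comp]
  rw [ig_fx (f := fun y : E => y) differentiableAt_id (h1 t)]
  congr 1
  have : fderiv ℝ (fun y : E => y) x = ContinuousLinearMap.id ℝ E := fderiv_id
  rw [this]
  exact pb_id _

/-- forms pulled back from the base have no fibre integral -/
theorem K_fst {f : E → E'} {v : E' → Ext E'} (hf : DifferentiableAt ℝ f x) :
    K (F.pull (fun y : E × ℝ => f y.1) v) x = 0 := by
  rw [K_apply]
  have h0 : ∀ t : ℝ, ig (F.pull (fun y : E × ℝ => f y.1) v) x t = 0 := by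
    intro t
    have h1 : HasFDerivAt (fun y : E × ℝ => f y.1)
        ((fderiv ℝ f x).comp (ContinuousLinearMap.fst ℝ E ℝ)) (x, t) :=
      HasFDerivAt.comp (g := f) (f := fun y : E × ℝ => y.1) (x, t) hf.hasFDerivAt hasFDerivAt_fst
    rw [ig, hopL_apply, F.pull, h1.fderiv, ii_pb]
    change pb _ (pb _ (ii (((fderiv ℝ f x).comp (ContinuousLinearMap.fst ℝ E ℝ) :
      E × ℝ →L[ℝ] E') ((0, 1) : E × ℝ)) _)) = _
    have h2 : ((fderiv ℝ f x).comp (ContinuousLinearMap.fst ℝ E ℝ) :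
      E × ℝ →L[ℝ] E') ((0, 1) : E × ℝ) = 0 := by simp
    rw [h2, map_zero, LinearMap.zero_apply, map_zero, map_zero]
  simp [h0]

theorem K_zero0 : K (0 : E × ℝ → Ext (E × ℝ)) = 0 := by
  have h4 := K_smul (E := E) (w := 0) (0 : ℝ)
  rwa [zero_smul, zero_smul] at h4

theorem K_sub' (hw : Sm (Cyl Z) w) (hw' : Sm (Cyl Z) w') (hx : x ∈ Z) :
    K (w - w') x = K w x - K w' x := by
  have h4 : w - w' = w + (-1 : ℝ) • w' := by funext y; simp [sub_eq_add_neg]
  rw [h4, K_add hw (hw'.smul _) hx, K_smul]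
  simp [sub_eq_add_neg]

theorem K_add_eqv (hw : Sm (Cyl Z) w) (hw' : Sm (Cyl Z) w') :
    Eqv Z (K (w + w')) (K w + K w') := Eqv.of_eq fun _ hx => K_add hw hw' hx

theorem K_sub_eqv (hw : Sm (Cyl Z) w) (hw' : Sm (Cyl Z) w') :
    Eqv Z (K (w - w')) (K w - K w') := Eqv.of_eq fun _ hx => K_sub' hw hw' hx

/-- Stokes: `K (d w)` -/
theorem K_of_d (hw : Sm (Cyl Z) w) :
    Eqv Z (K (F.d w)) (F.pull (sl 1) w - F.pull (sl 0) w - F.d (K w)) := by
  have h := (K_d_eqv hw).sub (Eqv.refl (F.d (K w)))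
  rwa [add_sub_cancel_left] at h

/-- the inner fibre integral on `(E × ℝ) × ℝ` -/
def KI (w : (E × ℝ) × ℝ → Ext ((E × ℝ) × ℝ)) : E × ℝ → Ext (E × ℝ) := K (E := E × ℝ) w

/-- the double fibre integral -/
def K2 (w : (E × ℝ) × ℝ → Ext ((E × ℝ) × ℝ)) : E → Ext E := K (E := E) (KI w)

/-- Stokes for the double integral (second variable `t`, third variable `s`, inner integral
over `s`) -/
theorem K2_of_d {w : (E × ℝ) × ℝ → Ext ((E × ℝ) × ℝ)} (hw : Sm (Cyl (Cyl Z)) w) :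
    Eqv Z (K2 (F.d w)) (K (E := E) (F.pull (sl (E := E × ℝ) 1) w) -
      K (E := E) (F.pull (sl (E := E × ℝ) 0) w) -
      (F.pull (sl (E := E) 1) (KI w) - F.pull (sl (E := E) 0) (KI w) - F.d (K2 w))) := by
  have h1 := K_of_d (E := E × ℝ) hw
  have sK : Sm (Cyl Z) (KI w) := Sm.K hw
  have s1 : Sm (Cyl Z) (F.pull (sl (E := E × ℝ) 1) w) := hw.pull (smap_sl 1)
  have s0 : Sm (Cyl Z) (F.pull (sl (E := E × ℝ) 0) w) := hw.pull (smap_sl 0)
  have h2 := K_eqv (E := E) (Sm.K hw.d) ((s1.sub s0).sub sK.d) h1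
  refine h2.trans ((K_sub_eqv (s1.sub s0) sK.d).trans ?_)
  exact (K_sub_eqv s1 s0).sub (K_of_d sK)

end Crest.Agent.R208.CG
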