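import Crest.Agent.R208.FG1d

/-! Row 208, block FG (helper586), part FG1e: integrals over `FFF = F ×_M F`. -/

set_option autoImplicit false
set_option linter.unusedSectionVars false

open Set Filter Topology Module
open scoped ContDiff RealInnerProductSpace
open Crest.GeometryTopology.Submanifold
open Crest.Agent.R241.DDefs
open Crest.Agent.R241.D2
open Crest.Agent.R208.F Crest.Agent.R208.FI
open Crest.Agent.R208.CW (SMap integ cls)

noncomputable section

namespace Crest.Agent.R208.FG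

variable {n N k : ℕ} {κ : ℝ} {S : Set (Euc N)} {G : Geo n N κ S}
  {PV : Euc N × Euc N → Euc N →L[ℝ] Euc N}

/-- the three maps `FFF → M` -/
theorem smap_fst : SMap (GT.FF S) S (Prod.fst : Euc N × Euc N → Euc N) :=
  ⟨fun _ _ => contDiffAt_fst, fun _ hz => hz.1⟩

theorem smap_snd : SMap (GT.FF S) S (Prod.snd : Euc N × Euc N → Euc N) :=
  ⟨fun _ _ => contDiffAt_snd, fun _ hz => hz.2.1⟩

theorem smap_1 : SMap (FFF S) (GT.FF S) (Prod.fst : (Euc N × Euc N) × (Euc N × Euc N) → _) :=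
  smap_FP_fst

theorem smap_2 : SMap (FFF S) (GT.FF S) (Prod.snd : (Euc N × Euc N) × (Euc N × Euc N) → _) :=
  smap_FP_snd

/-- `x` pulled back along `p` -/
def xp (x : CW.H S) : CW.H (GT.FF S) := CW.H.map smap_fst x
/-- `x` pulled back along `q` -/
def xq (x : CW.H S) : CW.H (GT.FF S) := CW.H.map smap_snd x

theorem map_xp {d : ℕ} (hX : Sub d (FFF S)) (x : CW.H S) :
    CW.H.map smap_1 (xp x) = CW.H.map smap_2 (xp x) := by
  rw [xp, CW.H.map_map, CW.H.map_map]
  exact CW.H.map_congr' hX _ _ (fun z hz => hz.2.2) x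

/-- the inclusion of the cut locus -/
theorem smap_cut (p : Euc N) : SMap (GP.Cut S p) S (fun q => q) := smap_incl fun _ hq => hq.1

theorem bij_fib (p : Euc N) (hp : p ∈ S) :
    BijOn (Prod.snd : Euc N × Euc N → Euc N) (GT.FF S ∩ Prod.fst ⁻¹' {p}) (GP.Cut S p) := by
  rw [FV.fibre_fst p hp]
  refine ⟨?_, ?_, ?_⟩
  · rintro _ ⟨q, hq, rfl⟩; exact hq
  · rintro _ ⟨q, hq, rfl⟩ _ ⟨q', hq', rfl⟩ h
    have : q = q' := h
    rw [this]
  · intro q hq; exact ⟨(p, q), ⟨q, hq, rfl⟩, rfl⟩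

theorem preconn_fib (h : GT.Bla G k) (hn : 2 ≤ n) {p : Euc N} (hp : p ∈ S) :
    IsPreconnected (GT.FF S ∩ (Prod.fst : Euc N × Euc N → Euc N) ⁻¹' {p}) := by
  rw [FV.fibre_fst p hp]
  exact (FV.preconn_Cut h.bl h.ty hn hp).image _ (by fun_prop)

/-- fibre integrals do not vanish, if the integral over the cut locus does not vanish -/
theorem fib_ne_zero (h : GT.Bla G k) (hn : 2 ≤ n) {p : Euc N} (hp : p ∈ S)
    {oV : Euc N × Euc N → Ext (Euc N × Euc N)}
    (hV : Ori (n - k) (GT.FF S ∩ Prod.fst ⁻¹' {p}) oV) {oC : Euc N → Ext (Euc N)}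
    (hoC : Ori (n - k) (GP.Cut S p) oC) (a : CW.H S)
    (hne : integ (FV.clo_Cut h hp) hoC (CW.H.map (smap_cut p) a) ≠ 0) :
    integ ((FV.subm_fst h).clo_fibre p) hV (CW.H.map (smap_fibre p) (xq a)) ≠ 0 := by
  obtain ⟨η, hη, rfl⟩ := a.exists_rep
  have hcf := (FV.subm_fst h).clo_fibre p
  have hcC := FV.clo_Cut h hp
  rw [xq, CW.H.map_cls, CW.H.map_cls, CW.integ_cls]
  rw [CW.H.map_cls, CW.integ_cls] at hne
  intro h0
  apply hne
  have r1 : ∀ e : Euc N → CW.CF (Euc N), ∀ x : Euc N, CW.pullC (fun x => x) e x = e x := by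
    intro e x
    rw [CW.pullC, fderiv_fun_id, ContinuousLinearMap.coe_id]
    exact CW.pbC_id _
  have r2 : ∀ e : Euc N × Euc N → CW.CF (Euc N × Euc N), ∀ x : Euc N × Euc N,
      CW.pullC (fun x => x) e x = e x := by
    intro e x
    rw [CW.pullC, fderiv_fun_id, ContinuousLinearMap.coe_id]
    exact CW.pbC_id _
  have hcre : ContinuousOn (fun x => (η x).re) (GP.Cut S p) :=
    (hη.2.1.cont_re).mono fun q hq => hq.1
  have hcim : ContinuousOn (fun x => (η x).im) (GP.Cut S p) :=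
    (hη.2.1.cont_im).mono fun q hq => hq.1
  have hdiff : ∀ x ∈ GT.FF S ∩ (Prod.fst : Euc N × Euc N → Euc N) ⁻¹' {p},
      DifferentiableAt ℝ (Prod.snd : Euc N × Euc N → Euc N) x := fun x _ => differentiableAt_snd
  have hb := bij_fib (S := S) p hp
  have e1 := J_pull hcf hcC hdiff hb hoC hcre
  have e2 := J_pull hcf hcC hdiff hb hoC hcim
  have hpo : Ori (n - k) (GT.FF S ∩ (Prod.fst : Euc N × Euc N → Euc N) ⁻¹' {p})
      (F.pull Prod.snd oC) := by
    refine Ori.pull hcf hcC (fun x _ => contDiffAt_snd) hb.mapsTo (fun x hx v hv h0 => ?_) hoC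
    have h5 : v ∈ Tan (GT.FF S ∩ (Prod.fst : Euc N × Euc N → Euc N) ⁻¹' {Prod.fst x}) x := by
      have : Prod.fst x = p := hx.2
      rw [this]; exact hv
    rw [(FV.subm_fst h).tan_fibre hx.1] at h5
    have h6 : fderiv ℝ (Prod.fst : Euc N × Euc N → Euc N) x v = 0 := h5.2
    rw [hasFDerivAt_fst.fderiv] at h6
    rw [hasFDerivAt_snd.fderiv] at h0
    exact Prod.ext h6 h0
  have z1 := congrArg Complex.re h0
  have z2 := congrArg Complex.im h0
  change J _ _ _ (fun x => (CW.pullC (fun x => x) (CW.pullC Prod.snd η) x).re) = 0 at z1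
  change J _ _ _ (fun x => (CW.pullC (fun x => x) (CW.pullC Prod.snd η) x).im) = 0 at z2
  simp only [r2] at z1 z2
  refine Complex.ext ?_ ?_
  · change J _ _ _ (fun x => (CW.pullC (fun x => x) η x).re) = 0
    simp only [r1]
    rcases J_ori_connected hcf hV hpo (preconn_fib h hn hp) with h7 | h7
    · rw [← e1, h7]; exact z1
    · rw [← e1, h7, neg_eq_zero]; exact z1
  · change J _ _ _ (fun x => (CW.pullC (fun x => x) η x).im) = 0
    simp only [r1]
    rcases J_ori_connected hcf hV hpo (preconn_fib h hn hp) with h7 | h7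
    · rw [← e2, h7]; exact z2
    · rw [← e2, h7, neg_eq_zero]; exact z2

/-- **a linear functional on `H (F ×_M F)` which does not vanish on `p^*a · q^*b · q'^*b`**. -/
theorem exists_functional (h : GT.Bla G k) (hk : 2 ≤ k) (hkn : k < n) {oS : Euc N → Ext (Euc N)}
    (hoS : Ori n S oS) (hdS : ∀ x, IsDeg n (oS x)) {p : Euc N} (hp : p ∈ S)
    {oC : Euc N → Ext (Euc N)} (hoC : Ori (n - k) (GP.Cut S p) oC) {a b : CW.H S}
    (ha : a ∈ T.HD S n) (hb : b ∈ T.HD S (n - k))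
    (hne : integ (GP.clo_S h.bl) hoS a ≠ 0)
    (hne' : integ (FV.clo_Cut h hp) hoC (CW.H.map (smap_cut p) b) ≠ 0) :
    ∃ I : CW.H (FFF S) →ₗ[ℂ] ℂ,
      I (CW.H.map smap_1 (xq b) * (CW.H.map smap_2 (xq b) * CW.H.map smap_2 (xp a))) ≠ 0 := by
  obtain ⟨oV, hdV, hos⟩ := exists_osubm h hk hkn hoS hdS
  have hn : 2 ≤ n := by omega
  have hneS : (GT.FF S).Nonempty := FV.nonempty_FF h.bl h.ty
  have hSc : IsPreconnected S := by
    have h1 := (FV.preconn_FF' h hn).image Prod.fst continuous_fst.continuousOn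
    have h2 : Prod.fst '' GT.FF S = S := by
      apply Subset.antisymm
      · rintro _ ⟨z, hz, rfl⟩; exact hz.1
      · intro p' hp'
        obtain ⟨q, hq⟩ := FV.nonempty_Cut h.bl h.ty hp'
        exact ⟨(p', q), ⟨hp', hq.1, hq.2⟩, rfl⟩
    rwa [h2] at h1
  have hbc : BC (n - k + n) (GT.FF S) S Prod.fst := bc_FF h (by omega)
  have hoF : Ori (n - k + n) (GT.FF S) (fun z => oV z * F.pull Prod.fst oS z) := hos.tot
  have hdF : ∀ z, IsDeg (n - k + n) (oV z * F.pull Prod.fst oS z) := fun z =>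
    T.IsDeg.mul (hdV z) (by rw [pull_fst_apply]; exact (hdS _).pb _)
  have hβ : xq b * xp a ∈ T.HD (GT.FF S) (n - k + n) :=
    T.HD_mul (T.HD_map _ hb) (T.HD_map _ ha)
  refine ⟨integ (bc_clo hos.subm hbc) (bc_ori hos hbc hoF hdF).tot, ?_⟩
  rw [← map_mul]
  have e1 := bc_integ hos hbc hoF hdF hSc (FV.preconn_FF' h hn) hneS hp (xq b) hβ
  have e2 := osubm_integ hos smap_fst hSc hp (xq b) ha
  have hc := fib_ne_zero h hn hp (hos.fib p) hoC b hne'
  intro h0
  have h1 : integ (bc_clo hos.subm hbc) (bc_ori hos hbc hoF hdF).tot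
      (CW.H.map smap_FP_fst (xq b) * CW.H.map smap_FP_snd (xq b * xp a)) = 0 := h0
  rw [e1] at h1
  have h2 : integ hbc.clo hoF (xq b * xp a) =
    integ (hos.subm.clo_fibre p) (hos.fib p) (CW.H.map (smap_fibre p) (xq b)) *
        integ hos.subm.cloX hos.base a := e2
  rw [h2] at h1
  exact mul_ne_zero hc (mul_ne_zero hc hne) h1

end Crest.Agent.R208.FG
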