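import Crest.Agent.R208.NB7

/-! Row 208, block NB (helper537), part NB8: uniform bounds for `npr`, `fd`, `fd'`; the
decomposition of the index form along `N_z`. -/

set_option autoImplicit false
set_option linter.unusedSectionVars false
set_option linter.unusedVariables false

open MeasureTheory Set Filter Topology Module
open scoped ContDiff RealInnerProductSpace
open Crest.GeometryTopology.Submanifold
open Crest.Agent.R241.DDefs
open Crest.Agent.R241.D2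
open Crest.Agent.R208.NN

noncomputable section

namespace Crest.Agent.R208.NB

variable {n N k K r : ℕ} {κ : ℝ} {S : Set (Euc N)} {G : Geo n N κ S} {z : Euc N × Euc N}
  {ν : Fin K → ℝ} {δ : ℝ} {PN : Euc N × Euc N → Wt N K →L[ℝ] Wt N K} {V V' W W' : ℝ → Euc N}

/-- a continuous function is bounded on `US G` -/
theorem exists_bound_US {H : Type*} [NormedAddCommGroup H] (hc : IsCompact S)
    {f : Euc N × Euc N → H} (hf : ContinuousOn f (L.US G)) :
    ∃ C : ℝ, 0 ≤ C ∧ ∀ z ∈ L.US G, ‖f z‖ ≤ C := by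
  obtain ⟨C, hC⟩ := (LB.isCompact_US (G := G) hc).exists_bound_of_continuousOn hf
  exact ⟨max C 0, le_max_right _ _, fun z hz => (hC z hz).trans (le_max_left _ _)⟩

/-- uniform bound for `fd`, all times -/
theorem exists_bound_fd (hc : IsCompact S) (G : Geo n N κ S) (ν : Fin K → ℝ) :
    ∃ C : ℝ, 0 ≤ C ∧ ∀ z ∈ L.US G, ∀ (w : Wt N K) (t : ℝ),
      ‖fd G z ν w t‖ ≤ C * ‖w‖ ∧ ‖fd' G z ν w t‖ ≤ C * ‖w‖ ∧
        ‖D2p G ν (fl G (z, t), t) w‖ ≤ C * ‖w‖ := by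
  obtain ⟨C1, h10, h1⟩ := exists_bound_US (G := G) hc
    (f := fun z => Fp G ν ((z, 0) : (Euc N × Euc N) × ℝ))
    (((contDiff_Fp' (G := G) (ν := ν)).continuous.comp (by fun_prop)).continuousOn)
  obtain ⟨C2, h20, h2⟩ := exists_bound_US (G := G) hc
    (f := fun z => Dp G ν ((z, 0) : (Euc N × Euc N) × ℝ))
    (((contDiff_Dp' (G := G) (ν := ν)).continuous.comp (by fun_prop)).continuousOn)
  obtain ⟨C3, h30, h3⟩ := exists_bound_US (G := G) hc
    (f := fun z => D2p G ν ((z, 0) : (Euc N × Euc N) × ℝ))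
    (((contDiff_D2p (G := G) (ν := ν)).continuous.comp (by fun_prop)).continuousOn)
  refine ⟨C1 + C2 + C3, by positivity, fun z hz w t => ⟨?_, ?_, ?_⟩⟩
  · have e : fd G z ν w t = Fp G ν (fl G (z, t), 0) (Rt ν t w) := by
      rw [Fp_Rt, zero_add]; rfl
    rw [e]
    refine (ContinuousLinearMap.le_opNorm _ _).trans ?_
    rw [norm_Rt]
    exact mul_le_mul_of_nonneg_right ((h1 _ (fl_mem_US hz t)).trans (by linarith))
      (norm_nonneg _)
  · have e : fd' G z ν w t = Dp G ν (fl G (z, t), 0) (Rt ν t w) := by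
      rw [Dp_Rt, zero_add]; rfl
    rw [e]
    refine (ContinuousLinearMap.le_opNorm _ _).trans ?_
    rw [norm_Rt]
    exact mul_le_mul_of_nonneg_right ((h2 _ (fl_mem_US hz t)).trans (by linarith))
      (norm_nonneg _)
  · have e : D2p G ν (fl G (z, t), t) w = D2p G ν (fl G (z, t), 0) (Rt ν t w) := by
      rw [D2p_Rt, zero_add]
    rw [e]
    refine (ContinuousLinearMap.le_opNorm _ _).trans ?_
    rw [norm_Rt]
    exact mul_le_mul_of_nonneg_right ((h3 _ (fl_mem_US hz t)).trans (by linarith))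
      (norm_nonneg _)

/-- joint smoothness of `fd` and `fd'` -/
theorem contDiffAt_fd (hz : z ∈ TS G) (w : Wt N K) (t : ℝ) :
    ContDiffAt ℝ ∞ (fun p : ((Euc N × Euc N) × Wt N K) × ℝ => fd G p.1.1 ν p.1.2 p.2)
      ((z, w), t) ∧
    ContDiffAt ℝ ∞ (fun p : ((Euc N × Euc N) × Wt N K) × ℝ => fd' G p.1.1 ν p.1.2 p.2)
      ((z, w), t) := by
  have h1 : ContDiffAt ℝ ∞ (fun p : ((Euc N × Euc N) × Wt N K) × ℝ => (p.1.1, p.2))
      ((z, w), t) := by fun_prop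
  have h2 : ContDiffAt ℝ ∞ (fun p : ((Euc N × Euc N) × Wt N K) × ℝ =>
      (fl G (p.1.1, p.2), p.2)) ((z, w), t) :=
    (ContDiffAt.comp ((z, w), t) (g := fl G) (contDiffAt_fl' G hz t) h1).prodMk contDiffAt_snd
  have h3 : ContDiffAt ℝ ∞ (fun p : ((Euc N × Euc N) × Wt N K) × ℝ => p.1.2) ((z, w), t) := by
    fun_prop
  exact ⟨((contDiff_Fp' (G := G) (ν := ν)).contDiffAt.comp ((z, w), t) h2).clm_apply h3,
    ((contDiff_Dp' (G := G) (ν := ν)).contDiffAt.comp ((z, w), t) h2).clm_apply h3⟩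

/-- uniform bound for the pairing density, all times -/
theorem exists_bound_bq (hc : IsCompact S) (G : Geo n N κ S) (ν : Fin K → ℝ) :
    ∃ C : ℝ, 0 ≤ C ∧ ∀ z ∈ L.US G, ∀ (t : ℝ) (v : Euc N) (m : Wt N K),
      |bq G ν (fl G (z, t), t) v m| ≤ C * ‖v‖ * ‖m‖ := by
  obtain ⟨C, h0, hC⟩ := exists_bound_US (G := G) hc
    (f := fun z => bq G ν ((z, 0) : (Euc N × Euc N) × ℝ))
    (((contDiff_bq (G := G) (ν := ν)).continuous.comp (by fun_prop)).continuousOn)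
  refine ⟨C, h0, fun z hz t v m => ?_⟩
  have e : bq G ν (fl G (z, t), t) v m = bq G ν (fl G (z, t), 0) v (Rt ν t m) := by
    rw [bq_Rt, zero_add]
  rw [e, ← Real.norm_eq_abs]
  refine (ContinuousLinearMap.le_opNorm₂ _ _ _).trans ?_
  rw [norm_Rt]
  gcongr
  exact hC _ (fl_mem_US hz t)

theorem exists_bound_bv (hc : IsCompact S) (G : Geo n N κ S) (ν : Fin K → ℝ) :
    ∃ C : ℝ, 0 ≤ C ∧ ∀ z ∈ L.US G, ∀ W : ℝ → Euc N, ContinuousOn W (Icc 0 (2 * Real.pi)) →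
      ‖bv G ν z W‖ ≤ C * ∫ t in (0 : ℝ)..(2 * Real.pi), ‖W t‖ := by
  have hπ : (0 : ℝ) ≤ 2 * Real.pi := by positivity
  obtain ⟨C, h0, hC⟩ := exists_bound_bq hc G ν
  refine ⟨C, h0, fun z hz W hW => ?_⟩
  set b := bv G ν z W with hb
  have hi : IntervalIntegrable (fun t => ‖W t‖) volume 0 (2 * Real.pi) :=
    ContinuousOn.intervalIntegrable (by rw [uIcc_of_le hπ]; exact hW.norm)
  have hi2 : IntervalIntegrable (fun t => bq G ν (fl G (z, t), t) (W t) b) volume 0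
      (2 * Real.pi) :=
    ContinuousOn.intervalIntegrable (by rw [uIcc_of_le hπ]; exact contOn_bq hz.1 _ hW)
  have h1 : ‖b‖ ^ 2 ≤ C * (∫ t in (0 : ℝ)..(2 * Real.pi), ‖W t‖) * ‖b‖ := by
    rw [← real_inner_self_eq_norm_sq]
    conv_lhs => rw [hb]
    rw [inner_bv hz.1 hW, mul_assoc, mul_comm _ ‖b‖, ← mul_assoc,
      ← intervalIntegral.integral_const_mul]
    refine intervalIntegral.integral_mono_on hπ hi2 (hi.const_mul _) fun t _ => ?_
    refine (le_abs_self _).trans ((hC z hz t _ _).trans (le_of_eq ?_))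
    ring
  by_cases hb0 : ‖b‖ = 0
  · rw [hb0]
    exact mul_nonneg h0 (intervalIntegral.integral_nonneg hπ fun t _ => norm_nonneg _)
  · have hb' : 0 < ‖b‖ := lt_of_le_of_ne (norm_nonneg _) (Ne.symm hb0)
    rw [pow_two] at h1
    exact le_of_mul_le_mul_right h1 hb'

/-- Cauchy-Schwarz on `[0, 2π]` -/
theorem int_norm_sq_le (hW : ContinuousOn W (Icc 0 (2 * Real.pi))) :
    (∫ t in (0 : ℝ)..(2 * Real.pi), ‖W t‖) ^ 2 ≤
      2 * Real.pi * ∫ t in (0 : ℝ)..(2 * Real.pi), ‖W t‖ ^ 2 := by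
  have hπ : (0 : ℝ) < 2 * Real.pi := by positivity
  have hi : IntervalIntegrable (fun t => ‖W t‖) volume 0 (2 * Real.pi) :=
    ContinuousOn.intervalIntegrable (by rw [uIcc_of_le hπ.le]; exact hW.norm)
  have hi2 : IntervalIntegrable (fun t => ‖W t‖ ^ 2) volume 0 (2 * Real.pi) :=
    ContinuousOn.intervalIntegrable (by rw [uIcc_of_le hπ.le]; exact hW.norm.pow 2)
  set I := ∫ t in (0 : ℝ)..(2 * Real.pi), ‖W t‖ with hI
  have h1 : 0 ≤ ∫ t in (0 : ℝ)..(2 * Real.pi), (‖W t‖ - I / (2 * Real.pi)) ^ 2 :=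
    intervalIntegral.integral_nonneg hπ.le fun t _ => sq_nonneg _
  have h2 : ∫ t in (0 : ℝ)..(2 * Real.pi), (‖W t‖ - I / (2 * Real.pi)) ^ 2 =
      (∫ t in (0 : ℝ)..(2 * Real.pi), ‖W t‖ ^ 2) - 2 * (I / (2 * Real.pi)) * I +
        (2 * Real.pi) * (I / (2 * Real.pi)) ^ 2 := by
    have e : ∀ t, (‖W t‖ - I / (2 * Real.pi)) ^ 2 = ‖W t‖ ^ 2 - 2 * (I / (2 * Real.pi)) * ‖W t‖ +
        (I / (2 * Real.pi)) ^ 2 := fun t => by ring
    simp only [e]
    rw [intervalIntegral.integral_add (hi2.sub (hi.const_mul _)) (by simp),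
      intervalIntegral.integral_sub hi2 (hi.const_mul _), intervalIntegral.integral_const_mul,
      intervalIntegral.integral_const]
    simp only [sub_zero, smul_eq_mul, ← hI]
  rw [h2] at h1
  have h3 : (2 * Real.pi) * (2 * (I / (2 * Real.pi)) * I - (2 * Real.pi) *
    (I / (2 * Real.pi)) ^ 2) = I ^ 2 := by
    field_simp
    ring
  have h4 : 2 * (I / (2 * Real.pi)) * I - (2 * Real.pi) * (I / (2 * Real.pi)) ^ 2 ≤
    ∫ t in (0 : ℝ)..(2 * Real.pi), ‖W t‖ ^ 2 := by linarith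
  rw [← h3]
  exact mul_le_mul_of_nonneg_left h4 hπ.le

namespace NegB

/-- **uniform bound of `n(W)`** -/
theorem exists_bound_npr (hc : IsCompact S) (H : NegB G r ν δ PN) :
    ∃ C : ℝ, 0 ≤ C ∧ ∀ z ∈ L.US G, ∀ W : ℝ → Euc N, ContinuousOn W (Icc 0 (2 * Real.pi)) →
      ‖npr G ν δ PN z W‖ ≤ C * ∫ t in (0 : ℝ)..(2 * Real.pi), ‖W t‖ := by
  obtain ⟨C, h0, hC⟩ := exists_bound_bv hc G ν
  have hδ := H.pos_δ
  refine ⟨C / δ, by positivity, fun z hz W hW => ?_⟩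
  have h1 := H.le_norm_Mz hz (npr G ν δ PN z W)
  have h2 : Mz G ν δ PN z (npr G ν δ PN z W) = PN z (bv G ν z W) := H.Mz_inv hz _
  rw [h2] at h1
  have h3 := h1.trans ((H.norm_PN_le z _).trans (hC z hz W hW))
  rw [div_mul_eq_mul_div, le_div_iff₀ hδ]
  linarith

/-- `L²` version -/
theorem exists_bound_npr_sq (hc : IsCompact S) (H : NegB G r ν δ PN) :
    ∃ C : ℝ, 0 ≤ C ∧ ∀ z ∈ L.US G, ∀ W : ℝ → Euc N, ContinuousOn W (Icc 0 (2 * Real.pi)) →
      ‖npr G ν δ PN z W‖ ^ 2 ≤ C * ∫ t in (0 : ℝ)..(2 * Real.pi), ‖W t‖ ^ 2 := by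
  obtain ⟨C, h0, hC⟩ := H.exists_bound_npr hc
  refine ⟨C ^ 2 * (2 * Real.pi), by positivity, fun z hz W hW => ?_⟩
  have h1 := hC z hz W hW
  have h2 := pow_le_pow_left₀ (norm_nonneg _) h1 2
  refine h2.trans ?_
  rw [mul_pow, mul_assoc]
  exact mul_le_mul_of_nonneg_left (int_norm_sq_le hW) (by positivity)

variable (h : GT.Bla G k) (H : NegB G (k - 1) (nuP K) δ PN)

include h H

/-- **decomposition of the index form** of a `C¹` periodic field `V`, with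
`n = npr z V`, `V₊ = V - fd n` -/
theorem decomp (hz : z ∈ L.US G) (hV : SV.Fld G z 0 (2 * Real.pi) V V')
    (hper : V (2 * Real.pi) = V 0) {w : Wt N K} (hw : npr G (nuP K) δ PN z V = w) :
    PN z w = w ∧
    SV.Fld G z 0 (2 * Real.pi) (V - fd G z (nuP K) w) (V' - fd' G z (nuP K) w) ∧
    (∀ m, PN z m = m → SV.ix G z 0 (2 * Real.pi) (V - fd G z (nuP K) w)
      (V' - fd' G z (nuP K) w) (fd G z (nuP K) m) (fd' G z (nuP K) m) = 0) ∧
    0 ≤ SV.ix G z 0 (2 * Real.pi) (V - fd G z (nuP K) w) (V' - fd' G z (nuP K) w)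
      (V - fd G z (nuP K) w) (V' - fd' G z (nuP K) w) ∧
    SV.ix G z 0 (2 * Real.pi) V V' V V' =
      SV.ix G z 0 (2 * Real.pi) (V - fd G z (nuP K) w) (V' - fd' G z (nuP K) w)
        (V - fd G z (nuP K) w) (V' - fd' G z (nuP K) w) +
      SV.ix G z 0 (2 * Real.pi) (fd G z (nuP K) w) (fd' G z (nuP K) w)
        (fd G z (nuP K) w) (fd' G z (nuP K) w) := by
  have hπ : (0 : ℝ) ≤ 2 * Real.pi := by positivity
  have hw' : PN z w = w := by rw [← hw]; exact H.npr_mem hz V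
  have hF := fld_fd hz.1 (nuP K) w 0 (2 * Real.pi)
  have hD := hV.sub hF
  have h1 : ∀ m, PN z m = m → SV.ix G z 0 (2 * Real.pi) (V - fd G z (nuP K) w)
      (V' - fd' G z (nuP K) w) (fd G z (nuP K) m) (fd' G z (nuP K) m) = 0 := by
    intro m hm
    rw [SV.ix_sub_left hπ hz.1 hV hF (fld_fd hz.1 (nuP K) m 0 (2 * Real.pi)),
      H.ix_npr h hz sig_per hV (by rw [one_smul]; exact hper) hm, hw, sub_self]
  have hper' : (V - fd G z (nuP K) w) (2 * Real.pi) = (V - fd G z (nuP K) w) 0 := by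
    rw [Pi.sub_apply, Pi.sub_apply, hper, fd_two_pi h hz]
  refine ⟨hw', hD, h1, H.compl_nonneg h hz hD hper' h1, ?_⟩
  have h2 := SV.ix_add_self hπ hz.1 hD hF
  rw [SV.ix_symm hπ hz.1 hF hD, h1 w hw', mul_zero, add_zero, sub_add_cancel,
    sub_add_cancel] at h2
  exact h2

/-- `ix(V,V) ≥ ix(fd n, fd n)` -/
theorem ix_ge (hz : z ∈ L.US G) (hV : SV.Fld G z 0 (2 * Real.pi) V V')
    (hper : V (2 * Real.pi) = V 0) {w : Wt N K} (hw : npr G (nuP K) δ PN z V = w) :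
    SV.ix G z 0 (2 * Real.pi) (fd G z (nuP K) w) (fd' G z (nuP K) w)
        (fd G z (nuP K) w) (fd' G z (nuP K) w) ≤ SV.ix G z 0 (2 * Real.pi) V V' V V' := by
  obtain ⟨-, -, -, h1, h2⟩ := H.decomp h hz hV hper hw
  linarith

end NegB

end Crest.Agent.R208.NB
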