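import Crest.Agent.R208.KR3
import Crest.Agent.R208.NB8
import Crest.Agent.R208.NB9

/-!
R208, block KF (helper844), file KR4: the Jacobi fields vanishing at `0` and `π`, the pairing with
periodic fields and the linear map `uu : N_z → V₀(z)`.
-/

set_option autoImplicit false

open Set Filter Topology MeasureTheory Real Module
open scoped RealInnerProductSpace Interval ContDiff
open Crest.GeometryTopology.Submanifold
open Crest.Agent.R241.DDefs
open Crest.Agent.R241.D2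
open Crest.Agent.R208.L (om TanTS dfl om_dfl)
open Crest.Agent.R208.FI (Tan Sub)
open Crest.Agent.R208.NN (Wt nuP qq V0 fd fd' qf Rt ev ev')

noncomputable section

namespace Crest.Agent.R208.KR

variable {n N k K : ℕ} {κ : ℝ} {S : Set (Euc N)} {G : Geo n N κ S} {z ξ η : Euc N × Euc N}

/-! ### Jacobi fields vanishing at `0` and `π` -/

theorem V0_le (h : GT.Bla G k) (hz : z ∈ L.US G) {u : Euc N} (hu : u ∈ V0 G z) : u ∈ G.T z.1 :=
  h.Vs_le (NN.mem_FF h hz) (NN.mem_V0.1 hu).1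

theorem tan_V0 (h : GT.Bla G k) (hz : z ∈ L.US G) {u : Euc N} (hu : u ∈ V0 G z) :
    ((0 : Euc N), u) ∈ Tan (L.US G) z := by
  rw [LB.mem_Tan_US (FV.sub_S h.bl) hz]
  refine ⟨Submodule.zero_mem _, ?_, ?_⟩
  · simp only [map_zero, _root_.zero_apply]
    rw [(P_eq_self G hz.1.1).1 (V0_le h hz hu), sub_self]
  · rw [real_inner_comm]; exact (NN.mem_V0.1 hu).2

theorem dfl_V0_fst (h : GT.Bla G k) (hz : z ∈ L.US G) {u : Euc N} (hu : u ∈ V0 G z) :
    (dfl G z π (0, u)).1 = 0 := by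
  have hT := NN.tanTS_of_Tan h hz (tan_V0 h hz hu)
  have h1 := FV.fderiv_phi_eq hz.1 hT
  rw [FV.fderiv_phi_zero hz.1] at h1
  have h2 := congrArg Prod.snd h1
  simp only at h2
  rw [← h2, map_smul]
  have hF := NN.mem_FF h hz
  have h3 := (h.ker_iff (b := u) hF (NN.mem_Vs hz) hz.2).2
    ⟨(NN.mem_V0.1 hu).1, by rw [real_inner_comm]; exact (NN.mem_V0.1 hu).2⟩
  rw [h3.2, smul_zero]

theorem dfl_V0_snd (h : GT.Bla G k) (hz : z ∈ L.US G) {u : Euc N} (hu : u ∈ V0 G z) :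
    (dfl G z π (0, u)).2 = -GT.lf G z.1 (qq G z) u := by
  have hF : (z.1, qq G z) ∈ GT.FF S := NN.mem_FF h hz
  have hzV : z.2 ∈ GT.Vs G z.1 (qq G z) := NN.mem_Vs hz
  -- unit vectors
  have key : ∀ v : Euc N, v ∈ V0 G z → ‖v‖ = 1 →
      (dfl G z π (0, v)).2 = -GT.lf G z.1 (qq G z) v := by
    intro v hv hv1
    have hvV := (NN.mem_V0.1 hv).1
    have hvz : ⟪v, z.2⟫ = 0 := (NN.mem_V0.1 hv).2
    have hn : ∀ s : ℝ, ‖cos s • z.2 + sin s • v‖ = 1 := by
      intro s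
      have h1 : ‖cos s • z.2 + sin s • v‖ ^ 2 = 1 := by
        rw [norm_add_sq_real, norm_smul, norm_smul, hz.2, hv1, real_inner_smul_left,
          real_inner_smul_right, real_inner_comm, hvz, mul_one, mul_one, Real.norm_eq_abs,
          Real.norm_eq_abs, sq_abs, sq_abs]
        have := cos_sq_add_sin_sq s
        linarith
      have h2 : (0:ℝ) ≤ ‖cos s • z.2 + sin s • v‖ := norm_nonneg _
      nlinarith [h1, h2]
    have hmV : ∀ s : ℝ, cos s • z.2 + sin s • v ∈ GT.Vs G z.1 (qq G z) := fun s =>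
      Submodule.add_mem _ (Submodule.smul_mem _ _ hzV) (Submodule.smul_mem _ _ hvV)
    have hc : HasDerivAt (fun s : ℝ => (z.1, cos s • z.2 + sin s • v)) ((0 : Euc N), v) 0 := by
      have h1 := ((hasDerivAt_cos (0:ℝ)).smul_const z.2).add ((hasDerivAt_sin (0:ℝ)).smul_const v)
      rw [sin_zero, cos_zero, neg_zero, zero_smul, one_smul, zero_add] at h1
      exact (hasDerivAt_const (0:ℝ) z.1).prodMk h1
    have h1 : HasDerivAt (fun s : ℝ => fl G ((z.1, cos s • z.2 + sin s • v), π))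
        (dfl G z π (0, v)) 0 := by
      have h2 : HasFDerivAt (fun y => fl G (y, π)) (dfl G z π)
          ((z.1, cos (0:ℝ) • z.2 + sin (0:ℝ) • v)) := by
        rw [cos_zero, sin_zero, one_smul, zero_smul, add_zero]
        exact L.hasFDerivAt_fl_left hz.1 π
      exact h2.comp_hasDerivAt (0 : ℝ) hc
    have h2 : ∀ s : ℝ, (fl G ((z.1, cos s • z.2 + sin s • v), π)).2 =
        -(cos s • GT.lf G z.1 (qq G z) z.2 + sin s • GT.lf G z.1 (qq G z) v) := by
      intro s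
      have h3 := h.lf_unit hF (hmV s) (hn s)
      rw [map_add, map_smul, map_smul] at h3
      rw [h3, GT.ar, neg_neg]
    have h3 := hda_snd h1
    have h4 : HasDerivAt (fun s : ℝ => (fl G ((z.1, cos s • z.2 + sin s • v), π)).2)
        (-GT.lf G z.1 (qq G z) v) 0 := by
      have h5 := (((hasDerivAt_cos (0:ℝ)).smul_const (GT.lf G z.1 (qq G z) z.2)).add
        ((hasDerivAt_sin (0:ℝ)).smul_const (GT.lf G z.1 (qq G z) v))).neg
      rw [sin_zero, cos_zero, neg_zero, zero_smul, one_smul, zero_add] at h5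
      refine h5.congr_of_eventuallyEq (Eventually.of_forall fun s => ?_)
      exact h2 s
    exact h3.unique h4
  by_cases hu0 : u = 0
  · rw [hu0]
    have : ((0 : Euc N), (0 : Euc N)) = 0 := rfl
    rw [this, map_zero, map_zero, neg_zero]; rfl
  · have hn : ‖u‖ ≠ 0 := norm_ne_zero_iff.2 hu0
    have h1 := key (‖u‖⁻¹ • u) (Submodule.smul_mem _ _ hu) (by
      rw [norm_smul, norm_inv, norm_norm, inv_mul_cancel₀ hn])
    have h2 : ((0 : Euc N), ‖u‖⁻¹ • u) = ‖u‖⁻¹ • ((0 : Euc N), u) := by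
      rw [Prod.smul_mk, smul_zero]
    rw [h2, map_smul, map_smul, Prod.smul_snd, ← smul_neg] at h1
    exact smul_right_injective _ (inv_ne_zero hn) h1

/-! ### the bilinear form on coefficients -/

/-- index form of the fields of two coefficient vectors -/
def bb (G : Geo n N κ S) (z : Euc N × Euc N) (w w' : Wt N K) : ℝ :=
  SV.ix G z 0 (2 * π) (fd G z (nuP K) w) (fd' G z (nuP K) w) (fd G z (nuP K) w')
    (fd' G z (nuP K) w')

theorem fd_add (ν : Fin K → ℝ) (w w' : Wt N K) :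
    fd G z ν (w + w') = fd G z ν w + fd G z ν w' := (NN.fdL G z ν).map_add w w'
theorem fd_smul (ν : Fin K → ℝ) (c : ℝ) (w : Wt N K) :
    fd G z ν (c • w) = c • fd G z ν w := (NN.fdL G z ν).map_smul c w
theorem fd'_add (ν : Fin K → ℝ) (w w' : Wt N K) :
    fd' G z ν (w + w') = fd' G z ν w + fd' G z ν w' := (NN.fdL' G z ν).map_add w w'
theorem fd'_smul (ν : Fin K → ℝ) (c : ℝ) (w : Wt N K) :
    fd' G z ν (c • w) = c • fd' G z ν w := (NN.fdL' G z ν).map_smul c w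

theorem bb_symm (hz : z ∈ TS G) (w w' : Wt N K) : bb G z w w' = bb G z w' w :=
  SV.ix_symm (by positivity) hz (NN.fld_fd hz _ _ _ _) (NN.fld_fd hz _ _ _ _)

theorem bb_add (hz : z ∈ TS G) (w w' y : Wt N K) : bb G z (w + w') y = bb G z w y + bb G z w' y := by
  unfold bb
  rw [fd_add, fd'_add]
  exact SV.ix_add_left (by positivity) hz (NN.fld_fd hz _ _ _ _) (NN.fld_fd hz _ _ _ _)
    (NN.fld_fd hz _ _ _ _)

theorem bb_smul (c : ℝ) (w y : Wt N K) : bb G z (c • w) y = c * bb G z w y := by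
  unfold bb
  rw [fd_smul, fd'_smul]
  exact SV.ix_smul_left c

theorem inner_Cz (hz : z ∈ TS G) (w w' : Wt N K) :
    ⟪NB.Cz G (nuP K) z w, w'⟫ = bb G z w w' := NB.inner_Cz hz w w'

/-! ### invariance under the flow -/

theorem fd_shift (hz : z ∈ TS G) (ν : Fin K → ℝ) (r : ℝ) (w : Wt N K) (t : ℝ) :
    fd G (fl G (z, r)) ν (Rt ν r w) t = fd G z ν w (t + r) := by
  unfold NN.fd
  rw [← fl_add' G hz, NN.ev_Rt, add_comm r t]

theorem fd'_shift (hz : z ∈ TS G) (ν : Fin K → ℝ) (r : ℝ) (w : Wt N K) (t : ℝ) :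
    fd' G (fl G (z, r)) ν (Rt ν r w) t = fd' G z ν w (t + r) := by
  unfold fd'
  rw [← fl_add' G hz, NN.ev_Rt, NN.ev'_Rt, add_comm r t]

theorem fl_mem_US (hz : z ∈ L.US G) (t : ℝ) : fl G (z, t) ∈ L.US G :=
  ⟨fl_mem G hz.1 t, by rw [norm_fl G hz.1, hz.2]⟩

theorem ev'_two_pi (w : Wt N K) (t : ℝ) : ev' (nuP K) (t + 2 * π) w = ev' (nuP K) t w := by
  rw [← NN.ev'_Rt, NN.Rt_per]

theorem gf_fd (h : GT.Bla G k) (hz : z ∈ L.US G) (w : Wt N K) :
    GF G z 1 (fd G z (nuP K) w) (fd' G z (nuP K) w) where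
  der := NN.hasDerivAt_fd hz.1 _ _
  cont := NN.continuous_fd' hz.1 _ _
  mem := NN.fd_mem hz.1 _ _
  per t := by
    unfold NN.fd
    rw [fl_per h hz, NN.ev_two_pi, one_smul]
  per' t := by
    unfold fd'
    rw [fl_per h hz, NN.ev_two_pi, ev'_two_pi, one_smul]

theorem bb_flow (h : GT.Bla G k) (hz : z ∈ L.US G) (r : ℝ) (w w' : Wt N K) :
    bb G (fl G (z, r)) (Rt (nuP K) r w) (Rt (nuP K) r w') = bb G z w w' := by
  have e1 : ∀ t, SV.ixd G (fl G (z, r)) (fd G (fl G (z, r)) (nuP K) (Rt (nuP K) r w))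
      (fd' G (fl G (z, r)) (nuP K) (Rt (nuP K) r w))
      (fd G (fl G (z, r)) (nuP K) (Rt (nuP K) r w'))
      (fd' G (fl G (z, r)) (nuP K) (Rt (nuP K) r w')) t =
      SV.ixd G z (fd G z (nuP K) w) (fd' G z (nuP K) w) (fd G z (nuP K) w') (fd' G z (nuP K) w')
        (t + r) := by
    intro t
    unfold SV.ixd
    rw [fd_shift hz.1, fd_shift hz.1, fd'_shift hz.1, fd'_shift hz.1, ← fl_add' G hz.1,
      add_comm r t]
  have e2 : ∀ t, SV.ixd G z (fd G z (nuP K) w) (fd' G z (nuP K) w) (fd G z (nuP K) w')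
      (fd' G z (nuP K) w') (t + 2 * π) = SV.ixd G z (fd G z (nuP K) w) (fd' G z (nuP K) w)
      (fd G z (nuP K) w') (fd' G z (nuP K) w') t := by
    intro t
    have g1 := gf_fd (K := K) h hz w
    have g2 := gf_fd (K := K) h hz w'
    unfold SV.ixd
    rw [fl_per h hz, g1.per, g1.per', g2.per, g2.per', one_smul, one_smul, one_smul, one_smul]
  unfold bb SV.ix
  rw [intervalIntegral.integral_congr fun t _ => e1 t,
    intervalIntegral.integral_comp_add_right (fun t => SV.ixd G z (fd G z (nuP K) w)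
      (fd' G z (nuP K) w) (fd G z (nuP K) w') (fd' G z (nuP K) w') t) r, ← per_shift e2 r]
  congr 1 <;> ring

/-! ### the pairing -/

/-- the orthogonal projection onto `V₀(z)` -/
def PV0 (h : GT.Bla G k) (z : Euc N × Euc N) : Euc N →L[ℝ] Euc N :=
  FV.PVB h (FV.phi G z) - (innerSL ℝ z.2).smulRight z.2

theorem PV0_apply (h : GT.Bla G k) (z : Euc N × Euc N) (x : Euc N) :
    PV0 h z x = FV.PVB h (FV.phi G z) x - ⟪z.2, x⟫ • z.2 := rfl

theorem phi_eq (hz : z ∈ L.US G) : FV.phi G z = (z.1, qq G z) :=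
  Prod.ext rfl (NN.phi_pi hz).symm

theorem PVB_eq (h : GT.Bla G k) (hz : z ∈ L.US G) :
    FV.PVB h (FV.phi G z) = (GT.Vs G z.1 (qq G z)).starProjection := by
  have h1 := FV.PV_eq h.bl h.ty (FV.sub_S h.bl) (FV.phi_mem h.bl hz)
  change FV.PV h.bl h.ty (FV.sub_S h.bl) (FV.phi G z) = _
  rw [h1, phi_eq hz]
  rfl

theorem PV0_mem (h : GT.Bla G k) (hz : z ∈ L.US G) (x : Euc N) : PV0 h z x ∈ V0 G z := by
  have hzV : z.2 ∈ GT.Vs G z.1 (qq G z) := NN.mem_Vs hz
  rw [PV0_apply, PVB_eq h hz, NN.mem_V0]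
  refine ⟨Submodule.sub_mem _ (Submodule.starProjection_apply_mem _ _)
    (Submodule.smul_mem _ _ hzV), ?_⟩
  rw [inner_sub_left, real_inner_smul_left, real_inner_self_eq_norm_sq, hz.2,
    Submodule.inner_starProjection_left_eq_right, Submodule.starProjection_eq_self_iff.2 hzV,
    real_inner_comm]
  ring

theorem PV0_self (h : GT.Bla G k) (hz : z ∈ L.US G) {u : Euc N} (hu : u ∈ V0 G z) :
    PV0 h z u = u := by
  rw [PV0_apply, PVB_eq h hz, Submodule.starProjection_eq_self_iff.2 (NN.mem_V0.1 hu).1,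
    real_inner_comm, (NN.mem_V0.1 hu).2, zero_smul, sub_zero]

theorem PV0_symm (h : GT.Bla G k) (hz : z ∈ L.US G) (x y : Euc N) :
    ⟪PV0 h z x, y⟫ = ⟪x, PV0 h z y⟫ := by
  rw [PV0_apply, PV0_apply, PVB_eq h hz, inner_sub_left, inner_sub_right,
    Submodule.inner_starProjection_left_eq_right, real_inner_smul_left, real_inner_smul_right,
    real_inner_comm x z.2]
  ring

/-- value of the field at a fixed time, as an operator -/
def fo (G : Geo n N κ S) (K : ℕ) (z : Euc N × Euc N) (t : ℝ) : Wt N K →L[ℝ] Euc N :=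
  (G.P (fl G (z, t)).1).comp (ev (nuP K) t)

theorem fo_apply (t : ℝ) (w : Wt N K) : fo G K z t w = fd G z (nuP K) w t := rfl

/-- end derivative of the Jacobi field with initial derivative `u` -/
def De (G : Geo n N κ S) (z : Euc N × Euc N) : Euc N →L[ℝ] Euc N :=
  (ContinuousLinearMap.snd ℝ (Euc N) (Euc N)).comp ((dfl G z π).comp
    (ContinuousLinearMap.inr ℝ (Euc N) (Euc N)))

theorem De_apply (u : Euc N) : De G z u = (dfl G z π (0, u)).2 := rfl

/-- the pairing operator -/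
def l1 (h : GT.Bla G k) (K : ℕ) (z : Euc N × Euc N) : Wt N K →L[ℝ] Euc N :=
  (PV0 h z).comp (fo G K z 0 - (ContinuousLinearMap.adjoint (De G z)).comp (fo G K z π))

theorem l1_mem (h : GT.Bla G k) (hz : z ∈ L.US G) (w : Wt N K) : l1 h K z w ∈ V0 G z :=
  PV0_mem h hz _

theorem inner_l1 (h : GT.Bla G k) (hz : z ∈ L.US G) {u : Euc N} (hu : u ∈ V0 G z) (w : Wt N K) :
    ⟪u, l1 h K z w⟫ = ⟪u, fd G z (nuP K) w 0⟫ - ⟪(dfl G z π (0, u)).2, fd G z (nuP K) w π⟫ := by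
  unfold l1
  rw [ContinuousLinearMap.comp_apply, ← PV0_symm h hz, PV0_self h hz hu, _root_.sub_apply,
    inner_sub_right, ContinuousLinearMap.comp_apply, ContinuousLinearMap.adjoint_inner_right,
    fo_apply, fo_apply, De_apply]

theorem l0_of_l1 (h : GT.Bla G k) (hz : z ∈ L.US G) {w : Wt N K} (hw : l1 h K z w = 0) :
    NN.l0 G z (nuP K) w = 0 := by
  have h1 : ⟪NN.l0 G z (nuP K) w, NN.l0 G z (nuP K) w⟫ = 0 := by
    have hu := NN.l0_mem (G := G) (z := z) (nuP K) w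
    rw [NN.inner_l0 h hz _ _ hu]
    have h2 := inner_l1 h hz hu w
    rw [hw, inner_zero_right, dfl_V0_snd h hz hu, inner_neg_left] at h2
    linarith
  exact inner_self_eq_zero.1 h1

/-! ### the negative bundle -/

/-- a smooth, flow invariant field of projections on which the index form is negative -/
structure NegB (h : GT.Bla G k) (K : ℕ) (P : Euc N × Euc N → Wt N K →L[ℝ] Wt N K) : Prop where
  smooth : ∀ z ∈ L.US G, ContDiffAt ℝ ∞ P z
  idem : ∀ z ∈ L.US G, ∀ w, P z (P z w) = P z w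
  symm : ∀ z ∈ L.US G, ∀ w w', ⟪P z w, w'⟫ = ⟪w, P z w'⟫
  equi : ∀ z ∈ L.US G, ∀ t w, P (fl G (z, t)) (Rt (nuP K) t w) = Rt (nuP K) t (P z w)
  rank : ∀ z ∈ L.US G, finrank ℝ (LinearMap.range (P z : Wt N K →ₗ[ℝ] Wt N K)) + 1 = k
  neg : ∀ z ∈ L.US G, ∀ w, P z w = w → w ≠ 0 → qf G z (nuP K) w < 0

variable {P : Euc N × Euc N → Wt N K →L[ℝ] Wt N K}

theorem NegB.mem_range {h : GT.Bla G k} (hP : NegB h K P) (hz : z ∈ L.US G) {w : Wt N K} :
    w ∈ LinearMap.range (P z : Wt N K →ₗ[ℝ] Wt N K) ↔ P z w = w := by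
  constructor
  · rintro ⟨y, rfl⟩; exact hP.idem z hz y
  · intro hw; exact ⟨w, hw⟩

theorem NegB.bb_neg {h : GT.Bla G k} (hP : NegB h K P) (hz : z ∈ L.US G) {w : Wt N K}
    (hw : P z w = w) (hw0 : w ≠ 0) : bb G z w w < 0 :=
  (NN.qf_ge G z (nuP K) w).trans_lt (hP.neg z hz w hw hw0)

theorem NegB.l1_inj {h : GT.Bla G k} (hP : NegB h K P) (hz : z ∈ L.US G) {w : Wt N K}
    (hw : P z w = w) (h0 : l1 h K z w = 0) : w = 0 := by
  by_contra hw0
  have h1 := NN.qf_nonneg_of_l0 h hz (l0_of_l1 h hz h0)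
  exact absurd (hP.neg z hz w hw hw0) (not_lt.2 h1)

theorem NegB.l1_surj {h : GT.Bla G k} (hP : NegB h K P) (hz : z ∈ L.US G) {u : Euc N}
    (hu : u ∈ V0 G z) : ∃ w, P z w = w ∧ l1 h K z w = u := by
  let A : LinearMap.range (P z : Wt N K →ₗ[ℝ] Wt N K) →ₗ[ℝ] V0 G z :=
    LinearMap.codRestrict _ ((l1 h K z : Wt N K →ₗ[ℝ] Euc N).comp (Submodule.subtype _))
      (fun w => l1_mem h hz _)
  have hinj : Function.Injective A := by
    rw [injective_iff_map_eq_zero]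
    rintro ⟨w, hw⟩ h0
    have h1 : l1 h K z w = 0 := congrArg Subtype.val h0
    exact Subtype.ext (hP.l1_inj hz ((hP.mem_range hz).1 hw) h1)
  have hfr : finrank ℝ (LinearMap.range (P z : Wt N K →ₗ[ℝ] Wt N K)) = finrank ℝ (V0 G z) := by
    have h1 := hP.rank z hz
    have h2 := NN.finrank_V0 h hz
    omega
  obtain ⟨w, hw⟩ := (LinearMap.injective_iff_surjective_of_finrank_eq_finrank hfr).1 hinj ⟨u, hu⟩
  exact ⟨w, (hP.mem_range hz).1 w.2, congrArg Subtype.val hw⟩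

/-- the Gram operator -/
def Gz (h : GT.Bla G k) (P : Euc N × Euc N → Wt N K →L[ℝ] Wt N K) (z : Euc N × Euc N) :
    Euc N →L[ℝ] Euc N :=
  (l1 h K z).comp ((P z).comp (ContinuousLinearMap.adjoint (l1 h K z))) + (1 - PV0 h z)

theorem NegB.Gz_inj {h : GT.Bla G k} (hP : NegB h K P) (hz : z ∈ L.US G) {x : Euc N}
    (hx : Gz h P z x = 0) : x = 0 := by
  set y := ContinuousLinearMap.adjoint (l1 h K z) x with hy
  have h1 : ⟪Gz h P z x, x⟫ = ‖P z y‖ ^ 2 + ‖x - PV0 h z x‖ ^ 2 := by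
    unfold Gz
    rw [_root_.add_apply, inner_add_left, ContinuousLinearMap.comp_apply,
      ContinuousLinearMap.comp_apply, ← hy, ← ContinuousLinearMap.adjoint_inner_right, ← hy]
    have e1 : ⟪P z y, y⟫ = ‖P z y‖ ^ 2 := by
      rw [← real_inner_self_eq_norm_sq, ← hP.symm z hz (P z y) y, hP.idem z hz]
    have e2 : ⟪(1 - PV0 h z) x, x⟫ = ‖x - PV0 h z x‖ ^ 2 := by
      rw [_root_.sub_apply, one_apply_eq_self, ← real_inner_self_eq_norm_sq,
        inner_sub_right (x - PV0 h z x), ← PV0_symm h hz (x - PV0 h z x) x, map_sub,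
        PV0_self h hz (PV0_mem h hz x), sub_self, inner_zero_left, sub_zero]
    rw [e1, e2]
  rw [hx, inner_zero_left] at h1
  have h2 : ‖P z y‖ ^ 2 = 0 := by nlinarith [sq_nonneg ‖P z y‖, sq_nonneg ‖x - PV0 h z x‖]
  have h3 : ‖x - PV0 h z x‖ ^ 2 = 0 := by nlinarith [sq_nonneg ‖P z y‖, sq_nonneg ‖x - PV0 h z x‖]
  have h4 : P z y = 0 := norm_eq_zero.1 (pow_eq_zero_iff two_ne_zero |>.1 h2)
  have h5 : x = PV0 h z x := sub_eq_zero.1 (norm_eq_zero.1 (pow_eq_zero_iff two_ne_zero |>.1 h3))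
  have hxV : x ∈ V0 G z := by rw [h5]; exact PV0_mem h hz x
  obtain ⟨w, hw, hwx⟩ := hP.l1_surj hz hxV
  have h6 : ⟪x, x⟫ = 0 := by
    nth_rewrite 2 [← hwx]
    rw [← ContinuousLinearMap.adjoint_inner_left, ← hy, ← hw, ← hP.symm z hz, h4, inner_zero_left]
  exact inner_self_eq_zero.1 h6

theorem NegB.isUnit_Gz {h : GT.Bla G k} (hP : NegB h K P) (hz : z ∈ L.US G) :
    IsUnit (Gz h P z) := by
  have hinj : Function.Injective (Gz h P z : Euc N →ₗ[ℝ] Euc N) := by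
    rw [injective_iff_map_eq_zero]
    exact fun x hx => hP.Gz_inj hz hx
  rw [ContinuousLinearMap.isUnit_iff_bijective]
  exact ⟨hinj, LinearMap.injective_iff_surjective.1 hinj⟩

/-- **the map `N_z → V₀(z)`** -/
def uu (h : GT.Bla G k) (P : Euc N × Euc N → Wt N K →L[ℝ] Wt N K) (z : Euc N × Euc N) :
    Wt N K →L[ℝ] Euc N :=
  (-(1 / 2 : ℝ)) • (Ring.inverse (Gz h P z)).comp ((l1 h K z).comp ((P z).comp (NB.Cz G (nuP K) z)))

theorem NegB.Gz_uu {h : GT.Bla G k} (hP : NegB h K P) (hz : z ∈ L.US G) (w : Wt N K) :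
    Gz h P z (uu h P z w) = (-(1 / 2 : ℝ)) • l1 h K z (P z (NB.Cz G (nuP K) z w)) := by
  have h1 : Gz h P z * Ring.inverse (Gz h P z) = 1 := Ring.mul_inverse_cancel _ (hP.isUnit_Gz hz)
  unfold uu
  rw [_root_.smul_apply, map_smul]
  congr 1
  exact congrArg (fun T : Euc N →L[ℝ] Euc N => T (l1 h K z (P z (NB.Cz G (nuP K) z w)))) h1

theorem NegB.uu_mem {h : GT.Bla G k} (hP : NegB h K P) (hz : z ∈ L.US G) (w : Wt N K) :
    uu h P z w ∈ V0 G z := by
  set x := uu h P z w with hx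
  have h1 := hP.Gz_uu hz w
  rw [← hx] at h1
  have h2 : x - PV0 h z x ∈ V0 G z := by
    have h3 : x - PV0 h z x = Gz h P z x -
        l1 h K z (P z (ContinuousLinearMap.adjoint (l1 h K z) x)) := by
      unfold Gz
      rw [_root_.add_apply, ContinuousLinearMap.comp_apply, ContinuousLinearMap.comp_apply,
        _root_.sub_apply, one_apply_eq_self]
      abel
    rw [h3, h1]
    exact Submodule.sub_mem _ (Submodule.smul_mem _ _ (l1_mem h hz _)) (l1_mem h hz _)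
  have h4 : x = (x - PV0 h z x) + PV0 h z x := by abel
  rw [h4]
  exact Submodule.add_mem _ h2 (PV0_mem h hz x)

/-- **the defining property** -/
theorem NegB.inner_uu {h : GT.Bla G k} (hP : NegB h K P) (hz : z ∈ L.US G) {w w' : Wt N K}
    (hw' : P z w' = w') : ⟪uu h P z w, l1 h K z w'⟫ = -(1 / 2) * bb G z w w' := by
  set x := uu h P z w with hx
  have h1 := hP.Gz_uu hz w
  rw [← hx] at h1
  have hxV : x ∈ V0 G z := hP.uu_mem hz w
  unfold Gz at h1
  rw [_root_.add_apply, ContinuousLinearMap.comp_apply, ContinuousLinearMap.comp_apply,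
    _root_.sub_apply, one_apply_eq_self, PV0_self h hz hxV, sub_self, add_zero,
    ← map_smul] at h1
  set y := P z (ContinuousLinearMap.adjoint (l1 h K z) x) with hy
  have h2 : y - (-(1 / 2 : ℝ)) • P z (NB.Cz G (nuP K) z w) = 0 := by
    refine hP.l1_inj hz ?_ ?_
    · rw [map_sub, map_smul, hy, hP.idem z hz, hP.idem z hz]
    · rw [map_sub, h1, sub_self]
  have h3 : y = (-(1 / 2 : ℝ)) • P z (NB.Cz G (nuP K) z w) := sub_eq_zero.1 h2
  have h4 : ⟪x, l1 h K z w'⟫ = ⟪y, w'⟫ := by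
    rw [← ContinuousLinearMap.adjoint_inner_left, hy, hP.symm z hz, hw']
  rw [h4, h3, real_inner_smul_left, hP.symm z hz, hw', inner_Cz hz.1]

end Crest.Agent.R208.KR
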