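import Crest.Agent.R208.RRc365
import Crest.Agent.R208.FV3
import Crest.Agent.R208.GP1
import Crest.Agent.R208.LB2

/-! Row 208, block RR (helper365), piece [RRc], part B: **Fubini for the exponential family**
`E(p,v,s) = Exp_p(π s v)` on the unit tangent bundle:
`∫_US K(E^*w') ∧ fst^*w = ∫_S w' · ∫_S w`. -/

set_option autoImplicit false
set_option linter.unusedSectionVars false

open MeasureTheory MeasureTheory.Measure Set Filter Topology Module Metric
open scoped ContDiff RealInnerProductSpace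
open Crest.GeometryTopology.Submanifold
open Crest.Agent.R241.DDefs
open Crest.Agent.R241.D2
open Crest.Agent.R208.F Crest.Agent.R208.FI
open Crest.Agent.R208.L (US)

noncomputable section

namespace Crest.Agent.R208.RRC

/-- `E(p,v,s) = Exp_p(π s v)` -/
def EE {n N : ℕ} {κ : ℝ} {S : Set (Euc N)} (G : Geo n N κ S) (z : (Euc N × Euc N) × ℝ) : Euc N :=
  Exp G z.1.1 ((Real.pi * z.2) • z.1.2)

section any
variable {n N : ℕ} {κ : ℝ} {S : Set (Euc N)} {G : Geo n N κ S}

theorem contDiffAt_EE {q : Euc N × Euc N} (hq : q ∈ TS G) (t : ℝ) :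
    ContDiffAt ℝ ∞ (EE G) (q, t) := by
  have h1 := contDiffAt_Exp G hq.1 ((G.T q.1).smul_mem (Real.pi * t) hq.2)
  have h2 : ContDiffAt ℝ ∞ (fun z : (Euc N × Euc N) × ℝ =>
      ((z.1.1, (Real.pi * z.2) • z.1.2) : Euc N × Euc N)) (q, t) := by
    fun_prop
  exact ContDiffAt.comp (g := fun q : Euc N × Euc N => Exp G q.1 q.2) (q, t) h1 h2

theorem EE_mem {q : Euc N × Euc N} (hq : q ∈ TS G) (t : ℝ) : EE G (q, t) ∈ S :=
  Exp_mem G hq.1 ((G.T q.1).smul_mem _ hq.2)

/-- the derivative in the directions `(0, w, s)`, in a frame -/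
theorem fderiv_EE {p : Euc N} (hp : p ∈ S) {b : Euc n →ₗᵢ[ℝ] Euc N}
    (hb : LinearMap.range b.toLinearMap = G.T p) (v w : Euc n) (t s : ℝ) :
    fderiv ℝ (EE G) ((p, b v), t) ((0, b w), s) =
      fderiv ℝ (fun v => Exp G p (b v)) ((Real.pi * t) • v)
        ((Real.pi * t) • w + (Real.pi * s) • v) := by
  have hq : ((p, b v) : Euc N × Euc N) ∈ TS G := ⟨hp, frame_mem hb v⟩
  -- the curve
  set c : ℝ → (Euc N × Euc N) × ℝ := fun r => ((p, b v) + r • (0, b w), t + r * s) with hc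
  have hc1 : HasDerivAt c ((0, b w), s) 0 := by
    have h1 : HasDerivAt (fun r : ℝ => ((p, b v) : Euc N × Euc N) + r • (0, b w)) (0, b w) 0 := by
      simpa using ((hasDerivAt_id (0 : ℝ)).smul_const ((0, b w) : Euc N × Euc N)).const_add
        ((p, b v) : Euc N × Euc N)
    have h2 : HasDerivAt (fun r : ℝ => t + r * s) s 0 := by
      simpa using ((hasDerivAt_id (0 : ℝ)).mul_const s).const_add t
    exact h1.prodMk h2
  have hc0 : c 0 = ((p, b v), t) := by simp [hc]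
  have h1 : HasDerivAt (fun r => EE G (c r)) (fderiv ℝ (EE G) ((p, b v), t) ((0, b w), s)) 0 := by
    have h2 : HasFDerivAt (EE G) (fderiv ℝ (EE G) ((p, b v), t)) (c 0) := by
      rw [hc0]
      exact ((contDiffAt_EE hq t).differentiableAt (by simp)).hasFDerivAt
    exact h2.comp_hasDerivAt 0 hc1
  have h3 : HasDerivAt (fun r : ℝ => (Real.pi * (t + r * s)) • (v + r • w))
      ((Real.pi * t) • w + (Real.pi * s) • v) 0 := by
    have h4 : HasDerivAt (fun r : ℝ => Real.pi * (t + r * s)) (Real.pi * s) 0 := by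
      simpa using (((hasDerivAt_id (0 : ℝ)).mul_const s).const_add t).const_mul Real.pi
    have h5 : HasDerivAt (fun r : ℝ => v + r • w) w 0 := by
      simpa using ((hasDerivAt_id (0 : ℝ)).smul_const w).const_add v
    have h6 : HasDerivAt (fun r : ℝ => (Real.pi * (t + r * s)) • (v + r • w))
      ((Real.pi * (t + (0 : ℝ) * s)) • w + (Real.pi * s) • (v + (0 : ℝ) • w)) 0 := h4.smul h5
    rw [zero_mul, add_zero, zero_smul, add_zero] at h6
    exact h6
  have h7 : HasDerivAt (fun r : ℝ => Exp G p (b ((Real.pi * (t + r * s)) • (v + r • w))))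
      (fderiv ℝ (fun v => Exp G p (b v)) ((Real.pi * t) • v)
        ((Real.pi * t) • w + (Real.pi * s) • v)) 0 := by
    have h8 : HasFDerivAt (fun v => Exp G p (b v))
        (fderiv ℝ (fun v => Exp G p (b v)) ((Real.pi * t) • v))
        ((Real.pi * (t + (0 : ℝ) * s)) • (v + (0 : ℝ) • w)) := by
      rw [zero_mul, add_zero, zero_smul, add_zero]
      exact ((contDiff_Exp_frame G hp hb).contDiffAt.differentiableAt (by simp)).hasFDerivAt
    exact h8.comp_hasDerivAt (0 : ℝ) h3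
  have h9 : (fun r => EE G (c r)) =
      fun r : ℝ => Exp G p (b ((Real.pi * (t + r * s)) • (v + r • w))) := by
    funext r
    simp only [hc, EE, Prod.fst_add, Prod.snd_add, Prod.smul_fst, Prod.smul_snd, smul_zero,
      add_zero, map_smul, map_add]
  rw [h9] at h1
  exact h1.unique h7

end any

variable {m N : ℕ} {κ : ℝ} {S : Set (Euc N)} {G : Geo (1 + m) N κ S}

/-- `US → S` is a submersion -/
theorem subm_US (hB : Bl (1 + m) N κ S G Real.pi) : Subm m (1 + m) (US G) S Prod.fst where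
  cloZ := LB.clo_US (FV.sub_S hB) hB.cpt (by omega)
  cloX := GP.clo_S hB
  smooth := fun z _ => contDiffAt_fst
  mapsTo := fun z hz => hz.1.1
  sub := by
    intro z hz ξ hξ
    rw [LB.Tan_S (G := G) (FV.sub_S hB) hz.1.1] at hξ
    refine ⟨_, LB.hl_mem (FV.sub_S hB) hz hξ, ?_⟩
    rw [hasFDerivAt_fst.fderiv]
    rfl

theorem mem_tan_fibre (hB : Bl (1 + m) N κ S G Real.pi) {z : Euc N × Euc N} (hz : z ∈ US G)
    {w : Euc N × Euc N} (hw : w ∈ Tan (US G ∩ Prod.fst ⁻¹' {z.1}) z) :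
    w.1 = 0 ∧ w.2 ∈ G.T z.1 ∧ ⟪z.2, w.2⟫ = 0 := by
  have h1 := (subm_US hB).tan_fibre hz
  rw [h1] at hw
  obtain ⟨h2, h3⟩ := hw
  have h4 : w.1 = 0 := by
    have h5 : fderiv ℝ (Prod.fst : Euc N × Euc N → Euc N) z w = 0 := h3
    rw [hasFDerivAt_fst.fderiv] at h5
    exact h5
  have h6 := (LB.mem_Tan_US (FV.sub_S hB) hz).1 h2
  refine ⟨h4, ?_, h6.2.2⟩
  have h7 := h6.2.1
  rw [h4, map_zero] at h7
  have h8 : w.2 - G.P z.1 w.2 = 0 := h7
  rw [sub_eq_zero.1 h8]
  exact P_mem G hz.1.1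

theorem volume_thin : (volume : Measure (Euc (1 + m)))
    ({0} ∪ sphere (0 : Euc (1 + m)) Real.pi) = 0 := by
  have : Nonempty (Fin (1 + m)) := ⟨⟨0, by omega⟩⟩
  have : Nontrivial (Euc (1 + m)) := inferInstance
  refine measure_union_null (measure_singleton _) ?_
  exact Measure.addHaar_sphere_of_ne_zero _ _ Real.pi_pos.ne'

/-- **the exponential family is a sweep** -/
theorem swp (hB : Bl (1 + m) N κ S G Real.pi) {p : Euc N} (hp : p ∈ S) :
    Swp m (US G ∩ Prod.fst ⁻¹' {p}) S (EE G) where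
  cloZ := (subm_US hB).clo_fibre p
  cloX := GP.clo_S hB
  sm := fun z hz t => contDiffAt_EE hz.1.1 t
  mem := fun z hz t => EE_mem hz.1.1 t
  inj := by
    rintro z ⟨hz, hzp⟩ z' ⟨hz', hzp'⟩ t ht t' ht' he
    have e1 : z.1 = p := hzp
    have e2 : z'.1 = p := hzp'
    have hπ := Real.pi_pos
    have h1 : Exp G p ((Real.pi * t) • z.2) = Exp G p ((Real.pi * t') • z'.2) := by
      have : Exp G z.1 ((Real.pi * t) • z.2) = Exp G z'.1 ((Real.pi * t') • z'.2) := he
      rwa [e1, e2] at this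
    have n1 : ‖(Real.pi * t) • z.2‖ = Real.pi * t := by
      rw [norm_smul, hz.2, mul_one, Real.norm_eq_abs, abs_of_pos (mul_pos hπ ht.1)]
    have n2 : ‖(Real.pi * t') • z'.2‖ = Real.pi * t' := by
      rw [norm_smul, hz'.2, mul_one, Real.norm_eq_abs, abs_of_pos (mul_pos hπ ht'.1)]
    have h2 := hB.Exp_inj hp ((G.T p).smul_mem _ (e1 ▸ hz.1.2)) ((G.T p).smul_mem _ (e2 ▸ hz'.1.2))
      (by rw [n1]; nlinarith [ht.2]) (by rw [n2]; nlinarith [ht'.2]) h1
    have h3 : t = t' := by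
      have := congrArg norm h2
      rw [n1, n2] at this
      exact mul_left_cancel₀ hπ.ne' this
    refine ⟨Prod.ext (e1.trans e2.symm) ?_, h3⟩
    rw [← h3] at h2
    exact smul_right_injective _ (mul_pos hπ ht.1).ne' h2
  dinj := by
    rintro z ⟨hz, hzp⟩ t ht w hw s h0
    have e1 : z.1 = p := hzp
    subst e1
    have hπ := Real.pi_pos
    obtain ⟨h1, h2, h3⟩ := mem_tan_fibre hB hz hw
    obtain ⟨b, hb⟩ := exists_frame G hp
    obtain ⟨v0, hv0⟩ := exists_frame_eq hb hz.1.2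
    obtain ⟨w0, hw0⟩ := exists_frame_eq hb h2
    have ez : z = (z.1, b v0) := Prod.ext rfl hv0.symm
    have ew : w = (0, b w0) := Prod.ext h1 hw0.symm
    have h4 := fderiv_EE hp hb v0 w0 t s
    rw [← ez, ← ew, h0] at h4
    have nv : ‖(Real.pi * t) • v0‖ < Real.pi := by
      rw [norm_smul, ← GP.norm_b (b := b) v0, hv0, hz.2, mul_one, Real.norm_eq_abs,
        abs_of_pos (mul_pos hπ ht.1)]
      nlinarith [ht.2]
    have h5 := GP.inj_fderiv hB hp hb nv (a₁ := (Real.pi * t) • w0 + (Real.pi * s) • v0) (a₂ := 0)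
      (by rw [map_zero]; exact h4.symm)
    have h6 : (Real.pi * t) • w.2 + (Real.pi * s) • z.2 = 0 := by
      have := congrArg b h5
      rw [map_add, map_smul, map_smul, hw0, hv0, map_zero] at this
      exact this
    have h7 : s = 0 := by
      have h8 := congrArg (fun y => ⟪z.2, y⟫) h6
      simp only [inner_add_right, inner_smul_right, h3, mul_zero, zero_add, inner_zero_right,
        real_inner_self_eq_norm_sq, hz.2] at h8
      have h9 : Real.pi * s = 0 := by linarith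
      exact (mul_eq_zero.1 h9).resolve_left hπ.ne'
    refine ⟨Prod.ext h1 ?_, h7⟩
    rw [h7, mul_zero, zero_smul, add_zero] at h6
    exact (smul_eq_zero.1 h6).resolve_left (mul_pos hπ ht.1).ne'
  null := by
    obtain ⟨b, hb⟩ := exists_frame G hp
    have hπ := Real.pi_pos
    have h1 := Crest.Agent.R241.AF.muHE_image_null (U := Euc (1 + m))
      (f := fun v => TE (Euc N) (Exp G p (b v)))
      (s := {0} ∪ sphere (0 : Euc (1 + m)) Real.pi) (fun v _ =>
        ((TE (Euc N)).differentiableAt.comp v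
          ((contDiff_Exp_frame G hp hb).contDiffAt.differentiableAt
            (by simp))).differentiableWithinAt) volume_thin
    have hd : finrank ℝ (Euc (1 + m)) = 1 + m := finrank_euclideanSpace_fin
    rw [hd] at h1
    refine measure_mono_null ?_ h1
    rintro _ ⟨q, ⟨hq, hq2⟩, rfl⟩
    obtain ⟨v, hv1, hv2⟩ := GP.exists_v hB hp hb hq
    have hvle : ‖v‖ ≤ Real.pi := by rw [hv1]; exact hB.dist_le p hp q hq
    refine ⟨v, ?_, congrArg (TE (Euc N)) hv2⟩
    by_contra hv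
    rw [mem_union, mem_singleton_iff, mem_sphere_zero_iff_norm, not_or] at hv
    have hn0 : 0 < ‖v‖ := norm_pos_iff.2 hv.1
    have hnπ : ‖v‖ < Real.pi := lt_of_le_of_ne hvle hv.2
    apply hq2
    refine ⟨((p, b (‖v‖⁻¹ • v)), ‖v‖ / Real.pi), ⟨⟨⟨⟨hp, frame_mem hb _⟩, ?_⟩, rfl⟩,
      div_pos hn0 hπ, (div_lt_one hπ).2 hnπ⟩, ?_⟩
    · show ‖b (‖v‖⁻¹ • v)‖ = 1
      rw [GP.norm_b, norm_smul, norm_inv, norm_norm, inv_mul_cancel₀ hn0.ne']
    · show Exp G p ((Real.pi * (‖v‖ / Real.pi)) • b (‖v‖⁻¹ • v)) = q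
      rw [mul_div_cancel₀ _ hπ.ne', map_smul, smul_smul, mul_inv_cancel₀ hn0.ne', one_smul, hv2]

/-! ### Fubini -/

variable {oS w w' : Euc N → Ext (Euc N)}

theorem continuousOn_K {n : ℕ} {G : Geo n N κ S} (hw : ContinuousOn w S) :
    ContinuousOn (Hop (EE G) w) (US G) :=
  continuousOn_Hop (fun _ hz t => contDiffAt_EE hz.1 t) (fun _ hz t => EE_mem hz.1 t) hw

/-- the fibre integrals of `K(E^*w')` are constant -/
theorem fibre_J (hB : Bl (1 + m) N κ S G Real.pi) (hoS : Ori (1 + m) S oS)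
    (hw' : ContinuousOn w' S) {p : Euc N} (hp : p ∈ S) :
    J m (US G ∩ Prod.fst ⁻¹' {p}) (Hop (EE G) oS) (Hop (EE G) w') = J (1 + m) S oS w' :=
  (swp hB hp).J_eq hoS hw'

theorem ori_prod (hB : Bl (1 + m) N κ S G Real.pi) (hoS : Ori (1 + m) S oS)
    (hoS0 : ∀ x ∈ S, ∀ q < 1 + m, evA (Euc N) q (oS x) = 0) :
    Ori (m + (1 + m)) (US G) (fun z => Hop (EE G) oS z * pull Prod.fst oS z) := by
  have hS := subm_US hB
  refine ori_of hS.cloZ (FI.continuousOn_mul (continuousOn_K hoS.cont)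
    (hS.continuousOn_pull hoS.cont)) fun z hz => ?_
  have hb : z.1 ∈ S := hz.1.1
  have hfr := frame_isFrame (hS.cloX.finrank_Tan hb)
  choose v hv hvf using fun i => hS.sub z hz _ (hfr.2 i)
  have hswp := swp hB hb
  have hzf : z ∈ US G ∩ Prod.fst ⁻¹' {z.1} := ⟨hz, rfl⟩
  have hfr2 := frame_isFrame (hswp.cloZ.finrank_Tan hzf)
  have hne := (hswp.ori hoS).ne z hzf
  have htan := hS.tan_fibre hz
  set u := frame m (US G ∩ Prod.fst ⁻¹' {z.1}) z with hu
  have hu1 : ∀ i, u i ∈ Tan (US G) z ∧ fderiv ℝ (Prod.fst : Euc N × Euc N → Euc N) z (u i) = 0 :=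
    fun i => by
      have h1 := hfr2.2 i
      have h2 : u i ∈ Tan (US G) z ⊓ LinearMap.ker
          (fderiv ℝ (Prod.fst : Euc N × Euc N → Euc N) z : Euc N × Euc N →ₗ[ℝ] Euc N) := by
        rw [← htan]; exact h1
      exact ⟨h2.1, h2.2⟩
  refine ⟨Fin.append u v, fun i => ?_, ?_⟩
  · refine Fin.addCases (fun j => ?_) (fun j => ?_) i
    · rw [Fin.append_left]; exact (hu1 j).1
    · rw [Fin.append_right]; exact hv j
  · have h1 := evA_mul_pb (fderiv ℝ (Prod.fst : Euc N × Euc N → Euc N) z :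
      Euc N × Euc N →ₗ[ℝ] Euc N) (oS z.1) (hoS0 _ hb) v (Hop (EE G) oS z) u (fun i => (hu1 i).2)
    have h2 : (fun i => (fderiv ℝ (Prod.fst : Euc N × Euc N → Euc N) z :
      Euc N × Euc N →ₗ[ℝ] Euc N) (v i)) = frame (1 + m) S z.1 := funext hvf
    show evA _ (m + (1 + m)) (Hop (EE G) oS z * pb (fderiv ℝ (Prod.fst : Euc N × Euc N → Euc N) z :
      Euc N × Euc N →ₗ[ℝ] Euc N) (oS z.1)) _ ≠ 0
    rw [h1, h2]
    exact mul_ne_zero hne (hoS.ne _ hb)

/-- **FUBINI** -/
theorem fubini (hB : Bl (1 + m) N κ S G Real.pi) (hoS : Ori (1 + m) S oS)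
    (hoS0 : ∀ x ∈ S, ∀ q < 1 + m, evA (Euc N) q (oS x) = 0)
    (hw' : ContinuousOn w' S) (hw : ContinuousOn w S)
    (hw0 : ∀ x ∈ S, ∀ q < 1 + m, evA (Euc N) q (w x) = 0) :
    J (m + (1 + m)) (US G) (fun z => Hop (EE G) oS z * pull Prod.fst oS z)
      (fun z => Hop (EE G) w' z * pull Prod.fst w z) =
      J (1 + m) S oS w' * J (1 + m) S oS w := by
  have hS := subm_US hB
  rw [fibre_integration hS (continuousOn_K hoS.cont) (ori_prod hB hoS hoS0) hoS0
    (continuousOn_K hw') hw hw0, ← J_smul]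
  exact J_congr' hS.cloX fun x hx => by rw [fibre_J hB hoS hw' hx]

open Crest.Agent.R208.T (dpl evA_dpl isDeg_dpl) in
/-- **FUBINI, absolute values**, for arbitrary orientations of `US` and `S`. -/
theorem abs_fubini {n d : ℕ} {G : Geo n N κ S} (hB : Bl n N κ S G Real.pi) (hn : 2 ≤ n)
    (hd : d + 1 = 2 * n) {o : Euc N × Euc N → Ext (Euc N × Euc N)} (ho : Ori d (US G) o)
    (hoS : Ori n S oS) (hw' : ContinuousOn w' S) (hw : ContinuousOn w S)
    (hw0 : ∀ x ∈ S, ∀ q < n, evA (Euc N) q (w x) = 0) :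
    |J d (US G) o (fun z => Hop (EE G) w' z * pull Prod.fst w z)| =
      |J n S oS w'| * |J n S oS w| := by
  obtain ⟨m, rfl⟩ : ∃ m, n = 1 + m := ⟨n - 1, by omega⟩
  obtain rfl : d = m + (1 + m) := by omega
  have hclo : Clo (1 + m) S := GP.clo_S hB
  set oS' : Euc N → Ext (Euc N) := fun x => dpl (1 + m) (oS x) with hoS'
  have hev : ∀ x, evA (Euc N) (1 + m) (oS' x) = evA (Euc N) (1 + m) (oS x) := fun x => by
    rw [hoS', evA_dpl, if_pos rfl]
  have ho' : Ori (1 + m) S oS' := ⟨(Crest.Agent.R208.T.dplL (E := Euc N)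
    (1 + m)).continuous.comp_continuousOn hoS.cont, fun x hx => by rw [hev]; exact hoS.ne x hx⟩
  have h0 : ∀ x ∈ S, ∀ q < 1 + m, evA (Euc N) q (oS' x) = 0 := fun x _ q hq =>
    isDeg_dpl _ _ q (by omega)
  have hJ : ∀ om : Euc N → Ext (Euc N), J (1 + m) S oS' om = J (1 + m) S oS om := fun om =>
    CM.J_congr_dens hclo (fun x _ => by rw [hev]) (fun _ _ => rfl)
  have key := fubini hB ho' h0 hw' hw hw0
  rw [hJ, hJ] at key
  rw [← abs_mul, ← key]
  have hcl : Clo (m + (1 + m)) (US G) := (subm_US hB).cloZ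
  rcases J_ori_connected hcl (ori_prod hB ho' h0) ho (FV.preconn_US hB hn) with h | h
  · rw [h]
  · rw [h, abs_neg]

end Crest.Agent.R208.RRC
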