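import Crest.Agent.R208.AN1
import Crest.Agent.R208.SB2
import Crest.Agent.R208.KR4
import Crest.Agent.R208.FG1e
import Crest.Agent.R208.CM5
import Crest.Agent.R208.CG1
import Crest.Agent.R208.RRc365B

/-! Row 208, block (N) (helper601).  AN2: the absolute value of the integral of `D.vs α F_flat * y`
over `N4` for arbitrary orientations, from the absolute value of the fibre integral of
`K (EE^* om)`. -/

set_option autoImplicit false
set_option linter.unusedSectionVars false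
set_option linter.unusedVariables false

open MeasureTheory Set Filter Topology Module
open scoped ContDiff RealInnerProductSpace
open Crest.GeometryTopology.Submanifold
open Crest.Agent.R241.DDefs
open Crest.Agent.R241.D2
open Crest.Agent.R241.D3c
open Crest.Agent.R208.F Crest.Agent.R208.FI Crest.Agent.R208.CW Crest.Agent.R208.T
open Crest.Agent.R208.FG (OSubm)
open Crest.Agent.R208.SB (OPr oV)
open Crest.Agent.R208.L (US)
open Crest.Agent.R208.FV (phi PVB up dn)
open Crest.Agent.R208.KG (N2 N3 N4 nest2 nest4 hf sgi idx Km)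
open Crest.Agent.R208.VC (Act psi vv xi Av)
open Crest.Agent.R208.AF
open Crest.Agent.R208.EX (ED LF sl circ Cc ex)

noncomputable section

namespace Crest.Agent.R208.AN

section gen
variable {E : Type*} [NormedAddCommGroup E] [NormedSpace ℝ E] [FiniteDimensional ℝ E]
  {d : ℕ} {X : Set E} {o : E → Ext E}

/-- the homogeneous part of an orientation -/
theorem ori_dp (ho : Ori d X o) : Ori d X (T.dp d o) where
  cont := (dplL (E := E) d).continuous.comp_continuousOn ho.cont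
  ne := fun x hx => by
    show evA E d (dpl d (o x)) _ ≠ 0
    rw [CM.evA_dpl_same]
    exact ho.ne x hx

theorem J_dp (hX : Clo d X) (om : E → Ext E) : J d X (T.dp d o) om = J d X o om :=
  CM.J_congr_dens hX (fun x _ => by
    show evA E d (dpl d (o x)) _ = _
    rw [CM.evA_dpl_same]) (fun x _ => rfl)

end gen

variable {n N d r e k mK : ℕ} {κ ε c τ : ℝ} {S : Set (Euc N)} {G : Geo n N κ S}
  {oP : Euc N × Euc N → Ext (Euc N)} {om : Euc N → Ext (Euc N)}
  {oU y : Euc N × Euc N → Ext (Euc N × Euc N)}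

/-- `lam` is the fibre integral `K (EE^* om)` -/
theorem lam_eq (G : Geo n N κ S) (om : Euc N → Ext (Euc N)) :
    lam (Gm G) om = RR.K (F.pull (RRC.EE G) om) := by
  funext z
  rw [CG.K_apply]
  rfl

theorem fibre_eq {z : Euc N × Euc N} (hz : z ∈ US G) :
    US G ∩ phi G ⁻¹' {phi G z} = US G ∩ NB.ph G ⁻¹' {NB.ph G z} := by
  ext y
  constructor
  · rintro ⟨hy, h1⟩
    refine ⟨hy, ?_⟩
    have e1 := KR.phi_eq hy
    have e2 := KR.phi_eq hz
    have h2 : phi G y = phi G z := h1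
    rw [e1, e2] at h2
    exact h2
  · rintro ⟨hy, h1⟩
    refine ⟨hy, ?_⟩
    show phi G y = phi G z
    rw [KR.phi_eq hy, KR.phi_eq hz]
    exact h1

/-- orientations of `F` -/
theorem exists_ori_FF (h : GT.Bla G k) (hk : 2 ≤ k) (hkn : k < n) {d' : ℕ} (hd : d' + k = 2 * n) :
    ∃ oF : Euc N × Euc N → Ext (Euc N × Euc N), Ori d' (GT.FF S) oF ∧ ∀ x, IsDeg d' (oF x) := by
  obtain ⟨oS, h1, -, h3⟩ := GP.exists_ori h.bl h.ty hk
  obtain ⟨oV, hdV, hos⟩ := FG.exists_osubm h hk hkn h1 h3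
  have hdd : d' = n - k + n := by omega
  subst hdd
  refine ⟨_, hos.tot, fun z => T.IsDeg.mul (hdV z) ?_⟩
  rw [FG.pull_fst_apply]
  exact (h3 _).pb _

/-- **the absolute value of the integral over the flat family** -/
theorem abs_vs_flat (h : GT.Bla G k) (hk : 2 ≤ k) (ev : Even k) (hkn : k < n)
    (hO : KG.OK G 4 ε) {D : ED N} (hD : D.OK) (hS : D.S = S) {α : E4 N → Ext (E4 N)}
    (hα : Sm (N4 h) α) (hα1 : Hom 1 α) (hp : 1 ≤ D.p) (hq : 1 ≤ D.q)
    (hs : Sm S D.om) (hcl : Cl S D.om) (hom : Hom k D.om)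
    {z₀ : Euc N × Euc N} (hz₀ : z₀ ∈ US G)
    (hτ : ∀ oF : Euc N × Euc N → Ext (Euc N × Euc N),
      Ori (k - 1) (US G ∩ NB.ph G ⁻¹' {NB.ph G z₀}) oF →
      |J (k - 1) (US G ∩ NB.ph G ⁻¹' {NB.ph G z₀}) oF (RR.K (F.pull (RRC.EE G) D.om))| = τ)
    (hd : d + 1 = 2 * n) (hed : k + e = d) (hmK : mK = 3 * (k - 1) + d)
    (hoU : Ori d (US G) oU) {oK : E4 N → Ext (E4 N)} (hoK : Ori mK (N4 h) oK)
    (sy : Sm (US G) y) (cy : Cl (US G) y) (dy : Hom e y) :
    (2 * Real.pi) ^ 2 * |J mK (N4 h) oK (D.vs α (Ff G ε) * F.pull (fun z => z.1.1.1) y)| =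
      3 * τ ^ 3 * |J d (US G) oU (F.pull Prod.fst D.om * y)| := by
  obtain ⟨r, rfl⟩ : ∃ r, k = r + 1 := ⟨k - 1, by omega⟩
  have hr : 1 ≤ r := by omega
  obtain rfl : mK = r + (r + (r + d)) := by omega
  obtain ⟨oP, hoP⟩ := SB.exists_opr_V h hk hkn
  obtain ⟨oF, hoF, hdF⟩ := exists_ori_FF h hk hkn (d' := 2 * n - (r + 1)) (by omega)
  have hW := osubm_W h hoP (by omega) hoF hdF
  have hU : Clo d (US G) := SB.clo_US h hd
  have L : Lv G d (US G) (fun z => z) (T.dp d oU) :=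
    lv0 h hd (by omega) (ori_dp hoU) (fun x => hom_dp d oU x)
  have h1 := J_vs_flat h hO hoP hd L ev hr hW hD hS hα hα1 hp hq hs hcl hom hz₀ rfl sy cy dy hed
  obtain ⟨sg, hsg, h2⟩ := sign_N4 h hoP L hr hoK
  have h3 := hτ _ (by
    have h4 := hW.fib (phi G z₀)
    rw [fibre_eq hz₀] at h4
    exact h4)
  rw [← fibre_eq hz₀, ← lam_eq] at h3
  rw [J_dp hU] at h1
  have h3' : |J r (US G ∩ phi G ⁻¹' {phi G z₀}) (oWf G oP) (lam (Gm G) D.om)| = τ := h3
  have h5 := congrArg abs h1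
  have hpi := Real.pi_pos
  rw [abs_mul, abs_neg, abs_mul, abs_mul, abs_pow, abs_pow, h3',
    abs_of_nonneg (by norm_num : (0 : ℝ) ≤ 3), abs_of_nonneg (by positivity : 0 ≤ 2 * Real.pi)] at h5
  rw [h2, abs_mul, ← h5]
  rcases hsg with rfl | rfl <;> simp

end Crest.Agent.R208.AN
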