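import Crest.Agent.R208.LC1

/-! Row 208, block LC (helper125), part LC2: the formula for `push` over constant fields, the
constants `c₀` of the Thom pairs. -/

set_option autoImplicit false
set_option linter.unusedSectionVars false
set_option linter.unusedSimpArgs false

open MeasureTheory Set Filter Topology Module Matrix
open scoped ContDiff
open Crest.Agent.R208.F Crest.Agent.R208.FI Crest.Agent.R208.CW Crest.Agent.R208.T
open Crest.Agent.R208.TP Crest.Agent.R208.SN

noncomputable section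

namespace Crest.Agent.R208.LC

section const
variable {n ι : Type*} [Fintype n] [DecidableEq n] [Fintype ι] [DecidableEq ι]
  {E E' : Type*} [NormedAddCommGroup E] [NormedSpace ℝ E] [FiniteDimensional ℝ E]
  [NormedAddCommGroup E'] [NormedSpace ℝ E'] [FiniteDimensional ℝ E']
  {P : E → EuclideanSpace ℝ n →L[ℝ] EuclideanSpace ℝ n} {W' : E → (ι × Fin 2 → n) → ℝ} {x : E}
  {g : Matrix n (ι × Fin 2) ℝ} {r : ℕ} {f : Fin r → EuclideanSpace ℝ n}

/-- data at a point -/
structure Dat (P : E → EuclideanSpace ℝ n →L[ℝ] EuclideanSpace ℝ n) (W' : E → (ι × Fin 2 → n) → ℝ)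
    (x : E) (g : Matrix n (ι × Fin 2) ℝ) (f : Fin r → EuclideanSpace ℝ n) : Prop where
  cd : ContDiffAt ℝ ∞ P x
  on : gᵀ * g = 1
  pg : ∀ v i, (1 - P x) v i = ∑ j, (g * gᵀ) i j * v j
  wg : ∀ I, W' x I = (g.submatrix I id).det
  adp : Adp (col g) f
  pf : ∀ k, P x (f k) = f k
  pc : ∀ k, P x (col g k) = 0
  surj : ∀ v, P x v = v → ∃ a : Eu r, cmb f a = v

theorem exists_dat {X : Set E} (h' : OR X (fun x => 1 - P x) W') (hP : PField X r P) (hx : x ∈ X) :
    ∃ (g : Matrix n (ι × Fin 2) ℝ) (f : Fin r → EuclideanSpace ℝ n), Dat P W' x g f := by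
  obtain ⟨g, h1, h2, h3⟩ := h'.fr x hx
  obtain ⟨f, h4, h5, h6, h7⟩ := exists_adp (hP.rank x hx) (hP.idem x hx) h1 h2
  exact ⟨g, f, hP.smooth x hx, h1, h2, h3, h4, h5, h6, h7⟩

theorem Dat.P_f (h : Dat P W' x g f) (b : Eu r) : P x (cmb f b) = cmb f b := by
  rw [cmb_apply, _root_.map_sum]
  simp only [map_smul, h.pf]

theorem Dat.P_c (h : Dat P W' x g f) (a : Eu (Fintype.card ι * 2)) : P x (cmb (col g) a) = 0 := by
  rw [cmb_apply, _root_.map_sum]
  simp only [map_smul, h.pc, smul_zero, Finset.sum_const_zero]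

theorem Dat.P_add (h : Dat P W' x g f) (a : Eu (Fintype.card ι * 2)) (b : Eu r) :
    P x (cmb (col g) a + cmb f b) = cmb f b := by
  rw [map_add, h.P_f, h.P_c, zero_add]

/-- the constant family of affine maps -/
def cst (E' : Type*) (x : E) (z : E' × EuclideanSpace ℝ n) : E × EuclideanSpace ℝ n := (x, z.2)

theorem hasFDerivAt_gam_cst (c : E') (v : EuclideanSpace ℝ n) :
    HasFDerivAt (cst E' x ∘ (gam fun _ : E' => P x))
      (((ContinuousLinearMap.inr ℝ E (EuclideanSpace ℝ n)).comp (1 - P x)).comp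
        (ContinuousLinearMap.snd ℝ E' (EuclideanSpace ℝ n))) (c, v) := by
  have h1 : HasFDerivAt (fun z : E' × EuclideanSpace ℝ n => z.2 - P x z.2)
      ((1 - P x).comp (ContinuousLinearMap.snd ℝ E' (EuclideanSpace ℝ n))) (c, v) :=
    ((1 - P x).comp (ContinuousLinearMap.snd ℝ E' (EuclideanSpace ℝ n))).hasFDerivAt
  have h2 := (hasFDerivAt_const (x : E) (c, v)).prodMk h1
  refine h2.congr_fderiv ?_
  ext w <;> simp

/-- the first factor of the integrand -/
theorem pull_gam_thom [Nonempty ι] (h : Dat P W' x g f) (c : E') (v : EuclideanSpace ℝ n) :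
    F.pull (gam fun _ : E' => P x) (F.pull (cst E' x) (thomF (fun x => 1 - P x) W')) (c, v) =
      GG ι (‖v - P x v‖ ^ 2) • pb (ContinuousLinearMap.snd ℝ E' (EuclideanSpace ℝ n) :
        E' × EuclideanSpace ℝ n →ₗ[ℝ] EuclideanSpace ℝ n) (Xi g) := by
  have d1 : DifferentiableAt ℝ (gam fun _ : E' => P x) (c, v) := by
    unfold gam; fun_prop
  have d2 : DifferentiableAt ℝ (cst E' x) (gam (fun _ : E' => P x) (c, v)) := by
    unfold cst; fun_prop
  have e1 := F.pull_comp (f := gam fun _ : E' => P x) (g := cst E' x)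
    (om := thomF (fun x => 1 - P x) W') d1 d2
  have e3 := pb_thomF (P := fun x => 1 - P x) (W := W') (contDiffAt_const.sub h.cd) h.on h.pg h.wg v
  have hv : (1 - P x) v = v - P x v := rfl
  simp only [hv] at e3
  have hp : (cst E' x ∘ gam fun _ : E' => P x) (c, v) = (x, v - P x v) := rfl
  rw [e1, F.pull, (hasFDerivAt_gam_cst c v).fderiv, ContinuousLinearMap.toLinearMap_comp, ← pb_comp,
    hp, e3, map_smul]

theorem isDeg_Xi (g : Matrix n (ι × Fin 2) ℝ) : IsDeg (Fintype.card ι * 2) (Xi g) :=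
  IsDeg.iMulti _

/-- **`push` over a constant field** -/
theorem push_const [Nonempty ι] (h : Dat P W' x g f)
    (om : E' × EuclideanSpace ℝ n → Ext (E' × EuclideanSpace ℝ n)) (c : E') :
    push volume (fun _ : E' => P x) (F.pull (cst E' x) (thomF (fun x => 1 - P x) W')) om c =
      (kGG ι * (h.adp.mat.det * (-1) ^ r)) • ∫ b : Eu r, cF E' f (om (c, cmb f b)) := by
  set B : E' × EuclideanSpace ℝ n →L[ℝ] E' × EuclideanSpace ℝ n :=
    (ContinuousLinearMap.fst ℝ E' (EuclideanSpace ℝ n)).prod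
      (-((P x).comp (ContinuousLinearMap.snd ℝ E' (EuclideanSpace ℝ n)))) with hB
  have hBa : ∀ z, B z = (z.1, -P x z.2) := fun z => rfl
  have e1 : ∀ v, cH (ContinuousLinearMap.inl ℝ E' (EuclideanSpace ℝ n))
      (ContinuousLinearMap.inr ℝ E' (EuclideanSpace ℝ n))
      (thE' (fun _ : E' => P x) (F.pull (cst E' x) (thomF (fun x => 1 - P x) W')) om (c, v)) =
      GG ι (‖v - P x v‖ ^ 2) • (h.adp.mat.det * (-1) ^ r) • cF E' f (om (c, -P x v)) := by
    intro v
    have h1 : F.pull (nbet fun _ : E' => P x) om (c, v) =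
        pb (B : E' × EuclideanSpace ℝ n →ₗ[ℝ] E' × EuclideanSpace ℝ n) (om (c, -P x v)) := by
      have h2 : HasFDerivAt (nbet fun _ : E' => P x) B (c, v) := B.hasFDerivAt
      rw [F.pull, h2.fderiv]
      rfl
    rw [thE', Pi.mul_apply, pull_gam_thom h, h1, smul_mul_assoc, map_smul]
    rw [cH_prod h.adp (s := -1) (B := B) (fun k => by rw [hBa, h.pc]; simp)
      (fun k => by rw [hBa, h.pf]; simp) (fun e => by rw [hBa]; simp) (isDeg_Xi g),
      evA_Xi_col h.on, mul_one]
  rw [push, pI_eq]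
  simp only [e1]
  rw [h.adp.integral (φ := fun a => GG ι (‖a‖ ^ 2))
    (Ψ := fun b => (h.adp.mat.det * (-1) ^ r) • cF E' f (om (c, -cmb f b)))
    (fun a b => by
      rw [h.P_add, add_sub_cancel_right, norm_cmb h.adp.on']),
    integral_smul, smul_smul]
  congr 1
  have h3 := integral_neg_eq_self (fun b => cF E' f (om (c, cmb f b))) (volume : Measure (Eu r))
  simp only [map_neg] at h3
  exact h3

end const

/-! ### the constant of a Thom pair -/
section c0
variable {n ι ι' : Type*} [Fintype n] [DecidableEq n] [Fintype ι] [DecidableEq ι]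
  [Fintype ι'] [DecidableEq ι'] {E : Type*} [NormedAddCommGroup E] [NormedSpace ℝ E]
  [FiniteDimensional ℝ E] {X : Set E} {x : E}
  {P : E → EuclideanSpace ℝ n →L[ℝ] EuclideanSpace ℝ n}
  {W : E → (ι × Fin 2 → n) → ℝ} {W' : E → (ι' × Fin 2 → n) → ℝ}
  {f : Matrix n (ι × Fin 2) ℝ} {g : Matrix n (ι' × Fin 2) ℝ}

theorem adp_of_frames (hf : fᵀ * f = 1) (hg : gᵀ * g = 1) (h : g * gᵀ + f * fᵀ = 1) :
    Adp (col g) (col f) := by
  have h0 : gᵀ * f = 0 := by
    have h1 : gᵀ * (g * gᵀ + f * fᵀ) * f = gᵀ * f := by rw [h, Matrix.mul_one]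
    have h2 : gᵀ * (g * gᵀ + f * fᵀ) * f = gᵀ * f + gᵀ * f := by
      have : gᵀ * (g * gᵀ + f * fᵀ) * f = (gᵀ * g) * (gᵀ * f) + (gᵀ * f) * (fᵀ * f) := by
        simp only [Matrix.mul_add, Matrix.add_mul, Matrix.mul_assoc]
      rw [this, hf, hg, Matrix.one_mul, Matrix.mul_one]
    rw [h2] at h1
    simpa using h1
  have hcf : ∀ k l, inner ℝ (col g k) (col f l) = (0 : ℝ) := by
    intro k l
    rw [inner_col]
    have := congrFun (congrFun h0 ((kFin ι').symm k)) ((kFin ι).symm l)
    rw [Matrix.mul_apply] at this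
    exact this
  refine ⟨?_, ?_⟩
  · rw [orthonormal_iff_ite]
    intro i j
    refine Fin.addCases (fun i => ?_) (fun i => ?_) i <;>
      refine Fin.addCases (fun j => ?_) (fun j => ?_) j
    · rw [Fin.append_left, Fin.append_left, col_inner hg]
      simp
    · rw [Fin.append_left, Fin.append_right, hcf, if_neg]
      simp [Fin.ext_iff]; omega
    · rw [Fin.append_left, Fin.append_right, real_inner_comm, hcf, if_neg]
      simp [Fin.ext_iff]; omega
    · rw [Fin.append_right, Fin.append_right, col_inner hf]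
      simp
  · intro v _
    have e1 : v = ∑ k, inner ℝ (col g k) v • col g k + ∑ k, inner ℝ (col f k) v • col f k := by
      have a1 := proj_col (g := g) (A := (Matrix.toEuclideanLin (g * gᵀ)).toContinuousLinearMap)
        (fun v i => rfl) v
      have a2 := proj_col (g := f) (A := (Matrix.toEuclideanLin (f * fᵀ)).toContinuousLinearMap)
        (fun v i => rfl) v
      rw [← a1, ← a2]
      ext i
      have : v i = ((g * gᵀ + f * fᵀ) *ᵥ v) i := by rw [h, Matrix.one_mulVec]
      rw [this, Matrix.add_mulVec]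
      rfl
    rw [e1]
    refine Submodule.add_mem _ (Submodule.sum_mem _ fun k _ => Submodule.smul_mem _ _
      (Submodule.subset_span ⟨Fin.castAdd _ k, Fin.append_left _ _ _⟩))
      (Submodule.sum_mem _ fun k _ => Submodule.smul_mem _ _
      (Submodule.subset_span ⟨Fin.natAdd _ k, Fin.append_right _ _ _⟩))

theorem evA_Xi_mul (h : Adp (col g) (col f)) :
    evA (EuclideanSpace ℝ n) (finrank ℝ (EuclideanSpace ℝ n)) (Xi g * Xi f)
      (Module.finBasis ℝ (EuclideanSpace ℝ n)) = h.mat.det := by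
  have hN := h.finrank
  rw [← evA_cast hN.symm]
  have e1 := evA_comb _ (Xi g * Xi f) h.basis
    ((Module.finBasis ℝ (EuclideanSpace ℝ n)) ∘ Fin.cast hN.symm) h.mat h.mat_spec
  rw [e1, h.coe, Xi, Xi, ExteriorAlgebra.ιMulti_mul_ιMulti, evA_iMulti]
  have e2 : (Matrix.of fun i j => (Fin.append (fun k => eta g ((kFin ι').symm k))
      (fun k => eta f ((kFin ι).symm k)) j) (Fin.append (col g) (col f) i)) =
      (1 : Matrix (Fin (Fintype.card ι' * 2 + Fintype.card ι * 2))
        (Fin (Fintype.card ι' * 2 + Fintype.card ι * 2)) ℝ) := by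
    have hon := orthonormal_iff_ite.1 h.on
    ext i j
    rw [Matrix.of_apply, Matrix.one_apply, ← hon i j]
    refine Fin.addCases (fun j => ?_) (fun j => ?_) j
    · rw [Fin.append_left, Fin.append_left, real_inner_comm, inner_col, eta_apply]
    · rw [Fin.append_right, Fin.append_right, real_inner_comm, inner_col, eta_apply]
  rw [e2, Matrix.det_one, mul_one]

theorem frames_add (hPf : ∀ v i, P x v i = ∑ j, (f * fᵀ) i j * v j)
    (hPg : ∀ v i, (1 - P x) v i = ∑ j, (g * gᵀ) i j * v j) : g * gᵀ + f * fᵀ = 1 := by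
  ext i j
  have e1 := hPf (EuclideanSpace.single j 1) i
  have e2 := hPg (EuclideanSpace.single j 1) i
  have e3 : (1 - P x) (EuclideanSpace.single j (1 : ℝ)) i
      = (EuclideanSpace.single j (1 : ℝ) : EuclideanSpace ℝ n) i
        - P x (EuclideanSpace.single j 1) i := rfl
  rw [e3, e1] at e2
  simp only [PiLp.single_apply, mul_ite, mul_one, mul_zero, Finset.sum_ite_eq',
    Finset.mem_univ, if_true] at e2
  rw [Matrix.add_apply, Matrix.one_apply, ← e2]
  ring

/-- **the value of the constant** -/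
theorem thom_unit [Nonempty ι] [Nonempty ι'] (h : OR X P W)
    (h' : OR X (fun x => 1 - P x) W') (hx : x ∈ X) : ∃ c : ℝ,
      |c| = del (EuclideanSpace ℝ n) * (kGG ι' * kGG ι) ∧
      pI volume (F.pull (gam P) (thomF (fun x => 1 - P x) W') * F.pull (bet P) (thomF P W)) x
        = algebraMap ℝ (Ext E) c := by
  obtain ⟨f, hf, hPf, hWf⟩ := h.fr x hx
  obtain ⟨g, hg, hPg, hWg⟩ := h'.fr x hx
  have hadd := frames_add hPf hPg
  have hA := adp_of_frames hf hg hadd
  have hk : 0 ≤ kGG ι' * kGG ι := mul_nonneg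
    (integral_nonneg fun a => GG_nonneg _ _) (integral_nonneg fun a => GG_nonneg _ _)
  refine ⟨hA.mat.det * (kGG ι' * kGG ι), by rw [abs_mul, hA.abs_det, abs_of_nonneg hk], ?_⟩
  have hdeg : ∀ k, IsDeg (finrank ℝ (EuclideanSpace ℝ n))
      ((F.pull (gam P) (thomF (fun x => 1 - P x) W') * F.pull (bet P) (thomF P W)) (x, k)) := by
    intro k
    have e : finrank ℝ (EuclideanSpace ℝ n) = 2 * Fintype.card ι' + 2 * Fintype.card ι := by
      rw [hA.finrank]; ring
    rw [e]
    exact IsDeg.mul ((thomF_deg _).pb _) ((thomF_deg _).pb _)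
  have hk : ∀ k, cH (ContinuousLinearMap.inl ℝ E (EuclideanSpace ℝ n))
        (ContinuousLinearMap.inr ℝ E (EuclideanSpace ℝ n))
        ((F.pull (gam P) (thomF (fun x => 1 - P x) W') * F.pull (bet P) (thomF P W)) (x, k))
      = (GG ι' (‖k - P x k‖ ^ 2) * GG ι (‖P x k‖ ^ 2)) • algebraMap ℝ (Ext E) hA.mat.det := by
    intro k
    have hg' := pb_inr_pull h' hx hg hPg hWg k
    have hv : (1 - P x) k = k - P x k := rfl
    simp only [hv] at hg'
    rw [cH_of_isDeg (hdeg k), Pi.mul_apply, _root_.map_mul, gam_eq_bet,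
      pb_inr_pull h hx hf hPf hWf, hg', smul_mul_smul_comm, map_smul,
      AlternatingMap.smul_apply, smul_eq_mul, evA_Xi_mul hA, Algebra.smul_def, ← _root_.map_mul]
  rw [pI_eq]
  simp only [hk]
  have hPc : ∀ k, P x (col g k) = 0 := by
    intro k
    have h1 := proj_col hPg (col g k)
    simp only [col_inner hg, ite_smul, one_smul, zero_smul, Finset.sum_ite_eq',
      Finset.mem_univ, if_true] at h1
    have h2 : (1 - P x) (col g k) = col g k - P x (col g k) := rfl
    rw [h2] at h1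
    simpa using h1
  have hPf' : ∀ k, P x (col f k) = col f k := by
    intro k
    have h1 := proj_col hPf (col f k)
    simp only [col_inner hf, ite_smul, one_smul, zero_smul, Finset.sum_ite_eq',
      Finset.mem_univ, if_true] at h1
    exact h1
  have hPab : ∀ (a : Eu (Fintype.card ι' * 2)) (b : Eu (Fintype.card ι * 2)),
      P x (cmb (col g) a + cmb (col f) b) = cmb (col f) b := by
    intro a b
    rw [map_add, cmb_apply, cmb_apply, _root_.map_sum, _root_.map_sum]
    simp only [map_smul, hPc, hPf', smul_zero, Finset.sum_const_zero, zero_add]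
  rw [hA.integral (φ := fun a => GG ι' (‖a‖ ^ 2))
    (Ψ := fun b => GG ι (‖b‖ ^ 2) • algebraMap ℝ (Ext E) hA.mat.det)
    (fun a b => by
      rw [hPab, add_sub_cancel_right, norm_cmb hA.on', norm_cmb hA.on'', mul_smul])]
  rw [integral_smul_const, smul_smul, Algebra.smul_def, ← _root_.map_mul, mul_comm hA.mat.det]
  rfl

/-- **(C0)** -/
theorem thomPair_c0 [Nonempty ι] [Nonempty ι'] (h : OR X P W)
    (h' : OR X (fun x => 1 - P x) W') {r : ℕ} {R c₀ : ℝ} {e : E → Ext E}
    (hT : ThomPair volume X P r R c₀ e (thomF P W) (thomF (fun x => 1 - P x) W'))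
    (hne : X.Nonempty) : |c₀| = del (EuclideanSpace ℝ n) * (kGG ι' * kGG ι) := by
  obtain ⟨x, hx⟩ := hne
  obtain ⟨c, hc, hc1⟩ := thom_unit h h' hx
  have h1 := eqv_iff.1 hT.unit x hx
  rw [hc1, AlgHom.commutes, AlgHom.commutes] at h1
  have h2 := congrArg (fun a => evA (Tan X x) 0 a ![]) h1
  simp only [evA_zero_algebraMap] at h2
  rw [← h2, hc]

end c0

end Crest.Agent.R208.LC
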