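import Crest.Agent.R208.SN8
import Mathlib.MeasureTheory.Measure.Lebesgue.VolumeOfBalls
import Mathlib.Analysis.SpecialFunctions.Integrals.Basic

/-! Row 208, block SN (helper900).  SN9: the value of the constant, `∫ GG = 2 (4π)^r r!`. -/

set_option autoImplicit false
set_option linter.unusedSectionVars false

open MeasureTheory Set Filter Topology Module
open scoped ContDiff Nat
open Crest.Agent.R208.F Crest.Agent.R208.FI Crest.Agent.R208.CW Crest.Agent.R208.T

noncomputable section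

namespace Crest.Agent.R208.SN

/-- the radial integral -/
theorem integral_radial {m : ℕ} (hm : 0 < m) :
    ∫ y in Ioi (0 : ℝ), y ^ m * (2 * Real.sqrt (y ^ 2) * deriv ph (y ^ 2) *
      (Real.sin (ph (y ^ 2)) / Real.sqrt (y ^ 2)) ^ m) = ∫ x in (0 : ℝ)..Real.pi, Real.sin x ^ m := by
  have h1 : ∫ y in Ioi (0 : ℝ), y ^ m * (2 * Real.sqrt (y ^ 2) * deriv ph (y ^ 2) *
      (Real.sin (ph (y ^ 2)) / Real.sqrt (y ^ 2)) ^ m)
      = ∫ y in Ioi (0 : ℝ), Real.sin (ph (y ^ 2)) ^ m * (deriv ph (y ^ 2) * (2 * y)) := by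
    refine setIntegral_congr_fun measurableSet_Ioi fun y hy => ?_
    have hy' : 0 < y := hy
    rw [Real.sqrt_sq hy'.le, div_pow]
    field_simp
  rw [h1]
  have h2 : ∫ y in Ioi (0 : ℝ), Real.sin (ph (y ^ 2)) ^ m * (deriv ph (y ^ 2) * (2 * y))
      = ∫ y in (0 : ℝ)..1, Real.sin (ph (y ^ 2)) ^ m * (deriv ph (y ^ 2) * (2 * y)) := by
    rw [intervalIntegral.integral_of_le zero_le_one]
    refine setIntegral_eq_of_subset_of_forall_sdiff_eq_zero measurableSet_Ioi Ioc_subset_Ioi_self ?_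
    rintro y ⟨hy, hy2⟩
    have hy1 : 1 ≤ y := by
      by_contra h
      push Not at h
      exact hy2 ⟨hy, h.le⟩
    rw [ph_of_ge (by nlinarith), Real.sin_pi, zero_pow hm.ne', zero_mul]
  rw [h2]
  have h3 : ∀ y ∈ uIcc (0 : ℝ) 1, HasDerivAt (fun y => ph (y ^ 2)) (deriv ph (y ^ 2) * (2 * y)) y := by
    intro y _
    have h4 : HasDerivAt ph (deriv ph (y ^ 2)) (y ^ 2) :=
      ((ph_contDiff.differentiable (by simp)) _).hasDerivAt
    have h5 : HasDerivAt (fun y : ℝ => y ^ 2) (2 * y) y := by simpa using hasDerivAt_pow 2 y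
    exact HasDerivAt.comp (h₂ := ph) (h := fun y : ℝ => y ^ 2) y h4 h5
  have hc : Continuous (deriv ph) := ph_contDiff.continuous_deriv (by norm_num)
  have h6 := intervalIntegral.integral_comp_mul_deriv (a := (0 : ℝ)) (b := 1)
    (f := fun y => ph (y ^ 2)) (f' := fun y => deriv ph (y ^ 2) * (2 * y))
    (g := fun x => Real.sin x ^ m) h3 (by fun_prop) (by fun_prop)
  simp only [Function.comp] at h6
  rw [h6, ph_of_ge (s := (1 : ℝ) ^ 2) (by norm_num), ph_of_le (s := (0 : ℝ) ^ 2) (by norm_num)]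

theorem prod_odd (r : ℕ) : (2 * ∏ i ∈ Finset.range r, (2 * (i : ℝ) + 2) / (2 * i + 3)) * (2 * r + 1)!
    = 2 * 4 ^ r * (r ! : ℝ) ^ 2 := by
  induction r with
  | zero => simp
  | succ k ih =>
    rw [Finset.prod_range_succ]
    have e1 : 2 * (k + 1) + 1 = (2 * k + 2) + 1 := by ring
    have e2 : (((2 * (k + 1) + 1)! : ℕ) : ℝ) = (2 * k + 3) * ((2 * k + 2) * ((2 * k + 1)! : ℕ)) := by
      rw [e1, Nat.factorial_succ, Nat.factorial_succ]
      push_cast
      ring
    have e3 : (((k + 1)! : ℕ) : ℝ) = (k + 1) * (k ! : ℕ) := by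
      rw [Nat.factorial_succ]; push_cast; ring
    rw [e2, e3]
    have h0 : (2 * (k : ℝ) + 3) ≠ 0 := by positivity
    have : (2 * ((∏ i ∈ Finset.range k, (2 * (i : ℝ) + 2) / (2 * i + 3)) *
        ((2 * k + 2) / (2 * k + 3)))) * ((2 * k + 3) * ((2 * k + 2) * ((2 * k + 1)! : ℕ)))
        = (2 * k + 2) ^ 2 * ((2 * ∏ i ∈ Finset.range k, (2 * (i : ℝ) + 2) / (2 * i + 3)) *
          (2 * k + 1)!) := by
      field_simp
    rw [this, ih]
    ring

/-- **the constant** -/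
theorem kGG_eq (ι : Type*) [Fintype ι] [Nonempty ι] :
    kGG ι = 2 * ((4 * Real.pi) ^ Fintype.card ι * ((Fintype.card ι)! : ℝ)) := by
  obtain ⟨r, hr⟩ : ∃ r, Fintype.card ι = r + 1 :=
    ⟨Fintype.card ι - 1, by have : 0 < Fintype.card ι := Fintype.card_pos; omega⟩
  have hdim : finrank ℝ (Eu (Fintype.card ι * 2)) = 2 * Fintype.card ι := by
    rw [finrank_euclideanSpace_fin]; ring
  have : Nontrivial (Eu (Fintype.card ι * 2)) := by
    apply Module.nontrivial_of_finrank_pos (R := ℝ)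
    rw [hdim, hr]; omega
  have h1 := integral_fun_norm_addHaar (volume : Measure (Eu (Fintype.card ι * 2)))
    (fun y : ℝ => GG ι (y ^ 2))
  have hk : kGG ι = ∫ a : Eu (Fintype.card ι * 2), GG ι (‖a‖ ^ 2) := rfl
  rw [hk, h1, hdim]
  have h2 : ∫ y in Ioi (0 : ℝ), y ^ (2 * Fintype.card ι - 1) • GG ι (y ^ 2)
      = ((2 * Fintype.card ι)! : ℝ) * ∫ x in (0 : ℝ)..Real.pi, Real.sin x ^ (2 * Fintype.card ι - 1) := by
    rw [← integral_radial (m := 2 * Fintype.card ι - 1) (by omega), ← integral_const_mul]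
    refine integral_congr_ae (Eventually.of_forall fun y => ?_)
    simp only [GG, smul_eq_mul]
    ring
  rw [h2]
  have h3 : (volume : Measure (Eu (Fintype.card ι * 2))).real (Metric.ball 0 1)
      = Real.pi ^ Fintype.card ι / ((Fintype.card ι)! : ℝ) := by
    rw [Measure.real, InnerProductSpace.volume_ball_of_dim_even hdim]
    rw [ENNReal.ofReal_one, one_pow, one_mul, ENNReal.toReal_ofReal (by positivity)]
  rw [h3, hr]
  have e1 : 2 * (r + 1) - 1 = 2 * r + 1 := by omega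
  rw [e1, integral_sin_pow_odd]
  have h4 := prod_odd r
  have e2 : (((2 * (r + 1))! : ℕ) : ℝ) = (2 * r + 2) * ((2 * r + 1)! : ℕ) := by
    rw [show 2 * (r + 1) = (2 * r + 1) + 1 by ring, Nat.factorial_succ]
    push_cast
    ring
  have e3 : (((r + 1)! : ℕ) : ℝ) = (r + 1) * (r ! : ℕ) := by
    rw [Nat.factorial_succ]; push_cast; ring
  rw [e2, e3, nsmul_eq_mul, smul_eq_mul]
  have h5 : (2 * (r : ℝ) + 2) * ((2 * r + 1)! : ℕ) *
      (2 * ∏ i ∈ Finset.range r, (2 * (i : ℝ) + 2) / (2 * i + 3))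
      = (2 * r + 2) * (2 * 4 ^ r * (r ! : ℝ) ^ 2) := by
    rw [← h4]; ring
  rw [h5]
  have h6 : (r ! : ℝ) ≠ 0 := by positivity
  have h7 : (r : ℝ) + 1 ≠ 0 := by positivity
  push_cast
  field_simp
  ring

section final
variable {n ι : Type*} [Fintype n] [DecidableEq n] [Fintype ι] [DecidableEq ι]
  {T : Submodule ℝ (EuclideanSpace ℝ n)} {C : Set (EuclideanSpace ℝ n)}
  {P : EuclideanSpace ℝ n → EuclideanSpace ℝ n →L[ℝ] EuclideanSpace ℝ n}
  {W : EuclideanSpace ℝ n → (ι × Fin 2 → n) → ℝ} {rho : EuclideanSpace ℝ n → EuclideanSpace ℝ n}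

/-- **(X2), the spread number**: `D * ∫_C e^i = ± τ^i` for an integer `D` -/
theorem spread_tau [Nonempty ι] (h : Spr T C P W rho) {i : ℕ} (hC : Clo (2 * Fintype.card ι * i) C)
    (hne : C.Nonempty) (hCc : IsPreconnected C) {oC : EuclideanSpace ℝ n → Ext (EuclideanSpace ℝ n)}
    (hoC : Ori (2 * Fintype.card ι * i) C oC) (hi : 2 * Fintype.card ι * i < finrank ℝ T) :
    ∃ D : ℤ, |D * J (2 * Fintype.card ι * i) C oC ((eR P W) ^ i)|
      = ((4 * Real.pi) ^ Fintype.card ι * ((Fintype.card ι)! : ℝ)) ^ i := by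
  obtain ⟨D, hD⟩ := spread h hC hne hCc hoC hi
  refine ⟨D, ?_⟩
  have h1 : |kGG ι| / 2 = (4 * Real.pi) ^ Fintype.card ι * ((Fintype.card ι)! : ℝ) := by
    rw [kGG_eq, abs_of_nonneg (by positivity)]
    ring
  rw [hD, h1]

end final

end Crest.Agent.R208.SN
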