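import Crest.Agent.R208.THD2

/-! Row 208, block XF (helper885).  XF0: `∫ GG (‖z‖²) = 2 (4π)^r r!`. -/

set_option autoImplicit false

open MeasureTheory MeasureTheory.Measure Set Filter Topology Module
open scoped ContDiff Nat
open Crest.Agent.R208.F Crest.Agent.R208.FI Crest.Agent.R208.CW Crest.Agent.R208.T

noncomputable section

namespace Crest.Agent.R208.XF

/-- the normalisation of `eR` -/
def tau (ι : Type*) [Fintype ι] : ℝ := (4 * Real.pi) ^ Fintype.card ι * ((Fintype.card ι)! : ℝ)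

theorem tau_pos (ι : Type*) [Fintype ι] : 0 < tau ι := by
  have := Real.pi_pos
  unfold tau
  positivity

/-- the radial part -/
theorem radial_aux (m : ℕ) :
    ∫ y in (0:ℝ)..1, ((fun t => Real.sin t ^ (2 * m + 1)) ∘ (fun y : ℝ => ph (y ^ 2))) y *
      (deriv ph (y ^ 2) * (2 * y)) = 2 * ∏ i ∈ Finset.range m, (2 * (i : ℝ) + 2) / (2 * i + 3) := by
  have hd : ∀ s, HasDerivAt ph (deriv ph s) s := fun s =>
    ((ph_contDiff.differentiable (by simp)) s).hasDerivAt
  have hc : Continuous (deriv ph) := ph_contDiff.continuous_deriv (by norm_num)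
  rw [intervalIntegral.integral_comp_mul_deriv (f := fun y : ℝ => ph (y ^ 2))
    (f' := fun y => deriv ph (y ^ 2) * (2 * y))
    (g := fun t => Real.sin t ^ (2 * m + 1))]
  · rw [show ph ((0:ℝ) ^ 2) = 0 from ph_of_le (by norm_num),
      show ph ((1:ℝ) ^ 2) = Real.pi from ph_of_ge (by norm_num), integral_sin_pow_odd]
  · intro y _
    have h1 : HasDerivAt (fun y : ℝ => y ^ 2) (2 * y) y := by
      simpa using hasDerivAt_pow 2 y
    exact HasDerivAt.comp (h₂ := ph) y (hd (y ^ 2)) h1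
  · exact ((hc.comp (continuous_pow 2)).mul (continuous_const.mul continuous_id)).continuousOn
  · exact (Real.continuous_sin.pow _)

theorem prod_aux (m : ℕ) : ((2 * m + 1)! : ℝ) *
    ∏ i ∈ Finset.range m, (2 * (i : ℝ) + 2) / (2 * i + 3) = 4 ^ m * (m ! : ℝ) ^ 2 := by
  induction m with
  | zero => simp
  | succ m ih =>
    rw [Finset.prod_range_succ, show 2 * (m + 1) + 1 = (2 * m + 1) + 1 + 1 by ring,
      Nat.factorial_succ (2 * m + 1 + 1), Nat.factorial_succ (2 * m + 1), Nat.factorial_succ m]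
    push_cast
    have h1 : (2 * (m:ℝ) + 3) ≠ 0 := by positivity
    have e : ((2 * (m:ℝ) + 1 + 1 + 1) * ((2 * (m:ℝ) + 1 + 1) * ((2 * m + 1)! : ℝ)) *
        ((∏ i ∈ Finset.range m, (2 * (i : ℝ) + 2) / (2 * i + 3)) *
          ((2 * (m:ℝ) + 2) / (2 * m + 3)))) =
        (((2 * m + 1)! : ℝ) * ∏ i ∈ Finset.range m, (2 * (i : ℝ) + 2) / (2 * i + 3)) *
          (2 * (m:ℝ) + 2) ^ 2 := by
      field_simp
      ring
    rw [e, ih]
    ring

variable (ι : Type*) [Fintype ι] [Nonempty ι]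

theorem integral_GG : ∫ z : Eu (Fintype.card ι * 2), GG ι (‖z‖ ^ 2) = 2 * tau ι := by
  obtain ⟨m, hm⟩ : ∃ m, Fintype.card ι = m + 1 :=
    Nat.exists_eq_succ_of_ne_zero (Fintype.card_pos (α := ι)).ne'
  have hdim : finrank ℝ (Eu (Fintype.card ι * 2)) = 2 * (m + 1) := by
    rw [finrank_euclideanSpace_fin, hm]; ring
  have : Nontrivial (Eu (Fintype.card ι * 2)) := by
    apply nontrivial_of_finrank_pos (R := ℝ)
    rw [hdim]; omega
  rw [integral_fun_norm_addHaar volume (fun y => GG ι (y ^ 2)), hdim]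
  have hball : volume.real (Metric.ball (0 : Eu (Fintype.card ι * 2)) 1) =
      Real.pi ^ (m + 1) / ((m + 1)! : ℝ) := by
    rw [measureReal_def, InnerProductSpace.volume_ball_of_dim_even hdim, ENNReal.ofReal_one,
      one_pow, one_mul, ENNReal.toReal_ofReal (by have := Real.pi_pos; positivity)]
  have hrad : ∫ y in Ioi (0:ℝ), y ^ (2 * (m + 1) - 1) • GG ι (y ^ 2) =
      ((2 * (m + 1))! : ℝ) * (2 * ∏ i ∈ Finset.range m, (2 * (i : ℝ) + 2) / (2 * i + 3)) := by
    rw [← radial_aux m, ← intervalIntegral.integral_const_mul,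
      intervalIntegral.integral_of_le zero_le_one]
    have h0 : ∫ y in Ioi (0:ℝ), y ^ (2 * (m + 1) - 1) • GG ι (y ^ 2) =
        ∫ y in Ioc (0:ℝ) 1, y ^ (2 * (m + 1) - 1) • GG ι (y ^ 2) := by
      refine setIntegral_eq_of_subset_of_forall_sdiff_eq_zero measurableSet_Ioi
        (fun y hy => hy.1) fun y hy => ?_
      have hy1 : 1 < y := by
        by_contra h
        exact hy.2 ⟨hy.1, not_lt.1 h⟩
      rw [GG_of_ge (by nlinarith), smul_zero]
    rw [h0]
    refine setIntegral_congr_fun measurableSet_Ioc fun y hy => ?_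
    have hy0 : (0:ℝ) < y := hy.1
    simp only [GG, hm, Function.comp, smul_eq_mul]
    rw [Real.sqrt_sq hy0.le, show 2 * (m + 1) - 1 = 2 * m + 1 by omega, div_pow]
    field_simp
  rw [hrad, hball, tau, hm, nsmul_eq_mul, smul_eq_mul]
  have h1 := prod_aux m
  have h2 : ((m + 1)! : ℝ) = (m + 1) * (m ! : ℝ) := by
    rw [Nat.factorial_succ]; push_cast; ring
  have h3 : ((2 * (m + 1))! : ℝ) = (2 * m + 2) * ((2 * m + 1)! : ℝ) := by
    rw [show 2 * (m + 1) = (2 * m + 1) + 1 by ring, Nat.factorial_succ]; push_cast; ring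
  have h4 : (m ! : ℝ) ≠ 0 := by positivity
  have h5 : ((m:ℝ) + 1) ≠ 0 := by positivity
  rw [h3, h2, show ((2 * (m:ℝ) + 2) * ((2 * m + 1)! : ℝ)) * (2 * ∏ i ∈ Finset.range m,
      (2 * (i : ℝ) + 2) / (2 * i + 3)) = (2 * (m:ℝ) + 2) * 2 * (((2 * m + 1)! : ℝ) *
      ∏ i ∈ Finset.range m, (2 * (i : ℝ) + 2) / (2 * i + 3)) by ring, h1]
  push_cast
  rw [mul_pow, show (4:ℝ) ^ (m + 1) = 4 * 4 ^ m by ring]
  field_simp
  ring

end Crest.Agent.R208.XF
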