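import Crest.Agent.R208.AN2
import Crest.Agent.R208.LC2
import Crest.Agent.R208.SN9
import Crest.Agent.R208.XF0

/-! Row 208, block (N) (helper601).  AN3: the number `a₂` and the numerical identity (N). -/

set_option autoImplicit false
set_option linter.unusedSectionVars false
set_option linter.unusedVariables false

open MeasureTheory Set Filter Topology Module
open scoped ContDiff
open Crest.Agent.R208.F Crest.Agent.R208.FI Crest.Agent.R208.CW Crest.Agent.R208.T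
open Crest.Agent.R208.SN

noncomputable section

namespace Crest.Agent.R208.AN

section a2
variable {E : Type*} [NormedAddCommGroup E] [NormedSpace ℝ E] [FiniteDimensional ℝ E]
  {d : ℕ} {X : Set E} {o u x y : E → Ext E} {a2 A Δ τ : ℝ}

/-- **the number `a₂`** from one closed form `y` with `∫ x y ≠ 0` -/
theorem abs_a2 (hX : Clo d X) (ho : Ori d X o) (su : Sm X u) (sx : Sm X x) (sy : Sm X y)
    (cy : Cl X y) (hu : Coh X u (a2 • x)) (hloc : |J d X o (u * y)| = Δ * |A|)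
    (hflat : (2 * Real.pi) ^ 2 * |A| = 3 * τ ^ 3 * |J d X o (x * y)|)
    (hne : J d X o (x * y) ≠ 0) : (2 * Real.pi) ^ 2 * |a2| = 3 * Δ * τ ^ 3 := by
  have h1 := Coh.mul_right sy cy hu
  have h2 := J_of_coh hX ho (su.mul sy) ((sx.smul a2).mul sy) h1
  rw [smul_mul_assoc, AF.J_smul'] at h2
  rw [h2, abs_mul] at hloc
  have h3 : 0 < |J d X o (x * y)| := abs_pos.2 hne
  refine mul_right_cancel₀ h3.ne' ?_
  linear_combination (2 * Real.pi) ^ 2 * hloc + Δ * hflat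

end a2

/-- **(N), the numbers** -/
theorem N_num {ε7 a2 ν c₀ n₁ τ Δ₁ Δ₂ : ℝ} (hτ : 0 < τ) (hΔ₁ : 0 < Δ₁) (hΔ₂ : 0 < Δ₂)
    (h7 : |ε7| = 2 * (2 ^ 7 * (Nat.factorial 7)))
    (ha : (2 * Real.pi) ^ 2 * |a2| = 3 * (Δ₁ * Δ₂) * τ ^ 3)
    (hν : |τ * ν| = 12 * (2 * Real.pi) ^ 4)
    (hc : |c₀| = Δ₂ * (2 * ((4 * Real.pi) ^ 7 * (Nat.factorial 7))))
    (hn : 2 * Real.pi * |n₁| = Δ₁ * τ) :
    |ε7 * a2 * ν ^ 2| = 432 * |c₀ * n₁| ∧ c₀ * n₁ ≠ 0 := by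
  have hpi := Real.pi_pos
  have hν2 : τ ^ 2 * ν ^ 2 = 144 * (2 * Real.pi) ^ 8 := by
    have : (τ * ν) ^ 2 = (12 * (2 * Real.pi) ^ 4) ^ 2 := by rw [← sq_abs, hν]
    linear_combination this
  have hν' : ν ^ 2 = 144 * (2 * Real.pi) ^ 8 / τ ^ 2 := by
    field_simp
    linarith
  have ha' : |a2| = 3 * (Δ₁ * Δ₂) * τ ^ 3 / (2 * Real.pi) ^ 2 := by
    field_simp
    linarith
  have hn' : |n₁| = Δ₁ * τ / (2 * Real.pi) := by
    field_simp
    linarith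
  refine ⟨?_, ?_⟩
  · rw [abs_mul, abs_mul, abs_mul, abs_of_nonneg (sq_nonneg ν), h7, ha', hν', hc, hn']
    field_simp
    ring
  · refine mul_ne_zero ?_ ?_
    · rw [← abs_pos, hc]; positivity
    · rw [← abs_pos, hn']; positivity

variable {ι ι₁ ι₁' ι₂ ι₂' : Type*} [Fintype ι] [Fintype ι₁] [Fintype ι₁'] [Fintype ι₂]
  [Fintype ι₂'] [Nonempty ι₁'] [Nonempty ι₂] [Nonempty ι₂']

theorem kGG_pos (ι : Type*) [Fintype ι] [Nonempty ι] : 0 < kGG ι := by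
  rw [kGG_eq]
  have := Real.pi_pos
  positivity

/-- **(N)** in the constants of helper125 (`LC`), helper349 and helper589 -/
theorem N_of {V₁ V₂ : Type*} [NormedAddCommGroup V₁] [InnerProductSpace ℝ V₁]
    [FiniteDimensional ℝ V₁] [NormedAddCommGroup V₂] [InnerProductSpace ℝ V₂]
    [FiniteDimensional ℝ V₂] {ε7 a2 ν c₀ n₁ l w₀ : ℝ}
    (hι : Fintype.card ι = 4) (hι₁ : Fintype.card ι₁ = 3) (hι₂ : Fintype.card ι₂ = 7)
    (h7 : |ε7| = 2 * (2 ^ 7 * (Nat.factorial 7)))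
    (ha : (2 * Real.pi) ^ 2 * |a2| =
      3 * ((LC.del V₁ * kGG ι₁') * (LC.del V₂ * kGG ι₂')) * XF.tau ι ^ 3)
    (hν : |XF.tau ι * ν| = 12 * (2 * Real.pi) ^ 4)
    (hc : |c₀| = LC.del V₂ * (kGG ι₂' * kGG ι₂))
    (hn : n₁ = l * w₀) (hl : |l| = 4) (hw : |w₀| = LC.del V₁ * kGG ι₁' * (2 * XF.tau ι₁)) :
    |ε7 * a2 * ν ^ 2| = 432 * |c₀ * n₁| ∧ c₀ * n₁ ≠ 0 := by
  have hpi := Real.pi_pos
  refine N_num (τ := XF.tau ι) (Δ₁ := LC.del V₁ * kGG ι₁') (Δ₂ := LC.del V₂ * kGG ι₂')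
    (XF.tau_pos ι) (mul_pos (LC.del_pos V₁) (kGG_pos ι₁')) (mul_pos (LC.del_pos V₂) (kGG_pos ι₂'))
    h7 ha hν ?_ ?_
  · rw [hc, kGG_eq ι₂, hι₂]
    ring
  · rw [hn, abs_mul, hl, hw, XF.tau, XF.tau, hι, hι₁]
    have e1 : ((Nat.factorial 3 : ℕ) : ℝ) = 6 := by norm_num [Nat.factorial]
    have e2 : ((Nat.factorial 4 : ℕ) : ℝ) = 24 := by norm_num [Nat.factorial]
    rw [e1, e2]
    ring

end Crest.Agent.R208.AN
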