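import Crest.Agent.R208.AN3

/-! Row 208, block (N) (helper601).  AN4: variants of the two number statements. -/

set_option autoImplicit false
set_option linter.unusedSectionVars false
set_option linter.unusedVariables false

open MeasureTheory Set Filter Topology Module
open scoped ContDiff
open Crest.Agent.R208.F Crest.Agent.R208.FI Crest.Agent.R208.CW Crest.Agent.R208.T
open Crest.Agent.R208.SN

noncomputable section

namespace Crest.Agent.R208.AN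

section a2
variable {E : Type*} [NormedAddCommGroup E] [NormedSpace ℝ E] [FiniteDimensional ℝ E]
  {d : ℕ} {X : Set E} {o u x y : E → Ext E} {a2 Δ τ : ℝ}

/-- **the number `a₂`**, the middle integral eliminated -/
theorem abs_a2' (hX : Clo d X) (ho : Ori d X o) (su : Sm X u) (sx : Sm X x) (sy : Sm X y)
    (cy : Cl X y) (hu : Coh X u (a2 • x))
    (h : (2 * Real.pi) ^ 2 * |J d X o (u * y)| = 3 * Δ * τ ^ 3 * |J d X o (x * y)|)
    (hne : J d X o (x * y) ≠ 0) : (2 * Real.pi) ^ 2 * |a2| = 3 * Δ * τ ^ 3 := by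
  have h1 := Coh.mul_right sy cy hu
  have h2 := J_of_coh hX ho (su.mul sy) ((sx.smul a2).mul sy) h1
  rw [smul_mul_assoc, AF.J_smul'] at h2
  rw [h2, abs_mul] at h
  have h3 : 0 < |J d X o (x * y)| := abs_pos.2 hne
  exact mul_right_cancel₀ h3.ne' (by linear_combination h)

/-- with a sign and without absolute values (`J (u y) = sg Δ A`, `(2π)² A = -3 c³ J (x y)`) -/
theorem a2_sign {A c sg : ℝ} (hX : Clo d X) (ho : Ori d X o) (su : Sm X u) (sx : Sm X x)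
    (sy : Sm X y) (cy : Cl X y) (hu : Coh X u (a2 • x)) (hsg : sg = 1 ∨ sg = -1)
    (hloc : J d X o (u * y) = sg * Δ * A)
    (hflat : (2 * Real.pi) ^ 2 * A = -(3 * c ^ 3 * J d X o (x * y))) (hc : |c| = τ)
    (hΔ : 0 < Δ) (hne : J d X o (x * y) ≠ 0) : (2 * Real.pi) ^ 2 * |a2| = 3 * Δ * τ ^ 3 := by
  refine abs_a2 hX ho su sx sy cy hu (A := A) (Δ := Δ) ?_ ?_ hne
  · rw [hloc, abs_mul, abs_mul, abs_of_pos hΔ]
    rcases hsg with rfl | rfl <;> simp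
  · have h5 := congrArg abs hflat
    have hpi := Real.pi_pos
    rw [abs_mul, abs_neg, abs_mul, abs_mul, abs_pow, abs_pow, hc,
      abs_of_nonneg (by norm_num : (0 : ℝ) ≤ 3), abs_of_nonneg (by positivity : 0 ≤ 2 * Real.pi)]
      at h5
    exact h5

end a2

variable {ι ι₁' ι₂ ι₂' : Type*} [Fintype ι] [Fintype ι₁'] [Fintype ι₂]
  [Fintype ι₂'] [Nonempty ι₁'] [Nonempty ι₂] [Nonempty ι₂']

/-- **(N)** with helper378's number `n₁` -/
theorem N_of' {V₁ V₂ : Type*} [NormedAddCommGroup V₁] [InnerProductSpace ℝ V₁]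
    [FiniteDimensional ℝ V₁] [NormedAddCommGroup V₂] [InnerProductSpace ℝ V₂]
    [FiniteDimensional ℝ V₂] {ε7 a2 ν c₀ n₁ : ℝ} (hι₂ : Fintype.card ι₂ = 7)
    (h7 : |ε7| = 2 * (2 ^ 7 * (Nat.factorial 7)))
    (ha : (2 * Real.pi) ^ 2 * |a2| =
      3 * ((LC.del V₁ * kGG ι₁') * (LC.del V₂ * kGG ι₂')) * XF.tau ι ^ 3)
    (hν : |XF.tau ι * ν| = 12 * (2 * Real.pi) ^ 4)
    (hc : |c₀| = LC.del V₂ * (kGG ι₂' * kGG ι₂))
    (hn : 2 * Real.pi * |n₁| = LC.del V₁ * kGG ι₁' * XF.tau ι) :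
    |ε7 * a2 * ν ^ 2| = 432 * |c₀ * n₁| ∧ c₀ * n₁ ≠ 0 := by
  have hpi := Real.pi_pos
  refine N_num (τ := XF.tau ι) (Δ₁ := LC.del V₁ * kGG ι₁') (Δ₂ := LC.del V₂ * kGG ι₂')
    (XF.tau_pos ι) (mul_pos (LC.del_pos V₁) (kGG_pos ι₁')) (mul_pos (LC.del_pos V₂) (kGG_pos ι₂'))
    h7 ha hν ?_ hn
  rw [hc, kGG_eq ι₂, hι₂]
  ring

/-- `τ ν = ± 12 (2π)⁴` for `ν = μ / 192`, `μ² = 36` -/
theorem tau_nu {ν : ℝ} (hι : Fintype.card ι = 4) (h : |ν| = 1 / 32) :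
    |XF.tau ι * ν| = 12 * (2 * Real.pi) ^ 4 := by
  have e2 : ((Nat.factorial 4 : ℕ) : ℝ) = 24 := by norm_num [Nat.factorial]
  have hpi := Real.pi_pos
  rw [abs_mul, abs_of_pos (XF.tau_pos ι), h, XF.tau, hι, e2]
  ring

end Crest.Agent.R208.AN
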