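import Crest.Agent.R208.TX10

/-! Row 208, case (k, n) = (8, 16) (helper286).  EAd286: (DU) Poincare duality for the class of
degree `k` on the unit tangent bundle: there is a closed form `y` of degree `2 n - 1 - k` with
`∫ x y ≠ 0`, namely `y = λ x^(m-1)` with `d λ = x^m`. -/

set_option autoImplicit false
set_option linter.unusedSectionVars false

open MeasureTheory Set Filter Topology Module
open scoped ContDiff RealInnerProductSpace Matrix
open Crest.GeometryTopology.Submanifold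
open Crest.Agent.R241.DDefs
open Crest.Agent.R241.D2
open Crest.Agent.R208.F Crest.Agent.R208.FI Crest.Agent.R208.CW Crest.Agent.R208.T
open Crest.Agent.R208.L (US TanTS)

noncomputable section

namespace Crest.Agent.R208.EA

universe u w

section gen
variable {E : Type u} {H : Type w} [NormedAddCommGroup E] [NormedSpace ℝ E] [FiniteDimensional ℝ E]
  [NormedAddCommGroup H] [InnerProductSpace ℝ H] [FiniteDimensional ℝ H]
  [MeasurableSpace H] [BorelSpace H] (μ : Measure H) [μ.IsAddHaarMeasure]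
  {S : Set E} {PS : E → H →L[ℝ] H} {R c₀ : ℝ} {e : E → Ext E} {τ τ' b : E × H → Ext (E × H)}
  {n d : ℕ}

/-- top degree of the unit sphere bundle of a bundle of rank `n` over `S`, `dim S = n` -/
theorem dim1_top (hS : FI.Sub n S) (hP : PField S n PS) (hnN : n ≤ finrank ℝ H)
    (hT : ThomPair μ S PS n R c₀ e τ τ') (hd : d + 1 = n + n) (hn : 2 ≤ n) (hD : Dim1 S n) :
    Dim1 (Sph S PS) d := by
  intro o b so co dO sb cb db
  obtain ⟨f1, f2⟩ := sm_cl_fi μ hS hP hT sb cb
  obtain ⟨g1, g2⟩ := sm_cl_fi μ hS hP hT so co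
  obtain ⟨s, t, hst, h⟩ := hD _ _ g1 g2 (hom_fi μ hnN hT.deg' hd dO) f1 f2
    (hom_fi μ hnN hT.deg' hd db)
  refine ⟨s, t, hst, ?_⟩
  have e1 := (fi_sub μ hS hP hT (so.smul s) (Cl.smul s so co) (sb.smul t)
      (Cl.smul t sb cb)).trans
    ((fi_smul μ s o hS hP hT so co).sub (fi_smul μ t b hS hP hT sb cb))
  obtain ⟨c, sc, cc, dc, hc⟩ := sph_of_fi μ hS hP hT ((so.smul s).sub (sb.smul t))
    (Cl.sub (so.smul s) (sb.smul t) (Cl.smul s so co) (Cl.smul t sb cb))
    ((dO.smul s).sub (db.smul t)) ((Coh.of_eqv e1).trans h)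
  have h2 := (eqv_of_gt hS dc (by omega)).pull (smap_fstS (X := S) (P := PS))
  rw [pull_zero'] at h2
  exact hc.trans (Coh.of_eqv h2)

end gen

variable {n N k m : ℕ} {κ : ℝ} {S : Set (Euc N)} {G : Geo n N κ S} {p : Euc N}
  {ι : Type} [Fintype ι] [DecidableEq ι] {W : Euc N × Euc N → (ι × Fin 2 → Fin N) → ℝ}
  {x : Euc N → Ext (Euc N)}

set_option maxHeartbeats 1000000 in
/-- top degree of `US`, and `λ x^m` is not exact -/
theorem top_US_aux {h : GT.Bla G k} (D : XM h m W p x) {d : ℕ} (hd : d + 1 = 2 * n)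
    {lam : Euc N × Euc N → Ext (Euc N × Euc N)} (sl : Sm (Sph S G.P) lam) (dl : Hom (n - 1) lam)
    (el : Eqv (Sph S G.P) (F.pull Prod.fst (x ^ m)) (F.d lam)) :
    Dim1 (Sph S G.P) d ∧ ¬ Coh (Sph S G.P) (lam * F.pull Prod.fst (x ^ m)) 0 := by
  have hk := D.hk
  have hkn := D.hkn
  have hm2 := D.hm
  have h2k := D.two_k
  have hle : n ≤ N := by
    have h1 := G.finrank_T p D.hp
    rw [← h1]
    exact (Submodule.finrank_le _).trans (by rw [finrank_euclideanSpace, Fintype.card_fin])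
  obtain ⟨l, W', hl1, hl2, hO⟩ := D.exists_OR_S
  have : Nonempty (Fin l) := ⟨⟨0, by omega⟩⟩
  have hι := D.hι
  have : Nonempty ι := Fintype.card_pos_iff.1 (by omega)
  obtain ⟨q, r, s, ⟨eq⟩, ⟨eq₂⟩⟩ := exists_par₂ (N := N) (a := l) (b := Fintype.card ι) (by omega)
    (by omega) (Fin l) ι (Fintype.card_fin l) rfl
  have hM : (iM (Fin N) (Fin q))ᵀ * iM (Fin N) (Fin q) = 1 := iM_iso (Fin q)
  have hS := FV.sub_S h.bl
  have hSc : IsPreconnected S := h.bl.conn.isPreconnected
  have hO' := hO.push hM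
  obtain ⟨W₁, c₁, hT₁⟩ := exists_thomPair thd_holds eq hS hSc ⟨p, D.hp⟩ hO'
  have hln : 2 * Fintype.card (Fin l) = n := by rw [Fintype.card_fin]; exact hl1
  rw [hln] at hT₁
  have hP₁ : PField S n (pushE (iM (Fin N) (Fin q)) G.P) := by
    have := hO'.pfield
    rwa [hln] at this
  have hfr : finrank ℝ (EuclideanSpace ℝ (Fin N ⊕ Fin q)) = N + q := by
    rw [finrank_euclideanSpace, Fintype.card_sum, Fintype.card_fin, Fintype.card_fin]
  set M := iM (Fin N) (Fin q) with hMd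
  have si := smap_in (X := S) (P := G.P) hM
  have so := smap_out (X := S) (P := G.P) hM
  have hfst : ∀ b : Euc N → Ext (Euc N), Eqv (Sph S (pushE M G.P))
      (F.pull (fun z : Euc N × EuclideanSpace ℝ (Fin N ⊕ Fin q) => (z.1, mE Mᵀ z.2))
        (F.pull Prod.fst b)) (F.pull Prod.fst b) := fun b =>
    eqv_pull_pull so smap_fstS smap_fstS (fun _ _ => rfl) b
  refine ⟨?_, fun hex => ?_⟩
  · have h1 := dim1_top volume hS hP₁ (by rw [hfr]; omega) hT₁ (d := d) (by omega) (by omega) D.dim1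
    refine HRet.dim1 (f := fun z : Euc N × Euc N => (z.1, mE M z.2))
      (g := fun z : Euc N × EuclideanSpace ℝ (Fin N ⊕ Fin q) => (z.1, mE Mᵀ z.2)) ⟨si, so, ?_⟩ h1
    intro b sb cb
    refine Coh.of_eqv (Eqv.symm ((eqv_pull_pull si so (SMap.id _) (fun z hz => ?_) b).trans
      (Eqv.of_eq fun z _ => F.pull_id b z)))
    change (z.1, mE Mᵀ (mE M z.2)) = z
    rw [mE_mE, hM, mE_one]
  · set g : Euc N × EuclideanSpace ℝ (Fin N ⊕ Fin q) → Euc N × Euc N :=
      fun z => (z.1, mE Mᵀ z.2) with hg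
    have h1 := hex.pull so
    rw [pull_zero', pull_mul'] at h1
    have h2 : Coh (Sph S (pushE M G.P)) (F.pull g lam * F.pull Prod.fst (x ^ m)) 0 :=
      (Coh.of_eqv ((Eqv.refl _).mul (hfst (x ^ m)).symm)).trans h1
    have sl' : Sm (Sph S (pushE M G.P)) (F.pull g lam) := sl.pull so
    have el' : Eqv (Sph S (pushE M G.P)) (F.d (F.pull g lam)) (F.pull Prod.fst (x ^ m)) :=
      (d_pull_eqv so sl).trans ((el.symm.pull so).trans (hfst (x ^ m)))
    have sxm : Sm S (x ^ m) := D.sx.pow m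
    have cxm : Cl S (x ^ m) := Cl.pow D.sx D.cx m
    have dxm : Hom n (x ^ m) := by rw [D.hn]; exact D.dx.pow m
    refine D.xm_ne (thom_inj volume hS hSc hP₁ (by rw [hfr]; omega) hT₁ (q := n - 1) (by omega)
      sl' dl.pull sxm cxm dxm el' D.xm_ne sxm cxm (η := 0) Sm.zero ?_ ?_)
    · rw [d_zero']
      exact (eqv_of_gt hS (dxm.mul dxm) (by omega)).symm
    · rw [pull_zero', sub_zero]; exact h2

/-- **(DU)** Poincare duality for the class of degree `k` on the unit tangent bundle. -/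
theorem exists_dual {h : GT.Bla G k} (D : XM h m W p x) {d : ℕ} (hd : d + 1 = 2 * n)
    {oU : Euc N × Euc N → Ext (Euc N × Euc N)} (ho : Ori d (US G) oU) :
    ∃ y : Euc N × Euc N → Ext (Euc N × Euc N), Sm (US G) y ∧ Cl (US G) y ∧ Hom (d - k) y ∧
      J d (US G) oU (F.pull Prod.fst x * y) ≠ 0 := by
  have hk := D.hk
  have hm := D.hm
  have h2k := D.two_k
  have hn := D.hn
  have hSU := FV.Sph_S (G := G)
  obtain ⟨lam, sl, dl, el⟩ := D.top_prim
  obtain ⟨hD1, hne⟩ := top_US_aux D hd sl dl el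
  have hS := FV.sub_S h.bl
  have sxm : Sm S (x ^ (m - 1)) := D.sx.pow (m - 1)
  have cxm : Cl S (x ^ (m - 1)) := Cl.pow D.sx D.cx (m - 1)
  have dxm : Hom (k * (m - 1)) (x ^ (m - 1)) := D.dx.pow (m - 1)
  have hkm : k * (m - 1) + k = n := by
    obtain ⟨m₀, rfl⟩ : ∃ m₀, m = m₀ + 1 := ⟨m - 1, by omega⟩
    rw [hn, Nat.add_sub_cancel]; ring
  have sp : Sm (Sph S G.P) (F.pull Prod.fst (x ^ (m - 1))) := sxm.pull smap_fstS
  have cp : Cl (Sph S G.P) (F.pull Prod.fst (x ^ (m - 1))) := cxm.pull smap_fstS sxm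
  refine ⟨lam * F.pull Prod.fst (x ^ (m - 1)), ?_, ?_, ?_, ?_⟩
  · rw [← hSU]; exact sl.mul sp
  · rw [← hSU, Cl, resZero_iff]
    refine (d_mul_eqv sl sp).trans ?_
    have a1 := (el.symm.mul (Eqv.refl (F.pull (Prod.fst : Euc N × Euc N → Euc N)
      (x ^ (m - 1))))).add ((Eqv.refl (X := Sph S G.P) (fun w => F.inv (lam w))).mul
        (resZero_iff.1 cp))
    rw [mul_zero, add_zero, ← pull_mul', ← pow_add] at a1
    refine a1.trans ?_
    have h1 : Eqv S (x ^ (m + (m - 1))) 0 := eqv_of_gt hS (D.dx.pow _) (by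
      rw [Nat.mul_add, ← hn]; omega)
    have := h1.pull (smap_fstS (X := S) (P := G.P))
    rwa [pull_zero'] at this
  · have := dl.mul (Hom.pull dxm (f := (Prod.fst : Euc N × Euc N → Euc N)))
    rwa [show n - 1 + k * (m - 1) = d - k by omega] at this
  · -- the integral
    rw [← hSU] at ho ⊢
    have hU : Clo d (Sph S G.P) := by rw [hSU]; exact SB.clo_US h hd
    have e1 : F.pull Prod.fst x * (lam * F.pull Prod.fst (x ^ (m - 1))) =
        lam * F.pull (Prod.fst : Euc N × Euc N → Euc N) (x ^ m) := by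
      have hc : Commute (F.pull (Prod.fst : Euc N × Euc N → Euc N) x) lam :=
        (Hom.pull D.dx).commute D.hke lam
      rw [← mul_assoc, hc.eq, mul_assoc, ← pull_mul', ← pow_succ', Nat.sub_add_cancel (by omega)]
    rw [e1]
    intro hJ
    obtain ⟨oS, hoS, soS, doS⟩ := GP.exists_ori (G := G) h.bl h.ty hk
    obtain ⟨l, W', hl1, hl2, hO⟩ := D.exists_OR_S
    have φ : Fin l × Fin 2 ≃ Fin n := Fintype.equivFinOfCardEq (by
      rw [Fintype.card_prod, Fintype.card_fin, Fintype.card_fin]; omega)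
    have hopr := SB.opr_of_OR φ hO
    have hP : PField S n G.P := by
      have := hO.pfield
      rwa [Fintype.card_fin, hl1] at this
    obtain ⟨-, o, hoo, soo, doo⟩ := exists_oU (by omega) (GP.clo_S h.bl) hP hopr hoS soS doS
    rw [show n - 1 + n = d by omega] at hoo doo
    have hne0 : (Sph S G.P).Nonempty := by rw [hSU]; exact nonempty_UST h D.hp
    have hpos : 0 < J d (Sph S G.P) o o := J_pos hU hoo hne0
    have hpc : IsPreconnected (Sph S G.P) := by rw [hSU]; exact FV.preconn_US h.bl (by omega)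
    have hpos' : J d (Sph S G.P) oU o ≠ 0 := by
      rcases J_ori_connected hU hoo ho hpc with h4 | h4
      · rw [h4]; exact hpos.ne'
      · rw [h4]; exact neg_ne_zero.2 hpos.ne'
    have sxm' : Sm S (x ^ m) := D.sx.pow m
    have dxm' : Hom n (x ^ m) := by rw [hn]; exact D.dx.pow m
    refine hne (exact_of_J hU ho hD1 soo doo hpos' (sl.mul (sxm'.pull smap_fstS)) ?_ hJ)
    have := dl.mul (Hom.pull dxm' (f := (Prod.fst : Euc N × Euc N → Euc N)))
    rwa [show n - 1 + n = d by omega] at this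

end Crest.Agent.R208.EA
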