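import Crest.Agent.R208.SN9
import Crest.Agent.R208.FV5
import Crest.Agent.R208.GP3c

/-! Row 208, block SN (helper900).  SN10: the spread of the link spaces `V_pq ⊂ T_p`,
`q ∈ C_p`, and its spread number. -/

set_option autoImplicit false
set_option linter.unusedSectionVars false

open MeasureTheory Set Filter Topology Module Matrix
open scoped ContDiff RealInnerProductSpace ENNReal Nat
open Crest.GeometryTopology.Submanifold
open Crest.Agent.R241.DDefs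
open Crest.Agent.R241.D2
open Crest.Agent.R208.F Crest.Agent.R208.FI Crest.Agent.R208.CW Crest.Agent.R208.T
open Crest.Agent.R208.FV (Vl PV PVB)

noncomputable section

namespace Crest.Agent.R208.SN

variable {n N k : ℕ} {κ : ℝ} {S : Set (Euc N)} {G : Geo n N κ S} {p : Euc N}
  {ι : Type*} [Fintype ι] [DecidableEq ι] {W : Euc N → (ι × Fin 2 → Fin N) → ℝ}

/-- the projection of `T_p \ {0}` onto the base of the spread -/
def rhoC (G : Geo n N κ S) (p u : Euc N) : Euc N := Exp G p (Real.pi • (‖u‖⁻¹ • u))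

/-- projections onto `V_pq ⊂ T_p` -/
def PL (h : GT.Bla G k) (p q : Euc N) : Euc N →L[ℝ] Euc N := PVB h (p, q)

theorem mem_FF_Cut (G : Geo n N κ S) (hp : p ∈ S) {q : Euc N} (hq : q ∈ GP.Cut S p) :
    (p, q) ∈ FV.FF G := ⟨hp, hq.1, hq.2⟩

theorem PL_eq_self (h : GT.Bla G k) (hp : p ∈ S) {q : Euc N} (hq : q ∈ GP.Cut S p) {v : Euc N} :
    PL h p q v = v ↔ v ∈ GT.Vs G p q :=
  FV.PV_eq_self h.bl h.ty (FV.sub_S h.bl) (mem_FF_Cut G hp hq)

theorem spr_Cut (h : GT.Bla G k) (hp : p ∈ S) (hW : OR (GP.Cut S p) (PL h p) W) :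
    Spr (G.T p) (GP.Cut S p) (PL h p) W (rhoC G p) where
  or := hW
  rg q hq v := by
    have h1 : PL h p q v ∈ GT.Vs G p q := by
      rw [← PL_eq_self h hp hq]
      exact (FV.pfield_PV h.bl h.ty (FV.sub_S h.bl)).idem _ (mem_FF_Cut G hp hq) v
    exact h.Vs_le (mem_FF_Cut G hp hq) h1
  sm u hu hu0 := by
    have hv : Real.pi • (‖u‖⁻¹ • u) ∈ G.T p := (G.T p).smul_mem _ ((G.T p).smul_mem _ hu)
    have h2 : ContDiffAt ℝ ∞ (fun u : Euc N => ‖u‖⁻¹) u :=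
      (contDiffAt_norm ℝ hu0).inv (norm_ne_zero_iff.2 hu0)
    have h1 : ContDiffAt ℝ ∞ (fun u : Euc N => Real.pi • (‖u‖⁻¹ • u)) u :=
      (h2.smul contDiffAt_id).const_smul Real.pi
    exact ContDiffAt.comp (g := Exp G p) u (R241.D3c.contDiffAt_Exp' G hp hv) h1
  mem u hu hu0 := by
    have h1 := h.mem_FF hp ((G.T p).smul_mem (‖u‖⁻¹) hu) (GT.unit_of hu0)
    exact ⟨h1.2.1, h1.2.2⟩
  fix u hu hu0 := by
    have h1 := h.mem_FF hp ((G.T p).smul_mem (‖u‖⁻¹) hu) (GT.unit_of hu0)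
    have hq : rhoC G p u ∈ GP.Cut S p := ⟨h1.2.1, h1.2.2⟩
    rw [PL_eq_self h hp hq]
    have h2 : ‖u‖⁻¹ • u ∈ GT.Vs G p (rhoC G p u) :=
      Submodule.subset_span ⟨(G.T p).smul_mem _ hu, GT.unit_of hu0, rfl⟩
    have h3 := (GT.Vs G p (rhoC G p u)).smul_mem ‖u‖ h2
    rwa [smul_smul, mul_inv_cancel₀ (norm_ne_zero_iff.2 hu0), one_smul] at h3
  uniq q hq u hu0 hPu := by
    have h1 : u ∈ GT.Vs G p q := (PL_eq_self h hp hq).1 hPu
    exact h.Exp_pi (mem_FF_Cut G hp hq) ((GT.Vs G p q).smul_mem _ h1) (GT.unit_of hu0)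

theorem Cut_nonempty (h : GT.Bla G k) (hn : 0 < n) (hp : p ∈ S) : (GP.Cut S p).Nonempty := by
  have h1 : 0 < finrank ℝ (G.T p) := by rw [G.finrank_T p hp]; exact hn
  have : Nontrivial (G.T p) := Module.nontrivial_of_finrank_pos h1
  obtain ⟨u, hu⟩ := exists_norm_eq (G.T p) (c := 1) zero_le_one
  have h2 := h.mem_FF hp u.2 hu
  exact ⟨_, h2.2.1, h2.2.2⟩

/-- `q ↦ V_pq` is oriented -/
theorem exists_OR_PL (h : GT.Bla G k) (hk : 2 ≤ k) (hn : 3 ≤ n) (hp : p ∈ S)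
    (hι : 2 * Fintype.card ι = k) :
    ∃ Wt : Euc N × Euc N → (ι × Fin 2 → Fin N) → ℝ, T.OR (FV.FF G) (PVB h) Wt ∧
      OR (GP.Cut S p) (PL h p) (fun q => Wt (p, q)) := by
  obtain ⟨Wt, h1⟩ := GP.exists_OR_V h.bl h.ty hk hn (FV.sub_S h.bl) hι
  exact ⟨Wt, h1, OR_comp h1 (f := fun q => (p, q))
    ⟨fun q _ => contDiffAt_const.prodMk contDiffAt_id, fun q hq => mem_FF_Cut G hp hq⟩⟩

/-- **(X2) for the cut locus.** -/
theorem spread_Cut (h : GT.Bla G k) (hι : 2 * Fintype.card ι = k) {i : ℕ} (hk : 2 ≤ k)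
    (hn : n = k * (i + 1)) (hp : p ∈ S) (hW : OR (GP.Cut S p) (PL h p) W)
    {oC : Euc N → Ext (Euc N)} (hoC : Ori (n - k) (GP.Cut S p) oC) :
    ∃ D : ℤ, |D * J (n - k) (GP.Cut S p) oC ((eR (PL h p) W) ^ i)|
      = ((4 * Real.pi) ^ Fintype.card ι * ((Fintype.card ι)! : ℝ)) ^ i := by
  have : Nonempty ι := Fintype.card_pos_iff.1 (by omega)
  have e1 : k * (i + 1) = k * i + k := by ring
  have e : n - k = 2 * Fintype.card ι * i := by rw [hn, e1, hι]; omega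
  have hn2 : 2 ≤ n := by omega
  have hC : Clo (n - k) (GP.Cut S p) := FV.clo_Cut h hp
  rw [e] at hoC hC ⊢
  exact spread_tau (spr_Cut h hp hW) hC (Cut_nonempty h (by omega) hp)
    (FV.preconn_Cut h.bl h.ty hn2 hp) hoC (by rw [G.finrank_T p hp, ← e]; omega)

/-- the bound `|N| ≤ 1` -/
theorem abs_J_Cut_le (h : GT.Bla G k) (hι : 2 * Fintype.card ι = k) {i : ℕ} (hk : 2 ≤ k)
    (hn : n = k * (i + 1)) (hp : p ∈ S) (hW : OR (GP.Cut S p) (PL h p) W)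
    {oC : Euc N → Ext (Euc N)} (hoC : Ori (n - k) (GP.Cut S p) oC) :
    |J (n - k) (GP.Cut S p) oC ((eR (PL h p) W) ^ i)|
      ≤ ((4 * Real.pi) ^ Fintype.card ι * ((Fintype.card ι)! : ℝ)) ^ i := by
  obtain ⟨D, hD⟩ := spread_Cut h hι hk hn hp hW hoC
  have h0 : (0 : ℝ) < ((4 * Real.pi) ^ Fintype.card ι * ((Fintype.card ι)! : ℝ)) ^ i := by
    have := Real.pi_pos
    positivity
  have hD0 : D ≠ 0 := by
    rintro rfl
    rw [Int.cast_zero, zero_mul, abs_zero] at hD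
    exact h0.ne hD
  rw [abs_mul] at hD
  have h1 : (1 : ℝ) ≤ |(D : ℝ)| := by
    rw [← Int.cast_abs]
    exact_mod_cast Int.one_le_abs hD0
  rw [← hD]
  exact le_mul_of_one_le_left (abs_nonneg _) h1

end Crest.Agent.R208.SN
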