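import Crest.Agent.R208.T2a

/-! Row 208, block SO (helper638).  SO1: the Hopf invariant of a pulled back even form with
vanishing square: independence of the primitive, homotopy invariance. -/

set_option autoImplicit false
set_option linter.unusedSectionVars false

open MeasureTheory Set Filter Topology Module
open scoped ContDiff
open Crest.Agent.R208.F Crest.Agent.R208.FI Crest.Agent.R208.CW Crest.Agent.R208.T

noncomputable section

namespace Crest.Agent.R208.SO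

universe u

variable {E : Type u} [NormedAddCommGroup E] [NormedSpace ℝ E] [FiniteDimensional ℝ E]
  {F' : Type*} [NormedAddCommGroup F'] [NormedSpace ℝ F'] [FiniteDimensional ℝ F']
  {n m : ℕ} {Z : Set E} {S : Set F'} {o : E → Ext E}

theorem Sm.cont {a : E → Ext E} (h : Sm Z a) : ContinuousOn a Z :=
  fun x hx => (h x hx).continuousAt.continuousWithinAt

/-- the integral only sees the restriction -/
theorem J_eqv (hZ : Clo n Z) {a b : E → Ext E} (h : Eqv Z a b) : J n Z o a = J n Z o b := by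
  refine J_congr hZ fun x hx w hw => ?_
  have h1 := ResZero.evA h hx (q := n) hw
  rw [Pi.sub_apply, map_sub] at h1
  exact sub_eq_zero.1 (by simpa using h1)

/-- the integral only sees the class -/
theorem J_coh (hZ : Clo n Z) (ho : Ori n Z o) {a b : E → Ext E} (ha : Sm Z a) (hb : Sm Z b)
    (h : Coh Z a b) : J n Z o a = J n Z o b := by
  obtain ⟨ξ, h1, h2⟩ := h
  have h3 : J n Z o (fun x => a x - b x) = J n Z o (F.d ξ) := J_eqv hZ h2
  rw [J_d hZ ho fun x hx => (h1 x hx).of_le (by simp), J_sub hZ ho (Sm.cont ha) (Sm.cont hb)] at h3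
  exact sub_eq_zero.1 h3

theorem J_coh_zero (hZ : Clo n Z) (ho : Ori n Z o) {a : E → Ext E} (ha : Sm Z a)
    (h : Coh Z a 0) : J n Z o a = 0 := by
  rw [J_coh hZ ho ha Sm.zero h]
  exact J_zero

theorem coh_d_zero {κ : E → Ext E} (h : Sm Z κ) : Coh Z (F.d κ) 0 :=
  ⟨κ, h, Eqv.of_eq fun x _ => by simp⟩

theorem Eqv.mul_left {a b : E → Ext E} (c : E → Ext E) (h : Eqv Z a b) : Eqv Z (c * a) (c * b) :=
  (Eqv.refl c).mul h

theorem Eqv.mul_right {a b : E → Ext E} (c : E → Ext E) (h : Eqv Z a b) : Eqv Z (a * c) (b * c) :=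
  h.mul (Eqv.refl c)

/-- independence of the primitive -/
theorem J_prim (hZ : Clo n Z) (ho : Ori n Z o) {b κ κ' w : E → Ext E} (hb : Sm Z b)
    (hκ : Sm Z κ) (hκ' : Sm Z κ') (hw : Sm Z w) (cw : Cl Z w) (h : Eqv Z (F.d κ) b)
    (h' : Eqv Z (F.d κ') b) : J n Z o (b * κ * w) = J n Z o (b * κ' * w) := by
  refine J_coh hZ ho ((hb.mul hκ).mul hw) ((hb.mul hκ').mul hw) ?_
  -- `b * (κ - κ') * w` is exact
  have h1 : Cl Z (κ - κ') := by
    have h2 : Eqv Z (F.d (κ - κ')) (F.d κ - F.d κ') := d_sub_eqv hκ hκ'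
    have h3 : Eqv Z (F.d κ - F.d κ') 0 := by
      have := h.sub h'
      rwa [sub_self] at this
    exact resZero_iff.2 (h2.trans h3)
  have h4 : Coh Z (F.d κ * ((κ - κ') * w)) (0 * ((κ - κ') * w)) :=
    Coh.mul_right ((hκ.sub hκ').mul hw) (Cl.mul (hκ.sub hκ') hw h1 cw) (coh_d_zero hκ)
  rw [zero_mul] at h4
  obtain ⟨ξ, g1, g2⟩ := h4
  refine ⟨ξ, g1, ?_⟩
  have h5 : b * κ * w - b * κ' * w = b * ((κ - κ') * w) := by
    rw [sub_mul, mul_sub, mul_assoc, mul_assoc]
  rw [h5]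
  rw [sub_zero] at g2
  exact (Eqv.mul_right _ h.symm).trans g2

/-- **homotopy invariance of the Hopf invariant.** -/
theorem hopf_homotopy (hZ : Clo n Z) (ho : Ori n Z o) {Fh : E × ℝ → F'}
    (hF : ∀ z ∈ Z, ∀ t : ℝ, ContDiffAt ℝ ∞ Fh (z, t)) (hm : ∀ z ∈ Z, ∀ t : ℝ, Fh (z, t) ∈ S)
    {β : F' → Ext F'} (hβ : Sm S β) (cβ : Cl S β) (hβ2 : ResZero S (β * β))
    (eβ : ∀ x, F.inv (β x) = β x) {κ₀ κ₁ w : E → Ext E} (hκ₀ : Sm Z κ₀) (hκ₁ : Sm Z κ₁)
    (d₀ : Eqv Z (F.d κ₀) (F.pull (fun z => Fh (z, 0)) β))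
    (d₁ : Eqv Z (F.d κ₁) (F.pull (fun z => Fh (z, 1)) β))
    (hw : Sm Z w) (cw : Cl Z w) :
    J n Z o (F.pull (fun z => Fh (z, 1)) β * κ₁ * w) =
      J n Z o (F.pull (fun z => Fh (z, 0)) β * κ₀ * w) := by
  have hZs : Sub n Z := hZ.sub
  set X : Set (E × ℝ) := Z ×ˢ (univ : Set ℝ) with hX
  have hU : Sub 1 (univ : Set ℝ) := sub_open (by simp) isOpen_univ
  have hXs : Sub (n + 1) X := hZs.prod hU
  have sF : SMap X S Fh := ⟨fun x hx => hF x.1 hx.1 x.2, fun x hx => hm x.1 hx.1 x.2⟩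
  have sfst : SMap X Z (Prod.fst : E × ℝ → E) := ⟨fun x _ => contDiffAt_fst, fun x hx => hx.1⟩
  have sin : ∀ t : ℝ, SMap Z X (fun z : E => (z, t)) := fun t =>
    ⟨fun x _ => contDiffAt_id.prodMk contDiffAt_const, fun x hx => ⟨hx, mem_univ _⟩⟩
  have sFt : ∀ t : ℝ, SMap Z S (fun z => Fh (z, t)) := fun t => sF.comp (sin t)
  -- the primitive on `Z × ℝ`
  let Gh : (E × ℝ) × ℝ → F' := fun p => Fh (p.1.1, p.2 * p.1.2)
  have hG : ∀ x ∈ X, ∀ t : ℝ, ContDiffAt ℝ ∞ Gh (x, t) := by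
    intro x hx t
    have h1 : ContDiffAt ℝ ∞ Fh ((fun p : (E × ℝ) × ℝ => (p.1.1, p.2 * p.1.2)) (x, t)) :=
      hF x.1 hx.1 _
    exact ContDiffAt.comp (g := Fh) (x, t) h1
      ((contDiff_fst.fst.prodMk (contDiff_snd.mul contDiff_fst.snd)).contDiffAt)
  have hGm : ∀ x ∈ X, ∀ t : ℝ, Gh (x, t) ∈ S := fun x hx t => hm x.1 hx.1 _
  set K : E × ℝ → Ext (E × ℝ) := F.pull Prod.fst κ₀ + Hop Gh β with hK
  have sHop : Sm X (Hop Gh β) := fun x hx =>
    contDiffAt_Hop (fun t _ => hG x hx t) fun t _ => hβ _ (hGm x hx t)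
  have sK : Sm X K := (hκ₀.pull sfst).add sHop
  have dHop : Eqv X (F.d (Hop Gh β)) (F.pull Fh β - F.pull (fun y : E × ℝ => Fh (y.1, 0)) β) := by
    have h1 := resZero_Hop (Fh := Gh) (X := X) (Y := S) (om := β)
      (fun x hx t _ => (hG x hx t).of_le two_le_infty) (fun x hx t _ => hGm x hx t)
      (fun y hy => (hβ y hy).of_le (by simp)) cβ
    have e1 : (fun y : E × ℝ => Gh (y, 1)) = Fh := by
      funext y; simp [Gh]
    have e0 : (fun y : E × ℝ => Gh (y, 0)) = fun y => Fh (y.1, 0) := by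
      funext y; simp [Gh]
    rw [e1, e0] at h1
    exact Eqv.symm (h1 : Eqv X (F.pull Fh β - F.pull (fun y : E × ℝ => Fh (y.1, 0)) β)
      (F.d (Hop Gh β)))
  have dK : Eqv X (F.d K) (F.pull Fh β) := by
    have h1 : Eqv X (F.d K) (F.d (F.pull Prod.fst κ₀) + F.d (Hop Gh β)) :=
      d_add_eqv (hκ₀.pull sfst) sHop
    have h2 : Eqv X (F.d (F.pull Prod.fst κ₀)) (F.pull Prod.fst (F.d κ₀)) := d_pull_eqv sfst hκ₀
    have h3 : Eqv X (F.pull Prod.fst (F.d κ₀))
        (F.pull Prod.fst (F.pull (fun z => Fh (z, 0)) β)) := d₀.pull sfst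
    have h4 : Eqv X (F.pull Prod.fst (F.pull (fun z => Fh (z, 0)) β))
        (F.pull (fun y : E × ℝ => Fh (y.1, 0)) β) := by
      refine Eqv.of_eq fun x hx => ?_
      exact pull_comp (f := Prod.fst) (g := fun z => Fh (z, 0)) (sfst.diff hx)
        ((sFt 0).diff hx.1)
    have h5 := (((h2.trans h3).trans h4).add dHop)
    rw [add_sub_cancel] at h5
    exact h1.trans h5
  -- the closed form
  set w' : E × ℝ → Ext (E × ℝ) := F.pull Prod.fst w with hw'
  have sw' : Sm X w' := hw.pull sfst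
  have cw' : Cl X w' := cw.pull sfst hw
  have sβ' : Sm X (F.pull Fh β) := hβ.pull sF
  have cβ' : Cl X (F.pull Fh β) := cβ.pull sF hβ
  set Φ : E × ℝ → Ext (E × ℝ) := F.pull Fh β * K * w' with hΦ
  have sΦ : Sm X Φ := (sβ'.mul sK).mul sw'
  have cΦ : Cl X Φ := by
    have h1 : Eqv X (F.d Φ) (F.d (F.pull Fh β * K) * w' +
        (fun x => F.inv ((F.pull Fh β * K) x)) * F.d w') := d_mul_eqv (sβ'.mul sK) sw'
    have h2 : Eqv X (F.d (F.pull Fh β * K)) (F.d (F.pull Fh β) * K +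
        (fun x => F.inv (F.pull Fh β x)) * F.d K) := d_mul_eqv sβ' sK
    have h3 : Eqv X (F.d (F.pull Fh β) * K) 0 := by
      have := (resZero_iff.1 cβ').mul (Eqv.refl K)
      rwa [zero_mul] at this
    have h4 : Eqv X ((fun x => F.inv (F.pull Fh β x)) * F.d K) 0 := by
      have h5 : (fun x => F.inv (F.pull Fh β x)) = F.pull Fh β := by
        funext x
        simp only [F.pull]
        rw [← pb_inv, eβ]
      rw [h5]
      have h6 : Eqv X (F.pull Fh β * F.d K) (F.pull Fh β * F.pull Fh β) := (Eqv.refl _).mul dK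
      have h7 : Eqv X (F.pull Fh β * F.pull Fh β) 0 := by
        rw [← pull_mul']
        exact resZero_iff.1 (T.ResZero.pull sF hβ2)
      exact h6.trans h7
    have h8 : Eqv X (F.d (F.pull Fh β * K)) 0 := by
      have := h2.trans (h3.add h4)
      rwa [add_zero] at this
    have h9 : Eqv X (F.d (F.pull Fh β * K) * w') 0 := by
      have := h8.mul (Eqv.refl w')
      rwa [zero_mul] at this
    have h10 : Eqv X ((fun x => F.inv ((F.pull Fh β * K) x)) * F.d w') 0 := by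
      have := (Eqv.refl (fun x => F.inv ((F.pull Fh β * K) x))).mul (resZero_iff.1 cw')
      rwa [mul_zero] at this
    have := h1.trans (h9.add h10)
    rw [add_zero] at this
    exact resZero_iff.2 this
  -- homotopy invariance for the closed form `Φ`
  have key := J_homotopy (X := Z) (Y := X) (Fh := fun p : E × ℝ => p) (om := Φ) hZ ho
    (fun x _ t _ => contDiffAt_id) (fun x hx t _ => ⟨hx, mem_univ _⟩)
    (fun y hy => (sΦ y hy).of_le (by simp)) cΦ
  -- evaluation at time `t`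
  have ev : ∀ t : ℝ, Eqv Z (F.pull (fun y : E => (y, t)) Φ)
      (F.pull (fun z => Fh (z, t)) β * F.pull (fun y : E => (y, t)) K * w) := by
    intro t
    rw [hΦ, pull_mul', pull_mul']
    refine Eqv.mul (Eqv.mul (Eqv.of_eq fun x hx => ?_) (Eqv.refl _)) (Eqv.of_eq fun x hx => ?_)
    · exact pull_comp (f := fun y : E => (y, t)) (g := Fh) ((sin t).diff hx)
        (sF.diff ((sin t).maps hx))
    · rw [hw', pull_comp (f := fun y : E => (y, t)) (g := Prod.fst) ((sin t).diff hx)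
        (sfst.diff ((sin t).maps hx))]
      exact pull_id w x
  have dKt : ∀ t : ℝ, Eqv Z (F.d (F.pull (fun y : E => (y, t)) K))
      (F.pull (fun z => Fh (z, t)) β) := by
    intro t
    have h1 : Eqv Z (F.d (F.pull (fun y : E => (y, t)) K))
      (F.pull (fun y : E => (y, t)) (F.d K)) := d_pull_eqv (sin t) sK
    have h2 : Eqv Z (F.pull (fun y : E => (y, t)) (F.d K))
        (F.pull (fun y : E => (y, t)) (F.pull Fh β)) := dK.pull (sin t)
    refine (h1.trans h2).trans (Eqv.of_eq fun x hx => ?_)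
    exact pull_comp (f := fun y : E => (y, t)) (g := Fh) ((sin t).diff hx)
        (sF.diff ((sin t).maps hx))
  have sKt : ∀ t : ℝ, Sm Z (F.pull (fun y : E => (y, t)) K) := fun t => sK.pull (sin t)
  have s1 : J n Z o (F.pull (fun z => Fh (z, 1)) β * κ₁ * w) =
      J n Z o (F.pull (fun y : E => (y, (1 : ℝ))) Φ) := by
    rw [J_eqv hZ (ev 1)]
    exact J_prim hZ ho (hβ.pull (sFt 1)) hκ₁ (sKt 1) hw cw d₁ (dKt 1)
  have s0 : J n Z o (F.pull (fun y : E => (y, (0 : ℝ))) Φ) =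
      J n Z o (F.pull (fun z => Fh (z, 0)) β * κ₀ * w) := by
    rw [J_eqv hZ (ev 0)]
    exact J_prim hZ ho (hβ.pull (sFt 0)) (sKt 0) hκ₀ hw cw (dKt 0) d₀
  rw [s1, key, s0]

end Crest.Agent.R208.SO
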