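import Crest.Agent.R208.TX6

/-! Row 208, block T (helper316).  TX6b: (X1b) `snd^* x ~ fst^* x - ε` on `F`. -/

set_option autoImplicit false
set_option linter.unusedSectionVars false

open MeasureTheory Set Filter Topology Module
open scoped ContDiff RealInnerProductSpace
open Crest.GeometryTopology.Submanifold
open Crest.Agent.R241.DDefs
open Crest.Agent.R241.D2
open Crest.Agent.R208.F Crest.Agent.R208.FI Crest.Agent.R208.CW

noncomputable section

namespace Crest.Agent.R208.T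

variable {n N k m : ℕ} {κ : ℝ} {S : Set (Euc N)} {G : Geo n N κ S} {p : Euc N}
  {ι : Type} [Fintype ι] [DecidableEq ι] {W : Euc N × Euc N → (ι × Fin 2 → Fin N) → ℝ}
  {x : Euc N → Ext (Euc N)}

theorem cl_zero {E : Type*} [NormedAddCommGroup E] [NormedSpace ℝ E] [FiniteDimensional ℝ E]
    {X : Set E} : Cl X (0 : E → Ext E) := resZero_iff.2 (by rw [d_zero']; exact Eqv.refl _)

theorem Coh.powT {E : Type*} [NormedAddCommGroup E] [NormedSpace ℝ E] [FiniteDimensional ℝ E]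
    {X : Set E} {a b : E → Ext E} (ha : Sm X a) (ca : Cl X a) (hb : Sm X b) (cb : Cl X b)
    (h : Coh X a b) (m : ℕ) : Coh X (a ^ m) (b ^ m) := by
  induction m with
  | zero => rw [pow_zero, pow_zero]; exact Coh.refl _
  | succ m ih =>
    rw [pow_succ, pow_succ]
    exact Coh.mul (ha.pow m) (Cl.pow ha ca m) hb cb ih h

/-- naturality of the real Euler form -/
theorem eqv_pull_eR {E E' : Type*} [NormedAddCommGroup E] [NormedSpace ℝ E] [FiniteDimensional ℝ E]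
    [NormedAddCommGroup E'] [NormedSpace ℝ E'] [FiniteDimensional ℝ E']
    {ι n : Type*} [Fintype ι] [DecidableEq ι] [Fintype n] [DecidableEq n]
    {X : Set E'} {Y : Set E} {P : E → EuclideanSpace ℝ n →L[ℝ] EuclideanSpace ℝ n}
    {W : E → (ι × Fin 2 → n) → ℝ} (h : OR Y P W) {f : E' → E} (hf : SMap X Y f) :
    Eqv X (F.pull f (eR P W)) (eR (fun y => P (f y)) (fun y => W (f y))) :=
  Eqv.of_eq fun x hx => by
    have h1 := pullC_ef (f := f) (P := fun y => mtx (P y)) (W := wC W) (hf.c2 hx)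
      (((OR.of h).sP _ (hf.maps hx)).of_le one_le_inf)
    exact congrArg Cx.re h1

/-- the Euler form is not exact on the cut locus -/
theorem euler_ne {W : Euc N → (ι × Fin 2 → Fin N) → ℝ} (h : GT.Bla G k) (hk : 2 ≤ k) (hkn : k < n)
    (hp : p ∈ S) (hι : 2 * Fintype.card ι = k) (hW : OR (GP.Cut S p) (FV.PC h p) W) :
    ¬ Coh (GP.Cut S p) (eR (FV.PC h p) W) 0 := by
  intro h0
  obtain ⟨o, ho, -, -⟩ := exists_ori_Cut h hk hkn hp
  obtain ⟨m, hm1, -, hJ⟩ := X1a h hk hkn hp hι hW ho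
  refine hJ (J_exact (FV.clo_Cut h hp) ho ?_)
  have := Coh.powT hW.ec_eR.sm hW.ec_eR.cl Sm.zero cl_zero h0 m
  rwa [zero_pow (by omega)] at this

/-- forms of degree `< n` on `S` which are exact on the unit tangent bundle -/
theorem low_S (h : GT.Bla G k) (hk : 2 ≤ k) (hne : Even n) {j : ℕ} {b : Euc N → Ext (Euc N)}
    (hb : Sm S b) (hc : Cl S b) (hd : Hom j b) (hj : j < n)
    (h0 : Coh (Sph S G.P) (F.pull Prod.fst b) 0) : Coh S b 0 := by
  obtain ⟨m, hm⟩ := hne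
  have hn1 := h.bl.hn
  have hι : 2 * Fintype.card (Fin m) = n := by rw [Fintype.card_fin]; omega
  obtain ⟨Wt, hW⟩ := GP.exists_OR_S (G := G) h.bl h.ty hk hι
  have : Nonempty (Fin m) := ⟨⟨0, by omega⟩⟩
  exact gysin_low_all (FV.sub_S h.bl) h.bl.conn.isPreconnected hW hb hc hd (by rw [hι]; exact hj) h0

/-- from `Sph F V` to the unit tangent bundle -/
theorem coh_up (h : GT.Bla G k) {b : Euc N → Ext (Euc N)}
    (h0 : Coh (Sph (GT.FF S) (FV.PVB h)) (F.pull Prod.fst (F.pull Prod.fst b)) 0) :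
    Coh (Sph S G.P) (F.pull Prod.fst b) 0 := by
  have h1 := h0.pull (FV.smap_up h)
  rw [pull_zero'] at h1
  have e1 : Eqv (Sph (GT.FF S) (FV.PVB h)) (F.pull Prod.fst (F.pull Prod.fst b))
      (F.pull (fun z : (Euc N × Euc N) × Euc N => z.1.1) b) :=
    eqv_pull_pull smap_fstS smap_fst_FF (smap_fst_FF.comp smap_fstS) (fun _ _ => rfl) b
  have e2 : Eqv (Sph S G.P) (F.pull (FV.up G) (F.pull (fun z : (Euc N × Euc N) × Euc N => z.1.1) b))
      (F.pull Prod.fst b) :=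
    eqv_pull_pull (FV.smap_up h) (smap_fst_FF.comp smap_fstS) smap_fstS (fun _ _ => rfl) b
  exact (Coh.of_eqv ((e1.pull (FV.smap_up h)).trans e2).symm).trans h1

/-- the two projections of the unit tangent bundle are homotopic -/
theorem coh_geod (h : GT.Bla G k) {b : Euc N → Ext (Euc N)} (hb : Sm S b) (hc : Cl S b) :
    Coh (Sph (GT.FF S) (FV.PVB h)) (F.pull Prod.fst (F.pull Prod.fst b))
      (F.pull Prod.fst (F.pull Prod.snd b)) := by
  let Fh : ((Euc N × Euc N) × Euc N) × ℝ → Euc N := fun z => Exp G z.1.1.1 ((z.2 * Real.pi) • z.1.2)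
  have hU : ∀ z ∈ Sph (GT.FF S) (FV.PVB h), z.1.1 ∈ S ∧ z.2 ∈ G.T z.1.1 := fun z hz =>
    ((FV.mem_Sph_F h).1 hz).1.1
  have hF : ∀ z ∈ Sph (GT.FF S) (FV.PVB h), ∀ t ∈ Icc (0 : ℝ) 1, ContDiffAt ℝ ∞ Fh (z, t) := by
    intro z hz t _
    have h1 : ContDiffAt ℝ ∞ (fun q : Euc N × Euc N => Exp G q.1 q.2)
        (z.1.1, (t * Real.pi) • z.2) :=
      contDiffAt_Exp G (hU z hz).1 ((G.T _).smul_mem _ (hU z hz).2)
    have h2 : ContDiffAt ℝ ∞ (fun z : ((Euc N × Euc N) × Euc N) × ℝ =>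
        (z.1.1.1, (z.2 * Real.pi) • z.1.2)) (z, t) := by fun_prop
    exact ContDiffAt.comp (g := fun q : Euc N × Euc N => Exp G q.1 q.2) (z, t) h1 h2
  have hm : ∀ z ∈ Sph (GT.FF S) (FV.PVB h), ∀ t ∈ Icc (0 : ℝ) 1, Fh (z, t) ∈ S := fun z hz t _ =>
    Exp_mem G (hU z hz).1 ((G.T _).smul_mem _ (hU z hz).2)
  have key := coh_homotopy hF hm hb hc
  have s1 : SMap (Sph (GT.FF S) (FV.PVB h)) S (fun y => Fh (y, 1)) :=
    ⟨fun z hz => ContDiffAt.comp (g := Fh) z (hF z hz 1 (by simp))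
        (contDiffAt_id.prodMk contDiffAt_const),
      fun z hz => hm z hz 1 (by simp)⟩
  have s0 : SMap (Sph (GT.FF S) (FV.PVB h)) S (fun y => Fh (y, 0)) :=
    ⟨fun z hz => ContDiffAt.comp (g := Fh) z (hF z hz 0 (by simp))
        (contDiffAt_id.prodMk contDiffAt_const),
      fun z hz => hm z hz 0 (by simp)⟩
  have e1 : Eqv (Sph (GT.FF S) (FV.PVB h)) (F.pull Prod.fst (F.pull Prod.snd b))
      (F.pull (fun y => Fh (y, 1)) b) :=
    eqv_pull_pull smap_fstS smap_snd_FF s1 (fun z hz => by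
      have h2 := ((FV.mem_Sph_F h).1 hz).2
      have h3 : (FV.phi G (FV.dn z)).2 = z.1.2 := by rw [h2]
      change z.1.2 = Exp G z.1.1 (((1 : ℝ) * Real.pi) • z.2)
      rw [← h3, one_mul]; rfl) b
  have e0 : Eqv (Sph (GT.FF S) (FV.PVB h)) (F.pull Prod.fst (F.pull Prod.fst b))
      (F.pull (fun y => Fh (y, 0)) b) :=
    eqv_pull_pull smap_fstS smap_fst_FF s0 (fun z hz => by
      change z.1.1 = Exp G z.1.1 (((0 : ℝ) * Real.pi) • z.2)
      rw [zero_mul, zero_smul, Exp_zero G (hU z hz).1]) b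
  exact (Coh.of_eqv e0).trans (key.symm.trans (Coh.of_eqv e1.symm))

/-- the facts on `x = xM` -/
structure XM (h : GT.Bla G k) (m : ℕ) (W : Euc N × Euc N → (ι × Fin 2 → Fin N) → ℝ) (p : Euc N)
    (x : Euc N → Ext (Euc N)) : Prop where
  hk : 2 ≤ k
  hι : 2 * Fintype.card ι = k
  hW : OR (GT.FF S) (FV.PVB h) W
  hp : p ∈ S
  hm : 2 ≤ m
  hn : n = k * m
  sx : Sm S x
  cx : Cl S x
  dx : Hom k x
  ex : Eqv (GP.Cut S p) x (eR (FV.PC h p) (fun q => W (q, p)))

theorem XM.hke {h : GT.Bla G k} (D : XM h m W p x) : Even k :=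
  ⟨Fintype.card ι, by rw [← D.hι]; ring⟩

theorem XM.hne {h : GT.Bla G k} (D : XM h m W p x) : Even n := by rw [D.hn]; exact D.hke.mul_right m

theorem XM.two_k {h : GT.Bla G k} (D : XM h m W p x) : 2 * k ≤ n := by
  have h1 := D.hn
  have h2 := D.hm
  rw [h1, mul_comm 2 k]
  exact Nat.mul_le_mul_left k h2

theorem XM.hkn {h : GT.Bla G k} (D : XM h m W p x) : k < n := by
  have h1 := D.two_k
  have h2 := D.hk
  omega

/-- existence, from an orientation of `V` and a base point -/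
theorem exists_XM (h : GT.Bla G k) (hk : 2 ≤ k) (hkn : k < n) (hι : 2 * Fintype.card ι = k)
    (hW : OR (GT.FF S) (FV.PVB h) W) (hp : p ∈ S) :
    ∃ m x, XM h m W p x := by
  obtain ⟨x, h1, h2, h3, h4⟩ := exists_xM h hk hp hι (OR_Cut h hp hW)
  obtain ⟨o, ho, -, -⟩ := exists_ori_Cut h hk hkn hp
  obtain ⟨m, hm1, hm2, -⟩ := X1a h hk hkn hp hι (OR_Cut h hp hW) ho
  exact ⟨m + 1, x, hk, hι, hW, hp, by omega, hm2, h1, h2, h3, h4⟩

/-- `x` is not exact on `S` -/
theorem XM.x_ne {h : GT.Bla G k} (D : XM h m W p x) : ¬ Coh S x 0 := by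
  intro h0
  refine euler_ne h D.hk D.hkn D.hp D.hι (OR_Cut h D.hp D.hW) ?_
  exact (Coh.of_eqv D.ex.symm).trans (h0.mono fun _ hq => hq.1)

/-- `x` is not exact on the unit tangent bundle -/
theorem XM.x_ne_US {h : GT.Bla G k} (D : XM h m W p x) :
    ¬ Coh (Sph (GT.FF S) (FV.PVB h)) (F.pull Prod.fst (F.pull Prod.fst x)) 0 := fun h0 =>
  D.x_ne (low_S h D.hk D.hne D.sx D.cx D.dx D.hkn (coh_up h h0))

/-- the Euler form is exact on the sphere bundle -/
theorem euler_exact_FF (h : GT.Bla G k) (hk : 2 ≤ k) (hι : 2 * Fintype.card ι = k)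
    (hW : OR (GT.FF S) (FV.PVB h) W) :
    Coh (Sph (GT.FF S) (FV.PVB h)) (F.pull Prod.fst (eR (FV.PVB h) W)) 0 := by
  have : Nonempty ι := Fintype.card_pos_iff.1 (by omega)
  have hle := h.ty.le
  have h1 := euler_sph (csf_thomF (FV.sub_FF' h (d := 2 * n - k) (by omega)) hW) (by norm_num)
    (thomF_zero hW)
  rw [pull_smul'] at h1
  exact h1.smul_zero_of_ne two_ne_zero

set_option maxHeartbeats 1000000 in
/-- **(X1b)** -/
theorem XM.snd_class {h : GT.Bla G k} (D : XM h m W p x) :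
    Coh (GT.FF S) (F.pull Prod.snd x) (F.pull Prod.fst x - eR (FV.PVB h) W) := by
  have hk := D.hk
  have h2k := D.two_k
  have hWp := OR_Cut h D.hp D.hW
  have he : Eqv (GP.Cut S p) (F.pull (fun q : Euc N => (q, p)) (eR (FV.PVB h) W))
      (eR (FV.PC h p) (fun q => W (q, p))) :=
    eqv_pull_eR D.hW (FV.smap_Cut D.hp)
  refine snd_class' (PX := FV.PVB h) (ιC := fun q => (q, p)) (C := GP.Cut S p) (p := p)
    smap_fst_FF smap_snd_FF (by omega) D.sx D.cx D.dx ?_ (FV.smap_Cut D.hp)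
    (fun _ hq => hq.1) (fun _ _ => rfl) (fun _ _ => rfl) (Coh.of_eqv he) (Coh.of_eqv D.ex)
    (euler_ne h hk D.hkn D.hp D.hι hWp) (euler_exact_FF h hk D.hι D.hW)
    (coh_geod h D.sx D.cx) D.x_ne_US
  intro b sb cb db
  obtain ⟨f, -, hf⟩ := FF_classes h hk D.hkn D.hke D.hne D.hp D.hι D.hW D.sx D.cx D.dx D.ex k b
    D.hke (by omega) sb cb db
  refine ⟨f 1, f 0, ?_⟩
  rw [Nat.div_self (by omega), Finset.sum_range_succ, Finset.sum_range_one] at hf
  simpa [add_comm] using hf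

/-- on every cut locus `x` is the Euler class -/
theorem XM.restr {h : GT.Bla G k} (D : XM h m W p x) {p' : Euc N} (hp' : p' ∈ S) :
    Coh (GP.Cut S p') x (eR (FV.PC h p') (fun q => W (q, p'))) := by
  have he : Eqv (GP.Cut S p') (F.pull (fun q : Euc N => (q, p')) (eR (FV.PVB h) W))
      (eR (FV.PC h p') (fun q => W (q, p'))) :=
    eqv_pull_eR D.hW (FV.smap_Cut hp')
  have hk := D.hk
  exact restr_snd_class smap_fst_FF smap_snd_FF (by omega) D.dx (FV.smap_Cut hp')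
    (fun _ hq => hq.1) (fun _ _ => rfl) (fun _ _ => rfl) (Coh.of_eqv he) D.snd_class

end Crest.Agent.R208.T
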