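import Crest.Agent.R208.CW5c
import Crest.Agent.R208.FH12
import Crest.Agent.R208.SP9

/-! Row 208, block CW (helper586).  CW6: the real Euler form on the oriented Grassmannian of a
Euclidean space `H`, in terms of continuous linear maps. -/

set_option autoImplicit false
set_option linter.unusedSectionVars false
set_option linter.unusedSimpArgs false
set_option linter.unusedVariables false

open scoped BigOperators ContDiff Topology RealInnerProductSpace
open Module Set Matrix

noncomputable section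

namespace Crest.Agent.R208.CW

open Crest.Agent.R208.F Crest.Agent.R208.FI

universe u

/-! ### reality and degree of forms -/

section alg
variable {T : Type*} [AddCommGroup T] [Module ℝ T]

/-- real forms -/
def IsRe (c : CF T) : Prop := c.im = 0

theorem IsRe.mul {a b : CF T} (ha : IsRe a) (hb : IsRe b) : IsRe (a * b) := by
  rw [IsRe, Cx.mul_im, ha, hb, mul_zero, zero_mul, add_zero]

theorem IsRe.add {a b : CF T} (ha : IsRe a) (hb : IsRe b) : IsRe (a + b) := by
  rw [IsRe, Cx.add_im, ha, hb, add_zero]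

theorem IsRe.sum {ι : Type*} (s : Finset ι) {a : ι → CF T} (h : ∀ i ∈ s, IsRe (a i)) :
    IsRe (∑ i ∈ s, a i) := by
  rw [IsRe, Cx.sum_im]
  exact Finset.sum_eq_zero h

theorem IsRe.one : IsRe (1 : CF T) := rfl

theorem IsRe.ofReal (r : ℝ) : IsRe (algebraMap ℂ (CF T) r) := by
  rw [IsRe, Cx.algebraMap_im, Complex.ofReal_im, map_zero]

theorem IsRe.eq {a : CF T} (ha : IsRe a) : a = Cx.ofR a.re := Cx.ext rfl ha

theorem IsRe.prod {ι : Type*} [DecidableEq ι] (s : Finset ι) {a : ι → EvC T}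
    (h : ∀ i ∈ s, IsRe (a i : CF T)) : IsRe ((∏ i ∈ s, a i : EvC T) : CF T) := by
  induction s using Finset.induction_on with
  | empty => exact IsRe.one
  | insert j s hj ih =>
    rw [Finset.prod_insert hj]
    exact IsRe.mul (h j (Finset.mem_insert_self _ _))
      (ih fun i hi => h i (Finset.mem_insert_of_mem hi))

/-- `a` raises the degree by `k` under left multiplication -/
def Ra (k : ℕ) (a : Ext T) : Prop := ∀ p (c : Ext T), IsDeg p c → IsDeg (p + k) (a * c)

theorem Ra.add {k : ℕ} {a b : Ext T} (ha : Ra k a) (hb : Ra k b) : Ra k (a + b) := fun p c hc => by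
  rw [add_mul]; exact (ha p c hc).add (hb p c hc)

theorem Ra.zero {k : ℕ} : Ra k (0 : Ext T) := fun p c hc => by rw [zero_mul]; exact IsDeg.zero

theorem Ra.smul {k : ℕ} {a : Ext T} (ha : Ra k a) (r : ℝ) : Ra k (r • a) := fun p c hc => by
  rw [smul_mul_assoc]; exact (ha p c hc).smul r

theorem Ra.neg {k : ℕ} {a : Ext T} (ha : Ra k a) : Ra k (-a) := by
  have := ha.smul (-1); rwa [neg_one_smul] at this

theorem Ra.sub {k : ℕ} {a b : Ext T} (ha : Ra k a) (hb : Ra k b) : Ra k (a - b) := by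
  rw [sub_eq_add_neg]; exact ha.add hb.neg

theorem Ra.mul {k l : ℕ} {a b : Ext T} (ha : Ra k a) (hb : Ra l b) : Ra (k + l) (a * b) :=
  fun p c hc => by
    rw [mul_assoc, ← add_assoc, add_right_comm]; exact ha _ _ (hb p c hc)

theorem Ra.io (l : Module.Dual ℝ T) : Ra 1 (io l) := fun p c hc => hc.io_mul l

theorem Ra.algebraMap (r : ℝ) : Ra 0 (algebraMap ℝ (Ext T) r) := fun p c hc => by
  rw [← Algebra.smul_def, add_zero]; exact hc.smul r

theorem isDeg_one : IsDeg 0 (1 : Ext T) := fun q hq => by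
  obtain ⟨q, rfl⟩ := Nat.exists_eq_succ_of_ne_zero hq
  have := evA_succ_algebraMap (E := T) q 1
  rwa [map_one] at this

theorem Ra.isDeg {k : ℕ} {a : Ext T} (ha : Ra k a) : IsDeg k a := by
  have := ha 0 1 isDeg_one
  rwa [mul_one, zero_add] at this

/-- the complex version -/
def RaC (k : ℕ) (a : CF T) : Prop := Ra k a.re ∧ Ra k a.im

theorem RaC.add {k : ℕ} {a b : CF T} (ha : RaC k a) (hb : RaC k b) : RaC k (a + b) :=
  ⟨ha.1.add hb.1, ha.2.add hb.2⟩

theorem RaC.mul {k l : ℕ} {a b : CF T} (ha : RaC k a) (hb : RaC l b) : RaC (k + l) (a * b) :=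
  ⟨(ha.1.mul hb.1).sub (ha.2.mul hb.2), (ha.1.mul hb.2).add (ha.2.mul hb.1)⟩

theorem RaC.zero {k : ℕ} : RaC k (0 : CF T) := ⟨Ra.zero, Ra.zero⟩

theorem RaC.one : RaC 0 (1 : CF T) := by
  refine ⟨?_, Ra.zero⟩
  have := Ra.algebraMap (T := T) 1
  rwa [map_one] at this

theorem RaC.algebraMap (z : ℂ) : RaC 0 (algebraMap ℂ (CF T) z) :=
  ⟨Ra.algebraMap _, Ra.algebraMap _⟩

theorem RaC.sum {ι : Type*} (s : Finset ι) {k : ℕ} {a : ι → CF T} (h : ∀ i ∈ s, RaC k (a i)) :
    RaC k (∑ i ∈ s, a i) := by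
  classical
  induction s using Finset.induction_on with
  | empty => exact RaC.zero
  | insert j s hj ih =>
    rw [Finset.sum_insert hj]
    exact (h j (Finset.mem_insert_self _ _)).add (ih fun i hi => h i (Finset.mem_insert_of_mem hi))

theorem RaC.prod {ι : Type*} [DecidableEq ι] (s : Finset ι) {k : ℕ} {a : ι → EvC T}
    (h : ∀ i ∈ s, RaC k (a i : CF T)) : RaC (k * s.card) ((∏ i ∈ s, a i : EvC T) : CF T) := by
  induction s using Finset.induction_on with
  | empty => simpa using RaC.one (T := T)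
  | insert j s hj ih =>
    rw [Finset.prod_insert hj, Finset.card_insert_of_notMem hj, mul_add, mul_one, add_comm]
    exact (h j (Finset.mem_insert_self _ _)).mul (ih fun i hi => h i (Finset.mem_insert_of_mem hi))

end alg

section fld
variable {E : Type*} [NormedAddCommGroup E] [NormedSpace ℝ E] [FiniteDimensional ℝ E]
  {ι n m : Type*} [Fintype ι] [DecidableEq ι] [Fintype n] [DecidableEq n] [Fintype m]
  [DecidableEq m] {x : E} {X : Set E}

theorem d_fun {g : E → ℝ} (hg : DifferentiableAt ℝ g x) :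
    d (fun y => algebraMap ℝ (Ext E) (g y)) x
      = io ((fderiv ℝ g x : E →L[ℝ] ℝ) : Module.Dual ℝ E) := by
  have : (fun y => algebraMap ℝ (Ext E) (g y)) = fun y => g y • (1 : Ext E) :=
    funext fun y => Algebra.algebraMap_eq_smul_one _
  rw [this, d_smul hg (differentiableAt_const _), d_const, smul_zero, add_zero, mul_one]

theorem RaC_DD {M : E → Matrix n m ℂ} (h : SM 1 M x) (i : n) (j : m) : RaC 1 (DD M x i j) := by
  have hr : DifferentiableAt ℝ (fun y => (M y i j).re) x :=
    (Complex.reCLM.contDiff.contDiffAt.comp x (h i j)).differentiableAt (by norm_num)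
  have hi : DifferentiableAt ℝ (fun y => (M y i j).im) x :=
    (Complex.imCLM.contDiff.contDiffAt.comp x (h i j)).differentiableAt (by norm_num)
  refine ⟨?_, ?_⟩
  · change Ra 1 (d (fun y => algebraMap ℝ (Ext E) ((M y i j).re)) x)
    rw [d_fun hr]; exact Ra.io _
  · change Ra 1 (d (fun y => algebraMap ℝ (Ext E) ((M y i j).im)) x)
    rw [d_fun hi]; exact Ra.io _

theorem RaC_Om {P : E → Matrix n n ℂ} (h : SM 1 P x) (i j : n) : RaC 2 (Om P x i j : CF E) := by
  have e : (Om P x i j : CF E) = vl (Om P x) i j := rfl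
  rw [e, vl_Om, Matrix.mul_apply]
  refine RaC.sum _ fun k _ => ?_
  rw [Matrix.mul_apply]
  refine RaC.mul (k := 2) (l := 0) (RaC.sum _ fun l _ => ?_) (RaC.algebraMap _)
  rw [Matrix.mul_apply]
  refine RaC.mul (k := 0) (l := 2) (RaC.algebraMap _) (RaC.sum _ fun a _ => ?_)
  exact RaC.mul (k := 1) (l := 1) (RaC_DD h _ _) (RaC_DD h _ _)

theorem RaC_ef {P : E → Matrix n n ℂ} {W : E → (ι × Fin 2 → n) → ℂ} (h : SM 1 P x) :
    RaC (2 * Fintype.card ι) (ef P W x) := by
  rw [ef_apply]
  refine RaC.sum _ fun I _ => ?_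
  have := RaC.mul (RaC.algebraMap (T := E) (W x I))
    (RaC.prod Finset.univ fun j _ => RaC_Om h (I (j, 0)) (I (j, 1)))
  rwa [zero_add, Finset.card_univ] at this

theorem IsRe_DD {M : E → Matrix n m ℂ} (h : ∀ y i j, (M y i j).im = 0) (i : n) (j : m) :
    IsRe (DD M x i j) := by
  change d (fun y => algebraMap ℝ (Ext E) ((M y i j).im)) x = 0
  simp only [h, map_zero]
  exact d_const _ _

theorem IsRe_Om {P : E → Matrix n n ℂ} (h : ∀ y i j, (P y i j).im = 0) (i j : n) :
    IsRe (Om P x i j : CF E) := by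
  have e : (Om P x i j : CF E) = vl (Om P x) i j := rfl
  have hp : ∀ a b, IsRe (hat E (P x) a b) := fun a b => by
    change algebraMap ℝ (Ext E) ((P x a b).im) = 0
    rw [h, map_zero]
  rw [e, vl_Om, Matrix.mul_apply]
  refine IsRe.sum _ fun k _ => ?_
  rw [Matrix.mul_apply]
  refine IsRe.mul (IsRe.sum _ fun l _ => ?_) (hp _ _)
  rw [Matrix.mul_apply]
  refine IsRe.mul (hp _ _) (IsRe.sum _ fun a _ => ?_)
  exact IsRe.mul (IsRe_DD h _ _) (IsRe_DD h _ _)

theorem IsRe_ef {P : E → Matrix n n ℂ} {W : E → (ι × Fin 2 → n) → ℂ}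
    (h : ∀ y i j, (P y i j).im = 0) (hW : ∀ I, (W x I).im = 0) : IsRe (ef P W x) := by
  rw [ef_apply]
  refine IsRe.sum _ fun I _ => IsRe.mul ?_ (IsRe.prod _ fun j _ => IsRe_Om h _ _)
  rw [IsRe, Cx.algebraMap_im, hW, map_zero]

end fld

end Crest.Agent.R208.CW
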