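import Crest.Agent.R208.GT5

/-!
Row 208, block GT (helper989), part GT6: the link isometry `V_pq → V_qp` as a smooth field on the
manifold `F = {d = π}` (type `k < n`), `V_pq ≅ V_qp`, the swap of `Z = V_2(V)`.
-/

set_option autoImplicit false

open Set Filter Topology Module Metric
open scoped ContDiff RealInnerProductSpace Kronecker Matrix
open Crest.GeometryTopology.Submanifold
open Crest.Agent.R241.DDefs
open Crest.Agent.R241.D2
open Crest.Agent.R208.CW (IdF SM)
open Crest.Agent.R208.FI (Sub)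

noncomputable section

namespace Crest.Agent.R208.GT

variable {n N k d : ℕ} {κ : ℝ} {S : Set (Euc N)} {G : Geo n N κ S}
  {PV : Euc N × Euc N → Euc N →L[ℝ] Euc N}

/-- matrix of a real operator -/
abbrev mE (T : Euc N →L[ℝ] Euc N) : Matrix (Fin N) (Fin N) ℝ := SP.mt (bas N) (bas N) T

/-- vector with given coordinates -/
def vec (v : Fin N → ℝ) : Euc N := ∑ c, v c • bas N c

lemma repr_vec (v : Fin N → ℝ) : ⇑((bas N).repr (vec v)) = v := by
  exact (bas N).repr_sum_self v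

lemma mE_mulVec (T : Euc N →L[ℝ] Euc N) (v : Fin N → ℝ) :
    (mE T).mulVec v = (bas N).repr (T (vec v)) := by
  have h1 := SP.mt_mulVec (bas N) (bas N) T (vec v)
  rwa [repr_vec] at h1

lemma vec_mulVec (T : Euc N →L[ℝ] Euc N) (v : Fin N → ℝ) :
    vec ((mE T).mulVec v) = T (vec v) := by
  rw [mE_mulVec, vec]
  exact (bas N).sum_repr _

lemma vec_inj {v w : Fin N → ℝ} (h : vec v = vec w) : v = w := by
  rw [← repr_vec v, h, repr_vec]

lemma mS_add (z : Euc N × Euc N) (v w : Euc N) :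
    mS G PV z (v + w) = mS G PV z v + mS G PV z w := by
  ext i j
  simp only [mS, mt_bas, Matrix.add_apply, VField.Sf_add, inner_add_right]

lemma mS_smul (z : Euc N × Euc N) (c : ℝ) (v : Euc N) :
    mS G PV z (c • v) = c • mS G PV z v := by
  ext i j
  simp only [mS, mt_bas, Matrix.smul_apply, VField.Sf_smul, inner_smul_right, smul_eq_mul]

/-- `v ↦ mS z v` as a linear map -/
def mSl (G : Geo n N κ S) (PV : Euc N × Euc N → Euc N →L[ℝ] Euc N) (z : Euc N × Euc N) :
    Euc N →ₗ[ℝ] Matrix (Fin N) (Fin N) ℝ where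
  toFun := mS G PV z
  map_add' := mS_add z
  map_smul' c v := mS_smul z c v

/-- `u ↦ S'_u` on `V_qp` -/
def SV (G : Geo n N κ S) (PV : Euc N × Euc N → Euc N →L[ℝ] Euc N) (z : Euc N × Euc N) :
    Matrix (Fin N × Fin N) (Fin N) ℝ :=
  fun ij c => mS G PV z.swap (PV z.swap (bas N c)) ij.1 ij.2

/-- `v ↦ S_vᵀ` on `V_pq` -/
def TV (G : Geo n N κ S) (PV : Euc N × Euc N → Euc N →L[ℝ] Euc N) (z : Euc N × Euc N) :
    Matrix (Fin N × Fin N) (Fin N) ℝ :=
  fun ij c => mS G PV z (PV z (bas N c)) ij.2 ij.1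

/-- the link isometry as a matrix field -/
def LM (G : Geo n N κ S) (PV : Euc N × Euc N → Euc N →L[ℝ] Euc N) (z : Euc N × Euc N) :
    Matrix (Fin N) (Fin N) ℝ :=
  Ring.inverse (SP.gram (mE (PV z.swap)) (SV G PV z)) * ((SV G PV z)ᴴ * TV G PV z)

lemma SV_mulVec (z : Euc N × Euc N) (v : Fin N → ℝ) (ij : Fin N × Fin N) :
    (SV G PV z).mulVec v ij = mS G PV z.swap (PV z.swap (vec v)) ij.1 ij.2 := by
  have h1 : mS G PV z.swap (PV z.swap (vec v)) =
      ∑ c, v c • mS G PV z.swap (PV z.swap (bas N c)) := by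
    change mSl G PV z.swap (PV z.swap (vec v)) = _
    rw [vec, _root_.map_sum, _root_.map_sum]
    refine Finset.sum_congr rfl fun c _ => ?_
    rw [map_smul, map_smul]; rfl
  rw [h1, Matrix.sum_apply]
  simp only [Matrix.mulVec, dotProduct, SV, Matrix.smul_apply, smul_eq_mul]
  exact Finset.sum_congr rfl fun c _ => mul_comm _ _

lemma TV_mulVec (z : Euc N × Euc N) (v : Fin N → ℝ) (ij : Fin N × Fin N) :
    (TV G PV z).mulVec v ij = mS G PV z (PV z (vec v)) ij.2 ij.1 := by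
  have h1 : mS G PV z (PV z (vec v)) = ∑ c, v c • mS G PV z (PV z (bas N c)) := by
    change mSl G PV z (PV z (vec v)) = _
    rw [vec, _root_.map_sum, _root_.map_sum]
    refine Finset.sum_congr rfl fun c _ => ?_
    rw [map_smul, map_smul]; rfl
  rw [h1, Matrix.sum_apply]
  simp only [Matrix.mulVec, dotProduct, TV, Matrix.smul_apply, smul_eq_mul]
  exact Finset.sum_congr rfl fun c _ => mul_comm _ _

variable (hV : VField G PV) (h : Bla G k)

include hV h

omit h in
lemma mP_transpose {z : Euc N × Euc N} (hz : z ∈ FF S) : (mP G PV z).transpose = mP G PV z := by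
  ext i j
  rw [Matrix.transpose_apply, mP, mt_bas, mt_bas, ← hV.inner_PTC (p := z.1) (q := z.2) hz,
    real_inner_comm]

/-- `S'_(f v) = S_vᵀ` in matrices -/
theorem mS_lf {z : Euc N × Euc N} (hz : z ∈ FF S) {v : Euc N} (hv : v ∈ Vs G z.1 z.2) :
    mS G PV z.swap (lf G z.1 z.2 v) = (mS G PV z v).transpose := by
  ext i j
  rw [Matrix.transpose_apply, mS, mS, mt_bas, mt_bas]
  have h1 := hV.Sf_swap h (p := z.1) (q := z.2) hz hv (hV.PTC_mem h hz (bas N i))
    (hV.PTC_mem h (FF_symm' hz) (bas N j))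
  rw [hV.Sf_PTC h hz, hV.Sf_PTC h (FF_symm' hz), ← hV.inner_PTC (FF_symm' hz),
    hV.PTC_eq_self (FF_symm' hz) (hV.Sf_mem h hz hv _), hV.inner_PTC hz,
    hV.PTC_eq_self hz (hV.Sf_mem h (FF_symm' hz) (h.lf_mem hz v) _)] at h1
  rw [real_inner_comm] at h1
  exact h1.symm

lemma mS_inj (hkn : k < n) {z : Euc N × Euc N} (hz : z ∈ FF S) {v : Euc N}
    (hv : v ∈ Vs G z.1 z.2) (h0 : mS G PV z v = 0) : v = 0 := by
  by_contra hv0
  have h1 := h.finrank_TC (p := z.1) (q := z.2) hz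
  have h2 : TC G z.1 z.2 ≠ ⊥ := by
    intro h3
    rw [h3, finrank_bot] at h1
    omega
  obtain ⟨y, hy, hy0⟩ := Submodule.exists_mem_ne_zero_of_ne_bot h2
  refine hy0 (hV.Sf_inj h (p := z.1) (q := z.2) hz hv hv0 hy ?_)
  have h3 : Sf G PV z v = 0 := by
    apply SP.mt_injective (bas N) (bas N)
    change mS G PV z v = _
    rw [h0]
    ext i j
    rw [mt_bas]; simp
  change Sf G PV z v y = 0
  rw [h3]; rfl

lemma gram_unit (hkn : k < n) {z : Euc N × Euc N} (hz : z ∈ FF S) :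
    IsUnit (SP.gram (mE (PV z.swap)) (SV G PV z)) := by
  refine SP.isUnit_gram fun v hv h0 => ?_
  have hz' := FF_symm hz
  have h1 : PV z.swap (vec v) = vec v := by
    rw [← vec_mulVec, hv]
  have h2 : mS G PV z.swap (vec v) = 0 := by
    ext i j
    have h3 := congrFun h0 (i, j)
    rw [SV_mulVec, h1] at h3
    exact h3
  have h4 : vec v ∈ Vs G z.swap.1 z.swap.2 := by
    rw [← h1]; exact hV.PV_mem (p := z.2) (q := z.1) hz' _
  have h5 := mS_inj hV h hkn hz' h4 h2
  have h6 : vec (0 : Fin N → ℝ) = 0 := by simp [vec]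
  exact vec_inj (h5.trans h6.symm)

/-- the smooth formula for the link isometry -/
theorem LM_eq (hkn : k < n) {z : Euc N × Euc N} (hz : z ∈ FF S) :
    LM G PV z = mE (lf G z.1 z.2) := by
  have hu := gram_unit hV h hkn hz
  have hz' := FF_symm hz
  have hP : mE (PV z.swap) * mE (PV z.swap) = mE (PV z.swap) := by
    rw [← SP.mt_comp]
    congr 1
    ext v : 1
    exact hV.PV_idem (p := z.2) (q := z.1) hz' v
  have hSP : SV G PV z * mE (PV z.swap) = SV G PV z := by
    apply Matrix.mulVec_injective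
    funext v
    funext ij
    rw [← Matrix.mulVec_mulVec, SV_mulVec, SV_mulVec, vec_mulVec]
    have h1 : PV z.swap (PV z.swap (vec v)) = PV z.swap (vec v) :=
      hV.PV_idem (p := z.2) (q := z.1) hz' _
    rw [h1]
  have hT : TV G PV z = SV G PV z * mE (lf G z.1 z.2) := by
    apply Matrix.mulVec_injective
    funext v
    funext ij
    rw [← Matrix.mulVec_mulVec, SV_mulVec, TV_mulVec, vec_mulVec]
    have h1 : PV z (vec v) ∈ Vs G z.1 z.2 := hV.PV_mem (p := z.1) (q := z.2) hz _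
    have h2 : lf G z.1 z.2 (vec v) = lf G z.1 z.2 (PV z (vec v)) := by
      have h3 : vec v - PV z (vec v) ∈ (Vs G z.1 z.2)ᗮ := by
        rw [Submodule.mem_orthogonal]
        intro u hu
        have h4 := hV.inner_PV (p := z.1) (q := z.2) hz u (vec v)
        have h5 : PV (z.1, z.2) u = u := hV.PV_eq_self (p := z.1) (q := z.2) hz hu
        rw [h5] at h4
        rw [inner_sub_right, h4]; exact sub_self _
      have h4 := lf_perp h3
      rwa [map_sub, sub_eq_zero] at h4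
    have h3 : PV z.swap (lf G z.1 z.2 (vec v)) = lf G z.1 z.2 (vec v) :=
      hV.PV_eq_self (p := z.2) (q := z.1) hz' (h.lf_mem (p := z.1) (q := z.2) hz _)
    rw [h3, h2, mS_lf hV h hz h1]; rfl
  have hgP : SP.gram (mE (PV z.swap)) (SV G PV z) * mE (PV z.swap) =
      (SV G PV z)ᴴ * SV G PV z := by
    rw [SP.gram, Matrix.add_mul, Matrix.mul_assoc, hSP, Matrix.mul_assoc, Matrix.sub_mul,
      Matrix.one_mul, hP, sub_self, Matrix.mul_zero, add_zero]
  have hPl : mE (PV z.swap) * mE (lf G z.1 z.2) = mE (lf G z.1 z.2) := by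
    rw [← SP.mt_comp]
    congr 1
    ext v : 1
    exact hV.PV_eq_self (p := z.2) (q := z.1) hz' (h.lf_mem (p := z.1) (q := z.2) hz _)
  rw [LM, hT, ← Matrix.mul_assoc (SV G PV z)ᴴ, ← hgP, Matrix.mul_assoc, hPl, ← Matrix.mul_assoc,
    Ring.inverse_mul_cancel _ hu, Matrix.one_mul]

omit h in
lemma smooth_SV {z : Euc N × Euc N} (hz : z ∈ FF S) : SP.MSm ∞ (SV G PV) z := by
  intro ij c
  have hsw : ContDiffAt ℝ ∞ (fun y : Euc N × Euc N => y.swap) z :=
    contDiffAt_snd.prodMk contDiffAt_fst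
  have h1 : ContDiffAt ℝ ∞ (fun y : Euc N × Euc N => PV y.swap (bas N c)) z :=
    (ContDiffAt.comp z (hV.smooth _ (FF_symm hz)) hsw).clm_apply contDiffAt_const
  exact smooth_mS hV hsw (FF_symm hz) h1 ij.1 ij.2

omit h in
lemma smooth_TV {z : Euc N × Euc N} (hz : z ∈ FF S) : SP.MSm ∞ (TV G PV) z := by
  intro ij c
  have h1 : ContDiffAt ℝ ∞ (fun y : Euc N × Euc N => PV y (bas N c)) z :=
    (hV.smooth _ hz).clm_apply contDiffAt_const
  exact smooth_mS hV contDiffAt_id hz h1 ij.2 ij.1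

/-- the link isometry is a smooth field on `FF` -/
theorem smooth_LM (hkn : k < n) {z : Euc N × Euc N} (hz : z ∈ FF S) :
    SP.MSm ∞ (LM G PV) z := by
  have hsw : ContDiffAt ℝ ∞ (fun y : Euc N × Euc N => y.swap) z :=
    contDiffAt_snd.prodMk contDiffAt_fst
  have hP : SP.MSm ∞ (fun y : Euc N × Euc N => mE (PV y.swap)) z :=
    SP.MSm.mt _ _ (ContDiffAt.comp z (hV.smooth _ (FF_symm hz)) hsw)
  have hS := smooth_SV hV hz
  have hT := smooth_TV hV hz
  have h1 : SP.MSm ∞ (fun y => SP.gram (mE (PV y.swap)) (SV G PV y)) z :=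
    (hS.conjTranspose.mul hS).add
      (((SP.MSm.const 1).sub hP).conjTranspose.mul ((SP.MSm.const 1).sub hP))
  exact (h1.ringInverse (gram_unit hV h hkn hz)).mul (hS.conjTranspose.mul hT)

/-- `V_pq ≅ V_qp` -/
theorem pIso_lf {z : Euc N × Euc N} (hz : z ∈ FF S) :
    SP.PIso (mE (PV z)) (mE (PV z.swap)) (mE (lf G z.1 z.2)) (mE (lf G z.2 z.1)) := by
  have hz' := FF_symm hz
  have key : ∀ {y : Euc N × Euc N}, y ∈ FF S → ∀ v, lf G y.1 y.2 (PV y v) = lf G y.1 y.2 v := by
    intro y hy v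
    have h3 : v - PV y v ∈ (Vs G y.1 y.2)ᗮ := by
      rw [Submodule.mem_orthogonal]
      intro u hu
      have h4 := hV.inner_PV (p := y.1) (q := y.2) hy u v
      have h5 : PV (y.1, y.2) u = u := hV.PV_eq_self (p := y.1) (q := y.2) hy hu
      rw [h5] at h4
      rw [inner_sub_right, h4]; exact sub_self _
    have h4 := lf_perp h3
    rw [map_sub, sub_eq_zero] at h4
    exact h4.symm
  have hmem : ∀ {y : Euc N × Euc N}, y ∈ FF S → ∀ v, PV y.swap (lf G y.1 y.2 v) =
      lf G y.1 y.2 v := fun {y} hy v =>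
    hV.PV_eq_self (p := y.2) (q := y.1) (FF_symm hy) (h.lf_mem (p := y.1) (q := y.2) hy v)
  have hinv : ∀ {y : Euc N × Euc N}, y ∈ FF S → ∀ v, lf G y.2 y.1 (lf G y.1 y.2 v) = PV y v := by
    intro y hy v
    rw [← key hy v]
    exact h.lf_lf (p := y.1) (q := y.2) hy (hV.PV_mem (p := y.1) (q := y.2) hy v)
  refine ⟨?_, ?_, ?_, ?_, ?_, ?_⟩
  · rw [← SP.mt_comp]; congr 1; ext v : 1; exact key hz v
  · rw [← SP.mt_comp]; congr 1; ext v : 1; exact hmem hz v
  · rw [← SP.mt_comp]; congr 1; ext v : 1; exact key hz' v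
  · rw [← SP.mt_comp]; congr 1; ext v : 1; exact hmem hz' v
  · rw [← SP.mt_comp]; congr 1; ext v : 1; exact hinv hz v
  · rw [← SP.mt_comp]; congr 1; ext v : 1; exact hinv hz' v

/-- **the classes of `V_pq` and `V_qp` agree** on `FF` (type `k < n`) -/
theorem sc_V_swap (hkn : k < n) (hF : Sub d (FF S)) (j : ℕ) :
    CW.sc hF ((idf_mV hV).comp smap_swap) j = CW.sc hF (idf_mV hV) j := by
  symm
  refine CW.sc_iso hF (idf_mV hV) ((idf_mV hV).comp smap_swap)
    (S := fun z => SP.cr (LM G PV z)) (fun z hz => (smooth_LM hV h hkn hz).cr) ?_ j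
  intro z hz
  have h1 := (pIso_lf hV h hz).cr
  rw [← LM_eq hV h hkn hz] at h1
  exact ⟨_, h1⟩

/-- hence the classes of `T_q C_p` and `T_p C_q` differ by those of `T_q M` and `T_p M` -/
theorem sc_TC_sub (hkn : k < n) (hF : Sub d (FF S)) (j : ℕ) :
    CW.sc hF ((idf_mM (G := G)).comp smap_q) j =
      CW.sc hF (idf_mV hV) j + CW.sc hF (idf_TCF hV h) j := by
  rw [sc_TM hV h hF j, sc_V_swap hV h hkn hF j]

end Crest.Agent.R208.GT
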