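import Crest.Agent.R208.T3c

/-! Row 208, block T (helper316).  T3d: (B5), classes of low degree on `F` (abstract form), and
conversion to the complex even classes of CW0c. -/

set_option autoImplicit false
set_option linter.unusedSectionVars false

open MeasureTheory Set Filter Topology Module
open scoped ContDiff
open Crest.Agent.R208.F Crest.Agent.R208.FI Crest.Agent.R208.CW

noncomputable section

namespace Crest.Agent.R208.T

universe u u' w w'

section five
variable {E : Type u} {E₂ : Type u'} {H : Type w} {H₂ : Type w'}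
  [NormedAddCommGroup E] [NormedSpace ℝ E] [FiniteDimensional ℝ E]
  [NormedAddCommGroup E₂] [NormedSpace ℝ E₂] [FiniteDimensional ℝ E₂]
  [NormedAddCommGroup H] [InnerProductSpace ℝ H] [FiniteDimensional ℝ H]
  [NormedAddCommGroup H₂] [InnerProductSpace ℝ H₂] [FiniteDimensional ℝ H₂]
  {S : Set E} {X : Set E₂} {PS : E → H →L[ℝ] H} {PX : E₂ → H₂ →L[ℝ] H₂}
  {π₁ : E₂ → E} {fS : E₂ × H₂ → E × H} {gS : E × H → E₂ × H₂} {n k d : ℕ} {ep : E₂ → Ext E₂}
  {x : E → Ext E}

/-- **(B5)**: closed forms of even degree `j < n - 1` on the total space `X` of a fibration over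
`S` whose `PX`-sphere bundle is the unit tangent bundle of `S`. -/
theorem F_classes (hX : Sub d X) (hXc : IsPreconnected X)
    (hπ : SMap X S π₁) (hf : SMap (Sph X PX) (Sph S PS) fS) (hg : SMap (Sph S PS) (Sph X PX) gS)
    (hgf : ∀ z ∈ Sph X PX, gS (fS z) = z) (hfst : ∀ z ∈ Sph X PX, (fS z).1 = π₁ z.1)
    (h1 : PB1 S PS n) (h2 : PB2 X PX k ep) (hk : 1 ≤ k) (hke : Even k)
    (sx : Sm S x) (cx : Cl S x) (dx : Hom k x) (se : Sm X ep) (ce : Cl X ep)
    (hS : ∀ (j : ℕ) (b : E → Ext E), 2 ≤ j → j < n → Sm S b → Cl S b → Hom j b →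
      ∃ c : ℝ, (¬ k ∣ j → c = 0) ∧ Coh S b (c • x ^ (j / k))) :
    ∀ (j : ℕ) (b : E₂ → Ext E₂), Even j → j + 1 < n → Sm X b → Cl X b → Hom j b →
      ∃ f : ℕ → ℝ, (¬ k ∣ j → ∀ a, f a = 0) ∧
        Coh X b (∑ a ∈ Finset.range (j / k + 1),
          f a • (F.pull π₁ x ^ a * ep ^ (j / k - a))) := by
  intro j
  induction j using Nat.strong_induction_on with
  | _ j ih =>
  intro b hje hjn hb hcl hd
  have sx1 : Sm X (F.pull π₁ x) := sx.pull hπ
  have cx1 : Cl X (F.pull π₁ x) := cx.pull hπ sx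
  rcases Nat.eq_zero_or_pos j with rfl | hj
  · obtain ⟨c, hc⟩ := const_of_closed hX hXc hb hcl hd
    refine ⟨fun _ => c, fun h => absurd (dvd_zero k) h, Coh.of_eqv (Eqv.of_eq fun y hy => ?_)⟩
    rw [hc y hy, Nat.zero_div]
    simp [Algebra.algebraMap_eq_smul_one]
  have hj2 : 2 ≤ j := by
    obtain ⟨i, hi⟩ := hje; omega
  -- pull back to the sphere bundle
  have sb : Sm (Sph X PX) (F.pull Prod.fst b) := hb.pull smap_fstS
  have cb : Cl (Sph X PX) (F.pull Prod.fst b) := hcl.pull smap_fstS hb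
  obtain ⟨c', k1, k2, k3, k4⟩ := h1 j (F.pull gS (F.pull Prod.fst b)) hjn (sb.pull hg)
    (cb.pull hg sb) hd.pull.pull
  obtain ⟨l, hl0, hl⟩ := hS j c' hj2 (by omega) k1 k2 k3
  set t : E₂ → Ext E₂ := l • F.pull π₁ x ^ (j / k) with ht
  have st : Sm X t := (sx1.pow _).smul l
  have ct : Cl X t := Cl.smul _ (sx1.pow _) (Cl.pow sx1 cx1 _)
  have k5 : Coh (Sph X PX) (F.pull Prod.fst b) (F.pull Prod.fst t) := by
    have a1 : Eqv (Sph X PX) (F.pull fS (F.pull gS (F.pull Prod.fst b))) (F.pull Prod.fst b) :=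
      (eqv_pull_pull hf hg (SMap.id _) hgf _).trans (Eqv.of_eq fun z _ => F.pull_id _ z)
    have a2 := k4.pull hf
    have hk' : SMap (Sph X PX) S (fun z => π₁ z.1) := hπ.comp smap_fstS
    have a3 : Eqv (Sph X PX) (F.pull fS (F.pull Prod.fst c')) (F.pull (fun z => π₁ z.1) c') :=
      eqv_pull_pull hf smap_fstS hk' hfst c'
    have a4 := hl.pull hk'
    have a5 : Eqv (Sph X PX) (F.pull (fun z => π₁ z.1) (l • x ^ (j / k))) (F.pull Prod.fst t) := by
      have a6 : Eqv (Sph X PX) (F.pull Prod.fst (F.pull π₁ x)) (F.pull (fun z => π₁ z.1) x) :=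
        eqv_pull_pull smap_fstS hπ hk' (fun _ _ => rfl) x
      rw [ht, pull_smul', pull_smul', pull_pow', pull_pow']
      exact ((a6.pow _).smul l).symm
    exact (Coh.of_eqv a1.symm).trans (a2.trans ((Coh.of_eqv a3).trans (a4.trans (Coh.of_eqv a5))))
  have k6 : Coh (Sph X PX) (F.pull Prod.fst (b - t)) 0 := by
    have := k5.sub (Coh.refl (F.pull Prod.fst t))
    rw [sub_self] at this
    rwa [pull_sub']
  have dt : Hom j t := by
    by_cases hkj : k ∣ j
    · have := ((Hom.pull dx (f := π₁)).pow (j / k)).smul l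
      rwa [Nat.mul_div_cancel' hkj] at this
    · rw [ht, hl0 hkj, zero_smul]; exact Hom.zero
  have sbt : Sm X (b - t) := hb.sub st
  have cbt : Cl X (b - t) := Cl.sub hb st hcl ct
  have dbt : Hom j (b - t) := hd.sub dt
  rcases lt_or_ge j k with hlt | hge
  · have hnd : ¬ k ∣ j := fun h => by have := Nat.le_of_dvd hj h; omega
    refine ⟨fun _ => 0, fun _ _ => rfl, ?_⟩
    have h3 := h2.low j _ sbt cbt dbt hlt k6
    have h4 : t = 0 := by rw [ht, hl0 hnd, zero_smul]
    rw [h4, sub_zero] at h3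
    simpa using h3
  · obtain ⟨i, rfl⟩ := Nat.exists_eq_add_of_le' hge
    obtain ⟨c'', m1, m2, m3, m4⟩ := h2.high i _ sbt cbt dbt k6
    have hie : Even i := by
      obtain ⟨a, ha⟩ := hje
      obtain ⟨b, hb⟩ := hke
      exact ⟨a - b, by omega⟩
    obtain ⟨f, hf0, hfc⟩ := ih i (by omega) c'' hie (by omega) m1 m2 m3
    have hdiv : (i + k) / k = i / k + 1 := Nat.add_div_right i (by omega)
    refine ⟨fun a => if a = i / k + 1 then l else f a, ?_, ?_⟩
    · intro h a
      have h' : ¬ k ∣ i := fun h' => h (h'.add (dvd_refl k))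
      show (if a = i / k + 1 then l else f a) = 0
      rw [hf0 h' a, hl0 h]
      simp
    · have h3 := Coh.mul_right se ce hfc
      have h5 := (m4.trans h3).add (Coh.refl t)
      rw [sub_add_cancel] at h5
      refine h5.trans (Coh.of_eqv ?_)
      have h6 : ∀ a ∈ Finset.range (i / k + 1),
          (if a = i / k + 1 then l else f a) • (F.pull π₁ x ^ a * ep ^ (i / k + 1 - a)) =
          (f a • (F.pull π₁ x ^ a * ep ^ (i / k - a))) * ep := by
        intro a ha
        rw [Finset.mem_range] at ha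
        rw [if_neg (by omega), smul_mul_assoc, mul_assoc, ← pow_succ,
          show i / k - a + 1 = i / k + 1 - a by omega]
      have h7 : (∑ a ∈ Finset.range ((i + k) / k + 1),
          (if a = i / k + 1 then l else f a) • (F.pull π₁ x ^ a * ep ^ ((i + k) / k - a))) =
          (∑ a ∈ Finset.range (i / k + 1), f a • (F.pull π₁ x ^ a * ep ^ (i / k - a))) * ep + t := by
        rw [hdiv, Finset.sum_range_succ, Finset.sum_congr rfl h6, ← Finset.sum_mul, if_pos rfl,
          Nat.sub_self, pow_zero, mul_one, ht, hdiv]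
      rw [← h7]
      exact Eqv.refl _

end five

end Crest.Agent.R208.T
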