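import Crest.Agent.R208.XM1
import Crest.Agent.R208.TDefs

/-! Row 208, block XM (helper671).  XMDefs: the flat model of the pulled back link bundle on the
southern cap of `S⁴`, and the statement of the main theorem of the block. -/

set_option autoImplicit false

open scoped BigOperators ContDiff Topology Quaternion RealInnerProductSpace
open Module Set Filter

noncomputable section

namespace Crest.Agent.R208.XM

open Crest.Agent.R208.F Crest.Agent.R208.FI Crest.Agent.R208.CW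

/-- `P` a field of rank 4 orthogonal projections on `ℍ` with a nowhere vanishing section `s`, equal
to the tautological section `j` of the constant bundle `range j` for `‖v‖² ≥ 3/4`. -/
structure Flat {n : Type*} [Fintype n] (j : ℍ →ₗᵢ[ℝ] EuclideanSpace ℝ n)
    (P : ℍ → EuclideanSpace ℝ n →L[ℝ] EuclideanSpace ℝ n) (s : ℍ → EuclideanSpace ℝ n) :
    Prop where
  sP : ContDiff ℝ ∞ P
  ss : ContDiff ℝ ∞ s
  idem : ∀ v x, P v (P v x) = P v x
  sym : ∀ v x y, ⟪P v x, y⟫ = ⟪x, P v y⟫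
  rk : ∀ v, finrank ℝ
    (LinearMap.range (P v : EuclideanSpace ℝ n →ₗ[ℝ] EuclideanSpace ℝ n)) = 4
  Ps : ∀ v, P v (s v) = s v
  s0 : ∀ v, s v ≠ 0
  out : ∀ v, 3 / 4 ≤ ‖v‖ ^ 2 → s v = j v ∧ ∀ w : ℍ, P v (j w) = j w

/-- statement of the main theorem -/
def MainStmt : Prop := ∀ {n : Type} [Fintype n] [DecidableEq n]
    {j : ℍ →ₗᵢ[ℝ] EuclideanSpace ℝ n} {P : ℍ → EuclideanSpace ℝ n →L[ℝ] EuclideanSpace ℝ n}
    {s : ℍ → EuclideanSpace ℝ n}, Flat j P s → ∀ {Q : E5 → Matrix n n ℂ}, IdF X4 Q →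
    (∀ z ∈ X4, z.1 < 0 → Q z = T.mtx (P z.2)) → (∀ z ∈ X4, 0 ≤ z.1 → Q z = T.mtx (P 1)) →
    ∃ d : ℤ, JC 4 X4 o4 (sf 2 Q) = 16 * (Real.pi : ℂ) ^ 2 * (1 + 2 * d)

end Crest.Agent.R208.XM
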