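import Crest.Agent.R208.XM8a
import Crest.Agent.R208.XMDefs
import Crest.Agent.R208.SN10
import Crest.Agent.R208.VX2
import Crest.Agent.R208.TX6b

/-! Row 208, block XM (helper595).  XM8b: **`μ = 2 (1 + 2 d)`** for `k = 4`, from helper671's
`MainStmt`, the spread tower over a point and (X3). -/

set_option autoImplicit false
set_option linter.unusedSectionVars false

open MeasureTheory Set Filter Topology Module Matrix
open scoped ContDiff RealInnerProductSpace Quaternion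
open Crest.GeometryTopology.Submanifold
open Crest.Agent.R241.DDefs
open Crest.Agent.R241.D2
open Crest.Agent.R208.F Crest.Agent.R208.FI Crest.Agent.R208.CW Crest.Agent.R208.T Crest.Agent.R208.SN

noncomputable section

namespace Crest.Agent.R208.XM

section gen
variable {E : Type*} [NormedAddCommGroup E] [NormedSpace ℝ E] [FiniteDimensional ℝ E]
  {X : Set E} {d : ℕ} {o : E → Ext E}

theorem integ_rcl (hX : Clo d X) (ho : Ori d X o) {a : E → Ext E} (h : EC X a) :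
    integ hX ho (rcl h) = ((J d X o a : ℝ) : ℂ) := by
  rw [rcl, integ_cls]
  refine Complex.ext rfl ?_
  show J d X o (fun x => (0 : E → Ext E) x) = 0
  have h1 := J_smul (d := d) (X := X) (o := o) (om := fun _ => (0 : Ext E)) (0 : ℝ)
  simpa using h1

theorem pull_const_zero {E' : Type*} [NormedAddCommGroup E'] [NormedSpace ℝ E']
    [FiniteDimensional ℝ E'] {j : ℕ} {c : E'} {b : E' → Ext E'} (hj : 1 ≤ j) (hb : Hom j b) :
    F.pull (fun _ : E => c) b = 0 := by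
  funext y
  rw [F.pull, fderiv_fun_const]
  refine ext_evA fun q => ?_
  ext v
  rw [evA_pb]
  by_cases h : q = j
  · subst h
    show evA E' q (b c) (fun _ => 0) = evA E q (0 : Ext E) v
    rw [map_zero]
    exact (evA E' q (b c)).map_coord_zero (⟨0, by omega⟩ : Fin q) rfl
  · rw [hb c q h]
    show (0 : ℝ) = evA E q (0 : Ext E) v
    rw [map_zero]; rfl

/-- the second Chern class of a real field -/
theorem cc_two {n : Type*} [Fintype n] [DecidableEq n] (hX : Sub d X) {Q : E → Matrix n n ℂ}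
    (hQ : IdF X Q) (hr : ∀ x ∈ X, (Q x).map (starRingEnd ℂ) = Q x) :
    cc hX hQ 2 = (-(1 / 2) : ℂ) • CW.sc hX hQ 2 := by
  have h1 : CW.sc hX hQ 1 = 0 := by
    have h2 := VX.cc_real_odd hX hQ hr (j := 1) odd_one
    rw [cc_eq_el, el] at h2
    simpa [el_zero] using h2
  rw [cc_eq_el, el, Fin.sum_univ_two]
  simp only [Fin.val_zero, Fin.val_one, pow_zero, pow_one, zero_add, one_mul, h1, mul_zero,
    Nat.sub_self, el_zero, mul_one]
  rw [neg_mul, one_mul, smul_neg, neg_smul]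
  norm_num

end gen

section main
variable {n N : ℕ} {κ : ℝ} {S : Set (Euc N)} {G : Geo n N κ S}
  {ι : Type*} [Fintype ι] [DecidableEq ι] {W : Euc N × Euc N → (ι × Fin 2 → Fin N) → ℝ}

theorem nE_card (hι : 2 * Fintype.card ι = 4) : VX.nE ι = 8 := by
  have : Fintype.card ι = 2 := by omega
  rw [VX.nE, this]; norm_num [Nat.factorial]

theorem kGG_card (hι : 2 * Fintype.card ι = 4) : |kGG ι| / 2 = 32 * Real.pi ^ 2 := by
  have h2 : Fintype.card ι = 2 := by omega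
  have : Nonempty ι := Fintype.card_pos_iff.1 (by omega)
  rw [kGG_eq, h2, abs_of_pos (by positivity)]
  norm_num [Nat.factorial]
  ring

/-- the restriction of `V` to a cut locus, in `T_p` -/
theorem OR_PL {k : ℕ} (h : GT.Bla G k) {p : Euc N} (hp : p ∈ S) (hW : OR (GT.FF S) (FV.PVB h) W) :
    OR (GP.Cut S p) (PL h p) (fun q => W (p, q)) :=
  OR_comp hW (f := fun q => (p, q))
    ⟨fun _ _ => contDiffAt_const.prodMk contDiffAt_id, fun _ hq => mem_FF_Cut G hp hq⟩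

/-- **the integrality of `μ`**, `k = 4`; `c = ± 1` is the sign convention of (X1b) -/
theorem mu_four_gen (hM : MainStmt) (h : GT.Bla G 4) (hn : 4 < n) {p : Euc N} (hp : p ∈ S)
    {dF : ℕ} (hF : Sub dF (GT.FF S)) (hι : 2 * Fintype.card ι = 4)
    (hW : OR (GT.FF S) (FV.PVB h) W) {x : Euc N → Ext (Euc N)} (dx : Hom 4 x) (hx : EC S x)
    {c : ℝ} (hc : |c| = 1)
    (hrel : Coh (GT.FF S) (F.pull Prod.snd x) (F.pull Prod.fst x + c • eR (FV.PVB h) W)) {μ : ℝ}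
    (hμ : cc hF (GT.idf_mV (FV.vfield_PVB h)) 2 =
      (μ : ℂ) • (FG.xp (((VX.nE ι : ℝ) : ℂ)⁻¹ • rcl hx) + FG.xq (((VX.nE ι : ℝ) : ℂ)⁻¹ • rcl hx))) :
    ∃ d : ℤ, μ = 2 * (1 + 2 * d) := by
  obtain ⟨q, hq⟩ := Cut_nonempty h (by omega) hp
  have hW' := OR_PL h hp hW
  have hspr := spr_Cut h hp hW'
  obtain ⟨f, j, P', s, hf, hfm, hJ, f1, f2, f3, f4, f5, f6, f7, f8, f9, f10⟩ :=
    exists_flat hspr (by omega) (FV.clo_Cut h hp).sub hq (by rw [G.finrank_T p hp]; exact hn)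
  have hφ : SMap X4 (GT.FF S) (fun z => (p, f z)) :=
    ⟨fun z _ => contDiffAt_const.prodMk hf.contDiffAt, fun z hz => mem_FF_Cut G hp (hfm.maps hz)⟩
  set hV := GT.idf_mV (FV.vfield_PVB h) with hVdef
  have hr : ∀ z ∈ X4, (GT.mV (FV.PVB h) ((p, f z))).map (starRingEnd ℂ) = GT.mV (FV.PVB h) (p, f z) :=
    fun z _ => VX.mV_real _ _
  obtain ⟨d, hd⟩ := hM ⟨f1, f2, f3, f4, f5, f6, f7, f8⟩ (hV.comp hφ)
    (fun z hz h0 => by
      rw [VX.mV_eq, ← f9 z hz h0]; rfl)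
    (fun z hz h0 => by
      rw [VX.mV_eq, ← f10 z hz h0]; rfl)
  -- the left side
  have e1 : integ clo_X4 ori_X4 (H.map hφ (cc hF hV 2)) = -(8 * (Real.pi : ℂ) ^ 2 * (1 + 2 * d)) := by
    rw [cc_map sub_X4 hF hφ hV 2, cc_two sub_X4 (hV.comp hφ) hr, map_smul, CW.sc, integ_cls, hd,
      smul_eq_mul]
    ring
  -- the right side
  have hfx : SMap X4 S f := ⟨hfm.smooth, fun z hz => (hfm.maps hz).1⟩
  have hcp : SMap X4 S (fun _ => p) := ⟨fun _ _ => contDiffAt_const, fun _ _ => hp⟩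
  have e2 : integ clo_X4 ori_X4 (H.map hφ (FG.xp (rcl hx))) = 0 := by
    rw [FG.xp, H.map_map]
    have : H.map (FG.smap_fst.comp hφ) (rcl hx) = rcl (hx.pull (FG.smap_fst.comp hφ)) :=
      (rcl_pull _ _).symm
    rw [this, integ_rcl]
    show ((J 4 X4 o4 (F.pull (fun _ => p) x) : ℝ) : ℂ) = 0
    rw [pull_const_zero (by norm_num) dx]
    have h1 := J_smul (d := 4) (X := X4) (o := o4) (om := fun _ => (0 : Ext E5)) (0 : ℝ)
    have h2 : J 4 X4 o4 (0 : E5 → Ext E5) = 0 := by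
      show J 4 X4 o4 (fun _ => (0 : Ext E5)) = 0
      simpa using h1
    rw [h2]; simp
  have e3 : integ clo_X4 ori_X4 (H.map hφ (FG.xq (rcl hx))) = ((J 4 X4 o4 (F.pull f x) : ℝ) : ℂ) := by
    rw [FG.xq, H.map_map]
    have : H.map (FG.smap_snd.comp hφ) (rcl hx) = rcl (hx.pull (FG.smap_snd.comp hφ)) :=
      (rcl_pull _ _).symm
    rw [this, integ_rcl]
  -- the value
  have e4 : |J 4 X4 o4 (F.pull f x)| = 32 * Real.pi ^ 2 := by
    have g1 : Coh X4 (F.pull f x) (c • F.pull f (eR (PL h p) (fun q => W (p, q)))) := by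
      have g2 := hrel.pull hφ
      have g3 : Eqv X4 (F.pull (fun z => (p, f z)) (F.pull Prod.snd x)) (F.pull f x) :=
        eqv_pull_pull hφ FG.smap_snd hfx (fun _ _ => rfl) x
      have g4 : Eqv X4 (F.pull (fun z => (p, f z)) (F.pull Prod.fst x)) 0 := by
        have := eqv_pull_pull hφ FG.smap_fst hcp (fun _ _ => rfl) x
        rwa [pull_const_zero (by norm_num) dx] at this
      have g5 : Eqv X4 (F.pull (fun z => (p, f z)) (eR (FV.PVB h) W))
          (F.pull f (eR (PL h p) (fun q => W (p, q)))) :=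
        (eqv_pull_eR hW hφ).trans (eqv_pull_eR hW' hfm).symm
      refine (Coh.of_eqv g3.symm).trans (g2.trans (Coh.of_eqv ?_))
      rw [pull_add', pull_smul']
      have := g4.add (g5.smul c)
      rwa [zero_add] at this
    have sx : Sm X4 (F.pull f x) := (hx.pull hfx).sm
    have se : Sm X4 (F.pull f (eR (PL h p) (fun q => W (p, q)))) := ((VX.ec_eR hW').pull hfm).sm
    have g6 := J_of_coh clo_X4 ori_X4 sx (se.smul c) g1
    rw [g6]
    have g7 : J 4 X4 o4 (c • F.pull f (eR (PL h p) (fun q => W (p, q))))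
        = c * J 4 X4 o4 (F.pull f (eR (PL h p) (fun q => W (p, q)))) := J_smul _
    rw [g7, abs_mul, hc, one_mul, hJ, kGG_card hι]
  have e5 : integ clo_X4 ori_X4 (H.map hφ (cc hF hV 2)) = integ clo_X4 ori_X4 (H.map hφ
      ((μ : ℂ) • (FG.xp (((VX.nE ι : ℝ) : ℂ)⁻¹ • rcl hx)
        + FG.xq (((VX.nE ι : ℝ) : ℂ)⁻¹ • rcl hx)))) := by rw [hμ]
  rw [e1, map_smul, map_smul, map_add, map_add] at e5
  have e6 : FG.xp (((VX.nE ι : ℝ) : ℂ)⁻¹ • rcl hx) = ((VX.nE ι : ℝ) : ℂ)⁻¹ • FG.xp (rcl hx) := by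
    rw [FG.xp, map_smul, ← FG.xp]
  have e7 : FG.xq (((VX.nE ι : ℝ) : ℂ)⁻¹ • rcl hx) = ((VX.nE ι : ℝ) : ℂ)⁻¹ • FG.xq (rcl hx) := by
    rw [FG.xq, map_smul, ← FG.xq]
  rw [e6, e7, map_smul, map_smul, map_smul, map_smul, e2, e3, smul_zero, zero_add, smul_eq_mul,
    smul_eq_mul, nE_card hι] at e5
  have e8 : -(8 * Real.pi ^ 2 * (1 + 2 * d)) = μ * ((8 : ℝ)⁻¹ * J 4 X4 o4 (F.pull f x)) := by
    have : ((-(8 * Real.pi ^ 2 * (1 + 2 * d)) : ℝ) : ℂ)
        = ((μ * ((8 : ℝ)⁻¹ * J 4 X4 o4 (F.pull f x)) : ℝ) : ℂ) := by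
      push_cast
      rw [e5]
      push_cast
      ring
    exact_mod_cast this
  have hpi : (0 : ℝ) < Real.pi ^ 2 := by positivity
  rcases abs_cases (J 4 X4 o4 (F.pull f x)) with ⟨h1, -⟩ | ⟨h1, -⟩
  · rw [h1] at e4
    rw [e4] at e8
    refine ⟨-1 - d, ?_⟩
    push_cast
    have : Real.pi ^ 2 * (μ + 2 * (1 + 2 * d)) = 0 := by linarith
    rcases mul_eq_zero.1 this with h2 | h2
    · exact absurd h2 hpi.ne'
    · linarith
  · rw [h1] at e4
    have e4' : J 4 X4 o4 (F.pull f x) = -(32 * Real.pi ^ 2) := by linarith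
    rw [e4'] at e8
    refine ⟨d, ?_⟩
    have : Real.pi ^ 2 * (μ - 2 * (1 + 2 * d)) = 0 := by linarith
    rcases mul_eq_zero.1 this with h2 | h2
    · exact absurd h2 hpi.ne'
    · linarith

/-- **(X10)** for `helper316`'s class `x` (`snd^* x ~ fst^* x - ε`): `μ` is twice an odd integer -/
theorem mu_four {ι : Type} [Fintype ι] [DecidableEq ι] {W : Euc N × Euc N → (ι × Fin 2 → Fin N) → ℝ}
    (hM : MainStmt) {h : GT.Bla G 4} {m : ℕ} {p : Euc N} {x : Euc N → Ext (Euc N)}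
    (D : T.XM h m W p x) {dF : ℕ} (hF : Sub dF (GT.FF S)) (hx : EC S x) {μ : ℝ}
    (hμ : cc hF (GT.idf_mV (FV.vfield_PVB h)) 2 =
      (μ : ℂ) • (FG.xp (((VX.nE ι : ℝ) : ℂ)⁻¹ • rcl hx) + FG.xq (((VX.nE ι : ℝ) : ℂ)⁻¹ • rcl hx))) :
    ∃ d : ℤ, μ = 2 * (1 + 2 * d) := by
  refine mu_four_gen hM h D.hkn D.hp hF D.hι D.hW D.dx hx (c := -1) (by norm_num) ?_ hμ
  have := D.snd_class
  rwa [sub_eq_add_neg, ← neg_one_smul ℝ (eR (FV.PVB h) W)] at this

/-- **(X10)** in the sign convention of (X3) (`snd^* x ~ fst^* x + ε`) -/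
theorem mu_four' (hM : MainStmt) (h : GT.Bla G 4) (hn : 4 < n) {p : Euc N} (hp : p ∈ S)
    {dF : ℕ} (hF : Sub dF (GT.FF S)) (hι : 2 * Fintype.card ι = 4)
    (hW : OR (GT.FF S) (FV.PVB h) W) {x : Euc N → Ext (Euc N)} (dx : Hom 4 x) (hx : EC S x)
    (hrel : Coh (GT.FF S) (F.pull Prod.snd x) (F.pull Prod.fst x + eR (FV.PVB h) W)) {μ : ℝ}
    (hμ : cc hF (GT.idf_mV (FV.vfield_PVB h)) 2 =
      (μ : ℂ) • (FG.xp (((VX.nE ι : ℝ) : ℂ)⁻¹ • rcl hx) + FG.xq (((VX.nE ι : ℝ) : ℂ)⁻¹ • rcl hx))) :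
    ∃ d : ℤ, μ = 2 * (1 + 2 * d) :=
  mu_four_gen hM h hn hp hF hι hW dx hx (c := 1) abs_one (by rwa [one_smul]) hμ

end main

end Crest.Agent.R208.XM
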