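import Crest.Agent.R208.EZ1
import Crest.Agent.R208.XM8b
import Crest.Agent.R208.SN10
import Crest.Agent.R208.SO1

/-! Row 208, block Q (helper423), part CQ1: `|∫_{C_q} x| = τ` for `n = 2 k`, every `q ∈ S`. -/

set_option autoImplicit false
set_option linter.unusedSectionVars false
set_option linter.unusedVariables false

open MeasureTheory Set Filter Topology Module
open scoped ContDiff RealInnerProductSpace
open Crest.GeometryTopology.Submanifold
open Crest.Agent.R241.DDefs
open Crest.Agent.R241.D2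
open Crest.Agent.R208.F Crest.Agent.R208.FI
open Crest.Agent.R208.CW (SMap)
open Crest.Agent.R208.T (Sm Cl Eqv Coh eqv_iff Hom OR eR)

noncomputable section

namespace Crest.Agent.R208.CQ

variable {n N k m : ℕ} {κ : ℝ} {S : Set (Euc N)} {G : Geo n N κ S}
  {ι : Type} [Fintype ι] [DecidableEq ι] {W : Euc N × Euc N → (ι × Fin 2 → Fin N) → ℝ}
  {p q : Euc N} {x o : Euc N → Ext (Euc N)}

theorem smap_Cut' (G : Geo n N κ S) (hq : q ∈ S) : SMap (GP.Cut S q) (GT.FF S) (fun c : Euc N => (q, c)) :=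
  ⟨fun _ _ => contDiffAt_const.prodMk contDiffAt_id, fun _ hc => SN.mem_FF_Cut G hq hc⟩

/-- `x` on a cut locus, in terms of the planes `V_qc` -/
theorem restr_PL {h : GT.Bla G k} (D : T.XM h m W p x) (hq : q ∈ S) :
    Coh (GP.Cut S q) x (-eR (SN.PL h q) (fun c => W (q, c))) := by
  have hk := D.hk
  have hm := smap_Cut' G hq
  have he : Eqv (GP.Cut S q) (F.pull (fun c : Euc N => (q, c)) (eR (FV.PVB h) W))
      (eR (SN.PL h q) (fun c => W (q, c))) := T.eqv_pull_eR D.hW hm
  obtain ⟨a2, a3⟩ := T.restr_class T.smap_snd_FF T.smap_fst_FF (by omega : 1 ≤ k) D.dx hm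
    (fun c hc => hc.1) (fun _ _ => rfl) (fun _ _ => rfl) (p := q)
  have a1 := D.snd_class.pull hm
  rw [T.pull_sub'] at a1
  have b := ((Coh.of_eqv a2.symm).trans a1).trans ((Coh.of_eqv a3).sub (Coh.of_eqv he))
  rwa [zero_sub] at b

/-- **the period of `x` over a cut locus**, `n = 2 k`. -/
theorem J_Cut_val {h : GT.Bla G k} (D : T.XM h 2 W p x) (hq : q ∈ S)
    (ho : Ori (n - k) (GP.Cut S q) o) : |J (n - k) (GP.Cut S q) o x| = XF.tau ι := by
  have hk := D.hk
  have hn := D.hn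
  have hι := D.hι
  have : Nonempty ι := Fintype.card_pos_iff.1 (by omega)
  have hW' := XM.OR_PL h hq D.hW
  have hC := FV.clo_Cut h hq
  have hd : n - k = Fintype.card ι * 2 := by omega
  have e1 : J (n - k) (GP.Cut S q) o x =
      -J (n - k) (GP.Cut S q) o (eR (SN.PL h q) (fun c => W (q, c))) := by
    have sE : Sm (GP.Cut S q) (eR (SN.PL h q) (fun c => W (q, c))) := hW'.ec_eR.sm
    rw [SO.J_coh hC ho (fun c hc => D.sx c hc.1) sE.neg (restr_PL D hq)]
    have := J_smul (d := n - k) (X := GP.Cut S q) (o := o)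
      (om := eR (SN.PL h q) (fun c => W (q, c))) (-1 : ℝ)
    rw [neg_one_mul] at this
    rw [← this]
    refine congrArg _ (funext fun c => ?_)
    rw [Pi.neg_apply, neg_one_smul]
  rw [e1, abs_neg]
  obtain ⟨D', hD'⟩ := SN.spread_Cut h hι (i := 1) hk (by omega) hq hW' ho
  rw [pow_one, pow_one] at hD'
  change _ = XF.tau ι at hD'
  rw [hd] at hC ho hD' ⊢
  obtain ⟨z, hz⟩ := EZ.euler_int hC ho hW'
  have ht := XF.tau_pos ι
  rw [hz] at hD' ⊢
  have h1 : |(D' : ℝ) * z| = 1 := by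
    have h2 : |(D' : ℝ) * (XF.tau ι * z)| = XF.tau ι * |(D' : ℝ) * z| := by
      rw [show (D' : ℝ) * (XF.tau ι * z) = XF.tau ι * (D' * z) by ring, abs_mul, abs_of_pos ht]
    rw [h2] at hD'
    have h3 : XF.tau ι * (|(D' : ℝ) * z| - 1) = 0 := by linarith
    rcases mul_eq_zero.1 h3 with h4 | h4
    · exact absurd h4 ht.ne'
    · linarith
  have h2 : |D' * z| = 1 := by exact_mod_cast h1
  have h3 : |z| = 1 := by
    rw [abs_mul] at h2
    exact Int.eq_one_of_mul_eq_one_left (abs_nonneg _) h2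
  have h4 : |(z : ℝ)| = 1 := by exact_mod_cast h3
  rw [abs_mul, abs_of_pos ht, h4, mul_one]

end Crest.Agent.R208.CQ
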