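import Crest.Agent.R208.JV3

/-! Row 208, block JV (helper638).  JV3b: the period of the angular form. -/

set_option autoImplicit false
set_option linter.unusedSectionVars false

open MeasureTheory MeasureTheory.Measure Set Filter Topology Module Matrix
open scoped ContDiff RealInnerProductSpace ENNReal NNReal
open Crest.Agent.R208.F Crest.Agent.R208.FI Crest.Agent.R208.CW Crest.Agent.R208.T
open Crest.Agent.R208.SN
open Crest.Agent.R208.RR (Cyl sl K)
open Crest.Agent.R208.RRC (Swp)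

noncomputable section

namespace Crest.Agent.R208.JV

universe u v

section gen
variable {E : Type u} [NormedAddCommGroup E] [NormedSpace ℝ E] [FiniteDimensional ℝ E]
  {X : Set E} {d : ℕ} {o o' : E → Ext E}

theorem abs_J_ori (hX : Clo d X) (hXc : IsPreconnected X) (ho : Ori d X o) (ho' : Ori d X o')
    (om : E → Ext E) : |J d X o' om| = |J d X o om| := by
  rcases J_ori_connected hX ho ho' hXc with h | h
  · rw [h]
  · rw [h, abs_neg]

variable {H : Type v} [NormedAddCommGroup H] [InnerProductSpace ℝ H] [FiniteDimensional ℝ H]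
  {P : E → H →L[ℝ] H} {r : ℕ}

theorem pB_ER : (pB ∘ ER : (E × H) × ℝ → E) = fun q => q.1.1 := rfl

theorem pull_ER_pB (b : E → Ext E) (q : (E × H) × ℝ) :
    F.pull (ER (E := E) (H := H)) (F.pull (pB (E := E) (H := H)) b) q =
      F.pull (Prod.fst : (E × H) × ℝ → E × H) (F.pull (Prod.fst : E × H → E) b) q :=
  (pull_pull_at (E₁ := (E × H) × ℝ) (E₂ := (E × H) × ℝ) (E₃ := E) (f := ER) (g := pB)
    (h := fun q => q.1.1) (contDiff_ER.contDiffAt.differentiableAt (by simp))
    (by unfold pB; fun_prop) rfl b).trans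
  (pull_pull_at (E₁ := (E × H) × ℝ) (E₂ := E × H) (E₃ := E) (f := Prod.fst) (g := Prod.fst)
    (h := fun q => q.1.1) differentiableAt_fst differentiableAt_fst rfl b).symm

theorem Hop_mul_pB {w : (E × H) × ℝ → Ext ((E × H) × ℝ)} (hw : Sm (SB X P) w) (b : E → Ext E)
    {z : E × H} (hz : z ∈ Sph X P) :
    Hop (ER (E := E) (H := H)) (w * F.pull (pB (E := E) (H := H)) b) z =
      Hop (ER (E := E) (H := H)) w z * F.pull (Prod.fst : E × H → E) b z := by
  have h1 : F.pull (ER (E := E) (H := H)) (w * F.pull (pB (E := E) (H := H)) b) =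
      F.pull (ER (E := E) (H := H)) w * F.pull (Prod.fst : (E × H) × ℝ → E × H)
        (F.pull (Prod.fst : E × H → E) b) := by
    rw [pull_mul']
    exact congrArg _ (funext fun q => pull_ER_pB b q)
  have h2 : RRC.IK (E := E × H) (F.pull (ER (E := E) (H := H)) w) z :=
    RRC.IK.of_sm (E := E × H) (Z := Sph X P) (Sm.pull smap_ER hw) hz
  show K (E := E × H) (F.pull (ER (E := E) (H := H)) (w * F.pull (pB (E := E) (H := H)) b)) z =
    K (E := E × H) (F.pull (ER (E := E) (H := H)) w) z * F.pull (Prod.fst : E × H → E) b z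
  rw [h1]
  exact RRC.K_mul_fst (E := E × H) h2 (F.pull (Prod.fst : E × H → E) b)

end gen

variable {n ι : Type} [Fintype n] [DecidableEq n] [Fintype ι] [DecidableEq ι]
  {E : Type u} [NormedAddCommGroup E] [NormedSpace ℝ E] [FiniteDimensional ℝ E]
  {X : Set E} {P : E → EuclideanSpace ℝ n →L[ℝ] EuclideanSpace ℝ n}
  {W : E → (ι × Fin 2 → n) → ℝ} {d r : ℕ} {oX b : E → Ext E}

theorem smap_pB : SMap (SB X P) X (pB : (E × EuclideanSpace ℝ n) × ℝ → E) :=
  ⟨fun z _ => by unfold pB; fun_prop, fun z hz => (SB_iff.1 hz).1⟩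

/-- the orientation of the sphere bundle of `V ⊕ ℝ` -/
def oSB (W : E → (ι × Fin 2 → n) → ℝ) (oX : E → Ext E) :
    (E × EuclideanSpace ℝ n) × ℝ → Ext ((E × EuclideanSpace ℝ n) × ℝ) :=
  oVf W * F.pull (pB (E := E) (H := EuclideanSpace ℝ n)) oX

theorem pfr (h : OR X P W) (hr : r + 1 = Fintype.card ι * 2) : PField X (r + 1) P := by
  rw [hr]
  exact pfR h

theorem ori_oSB (hX : Clo d X) (hoX : Ori d X oX) (dX : Hom d oX) (h : OR X P W)
    (hr : r + 1 = Fintype.card ι * 2) : Ori (1 + (r + d)) (SB X P) (oSB W oX) := by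
  have h1 := ori_SB hX hoX h (fun x hx => OR_sym h hx)
    (fun x _ q hq => SO.evA_lt_of_hom dX x q hq)
  rw [show 1 + (r + d) = Fintype.card ι * 2 + d by omega]
  exact h1

theorem J_om_mul [Nonempty ι] (hX : Clo d X) (hXc : IsPreconnected X) (hoX : Ori d X oX)
    (dX : Hom d oX) (h : OR X P W) (hr : r + 1 = Fintype.card ι * 2) (sb : Sm X b) (db : Hom d b)
    {x : E} (hx : x ∈ X) : J (1 + (r + d)) (SB X P) (oSB W oX)
      (om P W * F.pull (pB (E := E) (H := EuclideanSpace ℝ n)) b) =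
      J (Fintype.card ι * 2) (SB X P ∩ pB ⁻¹' {x}) (oVf W) (om P W) * J d X oX b :=
  SO.fib (by omega) (subm_SB hX (pfR h) (fun x hx => OR_sym h hx)) hXc hoX dX
    (continuousOn_oVf h) (ori_oSB hX hoX dX h hr) (sm_om hX.sub h) (cl_om hX.sub h) sb db hx

/-- **the period of the angular form** (orientation of `JV.swp`) -/
theorem abs_J_KE [Nonempty ι] (hX : Clo d X) (hXc : IsPreconnected X) (hoX : Ori d X oX)
    (dX : Hom d oX) (h : OR X P W) (hr : r + 1 = Fintype.card ι * 2) (sb : Sm X b) (db : Hom d b)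
    (hne : X.Nonempty) :
    |J (r + d) (Sph X P) (Hop (ER (E := E) (H := EuclideanSpace ℝ n)) (oSB W oX))
      (K (E := E × EuclideanSpace ℝ n) (pE P W) * F.pull Prod.fst b)| =
      |kGG ι| * |J d X oX b| := by
  obtain ⟨x, hx⟩ := hne
  have hS := swp hX (pfr h hr)
  have so := sm_om hX.sub h
  have h1 := hS.J_eq (ori_oSB hX hoX dX h hr)
    (w := om P W * F.pull (pB (E := E) (H := EuclideanSpace ℝ n)) b)
    (RR.Sm.cont (so.mul (sb.pull smap_pB)))
  have h2 : J (r + d) (Sph X P) (Hop (ER (E := E) (H := EuclideanSpace ℝ n)) (oSB W oX))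
      (K (E := E × EuclideanSpace ℝ n) (pE P W) * F.pull Prod.fst b) =
      J (r + d) (Sph X P) (Hop (ER (E := E) (H := EuclideanSpace ℝ n)) (oSB W oX))
      (Hop (ER (E := E) (H := EuclideanSpace ℝ n))
        (om P W * F.pull (pB (E := E) (H := EuclideanSpace ℝ n)) b)) :=
    SO.J_eqv hS.cloZ (Eqv.of_eq fun z hz => (Hop_mul_pB so b hz).symm)
  rw [h2, h1, J_om_mul hX hXc hoX dX h hr sb db hx, abs_mul,
    J_om hX hoX (fun x _ q hq => SO.evA_lt_of_hom dX x q hq) h hx]

theorem kGG_tau (ι : Type) [Fintype ι] [Nonempty ι] : kGG ι = 2 * XF.tau ι := by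
  rw [kGG_eq, XF.tau]

/-- **the period of the angular form** -/
theorem abs_J_ang [Nonempty ι] (hX : Clo d X) (hXc : IsPreconnected X) (hoX : Ori d X oX)
    (h : OR X P W) (hr : r + 1 = Fintype.card ι * 2) (sb : Sm X b) (db : Hom d b)
    (hne : X.Nonempty) {o : E × EuclideanSpace ℝ n → Ext (E × EuclideanSpace ℝ n)}
    (ho : Ori (r + d) (Sph X P) o) :
    |J (r + d) (Sph X P) o (ang P W * F.pull Prod.fst b)| = XF.tau ι * |J d X oX b| := by
  have hoX' := ori_dp hoX
  have dX' : Hom d (dp d oX) := fun x => isDeg_dpl _ _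
  have hcl : Clo (r + d) (Sph X P) := SB.clo_Sph hX (pfr h hr)
  have hcn : IsPreconnected (Sph X P) :=
    preconn_Sph hX.compact hXc (pfr h hr) (by have := Fintype.card_pos (α := ι); omega)
  have hS := swp hX (pfr h hr)
  have e1 := abs_J_KE hX hXc hoX' dX' h hr sb db hne
  have e2 := abs_J_ori hcl hcn (hS.ori (ori_oSB hX hoX' dX' h hr)) ho
    (K (E := E × EuclideanSpace ℝ n) (pE P W) * F.pull Prod.fst b)
  have e3 : J (r + d) (Sph X P) o (ang P W * F.pull Prod.fst b) =
      2⁻¹ * J (r + d) (Sph X P) o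
        (K (E := E × EuclideanSpace ℝ n) (pE P W) * F.pull Prod.fst b) := by
    rw [← RR.J_smul']
    congr 1
    funext z
    simp only [ang, Pi.smul_apply, Pi.mul_apply, smul_mul_assoc]
  rw [e3, abs_mul, e2, e1, abs_J_ori hX hXc hoX hoX' b, kGG_tau, abs_mul,
    abs_of_pos (XF.tau_pos ι), abs_of_pos (by norm_num : (0 : ℝ) < 2⁻¹),
    abs_of_pos (by norm_num : (0 : ℝ) < 2)]
  ring

theorem OR.mono {X' : Set E} (hs : X' ⊆ X) (h : OR X P W) : OR X' P W where
  sP x hx := h.sP x (hs hx)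
  sW x hx := h.sW x (hs hx)
  fr x hx := h.fr x (hs hx)

theorem Sph_point {x : E} (hx : x ∈ X) :
    Sph ({x} : Set E) P = Sph X P ∩ (Prod.fst : E × EuclideanSpace ℝ n → E) ⁻¹' {x} := by
  ext ⟨y, v⟩
  constructor
  · rintro ⟨⟨h1, h2⟩, h3⟩
    obtain rfl : y = x := h1
    exact ⟨⟨⟨hx, h2⟩, h3⟩, rfl⟩
  · rintro ⟨⟨⟨h1, h2⟩, h3⟩, h4⟩
    exact ⟨⟨h4, h2⟩, h3⟩

/-- **the integral of the angular form over one sphere** -/
theorem abs_J_ang_fib [Nonempty ι] (h : OR X P W) (hr : r + 1 = Fintype.card ι * 2) {x : E}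
    (hx : x ∈ X) {o : E × EuclideanSpace ℝ n → Ext (E × EuclideanSpace ℝ n)}
    (ho : Ori r (Sph X P ∩ (Prod.fst : E × EuclideanSpace ℝ n → E) ⁻¹' {x}) o) :
    |J r (Sph X P ∩ (Prod.fst : E × EuclideanSpace ℝ n → E) ⁻¹' {x}) o (ang P W)| = XF.tau ι := by
  rw [← Sph_point hx] at ho ⊢
  have h1 := abs_J_ang (d := 0) (b := 1) (clo_point x) isPreconnected_singleton (ori_point x)
    (OR.mono (singleton_subset_iff.2 hx) h) hr (fun _ _ => contDiffAt_const)
    (fun _ => T.isDeg_one) (singleton_nonempty x) (o := o) ho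
  rw [J_point, abs_one, mul_one] at h1
  rw [← h1, RR.pull_one', mul_one, Nat.add_zero]

end Crest.Agent.R208.JV
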