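import Crest.Agent.R208.JW1

/-! Row 208, block (JV4-S) (helper126).  JW2: comparison of `κ = K(E^*x)` with a global angular form
`kap` of the sphere bundle of `V_{·p}` over the cut locus; the value of `∫_S x^m`. -/

set_option autoImplicit false
set_option linter.unusedSectionVars false
set_option linter.unusedVariables false

open MeasureTheory Set Filter Topology Module
open scoped ContDiff RealInnerProductSpace
open Crest.GeometryTopology.Submanifold
open Crest.Agent.R241.DDefs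
open Crest.Agent.R241.D2
open Crest.Agent.R208.F Crest.Agent.R208.FI Crest.Agent.R208.CW Crest.Agent.R208.T
open Crest.Agent.R208.RR
open Crest.Agent.R208.L (US)
open Crest.Agent.R208.RRC (EE)

noncomputable section

namespace Crest.Agent.R208.JW

variable {n N k : ℕ} {κ : ℝ} {S : Set (Euc N)} {G : Geo n N κ S} {p : Euc N}
  {ι : Type} [Fintype ι] [DecidableEq ι] {x oS : Euc N → Ext (Euc N)}

/-- `arr` is a diffeomorphism from the sphere bundle of `V_{·p}` to `U_p` -/
theorem dif_YU (h : GT.Bla G k) (hp : p ∈ S) : SB.Dif (YC h p) (Up G p) (FV.arr G) (FV.arr G) where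
  fw := smap_YU h hp
  inv := smap_UY h hp
  left _ hz := FV.arr_arr_Cut h hp hz
  right _ hz := FV.arr_arr hz.1

theorem hom_kU (hk : 1 ≤ k) (dx : Hom k x) : Hom (k - 1) (kU G x) := fun z =>
  RRC.isDeg_K (p := k - 1) (fun y => by
    have : Hom k (F.pull (EE G) x) := dx.pull
    rw [Nat.sub_add_cancel hk]; exact this y) z

theorem hom_kY (hk : 1 ≤ k) (dx : Hom k x) : Hom (k - 1) (kY G x) := (hom_kU hk dx).pull

/-- any form with the same differential (up to sign) represents `∓ κ` up to exact forms -/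
theorem coh_kY (h : GT.Bla G k) (hk : 2 ≤ k) (hkn : k < n) (hp : p ∈ S) (sx : Sm S x) (cx : Cl S x)
    (dx : Hom k x) {kap : Euc N × Euc N → Ext (Euc N × Euc N)} (sk : Sm (YC h p) kap)
    (dk : Hom (k - 1) kap) (e : Eqv (YC h p) (F.d kap) (-(F.pull Prod.fst x))) :
    Coh (YC h p) (kY G x) (-kap) := by
  have s1 := sm_kY h hp sx
  have h1 : Cl (YC h p) (kY G x + kap) := by
    rw [Cl, resZero_iff]
    have a1 : Eqv (YC h p) (F.d (kY G x + kap)) (F.d (kY G x) + F.d kap) := d_add_eqv s1 sk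
    have a2 := (d_kY h (by omega) hp sx cx dx).add e
    rw [add_neg_cancel] at a2
    exact a1.trans a2
  have h2 := exactIn_Sph_Cut h hp (j := k - 1) (by omega) (by omega) _ (s1.add sk) h1
    ((hom_kY (by omega) dx).add dk)
  have h3 := h2.sub (Coh.refl (X := YC h p) kap)
  rwa [add_sub_cancel_right, zero_sub] at h3

/-- **THE VALUE OF `x^m`**: comparison with an angular form `kap` of the sphere bundle -/
theorem J_S_of (h : GT.Bla G k) (hk : 2 ≤ k) (hkn : k < n) (hp : p ∈ S) (sx : Sm S x) (cx : Cl S x)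
    (dx : Hom k x) (hoS : Ori n S oS) {kap : Euc N × Euc N → Ext (Euc N × Euc N)}
    (sk : Sm (YC h p) kap) (dk : Hom (k - 1) kap)
    (e : Eqv (YC h p) (F.d kap) (-(F.pull Prod.fst x))) (i : ℕ) {c : ℝ}
    (hv : ∀ oY, Ori (n - 1) (YC h p) oY →
      |J (n - 1) (YC h p) oY (kap * F.pull Prod.fst (x ^ i))| = c) :
    |J n S oS (x ^ (i + 1))| = c := by
  obtain ⟨oU, hoU, h1⟩ := J_S_eq h (by omega) (by omega) hp sx cx dx hoS i
  have hY := clo_YC h (by omega : 1 ≤ k) hkn hp
  have hU := clo_Up h (by omega) p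
  have hD := dif_YU h hp
  have hoY : Ori (n - 1) (YC h p) (F.pull (FV.arr G) oU) :=
    FI.Ori.pull hY hU (fun z hz => (hD.fw.smooth z hz).of_le (by exact_mod_cast le_top))
      hD.fw.maps (fun z hz v hv h0 => hD.inj hz hv h0) hoU
  have sF : Sm (Up G p) (F.pull (fun z => EE G (z, 1)) x) := sx.pull smap_E1
  have sW : Sm (Up G p) (kU G x * F.pull (fun z => EE G (z, 1)) x ^ i) :=
    (sm_kU sx).mul (T.Sm.pow sF i)
  have h2 := J_pull hY hU (fun z hz => hD.fw.diff hz) (bij_YU h hp) hoU (Sm.cont sW)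
  have sb : Sm (YC h p) (F.pull Prod.fst (x ^ i)) := (T.Sm.pow sx i).pull (smap_fstC h)
  have cb : Cl (YC h p) (F.pull Prod.fst (x ^ i)) :=
    Cl.pull (smap_fstC h) (T.Sm.pow sx i) (T.Cl.pow sx cx i)
  have h3 : Eqv (YC h p) (F.pull (FV.arr G) (kU G x * F.pull (fun z => EE G (z, 1)) x ^ i))
      (kY G x * F.pull Prod.fst (x ^ i)) := by
    rw [pull_mul']
    refine (Eqv.refl _).mul ?_
    have := pull_E1_arr h hp (x ^ i)
    rwa [T.pull_pow'] at this
  have h4 : Coh (YC h p) (kY G x * F.pull Prod.fst (x ^ i)) (-kap * F.pull Prod.fst (x ^ i)) :=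
    Coh.mul_right sb cb (coh_kY h hk hkn hp sx cx dx sk dk e)
  have h5 := SO.J_coh hY hoY ((sm_kY h hp sx).mul sb) (sk.neg.mul sb) h4
  have h6 : J (n - 1) (YC h p) (F.pull (FV.arr G) oU) (-kap * F.pull Prod.fst (x ^ i)) =
      -J (n - 1) (YC h p) (F.pull (FV.arr G) oU) (kap * F.pull Prod.fst (x ^ i)) := by
    have : -kap * F.pull Prod.fst (x ^ i) = (-1 : ℝ) • (kap * F.pull Prod.fst (x ^ i)) := by
      rw [neg_mul, neg_one_smul]
    rw [this, J_smul', neg_one_mul]
  rw [h1, ← h2, J_eqv hY h3, h5, h6, abs_neg]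
  exact hv _ hoY

end Crest.Agent.R208.JW
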