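import Crest.Agent.R208.TX7b
import Crest.Agent.R208.SB2

/-! Row 208, block T (helper316).  TX8: the data `UD` for Blaschke manifolds. -/

set_option autoImplicit false
set_option linter.unusedSectionVars false

open MeasureTheory Set Filter Topology Module
open scoped ContDiff RealInnerProductSpace Matrix
open Crest.GeometryTopology.Submanifold
open Crest.Agent.R241.DDefs
open Crest.Agent.R241.D2
open Crest.Agent.R208.F Crest.Agent.R208.FI Crest.Agent.R208.CW
open Crest.Agent.R208.L (US TanTS)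

noncomputable section

namespace Crest.Agent.R208.T

variable {n N k m : ℕ} {κ : ℝ} {S : Set (Euc N)} {G : Geo n N κ S} {p : Euc N}
  {ι : Type} [Fintype ι] [DecidableEq ι] {W : Euc N × Euc N → (ι × Fin 2 → Fin N) → ℝ}
  {x : Euc N → Ext (Euc N)} {m' : Type} [Fintype m'] [DecidableEq m']
  {M : Matrix m' (Fin N) ℝ}

/-- the geodesic flow on the pushed sphere bundle -/
def flM (G : Geo n N κ S) (M : Matrix m' (Fin N) ℝ) (t : ℝ)
    (z : Euc N × EuclideanSpace ℝ m') : Euc N × EuclideanSpace ℝ m' :=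
  ((fl G ((z.1, mE Mᵀ z.2), t)).1, mE M (fl G ((z.1, mE Mᵀ z.2), t)).2)

/-- the inverse projection -/
def gsM (G : Geo n N κ S) (M : Matrix m' (Fin N) ℝ)
    (z : Euc N × EuclideanSpace ℝ m') : (Euc N × Euc N) × EuclideanSpace ℝ m' :=
  (FV.phi G (z.1, mE Mᵀ z.2), z.2)

theorem mem_US_of (hM : Mᵀ * M = 1) {z : Euc N × EuclideanSpace ℝ m'}
    (hz : z ∈ Sph S (pushE M G.P)) : ((z.1, mE Mᵀ z.2) : Euc N × Euc N) ∈ US G := by
  have h1 := (smap_out (X := S) (P := G.P) hM).maps hz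
  rwa [FV.Sph_S] at h1

theorem mem_Sph_of (hM : Mᵀ * M = 1) {w : Euc N × Euc N} (hw : w ∈ US G) :
    ((w.1, mE M w.2) : Euc N × EuclideanSpace ℝ m') ∈ Sph S (pushE M G.P) := by
  rw [← FV.Sph_S] at hw
  exact (smap_in (X := S) (P := G.P) hM).maps hw

theorem smap_flM (hM : Mᵀ * M = 1) (t : ℝ) :
    SMap (Sph S (pushE M G.P)) (Sph S (pushE M G.P)) (flM G M t) := by
  refine ⟨fun z hz => ?_, fun z hz => ?_⟩
  · have h1 : ContDiffAt ℝ ∞ (fun z : Euc N × EuclideanSpace ℝ m' =>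
        (((z.1, mE Mᵀ z.2), t) : (Euc N × Euc N) × ℝ)) z :=
      (contDiffAt_fst.prodMk ((mE Mᵀ).contDiff.contDiffAt.comp z contDiffAt_snd)).prodMk
        contDiffAt_const
    have h2 := ContDiffAt.comp (g := fl G) z (contDiffAt_fl' G (mem_US_of hM hz).1 t) h1
    exact h2.fst.prodMk ((mE M).contDiff.contDiffAt.comp z h2.snd)
  · have h1 := mem_US_of hM hz
    exact mem_Sph_of hM (w := fl G ((z.1, mE Mᵀ z.2), t))
      ⟨fl_mem G h1.1 t, by rw [norm_fl G h1.1 t]; exact h1.2⟩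

theorem flM_zero (hM : Mᵀ * M = 1) {z : Euc N × EuclideanSpace ℝ m'}
    (hz : z ∈ Sph S (pushE M G.P)) : flM G M 0 z = z := by
  rw [flM, fl_zero]
  exact Prod.ext rfl (tot_out hM hz.1).2

/-- the flow by time `π`, twice, is the identity on base points -/
theorem Exp_fl_pi (h : GT.Bla G k) {z : Euc N × Euc N} (hz : z ∈ US G) :
    Exp G (fl G (z, Real.pi)).1 (Real.pi • (fl G (z, Real.pi)).2) = z.1 := by
  have h1 := FV.arr_mem hz
  have h2 := FV.arr_arr hz
  have h3 := FV.phi_mem h.bl h1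
  have h4 := FV.snd_mem_Vl h.bl h.ty h1
  have h5 : FV.phi G (FV.arr G z) = ((FV.arr G z).1, z.1) := by
    refine Prod.ext rfl ?_
    change (FV.arr G (FV.arr G z)).1 = z.1
    rw [h2]
  rw [h5] at h3 h4
  have h6 : (FV.arr G z).2 = -(fl G (z, Real.pi)).2 := rfl
  have h7 : (FV.arr G z).1 = (fl G (z, Real.pi)).1 := by rw [FV.arr_eq hz.1]; rfl
  have h8 : (fl G (z, Real.pi)).2 ∈ FV.Vl G ((FV.arr G z).1, z.1) := by
    have := (FV.Vl G ((FV.arr G z).1, z.1)).neg_mem h4
    rwa [h6, neg_neg] at this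
  have h9 := h.Exp_pi h3 h8 (by rw [norm_fl G hz.1]; exact hz.2)
  rw [h7] at h9
  exact h9

/-- closed forms of degree `k - 1` on the unit tangent bundle are exact -/
theorem XM.exactIn_US {h : GT.Bla G k} (D : XM h m W p x) : ExactIn (Sph S G.P) (k - 1) := by
  obtain ⟨l, W', h1, h2, hO⟩ := D.exists_OR_S
  have hk := D.hk
  have h2k := D.two_k
  have hkn := D.hkn
  have : Nonempty (Fin l) := ⟨⟨0, by omega⟩⟩
  intro b sb cb db
  obtain ⟨c, sc, cc, dc, hc⟩ := sph_low_all (FV.sub_S h.bl) h.bl.conn.isPreconnected hO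
    (j := k - 1) (by rw [Fintype.card_fin]; omega) sb cb db
  have h0 : Coh S c 0 := by
    rcases Nat.lt_or_ge 2 k with h3 | h3
    · obtain ⟨s, hs, hs'⟩ := S_classes h hk hkn D.hp D.hι (OR_Cut h D.hp D.hW) D.sx D.cx D.dx D.ex
        (k - 1) c (by omega) (by omega) sc cc dc
      rwa [hs (fun hd => by have := Nat.le_of_dvd (by omega) hd; omega), zero_smul] at hs'
    · have hk2 : k - 1 = 1 := by omega
      rw [hk2] at dc
      exact D.exactIn_one c sc cc dc
  have h4 := h0.pull (smap_fstS (X := S) (P := G.P))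
  rw [pull_zero'] at h4
  exact hc.trans h4

theorem XM.exactIn_USM {h : GT.Bla G k} (D : XM h m W p x) (hM : Mᵀ * M = 1) :
    ExactIn (Sph S (pushE M G.P)) (k - 1) :=
  ExactIn.transport (smap_out hM) (smap_in hM) (fun z hz => by
    change (z.1, mE M (mE Mᵀ z.2)) = z
    rw [(tot_out hM hz.1).2]) D.exactIn_US

variable {dU : ℕ} {oU : Euc N × EuclideanSpace ℝ m' → Ext (Euc N × EuclideanSpace ℝ m')}

set_option maxHeartbeats 1000000 in
/-- **the data `UD`** -/
theorem XM.exists_UD {h : GT.Bla G k} (D : XM h m W p x) (hM : Mᵀ * M = 1)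
    (hU : Clo dU (Sph S (pushE M G.P))) (ho : Ori dU (Sph S (pushE M G.P)) oU) :
    ∃ κ', UD n k (k - 1) dU S (pushE M G.P) (GT.FF S) (pushE M (FV.PVB h)) Prod.fst Prod.snd
      (fun ζ => (ζ.1.1, ζ.2)) (gsM G M) (flM G M Real.pi) oU x κ' := by
  have hk := D.hk
  -- primitive
  have c1 := (coh_geod h D.sx D.cx).pull (smap_out (X := GT.FF S) (P := FV.PVB h) hM)
  have e1 : ∀ b : Euc N × Euc N → Ext (Euc N × Euc N),
      Eqv (Sph (GT.FF S) (pushE M (FV.PVB h)))
      (F.pull (fun z : (Euc N × Euc N) × EuclideanSpace ℝ m' => (z.1, mE Mᵀ z.2))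
        (F.pull Prod.fst b)) (F.pull Prod.fst b) := fun b =>
    eqv_pull_pull (smap_out hM) smap_fstS smap_fstS (fun _ _ => rfl) b
  have c2 : Coh (Sph (GT.FF S) (pushE M (FV.PVB h)))
      (F.pull Prod.fst (F.pull Prod.snd x - F.pull Prod.fst x)) 0 := by
    have c3 := ((Coh.of_eqv (e1 (F.pull Prod.fst x)).symm).trans c1).trans
      (Coh.of_eqv (e1 (F.pull Prod.snd x)))
    have c4 := c3.symm.sub (Coh.refl (F.pull Prod.fst (F.pull Prod.fst x)))
    rwa [sub_self, ← pull_sub'] at c4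
  have d2 : Hom (k - 1 + 1) (F.pull (Prod.fst : (Euc N × Euc N) × EuclideanSpace ℝ m' → _)
      (F.pull Prod.snd x - F.pull Prod.fst x)) := by
    rw [Nat.sub_add_cancel (by omega)]
    exact ((D.dx.pull).sub (D.dx.pull)).pull
  obtain ⟨κ', sκ, dκ, eκ⟩ := c2.prim d2
  refine ⟨κ', ?_⟩
  have hin : ∀ z ∈ Sph S (pushE M G.P), mE M (mE Mᵀ z.2) = z.2 := fun z hz =>
    (tot_out hM hz.1).2
  exact
  { hπ₁ := smap_fst_FF
    hπ₂ := smap_snd_FF
    hf := by
      refine ⟨fun ζ _ => (contDiffAt_fst.fst).prodMk contDiffAt_snd, fun ζ hζ => ?_⟩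
      have h1 := (smap_out (X := GT.FF S) (P := FV.PVB h) hM).maps hζ
      have h2 := (smap_in (X := S) (P := G.P) hM).maps ((FV.smap_dn h).maps h1)
      have h3 : mE M (mE Mᵀ ζ.2) = ζ.2 := (tot_out hM hζ.1).2
      change (ζ.1.1, mE M (mE Mᵀ ζ.2)) ∈ _ at h2
      rwa [h3] at h2
    hg := by
      refine ⟨fun z hz => ?_, fun z hz => ?_⟩
      · have h1 : ContDiffAt ℝ ∞ (fun z : Euc N × EuclideanSpace ℝ m' =>
            ((z.1, mE Mᵀ z.2) : Euc N × Euc N)) z :=
          contDiffAt_fst.prodMk ((mE Mᵀ).contDiff.contDiffAt.comp z contDiffAt_snd)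
        exact (ContDiffAt.comp (g := FV.phi G) z (FV.contDiffAt_phi (mem_US_of hM hz).1)
          h1).prodMk contDiffAt_snd
      · have h1 := (smap_out (X := S) (P := G.P) hM).maps hz
        have h2 := (smap_in (X := GT.FF S) (P := FV.PVB h) hM).maps ((FV.smap_up h).maps h1)
        change (FV.phi G (z.1, mE Mᵀ z.2), mE M (mE Mᵀ z.2)) ∈ _ at h2
        rwa [hin z hz] at h2
    hgf := fun z hz => by
      have h1 := (smap_out (X := GT.FF S) (P := FV.PVB h) hM).maps hz
      have h2 := FV.up_dn h h1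
      have h3 : FV.phi G (z.1.1, mE Mᵀ z.2) = z.1 := congrArg Prod.fst h2
      change (FV.phi G (z.1.1, mE Mᵀ z.2), z.2) = z
      rw [h3]
    hfst := fun _ _ => rfl
    hφ := smap_flM hM Real.pi
    hφ₁ := fun w hw => by
      change (fl G ((w.1, mE Mᵀ w.2), Real.pi)).1 = Exp G w.1 (Real.pi • mE Mᵀ w.2)
      have h1 := mem_US_of hM hw
      exact (Exp_smul G h1.1.1 h1.1.2 Real.pi).symm
    hφ₂ := fun w hw => by
      have h1 := Exp_fl_pi h (mem_US_of hM hw)
      change Exp G (fl G ((w.1, mE Mᵀ w.2), Real.pi)).1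
        (Real.pi • mE Mᵀ (mE M (fl G ((w.1, mE Mᵀ w.2), Real.pi)).2)) = w.1
      rw [mE_mE, hM, mE_one]
      exact h1
    hU := hU
    ho := ho
    hJφ := fun b sb db => by
      let Fh : (Euc N × EuclideanSpace ℝ m') × ℝ → Euc N × EuclideanSpace ℝ m' := fun y =>
        flM G M (y.2 * Real.pi) y.1
      have hF : ∀ z ∈ Sph S (pushE M G.P), ∀ t ∈ Icc (0 : ℝ) 1, ContDiffAt ℝ 2 Fh (z, t) := by
        intro z hz t _
        have h1 : ContDiffAt ℝ ∞ (fun y : (Euc N × EuclideanSpace ℝ m') × ℝ =>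
            (((y.1.1, mE Mᵀ y.1.2), y.2 * Real.pi) : (Euc N × Euc N) × ℝ)) (z, t) := by
          refine ContDiffAt.prodMk (contDiffAt_fst.fst.prodMk ?_)
            (contDiffAt_snd.mul contDiffAt_const)
          exact (mE Mᵀ).contDiff.contDiffAt.comp _ contDiffAt_fst.snd
        have h2 := ContDiffAt.comp (g := fl G) (z, t)
          (contDiffAt_fl' G (mem_US_of hM hz).1 (t * Real.pi)) h1
        exact (h2.fst.prodMk ((mE M).contDiff.contDiffAt.comp _ h2.snd)).of_le two_le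
      have h3 := J_homotopy hU ho hF (fun z hz t _ => (smap_flM hM _).maps hz)
        (fun z hz => (sb z hz).of_le (by exact_mod_cast le_top)) (cl_of_top hU.sub db)
      have e1 : (fun y => Fh (y, 1)) = flM G M Real.pi := by
        funext y
        change flM G M (1 * Real.pi) y = _
        rw [one_mul]
      have e0 : Eqv (Sph S (pushE M G.P)) (F.pull (fun y => Fh (y, 0)) b) b := by
        have h4 : (fun y => Fh (y, 0)) = flM G M 0 := by
          funext y
          change flM G M (0 * Real.pi) y = _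
          rw [zero_mul]
        rw [h4]
        refine (eqv_pull_of_eq b (fun z hz => (smap_flM hM 0).diff hz)
          (fun z _ => differentiableAt_id) (fun z hz => flM_zero hM hz)).trans
          (Eqv.of_eq fun z _ => F.pull_id b z)
      rw [e1, J_of_eqv hU e0] at h3
      exact h3
    hexq := D.exactIn_USM hM
    sx := D.sx
    cx := D.cx
    dx := D.dx
    hke := D.hke
    hq := by omega
    sκ := sκ
    dκ := dκ
    eκ := eκ.symm }

end Crest.Agent.R208.T
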