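import Crest.Agent.R208.RRc365C
import Crest.Agent.R208.TX8
import Crest.Agent.R208.SB2
import Crest.Agent.R208.NB9

/-! Row 208 (helper613), part JX1: the period of `K (E^* x)` over the fibres of `US → F`
(the form of degree `k - 1` with differential `x₂ - x₁`): it is the period of any form `μ` on `US`
with `dμ ~ x₂ - x₁`; passage from `Sph F V` to `US`. -/

set_option autoImplicit false
set_option linter.unusedSectionVars false
set_option linter.unusedVariables false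

open MeasureTheory Set Filter Topology Module
open scoped ContDiff RealInnerProductSpace
open Crest.GeometryTopology.Submanifold
open Crest.Agent.R241.DDefs
open Crest.Agent.R241.D2
open Crest.Agent.R208.F Crest.Agent.R208.FI Crest.Agent.R208.CW Crest.Agent.R208.T
open Crest.Agent.R208.L (US)
open Crest.Agent.R208.RRC (EE smap_EE)

noncomputable section

namespace Crest.Agent.R208.JX

section gen
variable {E E' : Type*} [NormedAddCommGroup E] [NormedSpace ℝ E] [FiniteDimensional ℝ E]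
  [NormedAddCommGroup E'] [NormedSpace ℝ E'] [FiniteDimensional ℝ E']
  {r : ℕ} {Y : Set E} {X : Set E'} {o : E → Ext E} {f : E → E'} {b : E' → Ext E'}

/-- a pull-back along a map constant on `Y` has integral `0` over `Y` -/
theorem J_pull_const (hY : Clo r Y) (hr : 1 ≤ r) (hf : ∀ x ∈ Y, DifferentiableAt ℝ f x) {c : E'}
    (hc : ∀ x ∈ Y, f x = c) : J r Y o (F.pull f b) = 0 := by
  rw [← J_zero (d := r) (X := Y) (o := o)]
  refine J_congr hY fun x hx w hw => ?_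
  have h0 : ∀ v ∈ Tan Y x, fderiv ℝ f x v = 0 := by
    intro v hv
    have h1 : DifferentiableAt ℝ (fun y => f y - c) x := (hf x hx).sub_const c
    have h2 := FV.Tan_le_ker (X := Y) h1
    have h3 : {x ∈ Y | (fun y => f y - c) x = 0} = Y := by
      ext y
      exact ⟨fun h => h.1, fun h => ⟨h, by change f y - c = 0; rw [hc y h, sub_self]⟩⟩
    rw [h3] at h2
    have h4 := (h2 hv).2
    have h5 : fderiv ℝ (fun y => f y - c) x v = 0 := h4
    rwa [fderiv_sub_const] at h5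
  have h1 : evA E r (F.pull f b x) w = evA E' r (b (f x)) (fun i => fderiv ℝ f x (w i)) := by
    rw [F.pull, evA_pb]; rfl
  rw [h1]
  have h2 : evA E' r (b (f x)) (fun i => fderiv ℝ f x (w i)) = 0 :=
    AlternatingMap.map_coord_zero _ (⟨0, hr⟩ : Fin r) (h0 _ (hw _))
  rw [h2]
  simp

end gen

variable {n N k m : ℕ} {κ : ℝ} {S : Set (Euc N)} {G : Geo n N κ S} {p : Euc N}
  {ι : Type} [Fintype ι] [DecidableEq ι] {W : Euc N × Euc N → (ι × Fin 2 → Fin N) → ℝ}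
  {x : Euc N → Ext (Euc N)} {z : Euc N × Euc N}

/-- the fibre of `US → F` -/
abbrev Fb (G : Geo n N κ S) (z : Euc N × Euc N) : Set (Euc N × Euc N) :=
  US G ∩ FV.phi G ⁻¹' {FV.phi G z}

/-- the fibre of `Sph F V → F` -/
abbrev Sb (h : GT.Bla G k) (y : Euc N × Euc N) : Set ((Euc N × Euc N) × Euc N) :=
  T.Sph ({y} : Set (Euc N × Euc N)) (FV.PVB h)

theorem ph_eq_phi (hz : z ∈ US G) : NB.ph G z = FV.phi G z := Prod.ext rfl (NN.phi_pi hz)

theorem Fb_ph (hz : z ∈ US G) : US G ∩ NB.ph G ⁻¹' {NB.ph G z} = Fb G z := by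
  ext y
  constructor
  · rintro ⟨h1, h2⟩
    have h3 : NB.ph G y = NB.ph G z := h2
    exact ⟨h1, by rw [mem_preimage, mem_singleton_iff, ← ph_eq_phi h1, ← ph_eq_phi hz, h3]⟩
  · rintro ⟨h1, h2⟩
    have h3 : FV.phi G y = FV.phi G z := h2
    exact ⟨h1, by rw [mem_preimage, mem_singleton_iff, ph_eq_phi h1, ph_eq_phi hz, h3]⟩

theorem Sph_sub (h : GT.Bla G k) {y : Euc N × Euc N} (hy : y ∈ GT.FF S) :
    Sb h y ⊆ T.Sph (GT.FF S) (FV.PVB h) := by
  rintro ζ ⟨⟨h1, h2⟩, h3⟩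
  exact ⟨⟨by rw [mem_singleton_iff.1 h1]; exact hy, h2⟩, h3⟩

theorem bij_up (h : GT.Bla G k) (hz : z ∈ US G) :
    BijOn (FV.up G) (Fb G z) (Sb h (FV.phi G z)) := by
  have hF := FV.phi_mem h.bl hz
  refine ⟨fun y hy => ?_, fun y _ y' _ e => ?_, fun ζ hζ => ?_⟩
  · have h1 : FV.up G y ∈ T.Sph (GT.FF S) (FV.PVB h) := (SB.dif_US h).fw.maps hy.1
    have h2 : (FV.up G y).1 = FV.phi G z := hy.2
    exact ⟨⟨h2, h1.1.2⟩, h1.2⟩
  · have := congrArg FV.dn e
    rwa [FV.dn_up, FV.dn_up] at this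
  · have h1 : ζ ∈ T.Sph (GT.FF S) (FV.PVB h) := Sph_sub h hF hζ
    have h2 := (FV.mem_Sph_F h).1 h1
    have h3 : ζ.1 = FV.phi G z := hζ.1.1
    exact ⟨FV.dn ζ, ⟨h2.1, by rw [mem_preimage, mem_singleton_iff, h2.2, h3]⟩, FV.up_dn h h1⟩

theorem preconn_Fb (h : GT.Bla G k) (hk : 2 ≤ k) (hz : z ∈ US G) : IsPreconnected (Fb G z) := by
  have hF := FV.phi_mem h.bl hz
  have h1 := (GP.sphere_preconn (V := FV.Vl G (FV.phi G z))
    (by rw [FV.finrank_Vl h.ty hF]; exact hk)).image (fun v : Euc N => (z.1, v)) (by fun_prop)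
  convert h1 using 1
  ext y
  constructor
  · rintro ⟨h2, h3⟩
    have h4 : FV.phi G y = FV.phi G z := h3
    have h5 := FV.snd_mem_Vl h.bl h.ty h2
    rw [h4] at h5
    exact ⟨y.2, ⟨h5, h2.2⟩, Prod.ext (congrArg Prod.fst h4).symm rfl⟩
  · rintro ⟨v, ⟨h2, h3⟩, rfl⟩
    have h4 : ((FV.phi G z, v) : (Euc N × Euc N) × Euc N) ∈ T.Sph (GT.FF S) (FV.PVB h) :=
      ⟨⟨hF, (FV.PV_eq_self h.bl h.ty (FV.sub_S h.bl) hF).2 h2⟩, h3⟩
    have h5 := (FV.mem_Sph_F h).1 h4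
    exact ⟨h5.1, h5.2⟩

theorem clo_Fb (h : GT.Bla G k) (hk : 2 ≤ k) (z : Euc N × Euc N) : Clo (k - 1) (Fb G z) := by
  obtain ⟨r, rfl⟩ : ∃ r, k = r + 1 := ⟨k - 1, by omega⟩
  have hle := h.ty.le
  have hd : (2 * n - (r + 1)) + (r + 1) = 2 * n := by omega
  have h1 := SB.subm_Sph (FV.clo_FF' h hd) (FV.pfield_PVB h)
  have h2 := (SB.dif_US h).subm (SB.clo_US h (d := r + (2 * n - (r + 1))) (by omega)) h1
  exact h2.clo_fibre _

theorem clo_Sb (h : GT.Bla G k) (hk : 2 ≤ k) {y : Euc N × Euc N} (hy : y ∈ GT.FF S) :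
    Clo (k - 1) (Sb h y) := by
  obtain ⟨r, rfl⟩ : ∃ r, k = r + 1 := ⟨k - 1, by omega⟩
  have hm : ∀ x ∈ ({y} : Set (Euc N × Euc N)), x ∈ GT.FF S := fun x hx => by
    rw [mem_singleton_iff.1 hx]; exact hy
  have h1 : PField ({y} : Set (Euc N × Euc N)) (r + 1) (FV.PVB h) :=
    ⟨fun x hx => (FV.pfield_PVB h).smooth x (hm x hx), fun x hx => (FV.pfield_PVB h).idem x (hm x hx),
      fun x hx => (FV.pfield_PVB h).rank x (hm x hx)⟩
  exact SB.clo_Sph (d := 0) ((T.sub_point y).clo isCompact_singleton) h1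

/-- the period of a form on `Sph F V` over one fibre, seen in `US` -/
theorem abs_up (h : GT.Bla G k) (hk : 2 ≤ k) (hz : z ∈ US G)
    {kap : (Euc N × Euc N) × Euc N → Ext ((Euc N × Euc N) × Euc N)}
    (skap : Sm (T.Sph (GT.FF S) (FV.PVB h)) kap)
    {oF : Euc N × Euc N → Ext (Euc N × Euc N)} (ho : Ori (k - 1) (Fb G z) oF)
    {o : (Euc N × Euc N) × Euc N → Ext ((Euc N × Euc N) × Euc N)}
    (ho' : Ori (k - 1) (Sb h (FV.phi G z)) o) :
    |J (k - 1) (Fb G z) oF (F.pull (FV.up G) kap)| = |J (k - 1) (Sb h (FV.phi G z)) o kap| := by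
  have hF := FV.phi_mem h.bl hz
  have hcF := clo_Fb h hk z
  have hcS := clo_Sb h hk hF
  have hb := bij_up h hz
  have hd : ∀ y ∈ Fb G z, ContDiffAt ℝ ∞ (FV.up G) y := fun y hy => (SB.dif_US h).fw.smooth y hy.1
  have hkc : ContinuousOn kap (Sb h (FV.phi G z)) := fun y hy =>
    (skap y (Sph_sub h hF hy)).continuousAt.continuousWithinAt
  have e1 := J_pull hcF hcS (fun y hy => (hd y hy).differentiableAt (by simp)) hb ho' hkc
  have hpo : Ori (k - 1) (Fb G z) (F.pull (FV.up G) o) := by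
    refine Ori.pull hcF hcS (fun y hy => (hd y hy).of_le (by exact_mod_cast le_top)) hb.mapsTo
      (fun y hy v hv h0 => ?_) ho'
    exact (SB.dif_US h).inj hy.1 (Tan_mono_of_subset (fun a ha => ha.1) y hv) h0
  rcases J_ori_connected hcF ho hpo (preconn_Fb h hk hz) with h7 | h7
  · rw [← e1, h7]
  · rw [← e1, h7, abs_neg]

/-- an orientation of the fibre of `Sph F V` -/
theorem ori_dn (h : GT.Bla G k) (hk : 2 ≤ k) (hz : z ∈ US G)
    {oF : Euc N × Euc N → Ext (Euc N × Euc N)} (ho : Ori (k - 1) (Fb G z) oF) :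
    Ori (k - 1) (Sb h (FV.phi G z)) (F.pull FV.dn oF) := by
  have hF := FV.phi_mem h.bl hz
  have hcF := clo_Fb h hk z
  have hcS := clo_Sb h hk hF
  have hm : MapsTo FV.dn (Sb h (FV.phi G z)) (Fb G z) := fun ζ hζ => by
    have h2 := (FV.mem_Sph_F h).1 (Sph_sub h hF hζ)
    have h3 : ζ.1 = FV.phi G z := hζ.1.1
    exact ⟨h2.1, by rw [mem_preimage, mem_singleton_iff, h2.2, h3]⟩
  refine Ori.pull hcS hcF (fun y hy => ?_) hm (fun y hy v hv h0 => ?_) ho
  · exact ((SB.dif_US h).inv.smooth y (Sph_sub h hF hy)).of_le (by exact_mod_cast le_top)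
  · exact (SB.dif_US h).symm.inj (Sph_sub h hF hy) (Tan_mono_of_subset (Sph_sub h hF) y hv) h0

/-! ### `K (E^* x)` -/

theorem sm_KE (hx : Sm S x) : Sm (US G) (RR.K (F.pull (EE G) x)) := RR.Sm.K (hx.pull smap_EE)

/-- `d K(E^*x) = x₂ - x₁` on `US` -/
theorem d_KE (h : GT.Bla G k) (hx : Sm S x) (cx : Cl S x) :
    Eqv (US G) (F.d (RR.K (F.pull (EE G) x)))
      (F.pull (FV.phi G) (F.pull Prod.snd x - F.pull Prod.fst x)) := by
  have s1 : Sm (RR.Cyl (US G)) (F.pull (EE G) x) := hx.pull smap_EE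
  have h1 := RR.K_d_eqv s1
  have c1 : Cl (RR.Cyl (US G)) (F.pull (EE G) x) := cx.pull smap_EE hx
  have h2 : Eqv (US G) (RR.K (F.d (F.pull (EE G) x))) 0 := by
    rw [Eqv, sub_zero]; exact RR.K_eqv0 s1.d c1
  have hph : SMap (US G) (GT.FF S) (FV.phi G) :=
    ⟨fun z hz => FV.contDiffAt_phi hz.1, fun z hz => FV.phi_mem h.bl hz⟩
  have e1 : Eqv (US G) (F.pull (RR.sl 1) (F.pull (EE G) x))
      (F.pull (FV.phi G) (F.pull Prod.snd x)) := by
    refine (eqv_pull_pull (RR.smap_sl 1) smap_EE (smap_snd_FF.comp hph) (fun z hz => ?_) x).trans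
      (eqv_pull_pull hph smap_snd_FF (smap_snd_FF.comp hph) (fun _ _ => rfl) x).symm
    change Exp G z.1 ((Real.pi * 1) • z.2) = Exp G z.1 (Real.pi • z.2)
    rw [mul_one]
  have e0 : Eqv (US G) (F.pull (RR.sl 0) (F.pull (EE G) x))
      (F.pull (FV.phi G) (F.pull Prod.fst x)) := by
    refine (eqv_pull_pull (RR.smap_sl 0) smap_EE (smap_fst_FF.comp hph) (fun z hz => ?_) x).trans
      (eqv_pull_pull hph smap_fst_FF (smap_fst_FF.comp hph) (fun _ _ => rfl) x).symm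
    change Exp G z.1 ((Real.pi * 0) • z.2) = z.1
    rw [mul_zero, zero_smul, Exp_zero G hz.1.1]
  have e2 := h1.trans (e1.sub e0)
  rw [← pull_sub'] at e2
  have e3 := (Eqv.refl (F.d (RR.K (F.pull (EE G) x)))).add h2
  rw [add_zero] at e3
  exact e3.symm.trans e2

/-- **any two forms of degree `k - 1` on `US` with differential `~ x₂ - x₁` have the same periods
over the fibres of `US → F`** -/
theorem period_eq {h : GT.Bla G k} (D : XM h m W p x) {μ μ' : Euc N × Euc N → Ext (Euc N × Euc N)}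
    {e e' : Euc N × Euc N → Ext (Euc N × Euc N)} (sμ : Sm (US G) μ) (sμ' : Sm (US G) μ')
    (dμ : Hom (k - 1) μ) (dμ' : Hom (k - 1) μ') (hμ : Eqv (US G) (F.d μ) (F.pull (FV.phi G) e))
    (hμ' : Eqv (US G) (F.d μ') (F.pull (FV.phi G) e')) (he : Coh (GT.FF S) e e')
    (de : Hom k e) (de' : Hom k e') {oF : Euc N × Euc N → Ext (Euc N × Euc N)}
    (ho : Ori (k - 1) (Fb G z) oF) :
    J (k - 1) (Fb G z) oF μ = J (k - 1) (Fb G z) oF μ' := by
  have hk := D.hk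
  have hph : SMap (US G) (GT.FF S) (FV.phi G) :=
    ⟨fun z hz => FV.contDiffAt_phi hz.1, fun z hz => FV.phi_mem h.bl hz⟩
  obtain ⟨γ₀, sγ₀, hγ₀⟩ := he
  set γ := dp (k - 1) γ₀ with hγd
  have sγ : Sm (GT.FF S) γ := sγ₀.dp _
  have hγ : Eqv (GT.FF S) (e - e') (F.d γ) := by
    have h1 := hγ₀.dp k
    have h2 : Eqv (GT.FF S) (dp k (F.d γ₀)) (F.d γ) := Eqv.of_eq fun y hy => by
      have := dp_d (k - 1) (sγ₀.diff hy)
      rwa [show k - 1 + 1 = k by omega] at this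
    rw [(de.sub de').dp_eq] at h1
    exact h1.trans h2
  -- the closed form
  set β := μ - μ' - F.pull (FV.phi G) γ with hβ
  have sg : Sm (US G) (F.pull (FV.phi G) γ) := sγ.pull hph
  have sβ : Sm (US G) β := (sμ.sub sμ').sub sg
  have dβ : Hom (k - 1) β := (dμ.sub dμ').sub (hom_dp _ _).pull
  have cβ : Cl (US G) β := by
    rw [Cl, resZero_iff]
    have h1 := d_sub_eqv (sμ.sub sμ') sg
    have h2 := d_sub_eqv sμ sμ'
    have h3 := d_pull_eqv hph sγ
    have h4 := (hγ.pull hph).symm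
    rw [pull_sub'] at h4
    have h5 := (h2.trans (hμ.sub hμ')).sub (h3.trans h4)
    rw [sub_self] at h5
    exact h1.trans h5
  have hex : Coh (US G) β 0 := by
    have := D.exactIn_US β
    rw [FV.Sph_S] at this
    exact this sβ cβ dβ
  have hcl := clo_Fb h hk z
  have h0 : J (k - 1) (Fb G z) oF β = 0 := J_exact hcl ho (hex.mono fun y hy => hy.1)
  have h1 : J (k - 1) (Fb G z) oF (F.pull (FV.phi G) γ) = 0 :=
    J_pull_const hcl (by omega) (fun y hy => hph.diff hy.1) (fun y hy => hy.2)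
  have m1 : Sm (Fb G z) μ := sμ.mono fun y hy => hy.1
  have m2 : Sm (Fb G z) μ' := sμ'.mono fun y hy => hy.1
  have m3 : Sm (Fb G z) (F.pull (FV.phi G) γ) := sg.mono fun y hy => hy.1
  rw [hβ, RR.J_sub' hcl ho (m1.sub m2) m3, RR.J_sub' hcl ho m1 m2, h1, sub_zero] at h0
  linarith

theorem hom_KE (hx : Hom k x) (hk : 1 ≤ k) : Hom (k - 1) (RR.K (F.pull (EE G) x)) := by
  have h1 : Hom (k - 1 + 1) (F.pull (EE G) x) := by rw [Nat.sub_add_cancel hk]; exact hx.pull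
  exact fun u => RRC.isDeg_K h1 u

/-- **(JV4-F), relative form**: `kap` on `Sph F V` with `d kap = pr^* e`, `e ~ - e_R(V)`, and
periods of absolute value `τ` over the fibres ⟹ `K(E^* x)` has periods of absolute value `τ` over the
fibres of `US → F`. -/
theorem abs_KE' {h : GT.Bla G k} (D : XM h m W p x) (hz : z ∈ US G)
    {kap : (Euc N × Euc N) × Euc N → Ext ((Euc N × Euc N) × Euc N)}
    {e : Euc N × Euc N → Ext (Euc N × Euc N)} (de : Hom k e)
    (he : Coh (GT.FF S) e (-(eR (FV.PVB h) W)))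
    (skap : Sm (T.Sph (GT.FF S) (FV.PVB h)) kap) (dkap : Hom (k - 1) kap)
    (ekap : Eqv (T.Sph (GT.FF S) (FV.PVB h)) (F.d kap) (F.pull Prod.fst e))
    {τ : ℝ} (hτ : ∀ y ∈ GT.FF S, ∀ o, Ori (k - 1) (Sb h y) o → |J (k - 1) (Sb h y) o kap| = τ)
    {oF : Euc N × Euc N → Ext (Euc N × Euc N)} (ho : Ori (k - 1) (Fb G z) oF) :
    |J (k - 1) (Fb G z) oF (RR.K (F.pull (EE G) x))| = τ := by
  have hk := D.hk
  have hF := FV.phi_mem h.bl hz
  have hup := (SB.dif_US h).fw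
  have hph : SMap (US G) (GT.FF S) (FV.phi G) :=
    ⟨fun z hz => FV.contDiffAt_phi hz.1, fun z hz => FV.phi_mem h.bl hz⟩
  rw [← hτ _ hF _ (ori_dn h hk hz ho), ← abs_up h hk hz skap ho (ori_dn h hk hz ho)]
  congr 1
  refine period_eq D (sm_KE D.sx) (skap.pull hup) (hom_KE D.dx (by omega)) dkap.pull
    (d_KE h D.sx D.cx) (e' := e) ?_ ?_ ?_ de ho
  · refine (d_pull_eqv hup skap).trans ((ekap.pull hup).trans ?_)
    exact eqv_pull_pull hup smap_fstS hph (fun _ _ => rfl) _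
  · refine Coh.trans ?_ he.symm
    have h1 := D.snd_class.sub (Coh.refl (F.pull Prod.fst x))
    have e1 : F.pull Prod.fst x - eR (FV.PVB h) W - F.pull Prod.fst x = -(eR (FV.PVB h) W) := by
      abel
    rwa [e1] at h1
  · exact (D.dx.pull).sub D.dx.pull

/-- **(JV4-F), relative form**: `kap` on `Sph F V` with `d kap = -pr^* e_R(V)` and periods of
absolute value `τ` over the fibres ⟹ `K(E^* x)` has periods of absolute value `τ` over the fibres of
`US → F`. -/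
theorem abs_KE {h : GT.Bla G k} (D : XM h m W p x) (hz : z ∈ US G)
    {kap : (Euc N × Euc N) × Euc N → Ext ((Euc N × Euc N) × Euc N)}
    (skap : Sm (T.Sph (GT.FF S) (FV.PVB h)) kap) (dkap : Hom (k - 1) kap)
    (ekap : Eqv (T.Sph (GT.FF S) (FV.PVB h)) (F.d kap) (-(F.pull Prod.fst (eR (FV.PVB h) W))))
    {τ : ℝ} (hτ : ∀ y ∈ GT.FF S, ∀ o, Ori (k - 1) (Sb h y) o → |J (k - 1) (Sb h y) o kap| = τ)
    {oF : Euc N × Euc N → Ext (Euc N × Euc N)} (ho : Ori (k - 1) (Fb G z) oF) :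
    |J (k - 1) (Fb G z) oF (RR.K (F.pull (EE G) x))| = τ := by
  have h2 : Hom (2 * Fintype.card ι) (eR (FV.PVB h) W) := fun x => (degC_ef _ _ x).1
  rw [D.hι] at h2
  exact abs_KE' D hz h2.neg (Coh.refl _) skap dkap (by rw [pull_neg']; exact ekap) hτ ho

/-- the same with `NB.ph` -/
theorem abs_KE_ph {h : GT.Bla G k} (D : XM h m W p x) (hz : z ∈ US G)
    {kap : (Euc N × Euc N) × Euc N → Ext ((Euc N × Euc N) × Euc N)}
    (skap : Sm (T.Sph (GT.FF S) (FV.PVB h)) kap) (dkap : Hom (k - 1) kap)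
    (ekap : Eqv (T.Sph (GT.FF S) (FV.PVB h)) (F.d kap) (-(F.pull Prod.fst (eR (FV.PVB h) W))))
    {τ : ℝ} (hτ : ∀ y ∈ GT.FF S, ∀ o, Ori (k - 1) (Sb h y) o → |J (k - 1) (Sb h y) o kap| = τ)
    {oF : Euc N × Euc N → Ext (Euc N × Euc N)}
    (ho : Ori (k - 1) (US G ∩ NB.ph G ⁻¹' {NB.ph G z}) oF) :
    |J (k - 1) (US G ∩ NB.ph G ⁻¹' {NB.ph G z}) oF (RR.K (F.pull (EE G) x))| = τ := by
  rw [Fb_ph hz] at ho ⊢
  exact abs_KE D hz skap dkap ekap hτ ho

end Crest.Agent.R208.JX
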