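import Crest.Agent.R208.KX7
import Crest.Agent.R208.JV3b
import Crest.Agent.R208.JX1
import Crest.Agent.R208.JW2
import Crest.Agent.R208.SN10
import Crest.Agent.R208.CQ1

/-! Row 208, `k = 2` (helper427), part KX8: the two values and **`Vol2Stmt`**. -/

set_option autoImplicit false
set_option linter.unusedSectionVars false
set_option linter.unusedVariables false

open MeasureTheory Set Filter Topology Module
open scoped ContDiff RealInnerProductSpace
open Crest.GeometryTopology.Submanifold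
open Crest.Agent.R241.DDefs
open Crest.Agent.R241.D2
open Crest.Agent.R208.F Crest.Agent.R208.FI Crest.Agent.R208.CW Crest.Agent.R208.T
open Crest.Agent.R208.NN Crest.Agent.R208.NB
open Crest.Agent.R208.RR Crest.Agent.R208.RRC

noncomputable section

namespace Crest.Agent.R208.KX

variable {n N k : ℕ} {κ : ℝ} {S : Set (Euc N)} {G : Geo n N κ S} {z : Euc N × Euc N}
  {ι : Type} [Fintype ι] [DecidableEq ι] {W : Euc N × Euc N → (ι × Fin 2 → Fin N) → ℝ}
  {m : ℕ} {p : Euc N} {x oS : Euc N → Ext (Euc N)}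

/-- **(JV4-F)** the period of `K(E^* x)` -/
theorem valF {h : GT.Bla G k} (D : T.XM h m W p x) (hz : z ∈ L.US G)
    {o : Euc N × Euc N → Ext (Euc N × Euc N)}
    (ho : Ori (k - 1) (L.US G ∩ FV.phi G ⁻¹' {FV.phi G z}) o) :
    |J (k - 1) (L.US G ∩ FV.phi G ⁻¹' {FV.phi G z}) o (K (F.pull (EE G) x))| = XF.tau ι := by
  have hk := D.hk
  have hι := D.hι
  have hn := D.two_k
  have : Nonempty ι := Fintype.card_pos_iff.1 (by omega)
  have hX : FI.Sub (2 * n - k) (GT.FF S) := FV.sub_FF' h (d := 2 * n - k) (by omega)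
  have hr : (k - 1) + 1 = Fintype.card ι * 2 := by omega
  refine JX.abs_KE D hz (kap := JV.ang (FV.PVB h) W) (JV.sm_ang hX D.hW) (JV.hom_ang hr)
    (JV.d_ang hX D.hW) (fun y hy o ho => ?_) ho
  have e0 : JX.Sb h y = T.Sph (GT.FF S) (FV.PVB h) ∩
      (Prod.fst : (Euc N × Euc N) × Euc N → Euc N × Euc N) ⁻¹' {y} :=
    JV.Sph_point (P := FV.PVB h) hy
  rw [e0] at ho ⊢
  exact JV.abs_J_ang_fib D.hW hr hy ho

/-- **(JV4-S)** the value of `x^m` on `S` -/
theorem valS_eq {h : GT.Bla G k} (D : T.XM h m W p x) (hoS : Ori n S oS)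
    {oC : Euc N → Ext (Euc N)} (hoC : Ori (n - k) (GP.Cut S p) oC) :
    |J n S oS (x ^ m)| = XF.tau ι * |J (n - k) (GP.Cut S p) oC (x ^ (m - 1))| := by
  have hk := D.hk
  have hι := D.hι
  have hn := D.two_k
  have hm := D.hm
  have : Nonempty ι := Fintype.card_pos_iff.1 (by omega)
  have hC : Clo (n - k) (GP.Cut S p) := FV.clo_Cut h D.hp
  have hr : (k - 1) + 1 = Fintype.card ι * 2 := by omega
  have hW' := OR_Cut h D.hp D.hW
  have hnk : k * (m - 1) = n - k := by
    have := D.hn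
    rw [Nat.mul_sub_one, ← this]
  have hdx : Hom (n - k) (x ^ (m - 1)) := by
    rw [← hnk]; exact D.dx.pow (m - 1)
  have sC : Sm (GP.Cut S p) (x ^ (m - 1)) := fun q hq => T.Sm.pow D.sx (m - 1) q hq.1
  have hne : (GP.Cut S p).Nonempty := SN.Cut_nonempty h (by omega) D.hp
  have hnc : IsPreconnected (GP.Cut S p) := FV.preconn_Cut h.bl h.ty (by omega) D.hp
  have hpow : x ^ m = x ^ ((m - 1) + 1) := by rw [Nat.sub_add_cancel (by omega)]
  rw [hpow]
  refine JW.J_S_of h hk (by omega) D.hp D.sx D.cx D.dx hoS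
    (kap := JV.ang (FV.PC h p) (fun q => W (q, p))) (JV.sm_ang hC.sub hW') (JV.hom_ang hr) ?_
    (m - 1) fun oY hoY => ?_
  · have h1 := JV.d_ang hC.sub hW'
    have h2 : Eqv (T.Sph (GP.Cut S p) (FV.PC h p))
        (F.pull (Prod.fst : Euc N × Euc N → Euc N) x)
        (F.pull Prod.fst (eR (FV.PC h p) (fun q => W (q, p)))) :=
      Eqv.pull ⟨fun _ _ => contDiffAt_fst, fun _ hz => hz.1.1⟩ D.ex
    exact h1.trans h2.symm.neg
  · have hd : (k - 1) + (n - k) = n - 1 := by omega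
    rw [← hd] at hoY ⊢
    exact JV.abs_J_ang hC hnc hoC hW' hr sC hdx hne hoY

theorem valS {h : GT.Bla G k} (D : T.XM h m W p x) (hoS : Ori n S oS) :
    |J n S oS (x ^ m)| ≤ XF.tau ι ^ m := by
  have hk := D.hk
  have hι := D.hι
  have hn := D.two_k
  have hm := D.hm
  have : Nonempty ι := Fintype.card_pos_iff.1 (by omega)
  obtain ⟨oC, hoC, -, -⟩ := T.exists_ori_Cut h hk (by omega) D.hp
  have hC : Clo (n - k) (GP.Cut S p) := FV.clo_Cut h D.hp
  rw [valS_eq D hoS hoC]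
  have hPL := XM.OR_PL h D.hp D.hW
  have h1 := CQ.restr_PL D D.hp
  have sE : Sm (GP.Cut S p) (eR (SN.PL h p) (fun c => W (p, c))) := hPL.ec_eR.sm
  have cE : Cl (GP.Cut S p) (eR (SN.PL h p) (fun c => W (p, c))) := hPL.ec_eR.cl
  have sx : Sm (GP.Cut S p) x := fun q hq => D.sx q hq.1
  have cx : Cl (GP.Cut S p) x := Cl.mono (fun q hq => hq.1) D.cx
  have cE' : Cl (GP.Cut S p) (-eR (SN.PL h p) (fun c => W (p, c))) := by
    have := Cl.smul (-1) sE cE
    rwa [neg_one_smul] at this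
  have h2 : Coh (GP.Cut S p) (x ^ (m - 1)) ((-eR (SN.PL h p) (fun c => W (p, c))) ^ (m - 1)) :=
    Coh.powT sx cx sE.neg cE' h1 (m - 1)
  have h3 : |J (n - k) (GP.Cut S p) oC (x ^ (m - 1))| =
      |J (n - k) (GP.Cut S p) oC ((eR (SN.PL h p) (fun c => W (p, c))) ^ (m - 1))| := by
    rw [SO.J_coh hC hoC (T.Sm.pow sx _) (T.Sm.pow sE.neg _) h2]
    rw [neg_pow]
    rcases neg_one_pow_eq_or (Euc N → Ext (Euc N)) (m - 1) with h4 | h4
    · rw [h4, one_mul]
    · rw [h4, neg_one_mul, ← neg_one_smul ℝ, J_smul', neg_one_mul, abs_neg]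
  have h4 := SN.abs_J_Cut_le h hι hk (i := m - 1) (by
    have := D.hn
    rw [Nat.sub_add_cancel (by omega)]
    exact this) D.hp hPL hoC
  rw [h3]
  have h5 : XF.tau ι ^ m = XF.tau ι * XF.tau ι ^ (m - 1) := by
    rw [← pow_succ', Nat.sub_add_cancel (by omega)]
  rw [h5]
  exact mul_le_mul_of_nonneg_left h4 (XF.tau_pos ι).le

/-- **(Z2)** -/
theorem vol2 : ZG.Vol2Stmt :=
  vol2_of_values
    (fun n N κ S G h W m p x D z hz o ho => valF D hz ho)
    (fun n N κ S G h W m p x D oS hoS => valS D hoS)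

end Crest.Agent.R208.KX
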