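import Crest.Agent.R208.TX8

/-! Row 208, block T (helper316).  TX9: (X1c) and (X1d) `h_m(x₁, x₂) ~ 0` on `F`, `x^m ~ 0` on `US`. -/

set_option autoImplicit false
set_option linter.unusedSectionVars false

open MeasureTheory Set Filter Topology Module
open scoped ContDiff RealInnerProductSpace Matrix
open Crest.GeometryTopology.Submanifold
open Crest.Agent.R241.DDefs
open Crest.Agent.R241.D2
open Crest.Agent.R208.F Crest.Agent.R208.FI Crest.Agent.R208.CW
open Crest.Agent.R208.L (US TanTS)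

noncomputable section

namespace Crest.Agent.R208.T

section ou
variable {E H : Type*} [NormedAddCommGroup E] [NormedSpace ℝ E] [FiniteDimensional ℝ E]
  [NormedAddCommGroup H] [InnerProductSpace ℝ H] [FiniteDimensional ℝ H]
  {X : Set E} {P : E → H →L[ℝ] H} {oP : E → Ext H} {oX : E → Ext E} {r d : ℕ}

/-- a smooth orientation form of the sphere bundle -/
theorem exists_oU (hr : 1 ≤ r) (hX : Clo d X) (hP : PField X r P) (h : SB.OPr X r P oP)
    (ho : Ori d X oX) (so : Sm X oX) (hd : Hom d oX) :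
    Clo (r - 1 + d) (Sph X P) ∧ ∃ oU, Ori (r - 1 + d) (Sph X P) oU ∧ Sm (Sph X P) oU ∧
      Hom (r - 1 + d) oU := by
  obtain ⟨r', rfl⟩ : ∃ r', r = r' + 1 := ⟨r - 1, by omega⟩
  have h1 := SB.osubm_Sph hX hP h ho hd
  rw [Nat.add_sub_cancel]
  refine ⟨SB.clo_Sph hX hP, _, h1.tot, ?_, ?_⟩
  · have s1 : Sm (Sph X P) (SB.oV oP) := fun z hz => SB.contDiffAt_oV h hz.1.1
    exact s1.mul (so.pull smap_fstS)
  · have d1 : Hom r' (SB.oV oP) := fun z => SB.isDeg_oV h z
    exact d1.mul hd.pull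

end ou

variable {n N k m : ℕ} {κ : ℝ} {S : Set (Euc N)} {G : Geo n N κ S} {p : Euc N}
  {ι : Type} [Fintype ι] [DecidableEq ι] {W : Euc N × Euc N → (ι × Fin 2 → Fin N) → ℝ}
  {x : Euc N → Ext (Euc N)}

theorem nonempty_UST (h : GT.Bla G k) (hp : p ∈ S) : (US G).Nonempty := by
  have h1 : 0 < finrank ℝ (G.T p) := by rw [G.finrank_T p hp]; exact h.bl.hn
  obtain ⟨v, hv⟩ := Module.finrank_pos_iff_exists_ne_zero.1 h1
  have hv0 : (v : Euc N) ≠ 0 := fun h2 => hv (Subtype.ext h2)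
  refine ⟨(p, (‖(v : Euc N)‖⁻¹ : ℝ) • (v : Euc N)), ⟨hp, (G.T p).smul_mem _ v.2⟩, ?_⟩
  exact GT.unit_of hv0

/-- `ε` is not exact on `F` -/
theorem XM.eps_ne {h : GT.Bla G k} (D : XM h m W p x) :
    ¬ Coh (GT.FF S) (eR (FV.PVB h) W) 0 := by
  intro h0
  have h1 := h0.pull (FV.smap_Cut D.hp)
  rw [pull_zero'] at h1
  exact euler_ne h D.hk D.hkn D.hp D.hι (OR_Cut h D.hp D.hW)
    ((Coh.of_eqv (eqv_pull_eR D.hW (FV.smap_Cut D.hp)).symm).trans h1)

theorem XM.diff_ne {h : GT.Bla G k} (D : XM h m W p x) :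
    ¬ Coh (GT.FF S) (F.pull Prod.snd x - F.pull Prod.fst x) 0 := by
  intro h0
  have h1 := (D.snd_class.sub (Coh.refl (F.pull Prod.fst x))).symm.trans h0
  have h2 : F.pull Prod.fst x - eR (FV.PVB h) W - F.pull Prod.fst x = - eR (FV.PVB h) W := by abel
  rw [h2] at h1
  have h3 := h1.neg
  rw [neg_neg, neg_zero] at h3
  exact D.eps_ne h3

theorem XM.S_one {h : GT.Bla G k} (D : XM h m W p x) {b : Euc N → Ext (Euc N)} (hb : Sm S b)
    (hc : Cl S b) (hd : Hom k b) : ∃ t : ℝ, Coh S b (t • x) := by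
  have hk := D.hk
  obtain ⟨t, -, ht⟩ := S_classes h hk D.hkn D.hp D.hι (OR_Cut h D.hp D.hW) D.sx D.cx D.dx D.ex k b
    hk D.hkn hb hc hd
  rw [Nat.div_self (by omega), pow_one] at ht
  exact ⟨t, ht⟩

set_option maxHeartbeats 1000000 in
/-- **(X1d)** `h_m(x₁, x₂)` is exact on `F` -/
theorem XM.hm_zero {h : GT.Bla G k} (D : XM h m W p x) :
    Coh (GT.FF S) (∑ i ∈ Finset.range (m + 1),
      F.pull Prod.fst x ^ i * F.pull Prod.snd x ^ (m - i)) 0 := by
  have hk := D.hk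
  have hkn := D.hkn
  have hm2 := D.hm
  have h2k := D.two_k
  have hle : n ≤ N := by
    have h1 := G.finrank_T p D.hp
    rw [← h1]
    exact (Submodule.finrank_le _).trans (by rw [finrank_euclideanSpace, Fintype.card_fin])
  obtain ⟨l, W', hl1, hl2, hO⟩ := D.exists_OR_S
  have hι := D.hι
  have : Nonempty ι := Fintype.card_pos_iff.1 (by omega)
  have : Nonempty (Fin l) := ⟨⟨0, by omega⟩⟩
  obtain ⟨q, r, s, ⟨eq⟩, ⟨eq₂⟩⟩ := exists_par₂ (N := N) (a := l) (b := Fintype.card ι) (by omega)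
    (by omega) (Fin l) ι (Fintype.card_fin l) rfl
  have hM : (iM (Fin N) (Fin q))ᵀ * iM (Fin N) (Fin q) = 1 := iM_iso (Fin q)
  have hS := FV.sub_S h.bl
  have hSc : IsPreconnected S := h.bl.conn.isPreconnected
  have hXS := FV.sub_FF' h (d := 2 * n - k) (by omega)
  have hXc := FV.preconn_FF' h (by omega)
  have hO' := hO.push hM
  have hW' := D.hW.push hM
  have hneF : (GT.FF S).Nonempty := FV.nonempty_FF h.bl h.ty
  obtain ⟨W₁, c₁, hT₁⟩ := exists_thomPair thd_holds eq hS hSc ⟨p, D.hp⟩ hO'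
  obtain ⟨W₂, c₂, hT₂⟩ := exists_thomPair thd_holds eq₂ hXS hXc hneF hW'
  have hln : 2 * Fintype.card (Fin l) = n := by rw [Fintype.card_fin]; exact hl1
  rw [hln] at hT₁
  rw [hι] at hT₂
  have hP₁ : PField S n (pushE (iM (Fin N) (Fin q)) G.P) := by
    have := hO'.pfield
    rwa [hln] at this
  have hP₂ : PField (GT.FF S) k (pushE (iM (Fin N) (Fin q)) (FV.PVB h)) := by
    have := hW'.pfield
    rwa [hι] at this
  have hfr : finrank ℝ (EuclideanSpace ℝ (Fin N ⊕ Fin q)) = N + q := by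
    rw [finrank_euclideanSpace, Fintype.card_sum, Fintype.card_fin, Fintype.card_fin]
  obtain ⟨oS, hoS, soS, doS⟩ := GP.exists_ori (G := G) h.bl h.ty hk
  have φ : Fin l × Fin 2 ≃ Fin n := Fintype.equivFinOfCardEq (by
    rw [Fintype.card_prod, Fintype.card_fin, Fintype.card_fin]; omega)
  have hopr := SB.opr_of_OR φ hO'
  obtain ⟨hU, oU, hoU, soU, doU⟩ := exists_oU (by omega) (GP.clo_S h.bl) hP₁ hopr hoS soS doS
  have hne : (Sph S (pushE (iM (Fin N) (Fin q)) G.P)).Nonempty := by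
    obtain ⟨w, hw⟩ := nonempty_UST h D.hp
    exact ⟨_, mem_Sph_of hM hw⟩
  obtain ⟨κ', hUD⟩ := D.exists_UD hM hU hoU
  obtain ⟨m₀, rfl⟩ : ∃ m₀, m = m₀ + 1 := ⟨m - 1, by omega⟩
  exact hUD.hm_exact volume volume hS hSc hP₁ (by rw [hfr]; omega) hT₁ (by omega) (by omega)
    D.hn.symm D.dim1 soU doU (J_pos hU hoU hne).ne' (fun b => D.S_one) D.xm_ne hXS hXc hP₂
    (by rw [hfr]; omega) hT₂ D.diff_ne

theorem Coh.sumT {E : Type*} [NormedAddCommGroup E] [NormedSpace ℝ E] [FiniteDimensional ℝ E]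
    {X : Set E} {α : Type*} (s : Finset α) {f g : α → E → Ext E}
    (h : ∀ i ∈ s, Coh X (f i) (g i)) : Coh X (∑ i ∈ s, f i) (∑ i ∈ s, g i) := by
  classical
  induction s using Finset.induction_on with
  | empty => rw [Finset.sum_empty, Finset.sum_empty]; exact Coh.refl _
  | insert a s ha ih =>
    rw [Finset.sum_insert ha, Finset.sum_insert ha]
    exact (h a (Finset.mem_insert_self _ _)).add (ih fun i hi => h i (Finset.mem_insert_of_mem hi))

/-- `x^m` is exact on the unit tangent bundle -/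
theorem XM.top_US {h : GT.Bla G k} (D : XM h m W p x) :
    Coh (Sph S G.P) (F.pull Prod.fst (x ^ m)) 0 := by
  set X' := Sph (GT.FF S) (FV.PVB h) with hX'
  have s1 : Sm X' (F.pull Prod.fst (F.pull Prod.fst x)) :=
    (D.sx.pull smap_fst_FF).pull smap_fstS
  have s2 : Sm X' (F.pull Prod.fst (F.pull Prod.snd x)) :=
    (D.sx.pull smap_snd_FF).pull smap_fstS
  have c1 : Cl X' (F.pull Prod.fst (F.pull Prod.fst x)) :=
    (D.cx.pull smap_fst_FF D.sx).pull smap_fstS (D.sx.pull smap_fst_FF)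
  have c2 : Cl X' (F.pull Prod.fst (F.pull Prod.snd x)) :=
    (D.cx.pull smap_snd_FF D.sx).pull smap_fstS (D.sx.pull smap_snd_FF)
  have h1 := D.hm_zero.pull (smap_fstS (X := GT.FF S) (P := FV.PVB h))
  rw [pull_zero', pull_sum'] at h1
  have hg := coh_geod h D.sx D.cx
  -- every summand is `x₁^m`
  have h2 : Coh X' (∑ i ∈ Finset.range (m + 1), F.pull Prod.fst (F.pull Prod.fst x ^ i *
      F.pull Prod.snd x ^ (m - i)))
      (∑ i ∈ Finset.range (m + 1), F.pull Prod.fst (F.pull Prod.fst x) ^ m) := by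
    refine Coh.sumT _ fun i hi => ?_
    have hi' : i ≤ m := Nat.lt_succ_iff.1 (Finset.mem_range.1 hi)
    rw [pull_mul', pull_pow', pull_pow']
    have h3 := Coh.powT s2 c2 s1 c1 hg.symm (m - i)
    have h4 := Coh.mul_left (s1.pow i) (Cl.pow s1 c1 i) h3
    rwa [← pow_add, Nat.add_sub_cancel' hi'] at h4
  have h5 := h2.symm.trans h1
  rw [Finset.sum_const, Finset.card_range] at h5
  have h6 : Coh X' ((((m + 1 : ℕ) : ℝ)) • F.pull Prod.fst (F.pull Prod.fst x) ^ m) 0 := by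
    rwa [Nat.cast_smul_eq_nsmul ℝ]
  have h7 := h6.smul_zero_of_ne (by positivity)
  rw [← pull_pow', ← pull_pow'] at h7
  exact coh_up h h7

/-- the Euler form of `S` is not exact -/
theorem XM.eS_ne {ι' : Type} [Fintype ι'] [DecidableEq ι'] {W' : Euc N → (ι' × Fin 2 → Fin N) → ℝ}
    {h : GT.Bla G k} (D : XM h m W p x) (hι' : 2 * Fintype.card ι' = n) (hO : OR S G.P W') :
    ¬ Coh S (eR G.P W') 0 := by
  have hk := D.hk
  have hkn := D.hkn
  have : Nonempty ι' := Fintype.card_pos_iff.1 (by omega)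
  have hxn : Hom (2 * Fintype.card ι') (x ^ m) := by rw [hι', D.hn]; exact D.dx.pow m
  exact HY.eR_not_exact_of_top (FV.sub_S h.bl) h.bl.conn.isPreconnected hO (D.sx.pow m)
    (Cl.pow D.sx D.cx m) hxn D.xm_ne D.top_US

/-- **closed forms on `US` in degrees `< n + k - 1`** (969's `Low`) -/
theorem XM.low {h : GT.Bla G k} (D : XM h m W p x) :
    HY.Low (Sph S G.P) (F.pull Prod.fst x) k (n + k - 1) := by
  obtain ⟨l, W', h1, h2, hO⟩ := D.exists_OR_S
  have hι' : 2 * Fintype.card (Fin l) = n := by rw [Fintype.card_fin]; omega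
  exact HY.low_S h D.hk D.hkn D.hp D.hι (OR_Cut h D.hp D.hW) hι' hO D.sx D.cx D.dx D.ex
    (D.eS_ne hι' hO)

end Crest.Agent.R208.T
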