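import Crest.Agent.R208.AN4
import Crest.Agent.R208.KX8
import Crest.Agent.R208.TX9
import Crest.Agent.R208.EAd286

/-! Row 208, block (N) (helper601).  AN5: the flat integral for `om = x` of helper316's `T.XM`
(no hypothesis on the fibre integral left), and the number `a₂`. -/

set_option autoImplicit false
set_option linter.unusedSectionVars false
set_option linter.unusedVariables false

open MeasureTheory Set Filter Topology Module
open scoped ContDiff RealInnerProductSpace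
open Crest.GeometryTopology.Submanifold
open Crest.Agent.R241.DDefs
open Crest.Agent.R241.D2
open Crest.Agent.R241.D3c
open Crest.Agent.R208.F Crest.Agent.R208.FI Crest.Agent.R208.CW Crest.Agent.R208.T
open Crest.Agent.R208.L (US)
open Crest.Agent.R208.KG (N4)
open Crest.Agent.R208.AF
open Crest.Agent.R208.EX (ED)

noncomputable section

namespace Crest.Agent.R208.AN

variable {n N d e k m mK : ℕ} {κ ε : ℝ} {S : Set (Euc N)} {G : Geo n N κ S}
  {ι : Type} [Fintype ι] [DecidableEq ι] {W : Euc N × Euc N → (ι × Fin 2 → Fin N) → ℝ}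
  {p : Euc N} {x : Euc N → Ext (Euc N)} {oU y : Euc N × Euc N → Ext (Euc N × Euc N)}

/-- **the absolute value of the integral over the flat family**, `om = x` -/
theorem abs_vs_XM {h : GT.Bla G k} (M : T.XM h m W p x) (hO : KG.OK G 4 ε) {D : ED N}
    (hD : D.OK) (hS : D.S = S) (hx : D.om = x) {α : E4 N → Ext (E4 N)}
    (hα : Sm (N4 h) α) (hα1 : Hom 1 α) (hp : 1 ≤ D.p) (hq : 1 ≤ D.q)
    (hd : d + 1 = 2 * n) (hed : k + e = d) (hmK : mK = 3 * (k - 1) + d)
    (hoU : Ori d (US G) oU) {oK : E4 N → Ext (E4 N)} (hoK : Ori mK (N4 h) oK)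
    (sy : Sm (US G) y) (cy : Cl (US G) y) (dy : Hom e y) :
    (2 * Real.pi) ^ 2 * |J mK (N4 h) oK (D.vs α (Ff G ε) * F.pull (fun z => z.1.1.1) y)| =
      3 * XF.tau ι ^ 3 * |J d (US G) oU (F.pull Prod.fst x * y)| := by
  obtain ⟨z₀, hz₀⟩ : (US G).Nonempty := T.nonempty_UST h M.hp
  have h1 := abs_vs_flat (τ := XF.tau ι) h M.hk M.hke M.hkn hO hD hS hα hα1 hp hq (hx ▸ M.sx)
    (hx ▸ M.cx) (hx ▸ M.dx) hz₀ (fun oF ho => by
      rw [← fibre_eq hz₀] at ho ⊢
      rw [hx]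
      exact KX.valF M hz₀ ho) hd hed hmK hoU hoK sy cy dy
  rw [hx] at h1
  exact h1

/-- **the number `a₂`** (`a₂ x ~ u`) from the localisation of `u` at the flat family -/
theorem abs_a2_XM {h : GT.Bla G k} (M : T.XM h m W p x) (hO : KG.OK G 4 ε) {D : ED N}
    (hD : D.OK) (hS : D.S = S) (hx : D.om = x) {α : E4 N → Ext (E4 N)}
    (hα : Sm (N4 h) α) (hα1 : Hom 1 α) (hp : 1 ≤ D.p) (hq : 1 ≤ D.q)
    (hd : d + 1 = 2 * n) (hmK : mK = 3 * (k - 1) + d)
    (hoU : Ori d (US G) oU) {oK : E4 N → Ext (E4 N)} (hoK : Ori mK (N4 h) oK)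
    {u : Euc N × Euc N → Ext (Euc N × Euc N)} {a2 Δ : ℝ} (su : Sm (US G) u)
    (hu : Coh (US G) u (a2 • F.pull Prod.fst x))
    (hloc : ∀ y, Sm (US G) y → Cl (US G) y → Hom (d - k) y → |J d (US G) oU (u * y)| =
      Δ * |J mK (N4 h) oK (D.vs α (Ff G ε) * F.pull (fun z => z.1.1.1) y)|) :
    (2 * Real.pi) ^ 2 * |a2| = 3 * Δ * XF.tau ι ^ 3 := by
  obtain ⟨y, sy, cy, dy, hne⟩ := EA.exists_dual M hd hoU
  have hkn := M.hkn
  have hX : Clo d (US G) := SB.clo_US h hd
  have sx : Sm (US G) (F.pull (Prod.fst : Euc N × Euc N → Euc N) x) :=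
    M.sx.pull (Y := S) ⟨fun _ _ => contDiffAt_fst, fun z hz => hz.1.1⟩
  exact abs_a2 hX hoU su sx sy cy hu (hloc y sy cy dy)
    (abs_vs_XM M hO hD hS hx hα hα1 hp hq hd (by omega) hmK hoU hoK sy cy dy) hne

end Crest.Agent.R208.AN
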