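import Mathlib

/-!
R208, type (8,2) (helper646): integrality of `b` and rationality of `q₁, q₂` from four Euler
numbers of sums of `N_C ⊗ L^a` and `L` over `CM`.
-/

set_option autoImplicit false

namespace Crest.Agent.R208.BZ

/-- the rational numbers as a subfield of `ℝ` -/
noncomputable def K : Subfield ℝ := (algebraMap ℚ ℝ).fieldRange

theorem mem_K {x : ℝ} : x ∈ K ↔ ∃ q : ℚ, x = q := by
  unfold K
  rw [RingHom.mem_fieldRange]
  constructor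
  · rintro ⟨q, h⟩
    exact ⟨q, by rw [← h]; simp⟩
  · rintro ⟨q, h⟩
    exact ⟨q, by rw [h]; simp⟩

theorem int_mem (n : ℤ) : (n : ℝ) ∈ K := mem_K.2 ⟨n, by simp⟩

theorem nat_mem (n : ℕ) : (n : ℝ) ∈ K := mem_K.2 ⟨n, by simp⟩

/-- a rational number whose square is an integer is an integer -/
theorem exists_int {b : ℝ} (hb : b ∈ K) {m : ℤ} (h : b ^ 2 = m) : ∃ B : ℤ, b = B := by
  obtain ⟨q, rfl⟩ := mem_K.1 hb
  have h1 : q * q = (m : ℚ) := by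
    have : ((q * q : ℚ) : ℝ) = ((m : ℚ) : ℝ) := by
      push_cast
      rw [← h]
      ring
    exact_mod_cast this
  have h2 : (q * q).den = 1 := by rw [h1]; simp
  rw [Rat.mul_self_den] at h2
  have h3 : q.den = 1 := Nat.eq_one_of_mul_eq_one_right h2
  refine ⟨q.num, ?_⟩
  have h4 : (q : ℚ) = (q.num : ℚ) := by
    have := Rat.num_div_den q
    rw [h3] at this
    simpa using this.symm
  rw [h4]
  simp

theorem ints {b q1 q2 D : ℝ} (hD : 2 * D = b ^ 2 + 12)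
    (z0 : ∃ n : ℤ, D = n)
    (z1 : ∃ n : ℤ, D - D * q1 + (D * q2 + 6 * b) + 6 = n)
    (z2 : ∃ n : ℤ, 128 * D - 32 * (D * q1) + 8 * (D * q2 + 6 * b) + 12 = n)
    (z3 : ∃ n : ℤ, (2 - q1 + q2) ^ 2 * D + (2 - q1 + q2) * (12 - b) * b + (12 - b) ^ 2 / 2 = n) :
    (∃ B i : ℤ, b = B ∧ D = 2 * i ∧ 4 * i = B ^ 2 + 12) ∧
      (∃ q : ℚ, q1 = q) ∧ (∃ q : ℚ, q2 = q) ∧ ∃ q : ℚ, 1 / 64 - q1 / 16 + q2 / 4 + 1 = q := by
  have hD0 : 0 < D := by nlinarith [sq_nonneg b]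
  obtain ⟨n0, z0⟩ := z0
  obtain ⟨n1, z1⟩ := z1
  obtain ⟨n2, z2⟩ := z2
  obtain ⟨n3, z3⟩ := z3
  have kD : D ∈ K := by rw [z0]; exact int_mem _
  have k6 : (6 : ℝ) ∈ K := by exact_mod_cast nat_mem 6
  have k12 : (12 : ℝ) ∈ K := by exact_mod_cast nat_mem 12
  have k8 : (8 : ℝ) ∈ K := by exact_mod_cast nat_mem 8
  have k24 : (24 : ℝ) ∈ K := by exact_mod_cast nat_mem 24
  have k128 : (128 : ℝ) ∈ K := by exact_mod_cast nat_mem 128
  have k2 : (2 : ℝ) ∈ K := by exact_mod_cast nat_mem 2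
  have k36 : (36 : ℝ) ∈ K := by exact_mod_cast nat_mem 36
  have k72 : (72 : ℝ) ∈ K := by exact_mod_cast nat_mem 72
  have k64 : (64 : ℝ) ∈ K := by exact_mod_cast nat_mem 64
  have k16 : (16 : ℝ) ∈ K := by exact_mod_cast nat_mem 16
  have k4 : (4 : ℝ) ∈ K := by exact_mod_cast nat_mem 4
  have k1 : (1 : ℝ) ∈ K := K.one_mem
  -- `D q₁` is rational
  have kX : D * q1 ∈ K := by
    have h : D * q1 = (8 * ((n1 : ℝ) - D - 6) - ((n2 : ℝ) - 128 * D - 12)) / 24 := by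
      linarith
    rw [h]
    exact K.div_mem (K.sub_mem (K.mul_mem k8 (K.sub_mem (K.sub_mem (int_mem _) kD) k6))
      (K.sub_mem (K.sub_mem (int_mem _) (K.mul_mem k128 kD)) k12)) k24
  have ku : D * q2 + 6 * b ∈ K := by
    have h : D * q2 + 6 * b = (n1 : ℝ) - D - 6 + D * q1 := by linarith
    rw [h]
    exact K.add_mem (K.sub_mem (K.sub_mem (int_mem _) kD) k6) kX
  have kq1 : q1 ∈ K := by
    have h : q1 = D * q1 / D := by field_simp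
    rw [h]
    exact K.div_mem kX kD
  have kb2 : b ^ 2 ∈ K := by
    have h : b ^ 2 = 2 * D - 12 := by linarith
    rw [h]
    exact K.sub_mem (K.mul_mem k2 kD) k12
  set p0 : ℝ := 2 - q1 + (D * q2 + 6 * b) / D with hp0
  have kp0 : p0 ∈ K := K.add_mem (K.sub_mem k2 kq1) (K.div_mem ku kD)
  have hkey : b * (72 / D) = p0 ^ 2 * D - 36 * b ^ 2 / D - p0 * b ^ 2 + 72 + b ^ 2 / 2 - n3 := by
    have hP : 2 - q1 + q2 = p0 - 6 * b / D := by
      rw [hp0]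
      field_simp
      ring
    rw [← z3, hP]
    have hb2 : b ^ 2 = 2 * D - 12 := by linarith
    field_simp
    have hb3 : b ^ 3 = b * (2 * D - 12) := by rw [← hb2]; ring
    ring_nf
    rw [hb3]
    ring_nf
  have kb : b ∈ K := by
    have h : b = (p0 ^ 2 * D - 36 * b ^ 2 / D - p0 * b ^ 2 + 72 + b ^ 2 / 2 - n3) / (72 / D) := by
      rw [← hkey]
      field_simp
    rw [h]
    exact K.div_mem (K.sub_mem (K.add_mem (K.add_mem (K.sub_mem (K.sub_mem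
      (K.mul_mem (K.pow_mem kp0 2) kD) (K.div_mem (K.mul_mem k36 kb2) kD))
      (K.mul_mem kp0 kb2)) k72) (K.div_mem kb2 k2)) (int_mem _)) (K.div_mem k72 kD)
  have kq2 : q2 ∈ K := by
    have h : q2 = (D * q2 + 6 * b - 6 * b) / D := by field_simp; ring
    rw [h]
    exact K.div_mem (K.sub_mem ku (K.mul_mem k6 kb)) kD
  obtain ⟨B, hB⟩ := exists_int (b := b) kb (m := 2 * n0 - 12) (by
    push_cast
    rw [← z0]
    linarith)
  have hBn : B ^ 2 = 2 * n0 - 12 := by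
    have : (B : ℝ) ^ 2 = 2 * (n0 : ℝ) - 12 := by
      rw [← hB, ← z0]
      linarith
    exact_mod_cast this
  have hev : Even B := by
    have h : Even (B ^ 2) := by
      rw [hBn]
      exact ⟨n0 - 6, by ring⟩
    exact (Int.even_pow' (by norm_num)).1 h
  obtain ⟨c, hc⟩ := hev
  have hn0 : n0 = 2 * (c ^ 2 + 3) := by
    have : (c + c) ^ 2 = 2 * n0 - 12 := by rw [← hc]; exact hBn
    nlinarith
  refine ⟨⟨B, c ^ 2 + 3, hB, ?_, ?_⟩, mem_K.1 kq1, mem_K.1 kq2, mem_K.1 ?_⟩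
  · rw [z0, hn0]
    push_cast
    ring
  · rw [hBn, hn0]
    ring
  · exact K.add_mem (K.add_mem (K.sub_mem (K.div_mem k1 k64) (K.div_mem kq1 k16))
      (K.div_mem kq2 k4)) k1

/-- class version.  `c7 a = c₇(N_C ⊗ L^a)`, `p₁ = q₁ e²`, `p₂ = q₂ e⁴ + 12 x`,
`p₃ = - e⁶ + b e² x`. -/
def c7 {A : Type*} [CommRing A] [Algebra ℝ A] (e x : A) (q1 q2 b a : ℝ) : A :=
  (a ^ 7 - q1 * a ^ 5 + q2 * a ^ 3 + a) • e ^ 7 + (12 * a ^ 3 - b * a) • (e ^ 3 * x)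

/-- `c₇(N_C ⊗ L^a) = Σ_j (-1)^j p_j (a e)^(7-2j)` -/
theorem c7_eq {A : Type*} [CommRing A] [Algebra ℝ A] (e x p1 p2 p3 : A) (q1 q2 b a : ℝ)
    (h1 : p1 = q1 • e ^ 2) (h2 : p2 = q2 • e ^ 4 + (12 : ℝ) • x)
    (h3 : p3 = -e ^ 6 + b • (e ^ 2 * x)) :
    (a • e) ^ 7 - p1 * (a • e) ^ 5 + p2 * (a • e) ^ 3 - p3 * (a • e) = c7 e x q1 q2 b a := by
  subst h1 h2 h3
  simp only [c7, Algebra.smul_def, map_sub, map_add, map_mul, map_pow, map_ofNat]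
  ring

theorem ints_class {A : Type*} [CommRing A] [Algebra ℝ A] (I : A →ₗ[ℝ] ℝ) {e x : A}
    {b q1 q2 D : ℝ} (hD : 2 * D = b ^ 2 + 12)
    (h15 : I (e ^ 15) = D) (h11 : I (e ^ 11 * x) = b / 2) (h7 : I (e ^ 7 * x ^ 2) = 1 / 2)
    (z0 : ∃ n : ℤ, I (e ^ 15) = n)
    (z1 : ∃ n : ℤ, I (e ^ 8 * c7 e x q1 q2 b 1) = n)
    (z2 : ∃ n : ℤ, I (e ^ 8 * c7 e x q1 q2 b 2) = n)
    (z3 : ∃ n : ℤ, I (e * (c7 e x q1 q2 b 1 * c7 e x q1 q2 b 1)) = n) :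
    (∃ B i : ℤ, b = B ∧ I (e ^ 15) = 2 * i ∧ 4 * i = B ^ 2 + 12) ∧
      (∃ q : ℚ, q1 = q) ∧ (∃ q : ℚ, q2 = q) ∧ ∃ q : ℚ, 1 / 64 - q1 / 16 + q2 / 4 + 1 = q := by
  have key : ∀ a : ℝ, I (e ^ 8 * c7 e x q1 q2 b a)
      = (a ^ 7 - q1 * a ^ 5 + q2 * a ^ 3 + a) * D + (12 * a ^ 3 - b * a) * (b / 2) := by
    intro a
    have : e ^ 8 * c7 e x q1 q2 b a
        = (a ^ 7 - q1 * a ^ 5 + q2 * a ^ 3 + a) • e ^ 15
          + (12 * a ^ 3 - b * a) • (e ^ 11 * x) := by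
      simp only [c7, Algebra.smul_def]
      ring
    rw [this, map_add, map_smul, map_smul, h15, h11, smul_eq_mul, smul_eq_mul]
  have key3 : I (e * (c7 e x q1 q2 b 1 * c7 e x q1 q2 b 1))
      = (2 - q1 + q2) ^ 2 * D + (2 - q1 + q2) * (12 - b) * b + (12 - b) ^ 2 / 2 := by
    have : e * (c7 e x q1 q2 b 1 * c7 e x q1 q2 b 1)
        = ((2 - q1 + q2) ^ 2) • e ^ 15 + (2 * ((2 - q1 + q2) * (12 - b))) • (e ^ 11 * x)
          + ((12 - b) ^ 2) • (e ^ 7 * x ^ 2) := by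
      simp only [c7, Algebra.smul_def, map_sub, map_add, map_mul, map_pow, map_ofNat, map_one]
      ring
    rw [this, map_add, map_add, map_smul, map_smul, map_smul, h15, h11, h7]
    simp only [smul_eq_mul]
    ring
  rw [h15] at z0
  rw [key] at z1 z2
  rw [key3] at z3
  have hb2 : b ^ 2 = 2 * D - 12 := by linarith
  obtain ⟨n1, z1⟩ := z1
  obtain ⟨n2, z2⟩ := z2
  have := ints (b := b) (q1 := q1) (q2 := q2) (D := D) hD z0
    ⟨n1, by rw [← z1]; nlinarith⟩ ⟨n2, by rw [← z2]; nlinarith⟩ z3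
  rw [h15]
  exact this

end Crest.Agent.R208.BZ
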