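import Crest.Agent.R208.CM2

/-! Row 208, block CM (helper971), part CM2b: descent of invariant functions and of basic forms to
the quotient. -/

set_option autoImplicit false
set_option linter.unusedSectionVars false
set_option linter.unusedVariables false

open Set Filter Topology Module MeasureTheory
open scoped ContDiff RealInnerProductSpace ComplexConjugate
open Crest.Agent.R208.F Crest.Agent.R208.FI

noncomputable section

namespace Crest.Agent.R208.CM

/-! ### algebra -/

section alg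

variable {V T : Type*} [AddCommGroup V] [Module ℝ V] [AddCommGroup T] [Module ℝ T]

/-- pull-back along a rank one perturbation -/
theorem pb_add_rank_one (B : V →ₗ[ℝ] T) (l : Module.Dual ℝ V) (e : T) (c : Ext T) :
    pb (B + l.smulRight e) c = pb B c + io l * pb B (ii e c) := by
  induction c using F.ind with
  | h0 r => rw [AlgHom.commutes, AlgHom.commutes, ii_algebraMap, map_zero, mul_zero, add_zero]
  | hadd x y hx hy =>
    rw [map_add, hx, hy, map_add, map_add, map_add, mul_add]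
    abel
  | hmul x μ hx =>
    have e1 : io (μ ∘ₗ (B + l.smulRight e)) = io (μ ∘ₗ B) + μ e • io l := by
      rw [← map_smul, ← map_add]
      congr 1
      ext v
      simp [mul_comm]
    rw [map_mul, hx, pb_io, map_mul, pb_io, ii_io_mul, map_sub, map_smul, map_mul, pb_io, e1]
    have e2 : io l * io l = 0 := io_sq l
    have e3 : io (μ ∘ₗ B) * io l = - (io l * io (μ ∘ₗ B)) := io_anti _ _
    calc (io (μ ∘ₗ B) + μ e • io l) * (pb B x + io l * pb B (ii e x))
        = io (μ ∘ₗ B) * pb B x + (io (μ ∘ₗ B) * io l) * pb B (ii e x) +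
          μ e • (io l * pb B x) + μ e • ((io l * io l) * pb B (ii e x)) := by
          simp only [add_mul, mul_add, smul_mul_assoc, mul_assoc]
          abel
      _ = _ := by
          rw [e2, e3]
          simp only [zero_mul, smul_zero, add_zero, neg_mul, mul_sub, mul_smul_comm, mul_assoc]
          abel

/-- a form killed by `e` does not see `e` -/
theorem pb_eq_of_sub_mem (A B : V →ₗ[ℝ] T) (e : T) (c : Ext T) (hc : ii e c = 0)
    (h : ∀ v, ∃ r : ℝ, A v - B v = r • e) : pb A c = pb B c := by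
  by_cases he : e = 0
  · have : A = B := by
      ext v
      obtain ⟨r, hr⟩ := h v
      rw [he, smul_zero] at hr
      exact sub_eq_zero.1 hr
    rw [this]
  · choose r hr using h
    let l : Module.Dual ℝ V :=
      { toFun := r
        map_add' := fun v w => by
          have h1 : r (v + w) • e = (r v + r w) • e := by
            rw [← hr, add_smul, ← hr, ← hr, map_add, map_add]; abel
          have := sub_eq_zero.2 h1
          rw [← sub_smul] at this
          exact sub_eq_zero.1 ((smul_eq_zero.1 this).resolve_right he)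
        map_smul' := fun a v => by
          have h1 : r (a • v) • e = (a * r v) • e := by
            rw [← hr, mul_smul, ← hr, map_smul, map_smul, smul_sub]
          have := sub_eq_zero.2 h1
          rw [← sub_smul] at this
          exact sub_eq_zero.1 ((smul_eq_zero.1 this).resolve_right he) }
    have hA : A = B + l.smulRight e := by
      ext v
      have : A v = B v + r v • e := by rw [← hr v]; abel
      exact this
    rw [hA, pb_add_rank_one, hc, map_zero, mul_zero, add_zero]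

end alg

/-! ### gluing with convex constraints -/

section glue

open scoped Manifold

theorem exists_glueC {E W : Type*} [NormedAddCommGroup E] [NormedSpace ℝ E]
    [FiniteDimensional ℝ E] [NormedAddCommGroup W] [NormedSpace ℝ W] {X : Set E}
    (hXc : IsClosed X) (A : E → Set W) (hA : ∀ y ∈ X, Convex ℝ (A y))
    (hloc : ∀ x ∈ X, ∃ (O : Set E) (s : E → W), IsOpen O ∧ x ∈ O ∧ ContDiffOn ℝ ∞ s O ∧
      ∀ y ∈ X ∩ O, s y ∈ A y) :
    ∃ s : E → W, ContDiff ℝ ∞ s ∧ ∀ y ∈ X, s y ∈ A y := by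
  classical
  have hconv : ∀ x : E, Convex ℝ {w : W | x ∈ X → w ∈ A x} := by
    intro x
    by_cases hx : x ∈ X
    · have : {w : W | x ∈ X → w ∈ A x} = A x := by ext w; simp [hx]
      rw [this]; exact hA x hx
    · have : {w : W | x ∈ X → w ∈ A x} = univ := by ext w; simp [hx]
      rw [this]; exact convex_univ
  have hloc' : ∀ x : E, ∃ U ∈ 𝓝 x, ∃ s : E → W,
      ContMDiffOn 𝓘(ℝ, E) 𝓘(ℝ, W) ((⊤ : ℕ∞) : WithTop ℕ∞) s U ∧
        ∀ y ∈ U, s y ∈ {w : W | y ∈ X → w ∈ A y} := by
    intro x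
    by_cases hx : x ∈ X
    · obtain ⟨O, s, hO, hxO, hs, hsA⟩ := hloc x hx
      exact ⟨O, hO.mem_nhds hxO, s, hs.contMDiffOn, fun y hy hyX => hsA y ⟨hyX, hy⟩⟩
    · exact ⟨Xᶜ, hXc.isOpen_compl.mem_nhds hx, fun _ => 0, contMDiffOn_const,
        fun y hy hyX => absurd hyX hy⟩
  obtain ⟨s, hs⟩ := exists_contMDiffMap_forall_mem_convex_of_local (n := (⊤ : ℕ∞))
    (I := 𝓘(ℝ, E)) (M := E) (F := W) (t := fun x => {w : W | x ∈ X → w ∈ A x}) hconv hloc'
  exact ⟨s, s.contMDiff.contDiff, fun x hx => hs x hx⟩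

end glue

variable {E : Type} [NormedAddCommGroup E] [NormedSpace ℝ E] [FiniteDimensional ℝ E]
  {X : Set E} {φ : ℝ → E → E} {m : ℕ} {g : E → Fin m → ℂ} {n : ℕ}

namespace Emb

/-- **descent of invariant functions** -/
theorem exists_desc (hg : Emb X φ g) (h : Cir X φ) (hX : Clo (n + 1) X)
    {W : Type*} [NormedAddCommGroup W] [NormedSpace ℝ W] {f : E → W}
    (hf : ∀ x ∈ X, ContDiffAt ℝ ∞ f x) (hinv : ∀ x ∈ X, ∀ t, f (φ t x) = f x) :
    ∃ f' : MM m → W, ContDiff ℝ ∞ f' ∧ ∀ x ∈ X, f' (jj g x) = f x := by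
  suffices hk : ∃ s : MM m → W, ContDiff ℝ ∞ s ∧
      ∀ y ∈ Quo X g, s y ∈ {w : W | ∀ x ∈ X, jj g x = y → w = f x} by
    obtain ⟨s, hs, hsA⟩ := hk
    exact ⟨s, hs, fun x hx => hsA _ (jj_mem hx) x hx rfl⟩
  refine exists_glueC (X := Quo X g) (hg.isCompact_Quo hX.compact).isClosed
    (fun y => {w : W | ∀ x ∈ X, jj g x = y → w = f x}) (fun y hy => ?_) (fun y hy => ?_)
  · have : {w : W | ∀ x ∈ X, jj g x = y → w = f x} = ⋂ x ∈ {x ∈ X | jj g x = y}, {f x} := by
      ext w
      simp only [mem_setOf_eq, mem_iInter, mem_singleton_iff]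
      exact ⟨fun h x hx => h x hx.1 hx.2, fun h x hx hxy => h x ⟨hx, hxy⟩⟩
    rw [this]
    exact convex_iInter₂ fun x hx => convex_singleton _
  · obtain ⟨x, hx, rfl⟩ := hy
    obtain ⟨σ, O', a1, a2, a3, a4, a5, a6⟩ := hg.exists_sec h hX hx
    refine ⟨O', fun y => f (σ y), a1, a2, fun y hy => ContDiffAt.contDiffWithinAt ?_, ?_⟩
    · exact (hf _ (a5 y hy)).comp y (a3.contDiffAt (a1.mem_nhds hy))
    · rintro y ⟨hyQ, hyO⟩ x' hx' hxy
      obtain ⟨t, ht⟩ := (hg.jj_eq_iff hx' (a5 y hyO)).1 (by rw [hxy, a6 y ⟨hyQ, hyO⟩])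
      change f (σ y) = f x'
      rw [ht, hinv x' hx']

/-- **descent of basic forms** -/
theorem exists_descF (hg : Emb X φ g) (h : Cir X φ) (hX : Clo (n + 1) X) {om : E → Ext E}
    (hs : ∀ x ∈ X, ContDiffAt ℝ ∞ om x)
    (hinv : ∀ x ∈ X, ∀ t, pb (Tan X x).subtype (pull (φ t) om x) = pb (Tan X x).subtype (om x))
    (hor : ∀ x ∈ X, pb (Tan X x).subtype (ii (gen φ x) (om x)) = 0) :
    ∃ om' : MM m → Ext (MM m), ContDiff ℝ ∞ om' ∧
      ∀ x ∈ X, pb (Tan X x).subtype (pull (jj g) om' x) = pb (Tan X x).subtype (om x) := by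
  suffices hk : ∃ s : MM m → Ext (MM m), ContDiff ℝ ∞ s ∧
      ∀ y ∈ Quo X g, s y ∈ {c : Ext (MM m) | ∀ x ∈ X, jj g x = y →
        pb (Tan X x).subtype (pb (fderiv ℝ (jj g) x : E →ₗ[ℝ] MM m) c) =
          pb (Tan X x).subtype (om x)} by
    obtain ⟨s, hs', hsA⟩ := hk
    exact ⟨s, hs', fun x hx => hsA _ (jj_mem hx) x hx rfl⟩
  refine exists_glueC (X := Quo X g) (hg.isCompact_Quo hX.compact).isClosed
    (fun y => {c : Ext (MM m) | ∀ x ∈ X, jj g x = y →
      pb (Tan X x).subtype (pb (fderiv ℝ (jj g) x : E →ₗ[ℝ] MM m) c) =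
        pb (Tan X x).subtype (om x)}) (fun y hy => ?_) (fun y hy => ?_)
  · have : {c : Ext (MM m) | ∀ x ∈ X, jj g x = y →
        pb (Tan X x).subtype (pb (fderiv ℝ (jj g) x : E →ₗ[ℝ] MM m) c) =
          pb (Tan X x).subtype (om x)} = ⋂ x ∈ {x ∈ X | jj g x = y},
        (((pb (Tan X x).subtype : Ext E →ₐ[ℝ] Ext (Tan X x)).toLinearMap ∘ₗ
          (pb (fderiv ℝ (jj g) x : E →ₗ[ℝ] MM m) : Ext (MM m) →ₐ[ℝ] Ext E).toLinearMap) ⁻¹'
            {pb (Tan X x).subtype (om x)}) := by
      ext w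
      simp only [mem_setOf_eq, mem_iInter]
      exact ⟨fun h x hx => h x hx.1 hx.2, fun h x hx hxy => h x ⟨hx, hxy⟩⟩
    rw [this]
    exact convex_iInter₂ fun x hx => (convex_singleton _).linear_preimage _
  · obtain ⟨x, hx, rfl⟩ := hy
    obtain ⟨σ, O', a1, a2, a3, a4, a5, a6⟩ := hg.exists_sec h hX hx
    refine ⟨O', pull σ om, a1, a2, fun y hy => ContDiffAt.contDiffWithinAt ?_, ?_⟩
    · exact contDiffAt_pull (a3.contDiffAt (a1.mem_nhds hy)) (by simp) (hs _ (a5 y hy))
    · rintro y ⟨hyQ, hyO⟩ x' hx' rfl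
      have hσX := a5 _ hyO
      obtain ⟨t, ht⟩ := (hg.jj_eq_iff hx' hσX).1 (by rw [a6 _ ⟨hyQ, hyO⟩])
      -- the two tangent maps
      have hσd : HasFDerivAt σ (fderiv ℝ σ (jj g x')) (jj g x') :=
        ((a3.contDiffAt (a1.mem_nhds hyO)).differentiableAt (by simp)).hasFDerivAt
      have hjd : HasFDerivAt (jj g) (fderiv ℝ (jj g) x') x' :=
        (hg.differentiableAt_jj hx').hasFDerivAt
      have hφd : HasFDerivAt (φ t) (fderiv ℝ (φ t) x') x' :=
        ((h.smooth_right t hx').differentiableAt (by simp)).hasFDerivAt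
      have hjd2 : HasFDerivAt (jj g) (fderiv ℝ (jj g) (φ t x')) (φ t x') :=
        (hg.differentiableAt_jj (h.maps t hx')).hasFDerivAt
      have hσj : HasFDerivAt (fun z => σ (jj g z))
          ((fderiv ℝ σ (jj g x')).comp (fderiv ℝ (jj g) x')) x' :=
        HasFDerivAt.comp (g := σ) (f := jj g) x' hσd hjd
      have hjφ : HasFDerivAt (fun z => jj g (φ t z))
          ((fderiv ℝ (jj g) (φ t x')).comp (fderiv ℝ (φ t) x')) x' :=
        HasFDerivAt.comp (g := jj g) (f := φ t) x' hjd2 hφd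
      have hjO : ∀ᶠ z in 𝓝 x', jj g z ∈ O' :=
        (hg.contDiffAt_jj hx').continuousAt.eventually (a1.mem_nhds hyO)
      have hA : ∀ v ∈ Tan X x', fderiv ℝ σ (jj g x') (fderiv ℝ (jj g) x' v) ∈ Tan X (φ t x') := by
        intro v hv
        have e1 : fderiv ℝ (fun z => σ (jj g z)) x' v = fderiv ℝ σ (jj g x') (fderiv ℝ (jj g) x' v) := by
          rw [hσj.fderiv]; rfl
        rw [← e1, ← ht]
        refine fderiv_mem_Tan (h := fun z => σ (jj g z)) hσj.differentiableAt ?_ v
        filter_upwards [hjO] with z hz using a5 _ hz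
      have hB : ∀ v ∈ Tan X x', fderiv ℝ (φ t) x' v ∈ Tan X (φ t x') := fun v hv =>
        fderiv_mapsTo_Tan hφd.differentiableAt (fun z hz => h.maps t hz) hv
      set A : Tan X x' →ₗ[ℝ] Tan X (φ t x') :=
        LinearMap.codRestrict _ (((fderiv ℝ σ (jj g x') : MM m →ₗ[ℝ] E) ∘ₗ
          (fderiv ℝ (jj g) x' : E →ₗ[ℝ] MM m)) ∘ₗ (Tan X x').subtype) (fun v => hA v v.2) with hAd
      set B : Tan X x' →ₗ[ℝ] Tan X (φ t x') :=
        LinearMap.codRestrict _ ((fderiv ℝ (φ t) x' : E →ₗ[ℝ] E) ∘ₗ (Tan X x').subtype)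
          (fun v => hB v v.2) with hBd
      have hAs : (Tan X (φ t x')).subtype ∘ₗ A = ((fderiv ℝ σ (jj g x') : MM m →ₗ[ℝ] E) ∘ₗ
          (fderiv ℝ (jj g) x' : E →ₗ[ℝ] MM m)) ∘ₗ (Tan X x').subtype := by
        rw [hAd]; rfl
      have hBs : (Tan X (φ t x')).subtype ∘ₗ B =
          (fderiv ℝ (φ t) x' : E →ₗ[ℝ] E) ∘ₗ (Tan X x').subtype := by
        rw [hBd]; rfl
      have key : pb A (pb (Tan X (φ t x')).subtype (om (φ t x'))) =
          pb B (pb (Tan X (φ t x')).subtype (om (φ t x'))) := by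
        refine pb_eq_of_sub_mem A B ⟨gen φ (φ t x'), h.gen_mem (h.maps t hx')⟩ _ ?_ ?_
        · rw [ii_pb]
          exact hor _ (h.maps t hx')
        · intro v
          have h1 : ((A v : E) - (B v : E)) ∈ Tan X (φ t x') :=
            (Tan X (φ t x')).sub_mem (A v).2 (B v).2
          have h2 : fderiv ℝ (jj g) (φ t x') ((A v : E) - (B v : E)) = 0 := by
            rw [map_sub]
            have e1 : fderiv ℝ (jj g) (φ t x') (B v : E) = fderiv ℝ (jj g) x' v := by
              have := fderiv_eq_of_eqOn (X := X) (f := fun z => jj g (φ t z)) (g := jj g)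
                hjφ.differentiableAt
                hjd.differentiableAt (eventually_nhdsWithin_of_forall fun z hz => hg.jj_act hz t)
                v.2
              rw [hjφ.fderiv] at this
              exact this
            have e2 : fderiv ℝ (jj g) (φ t x') (A v : E) = fderiv ℝ (jj g) x' v := by
              have hjd3 : HasFDerivAt (jj g) (fderiv ℝ (jj g) (φ t x')) (σ (jj g x')) := by
                rw [ht]; exact hjd2
              have hcomp : HasFDerivAt (fun z => jj g (σ (jj g z)))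
                  ((fderiv ℝ (jj g) (φ t x')).comp
                    ((fderiv ℝ σ (jj g x')).comp (fderiv ℝ (jj g) x'))) x' :=
                HasFDerivAt.comp (g := jj g) (f := fun z => σ (jj g z)) x' hjd3 hσj
              have := fderiv_eq_of_eqOn (X := X) (f := fun z => jj g (σ (jj g z))) (g := jj g)
                hcomp.differentiableAt hjd.differentiableAt (by
                  filter_upwards [nhdsWithin_le_nhds hjO, self_mem_nhdsWithin] with z hz hzX
                  exact a6 _ ⟨jj_mem hzX, hz⟩) v.2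
              rw [hcomp.fderiv] at this
              exact this
            rw [e1, e2, sub_self]
          obtain ⟨c, hc⟩ := (hg.ker_jj h (h.maps t hx') h1).1 h2
          exact ⟨c, Subtype.ext hc⟩
      rw [pb_comp, pb_comp, hAs, hBs] at key
      rw [← hinv x' hx' t]
      change pb (Tan X x').subtype (pb (fderiv ℝ (jj g) x' : E →ₗ[ℝ] MM m)
        (pb (fderiv ℝ σ (jj g x') : MM m →ₗ[ℝ] E) (om (σ (jj g x'))))) =
        pb (Tan X x').subtype (pb (fderiv ℝ (φ t) x' : E →ₗ[ℝ] E) (om (φ t x')))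
      rw [pb_comp, pb_comp, pb_comp, ht]
      exact key

end Emb

end Crest.Agent.R208.CM
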