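import Crest.Agent.R208.CM5b
import Crest.Agent.R208.CM2b
import Crest.Agent.R208.T2

/-!
R208, block HW (helper664), part 1: `X' = X × S^{2k+1}` with the half-weight circle action
`t · (z, u) = (φ (2t) z, e^{it} u)`.
-/

set_option autoImplicit false
set_option linter.unusedSectionVars false
set_option linter.unusedVariables false

open Set Filter Topology Module
open scoped ContDiff RealInnerProductSpace
open Crest.Agent.R208.F Crest.Agent.R208.FI Crest.Agent.R208.T Crest.Agent.R208.CM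

noncomputable section

namespace Crest.Agent.R208.HW

/-! ### the space `ℂ^{k+1}` -/

/-- `ℂ^{k+1}` as a real Euclidean space -/
abbrev U (k : ℕ) : Type := EuclideanSpace ℝ (Fin (k + 1) × Fin 2)

/-- multiplication by `i` -/
def JJ (k : ℕ) : U k →L[ℝ] U k := LinearMap.toContinuousLinearMap
  { toFun := fun u => WithLp.toLp 2 fun p => if p.2 = 0 then - u (p.1, 1) else u (p.1, 0)
    map_add' := fun u v => by
      ext p
      by_cases h : p.2 = 0 <;> simp [h]
      ring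
    map_smul' := fun r u => by
      ext p
      by_cases h : p.2 = 0 <;> simp [h] }

variable {k : ℕ}

theorem JJ_zero' (u : U k) (a : Fin (k + 1)) : JJ k u (a, 0) = - u (a, 1) := rfl

theorem JJ_one' (u : U k) (a : Fin (k + 1)) : JJ k u (a, 1) = u (a, 0) := rfl

theorem inner_eq (u v : U k) : ⟪u, v⟫ = ∑ a, (u (a, 0) * v (a, 0) + u (a, 1) * v (a, 1)) := by
  rw [PiLp.inner_apply, Fintype.sum_prod_type]
  refine Finset.sum_congr rfl fun a _ => ?_
  rw [Fin.sum_univ_two]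
  simp [mul_comm]

@[simp] theorem JJ_JJ (u : U k) : JJ k (JJ k u) = - u := by
  ext ⟨a, b⟩
  fin_cases b
  · show JJ k (JJ k u) (a, 0) = - u (a, 0)
    rw [JJ_zero', JJ_one']
  · show JJ k (JJ k u) (a, 1) = - u (a, 1)
    rw [JJ_one', JJ_zero']

@[simp] theorem inner_JJ_JJ (u v : U k) : ⟪JJ k u, JJ k v⟫ = ⟪u, v⟫ := by
  rw [inner_eq, inner_eq]
  refine Finset.sum_congr rfl fun a _ => ?_
  simp only [JJ_zero', JJ_one']
  ring

theorem inner_JJ_left (u v : U k) : ⟪JJ k u, v⟫ = - ⟪u, JJ k v⟫ := by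
  rw [inner_eq, inner_eq, ← Finset.sum_neg_distrib]
  refine Finset.sum_congr rfl fun a _ => ?_
  simp only [JJ_zero', JJ_one']
  ring

@[simp] theorem inner_JJ_self (u : U k) : ⟪JJ k u, u⟫ = 0 := by
  have h1 := inner_JJ_left u u
  rw [real_inner_comm] at h1
  have h2 : ⟪JJ k u, u⟫ = ⟪u, JJ k u⟫ := real_inner_comm _ _
  linarith

@[simp] theorem inner_self_JJ (u : U k) : ⟪u, JJ k u⟫ = 0 := by
  rw [real_inner_comm]; exact inner_JJ_self u

theorem norm_JJ (u : U k) : ‖JJ k u‖ = ‖u‖ := by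
  have h := inner_JJ_JJ u u
  rw [real_inner_self_eq_norm_sq, real_inner_self_eq_norm_sq] at h
  exact (sq_eq_sq₀ (norm_nonneg _) (norm_nonneg _)).1 h

/-- multiplication by `e^{it}` -/
def rt (k : ℕ) (t : ℝ) : U k →L[ℝ] U k := Real.cos t • (1 : U k →L[ℝ] U k) + Real.sin t • JJ k

theorem rt_apply (t : ℝ) (u : U k) : rt k t u = Real.cos t • u + Real.sin t • JJ k u := rfl

theorem rt_zero : rt k 0 = 1 := by
  ext1 u
  rw [rt_apply, Real.cos_zero, Real.sin_zero, one_smul, zero_smul, add_zero]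
  rfl

theorem rt_add (s t : ℝ) (u : U k) : rt k (s + t) u = rt k s (rt k t u) := by
  simp only [rt_apply, map_add, map_smul, JJ_JJ, Real.cos_add, Real.sin_add]
  module

theorem rt_two_pi : rt k (2 * Real.pi) = 1 := by
  ext1 u
  rw [rt_apply, Real.cos_two_pi, Real.sin_two_pi, one_smul, zero_smul, add_zero]
  rfl

theorem rt_JJ (t : ℝ) (u : U k) : rt k t (JJ k u) = JJ k (rt k t u) := by
  simp only [rt_apply, map_add, map_smul]

theorem inner_rt (t : ℝ) (u v : U k) : ⟪rt k t u, rt k t v⟫ = ⟪u, v⟫ := by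
  simp only [rt_apply, inner_add_left, inner_add_right, real_inner_smul_left,
    real_inner_smul_right, inner_JJ_left, JJ_JJ, inner_neg_right]
  have := Real.sin_sq_add_cos_sq t
  linear_combination ⟪u, v⟫ * this

theorem inner_rt_self (t : ℝ) (u : U k) : ⟪rt k t u, u⟫ = Real.cos t * ‖u‖ ^ 2 := by
  rw [rt_apply, inner_add_left, real_inner_smul_left, real_inner_smul_left, inner_JJ_self,
    mul_zero, add_zero, real_inner_self_eq_norm_sq]

theorem norm_rt (t : ℝ) (u : U k) : ‖rt k t u‖ = ‖u‖ := by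
  have h := inner_rt t u u
  rw [real_inner_self_eq_norm_sq, real_inner_self_eq_norm_sq] at h
  exact (sq_eq_sq₀ (norm_nonneg _) (norm_nonneg _)).1 h

theorem contDiff_rt : ContDiff ℝ ∞ (fun q : ℝ × U k => rt k q.1 q.2) := by
  have h1 : ContDiff ℝ ∞ (fun q : ℝ × U k => Real.cos q.1 • q.2) :=
    (Real.contDiff_cos.comp contDiff_fst).smul contDiff_snd
  have h2 : ContDiff ℝ ∞ (fun q : ℝ × U k => Real.sin q.1 • JJ k q.2) :=
    (Real.contDiff_sin.comp contDiff_fst).smul ((JJ k).contDiff.comp contDiff_snd)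
  exact h1.add h2

theorem hasDerivAt_rt (t : ℝ) (u : U k) : HasDerivAt (fun s => rt k s u) (rt k t (JJ k u)) t := by
  have h1 := ((Real.hasDerivAt_cos t).smul_const u).add
    ((Real.hasDerivAt_sin t).smul_const (JJ k u))
  have h2 : rt k t (JJ k u) = -Real.sin t • u + Real.cos t • JJ k u := by
    rw [rt_apply, JJ_JJ, smul_neg, neg_smul, add_comm]
  rw [h2]
  exact h1

/-! ### the sphere -/

/-- the unit sphere -/
def SU (k : ℕ) : Set (U k) := {u | ‖u‖ = 1}

theorem mem_SU {u : U k} : u ∈ SU k ↔ ‖u‖ = 1 := Iff.rfl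

theorem SU_eq : SU k = Metric.sphere (0 : U k) 1 := by
  ext u; rw [mem_SU, mem_sphere_zero_iff_norm]

theorem mem_Tan_univ (x v : U k) : v ∈ Tan (univ : Set (U k)) x := by
  have h1 : HasDerivAt (fun t : ℝ => x + t • v) v 0 := by
    simpa using ((hasDerivAt_id (0 : ℝ)).smul_const v).const_add x
  have h2 := mem_Tan_of_curve (X := univ) h1 (Eventually.of_forall fun _ => mem_univ _)
  simpa using h2

theorem fderiv_nsq (u v : U k) :
    fderiv ℝ (fun z : U k => ‖z‖ ^ 2 - 1) u v = 2 * ⟪u, v⟫ := by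
  have h2 : HasFDerivAt (fun z : U k => ‖z‖ ^ 2 - 1) (2 • innerSL ℝ u) u :=
    (hasStrictFDerivAt_norm_sq u).hasFDerivAt.sub_const 1
  rw [h2.fderiv]
  simp [two_mul]

theorem SU_level : SU k = {u ∈ (univ : Set (U k)) | ‖u‖ ^ 2 - 1 = 0} := by
  ext u
  simp only [mem_SU, mem_univ, true_and, mem_ofPred_eq, sub_eq_zero]
  constructor
  · intro h; rw [h]; norm_num
  · intro h; exact (pow_eq_one_iff_of_nonneg (norm_nonneg _) two_ne_zero).1 h

theorem finrank_U : finrank ℝ (U k) = 2 * k + 1 + 1 := by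
  rw [finrank_euclideanSpace, Fintype.card_prod, Fintype.card_fin, Fintype.card_fin]; ring

theorem nsq_surj (x : U k) (hx : ‖x‖ ^ 2 - 1 = 0) (y : ℝ) :
    ∃ v ∈ Tan (univ : Set (U k)) x, fderiv ℝ (fun z : U k => ‖z‖ ^ 2 - 1) x v = y := by
  refine ⟨(y / 2) • x, mem_Tan_univ _ _, ?_⟩
  rw [fderiv_nsq, inner_smul_right, real_inner_self_eq_norm_sq, sub_eq_zero.1 hx]
  ring

theorem clo_SU : Clo (2 * k + 1) (SU k) := by
  have h1 : Sub (2 * k + 1 + 1) (univ : Set (U k)) := sub_open finrank_U isOpen_univ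
  have h2 := h1.level (g := fun z : U k => ‖z‖ ^ 2 - 1)
    (fun x _ => ((contDiff_norm_sq ℝ).sub contDiff_const).contDiffAt)
    (fun x _ hx y => nsq_surj x hx y)
  rw [← SU_level, finrank_self] at h2
  exact h2.clo (by rw [SU_eq]; exact isCompact_sphere _ _)

theorem mem_Tan_sph {u v : U k} (hu : ‖u‖ = 1) (h : ⟪u, v⟫ = 0) : v ∈ Tan (SU k) u := by
  by_cases hv : v = 0
  · rw [hv]; exact Submodule.zero_mem _
  set w : U k := ‖v‖⁻¹ • v with hw
  have hvn : ‖v‖ ≠ 0 := norm_ne_zero_iff.2 hv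
  have hwn : ‖w‖ = 1 := by rw [hw, norm_smul, norm_inv, norm_norm, inv_mul_cancel₀ hvn]
  have huw : ⟪u, w⟫ = 0 := by rw [hw, inner_smul_right, h, mul_zero]
  have hmem : w ∈ Tan (SU k) u := by
    refine Submodule.subset_span ⟨fun t => Real.cos t • u + Real.sin t • w, by simp, ?_, ?_⟩
    · have h1 := ((Real.hasDerivAt_cos 0).smul_const u).add ((Real.hasDerivAt_sin 0).smul_const w)
      have h2 : HasDerivAt (fun t => Real.cos t • u + Real.sin t • w)
        (-Real.sin 0 • u + Real.cos 0 • w) 0 := h1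
      simpa using h2
    · refine Filter.Eventually.of_forall fun t => ?_
      rw [mem_SU]
      have e : ‖Real.cos t • u + Real.sin t • w‖ ^ 2 = 1 := by
        rw [norm_add_sq_real, norm_smul, norm_smul, hu, hwn, inner_smul_left, inner_smul_right, huw]
        simp [Real.cos_sq_add_sin_sq]
      nlinarith [norm_nonneg (Real.cos t • u + Real.sin t • w),
        sq_nonneg (‖Real.cos t • u + Real.sin t • w‖ - 1)]
  have : v = ‖v‖ • w := by rw [hw, smul_smul, mul_inv_cancel₀ hvn, one_smul]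
  rw [this]; exact Submodule.smul_mem _ _ hmem

theorem mem_Tan_SU {u v : U k} (hu : u ∈ SU k) : v ∈ Tan (SU k) u ↔ ⟪u, v⟫ = 0 := by
  constructor
  · intro hv
    have h3 : Tan (SU k) u ≤ LinearMap.ker (innerₛₗ ℝ u) := by
      rw [Tan, Submodule.span_le]
      rintro w ⟨γ, rfl, hγ, hS⟩
      show ⟪γ 0, w⟫ = 0
      have h4 : HasDerivAt (fun t => ‖γ t‖ ^ 2) (2 * ⟪γ 0, w⟫) 0 := by
        have := hγ.norm_sq
        simpa using this
      have h5 : HasDerivAt (fun t => ‖γ t‖ ^ 2) 0 0 := by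
        refine (hasDerivAt_const (0 : ℝ) (1 : ℝ)).congr_of_eventuallyEq ?_
        filter_upwards [hS] with t ht
        rw [mem_SU] at ht
        rw [ht]; norm_num
      have := h4.unique h5
      linarith
    exact h3 hv
  · intro hv
    exact mem_Tan_sph hu hv

theorem isPreconnected_SU : IsPreconnected (SU k) := by
  rw [SU_eq]
  refine isPreconnected_sphere ?_ 0 1
  rw [← Module.finrank_eq_rank, finrank_U]
  exact_mod_cast (by omega : 1 < 2 * k + 1 + 1)

theorem SU_nonempty : (SU k).Nonempty := ⟨EuclideanSpace.single (0, 0) 1, by simp [mem_SU]⟩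

/-! ### the product -/

variable {E : Type} [NormedAddCommGroup E] [NormedSpace ℝ E] [FiniteDimensional ℝ E]
  {X : Set E} {φ : ℝ → E → E} {n : ℕ}

/-- `X' = X × S^{2k+1}` -/
def XX (X : Set E) (k : ℕ) : Set (E × U k) := T.Sph X (fun _ => (1 : U k →L[ℝ] U k))

/-- the half-weight action -/
def ph (k : ℕ) (φ : ℝ → E → E) (t : ℝ) (z : E × U k) : E × U k := (φ (2 * t) z.1, rt k t z.2)

theorem mem_XX {z : E × U k} : z ∈ XX X k ↔ z.1 ∈ X ∧ ‖z.2‖ = 1 :=
  ⟨fun h => ⟨h.1.1, h.2⟩, fun h => ⟨⟨h.1, rfl⟩, h.2⟩⟩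

theorem XX_eq : XX X k = X ×ˢ SU k := by
  ext z; rw [mem_XX]; rfl

theorem clo_XX (hX : Clo n X) : Clo (n + (2 * k + 1)) (XX X k) := by
  rw [XX_eq]; exact hX.prod clo_SU

theorem isPreconnected_XX (hX : IsPreconnected X) : IsPreconnected (XX X k) := by
  rw [XX_eq]; exact hX.prod isPreconnected_SU

theorem Tan_XX (hX : Sub n X) {z : E × U k} (hz : z ∈ XX X k) :
    Tan (XX X k) z = (Tan X z.1).prod (Tan (SU k) z.2) := by
  rw [XX_eq] at hz ⊢
  exact Tan_prod hX clo_SU.sub hz.1 hz.2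

theorem ph_smooth (h : Cir X φ) (t : ℝ) (z : E × U k) (hz : z.1 ∈ X) :
    ContDiffAt ℝ ∞ (fun q : ℝ × (E × U k) => ph k φ q.1 q.2) (t, z) := by
  have h1 : ContDiffAt ℝ ∞ (fun q : ℝ × (E × U k) => ((2 * q.1, q.2.1) : ℝ × E)) (t, z) := by
    fun_prop
  have h2 : ContDiffAt ℝ ∞ (fun q : ℝ × (E × U k) => φ (2 * q.1) q.2.1) (t, z) :=
    ContDiffAt.comp (g := fun q : ℝ × E => φ q.1 q.2)
      (f := fun q : ℝ × (E × U k) => ((2 * q.1, q.2.1) : ℝ × E)) (t, z)
      (h.smooth (2 * t) z.1 hz) h1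
  have h3 : ContDiffAt ℝ ∞ (fun q : ℝ × (E × U k) => ((q.1, q.2.2) : ℝ × U k)) (t, z) := by
    fun_prop
  have h4 : ContDiffAt ℝ ∞ (fun q : ℝ × (E × U k) => rt k q.1 q.2.2) (t, z) :=
    ContDiffAt.comp (g := fun q : ℝ × U k => rt k q.1 q.2)
      (f := fun q : ℝ × (E × U k) => ((q.1, q.2.2) : ℝ × U k)) (t, z) contDiff_rt.contDiffAt h3
  exact h2.prodMk h4

theorem ph_zero (h : Cir X φ) (z : E × U k) (hz : z.1 ∈ X) : ph k φ 0 z = z := by
  refine Prod.ext ?_ ?_
  · show φ (2 * 0) z.1 = z.1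
    rw [mul_zero, h.zero _ hz]
  · show rt k 0 z.2 = z.2
    rw [rt_zero]; rfl

theorem ph_add (h : Cir X φ) (s t : ℝ) (z : E × U k) (hz : z.1 ∈ X) :
    ph k φ (s + t) z = ph k φ s (ph k φ t z) := by
  refine Prod.ext ?_ ?_
  · show φ (2 * (s + t)) z.1 = φ (2 * s) (φ (2 * t) z.1)
    rw [mul_add, h.add _ _ _ hz]
  · exact rt_add s t z.2

theorem ph_per (h : Cir X φ) (z : E × U k) (hz : z.1 ∈ X) : ph k φ (2 * Real.pi) z = z := by
  refine Prod.ext ?_ ?_
  · show φ (2 * (2 * Real.pi)) z.1 = z.1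
    have h1 := h.int 2 hz
    have h2 : (2 * (2 * Real.pi)) = 2 * Real.pi * ((2 : ℤ) : ℝ) := by push_cast; ring
    rw [h2, h1]
  · show rt k (2 * Real.pi) z.2 = z.2
    rw [rt_two_pi]; rfl

theorem ph_free (t : ℝ) (z : E × U k) (hz : ‖z.2‖ = 1) (ht : ph k φ t z = z) :
    ∃ j : ℤ, t = 2 * Real.pi * j := by
  have h1 : rt k t z.2 = z.2 := congrArg Prod.snd ht
  have h2 := inner_rt_self t z.2
  rw [h1, real_inner_self_eq_norm_sq, hz] at h2
  have h3 : Real.cos t = 1 := by linarith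
  obtain ⟨j, hj⟩ := (Real.cos_eq_one_iff t).1 h3
  exact ⟨j, by rw [← hj]; ring⟩

theorem ph_maps (h : Cir X φ) (t : ℝ) : MapsTo (ph k φ t) (XX X k) (XX X k) := fun z hz =>
  mem_XX.2 ⟨h.maps _ (mem_XX.1 hz).1, by
    show ‖rt k t z.2‖ = 1
    rw [norm_rt]; exact (mem_XX.1 hz).2⟩

theorem cir_XX (h : Cir X φ) : Cir (XX X k) (ph k φ) :=
  ⟨fun t z hz => ph_smooth h t z (mem_XX.1 hz).1, ph_maps h, fun z hz => ph_zero h z (mem_XX.1 hz).1,
    fun s t z hz => ph_add h s t z (mem_XX.1 hz).1, fun z hz => ph_per h z (mem_XX.1 hz).1,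
    fun t z hz ht => ph_free t z (mem_XX.1 hz).2 ht⟩

theorem gen_ph (h : Cir X φ) {z : E × U k} (hz : z ∈ XX X k) :
    gen (ph k φ) z = ((2 : ℝ) • gen φ z.1, JJ k z.2) := by
  have h1 : HasDerivAt (fun t => φ t z.1) (gen φ z.1) (2 * 0) := by
    have := h.hasDerivAt (mem_XX.1 hz).1 0
    rw [h.zero _ (mem_XX.1 hz).1] at this
    rw [mul_zero]; exact this
  have h2 : HasDerivAt (fun t : ℝ => 2 * t) 2 0 := by
    simpa using (hasDerivAt_id (0 : ℝ)).const_mul 2
  have h3 : HasDerivAt (fun t => φ (2 * t) z.1) ((2 : ℝ) • gen φ z.1) 0 := h1.scomp 0 h2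
  have h4 : HasDerivAt (fun s => rt k s z.2) (JJ k z.2) 0 := by
    have := hasDerivAt_rt 0 z.2
    rw [rt_zero] at this
    exact this
  exact (h3.prodMk h4).deriv

end Crest.Agent.R208.HW
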