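import Crest.Agent.R208.CH2
import Crest.Agent.R208.HW1

/-! Row 208, block CH (helper305), part CH3: **the sweep of a thin chain**, rank part. -/

set_option autoImplicit false
set_option linter.unusedSectionVars false

open MeasureTheory MeasureTheory.Measure Set Filter Topology Module
open scoped ContDiff
open Crest.Agent.R208.F Crest.Agent.R208.FI

noncomputable section

namespace Crest.Agent.R208.CH

open HW (U SU)

/-! ### the functions on the parameter circle -/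

/-- deformation parameter -/
def tt (u : U 0) : ℝ := Real.smoothTransition (u (0, 0) + 1 / 2)

/-- cut off -/
def kk (u : U 0) : ℝ := Real.smoothTransition (u (0, 1) + 1 / 2)

theorem contDiff_co (i : Fin (0 + 1) × Fin 2) : ContDiff ℝ ∞ fun u : U 0 => u i :=
  (EuclideanSpace.proj i : U 0 →L[ℝ] ℝ).contDiff

theorem contDiff_tt : ContDiff ℝ ∞ tt :=
  Real.smoothTransition.contDiff.comp ((contDiff_co _).add contDiff_const)

theorem contDiff_kk : ContDiff ℝ ∞ kk :=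
  Real.smoothTransition.contDiff.comp ((contDiff_co _).add contDiff_const)

theorem tt_zero {u : U 0} (h : u (0, 0) ≤ -(1 / 2)) : tt u = 0 :=
  Real.smoothTransition.zero_of_nonpos (by linarith)
theorem tt_one {u : U 0} (h : 1 / 2 ≤ u (0, 0)) : tt u = 1 :=
  Real.smoothTransition.one_of_one_le (by linarith)
theorem kk_zero {u : U 0} (h : u (0, 1) ≤ -(1 / 2)) : kk u = 0 :=
  Real.smoothTransition.zero_of_nonpos (by linarith)
theorem kk_one {u : U 0} (h : 1 / 2 ≤ u (0, 1)) : kk u = 1 :=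
  Real.smoothTransition.one_of_one_le (by linarith)

theorem circle_cases {u : U 0} (hu : u ∈ SU 0) :
    u (0, 0) < -(1 / 2) ∨ 1 / 2 < u (0, 0) ∨ 1 / 2 < u (0, 1) ∨ u (0, 1) < -(1 / 2) := by
  have h1 : u (0, 0) ^ 2 + u (0, 1) ^ 2 = 1 := by
    have h2 := HW.inner_eq u u
    rw [real_inner_self_eq_norm_sq, HW.mem_SU.1 hu] at h2
    simp only [Nat.reduceAdd, Finset.univ_unique, Fin.default_eq_zero, Fin.isValue,
      Finset.sum_singleton] at h2
    nlinarith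
  by_contra hc
  push Not at hc
  obtain ⟨h2, h3, h4, h5⟩ := hc
  nlinarith

theorem ev_lt {u : U 0} {i : Fin (0 + 1) × Fin 2} {r : ℝ} (h : u i < r) :
    ∀ᶠ v : U 0 in 𝓝 u, v i < r :=
  (contDiff_co i).continuous.continuousAt.eventually (gt_mem_nhds h)

theorem ev_gt {u : U 0} {i : Fin (0 + 1) × Fin 2} {r : ℝ} (h : r < u i) :
    ∀ᶠ v : U 0 in 𝓝 u, r < v i :=
  (contDiff_co i).continuous.continuousAt.eventually (lt_mem_nhds h)

/-! ### data -/

section defs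
variable {E E' : Type*} [NormedAddCommGroup E] [NormedSpace ℝ E] [FiniteDimensional ℝ E]
  [NormedAddCommGroup E'] [NormedSpace ℝ E'] [FiniteDimensional ℝ E']

/-- circle bundle with a connection -/
structure CB (n : ℕ) (X : Set E) (φ : ℝ → E → E) (B : Set E') (π : E → E') (al : E → Ext E)
    (Fc : E' → Ext E') : Prop where
  cir : CM.Cir X φ
  subm : Subm 1 n X B π
  inv : ∀ x ∈ X, ∀ t, π (φ t x) = π x
  fib : ∀ x ∈ X, ∀ y ∈ X, π y = π x → ∃ t, y = φ t x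
  sur : ∀ b ∈ B, ∃ x ∈ X, π x = b
  sm : T.Sm X al
  hom : T.Hom 1 al
  one : ∀ x ∈ X, evA E 1 (al x) (fun _ => CM.gen φ x) = 1
  smF : T.Sm B Fc
  curv : T.Eqv X (F.d al) (F.pull π Fc)

/-- a deformation of a neighbourhood of `K` in `X` with end map of rank at most `ρ` -/
structure Dfm (X K : Set E) (ρ : ℕ) (R : E × ℝ → E) : Prop where
  ex : ∃ O : Set E, IsOpen O ∧ K ⊆ O ∧ (∀ z ∈ O ∩ X, ∀ t, ContDiffAt ℝ ∞ R (z, t)) ∧
    (∀ z ∈ O ∩ X, ∀ t, R (z, t) ∈ X) ∧ (∀ z ∈ O ∩ X, ∀ t ≤ 0, R (z, t) = z) ∧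
    (∀ z ∈ O ∩ X, ∀ t, 1 ≤ t → R (z, t) = R (z, 1)) ∧
    (∀ z ∈ O ∩ X, finrank ℝ ((Tan X z).map (fderiv ℝ (fun y => R (y, 1)) z : E →ₗ[ℝ] E)) ≤ ρ)

variable {E'' : Type*} [NormedAddCommGroup E''] [NormedSpace ℝ E''] [FiniteDimensional ℝ E'']

/-- constructor: end map `sec ∘ g` through a `ρ`-dimensional submanifold -/
theorem Dfm.of {X K : Set E} {ρ : ℕ} {R : E × ℝ → E} {O : Set E} {C : Set E''} {g : E → E''}
    {sec : E'' → E} (hC : Sub ρ C) (hO : IsOpen O) (hK : K ⊆ O)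
    (hs : ∀ z ∈ O ∩ X, ∀ t, ContDiffAt ℝ ∞ R (z, t)) (hm : ∀ z ∈ O ∩ X, ∀ t, R (z, t) ∈ X)
    (h0 : ∀ z ∈ O ∩ X, ∀ t ≤ 0, R (z, t) = z)
    (h1 : ∀ z ∈ O ∩ X, ∀ t, 1 ≤ t → R (z, t) = sec (g z))
    (hg : ∀ z ∈ O ∩ X, ContDiffAt ℝ ∞ g z ∧ g z ∈ C)
    (hsec : ∀ c ∈ C, ContDiffAt ℝ ∞ sec c) : Dfm X K ρ R := by
  refine ⟨O, hO, hK, hs, hm, h0, fun z hz t ht => by rw [h1 z hz t ht, h1 z hz 1 le_rfl],
    fun z hz => ?_⟩
  have hgd : DifferentiableAt ℝ g z := (hg z hz).1.differentiableAt (by simp)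
  have hsd : DifferentiableAt ℝ sec (g z) := (hsec _ (hg z hz).2).differentiableAt (by simp)
  have hRd : DifferentiableAt ℝ (fun y => R (y, 1)) z := by
    have h2 : ContDiffAt ℝ ∞ (fun y => R (y, 1)) z :=
      (hs z hz 1).comp z (contDiffAt_id.prodMk contDiffAt_const)
    exact h2.differentiableAt (by simp)
  have hTan : Tan X z = Tan (X ∩ O) z := (FG.tan_inter hO hz.1).symm
  have key : (Tan X z).map (fderiv ℝ (fun y => R (y, 1)) z : E →ₗ[ℝ] E) ≤
      (Tan C (g z)).map (fderiv ℝ sec (g z) : E'' →ₗ[ℝ] E) := by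
    rintro _ ⟨v, hv, rfl⟩
    rw [hTan] at hv
    refine ⟨fderiv ℝ g z v, fderiv_mapsTo_Tan hgd (fun y hy => (hg y ⟨hy.2, hy.1⟩).2) hv, ?_⟩
    have h3 := CM.fderiv_eq_of_eqOn (X := X ∩ O) (f := fun y => R (y, 1))
      (g := fun y => sec (g y)) hRd (hsd.comp z hgd)
      (eventually_nhdsWithin_of_forall fun y hy => h1 y ⟨hy.2, hy.1⟩ 1 le_rfl) hv
    rw [fderiv_fun_comp z hsd hgd] at h3
    exact h3.symm
  calc _ ≤ _ := Submodule.finrank_mono key
    _ ≤ finrank ℝ (Tan C (g z)) := Submodule.finrank_map_le _ _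
    _ = ρ := hC.finrank_Tan (hg z hz).2

/-- **thin chain** in `B` -/
structure Chn (B : Set E') (d : ℕ) where
  V : Type
  [i1 : NormedAddCommGroup V]
  [i2 : NormedSpace ℝ V]
  [i3 : FiniteDimensional ℝ V]
  Z : Set V
  g : V → E'
  χ : V → ℝ
  o : V → Ext V
  clo : Clo d Z
  ori : Ori d Z o
  hom : T.Hom d o
  sm : CW.SMap Z B g
  thn : Thn d Z g χ

attribute [instance] Chn.i1 Chn.i2 Chn.i3

/-- integral of a form of the target over a thin chain -/
def Chn.I {B : Set E'} {d : ℕ} (c : Chn B d) (om : E' → Ext E') : ℝ :=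
  J d c.Z c.o (fun x => c.χ x • F.pull c.g om x)

theorem Chn.I_coh {B : Set E'} {d : ℕ} (c : Chn B d) {a b : E' → Ext E'} (ha : T.Sm B a)
    (hb : T.Sm B b) (h : T.Coh B a b) : c.I a = c.I b :=
  c.thn.J_coh c.clo c.ori c.sm ha hb h

theorem Chn.cont {B : Set E'} {d : ℕ} (c : Chn B d) {a : E' → Ext E'} (ha : T.Sm B a) :
    ContinuousOn (fun x => c.χ x • F.pull c.g a x) c.Z := fun x hx =>
  ((c.thn.1 x hx).continuousAt.smul (contDiffAt_pull (c.sm.smooth x hx)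
      (m := ∞) (by simp) (ha _ (c.sm.maps hx))).continuousAt).continuousWithinAt

theorem Chn.I_add {B : Set E'} {d : ℕ} (c : Chn B d) {a b : E' → Ext E'} (ha : T.Sm B a)
    (hb : T.Sm B b) : c.I (a + b) = c.I a + c.I b := by
  have h1 : (fun x => c.χ x • F.pull c.g (a + b) x) =
      fun x => c.χ x • F.pull c.g a x + c.χ x • F.pull c.g b x := by
    funext x
    rw [T.pull_add', Pi.add_apply, smul_add]
  rw [Chn.I, h1, J_add c.clo c.ori (c.cont ha) (c.cont hb)]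
  rfl

theorem Chn.I_smul {B : Set E'} {d : ℕ} (c : Chn B d) (r : ℝ) (a : E' → Ext E') :
    c.I (r • a) = r * c.I a := by
  have h1 : (fun x => c.χ x • F.pull c.g (r • a) x) =
      fun x => r • (c.χ x • F.pull c.g a x) := by
    funext x
    rw [T.pull_smul', Pi.smul_apply, smul_comm]
  rw [Chn.I, h1, J_smul]
  rfl

/-- the circle bundle over a chain -/
def lft (X : Set E) (π : E → E') {B : Set E'} {d : ℕ} (c : Chn B d) : Set (E × c.V) :=
  FG.FP X c.Z π c.g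

end defs

/-! ### the swept chain -/
section sweep
variable {E E' V : Type*} [NormedAddCommGroup E] [NormedSpace ℝ E] [FiniteDimensional ℝ E]
  [NormedAddCommGroup E'] [NormedSpace ℝ E'] [FiniteDimensional ℝ E']
  [NormedAddCommGroup V] [NormedSpace ℝ V] [FiniteDimensional ℝ V]

/-- the swept manifold -/
def ZS (X : Set E) (Z : Set V) (π : E → E') (g : V → E') : Set ((E × V) × U 0) :=
  (FG.FP X Z π g) ×ˢ (SU 0)

/-- the swept map to `X` -/
def GS (R : E × ℝ → E) (y : (E × V) × U 0) : E := R (y.1.1, tt y.2)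

/-- the swept map to `B` -/
def gS (π : E → E') (R : E × ℝ → E) (y : (E × V) × U 0) : E' := π (R (y.1.1, tt y.2))

/-- the swept cut off -/
def cS (χ : V → ℝ) (y : (E × V) × U 0) : ℝ := χ y.1.2 * kk y.2

variable {X : Set E} {Z : Set V} {B : Set E'} {π : E → E'} {g : V → E'} {χ : V → ℝ}
  {R : E × ℝ → E} {n d ρ : ℕ} {O : Set E}

theorem contDiffAt_pt (y : (E × V) × U 0) :
    ContDiffAt ℝ ∞ (fun y : (E × V) × U 0 => (y.1.1, tt y.2)) y :=
  (contDiff_fst.comp contDiff_fst).contDiffAt.prodMk (contDiff_tt.comp contDiff_snd).contDiffAt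

theorem contDiffAt_GS {y : (E × V) × U 0} (h : ContDiffAt ℝ ∞ R (y.1.1, tt y.2)) :
    ContDiffAt ℝ ∞ (GS (V := V) R) y :=
  ContDiffAt.comp y h (contDiffAt_pt y)

theorem contDiffAt_cS {y : (E × V) × U 0} (h : ContDiffAt ℝ ∞ χ y.1.2) :
    ContDiffAt ℝ ∞ (cS (E := E) χ) y :=
  (ContDiffAt.comp (g := χ) (f := fun y : (E × V) × U 0 => y.1.2) y h
    (contDiff_snd.comp contDiff_fst).contDiffAt).mul (contDiff_kk.comp contDiff_snd).contDiffAt

theorem finrank_prod_le {W : Type*} [AddCommGroup W] [Module ℝ W] [FiniteDimensional ℝ W]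
    (T : Submodule ℝ (W × ℝ)) : finrank ℝ T ≤ finrank ℝ (T.map (LinearMap.fst ℝ W ℝ)) + 1 := by
  have h1 := finrank_le_map_add T (LinearMap.fst ℝ W ℝ)
    ((⊤ : Submodule ℝ ℝ).map (LinearMap.inr ℝ W ℝ)) (by
      rintro ⟨a, b⟩ - h
      exact ⟨b, trivial, Prod.ext (show (0 : W) = a from h.symm) rfl⟩)
  have h2 : finrank ℝ ((⊤ : Submodule ℝ ℝ).map (LinearMap.inr ℝ W ℝ)) ≤ 1 := by
    refine (Submodule.finrank_map_le _ _).trans ?_
    rw [finrank_top, finrank_self]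
  omega

theorem tan_ZS {y : (E × V) × U 0} {v : (E × V) × U 0}
    (hv : v ∈ Tan (ZS X Z π g) y) : v.1 ∈ Tan (FG.FP X Z π g) y.1 ∧ v.2 ∈ Tan (SU 0) y.2 ∧
      v.1.1 ∈ Tan X y.1.1 ∧ v.1.2 ∈ Tan Z y.1.2 := by
  have h1 := fderiv_mapsTo_Tan (h := fun y : (E × V) × U 0 => y.1)
    (Y := FG.FP X Z π g) differentiableAt_fst (fun z hz => hz.1) hv
  have h2 := fderiv_mapsTo_Tan (h := fun y : (E × V) × U 0 => y.2)
    (Y := SU 0) differentiableAt_snd (fun z hz => hz.2) hv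
  have e1 : fderiv ℝ (fun y : (E × V) × U 0 => y.1) y v = v.1 := by
    rw [fderiv_fst]; rfl
  have e2 : fderiv ℝ (fun y : (E × V) × U 0 => y.2) y v = v.2 := by
    rw [fderiv_snd]; rfl
  rw [e1] at h1
  rw [e2] at h2
  have h3 := fderiv_mapsTo_Tan (h := fun y : E × V => y.1)
    (Y := X) differentiableAt_fst (fun z hz => hz.1) h1
  have h4 := fderiv_mapsTo_Tan (h := fun y : E × V => y.2)
    (Y := Z) differentiableAt_snd (fun z hz => hz.2.1) h1
  have e3 : fderiv ℝ (fun y : E × V => y.1) y.1 v.1 = v.1.1 := by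
    rw [fderiv_fst]; rfl
  have e4 : fderiv ℝ (fun y : E × V => y.2) y.1 v.1 = v.1.2 := by
    rw [fderiv_snd]; rfl
  rw [e3] at h3
  rw [e4] at h4
  exact ⟨h1, h2, h3, h4⟩

end sweep

end Crest.Agent.R208.CH
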