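import Crest.Agent.R208.PF3

/-!
# Pfaffian algebra, part 4: `pfS M ^ 2 = (2^r r!)^2 det M` (PF2).
-/

namespace Crest.Agent.R208.PF

open Matrix Finset

set_option linter.unusedSectionVars false

/-- Cayley's theorem over a field of characteristic zero. -/
theorem pfS_sq_field {K : Type*} [Field K] [CharZero K] (n : ℕ) :
    ∀ (M : Matrix (Fin n × Fin 2) (Fin n × Fin 2) K), Mᵀ = -M →
      pfS M ^ 2 = ((2 : K) ^ n * n.factorial) ^ 2 * M.det := by
  classical
  induction n with
  | zero =>
    intro M _
    simp [pfS]
  | succ n ih =>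
    -- the pivot case on `Unit ⊕ Fin n`
    have piv : ∀ M : Matrix ((Unit ⊕ Fin n) × Fin 2) ((Unit ⊕ Fin n) × Fin 2) K, Mᵀ = -M →
        M (Sum.inl (), 0) (Sum.inl (), 1) ≠ 0 →
        pfS M ^ 2 = ((2 : K) ^ (n + 1) * (n + 1).factorial) ^ 2 * M.det := by
      intro M hM hx
      set e := Equiv.sumProdDistrib Unit (Fin n) (Fin 2) with he
      set N : Matrix (Unit × Fin 2 ⊕ Fin n × Fin 2) (Unit × Fin 2 ⊕ Fin n × Fin 2) K :=
        M.submatrix e.symm e.symm with hN
      have hNM : M = N.submatrix e e := by
        ext p q
        simp [hN]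
      have hNt : Nᵀ = -N := by
        rw [hN, transpose_submatrix, hM]
        rfl
      have hentry : ∀ p q, N q p = -N p q := fun p q => by
        have := congrFun (congrFun hNt p) q
        simpa using this
      set a := N.toBlocks₁₁ with ha
      set b := N.toBlocks₁₂ with hb
      set c := N.toBlocks₂₁ with hc
      set d := N.toBlocks₂₂ with hd
      have hNb : N = fromBlocks a b c d := (fromBlocks_toBlocks N).symm
      have hat : aᵀ = -a := by
        ext p q
        exact hentry (Sum.inl p) (Sum.inl q)
      have hbt : bᵀ = -c := by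
        ext p q
        exact hentry (Sum.inr p) (Sum.inl q)
      have hct : cᵀ = -b := by
        ext p q
        exact hentry (Sum.inl p) (Sum.inr q)
      have hdt : dᵀ = -d := by
        ext p q
        exact hentry (Sum.inr p) (Sum.inr q)
      set x : K := M (Sum.inl (), 0) (Sum.inl (), 1) with hxdef
      have hself : ∀ p, N p p = 0 := fun p => by
        have := hentry p p
        have h2 : (2 : K) * N p p = 0 := by linear_combination this
        exact (mul_eq_zero.1 h2).resolve_left two_ne_zero
      have a00 : a ((), 0) ((), 0) = 0 := hself _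
      have a11 : a ((), 1) ((), 1) = 0 := hself _
      have a01 : a ((), 0) ((), 1) = x := rfl
      have a10 : a ((), 1) ((), 0) = -x := hentry _ _
      have hadet : a.det = x ^ 2 := by
        have h1 : a.det = (a.submatrix (Equiv.uniqueProd (Fin 2) Unit).symm
            (Equiv.uniqueProd (Fin 2) Unit).symm).det := by
          rw [det_submatrix_equiv_self]
        rw [h1, det_fin_two]
        have e0 : (Equiv.uniqueProd (Fin 2) Unit).symm 0 = ((), 0) := rfl
        have e1 : (Equiv.uniqueProd (Fin 2) Unit).symm 1 = ((), 1) := rfl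
        simp only [submatrix_apply, e0, e1, a00, a11, a01, a10]
        ring
      have hapf : pfS a = 2 * x := by
        have h1 : pfS a = ∑ σ : Equiv.Perm (Fin 2), ((Equiv.Perm.sign σ : ℤ) : K) *
            a ((), σ 0) ((), σ 1) := by
          unfold pfS
          rw [← Equiv.sum_comp (Equiv.uniqueProd (Fin 2) Unit).symm.permCongr]
          refine Finset.sum_congr rfl fun σ _ => ?_
          rw [Equiv.Perm.sign_permCongr]
          simp only [Finset.univ_unique, Finset.prod_singleton, Equiv.permCongr_apply,
            Equiv.symm_symm]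
          rfl
        rw [h1]
        have huniv : (Finset.univ : Finset (Equiv.Perm (Fin 2))) = {1, Equiv.swap 0 1} := by
          decide
        rw [huniv, Finset.sum_insert (by decide), Finset.sum_singleton]
        simp [a01, a10]
        ring
      have hadet' : IsUnit a.det := by
        rw [hadet]
        exact (pow_ne_zero 2 hx).isUnit
      let _ : Invertible a := invertibleOfIsUnitDet a hadet'
      set d' := d - c * ⅟a * b with hd'
      have hinvt : (⅟a)ᵀ = -⅟a := by
        have h1 : (⅟a)ᵀ * aᵀ = 1 := by
          rw [← transpose_mul, mul_invOf_self, transpose_one]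
        rw [hat, Matrix.mul_neg] at h1
        have h2 : (-(⅟a)ᵀ) * a = 1 := by rw [Matrix.neg_mul, h1]
        have h3 : -(⅟a)ᵀ = ⅟a := by
          calc -(⅟a)ᵀ = (-(⅟a)ᵀ) * (a * ⅟a) := by rw [mul_invOf_self, mul_one]
            _ = ⅟a := by rw [← mul_assoc, h2, one_mul]
        calc (⅟a)ᵀ = -(-(⅟a)ᵀ) := (neg_neg _).symm
          _ = -⅟a := by rw [h3]
      have hd't : d'ᵀ = -d' := by
        rw [hd', transpose_sub, transpose_mul, transpose_mul, hdt, hbt, hct, hinvt]
        simp only [Matrix.neg_mul, Matrix.mul_neg, neg_neg, neg_sub, Matrix.mul_assoc]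
        abel
      have hfac : N = (fromBlocks 1 (⅟a * b) 0 1)ᵀ * fromBlocks a 0 0 d' *
          fromBlocks 1 (⅟a * b) 0 1 := by
        rw [hNb, fromBlocks_eq_of_invertible₁₁ a b c d, ← hd', fromBlocks_transpose]
        congr 2
        rw [transpose_one, transpose_one, transpose_zero, transpose_mul, hbt, hinvt]
        simp only [Matrix.neg_mul, Matrix.mul_neg, neg_neg]
      set E : Matrix ((Unit ⊕ Fin n) × Fin 2) ((Unit ⊕ Fin n) × Fin 2) K :=
        (fromBlocks 1 (⅟a * b) 0 1 : Matrix (Unit × Fin 2 ⊕ Fin n × Fin 2)
          (Unit × Fin 2 ⊕ Fin n × Fin 2) K).submatrix e e with hE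
      have hEdet : E.det = 1 := by
        rw [hE, det_submatrix_equiv_self, det_fromBlocks_zero₂₁, det_one, det_one, one_mul]
      have hMfac : M = Eᵀ * blockD a d' * E := by
        rw [hNM, hfac, hE, blockD, ← he, transpose_submatrix, submatrix_mul_equiv,
          submatrix_mul_equiv]
      have hpf : pfS M = pfS (blockD a d') := by
        rw [hMfac, pfS_congr, hEdet, one_mul]
      have hdet : M.det = x ^ 2 * d'.det := by
        rw [hMfac, det_mul, det_mul, det_transpose, hEdet, one_mul, mul_one, det_blockD, hadet]
      rw [hpf, pfS_blockD, hapf, hdet]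
      have ih' := ih d' hd't
      have hch : ((Fintype.card Unit + Fintype.card (Fin n)).choose (Fintype.card Unit) : ℕ)
          = n + 1 := by
        simp [add_comm]
      rw [hch]
      have : (((n + 1 : ℕ) : K) * (2 * x * pfS d')) ^ 2
          = ((n + 1 : ℕ) : K) ^ 2 * (2 * x) ^ 2 * pfS d' ^ 2 := by ring
      rw [this, ih', Nat.factorial_succ]
      push_cast
      ring
    -- all matrices on `Unit ⊕ Fin n`
    have all : ∀ M : Matrix ((Unit ⊕ Fin n) × Fin 2) ((Unit ⊕ Fin n) × Fin 2) K, Mᵀ = -M →
        pfS M ^ 2 = ((2 : K) ^ (n + 1) * (n + 1).factorial) ^ 2 * M.det := by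
      intro M hM
      by_cases h0 : M = 0
      · subst h0
        have h1 : pfS (0 : Matrix ((Unit ⊕ Fin n) × Fin 2) ((Unit ⊕ Fin n) × Fin 2) K) = 0 := by
          unfold pfS
          refine Finset.sum_eq_zero fun σ _ => ?_
          rw [Finset.prod_eq_zero (Finset.mem_univ (Sum.inl ()))]
          · rw [mul_zero]
          · rfl
        rw [h1, show (0 : Matrix ((Unit ⊕ Fin n) × Fin 2) ((Unit ⊕ Fin n) × Fin 2) K).det = 0 from
          det_eq_zero_of_row_eq_zero (Sum.inl (), 0) fun _ => rfl]
        ring
      · obtain ⟨p, q, hpq⟩ : ∃ p q, M p q ≠ 0 := by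
          by_contra h
          push Not at h
          exact h0 (by ext p q; exact h p q)
        have hentry : ∀ p q, M q p = -M p q := fun p q => by
          have := congrFun (congrFun hM p) q
          simpa using this
        have hne : p ≠ q := by
          rintro rfl
          have := hentry p p
          have h2 : (2 : K) * M p p = 0 := by linear_combination this
          exact hpq ((mul_eq_zero.1 h2).resolve_left two_ne_zero)
        obtain ⟨π, hπ0, hπ1⟩ : ∃ π : Equiv.Perm ((Unit ⊕ Fin n) × Fin 2),
            π (Sum.inl (), 0) = p ∧ π (Sum.inl (), 1) = q := by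
          set u : (Unit ⊕ Fin n) × Fin 2 := (Sum.inl (), 0)
          set v : (Unit ⊕ Fin n) × Fin 2 := (Sum.inl (), 1)
          have huv : u ≠ v := by
            intro h
            have h01 : (0 : Fin 2) = 1 := congrArg Prod.snd h
            exact absurd h01 (by decide)
          refine ⟨Equiv.swap (Equiv.swap u p v) q * Equiv.swap u p, ?_, ?_⟩
          · rw [Equiv.Perm.mul_apply, Equiv.swap_apply_left]
            refine Equiv.swap_apply_of_ne_of_ne ?_ hne
            intro h
            apply huv
            apply (Equiv.swap u p).injective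
            rw [Equiv.swap_apply_left, ← h]
          · rw [Equiv.Perm.mul_apply, Equiv.swap_apply_left]
        have h1 := piv (M.submatrix π π) (by rw [transpose_submatrix, hM]; rfl)
          (by rw [submatrix_apply, hπ0, hπ1]; exact hpq)
        rw [pfS_perm, det_submatrix_equiv_self] at h1
        rw [← h1, mul_pow, ← Int.cast_pow, ← Units.val_pow_eq_pow_val, Int.units_sq]
        simp
    intro M hM
    have hcard : Fintype.card (Unit ⊕ Fin n) = Fintype.card (Fin (n + 1)) := by
      simp [add_comm]
    obtain ⟨f⟩ := Fintype.card_eq.1 hcard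
    have h1 := all (M.submatrix (f.prodCongr (Equiv.refl (Fin 2)))
      (f.prodCongr (Equiv.refl (Fin 2)))) (by rw [transpose_submatrix, hM]; rfl)
    rw [pfS_reindex, det_submatrix_equiv_self] at h1
    exact h1

variable {ι : Type*} [Fintype ι] [DecidableEq ι]

/-- **(PF2)** Cayley's theorem over any commutative ring. -/
theorem pfS_sq {A : Type*} [CommRing A] (M : Matrix (ι × Fin 2) (ι × Fin 2) A)
    (hM : Mᵀ = -M) (hd : ∀ p, M p p = 0) :
    pfS M ^ 2 = ((2 : A) ^ Fintype.card ι * (Fintype.card ι).factorial) ^ 2 * M.det := by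
  classical
  -- a linear order on the index set
  obtain ⟨o⟩ : Nonempty (LinearOrder (ι × Fin 2)) :=
    ⟨LinearOrder.lift' (Fintype.equivFin (ι × Fin 2)) (Equiv.injective _)⟩
  set r := Fintype.card ι with hr
  obtain ⟨f⟩ := Fintype.card_eq.1 (show Fintype.card (Fin r) = Fintype.card ι by simp [hr])
  set U := MvPolynomial ((ι × Fin 2) × (ι × Fin 2)) ℤ with hU
  set G : Matrix (ι × Fin 2) (ι × Fin 2) U := Matrix.of fun p q =>
    (MvPolynomial.X (p, q) : MvPolynomial ((ι × Fin 2) × (ι × Fin 2)) ℤ)
      - MvPolynomial.X (q, p) with hG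
  have hGt : Gᵀ = -G := by
    ext1 p q
    simp [hG]
  -- the generic identity
  have hgen : pfS G ^ 2 = ((2 : U) ^ r * r.factorial) ^ 2 * G.det := by
    set K := FractionRing U
    have : CharZero K := by
      have : CharZero U := inferInstance
      exact charZero_of_injective_algebraMap (IsFractionRing.injective U K)
    have h1 := pfS_sq_field (K := K) r
      ((G.map (algebraMap U K)).submatrix (f.prodCongr (Equiv.refl (Fin 2)))
        (f.prodCongr (Equiv.refl (Fin 2)))) (by
          have hGt' : (G.map (algebraMap U K))ᵀ = -(G.map (algebraMap U K)) := by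
            ext p q
            have := congrFun (congrFun hGt p) q
            rw [transpose_apply, neg_apply] at this
            rw [transpose_apply, neg_apply, map_apply, map_apply, this, map_neg]
          rw [transpose_submatrix, hGt']
          rfl)
    rw [pfS_reindex, det_submatrix_equiv_self, pfS_map, ← RingHom.mapMatrix_apply,
      ← RingHom.map_det] at h1
    apply IsFractionRing.injective U K
    rw [map_pow, h1, map_mul, map_pow, map_mul, map_pow, map_ofNat, map_natCast]
  -- specialise
  set φ : U →+* A := MvPolynomial.eval₂Hom (Int.castRingHom A)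
    (fun x => if x.1 < x.2 then M x.1 x.2 else 0) with hφ
  have hentry : ∀ p q, M q p = -M p q := fun p q => by
    have := congrFun (congrFun hM p) q
    simpa using this
  have hGM : G.map φ = M := by
    ext p q
    rw [map_apply, hG, Matrix.of_apply, map_sub, hφ, MvPolynomial.coe_eval₂Hom,
      MvPolynomial.eval₂_X, MvPolynomial.eval₂_X]
    rcases lt_trichotomy p q with h | h | h
    · rw [if_pos h, if_neg (not_lt.2 h.le), sub_zero]
    · subst h
      rw [if_neg (lt_irrefl _), hd p, sub_zero]
    · rw [if_neg (not_lt.2 h.le), if_pos h, zero_sub, hentry p q, neg_neg]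
  have h2 := congrArg φ hgen
  rw [map_pow, ← pfS_map, hGM, map_mul, RingHom.map_det, RingHom.mapMatrix_apply, hGM] at h2
  rw [h2, map_pow, map_mul, map_pow, map_ofNat, map_natCast]

/-- version for rings in which `2` is a unit. -/
theorem pfS_sq' {A : Type*} [CommRing A] (h2 : IsUnit (2 : A))
    (M : Matrix (ι × Fin 2) (ι × Fin 2) A) (hM : Mᵀ = -M) :
    pfS M ^ 2 = ((2 : A) ^ Fintype.card ι * (Fintype.card ι).factorial) ^ 2 * M.det := by
  refine pfS_sq M hM fun p => ?_
  have h := congrFun (congrFun hM p) p
  rw [transpose_apply, neg_apply] at h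
  exact h2.mul_left_cancel (by linear_combination h)

end Crest.Agent.R208.PF
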