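import Crest.Agent.R208.CW5b
import Crest.Agent.R208.PF4

/-! Row 208, block CW (helper586).  CW5c: the Euler class: isometry invariance, vanishing for
bundles with a unit section, the square of the Euler class. -/

set_option autoImplicit false
set_option linter.unusedSectionVars false
set_option linter.unusedSimpArgs false
set_option linter.unusedVariables false

open scoped BigOperators ContDiff Topology
open Module Set Matrix

noncomputable section

namespace Crest.Agent.R208.CW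

open Crest.Agent.R208.F Crest.Agent.R208.FI

universe u

section pt
variable {T : Type*} [AddCommGroup T] [Module ℝ T] {ι n m l : Type*} [Fintype ι] [DecidableEq ι]
  [Fintype n] [DecidableEq n] [Fintype m] [DecidableEq m] [Fintype l] [DecidableEq l]

/-- the rotating embedding -/
def rotS (S : Matrix m n ℂ) (c s : ℂ) : Matrix (n ⊕ m) n ℂ := Matrix.fromRows (c • 1) (s • S)

theorem rotS_tr (S : Matrix m n ℂ) (c s : ℂ) :
    (rotS S c s)ᵀ * rotS S c s = (c * c) • 1 + (s * s) • (Sᵀ * S) := by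
  rw [rotS, Matrix.transpose_fromRows, Matrix.fromCols_mul_fromRows, transpose_smul,
    transpose_smul, transpose_one, Matrix.smul_mul, Matrix.mul_smul, Matrix.smul_mul,
    Matrix.mul_smul, smul_smul, smul_smul, Matrix.one_mul]

theorem rotS_iso {P : Matrix n n ℂ} {S : Matrix m n ℂ} (hP : P * P = P)
    (h : P * (Sᵀ * S) * P = P) {c s : ℂ} (hcs : c * c + s * s = 1) :
    P * ((rotS S c s)ᵀ * rotS S c s) * P = P := by
  rw [rotS_tr, Matrix.mul_add, Matrix.add_mul, Matrix.mul_smul, Matrix.mul_smul, Matrix.smul_mul,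
    Matrix.smul_mul, h, Matrix.mul_one, hP, ← add_smul, hcs, one_smul]

end pt

section iso
variable {E : Type u} [NormedAddCommGroup E] [NormedSpace ℝ E] [FiniteDimensional ℝ E]
  {ι n m : Type*} [Fintype ι] [DecidableEq ι] [Fintype n] [DecidableEq n] [Fintype m]
  [DecidableEq m] {x : E} {X : Set E} {dX : ℕ}

theorem SM.rotS {G : Type*} [NormedAddCommGroup G] [NormedSpace ℝ G] {x : G} {k : WithTop ℕ∞}
    {S : G → Matrix m n ℂ} {c s : G → ℂ} (hS : SM k S x) (hc : ContDiffAt ℝ k c x)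
    (hs : ContDiffAt ℝ k s x) : SM k (fun y => rotS (S y) (c y) (s y)) x := by
  rintro (i | i) j
  · exact hc.mul contDiffAt_const
  · exact hs.mul (hS i j)

/-- **isometry invariance** -/
theorem ec_iso {P : E → Matrix n n ℂ} {W : E → (ι × Fin 2 → n) → ℂ} (h : OF X P W)
    {S : E → Matrix m n ℂ} (hS : ∀ x ∈ X, SM ∞ S x)
    (hi : ∀ x ∈ X, P x * ((S x)ᵀ * S x) * P x = P x)
    (h' : OF X (fun x => S x * P x * (S x)ᵀ) (fun x => pushW (S x) (W x))) : ec h' = ec h := by
  set c : ℝ → ℂ := fun t => ((Real.cos (Real.pi / 2 * t) : ℝ) : ℂ) with hc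
  set s : ℝ → ℂ := fun t => ((Real.sin (Real.pi / 2 * t) : ℝ) : ℂ) with hs
  have hcs : ∀ t, c t * c t + s t * s t = 1 := fun t => by
    have e := Real.cos_sq_add_sin_sq (Real.pi / 2 * t)
    have e' : ((Real.cos (Real.pi / 2 * t) ^ 2 + Real.sin (Real.pi / 2 * t) ^ 2 : ℝ) : ℂ) = 1 := by
      rw [e]; norm_cast
    push_cast at e'
    simp only [hc, hs]
    push_cast
    linear_combination e'
  have hcd : ContDiff ℝ ∞ c := Complex.ofRealCLM.contDiff.comp
    (Real.contDiff_cos.comp (contDiff_const.mul contDiff_id))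
  have hsd : ContDiff ℝ ∞ s := Complex.ofRealCLM.contDiff.comp
    (Real.contDiff_sin.comp (contDiff_const.mul contDiff_id))
  have hc0 : c 0 = 1 := by simp [hc]
  have hs0 : s 0 = 0 := by simp [hs]
  have hc1 : c 1 = 0 := by simp [hc]
  have hs1 : s 1 = 1 := by simp [hs]
  have hid := h.idF.idem
  set R : E × ℝ → Matrix (n ⊕ m) n ℂ := fun z => rotS (S z.1) (c z.2) (s z.2) with hR
  have hRs : ∀ x ∈ X, ∀ t : ℝ, SM ∞ R (x, t) := fun x hx t =>
    SM.rotS (S := fun z : E × ℝ => S z.1) (fun i j => (hS x hx i j).comp (x, t) contDiffAt_fst)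
      (hcd.contDiffAt.comp (x, t) contDiffAt_snd) (hsd.contDiffAt.comp (x, t) contDiffAt_snd)
  have hPs : ∀ x ∈ X, ∀ t : ℝ, SM ∞ (fun z : E × ℝ => P z.1) (x, t) := fun x hx t i j =>
    (h.sP x hx i j).comp (x, t) contDiffAt_fst
  have hWs : ∀ x ∈ X, ∀ t : ℝ, ∀ I, ContDiffAt ℝ ∞ (fun z : E × ℝ => W z.1 I) (x, t) :=
    fun x hx t I => (h.sW x hx I).comp (x, t) contDiffAt_fst
  have hiso : ∀ x ∈ X, ∀ t, P x * ((R (x, t))ᵀ * R (x, t)) * P x = P x := fun x hx t =>
    rotS_iso (hid x hx) (hi x hx) (hcs t)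
  have hRt : ∀ x ∈ X, ∀ t : ℝ, SM ∞ (fun y => R (y, t)) x := fun x hx t =>
    SM.comp (f := fun y : E => (y, t)) (hRs x hx t) (contDiffAt_id.prodMk contDiffAt_const)
  have h0 := h.push (S := fun y => R (y, 0)) (fun x hx => hRt x hx 0) (fun x hx => hiso x hx 0)
  have h1 := h.push (S := fun y => R (y, 1)) (fun x hx => hRt x hx 1) (fun x hx => hiso x hx 1)
  have key := ec_homotopy (X := X) (P := fun z => R z * P z.1 * (R z)ᵀ)
    (W := fun z => pushW (R z) (W z.1))
    (fun x hx t _ => (hRs x hx t).push (hPs x hx t))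
    (fun x hx t _ I => contDiffAt_pushW (hRs x hx t) (hWs x hx t) I)
    (fun x hx t _ => (h.fr x hx).push (hiso x hx t)) h0 h1
  have eA : ∀ y, R (y, 0) = Matrix.fromRows 1 0 := fun y => by
    simp only [hR, rotS, hc0, hs0, one_smul, zero_smul]
  have eF : ∀ A : Matrix m n ℂ, (Matrix.fromRows 0 1 : Matrix (n ⊕ m) m ℂ) * A
      = Matrix.fromRows 0 A := fun A => by
    rw [Matrix.fromRows_mul, Matrix.zero_mul, Matrix.one_mul]
  have eB : ∀ y, R (y, 1) = (Matrix.fromRows 0 1 : Matrix (n ⊕ m) m ℂ) * S y := fun y => by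
    rw [eF]
    simp only [hR, rotS, hc1, hs1, one_smul, zero_smul]
  have hA : (Matrix.fromRows 1 0 : Matrix (n ⊕ m) n ℂ)ᵀ * (Matrix.fromRows 1 0 : Matrix (n ⊕ m) n ℂ)
      = 1 := by
    rw [Matrix.transpose_fromRows, Matrix.fromCols_mul_fromRows, transpose_one, Matrix.one_mul,
      Matrix.mul_zero, add_zero]
  have hB : (Matrix.fromRows 0 1 : Matrix (n ⊕ m) m ℂ)ᵀ * (Matrix.fromRows 0 1 : Matrix (n ⊕ m) m ℂ)
      = 1 := by
    rw [Matrix.transpose_fromRows, Matrix.fromCols_mul_fromRows, transpose_one, Matrix.one_mul,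
      Matrix.mul_zero, zero_add]
  have hA' := h.push (S := fun _ => (Matrix.fromRows 1 0 : Matrix (n ⊕ m) n ℂ))
    (fun x hx => SM.const _) (fun x hx => by rw [hA, Matrix.mul_one, hid x hx])
  have hB' := h'.push (S := fun _ => (Matrix.fromRows 0 1 : Matrix (n ⊕ m) m ℂ))
    (fun x hx => SM.const _) (fun x hx => by rw [hB, Matrix.mul_one, h'.idF.idem x hx])
  rw [← ec_const_push h hA hA', ← ec_const_push h' hB hB']
  rw [ec_congr hB' h1, key, ec_congr h0 hA']
  · intro x hx; rw [eA]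
  · intro x hx; rw [eA]
  · intro x hx; rw [eB]; simp only [transpose_mul, Matrix.mul_assoc]
  · intro x hx; rw [eB, pushW_pushW]

end iso

/-! ### vanishing -/

section van
variable {E : Type u} [NormedAddCommGroup E] [NormedSpace ℝ E] [FiniteDimensional ℝ E]
  {ι n m : Type*} [Fintype ι] [DecidableEq ι] [Fintype n] [DecidableEq n] [Fintype m]
  [DecidableEq m] {x : E} {X : Set E} {dX : ℕ}

/-- a constant vector in the range kills the Euler form on `X` (no primitive needed) -/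
theorem rs_ef_const {P : E → Matrix n n ℂ} {W : E → (ι × Fin 2 → n) → ℂ} (h : OF X P W)
    {C : Matrix n Unit ℂ} (hC : C ≠ 0) (hP : ∀ x ∈ X, P x * C = C) (hx : x ∈ X) :
    rs X x (ef P W x) = 0 := by
  obtain ⟨f, h1, h2, h3⟩ := h.fr x hx
  have hPt : ∀ y ∈ X, (P y)ᵀ = P y := fun y hy => by
    obtain ⟨g, _, g2, _⟩ := h.fr y hy
    rw [← g2, transpose_mul, transpose_transpose]
  have hCP : ∀ y ∈ X, Cᵀ * P y = Cᵀ := fun y hy => by
    rw [← hPt y hy, ← transpose_mul, hP y hy]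
  have a1 : dl X P x * hat (Tan X x) C = 0 := by
    have e := dl_mul (X := X) (h.idF.s1 hx) (SM.const (k := 1) (x := x) C)
    rw [dl_const, Matrix.mul_zero, add_zero] at e
    rw [← e, dl_congr_gen hx ((h.idF.s1 hx).mul (SM.const C)) (SM.const (k := 1) C) hP, dl_const]
  have a2 : hat (Tan X x) Cᵀ * dl X P x = 0 := by
    have e := dl_mul (X := X) (SM.const (k := 1) (x := x) Cᵀ) (h.idF.s1 hx)
    rw [dl_const, Matrix.zero_mul, zero_add] at e
    rw [← e, dl_congr_gen hx ((SM.const Cᵀ).mul (h.idF.s1 hx)) (SM.const (k := 1) Cᵀ) hCP, dl_const]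
  set w := wv (P x) (dl X P x) (invM_dl P x) with hw
  have b1 : w * hv (Tan X x) C = 0 := by
    refine vl_inj ?_
    rw [vl_mul, vl_wv, vl_hv, Matrix.mul_assoc, ← hat_mul, hP x hx, Matrix.mul_assoc,
      Matrix.mul_assoc, a1, Matrix.mul_zero, Matrix.mul_zero]
    rfl
  have b2 : hv (Tan X x) Cᵀ * w = 0 := by
    refine vl_inj ?_
    rw [vl_mul, vl_wv, vl_hv, ← Matrix.mul_assoc, ← Matrix.mul_assoc, ← hat_mul, hCP x hx,
      ← Matrix.mul_assoc, a2, Matrix.zero_mul, Matrix.zero_mul]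
    rfl
  have ht : hv (Tan X x) fᵀ = (hv (Tan X x) f)ᵀ := rfl
  have c1 : ((hv (Tan X x) f)ᵀ * w * hv (Tan X x) f) * hv (Tan X x) (fᵀ * C) = 0 := by
    rw [Matrix.mul_assoc, ← hv_mul, ← Matrix.mul_assoc f, h2, hP x hx, Matrix.mul_assoc, b1,
      Matrix.mul_zero]
  have c2 : hv (Tan X x) (Cᵀ * f) * ((hv (Tan X x) f)ᵀ * w * hv (Tan X x) f) = 0 := by
    rw [← Matrix.mul_assoc, ← Matrix.mul_assoc, ← ht, ← hv_mul, Matrix.mul_assoc Cᵀ, h2,
      hCP x hx, b2, Matrix.zero_mul]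
  rw [rs_ef, eu_frame h3]
  have hv0 : (fun p => (fᵀ * C) p ()) ≠ 0 := by
    intro h0
    apply hC
    have : fᵀ * C = 0 := Matrix.ext fun p q => congrFun h0 p
    rw [← hP x hx, ← h2, Matrix.mul_assoc, this, Matrix.mul_zero]
  rw [pfS_null (v := fun p => (fᵀ * C) p ()) hv0]
  · rfl
  · funext p; exact congrFun (congrFun c1 p) ()
  · funext p
    have e := congrFun (congrFun c2 ()) p
    have hT : (fᵀ * C)ᵀ = Cᵀ * f := by rw [transpose_mul, transpose_transpose]
    rw [← hT] at e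
    exact e

theorem ec_zero_of_const {P : E → Matrix n n ℂ} {W : E → (ι × Fin 2 → n) → ℂ} (h : OF X P W)
    {C : Matrix n Unit ℂ} (hC : C ≠ 0) (hP : ∀ x ∈ X, P x * C = C) : ec h = 0 := by
  have h0 : (fun _ => 0 : E → CF E) ∈ Z X := (Z X).zero_mem
  have : ec h = cls (fun _ => 0) h0 := cls_congr fun x hx => by
    rw [rs_ef_const h hC hP hx, map_zero]
  rw [this]
  exact map_zero (H.mk X)

/-- **vanishing**: a unit section (`sᵀ s = 1`, `P s = s`) -/
theorem ec_zero_of_unit {P : E → Matrix n n ℂ} {W : E → (ι × Fin 2 → n) → ℂ} (h : OF X P W)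
    {s : E → Matrix n Unit ℂ} (hs : ∀ x ∈ X, SM ∞ s x) (h1 : ∀ x ∈ X, P x * s x = s x)
    (h2 : ∀ x ∈ X, (s x)ᵀ * s x = 1) : ec h = 0 := by
  have hPt : ∀ y ∈ X, (P y)ᵀ = P y := fun y hy => by
    obtain ⟨g, _, g2, _⟩ := h.fr y hy
    rw [← g2, transpose_mul, transpose_transpose]
  have hid := h.idF.idem
  set N : E → Matrix n n ℂ := fun x => P x - s x * (s x)ᵀ with hN
  set S : E → Matrix (Unit ⊕ n) n ℂ := fun x => Matrix.fromRows (s x)ᵀ (N x) with hS
  have hsP : ∀ x ∈ X, (s x)ᵀ * P x = (s x)ᵀ := fun x hx => by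
    rw [← hPt x hx, ← transpose_mul, h1 x hx]
  have hNt : ∀ x ∈ X, (N x)ᵀ = N x := fun x hx => by
    rw [hN]; simp only [transpose_sub, transpose_mul, transpose_transpose, hPt x hx]
  have hNs : ∀ x ∈ X, N x * s x = 0 := fun x hx => by
    rw [hN]; simp only [Matrix.sub_mul]
    rw [Matrix.mul_assoc, h2 x hx, Matrix.mul_one, h1 x hx, sub_self]
  have hsN : ∀ x ∈ X, (s x)ᵀ * N x = 0 := fun x hx => by
    rw [← hNt x hx, ← transpose_mul, hNs x hx, transpose_zero]
  have hNP : ∀ x ∈ X, N x * P x = N x := fun x hx => by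
    rw [hN]; simp only [Matrix.sub_mul]
    rw [Matrix.mul_assoc, hsP x hx, hid x hx]
  have hNN : ∀ x ∈ X, N x * N x = N x := fun x hx => by
    have : N x * N x = N x * P x - N x * s x * (s x)ᵀ := by
      conv_lhs => rw [hN]
      simp only [Matrix.mul_sub, Matrix.mul_assoc]
      rfl
    rw [this, hNs x hx, hNP x hx, Matrix.zero_mul, sub_zero]
  have hSS : ∀ x ∈ X, (S x)ᵀ * S x = P x := fun x hx => by
    rw [hS]
    simp only
    rw [Matrix.transpose_fromRows, Matrix.fromCols_mul_fromRows, transpose_transpose, hNt x hx,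
      hNN x hx, hN]
    simp only [add_sub_cancel]
  have hSm : ∀ x ∈ X, SM ∞ S x := fun x hx => by
    rintro (i | i) j
    · exact hs x hx j i
    · exact ((h.sP x hx).sub ((hs x hx).mul (hs x hx).transpose)) i j
  have hi : ∀ x ∈ X, P x * ((S x)ᵀ * S x) * P x = P x := fun x hx => by
    rw [hSS x hx, hid x hx, hid x hx]
  have h' := h.push hSm hi
  rw [← ec_iso h hSm hi h']
  refine ec_zero_of_const h' (C := Matrix.fromRows 1 0) ?_ ?_
  · intro h0
    have := congrFun (congrFun h0 (Sum.inl ())) ()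
    simp at this
  · intro x hx
    have e1 : (S x)ᵀ * (Matrix.fromRows 1 0 : Matrix (Unit ⊕ n) Unit ℂ) = s x := by
      rw [hS]
      simp only
      rw [Matrix.transpose_fromRows, Matrix.fromCols_mul_fromRows, Matrix.mul_one, Matrix.mul_zero,
        add_zero, transpose_transpose]
    rw [Matrix.mul_assoc, e1, Matrix.mul_assoc, h1 x hx, hS]
    simp only
    rw [Matrix.fromRows_mul, h2 x hx, hNs x hx]

/-- **vanishing**: a nowhere vanishing real section -/
theorem ec_zero_of_section {P : E → Matrix n n ℂ} {W : E → (ι × Fin 2 → n) → ℂ} (h : OF X P W)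
    {s : E → n → ℝ} (hs : ∀ x ∈ X, ContDiffAt ℝ ∞ s x)
    (h1 : ∀ x ∈ X, (P x).mulVec (fun i => (s x i : ℂ)) = fun i => (s x i : ℂ))
    (h2 : ∀ x ∈ X, s x ≠ 0) : ec h = 0 := by
  set q : E → ℝ := fun x => ∑ i, s x i * s x i with hq
  have hq0 : ∀ x ∈ X, 0 < q x := fun x hx => by
    obtain ⟨i, hi⟩ := Function.ne_iff.1 (h2 x hx)
    exact Finset.sum_pos' (fun j _ => mul_self_nonneg _) ⟨i, Finset.mem_univ i, by
      exact mul_self_pos.2 hi⟩
  have hsi : ∀ x ∈ X, ∀ i, ContDiffAt ℝ ∞ (fun y => s y i) x := fun x hx i =>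
    contDiffAt_pi.1 (hs x hx) i
  have hqs : ∀ x ∈ X, ContDiffAt ℝ ∞ q x := fun x hx =>
    ContDiffAt.sum fun i _ => (hsi x hx i).mul (hsi x hx i)
  have hrs : ∀ x ∈ X, ContDiffAt ℝ ∞ (fun y => (Real.sqrt (q y))⁻¹) x := fun x hx =>
    ((Real.contDiffAt_sqrt (hq0 x hx).ne').comp x (hqs x hx)).inv (Real.sqrt_pos.2 (hq0 x hx)).ne'
  refine ec_zero_of_unit h (s := fun x => Matrix.of fun i _ =>
    (((Real.sqrt (q x))⁻¹ * s x i : ℝ) : ℂ)) (fun x hx i _ => ?_) (fun x hx => ?_) (fun x hx => ?_)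
  · exact (Complex.ofRealCLM.contDiff.contDiffAt).comp x ((hrs x hx).mul (hsi x hx i))
  · refine Matrix.ext fun i k => ?_
    have e := congrFun (h1 x hx) i
    rw [Matrix.mulVec, dotProduct] at e
    rw [Matrix.mul_apply]
    simp only [of_apply]
    push_cast
    rw [← e, Finset.mul_sum]
    exact Finset.sum_congr rfl fun j _ => by ring
  · refine Matrix.ext fun i k => ?_
    rw [Matrix.mul_apply]
    simp only [of_apply, transpose_apply]
    have hss : Real.sqrt (q x) * Real.sqrt (q x) = q x := Real.mul_self_sqrt (hq0 x hx).le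
    have hsn : Real.sqrt (q x) ≠ 0 := (Real.sqrt_pos.2 (hq0 x hx)).ne'
    have e : ∑ j, ((Real.sqrt (q x))⁻¹ * s x j) * ((Real.sqrt (q x))⁻¹ * s x j) = 1 := by
      have : ∑ j, ((Real.sqrt (q x))⁻¹ * s x j) * ((Real.sqrt (q x))⁻¹ * s x j)
          = ((Real.sqrt (q x))⁻¹ * (Real.sqrt (q x))⁻¹) * q x := by
        rw [hq, Finset.mul_sum]
        exact Finset.sum_congr rfl fun j _ => by ring
      rw [this, ← mul_inv, hss, inv_mul_cancel₀ (hq0 x hx).ne']
    rw [show i = k from Subsingleton.elim _ _, Matrix.one_apply_eq]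
    exact_mod_cast e

end van

/-! ### the square of the Euler class -/

section sq
variable {A : Type*} [CommRing A] {n m : Type*} [Fintype n] [DecidableEq n] [Fintype m]
  [DecidableEq m]

theorem cpoly_mul_comm (S : Matrix n m A) (T : Matrix m n A) :
    cpoly (S * T) = cpoly (T * S) := by
  have e2 : (Polynomial.X : Polynomial A) • (T * S).map Polynomial.C
        = T.map Polynomial.C * ((Polynomial.X : Polynomial A) • S.map Polynomial.C) := by
    rw [Matrix.mul_smul, Matrix.map_mul]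
  have e1 : (Polynomial.X : Polynomial A) • (S * T).map Polynomial.C
        = ((Polynomial.X : Polynomial A) • S.map Polynomial.C) * T.map Polynomial.C := by
    rw [Matrix.smul_mul, Matrix.map_mul]
  rw [cpoly, cpoly, e1, e2, Matrix.det_one_add_mul_comm]

theorem cpoly_coeff_card (M : Matrix n n A) : (cpoly M).coeff (Fintype.card n) = M.det := by
  have h := Polynomial.coeff_det_X_add_C_card M (1 : Matrix n n A)
  rw [Matrix.map_one _ (map_zero _) (map_one _), add_comm] at h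
  exact h

end sq

section sqc
variable {E : Type u} [NormedAddCommGroup E] [NormedSpace ℝ E] [FiniteDimensional ℝ E]
  {ι n m : Type*} [Fintype ι] [DecidableEq ι] [Fintype n] [DecidableEq n] [Fintype m]
  [DecidableEq m] {x : E} {X : Set E} {dX : ℕ}

theorem rs_cf (P : E → Matrix n n ℂ) (j : ℕ) (x : E) :
    rs X x (cf j P x) = (((cpoly (wv (P x) (dl X P x) (invM_dl P x))).coeff j :
      EvC (Tan X x)) : CF (Tan X x)) := by
  rw [cf, ← rsE_coe, ← rsE_Om, ← cpoly_map, Polynomial.coeff_map]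

theorem two_unit (T : Type*) [AddCommGroup T] [Module ℝ T] : IsUnit (2 : EvC T) := by
  have : (2 : EvC T) = algebraMap ℂ (EvC T) 2 := by rw [map_ofNat]
  rw [this]
  exact (isUnit_iff_ne_zero.2 two_ne_zero).map _

theorem wv_transpose {T : Type*} [AddCommGroup T] [Module ℝ T] {q : Matrix n n ℂ} (hq : qᵀ = q)
    {δ : Matrix n n (CF T)} (hδ : invM δ = -δ) (hs : δᵀ = δ) : (wv q δ hδ)ᵀ = - wv q δ hδ := by
  have e1 : (toEv (δ * δ) (invM_sq hδ))ᵀ = - toEv (δ * δ) (invM_sq hδ) := by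
    refine vl_inj (Matrix.ext fun i j => ?_)
    change (δ * δ) j i = - (δ * δ) i j
    rw [Matrix.mul_apply, Matrix.mul_apply, ← Finset.sum_neg_distrib]
    refine Finset.sum_congr rfl fun k _ => ?_
    have ho : ∀ a b, invC (δ a b) = - δ a b := fun a b => congrFun (congrFun hδ a) b
    have hsy : ∀ a b, δ a b = δ b a := fun a b => congrFun (congrFun hs b) a
    rw [odd_commC (ho j k), ho, neg_mul, hsy k i, hsy j k]
  have e2 : (hv T q)ᵀ = hv T q := by
    have : (hv T q)ᵀ = hv T qᵀ := rfl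
    rw [this, hq]
  rw [wv, transpose_mul, transpose_mul, e1, e2, Matrix.neg_mul, Matrix.mul_neg, Matrix.mul_assoc]

theorem OF.pt {P : E → Matrix n n ℂ} {W : E → (ι × Fin 2 → n) → ℂ} (h : OF X P W) (hx : x ∈ X) :
    (P x)ᵀ = P x := by
  obtain ⟨g, _, g2, _⟩ := h.fr x hx
  rw [← g2, transpose_mul, transpose_transpose]

theorem OF.dlt {P : E → Matrix n n ℂ} {W : E → (ι × Fin 2 → n) → ℂ} (h : OF X P W) (hx : x ∈ X) :
    (dl X P x)ᵀ = dl X P x := by
  have : (dl X P x)ᵀ = dl X (fun y => (P y)ᵀ) x := rfl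
  rw [this]
  exact dl_congr_gen hx (h.idF.s1 hx).transpose (h.idF.s1 hx) fun y hy => h.pt hy

/-- pointwise: the square of the Euler form is the top Chern form -/
theorem rs_ef_sq {P : E → Matrix n n ℂ} {W : E → (ι × Fin 2 → n) → ℂ} (h : OF X P W)
    (hx : x ∈ X) : rs X x (ef P W x * ef P W x)
      = ((2 : ℂ) ^ Fintype.card ι * (Fintype.card ι).factorial) ^ 2
        • rs X x (cf (2 * Fintype.card ι) P x) := by
  obtain ⟨f, h1, h2, h3⟩ := h.fr x hx
  have hid := h.idF.idem x hx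
  rw [map_mul, rs_ef, eu_frame h3, rs_cf]
  set w := wv (P x) (dl X P x) (invM_dl P x) with hw
  have hwt : wᵀ = -w := wv_transpose (h.pt hx) _ (h.dlt hx)
  set M := (hv (Tan X x) f)ᵀ * w * hv (Tan X x) f with hM
  have hMt : Mᵀ = -M := by
    rw [hM, transpose_mul, transpose_mul, transpose_transpose, hwt, Matrix.neg_mul, Matrix.mul_neg,
      Matrix.mul_assoc]
  have hsq := PF.pfS_sq' (two_unit (Tan X x)) M hMt
  have ht : hv (Tan X x) fᵀ = (hv (Tan X x) f)ᵀ := rfl
  have hc : cpoly w = cpoly M := by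
    have e : w = hv (Tan X x) f * ((hv (Tan X x) f)ᵀ * w) := by
      rw [← Matrix.mul_assoc, ← ht, ← hv_mul, h2, hw, hv_wv hid]
    conv_lhs => rw [e]
    rw [cpoly_mul_comm]
  have hcard : Fintype.card (ι × Fin 2) = 2 * Fintype.card ι := by
    rw [Fintype.card_prod, Fintype.card_fin, mul_comm]
  have e : PF.pfS M * PF.pfS M = ((2 : ℂ) ^ Fintype.card ι * (Fintype.card ι).factorial) ^ 2
      • (cpoly w).coeff (2 * Fintype.card ι) := by
    rw [← sq, hsq, hc, ← hcard, cpoly_coeff_card, Algebra.smul_def]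
    congr 1
    have c2 : algebraMap ℂ (EvC (Tan X x)) 2 = 2 := map_ofNat _ 2
    have c3 : algebraMap ℂ (EvC (Tan X x)) ((Fintype.card ι).factorial : ℂ)
      = ((Fintype.card ι).factorial : EvC (Tan X x)) := map_natCast _ _
    rw [map_pow, map_mul, map_pow, c2, c3]
  exact congrArg (fun a : EvC (Tan X x) => (a : CF (Tan X x))) e

/-- **the square of the Euler class** -/
theorem ec_sq (hX : Sub dX X) {P : E → Matrix n n ℂ} {W : E → (ι × Fin 2 → n) → ℂ} (h : OF X P W) :
    ec h ^ 2 = ((2 : ℂ) ^ Fintype.card ι * (Fintype.card ι).factorial) ^ 2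
      • cc hX h.idF (2 * Fintype.card ι) := by
  rw [sq, ec, cc, ← cls_mul, ← cls_smul]
  exact cls_congr fun x hx => by
    rw [Pi.mul_apply, rs_ef_sq h hx, Pi.smul_apply, rs_csmul]

end sqc

end Crest.Agent.R208.CW
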