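import Crest.Agent.R208.THB3
import Crest.Agent.R208.CW5c

/-! Row 208, block DEG (helper595).  The power sum forms `sf j Q`, the Chern forms `cf j Q` have
degree `2 j`; the degree filtration `HD X p` of the even cohomology `H X`. -/

set_option autoImplicit false
set_option linter.unusedSectionVars false
set_option linter.unusedSimpArgs false

open MeasureTheory Set Filter Topology Module Matrix
open scoped ContDiff
open Crest.Agent.R208.F Crest.Agent.R208.FI Crest.Agent.R208.CW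

noncomputable section

namespace Crest.Agent.R208.T

section deg
variable {E F : Type*} [NormedAddCommGroup E] [NormedSpace ℝ E] [FiniteDimensional ℝ E]
  [NormedAddCommGroup F] [NormedSpace ℝ F] [FiniteDimensional ℝ F]
  {n : Type*} [Fintype n] [DecidableEq n] {X : Set E} {Y : Set F} {dX dY : ℕ}

theorem DegC.csmul {p : ℕ} {a : CF E} (h : DegC p a) (z : ℂ) : DegC p (z • a) :=
  ⟨IsDeg.sub (h.1.smul _) (h.2.smul _), (h.2.smul _).add (h.1.smul _)⟩

theorem DegC.neg {p : ℕ} {a : CF E} (h : DegC p a) : DegC p (-a) := by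
  have := h.csmul (-1)
  rwa [neg_one_smul] at this

theorem DegC.sub {p : ℕ} {a b : CF E} (ha : DegC p a) (hb : DegC p b) : DegC p (a - b) := by
  rw [sub_eq_add_neg]; exact ha.add hb.neg

theorem MDeg.pow {p : ℕ} {A : Matrix n n (CF E)} (h : MDeg p A) (j : ℕ) : MDeg (p * j) (A ^ j) := by
  induction j with
  | zero =>
    intro a b
    rw [pow_zero, mul_zero, Matrix.one_apply]
    split_ifs
    · exact degC_one
    · exact DegC.zero
  | succ j ih => rw [pow_succ, mul_add, mul_one]; exact ih.mul h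

theorem degC_trace {p : ℕ} {A : Matrix n n (CF E)} (h : MDeg p A) : DegC p A.trace :=
  DegC.sum _ fun i _ => h i i

theorem degC_sf (j : ℕ) (Q : E → Matrix n n ℂ) (x : E) : DegC (2 * j) (sf j Q x) := by
  have h := degC_trace ((mDeg_hat (E := E) (Q x)).mul ((mDeg_DD Q x).pow (2 * j)))
  rwa [zero_add, one_mul] at h

theorem degC_sf' (j : ℕ) (Q : E → Matrix n n ℂ) (x : E) : DegC (2 * j) (sf' j Q x) := by
  have h1 : MDeg 2 (vl (Om Q x)) := fun a b => degC_Om Q x a b
  have h2 := degC_trace (h1.pow j)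
  rw [sf', vl_trace, vl_pow]
  exact h2

theorem degC_el {s : ℕ → EvC E} (h : ∀ i, DegC (2 * i) (s i : CF E)) (j : ℕ) :
    DegC (2 * j) ((el s j : EvC E) : CF E) := by
  induction j using Nat.strong_induction_on with
  | _ j ih =>
    cases j with
    | zero => rw [el_zero]; exact degC_one
    | succ j =>
      rw [el]
      have e1 : (((((j : ℂ) + 1)⁻¹ • ∑ i : Fin (j + 1), (-1) ^ (i : ℕ) * el s (j - i) * s (i + 1) :
          EvC E)) : CF E) = ((j : ℂ) + 1)⁻¹ • ∑ i : Fin (j + 1),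
            (((-1) ^ (i : ℕ) * el s (j - i) * s (i + 1) : EvC E) : CF E) := by
        have e4 := map_sum (EvC E).val
          (fun i : Fin (j + 1) => ((-1) ^ (i : ℕ) * el s (j - i) * s (i + 1) : EvC E)) Finset.univ
        change _ • (EvC E).val _ = _
        rw [e4]
        rfl
      rw [e1]
      refine DegC.csmul (DegC.sum _ fun i _ => ?_) _
      have h1 := (ih (j - i) (by omega)).mul (h (i + 1))
      have e2 : 2 * (j - (i : ℕ)) + 2 * ((i : ℕ) + 1) = 2 * (j + 1) := by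
        have := i.2; omega
      rw [e2] at h1
      have e3 : (((-1) ^ (i : ℕ) * el s (j - i) * s (i + 1) : EvC E) : CF E)
          = ((-1 : ℂ) ^ (i : ℕ)) • (((el s (j - i) : EvC E) : CF E) * ((s (i + 1) : EvC E) : CF E)) := by
        rw [Algebra.smul_def, map_pow, map_neg, map_one, ← mul_assoc]; rfl
      rw [e3]
      exact h1.csmul _

theorem degC_cf (j : ℕ) (Q : E → Matrix n n ℂ) (x : E) : DegC (2 * j) (cf j Q x) := by
  rw [cf, cpoly_coeff_eq_el]
  exact degC_el (fun i => degC_sf' i Q x) j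

/-! ### homogeneous classes -/

/-- classes of closed even forms of degree `p` -/
def HD (X : Set E) (p : ℕ) : Submodule ℂ (CW.H X) where
  carrier := {a | ∃ om, ∃ h : om ∈ Z X, (∀ x, DegC p (om x)) ∧ cls om h = a}
  zero_mem' := ⟨0, (Z X).zero_mem, fun _ => DegC.zero, map_zero (H.mk X)⟩
  add_mem' := by
    rintro _ _ ⟨om, h, hd, rfl⟩ ⟨η, h', hd', rfl⟩
    exact ⟨om + η, (Z X).add_mem h h', fun x => (hd x).add (hd' x), cls_add h h'⟩
  smul_mem' := by
    rintro z _ ⟨om, h, hd, rfl⟩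
    exact ⟨z • om, (Z X).smul_mem h z, fun x => (hd x).csmul z, cls_smul z h⟩

theorem mem_HD {p : ℕ} {a : CW.H X} :
    a ∈ HD X p ↔ ∃ om, ∃ h : om ∈ Z X, (∀ x, DegC p (om x)) ∧ cls om h = a := Iff.rfl

theorem cls_mem_HD {p : ℕ} {om : E → CF E} (h : om ∈ Z X) (hd : ∀ x, DegC p (om x)) :
    cls om h ∈ HD X p := ⟨om, h, hd, rfl⟩

theorem HD_mul {p q : ℕ} {a b : CW.H X} (ha : a ∈ HD X p) (hb : b ∈ HD X q) :
    a * b ∈ HD X (p + q) := by
  obtain ⟨om, h, hd, rfl⟩ := ha
  obtain ⟨η, h', hd', rfl⟩ := hb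
  exact ⟨om * η, (Z X).mul_mem h h', fun x => (hd x).mul (hd' x), cls_mul h h'⟩

theorem one_mem_HD : (1 : CW.H X) ∈ HD X 0 :=
  ⟨1, (Z X).one_mem, fun _ => degC_one, map_one (H.mk X)⟩

theorem HD_pow {p : ℕ} {a : CW.H X} (ha : a ∈ HD X p) (j : ℕ) : a ^ j ∈ HD X (p * j) := by
  induction j with
  | zero => rw [pow_zero, mul_zero]; exact one_mem_HD
  | succ j ih => rw [pow_succ, mul_add, mul_one]; exact HD_mul ih ha

theorem HD_map {p : ℕ} {f : E → F} (hf : SMap X Y f) {a : CW.H Y} (ha : a ∈ HD Y p) :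
    H.map hf a ∈ HD X p := by
  obtain ⟨om, h, hd, rfl⟩ := ha
  exact ⟨pullC f om, pullC_mem_Z hf h, fun x => (hd _).pbC _, rfl⟩

theorem sc_mem_HD (hX : Sub dX X) {Q : E → Matrix n n ℂ} (hQ : IdF X Q) (j : ℕ) :
    sc hX hQ j ∈ HD X (2 * j) := ⟨_, _, degC_sf j Q, rfl⟩

theorem cc_mem_HD (hX : Sub dX X) {Q : E → Matrix n n ℂ} (hQ : IdF X Q) (j : ℕ) :
    cc hX hQ j ∈ HD X (2 * j) := ⟨_, _, degC_cf j Q, rfl⟩

theorem ec_mem_HD {ι : Type*} [Fintype ι] [DecidableEq ι] {P : E → Matrix n n ℂ}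
    {W : E → (ι × Fin 2 → n) → ℂ} (h : OF X P W) : ec h ∈ HD X (2 * Fintype.card ι) :=
  ⟨_, _, degC_ef P W, rfl⟩

end deg

end Crest.Agent.R208.T
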