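import Crest.Agent.R208.FI2b

/-! Row 208, block CM (helper971), part CM0: smooth free circle actions on subsets of a vector
space. -/

set_option autoImplicit false
set_option linter.unusedSectionVars false
set_option linter.unusedVariables false

open Set Filter Topology Module
open scoped ContDiff RealInnerProductSpace
open Crest.Agent.R208.F Crest.Agent.R208.FI

noncomputable section

namespace Crest.Agent.R208.CM

variable {E : Type*} [NormedAddCommGroup E] [NormedSpace ℝ E]

/-- `φ` is a smooth free circle action (with period `2π`) on the subset `X` of `E`. -/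
structure Cir (X : Set E) (φ : ℝ → E → E) : Prop where
  smooth : ∀ t : ℝ, ∀ x ∈ X, ContDiffAt ℝ ∞ (fun q : ℝ × E => φ q.1 q.2) (t, x)
  maps : ∀ t, MapsTo (φ t) X X
  zero : ∀ x ∈ X, φ 0 x = x
  add : ∀ s t, ∀ x ∈ X, φ (s + t) x = φ s (φ t x)
  per : ∀ x ∈ X, φ (2 * Real.pi) x = x
  free : ∀ t, ∀ x ∈ X, φ t x = x → ∃ k : ℤ, t = 2 * Real.pi * k

namespace Cir

variable {X : Set E} {φ : ℝ → E → E}

theorem mono (h : Cir X φ) {Y : Set E} (hY : Y ⊆ X) (hm : ∀ t, MapsTo (φ t) Y Y) : Cir Y φ where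
  smooth := fun t x hx => h.smooth t x (hY hx)
  maps := hm
  zero := fun x hx => h.zero x (hY hx)
  add := fun s t x hx => h.add s t x (hY hx)
  per := fun x hx => h.per x (hY hx)
  free := fun t x hx => h.free t x (hY hx)

theorem smooth_right (h : Cir X φ) (t : ℝ) {x : E} (hx : x ∈ X) : ContDiffAt ℝ ∞ (φ t) x := by
  have h1 := h.smooth t x hx
  have h2 : ContDiffAt ℝ ∞ (fun y : E => (t, y)) x := contDiffAt_const.prodMk contDiffAt_id
  exact ContDiffAt.comp (g := fun q : ℝ × E => φ q.1 q.2) x h1 h2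

theorem smooth_left (h : Cir X φ) (t : ℝ) {x : E} (hx : x ∈ X) :
    ContDiffAt ℝ ∞ (fun s => φ s x) t := by
  have h1 := h.smooth t x hx
  have h2 : ContDiffAt ℝ ∞ (fun s : ℝ => (s, x)) t := contDiffAt_id.prodMk contDiffAt_const
  exact ContDiffAt.comp (g := fun q : ℝ × E => φ q.1 q.2) t h1 h2

theorem neg_add (h : Cir X φ) (t : ℝ) {x : E} (hx : x ∈ X) : φ (-t) (φ t x) = x := by
  rw [← h.add _ _ x hx, neg_add_cancel, h.zero x hx]

theorem add_neg (h : Cir X φ) (t : ℝ) {x : E} (hx : x ∈ X) : φ t (φ (-t) x) = x := by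
  rw [← h.add _ _ x hx, add_neg_cancel, h.zero x hx]

theorem add_two_pi (h : Cir X φ) (t : ℝ) {x : E} (hx : x ∈ X) : φ (t + 2 * Real.pi) x = φ t x := by
  rw [h.add _ _ x hx, h.per x hx]

theorem add_int (h : Cir X φ) (t : ℝ) (k : ℤ) {x : E} (hx : x ∈ X) :
    φ (t + 2 * Real.pi * k) x = φ t x := by
  have hp : Function.Periodic (fun t => φ t x) (2 * Real.pi) := fun t => h.add_two_pi t hx
  have := hp.int_mul k t
  rw [← this]; congr 1; ring

theorem int (h : Cir X φ) (k : ℤ) {x : E} (hx : x ∈ X) : φ (2 * Real.pi * k) x = x := by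
  have := h.add_int 0 k hx
  rw [zero_add, h.zero x hx] at this
  exact this

theorem eq_iff (h : Cir X φ) {s t : ℝ} {x : E} (hx : x ∈ X) :
    φ s x = φ t x ↔ ∃ k : ℤ, s = t + 2 * Real.pi * k := by
  constructor
  · intro e
    have h1 : φ (s - t) x = x := by
      rw [show s - t = -t + s by ring, h.add _ _ x hx, e, h.neg_add t hx]
    obtain ⟨k, hk⟩ := h.free _ x hx h1
    exact ⟨k, by linarith⟩
  · rintro ⟨k, rfl⟩
    exact h.add_int t k hx

end Cir

/-- the generator of the action -/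
def gen (φ : ℝ → E → E) (x : E) : E := deriv (fun t => φ t x) 0

namespace Cir

variable {X : Set E} {φ : ℝ → E → E}

theorem hasDerivAt (h : Cir X φ) {x : E} (hx : x ∈ X) (t : ℝ) :
    HasDerivAt (fun s => φ s x) (gen φ (φ t x)) t := by
  have h0 : ∀ t, ∀ y ∈ X, HasDerivAt (fun s => φ s y) (deriv (fun s => φ s y) t) t := fun t y hy =>
    ((h.smooth_left t hy).differentiableAt (by simp)).hasDerivAt
  have h1 : HasDerivAt (fun s => φ s (φ t x)) (gen φ (φ t x)) (t - t) := by
    rw [sub_self]; exact h0 0 _ (h.maps t hx)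
  have h3 := h1.comp_sub_const t t
  refine h3.congr_of_eventuallyEq (Eventually.of_forall fun s => ?_)
  change φ s x = φ (s - t) (φ t x)
  rw [← h.add _ _ x hx, sub_add_cancel]

theorem gen_mem (h : Cir X φ) {x : E} (hx : x ∈ X) : gen φ x ∈ Tan X x := by
  have h1 := h.hasDerivAt hx 0
  rw [h.zero x hx] at h1
  have := mem_Tan_of_curve (X := X) h1 (Eventually.of_forall fun s => h.maps s hx)
  rwa [h.zero x hx] at this

/-- the differential of `φ t` maps the generator to the generator -/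
theorem fderiv_gen (h : Cir X φ) {x : E} (hx : x ∈ X) (t : ℝ) :
    fderiv ℝ (φ t) x (gen φ x) = gen φ (φ t x) := by
  have h1 := h.hasDerivAt hx 0
  rw [h.zero x hx] at h1
  have h2 : HasFDerivAt (φ t) (fderiv ℝ (φ t) x) (φ 0 x) := by
    rw [h.zero x hx]
    exact ((h.smooth_right t hx).differentiableAt (by simp)).hasFDerivAt
  have h3 : HasDerivAt (fun s => φ t (φ s x)) (fderiv ℝ (φ t) x (gen φ x)) 0 :=
    h2.comp_hasDerivAt 0 h1
  have h4 : HasDerivAt (fun s : ℝ => φ (s + t) x) (gen φ (φ t x)) 0 := by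
    have h5 : HasDerivAt (fun s => φ s x) (gen φ (φ t x)) (0 + t) := by
      rw [zero_add]; exact h.hasDerivAt hx t
    exact h5.comp_add_const 0 t
  have h6 : (fun s : ℝ => φ (s + t) x) = fun s => φ t (φ s x) := by
    funext s; rw [add_comm, h.add _ _ x hx]
  rw [h6] at h4
  exact h3.unique h4

/-- the generator does not vanish -/
theorem gen_ne (h : Cir X φ) {x : E} (hx : x ∈ X) : gen φ x ≠ 0 := by
  intro h0
  have h1 : ∀ t, HasDerivAt (fun s => φ s x) 0 t := by
    intro t
    have := h.hasDerivAt hx t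
    rwa [← h.fderiv_gen hx t, h0, map_zero] at this
  have h2 : ∀ s t : ℝ, φ s x = φ t x := by
    intro s t
    exact is_const_of_deriv_eq_zero (f := fun s => φ s x) (fun t => (h1 t).differentiableAt)
      (fun t => (h1 t).deriv) s t
  have h3 := h2 1 0
  rw [h.zero x hx] at h3
  obtain ⟨k, hk⟩ := h.free 1 x hx h3
  have hπ := Real.pi_gt_three
  have hk0 : (0 : ℝ) < k := by
    by_contra hc
    push Not at hc
    nlinarith
  have hk1 : (1 : ℝ) ≤ k := by
    have : (0 : ℤ) < k := by exact_mod_cast hk0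
    exact_mod_cast this
  nlinarith

end Cir

end Crest.Agent.R208.CM
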