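import Crest.Agent.R208.T0b
import Crest.Agent.R208.CM0

/-! Row 208, block VC (helper997), part VC1: parametric integrals of forms, the Cartan formula for a
smooth circle action on a submanifold, restriction to the tangent spaces. -/

set_option autoImplicit false
set_option linter.unusedSectionVars false
set_option linter.unusedVariables false

open MeasureTheory Set Filter Topology Module
open scoped ContDiff
open Crest.Agent.R208.F Crest.Agent.R208.FI Crest.Agent.R208.CW Crest.Agent.R208.T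
open Crest.Agent.R208.CM (Cir gen)

noncomputable section

namespace Crest.Agent.R208.VC

universe u
variable {E : Type u} [NormedAddCommGroup E] [NormedSpace ℝ E] [FiniteDimensional ℝ E]
  {F' : Type*} [NormedAddCommGroup F'] [NormedSpace ℝ F'] [FiniteDimensional ℝ F']
  {m : ℕ} {X : Set E} {φ : ℝ → E → E} {a b : E → Ext E} {x : E}

/-- smooth actions of the circle (period `2π`), not necessarily free -/
structure Act (X : Set E) (φ : ℝ → E → E) : Prop where
  smooth : ∀ t : ℝ, ∀ x ∈ X, ContDiffAt ℝ ∞ (fun q : ℝ × E => φ q.1 q.2) (t, x)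
  maps : ∀ t, MapsTo (φ t) X X
  zero : ∀ x ∈ X, φ 0 x = x
  add : ∀ s t, ∀ x ∈ X, φ (s + t) x = φ s (φ t x)
  per : ∀ x ∈ X, φ (2 * Real.pi) x = x

theorem Act.of_cir (h : Cir X φ) : Act X φ := ⟨h.smooth, h.maps, h.zero, h.add, h.per⟩

instance : Coe (Cir X φ) (Act X φ) := ⟨Act.of_cir⟩

namespace Act

theorem mono (h : Act X φ) {Y : Set E} (hY : Y ⊆ X) (hm : ∀ t, MapsTo (φ t) Y Y) : Act Y φ where
  smooth := fun t x hx => h.smooth t x (hY hx)
  maps := hm
  zero := fun x hx => h.zero x (hY hx)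
  add := fun s t x hx => h.add s t x (hY hx)
  per := fun x hx => h.per x (hY hx)

theorem smooth_right (h : Act X φ) (t : ℝ) {x : E} (hx : x ∈ X) : ContDiffAt ℝ ∞ (φ t) x := by
  have h1 := h.smooth t x hx
  have h2 : ContDiffAt ℝ ∞ (fun y : E => (t, y)) x := contDiffAt_const.prodMk contDiffAt_id
  exact ContDiffAt.comp (g := fun q : ℝ × E => φ q.1 q.2) x h1 h2

theorem smooth_left (h : Act X φ) (t : ℝ) {x : E} (hx : x ∈ X) :
    ContDiffAt ℝ ∞ (fun s => φ s x) t := by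
  have h1 := h.smooth t x hx
  have h2 : ContDiffAt ℝ ∞ (fun s : ℝ => (s, x)) t := contDiffAt_id.prodMk contDiffAt_const
  exact ContDiffAt.comp (g := fun q : ℝ × E => φ q.1 q.2) t h1 h2

theorem hasDerivAt (h : Act X φ) {x : E} (hx : x ∈ X) (t : ℝ) :
    HasDerivAt (fun s => φ s x) (gen φ (φ t x)) t := by
  have h0 : ∀ t, ∀ y ∈ X, HasDerivAt (fun s => φ s y) (deriv (fun s => φ s y) t) t := fun t y hy =>
    ((h.smooth_left t hy).differentiableAt (by simp)).hasDerivAt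
  have h1 : HasDerivAt (fun s => φ s (φ t x)) (gen φ (φ t x)) (t - t) := by
    rw [sub_self]; exact h0 0 _ (h.maps t hx)
  have h3 := h1.comp_sub_const t t
  refine h3.congr_of_eventuallyEq (Eventually.of_forall fun s => ?_)
  change φ s x = φ (s - t) (φ t x)
  rw [← h.add _ _ x hx, sub_add_cancel]

theorem gen_mem (h : Act X φ) {x : E} (hx : x ∈ X) : gen φ x ∈ Tan X x := by
  have h1 := h.hasDerivAt hx 0
  rw [h.zero x hx] at h1
  have := mem_Tan_of_curve (X := X) h1 (Eventually.of_forall fun s => h.maps s hx)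
  rwa [h.zero x hx] at this

/-- the differential of `φ t` maps the generator to the generator -/
theorem fderiv_gen (h : Act X φ) {x : E} (hx : x ∈ X) (t : ℝ) :
    fderiv ℝ (φ t) x (gen φ x) = gen φ (φ t x) := by
  have h1 := h.hasDerivAt hx 0
  rw [h.zero x hx] at h1
  have h2 : HasFDerivAt (φ t) (fderiv ℝ (φ t) x) (φ 0 x) := by
    rw [h.zero x hx]
    exact ((h.smooth_right t hx).differentiableAt (by simp)).hasFDerivAt
  have h3 : HasDerivAt (fun s => φ t (φ s x)) (fderiv ℝ (φ t) x (gen φ x)) 0 :=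
    h2.comp_hasDerivAt 0 h1
  have h4 : HasDerivAt (fun s : ℝ => φ (s + t) x) (gen φ (φ t x)) 0 := by
    have h5 : HasDerivAt (fun s => φ s x) (gen φ (φ t x)) (0 + t) := by
      rw [zero_add]; exact h.hasDerivAt hx t
    exact h5.comp_add_const 0 t
  have h6 : (fun s : ℝ => φ (s + t) x) = fun s => φ t (φ s x) := by
    funext s; rw [add_comm, h.add _ _ x hx]
  rw [h6] at h4
  exact h3.unique h4

end Act

/-- restriction to the tangent space, as a continuous linear map -/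
def rsL (X : Set E) (x : E) : Ext E →L[ℝ] Ext (Tan X x) :=
  LinearMap.toContinuousLinearMap (pb (Tan X x).subtype).toLinearMap

@[simp] theorem rsL_apply (X : Set E) (x : E) (c : Ext E) : rsL X x c = pb (Tan X x).subtype c := rfl

/-! ### families of forms -/

/-- jointly smooth families -/
def SmT (X : Set E) (g : E × ℝ → Ext E) : Prop := ∀ x ∈ X, ∀ t : ℝ, ContDiffAt ℝ ∞ g (x, t)

variable {g g' : E × ℝ → Ext E}

theorem SmT.slice (hg : SmT X g) (t : ℝ) : Sm X (fun x => g (x, t)) := fun x hx =>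
  (hg x hx t).comp x (contDiffAt_id.prodMk contDiffAt_const)

theorem SmT.sm_I1 (hg : SmT X g) : Sm X (I1 g) := fun x hx => contDiffAt_I1 fun t _ => hg x hx t

theorem SmT.curve (hg : SmT X g) (hx : x ∈ X) : ContDiff ℝ ∞ (fun t : ℝ => g (x, t)) :=
  contDiff_iff_contDiffAt.2 fun t => (hg x hx t).comp t (contDiffAt_const.prodMk contDiffAt_id)

theorem SmT.continuous (hg : SmT X g) (hx : x ∈ X) : Continuous (fun t : ℝ => g (x, t)) :=
  (hg.curve hx).continuous

theorem SmT.int (hg : SmT X g) (hx : x ∈ X) (s t : ℝ) :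
    IntervalIntegrable (fun t : ℝ => g (x, t)) volume s t := (hg.continuous hx).intervalIntegrable _ _

theorem SmT.mul (hg : SmT X g) (hg' : SmT X g') : SmT X (fun p => g p * g' p) := fun x hx t =>
  F.contDiffAt_mul (hg x hx t) (hg' x hx t)

theorem SmT.add (hg : SmT X g) (hg' : SmT X g') : SmT X (fun p => g p + g' p) := fun x hx t =>
  (hg x hx t).add (hg' x hx t)

theorem SmT.of_sm (ha : Sm X a) : SmT X (fun p => a p.1) := fun x hx t =>
  (ha x hx).comp (x, t) contDiffAt_fst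

theorem SmT.clm (hg : SmT X g) (L : Ext E →L[ℝ] Ext E) : SmT X (fun p => L (g p)) := fun x hx t =>
  L.contDiff.contDiffAt.comp (x, t) (hg x hx t)

theorem SmT.time {f : ℝ → ℝ} (hg : SmT X g) (hf : ContDiff ℝ ∞ f) :
    SmT X (fun p => g (p.1, f p.2)) := fun x hx t =>
  ContDiffAt.comp (g := g) (f := fun p : E × ℝ => (p.1, f p.2)) (x, t) (hg x hx (f t))
    (contDiffAt_fst.prodMk (hf.contDiffAt.comp (x, t) contDiffAt_snd))

theorem SmT.eventually (hg : SmT X g) (hx : x ∈ X) (t : ℝ) :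
    ∀ᶠ p in 𝓝 (x, t), ContDiffAt ℝ 1 g p :=
  ((hg x hx t).of_le (by exact_mod_cast le_top)).eventually (by simp)

/-- the derivative in `x` is a jointly smooth family -/
theorem SmT.d (hg : SmT X g) : SmT X (fun p => F.d (fun y => g (y, p.2)) p.1) := by
  intro x hx t
  have h1 : ContDiffAt ℝ ∞ (fun p => wd E ((fderiv ℝ g p).comp (ContinuousLinearMap.inl ℝ E ℝ)))
      (x, t) := (wd E).contDiff.contDiffAt.comp (x, t)
    (((hg x hx t).fderiv_right (m := ∞) (by simp)).clm_comp contDiffAt_const)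
  refine h1.congr_of_eventuallyEq ?_
  filter_upwards [hg.eventually hx t] with p hp
  have h2 : HasFDerivAt (fun y => g (y, p.2)) ((fderiv ℝ g p).comp (ContinuousLinearMap.inl ℝ E ℝ))
      p.1 := by
    have h3 : HasFDerivAt g (fderiv ℝ g p) (p.1, p.2) := (hp.differentiableAt (by norm_num)).hasFDerivAt
    have h4 : HasFDerivAt (fun y : E => (y, p.2)) (ContinuousLinearMap.inl ℝ E ℝ) p.1 :=
      (hasFDerivAt_id p.1).prodMk (hasFDerivAt_const p.2 p.1)
    exact h3.comp p.1 h4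
  exact d_of_hasFDerivAt h2

/-- `d` commutes with parametric integrals -/
theorem d_I1 (hg : SmT X g) (hx : x ∈ X) :
    F.d (I1 g) x = ∫ t in (0 : ℝ)..1, F.d (fun y => g (y, t)) x := by
  set U : Set (E × ℝ) := {p | ContDiffAt ℝ 1 g p} with hU
  have hUo : IsOpen U := by
    rw [isOpen_iff_mem_nhds]
    intro p hp
    exact ContDiffAt.eventually hp (by simp)
  have hxS : x ∈ Sl U := fun t _ =>
    show ContDiffAt ℝ 1 g (x, t) from (hg x hx t).of_le (by exact_mod_cast le_top)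
  have hgC : ContDiffOn ℝ 1 g U := fun p hp =>
    (show ContDiffAt ℝ 1 g p from hp).contDiffWithinAt
  have h1 := hasFDerivAt_I1 hUo hgC hxS
  have hg' : ContinuousOn (fun p => (fderiv ℝ g p).comp (ContinuousLinearMap.inl ℝ E ℝ)) U :=
    (hgC.continuousOn_fderiv_of_isOpen hUo (by norm_num)).clm_comp continuousOn_const
  have h2 : F.d (I1 g) x = ∫ t in (0 : ℝ)..1,
      wd E ((fderiv ℝ g (x, t)).comp (ContinuousLinearMap.inl ℝ E ℝ)) := by
    rw [d_of_hasFDerivAt h1, I1]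
    exact ((wd E).intervalIntegral_comp_comm (intervalIntegrable_slice hg' hxS)).symm
  rw [h2]
  refine intervalIntegral.integral_congr fun t _ => ?_
  have h3 : HasFDerivAt g (fderiv ℝ g (x, t)) (x, t) :=
    ((hg x hx t).differentiableAt (by simp)).hasFDerivAt
  have h4 : HasFDerivAt (fun y : E => (y, t)) (ContinuousLinearMap.inl ℝ E ℝ) x :=
    (hasFDerivAt_id x).prodMk (hasFDerivAt_const t x)
  exact (d_of_hasFDerivAt (h3.comp x h4)).symm

theorem clm_I1 {H : Type*} [NormedAddCommGroup H] [NormedSpace ℝ H] [CompleteSpace H]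
    (hg : SmT X g) (hx : x ∈ X) (L : Ext E →L[ℝ] H) :
    L (I1 g x) = ∫ t in (0 : ℝ)..1, L (g (x, t)) :=
  (L.intervalIntegral_comp_comm (hg.int hx 0 1)).symm

/-! ### contraction with the generator -/

/-- contraction with the generator of the action -/
def iV (φ : ℝ → E → E) (a : E → Ext E) (x : E) : Ext E := ii (gen φ x) (a x)

/-- contraction as a bilinear continuous map -/
def iiLL : E →L[ℝ] Ext E →L[ℝ] Ext E :=
  LinearMap.toContinuousLinearMap
    { toFun := fun v => iiL v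
      map_add' := fun v w => by ext c; simp
      map_smul' := fun r v => by ext c; simp }

@[simp] theorem iiLL_apply (v : E) (c : Ext E) : iiLL v c = ii v c := rfl

theorem contDiffAt_ii {G : Type*} [NormedAddCommGroup G] [NormedSpace ℝ G] {n : WithTop ℕ∞}
    {f : G → E} {c : G → Ext E} {y : G} (hf : ContDiffAt ℝ n f y) (hc : ContDiffAt ℝ n c y) :
    ContDiffAt ℝ n (fun z => ii (f z) (c z)) y :=
  ((iiLL (E := E)).contDiff.contDiffAt.comp y hf).clm_apply hc

theorem smooth_gen (h : Act X φ) (hx : x ∈ X) : ContDiffAt ℝ ∞ (gen φ) x := by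
  have h1 := h.smooth 0 x hx
  have h2 : ContDiffAt ℝ ∞ (fun y : E => fderiv ℝ (fun q : ℝ × E => φ q.1 q.2) (0, y) (1, 0)) x := by
    have h3 : ContDiffAt ℝ ∞ (fun y : E => fderiv ℝ (fun q : ℝ × E => φ q.1 q.2) (0, y)) x :=
      ContDiffAt.comp (g := fderiv ℝ (fun q : ℝ × E => φ q.1 q.2)) (f := fun y : E => ((0 : ℝ), y)) x
        (h1.fderiv_right (m := ∞) (by simp)) (contDiffAt_const.prodMk contDiffAt_id)
    exact h3.clm_apply contDiffAt_const
  refine h2.congr_of_eventuallyEq ?_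
  have h4 : ∀ᶠ q in 𝓝 ((0 : ℝ), x), ContDiffAt ℝ 1 (fun q : ℝ × E => φ q.1 q.2) q :=
    (h1.of_le (by exact_mod_cast le_top)).eventually (by simp)
  have h5 : ContinuousAt (fun y : E => ((0 : ℝ), y)) x := by fun_prop
  filter_upwards [h5.eventually h4] with y hy
  have h6 : HasFDerivAt (fun q : ℝ × E => φ q.1 q.2)
      (fderiv ℝ (fun q : ℝ × E => φ q.1 q.2) (0, y)) (0, y) :=
    (hy.differentiableAt (by norm_num)).hasFDerivAt
  have h7 : HasDerivAt (fun t : ℝ => (t, y)) ((1 : ℝ), (0 : E)) 0 :=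
    (hasDerivAt_id 0).prodMk (hasDerivAt_const 0 y)
  exact (h6.comp_hasDerivAt 0 h7).deriv

theorem SmT.iV (h : Act X φ) (hg : SmT X g) : SmT X (fun p => ii (gen φ p.1) (g p)) :=
  fun x hx t => contDiffAt_ii ((smooth_gen h hx).comp (x, t) contDiffAt_fst) (hg x hx t)

theorem Sm.iV (h : Act X φ) (ha : Sm X a) : Sm X (VC.iV φ a) := fun x hx =>
  contDiffAt_ii (smooth_gen h hx) (ha x hx)

theorem pb_ii_tan {v : E} (hv : v ∈ Tan X x) (c : Ext E) :
    pb (Tan X x).subtype (ii v c) = ii (⟨v, hv⟩ : Tan X x) (pb (Tan X x).subtype c) :=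
  (ii_pb (Tan X x).subtype ⟨v, hv⟩ c).symm

theorem Eqv.iV (h : Act X φ) (hab : Eqv X a b) : Eqv X (VC.iV φ a) (VC.iV φ b) :=
  eqv_iff.2 fun x hx => by
    rw [VC.iV, VC.iV, pb_ii_tan (h.gen_mem hx), pb_ii_tan (h.gen_mem hx), eqv_iff.1 hab x hx]

/-! ### the flow of the action on forms -/

/-- the action, with the point first -/
def Ph (φ : ℝ → E → E) (p : E × ℝ) : E := φ p.2 p.1

theorem smooth_Ph (h : Act X φ) (hx : x ∈ X) (t : ℝ) : ContDiffAt ℝ ∞ (Ph φ) (x, t) :=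
  ContDiffAt.comp (g := fun q : ℝ × E => φ q.1 q.2) (f := fun p : E × ℝ => (p.2, p.1)) (x, t)
    (h.smooth t x hx) (contDiffAt_snd.prodMk contDiffAt_fst)

/-- the family `φ_t^* a` -/
def Wt (φ : ℝ → E → E) (a : E → Ext E) (p : E × ℝ) : Ext E :=
  pbL (ContinuousLinearMap.inl ℝ E ℝ) (F.pull (Ph φ) a p)

/-- the homotopy integrand -/
def Kt (φ : ℝ → E → E) (a : E → Ext E) (p : E × ℝ) : Ext E :=
  hopL (ContinuousLinearMap.inl ℝ E ℝ) ((0, 1) : E × ℝ) (F.pull (Ph φ) a p)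

theorem jvid (p : E × ℝ) : jv (ContinuousLinearMap.inl ℝ E ℝ) ((0, 1) : E × ℝ) p = p :=
  jv_inl p.1 p.2

theorem smT_pull (h : Act X φ) (ha : Sm X a) (hx : x ∈ X) (t : ℝ) :
    ContDiffAt ℝ ∞ (F.pull (Ph φ) a) (x, t) :=
  contDiffAt_pull (smooth_Ph h hx t) (by simp) (ha _ (h.maps t hx))

theorem smT_Wt (h : Act X φ) (ha : Sm X a) : SmT X (Wt φ a) := fun x hx t =>
  (pbL (ContinuousLinearMap.inl ℝ E ℝ)).contDiff.contDiffAt.comp (x, t) (smT_pull h ha hx t)

theorem smT_Kt (h : Act X φ) (ha : Sm X a) : SmT X (Kt φ a) := fun x hx t =>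
  (hopL (ContinuousLinearMap.inl ℝ E ℝ) ((0, 1) : E × ℝ)).contDiff.contDiffAt.comp (x, t)
    (smT_pull h ha hx t)

theorem Wt_eq (h : Act X φ) (hx : x ∈ X) (t : ℝ) : Wt φ a (x, t) = F.pull (φ t) a x := by
  have h1 := pbL_pull (j := ContinuousLinearMap.inl ℝ E ℝ) (v := ((0, 1) : E × ℝ)) (Fh := Ph φ)
    (om := a) (x := x) (t := t) (by
      rw [jvid]; exact (smooth_Ph h hx t).differentiableAt (by simp))
  simp only [jvid] at h1
  exact h1

theorem smap (h : Act X φ) (t : ℝ) : SMap X X (φ t) := ⟨fun x hx => h.smooth_right t hx, h.maps t⟩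

theorem Kt_eq (h : Act X φ) (hx : x ∈ X) (t : ℝ) : Kt φ a (x, t) = ii (gen φ x) (Wt φ a (x, t)) := by
  have hd : HasFDerivAt (Ph φ) (fderiv ℝ (Ph φ) (x, t)) (x, t) :=
    ((smooth_Ph h hx t).differentiableAt (by simp)).hasFDerivAt
  have h1 : fderiv ℝ (Ph φ) (x, t) (0, 1) = gen φ (φ t x) := by
    have h2 : HasDerivAt (fun s : ℝ => (x, s)) ((0 : E), (1 : ℝ)) t :=
      (hasDerivAt_const t x).prodMk (hasDerivAt_id t)
    exact (hd.comp_hasDerivAt t h2).unique (h.hasDerivAt hx t)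
  have h3 : fderiv ℝ (Ph φ) (x, t) (gen φ x, 0) = gen φ (φ t x) := by
    have h4 : HasFDerivAt (fun y : E => (y, t)) (ContinuousLinearMap.inl ℝ E ℝ) x :=
      (hasFDerivAt_id x).prodMk (hasFDerivAt_const t x)
    have h5 : HasFDerivAt (φ t) ((fderiv ℝ (Ph φ) (x, t)).comp (ContinuousLinearMap.inl ℝ E ℝ)) x :=
      HasFDerivAt.comp (g := Ph φ) (f := fun y : E => (y, t)) x hd h4
    have h6 := h.fderiv_gen hx t
    rw [h5.fderiv] at h6
    exact h6
  rw [Kt, Wt, hopL_apply, pbL_apply, F.pull, ii_pb, ii_pb, ii_pb]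
  have h7 : ((fderiv ℝ (Ph φ) (x, t) : E × ℝ →L[ℝ] E) : E × ℝ →ₗ[ℝ] E) (0, 1) =
      ((fderiv ℝ (Ph φ) (x, t) : E × ℝ →L[ℝ] E) : E × ℝ →ₗ[ℝ] E)
        (((ContinuousLinearMap.inl ℝ E ℝ : E →L[ℝ] E × ℝ) : E →ₗ[ℝ] E × ℝ) (gen φ x)) := by
    show fderiv ℝ (Ph φ) (x, t) (0, 1) = fderiv ℝ (Ph φ) (x, t) (gen φ x, 0)
    rw [h1, h3]
  rw [h7]

/-- Cartan's formula, exact form -/
theorem hasDerivAt_Wt (h : Act X φ) (ha : Sm X a) (hx : x ∈ X) (t : ℝ) :
    HasDerivAt (fun s => Wt φ a (x, s))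
      (F.d (fun y => Kt φ a (y, t)) x + Kt φ (F.d a) (x, t)) t := by
  have h0 := smT_pull h ha hx t
  have h1 := hop_pt (j := ContinuousLinearMap.inl ℝ E ℝ) (v := ((0, 1) : E × ℝ))
    (Om := F.pull (Ph φ) a) (x := x) (t := t) (by
      rw [jvid]; exact h0.of_le (by exact_mod_cast le_top))
  rw [jvid] at h1
  have h2 : hopg (ContinuousLinearMap.inl ℝ E ℝ) ((0, 1) : E × ℝ) (F.pull (Ph φ) a) = Kt φ a := by
    funext p; rw [hopg, jvid]; rfl
  rw [h2] at h1
  have h3 : F.d (F.pull (Ph φ) a) (x, t) = F.pull (Ph φ) (F.d a) (x, t) :=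
    d_pull ((smooth_Ph h hx t).of_le two_le) (Sm.diff ha (h.maps t hx))
  rw [h3] at h1
  have h4 : HasFDerivAt (Kt φ a) (fderiv ℝ (Kt φ a) (x, t)) (x, t) :=
    ((smT_Kt h ha x hx t).differentiableAt (by simp)).hasFDerivAt
  have h5 : HasFDerivAt (fun y : E => (y, t)) (ContinuousLinearMap.inl ℝ E ℝ) x :=
    (hasFDerivAt_id x).prodMk (hasFDerivAt_const t x)
  have h6 : F.d (fun y => Kt φ a (y, t)) x =
      wd E ((fderiv ℝ (Kt φ a) (x, t)).comp (ContinuousLinearMap.inl ℝ E ℝ)) :=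
    d_of_hasFDerivAt (HasFDerivAt.comp (g := Kt φ a) (f := fun y : E => (y, t)) x h4 h5)
  have h7 : Kt φ (F.d a) (x, t) = hopL (ContinuousLinearMap.inl ℝ E ℝ) ((0, 1) : E × ℝ)
      (F.pull (Ph φ) (F.d a) (x, t)) := rfl
  rw [h6, h7, h1]
  have h8 : HasFDerivAt (F.pull (Ph φ) a) (fderiv ℝ (F.pull (Ph φ) a) (x, t)) (x, t) :=
    (h0.differentiableAt (by simp)).hasFDerivAt
  have h9 : HasDerivAt (fun s : ℝ => (x, s)) ((0 : E), (1 : ℝ)) t :=
    (hasDerivAt_const t x).prodMk (hasDerivAt_id t)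
  exact (pbL (ContinuousLinearMap.inl ℝ E ℝ)).hasFDerivAt.comp_hasDerivAt t (h8.comp_hasDerivAt t h9)

/-- Cartan's formula after restriction to `X` -/
theorem hasDerivAt_rs (h : Act X φ) (hX : Sub m X) (ha : Sm X a) (hx : x ∈ X) (t : ℝ) :
    HasDerivAt (fun s => rsL X x (Wt φ a (x, s)))
      (rsL X x (F.d (iV φ fun y => Wt φ a (y, t)) x) + rsL X x (ii (gen φ x) (Wt φ (F.d a) (x, t))))
      t := by
  have h1 := (rsL X x).hasFDerivAt.comp_hasDerivAt t (hasDerivAt_Wt h ha hx t)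
  rw [map_add, Kt_eq h hx] at h1
  have h2 : Eqv X (F.d fun y => Kt φ a (y, t)) (F.d (iV φ fun y => Wt φ a (y, t))) :=
    Eqv.d hX ((smT_Kt h ha).slice t) (Sm.iV h ((smT_Wt h ha).slice t))
      (Eqv.of_eq fun y hy => Kt_eq (a := a) h hy t)
  have h3 := eqv_iff.1 h2 x hx
  rw [rsL_apply, h3] at h1
  exact h1

theorem rs_Wt_of_eqv (h : Act X φ) (hab : Eqv X a b) (hx : x ∈ X) (t : ℝ) :
    pb (Tan X x).subtype (Wt φ a (x, t)) = pb (Tan X x).subtype (Wt φ b (x, t)) := by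
  rw [Wt_eq h hx, Wt_eq h hx]
  exact eqv_iff.1 (hab.pull (smap h t)) x hx

/-- closed forms: the derivative along the flow -/
theorem hasDerivAt_cl (h : Act X φ) (hX : Sub m X) (ha : Sm X a) (hc : Cl X a) (hx : x ∈ X) (t : ℝ) :
    HasDerivAt (fun s => rsL X x (Wt φ a (x, s)))
      (rsL X x (F.d (iV φ fun y => Wt φ a (y, t)) x)) t := by
  have h1 := hasDerivAt_rs h hX ha hx t
  have h2 : rsL X x (ii (gen φ x) (Wt φ (F.d a) (x, t))) = 0 := by
    rw [rsL_apply, pb_ii_tan (h.gen_mem hx), rs_Wt_of_eqv h (resZero_iff.1 hc) hx t]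
    have : Wt φ (0 : E → Ext E) (x, t) = 0 := by
      rw [Wt, pull_zero']; simp
    rw [this, map_zero, map_zero]
  rwa [h2, add_zero] at h1

/-- invariant forms -/
def Inv (X : Set E) (φ : ℝ → E → E) (a : E → Ext E) : Prop := ∀ t, Eqv X (F.pull (φ t) a) a

/-- Cartan's formula for invariant forms -/
theorem Inv.d_iV (h : Act X φ) (hX : Sub m X) (ha : Sm X a) (hi : Inv X φ a) :
    Eqv X (F.d (iV φ a)) (-(iV φ (F.d a))) := by
  refine eqv_iff.2 fun x hx => ?_
  have h1 := hasDerivAt_rs h hX ha hx 0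
  have h2 : (fun s => rsL X x (Wt φ a (x, s))) = fun _ => rsL X x (a x) := by
    funext s
    rw [rsL_apply, rsL_apply, Wt_eq h hx]
    exact eqv_iff.1 (hi s) x hx
  rw [h2] at h1
  have h3 := (hasDerivAt_const (0 : ℝ) (rsL X x (a x))).unique h1
  have h4 : ∀ c : E → Ext E, Eqv X (fun y => Wt φ c (y, 0)) c := fun c => eqv_iff.2 fun y hy => by
    rw [Wt_eq h hy]
    have := Eqv.pull_congr (w := c) (smap h 0 |>.diff hy) differentiableAt_id hy
      (fun z hz => h.zero z hz)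
    rw [this]
    congr 1
    exact F.pull_id c y
  have h5 : Eqv X (F.d (iV φ fun y => Wt φ a (y, 0))) (F.d (iV φ a)) :=
    Eqv.d hX (Sm.iV h ((smT_Wt h ha).slice 0)) (Sm.iV h ha) (Eqv.iV h (h4 a))
  have h6 := eqv_iff.1 h5 x hx
  have h7 := eqv_iff.1 (Eqv.iV h (h4 (F.d a))) x hx
  rw [rsL_apply, rsL_apply, h6] at h3
  have h8 : pb (Tan X x).subtype (ii (gen φ x) (Wt φ (F.d a) (x, 0))) =
    pb (Tan X x).subtype (iV φ (F.d a) x) := h7
  rw [h8] at h3
  rw [Pi.neg_apply, map_neg]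
  exact eq_neg_of_add_eq_zero_left h3.symm

end Crest.Agent.R208.VC
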