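import Crest.Agent.R208.T2
import Crest.Agent.R208.FG1b
import Crest.Agent.R208.VC1

/-! Row 208, block SB (helper349), part SB1: the unit sphere bundle of a field of projections
(dimension, tangent space, submersion, orientation). -/

set_option autoImplicit false
set_option linter.unusedSectionVars false

open Set Filter Topology Module
open scoped ContDiff RealInnerProductSpace
open Crest.Agent.R208.F Crest.Agent.R208.FI Crest.Agent.R208.T Crest.Agent.R208.FG

noncomputable section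

namespace Crest.Agent.R208.SB

variable {E H : Type*} [NormedAddCommGroup E] [NormedSpace ℝ E] [FiniteDimensional ℝ E]
  [NormedAddCommGroup H] [InnerProductSpace ℝ H] [FiniteDimensional ℝ H]
  {X : Set E} {P : E → H →L[ℝ] H} {d r : ℕ}

/-! ### the level set -/

/-- `‖v‖² - 1` -/
def nq (z : E × H) : ℝ := ‖z.2‖ ^ 2 - 1

theorem nq_zero {z : E × H} : nq z = 0 ↔ ‖z.2‖ = 1 := by
  unfold nq
  rw [sub_eq_zero]
  exact pow_eq_one_iff_of_nonneg (norm_nonneg _) two_ne_zero

theorem Sph_level : Sph X P = {z ∈ Tot X P | nq z = 0} := by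
  ext z
  exact and_congr_right fun _ => nq_zero.symm

theorem contDiff_nq : ContDiff ℝ ∞ (nq (E := E) (H := H)) :=
  ((contDiff_norm_sq ℝ).comp contDiff_snd).sub contDiff_const

theorem fderiv_nq (z w : E × H) : fderiv ℝ nq z w = 2 * ⟪z.2, w.2⟫ := by
  have h0 : HasFDerivAt (fun z : E × H => z.2) (ContinuousLinearMap.snd ℝ E H) z :=
    hasFDerivAt_snd
  have h1 := (h0.norm_sq).sub_const 1
  have h2 : fderiv ℝ (nq (E := E) (H := H)) z
      = 2 • (innerSL ℝ z.2).comp (ContinuousLinearMap.snd ℝ E H) := h1.fderiv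
  rw [h2]
  simp [two_mul, two_smul]

theorem vert_mem (hX : Sub d X) (hP : PField X r P) {x : E} {v w : H} (hx : x ∈ X)
    (hv : P x v = v) (hw : P x w = w) : ((0 : E), w) ∈ Tan (Tot X P) (x, v) := by
  refine (hP.mem_Tan_tot hX hx hv).2 ⟨Submodule.zero_mem _, ?_⟩
  rw [hw, sub_self, map_zero, zero_apply]

theorem nq_surj (hX : Sub d X) (hP : PField X r P) : ∀ z ∈ Tot X P, nq z = 0 → ∀ y : ℝ,
    ∃ w ∈ Tan (Tot X P) z, fderiv ℝ nq z w = y := by
  rintro ⟨x, v⟩ ⟨hx, hv⟩ hz y
  refine ⟨(0, (y / 2) • v), vert_mem hX hP hx hv ?_, ?_⟩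
  · rw [map_smul]; exact congrArg _ hv
  · rw [fderiv_nq, inner_smul_right, real_inner_self_eq_norm_sq, (nq_zero.1 hz)]
    ring

theorem sub_Sph (hX : Sub d X) (hP : PField X (r + 1) P) : Sub (r + d) (Sph X P) := by
  have h := (hP.sub_tot hX).level (g := nq (E := E) (H := H))
    (fun z _ => contDiff_nq.contDiffAt) (nq_surj hX hP)
  rw [← Sph_level, finrank_self] at h
  rwa [show r + d = d + (r + 1) - 1 by omega]

theorem isCompact_Sph (hX : IsCompact X) (hP : PField X r P) : IsCompact (Sph X P) := by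
  have hPc : ContinuousOn P X := fun x hx => (hP.smooth x hx).continuousAt.continuousWithinAt
  have hK : IsCompact (X ×ˢ Metric.sphere (0 : H) 1) := hX.prod (isCompact_sphere _ _)
  have hc : ContinuousOn (fun z : E × H => P z.1 z.2 - z.2) (X ×ˢ Metric.sphere (0 : H) 1) := by
    refine ContinuousOn.sub ?_ (by fun_prop)
    exact (hPc.comp continuousOn_fst fun z hz => hz.1).clm_apply (by fun_prop)
  have heq : Sph X P = (X ×ˢ Metric.sphere (0 : H) 1) ∩
      (fun z : E × H => P z.1 z.2 - z.2) ⁻¹' {0} := by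
    ext z
    constructor
    · rintro ⟨⟨h1, h2⟩, h3⟩
      exact ⟨⟨h1, by simpa using h3⟩, sub_eq_zero.2 h2⟩
    · rintro ⟨⟨h1, h3⟩, h2⟩
      exact ⟨⟨h1, sub_eq_zero.1 h2⟩, by simpa using h3⟩
  rw [heq]
  obtain ⟨u, hu, hu2⟩ := continuousOn_iff_isClosed.1 hc {0} isClosed_singleton
  rw [inter_comm, hu2, inter_comm]
  exact hK.inter_right hu

theorem clo_Sph (hX : Clo d X) (hP : PField X (r + 1) P) : Clo (r + d) (Sph X P) :=
  (sub_Sph hX.sub hP).clo (isCompact_Sph hX.compact hP)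

/-- **tangent space of the sphere bundle** -/
theorem mem_Tan_Sph (hX : Sub d X) (hP : PField X r P) {x : E} {v : H}
    (hz : (x, v) ∈ Sph X P) {a : E} {b : H} :
    (a, b) ∈ Tan (Sph X P) (x, v) ↔
      a ∈ Tan X x ∧ b - P x b = fderiv ℝ P x a v ∧ ⟪v, b⟫ = 0 := by
  rw [Sph_level, (hP.sub_tot hX).Tan_level (g := nq (E := E) (H := H))
    (fun z _ => contDiff_nq.contDiffAt) (nq_surj hX hP) hz.1 (nq_zero.2 hz.2), Submodule.mem_inf,
    hP.mem_Tan_tot hX hz.1.1 hz.1.2, LinearMap.mem_ker]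
  change _ ∧ fderiv ℝ nq (x, v) (a, b) = 0 ↔ _
  rw [fderiv_nq]
  constructor
  · rintro ⟨⟨h1, h2⟩, h3⟩
    exact ⟨h1, h2, by simpa using h3⟩
  · rintro ⟨h1, h2, h3⟩
    exact ⟨⟨h1, h2⟩, by simpa using h3⟩

theorem vert_mem_Sph (hX : Sub d X) (hP : PField X r P) {x : E} {v w : H}
    (hz : (x, v) ∈ Sph X P) : ((0 : E), w) ∈ Tan (Sph X P) (x, v) ↔ P x w = w ∧ ⟪v, w⟫ = 0 := by
  rw [mem_Tan_Sph hX hP hz, map_zero, zero_apply, sub_eq_zero]
  exact ⟨fun h => ⟨h.2.1.symm, h.2.2⟩, fun h => ⟨Submodule.zero_mem _, h.1.symm, h.2⟩⟩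

/-- the section `y ↦ (y, P y v)` of the total space -/
theorem sec_tot (hP : PField X r P) {x : E} {v : H} (hx : x ∈ X) (hv : P x v = v) {a : E}
    (ha : a ∈ Tan X x) : (a, fderiv ℝ P x a v) ∈ Tan (Tot X P) (x, v) := by
  have hd : DifferentiableAt ℝ P x := (hP.smooth x hx).differentiableAt (by simp)
  have h1 : HasFDerivAt (fun y => P y v) ((fderiv ℝ P x).flip v) x := by
    have := hd.hasFDerivAt.clm_apply (hasFDerivAt_const v x)
    refine this.congr_fderiv ?_
    ext w; simp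
  have h2 : HasFDerivAt (fun y => (y, P y v))
      ((ContinuousLinearMap.id ℝ E).prod ((fderiv ℝ P x).flip v)) x := (hasFDerivAt_id x).prodMk h1
  have h3 := fderiv_mapsTo_Tan (Y := Tot X P) h2.differentiableAt
    (fun y hy => ⟨hy, hP.idem y hy v⟩) ha
  rw [h2.fderiv] at h3
  change (a, fderiv ℝ P x a v) ∈ Tan (Tot X P) (x, P x v) at h3
  rwa [hv] at h3

theorem exists_lift_Sph (hX : Sub d X) (hP : PField X r P) {x : E} {v : H}
    (hz : (x, v) ∈ Sph X P) {a : E} (ha : a ∈ Tan X x) : ∃ b : H, (a, b) ∈ Tan (Sph X P) (x, v) := by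
  have h1 := (hP.mem_Tan_tot hX hz.1.1 hz.1.2).1 (sec_tot hP hz.1.1 hz.1.2 ha)
  set b := fderiv ℝ P x a v with hb
  refine ⟨b - ⟪v, b⟫ • v, (mem_Tan_Sph hX hP hz).2 ⟨ha, ?_, ?_⟩⟩
  · have hv : P x v = v := hz.1.2
    rw [map_sub, map_smul, hv, sub_sub_sub_cancel_right]
    exact h1.2
  · have hv : ‖v‖ = 1 := hz.2
    rw [inner_sub_right, inner_smul_right, real_inner_self_eq_norm_sq, hv]
    ring

theorem subm_Sph (hX : Clo d X) (hP : PField X (r + 1) P) :
    Subm r d (Sph X P) X (Prod.fst : E × H → E) where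
  cloZ := clo_Sph hX hP
  cloX := hX
  smooth _ _ := contDiffAt_fst
  mapsTo _ hz := hz.1.1
  sub := by
    rintro ⟨x, v⟩ hz a ha
    obtain ⟨b, hb⟩ := exists_lift_Sph hX.sub hP hz ha
    exact ⟨(a, b), hb, by rw [hasFDerivAt_fst.fderiv]; rfl⟩

/-! ### orientations -/

/-- an orientation of a field of projections of rank `r`: a form of degree `r` on `H` which does
not vanish on frames of the range. -/
structure OPr (X : Set E) (r : ℕ) (P : E → H →L[ℝ] H) (oP : E → Ext H) : Prop where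
  sm : ∀ x ∈ X, ContDiffAt ℝ ∞ oP x
  deg : ∀ x, IsDeg r (oP x)
  ne : ∀ x ∈ X, ∀ e : Fin r → H, LinearIndependent ℝ e → (∀ i, P x (e i) = e i) →
    evA H r (oP x) e ≠ 0

/-- a form of degree `r` which does not vanish on one family of vectors of an `r`-dimensional space
does not vanish on any basis. -/
theorem evA_ne_of {V : Submodule ℝ H} (hV : finrank ℝ V = r) {c : Ext H} {w e : Fin r → H}
    (hw : ∀ i, w i ∈ V) (hne : evA H r c w ≠ 0) (he : ∀ i, e i ∈ V)
    (hli : LinearIndependent ℝ e) : evA H r c e ≠ 0 := by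
  intro h0
  set e' : Fin r → V := fun i => ⟨e i, he i⟩ with he'
  have hli' : LinearIndependent ℝ e' := by
    refine LinearIndependent.of_comp V.subtype ?_
    exact hli
  set b := basisOfLinearIndependentOfCardEqFinrank' e' hli' (by rw [Fintype.card_fin, hV]) with hb
  have hbe : ⇑b = e' := by rw [hb]; exact coe_basisOfLinearIndependentOfCardEqFinrank' _ _ _
  set f : V [⋀^Fin r]→ₗ[ℝ] ℝ := (evA H r c).compLinearMap V.subtype with hf
  have h1 := f.eq_smul_basis_det b
  have h2 : f b = 0 := by rw [hbe]; exact h0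
  rw [h2, zero_smul] at h1
  exact hne (by
    have : f (fun i => ⟨w i, hw i⟩) = evA H r c w := rfl
    rw [← this, h1]; rfl)

theorem OPr.of (hP : PField X r P) {oP : E → Ext H} (hs : ∀ x ∈ X, ContDiffAt ℝ ∞ oP x)
    (hd : ∀ x, IsDeg r (oP x))
    (h : ∀ x ∈ X, ∃ w : Fin r → H, (∀ i, P x (w i) = w i) ∧ evA H r (oP x) w ≠ 0) :
    OPr X r P oP := by
  refine ⟨hs, hd, fun x hx e he hPe => ?_⟩
  obtain ⟨w, hw, hne⟩ := h x hx
  exact evA_ne_of (V := LinearMap.range (P x : H →ₗ[ℝ] H)) (hP.rank x hx)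
    (fun i => ⟨w i, hw i⟩) hne (fun i => ⟨e i, hPe i⟩) he

/-- a frame of the range containing a given unit vector -/
theorem exists_cons_frame {V : Submodule ℝ H} (hV : finrank ℝ V = r + 1) {v : H} (hv : v ∈ V)
    (hv1 : ‖v‖ = 1) : ∃ e : Fin r → H, (∀ i, e i ∈ V) ∧ (∀ i, ⟪v, e i⟫ = 0) ∧
      Orthonormal ℝ e ∧ LinearIndependent ℝ (Matrix.vecCons v e) := by
  have hv0 : v ≠ 0 := by rintro rfl; simp at hv1
  set K : Submodule ℝ H := (ℝ ∙ v)ᗮ ⊓ V with hK
  have hdim : finrank ℝ K = r := by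
    have h1 := Submodule.finrank_add_inf_finrank_orthogonal (K₁ := ℝ ∙ v) (K₂ := V)
      ((Submodule.span_singleton_le_iff_mem _ _).2 hv)
    rw [finrank_span_singleton hv0, hV] at h1
    have h2 : 1 + finrank ℝ K = r + 1 := h1
    omega
  let b := (stdOrthonormalBasis ℝ K).reindex (finCongr hdim)
  have hbo : Orthonormal ℝ (fun i => ((b i : K) : H)) :=
    b.orthonormal.comp_linearIsometry K.subtypeₗᵢ
  refine ⟨fun i => ((b i : K) : H), fun i => (b i).2.2, fun i => ?_, hbo, ?_⟩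
  · exact Submodule.mem_orthogonal_singleton_iff_inner_right.1 (b i).2.1
  · have : Orthonormal ℝ (Matrix.vecCons v (fun i => ((b i : K) : H))) := by
      constructor
      · intro i
        refine Fin.cases ?_ (fun i => ?_) i
        · exact hv1
        · exact hbo.1 i
      · intro i j hij
        refine Fin.cases (fun j hij => ?_) (fun i j hij => ?_) i j hij
        · refine Fin.cases (fun h => absurd rfl h) (fun j _ => ?_) j hij
          exact Submodule.mem_orthogonal_singleton_iff_inner_right.1 (b j).2.1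
        · revert hij
          refine Fin.cases (fun _ => ?_) (fun j hij => ?_) j
          · exact Submodule.mem_orthogonal_singleton_iff_inner_left.1 (b i).2.1
          · exact hbo.2 fun h => hij (congrArg Fin.succ h)
    exact this.linearIndependent

variable {oP : E → Ext H} {oX : E → Ext E}

/-- the vertical orientation form of the sphere bundle: contraction of the orientation of `P` with
the radial vector. -/
def oV (oP : E → Ext H) (z : E × H) : Ext (E × H) :=
  pb (ContinuousLinearMap.snd ℝ E H : E × H →ₗ[ℝ] H) (ii z.2 (oP z.1))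

theorem contDiffAt_oV (h : OPr X r P oP) {z : E × H} (hz : z.1 ∈ X) : ContDiffAt ℝ ∞ (oV oP) z := by
  have h1 : ContDiffAt ℝ ∞ (fun y : E × H => oP y.1) z :=
    ContDiffAt.comp (g := oP) (f := fun y : E × H => y.1) z (h.sm _ hz) contDiffAt_fst
  exact (pbL (ContinuousLinearMap.snd ℝ E H)).contDiff.contDiffAt.comp z
    (VC.contDiffAt_ii contDiffAt_snd h1)

theorem isDeg_oV (h : OPr X (r + 1) P oP) (z : E × H) : IsDeg r (oV oP z) :=
  ((h.deg z.1).ii z.2).pb _

/-- **the unit sphere bundle is an oriented submersion** -/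
theorem osubm_Sph (hX : Clo d X) (hP : PField X (r + 1) P) (h : OPr X (r + 1) P oP)
    (ho : Ori d X oX) (hd : ∀ x, IsDeg d (oX x)) :
    OSubm r d (Sph X P) X (Prod.fst : E × H → E) (oV oP) oX := by
  have hcV : ContinuousOn (oV oP) (Sph X P) := fun z hz =>
    (contDiffAt_oV h hz.1.1).continuousAt.continuousWithinAt
  refine ⟨subm_Sph hX hP, hcV, ?_, ho, hd⟩
  refine ori_of (clo_Sph hX hP) ?_ ?_
  · exact continuousOn_mul hcV ((subm_Sph hX hP).continuousOn_pull ho.cont)
  · rintro ⟨x, v⟩ hz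
    have hx : x ∈ X := hz.1.1
    obtain ⟨e, heV, hve, -, hli⟩ := exists_cons_frame (V := LinearMap.range (P x : H →ₗ[ℝ] H))
      (hP.rank x hx) ⟨v, hz.1.2⟩ hz.2
    have heP : ∀ i, P x (e i) = e i := by
      intro i
      obtain ⟨w, hw⟩ := heV i
      have hw' : P x w = e i := hw
      rw [← hw', hP.idem x hx]
    set ξ : Fin d → E := frame d X x with hξ
    have hξT : ∀ i, ξ i ∈ Tan X x := fun i => (frame_isFrame (hX.finrank_Tan hx)).2 i
    have hξ0 : evA E d (oX x) ξ ≠ 0 := ho.ne x hx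
    choose b hb using fun i => exists_lift_Sph hX.sub hP hz (hξT i)
    refine ⟨Fin.append (fun i => ((0 : E), e i)) (fun i => (ξ i, b i)), ?_, ?_⟩
    · intro i
      refine Fin.addCases (fun i => ?_) (fun i => ?_) i
      · rw [Fin.append_left]
        exact (vert_mem_Sph hX.sub hP hz).2 ⟨heP i, hve i⟩
      · rw [Fin.append_right]
        exact hb i
    · rw [pull_fst_apply,
        evA_mul_pb (ContinuousLinearMap.fst ℝ E H : E × H →ₗ[ℝ] E) (oX x)
          (fun q' hq' => hd x q' (by omega)) (fun i => (ξ i, b i)) _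
          (fun i => ((0 : E), e i)) (fun i => rfl)]
      refine mul_ne_zero ?_ hξ0
      rw [oV, evA_pb, ← evA_ii]
      refine h.ne x hx _ hli fun i => ?_
      refine Fin.cases ?_ (fun i => ?_) i
      · exact hz.1.2
      · exact heP i

end Crest.Agent.R208.SB
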