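import Crest.Agent.R208.TP4
import Crest.Agent.R208.CH3
import Crest.Agent.R208.SB1
import Crest.Agent.R208.UP2

/-! Row 208, block CBN (helper566).  The sphere bundle of an equivariant field is a circle bundle
with a connection over the sphere bundle of the descended field (`CH.CB`). -/

set_option autoImplicit false
set_option linter.unusedSectionVars false

open Set Filter Topology Module
open scoped ContDiff RealInnerProductSpace
open Crest.Agent.R208.F Crest.Agent.R208.FI Crest.Agent.R208.T Crest.Agent.R208.CW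
open Crest.Agent.R208.CM (Cir Rep Triv Emb Quo Qd MM jj Conn Curv phR Th gen)
open Crest.Agent.R208.TP (QM)

noncomputable section

namespace Crest.Agent.R208.UP

/-! ### sphere bundles -/

section sph
variable {E E' H V : Type} [NormedAddCommGroup E] [NormedSpace ℝ E] [FiniteDimensional ℝ E]
  [NormedAddCommGroup E'] [NormedSpace ℝ E'] [FiniteDimensional ℝ E']
  [NormedAddCommGroup H] [InnerProductSpace ℝ H] [FiniteDimensional ℝ H]
  [NormedAddCommGroup V] [InnerProductSpace ℝ V] [FiniteDimensional ℝ V]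
  {X : Set E} {Y : Set E'} {φ : ℝ → E → E} {q : E → E'} {R : ℝ → H →L[ℝ] H}
  {T : E → H →L[ℝ] V} {P : E → H →L[ℝ] H} {P' : E' → V →L[ℝ] V} {al : E → Ext E}

theorem cir_sph (h : Cir X φ) (hR : Rep R)
    (he : ∀ x ∈ X, ∀ t w, P (φ t x) (R t w) = R t (P x w)) : Cir (Sph X P) (phR φ R) :=
  (CM.Cir.tot h hR he).mono (fun _ hz => hz.1) fun t z hz =>
    ⟨(CM.Cir.tot h hR he).maps t hz.1, by
      change ‖R t z.2‖ = 1
      rw [hR.iso]; exact hz.2⟩

/-- normalisation of the second component -/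
def nv (y : E × H) : E × H := (y.1, ‖y.2‖⁻¹ • y.2)

theorem contDiffAt_nv {y : E × H} (hy : y.2 ≠ 0) : ContDiffAt ℝ ∞ (nv (E := E) (H := H)) y := by
  have h1 : ContDiffAt ℝ ∞ (fun y : E × H => ‖y.2‖) y := contDiffAt_snd.norm ℝ hy
  exact contDiffAt_fst.prodMk ((h1.inv (norm_ne_zero_iff.2 hy)).smul contDiffAt_snd)

theorem nv_eq {y : E × H} (hy : ‖y.2‖ = 1) : nv y = y := by
  unfold nv
  rw [hy, inv_one, one_smul]

theorem nv_mem {y : E × H} (hy : y ∈ Tot X P) (h0 : y.2 ≠ 0) : nv y ∈ Sph X P := by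
  refine ⟨⟨hy.1, ?_⟩, ?_⟩
  · change P y.1 (‖y.2‖⁻¹ • y.2) = ‖y.2‖⁻¹ • y.2
    rw [map_smul, hy.2]
  · change ‖‖y.2‖⁻¹ • y.2‖ = 1
    rw [norm_smul, norm_inv, norm_norm, inv_mul_cancel₀ (norm_ne_zero_iff.2 h0)]

/-- the quotient map of sphere bundles -/
theorem qm_sph (hq : QM (Tot X P) (phR φ R) (Tot Y P') (Th q T)) (hT : Triv X φ R T) :
    QM (Sph X P) (phR φ R) (Sph Y P') (Th q T) where
  smap := ⟨fun z hz => hq.smap.smooth z hz.1, fun z hz => ⟨hq.smap.maps hz.1, by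
    change ‖T z.1 z.2‖ = 1
    rw [hT.iso _ hz.1.1]; exact hz.2⟩⟩
  act := fun z hz t => hq.act z hz.1 t
  sep := fun z hz z' hz' hzz => hq.sep z hz.1 z' hz'.1 hzz
  ker := fun z hz v hv h0 => hq.ker z hz.1 v (Tan_mono_of_subset (fun _ hy => hy.1) z hv) h0
  sec := fun x hx => by
    obtain ⟨σ, O', a1, a2, a3, a4, a5, a6⟩ := hq.sec x hx.1
    have hc : ContinuousOn (fun y => (σ y).2) O' := continuous_snd.comp_continuousOn a3.continuousOn
    have ho : IsOpen (O' ∩ {y | (σ y).2 ≠ 0}) := hc.isOpen_inter_preimage a1 isOpen_ne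
    have hx0 : x.2 ≠ 0 := by
      intro h0
      have := hx.2
      rw [h0, norm_zero] at this
      exact zero_ne_one this
    refine ⟨fun y => nv (σ y), O' ∩ {y | (σ y).2 ≠ 0}, ho, ⟨a2, by
      change (σ (Th q T x)).2 ≠ 0
      rw [a6]; exact hx0⟩, ?_, ?_, ?_, ?_⟩
    · intro y hy
      exact ((contDiffAt_nv hy.2).comp y (a3.contDiffAt (a1.mem_nhds hy.1))).contDiffWithinAt
    · intro y hy
      exact nv_mem (a4 y hy.1) hy.2
    · intro y hy
      have h1 : Th q T (σ y) = y := a5 y ⟨hy.1.1, hy.2.1⟩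
      have h2 : ‖(σ y).2‖ = 1 := by
        rw [← hT.iso _ (a4 y hy.2.1).1]
        have h3 : T (σ y).1 (σ y).2 = y.2 := congrArg Prod.snd h1
        rw [h3]; exact hy.1.2
      change Th q T (nv (σ y)) = y
      rw [nv_eq h2, h1]
    · change nv (σ (Th q T x)) = x
      rw [a6, nv_eq hx.2]
  surj := fun y hy => by
    obtain ⟨z, hz, hzy⟩ := hq.surj y hy.1
    refine ⟨z, ⟨hz, ?_⟩, hzy⟩
    rw [← hT.iso _ hz.1]
    have h3 : T z.1 z.2 = y.2 := congrArg Prod.snd hzy
    rw [h3]; exact hy.2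
  clos := by
    have h1 : Sph Y P' = Tot Y P' ∩ {y | ‖y.2‖ = 1} := rfl
    rw [h1]
    exact hq.clos.inter (isClosed_eq (by fun_prop) continuous_const)

/-- the generator on total spaces -/
theorem gen_phR_fst (htot : Cir (Tot X P) (phR φ R)) {z : E × H} (hz : z ∈ Tot X P) :
    (gen (phR φ R) z).1 = gen φ z.1 := by
  have hd1 : HasDerivAt (fun t => phR φ R t z) (gen (phR φ R) z) 0 :=
    ((htot.smooth_left 0 hz).differentiableAt (by simp)).hasDerivAt
  have h2 : HasDerivAt (fun t => φ t z.1) (gen (phR φ R) z).1 0 :=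
    (ContinuousLinearMap.fst ℝ E H).hasFDerivAt.comp_hasDerivAt (0 : ℝ) hd1
  exact h2.deriv.symm

/-- the pull-back of a connection -/
theorem conn_tot (h : Cir X φ) (hR : Rep R)
    (he : ∀ x ∈ X, ∀ t w, P (φ t x) (R t w) = R t (P x w)) (ha : Conn X φ al)
    {Z : Set (E × H)} (hZ : Z ⊆ Tot X P) (hZm : ∀ t, MapsTo (phR φ R t) Z Z) :
    Conn Z (phR φ R) (F.pull Prod.fst al) := by
  have htot := CM.Cir.tot h hR he
  have hfst : SMap Z X (Prod.fst : E × H → E) := ⟨fun z _ => contDiffAt_fst, fun z hz => (hZ hz).1⟩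
  have hsm : ∀ t, SMap Z Z (phR φ R t) := fun t =>
    ⟨fun z hz => htot.smooth_right t (hZ hz), hZm t⟩
  refine ⟨ha.sm.pull hfst, ha.hom.pull, fun z hz => ?_, fun t => ?_⟩
  · have e0 : fderiv ℝ (Prod.fst : E × H → E) z = ContinuousLinearMap.fst ℝ E H := fderiv_fst
    rw [F.pull, ii_pb, e0]
    have e1 : ((ContinuousLinearMap.fst ℝ E H : (E × H) →L[ℝ] E) : (E × H) →ₗ[ℝ] E)
        (gen (phR φ R) z) = gen φ z.1 := gen_phR_fst htot (hZ hz)
    rw [e1, ha.unit _ (hZ hz).1, map_one]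
  · have hk : SMap Z X (fun z : E × H => φ t z.1) :=
      ⟨fun z hz => (h.smooth_right t (hZ hz).1).comp z contDiffAt_fst,
        fun z hz => h.maps t (hZ hz).1⟩
    have h1 : Eqv Z (F.pull (phR φ R t) (F.pull Prod.fst al)) (F.pull (fun z => φ t z.1) al) :=
      eqv_pull_pull (hsm t) hfst hk (fun _ _ => rfl) al
    have h2 : Eqv Z (F.pull Prod.fst (F.pull (φ t) al)) (F.pull (fun z => φ t z.1) al) :=
      eqv_pull_pull hfst (⟨fun x hx => h.smooth_right t hx, h.maps t⟩ : SMap X X (φ t)) hk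
        (fun _ _ => rfl) al
    exact h1.trans (h2.symm.trans ((ha.inv t).pull hfst))

/-- circle bundles with connection from quotient maps -/
theorem cb_of_qm {n : ℕ} (hq : QM X φ Y q) (h : Cir X φ) (hX : Clo (1 + n) X) (hY : Clo n Y)
    (ha : Conn X φ al) {Fc : E' → Ext E'} (hF : Sm Y Fc)
    (hc : Eqv X (F.d al) (F.pull q Fc)) : CH.CB n X φ Y q al Fc where
  cir := h
  subm := ⟨hX, hY, hq.smap.smooth, hq.smap.maps, fun z hz w hw => by
    obtain ⟨v, hv, hvw⟩ := hq.tan hz hw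
    exact ⟨v, hv, hvw⟩⟩
  inv := hq.act
  fib := fun x hx y hy hxy => hq.sep x hx y hy hxy.symm
  sur := hq.surj
  sm := ha.sm
  hom := ha.hom
  one := fun x hx => by
    have h1 : (fun _ : Fin 1 => gen φ x) = Matrix.vecCons (gen φ x) ![] := by
      funext i; fin_cases i; rfl
    rw [h1, evA_ii, ha.unit x hx]
    have := evA_zero_algebraMap (E := E) 1 ![]
    rwa [map_one] at this
  smF := hF
  curv := hc

end sph

/-! ### the instance -/

section inst
variable {E : Type} [NormedAddCommGroup E] [NormedSpace ℝ E] [FiniteDimensional ℝ E]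
  {H V : Type} [NormedAddCommGroup H] [InnerProductSpace ℝ H] [FiniteDimensional ℝ H]
  [NormedAddCommGroup V] [InnerProductSpace ℝ V] [FiniteDimensional ℝ V]
  {X : Set E} {φ : ℝ → E → E} {R : ℝ → H →L[ℝ] H} {T : E → H →L[ℝ] V} {P : E → H →L[ℝ] H}
  {r n m : ℕ} {g : E → Fin m → ℂ} {P' : MM m → V →L[ℝ] V} {al : E → Ext E}
  {Fc : MM m → Ext (MM m)}

/-- the base case -/
theorem cb_base (hg : Emb X φ g) (h : Cir X φ) (hX : Clo (n + 1) X) (ha : Conn X φ al)
    (hF : Curv X g al Fc) : CH.CB n X φ (Quo X g) (jj g) al Fc :=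
  cb_of_qm (TP.qm_jj hg h hX) h (by rwa [add_comm]) (hg.clo_Quo h hX) ha hF.sm hF.pull.symm

/-- **(K1)** the sphere bundle `Sph X P → Sph (Quo X g) P'` -/
theorem cb_sph (hg : Emb X φ g) (h : Cir X φ) (hX : Clo (n + 1) X) (hR : Rep R)
    (hT : Triv X φ R T) (hP : PField X (r + 1) P)
    (he : ∀ x ∈ X, ∀ t w, P (φ t x) (R t w) = R t (P x w))
    (hP' : PField (Quo X g) (r + 1) P') (hd : ∀ x ∈ X, P' (jj g x) = Qd T P x)
    (ha : Conn X φ al) (hF : Curv X g al Fc) :
    CH.CB (r + n) (Sph X P) (phR φ R) (Sph (Quo X g) P') (Th (jj g) T)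
      (F.pull Prod.fst al) (F.pull Prod.fst Fc) := by
  have hcont : ContinuousOn P' (Quo X g) := fun y hy =>
    (hP'.smooth y hy).continuousAt.continuousWithinAt
  have hq0 := TP.qm_jj hg h hX
  have hqt := hq0.tot h hR hT hP he hcont hd
  have hqs := qm_sph hqt hT
  have hcs := cir_sph (P := P) h hR he
  have hB := hg.clo_Quo h hX
  have hZ : Clo (1 + (r + n)) (Sph X P) := by
    have := SB.clo_Sph hX hP
    rwa [show r + (n + 1) = 1 + (r + n) by omega] at this
  have hfst : SMap (Sph X P) X (Prod.fst : E × H → E) :=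
    ⟨fun z _ => contDiffAt_fst, fun z hz => hz.1.1⟩
  have hfst' : SMap (Sph (Quo X g) P') (Quo X g) (Prod.fst : MM m × V → MM m) :=
    ⟨fun z _ => contDiffAt_fst, fun z hz => hz.1.1⟩
  refine cb_of_qm hqs hcs hZ (SB.clo_Sph hB hP')
    (conn_tot h hR he ha (fun z hz => hz.1) hcs.maps) (hF.sm.pull hfst') ?_
  have h1 : Eqv (Sph X P) (F.d (F.pull Prod.fst al)) (F.pull Prod.fst (F.d al)) :=
    d_pull_eqv hfst ha.sm
  have h2 : Eqv (Sph X P) (F.pull Prod.fst (F.d al)) (F.pull Prod.fst (F.pull (jj g) Fc)) :=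
    hF.pull.symm.pull hfst
  have hk : SMap (Sph X P) (Quo X g) (fun z : E × H => jj g z.1) :=
    ⟨fun z hz => (hq0.smap.smooth _ hz.1.1).comp z contDiffAt_fst,
      fun z hz => hq0.smap.maps hz.1.1⟩
  have h3 : Eqv (Sph X P) (F.pull Prod.fst (F.pull (jj g) Fc)) (F.pull (fun z => jj g z.1) Fc) :=
    eqv_pull_pull hfst hq0.smap hk (fun _ _ => rfl) Fc
  have h4 : Eqv (Sph X P) (F.pull (Th (jj g) T) (F.pull Prod.fst Fc))
      (F.pull (fun z => jj g z.1) Fc) :=
    eqv_pull_pull hqs.smap hfst' hk (fun _ _ => rfl) Fc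
  exact h1.trans (h2.trans (h3.trans h4.symm))

end inst

end Crest.Agent.R208.UP
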