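import Crest.Agent.R208.CW8
import Crest.Agent.R208.THB2
import Crest.Agent.R208.DEG2

/-! Row 208, block CW (helper586).  CW8b: the Euler class of an orthogonal sum, as classes in
`H X`, for `OF`, `OFR` and `T.OR`. -/

set_option autoImplicit false
set_option linter.unusedSectionVars false
set_option linter.unusedSimpArgs false
set_option linter.unusedVariables false

open scoped BigOperators ContDiff Topology RealInnerProductSpace
open Module Set Matrix

noncomputable section

namespace Crest.Agent.R208.CW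

open Crest.Agent.R208.F Crest.Agent.R208.FI

universe u

section field
variable {E : Type*} [NormedAddCommGroup E] [NormedSpace ℝ E] [FiniteDimensional ℝ E]
  {ι ι' n m n' : Type*} [Fintype ι] [DecidableEq ι]
  [Fintype ι'] [DecidableEq ι'] [Fintype n] [DecidableEq n] [Fintype m] [DecidableEq m]
  [Fintype n'] [DecidableEq n'] {x : E} {X : Set E}

theorem OF.const_push {P : E → Matrix n n ℂ} {W : E → (ι × Fin 2 → n) → ℂ} (h : OF X P W)
    {S : Matrix m n ℂ} (hS : Sᵀ * S = 1) :
    OF X (fun x => S * P x * Sᵀ) (fun x => pushW S (W x)) :=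
  h.push (S := fun _ => S) (fun x _ => SM.const _) fun x hx => by
    rw [hS, Matrix.mul_one, h.idF.idem x hx]

/-- **the Euler class of a direct sum** (constant orthogonal ambient spaces) -/
theorem ec_block {P : E → Matrix n n ℂ} {W : E → (ι × Fin 2 → n) → ℂ} (h : OF X P W)
    {P' : E → Matrix n' n' ℂ} {W' : E → (ι' × Fin 2 → n') → ℂ} (h' : OF X P' W')
    {S : Matrix m n ℂ} {S' : Matrix m n' ℂ} (hS : Sᵀ * S = 1) (hS' : S'ᵀ * S' = 1)
    (hSS : Sᵀ * S' = 0)
    (h'' : OF X (fun x => S * P x * Sᵀ + S' * P' x * S'ᵀ)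
        (fun x => sumT (pushW S (W x)) (pushW S' (W' x)))) :
    ec h'' = ((Fintype.card ι + Fintype.card ι').choose (Fintype.card ι) : ℕ)
        * (ec h * ec h') := by
  have e1 : (((Fintype.card ι + Fintype.card ι').choose (Fintype.card ι) : ℕ) : H X)
      * (ec h * ec h') = (((Fintype.card ι + Fintype.card ι').choose (Fintype.card ι) : ℕ) : ℂ)
        • (ec h * ec h') := by
    rw [Algebra.smul_def, map_natCast]
  rw [e1, ec, ec, ec, ← cls_mul, ← cls_smul]
  refine cls_congr fun x hx => ?_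
  rw [rs_ef_block h h' hS hS' hSS hx]
  change _ = rs X x ((((Fintype.card ι + Fintype.card ι').choose (Fintype.card ι) : ℕ) : ℂ)
    • (ef P W x * ef P' W' x))
  rw [Algebra.smul_def, map_natCast, map_mul, map_mul, map_natCast]

/-- **the Euler class of an orthogonal sum** -/
theorem ec_add {P P' : E → Matrix n n ℂ} {W : E → (ι × Fin 2 → n) → ℂ}
    {W' : E → (ι' × Fin 2 → n) → ℂ} (h : OF X P W) (h' : OF X P' W')
    (h0 : ∀ x ∈ X, P x * P' x = 0)
    (hs : OF X (fun x => P x + P' x) (fun x => sumT (W x) (W' x))) :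
    ec hs = ((Fintype.card ι + Fintype.card ι').choose (Fintype.card ι) : ℕ)
        * (ec h * ec h') := by
  have hT : ∀ x ∈ X, (P x)ᵀ = P x := fun x hx => (h.fr x hx).tr
  have hT' : ∀ x ∈ X, (P' x)ᵀ = P' x := fun x hx => (h'.fr x hx).tr
  have h0' : ∀ x ∈ X, P' x * P x = 0 := fun x hx => by
    have := congrArg Matrix.transpose (h0 x hx)
    rwa [transpose_mul, hT x hx, hT' x hx, transpose_zero] at this
  have hi1 := h.idF.idem
  have hi2 := h'.idF.idem
  have hSm : ∀ x ∈ X, SM ∞ (fun x => Matrix.fromRows (P x) (P' x)) x := fun x hx => by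
    rintro (i | i) j
    · exact h.sP x hx i j
    · exact h'.sP x hx i j
  have hi : ∀ x ∈ X, (P x + P' x) * ((Matrix.fromRows (P x) (P' x))ᵀ
      * Matrix.fromRows (P x) (P' x)) * (P x + P' x) = P x + P' x := fun x hx => by
    rw [transpose_fromRows, fromCols_mul_fromRows, hT x hx, hT' x hx, hi1 x hx, hi2 x hx]
    simp only [Matrix.mul_add, Matrix.add_mul, h0 x hx, h0' x hx, hi1 x hx, hi2 x hx, add_zero,
      zero_add]
  have hp := hs.push hSm hi
  rw [← ec_iso hs hSm hi hp]
  have g1 : (Matrix.fromRows 1 0 : Matrix (n ⊕ n) n ℂ)ᵀ * (Matrix.fromRows 1 0 : Matrix (n ⊕ n) n ℂ) = 1 := by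
    rw [transpose_fromRows, fromCols_mul_fromRows]; simp
  have g2 : (Matrix.fromRows 0 1 : Matrix (n ⊕ n) n ℂ)ᵀ * (Matrix.fromRows 0 1 : Matrix (n ⊕ n) n ℂ) = 1 := by
    rw [transpose_fromRows, fromCols_mul_fromRows]; simp
  have g3 : (Matrix.fromRows 1 0 : Matrix (n ⊕ n) n ℂ)ᵀ * (Matrix.fromRows 0 1 : Matrix (n ⊕ n) n ℂ) = 0 := by
    rw [transpose_fromRows, fromCols_mul_fromRows]; simp
  have hb : OF X (fun x => (Matrix.fromRows 1 0 : Matrix (n ⊕ n) n ℂ) * P x
        * (Matrix.fromRows 1 0 : Matrix (n ⊕ n) n ℂ)ᵀ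
      + (Matrix.fromRows 0 1 : Matrix (n ⊕ n) n ℂ) * P' x
        * (Matrix.fromRows 0 1 : Matrix (n ⊕ n) n ℂ)ᵀ)
      (fun x => sumT (pushW (Matrix.fromRows 1 0) (W x)) (pushW (Matrix.fromRows 0 1) (W' x))) := by
    refine (h.const_push g1).add (h'.const_push g2) fun x hx => ?_
    calc (Matrix.fromRows 1 0 : Matrix (n ⊕ n) n ℂ) * P x
          * (Matrix.fromRows 1 0 : Matrix (n ⊕ n) n ℂ)ᵀ
          * ((Matrix.fromRows 0 1 : Matrix (n ⊕ n) n ℂ) * P' x
            * (Matrix.fromRows 0 1 : Matrix (n ⊕ n) n ℂ)ᵀ)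
        = (Matrix.fromRows 1 0 : Matrix (n ⊕ n) n ℂ) * P x
          * ((Matrix.fromRows 1 0 : Matrix (n ⊕ n) n ℂ)ᵀ * (Matrix.fromRows 0 1 : Matrix (n ⊕ n) n ℂ)) * P' x
            * (Matrix.fromRows 0 1 : Matrix (n ⊕ n) n ℂ)ᵀ := by simp only [Matrix.mul_assoc]
      _ = 0 := by rw [g3, Matrix.mul_zero, Matrix.zero_mul, Matrix.zero_mul]
  rw [← ec_block h h' g1 g2 g3 hb]
  refine ec_congr _ _ (fun x hx => ?_) (fun x hx => ?_)
  · rw [transpose_fromRows, fromRows_mul, fromRows_mul_fromCols, transpose_fromRows,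
      transpose_fromRows, fromRows_mul, fromRows_mul_fromCols, fromRows_mul, fromRows_mul_fromCols,
      fromBlocks_add, hT x hx, hT' x hx]
    simp only [Matrix.mul_add, Matrix.add_mul, h0 x hx, h0' x hx, hi1 x hx, hi2 x hx, add_zero,
      zero_add, Matrix.one_mul, Matrix.mul_one, Matrix.zero_mul, Matrix.mul_zero, transpose_one,
      transpose_zero]
  · have q1 : Matrix.fromRows (P x) (P' x) * P x = (Matrix.fromRows 1 0 : Matrix (n ⊕ n) n ℂ) * P x := by
      rw [fromRows_mul, fromRows_mul, hi1 x hx, h0' x hx, Matrix.one_mul, Matrix.zero_mul]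
    have q2 : Matrix.fromRows (P x) (P' x) * P' x = (Matrix.fromRows 0 1 : Matrix (n ⊕ n) n ℂ) * P' x := by
      rw [fromRows_mul, fromRows_mul, hi2 x hx, h0 x hx, Matrix.one_mul, Matrix.zero_mul]
    rw [push_sumT _ (h.fr x hx) (h'.fr x hx), pushW_congr (h.fr x hx) q1,
      pushW_congr (h'.fr x hx) q2]

end field

section ofr
variable {H : Type*} [NormedAddCommGroup H] [InnerProductSpace ℝ H] [FiniteDimensional ℝ H]
  {ι ι' n : Type*} [Fintype ι] [DecidableEq ι] [Fintype ι'] [DecidableEq ι'] [Fintype n]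
  [DecidableEq n]

theorem FrR.add {b : OrthonormalBasis n ℝ H} {P P' : H →L[ℝ] H} {w : TW (ι × Fin 2) n}
    {w' : TW (ι' × Fin 2) n} (h : FrR b P w) (h' : FrR b P' w') (h0 : ∀ v, P (P' v) = 0) :
    FrR b (P + P') (sumT w w') := by
  obtain ⟨f, h1, h2, rfl⟩ := h
  obtain ⟨f', h1', h2', rfl⟩ := h'
  have hf' : ∀ p, P' (f' p) = f' p := fun p => by
    rw [h2', Finset.sum_eq_single p]
    · rw [real_inner_self_eq_norm_sq, h1'.1 p, one_pow, one_smul]
    · intro q _ hq; rw [h1'.2 hq, zero_smul]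
    · intro hp; exact absurd (Finset.mem_univ _) hp
  have ho : ∀ p q, ⟪f p, f' q⟫ = 0 := fun p q => by
    have e := h0 (f' q)
    rw [hf', h2] at e
    have e2 := congrArg (fun v => ⟪f p, v⟫) e
    simp only [inner_zero_right, inner_sum, inner_smul_right] at e2
    rw [Finset.sum_eq_single p] at e2
    · rwa [real_inner_self_eq_norm_sq, h1.1 p, one_pow, mul_one] at e2
    · intro s _ hs; rw [h1.2 hs.symm, mul_zero]
    · intro hp; exact absurd (Finset.mem_univ _) hp
  set e := Equiv.sumProdDistrib ι ι' (Fin 2) with he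
  refine ⟨fun p => Sum.elim f f' (e p), ?_, fun v => ?_, ?_⟩
  · have : Orthonormal ℝ (Sum.elim f f') := by
      rw [orthonormal_iff_ite]
      rintro (p | p) (q | q)
      · simp only [Sum.elim_inl, (orthonormal_iff_ite.1 h1) p q, Sum.inl.injEq]
      · simp only [Sum.elim_inl, Sum.elim_inr, ho, reduceCtorEq, if_false]
      · simp only [Sum.elim_inl, Sum.elim_inr, real_inner_comm, ho, reduceCtorEq, if_false]
      · simp only [Sum.elim_inr, (orthonormal_iff_ite.1 h1') p q, Sum.inr.injEq]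
    exact this.comp e e.injective
  · rw [Equiv.sum_comp e (fun s => ⟪Sum.elim f f' s, v⟫ • Sum.elim f f' s), Fintype.sum_sum_type]
    simp only [Sum.elim_inl, Sum.elim_inr]
    rw [← h2, ← h2']
    rfl
  · funext I
    have e5 := sumT_frame (W := tn b f) (W' := tn b f') (f := Matrix.of fun a p => ⟪b a, f p⟫)
      (f' := Matrix.of fun a p => ⟪b a, f' p⟫) (fun I => rfl) (fun I => rfl) I
    rw [e5, tn]
    congr 1
    refine Matrix.ext fun p q => ?_
    simp only [of_apply, sumF, submatrix_apply, id_eq]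
    rcases e q with s | s
    · rfl
    · rfl

theorem cW_sumT (w : TW (ι × Fin 2) n) (w' : TW (ι' × Fin 2) n) :
    cW (sumT w w') = sumT (cW w) (cW w') := by
  funext I
  simp only [cW, sumT]
  push_cast
  rfl

variable {E : Type u} [NormedAddCommGroup E] [NormedSpace ℝ E] [FiniteDimensional ℝ E]
  {X : Set E} {b : OrthonormalBasis n ℝ H} {P P' : E → H →L[ℝ] H} {w : E → TW (ι × Fin 2) n}
  {w' : E → TW (ι' × Fin 2) n}

theorem OFR.add (h : OFR b X P w) (h' : OFR b X P' w') (h0 : ∀ x ∈ X, ∀ v, P x (P' x v) = 0) :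
    OFR b X (fun x => P x + P' x) (fun x => sumT (w x) (w' x)) :=
  ⟨fun x hx => (h.sP x hx).add (h'.sP x hx), fun x hx => contDiffAt_pi.2 fun I =>
    contDiffAt_const.mul (ContDiffAt.sum fun σ _ =>
      contDiffAt_const.mul ((contDiffAt_pi.1 (h.sW x hx) _).mul (contDiffAt_pi.1 (h'.sW x hx) _))),
    fun x hx => (h.fr x hx).add (h'.fr x hx) (h0 x hx)⟩

theorem cM_add (P P' : H →L[ℝ] H) : cM b (P + P') = cM b P + cM b P' := by
  refine Matrix.ext fun i j => ?_
  rw [Matrix.add_apply]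
  simp only [cM_apply, _root_.add_apply, inner_add_right]
  push_cast
  rfl

/-- **the Euler class of an orthogonal sum**, for `OFR` -/
theorem OFR.ec_add (h : OFR b X P w) (h' : OFR b X P' w')
    (h0 : ∀ x ∈ X, ∀ v, P x (P' x v) = 0)
    (hs : OFR b X (fun x => P x + P' x) (fun x => sumT (w x) (w' x))) :
    ec hs.of = ((Fintype.card ι + Fintype.card ι').choose (Fintype.card ι) : ℕ)
        * (ec h.of * ec h'.of) := by
  have hz : ∀ x ∈ X, cM b (P x) * cM b (P' x) = 0 := fun x hx => by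
    refine Matrix.ext fun i j => ?_
    rw [Matrix.mul_apply, Matrix.zero_apply]
    have e := congrArg (fun v => ((⟪b i, v⟫ : ℝ) : ℂ)) (h0 x hx (b j))
    simp only [inner_zero_right, Complex.ofReal_zero] at e
    rw [← e]
    conv_rhs => rw [← b.sum_repr' (P' x (b j))]
    rw [map_sum, inner_sum]
    push_cast
    refine Finset.sum_congr rfl fun k _ => ?_
    rw [cM_apply, cM_apply, map_smul, inner_smul_right]
    push_cast
    ring
  have hs' : OF X (fun x => cM b (P x) + cM b (P' x)) (fun x => sumT (cW (w x)) (cW (w' x))) :=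
    h.of.add h'.of hz
  rw [← CW.ec_add h.of h'.of hz hs']
  exact ec_congr _ _ (fun x _ => cM_add _ _) (fun x _ => cW_sumT (w x) (w' x))

end ofr

end Crest.Agent.R208.CW

namespace Crest.Agent.R208.T

open Crest.Agent.R208.F Crest.Agent.R208.FI Crest.Agent.R208.CW

section OR
variable {E : Type*} [NormedAddCommGroup E] [NormedSpace ℝ E] [FiniteDimensional ℝ E]
  {ι ι' n : Type*} [Fintype ι] [DecidableEq ι] [Fintype ι'] [DecidableEq ι'] [Fintype n]
  [DecidableEq n] {x : E} {X : Set E}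
  {P : E → EuclideanSpace ℝ n →L[ℝ] EuclideanSpace ℝ n} {W : E → (ι × Fin 2 → n) → ℝ}
  {P' : E → EuclideanSpace ℝ n →L[ℝ] EuclideanSpace ℝ n} {W' : E → (ι' × Fin 2 → n) → ℝ}

theorem isRe_ef (P : E → EuclideanSpace ℝ n →L[ℝ] EuclideanSpace ℝ n)
    (W : E → (ι × Fin 2 → n) → ℝ) (x : E) :
    ef (fun y => mtx (P y)) (wC W) x = Cx.ofR (eR P W x) :=
  (IsRe_ef (fun y i j => Complex.ofReal_im _) fun I => Complex.ofReal_im _).eq

theorem OR.ef_mem (h : OR X P W) : mkF (eR P W) 0 ∈ Z X := by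
  have := ef_mem_Z h.of
  have e : ef (fun y => mtx (P y)) (wC W) = mkF (eR P W) 0 := funext fun x => isRe_ef P W x
  rwa [e] at this

theorem OR.EC (h : OR X P W) : T.EC X (eR P W) := by
  obtain ⟨h1, -⟩ := mem_Z_iff.1 h.ef_mem
  exact ⟨h1.1, h1.2.1, h1.2.2⟩

/-- the Euler class in `H X` is the class of the real form `eR` -/
theorem OR.ec_eq (h : OR X P W) : ec h.of = rcl h.EC := by
  refine cls_congr fun x hx => ?_
  rw [isRe_ef]
  rfl

/-- orthogonal sum -/
theorem OR.add (h : OR X P W) (h' : OR X P' W') (h0 : ∀ x ∈ X, ∀ v, P x (P' x v) = 0) :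
    OR X (fun x => P x + P' x) (fun x => sumT (W x) (W' x)) := by
  refine ⟨fun x hx => (h.sP x hx).add (h'.sP x hx), fun x hx I =>
    contDiffAt_const.mul (ContDiffAt.sum fun σ _ =>
      contDiffAt_const.mul ((h.sW x hx _).mul (h'.sW x hx _))), fun x hx => ?_⟩
  obtain ⟨f, h1, h2, h3⟩ := h.fr x hx
  obtain ⟨f', h1', h2', h3'⟩ := h'.fr x hx
  have e1 : f * fᵀ * (f' * f'ᵀ) = 0 := by
    refine Matrix.ext fun i j => ?_
    have := congrFun (congrArg (fun v : EuclideanSpace ℝ n => (v : n → ℝ))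
      (h0 x hx (EuclideanSpace.single j 1))) i
    change (P x (P' x (EuclideanSpace.single j 1))) i = 0 at this
    rw [h2] at this
    simp only [h2'] at this
    rw [Matrix.mul_apply, Matrix.zero_apply, ← this]
    refine Finset.sum_congr rfl fun k _ => ?_
    congr 1
    simp [PiLp.single_apply]
  have e2 : fᵀ * f' = 0 := by
    calc fᵀ * f' = (fᵀ * f) * fᵀ * f' * (f'ᵀ * f') := by
          rw [h1, h1', Matrix.one_mul, Matrix.mul_one]
      _ = fᵀ * (f * fᵀ * (f' * f'ᵀ)) * f' := by simp only [Matrix.mul_assoc]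
      _ = 0 := by rw [e1, Matrix.mul_zero, Matrix.zero_mul]
  have e3 : f'ᵀ * f = 0 := by
    have := congrArg Matrix.transpose e2
    rwa [transpose_mul, transpose_transpose, transpose_zero] at this
  refine ⟨sumF f f', ?_, fun v i => ?_, sumT_frame h3 h3'⟩
  · have := tr_sumF_mul f f' (1 : Matrix n n ℝ)
    rw [Matrix.mul_one] at this
    rw [this]
    simp only [Matrix.mul_one, h1, h1', e2, e3, fromBlocks_one, submatrix_one_equiv]
  · rw [sumF_mul_tr]
    change P x v i + P' x v i = _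
    rw [h2, h2', ← Finset.sum_add_distrib]
    exact Finset.sum_congr rfl fun j _ => by rw [Matrix.add_apply, add_mul]

theorem wC_sumT (W : E → (ι × Fin 2 → n) → ℝ) (W' : E → (ι' × Fin 2 → n) → ℝ) (x : E) :
    wC (fun x => sumT (W x) (W' x)) x = sumT (wC W x) (wC W' x) := by
  funext I
  simp only [wC, sumT]
  push_cast
  rfl

theorem mtx_add (A B : EuclideanSpace ℝ n →L[ℝ] EuclideanSpace ℝ n) :
    mtx (A + B) = mtx A + mtx B := by
  refine Matrix.ext fun i j => ?_
  simp [mtx]

/-- **the Euler class of an orthogonal sum**, for `OR` -/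
theorem OR.ec_add (h : OR X P W) (h' : OR X P' W') (h0 : ∀ x ∈ X, ∀ v, P x (P' x v) = 0)
    (hs : OR X (fun x => P x + P' x) (fun x => sumT (W x) (W' x))) :
    ec hs.of = ((Fintype.card ι + Fintype.card ι').choose (Fintype.card ι) : ℕ)
        * (ec h.of * ec h'.of) := by
  have hz : ∀ x ∈ X, mtx (P x) * mtx (P' x) = 0 := fun x hx => by
    obtain ⟨f, h1, h2, h3⟩ := h.fr x hx
    obtain ⟨f', h1', h2', h3'⟩ := h'.fr x hx
    have e1 : f * fᵀ * (f' * f'ᵀ) = 0 := by
      refine Matrix.ext fun i j => ?_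
      have := congrFun (congrArg (fun v : EuclideanSpace ℝ n => (v : n → ℝ))
        (h0 x hx (EuclideanSpace.single j 1))) i
      change (P x (P' x (EuclideanSpace.single j 1))) i = 0 at this
      rw [h2] at this
      simp only [h2'] at this
      rw [Matrix.mul_apply, Matrix.zero_apply, ← this]
      refine Finset.sum_congr rfl fun k _ => ?_
      congr 1
      simp [PiLp.single_apply]
    rw [mtx_of_frame h2, mtx_of_frame h2', ← Matrix.map_mul, e1]
    exact Matrix.map_zero _ (map_zero _)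
  have hs' : OF X (fun x => mtx (P x) + mtx (P' x)) (fun x => sumT (wC W x) (wC W' x)) :=
    h.of.add h'.of hz
  rw [← CW.ec_add h.of h'.of hz hs']
  exact ec_congr _ _ (fun x _ => mtx_add _ _) (fun x _ => wC_sumT W W' x)

/-- the same for the real forms -/
theorem OR.coh_add (h : OR X P W) (h' : OR X P' W') (h0 : ∀ x ∈ X, ∀ v, P x (P' x v) = 0) :
    Coh X (eR (fun x => P x + P' x) (fun x => sumT (W x) (W' x)))
      (((Fintype.card ι + Fintype.card ι').choose (Fintype.card ι) : ℝ) • (eR P W * eR P' W')) := by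
  have hs := h.add h' h0
  have key := OR.ec_add h h' h0 hs
  rw [h.ec_eq, h'.ec_eq, hs.ec_eq, ← rcl_mul] at key
  refine (rcl_eq_iff hs.EC ((h.EC.mul h'.EC).smul _)).1 ?_
  rw [key, rcl_smul _ (h.EC.mul h'.EC), Algebra.smul_def]
  congr 1
  simp

end OR

end Crest.Agent.R208.T
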