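import Crest.Agent.R208.SB4
import Crest.Agent.R208.CW8b

/-! Row 208, block SB (helper349), part SB5 = (K3)/(VE7): the fibre integral and the square of the
vertical Euler form of an oriented field of odd rank. -/

set_option autoImplicit false
set_option linter.unusedSectionVars false
set_option linter.unusedVariables false

open Set Filter Topology Module
open scoped ContDiff RealInnerProductSpace Nat Matrix
open Crest.Agent.R208.F Crest.Agent.R208.FI Crest.Agent.R208.T Crest.Agent.R208.FG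
open Crest.Agent.R208.CW (SMap H cc cs IdF ec ec_sq SM)
open Crest.Agent.R208.GO (RR)
open Crest.Agent.R208.UP (SyOn UPr nrm tW OR_of_opr)

noncomputable section

namespace Crest.Agent.R208.SB

variable {E : Type} [NormedAddCommGroup E] [NormedSpace ℝ E] [FiniteDimensional ℝ E]
  {n ι : Type} [Fintype n] [DecidableEq n] [Fintype ι] [DecidableEq ι]
  {X : Set E} {P : E → EuclideanSpace ℝ n →L[ℝ] EuclideanSpace ℝ n} {r d : ℕ}
  {oP : E → Ext (EuclideanSpace ℝ n)} {oX : E → Ext E}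

/-- a positive frame, with the properties of the tensor -/
theorem exists_posf [Nonempty ι] {F₁ : Type*} [NormedAddCommGroup F₁] [NormedSpace ℝ F₁]
    [FiniteDimensional ℝ F₁] {Y : Set F₁} {Q : F₁ → EuclideanSpace ℝ n →L[ℝ] EuclideanSpace ℝ n}
    {o : F₁ → Ext (EuclideanSpace ℝ n)} (ψ : ι × Fin 2 ≃ Fin r) (h : UPr Y r Q o)
    (hP : PField Y r Q) (hs : SyOn Y Q) {x : F₁} (hx : x ∈ Y) :
    ∃ e : Fin r → EuclideanSpace ℝ n, Orthonormal ℝ e ∧ (∀ i, Q x (e i) = e i) ∧
      evA _ r (o x) e = 1 ∧ ((Matrix.of fun i p => e (ψ p) i : Matrix n (ι × Fin 2) ℝ)ᵀ *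
        (Matrix.of fun i p => e (ψ p) i) = 1) ∧
      (∀ v i, Q x v i = ∑ j, ((Matrix.of fun i p => e (ψ p) i : Matrix n (ι × Fin 2) ℝ) *
        (Matrix.of fun i p => e (ψ p) i : Matrix n (ι × Fin 2) ℝ)ᵀ) i j * v j) ∧
      (∀ I, tW ψ (o x) I =
        ((Matrix.of fun i p => e (ψ p) i : Matrix n (ι × Fin 2) ℝ).submatrix I id).det) := by
  obtain ⟨e, he, hPe, h1⟩ := UP.exists_pos_frame ψ (h.un hx) (hP.idem x hx) (hP.rank x hx)
  refine ⟨e, he, hPe, h1, ?_, fun v i => ?_, fun I => ?_⟩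
  · ext p q
    have h2 := (orthonormal_iff_ite.1 he) (ψ p) (ψ q)
    rw [PiLp.inner_apply] at h2
    simp only [EmbeddingLike.apply_eq_iff_eq] at h2
    rw [Matrix.mul_apply, Matrix.one_apply, ← h2]
    refine Finset.sum_congr rfl fun a _ => ?_
    rw [RCLike.inner_apply, conj_trivial, Matrix.transpose_apply, Matrix.of_apply, Matrix.of_apply,
      mul_comm]
  · rw [UP.expand (hs x hx) (hP.rank x hx) he hPe v, WithLp.ofLp_sum, Finset.sum_apply]
    simp only [Matrix.mul_apply, Finset.sum_mul]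
    rw [Finset.sum_comm, ← ψ.sum_comp]
    refine Finset.sum_congr rfl fun p _ => ?_
    rw [WithLp.ofLp_smul, Pi.smul_apply, smul_eq_mul, PiLp.inner_apply, Finset.sum_mul]
    refine Finset.sum_congr rfl fun j _ => ?_
    rw [RCLike.inner_apply, conj_trivial, Matrix.transpose_apply, Matrix.of_apply, Matrix.of_apply]
    ring
  · rw [tW, UP.evA_of_fix (h.fix x hx) (hs x hx) (hP.rank x hx) he hPe, h1, mul_one]
    have e1 : (Matrix.of fun (k a : Fin r) =>
        ⟪e a, EuclideanSpace.single (I (ψ.symm k)) (1 : ℝ)⟫) =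
        ((Matrix.of fun (i : n) (p : ι × Fin 2) => e (ψ p) i).submatrix I id).submatrix
          ψ.symm ψ.symm := by
      ext k a
      simp [EuclideanSpace.inner_single_right]
    rw [e1, Matrix.det_submatrix_equiv_self]

theorem evA_inr {F₁ : Type*} [NormedAddCommGroup F₁] [NormedSpace ℝ F₁]
    [FiniteDimensional ℝ F₁] {om : F₁ × EuclideanSpace ℝ n → Ext (F₁ × EuclideanSpace ℝ n)}
    (q : ℕ) (x : F₁) (w : EuclideanSpace ℝ n) (e : Fin q → EuclideanSpace ℝ n) :
    evA (F₁ × EuclideanSpace ℝ n) q (om (x, w)) (fun i => ((0 : F₁), e i)) =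
      evA (EuclideanSpace ℝ n) q (F.pull (fun y : EuclideanSpace ℝ n => (x, y)) om w) e := by
  rw [F.pull, evA_pb]
  have h2 : fderiv ℝ (fun y : EuclideanSpace ℝ n => (x, y)) w =
      ContinuousLinearMap.inr ℝ F₁ (EuclideanSpace ℝ n) := by
    have : HasFDerivAt (fun y : EuclideanSpace ℝ n => (x, y))
        ((0 : EuclideanSpace ℝ n →L[ℝ] F₁).prod (ContinuousLinearMap.id ℝ _)) w :=
      (hasFDerivAt_const x w).prodMk (hasFDerivAt_id w)
    rw [this.fderiv]
    ext v <;> simp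
  rw [h2]
  rfl

namespace OddB

variable (h : OddB ι X r P oP)
include h

/-- **the vertical Euler form and the vertical orientation form on a frame of the fibre** -/
theorem exists_fr [Nonempty ι] {z : E × EuclideanSpace ℝ n} (hz : z ∈ Sph X P) :
    ∃ e : Fin r → EuclideanSpace ℝ n, (∀ i, P z.1 (e i) = e i) ∧ (∀ i, ⟪z.2, e i⟫ = 0) ∧
      Orthonormal ℝ e ∧
      evA (E × EuclideanSpace ℝ n) r (eV ι h.hr P oP z) (fun i => ((0 : E), e i)) = (r ! : ℝ) ∧
      0 < evA (E × EuclideanSpace ℝ n) r (oV oP z) (fun i => ((0 : E), e i)) := by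
  obtain rfl : r = Fintype.card ι * 2 := by have := h.hr; omega
  have hU := UPr.of_opr h.op_RR h.pf_RR h.sy_RR
  obtain ⟨e, he, hPe, h1, f1, f2, f3⟩ := exists_posf (phi2 ι h.hr) hU h.pf_RR h.sy_RR hz
  obtain ⟨x, w⟩ := z
  have hin : ∀ i, ⟪w, e i⟫ = 0 := fun i => by
    rw [← hPe i]; exact h.oddS.inner_Pm hz _
  have hPx : ∀ i, P x (e i) = e i := fun i => by
    have h2 := hPe i
    rw [GQ.Pm_apply] at h2
    change P x (e i) - ⟪w, e i⟫ • w = e i at h2
    rwa [hin, zero_smul, sub_zero] at h2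
  refine ⟨e, hPx, hin, he, ?_, ?_⟩
  · rw [evA_inr]
    have key := GO.pull_fibre (W' := Wv ι h.hr P oP) hz.2 (h.pf.smooth _ hz.1.1) hz.1.2 f1 f2 f3
    rw [eV, key, map_smul, AlternatingMap.smul_apply, Xw, evA_iMulti, smul_eq_mul]
    have h3 : (Matrix.of fun i j : Fin (Fintype.card ι * 2) =>
        eta (Matrix.of fun i p => e (phi2 ι h.hr p) i) ((kFin ι).symm j) (e i)) = 1 := by
      ext i j
      rw [Matrix.of_apply, eta_apply, Matrix.one_apply]
      have h4 := (orthonormal_iff_ite.1 he) j i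
      rw [PiLp.inner_apply] at h4
      have h5 : phi2 ι h.hr ((kFin ι).symm j) = j := by
        simp [phi2]
      refine Eq.trans ?_ (h4.trans ?_)
      · refine Finset.sum_congr rfl fun a _ => ?_
        rw [Matrix.of_apply, h5, RCLike.inner_apply, conj_trivial, mul_comm]
      · by_cases hij : j = i
        · rw [if_pos hij, if_pos hij.symm]
        · rw [if_neg hij, if_neg fun h => hij h.symm]
    rw [h3, Matrix.det_one, mul_one, Fintype.card_prod, Fintype.card_fin]
  · have h6 : evA (E × EuclideanSpace ℝ n) (Fintype.card ι * 2) (oV oP (x, w))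
        (fun i => ((0 : E), e i)) =
        evA (EuclideanSpace ℝ n) (Fintype.card ι * 2) (ii w (oP x)) e := by
      rw [oV, evA_pb]
      rfl
    rw [h6]
    rw [nrm, map_smul, AlternatingMap.smul_apply, smul_eq_mul, evA_pb] at h1
    have h7 : (fun i => (RR P (x, w) : EuclideanSpace ℝ n →ₗ[ℝ] EuclideanSpace ℝ n) (e i)) = e :=
      funext hPe
    rw [h7] at h1
    have h8 : 0 ≤ (Real.sqrt (UP.nsq (Fintype.card ι * 2)
      (pb (RR P (x, w) : EuclideanSpace ℝ n →ₗ[ℝ] EuclideanSpace ℝ n)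
        (ii w (oP x)))))⁻¹ := inv_nonneg.2 (Real.sqrt_nonneg _)
    by_contra hcon
    have h9 := mul_nonpos_of_nonneg_of_nonpos h8 (not_lt.1 hcon)
    linarith [h1.symm.le.trans h9]

/-- the fibre over a point -/
theorem pf_pt {x : E} (hx : x ∈ X) : PField ({x} : Set E) (r + 1) P :=
  ⟨fun y hy => by rw [hy]; exact h.pf.smooth _ hx, fun y hy => by rw [hy]; exact h.pf.idem _ hx,
    fun y hy => by rw [hy]; exact h.pf.rank _ hx⟩

theorem clo_fibre {x : E} (hx : x ∈ X) : Clo r (Sph ({x} : Set E) P) := by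
  have := clo_Sph ((sub_point x).clo isCompact_singleton) (h.pf_pt hx)
  rwa [add_zero] at this

omit h in
theorem sph_pt_sub {x : E} (hx : x ∈ X) : Sph ({x} : Set E) P ⊆ Sph X P := by
  rintro z ⟨⟨h1, h2⟩, h3⟩
  have h1' : z.1 = x := h1
  exact ⟨⟨by rw [h1']; exact hx, h2⟩, h3⟩

omit h in
theorem fibre_eq {x : E} (hx : x ∈ X) :
    Sph X P ∩ (Prod.fst : E × EuclideanSpace ℝ n → E) ⁻¹' {x} = Sph ({x} : Set E) P := by
  ext z
  constructor
  · rintro ⟨⟨⟨h1, h2⟩, h3⟩, h4⟩
    exact ⟨⟨h4, h2⟩, h3⟩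
  · intro hz
    exact ⟨sph_pt_sub hx hz, hz.1.1⟩

theorem frame_mem {x : E} (hx : x ∈ X) {z : E × EuclideanSpace ℝ n}
    (hz : z ∈ Sph ({x} : Set E) P) {e : Fin r → EuclideanSpace ℝ n} (hPe : ∀ i, P z.1 (e i) = e i)
    (hin : ∀ i, ⟪z.2, e i⟫ = 0) (i : Fin r) : ((0 : E), e i) ∈ Tan (Sph ({x} : Set E) P) z := by
  obtain ⟨y, w⟩ := z
  have hy : y = x := hz.1.1
  subst hy
  exact (vert_mem_Sph (sub_point y) (h.pf_pt hx) hz).2 ⟨hPe i, hin i⟩

theorem ori_eV [Nonempty ι] {x : E} (hx : x ∈ X) :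
    Ori r (Sph ({x} : Set E) P) (eV ι h.hr P oP) := by
  refine ori_of (h.clo_fibre hx)
    ((continuousOn_of_contDiffAt h.ec_eV.sm).mono (sph_pt_sub hx)) fun z hz => ?_
  obtain ⟨e, h1, h2, -, h4, -⟩ := h.exists_fr (sph_pt_sub hx hz)
  exact ⟨_, fun i => h.frame_mem hx hz h1 h2 i, by rw [h4]; exact_mod_cast r.factorial_ne_zero⟩

theorem ori_oV [Nonempty ι] {x : E} (hx : x ∈ X) :
    Ori r (Sph ({x} : Set E) P) (oV oP) := by
  refine ori_of (h.clo_fibre hx) (fun z hz =>
    (contDiffAt_oV h.op (sph_pt_sub hx hz).1.1).continuousAt.continuousWithinAt) fun z hz => ?_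
  obtain ⟨e, h1, h2, -, -, h5⟩ := h.exists_fr (sph_pt_sub hx hz)
  exact ⟨_, fun i => h.frame_mem hx hz h1 h2 i, h5.ne'⟩

theorem J_pos_fibre [Nonempty ι] {x : E} (hx : x ∈ X) :
    0 < J r (Sph ({x} : Set E) P) (oV oP) (eV ι h.hr P oP) := by
  have hne : (Sph ({x} : Set E) P).Nonempty := by
    have h1 : 0 < finrank ℝ (LinearMap.range (P x : EuclideanSpace ℝ n →ₗ[ℝ] EuclideanSpace ℝ n)) := by
      rw [h.pf.rank _ hx]; omega
    obtain ⟨⟨y, hy⟩, hy0⟩ := (Module.finrank_pos_iff_exists_ne_zero).1 h1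
    have hy1 : y ≠ 0 := fun h => hy0 (Subtype.ext h)
    obtain ⟨u, rfl⟩ := hy
    refine ⟨(x, ‖P x u‖⁻¹ • P x u), ⟨rfl, ?_⟩, ?_⟩
    · change P x _ = _
      rw [map_smul, h.pf.idem _ hx]
    · rw [norm_smul, norm_inv, norm_norm]
      exact inv_mul_cancel₀ (norm_ne_zero_iff.2 hy1)
  have key : ∀ z ∈ Sph ({x} : Set E) P,
      0 < evA (E × EuclideanSpace ℝ n) r (oV oP z) (frame r (Sph ({x} : Set E) P) z) *
        evA (E × EuclideanSpace ℝ n) r (eV ι h.hr P oP z) (frame r (Sph ({x} : Set E) P) z) := by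
    intro z hz
    obtain ⟨e, h1, h2, -, h4, h5⟩ := h.exists_fr (sph_pt_sub hx hz)
    obtain ⟨δ, hδ, -⟩ := (h.clo_fibre hx).exists_det hz (fun i => h.frame_mem hx hz h1 h2 i)
    rw [hδ] at h4 h5
    have h6 : 0 < δ * evA (E × EuclideanSpace ℝ n) r (eV ι h.hr P oP z)
        (frame r (Sph ({x} : Set E) P) z) := by
      rw [h4]; exact_mod_cast r.factorial_pos
    have h7 := mul_pos h5 h6
    have h8 : 0 < δ * δ * (evA (E × EuclideanSpace ℝ n) r (oV oP z)
        (frame r (Sph ({x} : Set E) P) z) * evA (E × EuclideanSpace ℝ n) r (eV ι h.hr P oP z)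
        (frame r (Sph ({x} : Set E) P) z)) := by
      refine h7.trans_eq ?_
      ring
    exact pos_of_mul_pos_right h8 (mul_self_nonneg δ)
  have h9 := J_ori_congr (E := E × EuclideanSpace ℝ n) (om := eV ι h.hr P oP) (h.clo_fibre hx) key
  rw [h9]
  exact J_pos (h.clo_fibre hx) (h.ori_eV hx) hne

set_option maxHeartbeats 800000 in
/-- **the integral of the vertical Euler form over every fibre is `2 (4π)^l l!`** -/
theorem J_fibre [Nonempty ι] {x : E} (hx : x ∈ X) :
    J r (Sph ({x} : Set E) P) (oV oP) (eV ι h.hr P oP) = 2 * XF.tau ι := by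
  classical
  have hpos := h.J_pos_fibre hx
  have hK := h.clo_fibre hx
  have hO := h.ori_oV hx
  obtain ⟨u, hu1, hPu⟩ : ∃ u : EuclideanSpace ℝ n, ‖u‖ = 1 ∧ P x u = u := by
    have h1 : 0 < finrank ℝ (LinearMap.range (P x : EuclideanSpace ℝ n →ₗ[ℝ] EuclideanSpace ℝ n)) := by
      rw [h.pf.rank _ hx]; omega
    obtain ⟨⟨y, hy⟩, hy0⟩ := (Module.finrank_pos_iff_exists_ne_zero).1 h1
    have hy1 : y ≠ 0 := fun h => hy0 (Subtype.ext h)
    obtain ⟨u, rfl⟩ := hy
    refine ⟨‖P x u‖⁻¹ • P x u, ?_, ?_⟩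
    · rw [norm_smul, norm_inv, norm_norm]
      exact inv_mul_cancel₀ (norm_ne_zero_iff.2 hy1)
    · rw [map_smul]
      congr 1
      exact h.pf.idem _ hx u
  have hu0 : u ≠ 0 := fun h0 => by rw [h0, norm_zero] at hu1; exact zero_ne_one hu1
  have huu : ⟪u, u⟫ = (1 : ℝ) := by rw [real_inner_self_eq_norm_sq, hu1, one_pow]
  -- the section
  set s : E × EuclideanSpace ℝ n → EuclideanSpace ℝ n := fun z => u - ⟪z.2, u⟫ • z.2 with hs
  have hinn : ContDiff ℝ ∞ (fun z : E × EuclideanSpace ℝ n => ⟪z.2, u⟫) :=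
    contDiff_snd.inner ℝ contDiff_const
  have hsm : ContDiff ℝ ∞ s := contDiff_const.sub (hinn.smul contDiff_snd)
  obtain rfl : r = Fintype.card ι * 2 := by have := h.hr; omega
  have hOR : OR (Sph ({x} : Set E) P) (RR P) (Wv ι h.hr P oP) :=
    ⟨fun z hz => h.orv.sP z (sph_pt_sub hx hz), fun z hz => h.orv.sW z (sph_pt_sub hx hz),
      fun z hz => h.orv.fr z (sph_pt_sub hx hz)⟩
  have hzr : ∀ z ∈ Sph ({x} : Set E) P, s z = 0 → z = (x, u) ∨ z = (x, -u) := by
    rintro ⟨y, w⟩ hz h0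
    have hy : y = x := hz.1.1
    have hw : ‖w‖ = 1 := hz.2
    subst hy
    have h1 : u = ⟪w, u⟫ • w := sub_eq_zero.1 h0
    have h2 : |⟪w, u⟫| = 1 := by
      have := congrArg norm h1
      rw [norm_smul, hw, mul_one, hu1, Real.norm_eq_abs] at this
      exact this.symm
    rcases eq_or_eq_neg_of_abs_eq h2 with h3 | h3
    · left
      rw [h3, one_smul] at h1
      rw [h1]
    · right
      rw [h3, neg_one_smul] at h1
      rw [h1, neg_neg]
  have c1 : ∀ z ∈ Sph ({x} : Set E) P, RR P z (s z) = s z := by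
    intro z hz
    obtain ⟨y, w⟩ := z
    have hy : y = x := hz.1.1
    have hPw : P y w = w := hz.1.2
    have hw : ‖w‖ = 1 := hz.2
    subst hy
    have hww : ⟪w, w⟫ = (1 : ℝ) := by rw [real_inner_self_eq_norm_sq, hw, one_pow]
    rw [GQ.Pm_apply]
    change P y (u - ⟪w, u⟫ • w) - ⟪w, u - ⟪w, u⟫ • w⟫ • w = u - ⟪w, u⟫ • w
    rw [map_sub, map_smul, hPu, hPw, inner_sub_right, real_inner_smul_right, hww, mul_one, sub_self,
      zero_smul, sub_zero]
  have c2 : ∀ z ∈ ({(x, u), (x, -u)} : Finset (E × EuclideanSpace ℝ n)),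
      z ∈ Sph ({x} : Set E) P := by
    intro z hz
    rw [Finset.mem_insert, Finset.mem_singleton] at hz
    rcases hz with rfl | rfl
    · exact ⟨⟨rfl, hPu⟩, hu1⟩
    · exact ⟨⟨rfl, by change P x (-u) = -u; rw [map_neg, hPu]⟩, by
        change ‖-u‖ = 1; rw [norm_neg]; exact hu1⟩
  have c3 : ∀ z ∈ ({(x, u), (x, -u)} : Finset (E × EuclideanSpace ℝ n)), s z = 0 := by
    intro z hz
    rw [Finset.mem_insert, Finset.mem_singleton] at hz
    rcases hz with rfl | rfl
    · change u - ⟪u, u⟫ • u = 0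
      rw [huu, one_smul, sub_self]
    · change u - ⟪-u, u⟫ • (-u) = 0
      rw [inner_neg_left, neg_smul_neg, huu, one_smul, sub_self]
  have c4 : ∀ z ∈ ({(x, u), (x, -u)} : Finset (E × EuclideanSpace ℝ n)),
      ∀ v ∈ Tan (Sph ({x} : Set E) P) z, fderiv ℝ s z v = 0 → v = 0 := by
    intro z hz v hv h0
    -- nondegeneracy
    have hder : ∀ w : EuclideanSpace ℝ n, HasFDerivAt s
        (-(⟪w, u⟫ • ContinuousLinearMap.snd ℝ E (EuclideanSpace ℝ n) +
          ((innerSL ℝ u).comp (ContinuousLinearMap.snd ℝ E (EuclideanSpace ℝ n))).smulRight w))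
        (x, w) := by
      intro w
      have e1 : HasFDerivAt (fun z : E × EuclideanSpace ℝ n => ⟪z.2, u⟫)
          ((innerSL ℝ u).comp (ContinuousLinearMap.snd ℝ E (EuclideanSpace ℝ n))) (x, w) := by
        have e2 : (fun z : E × EuclideanSpace ℝ n => ⟪z.2, u⟫) =
            ((innerSL ℝ u).comp (ContinuousLinearMap.snd ℝ E (EuclideanSpace ℝ n))) := by
          funext z
          rw [real_inner_comm]
          rfl
        rw [e2]
        exact ContinuousLinearMap.hasFDerivAt _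
      have e3 : HasFDerivAt (fun z : E × EuclideanSpace ℝ n => z.2)
          (ContinuousLinearMap.snd ℝ E (EuclideanSpace ℝ n)) (x, w) := hasFDerivAt_snd
      have e4 := (e1.smul e3).const_sub u
      exact e4
    have hzT : z ∈ Sph ({x} : Set E) P := by
      rw [Finset.mem_insert, Finset.mem_singleton] at hz
      rcases hz with rfl | rfl
      · exact ⟨⟨rfl, hPu⟩, hu1⟩
      · exact ⟨⟨rfl, by change P x (-u) = -u; rw [map_neg, hPu]⟩, by
          change ‖-u‖ = 1; rw [norm_neg]; exact hu1⟩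
    have hcase : ∃ t : ℝ, t * t = 1 ∧ z = (x, t • u) := by
      rw [Finset.mem_insert, Finset.mem_singleton] at hz
      rcases hz with rfl | rfl
      · exact ⟨1, by norm_num, by rw [one_smul]⟩
      · exact ⟨-1, by norm_num, by rw [neg_one_smul]⟩
    obtain ⟨t, ht, rfl⟩ := hcase
    obtain ⟨a, b⟩ := v
    have hvt := (mem_Tan_Sph (sub_point x) (h.pf_pt hx) hzT (a := a) (b := b)).1 hv
    have ha : a = 0 := by
      have h1 := hvt.1
      rwa [GO.Tan_point, Submodule.mem_bot] at h1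
    rw [(hder (t • u)).fderiv] at h0
    change -(⟪t • u, u⟫ • b + ⟪u, b⟫ • t • u) = 0 at h0
    have hub : ⟪u, b⟫ = (0 : ℝ) := by
      have h1 := hvt.2.2
      rw [real_inner_smul_left] at h1
      rcases mul_eq_zero.1 h1 with h2 | h2
      · rw [h2] at ht; norm_num at ht
      · exact h2
    rw [hub, zero_smul, add_zero, real_inner_smul_left, huu, mul_one, neg_eq_zero] at h0
    have hb : b = 0 := by
      rcases smul_eq_zero.1 h0 with h2 | h2
      · rw [h2] at ht; norm_num at ht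
      · exact h2
    rw [ha, hb]; rfl
  obtain ⟨ε, hε, hJ⟩ := XF.zero_locus (oX := oV oP) (s := s) (Z := {(x, u), (x, -u)}) hK hO hOR
    (fun z _ => hsm.contDiffAt) c1 c2 c3
    (fun z hz h0 => by rcases hzr z hz h0 with h1 | h1 <;> simp [h1]) c4
  have hne : ((x, u) : E × EuclideanSpace ℝ n) ≠ (x, -u) := fun h0 => by
    have h1 : u = -u := congrArg Prod.snd h0
    have h2 : (2 : ℝ) • u = 0 := by
      rw [two_smul]
      nth_rewrite 2 [h1]
      exact add_neg_cancel u
    exact hu0 ((smul_eq_zero.1 h2).resolve_left two_ne_zero)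
  rw [Finset.sum_pair hne] at hJ
  have h1 := hε (x, u) (by simp)
  have h2 := hε (x, -u) (by simp)
  have h3 := XF.tau_pos ι
  rw [eV] at hpos ⊢
  rcases h1 with h1 | h1 <;> rcases h2 with h2 | h2
  · rw [hJ, h1, h2]; ring
  · rw [hJ, h1, h2] at hpos; norm_num at hpos
  · rw [hJ, h1, h2] at hpos; norm_num at hpos
  · rw [hJ, h1, h2] at hpos
    nlinarith

/-- **fibre integration of the vertical Euler form** -/
theorem J_eV [Nonempty ι] (hX : Clo d X) (ho : Ori d X oX) (hd : ∀ x, IsDeg d (oX x))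
    {β : E → Ext E} (hβ : ContinuousOn β X) (hβ0 : ∀ x ∈ X, ∀ q < d, evA E q (β x) = 0) :
    J (r + d) (Sph X P) (fun z => oV oP z * F.pull Prod.fst oX z)
      (fun z => eV ι h.hr P oP z * F.pull Prod.fst β z) = 2 * XF.tau ι * J d X oX β := by
  have h1 := osubm_Sph hX h.pf h.op ho hd
  have h2 := FI.fibre_integration (om := β) h1.subm h1.cV h1.tot h1.low
    (continuousOn_of_contDiffAt h.ec_eV.sm) hβ hβ0
  rw [h2, ← J_smul]
  refine J_congr' hX fun x hx => ?_
  rw [fibre_eq hx, h.J_fibre hx]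

/-- every fibre integral, in the form of the fibres of the projection -/
theorem J_fibre' [Nonempty ι] {x : E} (hx : x ∈ X) :
    J r (Sph X P ∩ (Prod.fst : E × EuclideanSpace ℝ n → E) ⁻¹' {x}) (oV oP) (eV ι h.hr P oP) =
      2 * XF.tau ι := by
  rw [fibre_eq hx, h.J_fibre hx]

/-! ### the square -/

theorem sub_sph (hX : Sub d X) : Sub (r + d) (Sph X P) := sub_Sph hX h.pf

/-- `c (Vert ⊗ ℂ) = c (P ⊗ ℂ)` on the sphere bundle -/
theorem cs_RR (hX : Sub d X) :
    cs (h.sub_sph hX) (EW.idF_of_pfield h.pf_RR) =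
      (cs hX (EW.idF_of_pfield h.pf)).map (H.map (smap_fstS (X := X) (P := P)) : H X →+* H (Sph X P)) := by
  have hS := h.sub_sph hX
  rw [CW.cs_map hS hX smap_fstS]
  have hL : IdF (Sph X P) fun z : E × EuclideanSpace ℝ n =>
      mtx ((innerSL ℝ z.2).smulRight z.2) := by
    refine EW.idF_mtx (P := fun z : E × EuclideanSpace ℝ n => (innerSL ℝ z.2).smulRight z.2)
      (fun z _ => ?_) fun z hz v => ?_
    · have h1 : ContDiffAt ℝ ∞ (fun y : E × EuclideanSpace ℝ n => (innerSL ℝ y.2 :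
          EuclideanSpace ℝ n →L[ℝ] ℝ)) z := (innerSL ℝ : EuclideanSpace ℝ n →L[ℝ]
            EuclideanSpace ℝ n →L[ℝ] ℝ).contDiff.contDiffAt.comp z contDiffAt_snd
      exact h1.smulRight contDiffAt_snd
    · change ⟪z.2, ⟪z.2, v⟫ • z.2⟫ • z.2 = ⟪z.2, v⟫ • z.2
      rw [real_inner_smul_right, real_inner_self_eq_norm_sq, hz.2, one_pow, mul_one]
  have hline : cs hS hL = 1 := by
    refine NB.cs_line hS hL (s := fun z i => ((z.2 i : ℝ) : ℂ)) (fun z _ i => ?_) (fun z hz => ?_)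
      (fun z hz h0 => ?_) fun z hz => ?_
    · have h1 : ContDiffAt ℝ ∞ (fun y : E × EuclideanSpace ℝ n => y.2 i) z :=
        (EuclideanSpace.proj i : EuclideanSpace ℝ n →L[ℝ] ℝ).contDiff.contDiffAt.comp z
          contDiffAt_snd
      exact Complex.ofRealCLM.contDiff.contDiffAt.comp z h1
    · have hww : ∑ j, z.2 j * z.2 j = (1 : ℝ) := by
        have := real_inner_self_eq_norm_sq z.2
        rw [hz.2, PiLp.inner_apply, one_pow] at this
        rw [← this]
        exact Finset.sum_congr rfl fun i _ => by rw [RCLike.inner_apply, conj_trivial]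
      funext i
      rw [Matrix.mulVec, dotProduct]
      have h1 : ∀ j, mtx ((innerSL ℝ z.2).smulRight z.2) i j * ((z.2 j : ℝ) : ℂ) =
          ((z.2 j * z.2 j * z.2 i : ℝ) : ℂ) := by
        intro j
        rw [mtx, Matrix.of_apply]
        change (((⟪z.2, EuclideanSpace.single j (1 : ℝ)⟫ • z.2) i : ℝ) : ℂ) * _ = _
        rw [PiLp.smul_apply, smul_eq_mul, EuclideanSpace.inner_single_right]
        push_cast
        simp only [conj_trivial]
        ring
      simp only [h1]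
      rw [← Complex.ofReal_sum, ← Finset.sum_mul, hww, one_mul]
    · have h1 : z.2 = 0 := by
        ext i
        exact Complex.ofReal_eq_zero.1 (congrFun h0 i)
      have h2 := hz.2
      rw [h1, norm_zero] at h2
      exact zero_ne_one h2
    · rw [EW.rank_mtx (fun v => ?_)]
      · have h1 : LinearMap.range (((innerSL ℝ z.2).smulRight z.2 :
            EuclideanSpace ℝ n →L[ℝ] EuclideanSpace ℝ n) :
              EuclideanSpace ℝ n →ₗ[ℝ] EuclideanSpace ℝ n) = ℝ ∙ z.2 := by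
          refine le_antisymm ?_ ?_
          · rintro _ ⟨v, rfl⟩
            exact Submodule.smul_mem _ _ (Submodule.mem_span_singleton_self _)
          · rw [Submodule.span_singleton_le_iff_mem]
            refine ⟨z.2, ?_⟩
            change ⟪z.2, z.2⟫ • z.2 = z.2
            rw [real_inner_self_eq_norm_sq, hz.2, one_pow, one_smul]
        rw [h1]
        refine finrank_span_singleton fun h0 => ?_
        have h2 := hz.2
        rw [h0, norm_zero] at h2
        exact zero_ne_one h2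
      · change ⟪z.2, ⟪z.2, v⟫ • z.2⟫ • z.2 = ⟪z.2, v⟫ • z.2
        rw [real_inner_smul_right, real_inner_self_eq_norm_sq, hz.2, one_pow, mul_one]
  have hs : ∀ z ∈ Sph X P, (fun y => mtx (P y)) z.1 = mtx (RR P z) +
      mtx ((innerSL ℝ z.2).smulRight z.2) := by
    intro z hz
    rw [← mtx_add, RR, GQ.Pm, sub_add_cancel]
  have h12 : ∀ z ∈ Sph X P, mtx (RR P z) * mtx ((innerSL ℝ z.2).smulRight z.2) = 0 := by
    intro z hz
    rw [← EW.mc_eq_mtx, ← EW.mc_eq_mtx, ← EW.mc_comp]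
    have h0 : (RR P z).comp ((innerSL ℝ z.2).smulRight z.2) = 0 := by
      ext1 v
      change RR P z (⟪z.2, v⟫ • z.2) = 0
      rw [map_smul, h.oddS.Pm_v hz, smul_zero]
    rw [h0]
    ext i j
    simp [EW.mc_apply]
  have h21 : ∀ z ∈ Sph X P, mtx ((innerSL ℝ z.2).smulRight z.2) * mtx (RR P z) = 0 := by
    intro z hz
    rw [← EW.mc_eq_mtx, ← EW.mc_eq_mtx, ← EW.mc_comp]
    have h0 : ((innerSL ℝ z.2).smulRight z.2).comp (RR P z) = 0 := by
      ext1 v
      change ⟪z.2, RR P z v⟫ • z.2 = 0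
      rw [h.oddS.inner_Pm hz, zero_smul]
    rw [h0]
    ext i j
    simp [EW.mc_apply]
  have h3 := CW.cs_orth hS ((EW.idF_of_pfield h.pf).comp smap_fstS) (EW.idF_of_pfield h.pf_RR) hL
    hs h12 h21
  rw [h3, hline, mul_one]

/-- **the square of the vertical Euler form** -/
theorem sq_eV [Nonempty ι] (hX : Sub d X) :
    Coh (Sph X P) (eV ι h.hr P oP * eV ι h.hr P oP)
      ((VX.nE ι ^ 2) • F.pull Prod.fst (EW.cR r P)) := by
  have hS := h.sub_sph hX
  have e1 : EC X (EW.cR r P) := EW.ec_cfr hX (EW.idF_of_pfield h.pf) r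
  have e2 : EC (Sph X P) (F.pull Prod.fst (EW.cR r P)) := EC.pull smap_fstS e1
  refine (rcl_eq_iff (h.ec_eV.mul h.ec_eV) (e2.smul _)).1 ?_
  rw [rcl_mul h.ec_eV h.ec_eV, rcl_smul _ e2, rcl_pull (smap_fstS (X := X) (P := P)) e1]
  have h1 : rcl e1 = cc hX (EW.idF_of_pfield h.pf) r :=
    EW.rcl_cfr hX (EW.idF_of_pfield h.pf) (fun y i j => Complex.ofReal_im _) r
  have h2 : rcl h.ec_eV = ec h.orv.of := VX.rcl_eR h.orv
  have h3 := ec_sq hS h.orv.of
  have h4 := congrArg (PowerSeries.coeff r) (h.cs_RR hX)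
  rw [CW.coeff_cs, PowerSeries.coeff_map, CW.coeff_cs] at h4
  have h5 : cc hS h.orv.of.idF (2 * Fintype.card ι) = cc hS (EW.idF_of_pfield h.pf_RR) r := by
    rw [← h.hr]
  rw [h1, h2, ← sq, h3, h5, h4, VX.nE]
  push_cast
  rfl

end OddB

end Crest.Agent.R208.SB
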