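import Crest.Agent.R208.ZH3
import Crest.Agent.R208.FV3

/-! Row 208, block ZH (helper107), part ZH3b: the instances `X = US G`, `P = N` and
`X = B = US G / S¹`, `P = N / S¹` of **(V4-c)**. -/

set_option autoImplicit false
set_option linter.unusedSectionVars false

open MeasureTheory Set Filter Topology Module
open scoped ContDiff RealInnerProductSpace Matrix
open Crest.GeometryTopology.Submanifold
open Crest.Agent.R241.DDefs
open Crest.Agent.R241.D2
open Crest.Agent.R208.F Crest.Agent.R208.FI Crest.Agent.R208.CW Crest.Agent.R208.T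
open Crest.Agent.R208.NN
open Crest.Agent.R208.NB (NegB)
open Crest.Agent.R208.L (US)
open Crest.Agent.R208.CM (Cir Rep Triv Emb Quo Qd MM jj)
open Crest.Agent.R208.SB (OPr)
open Crest.Agent.R208.UP (SyOn UPr)

noncomputable section

namespace Crest.Agent.R208.ZG

variable {n N k K m r l : ℕ} {κ δ : ℝ} {S : Set (Euc N)} {G : Geo n N κ S}
  {PN : Euc N × Euc N → Wt N K →L[ℝ] Wt N K}

/-- **(V4-c) over `US G`** -/
theorem lh_N (h : GT.Bla G k) (hl : 0 < l) (hkl : k = 2 * l + 2) (hkn : k < n)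
    (H : NegB G (k - 1) (nuP K) δ PN)
    {ε : (Euc N × Euc N) × Wt N K → Ext ((Euc N × Euc N) × Wt N K)}
    (sε : Sm (Sph (US G) PN) ε) (cε : Cl (Sph (US G) PN) ε) (dε : Hom (2 * l) ε)
    {z0 : Euc N × Euc N} (hz0 : z0 ∈ US G)
    {oF : (Euc N × Euc N) × Wt N K → Ext ((Euc N × Euc N) × Wt N K)}
    (hoF : Ori (2 * l) (Sph (US G) PN ∩ Prod.fst ⁻¹' {z0}) oF)
    (hJ : J (2 * l) (Sph (US G) PN ∩ Prod.fst ⁻¹' {z0}) oF ε ≠ 0) :
    GQ.LH (US G) PN (2 * l) ε := by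
  have hk1 : k - 1 = 2 * l + 1 := by omega
  rw [hk1] at H
  obtain ⟨oP, hoP⟩ := SB.exists_opr_N h (by omega) hkn (by rw [hk1]; exact H)
  rw [hk1] at hoP
  exact lh_of_J hl (CM.clo_US' h.bl).sub (FV.preconn_US h.bl (by omega)) (UP.pfield_N H)
    (UP.syOn_N H) hoP sε cε dε hz0 hoF hJ

/-- **(V4-c) over `US G`**, with the Euler form of the vertical field -/
theorem lh_N_RR {ι' : Type} [Fintype ι'] [DecidableEq ι'] [Nonempty ι'] (h : GT.Bla G k)
    (hkl : k = 2 * Fintype.card ι' + 2) (hkn : k < n) (H : NegB G (k - 1) (nuP K) δ PN)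
    (hne : (US G).Nonempty)
    {W' : (Euc N × Euc N) × Wt N K → (ι' × Fin 2 → (Fin K × Fin 2) × Fin N) → ℝ}
    (hR : OR (Sph (US G) PN) (GO.RR PN) W') :
    GQ.LH (US G) PN (2 * Fintype.card ι') (eR (GO.RR PN) W') := by
  have hk1 : k - 1 = 2 * Fintype.card ι' + 1 := by omega
  rw [hk1] at H
  obtain ⟨oP, hoP⟩ := SB.exists_opr_N h (by omega) hkn (by rw [hk1]; exact H)
  rw [hk1] at hoP
  exact lh_RR (CM.clo_US' h.bl).sub (FV.preconn_US h.bl (by omega)) hne (UP.pfield_N H)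
    (UP.syOn_N H) hoP hR

variable {g : Euc N × Euc N → Fin m → ℂ} {p : Type} [Fintype p] [DecidableEq p]
  {P' : MM m → EuclideanSpace ℝ p →L[ℝ] EuclideanSpace ℝ p} {o' : MM m → Ext (EuclideanSpace ℝ p)}

theorem clo_B (h : GT.Bla G k) (hper : HS.Per G) (hg : Emb (US G) (CM.gf G) g) :
    Clo (2 * (n - 1)) (Quo (US G) g) :=
  CM.Emb.clo_Quo hg (CM.cir_US h.bl hper) (CM.clo_US' h.bl)

theorem preconn_B (h : GT.Bla G k) (hn : 2 ≤ n) (hg : Emb (US G) (CM.gf G) g) :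
    IsPreconnected (Quo (US G) g) := by
  have h1 : Quo (US G) g = jj g '' US G := rfl
  rw [h1]
  exact (FV.preconn_US h.bl hn).image _ fun z hz => (hg.smap_jj.smooth z hz).continuousAt.continuousWithinAt

/-- **(V4-c) over `B`** -/
theorem lh_B (h : GT.Bla G k) (hl : 0 < l) (hn : 2 ≤ n) (hper : HS.Per G)
    (hg : Emb (US G) (CM.gf G) g) (hP : PField (Quo (US G) g) (2 * l + 1) P')
    (hs : SyOn (Quo (US G) g) P') (ho : OPr (Quo (US G) g) (2 * l + 1) P' o')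
    {ε : MM m × EuclideanSpace ℝ p → Ext (MM m × EuclideanSpace ℝ p)}
    (sε : Sm (Sph (Quo (US G) g) P') ε) (cε : Cl (Sph (Quo (US G) g) P') ε) (dε : Hom (2 * l) ε)
    {b0 : MM m} (hb0 : b0 ∈ Quo (US G) g)
    {oF : MM m × EuclideanSpace ℝ p → Ext (MM m × EuclideanSpace ℝ p)}
    (hoF : Ori (2 * l) (Sph (Quo (US G) g) P' ∩ Prod.fst ⁻¹' {b0}) oF)
    (hJ : J (2 * l) (Sph (Quo (US G) g) P' ∩ Prod.fst ⁻¹' {b0}) oF ε ≠ 0) :
    GQ.LH (Quo (US G) g) P' (2 * l) ε :=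
  lh_of_J hl (clo_B h hper hg).sub (preconn_B h hn hg) hP hs ho sε cε dε hb0 hoF hJ

/-- **(V4-c) over `B`**, with the Euler form of the vertical field -/
theorem lh_B_RR {ι' : Type} [Fintype ι'] [DecidableEq ι'] [Nonempty ι'] (h : GT.Bla G k)
    (hn : 2 ≤ n) (hper : HS.Per G) (hg : Emb (US G) (CM.gf G) g) (hne : (US G).Nonempty)
    (hP : PField (Quo (US G) g) (2 * Fintype.card ι' + 1) P')
    (hs : SyOn (Quo (US G) g) P') (ho : OPr (Quo (US G) g) (2 * Fintype.card ι' + 1) P' o')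
    {W' : MM m × EuclideanSpace ℝ p → (ι' × Fin 2 → p) → ℝ}
    (hR : OR (Sph (Quo (US G) g) P') (GO.RR P') W') :
    GQ.LH (Quo (US G) g) P' (2 * Fintype.card ι') (eR (GO.RR P') W') :=
  lh_RR (clo_B h hper hg).sub (preconn_B h hn hg) (hne.image _) hP hs ho hR

end Crest.Agent.R208.ZG
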