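import Crest.Agent.R208.RR0

/-! Row 208, block RR (helper900), part RP1: iterated fibre integrals over cubes, smoothness only
on the closed cube; the boundary formula of the 3-cube. -/

set_option autoImplicit false
set_option linter.unusedSectionVars false
set_option linter.unusedVariables false

open MeasureTheory Set Filter Topology Module
open scoped ContDiff
open Crest.Agent.R208.F Crest.Agent.R208.FI Crest.Agent.R208.CW Crest.Agent.R208.T
open Crest.Agent.R208.RR (K sl pull_sl_apply fderiv_sl contDiff_sl)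

noncomputable section

namespace Crest.Agent.R208.RP

variable {E E' F' : Type*} [NormedAddCommGroup E] [NormedSpace ℝ E] [FiniteDimensional ℝ E]
  [NormedAddCommGroup E'] [NormedSpace ℝ E'] [FiniteDimensional ℝ E']
  [NormedAddCommGroup F'] [NormedSpace ℝ F'] [FiniteDimensional ℝ F']
  {A B : Set E} {x : E} {w w' : E × ℝ → Ext (E × ℝ)}

/-- closed cylinder -/
def Cc (A : Set E) : Set (E × ℝ) := A ×ˢ Icc (0 : ℝ) 1

/-- open cylinder -/
def Co (A : Set E) : Set (E × ℝ) := A ×ˢ Ioo (0 : ℝ) 1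

theorem mem_Cc {q : E × ℝ} : q ∈ Cc A ↔ q.1 ∈ A ∧ q.2 ∈ Icc (0 : ℝ) 1 := Iff.rfl
theorem mem_Co {q : E × ℝ} : q ∈ Co A ↔ q.1 ∈ A ∧ q.2 ∈ Ioo (0 : ℝ) 1 := Iff.rfl

theorem Co_sub_Cc (h : B ⊆ A) : Co B ⊆ Cc A := fun q hq => ⟨h hq.1, Ioo_subset_Icc_self hq.2⟩

/-- the contraction -/
abbrev hL (E : Type*) [NormedAddCommGroup E] [NormedSpace ℝ E] [FiniteDimensional ℝ E] :
    Ext (E × ℝ) →L[ℝ] Ext E := hopL (ContinuousLinearMap.inl ℝ E ℝ) ((0, 1) : E × ℝ)

theorem K_apply (w : E × ℝ → Ext (E × ℝ)) (x : E) :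
    K w x = ∫ t in (0 : ℝ)..1, hL E (w (x, t)) := by
  rw [K, hop, I1]
  simp only [hopg, jv_inl]

theorem K_congr (h : ∀ t ∈ Icc (0 : ℝ) 1, w (x, t) = w' (x, t)) : K w x = K w' x := by
  rw [K_apply, K_apply]
  refine intervalIntegral.integral_congr fun t ht => ?_
  rw [uIcc_of_le zero_le_one] at ht
  rw [h t ht]

theorem K_sm (hw : Sm (Cc A) w) : Sm A (K w) := fun x hx => by
  refine contDiffAt_hop fun t ht => ?_
  rw [jv_inl]
  exact hw _ ⟨hx, ht⟩

theorem K_d (hw : Sm (Cc A) w) (hx : x ∈ A) :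
    F.d (K w) x + K (F.d w) x = F.pull (sl 1) w x - F.pull (sl 0) w x := by
  have h := d_hop (j := ContinuousLinearMap.inl ℝ E ℝ) (v := ((0, 1) : E × ℝ)) (Om := w) (x := x)
    (fun t ht => by
      rw [jv_inl]
      exact (hw _ ⟨hx, ht⟩).of_le (by exact_mod_cast le_top))
  rw [jv_inl, jv_inl] at h
  rw [pull_sl_apply, pull_sl_apply]
  exact h

theorem cont_g (hw : Sm (Cc A) w) (hx : x ∈ A) :
    ContinuousOn (fun t : ℝ => hL E (w (x, t))) (Icc 0 1) := fun t ht => by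
  have h1 : ContinuousAt w ((fun s : ℝ => ((x, s) : E × ℝ)) t) := (hw _ ⟨hx, ht⟩).continuousAt
  have h2 := h1.comp (f := fun s : ℝ => ((x, s) : E × ℝ)) (by fun_prop : Continuous
    (fun s : ℝ => ((x, s) : E × ℝ))).continuousAt
  exact ((hL E).continuous.continuousAt.comp h2).continuousWithinAt

theorem K_int (hw : Sm (Cc A) w) (hx : x ∈ A) :
    IntervalIntegrable (fun t => hL E (w (x, t))) volume 0 1 := by
  refine ContinuousOn.intervalIntegrable ?_
  rw [uIcc_of_le zero_le_one]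
  exact cont_g hw hx

theorem K_add (hw : Sm (Cc A) w) (hw' : Sm (Cc A) w') (hx : x ∈ A) :
    K (w + w') x = K w x + K w' x := by
  rw [K_apply, K_apply, K_apply, ← intervalIntegral.integral_add (K_int hw hx) (K_int hw' hx)]
  simp only [Pi.add_apply, map_add]

theorem K_sub (hw : Sm (Cc A) w) (hw' : Sm (Cc A) w') (hx : x ∈ A) :
    K (w - w') x = K w x - K w' x := by
  rw [K_apply, K_apply, K_apply, ← intervalIntegral.integral_sub (K_int hw hx) (K_int hw' hx)]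
  simp only [Pi.sub_apply, map_sub]

theorem K_neg (w : E × ℝ → Ext (E × ℝ)) (x : E) : K (-w) x = - K w x := by
  rw [K_apply, K_apply, ← intervalIntegral.integral_neg]
  simp only [Pi.neg_apply, map_neg]

/-- tangent vectors of the open cylinder -/
theorem inl_mem_Tan (hx : x ∈ B) {t : ℝ} (ht : t ∈ Ioo (0 : ℝ) 1) {v : E} (hv : v ∈ Tan B x) :
    ((v, 0) : E × ℝ) ∈ Tan (Co B) (x, t) := by
  have hd : HasFDerivAt (fun y : E => ((y, t) : E × ℝ)) (ContinuousLinearMap.inl ℝ E ℝ) x :=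
    (hasFDerivAt_id x).prodMk (hasFDerivAt_const t x)
  have := fderiv_mapsTo_Tan (Y := Co B) hd.differentiableAt (fun y hy => ⟨hy, ht⟩) hv
  rw [hd.fderiv] at this
  exact this

theorem inr_mem_Tan (hx : x ∈ B) {t : ℝ} (ht : t ∈ Ioo (0 : ℝ) 1) :
    ((0, 1) : E × ℝ) ∈ Tan (Co B) (x, t) := by
  have hd : HasDerivAt (fun s : ℝ => ((x, s) : E × ℝ)) ((0, 1) : E × ℝ) t :=
    (hasDerivAt_const t x).prodMk (hasDerivAt_id t)
  exact mem_Tan_of_curve (γ := fun s : ℝ => ((x, s) : E × ℝ)) hd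
    (by filter_upwards [isOpen_Ioo.mem_nhds ht] with s hs using ⟨hx, hs⟩)

theorem res_hL (hx : x ∈ B) {t : ℝ} (ht : t ∈ Ioo (0 : ℝ) 1) {c : Ext (E × ℝ)}
    (h : pb (Tan (Co B) (x, t)).subtype c = 0) : pb (Tan B x).subtype (hL E c) = 0 := by
  have hv := inr_mem_Tan hx ht
  let A : Tan B x →ₗ[ℝ] Tan (Co B) (x, t) :=
    LinearMap.codRestrict _ ((ContinuousLinearMap.inl ℝ E ℝ : E →ₗ[ℝ] E × ℝ) ∘ₗ (Tan B x).subtype)
      fun w => inl_mem_Tan hx ht w.2
  have hcomp : (ContinuousLinearMap.inl ℝ E ℝ : E →ₗ[ℝ] E × ℝ) ∘ₗ (Tan B x).subtype =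
      (Tan (Co B) (x, t)).subtype ∘ₗ A := by
    ext w <;> rfl
  have h6 : pb (Tan (Co B) (x, t)).subtype (ii ((0, 1) : E × ℝ) c) = 0 := by
    have h7 := ii_pb (Tan (Co B) (x, t)).subtype ⟨((0, 1) : E × ℝ), hv⟩ c
    rw [h, map_zero] at h7
    exact h7.symm
  rw [hopL_apply, pb_comp, hcomp, ← pb_comp]
  exact (congrArg (pb A) h6).trans (map_zero _)

theorem res_K (hw : Sm (Cc A) w) (hx : x ∈ A) :
    pb (Tan B x).subtype (K w x) = ∫ t in (0 : ℝ)..1, pb (Tan B x).subtype (hL E (w (x, t))) := by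
  let R : Ext E →L[ℝ] Ext (Tan B x) :=
    LinearMap.toContinuousLinearMap (pb (Tan B x).subtype).toLinearMap
  rw [K_apply]
  exact (R.intervalIntegral_comp_comm (K_int hw hx)).symm

theorem K_zero (hw : Sm (Cc A) w) (hBA : B ⊆ A) (h : ResZero (Co B) w) : ResZero B (K w) := by
  intro x hx
  rw [res_K hw (hBA hx), intervalIntegral.integral_of_le zero_le_one,
    integral_Ioc_eq_integral_Ioo]
  exact setIntegral_eq_zero_of_forall_eq_zero fun t ht => res_hL hx ht (h _ ⟨hx, ht⟩)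

theorem K_eqv (hw : Sm (Cc A) w) (hw' : Sm (Cc A) w') (hBA : B ⊆ A) (h : Eqv (Co B) w w') :
    Eqv B (K w) (K w') := by
  have h1 := K_zero (hw.sub hw') hBA h
  refine eqv_iff.2 fun x hx => ?_
  have h2 := h1 x hx
  rw [K_sub hw hw' (hBA hx), map_sub, sub_eq_zero] at h2
  exact h2

/-- naturality -/
theorem pull_K {f : E' → E} {x' : E'} (hf : DifferentiableAt ℝ f x') (hw : Sm (Cc A) w)
    (hx : f x' ∈ A) :
    F.pull f (K w) x' = K (F.pull (fun q : E' × ℝ => (f q.1, q.2)) w) x' := by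
  let R : Ext E →L[ℝ] Ext E' := pbL (fderiv ℝ f x')
  have h1 : F.pull f (K w) x' = R (K w (f x')) := rfl
  rw [h1, K_apply, K_apply, ← R.intervalIntegral_comp_comm (K_int hw hx)]
  refine intervalIntegral.integral_congr fun t _ => ?_
  have hd : HasFDerivAt (fun q : E' × ℝ => (f q.1, q.2))
      ((fderiv ℝ f x').prodMap (ContinuousLinearMap.id ℝ ℝ)) ((x', t) : E' × ℝ) := by
    have h2 : HasFDerivAt f (fderiv ℝ f x') ((x', t) : E' × ℝ).1 := hf.hasFDerivAt
    exact (h2.comp (x', t) hasFDerivAt_fst).prodMk hasFDerivAt_snd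
  show R (hL E (w (f x', t))) = hL E' (F.pull (fun q : E' × ℝ => (f q.1, q.2)) w (x', t))
  rw [F.pull, hd.fderiv]
  show pb _ (hL E (w (f x', t))) = _
  rw [hopL_apply, hopL_apply, ii_pb, pb_comp, pb_comp]
  have e1 : (((fderiv ℝ f x').prodMap (ContinuousLinearMap.id ℝ ℝ) : E' × ℝ →L[ℝ] E × ℝ) :
      E' × ℝ →ₗ[ℝ] E × ℝ) ((0, 1) : E' × ℝ) = ((0, 1) : E × ℝ) := by
    show ((fderiv ℝ f x') 0, (1 : ℝ)) = (0, 1)
    rw [map_zero]
  rw [e1]
  rfl

/-- forms pulled back from the base -/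
theorem K_fst (η : E → Ext E) (x : E) : K (F.pull Prod.fst η) x = 0 := by
  rw [K_apply]
  have : ∀ t : ℝ, hL E (F.pull (Prod.fst : E × ℝ → E) η (x, t)) = 0 := by
    intro t
    have hd : fderiv ℝ (Prod.fst : E × ℝ → E) (x, t) = ContinuousLinearMap.fst ℝ E ℝ :=
      hasFDerivAt_fst.fderiv
    rw [F.pull, hd, hopL_apply, ii_pb]
    have e1 : ((ContinuousLinearMap.fst ℝ E ℝ : E × ℝ →L[ℝ] E) : E × ℝ →ₗ[ℝ] E)
        ((0, 1) : E × ℝ) = 0 := rfl
    rw [e1, map_zero, LinearMap.zero_apply, map_zero, map_zero]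
  simp only [this]
  simp

/-- affine change of the variable -/
def aff (a b : ℝ) (q : E × ℝ) : E × ℝ := (q.1, a + (b - a) * q.2)

theorem K_aff (a b : ℝ) (w : E × ℝ → Ext (E × ℝ)) (x : E) :
    K (F.pull (aff a b) w) x = ∫ t in a..b, hL E (w (x, t)) := by
  rw [K_apply]
  have h1 : ∀ t : ℝ, hL E (F.pull (aff (E := E) a b) w (x, t))
      = (b - a) • hL E (w (x, a + (b - a) * t)) := by
    intro t
    have hd : HasFDerivAt (aff (E := E) a b) ((ContinuousLinearMap.id ℝ E).prodMap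
        ((b - a) • ContinuousLinearMap.id ℝ ℝ)) ((x, t) : E × ℝ) := by
      have h2 : HasFDerivAt (fun q : E × ℝ => a + (b - a) * q.2)
          ((b - a) • ContinuousLinearMap.snd ℝ E ℝ) ((x, t) : E × ℝ) :=
        (hasFDerivAt_snd.const_mul (b - a)).const_add a
      have h3 := (hasFDerivAt_fst (𝕜 := ℝ) (p := ((x, t) : E × ℝ))).prodMk h2
      refine h3.congr_fderiv ?_
      ext v <;> simp
    rw [F.pull, hd.fderiv, hopL_apply, hopL_apply, ii_pb]
    have e1 : (((ContinuousLinearMap.id ℝ E).prodMap ((b - a) • ContinuousLinearMap.id ℝ ℝ) :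
        E × ℝ →L[ℝ] E × ℝ) : E × ℝ →ₗ[ℝ] E × ℝ) ((0, 1) : E × ℝ)
        = (b - a) • ((0, 1) : E × ℝ) := by
      ext <;> simp
    rw [e1, map_smul, LinearMap.smul_apply, map_smul, map_smul, pb_comp]
    congr 2
    congr 1
    ext v <;> simp
  simp only [h1]
  rw [intervalIntegral.integral_smul]
  have h4 := intervalIntegral.smul_integral_comp_add_mul (a := (0 : ℝ)) (b := 1)
    (fun t => hL E (w (x, t))) (b - a) a
  rw [h4]
  congr 1 <;> ring

end Crest.Agent.R208.RP
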