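import Crest.Agent.R208.FM1
import Crest.Agent.R208.RRc365
import Crest.Agent.R208.HN2
import Crest.Agent.R208.CG1
import Crest.Agent.R208.ZH2
import Crest.Agent.R208.RP1

/-! Row 208, block RR, (C) (helper316).  CC1: the rotation family sweeps out the unit sphere of
`V_pq` once in half a turn. -/

set_option autoImplicit false
set_option linter.unusedSectionVars false

open MeasureTheory MeasureTheory.Measure Set Filter Topology Module
open scoped ContDiff RealInnerProductSpace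
open Crest.GeometryTopology.Submanifold
open Crest.Agent.R241.DDefs
open Crest.Agent.R241.D2
open Crest.Agent.R208.F Crest.Agent.R208.FI Crest.Agent.R208.CW Crest.Agent.R208.T
open Crest.Agent.R208.NN
open Crest.Agent.R208.NB
open Crest.Agent.R208.RK
open Crest.Agent.R208.RR
open Crest.Agent.R208.L (US)
open Crest.Agent.R208.SB (OPr OddB oV)
open Crest.Agent.R208.RRC (Swp)

noncomputable section

namespace Crest.Agent.R208.CC

variable {n N k K m : ℕ} {κ δ : ℝ} {S : Set (Euc N)} {G : Geo n N κ S} {z : Euc N × Euc N}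
  {PN : Euc N × Euc N → Wt N K →L[ℝ] Wt N K} {p : (Euc N × Euc N) × Wt N K}

/-! ### null sets -/

theorem muHE_finite {X : Type*} [EMetricSpace X] [MeasurableSpace X] [BorelSpace X]
    {s : Set X} (hs : s.Finite) : μHE[1 + m] s = 0 := by
  have : NullSingletonClass (μH[((1 + m : ℕ) : ℝ)] : Measure X) :=
    nullSingletonClass_hausdorff X (by exact_mod_cast (by omega : 0 < 1 + m))
  rw [euclideanHausdorffMeasure_def, Measure.smul_apply, hs.measure_zero, smul_zero]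

/-! ### the sweep -/

/-- half a turn of the rotation -/
def EF (h : GT.Bla G k) (PN : Euc N × Euc N → Wt N K →L[ℝ] Wt N K)
    (y : ((Euc N × Euc N) × Wt N K) × ℝ) : Euc N × Euc N :=
  FM.rz h PN (Real.pi * y.2) y.1

theorem phi_eq (hz : z ∈ US G) : FV.phi G z = ph G z := by
  refine Prod.ext rfl ?_
  exact (phi_pi hz).symm

section main
variable (h : GT.Bla G k) (H : NegB G (k - 1) (nuP K) δ PN)

include H in
theorem contDiffAt_EF (hkn : k < n) (hp : p ∈ T.Sph (US G) PN) (t : ℝ) :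
    ContDiffAt ℝ ∞ (EF h PN) (p, t) := by
  have h1 : ContDiffAt ℝ ∞ (fun y : ((Euc N × Euc N) × Wt N K) × ℝ => (Real.pi * y.2, y.1))
      (p, t) := by fun_prop
  exact ContDiffAt.comp (p, t)
    (g := fun q : ℝ × ((Euc N × Euc N) × Wt N K) => FM.rz h PN q.1 q.2)
    (FM.contDiffAt_rz h H hkn hp (Real.pi * t)) h1

include H in
theorem EF_mem (hkn : k < n) (hp : p ∈ T.Sph (US G) PN) (t : ℝ) :
    EF h PN (p, t) ∈ US G ∩ ph G ⁻¹' {ph G p.1} := by
  obtain ⟨h1, h2⟩ := FM.rz_mem h H hkn hp (Real.pi * t)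
  exact ⟨h1, Prod.ext rfl h2⟩

/-- the left inverse -/
def Lm (h : GT.Bla G k) (PN : Euc N × Euc N → Wt N K →L[ℝ] Wt N K) (z : Euc N × Euc N)
    (u : Euc N × Euc N) : ((Euc N × Euc N) × Wt N K) × ℝ :=
  ((z, (‖FM.iO h PN z (u.2 - ⟪z.2, u.2⟫ • z.2)‖⁻¹ : ℝ) •
    FM.iO h PN z (u.2 - ⟪z.2, u.2⟫ • z.2)), Real.arccos ⟪z.2, u.2⟫ / Real.pi)

/-- components -/
theorem EF_comp (hkn : k < n) (hp : p ∈ T.Sph (US G) PN) (t : ℝ) :
    ⟪p.1.2, (EF h PN (p, t)).2⟫ = Real.cos (Real.pi * t) ∧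
      (EF h PN (p, t)).2 - ⟪p.1.2, (EF h PN (p, t)).2⟫ • p.1.2 =
        Real.sin (Real.pi * t) • dir h PN p := by
  have h1 : ⟪p.1.2, dir h PN p⟫ = 0 := inner_dir_v h hkn hp.1.1 hp.1.2
  have h2 : ‖p.1.2‖ = 1 := hp.1.1.2
  have h3 : (EF h PN (p, t)).2 =
    Real.cos (Real.pi * t) • p.1.2 + Real.sin (Real.pi * t) • dir h PN p := rfl
  have h4 : ⟪p.1.2, (EF h PN (p, t)).2⟫ = Real.cos (Real.pi * t) := by
    rw [h3, inner_add_right, real_inner_smul_right, real_inner_smul_right, h1,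
      real_inner_self_eq_norm_sq, h2]
    ring
  refine ⟨h4, ?_⟩
  rw [h4, h3]
  abel

include H in
theorem iO_dir (hkn : k < n) (hp : p ∈ T.Sph (US G) PN) :
    FM.iO h PN p.1 (dir h PN p) = (‖wL h (nuP K) PN p.1 p.2‖⁻¹ : ℝ) • p.2 := by
  have h1 := (FM.isoR h H hkn hp.1.1).inv_apply hp.1.2
  change FM.iO h PN p.1 ((‖wL h (nuP K) PN p.1 p.2‖⁻¹ : ℝ) • wL h (nuP K) PN p.1 p.2) = _
  rw [map_smul]
  congr 1

include H in
theorem Lm_EF (hkn : k < n) (hp : p ∈ T.Sph (US G) PN) {t : ℝ} (ht : t ∈ Ioo (0 : ℝ) 1) :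
    Lm h PN p.1 (EF h PN (p, t)) = (p, t) := by
  have hπ := Real.pi_pos
  obtain ⟨h1, h2⟩ := EF_comp h hkn hp t
  have hs : 0 < Real.sin (Real.pi * t) :=
    Real.sin_pos_of_pos_of_lt_pi (mul_pos hπ ht.1) (by nlinarith [ht.2])
  have hw : 0 < ‖wL h (nuP K) PN p.1 p.2‖⁻¹ :=
    inv_pos.2 (norm_pos_iff.2 (wL_ne h H hkn hp.1.1 hp.1.2 (FM.ne_zero_of hp)))
  refine Prod.ext (Prod.ext rfl ?_) ?_
  · change (‖FM.iO h PN p.1 ((EF h PN (p, t)).2 - ⟪p.1.2, (EF h PN (p, t)).2⟫ • p.1.2)‖⁻¹ : ℝ) •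
      FM.iO h PN p.1 ((EF h PN (p, t)).2 - ⟪p.1.2, (EF h PN (p, t)).2⟫ • p.1.2) = p.2
    have e : FM.iO h PN p.1 ((EF h PN (p, t)).2 - ⟪p.1.2, (EF h PN (p, t)).2⟫ • p.1.2) =
        (Real.sin (Real.pi * t) * ‖wL h (nuP K) PN p.1 p.2‖⁻¹) • p.2 := by
      rw [h2, map_smul, iO_dir h H hkn hp, smul_smul]
    rw [e, norm_smul, hp.2, mul_one,
      Real.norm_of_nonneg (mul_pos hs hw).le, smul_smul, inv_mul_cancel₀ (mul_pos hs hw).ne',
      one_smul]
  · change Real.arccos ⟪p.1.2, (EF h PN (p, t)).2⟫ / Real.pi = t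
    rw [h1, Real.arccos_cos (mul_pos hπ ht.1).le (by nlinarith [ht.2]), mul_div_cancel_left₀ _ hπ.ne']

include H in
theorem contDiffAt_Lm (hkn : k < n) (hp : p ∈ T.Sph (US G) PN) {t : ℝ} (ht : t ∈ Ioo (0 : ℝ) 1) :
    ContDiffAt ℝ ∞ (Lm h PN p.1) (EF h PN (p, t)) := by
  have hπ := Real.pi_pos
  obtain ⟨h1, h2⟩ := EF_comp h hkn hp t
  have hs : 0 < Real.sin (Real.pi * t) :=
    Real.sin_pos_of_pos_of_lt_pi (mul_pos hπ ht.1) (by nlinarith [ht.2])
  have hw : 0 < ‖wL h (nuP K) PN p.1 p.2‖⁻¹ :=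
    inv_pos.2 (norm_pos_iff.2 (wL_ne h H hkn hp.1.1 hp.1.2 (FM.ne_zero_of hp)))
  have c1 : ContDiffAt ℝ ∞ (fun u : Euc N × Euc N => ⟪p.1.2, u.2⟫) (EF h PN (p, t)) :=
    contDiffAt_const.inner ℝ contDiffAt_snd
  have c2 : ContDiffAt ℝ ∞ (fun u : Euc N × Euc N => FM.iO h PN p.1 (u.2 - ⟪p.1.2, u.2⟫ • p.1.2))
      (EF h PN (p, t)) :=
    (FM.iO h PN p.1).contDiff.contDiffAt.comp _ (contDiffAt_snd.sub (c1.smul contDiffAt_const))
  have n2 : FM.iO h PN p.1 ((EF h PN (p, t)).2 - ⟪p.1.2, (EF h PN (p, t)).2⟫ • p.1.2) ≠ 0 := by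
    rw [h2, map_smul, iO_dir h H hkn hp, smul_smul]
    exact smul_ne_zero (mul_pos hs hw).ne' (FM.ne_zero_of hp)
  have c3 : ContDiffAt ℝ ∞ (fun u : Euc N × Euc N =>
      (‖FM.iO h PN p.1 (u.2 - ⟪p.1.2, u.2⟫ • p.1.2)‖⁻¹ : ℝ)) (EF h PN (p, t)) :=
    (c2.norm ℝ n2).inv (norm_ne_zero_iff.2 n2)
  have c4 : ContDiffAt ℝ ∞ (fun u : Euc N × Euc N => Real.arccos ⟪p.1.2, u.2⟫) (EF h PN (p, t)) := by
    refine ContDiffAt.comp (g := Real.arccos) (f := fun u : Euc N × Euc N => ⟪p.1.2, u.2⟫) _ ?_ c1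
    refine Real.contDiffAt_arccos ?_ ?_
    · rw [h1]
      intro h3
      have := Real.sin_sq_add_cos_sq (Real.pi * t)
      rw [h3] at this
      nlinarith
    · rw [h1]
      intro h3
      have := Real.sin_sq_add_cos_sq (Real.pi * t)
      rw [h3] at this
      nlinarith
  exact (contDiffAt_const.prodMk (c3.smul c2)).prodMk (c4.div_const _)

include H in
/-- the unit direction is surjective -/
theorem exists_dir (hkn : k < n) (hz : z ∈ US G) {w : Euc N} (hw : w ∈ V0 G z) (hw1 : ‖w‖ = 1) :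
    ∃ p ∈ T.Sph (US G) PN, p.1 = z ∧ dir h PN p = w := by
  have hi := FM.isoR h H hkn hz
  have h1 : wL h (nuP K) PN z (FM.iO h PN z w) = w := by
    have := hi.l_inv w
    rw [(V0s_eq_self h hz _).2 hw] at this
    exact this
  have h2 : PN z (FM.iO h PN z w) = FM.iO h PN z w := hi.p_inv _
  have h3 : FM.iO h PN z w ≠ 0 := by
    intro h0
    rw [h0, map_zero] at h1
    rw [← h1, norm_zero] at hw1
    exact zero_ne_one hw1
  refine ⟨(z, (‖FM.iO h PN z w‖⁻¹ : ℝ) • FM.iO h PN z w), ⟨⟨hz, ?_⟩, ?_⟩, rfl, ?_⟩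
  · change PN z ((‖FM.iO h PN z w‖⁻¹ : ℝ) • FM.iO h PN z w) = _
    rw [map_smul, h2]
  · change ‖(‖FM.iO h PN z w‖⁻¹ : ℝ) • FM.iO h PN z w‖ = 1
    rw [norm_smul, norm_inv, norm_norm, inv_mul_cancel₀ (norm_ne_zero_iff.2 h3)]
  · rw [dir_smul h (inv_pos.2 (norm_pos_iff.2 h3))]
    change (‖wL h (nuP K) PN z (FM.iO h PN z w)‖⁻¹ : ℝ) • wL h (nuP K) PN z (FM.iO h PN z w) = w
    rw [h1, hw1, inv_one, one_smul]

include H in
/-- surjectivity -/
theorem exists_EF (hkn : k < n) (hz : z ∈ US G) {u : Euc N × Euc N}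
    (hu : u ∈ US G ∩ ph G ⁻¹' {ph G z}) (h1 : u.2 ≠ z.2) (h2 : u.2 ≠ -z.2) :
    ∃ p ∈ T.Sph (US G) PN, p.1 = z ∧ ∃ t ∈ Ioo (0 : ℝ) 1, EF h PN (p, t) = u := by
  have hπ := Real.pi_pos
  have hp := hu.2
  have e0 : ph G u = ph G z := hp
  have e1' := congrArg Prod.fst e0
  have e2' := congrArg Prod.snd e0
  have e1 : u.1 = z.1 := e1'
  have e2 : qq G u = qq G z := e2'
  have hV : u.2 ∈ GT.Vs G z.1 (qq G z) := by
    have h3 : u.2 ∈ GT.Vs G u.1 (qq G u) := mem_Vs hu.1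
    rwa [e1, e2] at h3
  have hVz : z.2 ∈ GT.Vs G z.1 (qq G z) := mem_Vs hz
  have n1 : ‖u.2‖ = 1 := hu.1.2
  have n2 : ‖z.2‖ = 1 := hz.2
  set c := ⟪z.2, u.2⟫ with hc
  have k1 : ‖u.2 - c • z.2‖ ^ 2 = 1 - c ^ 2 := by
    rw [norm_sub_sq_real, norm_smul, n1, n2, real_inner_smul_right, real_inner_comm, ← hc,
      Real.norm_eq_abs, mul_one, sq_abs]
    ring
  have k2 : c < 1 := by
    exact (inner_lt_one_iff_real_of_norm_eq_one n2 n1).2 fun h0 => h1 h0.symm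
  have k3 : -1 < c := by
    have h3 : ‖-u.2‖ = 1 := by rw [norm_neg]; exact n1
    have := (inner_lt_one_iff_real_of_norm_eq_one n2 h3).2 fun h0 => h2 (by rw [h0, neg_neg])
    rw [inner_neg_right, ← hc] at this
    linarith
  have k4 : 0 < 1 - c ^ 2 := by nlinarith
  have hn0 : 0 < ‖u.2 - c • z.2‖ := by
    refine (norm_nonneg _).lt_of_ne fun h0 => ?_
    rw [← h0] at k1
    nlinarith
  have hs : Real.sin (Real.arccos c) = ‖u.2 - c • z.2‖ := by
    rw [Real.sin_arccos, ← k1, Real.sqrt_sq hn0.le]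
  have hcs : Real.cos (Real.arccos c) = c := Real.cos_arccos k3.le k2.le
  have hw : (‖u.2 - c • z.2‖⁻¹ : ℝ) • (u.2 - c • z.2) ∈ V0 G z := by
    rw [mem_V0]
    refine ⟨Submodule.smul_mem _ _ (Submodule.sub_mem _ hV (Submodule.smul_mem _ _ hVz)), ?_⟩
    rw [real_inner_smul_left, inner_sub_left, real_inner_smul_left, real_inner_self_eq_norm_sq, n2,
      real_inner_comm, ← hc]
    ring
  have hw1 : ‖(‖u.2 - c • z.2‖⁻¹ : ℝ) • (u.2 - c • z.2)‖ = 1 := by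
    rw [norm_smul, norm_inv, norm_norm, inv_mul_cancel₀ hn0.ne']
  obtain ⟨p, hp, hpz, hd⟩ := exists_dir h H hkn hz hw hw1
  refine ⟨p, hp, hpz, Real.arccos c / Real.pi, ⟨?_, ?_⟩, ?_⟩
  · exact div_pos (Real.arccos_pos.2 k2) hπ
  · rw [div_lt_one hπ]
    refine lt_of_le_of_ne (Real.arccos_le_pi c) fun h0 => ?_
    rw [h0, Real.cos_pi] at hcs
    linarith
  · refine Prod.ext ?_ ?_
    · change p.1.1 = u.1
      rw [hpz, e1]
    · change Real.cos (Real.pi * (Real.arccos c / Real.pi)) • p.1.2 +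
        Real.sin (Real.pi * (Real.arccos c / Real.pi)) • dir h PN p = u.2
      rw [mul_div_cancel₀ _ hπ.ne', hcs, hs, hd, hpz, smul_smul, mul_inv_cancel₀ hn0.ne', one_smul]
      abel

/-- the fibres of `US → F` are closed manifolds -/
theorem clo_fib_ph (h : GT.Bla G k) (hkn : k < n) (hkm : k = m + 2) (hz : z ∈ US G) :
    Clo (1 + m) (US G ∩ ph G ⁻¹' {ph G z}) := by
  have h1 : US G ∩ ph G ⁻¹' {ph G z} = US G ∩ FV.phi G ⁻¹' {FV.phi G z} := by
    ext y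
    constructor
    · rintro ⟨hy, hy'⟩
      refine ⟨hy, ?_⟩
      change FV.phi G y = FV.phi G z
      rw [phi_eq hy, phi_eq hz]; exact hy'
    · rintro ⟨hy, hy'⟩
      refine ⟨hy, ?_⟩
      change ph G y = ph G z
      rw [← phi_eq hy, ← phi_eq hz]; exact hy'
  rw [h1]
  obtain rfl : k = 1 + m + 1 := by omega
  have hP := FV.pfield_PVB h
  have h2 := SB.subm_Sph (FV.clo_FF' h (d := 2 * n - (1 + m + 1)) (by omega)) hP
  have h3 := (SB.dif_US h).subm (SB.clo_US h (d := 1 + m + (2 * n - (1 + m + 1))) (by omega)) h2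
  exact h3.clo_fibre _

include H in
/-- **the sweep** -/
theorem swp (hkn : k < n) (hkm : k = m + 2) (hz : z ∈ US G) :
    Swp m (Sph (US G) PN ∩ (Prod.fst : (Euc N × Euc N) × Wt N K → Euc N × Euc N) ⁻¹' {z})
      (US G ∩ ph G ⁻¹' {ph G z}) (EF h PN) where
  cloZ := by
    have hP := UP.pfield_N H
    rw [show k - 1 = m + 1 by omega] at hP
    exact HN.clo_fib hP hz
  cloX := clo_fib_ph h hkn hkm hz
  sm := fun p hp t => contDiffAt_EF h H hkn hp.1 t
  mem := fun p hp t => by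
    have h1 := EF_mem h H hkn hp.1 t
    have h2 : p.1 = z := hp.2
    rwa [h2] at h1
  inj := fun p hp p' hp' t ht t' ht' he => by
    have h1 := Lm_EF h H hkn hp.1 ht
    have h2 := Lm_EF h H hkn hp'.1 ht'
    have e1 : p.1 = z := hp.2
    have e2 : p'.1 = z := hp'.2
    rw [e1] at h1
    rw [e2] at h2
    rw [he, h2] at h1
    exact ⟨(congrArg Prod.fst h1).symm, (congrArg Prod.snd h1).symm⟩
  dinj := fun p hp t ht w hw s h0 => by
    have e1 : p.1 = z := hp.2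
    have d1 : DifferentiableAt ℝ (EF h PN) (p, t) :=
      (contDiffAt_EF h H hkn hp.1 t).differentiableAt (by simp)
    have d2 : DifferentiableAt ℝ (Lm h PN z) (EF h PN (p, t)) := by
      have := (contDiffAt_Lm h H hkn hp.1 ht).differentiableAt (by simp)
      rwa [e1] at this
    have h1 : ((w, s) : ((Euc N × Euc N) × Wt N K) × ℝ) ∈ Tan (RP.Co (Sph (US G) PN ∩
        (Prod.fst : (Euc N × Euc N) × Wt N K → Euc N × Euc N) ⁻¹' {z})) (p, t) := by
      have h2 := RP.inl_mem_Tan hp ht hw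
      have h3 := Submodule.smul_mem _ s (RP.inr_mem_Tan hp ht)
      have h4 := Submodule.add_mem _ h2 h3
      have h5 : ((w, 0) : ((Euc N × Euc N) × Wt N K) × ℝ) + s • (0, 1) = (w, s) := by
        simp
      rwa [h5] at h4
    have h2 := GP.fderiv_eq_of_id (f := Lm h PN z ∘ EF h PN) (d2.comp (p, t) d1)
      (Eventually.of_forall fun y hy => by
        have h3 : y.1 ∈ Sph (US G) PN ∩
          (Prod.fst : (Euc N × Euc N) × Wt N K → Euc N × Euc N) ⁻¹' {z} := hy.1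
        have h4 := Lm_EF h H hkn h3.1 hy.2
        have h5 : y.1.1 = z := h3.2
        rw [h5] at h4
        exact h4) h1
    rw [fderiv_comp (p, t) d2 d1, ContinuousLinearMap.comp_apply, h0, map_zero] at h2
    exact ⟨(congrArg Prod.fst h2).symm, (congrArg Prod.snd h2).symm⟩
  null := by
    refine measure_mono_null ?_ (muHE_finite (m := m)
      (s := TE (Euc N × Euc N) '' {z, (z.1, -z.2)}) (by
        exact (Set.toFinite _)))
    refine image_mono ?_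
    rintro u ⟨hu, hu'⟩
    by_contra hcon
    rw [mem_insert_iff, mem_singleton_iff, not_or] at hcon
    have e0 : ph G u = ph G z := hu.2
    have e1' := congrArg Prod.fst e0
    have e1 : u.1 = z.1 := e1'
    obtain ⟨p, hp, hpz, t, ht, h1⟩ := exists_EF h H hkn hz hu
      (fun h0 => hcon.1 (Prod.ext e1 h0)) (fun h0 => hcon.2 (Prod.ext e1 h0))
    exact hu' ⟨(p, t), ⟨⟨hp, hpz⟩, ht⟩, h1⟩

end main

end Crest.Agent.R208.CC
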