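import Crest.Agent.R208.FL5
import Crest.Agent.R208.T2

/-!
R208, block FL (helper613), part FL6: loops of energy `< π` are short: any two points have distance
`< π`; the contraction `A` of the geodesics along the negative directions (for the RR block).
-/

set_option autoImplicit false

open Set Filter Topology MeasureTheory
open scoped ContDiff RealInnerProductSpace Real
open Crest.GeometryTopology.Submanifold
open Crest.Agent.R241.DDefs Crest.Agent.R241.D Crest.Agent.R241.D2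

noncomputable section

namespace Crest.Agent.R208.FL

open Crest.Agent.R208.SV Crest.Agent.R208.MS Crest.Agent.R208.NN

variable {n N K k : ℕ} {κ : ℝ} {S : Set (Euc N)} {G : Geo n N κ S} {lg : Euc N → Euc N → Euc N}
  {ρ : Euc N → Euc N} {r C r' Kr B w δ : ℝ} {PN : Euc N × Euc N → Wt N K →L[ℝ] Wt N K}

/-- the length of a loop of energy `< π` is `< 2π` -/
theorem len_lt {c : ℝ → Euc N} (hc : Loop S c) (hE : En c < π) (s : ℝ) :
    ∫ t in s..(s + 2 * π), ‖deriv c t‖ < 2 * π := by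
  have hpi := Real.pi_pos
  have hcd := hc.continuous_deriv
  have h1 : ∫ t in s..(s + 2 * π), ‖deriv c t‖ ^ 2 = 2 * En c := by
    have h2 : Function.Periodic (fun t => ‖deriv c t‖ ^ 2) (2 * π) := fun t => by
      simp only [hc.deriv_per]
    rw [h2.intervalIntegral_add_eq s 0, zero_add, int_eq_En]
  -- `2 ‖c'‖ ≤ 1 + ‖c'‖²`
  have h2 : ∫ t in s..(s + 2 * π), ‖deriv c t‖ ≤
      ∫ t in s..(s + 2 * π), ((1 / 2) * ‖deriv c t‖ ^ 2 + 1 / 2) := by
    refine intervalIntegral.integral_mono_on (by linarith)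
      (Continuous.intervalIntegrable (by fun_prop) _ _)
      (Continuous.intervalIntegrable (by fun_prop) _ _) fun t _ => ?_
    nlinarith [sq_nonneg (‖deriv c t‖ - 1)]
  rw [intervalIntegral.integral_add (Continuous.intervalIntegrable (by fun_prop) _ _)
    intervalIntegrable_const, intervalIntegral.integral_const_mul, h1,
    intervalIntegral.integral_const, smul_eq_mul, add_sub_cancel_left] at h2
  linarith

/-- **any two points of a loop of energy `< π` have distance `< π`** -/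
theorem dist_lt (hS : IsSubmanifold n N S) (hcpt : IsCompact S) {c : ℝ → Euc N} (hc : Loop S c)
    (hE : En c < π) (s t : ℝ) : intrinsicDist S (c s) (c t) < π := by
  have hpi := Real.pi_pos
  -- reduce to `s ≤ t ≤ s + 2π`
  have key : ∀ s t : ℝ, s ≤ t → t ≤ s + 2 * π → intrinsicDist S (c s) (c t) < π := by
    intro s t h1 h2
    have hl := len_lt hc hE s
    have hcd := hc.continuous_deriv
    have hi : ∀ a b : ℝ, IntervalIntegrable (fun t => ‖deriv c t‖) volume a b := fun a b =>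
      Continuous.intervalIntegrable (by fun_prop) _ _
    rw [← intervalIntegral.integral_add_adjacent_intervals (hi s t) (hi t (s + 2 * π))] at hl
    have hd : ∀ a b : ℝ, a ≤ b → intrinsicDist S (c a) (c b) ≤ ∫ t in a..b, ‖deriv c t‖ := by
      intro a b hab
      exact (intrinsicDist_le_integral hS hcpt hab (fun t _ => hc.mem t)
        (fun t _ => (hc.hasDerivAt t).hasDerivWithinAt) hcd.continuousOn).2
    have h3 := hd s t h1
    have h4 := hd t (s + 2 * π) h2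
    rw [hc.per, intrinsicDist_comm] at h4
    linarith
  obtain ⟨m, hm⟩ : ∃ m : ℤ, s ≤ t + m * (2 * π) ∧ t + m * (2 * π) ≤ s + 2 * π := by
    refine ⟨⌈(s - t) / (2 * π)⌉, ?_, ?_⟩
    · have h1 := Int.le_ceil ((s - t) / (2 * π))
      rw [div_le_iff₀ (by positivity)] at h1
      linarith
    · have h1 := Int.ceil_lt_add_one ((s - t) / (2 * π))
      rw [← sub_lt_iff_lt_add, lt_div_iff₀ (by positivity)] at h1
      linarith
  have h5 : c (t + m * (2 * π)) = c t := by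
    have hp : Function.Periodic c (2 * π) := hc.per
    exact hp.int_mul m t
  rw [← h5]
  exact key _ _ hm.1 hm.2

/-! ### the contraction of the geodesics along the negative directions -/

/-- `0` for `s ≤ 0`, positive for `s > 0`, `2` for `s ≥ 3/4` -/
def gs (s : ℝ) : ℝ := 2 * Real.smoothTransition (4 / 3 * s)

theorem contDiff_gs : ContDiff ℝ ∞ gs := by
  unfold gs
  exact contDiff_const.mul (Real.smoothTransition.contDiff.comp (by fun_prop))

theorem gs_zero {s : ℝ} (h : s ≤ 0) : gs s = 0 := by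
  rw [gs, Real.smoothTransition.zero_of_nonpos (by linarith), mul_zero]

theorem gs_pos {s : ℝ} (h : 0 < s) : 0 < gs s := by
  have := Real.smoothTransition.pos_of_pos (x := 4 / 3 * s) (by linarith)
  unfold gs
  linarith

theorem gs_nonneg (s : ℝ) : 0 ≤ gs s := by
  have := Real.smoothTransition.nonneg (4 / 3 * s)
  unfold gs
  linarith

theorem gs_two {s : ℝ} (h : 3 / 4 ≤ s) : gs s = 2 := by
  rw [gs, Real.smoothTransition.one_of_one_le (by linarith), mul_one]

/-- the scaled point -/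
def sc (s : ℝ) (q : (Euc N × Euc N) × Wt N K) : (Euc N × Euc N) × Wt N K := (q.1, gs s • q.2)

theorem sc_mem {s : ℝ} {q : (Euc N × Euc N) × Wt N K} (hq : q ∈ FI.Tot (L.US G) PN) :
    sc s q ∈ FI.Tot (L.US G) PN := by
  refine ⟨hq.1, ?_⟩
  change PN q.1 (gs s • q.2) = gs s • q.2
  rw [map_smul, hq.2]

theorem Ph_sc (s t : ℝ) (q : (Euc N × Euc N) × Wt N K) :
    Ph G K t (sc s q) = sc s (Ph G K t q) := by
  refine Prod.ext rfl ?_
  change Rt (nuP K) t (gs s • q.2) = gs s • Rt (nuP K) t q.2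
  rw [map_smul]

/-- `A (q, s) = f1 (q.1, g(s) q.2)` -/
def Af (G : Geo n N κ S) (lg : Euc N → Euc N → Euc N) (ρ : Euc N → Euc N) (w : ℝ) (J : ℕ) (ε : ℝ)
    (p : ((Euc N × Euc N) × Wt N K) × ℝ) : Euc N := f1 G lg ρ w J ε (sc p.2 p.1)

section

variable {ε E₀ η : ℝ} {J : ℕ}

theorem D1.contDiffAt_Af (h : D1 G k K lg ρ r C r' Kr B w δ PN ε J E₀ η)
    {q : (Euc N × Euc N) × Wt N K} (hq : q ∈ FI.Tot (L.US G) PN) (s : ℝ) :
    ContDiffAt ℝ ∞ (Af G lg ρ w J ε) (q, s) := by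
  have h1 : ContDiff ℝ ∞ (fun p : ((Euc N × Euc N) × Wt N K) × ℝ => sc p.2 p.1) := by
    have h2 : ContDiff ℝ ∞ (fun p : ((Euc N × Euc N) × Wt N K) × ℝ => p.1.1) := by fun_prop
    have h3 : ContDiff ℝ ∞ (fun p : ((Euc N × Euc N) × Wt N K) × ℝ => p.1.2) := by fun_prop
    exact h2.prodMk ((contDiff_gs.comp contDiff_snd).smul h3)
  exact ContDiffAt.comp (q, s) (g := f1 G lg ρ w J ε)
    (f := fun p : ((Euc N × Euc N) × Wt N K) × ℝ => sc p.2 p.1)
    (h.fam.smooth _ (sc_mem hq)) h1.contDiffAt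

theorem D1.Af_mem (h : D1 G k K lg ρ r C r' Kr B w δ PN ε J E₀ η)
    {q : (Euc N × Euc N) × Wt N K} (hq : q ∈ FI.Tot (L.US G) PN) (s : ℝ) :
    Af G lg ρ w J ε (q, s) ∈ S := h.fam.maps _ (sc_mem hq)

theorem D1.Af_zero (h : D1 G k K lg ρ r C r' Kr B w δ PN ε J E₀ η)
    {q : (Euc N × Euc N) × Wt N K} (hq : q ∈ FI.Tot (L.US G) PN) {s : ℝ} (hs : s ≤ 0) :
    Af G lg ρ w J ε (q, s) = q.1.1 := by
  unfold Af sc
  rw [gs_zero hs, zero_smul]
  exact h.f1_zero hq.1

theorem D1.Af_near (h : D1 G k K lg ρ r C r' Kr B w δ PN ε J E₀ η)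
    {q : (Euc N × Euc N) × Wt N K} (hq : q ∈ FI.Tot (L.US G) PN) (hq1 : ‖q.2‖ = 1) {s : ℝ}
    (hs : gs s ≤ 1) (t : ℝ) : Af G lg ρ w J ε (Ph G K t q, s) =
      ρ ((fl G (q.1, t)).1 + (ε * gs s) • NN.fd G q.1 (nuP K) q.2 t) := by
  have h0 := gs_nonneg s
  have h1 : ‖(sc s q).2‖ ^ 2 ≤ 1 := by
    change ‖gs s • q.2‖ ^ 2 ≤ 1
    rw [norm_smul, hq1, mul_one, Real.norm_of_nonneg h0]
    exact pow_le_one₀ h0 hs
  have h2 := congrFun (h.oc_f1_near (sc_mem (s := s) hq) h1) t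
  change f1 G lg ρ w J ε (sc s (Ph G K t q)) = _
  rw [← Ph_sc]
  refine h2.trans ?_
  congr 2
  change ε • G.P (fl G (q.1, t)).1 (ev (nuP K) t (gs s • q.2)) =
    (ε * gs s) • G.P (fl G (q.1, t)).1 (ev (nuP K) t q.2)
  rw [map_smul, map_smul, smul_smul]

theorem D1.Af_end (h : D1 G k K lg ρ r C r' Kr B w δ PN ε J E₀ η)
    {q : (Euc N × Euc N) × Wt N K} (hq : q ∈ FI.Tot (L.US G) PN) (hq1 : ‖q.2‖ = 1) {s : ℝ}
    (hs : 3 / 4 ≤ s) (t : ℝ) : Af G lg ρ w J ε (Ph G K t q, s) = Af G lg ρ w J ε (q, s) := by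
  change f1 G lg ρ w J ε (sc s (Ph G K t q)) = f1 G lg ρ w J ε (sc s q)
  rw [← Ph_sc]
  refine h.f1_const (sc_mem hq) ?_ t
  change 5 / 4 ≤ ‖gs s • q.2‖ ^ 2
  rw [norm_smul, hq1, mul_one, gs_two hs, Real.norm_of_nonneg (by norm_num)]
  norm_num

/-- orbits of `f1` off the zero section have diameter `< π` -/
theorem D1.dist_f1_lt (h : D1 G k K lg ρ r C r' Kr B w δ PN ε J E₀ η)
    {q : (Euc N × Euc N) × Wt N K} (hq : q ∈ FI.Tot (L.US G) PN) (h0 : q.2 ≠ 0) (s t : ℝ) :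
    intrinsicDist S (f1 G lg ρ w J ε (Ph G K s q)) (f1 G lg ρ w J ε (Ph G K t q)) < π := by
  have hn : 0 < ‖q.2‖ := norm_pos_iff.2 h0
  have hδ := h.neg.pos_δ
  have hε := h.eps_pos
  have hE : En (oc (Ph G K) (f1 G lg ρ w J ε) q) < π := by
    have h1 := h.En_f1_le hq
    rcases le_total (‖q.2‖ ^ 2) 1 with h2 | h2
    · have h3 := h1.2.1 h2
      have h4 : 0 < (δ / 4) * ε ^ 2 * ‖q.2‖ ^ 2 := by positivity
      linarith
    · exact (h1.2.2 h2).trans_lt h.E_lt
  exact dist_lt h.bla.bl.sub h.bla.bl.cpt (loop_oc h.cir h.fam hq) hE s t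

theorem D1.dist_Af_lt (h : D1 G k K lg ρ r C r' Kr B w δ PN ε J E₀ η)
    {q : (Euc N × Euc N) × Wt N K} (hq : q ∈ FI.Tot (L.US G) PN) (h0 : q.2 ≠ 0) {s : ℝ}
    (hs : 0 < s) (t t' : ℝ) :
    intrinsicDist S (Af G lg ρ w J ε (Ph G K t q, s)) (Af G lg ρ w J ε (Ph G K t' q, s)) < π := by
  change intrinsicDist S (f1 G lg ρ w J ε (sc s (Ph G K t q)))
    (f1 G lg ρ w J ε (sc s (Ph G K t' q))) < π
  rw [← Ph_sc, ← Ph_sc]
  refine h.dist_f1_lt (sc_mem hq) ?_ t t'
  exact smul_ne_zero (gs_pos hs).ne' h0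

end

end Crest.Agent.R208.FL
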