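import Crest.Agent.R208.IB1

/-! Row 208, block NP (helper537), part NP1: smooth inverse of a smooth family of isomorphisms
between the ranges of two fields of projections. -/

set_option autoImplicit false
set_option linter.unusedSectionVars false
set_option linter.unusedVariables false

open Set Filter Topology Module
open scoped ContDiff RealInnerProductSpace

noncomputable section

namespace Crest.Agent.R208.NP

variable {E V W : Type*} [NormedAddCommGroup E] [NormedSpace ℝ E]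
  [NormedAddCommGroup V] [InnerProductSpace ℝ V] [FiniteDimensional ℝ V]
  [NormedAddCommGroup W] [InnerProductSpace ℝ W] [FiniteDimensional ℝ W]

/-- `L^* L + (1-P)^* (1-P)` -/
def gr (L : V →L[ℝ] W) (P : V →L[ℝ] V) : V →L[ℝ] V :=
  (IB.adjL V W L).comp L + (IB.adjL V V (1 - P)).comp (1 - P)

/-- the inverse of `L : range P → range Q` -/
def invO (L : V →L[ℝ] W) (P : V →L[ℝ] V) (Q : W →L[ℝ] W) : W →L[ℝ] V :=
  P.comp ((Ring.inverse (gr L P)).comp ((IB.adjL V W L).comp Q))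

/-- `L` restricts to an isomorphism `range P → range Q` -/
structure IsoR (L : V →L[ℝ] W) (P : V →L[ℝ] V) (Q : W →L[ℝ] W) : Prop where
  pp : ∀ v, P (P v) = P v
  qq : ∀ w, Q (Q w) = Q w
  lp : ∀ v, L (P v) = L v
  ql : ∀ v, Q (L v) = L v
  inj : ∀ v, P v = v → L v = 0 → v = 0
  surj : ∀ w, Q w = w → ∃ v, P v = v ∧ L v = w

/-- injectivity and equality of ranks are enough -/
theorem IsoR.of {L : V →L[ℝ] W} {P : V →L[ℝ] V} {Q : W →L[ℝ] W} (pp : ∀ v, P (P v) = P v)
    (qq : ∀ w, Q (Q w) = Q w) (lp : ∀ v, L (P v) = L v) (ql : ∀ v, Q (L v) = L v)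
    (inj : ∀ v, P v = v → L v = 0 → v = 0)
    (hr : finrank ℝ (LinearMap.range (P : V →ₗ[ℝ] V)) =
      finrank ℝ (LinearMap.range (Q : W →ₗ[ℝ] W))) : IsoR L P Q where
  pp := pp
  qq := qq
  lp := lp
  ql := ql
  inj := inj
  surj := by
    set R := LinearMap.range (P : V →ₗ[ℝ] V) with hR
    set R' := LinearMap.range (Q : W →ₗ[ℝ] W) with hR'
    have hmR : ∀ v ∈ R, P v = v := by rintro _ ⟨w, rfl⟩; exact pp w
    let f : R →ₗ[ℝ] R' := LinearMap.codRestrict R' ((L : V →ₗ[ℝ] W).comp R.subtype)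
      (fun v => ⟨L v, ql v⟩)
    have hinj : Function.Injective f := by
      rw [injective_iff_map_eq_zero]
      rintro ⟨v, hv⟩ h0
      have h1 : L v = 0 := congrArg Subtype.val h0
      exact Subtype.ext (inj v (hmR v hv) h1)
    intro w hw
    obtain ⟨v, hv⟩ := (LinearMap.injective_iff_surjective_of_finrank_eq_finrank hr).1 hinj
      ⟨w, w, hw⟩
    exact ⟨v, hmR _ v.2, congrArg Subtype.val hv⟩

variable {L : V →L[ℝ] W} {P : V →L[ℝ] V} {Q : W →L[ℝ] W}

theorem inner_gr (v : V) : ⟪gr L P v, v⟫ = ‖L v‖ ^ 2 + ‖v - P v‖ ^ 2 := by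
  have h1 : gr L P v = ContinuousLinearMap.adjoint L (L v) +
    ContinuousLinearMap.adjoint (1 - P) ((1 - P) v) := rfl
  rw [h1, inner_add_left, ContinuousLinearMap.adjoint_inner_left,
    ContinuousLinearMap.adjoint_inner_left, real_inner_self_eq_norm_sq,
    real_inner_self_eq_norm_sq]
  rfl

theorem IsoR.isUnit (h : IsoR L P Q) : IsUnit (gr L P) := by
  refine IB.isUnit_of_injective ?_
  rw [injective_iff_map_eq_zero]
  intro v hv
  have h1 := inner_gr (L := L) (P := P) v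
  rw [hv, inner_zero_left] at h1
  have h2 : ‖L v‖ ^ 2 = 0 := by nlinarith [sq_nonneg ‖L v‖, sq_nonneg ‖v - P v‖]
  have h3 : ‖v - P v‖ ^ 2 = 0 := by nlinarith [sq_nonneg ‖L v‖, sq_nonneg ‖v - P v‖]
  have h4 : L v = 0 := norm_eq_zero.1 (pow_eq_zero_iff two_ne_zero |>.1 h2)
  have h5 : v - P v = 0 := norm_eq_zero.1 (pow_eq_zero_iff two_ne_zero |>.1 h3)
  exact h.inj v (sub_eq_zero.1 h5).symm h4

theorem ring_inv_apply {T : V →L[ℝ] V} (h : IsUnit T) (v : V) : Ring.inverse T (T v) = v := by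
  have h2 := ContinuousLinearMap.ext_iff.1 (Ring.inverse_mul_cancel _ h) v
  exact h2

theorem gr_apply (v : V) (hv : P v = v) : gr L P v = (IB.adjL V W L) (L v) := by
  have h2 : (1 - P) v = 0 := by
    change v - P v = 0
    rw [hv, sub_self]
  have h3 : gr L P v = (IB.adjL V W L) (L v) + (IB.adjL V V (1 - P)) ((1 - P) v) := rfl
  rw [h3, h2, map_zero, add_zero]

theorem invO_apply (w : W) :
    invO L P Q w = P (Ring.inverse (gr L P) ((IB.adjL V W L) (Q w))) := rfl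

theorem IsoR.inv_apply (h : IsoR L P Q) {v : V} (hv : P v = v) : invO L P Q (L v) = v := by
  rw [invO_apply, h.ql, ← gr_apply v hv, ring_inv_apply h.isUnit, hv]

theorem IsoR.p_inv (h : IsoR L P Q) (w : W) : P (invO L P Q w) = invO L P Q w := by
  rw [invO_apply, h.pp]

theorem IsoR.inv_q (h : IsoR L P Q) (w : W) : invO L P Q (Q w) = invO L P Q w := by
  rw [invO_apply, invO_apply, h.qq]

/-- `L ∘ M = Q` -/
theorem IsoR.l_inv (h : IsoR L P Q) (w : W) : L (invO L P Q w) = Q w := by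
  obtain ⟨v, hv, hvw⟩ := h.surj (Q w) (h.qq w)
  rw [← h.inv_q, ← hvw, h.inv_apply hv]

/-- `M ∘ L = P` -/
theorem IsoR.inv_l (h : IsoR L P Q) (v : V) : invO L P Q (L v) = P v := by
  rw [← h.lp, h.inv_apply (h.pp v)]

/-- smoothness -/
theorem contDiffAt_invO {L : E → V →L[ℝ] W} {P : E → V →L[ℝ] V} {Q : E → W →L[ℝ] W} {x : E}
    (hL : ContDiffAt ℝ ∞ L x) (hP : ContDiffAt ℝ ∞ P x) (hQ : ContDiffAt ℝ ∞ Q x)
    (h : IsoR (L x) (P x) (Q x)) : ContDiffAt ℝ ∞ (fun y => invO (L y) (P y) (Q y)) x := by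
  have h1 : ContDiffAt ℝ ∞ (fun y => IB.adjL V W (L y)) x :=
    (IB.adjL V W).contDiff.contDiffAt.comp x hL
  have h2 : ContDiffAt ℝ ∞ (fun y => IB.adjL V V (1 - P y)) x :=
    (IB.adjL V V).contDiff.contDiffAt.comp x (contDiffAt_const.sub hP)
  have h3 : ContDiffAt ℝ ∞ (fun y => gr (L y) (P y)) x :=
    (h1.clm_comp hL).add (h2.clm_comp (contDiffAt_const.sub hP))
  obtain ⟨u, hu⟩ := h.isUnit
  have h4 : ContDiffAt ℝ ∞ Ring.inverse (gr (L x) (P x)) := by
    rw [← hu]; exact contDiffAt_ringInverse ℝ u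
  have h5 : ContDiffAt ℝ ∞ (fun y => Ring.inverse (gr (L y) (P y))) x :=
    ContDiffAt.comp x (g := Ring.inverse) h4 h3
  exact hP.clm_comp (h5.clm_comp (h1.clm_comp hQ))

end Crest.Agent.R208.NP
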