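import Crest.Agent.R208.RK1
import Crest.Agent.R208.NP1
import Crest.Agent.R208.CM0

/-! Row 208, block RR (helper566): the F action.  Over `Z = Sph (US G) PN` the unit vector `n`
determines the unit direction `w = dir (z, n) ∈ V_pq ⊖ v`; the circle rotates the oriented plane
`(v, w)`.  `phiF t ((p, v), n) = ((p, cos t v + sin t w), n_t)`, `n_t` the unit vector of the
negative bundle over the new point with direction `- sin t v + cos t w`. -/

set_option autoImplicit false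
set_option linter.unusedSectionVars false
set_option linter.unusedVariables false

open MeasureTheory Set Filter Topology Module
open scoped ContDiff RealInnerProductSpace
open Crest.GeometryTopology.Submanifold
open Crest.Agent.R241.DDefs
open Crest.Agent.R241.D2
open Crest.Agent.R208.NN
open Crest.Agent.R208.GT (bas LM)
open Crest.Agent.R208.FI (Sub)

noncomputable section

namespace Crest.Agent.R208.FM

open Crest.Agent.R208.NB Crest.Agent.R208.RK

variable {n N k K r dU : ℕ} {κ : ℝ} {S : Set (Euc N)} {G : Geo n N κ S} {z : Euc N × Euc N}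
  {δ : ℝ} {PN : Euc N × Euc N → Wt N K →L[ℝ] Wt N K}
  {p : (Euc N × Euc N) × Wt N K} {t : ℝ}

/-! ### definitions -/

/-- the rotated base point -/
def rz (h : GT.Bla G k) (PN : Euc N × Euc N → Wt N K →L[ℝ] Wt N K) (t : ℝ)
    (p : (Euc N × Euc N) × Wt N K) : Euc N × Euc N :=
  (p.1.1, Real.cos t • p.1.2 + Real.sin t • dir h PN p)

/-- the rotated direction -/
def rw' (h : GT.Bla G k) (PN : Euc N × Euc N → Wt N K →L[ℝ] Wt N K) (t : ℝ)
    (p : (Euc N × Euc N) × Wt N K) : Euc N :=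
  (-Real.sin t) • p.1.2 + Real.cos t • dir h PN p

/-- the inverse of `l0 : range PN z → V_pq ⊖ v` -/
def iO (h : GT.Bla G k) (PN : Euc N × Euc N → Wt N K →L[ℝ] Wt N K) (z : Euc N × Euc N) :
    Euc N →L[ℝ] Wt N K :=
  NP.invO (wL h (nuP K) PN z) (PN z) (V0s h z)

/-- vector of the negative bundle over the new point, not normalised -/
def yt (h : GT.Bla G k) (PN : Euc N × Euc N → Wt N K →L[ℝ] Wt N K) (t : ℝ)
    (p : (Euc N × Euc N) × Wt N K) : Wt N K :=
  iO h PN (rz h PN t p) (rw' h PN t p)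

/-- **the F action** -/
def phiF (h : GT.Bla G k) (PN : Euc N × Euc N → Wt N K →L[ℝ] Wt N K) (t : ℝ)
    (p : (Euc N × Euc N) × Wt N K) : (Euc N × Euc N) × Wt N K :=
  (rz h PN t p, (‖yt h PN t p‖⁻¹ : ℝ) • yt h PN t p)

theorem phiF_fst (h : GT.Bla G k) (PN : Euc N × Euc N → Wt N K →L[ℝ] Wt N K) (t : ℝ)
    (p : (Euc N × Euc N) × Wt N K) :
    (phiF h PN t p).1 = (p.1.1, Real.cos t • p.1.2 + Real.sin t • dir h PN p) := rfl

section main

variable (h : GT.Bla G k) (H : NegB G (k - 1) (nuP K) δ PN)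

include H in
theorem isoR (hkn : k < n) (hz : z ∈ L.US G) :
    NP.IsoR (wL h (nuP K) PN z) (PN z) (V0s h z) where
  pp := H.idem z
  qq := V0s_idem h hz
  lp := fun v => by
    rw [wL_eq h hkn hz]
    change l0 G z (nuP K) (PN z (PN z v)) = l0 G z (nuP K) (PN z v)
    rw [H.idem]
  ql := fun v => by
    rw [wL_eq h hkn hz]
    exact (V0s_eq_self h hz _).2 (l0_mem (nuP K) (PN z v))
  inj := fun v hv h0 => by
    rw [wL_apply h hkn hz hv] at h0
    exact H.l0_inj h hz hv h0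
  surj := fun x hx => by
    obtain ⟨w, hw, hwx⟩ := H.l0_bij h hz ((V0s_eq_self h hz x).1 hx)
    exact ⟨w, hw, by rw [wL_apply h hkn hz hw, hwx]⟩

include H in
theorem contDiffAt_iO (hkn : k < n) (hz : z ∈ L.US G) : ContDiffAt ℝ ∞ (iO h PN) z :=
  NP.contDiffAt_invO (contDiffAt_wL h hkn H hz) (H.smooth z hz) (contDiffAt_V0s h hz.1)
    (isoR h H hkn hz)

/-- directions of the points of the sphere bundle -/
theorem ne_zero_of (hp : p ∈ T.Sph (L.US G) PN) : p.2 ≠ 0 := fun h0 => by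
  have := hp.2
  rw [h0, norm_zero] at this
  exact zero_ne_one this

include H in
theorem norm_dir' (hkn : k < n) (hp : p ∈ T.Sph (L.US G) PN) : ‖dir h PN p‖ = 1 :=
  norm_dir h H hkn hp.1.1 hp.1.2 (ne_zero_of hp)

include H in
theorem norm_comb (hkn : k < n) (hp : p ∈ T.Sph (L.US G) PN) (a b : ℝ) :
    ‖a • p.1.2 + b • dir h PN p‖ ^ 2 = a ^ 2 + b ^ 2 := by
  have h1 : ‖dir h PN p‖ = 1 := norm_dir' h H hkn hp
  have h2 : ‖p.1.2‖ = 1 := hp.1.1.2
  have h3 : ⟪p.1.2, dir h PN p⟫ = 0 := inner_dir_v h hkn hp.1.1 hp.1.2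
  rw [norm_add_sq_real, norm_smul, norm_smul, real_inner_smul_left, real_inner_smul_right, h1, h2,
    h3, mul_one, mul_one, Real.norm_eq_abs, Real.norm_eq_abs, sq_abs, sq_abs]
  ring

include H in
theorem inner_comb (hkn : k < n) (hp : p ∈ T.Sph (L.US G) PN) (a b c d : ℝ) :
    ⟪a • p.1.2 + b • dir h PN p, c • p.1.2 + d • dir h PN p⟫ = a * c + b * d := by
  have h1 : ⟪dir h PN p, dir h PN p⟫ = (1 : ℝ) := by
    rw [real_inner_self_eq_norm_sq, norm_dir' h H hkn hp]; norm_num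
  have h2 : ⟪p.1.2, p.1.2⟫ = (1 : ℝ) := by
    rw [real_inner_self_eq_norm_sq, hp.1.1.2]; norm_num
  have h3 : ⟪p.1.2, dir h PN p⟫ = 0 := inner_dir_v h hkn hp.1.1 hp.1.2
  have h4 : ⟪dir h PN p, p.1.2⟫ = 0 := by rw [real_inner_comm]; exact h3
  simp only [inner_add_left, inner_add_right, real_inner_smul_left, real_inner_smul_right, h1, h2,
    h3, h4]
  ring

theorem comb_mem (hkn : k < n) (hp : p ∈ T.Sph (L.US G) PN) (a b : ℝ) :
    a • p.1.2 + b • dir h PN p ∈ GT.Vs G p.1.1 (qq G p.1) :=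
  Submodule.add_mem _ (Submodule.smul_mem _ _ (mem_Vs hp.1.1))
    (Submodule.smul_mem _ _ (dir_mem h hkn hp.1.1 hp.1.2))

include H in
theorem norm_rz (hkn : k < n) (hp : p ∈ T.Sph (L.US G) PN) (t : ℝ) :
    ‖Real.cos t • p.1.2 + Real.sin t • dir h PN p‖ = 1 := by
  have h1 := norm_comb h H hkn hp (Real.cos t) (Real.sin t)
  rw [Real.cos_sq_add_sin_sq] at h1
  have h2 : 0 ≤ ‖Real.cos t • p.1.2 + Real.sin t • dir h PN p‖ := norm_nonneg _
  nlinarith

include H in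
theorem norm_rw (hkn : k < n) (hp : p ∈ T.Sph (L.US G) PN) (t : ℝ) : ‖rw' h PN t p‖ = 1 := by
  have h1 := norm_comb h H hkn hp (-Real.sin t) (Real.cos t)
  have h3 : (-Real.sin t) ^ 2 + Real.cos t ^ 2 = 1 := by
    rw [neg_sq, Real.sin_sq_add_cos_sq]
  rw [h3] at h1
  have h2 : 0 ≤ ‖rw' h PN t p‖ := norm_nonneg _
  change ‖rw' h PN t p‖ ^ 2 = 1 at h1
  nlinarith

include H in
theorem rz_mem (hkn : k < n) (hp : p ∈ T.Sph (L.US G) PN) (t : ℝ) :
    rz h PN t p ∈ L.US G ∧ qq G (rz h PN t p) = qq G p.1 := by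
  have hF := mem_FF h hp.1.1
  have h1 := comb_mem h hkn hp (Real.cos t) (Real.sin t)
  have h2 := norm_rz h H hkn hp t
  have h3 : rz h PN t p ∈ L.US G := ⟨⟨hp.1.1.1.1, h.Vs_le (q := qq G p.1) hF h1⟩, h2⟩
  refine ⟨h3, ?_⟩
  change (fl G (rz h PN t p, Real.pi)).1 = _
  rw [phi_pi h3]
  exact h.Exp_pi (q := qq G p.1) hF h1 h2

include H in
theorem rw_mem (hkn : k < n) (hp : p ∈ T.Sph (L.US G) PN) (t : ℝ) :
    rw' h PN t p ∈ V0 G (rz h PN t p) := by
  rw [mem_V0, (rz_mem h H hkn hp t).2]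
  refine ⟨comb_mem h hkn hp _ _, ?_⟩
  change ⟪(-Real.sin t) • p.1.2 + Real.cos t • dir h PN p,
    Real.cos t • p.1.2 + Real.sin t • dir h PN p⟫ = 0
  rw [inner_comb h H hkn hp]
  ring

include H in
theorem yt_spec (hkn : k < n) (hp : p ∈ T.Sph (L.US G) PN) (t : ℝ) :
    PN (rz h PN t p) (yt h PN t p) = yt h PN t p ∧
      wL h (nuP K) PN (rz h PN t p) (yt h PN t p) = rw' h PN t p ∧ yt h PN t p ≠ 0 := by
  have hz := (rz_mem h H hkn hp t).1
  have hi := isoR h H hkn hz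
  have h1 : wL h (nuP K) PN (rz h PN t p) (yt h PN t p) = rw' h PN t p := by
    have := hi.l_inv (rw' h PN t p)
    rw [(V0s_eq_self h hz _).2 (rw_mem h H hkn hp t)] at this
    exact this
  refine ⟨hi.p_inv _, h1, fun h0 => ?_⟩
  rw [h0, map_zero] at h1
  have := norm_rw h H hkn hp t
  rw [← h1, norm_zero] at this
  exact zero_ne_one this

include H in
theorem phiF_mem (hkn : k < n) (hp : p ∈ T.Sph (L.US G) PN) (t : ℝ) :
    phiF h PN t p ∈ T.Sph (L.US G) PN := by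
  obtain ⟨h1, h2, h3⟩ := yt_spec h H hkn hp t
  refine ⟨⟨(rz_mem h H hkn hp t).1, ?_⟩, ?_⟩
  · change PN (rz h PN t p) ((‖yt h PN t p‖⁻¹ : ℝ) • yt h PN t p) = _
    rw [map_smul, h1]
    rfl
  · change ‖(‖yt h PN t p‖⁻¹ : ℝ) • yt h PN t p‖ = 1
    rw [norm_smul, norm_inv, norm_norm, inv_mul_cancel₀ (norm_ne_zero_iff.2 h3)]

include H in
/-- **the new direction** -/
theorem dir_phiF (hkn : k < n) (hp : p ∈ T.Sph (L.US G) PN) (t : ℝ) :
    dir h PN (phiF h PN t p) = (-Real.sin t) • p.1.2 + Real.cos t • dir h PN p := by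
  obtain ⟨h1, h2, h3⟩ := yt_spec h H hkn hp t
  have h4 : (0 : ℝ) < ‖yt h PN t p‖⁻¹ := inv_pos.2 (norm_pos_iff.2 h3)
  change dir h PN (rz h PN t p, (‖yt h PN t p‖⁻¹ : ℝ) • yt h PN t p) = _
  rw [dir_smul h h4]
  change (‖wL h (nuP K) PN (rz h PN t p) (yt h PN t p)‖⁻¹ : ℝ) •
    wL h (nuP K) PN (rz h PN t p) (yt h PN t p) = _
  rw [h2, norm_rw h H hkn hp t, inv_one, one_smul]
  rfl

include H in
/-- a point of the sphere bundle is determined by the base point and the direction -/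
theorem ext_dir (hkn : k < n) {p p' : (Euc N × Euc N) × Wt N K} (hp : p ∈ T.Sph (L.US G) PN)
    (hp' : p' ∈ T.Sph (L.US G) PN) (h1 : p.1 = p'.1) (h2 : dir h PN p = dir h PN p') :
    p = p' := by
  obtain ⟨z, x⟩ := p
  obtain ⟨z', x'⟩ := p'
  obtain rfl : z = z' := h1
  have hz : z ∈ L.US G := hp.1.1
  have hx : PN z x = x := hp.1.2
  have hx' : PN z x' = x' := hp'.1.2
  have n1 : ‖x‖ = 1 := hp.2
  have n1' : ‖x'‖ = 1 := hp'.2
  have w1 : wL h (nuP K) PN z x ≠ 0 := wL_ne h H hkn hz hx (ne_zero_of hp)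
  have w1' : wL h (nuP K) PN z x' ≠ 0 := wL_ne h H hkn hz hx' (ne_zero_of hp')
  set a := ‖wL h (nuP K) PN z x‖⁻¹ with ha
  set a' := ‖wL h (nuP K) PN z x'‖⁻¹ with ha'
  have a0 : 0 < a := inv_pos.2 (norm_pos_iff.2 w1)
  have a0' : 0 < a' := inv_pos.2 (norm_pos_iff.2 w1')
  have e1 : a • wL h (nuP K) PN z x = a' • wL h (nuP K) PN z x' := h2
  have e2 : a • x - a' • x' = 0 := by
    refine (isoR h H hkn hz).inj _ (by rw [map_sub, map_smul, map_smul, hx, hx']) ?_
    rw [map_sub, map_smul, map_smul, e1, sub_self]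
  have e3 : a • x = a' • x' := sub_eq_zero.1 e2
  have e4 : a = a' := by
    have := congrArg norm e3
    rwa [norm_smul, norm_smul, n1, n1', mul_one, mul_one, Real.norm_of_nonneg a0.le,
      Real.norm_of_nonneg a0'.le] at this
  rw [← e4] at e3
  have e5 : x = x' := smul_right_injective _ a0.ne' e3
  rw [e5]

/-! ### smoothness -/

include H in
theorem contDiffAt_rz (hkn : k < n) (hp : p ∈ T.Sph (L.US G) PN) (t : ℝ) :
    ContDiffAt ℝ ∞ (fun q : ℝ × ((Euc N × Euc N) × Wt N K) => rz h PN q.1 q.2) (t, p) := by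
  have hd : ContDiffAt ℝ ∞ (dir h PN) p := contDiffAt_dir h H hkn hp.1.1 hp.1.2 (ne_zero_of hp)
  have hd' : ContDiffAt ℝ ∞ (fun q : ℝ × ((Euc N × Euc N) × Wt N K) => dir h PN q.2) (t, p) :=
    ContDiffAt.comp (t, p) (g := dir h PN) hd contDiffAt_snd
  have hc : ContDiffAt ℝ ∞ (fun q : ℝ × ((Euc N × Euc N) × Wt N K) => Real.cos q.1) (t, p) :=
    (Real.contDiff_cos.comp contDiff_fst).contDiffAt
  have hs : ContDiffAt ℝ ∞ (fun q : ℝ × ((Euc N × Euc N) × Wt N K) => Real.sin q.1) (t, p) :=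
    (Real.contDiff_sin.comp contDiff_fst).contDiffAt
  have h1 : ContDiffAt ℝ ∞ (fun q : ℝ × ((Euc N × Euc N) × Wt N K) => q.2.1.1) (t, p) :=
    (contDiff_fst.comp (contDiff_fst.comp contDiff_snd)).contDiffAt
  have h2 : ContDiffAt ℝ ∞ (fun q : ℝ × ((Euc N × Euc N) × Wt N K) => q.2.1.2) (t, p) :=
    (contDiff_snd.comp (contDiff_fst.comp contDiff_snd)).contDiffAt
  exact h1.prodMk ((hc.smul h2).add (hs.smul hd'))

include H in
theorem contDiffAt_rw (hkn : k < n) (hp : p ∈ T.Sph (L.US G) PN) (t : ℝ) :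
    ContDiffAt ℝ ∞ (fun q : ℝ × ((Euc N × Euc N) × Wt N K) => rw' h PN q.1 q.2) (t, p) := by
  have hd : ContDiffAt ℝ ∞ (dir h PN) p := contDiffAt_dir h H hkn hp.1.1 hp.1.2 (ne_zero_of hp)
  have hd' : ContDiffAt ℝ ∞ (fun q : ℝ × ((Euc N × Euc N) × Wt N K) => dir h PN q.2) (t, p) :=
    ContDiffAt.comp (t, p) (g := dir h PN) hd contDiffAt_snd
  have hc : ContDiffAt ℝ ∞ (fun q : ℝ × ((Euc N × Euc N) × Wt N K) => Real.cos q.1) (t, p) :=
    (Real.contDiff_cos.comp contDiff_fst).contDiffAt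
  have hs : ContDiffAt ℝ ∞ (fun q : ℝ × ((Euc N × Euc N) × Wt N K) => Real.sin q.1) (t, p) :=
    (Real.contDiff_sin.comp contDiff_fst).contDiffAt
  have h2 : ContDiffAt ℝ ∞ (fun q : ℝ × ((Euc N × Euc N) × Wt N K) => q.2.1.2) (t, p) :=
    (contDiff_snd.comp (contDiff_fst.comp contDiff_snd)).contDiffAt
  exact (hs.neg.smul h2).add (hc.smul hd')

include H in
theorem contDiffAt_yt (hkn : k < n) (hp : p ∈ T.Sph (L.US G) PN) (t : ℝ) :
    ContDiffAt ℝ ∞ (fun q : ℝ × ((Euc N × Euc N) × Wt N K) => yt h PN q.1 q.2) (t, p) := by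
  have hi : ContDiffAt ℝ ∞ (iO h PN) (rz h PN t p) :=
    contDiffAt_iO h H hkn (rz_mem h H hkn hp t).1
  have h1 : ContDiffAt ℝ ∞ (fun q : ℝ × ((Euc N × Euc N) × Wt N K) => iO h PN (rz h PN q.1 q.2))
      (t, p) :=
    ContDiffAt.comp (t, p) (g := iO h PN) hi (contDiffAt_rz h H hkn hp t)
  exact h1.clm_apply (contDiffAt_rw h H hkn hp t)

include H in
theorem contDiffAt_phiF (hkn : k < n) (hp : p ∈ T.Sph (L.US G) PN) (t : ℝ) :
    ContDiffAt ℝ ∞ (fun q : ℝ × ((Euc N × Euc N) × Wt N K) => phiF h PN q.1 q.2) (t, p) := by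
  have h1 := contDiffAt_yt h H hkn hp t
  have h2 : yt h PN t p ≠ 0 := (yt_spec h H hkn hp t).2.2
  have h3 : ContDiffAt ℝ ∞ (fun q : ℝ × ((Euc N × Euc N) × Wt N K) => ‖yt h PN q.1 q.2‖) (t, p) :=
    h1.norm ℝ h2
  have h4 : ContDiffAt ℝ ∞ (fun q : ℝ × ((Euc N × Euc N) × Wt N K) => ‖yt h PN q.1 q.2‖⁻¹) (t, p) :=
    h3.inv (norm_ne_zero_iff.2 h2)
  exact (contDiffAt_rz h H hkn hp t).prodMk (h4.smul h1)

/-! ### the action -/

include H in
/-- **the F action is a free circle action on `Sph (US G) PN`** -/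
theorem cir_phiF (hkn : k < n) : CM.Cir (T.Sph (L.US G) PN) (phiF h PN) where
  smooth := fun t x hx => contDiffAt_phiF h H hkn hx t
  maps := fun t x hx => phiF_mem h H hkn hx t
  zero := fun x hx => by
    refine ext_dir h H hkn (phiF_mem h H hkn hx 0) hx ?_ ?_
    · rw [phiF_fst, Real.cos_zero, Real.sin_zero, one_smul, zero_smul, add_zero]
    · rw [dir_phiF h H hkn hx, Real.cos_zero, Real.sin_zero, one_smul, neg_zero, zero_smul,
        zero_add]
  add := fun s t x hx => by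
    have hy := phiF_mem h H hkn hx t
    refine ext_dir h H hkn (phiF_mem h H hkn hx (s + t)) (phiF_mem h H hkn hy s) ?_ ?_
    · rw [phiF_fst, phiF_fst, dir_phiF h H hkn hx t]
      refine Prod.ext rfl ?_
      change Real.cos (s + t) • x.1.2 + Real.sin (s + t) • dir h PN x =
        Real.cos s • (Real.cos t • x.1.2 + Real.sin t • dir h PN x) +
          Real.sin s • ((-Real.sin t) • x.1.2 + Real.cos t • dir h PN x)
      rw [Real.cos_add, Real.sin_add]
      module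
    · rw [dir_phiF h H hkn hx, dir_phiF h H hkn hy, dir_phiF h H hkn hx t]
      change (-Real.sin (s + t)) • x.1.2 + Real.cos (s + t) • dir h PN x =
        (-Real.sin s) • (Real.cos t • x.1.2 + Real.sin t • dir h PN x) +
          Real.cos s • ((-Real.sin t) • x.1.2 + Real.cos t • dir h PN x)
      rw [Real.cos_add, Real.sin_add]
      module
  per := fun x hx => by
    refine ext_dir h H hkn (phiF_mem h H hkn hx _) hx ?_ ?_
    · rw [phiF_fst, Real.cos_two_pi, Real.sin_two_pi, one_smul, zero_smul, add_zero]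
    · rw [dir_phiF h H hkn hx, Real.cos_two_pi, Real.sin_two_pi, one_smul, neg_zero, zero_smul,
        zero_add]
  free := fun t x hx h0 => by
    have h1 : Real.cos t • x.1.2 + Real.sin t • dir h PN x = x.1.2 :=
      congrArg (fun p : (Euc N × Euc N) × Wt N K => p.1.2) h0
    have h2 := inner_comb h H hkn hx (Real.cos t) (Real.sin t) 1 0
    rw [h1, one_smul, zero_smul, add_zero, real_inner_self_eq_norm_sq, hx.1.1.2, one_pow,
      mul_one, mul_zero, add_zero] at h2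
    obtain ⟨m, hm⟩ := (Real.cos_eq_one_iff t).1 h2.symm
    exact ⟨m, by rw [← hm]; ring⟩

include H in
/-- `(p, q)` is constant along the orbits -/
theorem ph_phiF (hkn : k < n) (hp : p ∈ T.Sph (L.US G) PN) (t : ℝ) :
    ph G (phiF h PN t p).1 = ph G p.1 :=
  Prod.ext rfl (rz_mem h H hkn hp t).2

end main

end Crest.Agent.R208.FM
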