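import Crest.Agent.R208.CC1
import Crest.Agent.R208.CG7

/-! Row 208, block RR, (C) (helper316).  CC2: the fibre value of the rotation: over a point of `US`
the orbit integral of `kap` integrates to twice the integral of `kap` over the unit sphere of
`V_pq`. -/

set_option autoImplicit false
set_option linter.unusedSectionVars false

open MeasureTheory MeasureTheory.Measure Set Filter Topology Module
open scoped ContDiff RealInnerProductSpace
open Crest.GeometryTopology.Submanifold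
open Crest.Agent.R241.DDefs
open Crest.Agent.R241.D2
open Crest.Agent.R208.F Crest.Agent.R208.FI Crest.Agent.R208.CW Crest.Agent.R208.T
open Crest.Agent.R208.NN
open Crest.Agent.R208.NB
open Crest.Agent.R208.RK
open Crest.Agent.R208.RR
open Crest.Agent.R208.L (US)
open Crest.Agent.R208.SB (OPr OddB oV)
open Crest.Agent.R208.RRC (Swp)
open Crest.Agent.R208.CG (fx Kab ig K_apply Kab_add K_repar K_eq_Kab)
open Crest.Agent.R208.KC (flp flp_mem flp_flp dir_flp contDiff_flp)

noncomputable section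

namespace Crest.Agent.R208.CC

/-! ### generic -/

section gen
variable {E E' : Type} [NormedAddCommGroup E] [NormedSpace ℝ E] [FiniteDimensional ℝ E]
  [NormedAddCommGroup E'] [NormedSpace ℝ E'] [FiniteDimensional ℝ E']
  {X : Set E} {d : ℕ} {o o' om : E → Ext E} {x : E} {w w' : E × ℝ → Ext (E × ℝ)}

theorem K_congr (h : ∀ t : ℝ, w (x, t) = w' (x, t)) : RR.K w x = RR.K w' x := by
  rw [K_apply, K_apply]
  simp only [ig, h]

/-- orientations with equal restrictions -/
theorem J_ori_eqv (hX : Clo d X) (ho : Ori d X o') (h : Eqv X o o') :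
    J d X o om = J d X o' om := by
  refine J_ori_congr hX fun x hx => ?_
  have h1 : evA E d (o x) (frame d X x) = evA E d (o' x) (frame d X x) := by
    have h2 := eqv_iff.1 h x hx
    have h3 : frame d X x = fun i => (Tan X x).subtype
      ⟨frame d X x i, (frame_isFrame (hX.finrank_Tan hx)).2 i⟩ := rfl
    rw [h3, ← evA_pb, ← evA_pb, h2]
  rw [h1]
  exact mul_self_pos.2 (ho.ne x hx)

/-- splitting of the orbit integral -/
theorem K_split {Z : Set E} {D : Set E'} {c e : E × ℝ → E'} {f : E → E} {kap : E' → Ext E'}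
    (sc : SMap (Cyl Z) D c) (se : SMap (Cyl Z) D e) (sk : Sm D kap) (hf : ContDiff ℝ ∞ f)
    (hfZ : ∀ x ∈ Z, f x ∈ Z) (q1 : ∀ y : E × ℝ, e y = c (y.1, y.2 / 2))
    (q2 : ∀ y : E × ℝ, e (f y.1, y.2) = c (y.1, 1 - y.2 / 2)) (hx : x ∈ Z) :
    RR.K (E := E) (F.pull c kap) x = RR.K (E := E) (F.pull e kap) x - F.pull f (RR.K (E := E) (F.pull e kap)) x := by
  have sw : Sm (Cyl Z) (F.pull c kap) := sk.pull sc
  have sw' : Sm (Cyl Z) (F.pull e kap) := sk.pull se
  have dfx : ∀ (f : E → E) (lam : ℝ → ℝ),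
      ContDiff ℝ ∞ f → ContDiff ℝ ∞ lam → ∀ y, DifferentiableAt ℝ (fx f lam) y :=
    fun f lam hf hl y => ((hf.comp contDiff_fst).prodMk (hl.comp contDiff_snd)).differentiable
      (by simp) y
  have l1 : ContDiff ℝ ∞ (fun t : ℝ => t / 2) := by fun_prop
  have l2 : ContDiff ℝ ∞ (fun t : ℝ => 1 - t / 2) := by fun_prop
  have r1 : c ∘ fx (fun q : E => q) (fun t => t / 2) = e := funext fun y => (q1 y).symm
  have r2 : e ∘ fx f (fun t => t) = c ∘ fx (fun q : E => q) (fun t => 1 - t / 2) :=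
    funext fun y => q2 y
  have e2 : RR.K (E := E) (F.pull e kap) x = Kab 0 (1 / 2) (F.pull c kap) x := by
    have h1 : RR.K (E := E) (F.pull e kap) x =
        RR.K (E := E) (F.pull (fx (fun q : E => q) fun t => t / 2) (F.pull c kap)) x := by
      refine K_congr fun t => ?_
      rw [pull_comp (dfx (fun q => q) _ contDiff_id l1 _)
        ((sc.smooth _ (mem_Cyl.2 hx)).differentiableAt (by simp)), r1]
    rw [h1, K_repar l1 sw hx]
    norm_num
  have e3 : F.pull f (RR.K (E := E) (F.pull e kap)) x = Kab 1 (1 / 2) (F.pull c kap) x := by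
    have h1 : F.pull f (RR.K (E := E) (F.pull e kap)) x =
        RR.K (E := E) (F.pull (fx (fun q : E => q) fun t => 1 - t / 2) (F.pull c kap)) x := by
      rw [CG.pull_K (hf.differentiable (by simp) x) sw' (hfZ x hx)]
      refine K_congr fun t => ?_
      rw [pull_comp (dfx f (fun t => t) hf contDiff_id _)
          ((se.smooth _ (mem_Cyl.2 (hfZ x hx))).differentiableAt (by simp)),
        pull_comp (dfx (fun q => q) _ contDiff_id l2 _)
          ((sc.smooth _ (mem_Cyl.2 hx)).differentiableAt (by simp)), r2]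
    rw [h1, K_repar l2 sw hx]
    norm_num
  rw [e2, e3, K_eq_Kab, CG.Kab_symm 1 (1 / 2), sub_neg_eq_add, Kab_add sw hx]

/-- the degree argument -/
theorem J_anti {X : Set E} {f : E → E} {e o β : E → Ext E} (hX : Clo d X)
    (hXc : IsPreconnected X) (hf : ContDiff ℝ ∞ f) (hb : BijOn f X X) (he : Ori d X e)
    (hfe : Eqv X (F.pull f e) (-e)) (ho : Ori d X o) (sβ : Sm X β) :
    J d X o (F.pull f β) = -J d X o β := by
  have hβ : ContinuousOn β X := fun y hy => (sβ y hy).continuousAt.continuousWithinAt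
  have h1 : J d X (F.pull f e) (F.pull f β) = J d X e β :=
    J_pull hX hX (fun q _ => hf.differentiable (by simp) q) hb he hβ
  have h2 : J d X (F.pull f e) (F.pull f β) = -J d X e (F.pull f β) := by
    rw [← J_neg_ori]
    exact J_ori_eqv hX he.neg hfe
  have h3 : J d X e (F.pull f β) = -J d X e β := by
    rw [← h1, h2, neg_neg]
  rcases J_ori_connected hX he ho hXc with h4 | h4
  · rw [h4, h4, h3]
  · rw [h4, h4, h3]

/-- the conclusion -/
theorem J_two {X : Set E} {Y : Set E'} {f : E → E} {e o w : E → Ext E} {oW kap : E' → Ext E'}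
    {c : E × ℝ → E'}
    (hs : Swp d X Y c) (hXc : IsPreconnected X) (hf : ContDiff ℝ ∞ f) (hb : BijOn f X X)
    (he : Ori d X e) (hfe : Eqv X (F.pull f e) (-e)) (ho : Ori d X o) (hoW : Ori (1 + d) Y oW)
    (hk : ContinuousOn kap Y) (hsK : Sm X (Hop c kap))
    (hw : ∀ x ∈ X, w x = Hop c kap x - F.pull f (Hop c kap) x) :
    |J d X o w| = 2 * |J (1 + d) Y oW kap| := by
  have h1 := hs.J_eq hoW hk
  have h2 := hs.ori hoW
  have hc := hs.cloZ
  have hHc : ContinuousOn (Hop c kap) X := fun y hy => (hsK y hy).continuousAt.continuousWithinAt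
  have hfc : ContinuousOn (F.pull f (Hop c kap)) X := fun y hy =>
    ((hsK.pull (f := f) (Y := X) ⟨fun q _ => hf.contDiffAt, fun q hq => hb.mapsTo hq⟩) y
      hy).continuousAt.continuousWithinAt
  have h3 : J d X (Hop c oW) w = 2 * J d X (Hop c oW) (Hop c kap) := by
    have e1 : J d X (Hop c oW) w =
        J d X (Hop c oW) (fun p => Hop c kap p - F.pull f (Hop c kap) p) := FI.J_congr' hc hw
    rw [e1, FI.J_sub hc h2 hHc hfc, J_anti hc hXc hf hb he hfe h2 hsK]
    ring
  have h4 : |J d X o w| = |J d X (Hop c oW) w| := by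
    rcases J_ori_connected hc h2 ho hXc with h5 | h5
    · rw [h5]
    · rw [h5, abs_neg]
  rw [h4, h3, h1, abs_mul, abs_two]

end gen

variable {n N k K m : ℕ} {κ δ : ℝ} {S : Set (Euc N)} {G : Geo n N κ S} {z : Euc N × Euc N}
  {PN : Euc N × Euc N → Wt N K →L[ℝ] Wt N K} {p : (Euc N × Euc N) × Wt N K}
  {kap : Euc N × Euc N → Ext (Euc N × Euc N)}

/-- the rotation family -/
def RF (h : GT.Bla G k) (PN : Euc N × Euc N → Wt N K →L[ℝ] Wt N K)
    (y : ((Euc N × Euc N) × Wt N K) × ℝ) : Euc N × Euc N :=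
  FM.rz h PN (2 * Real.pi * y.2) y.1

section main
variable (h : GT.Bla G k) (H : NegB G (k - 1) (nuP K) δ PN)

include H in
theorem smap_RF (hkn : k < n) : SMap (Cyl (Sph (US G) PN)) (US G) (RF h PN) := by
  refine ⟨fun y hy => ?_, fun y hy => (FM.rz_mem h H hkn (mem_Cyl.1 hy) _).1⟩
  have h1 : ContDiffAt ℝ ∞ (fun y : ((Euc N × Euc N) × Wt N K) × ℝ => (2 * Real.pi * y.2, y.1))
      y := by fun_prop
  exact ContDiffAt.comp y
    (g := fun q : ℝ × ((Euc N × Euc N) × Wt N K) => FM.rz h PN q.1 q.2)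
    (FM.contDiffAt_rz h H hkn (mem_Cyl.1 hy) _) h1

include H in
theorem smap_EF (hkn : k < n) : SMap (Cyl (Sph (US G) PN)) (US G) (EF h PN) :=
  ⟨fun y hy => contDiffAt_EF h H hkn (mem_Cyl.1 hy) y.2,
    fun y hy => (EF_mem h H hkn (mem_Cyl.1 hy) y.2).1⟩

theorem EF_eq (y : ((Euc N × Euc N) × Wt N K) × ℝ) :
    EF h PN y = RF h PN (fx (fun q : (Euc N × Euc N) × Wt N K => q) (fun t => t / 2) y) := by
  change FM.rz h PN (Real.pi * y.2) y.1 = FM.rz h PN (2 * Real.pi * (y.2 / 2)) y.1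
  congr 1
  ring

theorem EF_flp (y : ((Euc N × Euc N) × Wt N K) × ℝ) :
    EF h PN (fx flp (fun t => t) y) =
      RF h PN (fx (fun q : (Euc N × Euc N) × Wt N K => q) (fun t => 1 - t / 2) y) := by
  refine Prod.ext rfl ?_
  change Real.cos (Real.pi * y.2) • y.1.1.2 + Real.sin (Real.pi * y.2) • dir h PN (flp y.1) =
    Real.cos (2 * Real.pi * (1 - y.2 / 2)) • y.1.1.2 +
      Real.sin (2 * Real.pi * (1 - y.2 / 2)) • dir h PN y.1
  have e1 : 2 * Real.pi * (1 - y.2 / 2) = 2 * Real.pi - Real.pi * y.2 := by ring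
  rw [dir_flp h, e1, Real.cos_two_pi_sub, Real.sin_two_pi_sub, smul_neg, neg_smul]

include H in
/-- **the two halves of the orbit** -/
theorem Wp_split (hkn : k < n) (sk : Sm (US G) kap) (hp : p ∈ Sph (US G) PN) :
    Wp (FM.phiF h PN) (F.pull Prod.fst kap) p =
      Hop (EF h PN) kap p - F.pull flp (Hop (EF h PN) kap) p := by
  have hF := FM.cir_phiF h H hkn
  have e1 : Wp (FM.phiF h PN) (F.pull Prod.fst kap) p = RR.K (E := (Euc N × Euc N) × Wt N K) (F.pull (RF h PN) kap) p := by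
    change RR.K (E := (Euc N × Euc N) × Wt N K) (F.pull (Fl (FM.phiF h PN)) (F.pull Prod.fst kap)) p = _
    refine K_congr fun t => ?_
    rw [pull_comp ((contDiffAt_Fl hF hp t).differentiableAt (by simp)) differentiableAt_fst]
    exact congrArg (fun c => F.pull c kap (p, t)) rfl
  rw [e1]
  exact K_split (smap_RF h H hkn) (smap_EF h H hkn) sk contDiff_flp (fun x hx => flp_mem hx)
    (fun y => EF_eq h y) (fun y => EF_flp h y) hp

/-- the fibre of the sphere bundle -/
def FZ (G : Geo n N κ S) (PN : Euc N × Euc N → Wt N K →L[ℝ] Wt N K) (z : Euc N × Euc N) :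
    Set ((Euc N × Euc N) × Wt N K) :=
  Sph (US G) PN ∩ (Prod.fst : (Euc N × Euc N) × Wt N K → Euc N × Euc N) ⁻¹' {z}

omit h in
theorem bij_flp (z : Euc N × Euc N) :
    BijOn (flp (N := N) (K := K)) (FZ G PN z) (FZ G PN z) := by
  refine ⟨fun q hq => ⟨flp_mem hq.1, hq.2⟩, fun q _ q' _ hqq => ?_, fun q hq =>
    ⟨flp q, ⟨flp_mem hq.1, hq.2⟩, flp_flp q⟩⟩
  rw [← flp_flp q, hqq, flp_flp]

include h H in
/-- an orientation which is odd under the antipodal map -/
theorem exists_ori (hkn : k < n) (hkm : k = m + 2) (hm : Even m) (hm0 : 0 < m) (hz : z ∈ US G) :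
    ∃ e : (Euc N × Euc N) × Wt N K → Ext ((Euc N × Euc N) × Wt N K),
      Ori m (FZ G PN z) e ∧ Eqv (FZ G PN z) (F.pull (flp (N := N) (K := K)) e) (-e) := by
  have hP := UP.pfield_N H
  rw [show k - 1 = m + 1 by omega] at hP
  obtain ⟨oP, hoP⟩ := SB.exists_opr_N h (by omega) hkn H
  rw [show k - 1 = m + 1 by omega] at hoP
  obtain ⟨l, hl⟩ := hm
  have hcard : m = 2 * Fintype.card (Fin l) := by rw [Fintype.card_fin]; omega
  have : Nonempty (Fin l) := ⟨⟨0, by omega⟩⟩
  have ob : OddB (Fin l) (US G) m PN oP := ⟨hP, UP.syOn_N H, hoP, hcard⟩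
  refine ⟨SB.OddB.eV (Fin l) ob.hr PN oP, ?_, ?_⟩
  · have := ob.ori_eV hz
    rwa [← SB.OddB.fibre_eq (X := US G) hz] at this
  · exact ob.flip_eV.mono_tan inter_subset_left

include h H in
/-- **the degree of the antipodal map of the even dimensional fibre** -/
theorem J_flp (hkn : k < n) (hkm : k = m + 2) (hm : Even m) (hm0 : 0 < m) (hz : z ∈ US G)
    {o β : (Euc N × Euc N) × Wt N K → Ext ((Euc N × Euc N) × Wt N K)}
    (ho : Ori m (FZ G PN z) o) (hβ : Sm (FZ G PN z) β) :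
    J m (FZ G PN z) o (F.pull (flp (N := N) (K := K)) β) = -J m (FZ G PN z) o β := by
  obtain ⟨e, he, hfe⟩ := exists_ori h H hkn hkm hm hm0 hz
  have hP := UP.pfield_N H
  rw [show k - 1 = m + 1 by omega] at hP
  have hc : Clo m (FZ G PN z) := HN.clo_fib hP hz
  have hcc : IsPreconnected (FZ G PN z) := ZG.preconn_fib_Sph hP (by omega) hz
  exact J_anti (f := flp (N := N) (K := K)) hc hcc contDiff_flp (bij_flp z) he hfe ho hβ

include H in
/-- **(C)**: the fibre value -/
theorem J_rot (hkn : k < n) (hkm : k = m + 2) (hm : Even m) (hm0 : 0 < m) (hz : z ∈ US G)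
    (sk : Sm (US G) kap) {o : (Euc N × Euc N) × Wt N K → Ext ((Euc N × Euc N) × Wt N K)}
    {oW : Euc N × Euc N → Ext (Euc N × Euc N)} (ho : Ori m (FZ G PN z) o)
    (hoW : Ori (1 + m) (US G ∩ ph G ⁻¹' {ph G z}) oW) :
    |J m (FZ G PN z) o (Wp (FM.phiF h PN) (F.pull Prod.fst kap))| =
      2 * |J (1 + m) (US G ∩ ph G ⁻¹' {ph G z}) oW kap| := by
  obtain ⟨e, he, hfe⟩ := exists_ori h H hkn hkm hm hm0 hz
  have hP := UP.pfield_N H
  rw [show k - 1 = m + 1 by omega] at hP
  have hs : Swp m (FZ G PN z) (US G ∩ ph G ⁻¹' {ph G z}) (EF h PN) := swp h H hkn hkm hz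
  have hH : Sm (FZ G PN z) (Hop (EF h PN) kap) := fun y hy =>
    Sm.K (E := (Euc N × Euc N) × Wt N K) (sk.pull (smap_EF h H hkn)) y hy.1
  have hw : ∀ p ∈ FZ G PN z, Wp (FM.phiF h PN) (F.pull Prod.fst kap) p =
      Hop (EF h PN) kap p - F.pull (flp (N := N) (K := K)) (Hop (EF h PN) kap) p := fun p hp =>
    Wp_split h H hkn sk hp.1
  have hk : ContinuousOn kap (US G ∩ ph G ⁻¹' {ph G z}) :=
    fun y hy => (sk y hy.1).continuousAt.continuousWithinAt
  have hcc : IsPreconnected (FZ G PN z) := ZG.preconn_fib_Sph hP (by omega) hz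
  exact J_two (f := flp (N := N) (K := K)) hs hcc contDiff_flp (bij_flp z) he hfe ho hoW hk hH hw

include H in
/-- **(C)**, in terms of `k` -/
theorem J_rot_k (hkn : k < n) (hk : 4 ≤ k) (hke : Even k) (hz : z ∈ US G) (sk : Sm (US G) kap)
    {o : (Euc N × Euc N) × Wt N K → Ext ((Euc N × Euc N) × Wt N K)}
    {oW : Euc N × Euc N → Ext (Euc N × Euc N)}
    (ho : Ori (k - 2) (Sph (US G) PN ∩
      (Prod.fst : (Euc N × Euc N) × Wt N K → Euc N × Euc N) ⁻¹' {z}) o)
    (hoW : Ori (k - 1) (US G ∩ ph G ⁻¹' {ph G z}) oW) :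
    |J (k - 2) (Sph (US G) PN ∩
        (Prod.fst : (Euc N × Euc N) × Wt N K → Euc N × Euc N) ⁻¹' {z}) o
        (Wp (FM.phiF h PN) (F.pull Prod.fst kap))| =
      2 * |J (k - 1) (US G ∩ ph G ⁻¹' {ph G z}) oW kap| := by
  have e1 : k - 1 = 1 + (k - 2) := by omega
  rw [e1] at hoW ⊢
  have hm : Even (k - 2) := (Nat.even_sub (by omega)).2 ⟨fun _ => even_two, fun _ => hke⟩
  exact J_rot h H hkn (by omega) hm (by omega) hz sk ho hoW

/-- the two forms of the fibres of `US → F` -/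
theorem fib_phi_eq (hz : z ∈ US G) :
    US G ∩ ph G ⁻¹' {ph G z} = US G ∩ FV.phi G ⁻¹' {FV.phi G z} := by
  ext y
  constructor
  · rintro ⟨hy, hy'⟩
    refine ⟨hy, ?_⟩
    change FV.phi G y = FV.phi G z
    rw [phi_eq hy, phi_eq hz]; exact hy'
  · rintro ⟨hy, hy'⟩
    refine ⟨hy, ?_⟩
    change ph G y = ph G z
    rw [← phi_eq hy, ← phi_eq hz]; exact hy'

end main

end Crest.Agent.R208.CC
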