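import Crest.Agent.R208.RE1

/-!
Row 208, block RR, piece [RRe] (helper99), part 2: the far region and the two first order bounds.
-/

set_option autoImplicit false

open Set Filter Topology Metric
open scoped ContDiff RealInnerProductSpace
open Crest.GeometryTopology.Submanifold
open Crest.Agent.R241.DDefs
open Crest.Agent.R241.D2
open Crest.Agent.R208.GT

noncomputable section

namespace Crest.Agent.R208.RE

variable {n N k : ℕ} {κ : ℝ} {S : Set (Euc N)} {G : Geo n N κ S} {p q v w : Euc N}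

lemma sq2 (a b : ℝ) : (a + b) ^ 2 ≤ 2 * (a ^ 2 + b ^ 2) := by nlinarith [sq_nonneg (a - b)]

lemma sq3 (a b c : ℝ) : (a + b + c) ^ 2 ≤ 3 * (a ^ 2 + b ^ 2 + c ^ 2) := by
  nlinarith [sq_nonneg (a - b), sq_nonneg (a - c), sq_nonneg (b - c)]

lemma continuous_ray (hp : p ∈ S) (hv : v ∈ G.T p) : Continuous fun t : ℝ => Exp G p (t • v) := by
  rw [continuous_iff_continuousAt]
  intro t
  have h1 : ContinuousAt (Exp G p) (t • v) :=
    (R241.D3c.contDiffAt_Exp' G hp ((G.T p).smul_mem _ hv)).continuousAt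
  exact h1.comp (f := fun t : ℝ => t • v) (continuous_id.smul continuous_const).continuousAt

/-- beyond the antipode the closed geodesic is the ray `-v` -/
lemma Exp_back (h : Bla G k) (hp : p ∈ S) (hv : v ∈ G.T p) (hv1 : ‖v‖ = 1) (t : ℝ) :
    Exp G p (t • v) = Exp G p ((2 * Real.pi - t) • (-v)) := by
  have hz : ((p, v) : Euc N × Euc N) ∈ TS G := ⟨hp, hv⟩
  have h1 : Exp G p (t • v) = Exp G p ((t - 2 * Real.pi) • v) := by
    rw [Exp_smul G hp hv, Exp_smul G hp hv]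
    have h2 : fl G ((p, v), t) = fl G (fl G ((p, v), 2 * Real.pi), t - 2 * Real.pi) := by
      rw [← fl_add' G hz]; congr 2; ring
    rw [h2, h.ty.per (p, v) hz hv1]
  rw [h1]
  congr 1
  rw [smul_neg, ← neg_smul]
  congr 1
  ring

/-- the far region -/
theorem far (h : Bla G k) (hz : (p, q) ∈ FF S) (hv : v ∈ Vs G p q) (hv1 : ‖v‖ = 1)
    (hw : w ∈ Vs G p q) (hw1 : ‖w‖ = 1) (hvw : ⟪v, w⟫ = 0) {r : ℝ} (hr : 0 < r) :
    ∃ δ : ℝ, 0 < δ ∧ ∀ ρ ∈ Icc (0 : ℝ) (Real.pi / 2), ∀ t ∈ Icc (0 : ℝ) (2 * Real.pi),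
      (r ≤ ρ ∨ r ≤ |t - Real.pi|) →
      intrinsicDist S (Exp G p (ρ • w)) (Exp G p (t • v)) ≤ Real.pi - δ := by
  have hvT := h.Vs_le hz hv
  have hwT := h.Vs_le hz hw
  have hpi := Real.pi_pos
  set K : Set (ℝ × ℝ) := (Icc (0 : ℝ) (Real.pi / 2) ×ˢ Icc (0 : ℝ) (2 * Real.pi)) ∩
    {z | r ≤ z.1 ∨ r ≤ |z.2 - Real.pi|} with hK
  have hKc : IsCompact K := by
    refine (isCompact_Icc.prod isCompact_Icc).inter_right ?_
    have h1 : IsClosed {z : ℝ × ℝ | r ≤ z.1} := isClosed_le continuous_const continuous_fst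
    have h2 : IsClosed {z : ℝ × ℝ | r ≤ |z.2 - Real.pi|} :=
      isClosed_le continuous_const (continuous_snd.sub continuous_const).abs
    exact h1.union h2
  have hcont : ContinuousOn (fun z : ℝ × ℝ =>
      intrinsicDist S (Exp G p (z.1 • w)) (Exp G p (z.2 • v))) K := by
    have h1 := continuousOn_intrinsicDist h.bl.sub h.bl.cpt h.bl.conn
    refine h1.comp (f := fun z : ℝ × ℝ => (Exp G p (z.1 • w), Exp G p (z.2 • v))) ?_ ?_
    · exact (((continuous_ray hz.1 hwT).comp continuous_fst).prodMk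
        ((continuous_ray hz.1 hvT).comp continuous_snd)).continuousOn
    · intro z _
      exact ⟨Exp_mem G hz.1 ((G.T p).smul_mem _ hwT), Exp_mem G hz.1 ((G.T p).smul_mem _ hvT)⟩
  have hlt : ∀ z ∈ K, intrinsicDist S (Exp G p (z.1 • w)) (Exp G p (z.2 • v)) < Real.pi := by
    rintro ⟨ρ, t⟩ ⟨⟨⟨h1, h2⟩, ⟨h3, h4⟩⟩, h5⟩
    simp only [mem_ofPred_eq] at h1 h2 h3 h4 h5 ⊢
    rcases le_total t Real.pi with ht | ht
    · refine dist_rays_lt h hz hv hv1 hw hw1 hvw h1 (by linarith) h3 ht ?_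
      rcases h5 with h5 | h5
      · exact Or.inl (by linarith)
      · refine Or.inr fun h6 => ?_
        rw [h6, sub_self, abs_zero] at h5
        linarith
    · rw [Exp_back h hz.1 hvT hv1]
      refine dist_rays_lt h hz ((Vs G p q).neg_mem hv) (by rw [norm_neg, hv1]) hw hw1
        (by rw [inner_neg_left, hvw, neg_zero]) h1 (by linarith) (by linarith) (by linarith) ?_
      rcases h5 with h5 | h5
      · exact Or.inl (by linarith)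
      · refine Or.inr fun h6 => ?_
        have : t - Real.pi = 0 := by linarith
        rw [this, abs_zero] at h5
        linarith
  rcases K.eq_empty_or_nonempty with he | hne
  · refine ⟨1, one_pos, fun ρ hρ t ht hc => ?_⟩
    have : ((ρ, t) : ℝ × ℝ) ∈ K := ⟨⟨hρ, ht⟩, hc⟩
    rw [he] at this
    exact this.elim
  · obtain ⟨z0, hz0, hmax⟩ := hKc.exists_isMaxOn hne hcont
    refine ⟨Real.pi - intrinsicDist S (Exp G p (z0.1 • w)) (Exp G p (z0.2 • v)), ?_,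
      fun ρ hρ t ht hc => ?_⟩
    · have := hlt z0 hz0
      linarith
    · have h1 : ((ρ, t) : ℝ × ℝ) ∈ K := ⟨⟨hρ, ht⟩, hc⟩
      have h2 := hmax h1
      simp only [mem_ofPred_eq] at h2
      linarith

/-- arrival velocity in terms of `ar` -/
lemma snd_fl : (fl G ((p, v), Real.pi)).2 = -ar G p v := by rw [ar, neg_neg]

lemma ar_neg (h : Bla G k) (hz : (p, q) ∈ FF S) (hv : v ∈ Vs G p q) (hv1 : ‖v‖ = 1) :
    ar G p (-v) = -ar G p v := by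
  rw [← h.lf_unit hz hv hv1, ← h.lf_unit hz ((Vs G p q).neg_mem hv) (by rw [norm_neg, hv1]),
    map_neg]

set_option maxHeartbeats 1000000 in
/-- the two first order bounds, with a uniform constant -/
theorem bounds_unif (h : Bla G k) {C : ℝ} (hC : 0 ≤ C) :
    ∃ M : ℝ, 0 < M ∧ ∀ p q v w : Euc N, (p, q) ∈ FF S → v ∈ Vs G p q → ‖v‖ = 1 →
      w ∈ Vs G p q → ‖w‖ = 1 → ⟪v, w⟫ = 0 → ∀ n0 nπ : Euc N, ‖n0‖ ≤ C → ‖nπ‖ ≤ C →
      ∀ ε ∈ Icc (0 : ℝ) 1, ∀ a ∈ G.T p, ‖a - ε • n0‖ ≤ C * ε ^ 2 →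
      ∀ τ ∈ Icc (0 : ℝ) 1, ∀ t ∈ Icc (0 : ℝ) (2 * Real.pi), ∀ nt y : Euc N, y ∈ S →
      ‖nt - nπ‖ ≤ C * |t - Real.pi| → ‖y - Exp G p (t • v) - ε • nt‖ ≤ C * ε ^ 2 →
      intrinsicDist S (Exp G p ((1 - τ) • a + (τ * (Real.pi / 2)) • w)) y ≤
        Real.pi - ε * (⟪w, n0⟫ + ⟪ar G p w, nπ⟫) - τ * (Real.pi / 2) +
          M * (ε ^ 2 + (τ * (Real.pi / 2)) ^ 2 + (t - Real.pi) ^ 2) ∧
      intrinsicDist S (Exp G p ((1 - τ) • a + (τ * (Real.pi / 2)) • w)) y ≤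
        Real.pi - |t - Real.pi| + M * ε +
          M * (ε ^ 2 + (τ * (Real.pi / 2)) ^ 2 + (t - Real.pi) ^ 2) := by
  have hpi := Real.pi_pos
  have hpi3 := Real.pi_gt_three
  have hpi4 := Real.pi_lt_d2
  obtain ⟨K, hK, hfv⟩ := I.first_variation h.bl (I.hr_of_bl h.bl)
  obtain ⟨K1, hK1, hII⟩ := MS.exists_II_bound (G := G) h.bl.cpt
  have hK1' : 0 ≤ K1 := zero_le_one.trans hK1
  have hrem := fun (x : Euc N) (hx : x ∈ S) (u : Euc N) (hu : u ∈ G.T x) =>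
    MS.norm_Exp_sub hII hK1' hx hu
  -- the constants
  set B : ℝ := 2 * C + 2 with hB
  set c1 : ℝ := (2 + 2 * K1 ^ 2 * B ^ 2) * (8 * C ^ 2 + 2) with hc1
  set B2 : ℝ := 2 * C + K1 with hB2
  set c2 : ℝ := 3 * (1 + C ^ 2 + 11 * B2 ^ 2) with hc2
  set c0 : ℝ := K1 * (8 * C ^ 2 + 2) with hc0
  have hc0p : 0 ≤ c0 := by positivity
  have hc1p : 0 ≤ c1 := by positivity
  have hc2p : 0 ≤ c2 := by positivity
  have hB2p : 0 ≤ B2 := by positivity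
  clear_value B c1 B2 c2 c0
  refine ⟨K * (c1 + c2) + c0 + B2 + 3 * C + 1, by positivity, ?_⟩
  intro p q v w hz hv hv1 hw hw1 hvw n0 nπ hn0 hnπ ε hε a ha haε τ hτ t ht nt y hy hnt hyt
  have hpS := hz.1
  have hvT := h.Vs_le hz hv
  have hwT := h.Vs_le hz hw
  obtain ⟨hε0, hε1⟩ := hε
  obtain ⟨hτ0, hτ1⟩ := hτ
  obtain ⟨ht0, ht2⟩ := ht
  set ρ : ℝ := τ * (Real.pi / 2) with hρ
  set σ : ℝ := t - Real.pi with hσ
  have hρ0 : 0 ≤ ρ := by positivity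
  clear_value ρ σ
  have hτρ : τ ≤ ρ := by
    rw [hρ]
    exact le_mul_of_one_le_right hτ0 (by linarith)
  have hρ2 : ρ ≤ 2 := by
    rw [hρ]
    calc τ * (Real.pi / 2) ≤ 1 * (Real.pi / 2) := by gcongr
      _ ≤ 2 := by linarith
  have hσpi : |σ| ≤ Real.pi := by rw [abs_le]; constructor <;> linarith
  have hσ2 : σ ^ 2 ≤ 10 := by
    have h1 : σ ^ 2 ≤ Real.pi ^ 2 := by rw [← sq_abs]; gcongr
    nlinarith
  have hεε : ε ^ 2 ≤ ε := by nlinarith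
  have haC : ‖a‖ ≤ 2 * C * ε := by
    calc ‖a‖ = ‖(a - ε • n0) + ε • n0‖ := by congr 1; abel
      _ ≤ C * ε ^ 2 + ε * C := by
          refine (norm_add_le _ _).trans (add_le_add haε ?_)
          rw [norm_smul, Real.norm_of_nonneg hε0]
          gcongr
      _ ≤ 2 * C * ε := by
          have : C * ε ^ 2 ≤ C * ε := by gcongr
          linarith
  set A : Euc N := (1 - τ) • a + ρ • w with hA
  have hAT : A ∈ G.T p := (G.T p).add_mem ((G.T p).smul_mem _ ha) ((G.T p).smul_mem _ hwT)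
  have hAn : ‖A‖ ≤ 2 * C * ε + ρ := by
    refine (norm_add_le _ _).trans (add_le_add ?_ ?_)
    · rw [norm_smul, Real.norm_of_nonneg (by linarith)]
      calc (1 - τ) * ‖a‖ ≤ 1 * ‖a‖ := by gcongr; linarith
        _ ≤ 2 * C * ε := by rw [one_mul]; exact haC
    · rw [norm_smul, hw1, mul_one, Real.norm_of_nonneg hρ0]
  have hAB : ‖A‖ ≤ B := by
    rw [hB]
    have : C * ε ≤ C := mul_le_of_le_one_right hC hε1
    linarith
  have hA2 : ‖A‖ ^ 2 ≤ (8 * C ^ 2 + 2) * (ε ^ 2 + ρ ^ 2) := by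
    have h1 : ‖A‖ ^ 2 ≤ (2 * C * ε + ρ) ^ 2 := by gcongr
    have h2 : (2 * C * ε + ρ) ^ 2 ≤ 8 * C ^ 2 * ε ^ 2 + 2 * ρ ^ 2 := by
      have := sq_nonneg (2 * C * ε - ρ)
      linarith [this, (by ring : (2 * C * ε + ρ) ^ 2 + (2 * C * ε - ρ) ^ 2 =
        8 * C ^ 2 * ε ^ 2 + 2 * ρ ^ 2)]
    have h3 : 0 ≤ 8 * C ^ 2 * ρ ^ 2 + 2 * ε ^ 2 := by positivity
    linarith [(by ring : (8 * C ^ 2 + 2) * (ε ^ 2 + ρ ^ 2) =
      (8 * C ^ 2 * ε ^ 2 + 2 * ρ ^ 2) + (8 * C ^ 2 * ρ ^ 2 + 2 * ε ^ 2))]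
  have hxS : Exp G p A ∈ S := Exp_mem G hpS hAT
  set e1 : Euc N := Exp G p A - p - A with he1
  have he1n : ‖e1‖ ≤ c0 * (ε ^ 2 + ρ ^ 2) := by
    have h1 := hrem p hpS A hAT
    calc ‖e1‖ ≤ K1 * ‖A‖ ^ 2 := h1
      _ ≤ K1 * ((8 * C ^ 2 + 2) * (ε ^ 2 + ρ ^ 2)) := by gcongr
      _ = c0 * (ε ^ 2 + ρ ^ 2) := by rw [hc0]; ring
  have hxp : Exp G p A - p = A + e1 := by rw [he1]; abel
  have hxp2 : ‖Exp G p A - p‖ ^ 2 ≤ c1 * (ε ^ 2 + ρ ^ 2) := by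
    rw [hxp]
    have h1 : ‖e1‖ ≤ K1 * ‖A‖ ^ 2 := hrem p hpS A hAT
    have h2 : ‖e1‖ ≤ K1 * B * ‖A‖ := by
      calc ‖e1‖ ≤ K1 * ‖A‖ ^ 2 := h1
        _ = K1 * ‖A‖ * ‖A‖ := by ring
        _ ≤ K1 * B * ‖A‖ := by gcongr
    have h3 : ‖A + e1‖ ≤ ‖A‖ + K1 * B * ‖A‖ := (norm_add_le _ _).trans (by gcongr)
    have hBp : 0 ≤ B := (norm_nonneg _).trans hAB
    have h4 : ‖A + e1‖ ^ 2 ≤ (‖A‖ + K1 * B * ‖A‖) ^ 2 := by gcongr
    calc ‖A + e1‖ ^ 2 ≤ (‖A‖ + K1 * B * ‖A‖) ^ 2 := h4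
      _ ≤ (2 + 2 * K1 ^ 2 * B ^ 2) * ‖A‖ ^ 2 := by
          have := sq2 ‖A‖ (K1 * B * ‖A‖)
          linarith [(by ring : (2 + 2 * K1 ^ 2 * B ^ 2) * ‖A‖ ^ 2 =
            2 * (‖A‖ ^ 2 + (K1 * B * ‖A‖) ^ 2))]
      _ ≤ (2 + 2 * K1 ^ 2 * B ^ 2) * ((8 * C ^ 2 + 2) * (ε ^ 2 + ρ ^ 2)) := by gcongr
      _ = c1 * (ε ^ 2 + ρ ^ 2) := by rw [hc1]; ring
  -- the second point
  set V' : Euc N := (fl G ((p, v), Real.pi)).2 with hV'
  have hzv : ((p, v) : Euc N × Euc N) ∈ TS G := ⟨hpS, hvT⟩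
  have hzw : ((p, w) : Euc N × Euc N) ∈ TS G := ⟨hpS, hwT⟩
  have hqv : (fl G ((p, v), Real.pi)).1 = q := by
    rw [← Exp_smul G hpS hvT]; exact h.Exp_pi hz hv hv1
  have hqw : (fl G ((p, w), Real.pi)).1 = q := by
    rw [← Exp_smul G hpS hwT]; exact h.Exp_pi hz hw hw1
  have hV'T : V' ∈ G.T q := by
    have := (fl_mem G hzv Real.pi).2
    rwa [hqv] at this
  have hV'1 : ‖V'‖ = 1 := by rw [hV', norm_fl G hzv]; exact hv1
  have hγ : ‖Exp G p (t • v) - q - σ • V'‖ ≤ K1 * σ ^ 2 := by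
    have h1 := hrem q hz.2.1 (σ • V') ((G.T q).smul_mem _ hV'T)
    have h2 : Exp G q (σ • V') = Exp G p (t • v) := by
      rw [Exp_smul G hz.2.1 hV'T, Exp_smul G hpS hvT]
      have h3 : fl G ((p, v), t) = fl G (fl G ((p, v), Real.pi), σ) := by
        rw [← fl_add' G hzv, hσ]; congr 2; ring
      have h4 : fl G ((p, v), Real.pi) = (q, V') := Prod.ext hqv rfl
      rw [h3, h4]
    rw [h2, norm_smul, hV'1, mul_one, Real.norm_eq_abs, sq_abs] at h1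
    exact h1
  set e2 : Euc N := y - q - σ • V' - ε • nπ with he2
  have he2n : ‖e2‖ ≤ B2 * (ε ^ 2 + σ ^ 2) := by
    have h1 : e2 = (y - Exp G p (t • v) - ε • nt) + (Exp G p (t • v) - q - σ • V') +
        ε • (nt - nπ) := by rw [he2, smul_sub]; abel
    have h2 : ‖ε • (nt - nπ)‖ ≤ ε * (C * |σ|) := by
      rw [norm_smul, Real.norm_of_nonneg hε0]
      gcongr
    have h3 : ‖e2‖ ≤ C * ε ^ 2 + K1 * σ ^ 2 + ε * (C * |σ|) := by
      rw [h1]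
      exact (norm_add_le _ _).trans (add_le_add ((norm_add_le _ _).trans (add_le_add hyt hγ)) h2)
    have h4 : ε * |σ| ≤ (ε ^ 2 + σ ^ 2) / 2 := by
      have := sq_nonneg (ε - |σ|)
      rw [← sq_abs σ]
      linarith [(by ring : (ε - |σ|) ^ 2 = ε ^ 2 + |σ| ^ 2 - 2 * (ε * |σ|))]
    have h5 : ε * (C * |σ|) ≤ C * ((ε ^ 2 + σ ^ 2) / 2) := by
      calc ε * (C * |σ|) = C * (ε * |σ|) := by ring
        _ ≤ _ := by gcongr
    have h6 : 0 ≤ C * ε ^ 2 / 2 + K1 * ε ^ 2 + 3 * (C * σ ^ 2) / 2 := by positivity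
    have h7 : B2 * (ε ^ 2 + σ ^ 2) = C * ε ^ 2 + K1 * σ ^ 2 + C * ((ε ^ 2 + σ ^ 2) / 2) +
        (C * ε ^ 2 / 2 + K1 * ε ^ 2 + 3 * (C * σ ^ 2) / 2) := by rw [hB2]; ring
    rw [h7]
    linarith
  have hyq : y - q = σ • V' + ε • nπ + e2 := by rw [he2]; abel
  have hyq2 : ‖y - q‖ ^ 2 ≤ c2 * (ε ^ 2 + σ ^ 2) := by
    have h1 : ‖y - q‖ ≤ |σ| + ε * C + ‖e2‖ := by
      rw [hyq]
      refine (norm_add_le _ _).trans (add_le_add ((norm_add_le _ _).trans (add_le_add ?_ ?_)) le_rfl)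
      · rw [norm_smul, hV'1, mul_one, Real.norm_eq_abs]
      · rw [norm_smul, Real.norm_of_nonneg hε0]; gcongr
    have h2 : ‖y - q‖ ^ 2 ≤ (|σ| + ε * C + ‖e2‖) ^ 2 := by gcongr
    have h3 : (|σ| + ε * C + ‖e2‖) ^ 2 ≤ 3 * (|σ| ^ 2 + (ε * C) ^ 2 + ‖e2‖ ^ 2) :=
      sq3 _ _ _
    have h4 : ‖e2‖ ^ 2 ≤ 11 * B2 ^ 2 * (ε ^ 2 + σ ^ 2) := by
      have h5 : ‖e2‖ ^ 2 ≤ (B2 * (ε ^ 2 + σ ^ 2)) ^ 2 := by gcongr
      have h6 : ε ^ 2 + σ ^ 2 ≤ 11 := by linarith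
      have h7 : (ε ^ 2 + σ ^ 2) ^ 2 ≤ 11 * (ε ^ 2 + σ ^ 2) := by
        rw [pow_two (ε ^ 2 + σ ^ 2)]
        exact mul_le_mul_of_nonneg_right h6 (by positivity)
      calc ‖e2‖ ^ 2 ≤ (B2 * (ε ^ 2 + σ ^ 2)) ^ 2 := h5
        _ = B2 ^ 2 * (ε ^ 2 + σ ^ 2) ^ 2 := by ring
        _ ≤ B2 ^ 2 * (11 * (ε ^ 2 + σ ^ 2)) := by gcongr
        _ = 11 * B2 ^ 2 * (ε ^ 2 + σ ^ 2) := by ring
    rw [sq_abs] at h3
    have h8 : 0 ≤ C ^ 2 * σ ^ 2 + ε ^ 2 := by positivity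
    have h9 : c2 * (ε ^ 2 + σ ^ 2) = 3 * (σ ^ 2 + (ε * C) ^ 2 + 11 * B2 ^ 2 * (ε ^ 2 + σ ^ 2)) +
        3 * (C ^ 2 * σ ^ 2 + ε ^ 2) := by rw [hc2]; ring
    rw [h9]
    linarith
  set E : ℝ := ε ^ 2 + ρ ^ 2 + σ ^ 2 with hE
  have hE1 : ε ^ 2 + ρ ^ 2 ≤ E := by rw [hE]; linarith [sq_nonneg σ]
  have hE2 : ε ^ 2 + σ ^ 2 ≤ E := by rw [hE]; linarith [sq_nonneg ρ]
  have hE0 : 0 ≤ E := by positivity
  clear_value E
  have hKE : K * (‖Exp G p A - p‖ ^ 2 + ‖y - q‖ ^ 2) ≤ K * (c1 + c2) * E := by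
    have h1 : ‖Exp G p A - p‖ ^ 2 ≤ c1 * E := hxp2.trans (by gcongr)
    have h2 : ‖y - q‖ ^ 2 ≤ c2 * E := hyq2.trans (by gcongr)
    calc K * (‖Exp G p A - p‖ ^ 2 + ‖y - q‖ ^ 2) ≤ K * (c1 * E + c2 * E) := by gcongr
      _ = K * (c1 + c2) * E := by ring
  have he1E : ‖e1‖ ≤ c0 * E := he1n.trans (by gcongr)
  have he2E : ‖e2‖ ≤ B2 * E := he2n.trans (by gcongr)
  have hwA : ⟪w, A⟫ = (1 - τ) * ⟪w, a⟫ + ρ := by
    rw [hA, inner_add_right, inner_smul_right, inner_smul_right, real_inner_self_eq_norm_sq, hw1]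
    ring
  have hvA : ⟪v, A⟫ = (1 - τ) * ⟪v, a⟫ := by
    rw [hA, inner_add_right, inner_smul_right, inner_smul_right, hvw]
    ring
  constructor
  · -- first bound: the ray `w`
    have h1 := hfv (p, w) hzw hw1 Real.pi (by linarith) le_rfl (Exp G p A) hxS y hy
    rw [hqw] at h1
    simp only at h1
    set W' : Euc N := (fl G ((p, w), Real.pi)).2 with hW'
    have hW'1 : ‖W'‖ = 1 := by rw [hW', norm_fl G hzw]; exact hw1
    have hWV : ⟪W', V'⟫ = 0 := by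
      rw [hW', hV', snd_fl, snd_fl, inner_neg_neg, h.inner_ar hz hw hw1 hv hv1,
        real_inner_comm, hvw]
    have hWn : ⟪W', nπ⟫ = -⟪ar G p w, nπ⟫ := by rw [hW', snd_fl, inner_neg_left]
    have h2 : ⟪w, Exp G p A - p⟫ = (1 - τ) * ⟪w, a⟫ + ρ + ⟪w, e1⟫ := by
      rw [hxp, inner_add_right, hwA]
    have h3 : ⟪W', y - q⟫ = ε * ⟪W', nπ⟫ + ⟪W', e2⟫ := by
      rw [hyq, inner_add_right, inner_add_right, inner_smul_right, inner_smul_right, hWV]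
      ring
    have h4 : -‖e1‖ ≤ ⟪w, e1⟫ := by
      have := neg_le_of_abs_le (abs_real_inner_le_norm w e1)
      rwa [hw1, one_mul] at this
    have h5 : ⟪W', e2⟫ ≤ ‖e2‖ := by
      have := real_inner_le_norm W' e2
      rwa [hW'1, one_mul] at this
    have h6 : ε * ⟪w, n0⟫ - C * ε ^ 2 ≤ ⟪w, a⟫ := by
      have h7 : ⟪w, a⟫ = ⟪w, a - ε • n0⟫ + ε * ⟪w, n0⟫ := by
        rw [inner_sub_right, inner_smul_right]; ring
      have h8 := neg_le_of_abs_le (abs_real_inner_le_norm w (a - ε • n0))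
      rw [hw1, one_mul] at h8
      linarith
    have h7 : |⟪w, n0⟫| ≤ C := by
      have := abs_real_inner_le_norm w n0
      rw [hw1, one_mul] at this
      exact this.trans hn0
    have h8 : ε * ⟪w, n0⟫ - C * E - C * E ≤ (1 - τ) * ⟪w, a⟫ := by
      have h9 : (1 - τ) * (ε * ⟪w, n0⟫ - C * ε ^ 2) ≤ (1 - τ) * ⟪w, a⟫ := by
        gcongr
      have h10 : τ * (ε * ⟪w, n0⟫) ≤ C * E := by
        have h11 : ⟪w, n0⟫ ≤ C := (le_abs_self _).trans h7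
        calc τ * (ε * ⟪w, n0⟫) ≤ τ * (ε * C) := by gcongr
          _ ≤ ρ * (ε * C) := by gcongr
          _ = C * (ρ * ε) := by ring
          _ ≤ C * E := by
              have h13 : ρ * ε ≤ E := by
                rw [hE]
                have := sq_nonneg (ρ - ε)
                have := sq_nonneg σ
                have := sq_nonneg ρ
                have := sq_nonneg ε
                linarith [(by ring : (ρ - ε) ^ 2 = ρ ^ 2 + ε ^ 2 - 2 * (ρ * ε))]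
              gcongr
      have h12 : (1 - τ) * (C * ε ^ 2) ≤ C * E := by
        have h13 : ε ^ 2 ≤ E := by rw [hE]; linarith [sq_nonneg ρ, sq_nonneg σ]
        calc (1 - τ) * (C * ε ^ 2) ≤ 1 * (C * ε ^ 2) := by gcongr; linarith
          _ ≤ C * E := by rw [one_mul]; gcongr
      linarith [(by ring : (1 - τ) * (ε * ⟪w, n0⟫ - C * ε ^ 2) =
        ε * ⟪w, n0⟫ - τ * (ε * ⟪w, n0⟫) - (1 - τ) * (C * ε ^ 2))]
    rw [h2, h3, hWn] at h1
    have hME : (K * (c1 + c2) + c0 + B2 + 3 * C + 1) * E =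
        K * (c1 + c2) * E + c0 * E + B2 * E + 3 * (C * E) + E := by ring
    have hCE : 0 ≤ C * E := mul_nonneg hC hE0
    rw [hME]
    linarith
  · -- second bound: the rays `± v`
    have hn1 : |⟪V', nπ⟫| ≤ C := by
      have := abs_real_inner_le_norm V' nπ
      rw [hV'1, one_mul] at this
      exact this.trans hnπ
    have hn2 : |⟪V', e2⟫| ≤ ‖e2‖ := by
      have := abs_real_inner_le_norm V' e2
      rwa [hV'1, one_mul] at this
    have hn3 : |⟪v, e1⟫| ≤ ‖e1‖ := by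
      have := abs_real_inner_le_norm v e1
      rwa [hv1, one_mul] at this
    have hn4 : |⟪v, A⟫| ≤ 2 * C * ε := by
      rw [hvA, abs_mul, abs_of_nonneg (by linarith : (0 : ℝ) ≤ 1 - τ)]
      have h1 := abs_real_inner_le_norm v a
      rw [hv1, one_mul] at h1
      calc (1 - τ) * |⟪v, a⟫| ≤ 1 * |⟪v, a⟫| := by gcongr; linarith
        _ ≤ 2 * C * ε := by rw [one_mul]; exact h1.trans haC
    have h2 : ⟪v, Exp G p A - p⟫ = ⟪v, A⟫ + ⟪v, e1⟫ := by rw [hxp, inner_add_right]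
    have h3 : ⟪V', y - q⟫ = σ + ε * ⟪V', nπ⟫ + ⟪V', e2⟫ := by
      rw [hyq, inner_add_right, inner_add_right, inner_smul_right, inner_smul_right,
        real_inner_self_eq_norm_sq, hV'1]
      ring
    have h4 : |ε * ⟪V', nπ⟫| ≤ ε * C := by
      rw [abs_mul, abs_of_nonneg hε0]; gcongr
    have hME : (K * (c1 + c2) + c0 + B2 + 3 * C + 1) * ε +
        (K * (c1 + c2) + c0 + B2 + 3 * C + 1) * E =
        (K * (c1 + c2) + c0 + B2 + 1) * ε + 3 * (C * ε) +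
        (K * (c1 + c2) * E + c0 * E + B2 * E + 3 * (C * E) + E) := by ring
    have hCE : 0 ≤ C * E := mul_nonneg hC hE0
    have hpe : 0 ≤ (K * (c1 + c2) + c0 + B2 + 1) * ε := by positivity
    rw [abs_le] at hn2 hn3 hn4 h4
    rw [add_assoc, hME]
    rcases le_total 0 σ with hs | hs
    · have hvn1 : ‖-v‖ = 1 := by rw [norm_neg, hv1]
      have hz' : ((p, -v) : Euc N × Euc N) ∈ TS G := ⟨hpS, (G.T p).neg_mem hvT⟩
      have h1 := hfv (p, -v) hz' hvn1 Real.pi (by linarith) le_rfl (Exp G p A) hxS y hy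
      have hq' : (fl G ((p, -v), Real.pi)).1 = q := by
        rw [← Exp_smul G hpS ((G.T p).neg_mem hvT)]
        exact h.Exp_pi hz ((Vs G p q).neg_mem hv) hvn1
      have hV'' : (fl G ((p, -v), Real.pi)).2 = -V' := by
        rw [snd_fl, ar_neg h hz hv hv1, hV', snd_fl]
      rw [hq', hV''] at h1
      simp only [inner_neg_left] at h1
      rw [h2, h3] at h1
      rw [abs_of_nonneg hs]
      linarith
    · have h1 := hfv (p, v) hzv hv1 Real.pi (by linarith) le_rfl (Exp G p A) hxS y hy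
      rw [hqv] at h1
      simp only at h1
      rw [h2, h3] at h1
      rw [abs_of_nonpos hs]
      linarith

/-- the two first order bounds -/
theorem bounds (h : Bla G k) (hz : (p, q) ∈ FF S) (hv : v ∈ Vs G p q) (hv1 : ‖v‖ = 1)
    (hw : w ∈ Vs G p q) (hw1 : ‖w‖ = 1) (hvw : ⟪v, w⟫ = 0) {n0 nπ : Euc N} {C : ℝ}
    (hn0 : ‖n0‖ ≤ C) (hnπ : ‖nπ‖ ≤ C) :
    ∃ M : ℝ, 0 < M ∧ ∀ ε ∈ Icc (0 : ℝ) 1, ∀ a ∈ G.T p, ‖a - ε • n0‖ ≤ C * ε ^ 2 →
      ∀ τ ∈ Icc (0 : ℝ) 1, ∀ t ∈ Icc (0 : ℝ) (2 * Real.pi), ∀ nt y : Euc N, y ∈ S →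
      ‖nt - nπ‖ ≤ C * |t - Real.pi| → ‖y - Exp G p (t • v) - ε • nt‖ ≤ C * ε ^ 2 →
      intrinsicDist S (Exp G p ((1 - τ) • a + (τ * (Real.pi / 2)) • w)) y ≤
        Real.pi - ε * (⟪w, n0⟫ + ⟪ar G p w, nπ⟫) - τ * (Real.pi / 2) +
          M * (ε ^ 2 + (τ * (Real.pi / 2)) ^ 2 + (t - Real.pi) ^ 2) ∧
      intrinsicDist S (Exp G p ((1 - τ) • a + (τ * (Real.pi / 2)) • w)) y ≤
        Real.pi - |t - Real.pi| + M * ε +
          M * (ε ^ 2 + (τ * (Real.pi / 2)) ^ 2 + (t - Real.pi) ^ 2) := by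
  obtain ⟨M, hM, hb⟩ := bounds_unif h ((norm_nonneg _).trans hn0)
  exact ⟨M, hM, hb p q v w hz hv hv1 hw hw1 hvw n0 nπ hn0 hnπ⟩

end Crest.Agent.R208.RE
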