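import Crest.Agent.R208.GP1
import Crest.Agent.R208.GP3
import Crest.Agent.R208.E4a

/-! Row 208, block RR (helper198), part RS1 = [RRs]: the inverse exponential `sg x y = Exp_x⁻¹ y` is
smooth in `(x, y)` jointly, at all points of `S × S` with `d(x, y) < π`. -/

set_option autoImplicit false
set_option linter.unusedSectionVars false

open MeasureTheory Measure Set Filter Topology Module Metric
open scoped ContDiff RealInnerProductSpace
open Crest.GeometryTopology.Submanifold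
open Crest.Agent.R241.DDefs
open Crest.Agent.R241.D2
open Crest.Agent.R208.F Crest.Agent.R208.FI Crest.Agent.R208.GP

noncomputable section

namespace Crest.Agent.R208.RS

section general

variable {E F : Type*} [NormedAddCommGroup E] [NormedSpace ℝ E] [FiniteDimensional ℝ E]
  [NormedAddCommGroup F] [NormedSpace ℝ F] [FiniteDimensional ℝ F]

/-- an immersion has a smooth left inverse near the image point -/
theorem exists_left_inverse {f : E → F} {x : E} (hf : ContDiffAt ℝ ∞ f x)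
    (hi : Function.Injective (fderiv ℝ f x)) :
    ∃ g : F → E, ContDiffAt ℝ ∞ g (f x) ∧ ∀ᶠ z in 𝓝 x, g (f z) = z := by
  set A := fderiv ℝ f x with hA
  obtain ⟨L, hL⟩ := (A : E →ₗ[ℝ] F).exists_leftInverse_of_injective
    (LinearMap.ker_eq_bot.2 hi)
  set Lc : F →L[ℝ] E := LinearMap.toContinuousLinearMap L with hLc
  have hLA : Lc.comp A = ContinuousLinearMap.id ℝ E := by
    ext1 v
    exact LinearMap.congr_fun hL v
  have hφc : ContDiffAt ℝ ∞ (fun w => Lc (f w)) x := Lc.contDiff.contDiffAt.comp x hf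
  have hφd : HasFDerivAt (fun w => Lc (f w)) ((ContinuousLinearEquiv.refl ℝ E : E ≃L[ℝ] E) :
      E →L[ℝ] E) x := by
    have h1 : HasFDerivAt (fun w => Lc (f w)) (Lc.comp A) x :=
      Lc.hasFDerivAt.comp x (hf.differentiableAt (by simp)).hasFDerivAt
    rw [hLA] at h1
    exact h1
  have hs := hφc.hasStrictFDerivAt' hφd (by simp)
  refine ⟨fun y => hφc.localInverse hφd (by simp) (Lc y), ?_, ?_⟩
  · exact (hφc.to_localInverse hφd (by simp)).comp (f x) Lc.contDiff.contDiffAt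
  · exact hs.eventually_left_inverse

end general

variable {n N : ℕ} {κ : ℝ} {S : Set (Euc N)} {G : Geo n N κ S}

/-- the immersion `(x, w) ↦ ((x, Exp_x (P_x w)), w - P_x w)` -/
def Fm (G : Geo n N κ S) (q : Euc N × Euc N) : (Euc N × Euc N) × Euc N :=
  ((q.1, Exp G q.1 (G.P q.1 q.2)), q.2 - G.P q.1 q.2)

theorem Fm_tan {x v : Euc N} (hx : x ∈ S) (hv : v ∈ G.T x) :
    Fm G (x, v) = ((x, Exp G x v), 0) := by
  have h1 : G.P x v = v := (P_eq_self G hx).1 hv
  simp [Fm, h1]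

theorem contDiffAt_Fm {x v : Euc N} (hx : x ∈ S) (hv : v ∈ G.T x) :
    ContDiffAt ℝ ∞ (Fm G) (x, v) := by
  have hP : ContDiff ℝ ∞ (fun q : Euc N × Euc N => G.P q.1 q.2) :=
    (G.contDiff_P.comp contDiff_fst).clm_apply contDiff_snd
  have h1 : G.P x v = v := (P_eq_self G hx).1 hv
  have h2 : ContDiffAt ℝ ∞ (fun q : Euc N × Euc N => Exp G q.1 (G.P q.1 q.2)) (x, v) := by
    have h3 : ContDiffAt ℝ ∞ (fun q : Euc N × Euc N => Exp G q.1 q.2) (x, G.P x v) := by
      rw [h1]; exact contDiffAt_Exp G hx hv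
    exact ContDiffAt.comp (x, v) (f := fun q : Euc N × Euc N => (q.1, G.P q.1 q.2)) h3
      (contDiffAt_fst.prodMk hP.contDiffAt)
  exact (contDiffAt_fst.prodMk h2).prodMk (contDiffAt_snd.sub hP.contDiffAt)

theorem inj_fderiv_Fm (hB : Bl n N κ S G Real.pi) {x v : Euc N} (hx : x ∈ S) (hv : v ∈ G.T x)
    (hn : ‖v‖ < Real.pi) : Function.Injective (fderiv ℝ (Fm G) (x, v)) := by
  have hd : HasFDerivAt (Fm G) (fderiv ℝ (Fm G) (x, v)) (x, v) :=
    ((contDiffAt_Fm hx hv).differentiableAt (by simp)).hasFDerivAt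
  rw [injective_iff_map_eq_zero]
  rintro ⟨ξ, η⟩ h0
  -- first component
  have h1 : ξ = 0 := by
    have h2 := ((ContinuousLinearMap.fst ℝ (Euc N) (Euc N)).comp
      (ContinuousLinearMap.fst ℝ (Euc N × Euc N) (Euc N))).hasFDerivAt.comp (x, v) hd
    have h3 : ((ContinuousLinearMap.fst ℝ (Euc N) (Euc N)).comp
      (ContinuousLinearMap.fst ℝ (Euc N × Euc N) (Euc N))) ∘ Fm G = Prod.fst := by
      funext q; rfl
    rw [h3] at h2
    have h4 := h2.unique hasFDerivAt_fst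
    have h5 := congrArg (fun A => A (ξ, η)) h4
    simp only [ContinuousLinearMap.comp_apply, h0] at h5
    simpa using h5.symm
  subst h1
  -- the curve
  have hc : HasDerivAt (fun t : ℝ => Fm G (x, v + t • η)) (0 : (Euc N × Euc N) × Euc N) 0 := by
    have h2 : HasDerivAt (fun t : ℝ => (x, v + t • η)) ((0 : Euc N), η) 0 := by
      have h := ((hasDerivAt_id (0 : ℝ)).smul_const η).const_add v
      simpa using (hasDerivAt_const (0 : ℝ) x).prodMk h
    have h3 : HasFDerivAt (Fm G) (fderiv ℝ (Fm G) (x, v))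
        ((fun t : ℝ => (x, v + t • η)) 0) := by simpa using hd
    have h4 := h3.comp_hasDerivAt (0 : ℝ) h2
    rw [h0] at h4
    exact h4
  -- third component
  have h2 : G.P x η = η := by
    have h3 : HasDerivAt (fun t : ℝ => (Fm G (x, v + t • η)).2) (0 : Euc N) 0 :=
      (ContinuousLinearMap.snd ℝ (Euc N × Euc N) (Euc N)).hasFDerivAt.comp_hasDerivAt 0 hc
    have h4 : HasDerivAt (fun t : ℝ => (Fm G (x, v + t • η)).2) (η - G.P x η) 0 := by
      have h5 : (fun t : ℝ => (Fm G (x, v + t • η)).2) =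
          fun t : ℝ => (v - G.P x v) + t • (η - G.P x η) := by
        funext t
        simp only [Fm, map_add, map_smul, smul_sub]
        abel
      rw [h5]
      have h := ((hasDerivAt_id (0 : ℝ)).smul_const (η - G.P x η)).const_add (v - G.P x v)
      simpa using h
    exact (sub_eq_zero.1 (h3.unique h4).symm).symm
  have hη : η ∈ G.T x := (P_eq_self G hx).2 h2
  obtain ⟨b, hb⟩ := exists_frame G hx
  obtain ⟨v0, rfl⟩ := exists_frame_eq hb hv
  obtain ⟨η0, rfl⟩ := exists_frame_eq hb hη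
  have hn' : ‖v0‖ < Real.pi := by rwa [norm_b] at hn
  have h3 : HasDerivAt (fun t : ℝ => (Fm G (x, b v0 + t • b η0)).1.2) (0 : Euc N) 0 :=
    ((ContinuousLinearMap.snd ℝ (Euc N) (Euc N)).comp
      (ContinuousLinearMap.fst ℝ (Euc N × Euc N) (Euc N))).hasFDerivAt.comp_hasDerivAt 0 hc
  have h4 : (fun t : ℝ => (Fm G (x, b v0 + t • b η0)).1.2) =
      fun t : ℝ => Exp G x (b (v0 + t • η0)) := by
    funext t
    have : G.P x (b v0 + t • b η0) = b (v0 + t • η0) := by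
      rw [← map_smul, ← map_add]
      exact (P_eq_self G hx).1 (frame_mem hb _)
    simp only [Fm, this]
  rw [h4] at h3
  have h5 : HasDerivAt (fun t : ℝ => Exp G x (b (v0 + t • η0)))
      (fderiv ℝ (fun v => Exp G x (b v)) v0 η0) 0 := by
    have h6 : HasDerivAt (fun t : ℝ => v0 + t • η0) η0 0 := by
      have h := ((hasDerivAt_id (0 : ℝ)).smul_const η0).const_add v0
      simpa using h
    have h7 : HasFDerivAt (fun v => Exp G x (b v)) (fderiv ℝ (fun v => Exp G x (b v)) v0)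
        ((fun t : ℝ => v0 + t • η0) 0) := by
      simp only [zero_smul, add_zero]
      exact ((contDiff_Exp_frame G hx hb).contDiffAt.differentiableAt (by simp)).hasFDerivAt
    exact h7.comp_hasDerivAt (0 : ℝ) h6
  have h6 : η0 = 0 := by
    have h7 := h5.unique h3
    exact (injective_iff_map_eq_zero _).1 (inj_fderiv hB hx hb hn') _ h7
  rw [h6, map_zero]
  rfl

/-- the compact set of vectors of length `≤ r` -/
theorem isCompact_TSr (hB : Bl n N κ S G Real.pi) (r : ℝ) :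
    IsCompact {q : Euc N × Euc N | q ∈ TS G ∧ ‖q.2‖ ≤ r} := by
  have hcl : IsClosed (TS G) := by
    have h1 : TS G = {q : Euc N × Euc N | q.1 ∈ S ∧ G.P q.1 q.2 = q.2} := by
      ext q
      constructor
      · rintro ⟨h, h'⟩
        exact ⟨h, (P_eq_self G h).1 h'⟩
      · rintro ⟨h, h'⟩
        exact ⟨h, (P_eq_self G h).2 h'⟩
    rw [h1]
    refine (hB.cpt.isClosed.preimage continuous_fst).inter (isClosed_eq ?_ continuous_snd)
    exact ((G.contDiff_P.comp contDiff_fst).clm_apply contDiff_snd).continuous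
  have h2 : {q : Euc N × Euc N | q ∈ TS G ∧ ‖q.2‖ ≤ r} =
      (S ×ˢ Metric.closedBall (0 : Euc N) r) ∩ TS G := by
    ext q
    simp only [mem_ofPred_eq, mem_inter_iff, mem_prod, mem_closedBall_zero_iff]
    constructor
    · rintro ⟨h, h'⟩; exact ⟨⟨h.1, h'⟩, h⟩
    · rintro ⟨⟨_, h'⟩, h⟩; exact ⟨h, h'⟩
  rw [h2]
  exact (hB.cpt.prod (isCompact_closedBall _ _)).inter_right hcl

/-- **[RRs]: the smooth inverse exponential** -/
theorem exists_sg (hB : Bl n N κ S G Real.pi) : ∃ sg : Euc N → Euc N → Euc N,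
    (∀ x ∈ S, ∀ y ∈ S, sg x y ∈ G.T x ∧ ‖sg x y‖ = intrinsicDist S x y ∧ Exp G x (sg x y) = y) ∧
    (∀ x ∈ S, ∀ y ∈ S, intrinsicDist S x y < Real.pi →
      ContDiffAt ℝ ∞ (fun q : Euc N × Euc N => sg q.1 q.2) (x, y)) ∧
    (∀ x ∈ S, ∀ v ∈ G.T x, ‖v‖ < Real.pi → sg x (Exp G x v) = v) ∧
    ∀ x ∈ S, sg x x = 0 := by
  classical
  have hex : ∀ x y : Euc N, ∃ v : Euc N, x ∈ S → y ∈ S →
      (v ∈ G.T x ∧ ‖v‖ = intrinsicDist S x y ∧ Exp G x v = y) := by
    intro x y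
    by_cases h : x ∈ S ∧ y ∈ S
    · obtain ⟨v, h1, h2, h3⟩ := hB.exists_Exp h.1 h.2
      exact ⟨v, fun _ _ => ⟨h1, h2, h3⟩⟩
    · exact ⟨0, fun h1 h2 => (h ⟨h1, h2⟩).elim⟩
  choose s0 hs0 using hex
  obtain ⟨ρ, O, hO, hSO, hρ, hρS, hρe⟩ := E.exists_retract (clo_S hB)
  have hle : ∀ x ∈ S, ∀ y ∈ S, ‖s0 x y‖ ≤ Real.pi := fun x hx y hy => by
    rw [(hs0 x y hx hy).2.1]; exact hB.dist_le x hx y hy
  -- local smooth extension of `s0`
  have key : ∀ x ∈ S, ∀ y ∈ S, intrinsicDist S x y < Real.pi →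
      ∃ g : Euc N × Euc N → Euc N, ContDiffAt ℝ ∞ g (x, y) ∧
        ∀ᶠ q : Euc N × Euc N in 𝓝 (x, y), q.1 ∈ S → q.2 ∈ S → s0 q.1 q.2 = g q := by
    intro x hx y hy hxy
    obtain ⟨hv, hvn, hve⟩ := hs0 x y hx hy
    obtain ⟨g, hg, hgl⟩ := exists_left_inverse (contDiffAt_Fm (G := G) hx hv)
      (inj_fderiv_Fm hB hx hv (hvn ▸ hxy))
    rw [Fm_tan hx hv, hve] at hg
    obtain ⟨U, hU, hUo, hvU⟩ := _root_.eventually_nhds_iff.1 hgl
    refine ⟨fun q => (g (q, 0)).2, ?_, ?_⟩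
    · exact contDiffAt_snd.comp (x, y) (ContDiffAt.comp (x, y)
        (f := fun q : Euc N × Euc N => (q, (0 : Euc N))) hg
        (contDiffAt_id.prodMk contDiffAt_const))
    · set K : Set (Euc N × Euc N) := {q | q ∈ TS G ∧ ‖q.2‖ ≤ Real.pi} with hK
      have hKc := isCompact_TSr hB Real.pi
      have hcont : ContinuousOn (fun q : Euc N × Euc N => (q.1, Exp G q.1 q.2)) (K \ U) := by
        rintro ⟨a, w⟩ hq
        refine ContinuousAt.continuousWithinAt ?_
        exact continuousAt_fst.prodMk (contDiffAt_Exp G hq.1.1.1 hq.1.1.2).continuousAt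
      have himg : IsCompact ((fun q : Euc N × Euc N => (q.1, Exp G q.1 q.2)) '' (K \ U)) :=
        (hKc.diff hUo).image_of_continuousOn hcont
      have hnot : (x, y) ∉ (fun q : Euc N × Euc N => (q.1, Exp G q.1 q.2)) '' (K \ U) := by
        rintro ⟨⟨a, w⟩, ⟨⟨⟨ha, hw⟩, hwn⟩, hnU⟩, hq⟩
        simp only [Prod.mk.injEq] at hq
        obtain ⟨rfl, hq⟩ := hq
        have h1 : s0 a y = w := hB.Exp_inj hx hv hw (hvn ▸ hxy) hwn (hve.trans hq.symm)
        rw [← h1] at hnU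
        exact hnU hvU
      filter_upwards [himg.isClosed.isOpen_compl.mem_nhds hnot] with q hq hq1 hq2
      obtain ⟨h1, h2, h3⟩ := hs0 q.1 q.2 hq1 hq2
      have h4 : (q.1, s0 q.1 q.2) ∈ U := by
        by_contra hnU
        exact hq ⟨(q.1, s0 q.1 q.2), ⟨⟨⟨hq1, h1⟩, hle _ hq1 _ hq2⟩, hnU⟩,
          Prod.ext rfl h3⟩
      have h5 := hU _ h4
      rw [Fm_tan hq1 h1, h3] at h5
      show s0 q.1 q.2 = (g ((q.1, q.2), 0)).2
      rw [h5]
  refine ⟨fun x y => s0 (ρ x) (ρ y), fun x hx y hy => ?_, fun x hx y hy hxy => ?_,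
    fun x hx v hv hn => ?_, fun x hx => ?_⟩
  · simp only [hρe x hx, hρe y hy]
    exact hs0 x y hx hy
  · obtain ⟨g, hg, hge⟩ := key x hx y hy hxy
    have hρx : ContDiffAt ℝ ∞ ρ x := hρ.contDiffAt (hO.mem_nhds (hSO hx))
    have hρy : ContDiffAt ℝ ∞ ρ y := hρ.contDiffAt (hO.mem_nhds (hSO hy))
    have hρρ : ContDiffAt ℝ ∞ (fun q : Euc N × Euc N => (ρ q.1, ρ q.2)) (x, y) :=
      (ContDiffAt.comp (x, y) (f := Prod.fst) hρx contDiffAt_fst).prodMk
        (ContDiffAt.comp (x, y) (f := Prod.snd) hρy contDiffAt_snd)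
    have hg' : ContDiffAt ℝ ∞ g ((fun q : Euc N × Euc N => (ρ q.1, ρ q.2)) (x, y)) := by
      simpa [hρe x hx, hρe y hy] using hg
    refine (ContDiffAt.comp (x, y) hg' hρρ).congr_of_eventuallyEq ?_
    have h1 : ∀ᶠ q : Euc N × Euc N in 𝓝 (x, y), (q.1 ∈ O ∧ q.2 ∈ O) :=
      (hO.prod hO).mem_nhds ⟨hSO hx, hSO hy⟩
    have h2 : Tendsto (fun q : Euc N × Euc N => (ρ q.1, ρ q.2)) (𝓝 (x, y)) (𝓝 (x, y)) := by
      have := hρρ.continuousAt
      simpa [ContinuousAt, hρe x hx, hρe y hy] using this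
    filter_upwards [h1, h2.eventually hge] with q hq1 hq2
    exact hq2 (hρS hq1.1) (hρS hq1.2)
  · have hy : Exp G x v ∈ S := Exp_mem G hx hv
    simp only [hρe x hx, hρe _ hy]
    obtain ⟨h1, h2, h3⟩ := hs0 x (Exp G x v) hx hy
    exact (hB.Exp_inj hx hv h1 hn (hle _ hx _ hy) h3.symm).symm
  · simp only [hρe x hx]
    obtain ⟨h1, h2, h3⟩ := hs0 x x hx hx
    have h4 : Exp G x 0 = x := Exp_zero G hx
    exact (hB.Exp_inj hx (G.T x).zero_mem h1 (by rw [norm_zero]; exact Real.pi_pos) (hle _ hx _ hx)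
      (h4.trans h3.symm)).symm

/-- `{d < r}` is open in `S × S` -/
theorem isOpen_dist_lt (hB : Bl n N κ S G Real.pi) {x y : Euc N} (hx : x ∈ S) (hy : y ∈ S) {r : ℝ}
    (h : intrinsicDist S x y < r) :
    ∀ᶠ q : Euc N × Euc N in 𝓝 (x, y), q.1 ∈ S → q.2 ∈ S → intrinsicDist S q.1 q.2 < r := by
  have h2 : ContinuousOn (fun z : Euc N × Euc N => intrinsicDist S z.1 z.2) (S ×ˢ S) :=
    hB.continuousOn_dist
  have h3 := (h2 (x, y) ⟨hx, hy⟩).eventually (gt_mem_nhds h)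
  rw [eventually_nhdsWithin_iff] at h3
  filter_upwards [h3] with q hq h4 h5
  exact hq ⟨h4, h5⟩

end Crest.Agent.R208.RS
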