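import Crest.Agent.R208.CG5
import Crest.Agent.R208.RS1
import Crest.Agent.R208.RE2
import Crest.Agent.R208.CM6b

/-! Row 208, block RR, piece (CG) (helper99), part CG6: **the comparison theorem** `CG.main`:
the discs of two equivariant contractions of the closed geodesics (with centre paths from the two
poles of the sphere through `v, w`) against the disc of the rotation in the plane `v, w`. -/

set_option autoImplicit false
set_option linter.unusedSectionVars false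
set_option linter.unusedVariables false

open MeasureTheory Set Filter Topology Module
open scoped ContDiff RealInnerProductSpace
open Crest.GeometryTopology.Submanifold
open Crest.Agent.R241.DDefs
open Crest.Agent.R241.D2
open Crest.Agent.R208.GT
open Crest.Agent.R208.F Crest.Agent.R208.FI Crest.Agent.R208.CW Crest.Agent.R208.T
open Crest.Agent.R208.RR

noncomputable section

namespace Crest.Agent.R208.CG

variable {n N k : ℕ} {κ : ℝ} {S : Set (Euc N)} {G : Geo n N κ S} {p q v w u : Euc N}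

/-- the domain of the cone primitive -/
def dom (S : Set (Euc N)) : Set (Euc N × Euc N) :=
  {z | z.1 ∈ S ∧ z.2 ∈ S ∧ intrinsicDist S z.1 z.2 < Real.pi}

/-- the geodesic cones are contraction data on `dom S` -/
theorem exists_con (hB : Bl n N κ S G Real.pi) :
    ∃ Gm : (Euc N × Euc N) × ℝ → Euc N, Con S (dom S) Gm := by
  obtain ⟨sg, h1, h2, h3, h4⟩ := RS.exists_sg hB
  refine ⟨fun y => Exp G y.1.1 (y.2 • sg y.1.1 y.1.2), ⟨fun y hy => ?_, fun y hy => ?_⟩,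
    fun z hz => ?_, fun z hz => ?_⟩
  · obtain ⟨a1, a2, a3⟩ := mem_Cyl.1 hy
    have b1 := h2 _ a1 _ a2 a3
    have b2 : ContDiffAt ℝ ∞ (fun y : (Euc N × Euc N) × ℝ => sg y.1.1 y.1.2) y :=
      ContDiffAt.comp (g := fun q : Euc N × Euc N => sg q.1 q.2)
        (f := fun y : (Euc N × Euc N) × ℝ => y.1) y b1 contDiffAt_fst
    have b3 : ContDiffAt ℝ ∞ (fun y : (Euc N × Euc N) × ℝ =>
        ((y.1.1, y.2 • sg y.1.1 y.1.2) : Euc N × Euc N)) y :=
      (contDiffAt_fst.fst).prodMk (contDiffAt_snd.smul b2)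
    have b4 := contDiffAt_Exp G a1 ((G.T y.1.1).smul_mem y.2 (h1 _ a1 _ a2).1)
    exact ContDiffAt.comp (g := fun q : Euc N × Euc N => Exp G q.1 q.2) y b4 b3
  · obtain ⟨a1, a2, a3⟩ := mem_Cyl.1 hy
    exact Exp_mem G a1 ((G.T y.1.1).smul_mem y.2 (h1 _ a1 _ a2).1)
  · simp only [one_smul]
    exact (h1 _ hz.1 _ hz.2.1).2.2
  · simp only [zero_smul]
    exact Exp_zero G hz.1

/-- points of two rays of `V_pq` have distance `< π` unless they are the two ends of a closed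
geodesic -/
theorem dist_rays_lt' (h : Bla G k) (hz : (p, q) ∈ FF S) (hv : v ∈ Vs G p q) (hv1 : ‖v‖ = 1)
    (hw : w ∈ Vs G p q) (hw1 : ‖w‖ = 1) (hvw : v ≠ -w) {ρ t : ℝ} (hρ0 : 0 < ρ)
    (hρ : ρ < Real.pi) (ht0 : 0 ≤ t) (ht : t ≤ Real.pi) :
    intrinsicDist S (Exp G p (ρ • w)) (Exp G p (t • v)) < Real.pi := by
  have hpS := hz.1
  have hqS : q ∈ S := hz.2.1
  have hvT := h.Vs_le hz hv
  have hwT := h.Vs_le hz hw
  have hvq := h.Exp_pi hz hv hv1
  have hwq := h.Exp_pi hz hw hw1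
  have hx : Exp G p (ρ • w) ∈ S := Exp_mem G hpS ((G.T p).smul_mem _ hwT)
  have hy : Exp G p (t • v) ∈ S := Exp_mem G hpS ((G.T p).smul_mem _ hvT)
  have d1 : intrinsicDist S p (Exp G p (ρ • w)) = ρ := by
    have := h.bl.dist_ray hpS hwT hw1 (s := 0) (t := ρ) hρ0.le (by linarith)
    rwa [zero_smul, Exp_zero G hpS, sub_zero] at this
  have d2 : intrinsicDist S p (Exp G p (t • v)) = t := by
    have := h.bl.dist_ray hpS hvT hv1 (s := 0) (t := t) ht0 (by linarith)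
    rwa [zero_smul, Exp_zero G hpS, sub_zero] at this
  have d3 : intrinsicDist S (Exp G p (ρ • w)) q = Real.pi - ρ := by
    have := h.bl.dist_ray hpS hwT hw1 (s := ρ) (t := Real.pi) hρ.le (by linarith)
    rwa [hwq] at this
  have d4 : intrinsicDist S (Exp G p (t • v)) q = Real.pi - t := by
    have := h.bl.dist_ray hpS hvT hv1 (s := t) (t := Real.pi) ht (by linarith)
    rwa [hvq] at this
  have t1 := I.tri h.bl hx hpS hy
  rw [intrinsicDist_comm S (Exp G p (ρ • w)) p, d1, d2] at t1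
  have t2 := I.tri h.bl hx hqS hy
  rw [intrinsicDist_comm S q (Exp G p (t • v)), d3, d4] at t2
  rcases lt_trichotomy (ρ + t) Real.pi with hlt | heq | hgt
  · exact t1.trans_lt hlt
  · by_contra hcon
    rw [not_lt] at hcon
    have htpos : 0 < t := by linarith
    exact hvw (h.bl.no_corner hpS hwT hvT hw1 hv1 hρ0 htpos hρ.le ht (by rw [heq]; exact hcon))
  · exact t2.trans_lt (by linarith)

/-- the unit vectors of the plane `v, w` -/
theorem rot_unit (hv1 : ‖v‖ = 1) (hw1 : ‖w‖ = 1) (hvw : ⟪v, w⟫ = 0) (t : ℝ) :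
    ‖Real.cos t • v + Real.sin t • w‖ = 1 := by
  have h1 : ‖Real.cos t • v + Real.sin t • w‖ ^ 2 = 1 := by
    rw [← real_inner_self_eq_norm_sq]
    simp only [inner_add_left, inner_add_right, inner_smul_left, inner_smul_right,
      real_inner_self_eq_norm_sq, hv1, hw1, hvw, real_inner_comm, conj_trivial]
    nlinarith [Real.sin_sq_add_cos_sq t]
  have h2 := norm_nonneg (Real.cos t • v + Real.sin t • w)
  nlinarith

/-- **(CG)** the comparison theorem -/
theorem main {E : Type} [NormedAddCommGroup E] [NormedSpace ℝ E] [FiniteDimensional ℝ E]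
    {Z : Set E} {P : E → Euc N × Euc N} {w : E → Euc N} {A B cA cB : E × ℝ → Euc N}
    {φ φ' : ℝ → E → E} {ξ : Euc N → Ext (Euc N)}
    (h : Bla G k) (hP : SMap Z (L.US G) P) (hφ : CM.Cir Z φ) (hφ' : CM.Cir Z φ')
    (hPφ : ∀ x ∈ Z, ∀ t, P (φ t x) = fl G (P x, t))
    (hPφ' : ∀ x ∈ Z, ∀ t, P (φ' t x) = ((P x).1, Real.cos t • (P x).2 + Real.sin t • w x))
    (hw : ∀ x ∈ Z, w x ∈ Vs G (P x).1 (Exp G (P x).1 (Real.pi • (P x).2)))
    (hw1 : ∀ x ∈ Z, ‖w x‖ = 1) (hvw : ∀ x ∈ Z, ⟪(P x).2, w x⟫ = 0)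
    (hξ : Sm S ξ) (hcl : Cl S ξ) (hA : SMap (Cyl Z) S A) (hB : SMap (Cyl Z) S B)
    (hcA : SMap (Cyl Z) S cA) (hcB : SMap (Cyl Z) S cB)
    (A0 : ∀ x ∈ Z, A (x, 0) = (P x).1) (B0 : ∀ x ∈ Z, B (x, 0) = (P x).1)
    (A1 : ∀ x ∈ Z, ∀ t, A (φ t x, 1) = A (x, 1)) (B1 : ∀ x ∈ Z, ∀ t, B (φ t x, 1) = B (x, 1))
    (cA0 : ∀ x ∈ Z, cA (x, 0) = Exp G (P x).1 ((Real.pi / 2) • w x))
    (cB0 : ∀ x ∈ Z, cB (x, 0) = Exp G (P x).1 (-((Real.pi / 2) • w x)))
    (UA : ∀ x ∈ Z, ∀ t : ℝ, ∀ s ∈ Icc (0 : ℝ) 1,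
      intrinsicDist S (cA (x, s)) (A (φ t x, s)) < Real.pi)
    (UB : ∀ x ∈ Z, ∀ t : ℝ, ∀ s ∈ Icc (0 : ℝ) 1,
      intrinsicDist S (cB (x, s)) (B (φ t x, s)) < Real.pi) :
    Coh Z (Wp φ (K (E := E) (F.pull A ξ)) - Wp φ (K (E := E) (F.pull B ξ)))
      (-(Wp φ' (K (E := E) (F.pull (fun y : E × ℝ =>
        Exp G (P y.1).1 ((Real.pi * y.2) • (P y.1).2)) ξ)))) := by
  have hpi := Real.pi_pos
  obtain ⟨Gm, hC⟩ := exists_con h.bl
  have hmem : ∀ {c : E × ℝ → Euc N} {A : E × ℝ → Euc N}, SMap (Cyl Z) S c → SMap (Cyl Z) S A →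
      (∀ x ∈ Z, ∀ t : ℝ, ∀ s ∈ Icc (0 : ℝ) 1,
        intrinsicDist S (c (x, s)) (A (φ t x, s)) < Real.pi) →
      ∀ x ∈ Z, ∀ t : ℝ, ∀ s ∈ Icc (0 : ℝ) 1, (c (x, s), A (φ t x, s)) ∈ dom S :=
    fun hc hA hU x hx t s hs => ⟨hc.maps (mem_Cyl.2 hx), hA.maps (mem_Cyl.2 (hφ.maps t hx)),
      hU x hx t s hs⟩
  -- the rotation family
  have hA' : SMap (Cyl Z) S (fun y : E × ℝ => Exp G (P y.1).1 ((Real.pi * y.2) • (P y.1).2)) := by
    refine ⟨fun y hy => ?_, fun y hy => ?_⟩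
    · have hx := mem_Cyl.1 hy
      have b1 := (smap_comp hP (smap_fst (Z := Z))).smooth y hy
      have b2 : ContDiffAt ℝ ∞ (fun y : E × ℝ =>
          (((P y.1).1, (Real.pi * y.2) • (P y.1).2) : Euc N × Euc N)) y :=
        b1.fst.prodMk ((contDiffAt_const.mul contDiffAt_snd).smul b1.snd)
      have b3 := contDiffAt_Exp G (hP.maps hx).1.1
        ((G.T (P y.1).1).smul_mem (Real.pi * y.2) (hP.maps hx).1.2)
      exact ContDiffAt.comp (g := fun q : Euc N × Euc N => Exp G q.1 q.2) y b3 b2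
    · have hx := mem_Cyl.1 hy
      exact Exp_mem G (hP.maps hx).1.1 ((G.T (P y.1).1).smul_mem _ (hP.maps hx).1.2)
  -- facts at one point
  have hFF : ∀ x ∈ Z, ((P x).1, Exp G (P x).1 (Real.pi • (P x).2)) ∈ FF S := fun x hx =>
    h.mem_FF (hP.maps hx).1.1 (hP.maps hx).1.2 (hP.maps hx).2
  have hvV : ∀ x ∈ Z, (P x).2 ∈ Vs G (P x).1 (Exp G (P x).1 (Real.pi • (P x).2)) := fun x hx =>
    mem_Vs (hP.maps hx).1.2 (hP.maps hx).2
  have hu : ∀ x ∈ Z, ∀ t : ℝ, Real.cos t • (P x).2 + Real.sin t • w x ∈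
      Vs G (P x).1 (Exp G (P x).1 (Real.pi • (P x).2)) := fun x hx t =>
    (Vs G _ _).add_mem ((Vs G _ _).smul_mem _ (hvV x hx)) ((Vs G _ _).smul_mem _ (hw x hx))
  have hu1 : ∀ x ∈ Z, ∀ t : ℝ, ‖Real.cos t • (P x).2 + Real.sin t • w x‖ = 1 := fun x hx t =>
    rot_unit (hP.maps hx).2 (hw1 x hx) (hvw x hx) t
  have huw : ∀ x ∈ Z, ∀ t : ℝ, ⟪Real.cos t • (P x).2 + Real.sin t • w x, w x⟫ = Real.sin t := by
    intro x hx t
    rw [inner_add_left, inner_smul_left, inner_smul_left, hvw x hx, real_inner_self_eq_norm_sq,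
      hw1 x hx]
    simp
  refine compare hC hξ hcl hφ hφ' hA hB hcA hcB hA' A1 B1 (hmem hcA hA UA) (hmem hcB hB UB)
    (fun x hx => (A0 x hx).trans (B0 x hx).symm) (fun x hx s hs => ?_) (fun x hx s hs => ?_)
    (fun x hx t => ?_) (fun x hx t => ?_) (fun x hx t ht s hs => ?_) (fun x hx t ht s hs => ?_)
  · -- first half of the closed geodesic
    rw [A0 _ (hφ.maps _ hx), hPφ x hx]
    exact (Exp_smul G (hP.maps hx).1.1 (hP.maps hx).1.2 _).symm
  · -- second half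
    rw [A0 _ (hφ.maps _ hx), hPφ x hx]
    simp only
    rw [hPφ' x hx, Real.cos_pi, Real.sin_pi, zero_smul, add_zero, neg_one_smul,
      ← Exp_smul G (hP.maps hx).1.1 (hP.maps hx).1.2,
      RE.Exp_back h (hP.maps hx).1.1 (hP.maps hx).1.2 (hP.maps hx).2]
    congr 2
    ring
  · simp only
    rw [hPφ' x hx, mul_zero, zero_smul, zero_smul]
  · simp only
    rw [hPφ' x hx, mul_one]
    simp only
    rw [h.Exp_pi (hFF x hx) (hu x hx t) (hu1 x hx t)]
  · refine ⟨hcA.maps (mem_Cyl.2 hx), hA'.maps (mem_Cyl.2 (hφ'.maps t hx)), ?_⟩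
    simp only
    rw [cA0 x hx, hPφ' x hx]
    refine dist_rays_lt' h (hFF x hx) (hu x hx t) (hu1 x hx t) (hw x hx) (hw1 x hx) ?_
      (by positivity) (by linarith) (mul_nonneg hpi.le hs.1) (by nlinarith [hs.2])
    intro he
    have h1 := huw x hx t
    rw [he, inner_neg_left, real_inner_self_eq_norm_sq, hw1 x hx] at h1
    have := Real.sin_nonneg_of_mem_Icc ht
    linarith
  · refine ⟨hcB.maps (mem_Cyl.2 hx), hA'.maps (mem_Cyl.2 (hφ'.maps t hx)), ?_⟩
    simp only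
    rw [cB0 x hx, hPφ' x hx, ← smul_neg]
    refine dist_rays_lt' h (hFF x hx) (hu x hx t) (hu1 x hx t) ((Vs G _ _).neg_mem (hw x hx))
      (by rw [norm_neg, hw1 x hx]) ?_ (by positivity) (by linarith) (mul_nonneg hpi.le hs.1)
      (by nlinarith [hs.2])
    intro he
    rw [neg_neg] at he
    have h1 := huw x hx t
    rw [he, real_inner_self_eq_norm_sq, hw1 x hx] at h1
    have h2 : Real.sin t ≤ 0 := by
      have h3 := Real.sin_nonneg_of_nonneg_of_le_pi (x := t - Real.pi) (by linarith [ht.1])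
        (by linarith [ht.2])
      rw [Real.sin_sub_pi] at h3
      linarith
    linarith

end Crest.Agent.R208.CG
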