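import Crest.Agent.R208.RRc365C

/-! Row 208, block RR / (K8) (helper545): **the value of `D` without the F-family.**
`exists_prim` (on `US`), `D_tot`, `D_value`, `D_value'` (any `Fam` over `τ : Z → US`), `J_value`
(with `rr1`), `J_US_value` (`Z = US`, `h = 1`).
`h_m(x_2, x_1) ~ 0` on `F` (X1d) gives a primitive of `(m+1) p^*ξ^m` on `US` whose pairing with
`p^*ξ^m` is the Fubini number; with `rr2` and fibre integration this gives `D` of every family. -/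

set_option autoImplicit false
set_option linter.unusedSectionVars false
set_option linter.unusedVariables false

open MeasureTheory MeasureTheory.Measure Set Filter Topology Module Metric
open scoped ContDiff RealInnerProductSpace
open Crest.GeometryTopology.Submanifold
open Crest.Agent.R241.DDefs
open Crest.Agent.R241.D2
open Crest.Agent.R208.F Crest.Agent.R208.FI Crest.Agent.R208.CW Crest.Agent.R208.T
open Crest.Agent.R208.RR Crest.Agent.R208.RRC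
open Crest.Agent.R208.L (US)

noncomputable section

namespace Crest.Agent.R208.KD

section us
variable {n N k : ℕ} {κ : ℝ} {S : Set (Euc N)} {G : Geo n N κ S}
  {oS ξ : Euc N → Ext (Euc N)} {m d : ℕ}

/-- `h_m(E^*ξ, p^*ξ)` on the cylinder over `US` -/
def HU (G : Geo n N κ S) (ξ : Euc N → Ext (Euc N)) (m : ℕ) :
    (Euc N × Euc N) × ℝ → Ext ((Euc N × Euc N) × ℝ) := HM (F.pull (EE G) ξ) (F.pull PP ξ) m

/-- `h_m(x_2, x_1)` on `F` -/
def hF (ξ : Euc N → Ext (Euc N)) (m : ℕ) : Euc N × Euc N → Ext (Euc N × Euc N) :=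
  ∑ i ∈ Finset.range (m + 1), F.pull Prod.snd ξ ^ i * F.pull Prod.fst ξ ^ (m - i)

theorem sm_HU (hξ : Sm S ξ) : Sm (Cyl (US G)) (HU G ξ m) := by
  unfold HU HM
  exact Sm.sum _ fun i _ => (Sm.pow (hξ.pull smap_EE) i).mul (Sm.pow (hξ.pull smap_PP) _)

theorem cl_HU (hξ : Sm S ξ) (cξ : Cl S ξ) : Cl (Cyl (US G)) (HU G ξ m) := by
  unfold HU HM
  exact Cl.sum _ (fun i _ => (Sm.pow (hξ.pull smap_EE) i).mul (Sm.pow (hξ.pull smap_PP) _)) fun i _ =>
    Cl.mul (Sm.pow (hξ.pull smap_EE) i) (Sm.pow (hξ.pull smap_PP) _)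
      (Cl.pow (hξ.pull smap_EE) (Cl.pull smap_EE hξ cξ) i)
      (Cl.pow (hξ.pull smap_PP) (Cl.pull smap_PP hξ cξ) _)

theorem isDeg_one' {E : Type*} [AddCommGroup E] [Module ℝ E] : IsDeg 0 (1 : Ext E) := by
  intro q hq
  obtain ⟨q, rfl⟩ := Nat.exists_eq_succ_of_ne_zero hq
  have := evA_succ_algebraMap (E := E) q 1
  rwa [map_one] at this

theorem hom_pow' {E : Type*} [NormedAddCommGroup E] [NormedSpace ℝ E] [FiniteDimensional ℝ E]
    {a : E → Ext E} {p : ℕ} (h : Hom p a) (i : ℕ) : Hom (p * i) (a ^ i) := by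
  induction i with
  | zero => rw [pow_zero, mul_zero]; exact fun x => isDeg_one'
  | succ i ih =>
    rw [pow_succ, Nat.mul_succ]
    exact fun x => isDeg_mul (ih x) (h x)

theorem hom_sum' {E ι : Type*} [NormedAddCommGroup E] [NormedSpace ℝ E] [FiniteDimensional ℝ E]
    {p : ℕ} (s : Finset ι) {f : ι → E → Ext E} (h : ∀ i ∈ s, Hom p (f i)) :
    Hom p (∑ i ∈ s, f i) := by
  classical
  induction s using Finset.induction_on with
  | empty => rw [Finset.sum_empty]; exact fun x => IsDeg.zero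
  | insert i s hi ih =>
    rw [Finset.sum_insert hi]
    exact fun x => IsDeg.add (h i (Finset.mem_insert_self i s) x)
      (ih (fun j hj => h j (Finset.mem_insert_of_mem hj)) x)

theorem hom_HU (dξ : Hom k ξ) : Hom (k * m) (HU G ξ m) := by
  unfold HU HM
  refine hom_sum' _ fun i hi => ?_
  have hi' := Finset.mem_range.1 hi
  rw [← pull_pow', ← pull_pow']
  have h1 : k * m = k * i + k * (m + 1 - 1 - i) := by
    rw [← mul_add]; congr 1; omega
  rw [h1]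
  exact fun x => isDeg_mul ((hom_pow' dξ i _).pb _) ((hom_pow' dξ _ _).pb _)

theorem smap_phi (hB : Bl n N κ S G Real.pi) : SMap (US G) (GT.FF S) (FV.phi G) :=
  ⟨fun z hz => FV.contDiffAt_phi hz.1, fun z hz => FV.phi_mem hB hz⟩

theorem smap_fst_FF : SMap (GT.FF S) S (Prod.fst : Euc N × Euc N → Euc N) :=
  ⟨fun _ _ => contDiffAt_fst, fun _ hz => hz.1⟩

theorem smap_snd_FF : SMap (GT.FF S) S (Prod.snd : Euc N × Euc N → Euc N) :=
  ⟨fun _ _ => contDiffAt_snd, fun _ hz => hz.2.1⟩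

theorem smap_fst_US : SMap (US G) S (Prod.fst : Euc N × Euc N → Euc N) :=
  ⟨fun _ _ => contDiffAt_fst, fun _ hz => hz.1.1⟩

/-- the slices of `p^*ξ` -/
theorem sl_PP (s : ℝ) (hξ : Sm S ξ) :
    Eqv (US G) (F.pull (sl s) (F.pull PP ξ)) (F.pull Prod.fst ξ) :=
  Eqv.of_eq fun z hz => by
    rw [pull_PP, pull_sl_fst s _ (hξ.pull smap_fst_US) hz]

/-- the slice of `E^*ξ` at `1` -/
theorem sl_EE_one (hB : Bl n N κ S G Real.pi) :
    Eqv (US G) (F.pull (sl 1) (F.pull (EE G) ξ)) (F.pull (FV.phi G) (F.pull Prod.snd ξ)) :=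
  Eqv.of_eq fun z hz => by
    have e1 := pull_comp (f := sl (E := Euc N × Euc N) 1) (g := EE G) (om := ξ) (x := z)
      ((contDiff_sl 1).contDiffAt.differentiableAt (by simp))
      ((contDiffAt_EE hz.1 1).differentiableAt (by simp))
    have e2 := pull_comp (f := FV.phi G) (g := (Prod.snd : Euc N × Euc N → Euc N)) (om := ξ)
      (x := z) ((FV.contDiffAt_phi hz.1).differentiableAt (by simp)) differentiableAt_snd
    rw [e1, e2]
    congr 1
    funext w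
    simp [EE, sl, FV.phi]

/-- the slice of `E^*ξ` at `0` -/
theorem sl_EE_zero :
    Eqv (US G) (F.pull (sl 0) (F.pull (EE G) ξ)) (F.pull Prod.fst ξ) := by
  have h1 : Eqv (US G) (F.pull (sl 0) (F.pull (EE G) ξ))
      (F.pull (fun z : Euc N × Euc N => EE G (sl 0 z)) ξ) := Eqv.of_eq fun z hz =>
    pull_comp (f := sl (E := Euc N × Euc N) 0) (g := EE G) (om := ξ) (x := z)
      ((contDiff_sl 0).contDiffAt.differentiableAt (by simp))
      ((contDiffAt_EE hz.1 0).differentiableAt (by simp))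
  refine h1.trans (eqv_pull_of_eq ξ (fun z hz => ?_) (fun z _ => differentiableAt_fst)
    fun z hz => ?_)
  · exact ((contDiffAt_EE (q := z) hz.1 0).comp z (contDiff_sl 0).contDiffAt).differentiableAt
      (by simp)
  · change Exp G z.1 ((Real.pi * 0) • z.2) = z.1
    rw [mul_zero, zero_smul]
    exact Crest.Agent.R241.D2.Exp_zero G hz.1.1

/-- the slice of `h_m` at `0` -/
theorem HU_zero (hξ : Sm S ξ) :
    Eqv (US G) (F.pull (sl 0) (HU G ξ m)) ((m + 1 : ℝ) • F.pull Prod.fst ξ ^ m) := by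
  refine eqv_iff.2 fun x hx => ?_
  have e1 := eqv_iff.1 (sl_EE_zero (G := G) (ξ := ξ)) x hx
  have e2 := eqv_iff.1 (sl_PP (G := G) 0 hξ) x hx
  have h0 : F.pull (sl 0) (HU G ξ m) = ∑ i ∈ Finset.range (m + 1),
      F.pull (sl 0) (F.pull (EE G) ξ) ^ i * F.pull (sl 0) (F.pull PP ξ) ^ (m + 1 - 1 - i) := by
    rw [HU, HM, pull_sum']
    refine Finset.sum_congr rfl fun i _ => ?_
    rw [pull_mul', pull_pow', pull_pow']
  rw [h0]
  simp only [rs_mul, rs_pow, rs_smul, rs_sum] at *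
  rw [e1, e2]
  have h2 : ∀ i ∈ Finset.range (m + 1),
      Rs (US G) x (F.pull Prod.fst ξ x) ^ i * Rs (US G) x (F.pull Prod.fst ξ x) ^ (m + 1 - 1 - i) =
      Rs (US G) x (F.pull Prod.fst ξ x) ^ m := by
    intro i hi
    have := Finset.mem_range.1 hi
    rw [← pow_add]
    congr 1
    omega
  rw [Finset.sum_congr rfl h2, Finset.sum_const, Finset.card_range,
    ← Nat.cast_smul_eq_nsmul ℝ, Nat.cast_add, Nat.cast_one]

/-- the slice of `h_m` at `1` -/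
theorem HU_one (hB : Bl n N κ S G Real.pi) (hξ : Sm S ξ) :
    Eqv (US G) (F.pull (sl 1) (HU G ξ m)) (F.pull (FV.phi G) (hF ξ m)) := by
  refine eqv_iff.2 fun x hx => ?_
  have e1 := eqv_iff.1 (sl_EE_one (ξ := ξ) hB) x hx
  have e2 := eqv_iff.1 (sl_PP (G := G) 1 hξ) x hx
  have e3 : F.pull (FV.phi G) (F.pull Prod.fst ξ) x = F.pull Prod.fst ξ x := by
    rw [pull_comp (f := FV.phi G) (g := (Prod.fst : Euc N × Euc N → Euc N)) (om := ξ)
      (x := x) ((FV.contDiffAt_phi hx.1).differentiableAt (by simp)) differentiableAt_fst]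
    rfl
  have h0 : F.pull (sl 1) (HU G ξ m) = ∑ i ∈ Finset.range (m + 1),
      F.pull (sl 1) (F.pull (EE G) ξ) ^ i * F.pull (sl 1) (F.pull PP ξ) ^ (m + 1 - 1 - i) := by
    rw [HU, HM, pull_sum']
    refine Finset.sum_congr rfl fun i _ => ?_
    rw [pull_mul', pull_pow', pull_pow']
  have h1 : F.pull (FV.phi G) (hF ξ m) = ∑ i ∈ Finset.range (m + 1),
      F.pull (FV.phi G) (F.pull Prod.snd ξ) ^ i *
        F.pull (FV.phi G) (F.pull Prod.fst ξ) ^ (m - i) := by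
    rw [hF, pull_sum']
    refine Finset.sum_congr rfl fun i _ => ?_
    rw [pull_mul', pull_pow', pull_pow']
  rw [h0, h1]
  simp only [rs_mul, rs_pow, rs_sum] at *
  rw [e1, e2, e3]
  refine Finset.sum_congr rfl fun i _ => ?_
  rw [Nat.add_sub_cancel]

theorem Hom.prim' {X : Set (Euc N × Euc N)} {b : Euc N × Euc N → Ext (Euc N × Euc N)} {i : ℕ}
    (h : Coh X b 0) (hd : Hom (i + 1) b) :
    ∃ ζ : Euc N × Euc N → Ext (Euc N × Euc N), Sm X ζ ∧ Hom i ζ ∧ Eqv X b (F.d ζ) := by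
  obtain ⟨ζ, sζ, eζ⟩ := h
  rw [sub_zero] at eζ
  refine ⟨T.dp i ζ, sζ.dp i, hom_dp i ζ, ?_⟩
  have := eζ.dp (i + 1)
  rw [hd.dp_eq] at this
  exact this.trans (Eqv.of_eq fun y hy => dp_d i (sζ.diff hy))

theorem hom_hF (dξ : Hom k ξ) : Hom (k * m) (hF ξ m) := by
  unfold hF
  refine hom_sum' _ fun i hi => ?_
  have hi' := Finset.mem_range.1 hi
  rw [← pull_pow', ← pull_pow']
  have h1 : k * m = k * i + k * (m - i) := by
    rw [← mul_add]; congr 1; omega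
  rw [h1]
  exact fun x => isDeg_mul ((hom_pow' dξ i _).pb _) ((hom_pow' dξ _ _).pb _)

set_option maxHeartbeats 2000000 in
/-- **the primitive of `(m+1) p^*ξ^m` on `US`** (X1d ⟹ exactness and the Hopf number) -/
theorem exists_prim (h : GT.Bla G k) (hk : 2 ≤ k) (hm : 1 ≤ m) (hn : n = k * m)
    (hd : d + 1 = 2 * n) {oU : Euc N × Euc N → Ext (Euc N × Euc N)} (ho : Ori d (US G) oU)
    (hoS : Ori n S oS) (sξ : Sm S ξ) (cξ : Cl S ξ) (dξ : Hom k ξ)
    (hX : Coh (GT.FF S) (hF ξ m) 0) :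
    ∃ ζ : Euc N × Euc N → Ext (Euc N × Euc N), Sm (US G) ζ ∧ Hom (n - 1) ζ ∧
      Eqv (US G) (F.d ζ) ((m + 1 : ℝ) • F.pull Prod.fst ξ ^ m) ∧
      |J d (US G) oU (ζ * F.pull Prod.fst ξ ^ m)| = (J n S oS (ξ ^ m)) ^ 2 := by
  have hB := h.bl
  have hn2 : 2 ≤ n := by rw [hn]; calc 2 ≤ k * 1 := by omega
      _ ≤ k * m := Nat.mul_le_mul_left k hm
  have hcl : Clo d (US G) := LB.clo_US (FV.sub_S hB) hB.cpt hd
  have hFF : Clo (2 * n - k) (GT.FF S) := FV.clo_FF' h (by have := h.ty.le; omega)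
  have hnk : n - 1 + 1 = k * m := by omega
  have dF : Hom (n - 1 + 1) (hF ξ m) := by rw [hnk]; exact hom_hF (m := m) dξ
  obtain ⟨lam, slam, dlam, elam⟩ := Hom.prim' hX dF
  have sH := sm_HU (G := G) (m := m) sξ
  have cH := cl_HU (G := G) (m := m) sξ cξ
  have dH : Hom (n - 1 + 1) (HU G ξ m) := by rw [hnk]; exact hom_HU (G := G) (m := m) dξ
  have sK : Sm (US G) (K (HU G ξ m)) := Sm.K sH
  have dK' : Hom (n - 1) (K (HU G ξ m)) := fun x => isDeg_K (fun y => dH y) x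
  have sL : Sm (US G) (F.pull (FV.phi G) lam) := slam.pull (smap_phi hB)
  -- the derivative of `K`
  have hKd : Eqv (US G) (F.d (K (HU G ξ m)))
      (F.pull (FV.phi G) (hF ξ m) - (m + 1 : ℝ) • F.pull Prod.fst ξ ^ m) := by
    have h1 := K_d_eqv sH
    have h2 : Eqv (US G) (K (F.d (HU G ξ m))) 0 := by
      have h3 := K_eqv sH.d Sm.zero (resZero_iff.1 cH)
      rwa [show K (0 : (Euc N × Euc N) × ℝ → Ext ((Euc N × Euc N) × ℝ)) = 0 by
        have h4 := K_smul (E := Euc N × Euc N) (w := 0) (0 : ℝ)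
        rwa [zero_smul, zero_smul] at h4] at h3
    have h6 := h1.sub (Eqv.refl (K (F.d (HU G ξ m))))
    rw [add_sub_cancel_right] at h6
    have h7 := ((HU_one (m := m) hB sξ).sub (HU_zero (G := G) (m := m) sξ)).sub h2
    rw [sub_zero] at h7
    exact h6.trans h7
  refine ⟨F.pull (FV.phi G) lam - K (HU G ξ m), sL.sub sK,
    ?_, ?_, ?_⟩
  · exact ((Hom.pull dlam).sub dK')
  · refine (d_sub_eqv sL sK).trans ?_
    have h1 : Eqv (US G) (F.d (F.pull (FV.phi G) lam)) (F.pull (FV.phi G) (hF ξ m)) :=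
      (d_pull_eqv (smap_phi hB) slam).trans (Eqv.pull (smap_phi hB) elam.symm)
    have h2 := h1.sub hKd
    rwa [sub_sub_cancel] at h2
  · -- the number
    have sP : Sm (US G) (F.pull Prod.fst ξ ^ m) := Sm.pow (sξ.pull smap_fst_US) m
    have z1 : J d (US G) oU (F.pull (FV.phi G) lam * F.pull Prod.fst ξ ^ m) = 0 := by
      have a1 : Eqv (GT.FF S) (lam * F.pull Prod.fst ξ ^ m) 0 := by
        refine eqv_iff.2 fun u hu => ?_
        have h1 : IsDeg (n - 1 + k * m) (pb (Tan (GT.FF S) u).subtype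
            ((lam * F.pull Prod.fst ξ ^ m : Euc N × Euc N → Ext (Euc N × Euc N)) u)) := by
          rw [← pull_pow']
          exact (isDeg_mul (dlam u) ((hom_pow' dξ m _).pb _)).pb _
        rw [h1.eq_zero (by rw [hFF.finrank_Tan hu]; omega), Pi.zero_apply, map_zero]
      have a2 := Eqv.pull (smap_phi hB) a1
      rw [pull_zero', pull_mul', pull_pow'] at a2
      have a3 : Eqv (US G) (F.pull (FV.phi G) (F.pull Prod.fst ξ)) (F.pull Prod.fst ξ) :=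
        Eqv.of_eq fun x hx => by
          rw [pull_comp (f := FV.phi G) (g := (Prod.fst : Euc N × Euc N → Euc N)) (om := ξ)
            (x := x) ((FV.contDiffAt_phi hx.1).differentiableAt (by simp)) differentiableAt_fst]
          rfl
      have a4 : Eqv (US G) (F.pull (FV.phi G) lam * F.pull Prod.fst ξ ^ m) 0 := by
        refine Eqv.trans (eqv_iff.2 fun x hx => ?_) a2
        have e3 := eqv_iff.1 a3 x hx
        simp only [rs_mul, rs_pow]
        rw [e3]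
      rw [J_eqv hcl a4]
      exact J_zero
    have hEE : Sm (Cyl (US G)) (F.pull (EE G) ξ) := sξ.pull smap_EE
    have hPP : Sm (Cyl (US G)) (F.pull PP ξ) := sξ.pull smap_PP
    have b0 : Eqv (Cyl (US G)) (F.pull PP ξ ^ (m + 1)) 0 := by
      have a1 : Eqv S (ξ ^ (m + 1)) 0 := by
        refine eqv_iff.2 fun u hu => ?_
        have h1 : IsDeg (k * (m + 1)) (pb (Tan S u).subtype ((ξ ^ (m + 1)) u)) :=
          (hom_pow' dξ (m + 1) u).pb _
        rw [h1.eq_zero (by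
          rw [(FV.sub_S hB).finrank_Tan hu, hn]
          exact Nat.mul_lt_mul_of_pos_left (by omega) (by omega)), Pi.zero_apply, map_zero]
      have a2 := Eqv.pull (smap_PP (G := G)) a1
      rwa [pull_zero', pull_pow'] at a2
    have hmul : Eqv (Cyl (US G)) (HU G ξ m * F.pull PP ξ ^ m)
        (F.pull (EE G) ξ ^ m * F.pull PP ξ ^ m) := eqv_iff.2 fun x hx => by
      have e2 := eqv_iff.1 b0 x hx
      simp only [HU, HM, rs_mul, rs_pow, rs_sum, Pi.zero_apply, map_zero] at *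
      exact hm_mul e2
    have z2 : J d (US G) oU (K (HU G ξ m) * F.pull Prod.fst ξ ^ m) =
        J d (US G) oU (K (F.pull (EE G) ξ ^ m * F.pull PP ξ ^ m)) := by
      rw [← JK_congr hcl (sH.mul (Sm.pow hPP m)) ((Sm.pow hEE m).mul (Sm.pow hPP m)) hmul]
      refine J_congr' hcl fun x hx => ?_
      have e1 : F.pull PP ξ ^ m = F.pull (Prod.fst : (Euc N × Euc N) × ℝ → Euc N × Euc N)
          (F.pull (Prod.fst : Euc N × Euc N → Euc N) ξ ^ m) := by
        rw [pull_PP, pull_pow']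
      rw [e1, K_mul_fst (IK.of_sm sH hx)]
      rfl
    have z3 := DF_two (m := m) hB hn2 hd ho hoS sξ fun x hx q hq => by
      have := hom_pow' dξ m x
      rw [← hn] at this
      exact this q (by omega)
    rw [sub_mul, J_sub' hcl ho (sL.mul sP) (sK.mul sP), z1, zero_sub, abs_neg, z2, ← z3, one_mul]

end us

section fam
universe v
variable {n N k : ℕ} {κ : ℝ} {S : Set (Euc N)} {G : Geo n N κ S}
  {oS ξ : Euc N → Ext (Euc N)} {m d r : ℕ}
  {H : Type v} [NormedAddCommGroup H] [NormedSpace ℝ H] [FiniteDimensional ℝ H]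
  {Z : Set H} {τ : H → Euc N × Euc N} {oV : H → Ext H}
  {oU : Euc N × Euc N → Ext (Euc N × Euc N)} {φ : ℝ → H → H}
  {a b hh η : H × ℝ → Ext (H × ℝ)} {θ : H → Ext H} {c : ℝ}

set_option maxHeartbeats 1000000 in
/-- `D` of any family over `τ : Z → US` from a primitive of `(m+1) p^*ξ^m` on `US` (product
orientation, no connectedness of `Z`) -/
theorem D_tot (hB : Bl n N κ S G Real.pi) (hn : 2 ≤ n) (A : Fam Z (CM.gen φ) m a b hh η θ c)
    (hφ : CM.Cir Z φ) (hc : c ≠ 0)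
    (ia : Inv Z φ (F.pull (sl 1) a)) (ib : Inv Z φ (F.pull (sl 1) b))
    (ih : Inv Z φ (F.pull (sl 1) hh)) (h00 : Eqv Z (F.pull (sl 0) a) (F.pull (sl 0) b))
    (hτ : FG.OSubm r d Z (US G) τ oV oU) (sξ : Sm S ξ)
    (ha0 : Eqv Z (F.pull (sl 0) a) (F.pull τ (F.pull Prod.fst ξ)))
    {ζ : Euc N × Euc N → Ext (Euc N × Euc N)} (sζ : Sm (US G) ζ)
    (hdeg : Hom d (ζ * F.pull Prod.fst ξ ^ m))
    (dζ : Eqv (US G) (F.d ζ) ((m + 1 : ℝ) • F.pull Prod.fst ξ ^ m)) {u : Euc N × Euc N}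
    (hu : u ∈ US G) :
    J (r + d) Z (fun z => oV z * F.pull τ oU z) (K (hh * a ^ m * b ^ m)) =
      -(J r (Z ∩ τ ⁻¹' {u}) oV (F.pull (sl 0) hh) *
        J d (US G) oU (ζ * F.pull Prod.fst ξ ^ m)) := by
  have hZ : Clo (r + d) Z := hτ.subm.cloZ
  have hs := smap_of_subm hτ.subm
  have ho := hτ.tot
  obtain ⟨κ', sκ, dκ, e1⟩ := A.rr2 hZ ho hφ hc ia ib ih h00
  set h0 := F.pull (sl 0) hh with hh0
  set a0 := F.pull (sl 0) a with ha0'
  have sh0 : Sm Z h0 := A.sh.pull (smap_sl 0)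
  have ch0 : Cl Z h0 := Cl.pull (smap_sl 0) A.sh A.ch
  have eh0 : Ev Z h0 := Ev.pull (smap_sl 0) A.eh
  have sa0 : Sm Z a0 := A.sa.pull (smap_sl 0)
  have ea0 : Ev Z a0 := Ev.pull (smap_sl 0) A.ea
  have sT : Sm Z (F.pull τ ζ) := sζ.pull hs
  have hm0 : ((m : ℝ) + 1) ≠ 0 := by positivity
  have hP : Eqv Z (a0 ^ m) (F.pull τ (F.pull Prod.fst ξ ^ m)) := eqv_iff.2 fun x hx => by
    have e := eqv_iff.1 ha0 x hx
    rw [pull_pow']
    simp only [rs_pow]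
    rw [e]
  have dT : Eqv Z (F.d (F.pull τ ζ)) ((m + 1 : ℝ) • a0 ^ m) := by
    refine (d_pull_eqv hs sζ).trans ((Eqv.pull hs dζ).trans ?_)
    rw [pull_smul']
    exact (hP.symm).smul _
  have dκ1 : Eqv Z (F.d (F.pull τ ζ * h0)) ((m + 1 : ℝ) • (h0 * a0 ^ m)) := by
    refine (d_mul_cl sT sh0 ch0).trans ((dT.mul (Eqv.refl h0)).trans (eqv_iff.2 fun x hx => ?_))
    simp only [rs_mul, rs_smul, rs_pow]
    rw [smul_mul_assoc, (eh0.comm hx _).eq]
  have dζ' : Eqv Z (F.d (((m : ℝ) + 1)⁻¹ • F.pull τ ζ)) (a0 ^ m) := by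
    refine (d_smul_eqv _ sT).trans ?_
    have := dT.smul ((m : ℝ) + 1)⁻¹
    rwa [smul_smul, inv_mul_cancel₀ hm0, one_smul] at this
  have e2 := D_unique hZ ho sκ (sT.mul sh0) (sT.smul _) (Sm.pow sa0 m) (dκ.trans dκ1.symm) dζ'
    (Ev.pow ea0 m)
  have e3 : Eqv Z (F.pull τ ζ * h0 * a0 ^ m)
      (fun z => h0 z * F.pull τ (ζ * F.pull Prod.fst ξ ^ m) z) := by
    have q1 : (fun z => h0 z * F.pull τ (ζ * F.pull Prod.fst ξ ^ m) z) =
        h0 * (F.pull τ ζ * F.pull τ (F.pull Prod.fst ξ ^ m)) := by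
      rw [← pull_mul']; rfl
    rw [q1]
    refine eqv_iff.2 fun x hx => ?_
    have e := eqv_iff.1 hP x hx
    simp only [rs_mul] at *
    rw [e, ← mul_assoc, (eh0.comm hx _).eq]
  have e4 := fibre_integration_const hτ.subm (FV.preconn_US hB hn) hτ.base hτ.cV hτ.tot hτ.low
    (η := h0) (om := ζ * F.pull Prod.fst ξ ^ m) (fun z hz => (sh0 z hz).of_le (by simp)) ch0
    (Sm.cont (sζ.mul (Sm.pow (sξ.pull smap_fst_US) m))) (fun x _ q hq => hdeg x q (by omega)) hu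
  rw [e1, e2, J_eqv hZ e3, e4]

/-- **(K8): the value of `D` of any family over `US`** (`Z` connected: any orientation) -/
theorem D_value (h : GT.Bla G k) (hk : 2 ≤ k) (hm : 1 ≤ m) (hn : n = k * m)
    (hd : d + 1 = 2 * n) (hoS : Ori n S oS) (sξ : Sm S ξ) (cξ : Cl S ξ) (dξ : Hom k ξ)
    (hX : Coh (GT.FF S) (hF ξ m) 0) (A : Fam Z (CM.gen φ) m a b hh η θ c)
    (hφ : CM.Cir Z φ) (hc : c ≠ 0)
    (ia : Inv Z φ (F.pull (sl 1) a)) (ib : Inv Z φ (F.pull (sl 1) b))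
    (ih : Inv Z φ (F.pull (sl 1) hh)) (h00 : Eqv Z (F.pull (sl 0) a) (F.pull (sl 0) b))
    (hτ : FG.OSubm r d Z (US G) τ oV oU)
    (ha0 : Eqv Z (F.pull (sl 0) a) (F.pull τ (F.pull Prod.fst ξ)))
    {u : Euc N × Euc N} (hu : u ∈ US G) :
    |J (r + d) Z (fun z => oV z * F.pull τ oU z) (K (hh * a ^ m * b ^ m))| =
      |J r (Z ∩ τ ⁻¹' {u}) oV (F.pull (sl 0) hh)| * (J n S oS (ξ ^ m)) ^ 2 := by
  have hn2 : 2 ≤ n := by rw [hn]; calc 2 ≤ k * 1 := by omega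
      _ ≤ k * m := Nat.mul_le_mul_left k hm
  obtain ⟨ζ, sζ, dζ', dζ, e⟩ := exists_prim h hk hm hn hd hτ.base hoS sξ cξ dξ hX
  have hdeg : Hom d (ζ * F.pull Prod.fst ξ ^ m) := by
    rw [← pull_pow']
    have h1 : d = n - 1 + k * m := by omega
    rw [h1]
    exact dζ'.mul (Hom.pull (hom_pow' dξ m))
  rw [D_tot h.bl hn2 A hφ hc ia ib ih h00 hτ sξ ha0 sζ hdeg dζ hu, abs_neg, abs_mul, e]

theorem D_value' (h : GT.Bla G k) (hk : 2 ≤ k) (hm : 1 ≤ m) (hn : n = k * m)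
    (hd : d + 1 = 2 * n) (hoS : Ori n S oS) (sξ : Sm S ξ) (cξ : Cl S ξ) (dξ : Hom k ξ)
    (hX : Coh (GT.FF S) (hF ξ m) 0) (A : Fam Z (CM.gen φ) m a b hh η θ c)
    (hφ : CM.Cir Z φ) (hc : c ≠ 0)
    (ia : Inv Z φ (F.pull (sl 1) a)) (ib : Inv Z φ (F.pull (sl 1) b))
    (ih : Inv Z φ (F.pull (sl 1) hh)) (h00 : Eqv Z (F.pull (sl 0) a) (F.pull (sl 0) b))
    (hτ : FG.OSubm r d Z (US G) τ oV oU)
    (ha0 : Eqv Z (F.pull (sl 0) a) (F.pull τ (F.pull Prod.fst ξ)))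
    {o : H → Ext H} (ho : Ori (r + d) Z o) (hZc : IsPreconnected Z)
    {u : Euc N × Euc N} (hu : u ∈ US G) :
    |J (r + d) Z o (K (hh * a ^ m * b ^ m))| =
      |J r (Z ∩ τ ⁻¹' {u}) oV (F.pull (sl 0) hh)| * (J n S oS (ξ ^ m)) ^ 2 := by
  rw [← D_value h hk hm hn hd hoS sξ cξ dξ hX A hφ hc ia ib ih h00 hτ ha0 hu]
  rcases J_ori_connected hτ.subm.cloZ hτ.tot ho hZc with e | e
  · rw [e]
  · rw [e, abs_neg]

/-- **(K8) with `rr1`** -/
theorem J_value (h : GT.Bla G k) (hk : 2 ≤ k) (hm : 1 ≤ m) (hn : n = k * m)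
    (hd : d + 1 = 2 * n) (hoS : Ori n S oS) (sξ : Sm S ξ) (cξ : Cl S ξ) (dξ : Hom k ξ)
    (hX : Coh (GT.FF S) (hF ξ m) 0) (A : Fam Z (CM.gen φ) m a b hh η θ c)
    (hφ : CM.Cir Z φ) (hc : c ≠ 0)
    (ia : Inv Z φ (F.pull (sl 1) a)) (ib : Inv Z φ (F.pull (sl 1) b))
    (ih : Inv Z φ (F.pull (sl 1) hh)) (h00 : Eqv Z (F.pull (sl 0) a) (F.pull (sl 0) b))
    (hτ : FG.OSubm r d Z (US G) τ oV oU)
    (ha0 : Eqv Z (F.pull (sl 0) a) (F.pull τ (F.pull Prod.fst ξ)))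
    {u : Euc N × Euc N} (hu : u ∈ US G) :
    |J (r + d) Z (fun z => oV z * F.pull τ oU z)
        (θ * (F.d θ ^ (2 * m - 1) * F.pull (sl 1) hh ^ (2 * m + 1)))| =
      ((2 * m).choose m : ℝ) *
        (|J r (Z ∩ τ ⁻¹' {u}) oV (F.pull (sl 0) hh)| * (J n S oS (ξ ^ m)) ^ 2) := by
  rw [A.rr1 hτ.subm.cloZ hτ.tot hm, abs_mul, abs_mul, abs_pow, abs_neg, abs_one, one_pow, one_mul,
    Nat.abs_cast, D_value h hk hm hn hd hoS sξ cξ dξ hX A hφ hc ia ib ih h00 hτ ha0 hu]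

end fam

section self
variable {n N k : ℕ} {κ : ℝ} {S : Set (Euc N)} {G : Geo n N κ S}
  {oS ξ : Euc N → Ext (Euc N)} {m d : ℕ}
  {oU : Euc N × Euc N → Ext (Euc N × Euc N)} {φ : ℝ → Euc N × Euc N → Euc N × Euc N}
  {a b η : (Euc N × Euc N) × ℝ → Ext ((Euc N × Euc N) × ℝ)}
  {θ : Euc N × Euc N → Ext (Euc N × Euc N)} {c : ℝ}

/-- the case `Z = US`, `h = 1` (`k = 2`) -/
theorem D_self (h : GT.Bla G k) (hk : 2 ≤ k) (hm : 1 ≤ m) (hn : n = k * m)
    (hd : d + 1 = 2 * n) (ho : Ori d (US G) oU) (hoS : Ori n S oS) (sξ : Sm S ξ) (cξ : Cl S ξ)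
    (dξ : Hom k ξ) (hX : Coh (GT.FF S) (hF ξ m) 0) (A : Fam (US G) (CM.gen φ) m a b 1 η θ c)
    (hφ : CM.Cir (US G) φ) (hc : c ≠ 0)
    (ia : Inv (US G) φ (F.pull (sl 1) a)) (ib : Inv (US G) φ (F.pull (sl 1) b))
    (h00 : Eqv (US G) (F.pull (sl 0) a) (F.pull (sl 0) b))
    (ha0 : Eqv (US G) (F.pull (sl 0) a) (F.pull Prod.fst ξ)) :
    |J d (US G) oU (K (1 * a ^ m * b ^ m))| = (J n S oS (ξ ^ m)) ^ 2 := by
  have hcl : Clo d (US G) := LB.clo_US (FV.sub_S h.bl) h.bl.cpt hd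
  obtain ⟨ζ, sζ, dζ', dζ, e⟩ := exists_prim h hk hm hn hd ho hoS sξ cξ dξ hX
  have ih : Inv (US G) φ (F.pull (sl 1) (1 : (Euc N × Euc N) × ℝ → Ext ((Euc N × Euc N) × ℝ))) := by
    rw [pull_one']; exact Inv.one
  obtain ⟨κ', sκ, dκ, e1⟩ := A.rr2 hcl ho hφ hc ia ib ih h00
  set a0 := F.pull (sl 0) a with ha0'
  have sa0 : Sm (US G) a0 := A.sa.pull (smap_sl 0)
  have ea0 : Ev (US G) a0 := Ev.pull (smap_sl 0) A.ea
  have hm0 : ((m : ℝ) + 1) ≠ 0 := by positivity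
  have hP : Eqv (US G) (a0 ^ m) (F.pull Prod.fst ξ ^ m) := eqv_iff.2 fun x hx => by
    have e := eqv_iff.1 ha0 x hx
    simp only [rs_pow]
    rw [e]
  have dT : Eqv (US G) (F.d ζ) ((m + 1 : ℝ) • a0 ^ m) := dζ.trans ((hP.symm).smul _)
  have dκ1 : Eqv (US G) (F.d κ') (F.d ζ) := by
    refine dκ.trans (Eqv.trans ?_ dT.symm)
    rw [pull_one', one_mul]
    exact Eqv.refl _
  have dζ'' : Eqv (US G) (F.d (((m : ℝ) + 1)⁻¹ • ζ)) (a0 ^ m) := by
    refine (d_smul_eqv _ sζ).trans ?_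
    have := dT.smul ((m : ℝ) + 1)⁻¹
    rwa [smul_smul, inv_mul_cancel₀ hm0, one_smul] at this
  have e2 := D_unique hcl ho sκ sζ (sζ.smul _) (Sm.pow sa0 m) dκ1 dζ'' (Ev.pow ea0 m)
  rw [e1, e2, abs_neg, ← e]
  congr 1
  refine J_eqv hcl (eqv_iff.2 fun x hx => ?_)
  have e := eqv_iff.1 hP x hx
  simp only [rs_mul] at *
  rw [e]

/-- **`Z = US`, `h = 1`, with `rr1`** -/
theorem J_self (h : GT.Bla G k) (hk : 2 ≤ k) (hm : 1 ≤ m) (hn : n = k * m)
    (hd : d + 1 = 2 * n) (ho : Ori d (US G) oU) (hoS : Ori n S oS) (sξ : Sm S ξ) (cξ : Cl S ξ)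
    (dξ : Hom k ξ) (hX : Coh (GT.FF S) (hF ξ m) 0) (A : Fam (US G) (CM.gen φ) m a b 1 η θ c)
    (hφ : CM.Cir (US G) φ) (hc : c ≠ 0)
    (ia : Inv (US G) φ (F.pull (sl 1) a)) (ib : Inv (US G) φ (F.pull (sl 1) b))
    (h00 : Eqv (US G) (F.pull (sl 0) a) (F.pull (sl 0) b))
    (ha0 : Eqv (US G) (F.pull (sl 0) a) (F.pull Prod.fst ξ)) :
    |J d (US G) oU (θ * F.d θ ^ (2 * m - 1))| =
      ((2 * m).choose m : ℝ) * (J n S oS (ξ ^ m)) ^ 2 := by
  have hcl : Clo d (US G) := LB.clo_US (FV.sub_S h.bl) h.bl.cpt hd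
  have h1 := A.rr1 hcl ho hm
  rw [pull_one', one_pow, mul_one] at h1
  rw [h1, abs_mul, abs_mul, abs_pow, abs_neg, abs_one, one_pow, one_mul, Nat.abs_cast,
    D_self h hk hm hn hd ho hoS sξ cξ dξ hX A hφ hc ia ib h00 ha0]

end self

end Crest.Agent.R208.KD
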