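import Crest.Agent.R208.KP2
import Crest.Agent.R208.KD1
import Crest.Agent.R208.KC2
import Crest.Agent.R208.CG6
import Crest.Agent.R208.FM1
import Crest.Agent.R208.CBN1

/-! Row 208, block RR (helper545), part KP3: the instance on `Z = Sph (US G) PN`: contraction data
of 613's `Af`, the comparison theorem `CG.main`, fibre values. -/

set_option autoImplicit false
set_option linter.unusedSectionVars false
set_option linter.unusedVariables false

open MeasureTheory MeasureTheory.Measure Set Filter Topology Module Metric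
open scoped ContDiff RealInnerProductSpace
open Crest.GeometryTopology.Submanifold
open Crest.Agent.R241.DDefs
open Crest.Agent.R241.D Crest.Agent.R241.D2
open Crest.Agent.R208.F Crest.Agent.R208.FI Crest.Agent.R208.CW Crest.Agent.R208.T

noncomputable section

namespace Crest.Agent.R208.KP

open Crest.Agent.R208.RR (Cyl mem_Cyl smap_fst sl smap_sl Wp Fl Pre Fam Hz Inv Ev J_eqv J_smul'
  K_eqv K_smul Wp_eqv Wp_smul J_sub' J_add' hom_K hom_Wp)
open Crest.Agent.R208.NN (Wt nuP)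
open Crest.Agent.R208.FL (Af D1)
open Crest.Agent.R208.KC (flp)

section inst
variable {n N K k : ℕ} {κ : ℝ} {S : Set (Euc N)} {G : Geo n N κ S}
  {lg : Euc N → Euc N → Euc N} {ρ : Euc N → Euc N} {r C r' Kr B w δ : ℝ}
  {PN : Euc N × Euc N → Wt N K →L[ℝ] Wt N K} {ε E₀ η : ℝ} {J₀ : ℕ}

/-- the action on the sphere bundle -/
theorem cir_Z (h : D1 G k K lg ρ r C r' Kr B w δ PN ε J₀ E₀ η) :
    CM.Cir (T.Sph (L.US G) PN) (FL.Ph G K) :=
  UP.cir_sph (CM.cir_US h.bla.bl h.bla.ty.per) FL.rep_Rt fun x hx t w => h.neg.equi x hx t w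

/-- the foot point -/
def ft {N K : ℕ} (q : (Euc N × Euc N) × Wt N K) : Euc N := q.1.1

theorem smap_ft : SMap (T.Sph (L.US G) PN) S (ft (N := N) (K := K)) :=
  ⟨fun q _ => (contDiff_fst.comp contDiff_fst).contDiffAt, fun q hq => hq.1.1.1.1⟩

theorem ctr_Z (h : D1 G k K lg ρ r C r' Kr B w δ PN ε J₀ E₀ η) :
    Ctr (T.Sph (L.US G) PN) S (FL.Ph G K) ft (Af G lg ρ w J₀ ε) where
  smap := ⟨fun y hy => h.contDiffAt_Af (mem_Cyl.1 hy).1 y.2,
    fun y hy => h.Af_mem (mem_Cyl.1 hy).1 y.2⟩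
  zero := fun x hx => h.Af_zero hx.1 le_rfl
  one := fun x hx t => h.Af_end hx.1 hx.2 (by norm_num) t

theorem flp_Z (h : D1 G k K lg ρ r C r' Kr B w δ PN ε J₀ E₀ η) :
    Flp (T.Sph (L.US G) PN) (FL.Ph G K) (ft (N := N) (K := K)) flp where
  smap := ⟨fun x _ => KC.contDiff_flp.contDiffAt, fun x hx => KC.flp_mem hx⟩
  act := fun x hx t => (KC.Ph_flp t x).symm
  foot := fun x hx => rfl
  inv := fun x hx => KC.flp_flp x

/-- **the comparison** with the rotation family -/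
theorem cg_Z (h : D1 G k K lg ρ r C r' Kr B w δ PN ε J₀ E₀ η) (hkn : k < n)
    {ξ : Euc N → Ext (Euc N)} (sξ : Sm S ξ) (cξ : Cl S ξ) :
    Coh (T.Sph (L.US G) PN)
      (Wp (FL.Ph G K) (RR.K (E := (Euc N × Euc N) × Wt N K) (F.pull (Af G lg ρ w J₀ ε) ξ -
        F.pull (fun y => Af G lg ρ w J₀ ε (ff flp y)) ξ)))
      (-(Wp (FM.phiF h.bla PN) (F.pull Prod.fst (RR.K (E := Euc N × Euc N)
        (F.pull (RRC.EE G) ξ))))) := by
  have hA := ctr_Z h
  have hB := hA.flip (flp_Z h)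
  have hφ := cir_Z h
  have hφ' := FM.cir_phiF h.bla h.neg hkn
  obtain ⟨cA, cB, hc⟩ := KC.exists_centres h hkn
  have hP : SMap (T.Sph (L.US G) PN) (L.US G) (Prod.fst : (Euc N × Euc N) × Wt N K → Euc N × Euc N) :=
    ⟨fun q _ => contDiffAt_fst, fun q hq => hq.1.1⟩
  have h1 := CG.main (Z := T.Sph (L.US G) PN) (P := Prod.fst) (w := RK.dir h.bla PN)
    (A := Af G lg ρ w J₀ ε) (B := fun y => Af G lg ρ w J₀ ε (ff flp y)) (cA := cA) (cB := cB)
    h.bla hP hφ hφ' (fun x hx t => rfl) (fun x hx t => rfl)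
    (fun x hx => by
      rw [Exp_smul G hx.1.1.1.1 hx.1.1.1.2]
      exact RK.dir_mem h.bla hkn hx.1.1 hx.1.2)
    (fun x hx => FM.norm_dir' h.bla h.neg hkn hx)
    (fun x hx => RK.inner_dir_v h.bla hkn hx.1.1 hx.1.2) sξ cξ hA.smap hB.smap
    ⟨fun y hy => ((hc _ (mem_Cyl.1 hy)).1 y.2).1, fun y hy => ((hc _ (mem_Cyl.1 hy)).1 y.2).2⟩
    ⟨fun y hy => ((hc _ (mem_Cyl.1 hy)).2.1 y.2).1, fun y hy => ((hc _ (mem_Cyl.1 hy)).2.1 y.2).2⟩
    hA.zero hB.zero hA.one hB.one (fun x hx => (hc x hx).2.2.1 0 le_rfl)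
    (fun x hx => (hc x hx).2.2.2.1 0 le_rfl)
    (fun x hx t s hs => (hc x hx).2.2.2.2.1 s hs.1 t)
    (fun x hx t s hs => (hc x hx).2.2.2.2.2 s hs.1 t)
  have sa : Sm (Cyl (T.Sph (L.US G) PN)) (F.pull (Af G lg ρ w J₀ ε) ξ) := sξ.pull hA.smap
  have sb : Sm (Cyl (T.Sph (L.US G) PN)) (F.pull (fun y => Af G lg ρ w J₀ ε (ff flp y)) ξ) :=
    sξ.pull hB.smap
  have sKa := RR.Sm.K sa
  have sKb := RR.Sm.K sb
  have e1 : Eqv (T.Sph (L.US G) PN)
      (Wp (FL.Ph G K) (RR.K (E := (Euc N × Euc N) × Wt N K) (F.pull (Af G lg ρ w J₀ ε) ξ -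
        F.pull (fun y => Af G lg ρ w J₀ ε (ff flp y)) ξ)))
      (Wp (FL.Ph G K) (RR.K (E := (Euc N × Euc N) × Wt N K) (F.pull (Af G lg ρ w J₀ ε) ξ)) -
        Wp (FL.Ph G K) (RR.K (E := (Euc N × Euc N) × Wt N K)
          (F.pull (fun y => Af G lg ρ w J₀ ε (ff flp y)) ξ))) := by
    refine (Wp_eqv hφ (RR.Sm.K (sa.sub sb)) (sKa.sub sKb) (CG.K_sub_eqv sa sb)).trans ?_
    exact Eqv.of_eq fun x hx => RR.Wp_sub hφ sKa sKb hx
  -- the rotation family is pulled back from `US`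
  have sE : Sm (Cyl (L.US G)) (F.pull (RRC.EE G) ξ) := sξ.pull RRC.smap_EE
  have sKE := RR.Sm.K sE
  have hti : SMap (Cyl (T.Sph (L.US G) PN)) (Cyl (L.US G))
      (CG.fx (Prod.fst : (Euc N × Euc N) × Wt N K → Euc N × Euc N) fun t => t) :=
    ⟨fun y hy => ((contDiff_fst.comp contDiff_fst).prodMk contDiff_snd).contDiffAt,
      fun y hy => mem_Cyl.2 (hP.2 (mem_Cyl.1 hy))⟩
  have e2 : Eqv (T.Sph (L.US G) PN)
      (RR.K (E := (Euc N × Euc N) × Wt N K) (F.pull (fun y : ((Euc N × Euc N) × Wt N K) × ℝ =>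
        Exp G (Prod.fst y.1).1 ((Real.pi * y.2) • (Prod.fst y.1).2)) ξ))
      (F.pull Prod.fst (RR.K (E := Euc N × Euc N) (F.pull (RRC.EE G) ξ))) := by
    have a1 : Eqv (Cyl (T.Sph (L.US G) PN))
        (F.pull (CG.fx (Prod.fst : (Euc N × Euc N) × Wt N K → Euc N × Euc N) fun t => t)
          (F.pull (RRC.EE G) ξ))
        (F.pull (fun y : ((Euc N × Euc N) × Wt N K) × ℝ =>
          Exp G (Prod.fst y.1).1 ((Real.pi * y.2) • (Prod.fst y.1).2)) ξ) :=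
      eqv_pull_pull hti RRC.smap_EE (RRC.smap_EE.comp hti) (fun _ _ => rfl) ξ
    refine Eqv.symm (Eqv.trans (Eqv.of_eq fun x hx => CG.pull_K
      (v := F.pull (RRC.EE G) ξ) differentiableAt_fst sE (hP.2 hx)) ?_)
    exact K_eqv (sE.pull hti) (sξ.pull (RRC.smap_EE.comp hti)) a1
  have sE' : Sm (Cyl (T.Sph (L.US G) PN)) (F.pull (fun y : ((Euc N × Euc N) × Wt N K) × ℝ =>
        Exp G (Prod.fst y.1).1 ((Real.pi * y.2) • (Prod.fst y.1).2)) ξ) :=
    sξ.pull (RRC.smap_EE.comp hti)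
  have e3 := Wp_eqv hφ' (RR.Sm.K sE') (sKE.pull hP) e2
  exact (Coh.of_eqv e1).trans (h1.trans (Coh.of_eqv e3.neg))

end inst

/-! ### fibre values -/

section fib
variable {E B : Type} [NormedAddCommGroup E] [NormedSpace ℝ E] [FiniteDimensional ℝ E]
  [NormedAddCommGroup B] [NormedSpace ℝ B] [FiniteDimensional ℝ B]
  {Z : Set E} {X : Set B} {τ : E → B} {oV : E → Ext E} {oX : B → Ext B} {r d : ℕ}

/-- integrals over the fibres only see cohomology classes -/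
theorem J_fibre_coh (hτ : FG.OSubm r d Z X τ oV oX) {a b : E → Ext E} (sa : Sm Z a) (sb : Sm Z b)
    (h : Coh Z a b) (u : B) : J r (Z ∩ τ ⁻¹' {u}) oV a = J r (Z ∩ τ ⁻¹' {u}) oV b :=
  RI.J_coh (hτ.subm.clo_fibre u) (hτ.fib u) (fun x hx => sa x hx.1) (fun x hx => sb x hx.1)
    (h.mono inter_subset_left)

end fib

end Crest.Agent.R208.KP
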