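import Crest.Agent.R208.GP4a
import Crest.Agent.R208.GP2d

/-! Row 208, block GP (helper198), part GP4b: **a closed form of degree `1 ≤ j ≤ n-1` on `S` whose
restriction to a cut locus `C_p` is exact is exact on `S`.** -/

set_option autoImplicit false
set_option linter.unusedSectionVars false

open MeasureTheory Measure Set Filter Topology Module Metric
open scoped ContDiff RealInnerProductSpace
open Crest.GeometryTopology.Submanifold
open Crest.Agent.R241.DDefs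
open Crest.Agent.R241.D2
open Crest.Agent.R208.F Crest.Agent.R208.FI
open Crest.Agent.R208.CW (SMap SMap.id SMap.comp)
open Crest.Agent.R208.T (Eqv Sm Cl Coh Hom Sph smap_fstS coh_homotopy eqv_pull_of_eq eqv_pull_pull
  pull_sub' pull_add' pull_zero' pull_smul' d_sub_eqv d_add_eqv d_d' resZero_iff eqv_iff
  Tan_inter_open eqv_of_open)

noncomputable section

namespace Crest.Agent.R208.GP

section gen
variable {E F' : Type*} [NormedAddCommGroup E] [NormedSpace ℝ E] [FiniteDimensional ℝ E]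
  [NormedAddCommGroup F'] [NormedSpace ℝ F'] [FiniteDimensional ℝ F']
  {X : Set E} {w : E → Ext E} {j : ℕ}

/-- homogeneous primitives -/
theorem hom_prim (h : Coh X w 0) (hw : Hom (j + 1) w) :
    ∃ ξ : E → Ext E, Sm X ξ ∧ Hom j ξ ∧ Eqv X w (F.d ξ) := by
  obtain ⟨ξ, h1, h2⟩ := h
  rw [sub_zero] at h2
  refine ⟨T.dp j ξ, h1.dp j, T.hom_dp j ξ, ?_⟩
  have h3 := (h2.dp (j + 1)).trans (Eqv.of_eq fun x hx => T.dp_d j (h1.diff hx))
  rwa [hw.dp_eq] at h3

/-- pull back by a constant map -/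
theorem pull_const (p : F') (c : F' → Ext F') (x : E) :
    F.pull (fun _ : E => p) c x = pb (0 : E →ₗ[ℝ] F') (c p) := by
  have h6 : fderiv ℝ (fun _ : E => p) x = 0 := fderiv_const_apply _
  rw [F.pull, h6]
  rfl

theorem exact_of_eqv (h : Eqv X w 0) : Coh X w 0 := Coh.of_eqv h

end gen

variable {n N k : ℕ} {κ : ℝ} {S : Set (Euc N)} {G : Geo n N κ S} {p q x v : Euc N}

/-- low cohomology of the unit sphere of the range of `P` -/
def SphV (p : Euc N) (P : Euc N →L[ℝ] Euc N) (r : ℕ) : Prop :=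
  ∀ j, j + 1 < r → ∀ b : Euc N × Euc N → Ext (Euc N × Euc N), Sm (Sph {p} (fun _ => P)) b →
    Cl (Sph {p} (fun _ => P)) b → Hom j b → ∃ c : Euc N → Ext (Euc N),
      Coh (Sph {p} (fun _ => P)) b (F.pull Prod.fst c)

/-- the tube homotopy: closed forms on `S ∖ {p}` whose restriction to `C_p` is exact are exact. -/
theorem coh_punct (hB : Bl n N κ S G Real.pi) (hT : I.Typ G k) (hS : Sub n S) (hp : p ∈ S)
    {w : Euc N → Ext (Euc N)} (hw : Sm (S \ {p}) w) (hc : Cl (S \ {p}) w)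
    (h0 : Coh (Cut S p) w 0) : Coh (S \ {p}) w 0 := by
  obtain ⟨Gt, h1, h2, h3, h4, h5, h6⟩ := exists_Gt hB hT hS hp
  set D : Set (Euc N × Euc N) := Tot (Cut S p) (PC hB hT hS p) ∩ {z | ‖z.2‖ < Real.pi} with hD
  have hmem : ∀ x ∈ S \ {p}, ∀ t ∈ Icc (0 : ℝ) 1, ((Gt x).1, t • (Gt x).2) ∈ D := by
    intro x hx t ht
    obtain ⟨⟨a1, a2⟩, a3⟩ := h2.maps hx
    refine ⟨⟨a1, ?_⟩, ?_⟩
    · change PC hB hT hS p (Gt x).1 (t • (Gt x).2) = t • (Gt x).2
      rw [map_smul, a2]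
    · change ‖t • (Gt x).2‖ < Real.pi
      rw [norm_smul, Real.norm_of_nonneg ht.1]
      calc t * ‖(Gt x).2‖ ≤ 1 * ‖(Gt x).2‖ := mul_le_mul_of_nonneg_right ht.2 (norm_nonneg _)
        _ < Real.pi := by rw [one_mul]; exact a3
  set Fh : Euc N × ℝ → Euc N := fun q => Psi G ((Gt q.1).1, q.2 • (Gt q.1).2) with hFh
  have hFC : ∀ x ∈ S \ {p}, ∀ t ∈ Icc (0 : ℝ) 1, ContDiffAt ℝ ∞ Fh (x, t) := by
    intro x hx t ht
    have a1 : ContDiffAt ℝ ∞ (fun q : Euc N × ℝ => Gt q.1) (x, t) :=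
      (h2.smooth x hx).comp (x, t) contDiffAt_fst
    have a2 : ContDiffAt ℝ ∞ (fun q : Euc N × ℝ => ((Gt q.1).1, q.2 • (Gt q.1).2)) (x, t) :=
      a1.fst.prodMk (contDiffAt_snd.smul a1.snd)
    exact ContDiffAt.comp (g := Psi G) (x, t) (h1.smooth _ (hmem x hx t ht)) a2
  have k1 := coh_homotopy (X := S \ {p}) (Y := S \ {p})
    (Fh := Fh) (w := w) hFC
    (fun x hx t ht => h1.maps (hmem x hx t ht)) hw hc
  have k2 : Eqv (S \ {p}) (F.pull (fun y => Fh (y, 1)) w) w := by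
    have a1 : ∀ x ∈ S \ {p}, DifferentiableAt ℝ (fun y => Fh (y, 1)) x := fun x hx =>
      DifferentiableAt.comp (g := Fh) x
        ((hFC x hx 1 (by simp)).differentiableAt (by simp))
        (differentiableAt_id.prodMk (differentiableAt_const _))
    refine (eqv_pull_of_eq w a1 (fun x _ => differentiableAt_id) fun y hy => ?_).trans
      (Eqv.of_eq fun z _ => F.pull_id w z)
    change Psi G ((Gt y).1, (1 : ℝ) • (Gt y).2) = y
    rw [one_smul]
    exact h3 y hy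
  have hρ : SMap (S \ {p}) (Cut S p) (fun x => (Gt x).1) :=
    ⟨fun x hx => (h2.smooth x hx).fst, fun x hx => (h2.maps hx).1.1⟩
  have k3 : Eqv (S \ {p}) (F.pull (fun y => Fh (y, 0)) w)
      (F.pull (fun x => (Gt x).1) w) := by
    have a1 : ∀ x ∈ S \ {p}, DifferentiableAt ℝ (fun y => Fh (y, 0)) x := fun x hx =>
      DifferentiableAt.comp (g := Fh) x
        ((hFC x hx 0 (by simp)).differentiableAt (by simp))
        (differentiableAt_id.prodMk (differentiableAt_const _))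
    refine eqv_pull_of_eq w a1 (fun x hx => hρ.diff hx) fun y hy => ?_
    change Psi G ((Gt y).1, (0 : ℝ) • (Gt y).2) = (Gt y).1
    rw [zero_smul]
    exact Exp_zero G (hρ.maps hy).1
  have k4 : Coh (S \ {p}) (F.pull (fun x => (Gt x).1) w) 0 := by
    have := h0.pull hρ
    rwa [pull_zero'] at this
  exact (Coh.of_eqv k2.symm).trans (k1.trans ((Coh.of_eqv k3).trans k4))

/-- closed forms without degree zero part are exact on the balls `{d(p,·) < r}`, `r < π` -/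
theorem coh_ball (hB : Bl n N κ S G Real.pi) (hp : p ∈ S) {r : ℝ} (hr : r < Real.pi) {U : Set (Euc N)}
    (hU : IsOpen U) (hUr : ∀ y ∈ S ∩ U, intrinsicDist S p y < r) {j : ℕ}
    {w : Euc N → Ext (Euc N)} (hw : Sm S w) (hc : Cl S w) (hd : Hom (j + 1) w) :
    Coh (S ∩ U) w 0 := by
  obtain ⟨γ, h1, h2⟩ := exists_primitive hB hp hr hw hc (hd p 0 (by omega))
  refine ⟨γ, fun y hy => h1 y hy.1 (hUr y hy), ?_⟩
  rw [sub_zero]
  refine eqv_iff.2 fun y hy => ?_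
  have h3 := h2 y hy.1 (hUr y hy)
  rw [← Tan_inter_open hU hy.2] at h3
  rw [map_sub, sub_eq_zero] at h3
  exact h3

/-- **the annulus**: a closed form of degree `j < n - 1` on `{0 < d(p,·) < r}` is exact up to a
constant form. -/
theorem coh_annulus (hB : Bl n N κ S G Real.pi) (hp : p ∈ S)
    (hsph : SphV p (G.P p) n) {r : ℝ} (hr0 : 0 < r) (hr : r < Real.pi) {U : Set (Euc N)}
    (hUr : ∀ y ∈ S, y ∈ U ↔ intrinsicDist S p y < r) {j : ℕ}
    (hj : j + 1 < n) {w : Euc N → Ext (Euc N)} (hw : Sm (S ∩ ({p}ᶜ ∩ U)) w)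
    (hc : Cl (S ∩ ({p}ᶜ ∩ U)) w) (hd : Hom j w) :
    ∃ c : Ext (Euc N), Coh (S ∩ ({p}ᶜ ∩ U)) w (fun _ => c) := by
  obtain ⟨L, hL1, hL2⟩ := exists_log hB hp hr
  set A : Set (Euc N) := S ∩ ({p}ᶜ ∩ U) with hA
  set P : Euc N → Euc N →L[ℝ] Euc N := fun _ => G.P p with hP
  have hAr : ∀ y ∈ A, y ∈ S ∧ y ≠ p ∧ intrinsicDist S p y < r := fun y hy =>
    ⟨hy.1, hy.2.1, (hUr y hy.1).1 hy.2.2⟩
  have hL : ∀ y ∈ A, ContDiffAt ℝ ∞ L y ∧ L y ∈ G.T p ∧ ‖L y‖ = intrinsicDist S p y ∧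
      Exp G p (L y) = y ∧ L y ≠ 0 ∧ ‖L y‖ < r := by
    intro y hy
    obtain ⟨a1, a2, a3⟩ := hAr y hy
    obtain ⟨b1, b2, b3⟩ := hL2 y a1 a3.le
    refine ⟨hL1 y a1 a3.le, b1, b2, b3, ?_, by rw [b2]; exact a3⟩
    intro h
    rw [h, Exp_zero G hp] at b3
    exact a2 b3.symm
  -- points of `A` from tangent vectors
  have hmemA : ∀ v : Euc N, v ∈ G.T p → v ≠ 0 → ‖v‖ < r → Exp G p v ∈ A := by
    intro v hv hv0 hvr
    have h1 := Exp_mem G hp hv
    have h2 := hB.dist_Exp hp hv (hvr.le.trans hr.le)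
    refine ⟨h1, ?_, (hUr _ h1).2 (by rw [h2]; exact hvr)⟩
    intro h
    rw [mem_singleton_iff] at h
    rw [h, intrinsicDist_self hp] at h2
    exact hv0 (norm_eq_zero.1 h2.symm)
  set r0 : ℝ := r / 2 with hr0'
  have hr00 : 0 < r0 := by rw [hr0']; linarith
  have hr0r : r0 < r := by rw [hr0']; linarith
  have hAn : ∀ y ∈ A, ContDiffAt ℝ ∞ (fun y => ‖L y‖) y := fun y hy =>
    (hL y hy).1.norm ℝ (hL y hy).2.2.2.2.1
  have hAu : ∀ y ∈ A, ContDiffAt ℝ ∞ (fun y => (‖L y‖⁻¹ : ℝ) • L y) y := fun y hy =>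
    ContDiffAt.smul (f := fun y => ‖L y‖⁻¹)
      ((hAn y hy).inv (norm_ne_zero_iff.2 (hL y hy).2.2.2.2.1)) (hL y hy).1
  have hAun : ∀ y ∈ A, ‖(‖L y‖⁻¹ : ℝ) • L y‖ = 1 := fun y hy => GT.unit_of (hL y hy).2.2.2.2.1
  have hAuT : ∀ y ∈ A, (‖L y‖⁻¹ : ℝ) • L y ∈ G.T p := fun y hy =>
    (G.T p).smul_mem _ (hL y hy).2.1
  -- the maps
  set ret : Euc N → Euc N × Euc N := fun y => (p, (‖L y‖⁻¹ : ℝ) • L y) with hret
  have sret : SMap A (Sph {p} P) ret := by
    refine ⟨fun y hy => contDiffAt_const.prodMk (hAu y hy), fun y hy => ⟨⟨rfl, ?_⟩, hAun y hy⟩⟩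
    exact (P_eq_self G hp).1 (hAuT y hy)
  set s : Euc N × Euc N → Euc N := fun z => Exp G p (r0 • z.2) with hs
  have ss : SMap (Sph {p} P) A s := by
    refine ⟨fun z hz => ?_, fun z hz => ?_⟩
    · have h1 : z.2 ∈ G.T p := (P_eq_self G hp).2 hz.1.2
      exact contDiffAt_Exp_comp hp (ContDiffAt.smul (f := fun _ => r0) (g := Prod.snd)
        contDiffAt_const contDiffAt_snd)
        ((G.T p).smul_mem _ h1)
    · have h1 : z.2 ∈ G.T p := (P_eq_self G hp).2 hz.1.2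
      have h2 : ‖r0 • z.2‖ = r0 := by
        rw [norm_smul, hz.2, mul_one, Real.norm_of_nonneg hr00.le]
      refine hmemA _ ((G.T p).smul_mem _ h1) ?_ (by rw [h2]; exact hr0r)
      rw [← norm_pos_iff, h2]; exact hr00
  -- the homotopy
  set Fh : Euc N × ℝ → Euc N := fun q => Exp G p
    ((q.2 * ‖L q.1‖ + (1 - q.2) * r0) • ((‖L q.1‖⁻¹ : ℝ) • L q.1)) with hFh
  have hFC : ∀ y ∈ A, ∀ t ∈ Icc (0 : ℝ) 1, ContDiffAt ℝ ∞ Fh (y, t) := by
    intro y hy t _
    refine contDiffAt_Exp_comp hp ?_ ((G.T p).smul_mem _ (hAuT y hy))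
    have h1 : ContDiffAt ℝ ∞ (fun q : Euc N × ℝ => ‖L q.1‖) (y, t) :=
      ContDiffAt.comp (g := fun y => ‖L y‖) (y, t) (hAn y hy) contDiffAt_fst
    have h2 : ContDiffAt ℝ ∞ (fun q : Euc N × ℝ => (‖L q.1‖⁻¹ : ℝ) • L q.1) (y, t) :=
      ContDiffAt.comp (g := fun y => (‖L y‖⁻¹ : ℝ) • L y) (y, t) (hAu y hy) contDiffAt_fst
    exact ((contDiffAt_snd.mul h1).add ((contDiffAt_const.sub contDiffAt_snd).mul
      contDiffAt_const)).smul h2
  have hFm : ∀ y ∈ A, ∀ t ∈ Icc (0 : ℝ) 1, Fh (y, t) ∈ A := by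
    intro y hy t ht
    have h1 : 0 < ‖L y‖ := norm_pos_iff.2 (hL y hy).2.2.2.2.1
    have h2 : ‖L y‖ < r := (hL y hy).2.2.2.2.2
    obtain ⟨ht0, ht1⟩ := ht
    have h3 : 0 < t * ‖L y‖ + (1 - t) * r0 := by
      rcases eq_or_lt_of_le ht0 with h | h
      · rw [← h]; linarith
      · have := mul_pos h h1
        have : 0 ≤ (1 - t) * r0 := mul_nonneg (by linarith) hr00.le
        linarith
    have h4 : t * ‖L y‖ + (1 - t) * r0 < r := by
      rcases eq_or_lt_of_le ht0 with h | h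
      · rw [← h]; linarith
      · have h5 := mul_lt_mul_of_pos_left h2 h
        have h6 : (1 - t) * r0 ≤ (1 - t) * r := mul_le_mul_of_nonneg_left hr0r.le (by linarith)
        linarith
    have h5 : ‖(t * ‖L y‖ + (1 - t) * r0) • ((‖L y‖⁻¹ : ℝ) • L y)‖ =
        t * ‖L y‖ + (1 - t) * r0 := by
      rw [norm_smul, hAun y hy, mul_one, Real.norm_of_nonneg h3.le]
    refine hmemA _ ((G.T p).smul_mem _ (hAuT y hy)) ?_ (by rw [h5]; exact h4)
    rw [← norm_pos_iff, h5]; exact h3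
  have k1 := coh_homotopy (X := A) (Y := A) (Fh := Fh) (w := w) hFC hFm hw hc
  have k2 : Eqv A (F.pull (fun y => Fh (y, 1)) w) w := by
    refine (eqv_pull_of_eq w (fun x hx => ?_) (fun x _ => differentiableAt_id) fun y hy => ?_).trans
      (Eqv.of_eq fun z _ => F.pull_id w z)
    · exact DifferentiableAt.comp (g := Fh) x ((hFC x hx 1 (by simp)).differentiableAt (by simp))
        (differentiableAt_id.prodMk (differentiableAt_const _))
    · change Exp G p (((1 : ℝ) * ‖L y‖ + (1 - 1) * r0) • ((‖L y‖⁻¹ : ℝ) • L y)) = y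
      rw [sub_self, zero_mul, add_zero, one_mul, GT.smul_unit (hL y hy).2.2.2.2.1]
      exact (hL y hy).2.2.2.1
  have k3 : Eqv A (F.pull (fun y => Fh (y, 0)) w) (F.pull ret (F.pull s w)) := by
    refine Eqv.trans ?_ (eqv_pull_pull sret ss (ss.comp sret) (fun _ _ => rfl) w).symm
    refine eqv_pull_of_eq w (fun x hx => ?_) (fun x hx => (ss.comp sret).diff hx) fun y _ => ?_
    · exact DifferentiableAt.comp (g := Fh) x ((hFC x hx 0 (by simp)).differentiableAt (by simp))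
        (differentiableAt_id.prodMk (differentiableAt_const _))
    · change Exp G p (((0 : ℝ) * ‖L y‖ + (1 - 0) * r0) • ((‖L y‖⁻¹ : ℝ) • L y)) =
        Exp G p (r0 • ((‖L y‖⁻¹ : ℝ) • L y))
      rw [zero_mul, sub_zero, one_mul, zero_add]
  obtain ⟨c, hcc⟩ := hsph j hj (F.pull s w) (hw.pull ss) (hc.pull ss hw) hd.pull
  have k4 := hcc.pull sret
  have k5 : Eqv A (F.pull ret (F.pull Prod.fst c)) (fun _ => pb (0 : Euc N →ₗ[ℝ] Euc N) (c p)) := by
    refine (eqv_pull_pull sret smap_fstS (g := Prod.fst) (k := fun _ => p)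
      ⟨fun _ _ => contDiffAt_const, fun _ _ => rfl⟩ (fun _ _ => rfl) c).trans ?_
    exact Eqv.of_eq fun x _ => pull_const p c x
  exact ⟨_, (Coh.of_eqv k2.symm).trans (k1.trans ((Coh.of_eqv k3).trans
    (k4.trans (Coh.of_eqv k5))))⟩

/-- **(B4')** closed forms of degree `1 ≤ j + 1 ≤ n - 1` on `S` which are exact on `C_p` are exact. -/
theorem coh_zero_of_Cut (hB : Bl n N κ S G Real.pi) (hT : I.Typ G k) (hS : Sub n S) (hp : p ∈ S)
    (hsph : SphV p (G.P p) n) {j : ℕ} (hj : j + 1 < n) {w : Euc N → Ext (Euc N)} (hw : Sm S w)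
    (hc : Cl S w) (hd : Hom (j + 1) w) (h0 : Coh (Cut S p) w 0) : Coh S w 0 := by
  have hset : S ∩ {p}ᶜ = S \ {p} := rfl
  obtain ⟨γ₁, g1, gh1, e1⟩ := hom_prim (coh_punct hB hT hS hp (hw.mono sdiff_subset)
    (hc.mono sdiff_subset) h0) hd
  obtain ⟨r, hr0, hr⟩ := exists_between Real.pi_pos
  -- the open set
  obtain ⟨U, hU, hUe⟩ := continuousOn_iff'.1 (continuousOn_dist_left hB hp) (Iio r) isOpen_Iio
  have hUr : ∀ y ∈ S, y ∈ U ↔ intrinsicDist S p y < r := by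
    intro y hy
    constructor
    · intro h
      have : y ∈ U ∩ S := ⟨h, hy⟩
      rw [← hUe] at this
      exact this.1
    · intro h
      have : y ∈ (fun y => intrinsicDist S p y) ⁻¹' Iio r ∩ S := ⟨h, hy⟩
      rw [hUe] at this
      exact this.1
  obtain ⟨γ₂, g2, gh2, e2⟩ := hom_prim (coh_ball hB hp hr hU
    (fun y hy => (hUr y hy.1).1 hy.2) hw hc hd) hd
  have hX : S ⊆ {p}ᶜ ∪ U := by
    intro y hy
    by_cases h : y = p
    · right
      rw [hUr y hy, h, intrinsicDist_self hp]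
      exact hr0
    · left; exact h
  set A : Set (Euc N) := S ∩ ({p}ᶜ ∩ U) with hA
  have hA1 : A ⊆ S \ {p} := fun x hx => ⟨hx.1, hx.2.1⟩
  have hA2 : A ⊆ S ∩ U := fun x hx => ⟨hx.1, hx.2.2⟩
  have cA : Cl A (γ₁ - γ₂) := by
    rw [Cl, resZero_iff]
    refine (d_sub_eqv (g1.mono hA1) (g2.mono hA2)).trans ?_
    have h1 := (e1.mono_tan hA1).symm.sub (e2.mono_tan hA2).symm
    rwa [sub_self] at h1
  obtain ⟨c, hcc⟩ := coh_annulus hB hp hsph hr0 hr hUr hj
    ((g1.mono hA1).sub (g2.mono hA2)) cA (gh1.sub gh2)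
  have sc : ∀ Y : Set (Euc N), Sm Y (fun _ => c) := fun Y x _ => contDiffAt_const
  refine mayer_vietoris hS hB.cpt.isClosed isOpen_compl_singleton hU hX (γ₁ := γ₁)
    (γ₂ := γ₂ + fun _ => c) g1 e1 (g2.add (sc _)) ?_ ?_
  · refine e2.trans ((d_add_eqv g2 (sc _)).trans ?_).symm
    have h1 : F.d (fun _ : Euc N => c) = 0 := funext fun x => F.d_const _ x
    rw [h1, add_zero]
    exact Eqv.refl _
  · have h1 := hcc.sub (Coh.refl (X := A) (fun _ : Euc N => c))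
    rw [sub_self, sub_sub] at h1
    exact h1

end Crest.Agent.R208.GP
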