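import Crest.Agent.R208.THB4

/-! Row 208, block TH-D (helper595).  THD1: iterated contraction as evaluation; two orthogonal
complementary frames have a nonvanishing product form. -/

set_option autoImplicit false
set_option linter.unusedSectionVars false
set_option linter.unusedSimpArgs false

open MeasureTheory Set Filter Topology Module Matrix
open scoped ContDiff
open Crest.Agent.R208.F Crest.Agent.R208.FI Crest.Agent.R208.CW

noncomputable section

namespace Crest.Agent.R208.T

/-! ### degrees -/
section deg
variable {G G' : Type*} [NormedAddCommGroup G] [NormedSpace ℝ G] [FiniteDimensional ℝ G]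
  [NormedAddCommGroup G'] [NormedSpace ℝ G'] [FiniteDimensional ℝ G']

theorem eq_algebraMap_of_isDeg {c : Ext G} (h : IsDeg 0 c) (w : Fin 0 → G) :
    c = algebraMap ℝ (Ext G) (evA G 0 c w) := by
  rw [← sub_eq_zero]
  refine eq_zero_of_evA fun q => ?_
  rw [map_sub]
  cases q with
  | zero =>
    ext v
    rw [AlternatingMap.sub_apply, evA_zero_algebraMap, Subsingleton.elim v w, sub_self]
    rfl
  | succ q => rw [h (q + 1) (by omega), evA_succ_algebraMap, sub_zero]

theorem isDeg_iisF {q n : ℕ} (v : Fin n → G) {c : Ext G} (h : IsDeg (q + n) c) :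
    IsDeg q (iis (List.ofFn v) c) := by
  induction n generalizing c with
  | zero => simpa using h
  | succ n ih =>
    rw [List.ofFn_succ, iis_cons]
    exact ih (fun i => v i.succ) (IsDeg.ii (by rwa [← add_assoc] at h) (v 0))

theorem evA_iis {n : ℕ} (v : Fin n → G) (c : Ext G) (w : Fin 0 → G) :
    evA G 0 (iis (List.ofFn v) c) w = evA G n c v := by
  induction n generalizing c with
  | zero => simp only [List.ofFn_zero, iis_nil]; rw [Subsingleton.elim v w]
  | succ n ih =>
    rw [List.ofFn_succ, iis_cons, ih (fun i => v i.succ), ← evA_ii]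
    congr 1
    funext i; refine Fin.cases ?_ (fun i => ?_) i <;> simp

/-- the contraction with the full vertical frame of a form of degree `dim H` -/
theorem cH_of_isDeg {H : Type*} [NormedAddCommGroup H] [NormedSpace ℝ H] [FiniteDimensional ℝ H]
    {j : G' →L[ℝ] G} {i : H →L[ℝ] G} {c : Ext G} (h : IsDeg (finrank ℝ H) c) :
    cH j i c = algebraMap ℝ (Ext G')
      (evA H (finrank ℝ H) (pb (i : H →ₗ[ℝ] G) c) (Module.finBasis ℝ H)) := by
  have e1 : vfr i = List.ofFn (fun k => i (Module.finBasis ℝ H k)) := by
    rw [vfr, List.map_ofFn]; rfl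
  rw [cH_apply, e1]
  have h1 := isDeg_iisF (q := 0) (fun k => i (Module.finBasis ℝ H k)) (c := c) (by rwa [zero_add])
  rw [eq_algebraMap_of_isDeg h1 ![], AlgHom.commutes, evA_iis, evA_pb]
  rfl

end deg

/-! ### complementary frames -/
section frames
variable {n κ κ' : Type*} [Fintype n] [DecidableEq n] [Fintype κ] [DecidableEq κ]
  [Fintype κ'] [DecidableEq κ']

theorem card_frames {f : Matrix n κ ℝ} {f' : Matrix n κ' ℝ} (hf : fᵀ * f = 1)
    (hf' : f'ᵀ * f' = 1) (h : f * fᵀ + f' * f'ᵀ = 1) :
    Fintype.card κ' + Fintype.card κ = Fintype.card n := by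
  have h1 := congrArg Matrix.trace h
  rw [Matrix.trace_add, Matrix.trace_mul_comm, hf, Matrix.trace_mul_comm, hf', Matrix.trace_one,
    Matrix.trace_one, Matrix.trace_one] at h1
  have : ((Fintype.card κ' + Fintype.card κ : ℕ) : ℝ) = (Fintype.card n : ℕ) := by
    push_cast; linarith
  exact_mod_cast this

end frames

end Crest.Agent.R208.T
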