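import Crest.Agent.R208.THD0
import Crest.Agent.R208.THD1

/-! Row 208, block TH-D (helper595).  THD2: the radial function `GG`, the product form of two
complementary frames, and the fibre integral of the product of two complementary Thom forms. -/

set_option autoImplicit false
set_option linter.unusedSectionVars false
set_option linter.unusedSimpArgs false

open MeasureTheory Set Filter Topology Module Matrix
open scoped ContDiff
open Crest.Agent.R208.F Crest.Agent.R208.FI Crest.Agent.R208.CW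

noncomputable section

namespace Crest.Agent.R208.T

/-! ### the radial function -/
section radial
variable (ι : Type*) [Fintype ι]

theorem ph_monotone : Monotone ph := fun a b h =>
  mul_le_mul_of_nonneg_left (Real.smoothTransition.monotone (by linarith)) Real.pi_pos.le

theorem ph_nonneg (s : ℝ) : 0 ≤ ph s := mul_nonneg Real.pi_pos.le (Real.smoothTransition.nonneg _)

theorem ph_le (s : ℝ) : ph s ≤ Real.pi :=
  (mul_le_mul_of_nonneg_left (Real.smoothTransition.le_one _) Real.pi_pos.le).trans_eq (mul_one _)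

theorem sin_ph_nonneg (s : ℝ) : 0 ≤ Real.sin (ph s) :=
  Real.sin_nonneg_of_nonneg_of_le_pi (ph_nonneg s) (ph_le s)

theorem GG_nonneg (s : ℝ) : 0 ≤ GG ι s := by
  have h1 : 0 ≤ deriv ph s := ph_monotone.deriv_nonneg
  have h2 := sin_ph_nonneg s
  unfold GG
  positivity

variable {ι}

theorem pow_ne [Nonempty ι] : 2 * Fintype.card ι - 1 ≠ 0 := by
  have : 0 < Fintype.card ι := Fintype.card_pos
  omega

theorem GG_of_le [Nonempty ι] {s : ℝ} (h : s ≤ 1 / 2) : GG ι s = 0 := by
  rw [GG, ph_of_le h, Real.sin_zero, zero_div, zero_pow pow_ne, mul_zero, mul_zero]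

theorem GG_of_ge [Nonempty ι] {s : ℝ} (h : 1 ≤ s) : GG ι s = 0 := by
  rw [GG, ph_of_ge h, Real.sin_pi, zero_div, zero_pow pow_ne, mul_zero, mul_zero]

theorem GG_continuous [Nonempty ι] : Continuous (GG ι) := by
  rw [continuous_iff_continuousAt]
  intro s
  rcases lt_or_ge s (1 / 2) with h | h
  · have : GG ι =ᶠ[𝓝 s] fun _ => 0 := by
      filter_upwards [Iio_mem_nhds h] with t ht using GG_of_le (le_of_lt ht)
    exact continuousAt_const.congr this.symm
  · have hs : √s ≠ 0 := (Real.sqrt_pos.2 (by linarith)).ne'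
    have h1 : Continuous (deriv ph) := ph_contDiff.continuous_deriv (by norm_num)
    have h2 : Continuous ph := ph_contDiff.continuous
    unfold GG
    have h3 : ContinuousAt (fun s : ℝ => √s) s := Real.continuous_sqrt.continuousAt
    have h4 : ContinuousAt (fun s => Real.sin (ph s)) s :=
      (Real.continuous_sin.comp h2).continuousAt
    exact continuousAt_const.mul (((continuousAt_const.mul h3).mul h1.continuousAt).mul
      ((h4.div h3 hs).pow _))

theorem exists_GG_pos : ∃ s : ℝ, 0 < s ∧ 0 < GG ι s := by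
  obtain ⟨s, hs, h⟩ := exists_deriv_eq_slope ph (a := 1 / 2) (b := 1) (by norm_num)
    ph_contDiff.continuous.continuousOn (ph_contDiff.differentiable (by simp)).differentiableOn
  refine ⟨s, by linarith [hs.1], ?_⟩
  rw [ph_of_ge le_rfl, ph_of_le le_rfl] at h
  have h1 : 0 < deriv ph s := by rw [h]; have := Real.pi_pos; norm_num; linarith
  have h2 : 0 < Real.sin (ph s) := by
    refine Real.sin_pos_of_pos_of_lt_pi ?_ ?_
    · exact mul_pos Real.pi_pos (Real.smoothTransition.pos_of_pos (by linarith [hs.1]))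
    · have := mul_lt_mul_of_pos_left (Real.smoothTransition.lt_one_of_lt_one
        (x := 2 * s - 1) (by linarith [hs.2])) Real.pi_pos
      rwa [mul_one] at this
  have h3 : 0 < √s := Real.sqrt_pos.2 (by linarith [hs.1])
  unfold GG
  positivity

end radial

/-! ### the product form of two complementary frames -/
section frames
variable {n ι ι' : Type*} [Fintype n] [DecidableEq n] [Fintype ι] [DecidableEq ι]
  [Fintype ι'] [DecidableEq ι']

theorem sum_mul_transpose {κ : Type*} [Fintype κ] (g : Matrix n κ ℝ) (i : n) (v : n → ℝ) :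
    ∑ j, (g * gᵀ) i j * v j = ∑ a, g i a * ∑ j, g j a * v j := by
  simp only [Matrix.mul_apply, Finset.sum_mul, transpose_apply, Finset.mul_sum]
  rw [Finset.sum_comm]
  exact Finset.sum_congr rfl fun a _ => Finset.sum_congr rfl fun j _ => by ring

theorem eq_zero_of_eta {f : Matrix n (ι × Fin 2) ℝ} {f' : Matrix n (ι' × Fin 2) ℝ}
    (h : f * fᵀ + f' * f'ᵀ = 1) {v : EuclideanSpace ℝ n} (h1 : ∀ a, eta f a v = 0)
    (h2 : ∀ a, eta f' a v = 0) : v = 0 := by
  ext i
  have e : v i = ∑ j, (f * fᵀ + f' * f'ᵀ) i j * v j := by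
    rw [h]; simp [Matrix.one_apply]
  rw [e]
  simp only [Matrix.add_apply, add_mul, Finset.sum_add_distrib, sum_mul_transpose]
  simp only [eta_apply] at h1 h2
  simp [h1, h2]

theorem finrank_frames {f : Matrix n (ι × Fin 2) ℝ} {f' : Matrix n (ι' × Fin 2) ℝ}
    (hf : fᵀ * f = 1) (hf' : f'ᵀ * f' = 1) (h : f * fᵀ + f' * f'ᵀ = 1) :
    Fintype.card ι' * 2 + Fintype.card ι * 2 = finrank ℝ (EuclideanSpace ℝ n) := by
  have := card_frames hf hf' h
  rw [finrank_euclideanSpace, ← this]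
  simp

theorem Xi_mul_ne {f : Matrix n (ι × Fin 2) ℝ} {f' : Matrix n (ι' × Fin 2) ℝ}
    (hf : fᵀ * f = 1) (hf' : f'ᵀ * f' = 1) (h : f * fᵀ + f' * f'ᵀ = 1) :
    evA (EuclideanSpace ℝ n) (finrank ℝ (EuclideanSpace ℝ n)) (Xi f' * Xi f)
      (Module.finBasis ℝ (EuclideanSpace ℝ n)) ≠ 0 := by
  have hN := finrank_frames hf hf' h
  set b := Module.finBasis ℝ (EuclideanSpace ℝ n) with hb
  rw [Xi, Xi, ExteriorAlgebra.ιMulti_mul_ιMulti, ← evA_cast hN, evA_iMulti]
  set l := Fin.append (fun k => eta f' ((kFin ι').symm k)) (fun k => eta f ((kFin ι).symm k))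
    with hl
  intro h0
  obtain ⟨c, hc, hc0⟩ := Matrix.exists_vecMul_eq_zero_iff.2 h0
  set v : EuclideanSpace ℝ n := ∑ i, c i • b (Fin.cast hN i) with hv
  have hlv : ∀ j, l j v = 0 := fun j => by
    have := congrFun hc0 j
    rw [Matrix.vecMul, dotProduct] at this
    rw [hv, map_sum]
    simpa using this
  have h1 : ∀ a, eta f a v = 0 := fun a => by
    have := hlv (Fin.natAdd _ (kFin ι a))
    rwa [hl, Fin.append_right, Equiv.symm_apply_apply] at this
  have h2 : ∀ a, eta f' a v = 0 := fun a => by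
    have := hlv (Fin.castAdd _ (kFin ι' a))
    rwa [hl, Fin.append_left, Equiv.symm_apply_apply] at this
  have hv0 := eq_zero_of_eta h h1 h2
  have hli := b.linearIndependent.comp (Fin.cast hN) (Fin.cast_injective hN)
  rw [Fintype.linearIndependent_iff] at hli
  exact hc (funext fun i => hli c (by rw [← hv0, hv]; rfl) i)

end frames

/-! ### the fibre integral -/
section unit
variable {n ι ι' : Type*} [Fintype n] [DecidableEq n] [Fintype ι] [DecidableEq ι]
  [Fintype ι'] [DecidableEq ι'] {E : Type*} [NormedAddCommGroup E] [NormedSpace ℝ E]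
  [FiniteDimensional ℝ E] {X : Set E} {x : E}
  {P : E → EuclideanSpace ℝ n →L[ℝ] EuclideanSpace ℝ n}
  {W : E → (ι × Fin 2 → n) → ℝ} {W' : E → (ι' × Fin 2 → n) → ℝ}

theorem gam_eq_bet (P : E → EuclideanSpace ℝ n →L[ℝ] EuclideanSpace ℝ n) :
    gam P = bet (fun x => 1 - P x) := rfl

theorem fderiv_bet_inr (hP : DifferentiableAt ℝ P x) (k : EuclideanSpace ℝ n) :
    (fderiv ℝ (bet P) (x, k)).comp (ContinuousLinearMap.inr ℝ E (EuclideanSpace ℝ n))
      = (ContinuousLinearMap.inr ℝ E (EuclideanSpace ℝ n)).comp (P x) := by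
  have h1 : DifferentiableAt ℝ (bet P) (x, k) := by
    have h2 : DifferentiableAt ℝ (fun z : E × EuclideanSpace ℝ n => P z.1) (x, k) :=
      DifferentiableAt.comp (x, k) (f := Prod.fst) hP differentiableAt_fst
    exact differentiableAt_fst.prodMk (h2.clm_apply differentiableAt_snd)
  have h3 : HasFDerivAt (fun k : EuclideanSpace ℝ n => ((x, k) : E × EuclideanSpace ℝ n))
      (ContinuousLinearMap.inr ℝ E (EuclideanSpace ℝ n)) k :=
    (hasFDerivAt_const x k).prodMk (hasFDerivAt_id k)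
  have h4 := HasFDerivAt.comp (g := bet P) k h1.hasFDerivAt h3
  have h5 : HasFDerivAt (fun k : EuclideanSpace ℝ n => ((x, P x k) : E × EuclideanSpace ℝ n))
      ((ContinuousLinearMap.inr ℝ E (EuclideanSpace ℝ n)).comp (P x)) k :=
    (hasFDerivAt_const x k).prodMk (P x).hasFDerivAt
  exact h4.unique h5

theorem pb_inr_pull [Nonempty ι] (h : OR X P W) (hx : x ∈ X) {f : Matrix n (ι × Fin 2) ℝ}
    (hf : fᵀ * f = 1) (hPf : ∀ v i, P x v i = ∑ j, (f * fᵀ) i j * v j)
    (hWf : ∀ I, W x I = (f.submatrix I id).det) (k : EuclideanSpace ℝ n) :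
    pb ((ContinuousLinearMap.inr ℝ E (EuclideanSpace ℝ n) :
      EuclideanSpace ℝ n →L[ℝ] E × EuclideanSpace ℝ n) :
      EuclideanSpace ℝ n →ₗ[ℝ] E × EuclideanSpace ℝ n) (F.pull (bet P) (thomF P W) (x, k))
      = GG ι (‖P x k‖ ^ 2) • Xi f := by
  rw [← pb_thomF (h.sP x hx) hf hPf hWf k, F.pull, pb_comp,
    ← fderiv_bet_inr ((h.sP x hx).differentiableAt (by simp)) k]
  rfl

/-- the integrand -/
theorem cH_thom [Nonempty ι] [Nonempty ι'] (h : OR X P W) (h' : OR X (fun x => 1 - P x) W')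
    (hx : x ∈ X) : ∃ K : ℝ, K ≠ 0 ∧ ∀ k,
      cH (ContinuousLinearMap.inl ℝ E (EuclideanSpace ℝ n))
        (ContinuousLinearMap.inr ℝ E (EuclideanSpace ℝ n))
        ((F.pull (gam P) (thomF (fun x => 1 - P x) W') * F.pull (bet P) (thomF P W)) (x, k))
      = algebraMap ℝ (Ext E) (K * (GG ι' (‖k - P x k‖ ^ 2) * GG ι (‖P x k‖ ^ 2))) := by
  obtain ⟨f, hf, hPf, hWf⟩ := h.fr x hx
  obtain ⟨f', hf', hPf', hWf'⟩ := h'.fr x hx
  have hff : f * fᵀ + f' * f'ᵀ = 1 := by
    ext i j
    have e1 := hPf (EuclideanSpace.single j 1) i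
    have e2 := hPf' (EuclideanSpace.single j 1) i
    have e3 : (1 - P x) (EuclideanSpace.single j (1 : ℝ)) i
        = (EuclideanSpace.single j (1 : ℝ) : EuclideanSpace ℝ n) i
          - P x (EuclideanSpace.single j 1) i := rfl
    rw [e3, e1] at e2
    simp only [PiLp.single_apply, mul_ite, mul_one, mul_zero, Finset.sum_ite_eq',
      Finset.mem_univ, if_true] at e2
    rw [Matrix.add_apply, Matrix.one_apply, ← e2]
    ring
  refine ⟨_, Xi_mul_ne hf hf' hff, fun k => ?_⟩
  have hN := finrank_frames hf hf' hff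
  have hdeg : IsDeg (finrank ℝ (EuclideanSpace ℝ n))
      ((F.pull (gam P) (thomF (fun x => 1 - P x) W') * F.pull (bet P) (thomF P W)) (x, k)) := by
    have e : finrank ℝ (EuclideanSpace ℝ n) = 2 * Fintype.card ι' + 2 * Fintype.card ι := by
      rw [← hN]; ring
    rw [e]
    exact IsDeg.mul ((thomF_deg _).pb _) ((thomF_deg _).pb _)
  rw [cH_of_isDeg hdeg, Pi.mul_apply, _root_.map_mul, gam_eq_bet,
    pb_inr_pull h hx hf hPf hWf, pb_inr_pull h' hx hf' hPf' hWf', smul_mul_smul_comm, map_smul,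
    AlternatingMap.smul_apply, smul_eq_mul, mul_comm]
  rfl

/-- a unit vector in the range -/
theorem exists_unit {κ : Type*} [Fintype κ] [DecidableEq κ] [Nonempty κ] {f : Matrix n κ ℝ}
    (hf : fᵀ * f = 1) {A : EuclideanSpace ℝ n →L[ℝ] EuclideanSpace ℝ n}
    (hA : ∀ v i, A v i = ∑ j, (f * fᵀ) i j * v j) : ∃ u : EuclideanSpace ℝ n, ‖u‖ = 1 ∧ A u = u := by
  obtain ⟨a⟩ := ‹Nonempty κ›
  refine ⟨WithLp.toLp 2 fun i => f i a, ?_, ?_⟩
  · have h1 := congrFun (congrFun hf a) a
    rw [Matrix.mul_apply, Matrix.one_apply_eq] at h1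
    have h2 : ‖(WithLp.toLp 2 fun i => f i a : EuclideanSpace ℝ n)‖ ^ 2 = 1 := by
      rw [nsq, ← h1]; rfl
    exact (pow_eq_one_iff_of_nonneg (norm_nonneg _) two_ne_zero).1 h2
  · ext i
    rw [hA, sum_mul_transpose]
    have h1 : ∀ b, ∑ j, f j b * f j a = (1 : Matrix κ κ ℝ) b a := fun b => by
      rw [← hf, Matrix.mul_apply]; rfl
    simp only [h1]
    simp [Matrix.one_apply]

variable [MeasurableSpace (EuclideanSpace ℝ n)]

theorem thom_unit_pt [Nonempty ι] [Nonempty ι'] [BorelSpace (EuclideanSpace ℝ n)]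
    (μ : Measure (EuclideanSpace ℝ n)) [μ.IsAddHaarMeasure] (h : OR X P W)
    (h' : OR X (fun x => 1 - P x) W') (hx : x ∈ X) : ∃ c : ℝ, c ≠ 0 ∧
      pI μ (F.pull (gam P) (thomF (fun x => 1 - P x) W') * F.pull (bet P) (thomF P W)) x
        = algebraMap ℝ (Ext E) c := by
  obtain ⟨K, hK, hk⟩ := cH_thom h h' hx
  obtain ⟨f, hf, hPf, hWf⟩ := h.fr x hx
  obtain ⟨f', hf', hPf', hWf'⟩ := h'.fr x hx
  set g : EuclideanSpace ℝ n → ℝ := fun k => GG ι' (‖k - P x k‖ ^ 2) * GG ι (‖P x k‖ ^ 2) with hg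
  have hgc : Continuous g := by
    have h1 : Continuous fun k : EuclideanSpace ℝ n => ‖k - P x k‖ ^ 2 := by fun_prop
    have h2 : Continuous fun k : EuclideanSpace ℝ n => ‖P x k‖ ^ 2 := by fun_prop
    exact (GG_continuous.comp h1).mul (GG_continuous.comp h2)
  have hgs : HasCompactSupport g := by
    refine HasCompactSupport.intro (isCompact_closedBall (0 : EuclideanSpace ℝ n) 2)
      fun k hk => ?_
    have h1 : 2 < ‖k‖ := by simpa using hk
    have h2 : ‖k‖ ≤ ‖k - P x k‖ + ‖P x k‖ := by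
      have := norm_add_le (k - P x k) (P x k)
      rwa [sub_add_cancel] at this
    rcases lt_or_ge ‖P x k‖ 1 with h3 | h3
    · have h4 : 1 ≤ ‖k - P x k‖ := by linarith
      simp only [hg]
      rw [GG_of_ge (by nlinarith), zero_mul]
    · simp only [hg]
      rw [GG_of_ge (s := ‖P x k‖ ^ 2) (by nlinarith), mul_zero]
  have hg0 : ∀ k, 0 ≤ g k := fun k => mul_nonneg (GG_nonneg _ _) (GG_nonneg _ _)
  have hgp : ∃ k, g k ≠ 0 := by
    obtain ⟨s, hs, hs'⟩ := exists_GG_pos (ι := ι)
    obtain ⟨t, ht, ht'⟩ := exists_GG_pos (ι := ι')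
    obtain ⟨u, hu, hPu⟩ := exists_unit hf hPf
    obtain ⟨v, hv, hPv⟩ := exists_unit hf' hPf'
    have hPv' : P x v = 0 := by
      have : v - P x v = v := hPv
      simpa using this
    refine ⟨√s • u + √t • v, ?_⟩
    have e1 : P x (√s • u + √t • v) = √s • u := by
      rw [map_add, map_smul, map_smul, hPu, hPv', smul_zero, add_zero]
    simp only [hg]
    rw [e1, add_sub_cancel_left, norm_smul, norm_smul, hu, hv, mul_one, mul_one,
      Real.norm_eq_abs, Real.norm_eq_abs, sq_abs, sq_abs, Real.sq_sqrt hs.le, Real.sq_sqrt ht.le]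
    exact (mul_pos ht' hs').ne'
  obtain ⟨k0, hk0⟩ := hgp
  have hpos : 0 < ∫ k, g k ∂μ :=
    hgc.integral_pos_of_hasCompactSupport_nonneg_nonzero hgs hg0 hk0
  refine ⟨K * ∫ k, g k ∂μ, mul_ne_zero hK hpos.ne', ?_⟩
  have e1 : ∀ k : EuclideanSpace ℝ n, (ContinuousLinearMap.inl ℝ E (EuclideanSpace ℝ n)) x
      + (ContinuousLinearMap.inr ℝ E (EuclideanSpace ℝ n)) k = (x, k) := fun k => by simp
  rw [pI, prH_eq]
  simp only [e1, hk]
  have hint : Integrable (fun k => K * g k) μ :=
    (hgc.integrable_of_hasCompactSupport hgs).const_mul K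
  have := (LinearMap.toContinuousLinearMap (Algebra.linearMap ℝ (Ext E))).integral_comp_comm hint
  rw [integral_const_mul] at this
  exact this

end unit

end Crest.Agent.R208.T
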