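import Crest.Agent.R208.T2c
import Crest.Agent.R208.THD2

/-! Row 208, block T (helper423).  T2d: parity reduction: (B1), (B2) for oriented projection
fields of arbitrary codimension, by the isometric embedding `H → H ⊕ ℝ^κ`. -/

set_option autoImplicit false
set_option linter.unusedSectionVars false

open MeasureTheory Set Filter Topology Module
open scoped ContDiff Matrix
open Crest.Agent.R208.F Crest.Agent.R208.FI Crest.Agent.R208.CW

noncomputable section

namespace Crest.Agent.R208.T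

/-! ### constant isometries -/
section iso
variable {n m : Type} [Fintype n] [DecidableEq n] [Fintype m] [DecidableEq m]
  {E : Type} [NormedAddCommGroup E] [NormedSpace ℝ E] [FiniteDimensional ℝ E]
  {ι : Type} [Fintype ι] [DecidableEq ι]
  {X : Set E} {P : E → EuclideanSpace ℝ n →L[ℝ] EuclideanSpace ℝ n}
  {W : E → (ι × Fin 2 → n) → ℝ} {S : Matrix m n ℝ}

/-- the continuous linear map of a real matrix -/
def mE (S : Matrix m n ℝ) : EuclideanSpace ℝ n →L[ℝ] EuclideanSpace ℝ m :=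
  LinearMap.toContinuousLinearMap (Matrix.toEuclideanLin S)

theorem mE_apply (S : Matrix m n ℝ) (v : EuclideanSpace ℝ n) (i : m) :
    mE S v i = ∑ j, S i j * v j := rfl

theorem mE_mE {l : Type} [Fintype l] [DecidableEq l] (S : Matrix m n ℝ) (S' : Matrix l m ℝ)
    (v : EuclideanSpace ℝ n) : mE S' (mE S v) = mE (S' * S) v := by
  ext i
  simp only [mE_apply, Matrix.mul_apply, Finset.mul_sum, Finset.sum_mul]
  rw [Finset.sum_comm]
  exact Finset.sum_congr rfl fun j _ => Finset.sum_congr rfl fun k _ => by ring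

theorem mE_one (v : EuclideanSpace ℝ n) : mE (1 : Matrix n n ℝ) v = v := by
  ext i
  simp [mE_apply, Matrix.one_apply]

theorem mE_inner (S : Matrix m n ℝ) (v : EuclideanSpace ℝ n) (w : EuclideanSpace ℝ m) :
    ∑ i, w i * mE S v i = ∑ j, mE Sᵀ w j * v j := by
  simp only [mE_apply, Finset.mul_sum, Finset.sum_mul, Matrix.transpose_apply]
  rw [Finset.sum_comm]
  exact Finset.sum_congr rfl fun j _ => Finset.sum_congr rfl fun k _ => by ring

theorem norm_mE (hS : Sᵀ * S = 1) (v : EuclideanSpace ℝ n) : ‖mE S v‖ = ‖v‖ := by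
  have h1 : ‖mE S v‖ ^ 2 = ‖v‖ ^ 2 := by
    rw [nsq, nsq, mE_inner, mE_mE, hS, mE_one]
  exact (sq_eq_sq₀ (norm_nonneg _) (norm_nonneg _)).1 h1

/-- push forward of a real orientation tensor -/
def pushR (S : Matrix m n ℝ) (W : (ι × Fin 2 → n) → ℝ) (J : ι × Fin 2 → m) : ℝ :=
  ∑ I : ι × Fin 2 → n, (∏ p, S (J p) (I p)) * W I

/-- push forward of a projection field -/
def pushE (S : Matrix m n ℝ) (P : E → EuclideanSpace ℝ n →L[ℝ] EuclideanSpace ℝ n) (x : E) :
    EuclideanSpace ℝ m →L[ℝ] EuclideanSpace ℝ m :=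
  (mE S).comp ((P x).comp (mE Sᵀ))

theorem wC_pushR (S : Matrix m n ℝ) (W : E → (ι × Fin 2 → n) → ℝ) (x : E) :
    wC (fun y => pushR S (W y)) x = pushW (S.map (algebraMap ℝ ℂ)) (wC W x) := by
  funext J
  simp only [wC, pushR, pushW, Matrix.map_apply]
  push_cast
  rfl

theorem pushR_frame (S : Matrix m n ℝ) (f : Matrix n (ι × Fin 2) ℝ) {W : (ι × Fin 2 → n) → ℝ}
    (hf : ∀ I, W I = (f.submatrix I id).det) (J : ι × Fin 2 → m) :
    pushR S W J = ((S * f).submatrix J id).det := by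
  have h1 := pushW_frame (S.map (algebraMap ℝ ℂ)) (f.map (algebraMap ℝ ℂ))
    (W := fun I => ((W I : ℝ) : ℂ)) (fun I => by
      rw [hf]
      exact RingHom.map_det (algebraMap ℝ ℂ) (f.submatrix I id)) J
  have h2 : ((pushR S W J : ℝ) : ℂ) = pushW (S.map (algebraMap ℝ ℂ)) (fun I => ((W I : ℝ) : ℂ)) J := by
    simp only [pushR, pushW, Matrix.map_apply]
    push_cast
    rfl
  rw [← Matrix.map_mul] at h1
  have h3 : (((S * f).submatrix J id).det : ℂ)
      = (((S * f).map (algebraMap ℝ ℂ)).submatrix J id).det :=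
    RingHom.map_det (algebraMap ℝ ℂ) ((S * f).submatrix J id)
  rw [← h2, ← h3] at h1
  exact_mod_cast h1

theorem mtx_mE (A : EuclideanSpace ℝ n →L[ℝ] EuclideanSpace ℝ n) (i j : n) :
    mtx A i j = ((A (EuclideanSpace.single j 1) i : ℝ) : ℂ) := rfl

theorem mE_single (S : Matrix m n ℝ) (j : n) (i : m) : mE S (EuclideanSpace.single j 1) i = S i j := by
  simp [mE_apply]

theorem apply_eq_sum (A : EuclideanSpace ℝ n →L[ℝ] EuclideanSpace ℝ n) (v : EuclideanSpace ℝ n)
    (i : n) : A v i = ∑ j, A (EuclideanSpace.single j 1) i * v j := by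
  have h1 : v = ∑ j, v j • (EuclideanSpace.single j (1 : ℝ)) := by
    ext k
    simp [Finset.sum_apply, Pi.single_apply]
  conv_lhs => rw [h1]
  rw [map_sum]
  simp only [map_smul, WithLp.ofLp_sum, WithLp.ofLp_smul, Finset.sum_apply, Pi.smul_apply,
    smul_eq_mul]
  exact Finset.sum_congr rfl fun j _ => mul_comm _ _

theorem mtx_pushE (S : Matrix m n ℝ) (P : E → EuclideanSpace ℝ n →L[ℝ] EuclideanSpace ℝ n) (x : E) :
    mtx (pushE S P x) = S.map (algebraMap ℝ ℂ) * mtx (P x) * (S.map (algebraMap ℝ ℂ))ᵀ := by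
  ext i j
  rw [mtx_mE]
  change ((mE S (P x (mE Sᵀ (EuclideanSpace.single j 1))) i : ℝ) : ℂ) = _
  rw [mE_apply]
  simp only [Matrix.mul_apply, Matrix.transpose_apply, Matrix.map_apply, mtx_mE, Finset.sum_mul]
  rw [Finset.sum_comm]
  push_cast
  refine Finset.sum_congr rfl fun k _ => ?_
  rw [apply_eq_sum]
  push_cast
  rw [Finset.mul_sum]
  refine Finset.sum_congr rfl fun l _ => ?_
  rw [mE_single]
  simp only [Matrix.transpose_apply, Complex.coe_algebraMap]
  ring

theorem OR.push (hS : Sᵀ * S = 1) (h : OR X P W) :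
    OR X (pushE S P) (fun x => pushR S (W x)) := by
  refine ⟨fun x hx => ?_, fun x hx J => ?_, fun x hx => ?_⟩
  · exact contDiffAt_const.clm_comp ((h.sP x hx).clm_comp contDiffAt_const)
  · exact ContDiffAt.sum fun I _ => contDiffAt_const.mul (h.sW x hx I)
  · obtain ⟨f, h1, h2, h3⟩ := h.fr x hx
    refine ⟨S * f, ?_, fun v i => ?_, fun J => pushR_frame S f h3 J⟩
    · rw [Matrix.transpose_mul, Matrix.mul_assoc, ← Matrix.mul_assoc Sᵀ, hS, Matrix.one_mul, h1]
    · change mE S (P x (mE Sᵀ v)) i = _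
      have e1 : P x (mE Sᵀ v) = mE (f * fᵀ) (mE Sᵀ v) := by
        ext k
        rw [h2, mE_apply]
      rw [e1, mE_mE, mE_mE, mE_apply, Matrix.transpose_mul]
      simp only [Matrix.mul_assoc]

theorem eqv_eR_push (hS : Sᵀ * S = 1) (h : OR X P W) :
    Eqv X (eR (pushE S P) (fun x => pushR S (W x))) (eR P W) := by
  refine eqv_iff.2 fun x hx => ?_
  have hSC : (S.map (algebraMap ℝ ℂ))ᵀ * S.map (algebraMap ℝ ℂ) = 1 := by
    have h0 : (S.map (algebraMap ℝ ℂ))ᵀ = Sᵀ.map (algebraMap ℝ ℂ) := rfl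
    rw [h0, ← Matrix.map_mul, hS]
    exact Matrix.map_one _ (map_zero _) (map_one _)
  have h1 := rs_ef_const_push (OR.of h) hSC hx
  have h2 := congrArg Cx.re h1
  have h3 : (fun y => mtx (pushE S P y))
      = fun y => S.map (algebraMap ℝ ℂ) * mtx (P y) * (S.map (algebraMap ℝ ℂ))ᵀ :=
    funext fun y => mtx_pushE S P y
  have h4 : wC (fun y => pushR S (W y)) = fun y => pushW (S.map (algebraMap ℝ ℂ)) (wC W y) :=
    funext fun y => wC_pushR S W y
  rw [eR, eR, h3, h4]
  exact h2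

/-! the two maps of sphere bundles -/

theorem smap_in (hS : Sᵀ * S = 1) : SMap (Sph X P) (Sph X (pushE S P))
    (fun z : E × EuclideanSpace ℝ n => ((z.1, mE S z.2) : E × EuclideanSpace ℝ m)) := by
  refine ⟨fun z _ => ?_, fun z hz => ⟨⟨hz.1.1, ?_⟩, ?_⟩⟩
  · exact contDiffAt_fst.prodMk ((mE S).contDiff.contDiffAt.comp z contDiffAt_snd)
  · change mE S (P z.1 (mE Sᵀ (mE S z.2))) = mE S z.2
    rw [mE_mE, hS, mE_one, hz.1.2]
  · change ‖mE S z.2‖ = 1
    rw [norm_mE hS, hz.2]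

theorem tot_out (hS : Sᵀ * S = 1) {z : E × EuclideanSpace ℝ m} (hz : z ∈ Tot X (pushE S P)) :
    P z.1 (mE Sᵀ z.2) = mE Sᵀ z.2 ∧ mE S (mE Sᵀ z.2) = z.2 := by
  have h1 : mE S (P z.1 (mE Sᵀ z.2)) = z.2 := hz.2
  have h2 : mE Sᵀ z.2 = P z.1 (mE Sᵀ z.2) := by
    conv_lhs => rw [← h1]
    rw [mE_mE, hS, mE_one]
  refine ⟨h2.symm, ?_⟩
  conv_lhs => rw [h2]
  exact h1

theorem smap_out (hS : Sᵀ * S = 1) : SMap (Sph X (pushE S P)) (Sph X P)
    (fun z : E × EuclideanSpace ℝ m => ((z.1, mE Sᵀ z.2) : E × EuclideanSpace ℝ n)) := by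
  refine ⟨fun z _ => ?_, fun z hz => ⟨⟨hz.1.1, (tot_out hS hz.1).1⟩, ?_⟩⟩
  · exact contDiffAt_fst.prodMk ((mE Sᵀ).contDiff.contDiffAt.comp z contDiffAt_snd)
  · change ‖mE Sᵀ z.2‖ = 1
    rw [← norm_mE hS, (tot_out hS hz.1).2, hz.2]

end iso

/-! ### the three theorems in arbitrary codimension -/
section par
variable {n : Type} [Fintype n] [DecidableEq n]
  {E : Type} [NormedAddCommGroup E] [NormedSpace ℝ E] [FiniteDimensional ℝ E]
  {ι : Type} [Fintype ι] [DecidableEq ι]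
  {X : Set E} {P : E → EuclideanSpace ℝ n →L[ℝ] EuclideanSpace ℝ n}
  {W : E → (ι × Fin 2 → n) → ℝ} {d : ℕ}

/-- the inclusion matrix -/
def iM (n κ : Type) [DecidableEq n] : Matrix (n ⊕ κ) n ℝ := Matrix.fromRows 1 0

theorem iM_iso (κ : Type) [Fintype κ] : (iM n κ)ᵀ * iM n κ = 1 := by
  rw [iM, Matrix.transpose_fromRows, Matrix.fromCols_mul_fromRows]
  simp

theorem OR.card_le (h : OR X P W) (hne : X.Nonempty) :
    2 * Fintype.card ι ≤ Fintype.card n := by
  obtain ⟨x, hx⟩ := hne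
  obtain ⟨f, h1, -, -⟩ := h.fr x hx
  have h2 : Fintype.card (ι × Fin 2) ≤ Fintype.card n := by
    have h3 : (fᵀ * f).rank = Fintype.card (ι × Fin 2) := by rw [h1, Matrix.rank_one]
    calc Fintype.card (ι × Fin 2) = (fᵀ * f).rank := h3.symm
      _ ≤ f.rank := Matrix.rank_mul_le_right _ _
      _ ≤ Fintype.card n := Matrix.rank_le_card_height f
  rw [Fintype.card_prod, Fintype.card_fin] at h2
  omega

/-- a complement of even, positive rank after adding one or two dimensions -/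
theorem exists_par (h : OR X P W) (hne : X.Nonempty) :
    ∃ q r : ℕ, ∃ _ : (ι × Fin 2) ⊕ (Fin (r + 1) × Fin 2) ≃ n ⊕ Fin q, True := by
  have h1 := h.card_le hne
  rcases Nat.even_or_odd (Fintype.card n) with ⟨a, ha⟩ | ⟨a, ha⟩
  · refine ⟨2, a - Fintype.card ι, Fintype.equivOfCardEq ?_, trivial⟩
    simp only [Fintype.card_sum, Fintype.card_prod, Fintype.card_fin]
    omega
  · refine ⟨1, a - Fintype.card ι, Fintype.equivOfCardEq ?_, trivial⟩
    simp only [Fintype.card_sum, Fintype.card_prod, Fintype.card_fin]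
    omega

/-- **(B1)** for oriented projection fields of any codimension -/
theorem sph_low_any (hD : THDstmt) [Nonempty ι] (hX : Sub d X) (hc : IsPreconnected X)
    (h : OR X P W) {j : ℕ} (hj : j + 1 < 2 * Fintype.card ι)
    {b : E × EuclideanSpace ℝ n → Ext (E × EuclideanSpace ℝ n)} (hb : Sm (Sph X P) b)
    (hcl : Cl (Sph X P) b) (hd : Hom j b) :
    ∃ c : E → Ext E, Sm X c ∧ Cl X c ∧ Hom j c ∧ Coh (Sph X P) b (F.pull Prod.fst c) := by
  rcases X.eq_empty_or_nonempty with rfl | hne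
  · refine ⟨0, Sm.zero, fun x hx => hx.elim, Hom.zero, Coh.of_eqv (Eqv.of_eq fun z hz => ?_)⟩
    exact hz.1.1.elim
  obtain ⟨q, r, eq, -⟩ := exists_par h hne
  have hS := iM_iso (n := n) (Fin q)
  have h' := h.push hS
  obtain ⟨c, sc, cc, dc, ec⟩ := sph_low_OR hD eq hX hc h' hj (hb.pull (smap_out hS))
    (hcl.pull (smap_out hS) hb) (hd.pull)
  refine ⟨c, sc, cc, dc, ?_⟩
  have e1 := ec.pull (smap_in hS)
  have e2 : Eqv (Sph X P) (F.pull (fun z : E × EuclideanSpace ℝ n =>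
        ((z.1, mE (iM n (Fin q)) z.2) : E × EuclideanSpace ℝ (n ⊕ Fin q)))
      (F.pull (fun z : E × EuclideanSpace ℝ (n ⊕ Fin q) =>
        ((z.1, mE (iM n (Fin q))ᵀ z.2) : E × EuclideanSpace ℝ n)) b)) b :=
    (eqv_pull_pull (smap_in hS) (smap_out hS) (SMap.id _) (fun z _ => by
      change (z.1, mE (iM n (Fin q))ᵀ (mE (iM n (Fin q)) z.2)) = z
      rw [mE_mE, hS, mE_one]) b).trans (Eqv.of_eq fun z _ => F.pull_id b z)
  have e3 := eqv_pull_pull (smap_in (X := X) (P := P) hS) (smap_fstS (X := X)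
    (P := pushE (iM n (Fin q)) P)) (smap_fstS (X := X) (P := P)) (fun _ _ => rfl) c
  exact (Coh.of_eqv e2.symm).trans (e1.trans (Coh.of_eqv e3))

/-- **(B2)** for oriented projection fields of any codimension -/
theorem gysin_any (hD : THDstmt) [Nonempty ι] (hX : Sub d X) (hc : IsPreconnected X)
    (h : OR X P W) {j : ℕ} {b : E → Ext E} (hb : Sm X b) (hcl : Cl X b)
    (hd : Hom (j + 2 * Fintype.card ι) b)
    (h0 : Coh (Sph X P) (F.pull Prod.fst b) 0) :
    ∃ c : E → Ext E, Sm X c ∧ Cl X c ∧ Hom j c ∧ Coh X b (c * eR P W) := by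
  rcases X.eq_empty_or_nonempty with rfl | hne
  · exact ⟨0, Sm.zero, fun x hx => hx.elim, Hom.zero, Coh.of_eqv (Eqv.of_eq fun z hz => hz.elim)⟩
  obtain ⟨q, r, eq, -⟩ := exists_par h hne
  have hS := iM_iso (n := n) (Fin q)
  have e1 := h0.pull (smap_out hS)
  have e3 := eqv_pull_pull (smap_out (X := X) (P := P) hS) (smap_fstS (X := X) (P := P))
    (smap_fstS (X := X) (P := pushE (iM n (Fin q)) P)) (fun _ _ => rfl) b
  rw [pull_zero'] at e1
  obtain ⟨c, sc, cc, dc, ec⟩ := gysin_OR hD eq hX hc (h.push hS) hb hcl hd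
    ((Coh.of_eqv e3.symm).trans e1)
  exact ⟨c, sc, cc, dc, ec.trans (Coh.of_eqv ((Eqv.refl c).mul (eqv_eR_push hS h)))⟩

/-- **(B2)**, low degrees, for oriented projection fields of any codimension -/
theorem gysin_low_any (hD : THDstmt) [Nonempty ι] (hX : Sub d X) (hc : IsPreconnected X)
    (h : OR X P W) {j : ℕ} {b : E → Ext E} (hb : Sm X b) (hcl : Cl X b)
    (hd : Hom j b) (hj : j < 2 * Fintype.card ι)
    (h0 : Coh (Sph X P) (F.pull Prod.fst b) 0) : Coh X b 0 := by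
  rcases X.eq_empty_or_nonempty with rfl | hne
  · exact Coh.of_eqv (Eqv.of_eq fun z hz => hz.elim)
  obtain ⟨q, r, eq, -⟩ := exists_par h hne
  have hS := iM_iso (n := n) (Fin q)
  have e1 := h0.pull (smap_out hS)
  have e3 := eqv_pull_pull (smap_out (X := X) (P := P) hS) (smap_fstS (X := X) (P := P))
    (smap_fstS (X := X) (P := pushE (iM n (Fin q)) P)) (fun _ _ => rfl) b
  rw [pull_zero'] at e1
  exact gysin_low_OR hD eq hX hc (h.push hS) hb hcl hd hj ((Coh.of_eqv e3.symm).trans e1)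

/-! ### the same without the hypothesis -/

theorem thd_holds : THDstmt := by
  intro n _ _ E _ _ _ ι ι' _ _ _ _ _ _ X P W W' h h' x hx
  exact thom_unit_pt volume h h' hx

/-- **(B1)** for oriented projection fields of any codimension -/
theorem sph_low_all [Nonempty ι] (hX : Sub d X) (hc : IsPreconnected X)
    (h : OR X P W) {j : ℕ} (hj : j + 1 < 2 * Fintype.card ι)
    {b : E × EuclideanSpace ℝ n → Ext (E × EuclideanSpace ℝ n)} (hb : Sm (Sph X P) b)
    (hcl : Cl (Sph X P) b) (hd : Hom j b) :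
    ∃ c : E → Ext E, Sm X c ∧ Cl X c ∧ Hom j c ∧ Coh (Sph X P) b (F.pull Prod.fst c) :=
  sph_low_any thd_holds hX hc h hj hb hcl hd

/-- **(B2)** for oriented projection fields of any codimension -/
theorem gysin_all [Nonempty ι] (hX : Sub d X) (hc : IsPreconnected X)
    (h : OR X P W) {j : ℕ} {b : E → Ext E} (hb : Sm X b) (hcl : Cl X b)
    (hd : Hom (j + 2 * Fintype.card ι) b)
    (h0 : Coh (Sph X P) (F.pull Prod.fst b) 0) :
    ∃ c : E → Ext E, Sm X c ∧ Cl X c ∧ Hom j c ∧ Coh X b (c * eR P W) :=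
  gysin_any thd_holds hX hc h hb hcl hd h0

/-- **(B2)**, low degrees, for oriented projection fields of any codimension -/
theorem gysin_low_all [Nonempty ι] (hX : Sub d X) (hc : IsPreconnected X)
    (h : OR X P W) {j : ℕ} {b : E → Ext E} (hb : Sm X b) (hcl : Cl X b)
    (hd : Hom j b) (hj : j < 2 * Fintype.card ι)
    (h0 : Coh (Sph X P) (F.pull Prod.fst b) 0) : Coh X b 0 :=
  gysin_low_any thd_holds hX hc h hb hcl hd hj h0

end par

end Crest.Agent.R208.T
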