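import Crest.Agent.R208.T3c
import Crest.Agent.R208.T2d
import Crest.Agent.R208.GP4b

/-! Row 208, block GP (helper198), part GP2e: instances `Polar`, `Tube` of block T for `S`, `C_p`;
cohomology of the unit sphere of `T_p S`; (B4') without hypotheses for `n` even. -/

set_option autoImplicit false
set_option linter.unusedSectionVars false

open MeasureTheory Measure Set Filter Topology Module Metric
open scoped ContDiff RealInnerProductSpace
open Crest.GeometryTopology.Submanifold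
open Crest.Agent.R241.DDefs
open Crest.Agent.R241.D2
open Crest.Agent.R208.F Crest.Agent.R208.FI
open Crest.Agent.R208.CW (SMap SMap.id SMap.comp)
open Crest.Agent.R208.T (Eqv Sm Cl Coh Hom Sph)

noncomputable section

namespace Crest.Agent.R208.GP

variable {n N k : ℕ} {κ : ℝ} {S : Set (Euc N)} {G : Geo n N κ S} {p q x v : Euc N}

/-- **Polar instance** -/
theorem exists_polar (hB : Bl n N κ S G Real.pi) (hp : p ∈ S) {r : ℝ} (hr0 : 0 < r)
    (hr : r < Real.pi) : ∃ (U : Set (Euc N)) (Λ : Euc N → Euc N × Euc N),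
      T.Polar S p U (G.P p) r (Psi G) Λ ∧ (∀ y ∈ S, y ∈ U ↔ intrinsicDist S p y < r) ∧
      ∀ y ∈ S ∩ U, ‖(Λ y).2‖ = intrinsicDist S p y := by
  obtain ⟨L, hL1, hL2⟩ := exists_log hB hp hr
  obtain ⟨U, hU, hUe⟩ := continuousOn_iff'.1 (continuousOn_dist_left hB hp) (Iio r) isOpen_Iio
  have hUr : ∀ y ∈ S, y ∈ U ↔ intrinsicDist S p y < r := by
    intro y hy
    constructor
    · intro h
      have : y ∈ U ∩ S := ⟨h, hy⟩
      rw [← hUe] at this
      exact this.1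
    · intro h
      have : y ∈ (fun y => intrinsicDist S p y) ⁻¹' Iio r ∩ S := ⟨h, hy⟩
      rw [hUe] at this
      exact this.1
  refine ⟨U, fun y => (p, L y), ⟨hp, hU, ?_, hr0, ?_, ?_, ?_, ?_⟩, hUr, ?_⟩
  · rw [hUr p hp, intrinsicDist_self hp]; exact hr0
  · refine ⟨fun z hz => ?_, fun z hz => ?_⟩
    · have h1 : z.1 = p := hz.1.1
      have h2 : z.2 ∈ G.T p := (P_eq_self G hp).2 hz.1.2
      exact contDiffAt_Psi ⟨by rw [h1]; exact hp, by rw [h1]; exact h2⟩
    · have h1 : z.1 = p := hz.1.1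
      have h2 : z.2 ∈ G.T p := (P_eq_self G hp).2 hz.1.2
      have h3 : ‖z.2‖ < r := hz.2
      have h4 := Exp_mem G hp h2
      have h5 : Psi G z = Exp G p z.2 := by rw [Psi, h1]
      rw [h5]
      exact ⟨h4, (hUr _ h4).2 (by rw [hB.dist_Exp hp h2 (h3.le.trans hr.le)]; exact h3)⟩
  · refine ⟨fun y hy => ?_, fun y hy => ?_⟩
    · exact contDiffAt_const.prodMk (hL1 y hy.1 ((hUr y hy.1).1 hy.2).le)
    · obtain ⟨h1, h2, -⟩ := hL2 y hy.1 ((hUr y hy.1).1 hy.2).le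
      refine ⟨⟨rfl, (P_eq_self G hp).1 h1⟩, ?_⟩
      change ‖L y‖ < r
      rw [h2]; exact (hUr y hy.1).1 hy.2
  · intro y hy
    exact (hL2 y hy.1 ((hUr y hy.1).1 hy.2).le).2.2
  · intro z hz hzr
    have h1 : z.1 = p := hz.1
    have h2 : z.2 ∈ G.T p := (P_eq_self G hp).2 hz.2
    have h5 : Psi G z = Exp G p z.2 := by rw [Psi, h1]
    rw [h5]
    constructor
    · intro h
      have h6 := hB.dist_Exp hp h2 (hzr.le.trans hr.le)
      rw [h, intrinsicDist_self hp] at h6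
      exact norm_eq_zero.1 h6.symm
    · intro h
      rw [h, Exp_zero G hp]
  · intro y hy
    exact (hL2 y hy.1 ((hUr y hy.1).1 hy.2).le).2.1

/-- **Tube instance** -/
theorem exists_Tube (hB : Bl n N κ S G Real.pi) (hT : I.Typ G k) (hS : Sub n S) (hp : p ∈ S) :
    ∃ Gt : Euc N → Euc N × Euc N,
      T.Tube S (Cut S p) p (PC hB hT hS p) Real.pi (Psi G) Gt ∧
      (∀ x ∈ S \ {p}, ‖(Gt x).2‖ = Real.pi - intrinsicDist S p x) := by
  obtain ⟨Gt, h1, h2, h3, h4, h5, h6⟩ := exists_Gt hB hT hS hp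
  have h3π : (0 : ℝ) < Real.pi - 3 := by linarith [Real.pi_gt_three]
  obtain ⟨U, Λ, h7, h8, -⟩ := exists_polar (G := G) hB hp h3π (by linarith)
  refine ⟨Gt, ⟨fun q hq => ⟨hq.1, ne_of_Cut hB hp hq⟩, h1, h2, h3, fun q hq => Exp_zero G hq.1, h5,
    U, h7.oU, h7.pU, fun q hq hqp => ?_⟩, h6⟩
  rw [h6 q ⟨hq.1, hqp⟩]
  have := (h8 q hq.1).1 hq.2
  linarith

/-- **cohomology of the unit sphere of `T_p S`** (`n` even), degrees `< n - 1`. -/
theorem sphV (hB : Bl n N κ S G Real.pi) (hT : I.Typ G k) (hk : 2 ≤ k) (hp : p ∈ S)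
    (hn : Even n) : SphV p (G.P p) n := by
  obtain ⟨m, hm⟩ := hn
  have hn1 := hB.hn
  have hm1 : 1 ≤ m := by omega
  have hι : 2 * Fintype.card (Fin m) = n := by rw [Fintype.card_fin]; omega
  obtain ⟨Wt, hW⟩ := exists_OR_S (G := G) hB hT hk hι
  have : Nonempty (Fin m) := ⟨⟨0, by omega⟩⟩
  have h1 : T.OR ({p} : Set (Euc N)) (fun _ => G.P p) (fun _ => Wt p) :=
    OR.comp hW (f := fun _ => p) (fun _ _ => contDiffAt_const) (fun _ _ => hp)
  intro j hj b hb hc hd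
  obtain ⟨c, -, -, -, hcc⟩ := T.sph_low_all (T.sub_point p) isPreconnected_singleton h1
    (by rw [hι]; exact hj) hb hc hd
  exact ⟨c, hcc⟩

/-- **(B4')**, `n` even: a closed form of degree `1 ≤ j + 1 ≤ n - 1` on `S` whose restriction to
`C_p` is exact is exact. -/
theorem coh_zero_of_Cut' (hB : Bl n N κ S G Real.pi) (hT : I.Typ G k) (hk : 2 ≤ k)
    (hS : Sub n S) (hp : p ∈ S) (hn : Even n) {j : ℕ} (hj : j + 1 < n)
    {w : Euc N → Ext (Euc N)} (hw : Sm S w) (hc : Cl S w) (hd : Hom (j + 1) w)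
    (h0 : Coh (Cut S p) w 0) : Coh S w 0 :=
  coh_zero_of_Cut hB hT hS hp (sphV hB hT hk hp hn) hj hw hc hd h0

end Crest.Agent.R208.GP
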