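import Crest.Agent.R208.RI1
import Crest.Agent.R208.GP2e

/-! Row 208, block RI (helper545), part RI2: the integral of a closed `k`-form `ξ` of `S`, which restricts
to (a multiple of) the Euler form of the normal bundle of every cut locus, over a smooth image of a
closed `k`-manifold is an integral multiple of the universal unit. -/

set_option autoImplicit false
set_option linter.unusedSectionVars false

open MeasureTheory Measure Set Filter Topology Module Metric
open scoped ContDiff RealInnerProductSpace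
open Crest.GeometryTopology.Submanifold
open Crest.Agent.R241.DDefs
open Crest.Agent.R241.D2
open Crest.Agent.R208.F Crest.Agent.R208.FI
open Crest.Agent.R208.CW (SMap SMap.id SMap.comp)
open Crest.Agent.R208.T (Eqv Sm Cl Coh Hom Sph Tube eR)
open Crest.Agent.R208.GP (PC Cut)

noncomputable section

namespace Crest.Agent.R208.RI

section J
variable {E : Type*} [NormedAddCommGroup E] [NormedSpace ℝ E] [FiniteDimensional ℝ E]
  {X : Set E} {d : ℕ} {o a b : E → Ext E}

theorem Sm.cont (h : Sm X a) : ContinuousOn a X := fun x hx => (h x hx).continuousAt.continuousWithinAt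

/-- cohomologous forms have the same integral -/
theorem J_coh (hX : Clo d X) (ho : Ori d X o) (ha : Sm X a) (hb : Sm X b) (h : Coh X a b) :
    J d X o a = J d X o b := by
  obtain ⟨ξ, hξ, he⟩ := h
  have hβ : ∀ x ∈ X, ContDiffAt ℝ 1 ξ x := fun x hx => (hξ x hx).of_le (by exact_mod_cast le_top)
  have h2 := J_d hX ho hβ
  have h4 : J d X o (fun x => a x - b x - F.d ξ x) = 0 :=
    J_eq_zero hX fun x hx w hw => he.evA hx hw
  have h5 := J_sub hX ho (om := fun x => a x - b x) ((Sm.cont ha).sub (Sm.cont hb)) (continuousOn_d hβ)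
  rw [h5, J_sub hX ho (Sm.cont ha) (Sm.cont hb), h2, sub_zero] at h4
  exact sub_eq_zero.1 h4

end J

section abs
universe u
variable {E E' : Type u} [NormedAddCommGroup E] [NormedSpace ℝ E] [FiniteDimensional ℝ E]
  [NormedAddCommGroup E'] [NormedSpace ℝ E'] [FiniteDimensional ℝ E']
  {ι n : Type*} [Fintype ι] [DecidableEq ι] [Fintype n] [DecidableEq n]
  {S C : Set E} {p : E} {ρ : ℝ} {Ψ : E × EuclideanSpace ℝ n → E} {Gt : E → E × EuclideanSpace ℝ n}
  {P : E → EuclideanSpace ℝ n →L[ℝ] EuclideanSpace ℝ n} {W : E → (ι × Fin 2 → n) → ℝ}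
  {X : Set E'} {d : ℕ} {oX : E' → Ext E'}

/-- **abstract period theorem**: one tube. -/
theorem period_tube (h : Tube S C p P ρ Ψ Gt) (hX : Clo d X) (hoX : Ori d X oX)
    {g : E' → E} (hg : SMap X S g) (hp : ∀ x ∈ X, g x ≠ p) {ξ : E → Ext E} (hb : Sm S ξ)
    (hc : Cl S ξ) (hor : T.OR C P W) {c τ : ℝ} (h0 : Coh C ξ (c • eR P W))
    (hint : ∀ (P' : E' → EuclideanSpace ℝ n →L[ℝ] EuclideanSpace ℝ n)
      (W' : E' → (ι × Fin 2 → n) → ℝ), T.OR X P' W' → ∃ z : ℤ, J d X oX (eR P' W') = τ * z) :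
    ∃ z : ℤ, J d X oX (F.pull g ξ) = c * τ * z := by
  have hg' : SMap X (S \ {p}) g := ⟨hg.smooth, fun x hx => ⟨hg.maps hx, hp x hx⟩⟩
  have kC := smap_retract h
  have kX : SMap X C (fun x => (Gt (g x)).1) :=
    ⟨fun x hx => (kC.smooth _ (hg'.maps hx)).comp x (hg'.smooth x hx),
      fun x hx => kC.maps (hg'.maps hx)⟩
  have hse : Sm C (eR P W) := fun x hx => ((CW.ef_mem_Z (T.OR.of hor)).2.1 x hx).re
  have h1 := coh_pull_retract h hb hc h0 hg hp
  have h2 : Sm X (F.pull (fun x => (Gt (g x)).1) (c • eR P W)) := (hse.smul c).pull kX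
  have h3 := J_coh hX hoX (hb.pull hg) h2 h1
  obtain ⟨z, hz⟩ := hint _ _ (or_comp hor kX)
  refine ⟨z, ?_⟩
  rw [h3, T.pull_smul']
  have h4 : J d X oX (c • F.pull (fun x => (Gt (g x)).1) (eR P W)) =
      J d X oX (fun x => c • eR (fun y => P (Gt (g y)).1) (fun y => W (Gt (g y)).1) x) :=
    J_congr' hX fun x hx => by
      change c • F.pull (fun x => (Gt (g x)).1) (eR P W) x = _
      rw [pull_eR hor kX hx]
  rw [h4, J_smul, hz]; ring

end abs

section inst
variable {n N k : ℕ} {κ : ℝ} {S : Set (Euc N)} {G : Geo n N κ S}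

/-- **PERIODS OF THE GENERATOR ARE INTEGRAL** -/
theorem period_int (hB : Bl n N κ S G Real.pi) (hT : I.Typ G k) (hS : Sub n S) (hne : S.Nonempty)
    {ι : Type*} [Fintype ι] [DecidableEq ι]
    {E' : Type} [NormedAddCommGroup E'] [NormedSpace ℝ E'] [FiniteDimensional ℝ E']
    {X : Set E'} {d : ℕ} {oX : E' → Ext E'} (hX : Clo d X) (hoX : Ori d X oX) (hd : d < n)
    {g : E' → Euc N} (hg : SMap X S g) {ξ : Euc N → Ext (Euc N)} (hb : Sm S ξ) (hc : Cl S ξ)
    {c τ : ℝ}
    (h0 : ∀ p ∈ S, ∃ (W : Euc N → (ι × Fin 2 → Fin N) → ℝ) (c' : ℝ), (c' = c ∨ c' = -c) ∧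
      T.OR (Cut S p) (PC hB hT hS p) W ∧ Coh (Cut S p) ξ (c' • eR (PC hB hT hS p) W))
    (hint : ∀ (P' : E' → EuclideanSpace ℝ (Fin N) →L[ℝ] EuclideanSpace ℝ (Fin N))
      (W' : E' → (ι × Fin 2 → Fin N) → ℝ), T.OR X P' W' → ∃ z : ℤ, J d X oX (eR P' W') = τ * z) :
    ∃ z : ℤ, J d X oX (F.pull g ξ) = c * τ * z := by
  obtain ⟨p, hp, hgp⟩ := exists_notMem_image hX hS hne hd hg.smooth
  obtain ⟨W, c', hc', hor, hcoh⟩ := h0 p hp
  obtain ⟨Gt, hGt, -⟩ := GP.exists_Tube hB hT hS hp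
  obtain ⟨z, hz⟩ := period_tube hGt hX hoX hg hgp hb hc hor hcoh hint
  rcases hc' with rfl | rfl
  · exact ⟨z, hz⟩
  · exact ⟨-z, by rw [hz]; push_cast; ring⟩

end inst

end Crest.Agent.R208.RI
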