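import Crest.Agent.R208.T2
import Crest.Agent.R208.THB4

/-! Row 208, block T (helper316).  T2b: closed forms of degree zero on a connected set are
constant; the Thom pair from the pointwise computation. -/

set_option autoImplicit false
set_option linter.unusedSectionVars false

open MeasureTheory Set Filter Topology Module
open scoped ContDiff
open Crest.Agent.R208.F Crest.Agent.R208.FI Crest.Agent.R208.CW

noncomputable section

namespace Crest.Agent.R208.T

section zero
variable {E : Type*} [NormedAddCommGroup E] [NormedSpace ℝ E] [FiniteDimensional ℝ E]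
  {X : Set E} {d : ℕ} {b : E → Ext E} {x : E}

/-- degree zero part -/
def ev0 (b : E → Ext E) (x : E) : ℝ := evA E 0 (b x) Fin.elim0

theorem isDeg_zero_eq {c : Ext E} (h : IsDeg 0 c) : c = algebraMap ℝ (Ext E) (evA E 0 c Fin.elim0) := by
  refine ext_evA fun q => ?_
  cases q with
  | zero =>
    ext v
    rw [evA_zero_algebraMap]
    exact congrArg _ (Subsingleton.elim _ _)
  | succ q => rw [h (q + 1) (by omega), evA_succ_algebraMap]

theorem contDiffAt_ev0 {n : WithTop ℕ∞} (h : ContDiffAt ℝ n b x) : ContDiffAt ℝ n (ev0 b) x := by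
  let L : Ext E →ₗ[ℝ] ℝ :=
    { toFun := fun c => evA E 0 c Fin.elim0
      map_add' := fun x y => by rw [map_add]; rfl
      map_smul' := fun r x => by rw [map_smul]; rfl }
  exact (LinearMap.toContinuousLinearMap L).contDiff.contDiffAt.comp x h

theorem d_algebraMap {g : E → ℝ} (hg : DifferentiableAt ℝ g x) :
    F.d (fun y => algebraMap ℝ (Ext E) (g y)) x =
      io ((fderiv ℝ g x : E →L[ℝ] ℝ) : Module.Dual ℝ E) := by
  have h1 : (fun y => algebraMap ℝ (Ext E) (g y)) = fun y => g y • (1 : Ext E) :=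
    funext fun y => Algebra.algebraMap_eq_smul_one _
  rw [h1, F.d_smul hg (differentiableAt_const _), F.d_const, smul_zero, add_zero, mul_one]

/-- a function with closed `0`-form is locally constant -/
theorem const_of_closed (hX : Sub d X) (hc : IsPreconnected X) (hs : Sm X b) (hcl : Cl X b)
    (h0 : Hom 0 b) : ∃ c : ℝ, ∀ x ∈ X, b x = algebraMap ℝ (Ext E) c := by
  set g := ev0 b with hg
  have hb : b = fun y => algebraMap ℝ (Ext E) (g y) := funext fun y => isDeg_zero_eq (h0 y)
  have hgs : ∀ x ∈ X, ContDiffAt ℝ ∞ g x := fun x hx => contDiffAt_ev0 (hs x hx)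
  have hgd : ∀ x ∈ X, ∀ w ∈ Tan X x, fderiv ℝ g x w = 0 := by
    intro x hx w hw
    have h1 := hcl x hx
    rw [hb, d_algebraMap ((hgs x hx).differentiableAt (by simp)), pb_io] at h1
    have h2 := congrArg (fun c => evA (Tan X x) 1 c (fun _ => ⟨w, hw⟩)) h1
    simp only [evA_io, map_zero] at h2
    exact h2
  rcases X.eq_empty_or_nonempty with rfl | ⟨x0, hx0⟩
  · exact ⟨0, fun x hx => hx.elim⟩
  have hloc : IsLocallyConstant (fun x : X => g x) := by
    rw [IsLocallyConstant.iff_eventually_eq]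
    rintro ⟨x, hx⟩
    obtain ⟨f, W, O, ℓ, hl, hxO⟩ := hX.exists_loc hx
    have hw : ℓ x ∈ W := hl.maps x hxO
    obtain ⟨ε, hε, hB⟩ := Metric.isOpen_iff.1 hl.oW _ hw
    have hcont : ContinuousAt ℓ x := (hl.lC' hxO).continuousAt
    have h1 : ∀ᶠ y in 𝓝 x, y ∈ O ∧ ℓ y ∈ Metric.ball (ℓ x) ε := by
      filter_upwards [hl.oO.mem_nhds hxO, hcont.eventually (Metric.ball_mem_nhds _ hε)] with y a1 a2
      exact ⟨a1, a2⟩
    have h2 : ∀ u ∈ Metric.ball (ℓ x) ε, HasFDerivAt (fun u => g (f u)) (0 : Eu d →L[ℝ] ℝ) u := by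
      intro u hu
      have huW := hB hu
      have h3 := (hl.fC' huW).differentiableAt (by simp)
      have h4 := ((hgs (f u) (hl.mem huW).1).differentiableAt (by simp)).hasFDerivAt.comp u
        h3.hasFDerivAt
      have h5 : (fderiv ℝ g (f u)).comp (fderiv ℝ f u) = 0 := by
        ext v
        refine hgd _ (hl.mem huW).1 _ ?_
        have hlr := Loc.range_eq_Tan hl huW
        rw [← hlr]
        exact ⟨v, rfl⟩
      rw [h5] at h4
      exact h4
    have h6 : ∀ u ∈ Metric.ball (ℓ x) ε, g (f u) = g (f (ℓ x)) := by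
      intro u hu
      exact (convex_ball (ℓ x) ε).is_const_of_fderivWithin_eq_zero (𝕜 := ℝ)
        (fun v hv => (h2 v hv).differentiableAt.differentiableWithinAt)
        (fun v hv => by
          rw [fderivWithin_of_isOpen Metric.isOpen_ball hv, (h2 v hv).fderiv])
        hu (Metric.mem_ball_self hε)
    rw [nhds_subtype_eq_comap]
    refine Filter.eventually_comap.2 ?_
    filter_upwards [h1] with y hy z hz
    subst hz
    have e1 := h6 _ hy.2
    rwa [hl.right_inv z.2 hy.1, hl.right_inv hx hxO] at e1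
  have : PreconnectedSpace X := Subtype.preconnectedSpace hc
  refine ⟨g x0, fun x hx => ?_⟩
  have := hloc.apply_eq_of_preconnectedSpace ⟨x, hx⟩ ⟨x0, hx0⟩
  rw [hb]
  exact congrArg _ this

end zero

section pair
variable {E : Type*} [NormedAddCommGroup E] [NormedSpace ℝ E] [FiniteDimensional ℝ E]
  {H : Type*} [NormedAddCommGroup H] [InnerProductSpace ℝ H] [FiniteDimensional ℝ H]
  [MeasurableSpace H] [BorelSpace H] {μ : Measure H} [μ.IsAddHaarMeasure]
  {X : Set E} {P : E → H →L[ℝ] H} {r d : ℕ} {R : ℝ} {τ τ' : E × H → Ext (E × H)}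

/-- constancy of the fibre integral -/
theorem unit_of_pointwise (hX : Sub d X) (hc : IsPreconnected X) (hne : X.Nonempty)
    (hP : PField X r P) (hτ : CSF X P R τ) (hτ' : CSF X (fun x => 1 - P x) R τ')
    (hpt : ∀ x ∈ X, ∃ c : ℝ, c ≠ 0 ∧ pI μ (F.pull (gam P) τ' * F.pull (bet P) τ) x =
      algebraMap ℝ (Ext E) c) :
    ∃ c₀ : ℝ, c₀ ≠ 0 ∧ Eqv X (pI μ (F.pull (gam P) τ' * F.pull (bet P) τ))
      (fun _ => algebraMap ℝ (Ext E) c₀) := by
  set q := pI μ (F.pull (gam P) τ' * F.pull (bet P) τ) with hq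
  have v1 : Vt (2 * R) (thE P τ' τ) := vt_eta hτ'.supp hτ.supp
  have s1 := sm_eta hP hτ'.smooth hτ.smooth
  have sq : Sm X q := sm_pI μ v1 s1
  have cq : Cl X q := by
    intro x hx
    have h1 := resZero_pI μ v1.d s1.d (cl_eta hP hτ'.smooth hτ.smooth hτ'.closed hτ.closed) x hx
    rw [d_pI μ v1 s1 hx, map_smul] at h1
    exact (smul_eq_zero.1 h1).resolve_left (pow_ne_zero _ (by norm_num))
  have hdeg : ∀ x ∈ X, dp 0 q x = q x := by
    intro x hx
    obtain ⟨c, -, h⟩ := hpt x hx
    refine dpl_of_isDeg ?_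
    rw [h]
    intro p hp
    obtain ⟨p, rfl⟩ := Nat.exists_eq_succ_of_ne_zero hp
    exact evA_succ_algebraMap p c
  obtain ⟨c₀, h0⟩ := const_of_closed hX hc (sq.dp 0) (Cl.dp 0 sq cq) (hom_dp 0 q)
  refine ⟨c₀, ?_, Eqv.of_eq fun x hx => by rw [← hdeg x hx, h0 x hx]⟩
  obtain ⟨x, hx⟩ := hne
  obtain ⟨c, hc0, h⟩ := hpt x hx
  have h1 : algebraMap ℝ (Ext E) c = algebraMap ℝ (Ext E) c₀ := by
    rw [← h, ← hdeg x hx, h0 x hx]
  have h2 : c = c₀ := by
    have := congrArg (fun z => evA E 0 z Fin.elim0) h1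
    simpa only [evA_zero_algebraMap] using this
  rwa [← h2]

end pair

end Crest.Agent.R208.T
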