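import Crest.Agent.R208.RR5
import Crest.Agent.R208.T2b
import Crest.Agent.R208.RI2

/-! Row 208, block RR (helper427), part RR6: the constant for 2-forms; the final theorem with two
families; comparison of the constants. -/

set_option autoImplicit false
set_option linter.unusedSectionVars false
set_option linter.unusedVariables false

open MeasureTheory Set Filter Topology Module
open scoped ContDiff
open Crest.Agent.R208.F Crest.Agent.R208.FI Crest.Agent.R208.CW Crest.Agent.R208.T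

noncomputable section

namespace Crest.Agent.R208.RR

universe u
variable {E : Type u} [NormedAddCommGroup E] [NormedSpace ℝ E] [FiniteDimensional ℝ E]
  {d : ℕ} {Z : Set E} {o : E → Ext E} {x : E} {φ φ' : ℝ → E → E}
  {w : E × ℝ → Ext (E × ℝ)} {m : ℕ} {a b h η a' b' h' η' : E × ℝ → Ext (E × ℝ)}
  {θ θ' κ μ μ' : E → Ext E} {c c' : ℝ}

theorem hom_K {p : ℕ} (h : Hom (p + 1) w) : Hom p (K w) := fun x => by
  rw [K, hop, I1, intervalIntegral.integral_of_le zero_le_one]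
  refine isDeg_integral _ fun t => ?_
  rw [hopg, hopL_apply]
  exact ((h _).ii _).pb _

theorem hom_Wp {p : ℕ} (h : Hom (p + 1) κ) : Hom p (Wp φ κ) := fun x => by
  rw [Wp_apply, intervalIntegral.integral_of_le zero_le_one]
  refine isDeg_integral _ fun t => ?_
  rw [hopL_apply]
  exact (((h.pull) _).ii _).pb _

theorem Wp_zero_of_hz (hφ : CM.Cir Z φ) (hμ : Sm Z μ) (h : Hz Z (CM.gen φ) μ) :
    Eqv Z (Wp φ μ) 0 := by
  have h1 := Wp_inv hφ hμ 0 (Inv.one (Z := Z) (φ := φ)) fun x hx => by rw [h x hx, zero_smul]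
  rwa [mul_zero, zero_smul] at h1

namespace Pre

theorem sWK (P : Pre Z φ m a b h θ) : Sm Z (Wp φ (K (a - b))) :=
  Sm.Wp P.cir (Sm.K (P.sa.sub P.sb))

/-- `Wp φ (K (a - b))` is closed -/
theorem cl_Wp (P : Pre Z φ m a b h θ) : Cl Z (Wp φ (K (a - b))) := by
  have sK : Sm Z (K (a - b)) := Sm.K (P.sa.sub P.sb)
  have hV : ∀ x ∈ Z, CM.gen φ x ∈ Tan Z x := fun x hx => P.cir.gen_mem hx
  have h1 : Hz Z (CM.gen φ) (F.d (K (a - b))) := by
    refine Hz.eqv hV P.dK ?_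
    rw [pull_sub']; exact P.a1.sub P.b1
  have h2 := Wp_zero_of_hz P.cir sK.d h1
  have h3 := d_Wp P.cir sK
  refine resZero_iff.2 (h3.trans ?_)
  have h4 := h2.neg
  rwa [neg_zero] at h4

/-- the constant for 2-forms -/
theorem const0 (P : Pre Z φ m a b h θ) (hZ : Sub d Z) (hc : IsPreconnected Z) (ha : Hom 2 a)
    (hb : Hom 2 b) : ∃ c : ℝ, Eqv Z (Wp φ (K (a - b))) ((2 * Real.pi * c) • (1 : E → Ext E)) := by
  have h1 : Hom 0 (Wp φ (K (a - b))) := hom_Wp (hom_K (ha.sub hb))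
  obtain ⟨c₀, hc₀⟩ := const_of_closed hZ hc P.sWK P.cl_Wp h1
  have hπ : (2 * Real.pi) ≠ 0 := by positivity
  refine ⟨c₀ / (2 * Real.pi), Eqv.of_eq fun x hx => ?_⟩
  rw [hc₀ x hx, mul_div_cancel₀ _ hπ, Pi.smul_apply, Pi.one_apply, Algebra.algebraMap_eq_smul_one]

/-- existence of the family for `h = 1` (2-forms) -/
theorem exists_fam_two (P : Pre Z φ m a b 1 θ) (hZ : Sub d Z)
    (hβ : Eqv Z (Wp φ (K (a - b))) ((2 * Real.pi * c) • (1 : E → Ext E))) :
    ∃ η, Fam Z (CM.gen φ) m a b 1 η (c • θ) c := by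
  refine P.exists_fam hZ (μ := 0) Sm.zero (Hz.zero) ?_
  have h1 : F.d (0 : E → Ext E) = 0 := funext fun x => F.d_const (0 : Ext E) x
  rw [h1, add_zero, pull_one', smul_smul]
  exact hβ

end Pre

/-- **final theorem of the block RR**: two families with the same slices at `0` -/
theorem two_fam (hZ : Clo d Z) (ho : Ori d Z o) (hm : 1 ≤ m)
    (P : Pre Z φ m a b h θ) (P' : Pre Z φ' m a' b' h' θ')
    (H : Fam Z (CM.gen φ) m a b h η (c • θ) c) (H' : Fam Z (CM.gen φ') m a' b' h' η' (c' • θ') c')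
    (hc : c ≠ 0) (hc' : c' ≠ 0)
    (haa : Eqv Z (F.pull (sl 0) a) (F.pull (sl 0) a'))
    (hh : Eqv Z (F.pull (sl 0) h) (F.pull (sl 0) h'))
    (hex : ∃ ζ : E → Ext E, Sm Z ζ ∧ Eqv Z (F.d ζ) (F.pull (sl 0) a ^ m)) :
    J d Z o ((c • θ) * (F.d (c • θ) ^ (2 * m - 1) * F.pull (sl 1) h ^ (2 * m + 1))) =
      ((-1) ^ m * ((2 * m).choose m : ℝ)) * J d Z o (K (h' * a' ^ m * b' ^ m)) := by
  rw [H.rr1 hZ ho hm, D_eq hZ ho H H' P.cir P'.cir hc hc' P.ia P.ib P.ih P.h00 P'.ia P'.ib P'.ih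
    P'.h00 haa hh hex]

/-- the scalar form of the left hand side -/
theorem J_scale (hZ : Clo d Z) (hm : 1 ≤ m) {γ : E → Ext E} (hθ : Sm Z θ) :
    J d Z o ((c • θ) * (F.d (c • θ) ^ (2 * m - 1) * γ)) =
      c ^ (2 * m) * J d Z o (θ * (F.d θ ^ (2 * m - 1) * γ)) := by
  have h1 : Eqv Z ((c • θ) * (F.d (c • θ) ^ (2 * m - 1) * γ))
      (c ^ (2 * m) • (θ * (F.d θ ^ (2 * m - 1) * γ))) := by
    refine eqv_iff.2 fun x hx => ?_
    have h2 := eqv_iff.1 (d_smul_eqv c hθ) x hx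
    have h3 : c ^ (2 * m) = c * c ^ (2 * m - 1) := by
      rw [← pow_succ']; congr 1; omega
    simp only [rs_mul, rs_pow, rs_smul] at *
    rw [h2, smul_pow, smul_mul_assoc, smul_mul_assoc, mul_smul_comm, smul_smul, h3]
  rw [J_eqv hZ h1, J_smul']

/-- **comparison of the constants** -/
theorem const_cmp (hZ : Clo d Z) (ho : Ori d Z o) {A A' h₁ h₁' v₀ : E → Ext E}
    (sA : Sm Z A) (sA' : Sm Z A') (s1 : Sm Z h₁) (s1' : Sm Z h₁')
    (hA : Coh Z A ((2 * Real.pi * c) • h₁)) (hA' : Coh Z A' ((2 * Real.pi * c') • h₁'))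
    (hs : Coh Z (A + A') 0) (hh : Coh Z h₁' h₁)
    (sv : Sm Z v₀) (cv : Cl Z v₀) (hJ : J d Z o (h₁ * v₀) ≠ 0) : c' = -c := by
  have h1 : Coh Z ((2 * Real.pi * c) • h₁ + (2 * Real.pi * c') • h₁) 0 :=
    ((hA.symm.add ((hh.symm.smul (2 * Real.pi * c')).trans hA'.symm))).trans hs
  rw [← add_smul] at h1
  have h2 : Coh Z (((2 * Real.pi * c + 2 * Real.pi * c') • h₁) * v₀) (0 * v₀) :=
    Coh.mul_right sv cv h1
  rw [zero_mul, smul_mul_assoc] at h2
  have h3 := RI.J_coh hZ ho ((s1.mul sv).smul _) Sm.zero h2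
  have h4 : J d Z o (0 : E → Ext E) = 0 := by
    have := J_smul' (d := d) (Z := Z) (o := o) (a := (0 : E → Ext E)) 0
    rwa [zero_smul, zero_mul] at this
  rw [J_smul', h4, mul_eq_zero, or_iff_left hJ] at h3
  have h5 : 2 * Real.pi * (c + c') = 0 := by rw [mul_add]; exact h3
  have h6 : c + c' = 0 := by
    rcases mul_eq_zero.1 h5 with h7 | h7
    · exact absurd h7 (by positivity)
    · exact h7
  linarith

end Crest.Agent.R208.RR
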