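import Crest.Agent.R208.CG9
import Crest.Agent.R208.CG7
import Crest.Agent.R208.KP3
import Crest.Agent.R208.HN2
import Crest.Agent.R208.AF9
import Crest.Agent.R208.RR6
import Crest.Agent.R208.SB3

/-! Row 208, block RR, piece (CG) (helper99), part CG10: the antipodal map of an even sphere
reverses fibre integrals; the fibre value of the family `Af`. -/

set_option autoImplicit false
set_option linter.unusedSectionVars false
set_option linter.unusedVariables false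

open MeasureTheory Set Filter Topology Module
open scoped ContDiff RealInnerProductSpace
open Crest.GeometryTopology.Submanifold
open Crest.Agent.R241.DDefs
open Crest.Agent.R241.D2
open Crest.Agent.R208.GT
open Crest.Agent.R208.F Crest.Agent.R208.FI Crest.Agent.R208.CW Crest.Agent.R208.T

noncomputable section

namespace Crest.Agent.R208.CG

open Crest.Agent.R208.SB (OPr oV)

section flip
variable {E H : Type} [NormedAddCommGroup E] [NormedSpace ℝ E] [FiniteDimensional ℝ E]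
  [NormedAddCommGroup H] [InnerProductSpace ℝ H] [FiniteDimensional ℝ H]
  {X : Set E} {P : E → H →L[ℝ] H} {r : ℕ} {oP : E → Ext H} {x : E} {oF β : E × H → Ext (E × H)}

/-- the fibre over a point -/
theorem fib_eq (hx : x ∈ X) :
    Sph X P ∩ (Prod.fst : E × H → E) ⁻¹' {x} = Sph ({x} : Set E) P := by
  ext z
  constructor
  · rintro ⟨⟨⟨h1, h2⟩, h3⟩, h4⟩
    exact ⟨⟨h4, h2⟩, h3⟩
  · rintro ⟨⟨h1, h2⟩, h3⟩
    have h1' : z.1 = x := h1
    exact ⟨⟨⟨by rw [h1']; exact hx, h2⟩, h3⟩, h1⟩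

theorem ori_fib (hP : PField X (r + 1) P) (h : OPr X (r + 1) P oP) (hx : x ∈ X) :
    Ori r (Sph X P ∩ (Prod.fst : E × H → E) ⁻¹' {x}) (oV oP) := by
  have h1 : PField ({x} : Set E) (r + 1) P :=
    ⟨fun y hy => by rw [hy]; exact hP.smooth _ hx, fun y hy => by rw [hy]; exact hP.idem _ hx,
      fun y hy => by rw [hy]; exact hP.rank _ hx⟩
  refine ori_of (HN.clo_fib hP hx) (fun z hz =>
    (SB.contDiffAt_oV h hz.1.1.1).continuousAt.continuousWithinAt) ?_
  rintro ⟨y, v⟩ ⟨hz, hy⟩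
  have hy' : y = x := hy
  subst hy'
  obtain ⟨e, heV, hve, -, hli⟩ := SB.exists_cons_frame (V := LinearMap.range (P y : H →ₗ[ℝ] H))
    (hP.rank y hx) ⟨v, hz.1.2⟩ hz.2
  have heP : ∀ i, P y (e i) = e i := by
    intro i
    obtain ⟨w, hw⟩ := heV i
    have hw' : P y w = e i := hw
    rw [← hw', hP.idem y hx]
  refine ⟨fun i => ((0 : E), e i), fun i => ?_, ?_⟩
  · have hz' : (y, v) ∈ Sph ({y} : Set E) P := by rw [← fib_eq hx]; exact ⟨hz, rfl⟩
    rw [fib_eq hx]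
    exact (SB.vert_mem_Sph (sub_point y) h1 hz').2 ⟨heP i, hve i⟩
  · rw [oV, evA_pb, ← evA_ii]
    refine h.ne y hx _ hli fun i => ?_
    refine Fin.cases ?_ (fun i => ?_) i
    · exact hz.1.2
    · exact heP i

/-- the antipodal map -/
def fl' (z : E × H) : E × H := (z.1, -z.2)

theorem contDiff_fl' : ContDiff ℝ ∞ (fl' (E := E) (H := H)) := contDiff_fst.prodMk contDiff_snd.neg

theorem fl'_fl' (z : E × H) : fl' (fl' z) = z := by simp [fl']

theorem fl'_mem {z : E × H} (hz : z ∈ Sph X P ∩ (Prod.fst : E × H → E) ⁻¹' {x}) :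
    fl' z ∈ Sph X P ∩ (Prod.fst : E × H → E) ⁻¹' {x} :=
  ⟨⟨⟨hz.1.1.1, by change P z.1 (-z.2) = -z.2; rw [map_neg, hz.1.1.2]⟩, by
    change ‖-z.2‖ = 1; rw [norm_neg]; exact hz.1.2⟩, hz.2⟩

theorem bijOn_fl' : BijOn (fl' (E := E) (H := H)) (Sph X P ∩ (Prod.fst : E × H → E) ⁻¹' {x})
    (Sph X P ∩ (Prod.fst : E × H → E) ⁻¹' {x}) :=
  ⟨fun _ hz => fl'_mem hz, fun a _ b _ hab => by rw [← fl'_fl' a, hab, fl'_fl'],
    fun z hz => ⟨fl' z, fl'_mem hz, fl'_fl' z⟩⟩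

theorem pull_fl'_oV (h : OPr X (r + 1) P oP) (hr : Even r) :
    F.pull fl' (oV oP) = fun z => -(oV oP z) := by
  funext z
  have hd : HasFDerivAt (fl' (E := E) (H := H))
      ((ContinuousLinearMap.fst ℝ E H).prod (-(ContinuousLinearMap.snd ℝ E H))) z :=
    hasFDerivAt_fst.prodMk hasFDerivAt_snd.neg
  rw [F.pull, hd.fderiv, oV, oV, pb_comp]
  change pb _ (ii (-z.2) (oP z.1)) = -(pb _ (ii z.2 (oP z.1)))
  have h1 : (ContinuousLinearMap.snd ℝ E H : E × H →ₗ[ℝ] H) ∘ₗ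
      (((ContinuousLinearMap.fst ℝ E H).prod (-(ContinuousLinearMap.snd ℝ E H)) :
        E × H →L[ℝ] E × H) : E × H →ₗ[ℝ] E × H) =
      ((-1 : ℝ) • (LinearMap.id : H →ₗ[ℝ] H)) ∘ₗ
        (ContinuousLinearMap.snd ℝ E H : E × H →ₗ[ℝ] H) := by
    ext z <;> simp
  rw [h1, ← pb_comp, isDeg_pb_smul ((h.deg z.1).ii _), hr.neg_one_pow, one_smul, map_neg]
  rw [LinearMap.neg_apply, map_neg]

/-- **the antipodal map reverses the integrals over even spheres** -/
theorem J_fl' (hP : PField X (r + 1) P) (h : OPr X (r + 1) P oP) (hr : Even r) (hx : x ∈ X)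
    (hβ : Sm (Sph X P) β) :
    J r (Sph X P ∩ (Prod.fst : E × H → E) ⁻¹' {x}) (oV oP) (F.pull fl' β) =
      - J r (Sph X P ∩ (Prod.fst : E × H → E) ⁻¹' {x}) (oV oP) β := by
  have c := HN.clo_fib hP hx
  have h1 := J_pull c c (fun z _ => (contDiff_fl'.differentiable (by simp) z)) bijOn_fl'
    (ori_fib hP h hx) (om := β) fun z hz => (hβ z hz.1).continuousAt.continuousWithinAt
  rw [pull_fl'_oV h hr, J_neg_ori] at h1
  rw [← h1, neg_neg]

theorem conn_fib (hP : PField X r P) (hr : 2 ≤ r) (hx : x ∈ X) :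
    IsPreconnected (Sph X P ∩ (Prod.fst : E × H → E) ⁻¹' {x}) := by
  have key : Sph X P ∩ Prod.fst ⁻¹' {x} =
      (fun v : H => (x, v)) '' {v : H | v ∈ LinearMap.range (P x : H →ₗ[ℝ] H) ∧ ‖v‖ = 1} := by
    ext ⟨y, v⟩
    constructor
    · rintro ⟨⟨⟨h1, h2⟩, h3⟩, h4⟩
      obtain rfl : y = x := h4
      exact ⟨v, ⟨⟨v, h2⟩, h3⟩, rfl⟩
    · rintro ⟨w, ⟨⟨u, hu⟩, h3⟩, h4⟩
      obtain ⟨rfl, rfl⟩ := Prod.mk.inj h4
      have hu' : P x u = w := hu
      exact ⟨⟨⟨hx, by show P x w = w; rw [← hu', hP.idem x hx]⟩, h3⟩, rfl⟩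
  rw [key]
  exact (SN.preconn_sph (by rw [hP.rank x hx]; exact hr)).image _ (by fun_prop)

/-- the same for every orientation -/
theorem J_fl'_any (hP : PField X (r + 1) P) (h : OPr X (r + 1) P oP) (hr : Even r) (hr1 : 1 ≤ r)
    (hx : x ∈ X) (hF : Ori r (Sph X P ∩ (Prod.fst : E × H → E) ⁻¹' {x}) oF)
    (hβ : Sm (Sph X P) β) :
    J r (Sph X P ∩ (Prod.fst : E × H → E) ⁻¹' {x}) oF (F.pull fl' β) =
      - J r (Sph X P ∩ (Prod.fst : E × H → E) ⁻¹' {x}) oF β := by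
  have c := HN.clo_fib hP hx
  rcases J_ori_connected c (ori_fib hP h hx) hF (conn_fib hP (by omega) hx) with h1 | h1
  · rw [h1, h1, J_fl' hP h hr hx hβ]
  · rw [h1, h1, J_fl' hP h hr hx hβ]

end flip

end Crest.Agent.R208.CG
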