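import Crest.Agent.R208.CG10

/-! Row 208, block RR, piece (CG) (helper99), part CG11: **(L7)** the fibre value of the family
`Af`; the ray integral of `xi (f1^* om)`. -/

set_option autoImplicit false
set_option linter.unusedSectionVars false
set_option linter.unusedVariables false

open MeasureTheory Set Filter Topology Module
open scoped ContDiff RealInnerProductSpace
open Crest.GeometryTopology.Submanifold
open Crest.Agent.R241.DDefs
open Crest.Agent.R241.D2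
open Crest.Agent.R208.GT
open Crest.Agent.R208.F Crest.Agent.R208.FI Crest.Agent.R208.CW Crest.Agent.R208.T
open Crest.Agent.R208.RR Crest.Agent.R208.FL Crest.Agent.R208.NN Crest.Agent.R208.NB

noncomputable section

namespace Crest.Agent.R208.CG

open Crest.Agent.R208.KC (flp flp_mem flp_flp Ph_flp)
open Crest.Agent.R208.SB (OPr oV)

variable {n N K k : ℕ} {κ : ℝ} {S : Set (Euc N)} {G : Geo n N κ S} {lg : Euc N → Euc N → Euc N}
  {ρ : Euc N → Euc N} {r C r' Kr B w δ : ℝ} {PN : Euc N × Euc N → Wt N K →L[ℝ] Wt N K}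
  {ε E₀ η : ℝ} {J₀ : ℕ} {om : Euc N → Ext (Euc N)} {z : Euc N × Euc N}

/-- the ray map -/
def rs (y : ((Euc N × Euc N) × Wt N K) × ℝ) : (Euc N × Euc N) × Wt N K := FL.sc y.2 y.1

theorem smap_rs : SMap (Cyl (T.Sph (L.US G) PN)) (FI.Tot (L.US G) PN) (rs (N := N) (K := K)) := by
  refine ⟨fun y _ => ?_, fun y hy => sc_mem (mem_Cyl.1 hy).1⟩
  have h2 : ContDiff ℝ ∞ (fun p : ((Euc N × Euc N) × Wt N K) × ℝ => p.1.1) := by fun_prop
  have h3 : ContDiff ℝ ∞ (fun p : ((Euc N × Euc N) × Wt N K) × ℝ => p.1.2) := by fun_prop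
  exact (h2.prodMk ((contDiff_gs.comp contDiff_snd).smul h3)).contDiffAt

theorem smap_f1 (h : D1 G k K lg ρ r C r' Kr B w δ PN ε J₀ E₀ η) :
    SMap (FI.Tot (L.US G) PN) S (f1 G lg ρ w J₀ ε) := ⟨h.fam.smooth, h.fam.maps⟩

/-- **the ray integral of `xi`**: `2π ∫_ray ξ ~ -(Wp (K (Af^* om)))` -/
theorem ray_xi (h : D1 G k K lg ρ r C r' Kr B w δ PN ε J₀ E₀ η) (so : Sm S om) :
    Eqv (T.Sph (L.US G) PN)
      ((2 * Real.pi) • RR.K (E := (Euc N × Euc N) × Wt N K)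
        (F.pull (rs (N := N) (K := K)) (VC.xi (Ph G K) (F.pull (f1 G lg ρ w J₀ ε) om))))
      (-(Wp (Ph G K) (RR.K (E := (Euc N × Euc N) × Wt N K) (F.pull (Af G lg ρ w J₀ ε) om)))) := by
  have sf : Sm (FI.Tot (L.US G) PN) (F.pull (f1 G lg ρ w J₀ ε) om) := so.pull (smap_f1 h)
  have h1 := K_sc_xi (cir_Sph h.toD0) h.cir (smap_rs (G := G) (PN := PN))
    (fun x hx t s => (Ph_sc s t x).symm) sf
  refine h1.trans (Eqv.neg ?_)
  have e1 : Eqv (Cyl (T.Sph (L.US G) PN))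
      (F.pull (rs (N := N) (K := K)) (F.pull (f1 G lg ρ w J₀ ε) om))
      (F.pull (Af G lg ρ w J₀ ε) om) := eqv_pull_pull smap_rs (smap_f1 h) (smap_Af h)
        (fun _ _ => rfl) om
  have e2 := K_eqv (E := (Euc N × Euc N) × Wt N K) (sf.pull smap_rs) (so.pull (smap_Af h)) e1
  exact Wp_eqv (cir_Sph h.toD0) (Sm.K (sf.pull smap_rs)) (Sm.K (so.pull (smap_Af h))) e2

/-- the flipped family -/
theorem flip_Af (h : D1 G k K lg ρ r C r' Kr B w δ PN ε J₀ E₀ η) (so : Sm S om) :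
    Eqv (T.Sph (L.US G) PN)
      (F.pull flp (Wp (Ph G K) (RR.K (E := (Euc N × Euc N) × Wt N K)
        (F.pull (Af G lg ρ w J₀ ε) om))))
      (Wp (Ph G K) (RR.K (E := (Euc N × Euc N) × Wt N K)
        (F.pull (fun y => Af G lg ρ w J₀ ε (flp y.1, y.2)) om))) := by
  have hφ := cir_Sph h.toD0
  have hA := smap_Af h
  have hf : SMap (T.Sph (L.US G) PN) (T.Sph (L.US G) PN) (flp (N := N) (K := K)) := smap_flp
  have hff := KP.smap_ff hf
  have hB : SMap (Cyl (T.Sph (L.US G) PN)) S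
      (fun y : ((Euc N × Euc N) × Wt N K) × ℝ => Af G lg ρ w J₀ ε (flp y.1, y.2)) :=
    hA.comp hff
  have sA : Sm (Cyl (T.Sph (L.US G) PN)) (F.pull (Af G lg ρ w J₀ ε) om) := so.pull hA
  refine (KP.wp_flip hφ hf (fun x hx t => (Ph_flp t x).symm) (Sm.K sA)).trans ?_
  have e1 := KP.k_flip hf sA
  have e2 : Eqv (Cyl (T.Sph (L.US G) PN)) (F.pull (KP.ff flp) (F.pull (Af G lg ρ w J₀ ε) om))
      (F.pull (fun y : ((Euc N × Euc N) × Wt N K) × ℝ => Af G lg ρ w J₀ ε (flp y.1, y.2)) om) :=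
    eqv_pull_pull hff hA hB (fun _ _ => rfl) om
  have e3 := K_eqv (E := (Euc N × Euc N) × Wt N K) (sA.pull hff) (so.pull hB) e2
  exact Wp_eqv hφ ((Sm.K sA).pull hf) (Sm.K (so.pull hB)) (e1.trans e3)

/-- **(L7), orientation `oV oN`, any even `k`**: twice the fibre integral of the family is the
fibre integral of the rotation -/
theorem two_J (h : D1 G k K lg ρ r C r' Kr B w δ PN ε J₀ E₀ η) (hk : Even k) (h2 : 2 ≤ k)
    (hkn : k < n) (so : Sm S om) (co : Cl S om) (hz : z ∈ L.US G)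
    {oF : (Euc N × Euc N) × Wt N K → Ext ((Euc N × Euc N) × Wt N K)}
    (hF : Ori (k - 2) (T.Sph (L.US G) PN ∩ (Prod.fst : (Euc N × Euc N) × Wt N K → Euc N × Euc N) ⁻¹' {z}) oF)
    (hflip : ∀ β, Sm (T.Sph (L.US G) PN) β →
      FI.J (k - 2) (T.Sph (L.US G) PN ∩ Prod.fst ⁻¹' {z}) oF (F.pull flp β) =
        - FI.J (k - 2) (T.Sph (L.US G) PN ∩ Prod.fst ⁻¹' {z}) oF β) :
    2 * FI.J (k - 2) (T.Sph (L.US G) PN ∩ Prod.fst ⁻¹' {z}) oF
        (Wp (Ph G K) (RR.K (E := (Euc N × Euc N) × Wt N K) (F.pull (Af G lg ρ w J₀ ε) om))) =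
      - FI.J (k - 2) (T.Sph (L.US G) PN ∩ Prod.fst ⁻¹' {z}) oF
        (Wp (FM.phiF h.bla PN) (F.pull (Prod.fst : (Euc N × Euc N) × Wt N K → Euc N × Euc N)
          (RR.K (F.pull (RRC.EE G) om)))) := by
  have hP : PField (L.US G) (k - 2 + 1) PN := by
    have := UP.pfield_N h.neg
    rwa [show k - 1 = k - 2 + 1 by omega] at this
  have hφ := cir_Sph h.toD0
  have hφ' : CM.Cir (T.Sph (L.US G) PN) (FM.phiF h.bla PN) := FM.cir_phiF h.bla h.neg hkn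
  have c := HN.clo_fib hP hz
  have hA := smap_Af h
  have hff := KP.smap_ff (smap_flp (G := G) (PN := PN))
  have hB : SMap (Cyl (T.Sph (L.US G) PN)) S
      (fun y : ((Euc N × Euc N) × Wt N K) × ℝ => Af G lg ρ w J₀ ε (flp y.1, y.2)) :=
    hA.comp hff
  set Z := T.Sph (L.US G) PN with hZ
  set a := Wp (Ph G K) (RR.K (E := (Euc N × Euc N) × Wt N K) (F.pull (Af G lg ρ w J₀ ε) om)) with ha
  set b := Wp (Ph G K) (RR.K (E := (Euc N × Euc N) × Wt N K)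
    (F.pull (fun y => Af G lg ρ w J₀ ε (flp y.1, y.2)) om)) with hb
  set cc := Wp (FM.phiF h.bla PN) (F.pull (Prod.fst : (Euc N × Euc N) × Wt N K → Euc N × Euc N)
    (RR.K (F.pull (RRC.EE G) om))) with hcc
  have sa : Sm Z a := Sm.Wp hφ (Sm.K (so.pull hA))
  have sb : Sm Z b := Sm.Wp hφ (Sm.K (so.pull hB))
  have sc : Sm Z cc := Sm.Wp hφ' ((Sm.K (so.pull smap_EE)).pull smap_fst_Sph)
  have hsub : Z ∩ (Prod.fst : (Euc N × Euc N) × Wt N K → Euc N × Euc N) ⁻¹' {z} ⊆ Z :=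
    inter_subset_left
  have main := (inst h hkn so co).mono hsub
  have h1 := RI.J_coh c hF (fun x hx => (sa.sub sb) x hx.1) (fun x hx => sc.neg x hx.1) main
  have h3 : FI.J (k - 2) (Z ∩ Prod.fst ⁻¹' {z}) oF (F.pull flp a) =
      FI.J (k - 2) (Z ∩ Prod.fst ⁻¹' {z}) oF b :=
    J_eqv c (Eqv.mono_tan hsub (flip_Af h so))
  have h4 : FI.J (k - 2) (Z ∩ Prod.fst ⁻¹' {z}) oF (a - b) =
      FI.J (k - 2) (Z ∩ Prod.fst ⁻¹' {z}) oF a - FI.J (k - 2) (Z ∩ Prod.fst ⁻¹' {z}) oF b :=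
    J_sub' c hF (fun x hx => sa x hx.1) fun x hx => sb x hx.1
  have h5 : FI.J (k - 2) (Z ∩ Prod.fst ⁻¹' {z}) oF (-cc) =
      -FI.J (k - 2) (Z ∩ Prod.fst ⁻¹' {z}) oF cc := AF.J_neg'
  rw [h4, ← h3, hflip a sa, h5] at h1
  linarith

/-- the flip hypothesis for the orientation `oV oN` -/
theorem flip_oV (h : D1 G k K lg ρ r C r' Kr B w δ PN ε J₀ E₀ η) (hk : Even k) (h2 : 2 ≤ k)
    {oN : Euc N × Euc N → Ext (Wt N K)} (hN : OPr (L.US G) (k - 1) PN oN) (hz : z ∈ L.US G)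
    {β : (Euc N × Euc N) × Wt N K → Ext ((Euc N × Euc N) × Wt N K)}
    (hβ : Sm (T.Sph (L.US G) PN) β) :
    Ori (k - 2) (T.Sph (L.US G) PN ∩ (Prod.fst : (Euc N × Euc N) × Wt N K → Euc N × Euc N) ⁻¹' {z})
      (oV oN) ∧
    FI.J (k - 2) (T.Sph (L.US G) PN ∩ Prod.fst ⁻¹' {z}) (oV oN) (F.pull flp β) =
      - FI.J (k - 2) (T.Sph (L.US G) PN ∩ Prod.fst ⁻¹' {z}) (oV oN) β := by
  have hP : PField (L.US G) (k - 2 + 1) PN := by
    have := UP.pfield_N h.neg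
    rwa [show k - 1 = k - 2 + 1 by omega] at this
  have hN' : OPr (L.US G) (k - 2 + 1) PN oN := by rwa [show k - 2 + 1 = k - 1 by omega]
  have he : Even (k - 2) := by
    rw [Nat.even_sub h2]
    exact ⟨fun _ => even_two, fun _ => hk⟩
  exact ⟨ori_fib hP hN' hz, J_fl' hP hN' he hz hβ⟩

/-- the flip hypothesis for any orientation, `4 ≤ k` -/
theorem flip_any (h : D1 G k K lg ρ r C r' Kr B w δ PN ε J₀ E₀ η) (hk : Even k) (h4 : 4 ≤ k)
    (hkn : k < n) (hz : z ∈ L.US G)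
    {oF β : (Euc N × Euc N) × Wt N K → Ext ((Euc N × Euc N) × Wt N K)}
    (hF : Ori (k - 2) (T.Sph (L.US G) PN ∩ (Prod.fst : (Euc N × Euc N) × Wt N K → Euc N × Euc N) ⁻¹' {z}) oF)
    (hβ : Sm (T.Sph (L.US G) PN) β) :
    FI.J (k - 2) (T.Sph (L.US G) PN ∩ Prod.fst ⁻¹' {z}) oF (F.pull flp β) =
      - FI.J (k - 2) (T.Sph (L.US G) PN ∩ Prod.fst ⁻¹' {z}) oF β := by
  have hP : PField (L.US G) (k - 2 + 1) PN := by
    have := UP.pfield_N h.neg
    rwa [show k - 1 = k - 2 + 1 by omega] at this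
  obtain ⟨oN, hN⟩ := SB.exists_opr_N h.bla (by omega : 2 ≤ k) hkn h.neg
  have hN' : OPr (L.US G) (k - 2 + 1) PN oN := by rwa [show k - 2 + 1 = k - 1 by omega]
  have he : Even (k - 2) := by
    rw [Nat.even_sub (by omega : 2 ≤ k)]
    exact ⟨fun _ => even_two, fun _ => hk⟩
  exact J_fl'_any hP hN' he (by omega) hz hF hβ

/-- **(L7)**: the fibre integral of the family, for any orientations (`k` even, `4 ≤ k`); `hC` is
(C) of helper316 -/
theorem L7_of (h : D1 G k K lg ρ r C r' Kr B w δ PN ε J₀ E₀ η) (hk : Even k) (h4 : 4 ≤ k)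
    (hkn : k < n) (so : Sm S om) (co : Cl S om) (hz : z ∈ L.US G)
    {oF : (Euc N × Euc N) × Wt N K → Ext ((Euc N × Euc N) × Wt N K)}
    (hF : Ori (k - 2) (T.Sph (L.US G) PN ∩ (Prod.fst : (Euc N × Euc N) × Wt N K → Euc N × Euc N) ⁻¹' {z}) oF)
    {t : ℝ} (hC : |FI.J (k - 2) (T.Sph (L.US G) PN ∩ Prod.fst ⁻¹' {z}) oF
        (Wp (FM.phiF h.bla PN) (F.pull (Prod.fst : (Euc N × Euc N) × Wt N K → Euc N × Euc N)
          (RR.K (F.pull (RRC.EE G) om))))| = 2 * t) :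
    |FI.J (k - 2) (T.Sph (L.US G) PN ∩ Prod.fst ⁻¹' {z}) oF
      (Wp (Ph G K) (RR.K (E := (Euc N × Euc N) × Wt N K) (F.pull (Af G lg ρ w J₀ ε) om)))| = t := by
  have h1 := two_J h hk (by omega) hkn so co hz hF fun β hβ => flip_any h hk h4 hkn hz hF hβ
  have h2 := congrArg abs h1
  rw [abs_neg, hC, abs_mul, abs_two] at h2
  linarith

/-- the ray integral of `xi`: its fibre integral -/
theorem L7_xi (h : D1 G k K lg ρ r C r' Kr B w δ PN ε J₀ E₀ η) (hk : Even k) (h4 : 4 ≤ k)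
    (hkn : k < n) (so : Sm S om) (co : Cl S om) (hz : z ∈ L.US G)
    {oF : (Euc N × Euc N) × Wt N K → Ext ((Euc N × Euc N) × Wt N K)}
    (hF : Ori (k - 2) (T.Sph (L.US G) PN ∩ (Prod.fst : (Euc N × Euc N) × Wt N K → Euc N × Euc N) ⁻¹' {z}) oF)
    {t : ℝ} (hC : |FI.J (k - 2) (T.Sph (L.US G) PN ∩ Prod.fst ⁻¹' {z}) oF
        (Wp (FM.phiF h.bla PN) (F.pull (Prod.fst : (Euc N × Euc N) × Wt N K → Euc N × Euc N)
          (RR.K (F.pull (RRC.EE G) om))))| = 2 * t) :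
    2 * Real.pi * |FI.J (k - 2) (T.Sph (L.US G) PN ∩ Prod.fst ⁻¹' {z}) oF
      (RR.K (E := (Euc N × Euc N) × Wt N K)
        (F.pull (rs (N := N) (K := K)) (VC.xi (Ph G K) (F.pull (f1 G lg ρ w J₀ ε) om))))| = t := by
  have hP : PField (L.US G) (k - 2 + 1) PN := by
    have := UP.pfield_N h.neg
    rwa [show k - 1 = k - 2 + 1 by omega] at this
  have c := HN.clo_fib hP hz
  have h1 := J_eqv c (o := oF) (Eqv.mono_tan (inter_subset_left :
    T.Sph (L.US G) PN ∩ (Prod.fst : (Euc N × Euc N) × Wt N K → Euc N × Euc N) ⁻¹' {z} ⊆ _)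
    (ray_xi h so))
  have h2 : ∀ a : (Euc N × Euc N) × Wt N K → Ext ((Euc N × Euc N) × Wt N K),
      FI.J (k - 2) (T.Sph (L.US G) PN ∩ (Prod.fst : (Euc N × Euc N) × Wt N K → Euc N × Euc N) ⁻¹' {z})
        oF (-a) = -FI.J (k - 2) (T.Sph (L.US G) PN ∩ (Prod.fst : (Euc N × Euc N) × Wt N K →
          Euc N × Euc N) ⁻¹' {z}) oF a := fun a => AF.J_neg'
  rw [h2, J_smul'] at h1
  have h3 := congrArg abs h1
  rw [abs_neg, L7_of h hk h4 hkn so co hz hF hC, abs_mul, abs_of_pos (by positivity)] at h3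
  exact h3

end Crest.Agent.R208.CG
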