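import Crest.Agent.R208.CG10

/-! Row 208, block RR (helper545), part KP6: **(H)**: the orbit integral of the F action is twice the
half rotation. -/

set_option autoImplicit false
set_option linter.unusedSectionVars false
set_option linter.unusedVariables false

open MeasureTheory MeasureTheory.Measure Set Filter Topology Module Metric
open scoped ContDiff RealInnerProductSpace
open Crest.GeometryTopology.Submanifold
open Crest.Agent.R241.DDefs
open Crest.Agent.R241.D Crest.Agent.R241.D2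
open Crest.Agent.R208.F Crest.Agent.R208.FI Crest.Agent.R208.CW Crest.Agent.R208.T

noncomputable section

namespace Crest.Agent.R208.KP

open Crest.Agent.R208.RR (Cyl mem_Cyl smap_fst sl smap_sl Wp Fl J_eqv J_smul'
  K_eqv K_smul Wp_eqv Wp_smul J_sub' J_add' hom_K hom_Wp)
open Crest.Agent.R208.NN (Wt nuP)
open Crest.Agent.R208.KC (flp flp_mem flp_flp dir_flp contDiff_flp)
open Crest.Agent.R208.CG (fx fl')

variable {n N K k : ℕ} {κ δ : ℝ} {S : Set (Euc N)} {G : Geo n N κ S}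
  {PN : Euc N × Euc N → Wt N K →L[ℝ] Wt N K} {kap : Euc N × Euc N → Ext (Euc N × Euc N)}
  {z : Euc N × Euc N} {oF : (Euc N × Euc N) × Wt N K → Ext ((Euc N × Euc N) × Wt N K)}

/-- the rotation by the angle `a t`, base points -/
def Ra (h : GT.Bla G k) (PN : Euc N × Euc N → Wt N K →L[ℝ] Wt N K) (lam : ℝ → ℝ)
    (y : ((Euc N × Euc N) × Wt N K) × ℝ) : Euc N × Euc N := (FM.phiF h PN (lam y.2) y.1).1

/-- **the half rotation** -/
def Hr (h : GT.Bla G k) (PN : Euc N × Euc N → Wt N K →L[ℝ] Wt N K)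
    (y : ((Euc N × Euc N) × Wt N K) × ℝ) : Euc N × Euc N := (FM.phiF h PN (Real.pi * y.2) y.1).1

theorem smap_Ra (h : GT.Bla G k) (H : NB.NegB G (k - 1) (nuP K) δ PN) (hkn : k < n) {lam : ℝ → ℝ}
    (hl : ContDiff ℝ ∞ lam) :
    SMap (Cyl (T.Sph (L.US G) PN)) (L.US G) (Ra h PN lam) := by
  refine ⟨fun y hy => ?_, fun y hy => (FM.phiF_mem h H hkn (mem_Cyl.1 hy) _).1.1⟩
  have h1 := FM.contDiffAt_phiF h H hkn (mem_Cyl.1 hy) (lam y.2)
  have h2 : ContDiffAt ℝ ∞ (fun y : ((Euc N × Euc N) × Wt N K) × ℝ => (lam y.2, y.1)) y :=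
    ((hl.comp contDiff_snd).prodMk contDiff_fst).contDiffAt
  have h3 : ContDiffAt ℝ ∞ (fun y : ((Euc N × Euc N) × Wt N K) × ℝ =>
      FM.phiF h PN (lam y.2) y.1) y :=
    ContDiffAt.comp y (g := fun q : ℝ × ((Euc N × Euc N) × Wt N K) => FM.phiF h PN q.1 q.2) h1 h2
  exact contDiffAt_fst.comp y h3

theorem smap_Hr (h : GT.Bla G k) (H : NB.NegB G (k - 1) (nuP K) δ PN) (hkn : k < n) :
    SMap (Cyl (T.Sph (L.US G) PN)) (L.US G) (Hr h PN) :=
  smap_Ra h H hkn (lam := fun t => Real.pi * t) (contDiff_const.mul contDiff_id)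

theorem smap_flp : SMap (T.Sph (L.US G) PN) (T.Sph (L.US G) PN) (flp (N := N) (K := K)) :=
  ⟨fun x _ => contDiff_flp.contDiffAt, fun x hx => flp_mem hx⟩

/-- **the F orbit is the union of two half rotations** -/
theorem Wp_phiF (h : GT.Bla G k) (H : NB.NegB G (k - 1) (nuP K) δ PN) (hkn : k < n)
    (sk : Sm (L.US G) kap) :
    Eqv (T.Sph (L.US G) PN) (Wp (FM.phiF h PN) (F.pull Prod.fst kap))
      (RR.K (E := (Euc N × Euc N) × Wt N K) (F.pull (Hr h PN) kap) -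
        F.pull flp (RR.K (E := (Euc N × Euc N) × Wt N K) (F.pull (Hr h PN) kap))) := by
  set Z := T.Sph (L.US G) PN with hZ
  have hc := FM.cir_phiF h H hkn
  have hP : SMap Z (L.US G) (Prod.fst : (Euc N × Euc N) × Wt N K → Euc N × Euc N) :=
    ⟨fun q _ => contDiffAt_fst, fun q hq => hq.1.1⟩
  have hFl := smap_Fl hc
  set Fr : ((Euc N × Euc N) × Wt N K) × ℝ → Euc N × Euc N := Ra h PN fun t => 2 * Real.pi * t
    with hFr
  have sFr : SMap (Cyl Z) (L.US G) Fr :=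
    smap_Ra h H hkn (lam := fun t => 2 * Real.pi * t) (contDiff_const.mul contDiff_id)
  have sHr := smap_Hr h H hkn (K := K)
  have s1 : Sm (Cyl Z) (F.pull Fr kap) := sk.pull sFr
  have s2 : Sm (Cyl Z) (F.pull (Hr h PN) kap) := sk.pull sHr
  -- the full rotation
  have e1 : Eqv (Cyl Z) (F.pull (Fl (FM.phiF h PN)) (F.pull Prod.fst kap)) (F.pull Fr kap) :=
    eqv_pull_pull hFl hP sFr (fun _ _ => rfl) kap
  have e2 : Eqv Z (Wp (FM.phiF h PN) (F.pull Prod.fst kap))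
      (RR.K (E := (Euc N × Euc N) × Wt N K) (F.pull Fr kap)) :=
    K_eqv ((sk.pull hP).pull hFl) s1 e1
  refine e2.trans ?_
  -- reparametrisations
  have hl1 : ContDiff ℝ ∞ (fun t : ℝ => t / 2) := contDiff_id.div_const 2
  have hl2 : ContDiff ℝ ∞ (fun t : ℝ => 1 - t / 2) := contDiff_const.sub hl1
  have hf1 : SMap (Cyl Z) (Cyl Z) (fx (fun y : (Euc N × Euc N) × Wt N K => y) fun t => t / 2) :=
    ⟨fun y hy => (contDiff_fst.prodMk (hl1.comp contDiff_snd)).contDiffAt,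
      fun y hy => mem_Cyl.2 (mem_Cyl.1 hy)⟩
  have hf2 : SMap (Cyl Z) (Cyl Z) (fx (fun y : (Euc N × Euc N) × Wt N K => y) fun t => 1 - t / 2) :=
    ⟨fun y hy => (contDiff_fst.prodMk (hl2.comp contDiff_snd)).contDiffAt,
      fun y hy => mem_Cyl.2 (mem_Cyl.1 hy)⟩
  have hff := smap_ff (smap_flp (G := G) (PN := PN))
  have a1 : Eqv (Cyl Z) (F.pull (fx (fun y : (Euc N × Euc N) × Wt N K => y) fun t => t / 2)
      (F.pull Fr kap)) (F.pull (Hr h PN) kap) :=
    eqv_pull_pull hf1 sFr sHr (fun y hy => by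
      change (FM.phiF h PN (2 * Real.pi * (y.2 / 2)) y.1).1 = (FM.phiF h PN (Real.pi * y.2) y.1).1
      congr 2
      ring) kap
  have a2 : Eqv (Cyl Z) (F.pull (fx (fun y : (Euc N × Euc N) × Wt N K => y) fun t => 1 - t / 2)
      (F.pull Fr kap)) (F.pull (fun y => Hr h PN (ff flp y)) kap) :=
    eqv_pull_pull hf2 sFr (sHr.comp hff) (fun y hy => by
      change (FM.phiF h PN (2 * Real.pi * (1 - y.2 / 2)) y.1).1 =
        (FM.phiF h PN (Real.pi * y.2) (flp y.1)).1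
      rw [FM.phiF_fst, FM.phiF_fst, dir_flp]
      have e3 : 2 * Real.pi * (1 - y.2 / 2) = 2 * Real.pi - Real.pi * y.2 := by ring
      rw [e3, Real.cos_two_pi_sub, Real.sin_two_pi_sub, neg_smul, smul_neg]
      rfl) kap
  have a3 : Eqv (Cyl Z) (F.pull (ff flp) (F.pull (Hr h PN) kap))
      (F.pull (fun y => Hr h PN (ff flp y)) kap) :=
    eqv_pull_pull hff sHr (sHr.comp hff) (fun _ _ => rfl) kap
  have b1 := K_eqv (s1.pull hf1) s2 a1
  have b2 := K_eqv (s1.pull hf2) (sk.pull (sHr.comp hff)) a2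
  have b3 := K_eqv (s2.pull hff) (sk.pull (sHr.comp hff)) a3
  have b4 : Eqv Z (F.pull flp (RR.K (E := (Euc N × Euc N) × Wt N K) (F.pull (Hr h PN) kap)))
      (RR.K (E := (Euc N × Euc N) × Wt N K) (F.pull (ff flp) (F.pull (Hr h PN) kap))) :=
    k_flip (smap_flp (G := G) (PN := PN)) s2
  have c1 : Eqv Z (RR.K (E := (Euc N × Euc N) × Wt N K) (F.pull Fr kap))
      (RR.K (E := (Euc N × Euc N) × Wt N K)
        (F.pull (fx (fun y : (Euc N × Euc N) × Wt N K => y) fun t => t / 2) (F.pull Fr kap)) -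
      RR.K (E := (Euc N × Euc N) × Wt N K)
        (F.pull (fx (fun y : (Euc N × Euc N) × Wt N K => y) fun t => 1 - t / 2)
          (F.pull Fr kap))) := by
    refine Eqv.of_eq fun x hx => ?_
    rw [Pi.sub_apply, CG.K_repar hl1 s1 hx, CG.K_repar hl2 s1 hx]
    have d1 : (0 : ℝ) / 2 = 0 := by norm_num
    have d2 : (1 : ℝ) - 0 / 2 = 1 := by norm_num
    have d3 : (1 : ℝ) - 1 / 2 = 1 / 2 := by norm_num
    rw [d2, d3, d1, CG.Kab_symm 1 (1 / 2), sub_neg_eq_add, CG.Kab_add s1 hx]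
    exact CG.K_eq_Kab
  exact c1.trans (b1.sub (b2.trans (b3.symm.trans b4.symm)))

/-- **(H)**: the fibre integral of the orbit integral is twice the one of the half rotation -/
theorem two_half (h : GT.Bla G k) (H : NB.NegB G (k - 1) (nuP K) δ PN) (hk : Even k)
    (hk4 : 4 ≤ k) (hkn : k < n) (sk : Sm (L.US G) kap) (hz : z ∈ L.US G)
    (hF : Ori (k - 2) (T.Sph (L.US G) PN ∩ Prod.fst ⁻¹' {z}) oF) :
    J (k - 2) (T.Sph (L.US G) PN ∩ Prod.fst ⁻¹' {z}) oF
      (Wp (FM.phiF h PN) (F.pull Prod.fst kap)) =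
      2 * J (k - 2) (T.Sph (L.US G) PN ∩ Prod.fst ⁻¹' {z}) oF
        (RR.K (E := (Euc N × Euc N) × Wt N K) (F.pull (Hr h PN) kap)) := by
  obtain ⟨r, rfl⟩ : ∃ r, k = r + 2 := ⟨k - 2, by omega⟩
  rw [show r + 2 - 2 = r by omega] at *
  have hP : PField (L.US G) (r + 1) PN := UP.pfield_N H
  obtain ⟨oN, hoN⟩ := SB.exists_opr_N h (by omega) hkn H
  have c := HN.clo_fib hP hz
  have s2 : Sm (Cyl (T.Sph (L.US G) PN)) (F.pull (Hr h PN) kap) := sk.pull (smap_Hr h H hkn)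
  have s3 := RR.Sm.K s2
  have s4 : Sm (T.Sph (L.US G) PN) (F.pull flp (RR.K (E := (Euc N × Euc N) × Wt N K)
      (F.pull (Hr h PN) kap))) := s3.pull smap_flp
  have hr : Even r := by
    obtain ⟨i, hi⟩ := hk
    exact ⟨i - 1, by omega⟩
  have h1 := CG.J_fl'_any hP hoN hr (by omega) hz hF s3
  rw [J_eqv c ((Wp_phiF h H hkn sk).mono_tan inter_subset_left)]
  rw [J_sub' c hF (fun x hx => (s3 x hx.1)) (fun x hx => (s4 x hx.1))]
  have h2 : J r (T.Sph (L.US G) PN ∩ Prod.fst ⁻¹' {z}) oF (F.pull flp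
      (RR.K (E := (Euc N × Euc N) × Wt N K) (F.pull (Hr h PN) kap))) =
      -J r (T.Sph (L.US G) PN ∩ Prod.fst ⁻¹' {z}) oF
        (RR.K (E := (Euc N × Euc N) × Wt N K) (F.pull (Hr h PN) kap)) := h1
  rw [h2]
  ring

/-- absolute values -/
theorem abs_two_half (h : GT.Bla G k) (H : NB.NegB G (k - 1) (nuP K) δ PN) (hk : Even k)
    (hk4 : 4 ≤ k) (hkn : k < n) (sk : Sm (L.US G) kap) (hz : z ∈ L.US G)
    (hF : Ori (k - 2) (T.Sph (L.US G) PN ∩ Prod.fst ⁻¹' {z}) oF) :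
    |J (k - 2) (T.Sph (L.US G) PN ∩ Prod.fst ⁻¹' {z}) oF
      (Wp (FM.phiF h PN) (F.pull Prod.fst kap))| =
      2 * |J (k - 2) (T.Sph (L.US G) PN ∩ Prod.fst ⁻¹' {z}) oF
        (RR.K (E := (Euc N × Euc N) × Wt N K) (F.pull (Hr h PN) kap))| := by
  rw [two_half h H hk hk4 hkn sk hz hF, abs_mul, abs_two]

end Crest.Agent.R208.KP
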