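import Crest.Agent.R208.SN1

/-! Row 208, block SN (helper900).  SN2: the unit sphere bundle `SB X P` of `V ⊕ ℝ` over `X`. -/

set_option autoImplicit false
set_option linter.unusedSectionVars false

open MeasureTheory Set Filter Topology Module
open scoped ContDiff RealInnerProductSpace
open Crest.Agent.R208.F Crest.Agent.R208.FI Crest.Agent.R208.T

noncomputable section

namespace Crest.Agent.R208.SN

section tan
variable {E F' : Type*} [NormedAddCommGroup E] [NormedSpace ℝ E] [FiniteDimensional ℝ E]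
  [NormedAddCommGroup F'] [NormedSpace ℝ F']

/-- functions which agree on `X` have the same derivative along `X` -/
theorem fderiv_tan {X : Set E} {x : E} {f g : E → F'} (hf : DifferentiableAt ℝ f x)
    (hg : DifferentiableAt ℝ g x) (hx : x ∈ X) (h : ∀ y ∈ X, f y = g y) {w : E}
    (hw : w ∈ Tan X x) : fderiv ℝ f x w = fderiv ℝ g x w := by
  refine Submodule.span_induction (p := fun w _ => fderiv ℝ f x w = fderiv ℝ g x w) ?_ ?_ ?_ ?_ hw
  · rintro w ⟨γ, rfl, hγ, hS⟩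
    have h1 := hf.hasFDerivAt.comp_hasDerivAt 0 hγ
    have h2 := hg.hasFDerivAt.comp_hasDerivAt 0 hγ
    have h3 : (f ∘ γ) =ᶠ[𝓝 0] (g ∘ γ) := hS.mono fun t ht => h _ ht
    exact (h1.congr_of_eventuallyEq h3.symm).unique h2
  · simp
  · intro a b _ _ ha hb; simp only [map_add, ha, hb]
  · intro r a _ ha; simp only [map_smul, ha]

end tan

section sb
variable {E H : Type*} [NormedAddCommGroup E] [NormedSpace ℝ E] [FiniteDimensional ℝ E]
  [NormedAddCommGroup H] [InnerProductSpace ℝ H] [FiniteDimensional ℝ H]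
  {X : Set E} {P : E → H →L[ℝ] H} {r d : ℕ}

/-- the equation of the sphere -/
def gS (z : (E × H) × ℝ) : ℝ := ⟪z.1.2, z.1.2⟫ + z.2 * z.2 - 1

/-- the unit sphere bundle of `V ⊕ ℝ` -/
def SB (X : Set E) (P : E → H →L[ℝ] H) : Set ((E × H) × ℝ) :=
  {z | z ∈ Tot X P ×ˢ (univ : Set ℝ) ∧ gS z = 0}

/-- the projection -/
def pB (z : (E × H) × ℝ) : E := z.1.1

theorem contDiff_gS {k : WithTop ℕ∞} : ContDiff ℝ k (gS (E := E) (H := H)) := by
  unfold gS
  exact ((ContDiff.inner ℝ (by fun_prop) (by fun_prop)).add (by fun_prop)).sub contDiff_const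

theorem fderiv_gS (z : (E × H) × ℝ) (a : E) (b : H) (s : ℝ) :
    fderiv ℝ (gS (E := E) (H := H)) z ((a, b), s) = 2 * (⟪z.1.2, b⟫ + z.2 * s) := by
  have hd : DifferentiableAt ℝ (gS (E := E) (H := H)) z :=
    (contDiff_gS (k := 1)).differentiable one_ne_zero z
  have h1 : HasDerivAt (fun t : ℝ => gS (z + t • ((a, b), s))) (fderiv ℝ gS z ((a, b), s)) 0 := by
    have h2 : HasDerivAt (fun t : ℝ => z + t • ((a, b), s)) ((a, b), s) 0 := by
      simpa using ((hasDerivAt_id (0 : ℝ)).smul_const ((a, b), s)).const_add z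
    have h3 : HasFDerivAt (gS (E := E) (H := H)) (fderiv ℝ gS z) (z + (0 : ℝ) • ((a, b), s)) := by
      simpa using hd.hasFDerivAt
    exact h3.comp_hasDerivAt (0 : ℝ) h2
  have h6 : HasDerivAt (fun t : ℝ => z.1.2 + t • b) b 0 := by
    simpa using ((hasDerivAt_id (0 : ℝ)).smul_const b).const_add z.1.2
  have h7 : HasDerivAt (fun t : ℝ => z.2 + t * s) s 0 := by
    simpa using ((hasDerivAt_id (0 : ℝ)).mul_const s).const_add z.2
  have h8 := ((h6.inner ℝ h6).add (h7.mul h7)).sub_const (1 : ℝ)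
  simp only [zero_smul, add_zero, zero_mul] at h8
  have h9 : HasDerivAt (fun t : ℝ => gS (z + t • ((a, b), s)))
      (⟪z.1.2, b⟫ + ⟪b, z.1.2⟫ + (s * z.2 + z.2 * s)) 0 := h8
  rw [h1.unique h9, real_inner_comm b z.1.2]
  ring

theorem SB_iff {z : (E × H) × ℝ} :
    z ∈ SB X P ↔ z.1.1 ∈ X ∧ P z.1.1 z.1.2 = z.1.2 ∧ ⟪z.1.2, z.1.2⟫ + z.2 * z.2 = 1 := by
  constructor
  · rintro ⟨⟨⟨h1, h2⟩, -⟩, h3⟩
    exact ⟨h1, h2, by have : ⟪z.1.2, z.1.2⟫ + z.2 * z.2 - 1 = 0 := h3; linarith⟩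
  · rintro ⟨h1, h2, h3⟩
    exact ⟨⟨⟨h1, h2⟩, trivial⟩, by show ⟪z.1.2, z.1.2⟫ + z.2 * z.2 - 1 = 0; linarith⟩

theorem sub_TU (hX : Sub d X) (hP : PField X r P) :
    Sub (d + r + 1) (Tot X P ×ˢ (univ : Set ℝ)) :=
  (hP.sub_tot hX).prod (sub_open (by simp) isOpen_univ)

theorem mem_Tan_TU (hX : Sub d X) (hP : PField X r P) {x : E} {v : H} {t : ℝ} (hx : x ∈ X)
    (hv : P x v = v) {a : E} {b : H} {s : ℝ} :
    ((a, b), s) ∈ Tan (Tot X P ×ˢ (univ : Set ℝ)) ((x, v), t) ↔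
      a ∈ Tan X x ∧ b - P x b = fderiv ℝ P x a v := by
  rw [Tan_prod (hP.sub_tot hX) (sub_open (E := ℝ) (n := 1) (by simp) isOpen_univ)
    (x := (x, v)) (y := t) ⟨hx, hv⟩ (mem_univ _), Submodule.mem_prod,
    hP.mem_Tan_tot hX hx hv, Tan_univ]
  simp

theorem gS_surj (hX : Sub d X) (hP : PField X r P) (z : (E × H) × ℝ)
    (hz : z ∈ Tot X P ×ˢ (univ : Set ℝ)) (hg : gS z = 0) (y : ℝ) :
    ∃ v ∈ Tan (Tot X P ×ˢ (univ : Set ℝ)) z, fderiv ℝ (gS (E := E) (H := H)) z v = y := by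
  obtain ⟨⟨x, v⟩, t⟩ := z
  refine ⟨((0, (y / 2) • v), (y / 2) * t), ?_, ?_⟩
  · refine (mem_Tan_TU hX hP hz.1.1 hz.1.2).2 ⟨Submodule.zero_mem _, ?_⟩
    have h : P x v = v := hz.1.2
    rw [map_smul, h]; simp
  · rw [fderiv_gS]
    have h : ⟪v, v⟫ + t * t - 1 = 0 := hg
    simp only [real_inner_smul_right]
    linear_combination y * h

theorem sub_SB (hX : Sub d X) (hP : PField X r P) : Sub (r + d) (SB X P) := by
  have := (sub_TU hX hP).level (g := gS) (fun z _ => contDiff_gS.contDiffAt) (gS_surj hX hP)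
  rw [Module.finrank_self, Nat.add_sub_cancel, Nat.add_comm] at this
  exact this

theorem mem_Tan_SB (hX : Sub d X) (hP : PField X r P) {x : E} {v : H} {t : ℝ}
    (hz : ((x, v), t) ∈ SB X P) {a : E} {b : H} {s : ℝ} :
    ((a, b), s) ∈ Tan (SB X P) ((x, v), t) ↔
      (a ∈ Tan X x ∧ b - P x b = fderiv ℝ P x a v) ∧ ⟪v, b⟫ + t * s = 0 := by
  have h1 := (sub_TU hX hP).Tan_level (g := gS) (fun z _ => contDiff_gS.contDiffAt)
    (gS_surj hX hP) hz.1 hz.2
  have h2 : Tan (SB X P) ((x, v), t) = _ := h1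
  rw [h2, Submodule.mem_inf, mem_Tan_TU hX hP hz.1.1.1 hz.1.1.2]
  refine and_congr Iff.rfl ?_
  have h3 : ((a, b), s) ∈ LinearMap.ker (fderiv ℝ (gS (E := E) (H := H)) ((x, v), t) :
      (E × H) × ℝ →ₗ[ℝ] ℝ) ↔ fderiv ℝ (gS (E := E) (H := H)) ((x, v), t) ((a, b), s) = 0 := Iff.rfl
  rw [h3, fderiv_gS]
  constructor
  · intro h; simpa using h
  · intro h; simp only; rw [h, mul_zero]

theorem isCompact_SB (hX : IsCompact X) (hP : PField X r P) : IsCompact (SB X P) := by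
  have hPc : ContinuousOn P X := fun x hx => (hP.smooth x hx).continuousAt.continuousWithinAt
  set K : Set ((E × H) × ℝ) := (X ×ˢ Metric.closedBall (0 : H) 1) ×ˢ Metric.closedBall (0 : ℝ) 1
    with hKdef
  have hK : IsCompact K :=
    (hX.prod (isCompact_closedBall _ _)).prod (isCompact_closedBall _ _)
  have hc : ContinuousOn (fun z : (E × H) × ℝ => ((P z.1.1 z.1.2 - z.1.2 : H), gS z)) K := by
    refine ContinuousOn.prodMk ?_ (contDiff_gS (k := 0)).continuous.continuousOn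
    refine ContinuousOn.sub ?_ (by fun_prop)
    have h1 : ContinuousOn (fun z : (E × H) × ℝ => P z.1.1) K :=
      hPc.comp (by fun_prop) fun z hz => hz.1.1
    exact h1.clm_apply (by fun_prop)
  have heq : SB X P = K ∩
      (fun z : (E × H) × ℝ => ((P z.1.1 z.1.2 - z.1.2 : H), gS z)) ⁻¹' {0} := by
    ext z
    rw [SB_iff]
    constructor
    · rintro ⟨h1, h2, h3⟩
      have h4 : 0 ≤ ⟪z.1.2, z.1.2⟫ := real_inner_self_nonneg
      have h5 : 0 ≤ z.2 * z.2 := mul_self_nonneg _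
      refine ⟨⟨⟨h1, ?_⟩, ?_⟩, ?_⟩
      · rw [mem_closedBall_zero_iff]
        rw [real_inner_self_eq_norm_sq] at h3
        have : ‖z.1.2‖ ^ 2 ≤ 1 ^ 2 := by linarith
        exact abs_le_of_sq_le_sq' this (by norm_num) |>.2
      · rw [mem_closedBall_zero_iff, Real.norm_eq_abs]
        have : z.2 ^ 2 ≤ 1 ^ 2 := by nlinarith
        exact abs_le_of_sq_le_sq this (by norm_num)
      · refine Prod.ext ?_ ?_
        · simp [h2]
        · show ⟪z.1.2, z.1.2⟫ + z.2 * z.2 - 1 = 0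
          linarith
    · rintro ⟨⟨⟨h1, -⟩, -⟩, h2⟩
      have h3 := Prod.ext_iff.1 h2
      have h4 : P z.1.1 z.1.2 - z.1.2 = 0 := h3.1
      have h5 : ⟪z.1.2, z.1.2⟫ + z.2 * z.2 - 1 = 0 := h3.2
      exact ⟨h1, sub_eq_zero.1 h4, by linarith⟩
  rw [heq]
  obtain ⟨u, hu, hu2⟩ := continuousOn_iff_isClosed.1 hc {0} isClosed_singleton
  rw [inter_comm, hu2, inter_comm]
  exact hK.inter_right hu

theorem clo_SB (hX : Clo d X) (hP : PField X r P) : Clo (r + d) (SB X P) :=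
  (sub_SB hX.sub hP).clo (isCompact_SB hX.compact hP)

/-- `P (DP a v) = 0` for `v ∈ V` -/
theorem P_fderiv (hP : PField X r P) {x : E} (hx : x ∈ X) {a : E} (ha : a ∈ Tan X x) {v : H}
    (hv : P x v = v) : P x (fderiv ℝ P x a v) = 0 := by
  have hPd : DifferentiableAt ℝ P x := (hP.smooth x hx).differentiableAt (by simp)
  have h1 : DifferentiableAt ℝ (fun y => P y (P y v)) x :=
    hPd.clm_apply (hPd.clm_apply (differentiableAt_const v))
  have h2 : DifferentiableAt ℝ (fun y => P y v) x := hPd.clm_apply (differentiableAt_const v)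
  have h3 := fderiv_tan h1 h2 hx (fun y hy => hP.idem y hy v) ha
  have h4 : fderiv ℝ (fun y => P y v) x a = fderiv ℝ P x a v := by
    rw [fderiv_clm_apply hPd (differentiableAt_const v)]; simp
  have h5 : fderiv ℝ (fun y => P y (P y v)) x a = P x (fderiv ℝ P x a v) + fderiv ℝ P x a (P x v) := by
    rw [fderiv_clm_apply hPd h2]
    simp [h4]
  rw [h5, h4, hv] at h3
  simpa using h3

theorem subm_SB (hX : Clo d X) (hP : PField X r P)
    (hs : ∀ x ∈ X, ∀ v w, ⟪P x v, w⟫ = ⟪v, P x w⟫) : Subm r d (SB X P) X pB where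
  cloZ := clo_SB hX hP
  cloX := hX
  smooth z _ := by unfold pB; fun_prop
  mapsTo z hz := hz.1.1.1
  sub := by
    rintro ⟨⟨x, v⟩, t⟩ hz w hw
    have hx : x ∈ X := hz.1.1.1
    have hv : P x v = v := hz.1.1.2
    have hw' : w ∈ Tan X x := hw
    have h0 := P_fderiv hP hx hw' hv
    refine ⟨((w, fderiv ℝ P x w v), 0), (mem_Tan_SB hX.sub hP hz).2 ⟨⟨hw', ?_⟩, ?_⟩, ?_⟩
    · rw [h0, sub_zero]
    · have h1 := hs x hx v (fderiv ℝ P x w v)
      rw [h0, inner_zero_right, hv] at h1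
      rw [mul_zero, add_zero]
      exact h1
    · have h1 : fderiv ℝ (pB : (E × H) × ℝ → E) ((x, v), t) =
          (ContinuousLinearMap.fst ℝ E H).comp (ContinuousLinearMap.fst ℝ (E × H) ℝ) :=
        ((ContinuousLinearMap.fst ℝ E H).comp (ContinuousLinearMap.fst ℝ (E × H) ℝ)).fderiv
      rw [h1]; rfl

/-- tangent spaces of the fibres -/
theorem mem_Tan_fib (hX : Clo d X) (hP : PField X r P)
    (hs : ∀ x ∈ X, ∀ v w, ⟪P x v, w⟫ = ⟪v, P x w⟫) {x : E} {v : H} {t : ℝ}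
    (hz : ((x, v), t) ∈ SB X P) {a : E} {b : H} {s : ℝ} :
    ((a, b), s) ∈ Tan (SB X P ∩ pB ⁻¹' {x}) ((x, v), t) ↔
      (a = 0 ∧ P x b = b) ∧ ⟪v, b⟫ + t * s = 0 := by
  have h0 := (subm_SB hX hP hs).tan_fibre hz
  have h0' : Tan (SB X P ∩ pB ⁻¹' {x}) ((x, v), t) = _ := h0
  rw [h0', Submodule.mem_inf, mem_Tan_SB hX.sub hP hz]
  have h1 : fderiv ℝ (pB : (E × H) × ℝ → E) ((x, v), t) =
      (ContinuousLinearMap.fst ℝ E H).comp (ContinuousLinearMap.fst ℝ (E × H) ℝ) :=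
    ((ContinuousLinearMap.fst ℝ E H).comp (ContinuousLinearMap.fst ℝ (E × H) ℝ)).fderiv
  have h3 : ((a, b), s) ∈ LinearMap.ker (fderiv ℝ (pB : (E × H) × ℝ → E) ((x, v), t) :
      (E × H) × ℝ →ₗ[ℝ] E) ↔ a = 0 := by
    rw [LinearMap.mem_ker]
    have : (fderiv ℝ (pB : (E × H) × ℝ → E) ((x, v), t) : (E × H) × ℝ →ₗ[ℝ] E) ((a, b), s) = a := by
      show fderiv ℝ (pB : (E × H) × ℝ → E) ((x, v), t) ((a, b), s) = a
      rw [h1]; rfl
    rw [this]
  rw [h3]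
  constructor
  · rintro ⟨⟨⟨-, h4⟩, h5⟩, rfl⟩
    refine ⟨⟨rfl, ?_⟩, h5⟩
    rw [map_zero] at h4
    exact (sub_eq_zero.1 h4).symm
  · rintro ⟨⟨rfl, h4⟩, h5⟩
    exact ⟨⟨⟨Submodule.zero_mem _, by rw [h4, map_zero, sub_self]; rfl⟩, h5⟩, rfl⟩

end sb

end Crest.Agent.R208.SN
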