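import Crest.Agent.R208.RRc365
import Crest.Agent.R208.SN2
import Crest.Agent.R208.SB1
import Crest.Agent.R208.QH1

/-! Row 208, block JV (helper638).  JV1: the unit sphere bundle of `V ⊕ ℝ` is swept by the
meridians through the unit sphere bundle of `V`. -/

set_option autoImplicit false
set_option linter.unusedSectionVars false

open MeasureTheory MeasureTheory.Measure Set Filter Topology Module
open scoped ContDiff RealInnerProductSpace ENNReal NNReal
open Crest.Agent.R208.F Crest.Agent.R208.FI Crest.Agent.R208.T Crest.Agent.R208.SN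
open Crest.Agent.R208.RRC (Swp)

noncomputable section

namespace Crest.Agent.R208.JV

universe u v
variable {E : Type u} {H : Type v} [NormedAddCommGroup E] [NormedSpace ℝ E]
  [FiniteDimensional ℝ E] [NormedAddCommGroup H] [InnerProductSpace ℝ H] [FiniteDimensional ℝ H]
  {X : Set E} {P : E → H →L[ℝ] H} {d r : ℕ}

/-- a smooth image of a set of dimension `d < n` is a null set for `μHE[n]` -/
theorem null_of_sub {F : Type*} [NormedAddCommGroup F] [NormedSpace ℝ F] [FiniteDimensional ℝ F]
    {n : ℕ} (hX : FI.Sub d X) (hd : d < n) {f : E → F} (hf : ∀ x ∈ X, ContDiffAt ℝ ∞ f x) :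
    μHE[n] (TE F '' (f '' X)) = 0 := by
  have h1 : dimH (TE F '' (f '' X)) ≤ d := by
    rw [image_image]
    exact (QH.dimH_image_le fun x hx =>
      ((TE F).contDiff.contDiffAt (n := ∞)).comp x (hf x hx)).trans (QH.dimH_sub_le hX)
  have h2 : dimH (TE F '' (f '' X)) < (n : ℝ≥0) := by
    refine h1.trans_lt ?_
    exact_mod_cast hd
  have h3 := hausdorffMeasure_of_dimH_lt h2
  rw [euclideanHausdorffMeasure_def, Measure.smul_apply]
  have h4 : ((n : ℝ≥0) : ℝ) = (n : ℝ) := by simp
  rw [h4] at h3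
  rw [h3, smul_zero]

/-- the meridians -/
def ER (q : (E × H) × ℝ) : (E × H) × ℝ :=
  ((q.1.1, Real.sin (Real.pi * q.2) • q.1.2), Real.cos (Real.pi * q.2))

theorem contDiff_ER : ContDiff ℝ ∞ (ER : (E × H) × ℝ → (E × H) × ℝ) := by
  have h1 : ContDiff ℝ ∞ (fun q : (E × H) × ℝ => Real.sin (Real.pi * q.2)) :=
    Real.contDiff_sin.comp (contDiff_const.mul contDiff_snd)
  have h2 : ContDiff ℝ ∞ (fun q : (E × H) × ℝ => Real.cos (Real.pi * q.2)) :=
    Real.contDiff_cos.comp (contDiff_const.mul contDiff_snd)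
  exact (contDiff_fst.fst.prodMk (h1.smul contDiff_fst.snd)).prodMk h2

theorem ER_mem {z : E × H} (hz : z ∈ Sph X P) (t : ℝ) : ER (z, t) ∈ SB X P := by
  rw [SB_iff]
  refine ⟨hz.1.1, ?_, ?_⟩
  · show P z.1 (Real.sin (Real.pi * t) • z.2) = _
    rw [map_smul, hz.1.2]; rfl
  · show ⟪Real.sin (Real.pi * t) • z.2, Real.sin (Real.pi * t) • z.2⟫ +
      Real.cos (Real.pi * t) * Real.cos (Real.pi * t) = 1
    rw [real_inner_smul_left, real_inner_smul_right, real_inner_self_eq_norm_sq, hz.2]
    nlinarith [Real.sin_sq_add_cos_sq (Real.pi * t)]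

theorem sin_pos {t : ℝ} (ht : t ∈ Ioo (0 : ℝ) 1) : 0 < Real.sin (Real.pi * t) :=
  Real.sin_pos_of_pos_of_lt_pi (mul_pos Real.pi_pos ht.1) (by nlinarith [Real.pi_pos, ht.2])

theorem hasFDerivAt_ER (q : (E × H) × ℝ) (w : E × H) (s : ℝ) :
    fderiv ℝ (ER : (E × H) × ℝ → (E × H) × ℝ) q (w, s) =
      ((w.1, Real.sin (Real.pi * q.2) • w.2 + (Real.cos (Real.pi * q.2) * (Real.pi * s)) • q.1.2),
        -Real.sin (Real.pi * q.2) * (Real.pi * s)) := by
  have hd : DifferentiableAt ℝ (ER : (E × H) × ℝ → (E × H) × ℝ) q :=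
    contDiff_ER.contDiffAt.differentiableAt (by simp)
  -- along the line
  have h1 : HasDerivAt (fun y : ℝ => ER (q + y • (w, s)))
      (fderiv ℝ (ER : (E × H) × ℝ → (E × H) × ℝ) q (w, s)) 0 := by
    have h2 : HasDerivAt (fun y : ℝ => q + y • (w, s)) (w, s) 0 := by
      have := ((hasDerivAt_id (0 : ℝ)).smul_const (w, s)).const_add q
      simpa using this
    have h3 : HasFDerivAt (ER : (E × H) × ℝ → (E × H) × ℝ) (fderiv ℝ ER q)
        (q + (0 : ℝ) • (w, s)) := by
      rw [zero_smul, add_zero]; exact hd.hasFDerivAt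
    exact h3.comp_hasDerivAt (0 : ℝ) h2
  have ha : HasDerivAt (fun y : ℝ => Real.pi * (q.2 + y * s)) (Real.pi * s) 0 := by
    have := (((hasDerivAt_id (0 : ℝ)).mul_const s).const_add q.2).const_mul Real.pi
    simpa using this
  have hs : HasDerivAt (fun y : ℝ => Real.sin (Real.pi * (q.2 + y * s)))
      (Real.cos (Real.pi * q.2) * (Real.pi * s)) 0 := by
    have := ha.sin
    simpa using this
  have hc : HasDerivAt (fun y : ℝ => Real.cos (Real.pi * (q.2 + y * s)))
      (-Real.sin (Real.pi * q.2) * (Real.pi * s)) 0 := by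
    have := ha.cos
    simpa using this
  have hv : HasDerivAt (fun y : ℝ => q.1.2 + y • w.2) w.2 0 := by
    have := ((hasDerivAt_id (0 : ℝ)).smul_const w.2).const_add q.1.2
    simpa using this
  have hx : HasDerivAt (fun y : ℝ => q.1.1 + y • w.1) w.1 0 := by
    have := ((hasDerivAt_id (0 : ℝ)).smul_const w.1).const_add q.1.1
    simpa using this
  have h4 := (hx.prodMk (hs.smul hv)).prodMk hc
  have h5 : (fun y : ℝ => ER (q + y • (w, s))) = fun y : ℝ =>
      ((q.1.1 + y • w.1, Real.sin (Real.pi * (q.2 + y * s)) • (q.1.2 + y • w.2)),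
        Real.cos (Real.pi * (q.2 + y * s))) := rfl
  rw [h5] at h1
  have h6 := h1.unique h4
  rw [h6]
  simp

/-- **the sweep** -/
theorem swp (hX : Clo d X) (hP : PField X (r + 1) P) :
    Swp (r + d) (Sph X P) (SB X P) (ER : (E × H) × ℝ → (E × H) × ℝ) where
  cloZ := SB.clo_Sph hX hP
  cloX := by
    have := clo_SB hX hP
    rwa [show r + 1 + d = 1 + (r + d) by ring] at this
  sm := fun z _ t => contDiff_ER.contDiffAt
  mem := fun z hz t => ER_mem hz t
  inj := by
    intro z hz z' hz' t ht t' ht' he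
    have h1 : z.1 = z'.1 := congrArg (fun q => q.1.1) he
    have h2 : Real.sin (Real.pi * t) • z.2 = Real.sin (Real.pi * t') • z'.2 :=
      congrArg (fun q => q.1.2) he
    have h3 : Real.cos (Real.pi * t) = Real.cos (Real.pi * t') := congrArg (fun q => q.2) he
    have hπ := Real.pi_pos
    have h4 : Real.pi * t = Real.pi * t' :=
      Real.injOn_cos ⟨by nlinarith [ht.1], by nlinarith [ht.2]⟩
        ⟨by nlinarith [ht'.1], by nlinarith [ht'.2]⟩ h3
    have h5 : t = t' := mul_left_cancel₀ hπ.ne' h4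
    subst h5
    exact ⟨Prod.ext h1 (smul_right_injective _ (sin_pos ht).ne' h2), rfl⟩
  dinj := by
    intro z hz t ht w hw s h0
    rw [hasFDerivAt_ER] at h0
    have h1 : w.1 = 0 := congrArg (fun q => q.1.1) h0
    have h2 : Real.sin (Real.pi * t) • w.2 + (Real.cos (Real.pi * t) * (Real.pi * s)) • z.2 = 0 :=
      congrArg (fun q => q.1.2) h0
    have h3 : -Real.sin (Real.pi * t) * (Real.pi * s) = 0 := congrArg (fun q => q.2) h0
    have hs := sin_pos ht
    have h4 : s = 0 := by
      have h5 := (mul_eq_zero.1 h3).resolve_left (neg_ne_zero.2 hs.ne')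
      exact (mul_eq_zero.1 h5).resolve_left Real.pi_pos.ne'
    rw [h4, mul_zero, mul_zero, zero_smul, add_zero] at h2
    exact ⟨Prod.ext h1 ((smul_eq_zero.1 h2).resolve_left hs.ne'), h4⟩
  null := by
    have hd : d < 1 + (r + d) := by omega
    have n1 := null_of_sub (F := (E × H) × ℝ) hX.sub hd (f := fun x => ((x, (0 : H)), (1 : ℝ)))
      fun x _ => (contDiff_id.prodMk contDiff_const).prodMk contDiff_const |>.contDiffAt
    have n2 := null_of_sub (F := (E × H) × ℝ) hX.sub hd (f := fun x => ((x, (0 : H)), (-1 : ℝ)))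
      fun x _ => (contDiff_id.prodMk contDiff_const).prodMk contDiff_const |>.contDiffAt
    refine measure_mono_null ?_ (measure_union_null n1 n2)
    rw [← image_union]
    refine image_mono ?_
    rintro ⟨⟨x, v⟩, t⟩ ⟨hz, hz2⟩
    obtain ⟨hx, hPv, hn⟩ := SB_iff.1 hz
    simp only at hx hPv hn
    have hn' : ‖v‖ ^ 2 + t * t = 1 := by rw [← real_inner_self_eq_norm_sq]; exact hn
    by_cases hv : v = 0
    · subst hv
      rw [norm_zero] at hn'
      have ht : t = 1 ∨ t = -1 := by
        have : (t - 1) * (t + 1) = 0 := by nlinarith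
        rcases mul_eq_zero.1 this with h | h
        · exact Or.inl (by linarith)
        · exact Or.inr (by linarith)
      rcases ht with rfl | rfl
      · exact Or.inl ⟨x, hx, rfl⟩
      · exact Or.inr ⟨x, hx, rfl⟩
    · exfalso
      apply hz2
      have hv0 : 0 < ‖v‖ := norm_pos_iff.2 hv
      have ht1 : -1 < t := by nlinarith
      have ht2 : t < 1 := by nlinarith
      have hπ := Real.pi_pos
      refine ⟨((x, ‖v‖⁻¹ • v), Real.arccos t / Real.pi), ⟨⟨⟨hx, ?_⟩, ?_⟩, ?_, ?_⟩, ?_⟩
      · show P x (‖v‖⁻¹ • v) = _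
        rw [map_smul, hPv]
      · show ‖‖v‖⁻¹ • v‖ = 1
        rw [norm_smul, norm_inv, norm_norm, inv_mul_cancel₀ hv0.ne']
      · exact div_pos (Real.arccos_pos.2 ht2) hπ
      · rw [div_lt_one hπ]
        exact lt_of_le_of_ne (Real.arccos_le_pi t) fun h => by
          have := Real.arccos_eq_pi.1 h
          linarith
      · have e1 : Real.pi * (Real.arccos t / Real.pi) = Real.arccos t := by
          field_simp
        show ((x, Real.sin (Real.pi * (Real.arccos t / Real.pi)) • ‖v‖⁻¹ • v),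
          Real.cos (Real.pi * (Real.arccos t / Real.pi))) = ((x, v), t)
        rw [e1, Real.cos_arccos ht1.le ht2.le, Real.sin_arccos, smul_smul]
        have e2 : Real.sqrt (1 - t ^ 2) = ‖v‖ := by
          rw [show 1 - t ^ 2 = ‖v‖ ^ 2 by nlinarith, Real.sqrt_sq hv0.le]
        rw [e2, mul_inv_cancel₀ hv0.ne', one_smul]

end Crest.Agent.R208.JV
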