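import Crest.Agent.R208.ZG11
import Crest.Agent.R208.JV1
import Crest.Agent.R208.FM1

/-!
R208, ZG12 (helper385): the half rotation over a fibre of `Sph (US G) PN` is a sweep of the
fibre of `US → F`.
-/

set_option autoImplicit false
set_option linter.unusedSectionVars false
set_option linter.unusedVariables false

open MeasureTheory MeasureTheory.Measure Set Filter Topology Module
open scoped ContDiff RealInnerProductSpace
open Crest.Agent.R208.F Crest.Agent.R208.FI Crest.Agent.R208.CW Crest.Agent.R208.T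
open Crest.Agent.R208.RR Crest.Agent.R208.SO

noncomputable section

namespace Crest.Agent.R208.ZG

open Crest.GeometryTopology.Submanifold
open Crest.Agent.R241.DDefs
open Crest.Agent.R241.D2
open Crest.Agent.R208.L (US)
open Crest.Agent.R208.NN (Wt Rt nuP)
open Crest.Agent.R208.RRC (Swp)

section gen
variable {E F : Type} [NormedAddCommGroup E] [NormedSpace ℝ E] [FiniteDimensional ℝ E]
  [NormedAddCommGroup F] [NormedSpace ℝ F] [FiniteDimensional ℝ F]
  {Z : Set E} {X : Set F} {m : ℕ} {H : E × ℝ → F} {Φ : F → E × ℝ}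

theorem fderiv_eq_Tan {f g : E → F} {x : E} (hf : DifferentiableAt ℝ f x)
    (hg : DifferentiableAt ℝ g x) (h : ∀ y ∈ Z, f y = g y) {w : E} (hw : w ∈ Tan Z x) :
    fderiv ℝ f x w = fderiv ℝ g x w := by
  refine Submodule.span_induction (p := fun w _ => fderiv ℝ f x w = fderiv ℝ g x w) ?_ ?_ ?_ ?_ hw
  · rintro w ⟨γ, rfl, hγ, hS⟩
    have h1 := hf.hasFDerivAt.comp_hasDerivAt 0 hγ
    have h2 := hg.hasFDerivAt.comp_hasDerivAt 0 hγ
    have h3 : (f ∘ γ) =ᶠ[𝓝 0] (g ∘ γ) := hS.mono fun t ht => h _ ht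
    exact (h1.congr_of_eventuallyEq h3.symm).unique h2
  · simp
  · intro a b _ _ ha hb; simp only [map_add, ha, hb]
  · intro r a _ ha; simp only [map_smul, ha]

/-- a sweep from a smooth left inverse -/
theorem swp_of_inv (cZ : Clo m Z) (cX : Clo (1 + m) X)
    (sH : ∀ z ∈ Z, ∀ t : ℝ, ContDiffAt ℝ ∞ H (z, t)) (mH : ∀ z ∈ Z, ∀ t : ℝ, H (z, t) ∈ X)
    (dΦ : ∀ z ∈ Z, ∀ t ∈ Ioo (0 : ℝ) 1, DifferentiableAt ℝ Φ (H (z, t)))
    (hΦ : ∀ z ∈ Z, ∀ t ∈ Ioo (0 : ℝ) 1, Φ (H (z, t)) = (z, t))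
    (null : μHE[1 + m] (TE F '' (X \ H '' (Z ×ˢ Ioo (0 : ℝ) 1))) = 0) : Swp m Z X H where
  cloZ := cZ
  cloX := cX
  sm := sH
  mem := mH
  inj := by
    intro z hz z' hz' t ht t' ht' h
    have h1 := hΦ z hz t ht
    rw [h, hΦ z' hz' t' ht'] at h1
    exact ⟨(congrArg Prod.fst h1).symm, (congrArg Prod.snd h1).symm⟩
  dinj := by
    intro z hz t ht w hw s h0
    have hd : DifferentiableAt ℝ H (z, t) := (sH z hz t).differentiableAt (by simp)
    have hc := (dΦ z hz t ht).hasFDerivAt.comp (z, t) hd.hasFDerivAt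
    -- the direction of `Z`
    have i1 : HasFDerivAt (fun z' : E => (z', t)) (ContinuousLinearMap.inl ℝ E ℝ) z := by
      exact hasFDerivAt_prodMk_left z t
    have i2 : HasFDerivAt (fun t' : ℝ => (z, t')) (ContinuousLinearMap.inr ℝ E ℝ) t := by
      exact hasFDerivAt_prodMk_right z t
    have c1 := HasFDerivAt.comp z (g := Φ ∘ H) hc i1
    have c2 := HasFDerivAt.comp t (g := Φ ∘ H) hc i2
    have e1 := fderiv_eq_Tan (Z := Z) c1.differentiableAt i1.differentiableAt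
      (fun y hy => hΦ y hy t ht) hw
    rw [c1.fderiv, i1.fderiv] at e1
    have e2 : ((Φ ∘ H) ∘ fun t' : ℝ => (z, t')) =ᶠ[𝓝 t] fun t' => (z, t') := by
      filter_upwards [isOpen_Ioo.mem_nhds ht] with t' ht'
      exact hΦ z hz t' ht'
    have e3 := congrArg (fun L : ℝ →L[ℝ] E × ℝ => L s) e2.fderiv_eq
    rw [c2.fderiv, i2.fderiv] at e3
    have e4 : (w, s) = (ContinuousLinearMap.inl ℝ E ℝ) w + (ContinuousLinearMap.inr ℝ E ℝ) s := by
      simp
    have e5 : ((0 : E), (0 : ℝ)) = (w, s) := by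
      rw [e4, ← e1, ← e3]
      change _ = (fderiv ℝ Φ (H (z, t))) (fderiv ℝ H (z, t) ((ContinuousLinearMap.inl ℝ E ℝ) w)) +
        (fderiv ℝ Φ (H (z, t))) (fderiv ℝ H (z, t) ((ContinuousLinearMap.inr ℝ E ℝ) s))
      rw [← map_add, ← map_add, ← e4, h0, map_zero]
      rfl
    exact ⟨(congrArg Prod.fst e5).symm, (congrArg Prod.snd e5).symm⟩
  null := null

end gen

section inst
open Crest.Agent.R208.NB Crest.Agent.R208.RK Crest.Agent.R208.FM

variable {n N k K : ℕ} {κ : ℝ} {S : Set (Euc N)} {G : Geo n N κ S} {z : Euc N × Euc N}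
  {δ : ℝ} {PN : Euc N × Euc N → Wt N K →L[ℝ] Wt N K}
  {x : (Euc N × Euc N) × Wt N K} {t : ℝ}

/-- the half rotation -/
def Hr (h : GT.Bla G k) (PN : Euc N × Euc N → Wt N K →L[ℝ] Wt N K)
    (y : ((Euc N × Euc N) × Wt N K) × ℝ) : Euc N × Euc N := (phiF h PN (Real.pi * y.2) y.1).1

theorem Hr_eq (h : GT.Bla G k) (x : (Euc N × Euc N) × Wt N K) (t : ℝ) :
    Hr h PN (x, t) = (x.1.1, Real.cos (Real.pi * t) • x.1.2 + Real.sin (Real.pi * t) • dir h PN x) :=
  rfl

/-- the direction part -/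
def br (z u : Euc N × Euc N) : Euc N := u.2 - ⟪z.2, u.2⟫ • z.2

/-- the inverse of the half rotation -/
def Hi (h : GT.Bla G k) (PN : Euc N × Euc N → Wt N K →L[ℝ] Wt N K) (z u : Euc N × Euc N) :
    ((Euc N × Euc N) × Wt N K) × ℝ :=
  ((z, (‖iO h PN z (br z u)‖⁻¹ : ℝ) • iO h PN z (br z u)), Real.arccos ⟪z.2, u.2⟫ / Real.pi)

variable (h : GT.Bla G k) (H : NegB G (k - 1) (nuP K) δ PN)

theorem smap_Hr (hkn : k < n) (H : NegB G (k - 1) (nuP K) δ PN) :
    SMap (Cyl (Sph (US G) PN)) (US G) (Hr h PN) := by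
  refine ⟨fun y hy => ?_, fun y hy => (rz_mem h H hkn (mem_Cyl.1 hy) _).1⟩
  have h1 := (contDiffAt_phiF h H hkn (mem_Cyl.1 hy) (Real.pi * y.2)).fst
  have h2 : ContDiffAt ℝ ∞ (fun y : ((Euc N × Euc N) × Wt N K) × ℝ =>
      ((Real.pi * y.2, y.1) : ℝ × ((Euc N × Euc N) × Wt N K))) y :=
    ((contDiff_const.mul contDiff_snd).prodMk contDiff_fst).contDiffAt
  exact ContDiffAt.comp (g := fun q : ℝ × ((Euc N × Euc N) × Wt N K) => (phiF h PN q.1 q.2).1) y
    h1 h2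

theorem Hr_mem (hkn : k < n) (H : NegB G (k - 1) (nuP K) δ PN)
    (hx : x ∈ Sph (US G) PN ∩ Prod.fst ⁻¹' {z}) (t : ℝ) : Hr h PN (x, t) ∈ JX.Fb G z := by
  have h1 := rz_mem h H hkn hx.1 (Real.pi * t)
  have h2 : x.1 = z := hx.2
  have hz : z ∈ US G := h2 ▸ hx.1.1.1
  refine ⟨h1.1, ?_⟩
  rw [mem_preimage, mem_singleton_iff]
  change FV.phi G (rz h PN (Real.pi * t) x) = _
  rw [← JX.ph_eq_phi h1.1, ← JX.ph_eq_phi hz]
  refine Prod.ext ?_ ?_
  · change x.1.1 = z.1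
    rw [h2]
  · change NN.qq G _ = NN.qq G z
    rw [h1.2, h2]

include H in
theorem inner_Hr (hkn : k < n) (hx : x ∈ Sph (US G) PN ∩ Prod.fst ⁻¹' {z}) (t : ℝ) :
    ⟪z.2, (Hr h PN (x, t)).2⟫ = Real.cos (Real.pi * t) := by
  have h2 : x.1 = z := hx.2
  have h3 := inner_comb h H hkn hx.1 1 0 (Real.cos (Real.pi * t)) (Real.sin (Real.pi * t))
  rw [one_smul, zero_smul, add_zero, h2] at h3
  rw [Hr_eq, h2, h3]
  ring

include H in
theorem br_Hr (hkn : k < n) (hx : x ∈ Sph (US G) PN ∩ Prod.fst ⁻¹' {z}) (t : ℝ) :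
    br z (Hr h PN (x, t)) = Real.sin (Real.pi * t) • dir h PN x := by
  have h2 : x.1 = z := hx.2
  rw [br, inner_Hr h H hkn hx, Hr_eq, h2, add_sub_cancel_left]

include H in
theorem Hi_Hr (hkn : k < n) (hx : x ∈ Sph (US G) PN ∩ Prod.fst ⁻¹' {z})
    (ht : t ∈ Ioo (0 : ℝ) 1) : Hi h PN z (Hr h PN (x, t)) = (x, t) ∧
      iO h PN z (br z (Hr h PN (x, t))) ≠ 0 := by
  have hπ := Real.pi_pos
  have h2 : x.1 = z := hx.2
  have hz : z ∈ US G := h2 ▸ hx.1.1.1
  have hx2 : PN z x.2 = x.2 := by rw [← h2]; exact hx.1.1.2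
  have hx0 : x.2 ≠ 0 := ne_zero_of hx.1
  have hi := isoR h H hkn hz
  have w1 : wL h (nuP K) PN z x.2 ≠ 0 := wL_ne h H hkn hz hx2 hx0
  have hs : 0 < Real.sin (Real.pi * t) :=
    Real.sin_pos_of_pos_of_lt_pi (mul_pos hπ ht.1) (by nlinarith [ht.2])
  have e1 : iO h PN z (br z (Hr h PN (x, t))) =
      (Real.sin (Real.pi * t) * ‖wL h (nuP K) PN z x.2‖⁻¹) • x.2 := by
    rw [br_Hr h H hkn hx, map_smul]
    have e2 : dir h PN x = (‖wL h (nuP K) PN z x.2‖⁻¹ : ℝ) • wL h (nuP K) PN z x.2 := by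
      rw [dir, h2]
    rw [e2, map_smul, smul_smul]
    congr 1
    exact hi.inv_apply hx2
  have hc : 0 < Real.sin (Real.pi * t) * ‖wL h (nuP K) PN z x.2‖⁻¹ :=
    mul_pos hs (inv_pos.2 (norm_pos_iff.2 w1))
  have hne : iO h PN z (br z (Hr h PN (x, t))) ≠ 0 := by
    rw [e1]; exact smul_ne_zero hc.ne' hx0
  refine ⟨?_, hne⟩
  have hn : ‖x.2‖ = 1 := hx.1.2
  rw [Hi, e1, norm_smul, hn, mul_one, Real.norm_of_nonneg hc.le, smul_smul, inv_mul_cancel₀ hc.ne',
    one_smul, inner_Hr h H hkn hx, Real.arccos_cos (mul_pos hπ ht.1).le (by nlinarith [ht.2]),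
    mul_div_cancel_left₀ _ hπ.ne']
  rw [← h2]

theorem contDiffAt_Hi {u : Euc N × Euc N} (h0 : iO h PN z (br z u) ≠ 0)
    (h1 : ⟪z.2, u.2⟫ ≠ (1 : ℝ)) (h2 : ⟪z.2, u.2⟫ ≠ (-1 : ℝ)) : ContDiffAt ℝ ∞ (Hi h PN z) u := by
  have a1 : ContDiff ℝ ∞ (fun u : Euc N × Euc N => ⟪z.2, u.2⟫) :=
    contDiff_const.inner ℝ contDiff_snd
  have a2 : ContDiff ℝ ∞ (br z) := contDiff_snd.sub (a1.smul contDiff_const)
  have a3 : ContDiff ℝ ∞ (fun u => iO h PN z (br z u)) := (iO h PN z).contDiff.comp a2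
  have a4 : ContDiffAt ℝ ∞ (fun u => ‖iO h PN z (br z u)‖⁻¹) u :=
    (a3.contDiffAt.norm ℝ h0).inv (norm_ne_zero_iff.2 h0)
  have a5 : ContDiffAt ℝ ∞ (fun u : Euc N × Euc N => Real.arccos ⟪z.2, u.2⟫) u :=
    ContDiffAt.comp (g := Real.arccos) (f := fun u : Euc N × Euc N => ⟪z.2, u.2⟫) u
      (Real.contDiffAt_arccos h2 h1) a1.contDiffAt
  exact (contDiffAt_const.prodMk (a4.smul a3.contDiffAt)).prodMk (a5.div_const _)

/-- **the half rotation is a sweep** -/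
theorem swp_Hr (hk : 2 ≤ k) (hkn : k < n) (hz : z ∈ US G) (H : NegB G (k - 1) (nuP K) δ PN) :
    Swp (k - 2) (Sph (US G) PN ∩ Prod.fst ⁻¹' {z}) (JX.Fb G z) (Hr h PN) := by
  have hπ := Real.pi_pos
  have hpf : PField (US G) (k - 2 + 1) PN := by
    have h1 := H.pfield
    rwa [show k - 1 = k - 2 + 1 by omega] at h1
  refine swp_of_inv (HN.clo_fib hpf hz) ?_ (fun x hx t => (smap_Hr h hkn H).smooth _
    (mem_Cyl.2 hx.1)) (fun x hx t => Hr_mem h hkn H hx t) (Φ := Hi h PN z) (fun x hx t ht => ?_)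
    (fun x hx t ht => (Hi_Hr h H hkn hx ht).1) ?_
  · rw [show 1 + (k - 2) = k - 1 by omega]
    exact JX.clo_Fb h hk z
  · refine (contDiffAt_Hi h (Hi_Hr h H hkn hx ht).2 ?_ ?_).differentiableAt (by simp)
    · rw [inner_Hr h H hkn hx]
      have := Real.cos_lt_cos_of_nonneg_of_le_pi le_rfl (by nlinarith [ht.2] : Real.pi * t ≤ Real.pi)
        (mul_pos hπ ht.1)
      rw [Real.cos_zero] at this
      exact this.ne
    · rw [inner_Hr h H hkn hx]
      have := Real.cos_lt_cos_of_nonneg_of_le_pi (mul_pos hπ ht.1).le le_rfl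
        (by nlinarith [ht.2] : Real.pi * t < Real.pi)
      rw [Real.cos_pi] at this
      exact this.ne'
  · have hd : 0 < 1 + (k - 2) := by omega
    have n1 := JV.null_of_sub (F := Euc N × Euc N) (X := {z}) (T.sub_point z) hd
      (f := fun y => y) fun y _ => contDiffAt_id
    have n2 := JV.null_of_sub (F := Euc N × Euc N) (X := {z}) (T.sub_point z) hd
      (f := fun y => (y.1, -y.2)) fun y _ => (contDiff_fst.prodMk contDiff_snd.neg).contDiffAt
    refine measure_mono_null ?_ (measure_union_null n1 n2)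
    rw [← image_union]
    refine image_mono ?_
    rintro u ⟨⟨hu, hu2⟩, hu3⟩
    by_contra hcon
    simp only [image_singleton, mem_union, mem_singleton_iff, not_or] at hcon
    have q1 : NB.ph G u = NB.ph G z := by
      rw [JX.ph_eq_phi hu, JX.ph_eq_phi hz]; exact hu2
    have u1 : u.1 = z.1 := by
      have e := congrArg Prod.fst q1
      exact e
    have q2 : NN.qq G u = NN.qq G z := by
      have e := congrArg Prod.snd q1
      exact e
    have z2 : ‖z.2‖ = 1 := hz.2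
    have u2 : ‖u.2‖ = 1 := hu.2
    have hne1 : u.2 ≠ z.2 := fun e => hcon.1 (Prod.ext u1 e)
    have hne2 : u.2 ≠ -z.2 := fun e => hcon.2 (Prod.ext u1 e)
    set a : ℝ := ⟪z.2, u.2⟫ with ha
    have mz : z.2 ∈ GT.Vs G z.1 (NN.qq G z) := NN.mem_Vs hz
    have mu : u.2 ∈ GT.Vs G z.1 (NN.qq G z) := by
      have := NN.mem_Vs hu
      change u.2 ∈ GT.Vs G u.1 (NN.qq G u) at this
      rwa [q2, u1] at this
    have hzz : ⟪z.2, z.2⟫ = (1 : ℝ) := by rw [real_inner_self_eq_norm_sq, z2]; norm_num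
    have huu : ⟪u.2, u.2⟫ = (1 : ℝ) := by rw [real_inner_self_eq_norm_sq, u2]; norm_num
    have b0 : br z u ∈ NN.V0 G z := by
      refine NN.mem_V0.2 ⟨Submodule.sub_mem _ mu (Submodule.smul_mem _ _ mz), ?_⟩
      rw [br, inner_sub_left, real_inner_smul_left, hzz, mul_one, real_inner_comm, sub_self]
    have bn : ‖br z u‖ ^ 2 = 1 - a ^ 2 := by
      rw [← real_inner_self_eq_norm_sq, br, inner_sub_left, inner_sub_right, inner_sub_right,
        real_inner_smul_left, real_inner_smul_left, real_inner_smul_right, real_inner_smul_right,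
        hzz, huu, real_inner_comm z.2 u.2, ← ha]
      ring
    have bne : br z u ≠ 0 := by
      intro e
      rw [e, norm_zero] at bn
      have e2 : (a - 1) * (a + 1) = 0 := by nlinarith
      have e3 : u.2 = a • z.2 := sub_eq_zero.1 e
      rcases mul_eq_zero.1 e2 with e4 | e4
      · rw [sub_eq_zero.1 e4, one_smul] at e3; exact hne1 e3
      · rw [eq_neg_of_add_eq_zero_left e4, neg_smul, one_smul] at e3; exact hne2 e3
    have bpos : 0 < ‖br z u‖ := norm_pos_iff.2 bne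
    have a2 : a ^ 2 < 1 := by nlinarith [sq_pos_of_pos bpos]
    have hi := isoR h H hkn hz
    set y := iO h PN z (br z u) with hy
    have Ly : wL h (nuP K) PN z y = br z u := by
      have := hi.l_inv (br z u)
      rwa [(V0s_eq_self h hz _).2 b0] at this
    have Py : PN z y = y := hi.p_inv _
    have y0 : y ≠ 0 := by
      intro e
      rw [e, map_zero] at Ly
      exact bne Ly.symm
    have ypos : 0 < ‖y‖ := norm_pos_iff.2 y0
    have amem : -1 < a ∧ a < 1 := abs_lt.1 (by nlinarith [abs_nonneg a, sq_abs a])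
    refine hu3 ⟨((z, (‖y‖⁻¹ : ℝ) • y), Real.arccos a / Real.pi), ⟨⟨⟨⟨hz, ?_⟩, ?_⟩, rfl⟩, ?_, ?_⟩, ?_⟩
    · change PN z ((‖y‖⁻¹ : ℝ) • y) = _
      rw [map_smul, Py]
    · change ‖(‖y‖⁻¹ : ℝ) • y‖ = 1
      rw [norm_smul, norm_inv, norm_norm, inv_mul_cancel₀ ypos.ne']
    · exact div_pos (Real.arccos_pos.2 amem.2) hπ
    · change Real.arccos a / Real.pi < 1
      rw [div_lt_one hπ]
      exact (Real.arccos_le_pi a).lt_of_ne fun e => by
        rw [Real.arccos_eq_pi] at e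
        linarith [amem.1]
    · rw [Hr_eq, mul_div_cancel₀ _ hπ.ne', Real.cos_arccos amem.1.le amem.2.le, Real.sin_arccos,
        dir_smul h (inv_pos.2 ypos)]
      have e5 : dir h PN (z, y) = (‖br z u‖⁻¹ : ℝ) • br z u := by
        change (‖wL h (nuP K) PN z y‖⁻¹ : ℝ) • wL h (nuP K) PN z y = _
        rw [Ly]
      have e6 : Real.sqrt (1 - a ^ 2) = ‖br z u‖ := by
        rw [← bn, Real.sqrt_sq bpos.le]
      rw [e5, e6, smul_smul, mul_inv_cancel₀ bpos.ne', one_smul]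
      refine Prod.ext u1.symm ?_
      change a • z.2 + br z u = u.2
      rw [br, add_sub_cancel]

/-- **(S)**: the value of the half rotation -/
theorem abs_Hr (hk : 3 ≤ k) (hkn : k < n) (hz : z ∈ US G) (H : NegB G (k - 1) (nuP K) δ PN)
    {kap : Euc N × Euc N → Ext (Euc N × Euc N)} (skap : Sm (US G) kap)
    {oF : (Euc N × Euc N) × Wt N K → Ext ((Euc N × Euc N) × Wt N K)}
    {oW : Euc N × Euc N → Ext (Euc N × Euc N)}
    (hoF : Ori (k - 2) (Sph (US G) PN ∩ Prod.fst ⁻¹' {z}) oF)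
    (hoW : Ori (k - 1) (JX.Fb G z) oW) :
    |J (k - 2) (Sph (US G) PN ∩ Prod.fst ⁻¹' {z}) oF
      (RR.K (E := (Euc N × Euc N) × Wt N K) (F.pull (Hr h PN) kap))| =
      |J (k - 1) (JX.Fb G z) oW kap| := by
  have hpf : PField (US G) (k - 2 + 1) PN := by
    have h1 := H.pfield
    rwa [show k - 1 = k - 2 + 1 by omega] at h1
  have hs := swp_Hr h (by omega) hkn hz H
  have hoW' : Ori (1 + (k - 2)) (JX.Fb G z) oW := by
    rw [show 1 + (k - 2) = k - 1 by omega]; exact hoW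
  have h1 := hs.J_eq hoW' (w := kap) fun u hu => (skap u hu.1).continuousAt.continuousWithinAt
  have h2 := hs.ori hoW'
  rw [show 1 + (k - 2) = k - 1 by omega] at h1
  rw [← h1]
  exact abs_J_ori (HN.clo_fib hpf hz) (preconn_fib_Sph hpf (by omega) hz) h2 hoF _

end inst

end Crest.Agent.R208.ZG
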