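import Crest.Agent.R208.CG14
import Crest.Agent.R208.KP6
import Crest.Agent.R208.ZG12
import Crest.Agent.R208.KX8

/-! Row 208, block RR / VE (helper99), part CG12: **(C)** for every even `k ≥ 4` and **(L7)**, without
hypotheses, for the form `x` of `T.XM`. -/

set_option autoImplicit false
set_option linter.unusedSectionVars false
set_option linter.unusedVariables false

open MeasureTheory Set Filter Topology Module
open scoped ContDiff RealInnerProductSpace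
open Crest.GeometryTopology.Submanifold
open Crest.Agent.R241.DDefs
open Crest.Agent.R241.D2
open Crest.Agent.R208.GT
open Crest.Agent.R208.F Crest.Agent.R208.FI Crest.Agent.R208.CW Crest.Agent.R208.T
open Crest.Agent.R208.CM (Cir gen Rep Triv phR Th Qd)
open Crest.Agent.R208.FL (D1 Ph f1 Af)
open Crest.Agent.R208.NN (Wt nuP Rt)

noncomputable section

namespace Crest.Agent.R208.CG

section
variable {n N K k m r : ℕ} {κ : ℝ} {S : Set (Euc N)} {G : Geo n N κ S}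
  {lg : Euc N → Euc N → Euc N} {ρ : Euc N → Euc N} {r₀ C r' Kr B w δ : ℝ}
  {PN : Euc N × Euc N → Wt N K →L[ℝ] Wt N K} {ε E₀ η : ℝ} {J₀ : ℕ} {p₀ : Euc N}
  {x : Euc N → Ext (Euc N)} {ι : Type} [Fintype ι] [DecidableEq ι]
  {W₀ : Euc N × Euc N → (ι × Fin 2 → Fin N) → ℝ}
  {z : Euc N × Euc N} {oF : (Euc N × Euc N) × Wt N K → Ext ((Euc N × Euc N) × Wt N K)}

/-- **(C)** for every even `k ≥ 4` -/
theorem C_gen (h : GT.Bla G k) (H : NB.NegB G (k - 1) (nuP K) δ PN) (hk : Even k) (h4 : 4 ≤ k)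
    (hkn : k < n) {kap : Euc N × Euc N → Ext (Euc N × Euc N)} (sk : Sm (L.US G) kap)
    (hz : z ∈ L.US G)
    (hF : Ori (k - 2) (T.Sph (L.US G) PN ∩ (Prod.fst : (Euc N × Euc N) × Wt N K → Euc N × Euc N) ⁻¹' {z}) oF)
    {oW : Euc N × Euc N → Ext (Euc N × Euc N)} (hW : Ori (k - 1) (JX.Fb G z) oW) :
    |FI.J (k - 2) (T.Sph (L.US G) PN ∩ Prod.fst ⁻¹' {z}) oF
      (RR.Wp (FM.phiF h PN) (F.pull (Prod.fst : (Euc N × Euc N) × Wt N K → Euc N × Euc N) kap))| =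
      2 * |FI.J (k - 1) (JX.Fb G z) oW kap| := by
  rw [KP.abs_two_half h H hk h4 hkn sk hz hF]
  congr 1
  exact ZG.abs_Hr h (by omega) hkn hz H sk hF hW

/-- (C) for the period of `x` -/
theorem hC (h : GT.Bla G k) (D : T.XM h m W₀ p₀ x) (h4 : 4 ≤ k)
    (H : NB.NegB G (k - 1) (nuP K) δ PN) (hz : z ∈ L.US G)
    (hF : Ori (k - 2) (T.Sph (L.US G) PN ∩ (Prod.fst : (Euc N × Euc N) × Wt N K → Euc N × Euc N) ⁻¹' {z}) oF) :
    |FI.J (k - 2) (T.Sph (L.US G) PN ∩ Prod.fst ⁻¹' {z}) oF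
      (RR.Wp (FM.phiF h PN) (F.pull (Prod.fst : (Euc N × Euc N) × Wt N K → Euc N × Euc N)
        (RR.K (F.pull (RRC.EE G) x))))| = 2 * XF.tau ι := by
  obtain ⟨oW, hW⟩ := ZG.exists_ori_Fb h D.hk D.hkn hz
  rw [C_gen h H D.hke h4 D.hkn (RR.Sm.K (D.sx.pull smap_EE)) hz hF hW, KX.valF D hz hW]

/-- **(L7)** -/
theorem L7 (hD : D1 G k K lg ρ r₀ C r' Kr B w δ PN ε J₀ E₀ η) (D : T.XM hD.bla m W₀ p₀ x)
    (h4 : 4 ≤ k) (hz : z ∈ L.US G)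
    (hF : Ori (k - 2) (T.Sph (L.US G) PN ∩ (Prod.fst : (Euc N × Euc N) × Wt N K → Euc N × Euc N) ⁻¹' {z}) oF) :
    |FI.J (k - 2) (T.Sph (L.US G) PN ∩ Prod.fst ⁻¹' {z}) oF
      (RR.Wp (Ph G K) (RR.K (E := (Euc N × Euc N) × Wt N K) (F.pull (Af G lg ρ w J₀ ε) x)))| =
      XF.tau ι :=
  L7_of hD D.hke h4 D.hkn D.sx D.cx hz hF (hC hD.bla D h4 hD.neg hz hF)

/-- (L7) for the ray integral of `xi` -/
theorem L7x (hD : D1 G k K lg ρ r₀ C r' Kr B w δ PN ε J₀ E₀ η) (D : T.XM hD.bla m W₀ p₀ x)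
    (h4 : 4 ≤ k) (hz : z ∈ L.US G)
    (hF : Ori (k - 2) (T.Sph (L.US G) PN ∩ (Prod.fst : (Euc N × Euc N) × Wt N K → Euc N × Euc N) ⁻¹' {z}) oF) :
    2 * Real.pi * |FI.J (k - 2) (T.Sph (L.US G) PN ∩ Prod.fst ⁻¹' {z}) oF
      (RR.K (E := (Euc N × Euc N) × Wt N K)
        (F.pull (rs (N := N) (K := K)) (VC.xi (Ph G K) (F.pull (f1 G lg ρ w J₀ ε) x))))| =
      XF.tau ι :=
  L7_xi hD D.hke h4 D.hkn D.sx D.cx hz hF (hC hD.bla D h4 hD.neg hz hF)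

end

section inst
variable {n N K k m r : ℕ} {κ : ℝ} {S : Set (Euc N)} {G : Geo n N κ S}
  {lg : Euc N → Euc N → Euc N} {ρ : Euc N → Euc N} {r₀ C r' Kr B w δ : ℝ}
  {PN : Euc N × Euc N → Wt N K →L[ℝ] Wt N K} {ε E₀ η : ℝ} {J₀ : ℕ} {om : Euc N → Ext (Euc N)}
  {z : Euc N × Euc N} {E' p ι ι' : Type} [NormedAddCommGroup E'] [NormedSpace ℝ E']
  [FiniteDimensional ℝ E'] [Fintype p] [DecidableEq p] [Fintype ι] [DecidableEq ι] [Fintype ι']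
  [DecidableEq ι'] [Nonempty ι'] {W₀ : Euc N × Euc N → (ι × Fin 2 → Fin N) → ℝ} {p₀ : Euc N}
  {Y : Set E'} {q : Euc N × Euc N → E'} {T : Euc N × Euc N → Wt N K →L[ℝ] EuclideanSpace ℝ p}
  {P' : E' → EuclideanSpace ℝ p →L[ℝ] EuclideanSpace ℝ p} {d d' : ℕ}
  {θ0 : Euc N × Euc N → Ext (Euc N × Euc N)} {oP' : E' → Ext (EuclideanSpace ℝ p)}
  {e : E' → Ext E'} {ρ₁ R₂ c : ℝ} {ξ a Q Ψ : E' × EuclideanSpace ℝ p →
    Ext (E' × EuclideanSpace ℝ p)}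

/-- **the number of the evaluation**: `|c| = k / 2` -/
theorem c_val (hD : D1 G k K lg ρ r₀ C r' Kr B w δ PN ε J₀ E₀ η) (M : Crest.Agent.R208.T.XM hD.bla m W₀ p₀ om)
    (hrk : r + 2 = k) (h4 : 4 ≤ k)
    (h : VE.St (L.US G) Y (CM.gf G) q (fun s => Rt (nuP K) s) T PN P' (r + 1) d d' S om θ0 e
      (f1 G lg ρ w J₀ ε) ρ₁)
    (D : VE.Dn (L.US G) (CM.gf G) q (fun s => Rt (nuP K) s) T PN om θ0 (f1 G lg ρ w J₀ ε) ξ a Q)
    (hd : ∀ z ∈ L.US G, P' (q z) = Qd T PN z) (hz : z ∈ L.US G)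
    (ob : SB.OddB ι' Y r P' oP')
    {Wf : E' × EuclideanSpace ℝ p → Ext (E' × EuclideanSpace ℝ p)}
    (hW : Wf = SB.OddB.eV ι' ob.hr P' oP')
    (sΨ : Sm (Tot Y P') Ψ) (dΨ : Eqv (Tot Y P') ξ (F.d Ψ)) (sW : Sm (Sph Y P') Wf)
    (out : Eqv (Tot Y P' ∩ {z | R₂ < ‖z.2‖}) Ψ (c • rx Wf))
    (hρ : ρ₁ < 2) :
    |c| = (Fintype.card ι' + 1 : ℝ) := by
  obtain rfl := hrk
  exact abs_c_val hD M.hke rfl h4 M.hkn h D hd hz ob hW sΨ dΨ sW out hρ M.hι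
    fun oF hF => hC hD.bla M h4 hD.neg hz hF

end inst

end Crest.Agent.R208.CG
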