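import Crest.Agent.R208.VE9

/-! Row 208, block VE (helper812).  VE10: existence of the primitive `Ψ` and of the input `Inp` of the
evaluation theorem over the quotient. -/

set_option autoImplicit false
set_option linter.unusedSectionVars false
set_option linter.unusedVariables false

open MeasureTheory Set Filter Topology Module
open scoped ContDiff
open Crest.Agent.R208.F Crest.Agent.R208.FI Crest.Agent.R208.CW Crest.Agent.R208.T
open Crest.Agent.R208.CM (Cir gen Rep Triv phR Th)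
open Crest.Agent.R208.VC
open Crest.Agent.R208.EX (Cn)
open Crest.Agent.R208.TP (QM)

noncomputable section

namespace Crest.Agent.R208.VE

section par
variable {E : Type*} [NormedAddCommGroup E] [NormedSpace ℝ E] [FiniteDimensional ℝ E]
  {X : Set E} {a b o η : E → Ext E}

theorem Ev.d (h : Ev a) : Od (F.d a) := fun x => by
  by_cases hd : DifferentiableAt ℝ a x
  · have h1 := d_inv hd
    have h2 : (fun y => F.inv (a y)) = a := funext h
    rw [h2] at h1
    have h3 := congrArg Neg.neg h1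
    rw [neg_neg] at h3
    exact h3.symm
  · rw [F.d, fderiv_zero_of_not_differentiableAt hd]
    simp

theorem Od.sub (h : Od a) (h' : Od b) : Od (a - b) := fun x => by
  rw [Pi.sub_apply, map_sub, h x, h' x]; abel

theorem Od.smul (c : ℝ) (h : Od a) : Od (c • a) := fun x => by
  rw [Pi.smul_apply, map_smul, h x, smul_neg]

theorem ev_part (η : E → Ext E) : Ev ((1 / 2 : ℝ) • (η + iv η)) := fun x => by
  change F.inv ((1 / 2 : ℝ) • (η x + F.inv (η x))) = (1 / 2 : ℝ) • (η x + F.inv (η x))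
  rw [map_smul, map_add, F.inv_inv, add_comm]

/-- the even part of a primitive of an odd form is a primitive -/
theorem d_ev_part (hη : Sm X η) (ho : Od o) (h : Eqv X o (F.d η)) :
    Eqv X o (F.d ((1 / 2 : ℝ) • (η + iv η))) := by
  have h1 : Eqv X (F.d (η + iv η)) (F.d η - iv (F.d η)) := by
    refine (d_add_eqv hη (VE.Sm.iv hη)).trans ?_
    rw [sub_eq_add_neg]
    exact (Eqv.refl _).add (d_iv hη)
  have h2 : Eqv X (F.d η - iv (F.d η)) (o - iv o) := h.symm.sub (VE.Eqv.iv h).symm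
  have h3 := ((h1.trans h2).smul (1 / 2 : ℝ))
  refine Eqv.symm (((d_smul_eqv _ (hη.add (VE.Sm.iv hη))).trans h3).trans (Eqv.of_eq fun x _ => ?_))
  change (1 / 2 : ℝ) • (o x - F.inv (o x)) = o x
  rw [ho x, sub_neg_eq_add, ← two_smul ℝ (o x), smul_smul]
  norm_num

end par

section
variable {E H : Type} [NormedAddCommGroup E] [NormedSpace ℝ E] [FiniteDimensional ℝ E]
  [NormedAddCommGroup H] [InnerProductSpace ℝ H] [FiniteDimensional ℝ H]
  [MeasurableSpace H] [BorelSpace H] (μ : Measure H) [μ.IsAddHaarMeasure]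
  {X : Set E} {P : E → H →L[ℝ] H} {r d : ℕ} {R R' R₁ c w₀ : ℝ} {e p3 : E → Ext E}
  {τ' W ξ : E × H → Ext (E × H)}

theorem ev_rx (h : Ev W) : Ev (rx W) := fun z => by
  have h1 : F.inv (F.pull rh W z) = F.pull rh W z := by rw [F.pull, ← pb_inv, h]
  rw [rx, map_smul, h1]

/-- `τ = d (rx W)` is a Thom form in odd rank -/
theorem th1_drx (hX : Sub d X) (hR : 1 ≤ R) (hP : PField X r P) (hC : Co X P R₁ τ')
    (sW : Sm (Sph X P) W) (cW : Cl (Sph X P) W) (eW : Ev W) (hw : w₀ ≠ 0)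
    (W0 : Coh X (de μ P τ' R W) (w₀ • (1 : E → Ext E))) :
    Th1 μ X P τ' R w₀ (F.d (rx W)) where
  sm := (T.Sm.rx sW).d
  cl := d_d' (T.Sm.rx sW)
  cs := (cs_drx sW cW).mono hR
  od := Ev.d (ev_rx eW)
  one := W0
  ne := hw

/-- `de` does not depend on the radius -/
theorem de_radius (hX : Sub d X) (hR : 1 ≤ R) (hRR : R ≤ R') (hP : PField X r P)
    (hC : Co X P R₁ τ') (sW : Sm (Sph X P) W) (cW : Cl (Sph X P) W) :
    Eqv X (de μ P τ' R W) (de μ P τ' R' W) :=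
  pu_radius μ (zero_le_one.trans hR) hP hC hRR (T.Sm.rx sW).d ((cs_drx sW cW).mono hR)

/-- **the primitive `Ψ`** -/
theorem exists_Psi (hX : Sub d X) (hR : 1 ≤ R) (hP : PField X r P) (hC : Co X P R₁ τ')
    (sW : Sm (Sph X P) W) (cW : Cl (Sph X P) W) (eW : Ev W) (hw : w₀ ≠ 0)
    (W0 : Coh X (de μ P τ' R W) (w₀ • (1 : E → Ext E)))
    (sx : Sm (Tot X P) ξ) (clx : Cl (Tot X P) ξ) (ox : Od ξ) (cx : Cs X P R ξ)
    (hc : Coh X (pu μ P τ' R ξ) ((c * w₀) • (1 : E → Ext E))) :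
    ∃ R₂, R ≤ R₂ ∧ ∃ Ψ : E × H → Ext (E × H), Sm (Tot X P) Ψ ∧ Ev Ψ ∧
      Eqv (Tot X P) ξ (F.d Ψ) ∧ Eqv (Tot X P ∩ {z | R₂ < ‖z.2‖}) Ψ (c • rx W) := by
  have hR0 : 0 ≤ R := zero_le_one.trans hR
  set τ : E × H → Ext (E × H) := F.d (rx W) with hτ
  have hT := th1_drx μ hX hR hP hC sW cW eW hw W0
  set o : E × H → Ext (E × H) := ξ - c • τ with ho
  have so : Sm (Tot X P) o := sx.sub (hT.sm.smul c)
  have co : Cl (Tot X P) o := Cl.sub sx (hT.sm.smul c) clx (Cl.smul c hT.sm hT.cl)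
  have ko : Cs X P R o := cx.sub (hT.cs.smul c)
  have oo : Od o := Od.sub ox (Od.smul c hT.od)
  have h0 : Coh X (pu μ P τ' R o) 0 := by
    have h1 := pu_sub μ hR0 hP hC sx (hT.sm.smul c)
    rw [pu_smul μ hR0 hP hC] at h1
    have h2 := hc.sub (hT.one.smul c)
    rw [smul_smul, sub_self] at h2
    exact (Coh.of_eqv h1).trans h2
  obtain ⟨R₃, hR₃, η, sη, vη, eη⟩ := thom_inj_odd μ hX hP hC hR0 hT so co ko h0
  set η' : E × H → Ext (E × H) := (1 / 2 : ℝ) • (η + iv η) with hη'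
  have sη' : Sm (Tot X P) η' := (sη.add (VE.Sm.iv sη)).smul _
  have eη' : Eqv (Tot X P) o (F.d η') := d_ev_part sη oo eη
  have srx : Sm (Tot X P) (rx W) := T.Sm.rx sW
  refine ⟨max R R₃, le_max_left _ _, c • rx W + η', (srx.smul c).add sη',
    ((ev_rx eW).smul c).add (ev_part η), ?_, ?_⟩
  · have h1 := (d_add_eqv (srx.smul c) sη').trans ((d_smul_eqv c srx).add eη'.symm)
    refine Eqv.symm (h1.trans ?_)
    rw [ho, add_sub_cancel]
    exact Eqv.refl _
  · refine Eqv.of_eq fun z hz => ?_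
    have h1 : η z = 0 := vη z (lt_of_le_of_lt (le_max_right _ _) hz.2)
    have h2 : η' z = 0 := by
      change (1 / 2 : ℝ) • (η z + F.inv (η z)) = 0
      rw [h1, map_zero, add_zero, smul_zero]
    rw [Pi.add_apply, h2, add_zero]

end

section inp
variable {E E' W V F' : Type} [NormedAddCommGroup E] [NormedSpace ℝ E] [FiniteDimensional ℝ E]
  [NormedAddCommGroup E'] [NormedSpace ℝ E'] [FiniteDimensional ℝ E']
  [NormedAddCommGroup W] [InnerProductSpace ℝ W] [FiniteDimensional ℝ W]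
  [NormedAddCommGroup V] [InnerProductSpace ℝ V] [FiniteDimensional ℝ V]
  [NormedAddCommGroup F'] [NormedSpace ℝ F'] [FiniteDimensional ℝ F']
  [MeasurableSpace V] [BorelSpace V] (μ : Measure V) [μ.IsAddHaarMeasure]
  {X : Set E} {Y : Set E'} {φ : ℝ → E → E} {q : E → E'} {R : ℝ → W →L[ℝ] W}
  {T : E → W →L[ℝ] V} {P : E → W →L[ℝ] W} {P' : E' → V →L[ℝ] V} {r d d' : ℕ} {S : Set F'}
  {om : F' → Ext F'} {θ0 : E → Ext E} {e p3 : E' → Ext E'} {f1 : E × W → F'} {ρ R₀ R₁ c w₀ : ℝ}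
  {ξ a Q τ' w : E' × V → Ext (E' × V)}

/-- **the input of the evaluation theorem over the quotient** -/
theorem exists_Inp (h : St X Y φ q R T P P' r d d' S om θ0 e f1 ρ)
    (D : Dn X φ q R T P om θ0 f1 ξ a Q) (hC : Co Y P' R₁ τ') (hR : 1 ≤ R₀) (hρ : ρ ≤ R₀)
    (sp : Sm Y p3) (cp : Cl Y p3) (ep : Ev p3)
    (sW : Sm (Sph Y P') w) (cW : Cl (Sph Y P') w) (eW : Ev w)
    (W2 : Coh (Sph Y P') (w * w) (pf p3)) (hw : w₀ ≠ 0)
    (W0 : Coh Y (de μ P' τ' R₀ w) (w₀ • (1 : E' → Ext E')))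
    (hc : Coh Y (pu μ P' τ' R₀ ξ) ((c * w₀) • (1 : E' → Ext E'))) :
    ∃ R₂, R₀ ≤ R₂ ∧ ∃ Ψ : E' × V → Ext (E' × V),
      Inp μ d' r Y P' τ' R₁ R₂ e p3 w ξ a Q Ψ c w₀ := by
  obtain ⟨R₂, hR₂, Ψ, sΨ, eΨ, dΨ, oΨ⟩ := exists_Psi μ h.hY hR h.hP' hC sW cW eW hw W0 D.smx
    (D.cl_x h) D.ox ((D.cs_x h).mono hρ) hc
  refine ⟨R₂, hR₂, Ψ, ?_⟩
  exact
    { hX := h.hY
      hP := h.hP'
      hC := hC
      hR := hR.trans hR₂
      se := h.se
      ce := h.ce
      ee := h.ee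
      sp := sp
      cp := cp
      ep := ep
      sW := sW
      cW := cW
      eW := eW
      W2 := W2
      W0 := (Coh.of_eqv (de_radius μ h.hY hR hR₂ h.hP' hC sW cW).symm).trans W0
      sx := D.smx
      sa := D.sma
      sQ := D.smQ
      sΨ := sΨ
      ea := D.ea
      eΨ := eΨ
      dΨ := dΨ
      out := oΨ
      cx := (D.cs_x h).mono (hρ.trans hR₂)
      da := D.d_a h
      dQ := D.d_Q h
      cQ := (D.cs_Q h).mono (hρ.trans hR₂) }

end inp

end Crest.Agent.R208.VE
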