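import Crest.Agent.R208.CG11
import Crest.Agent.R208.VE10

/-! Row 208, block RR / VE (helper99), part CG13: the fibre integral of the ray integral of a form
`ξ = dΨ` with `Ψ = c • rx W` outside, and of `xi (f1^* om)`. -/

set_option autoImplicit false
set_option linter.unusedSectionVars false
set_option linter.unusedVariables false

open MeasureTheory Set Filter Topology Module
open scoped ContDiff RealInnerProductSpace
open Crest.Agent.R208.F Crest.Agent.R208.FI Crest.Agent.R208.CW Crest.Agent.R208.T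
open Crest.Agent.R208.CM (Cir gen Rep Triv phR Th Qd)
open Crest.Agent.R208.TP (QM)
open Crest.Agent.R208.RR (Cyl mem_Cyl sl smap_sl K_eqv K_eqv0 J_eqv J_smul' J_sub' J_d')

noncomputable section

namespace Crest.Agent.R208.CG

section ray
variable {E H : Type} [NormedAddCommGroup E] [NormedSpace ℝ E] [FiniteDimensional ℝ E]
  [NormedAddCommGroup H] [InnerProductSpace ℝ H] [FiniteDimensional ℝ H]
  {X : Set E} {P : E → H →L[ℝ] H} {r : ℕ} {x : E} {g g' : ℝ → ℝ} {R c ρ : ℝ}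
  {ξ Ψ W o : E × H → Ext (E × H)}

/-- the scaled point -/
def scl (a : ℝ) (z : E × H) : E × H := (z.1, a • z.2)

/-- the ray map -/
def ray (g : ℝ → ℝ) (y : (E × H) × ℝ) : E × H := (y.1.1, g y.2 • y.1.2)

theorem contDiff_scl (a : ℝ) : ContDiff ℝ ∞ (scl (E := E) (H := H) a) :=
  contDiff_fst.prodMk (contDiff_const.smul contDiff_snd)

theorem contDiff_ray (hg : ContDiff ℝ ∞ g) : ContDiff ℝ ∞ (ray (E := E) (H := H) g) := by
  have h2 : ContDiff ℝ ∞ (fun p : (E × H) × ℝ => p.1.1) := by fun_prop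
  have h3 : ContDiff ℝ ∞ (fun p : (E × H) × ℝ => p.1.2) := by fun_prop
  exact h2.prodMk ((hg.comp contDiff_snd).smul h3)

theorem scl_mem {a : ℝ} {z : E × H} (hz : z ∈ Tot X P) : scl a z ∈ Tot X P := by
  refine ⟨hz.1, ?_⟩
  change P z.1 (a • z.2) = a • z.2
  rw [map_smul, hz.2]

theorem smap_ray (hg : ContDiff ℝ ∞ g) : SMap (Cyl (Sph X P)) (Tot X P) (ray g) :=
  ⟨fun _ _ => (contDiff_ray hg).contDiffAt, fun _ hy => scl_mem (mem_Cyl.1 hy).1⟩

theorem smap_scl (a : ℝ) : SMap (Sph X P) (Tot X P) (scl a) :=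
  ⟨fun _ _ => (contDiff_scl a).contDiffAt, fun _ hz => scl_mem hz.1⟩

theorem norm_scl {a : ℝ} (ha : 0 ≤ a) {z : E × H} (hz : z ∈ Sph X P) : ‖(scl a z).2‖ = a := by
  change ‖a • z.2‖ = a
  rw [norm_smul, hz.2, mul_one, Real.norm_of_nonneg ha]

theorem smap_scl_out {a : ℝ} (ha : 0 ≤ a) (hR : R < a) :
    SMap (Sph X P) (Tot X P ∩ {z | R < ‖z.2‖}) (scl a) :=
  ⟨fun _ _ => (contDiff_scl a).contDiffAt, fun z hz =>
    ⟨scl_mem hz.1, by change R < ‖(scl a z).2‖; rwa [norm_scl ha hz]⟩⟩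

theorem vert {z : E × H} (hz : z ∈ Sph X P ∩ (Prod.fst : E × H → E) ⁻¹' {x}) {v : E × H}
    (hv : v ∈ Tan (Sph X P ∩ (Prod.fst : E × H → E) ⁻¹' {x}) z) : v.1 = 0 := by
  have h1 := FV.fderiv_mem_Tan_of_mapsTo (g := (Prod.fst : E × H → E)) (Y := ({x} : Set E))
    (fun y hy => hy.2) differentiableAt_fst hv
  rw [fderiv_fst] at h1
  have hz1 : z.1 = x := hz.2
  have h2 : Tan ({x} : Set E) z.1 = ⊥ := by
    rw [hz1]
    exact Submodule.finrank_eq_zero.1 ((sub_point x).finrank_Tan rfl)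
  rw [h2] at h1
  exact h1

/-- the zero end of the rays has no fibre integral -/
theorem J_scl_zero (hP : PField X (r + 1) P) (hr : 1 ≤ r) (hx : x ∈ X) :
    J r (Sph X P ∩ (Prod.fst : E × H → E) ⁻¹' {x}) o (F.pull (scl 0) Ψ) = 0 := by
  refine J_eq_zero (HN.clo_fib hP hx) fun z hz w hw => ?_
  rw [F.pull, evA_pb]
  refine (evA (E × H) r (Ψ (scl 0 z))).map_coord_zero (⟨0, by omega⟩ : Fin r) ?_
  have hd : HasFDerivAt (scl (E := E) (H := H) 0)
      ((ContinuousLinearMap.fst ℝ E H).prod ((0 : ℝ) • ContinuousLinearMap.snd ℝ E H)) z :=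
    hasFDerivAt_fst.prodMk (hasFDerivAt_snd.const_smul (0 : ℝ))
  rw [hd.fderiv]
  have h0 := vert hz (hw ⟨0, by omega⟩)
  exact Prod.ext h0 (by simp)

/-- the far end of the rays -/
theorem scl_far (sW : Sm (Sph X P) W) (sΨ : Sm (Tot X P) Ψ)
    (out : Eqv (Tot X P ∩ {z | R < ‖z.2‖}) Ψ (c • rx W)) {a : ℝ} (ha : R < a) (ha1 : 1 < a) :
    Eqv (Sph X P) (F.pull (scl a) Ψ) (c • W) := by
  have h0 : (0 : ℝ) ≤ a := by linarith
  have s1 := smap_scl_out (X := X) (P := P) h0 ha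
  have s2 := smap_scl_out (X := X) (P := P) h0 ha1
  have e1 := out.pull s1
  rw [pull_smul'] at e1
  refine e1.trans (Eqv.smul c ?_)
  have e2 : Eqv (Sph X P) (F.pull (scl a) (rx W)) (F.pull (scl a) (F.pull rh W)) :=
    Eqv.of_eq fun z hz => by
      have h1 := (rx_near_out W (s2.maps hz).2).self_of_nhds
      rw [F.pull, F.pull, h1]
  have e3 : Eqv (Sph X P) (F.pull (scl a) (F.pull rh W)) (F.pull (fun z : E × H => z) W) :=
    eqv_pull_pull s2 smap_rh' smap_id (fun z hz => by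
      refine Prod.ext rfl ?_
      change ‖a • z.2‖⁻¹ • (a • z.2) = z.2
      rw [norm_smul, hz.2, mul_one, Real.norm_of_nonneg h0, smul_smul,
        inv_mul_cancel₀ (by linarith), one_smul]) W
  refine e2.trans (e3.trans (Eqv.of_eq fun z _ => ?_))
  exact pull_id W z

/-- **the fibre integral of the ray integral** of `ξ = dΨ` -/
theorem J_ray (hP : PField X (r + 1) P) (hr : 1 ≤ r) (hx : x ∈ X)
    (ho : Ori r (Sph X P ∩ (Prod.fst : E × H → E) ⁻¹' {x}) o)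
    (sξ : Sm (Tot X P) ξ) (sΨ : Sm (Tot X P) Ψ) (dΨ : Eqv (Tot X P) ξ (F.d Ψ))
    (sW : Sm (Sph X P) W) (out : Eqv (Tot X P ∩ {z | R < ‖z.2‖}) Ψ (c • rx W))
    (hg : ContDiff ℝ ∞ g) (g0 : g 0 = 0) (g1 : R < g 1) (g1' : 1 < g 1) :
    J r (Sph X P ∩ (Prod.fst : E × H → E) ⁻¹' {x}) o (RR.K (E := E × H) (F.pull (ray g) ξ)) =
      c * J r (Sph X P ∩ (Prod.fst : E × H → E) ⁻¹' {x}) o W := by
  have cF := HN.clo_fib hP hx
  have hR := smap_ray (X := X) (P := P) hg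
  have hsub : Sph X P ∩ (Prod.fst : E × H → E) ⁻¹' {x} ⊆ Sph X P := inter_subset_left
  have su : Sm (Cyl (Sph X P)) (F.pull (ray g) Ψ) := sΨ.pull hR
  have e1 : Eqv (Cyl (Sph X P)) (F.pull (ray g) ξ) (F.d (F.pull (ray g) Ψ)) :=
    (dΨ.pull hR).trans (d_pull_eqv hR sΨ).symm
  have e2 := K_eqv (E := E × H) (sξ.pull hR) su.d e1
  have e3 := e2.trans (K_of_d su)
  have f1 : Eqv (Sph X P) (F.pull (sl (E := E × H) 1) (F.pull (ray g) Ψ))
      (F.pull (scl (g 1)) Ψ) :=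
    eqv_pull_pull (smap_sl 1) hR (smap_scl (g 1)) (fun _ _ => rfl) Ψ
  have f0 : Eqv (Sph X P) (F.pull (sl (E := E × H) 0) (F.pull (ray g) Ψ))
      (F.pull (scl 0) Ψ) :=
    eqv_pull_pull (smap_sl 0) hR (smap_scl 0) (fun z _ => by
      change (z.1, g 0 • z.2) = (z.1, (0 : ℝ) • z.2)
      rw [g0]) Ψ
  have e4 : Eqv (Sph X P) (RR.K (E := E × H) (F.pull (ray g) ξ))
      (c • W - F.pull (scl 0) Ψ - F.d (RR.K (E := E × H) (F.pull (ray g) Ψ))) :=
    e3.trans (((f1.trans (scl_far sW sΨ out g1 g1')).sub f0).sub (Eqv.refl _))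
  have s1 : Sm (Sph X P) (c • W) := sW.smul c
  have s0 : Sm (Sph X P) (F.pull (scl 0) Ψ) := sΨ.pull (smap_scl 0)
  have sK : Sm (Sph X P) (RR.K (E := E × H) (F.pull (ray g) Ψ)) := RR.Sm.K su
  have re : ∀ {a : E × H → Ext (E × H)}, Sm (Sph X P) a →
      Sm (Sph X P ∩ (Prod.fst : E × H → E) ⁻¹' {x}) a := fun ha y hy => ha y hy.1
  rw [J_eqv cF (Eqv.mono_tan hsub e4), J_sub' cF ho ((re s1).sub (re s0)) (re sK).d,
    J_sub' cF ho (re s1) (re s0), J_d' cF ho (re sK), J_scl_zero hP hr hx, J_smul', sub_zero,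
    sub_zero]

/-- the ray integral of a form vanishing outside depends only on the fact that the rays leave -/
theorem K_ray_cut (sξ : Sm (Tot X P) ξ)
    (hv : Eqv (Tot X P ∩ {z | ρ < ‖z.2‖}) ξ 0) (hρ : 0 ≤ ρ)
    (hg : ContDiff ℝ ∞ g) (g0 : g 0 = 0) (g1 : ρ < g 1)
    (hg' : ContDiff ℝ ∞ g') (g0' : g' 0 = 0) (g1' : ρ < g' 1) :
    Eqv (Sph X P) (RR.K (E := E × H) (F.pull (ray g) ξ))
      (RR.K (E := E × H) (F.pull (ray g') ξ)) := by
  have hid : ContDiff ℝ ∞ (fun s : ℝ => s) := contDiff_id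
  have sr := smap_ray (X := X) (P := P) hid
  have su : Sm (Cyl (Sph X P)) (F.pull (ray (E := E) (H := H) fun s => s) ξ) := sξ.pull sr
  have key : ∀ {lam : ℝ → ℝ}, ContDiff ℝ ∞ lam → Eqv (Sph X P)
      (RR.K (E := E × H) (F.pull (ray lam) ξ))
      (Kab (lam 0) (lam 1) (F.pull (ray (E := E) (H := H) fun s => s) ξ)) := by
    intro lam hl
    have sf : SMap (Cyl (Sph X P)) (Cyl (Sph X P)) (fx (fun y : E × H => y) lam) :=
      smap_fx smap_id hl
    have e1 : Eqv (Cyl (Sph X P))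
        (F.pull (fx (fun y : E × H => y) lam) (F.pull (ray (E := E) (H := H) fun s => s) ξ))
        (F.pull (ray lam) ξ) := eqv_pull_pull sf sr (smap_ray hl) (fun _ _ => rfl) ξ
    have e2 := K_eqv (E := E × H) (su.pull sf) (sξ.pull (smap_ray hl)) e1
    exact e2.symm.trans (Eqv.of_eq fun z hz => K_repar hl su hz)
  set u := F.pull (ray (E := E) (H := H) fun s => s) ξ with hu
  -- the far part
  set lam : ℝ → ℝ := fun t => g' 1 + (g 1 - g' 1) * Real.smoothTransition t with hlam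
  have hl : ContDiff ℝ ∞ lam :=
    contDiff_const.add (contDiff_const.mul Real.smoothTransition.contDiff)
  have l0 : lam 0 = g' 1 := by
    simp only [hlam, Real.smoothTransition.zero_of_nonpos le_rfl, mul_zero, add_zero]
  have l1 : lam 1 = g 1 := by
    simp only [hlam, Real.smoothTransition.one_of_one_le le_rfl, mul_one, add_sub_cancel]
  have lp : ∀ t, ρ < lam t := by
    intro t
    have h1 := Real.smoothTransition.nonneg t
    have h2 := Real.smoothTransition.le_one t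
    have h3 : lam t = (1 - Real.smoothTransition t) * g' 1 + Real.smoothTransition t * g 1 := by
      simp only [hlam]; ring
    rw [h3]
    rcases h1.eq_or_lt with h4 | h4
    · rw [← h4]; linarith
    · nlinarith
  have far : Eqv (Sph X P) (Kab (g' 1) (g 1) u) 0 := by
    have h1 := key hl
    rw [l0, l1] at h1
    refine h1.symm.trans ?_
    have sl' : SMap (Cyl (Sph X P)) (Tot X P ∩ {z | ρ < ‖z.2‖}) (ray lam) :=
      ⟨fun _ _ => (contDiff_ray hl).contDiffAt, fun y hy => by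
        have h2 : (0 : ℝ) ≤ lam y.2 := hρ.trans (lp _).le
        exact (smap_scl_out (X := X) (P := P) h2 (lp y.2)).maps (mem_Cyl.1 hy)⟩
    have h2 := hv.pull sl'
    have h3 : F.pull (ray (E := E) (H := H) lam) (0 : E × H → Ext (E × H)) = 0 := by
      funext y; exact map_zero _
    rw [h3] at h2
    have h4 := K_eqv (E := E × H) (sξ.pull (smap_ray hl)) Sm.zero h2
    rwa [K_zero0] at h4
  have k1 := key hg
  have k2 := key hg'
  rw [g0] at k1
  rw [g0'] at k2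
  refine k1.trans (Eqv.trans ?_ k2.symm)
  have h5 : Eqv (Sph X P) (Kab 0 (g 1) u) (Kab 0 (g' 1) u + Kab (g' 1) (g 1) u) :=
    Eqv.of_eq fun z hz => (Kab_add su hz 0 (g' 1) (g 1)).symm
  have h6 := (Eqv.refl (X := Sph X P) (Kab 0 (g' 1) u)).add far
  rw [add_zero] at h6
  exact h5.trans h6

end ray

section quo
variable {E E' W₁ V F' : Type} [NormedAddCommGroup E] [NormedSpace ℝ E] [FiniteDimensional ℝ E]
  [NormedAddCommGroup E'] [NormedSpace ℝ E'] [FiniteDimensional ℝ E']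
  [NormedAddCommGroup W₁] [InnerProductSpace ℝ W₁] [FiniteDimensional ℝ W₁]
  [NormedAddCommGroup V] [InnerProductSpace ℝ V] [FiniteDimensional ℝ V]
  [NormedAddCommGroup F'] [NormedSpace ℝ F'] [FiniteDimensional ℝ F']
  {X : Set E} {Y : Set E'} {φ : ℝ → E → E} {q : E → E'} {R : ℝ → W₁ →L[ℝ] W₁}
  {T : E → W₁ →L[ℝ] V} {P : E → W₁ →L[ℝ] W₁} {P' : E' → V →L[ℝ] V} {r d d' : ℕ} {S : Set F'}
  {om : F' → Ext F'} {θ0 : E → Ext E} {e : E' → Ext E'} {f1 : E × W₁ → F'} {ρ R₂ c : ℝ}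
  {ξ a Q Ψ W o' : E' × V → Ext (E' × V)} {x : E} {g : ℝ → ℝ}

/-- the fibre integral upstairs and downstairs -/
theorem J_ray_pull (h : VE.St X Y φ q R T P P' (r + 1) d d' S om θ0 e f1 ρ)
    (D : VE.Dn X φ q R T P om θ0 f1 ξ a Q) (hd : ∀ x ∈ X, P' (q x) = Qd T P x) (hx : x ∈ X)
    (ho : Ori r (Sph Y P' ∩ (Prod.fst : E' × V → E') ⁻¹' {q x}) o') (hg : ContDiff ℝ ∞ g) :
    J r (Sph X P ∩ (Prod.fst : E × W₁ → E) ⁻¹' {x}) (F.pull (Th q T) o')
        (RR.K (E := E × W₁) (F.pull (ray g) (VC.xi (phR φ R) (F.pull f1 om)))) =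
      J r (Sph Y P' ∩ (Prod.fst : E' × V → E') ⁻¹' {q x}) o'
        (RR.K (E := E' × V) (F.pull (ray g) ξ)) := by
  have hs := HN.smap_Th (P := P) (P' := P') h.hq.smap h.hT hd
  have hgY := smap_ray (X := Y) (P := P') hg
  have hgX := smap_ray (X := X) (P := P) hg
  have sK : Sm (Sph Y P') (RR.K (E := E' × V) (F.pull (ray g) ξ)) := RR.Sm.K (D.smx.pull hgY)
  have h1 := (HN.J_fib_pull (P := P) (P' := P') h.hq.smap h.hT hd h.hP h.hP' hx ho sK).2
  rw [← h1]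
  refine J_eqv (HN.clo_fib h.hP hx) (Eqv.mono_tan (inter_subset_left :
    Sph X P ∩ (Prod.fst : E × W₁ → E) ⁻¹' {x} ⊆ Sph X P) (Eqv.symm ?_))
  have sf : SMap (Cyl (Sph X P)) (Cyl (Sph Y P'))
      (fx (E := E × W₁) (E' := E' × V) (Th q T) fun s => s) := smap_fx hs contDiff_id
  have sξ : Sm (Cyl (Sph Y P')) (F.pull (ray g) ξ) := D.smx.pull hgY
  have e1 : Eqv (Sph X P) (F.pull (Th q T) (RR.K (E := E' × V) (F.pull (ray g) ξ)))
      (RR.K (E := E × W₁) (F.pull (fx (E := E × W₁) (E' := E' × V) (Th q T) fun s => s)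
        (F.pull (ray g) ξ))) :=
    Eqv.of_eq fun z hz => pull_K (E := E × W₁) (E' := E' × V) (hs.diff hz) sξ (hs.maps hz)
  have sx : Sm (Tot X P) (VC.xi (phR φ R) (F.pull f1 om)) := VC.sm_xi h.A h.dt.sm
  have m1 : SMap (Cyl (Sph X P)) (Tot Y P')
      (fun y => ray g (fx (E := E × W₁) (E' := E' × V) (Th q T) (fun s => s) y)) := hgY.comp sf
  have e2 : Eqv (Cyl (Sph X P)) (F.pull (fx (E := E × W₁) (E' := E' × V) (Th q T) fun s => s)
        (F.pull (ray g) ξ))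
      (F.pull (fun y => ray g (fx (E := E × W₁) (E' := E' × V) (Th q T) (fun s => s) y)) ξ) :=
    eqv_pull_pull sf hgY m1 (fun _ _ => rfl) ξ
  have e3 : Eqv (Cyl (Sph X P)) (F.pull (ray g) (F.pull (Th q T) ξ))
      (F.pull (fun y => ray g (fx (E := E × W₁) (E' := E' × V) (Th q T) (fun s => s) y)) ξ) :=
    eqv_pull_pull hgX h.hQ.smap m1 (fun y hy => by
      refine Prod.ext rfl ?_
      change T y.1.1 (g y.2 • y.1.2) = g y.2 • T y.1.1 y.1.2
      rw [map_smul]) ξ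
  have e4 : Eqv (Cyl (Sph X P)) (F.pull (ray g) (F.pull (Th q T) ξ))
      (F.pull (ray g) (VC.xi (phR φ R) (F.pull f1 om))) := D.px.pull hgX
  have e5 := K_eqv (E := E × W₁) (sξ.pull sf) (sx.pull hgX) (e2.trans (e3.symm.trans e4))
  exact e1.trans e5

/-- **the number `c` of the evaluation as a fibre integral** -/
theorem fib_c (h : VE.St X Y φ q R T P P' (r + 1) d d' S om θ0 e f1 ρ)
    (D : VE.Dn X φ q R T P om θ0 f1 ξ a Q) (hd : ∀ x ∈ X, P' (q x) = Qd T P x) (hr : 1 ≤ r)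
    (hx : x ∈ X) (ho : Ori r (Sph Y P' ∩ (Prod.fst : E' × V → E') ⁻¹' {q x}) o')
    (sΨ : Sm (Tot Y P') Ψ) (dΨ : Eqv (Tot Y P') ξ (F.d Ψ)) (sW : Sm (Sph Y P') W)
    (out : Eqv (Tot Y P' ∩ {z | R₂ < ‖z.2‖}) Ψ (c • rx W))
    (hg : ContDiff ℝ ∞ g) (g0 : g 0 = 0) (g1 : ρ < g 1) :
    J r (Sph X P ∩ (Prod.fst : E × W₁ → E) ⁻¹' {x}) (F.pull (Th q T) o')
        (RR.K (E := E × W₁) (F.pull (ray g) (VC.xi (phR φ R) (F.pull f1 om)))) =
      c * J r (Sph Y P' ∩ (Prod.fst : E' × V → E') ⁻¹' {q x}) o' W := by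
  set L : ℝ := max R₂ (max ρ 1) + 1 with hL
  have hgl : ContDiff ℝ ∞ (fun t : ℝ => L * t) := contDiff_const.mul contDiff_id
  have L0 : (fun t : ℝ => L * t) 0 = 0 := mul_zero _
  have hR₂ : R₂ < L := by have := le_max_left R₂ (max ρ 1); linarith
  have hρ : ρ < L := by
    have := le_max_right R₂ (max ρ 1)
    have := le_max_left ρ (1 : ℝ)
    linarith
  have h1 : (1 : ℝ) < L := by
    have := le_max_right R₂ (max ρ 1)
    have := le_max_right ρ (1 : ℝ)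
    linarith
  have sx : Sm (Tot X P) (VC.xi (phR φ R) (F.pull f1 om)) := VC.sm_xi h.A h.dt.sm
  have hv : Eqv (Tot X P ∩ {z | ρ < ‖z.2‖}) (VC.xi (phR φ R) (F.pull f1 om)) 0 := by
    refine eqv_iff.2 fun z hz => ?_
    have h2 := VC.rs_xi_eq_zero h.A h.dt.sm hz.1 (h.cv0 hz.1 hz.2)
    have h3 : VC.rsL (Tot X P) z (VC.xi (phR φ R) (F.pull f1 om) z) = VC.rsL (Tot X P) z 0 := by
      rw [h2, map_zero]
    exact EX.rs_sub (X' := Tot X P ∩ {z | ρ < ‖z.2‖}) inter_subset_left h3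
  have cut := K_ray_cut (X := X) (P := P) sx hv h.ρ0 hg g0 g1 hgl L0 (by rw [mul_one]; exact hρ)
  rw [J_eqv (HN.clo_fib h.hP hx) (Eqv.mono_tan (inter_subset_left :
    Sph X P ∩ (Prod.fst : E × W₁ → E) ⁻¹' {x} ⊆ Sph X P) cut), J_ray_pull h D hd hx ho hgl]
  exact J_ray h.hP' hr (h.hq.smap.maps hx) ho D.smx sΨ dΨ sW out hgl L0 (by rw [mul_one]; exact hR₂)
    (by rw [mul_one]; exact h1)

end quo

section inst
open Crest.GeometryTopology.Submanifold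
open Crest.Agent.R241.DDefs
open Crest.Agent.R241.D2
open Crest.Agent.R208.GT
open Crest.Agent.R208.FL (D1 Ph f1 gs gs_zero gs_two contDiff_gs)
open Crest.Agent.R208.NN (Wt nuP Rt)

variable {n N K k r : ℕ} {κ : ℝ} {S : Set (Euc N)} {G : Geo n N κ S}
  {lg : Euc N → Euc N → Euc N} {ρ : Euc N → Euc N} {r₀ C r' Kr B w δ : ℝ}
  {PN : Euc N × Euc N → Wt N K →L[ℝ] Wt N K} {ε E₀ η : ℝ} {J₀ : ℕ} {om : Euc N → Ext (Euc N)}
  {z : Euc N × Euc N} {E' V : Type} [NormedAddCommGroup E'] [NormedSpace ℝ E']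
  [FiniteDimensional ℝ E'] [NormedAddCommGroup V] [InnerProductSpace ℝ V] [FiniteDimensional ℝ V]
  {Y : Set E'} {q : Euc N × Euc N → E'} {T : Euc N × Euc N → Wt N K →L[ℝ] V}
  {P' : E' → V →L[ℝ] V} {d d' : ℕ} {θ0 : Euc N × Euc N → Ext (Euc N × Euc N)}
  {e : E' → Ext E'} {ρ₁ R₂ c t : ℝ} {ξ a Q Ψ W o' : E' × V → Ext (E' × V)}

/-- **`2π |c| |J_fibre W| = t`** for the level one family -/
theorem abs_c (hD : D1 G k K lg ρ r₀ C r' Kr B w δ PN ε J₀ E₀ η) (hk : Even k) (hrk : r + 2 = k)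
    (h4 : 4 ≤ k) (hkn : k < n)
    (h : VE.St (L.US G) Y (CM.gf G) q (fun s => Rt (nuP K) s) T PN P' (r + 1) d d' S om θ0 e
      (f1 G lg ρ w J₀ ε) ρ₁)
    (D : VE.Dn (L.US G) (CM.gf G) q (fun s => Rt (nuP K) s) T PN om θ0 (f1 G lg ρ w J₀ ε) ξ a Q)
    (hd : ∀ z ∈ L.US G, P' (q z) = Qd T PN z) (hz : z ∈ L.US G)
    (ho : Ori r (Sph Y P' ∩ (Prod.fst : E' × V → E') ⁻¹' {q z}) o')
    (sΨ : Sm (Tot Y P') Ψ) (dΨ : Eqv (Tot Y P') ξ (F.d Ψ)) (sW : Sm (Sph Y P') W)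
    (out : Eqv (Tot Y P' ∩ {z | R₂ < ‖z.2‖}) Ψ (c • rx W)) (hρ : ρ₁ < 2)
    (hC : ∀ oF, Ori r (Sph (L.US G) PN ∩ (Prod.fst : (Euc N × Euc N) × Wt N K → Euc N × Euc N) ⁻¹' {z}) oF →
      |J r (Sph (L.US G) PN ∩ Prod.fst ⁻¹' {z}) oF
        (RR.Wp (FM.phiF hD.bla PN) (F.pull (Prod.fst : (Euc N × Euc N) × Wt N K → Euc N × Euc N)
          (RR.K (F.pull (RRC.EE G) om))))| = 2 * t) :
    2 * Real.pi * (|c| * |J r (Sph Y P' ∩ (Prod.fst : E' × V → E') ⁻¹' {q z}) o' W|) = t := by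
  obtain rfl := hrk
  have hoF := (HN.J_fib_pull (P := PN) (P' := P') h.hq.smap h.hT hd h.hP h.hP' hz ho sW).1
  have h1 := fib_c h D hd (by omega) hz ho sΨ dΨ sW out contDiff_gs (gs_zero le_rfl)
    (by rw [gs_two (by norm_num)]; exact hρ)
  have h2 := L7_xi hD hk h4 hkn h.dat.sm h.dat.cl hz hoF (hC _ hoF)
  rw [← abs_mul, ← h1]
  exact h2

end inst

end Crest.Agent.R208.CG
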