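import Crest.Agent.R208.CG13

/-! Row 208, block RR / VE (helper99), part CG14: the value `|c| = k / 2` of the number of the
evaluation. -/

set_option autoImplicit false
set_option linter.unusedSectionVars false
set_option linter.unusedVariables false

open MeasureTheory Set Filter Topology Module
open scoped ContDiff RealInnerProductSpace
open Crest.GeometryTopology.Submanifold
open Crest.Agent.R241.DDefs
open Crest.Agent.R241.D2
open Crest.Agent.R208.GT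
open Crest.Agent.R208.F Crest.Agent.R208.FI Crest.Agent.R208.CW Crest.Agent.R208.T
open Crest.Agent.R208.CM (Cir gen Rep Triv phR Th Qd)
open Crest.Agent.R208.FL (D1 Ph f1)
open Crest.Agent.R208.NN (Wt nuP Rt)

noncomputable section

namespace Crest.Agent.R208.CG

/-- the ratio of the Euler numbers -/
theorem c_of_tau {ι ι' : Type} [Fintype ι] [Fintype ι'] (h : Fintype.card ι = Fintype.card ι' + 1)
    {c : ℝ} (hc : 2 * Real.pi * (|c| * (2 * XF.tau ι')) = XF.tau ι) :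
    |c| = (Fintype.card ι' + 1 : ℝ) := by
  rw [XF.tau, XF.tau, h, Nat.factorial_succ, pow_succ] at hc
  push_cast at hc
  have h1 : (0 : ℝ) < (4 * Real.pi) ^ Fintype.card ι' * (Nat.factorial (Fintype.card ι') : ℝ) := by
    have := Real.pi_pos
    positivity
  have h2 : ((4 * Real.pi) ^ Fintype.card ι' * (Nat.factorial (Fintype.card ι') : ℝ)) *
      (4 * Real.pi) * |c| = ((4 * Real.pi) ^ Fintype.card ι' *
      (Nat.factorial (Fintype.card ι') : ℝ)) * (4 * Real.pi) * (Fintype.card ι' + 1 : ℝ) := by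
    linarith
  exact mul_left_cancel₀ (mul_pos h1 (by have := Real.pi_pos; positivity)).ne' h2

section inst
variable {n N K k r : ℕ} {κ : ℝ} {S : Set (Euc N)} {G : Geo n N κ S}
  {lg : Euc N → Euc N → Euc N} {ρ : Euc N → Euc N} {r₀ C r' Kr B w δ : ℝ}
  {PN : Euc N × Euc N → Wt N K →L[ℝ] Wt N K} {ε E₀ η : ℝ} {J₀ : ℕ} {om : Euc N → Ext (Euc N)}
  {z : Euc N × Euc N} {E' p ι ι' : Type} [NormedAddCommGroup E'] [NormedSpace ℝ E']
  [FiniteDimensional ℝ E'] [Fintype p] [DecidableEq p] [Fintype ι] [Fintype ι'] [DecidableEq ι']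
  [Nonempty ι']
  {Y : Set E'} {q : Euc N × Euc N → E'} {T : Euc N × Euc N → Wt N K →L[ℝ] EuclideanSpace ℝ p}
  {P' : E' → EuclideanSpace ℝ p →L[ℝ] EuclideanSpace ℝ p} {d d' : ℕ}
  {θ0 : Euc N × Euc N → Ext (Euc N × Euc N)} {oP' : E' → Ext (EuclideanSpace ℝ p)}
  {e : E' → Ext E'} {ρ₁ R₂ c : ℝ} {ξ a Q Ψ : E' × EuclideanSpace ℝ p →
    Ext (E' × EuclideanSpace ℝ p)}

/-- **`|c| = card ι' + 1 = k / 2`** -/
theorem abs_c_val (hD : D1 G k K lg ρ r₀ C r' Kr B w δ PN ε J₀ E₀ η) (hk : Even k)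
    (hrk : r + 2 = k) (h4 : 4 ≤ k) (hkn : k < n)
    (h : VE.St (L.US G) Y (CM.gf G) q (fun s => Rt (nuP K) s) T PN P' (r + 1) d d' S om θ0 e
      (f1 G lg ρ w J₀ ε) ρ₁)
    (D : VE.Dn (L.US G) (CM.gf G) q (fun s => Rt (nuP K) s) T PN om θ0 (f1 G lg ρ w J₀ ε) ξ a Q)
    (hd : ∀ z ∈ L.US G, P' (q z) = Qd T PN z) (hz : z ∈ L.US G)
    (ob : SB.OddB ι' Y r P' oP')
    {Wf : E' × EuclideanSpace ℝ p → Ext (E' × EuclideanSpace ℝ p)}
    (hW : Wf = SB.OddB.eV ι' ob.hr P' oP')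
    (sΨ : Sm (Tot Y P') Ψ) (dΨ : Eqv (Tot Y P') ξ (F.d Ψ)) (sW : Sm (Sph Y P') Wf)
    (out : Eqv (Tot Y P' ∩ {z | R₂ < ‖z.2‖}) Ψ (c • rx Wf))
    (hρ : ρ₁ < 2) (hι : 2 * Fintype.card ι = k)
    (hC : ∀ oF, Ori r (Sph (L.US G) PN ∩ (Prod.fst : (Euc N × Euc N) × Wt N K → Euc N × Euc N) ⁻¹' {z}) oF →
      |J r (Sph (L.US G) PN ∩ Prod.fst ⁻¹' {z}) oF
        (RR.Wp (FM.phiF hD.bla PN) (F.pull (Prod.fst : (Euc N × Euc N) × Wt N K → Euc N × Euc N)
          (RR.K (F.pull (RRC.EE G) om))))| = 2 * XF.tau ι) :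
    |c| = (Fintype.card ι' + 1 : ℝ) := by
  have hqz : q z ∈ Y := h.hq.smap.maps hz
  have ho : Ori r (Sph Y P' ∩ (Prod.fst : E' × EuclideanSpace ℝ p → E') ⁻¹' {q z}) (SB.oV oP') := by
    rw [fib_eq hqz]
    exact ob.ori_oV hqz
  have h1 := abs_c hD hk hrk h4 hkn h D hd hz ho sΨ dΨ sW out hρ hC
  rw [hW, ob.J_fibre' hqz, abs_of_pos (a := 2 * XF.tau ι') (by have := XF.tau_pos ι'; positivity)] at h1
  exact c_of_tau (ι := ι) (ι' := ι') (by have := ob.hr; omega) h1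

end inst

end Crest.Agent.R208.CG
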