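import Crest.Agent.R208.CG1

/-! Row 208, block RR, piece (CG) (helper99), part CG2: the cone primitive and the main Stokes
lemma. -/

set_option autoImplicit false
set_option linter.unusedSectionVars false
set_option linter.unusedVariables false

open MeasureTheory Set Filter Topology Module
open scoped ContDiff
open Crest.Agent.R208.F Crest.Agent.R208.FI Crest.Agent.R208.CW Crest.Agent.R208.T
open Crest.Agent.R208.RR

noncomputable section

namespace Crest.Agent.R208.CG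

universe u
variable {E : Type u} [NormedAddCommGroup E] [NormedSpace ℝ E] [FiniteDimensional ℝ E]
  {H : Type u} [NormedAddCommGroup H] [NormedSpace ℝ H] [FiniteDimensional ℝ H]
  {Z : Set E} {S : Set H} {U : Set (H × H)} {x : E} {ξ : H → Ext H}

theorem smap_comp {E F' G : Type*} [NormedAddCommGroup E] [NormedSpace ℝ E]
    [NormedAddCommGroup F'] [NormedSpace ℝ F'] [NormedAddCommGroup G] [NormedSpace ℝ G]
    {X : Set E} {Y : Set F'} {W : Set G} {f : E → F'} {g : F' → G} (hg : SMap Y W g)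
    (hf : SMap X Y f) : SMap X W (fun x => g (f x)) :=
  ⟨fun x hx => (hg.smooth _ (hf.maps hx)).comp x (hf.smooth x hx), fun x hx =>
    hg.maps (hf.maps hx)⟩

theorem smap_fx {E' : Type u} [NormedAddCommGroup E'] [NormedSpace ℝ E'] [FiniteDimensional ℝ E']
    {Y : Set E'} {f : E → E'} {lam : ℝ → ℝ} (hf : SMap Z Y f) (hl : ContDiff ℝ ∞ lam) :
    SMap (Cyl Z) (Cyl Y) (fx f lam) :=
  ⟨fun y hy => ((hf.smooth _ (mem_Cyl.1 hy)).comp y contDiffAt_fst).prodMk
    (hl.contDiffAt.comp y contDiffAt_snd), fun y hy => mem_Cyl.2 (hf.maps (mem_Cyl.1 hy))⟩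

theorem pull_pull {E F' G : Type*} [NormedAddCommGroup E] [NormedSpace ℝ E] [FiniteDimensional ℝ E]
    [NormedAddCommGroup F'] [NormedSpace ℝ F'] [FiniteDimensional ℝ F'] [NormedAddCommGroup G]
    [NormedSpace ℝ G] [FiniteDimensional ℝ G]
    {X : Set E} {Y : Set F'} {W : Set G} {f : E → F'} {g : F' → G} {w : G → Ext G}
    (hg : SMap Y W g) (hf : SMap X Y f) :
    Eqv X (F.pull f (F.pull g w)) (F.pull (fun x => g (f x)) w) :=
  Eqv.of_eq fun _ hx => F.pull_comp (hf.diff hx) (hg.diff (hf.maps hx))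

/-- contraction data: `Gm (u, ·)` joins `u.1` to `u.2` -/
structure Con (S : Set H) (U : Set (H × H)) (Gm : (H × H) × ℝ → H) : Prop where
  sm : SMap (Cyl U) S Gm
  one : ∀ u ∈ U, Gm (u, 1) = u.2
  zero : ∀ u ∈ U, Gm (u, 0) = u.1

/-- the cone primitive -/
def eta (Gm : (H × H) × ℝ → H) (ξ : H → Ext H) : H × H → Ext (H × H) :=
  K (E := H × H) (F.pull Gm ξ)

variable {Gm : (H × H) × ℝ → H}

theorem Con.sm_eta (h : Con S U Gm) (hξ : Sm S ξ) : Sm U (eta Gm ξ) := Sm.K (hξ.pull h.sm)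

theorem Con.smap_fst (h : Con S U Gm) : SMap U S (Prod.fst : H × H → H) :=
  ⟨fun u _ => contDiffAt_fst, fun u hu => by
    have := h.sm.maps (mem_Cyl.2 hu : ((u, (0 : ℝ)) : (H × H) × ℝ) ∈ Cyl U)
    rwa [h.zero u hu] at this⟩

theorem Con.smap_snd (h : Con S U Gm) : SMap U S (Prod.snd : H × H → H) :=
  ⟨fun u _ => contDiffAt_snd, fun u hu => by
    have := h.sm.maps (mem_Cyl.2 hu : ((u, (1 : ℝ)) : (H × H) × ℝ) ∈ Cyl U)
    rwa [h.one u hu] at this⟩

theorem Con.d_eta (h : Con S U Gm) (hξ : Sm S ξ) (hc : Cl S ξ) :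
    Eqv U (F.d (eta Gm ξ)) (F.pull (Prod.snd : H × H → H) ξ - F.pull (Prod.fst : H × H → H) ξ) := by
  have hw : Sm (Cyl U) (F.pull Gm ξ) := hξ.pull h.sm
  have h1 := K_of_d (E := H × H) hw
  have h2 : Eqv U (K (E := H × H) (F.d (F.pull Gm ξ))) 0 := by
    have h3 : Eqv (Cyl U) (F.d (F.pull Gm ξ)) 0 := resZero_iff.1 (Cl.pull h.sm hξ hc)
    have h4 := K_eqv (E := H × H) hw.d Sm.zero h3
    rwa [K_zero0] at h4
  have h5 : Eqv U (F.d (eta Gm ξ)) (F.pull (sl 1) (F.pull Gm ξ) - F.pull (sl 0) (F.pull Gm ξ)) := by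
    have h6 := (h2.symm.trans h1).add (Eqv.refl (F.d (eta Gm ξ)))
    rw [zero_add] at h6
    exact h6.trans (Eqv.of_eq fun u _ => by
      simp only [Pi.add_apply, Pi.sub_apply, eta]
      abel)
  refine h5.trans (Eqv.sub ?_ ?_)
  · refine (pull_pull h.sm (smap_sl 1)).trans ?_
    exact eqv_pull_of_eq ξ (fun u hu => (smap_comp h.sm (smap_sl 1)).diff hu)
      (fun u hu => h.smap_snd.diff hu) fun u hu => h.one u hu
  · refine (pull_pull h.sm (smap_sl 0)).trans ?_
    exact eqv_pull_of_eq ξ (fun u hu => (smap_comp h.sm (smap_sl 0)).diff hu)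
      (fun u hu => h.smap_fst.diff hu) fun u hu => h.zero u hu

end Crest.Agent.R208.CG
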