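import Crest.Agent.R208.CG2

/-! Row 208, block RR, piece (CG) (helper99), part CG3: the main Stokes lemma for a map into the
domain of the cone primitive whose first component (the centre) does not depend on `t`. -/

set_option autoImplicit false
set_option linter.unusedSectionVars false
set_option linter.unusedVariables false

open MeasureTheory Set Filter Topology Module
open scoped ContDiff
open Crest.Agent.R208.F Crest.Agent.R208.FI Crest.Agent.R208.CW Crest.Agent.R208.T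
open Crest.Agent.R208.RR

noncomputable section

namespace Crest.Agent.R208.CG

universe u
variable {E : Type u} [NormedAddCommGroup E] [NormedSpace ℝ E] [FiniteDimensional ℝ E]
  {H : Type u} [NormedAddCommGroup H] [NormedSpace ℝ H] [FiniteDimensional ℝ H]
  {Z : Set E} {S : Set H} {U : Set (H × H)} {x : E} {ξ : H → Ext H}
  {Gm : (H × H) × ℝ → H} {Ps : (E × ℝ) × ℝ → H × H} {c : E × ℝ → H}

theorem smap_id {X : Set E} : SMap X X (fun y : E => y) := ⟨fun _ _ => contDiffAt_id, fun _ h => h⟩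

theorem KI_eqv {w w' : (E × ℝ) × ℝ → Ext ((E × ℝ) × ℝ)} (hw : Sm (Cyl (Cyl Z)) w)
    (hw' : Sm (Cyl (Cyl Z)) w') (h : Eqv (Cyl (Cyl Z)) w w') : Eqv (Cyl Z) (KI w) (KI w') :=
  K_eqv (E := E × ℝ) hw hw' h

theorem Sm.KI {w : (E × ℝ) × ℝ → Ext ((E × ℝ) × ℝ)} (hw : Sm (Cyl (Cyl Z)) w) :
    Sm (Cyl Z) (KI w) := Sm.K (E := E × ℝ) hw

theorem Sm.K2 {w : (E × ℝ) × ℝ → Ext ((E × ℝ) × ℝ)} (hw : Sm (Cyl (Cyl Z)) w) :
    Sm Z (K2 w) := Sm.K (E := E) (Sm.KI hw)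

theorem K2_eqv {w w' : (E × ℝ) × ℝ → Ext ((E × ℝ) × ℝ)} (hw : Sm (Cyl (Cyl Z)) w)
    (hw' : Sm (Cyl (Cyl Z)) w') (h : Eqv (Cyl (Cyl Z)) w w') : Eqv Z (K2 w) (K2 w') :=
  K_eqv (E := E) (Sm.KI hw) (Sm.KI hw') (KI_eqv hw hw' h)

theorem K2_sub {w w' : (E × ℝ) × ℝ → Ext ((E × ℝ) × ℝ)} (hw : Sm (Cyl (Cyl Z)) w)
    (hw' : Sm (Cyl (Cyl Z)) w') : Eqv Z (K2 (w - w')) (K2 w - K2 w') := by
  have h1 : Eqv (Cyl Z) (KI (w - w')) (KI w - KI w') := K_sub_eqv (E := E × ℝ) hw hw'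
  exact (K_eqv (E := E) (Sm.KI (hw.sub hw')) ((Sm.KI hw).sub (Sm.KI hw')) h1).trans
    (K_sub_eqv (Sm.KI hw) (Sm.KI hw'))

/-- a form which does not depend on the middle variable has no double integral -/
theorem K2_zero {v : E × ℝ → Ext (E × ℝ)} (hv : Sm (Cyl Z) v) :
    Eqv Z (K2 (F.pull (fx (E := E × ℝ) (E' := E) (fun y => y.1) fun s => s) v)) 0 := by
  have hf : SMap (Cyl Z) Z (fun y : E × ℝ => y.1) := smap_fst
  have h1 : Eqv (Cyl Z) (KI (F.pull (fx (E := E × ℝ) (E' := E) (fun y => y.1) fun s => s) v))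
      (F.pull (fun y : E × ℝ => y.1) (K (E := E) v)) :=
    Eqv.of_eq fun y hy => (pull_K (E := E × ℝ) (E' := E) (hf.diff hy) hv (mem_Cyl.1 hy)).symm
  have s1 : Sm (Cyl (Cyl Z)) (F.pull (fx (E := E × ℝ) (E' := E) (fun y => y.1) fun s => s) v) :=
    hv.pull (smap_fx hf contDiff_id)
  have s2 : Sm (Cyl Z) (F.pull (fun y : E × ℝ => y.1) (K (E := E) v)) := (Sm.K hv).pull hf
  refine (K_eqv (E := E) (Sm.KI s1) s2 h1).trans (Eqv.of_eq fun x hx => ?_)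
  exact K_fst (f := fun y : E => y) differentiableAt_id

/-- the four faces -/
def fs (Gm : (H × H) × ℝ → H) (ξ : H → Ext H) (Ps : (E × ℝ) × ℝ → H × H) (s : ℝ) : E → Ext E :=
  K (E := E) (F.pull (fun y : E × ℝ => Ps (y, s)) (eta Gm ξ))

def ft (Gm : (H × H) × ℝ → H) (ξ : H → Ext H) (Ps : (E × ℝ) × ℝ → H × H) (t : ℝ) : E → Ext E :=
  K (E := E) (F.pull (fun y : E × ℝ => Ps ((y.1, t), y.2)) (eta Gm ξ))

theorem smap_fs (hP : SMap (Cyl (Cyl Z)) U Ps) (s : ℝ) :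
    SMap (Cyl Z) U (fun y : E × ℝ => Ps (y, s)) :=
  smap_comp hP (smap_sl (E := E × ℝ) s)

theorem smap_ft (hP : SMap (Cyl (Cyl Z)) U Ps) (t : ℝ) :
    SMap (Cyl Z) U (fun y : E × ℝ => Ps ((y.1, t), y.2)) :=
  smap_comp hP (smap_fx (E := E) (E' := E × ℝ) (smap_sl (E := E) t) contDiff_id)

/-- **the main Stokes lemma** -/
theorem cone_main (h : Con S U Gm) (hξ : Sm S ξ) (hc : Cl S ξ)
    (hP : SMap (Cyl (Cyl Z)) U Ps) (hcS : SMap (Cyl Z) S c)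
    (hPc : ∀ y ∈ Cyl (Cyl Z), (Ps y).1 = c (y.1.1, y.2)) :
    Coh Z (K2 (F.pull (fun y => (Ps y).2) ξ))
      (fs Gm ξ Ps 1 - fs Gm ξ Ps 0 - (ft Gm ξ Ps 1 - ft Gm ξ Ps 0)) := by
  set w : (E × ℝ) × ℝ → Ext ((E × ℝ) × ℝ) := F.pull Ps (eta Gm ξ) with hw
  have sη : Sm U (eta Gm ξ) := h.sm_eta hξ
  have sw : Sm (Cyl (Cyl Z)) w := sη.pull hP
  have s2 : Sm (Cyl (Cyl Z)) (F.pull (fun y => (Ps y).2) ξ) := hξ.pull (smap_comp h.smap_snd hP)
  have s1 : Sm (Cyl (Cyl Z)) (F.pull (fun y => (Ps y).1) ξ) := hξ.pull (smap_comp h.smap_fst hP)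
  -- `d w`
  have hd : Eqv (Cyl (Cyl Z)) (F.d w)
      (F.pull (fun y => (Ps y).2) ξ - F.pull (fun y => (Ps y).1) ξ) := by
    refine (d_pull_eqv hP sη).trans ((Eqv.pull hP (h.d_eta hξ hc)).trans ?_)
    rw [pull_sub']
    exact (pull_pull h.smap_snd hP).sub (pull_pull h.smap_fst hP)
  -- the centre term
  have hz : Eqv Z (K2 (F.pull (fun y => (Ps y).1) ξ)) 0 := by
    have sf : SMap (Cyl (Cyl Z)) (Cyl Z) (fx (E := E × ℝ) (E' := E) (fun y => y.1) fun s => s) :=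
      smap_fx smap_fst contDiff_id
    have h1 : Eqv (Cyl (Cyl Z)) (F.pull (fun y => (Ps y).1) ξ)
        (F.pull (fx (E := E × ℝ) (E' := E) (fun y => y.1) fun s => s) (F.pull c ξ)) := by
      refine Eqv.trans ?_ (pull_pull hcS sf).symm
      exact eqv_pull_of_eq ξ (fun y hy => (smap_comp h.smap_fst hP).diff hy)
        (fun y hy => (smap_comp hcS sf).diff hy) hPc
    exact (K2_eqv s1 ((hξ.pull hcS).pull sf) h1).trans (K2_zero (hξ.pull hcS))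
  have h3 : Eqv Z (K2 (F.d w)) (K2 (F.pull (fun y => (Ps y).2) ξ)) := by
    refine (K2_eqv sw.d (s2.sub s1) hd).trans ((K2_sub s2 s1).trans ?_)
    have := (Eqv.refl (X := Z) (K2 (F.pull (fun y => (Ps y).2) ξ))).sub hz
    rwa [sub_zero] at this
  have h4 := K2_of_d sw
  have sPη := sη.pull hP
  -- the faces
  have f1 : ∀ s : ℝ, Eqv Z (K (E := E) (F.pull (sl (E := E × ℝ) s) w)) (fs Gm ξ Ps s) := by
    intro s
    exact K_eqv (E := E) (sw.pull (smap_sl s)) (sη.pull (smap_fs hP s))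
      (pull_pull hP (smap_sl s))
  have f2 : ∀ t : ℝ, Eqv Z (F.pull (sl (E := E) t) (KI w)) (ft Gm ξ Ps t) := by
    intro t
    have g1 : Eqv Z (F.pull (sl (E := E) t) (KI w))
        (K (E := E) (F.pull (fx (E := E) (E' := E × ℝ) (sl (E := E) t) fun s => s) w)) :=
      Eqv.of_eq fun x hx => pull_K (E := E) (E' := E × ℝ)
        ((contDiff_sl (E := E) t).differentiable (by simp) x) sw (mem_Cyl.2 hx)
    refine g1.trans ?_
    have sf : SMap (Cyl Z) (Cyl (Cyl Z)) (fx (E := E) (E' := E × ℝ) (sl (E := E) t) fun s => s) :=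
      smap_fx (smap_sl (E := E) t) contDiff_id
    exact K_eqv (E := E) (sw.pull sf) (sη.pull (smap_ft hP t)) (pull_pull hP sf)
  have h5 := h3.symm.trans (h4.trans (((f1 1).sub (f1 0)).sub
    (((f2 1).sub (f2 0)).sub (Eqv.refl (F.d (K2 w))))))
  refine ⟨K2 w, Sm.K2 sw, ?_⟩
  have h6 := h5.sub (Eqv.refl (X := Z)
    (fs Gm ξ Ps 1 - fs Gm ξ Ps 0 - (ft Gm ξ Ps 1 - ft Gm ξ Ps 0)))
  refine h6.trans (Eqv.of_eq fun x _ => ?_)
  simp only [Pi.sub_apply]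
  abel

end Crest.Agent.R208.CG
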