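import Crest.Agent.R208.CG3

/-! Row 208, block RR, piece (CG) (helper99), part CG4: the disc of an equivariant family and the
disc of the rotation, in terms of the boundary terms `Xb`. -/

set_option autoImplicit false
set_option linter.unusedSectionVars false
set_option linter.unusedVariables false

open MeasureTheory Set Filter Topology Module
open scoped ContDiff
open Crest.Agent.R208.F Crest.Agent.R208.FI Crest.Agent.R208.CW Crest.Agent.R208.T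
open Crest.Agent.R208.RR

noncomputable section

namespace Crest.Agent.R208.CG

universe u
variable {E : Type u} [NormedAddCommGroup E] [NormedSpace ℝ E] [FiniteDimensional ℝ E]
  {H : Type u} [NormedAddCommGroup H] [NormedSpace ℝ H] [FiniteDimensional ℝ H]
  {Z : Set E} {S : Set H} {U : Set (H × H)} {x : E} {ξ : H → Ext H}
  {Gm : (H × H) × ℝ → H} {Ps : (E × ℝ) × ℝ → H × H} {c : E × ℝ → H}

/-- the reparametrisation -/
abbrev lam (t : ℝ) : ℝ := Real.smoothTransition t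

theorem contDiff_lam : ContDiff ℝ ∞ lam := Real.smoothTransition.contDiff

theorem lam_zero : lam 0 = 0 := Real.smoothTransition.zero_of_nonpos le_rfl
theorem lam_one : lam 1 = 1 := Real.smoothTransition.one_of_one_le le_rfl
theorem lam_mem (t : ℝ) : lam t ∈ Icc (0 : ℝ) 1 :=
  ⟨Real.smoothTransition.nonneg t, Real.smoothTransition.le_one t⟩

theorem smap_repar {mu : ℝ → ℝ} (hm : ContDiff ℝ ∞ mu) :
    SMap (Cyl Z) (Cyl Z) (fx (fun y : E => y) mu) := smap_fx smap_id hm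

theorem K_lam {w : E × ℝ → Ext (E × ℝ)} (hw : Sm (Cyl Z) w) (hx : x ∈ Z) :
    K (F.pull (fx (fun y : E => y) lam) w) x = K w x := by
  rw [K_repar contDiff_lam hw hx, lam_zero, lam_one, K_eq_Kab]

/-- the inner reparametrisation -/
theorem KI_lam {w : (E × ℝ) × ℝ → Ext ((E × ℝ) × ℝ)} (hw : Sm (Cyl (Cyl Z)) w) :
    Eqv (Cyl Z) (KI (F.pull (fx (fun y : E × ℝ => y) lam) w)) (KI w) :=
  Eqv.of_eq fun y hy => K_lam (E := E × ℝ) hw hy

/-- `K (f^* (K (A^* ξ)))` as a double integral -/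
theorem KfK {f : E × ℝ → E} (hf : SMap (Cyl Z) Z f) {A : E × ℝ → H} (hA : SMap (Cyl Z) S A)
    (hξ : Sm S ξ) :
    Eqv Z (K (E := E) (F.pull f (K (E := E) (F.pull A ξ))))
      (K2 (F.pull (fun y : (E × ℝ) × ℝ => A (f y.1, lam y.2)) ξ)) := by
  have sA : Sm (Cyl Z) (F.pull A ξ) := hξ.pull hA
  have sf : SMap (Cyl (Cyl Z)) (Cyl Z) (fx (E := E × ℝ) (E' := E) f fun s => s) :=
    smap_fx hf contDiff_id
  have sl' : SMap (Cyl (Cyl Z)) (Cyl Z) (fx (E := E × ℝ) (E' := E) f lam) :=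
    smap_fx hf contDiff_lam
  have h1 : Eqv (Cyl Z) (F.pull f (K (E := E) (F.pull A ξ)))
      (KI (F.pull (fx (E := E × ℝ) (E' := E) f fun s => s) (F.pull A ξ))) :=
    Eqv.of_eq fun y hy => pull_K (E := E × ℝ) (E' := E) (hf.diff hy) sA (hf.maps hy)
  have h2 : Eqv (Cyl Z)
      (KI (F.pull (fx (E := E × ℝ) (E' := E) f fun s => s) (F.pull A ξ)))
      (KI (F.pull (fun y : (E × ℝ) × ℝ => A (f y.1, lam y.2)) ξ)) := by
    refine (KI_lam (sA.pull sf)).symm.trans ?_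
    refine KI_eqv ((sA.pull sf).pull (smap_fx smap_id contDiff_lam))
      (hξ.pull (smap_comp hA sl')) ?_
    exact (pull_pull sf (smap_fx smap_id contDiff_lam)).trans (pull_pull hA sl')
  exact K_eqv (E := E) ((Sm.K sA).pull hf) (Sm.KI (hξ.pull (smap_comp hA sl'))) (h1.trans h2)

/-- the boundary term: fibre integral of the cone primitive along `s ↦ (c x, e (x, s))` -/
def Xb (Gm : (H × H) × ℝ → H) (ξ : H → Ext H) (c : E → H) (e : E × ℝ → H) : E → Ext E :=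
  K (E := E) (F.pull (fun y : E × ℝ => (c y.1, e (y.1, lam y.2))) (eta Gm ξ))

/-- the hypotheses on a boundary term -/
structure Bd (Z : Set E) (S : Set H) (U : Set (H × H)) (c : E → H) (e : E × ℝ → H) : Prop where
  sc : SMap Z S c
  se : SMap (Cyl Z) S e
  mem : ∀ x ∈ Z, ∀ s ∈ Icc (0 : ℝ) 1, (c x, e (x, s)) ∈ U

theorem Bd.smap {c : E → H} {e : E × ℝ → H} (h : Bd Z S U c e) {mu : ℝ → ℝ}
    (hm : ContDiff ℝ ∞ mu) (hm1 : ∀ t, mu t ∈ Icc (0 : ℝ) 1) :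
    SMap (Cyl Z) U (fun y : E × ℝ => (c y.1, e (y.1, mu y.2))) := by
  refine ⟨fun y hy => ?_, fun y hy => h.mem _ (mem_Cyl.1 hy) _ (hm1 _)⟩
  have h1 := (smap_comp h.se (smap_repar (Z := Z) hm)).smooth y hy
  have h2 := (smap_comp h.sc (smap_fst (Z := Z))).smooth y hy
  exact h2.prodMk h1

theorem Bd.sm_Xb {c : E → H} {e : E × ℝ → H} (h : Bd Z S U c e) (hC : Con S U Gm) (hξ : Sm S ξ) :
    Sm Z (Xb Gm ξ c e) :=
  Sm.K ((hC.sm_eta hξ).pull (h.smap contDiff_lam lam_mem))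

/-- the map into the domain of the cone primitive -/
def Dm (c A : E × ℝ → H) (f : E × ℝ → E) (y : (E × ℝ) × ℝ) : H × H :=
  (c (y.1.1, lam y.2), A (f y.1, lam y.2))

theorem smap_Dm {f : E × ℝ → E} (hf : SMap (Cyl Z) Z f) {A c : E × ℝ → H}
    (hA : SMap (Cyl Z) S A) (hc : SMap (Cyl Z) S c)
    (hU : ∀ x ∈ Z, ∀ t : ℝ, ∀ s ∈ Icc (0 : ℝ) 1, (c (x, s), A (f (x, t), s)) ∈ U) :
    SMap (Cyl (Cyl Z)) U (Dm c A f) := by
  have s1 : SMap (Cyl (Cyl Z)) (Cyl Z) (fx (E := E × ℝ) (E' := E) (fun y => y.1) lam) :=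
    smap_fx smap_fst contDiff_lam
  have s2 : SMap (Cyl (Cyl Z)) (Cyl Z) (fx (E := E × ℝ) (E' := E) f lam) :=
    smap_fx hf contDiff_lam
  exact ⟨fun y hy => ((smap_comp hc s1).smooth y hy).prodMk ((smap_comp hA s2).smooth y hy),
    fun y hy => hU _ (mem_Cyl.1 (mem_Cyl.1 hy)) _ _ (lam_mem _)⟩

/-- **the disc lemma** -/
theorem disc_main (hC : Con S U Gm) (hξ : Sm S ξ) (hcl : Cl S ξ) {f : E × ℝ → E}
    (hf : SMap (Cyl Z) Z f) {A c : E × ℝ → H} (hA : SMap (Cyl Z) S A) (hc : SMap (Cyl Z) S c)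
    (hU : ∀ x ∈ Z, ∀ t : ℝ, ∀ s ∈ Icc (0 : ℝ) 1, (c (x, s), A (f (x, t), s)) ∈ U) :
    Coh Z (K (E := E) (F.pull f (K (E := E) (F.pull A ξ))))
      (fs Gm ξ (Dm c A f) 1 - fs Gm ξ (Dm c A f) 0 -
        (ft Gm ξ (Dm c A f) 1 - ft Gm ξ (Dm c A f) 0)) := by
  have hcl' : SMap (Cyl Z) S (fun y : E × ℝ => c (y.1, lam y.2)) :=
    smap_comp hc (smap_repar contDiff_lam)
  have h1 := cone_main (Ps := Dm c A f) (c := fun y : E × ℝ => c (y.1, lam y.2)) hC hξ hcl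
    (smap_Dm hf hA hc hU) hcl' (fun y _ => rfl)
  have h2 : Coh Z (K (E := E) (F.pull f (K (E := E) (F.pull A ξ))))
      (K2 (F.pull (fun y => (Dm c A f y).2) ξ)) := Coh.of_eqv (KfK hf hA hξ)
  exact h2.trans h1

/-- the face `s = s0` vanishes if the loop is constant there -/
theorem fs_zero (hC : Con S U Gm) (hξ : Sm S ξ) {f : E × ℝ → E}
    (hf : SMap (Cyl Z) Z f) {A c : E × ℝ → H} (hA : SMap (Cyl Z) S A) (hc : SMap (Cyl Z) S c)
    (hU : ∀ x ∈ Z, ∀ t : ℝ, ∀ s ∈ Icc (0 : ℝ) 1, (c (x, s), A (f (x, t), s)) ∈ U) (s0 : ℝ)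
    (h0 : ∀ x ∈ Z, ∀ t, A (f (x, t), lam s0) = A (f (x, 0), lam s0)) :
    Eqv Z (fs Gm ξ (Dm c A f) s0) 0 := by
  have sη : Sm U (eta Gm ξ) := hC.sm_eta hξ
  have hP := smap_Dm hf hA hc hU
  have hf0 : SMap Z Z (fun x : E => f (x, 0)) := smap_comp hf (smap_sl 0)
  have hg : SMap Z U (fun x : E => (c (x, lam s0), A (f (x, 0), lam s0))) :=
    ⟨fun x hx => ((smap_comp hc (smap_sl _)).smooth x hx).prodMk
      ((smap_comp (smap_comp hA (smap_sl (lam s0))) hf0).smooth x hx),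
      fun x hx => hU x hx 0 _ (lam_mem _)⟩
  have hf1 : SMap (Cyl Z) U (fun y : E × ℝ => (c (y.1, lam s0), A (f (y.1, 0), lam s0))) :=
    smap_comp hg smap_fst
  have g0 : Eqv (Cyl Z) (F.pull (fun y : E × ℝ => Dm c A f (y, s0)) (eta Gm ξ))
      (F.pull (fun y : E × ℝ => (c (y.1, lam s0), A (f (y.1, 0), lam s0))) (eta Gm ξ)) := by
    refine eqv_pull_of_eq (eta Gm ξ) (fun y hy => (smap_fs hP s0).diff hy)
      (fun y hy => hf1.diff hy) fun y hy => ?_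
    simp only [Dm]
    rw [h0 _ (mem_Cyl.1 hy) y.2]
  have g1 : Eqv Z (fs Gm ξ (Dm c A f) s0)
      (K (E := E) (F.pull (fun y : E × ℝ => (c (y.1, lam s0), A (f (y.1, 0), lam s0)))
        (eta Gm ξ))) :=
    K_eqv (E := E) (sη.pull (smap_fs hP s0)) (sη.pull hf1) g0
  exact g1.trans (Eqv.of_eq fun x hx =>
    K_fst (f := fun x : E => (c (x, lam s0), A (f (x, 0), lam s0))) (hg.diff hx))

theorem smap_Fl {φ : ℝ → E → E} (hφ : CM.Cir Z φ) : SMap (Cyl Z) Z (Fl φ) :=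
  ⟨fun y hy => contDiffAt_Fl hφ (mem_Cyl.1 hy) y.2, fun y hy => Fl_mem hφ (mem_Cyl.1 hy) y.2⟩

/-- **the disc of an equivariant family** -/
theorem A_part (hC : Con S U Gm) (hξ : Sm S ξ) (hcl : Cl S ξ) {φ : ℝ → E → E}
    (hφ : CM.Cir Z φ) {A c : E × ℝ → H} (hA : SMap (Cyl Z) S A) (hc : SMap (Cyl Z) S c)
    (hinv : ∀ x ∈ Z, ∀ t, A (φ t x, 1) = A (x, 1))
    (hU : ∀ x ∈ Z, ∀ t : ℝ, ∀ s ∈ Icc (0 : ℝ) 1, (c (x, s), A (φ t x, s)) ∈ U) :
    Coh Z (Wp φ (K (E := E) (F.pull A ξ)))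
      (-(K (E := E) (F.pull (fun y : E × ℝ => (c (y.1, 0), A (Fl φ y, 0))) (eta Gm ξ)))) := by
  have hFl := smap_Fl hφ
  have hU' : ∀ x ∈ Z, ∀ t : ℝ, ∀ s ∈ Icc (0 : ℝ) 1, (c (x, s), A (Fl φ (x, t), s)) ∈ U :=
    fun x hx t s hs => hU x hx _ s hs
  have h1 := disc_main hC hξ hcl hFl hA hc hU'
  have sη : Sm U (eta Gm ξ) := hC.sm_eta hξ
  have hP := smap_Dm hFl hA hc hU'
  refine Coh.trans h1 (Coh.of_eqv ?_)
  have e1 : Eqv Z (fs Gm ξ (Dm c A (Fl φ)) 1) 0 :=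
    fs_zero hC hξ hFl hA hc hU' 1 fun x hx t => by
      rw [lam_one, Fl, Fl, hinv x hx, hinv x hx]
  have e2 : Eqv Z (ft Gm ξ (Dm c A (Fl φ)) 1) (ft Gm ξ (Dm c A (Fl φ)) 0) := by
    have g0 : Eqv (Cyl Z) (F.pull (fun y : E × ℝ => Dm c A (Fl φ) ((y.1, 1), y.2)) (eta Gm ξ))
        (F.pull (fun y : E × ℝ => Dm c A (Fl φ) ((y.1, 0), y.2)) (eta Gm ξ)) := by
      refine eqv_pull_of_eq (eta Gm ξ) (fun y hy => (smap_ft hP 1).diff hy)
        (fun y hy => (smap_ft hP 0).diff hy) fun y hy => ?_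
      have hx := mem_Cyl.1 hy
      simp only [Dm, Fl, mul_one, mul_zero]
      rw [hφ.per _ hx, hφ.zero _ hx]
    exact K_eqv (E := E) (sη.pull (smap_ft hP 1)) (sη.pull (smap_ft hP 0)) g0
  have e3 : Eqv Z (fs Gm ξ (Dm c A (Fl φ)) 0)
      (K (E := E) (F.pull (fun y : E × ℝ => (c (y.1, 0), A (Fl φ y, 0))) (eta Gm ξ))) := by
    refine Eqv.of_eq fun x _ => ?_
    simp only [fs, Dm, lam_zero]
  have := (e1.sub e3).sub (e2.sub (Eqv.refl (ft Gm ξ (Dm c A (Fl φ)) 0)))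
  refine this.trans (Eqv.of_eq fun x _ => ?_)
  simp

end Crest.Agent.R208.CG
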