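import Crest.Agent.R208.CG4

/-! Row 208, block RR, piece (CG) (helper99), part CG5: comparison of the discs of two equivariant
families with the disc of the rotation (abstract form). -/

set_option autoImplicit false
set_option linter.unusedSectionVars false
set_option linter.unusedVariables false

open MeasureTheory Set Filter Topology Module
open scoped ContDiff
open Crest.Agent.R208.F Crest.Agent.R208.FI Crest.Agent.R208.CW Crest.Agent.R208.T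
open Crest.Agent.R208.RR

noncomputable section

namespace Crest.Agent.R208.CG

universe u
variable {E : Type u} [NormedAddCommGroup E] [NormedSpace ℝ E] [FiniteDimensional ℝ E]
  {H : Type u} [NormedAddCommGroup H] [NormedSpace ℝ H] [FiniteDimensional ℝ H]
  {Z : Set E} {S : Set H} {U : Set (H × H)} {x : E} {ξ : H → Ext H}
  {Gm : (H × H) × ℝ → H}

theorem K_pull_congr {ζ : H × H → Ext (H × H)} (sη : Sm U ζ) {g g' : E × ℝ → H × H}
    (hg : SMap (Cyl Z) U g) (hg' : SMap (Cyl Z) U g') (h : ∀ y ∈ Cyl Z, g y = g' y) :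
    Eqv Z (K (E := E) (F.pull g ζ)) (K (E := E) (F.pull g' ζ)) :=
  K_eqv (E := E) (sη.pull hg) (sη.pull hg')
    (eqv_pull_of_eq ζ (fun y hy => hg.diff hy) (fun y hy => hg'.diff hy) h)

/-- splitting of the fibre integral at `1/2` -/
theorem K_split {w : E × ℝ → Ext (E × ℝ)} (hw : Sm (Cyl Z) w) :
    Eqv Z (K (E := E) w) (K (E := E) (F.pull (fx (fun y : E => y) fun t => lam t / 2) w) +
      K (E := E) (F.pull (fx (fun y : E => y) fun t => 1 / 2 + lam t / 2) w)) :=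
  Eqv.of_eq fun x hx => by
    have h1 : ContDiff ℝ ∞ fun t : ℝ => lam t / 2 := contDiff_lam.div_const 2
    have h2 : ContDiff ℝ ∞ fun t : ℝ => 1 / 2 + lam t / 2 := contDiff_const.add h1
    rw [Pi.add_apply, K_repar h1 hw hx, K_repar h2 hw hx, lam_zero, lam_one, K_eq_Kab,
      ← Kab_add hw hx 0 (1 / 2) 1]
    norm_num

theorem K_split' {w : E × ℝ → Ext (E × ℝ)} (hw : Sm (Cyl Z) w) :
    Eqv Z (K (E := E) w) (K (E := E) (F.pull (fx (fun y : E => y) fun t => lam t / 2) w) -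
      K (E := E) (F.pull (fx (fun y : E => y) fun t => 1 - lam t / 2) w)) :=
  Eqv.of_eq fun x hx => by
    have h1 : ContDiff ℝ ∞ fun t : ℝ => lam t / 2 := contDiff_lam.div_const 2
    have h2 : ContDiff ℝ ∞ fun t : ℝ => 1 - lam t / 2 := contDiff_const.sub h1
    rw [Pi.sub_apply, K_repar h1 hw hx, K_repar h2 hw hx, lam_zero, lam_one, K_eq_Kab,
      ← Kab_add hw hx 0 (1 / 2) 1, Kab_symm (1 - 0 / 2) (1 - 1 / 2)]
    norm_num

theorem contDiff_mu1 : ContDiff ℝ ∞ fun t : ℝ => lam t / 2 := contDiff_lam.div_const 2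
theorem contDiff_mu2 : ContDiff ℝ ∞ fun t : ℝ => 1 / 2 + lam t / 2 :=
  contDiff_const.add contDiff_mu1
theorem contDiff_mu3 : ContDiff ℝ ∞ fun t : ℝ => 1 - lam t / 2 :=
  contDiff_const.sub contDiff_mu1

/-- half of the disc of the rotation -/
theorem F_half (hC : Con S U Gm) (hξ : Sm S ξ) (hcl : Cl S ξ) {φ : ℝ → E → E}
    (hφ : CM.Cir Z φ) {A : E × ℝ → H} {c0 : E → H} (hA : SMap (Cyl Z) S A) (hc : SMap Z S c0)
    {mu : ℝ → ℝ} (hmu : ContDiff ℝ ∞ mu)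
    (h0 : ∀ x ∈ Z, ∀ t, A (φ t x, 0) = A (x, 0)) (h1 : ∀ x ∈ Z, ∀ t, A (φ t x, 1) = A (x, 1))
    (hU : ∀ x ∈ Z, ∀ t : ℝ, ∀ s ∈ Icc (0 : ℝ) 1, (c0 x, A (φ (2 * Real.pi * mu t) x, s)) ∈ U) :
    Coh Z (K (E := E) (F.pull (fx (fun y : E => y) mu) (F.pull (Fl φ) (K (E := E) (F.pull A ξ)))))
      (Xb Gm ξ c0 (fun y => A (φ (2 * Real.pi * mu 0) y.1, y.2)) -
        Xb Gm ξ c0 (fun y => A (φ (2 * Real.pi * mu 1) y.1, y.2))) := by
  have hFl := smap_Fl hφ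
  have hr : SMap (Cyl Z) (Cyl Z) (fx (fun y : E => y) mu) := smap_repar hmu
  have hf : SMap (Cyl Z) Z (fun y : E × ℝ => Fl φ (fx (fun y : E => y) mu y)) :=
    smap_comp hFl hr
  have hc' : SMap (Cyl Z) S (fun y : E × ℝ => c0 y.1) := smap_comp hc smap_fst
  have hU' : ∀ x ∈ Z, ∀ t : ℝ, ∀ s ∈ Icc (0 : ℝ) 1,
      ((fun y : E × ℝ => c0 y.1) (x, s), A (Fl φ (fx (fun y : E => y) mu (x, t)), s)) ∈ U :=
    fun x hx t s hs => hU x hx t s hs
  have g1 := disc_main (c := fun y : E × ℝ => c0 y.1) hC hξ hcl hf hA hc' hU'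
  have sA : Sm (Cyl Z) (F.pull A ξ) := hξ.pull hA
  have g2 : Eqv Z (K (E := E) (F.pull (fx (fun y : E => y) mu)
      (F.pull (Fl φ) (K (E := E) (F.pull A ξ)))))
      (K (E := E) (F.pull (fun y : E × ℝ => Fl φ (fx (fun y : E => y) mu y))
        (K (E := E) (F.pull A ξ)))) :=
    K_eqv (E := E) (((Sm.K sA).pull hFl).pull hr) ((Sm.K sA).pull hf) (pull_pull hFl hr)
  refine (Coh.of_eqv g2).trans (g1.trans (Coh.of_eqv ?_))
  have e1 := fs_zero (c := fun y : E × ℝ => c0 y.1) hC hξ hf hA hc' hU' 1 (fun x hx t => by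
    rw [lam_one]
    simp only [Fl, fx]
    rw [h1 x hx, h1 x hx])
  have e0 := fs_zero (c := fun y : E × ℝ => c0 y.1) hC hξ hf hA hc' hU' 0 (fun x hx t => by
    rw [lam_zero]
    simp only [Fl, fx]
    rw [h0 x hx, h0 x hx])
  have e2 := (e1.sub e0).sub (Eqv.refl (X := Z)
    (ft Gm ξ (Dm (fun y : E × ℝ => c0 y.1) A
      (fun y : E × ℝ => Fl φ (fx (fun y : E => y) mu y))) 1 -
    ft Gm ξ (Dm (fun y : E × ℝ => c0 y.1) A
      (fun y : E × ℝ => Fl φ (fx (fun y : E => y) mu y))) 0))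
  refine e2.trans (Eqv.of_eq fun x _ => ?_)
  simp only [Pi.sub_apply, Pi.zero_apply, sub_zero, zero_sub, neg_sub]
  rfl

/-- **the disc of the rotation** -/
theorem F_part (hC : Con S U Gm) (hξ : Sm S ξ) (hcl : Cl S ξ) {φ : ℝ → E → E}
    (hφ : CM.Cir Z φ) {A : E × ℝ → H} {c0 c1 : E → H} (hA : SMap (Cyl Z) S A)
    (hc0 : SMap Z S c0) (hc1 : SMap Z S c1)
    (h0 : ∀ x ∈ Z, ∀ t, A (φ t x, 0) = A (x, 0)) (h1 : ∀ x ∈ Z, ∀ t, A (φ t x, 1) = A (x, 1))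
    (hU0 : ∀ x ∈ Z, ∀ t ∈ Icc (0 : ℝ) Real.pi, ∀ s ∈ Icc (0 : ℝ) 1, (c0 x, A (φ t x, s)) ∈ U)
    (hU1 : ∀ x ∈ Z, ∀ t ∈ Icc Real.pi (2 * Real.pi), ∀ s ∈ Icc (0 : ℝ) 1,
      (c1 x, A (φ t x, s)) ∈ U) :
    Coh Z (Wp φ (K (E := E) (F.pull A ξ)))
      ((Xb Gm ξ c0 A - Xb Gm ξ c0 (fun y => A (φ Real.pi y.1, y.2))) -
        (Xb Gm ξ c1 A - Xb Gm ξ c1 (fun y => A (φ Real.pi y.1, y.2)))) := by
  have hpi := Real.pi_pos
  have hFl := smap_Fl hφ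
  have sA : Sm (Cyl Z) (F.pull A ξ) := hξ.pull hA
  have sη : Sm U (eta Gm ξ) := hC.sm_eta hξ
  have sw : Sm (Cyl Z) (F.pull (Fl φ) (K (E := E) (F.pull A ξ))) := (Sm.K sA).pull hFl
  have g1 := F_half (mu := fun t => lam t / 2) hC hξ hcl hφ hA hc0 contDiff_mu1 h0 h1
    (fun x hx t s hs => hU0 x hx _ (by
      have := lam_mem t
      constructor
      · have := this.1; positivity
      · calc 2 * Real.pi * (lam t / 2) = Real.pi * lam t := by ring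
          _ ≤ Real.pi * 1 := by gcongr; exact this.2
          _ = Real.pi := mul_one _) s hs)
  have g2 := F_half (mu := fun t => 1 / 2 + lam t / 2) hC hξ hcl hφ hA hc1 contDiff_mu2 h0 h1
    (fun x hx t s hs => hU1 x hx _ (by
      have := lam_mem t
      constructor
      · have := mul_nonneg hpi.le this.1
        linarith [(by ring : 2 * Real.pi * (1 / 2 + lam t / 2) = Real.pi + Real.pi * lam t)]
      · have := mul_le_mul_of_nonneg_left this.2 hpi.le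
        linarith [(by ring : 2 * Real.pi * (1 / 2 + lam t / 2) = Real.pi + Real.pi * lam t)]) s hs)
  have g3 := (Coh.of_eqv (K_split sw)).trans (g1.add g2)
  have hx0 : ∀ {c : E → H}, SMap Z S c → (∀ x ∈ Z, ∀ s ∈ Icc (0 : ℝ) 1, (c x, A (x, s)) ∈ U) →
      ∀ t0 : ℝ, (∀ x ∈ Z, φ t0 x = x) →
      Eqv Z (Xb Gm ξ c (fun y => A (φ t0 y.1, y.2))) (Xb Gm ξ c A) := by
    intro c hc hm t0 ht0
    have b1 : Bd Z S U c A := ⟨hc, hA, hm⟩
    have hφt : SMap Z Z (φ t0) := ⟨fun x hx => hφ.smooth_right t0 hx, hφ.maps t0⟩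
    have b2 : Bd Z S U c (fun y => A (φ t0 y.1, y.2)) :=
      ⟨hc, smap_comp hA (smap_fx hφt contDiff_id), fun x hx s hs => by
        change (c x, A (φ t0 x, s)) ∈ U
        rw [ht0 x hx]; exact hm x hx s hs⟩
    refine K_pull_congr sη (b2.smap contDiff_lam lam_mem) (b1.smap contDiff_lam lam_mem)
      fun y hy => ?_
    change (c y.1, A (φ t0 y.1, lam y.2)) = (c y.1, A (y.1, lam y.2))
    rw [ht0 _ (mem_Cyl.1 hy)]
  have k0 : (2 * Real.pi * (lam 0 / 2)) = 0 := by rw [lam_zero]; ring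
  have k1 : (2 * Real.pi * (lam 1 / 2)) = Real.pi := by rw [lam_one]; ring
  have k2 : (2 * Real.pi * (1 / 2 + lam 0 / 2)) = Real.pi := by rw [lam_zero]; ring
  have k3 : (2 * Real.pi * (1 / 2 + lam 1 / 2)) = 2 * Real.pi := by rw [lam_one]; ring
  simp only [k0, k1, k2, k3] at g3
  refine Coh.trans g3 (Coh.of_eqv ?_)
  have m0 : ∀ x ∈ Z, ∀ s ∈ Icc (0 : ℝ) 1, (c0 x, A (x, s)) ∈ U := fun x hx s hs => by
    have := hU0 x hx 0 ⟨le_rfl, hpi.le⟩ s hs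
    rwa [hφ.zero x hx] at this
  have m1 : ∀ x ∈ Z, ∀ s ∈ Icc (0 : ℝ) 1, (c1 x, A (x, s)) ∈ U := fun x hx s hs => by
    have := hU1 x hx (2 * Real.pi) ⟨by linarith, le_rfl⟩ s hs
    rwa [hφ.per x hx] at this
  have q0 := hx0 hc0 m0 0 (fun x hx => hφ.zero x hx)
  have q1 := hx0 hc1 m1 (2 * Real.pi) (fun x hx => hφ.per x hx)
  have q2 := (q0.sub (Eqv.refl (X := Z) (Xb Gm ξ c0 (fun y => A (φ Real.pi y.1, y.2))))).add
    ((Eqv.refl (X := Z) (Xb Gm ξ c1 (fun y => A (φ Real.pi y.1, y.2)))).sub q1)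
  refine q2.trans (Eqv.of_eq fun x _ => ?_)
  simp only [Pi.add_apply, Pi.sub_apply]
  abel

/-- the disc of an equivariant family in terms of the boundary terms of the rotation -/
theorem A_bd (hC : Con S U Gm) (hξ : Sm S ξ) (hcl : Cl S ξ) {φ φ' : ℝ → E → E}
    (hφ : CM.Cir Z φ) (hφ' : CM.Cir Z φ') {A c A' : E × ℝ → H} (hA : SMap (Cyl Z) S A)
    (hc : SMap (Cyl Z) S c) (hA' : SMap (Cyl Z) S A')
    (hinv : ∀ x ∈ Z, ∀ t, A (φ t x, 1) = A (x, 1))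
    (hU : ∀ x ∈ Z, ∀ t : ℝ, ∀ s ∈ Icc (0 : ℝ) 1, (c (x, s), A (φ t x, s)) ∈ U)
    (hp : ∀ x ∈ Z, ∀ s ∈ Icc (0 : ℝ) 1, A (φ (Real.pi * s) x, 0) = A' (x, s))
    (hm : ∀ x ∈ Z, ∀ s ∈ Icc (0 : ℝ) 1,
      A (φ (2 * Real.pi - Real.pi * s) x, 0) = A' (φ' Real.pi x, s)) :
    Coh Z (Wp φ (K (E := E) (F.pull A ξ)))
      (-(Xb Gm ξ (fun x => c (x, 0)) A' -
        Xb Gm ξ (fun x => c (x, 0)) (fun y => A' (φ' Real.pi y.1, y.2)))) := by
  have sη : Sm U (eta Gm ξ) := hC.sm_eta hξ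
  have hFl := smap_Fl hφ
  refine (A_part hC hξ hcl hφ hA hc hinv hU).trans (Coh.neg (Coh.of_eqv ?_))
  have hA1 : SMap Z S (fun x : E => A (x, 0)) := smap_comp hA (smap_sl 0)
  have hA0 : SMap (Cyl Z) S (fun y : E × ℝ => A (Fl φ y, 0)) :=
    smap_comp (g := fun x : E => A (x, 0)) (f := Fl φ) hA1 hFl
  have hc0 : SMap Z S (fun x => c (x, 0)) := smap_comp hc (smap_sl 0)
  have hg : SMap (Cyl Z) U (fun y : E × ℝ => (c (y.1, 0), A (Fl φ y, 0))) :=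
    ⟨fun y hy => ((smap_comp hc0 smap_fst).smooth y hy).prodMk (hA0.smooth y hy),
      fun y hy => hU _ (mem_Cyl.1 hy) _ 0 ⟨le_rfl, zero_le_one⟩⟩
  refine (K_split' (sη.pull hg)).trans (Eqv.sub ?_ ?_)
  · have r1 : SMap (Cyl Z) (Cyl Z) (fx (fun y : E => y) fun t => lam t / 2) :=
      smap_repar contDiff_mu1
    have b : Bd Z S U (fun x => c (x, 0)) A' := ⟨hc0, hA', fun x hx s hs => by
      rw [← hp x hx s hs]; exact hU x hx _ 0 ⟨le_rfl, zero_le_one⟩⟩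
    have e1 : Eqv Z (K (E := E) (F.pull (fx (fun y : E => y) fun t => lam t / 2)
        (F.pull (fun y : E × ℝ => (c (y.1, 0), A (Fl φ y, 0))) (eta Gm ξ))))
        (K (E := E) (F.pull (fun y : E × ℝ => (fun y : E × ℝ => (c (y.1, 0), A (Fl φ y, 0)))
          (fx (fun y : E => y) (fun t => lam t / 2) y)) (eta Gm ξ))) :=
      K_eqv (E := E) ((sη.pull hg).pull r1) (sη.pull (smap_comp hg r1)) (pull_pull hg r1)
    refine e1.trans (K_pull_congr sη (smap_comp hg r1) (b.smap contDiff_lam lam_mem)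
      fun y hy => ?_)
    have h2 := hp y.1 (mem_Cyl.1 hy) (lam y.2) (lam_mem _)
    simp only [fx, Fl]
    rw [← h2]
    congr 4
    ring
  · have r1 : SMap (Cyl Z) (Cyl Z) (fx (fun y : E => y) fun t => 1 - lam t / 2) :=
      smap_repar contDiff_mu3
    have hφt : SMap Z Z (φ' Real.pi) := ⟨fun x hx => hφ'.smooth_right _ hx, hφ'.maps _⟩
    have b : Bd Z S U (fun x => c (x, 0)) (fun y => A' (φ' Real.pi y.1, y.2)) :=
      ⟨hc0, smap_comp hA' (smap_fx hφt contDiff_id), fun x hx s hs => by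
        change (c (x, 0), A' (φ' Real.pi x, s)) ∈ U
        rw [← hm x hx s hs]; exact hU x hx _ 0 ⟨le_rfl, zero_le_one⟩⟩
    have e1 : Eqv Z (K (E := E) (F.pull (fx (fun y : E => y) fun t => 1 - lam t / 2)
        (F.pull (fun y : E × ℝ => (c (y.1, 0), A (Fl φ y, 0))) (eta Gm ξ))))
        (K (E := E) (F.pull (fun y : E × ℝ => (fun y : E × ℝ => (c (y.1, 0), A (Fl φ y, 0)))
          (fx (fun y : E => y) (fun t => 1 - lam t / 2) y)) (eta Gm ξ))) :=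
      K_eqv (E := E) ((sη.pull hg).pull r1) (sη.pull (smap_comp hg r1)) (pull_pull hg r1)
    refine e1.trans (K_pull_congr sη (smap_comp hg r1) (b.smap contDiff_lam lam_mem)
      fun y hy => ?_)
    have h2 := hm y.1 (mem_Cyl.1 hy) (lam y.2) (lam_mem _)
    simp only [fx, Fl]
    rw [← h2]
    congr 4
    ring

/-- **the comparison theorem, abstract form** -/
theorem compare (hC : Con S U Gm) (hξ : Sm S ξ) (hcl : Cl S ξ) {φ φ' : ℝ → E → E}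
    (hφ : CM.Cir Z φ) (hφ' : CM.Cir Z φ') {A B cA cB A' : E × ℝ → H} (hA : SMap (Cyl Z) S A)
    (hB : SMap (Cyl Z) S B) (hcA : SMap (Cyl Z) S cA) (hcB : SMap (Cyl Z) S cB)
    (hA' : SMap (Cyl Z) S A')
    (iA : ∀ x ∈ Z, ∀ t, A (φ t x, 1) = A (x, 1)) (iB : ∀ x ∈ Z, ∀ t, B (φ t x, 1) = B (x, 1))
    (UA : ∀ x ∈ Z, ∀ t : ℝ, ∀ s ∈ Icc (0 : ℝ) 1, (cA (x, s), A (φ t x, s)) ∈ U)
    (UB : ∀ x ∈ Z, ∀ t : ℝ, ∀ s ∈ Icc (0 : ℝ) 1, (cB (x, s), B (φ t x, s)) ∈ U)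
    (hAB : ∀ x ∈ Z, A (x, 0) = B (x, 0))
    (hp : ∀ x ∈ Z, ∀ s ∈ Icc (0 : ℝ) 1, A (φ (Real.pi * s) x, 0) = A' (x, s))
    (hm : ∀ x ∈ Z, ∀ s ∈ Icc (0 : ℝ) 1,
      A (φ (2 * Real.pi - Real.pi * s) x, 0) = A' (φ' Real.pi x, s))
    (h0 : ∀ x ∈ Z, ∀ t, A' (φ' t x, 0) = A' (x, 0))
    (h1 : ∀ x ∈ Z, ∀ t, A' (φ' t x, 1) = A' (x, 1))
    (hU0 : ∀ x ∈ Z, ∀ t ∈ Icc (0 : ℝ) Real.pi, ∀ s ∈ Icc (0 : ℝ) 1,
      (cA (x, 0), A' (φ' t x, s)) ∈ U)
    (hU1 : ∀ x ∈ Z, ∀ t ∈ Icc Real.pi (2 * Real.pi), ∀ s ∈ Icc (0 : ℝ) 1,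
      (cB (x, 0), A' (φ' t x, s)) ∈ U) :
    Coh Z (Wp φ (K (E := E) (F.pull A ξ)) - Wp φ (K (E := E) (F.pull B ξ)))
      (-(Wp φ' (K (E := E) (F.pull A' ξ)))) := by
  have a1 := A_bd hC hξ hcl hφ hφ' hA hcA hA' iA UA hp hm
  have a2 := A_bd hC hξ hcl hφ hφ' hB hcB hA' iB UB
    (fun x hx s hs => by rw [← hAB _ (hφ.maps _ hx)]; exact hp x hx s hs)
    (fun x hx s hs => by rw [← hAB _ (hφ.maps _ hx)]; exact hm x hx s hs)
  have a3 := F_part (c0 := fun x => cA (x, 0)) (c1 := fun x => cB (x, 0)) hC hξ hcl hφ' hA'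
    (smap_comp hcA (smap_sl 0)) (smap_comp hcB (smap_sl 0)) h0 h1 hU0 hU1
  refine (a1.sub a2).trans (Coh.trans (Coh.of_eqv (Eqv.of_eq fun x _ => ?_)) a3.neg.symm)
  simp only [Pi.sub_apply, Pi.neg_apply]
  abel

end Crest.Agent.R208.CG
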