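import Crest.Agent.R208.VC2

/-! Row 208, block VC (helper997), part VC3: the forms `Av`, `xi`, `YY`, `psi` of a smooth circle
action on a submanifold: smoothness, restriction to tangent spaces, naturality, invariance,
doubling. -/

set_option autoImplicit false
set_option linter.unusedSectionVars false
set_option linter.unusedVariables false

open MeasureTheory Set Filter Topology Module
open scoped ContDiff
open Crest.Agent.R208.F Crest.Agent.R208.FI Crest.Agent.R208.CW Crest.Agent.R208.T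
open Crest.Agent.R208.CM (Cir gen)

noncomputable section

namespace Crest.Agent.R208.VC

universe u v
variable {E : Type u} [NormedAddCommGroup E] [NormedSpace ℝ E] [FiniteDimensional ℝ E]
  {F' : Type v} [NormedAddCommGroup F'] [NormedSpace ℝ F'] [FiniteDimensional ℝ F']
  {m : ℕ} {X : Set E} {φ : ℝ → E → E} {a b : E → Ext E} {x : E}

/-- the pulled back family, normalised to period one -/
def Wn (φ : ℝ → E → E) (b : E → Ext E) (p : E × ℝ) : Ext E := Wt φ b (p.1, 2 * Real.pi * p.2)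

theorem smT_Wn (h : Act X φ) (hb : Sm X b) : SmT X (Wn φ b) :=
  (smT_Wt h hb).time (f := fun s => 2 * Real.pi * s) (by fun_prop)

theorem Wn_eq (h : Act X φ) (hx : x ∈ X) (s : ℝ) :
    Wn φ b (x, s) = F.pull (φ (2 * Real.pi * s)) b x := Wt_eq h hx _

/-- the average of `b` over the circle -/
def Av (φ : ℝ → E → E) (b : E → Ext E) : E → Ext E := I1 (Wn φ b)

/-- the contraction of the average with the generator -/
def xi (φ : ℝ → E → E) (b : E → Ext E) : E → Ext E := iV φ (Av φ b)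

/-- the weighted average of `ι_V φ_t^* b`, primitive of `Av - φ_s^* b` -/
def Lf (φ : ℝ → E → E) (b : E → Ext E) (p : E × ℝ) : Ext E :=
  ∫ τ in (0 : ℝ)..1, (2 * Real.pi * (1 - τ)) • ii (gen φ p.1) (Wn φ b (p.1, p.2 + τ))

/-- the integrand of `YY` -/
def Yg (φ : ℝ → E → E) (b : E → Ext E) (p : E × ℝ) : Ext E :=
  (Wn φ b p * Wn φ b p + Av φ b p.1 * Wn φ b p) * Lf φ b p

/-- the primitive of `Av³` -/
def YY (φ : ℝ → E → E) (b : E → Ext E) : E → Ext E := I1 (Yg φ b)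

/-- the basic form `ξ ι_V Y` -/
def psi (φ : ℝ → E → E) (b : E → Ext E) : E → Ext E := xi φ b * iV φ (YY φ b)

theorem sm_Av (h : Act X φ) (hb : Sm X b) : Sm X (Av φ b) := (smT_Wn h hb).sm_I1
theorem sm_xi (h : Act X φ) (hb : Sm X b) : Sm X (xi φ b) := Sm.iV h (sm_Av h hb)

theorem smT_Lf (h : Act X φ) (hb : Sm X b) : SmT X (Lf φ b) := by
  intro x hx s
  have h1 : ∀ τ : ℝ, ContDiffAt ℝ ∞ (fun q : (E × ℝ) × ℝ =>
      (2 * Real.pi * (1 - q.2)) • ii (gen φ q.1.1) (Wn φ b (q.1.1, q.1.2 + q.2))) ((x, s), τ) := by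
    intro τ
    have h2 : ContDiffAt ℝ ∞ (fun q : (E × ℝ) × ℝ => Wn φ b (q.1.1, q.1.2 + q.2)) ((x, s), τ) :=
      ContDiffAt.comp (g := Wn φ b) (f := fun q : (E × ℝ) × ℝ => (q.1.1, q.1.2 + q.2)) ((x, s), τ)
        (smT_Wn h hb x hx (s + τ)) (by fun_prop)
    have h3 : ContDiffAt ℝ ∞ (fun q : (E × ℝ) × ℝ => gen φ q.1.1) ((x, s), τ) :=
      ContDiffAt.comp (g := gen φ) (f := fun q : (E × ℝ) × ℝ => q.1.1) ((x, s), τ)
        (smooth_gen h hx) (by fun_prop)
    have h4 : ContDiffAt ℝ ∞ (fun q : (E × ℝ) × ℝ => 2 * Real.pi * (1 - q.2)) ((x, s), τ) := by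
      fun_prop
    exact h4.smul (contDiffAt_ii h3 h2)
  exact contDiffAt_I1 (g := fun q : (E × ℝ) × ℝ =>
      (2 * Real.pi * (1 - q.2)) • ii (gen φ q.1.1) (Wn φ b (q.1.1, q.1.2 + q.2))) fun τ _ => h1 τ

theorem smT_Yg (h : Act X φ) (hb : Sm X b) : SmT X (Yg φ b) :=
  (((smT_Wn h hb).mul (smT_Wn h hb)).add ((SmT.of_sm (sm_Av h hb)).mul (smT_Wn h hb))).mul
    (smT_Lf h hb)

theorem sm_YY (h : Act X φ) (hb : Sm X b) : Sm X (YY φ b) := (smT_Yg h hb).sm_I1
theorem sm_iYY (h : Act X φ) (hb : Sm X b) : Sm X (iV φ (YY φ b)) := Sm.iV h (sm_YY h hb)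
theorem sm_psi (h : Act X φ) (hb : Sm X b) : Sm X (psi φ b) := (sm_xi h hb).mul (sm_iYY h hb)

/-! ### the forms at a point in terms of the curve -/

theorem Av_eq (x : E) : Av φ b x = MM fun s => Wn φ b (x, s) := rfl
theorem xi_eq (x : E) : xi φ b x = ii (gen φ x) (MM fun s => Wn φ b (x, s)) := rfl
theorem YY_eq (x : E) : YY φ b x = YA (gen φ x) fun s => Wn φ b (x, s) := rfl
theorem psi_eq (x : E) : psi φ b x = PSI (gen φ x) fun s => Wn φ b (x, s) := rfl

/-- the restricted curve -/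
def cv (X : Set E) (φ : ℝ → E → E) (b : E → Ext E) (x : E) (s : ℝ) : Ext (Tan X x) :=
  rsL X x (Wn φ b (x, s))

/-- the generator as a tangent vector -/
def tg (h : Act X φ) (hx : x ∈ X) : Tan X x := ⟨gen φ x, h.gen_mem hx⟩

theorem continuous_Wn (h : Act X φ) (hb : Sm X b) (hx : x ∈ X) :
    Continuous fun s => Wn φ b (x, s) := (smT_Wn h hb).continuous hx

theorem continuous_cv (h : Act X φ) (hb : Sm X b) (hx : x ∈ X) : Continuous (cv X φ b x) :=
  (rsL X x).continuous.comp (continuous_Wn h hb hx)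

theorem rs_Av (h : Act X φ) (hb : Sm X b) (hx : x ∈ X) : rsL X x (Av φ b x) = MM (cv X φ b x) :=
  pb_MM (Tan X x).subtype (continuous_Wn h hb hx)

theorem rs_xi (h : Act X φ) (hb : Sm X b) (hx : x ∈ X) :
    rsL X x (xi φ b x) = ii (tg h hx) (MM (cv X φ b x)) := by
  rw [← rs_Av h hb hx]
  exact pb_ii_tan (h.gen_mem hx) _

theorem rs_YY (h : Act X φ) (hb : Sm X b) (hx : x ∈ X) :
    rsL X x (YY φ b x) = YA (tg h hx) (cv X φ b x) :=
  pb_YA (Tan X x).subtype (tg h hx) (continuous_Wn h hb hx)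

theorem rs_psi (h : Act X φ) (hb : Sm X b) (hx : x ∈ X) :
    rsL X x (psi φ b x) = PSI (tg h hx) (cv X φ b x) :=
  pb_PSI (Tan X x).subtype (tg h hx) (continuous_Wn h hb hx)

theorem rs_Lf (h : Act X φ) (hb : Sm X b) (hx : x ∈ X) (s : ℝ) :
    rsL X x (Lf φ b (x, s)) = LAM (tg h hx) (cv X φ b x) s :=
  pb_LAM (Tan X x).subtype (tg h hx) (continuous_Wn h hb hx) s

theorem cv_periodic (h : Act X φ) (hx : x ∈ X) : Function.Periodic (cv X φ b x) 1 := by
  intro s
  rw [cv, cv, Wn_eq h hx, Wn_eq h hx]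
  refine Eqv.pull_congr ((smap h _).diff hx) ((smap h _).diff hx) hx fun y hy => ?_
  rw [mul_add, mul_one, h.add _ _ y hy, h.per y hy]

theorem cv_even (h : Act X φ) (he : ∀ x ∈ X, F.inv (b x) = b x) (hx : x ∈ X) (s : ℝ) :
    F.inv (cv X φ b x s) = cv X φ b x s := by
  rw [cv, rsL_apply, ← pb_inv, Wn_eq h hx, F.pull, ← pb_inv, he _ (h.maps _ hx)]

theorem Av_even (h : Act X φ) (hb : Sm X b) (he : ∀ x ∈ X, F.inv (b x) = b x) (hx : x ∈ X) :
    F.inv (Av φ b x) = Av φ b x :=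
  inv_MM (continuous_Wn h hb hx) fun s => by rw [Wn_eq h hx, F.pull, ← pb_inv, he _ (h.maps _ hx)]

theorem xi_odd (h : Act X φ) (hb : Sm X b) (he : ∀ x ∈ X, F.inv (b x) = b x) (hx : x ∈ X) :
    F.inv (xi φ b x) = - xi φ b x := odd_ii (Av_even h hb he hx) _

/-- forms with the same restricted curves -/
theorem cv_congr (h : Act X φ) (hab : Eqv X a b) (hx : x ∈ X) : cv X φ a x = cv X φ b x := by
  funext s
  exact rs_Wt_of_eqv h hab hx _

theorem eqv_Av (h : Act X φ) (ha : Sm X a) (hb : Sm X b) (hab : Eqv X a b) :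
    Eqv X (Av φ a) (Av φ b) := eqv_iff.2 fun x hx => by
  have h1 := rs_Av h ha hx
  rw [cv_congr h hab hx, ← rs_Av h hb hx] at h1
  exact h1

theorem eqv_xi (h : Act X φ) (ha : Sm X a) (hb : Sm X b) (hab : Eqv X a b) :
    Eqv X (xi φ a) (xi φ b) := Eqv.iV h (eqv_Av h ha hb hab)

theorem eqv_YY (h : Act X φ) (ha : Sm X a) (hb : Sm X b) (hab : Eqv X a b) :
    Eqv X (YY φ a) (YY φ b) := eqv_iff.2 fun x hx => by
  have h1 := rs_YY h ha hx
  rw [cv_congr h hab hx, ← rs_YY h hb hx] at h1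
  exact h1

theorem eqv_psi (h : Act X φ) (ha : Sm X a) (hb : Sm X b) (hab : Eqv X a b) :
    Eqv X (psi φ a) (psi φ b) := eqv_iff.2 fun x hx => by
  have h1 := rs_psi h ha hx
  rw [cv_congr h hab hx, ← rs_psi h hb hx] at h1
  exact h1

/-! ### naturality -/

section nat
variable {X' : Set F'} {φ' : ℝ → F' → F'} {g : F' → E} {y : F'}

/-- equivariant maps map the generator to the generator -/
theorem fderiv_gen_eq (h : Act X φ) (h' : Act X' φ') (hg : SMap X' X g)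
    (heq : ∀ t, ∀ y ∈ X', g (φ' t y) = φ t (g y)) (hy : y ∈ X') :
    fderiv ℝ g y (gen φ' y) = gen φ (g y) := by
  have h1 := h'.hasDerivAt hy 0
  rw [h'.zero y hy] at h1
  have h2 : HasFDerivAt g (fderiv ℝ g y) (φ' 0 y) := by
    rw [h'.zero y hy]; exact (hg.diff hy).hasFDerivAt
  have h3 : HasDerivAt (fun s => g (φ' s y)) (fderiv ℝ g y (gen φ' y)) 0 :=
    h2.comp_hasDerivAt 0 h1
  have h4 : (fun s : ℝ => g (φ' s y)) = fun s => φ s (g y) := by
    funext s; exact heq s y hy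
  rw [h4] at h3
  have h5 := h.hasDerivAt (hg.maps hy) 0
  rw [h.zero _ (hg.maps hy)] at h5
  exact h3.unique h5

/-- the derivative restricted to the tangent space -/
def dr (X' : Set F') (g : F' → E) (y : F') : Tan X' y →ₗ[ℝ] E :=
  ((fderiv ℝ g y : F' →L[ℝ] E) : F' →ₗ[ℝ] E) ∘ₗ (Tan X' y).subtype

theorem pb_dr (c : E → Ext E) (y : F') :
    rsL X' y (F.pull g c y) = pb (dr X' g y) (c (g y)) := by
  rw [rsL_apply, F.pull, pb_comp]; rfl

theorem dr_gen (h : Act X φ) (h' : Act X' φ') (hg : SMap X' X g)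
    (heq : ∀ t, ∀ y ∈ X', g (φ' t y) = φ t (g y)) (hy : y ∈ X') :
    dr X' g y (tg h' hy) = gen φ (g y) := fderiv_gen_eq h h' hg heq hy

theorem cv_nat (h : Act X φ) (h' : Act X' φ') (hg : SMap X' X g)
    (heq : ∀ t, ∀ y ∈ X', g (φ' t y) = φ t (g y)) (hy : y ∈ X') :
    (fun s => pb (dr X' g y) (Wn φ b (g y, s))) = cv X' φ' (F.pull g b) y := by
  funext s
  have h1 : pb (dr X' g y) (Wn φ b (g y, s)) =
      rsL X' y (F.pull g (F.pull (φ (2 * Real.pi * s)) b) y) := by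
    rw [pb_dr, Wn_eq h (hg.maps hy)]
  have h2 : F.pull g (F.pull (φ (2 * Real.pi * s)) b) y =
      F.pull (fun z => φ (2 * Real.pi * s) (g z)) b y :=
    F.pull_comp (hg.diff hy) ((smap h _).diff (hg.maps hy))
  have h3 : F.pull (φ' (2 * Real.pi * s)) (F.pull g b) y =
      F.pull (fun z => g (φ' (2 * Real.pi * s) z)) b y :=
    F.pull_comp ((smap h' _).diff hy) (hg.diff (h'.maps _ hy))
  rw [h1, h2, cv, Wn_eq h' hy, h3]
  exact Eqv.pull_congr (((smap h _).comp hg).diff hy) ((hg.comp (smap h' _)).diff hy) hy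
    fun z hz => (heq _ z hz).symm

theorem nat_Av (h : Act X φ) (h' : Act X' φ') (hg : SMap X' X g)
    (heq : ∀ t, ∀ y ∈ X', g (φ' t y) = φ t (g y)) (hb : Sm X b) :
    Eqv X' (F.pull g (Av φ b)) (Av φ' (F.pull g b)) := eqv_iff.2 fun y hy => by
  have h1 : pb (Tan X' y).subtype (F.pull g (Av φ b) y) = pb (dr X' g y) (Av φ b (g y)) := pb_dr _ _
  rw [h1, Av_eq, pb_MM _ (continuous_Wn h hb (hg.maps hy)), cv_nat h h' hg heq hy]
  exact (rs_Av h' (hb.pull hg) hy).symm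

theorem nat_xi (h : Act X φ) (h' : Act X' φ') (hg : SMap X' X g)
    (heq : ∀ t, ∀ y ∈ X', g (φ' t y) = φ t (g y)) (hb : Sm X b) :
    Eqv X' (F.pull g (xi φ b)) (xi φ' (F.pull g b)) := eqv_iff.2 fun y hy => by
  have h1 : pb (Tan X' y).subtype (F.pull g (xi φ b) y) = pb (dr X' g y) (xi φ b (g y)) := pb_dr _ _
  have h2 := pb_MM (dr X' g y) (continuous_Wn h hb (hg.maps hy))
  rw [cv_nat h h' hg heq hy] at h2
  rw [h1, xi_eq, ← dr_gen h h' hg heq hy, ← ii_pb, h2]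
  exact (rs_xi h' (hb.pull hg) hy).symm

theorem nat_YY (h : Act X φ) (h' : Act X' φ') (hg : SMap X' X g)
    (heq : ∀ t, ∀ y ∈ X', g (φ' t y) = φ t (g y)) (hb : Sm X b) :
    Eqv X' (F.pull g (YY φ b)) (YY φ' (F.pull g b)) := eqv_iff.2 fun y hy => by
  have h1 : pb (Tan X' y).subtype (F.pull g (YY φ b) y) = pb (dr X' g y) (YY φ b (g y)) := pb_dr _ _
  rw [h1, YY_eq, ← dr_gen h h' hg heq hy, pb_YA _ _ (continuous_Wn h hb (hg.maps hy)),
    cv_nat h h' hg heq hy]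
  exact (rs_YY h' (hb.pull hg) hy).symm

/-- **naturality** -/
theorem nat_psi (h : Act X φ) (h' : Act X' φ') (hg : SMap X' X g)
    (heq : ∀ t, ∀ y ∈ X', g (φ' t y) = φ t (g y)) (hb : Sm X b) :
    Eqv X' (F.pull g (psi φ b)) (psi φ' (F.pull g b)) := eqv_iff.2 fun y hy => by
  have h1 : pb (Tan X' y).subtype (F.pull g (psi φ b) y) = pb (dr X' g y) (psi φ b (g y)) :=
    pb_dr _ _
  rw [h1, psi_eq, ← dr_gen h h' hg heq hy, pb_PSI _ _ (continuous_Wn h hb (hg.maps hy)),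
    cv_nat h h' hg heq hy]
  exact (rs_psi h' (hb.pull hg) hy).symm

end nat

/-! ### invariance -/

theorem cv_shift (h : Act X φ) (hx : x ∈ X) (t : ℝ) :
    cv X φ (F.pull (φ t) b) x = fun s => cv X φ b x (s + t / (2 * Real.pi)) := by
  funext s
  have h3 : F.pull (φ (2 * Real.pi * s)) (F.pull (φ t) b) x =
      F.pull (fun z => φ t (φ (2 * Real.pi * s) z)) b x :=
    F.pull_comp ((smap h _).diff hx) ((smap h _).diff (h.maps _ hx))
  rw [cv, cv, Wn_eq h hx, Wn_eq h hx, h3]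
  refine Eqv.pull_congr (((smap h _).comp (smap h _)).diff hx) ((smap h _).diff hx) hx
    fun z hz => ?_
  rw [← h.add _ _ z hz]
  congr 1
  have := Real.pi_pos
  field_simp
  ring

theorem comm_act (h : Act X φ) (t : ℝ) : ∀ s, ∀ y ∈ X, φ t (φ s y) = φ s (φ t y) := fun s y hy => by
  rw [← h.add _ _ y hy, ← h.add _ _ y hy, add_comm]

theorem cvp (b : E → Ext E) (h : Act X φ) (hx : x ∈ X) : Function.Periodic (cv X φ b x) 1 :=
  cv_periodic h hx

theorem inv_Av (h : Act X φ) (hb : Sm X b) : Inv X φ (Av φ b) := by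
  intro t
  refine (nat_Av h h (smap h t) (comm_act h t) hb).trans (eqv_iff.2 fun x hx => ?_)
  have h1 := rs_Av h (hb.pull (smap h t)) hx
  rw [cv_shift h hx, MM_shift (w := cv X φ b x) (cvp b h hx) (t / (2 * Real.pi)),
    ← rs_Av h hb hx] at h1
  exact h1

theorem inv_xi (h : Act X φ) (hb : Sm X b) : Inv X φ (xi φ b) := by
  intro t
  refine (nat_xi h h (smap h t) (comm_act h t) hb).trans (eqv_iff.2 fun x hx => ?_)
  have h1 := rs_xi h (hb.pull (smap h t)) hx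
  rw [cv_shift h hx, MM_shift (w := cv X φ b x) (cvp b h hx) (t / (2 * Real.pi)),
    ← rs_xi h hb hx] at h1
  exact h1

theorem inv_YY (h : Act X φ) (hb : Sm X b) : Inv X φ (YY φ b) := by
  intro t
  refine (nat_YY h h (smap h t) (comm_act h t) hb).trans (eqv_iff.2 fun x hx => ?_)
  have h1 := rs_YY h (hb.pull (smap h t)) hx
  rw [cv_shift h hx, YA_shift (w := cv X φ b x) _ (cvp b h hx) (t / (2 * Real.pi)),
    ← rs_YY h hb hx] at h1
  exact h1

/-- **invariance** -/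
theorem inv_psi (h : Act X φ) (hb : Sm X b) : Inv X φ (psi φ b) := by
  intro t
  refine (nat_psi h h (smap h t) (comm_act h t) hb).trans (eqv_iff.2 fun x hx => ?_)
  have h1 := rs_psi h (hb.pull (smap h t)) hx
  rw [cv_shift h hx, PSI_shift (w := cv X φ b x) _ (cvp b h hx) (t / (2 * Real.pi)),
    ← rs_psi h hb hx] at h1
  exact h1

theorem Inv.mul {a b : E → Ext E} (ha : Inv X φ a) (hb : Inv X φ b) : Inv X φ (a * b) := fun t => by
  rw [pull_mul']; exact (ha t).mul (hb t)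
theorem Inv.add {a b : E → Ext E} (ha : Inv X φ a) (hb : Inv X φ b) : Inv X φ (a + b) := fun t => by
  rw [pull_add']; exact (ha t).add (hb t)
theorem Inv.sub {a b : E → Ext E} (ha : Inv X φ a) (hb : Inv X φ b) : Inv X φ (a - b) := fun t => by
  rw [pull_sub']; exact (ha t).sub (hb t)
theorem Inv.smul {a : E → Ext E} (r : ℝ) (ha : Inv X φ a) : Inv X φ (r • a) := fun t => by
  rw [pull_smul']; exact (ha t).smul r
theorem Inv.iV (h : Act X φ) {a : E → Ext E} (ha : Inv X φ a) : Inv X φ (VC.iV φ a) := fun t => by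
  refine eqv_iff.2 fun x hx => ?_
  have h1 : pb (Tan X x).subtype (F.pull (φ t) (VC.iV φ a) x) =
      pb (dr X (φ t) x) (VC.iV φ a (φ t x)) := pb_dr _ _
  rw [h1, VC.iV, ← dr_gen h h (smap h t) (comm_act h t) hx, ← ii_pb,
    show pb (dr X (φ t) x) (a (φ t x)) = rsL X x (F.pull (φ t) a x) from (pb_dr a x).symm,
    rsL_apply, eqv_iff.1 (ha t) x hx]
  exact (pb_ii_tan (h.gen_mem hx) _).symm

/-! ### vanishing -/

/-- the forms vanish at the points with constant orbit loops -/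
theorem rs_xi_eq_zero (h : Act X φ) (hb : Sm X b) (hx : x ∈ X)
    (h0 : ∀ s, ii (tg h hx) (cv X φ b x s) = 0) : rsL X x (xi φ b x) = 0 := by
  have h2 := (iiL (tg h hx)).intervalIntegral_comp_comm
    ((continuous_cv h hb hx).intervalIntegrable (μ := volume) 0 1)
  rw [rs_xi h hb hx]
  show iiL (tg h hx) (∫ s in (0 : ℝ)..1, cv X φ b x s) = 0
  rw [← h2]
  simp [h0]

theorem rs_psi_eq_zero (h : Act X φ) (hb : Sm X b) (hx : x ∈ X)
    (h0 : ∀ s, ii (tg h hx) (cv X φ b x s) = 0) : rsL X x (psi φ b x) = 0 := by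
  have h1 := rs_xi_eq_zero h hb hx h0
  rw [rsL_apply] at h1 ⊢
  rw [psi, Pi.mul_apply, map_mul, h1, zero_mul]

/-- for `b = f^* om` and a constant loop `t ↦ f (φ_t x)` -/
theorem ii_cv_pull {f : E → F'} {om : F' → Ext F'} (h : Act X φ) (hx : x ∈ X)
    (hf : ∀ t, DifferentiableAt ℝ f (φ t x)) (hc : ∀ t, f (φ t x) = f x) (s : ℝ) :
    ii (tg h hx) (cv X φ (F.pull f om) x s) = 0 := by
  have h1 : F.pull (φ (2 * Real.pi * s)) (F.pull f om) x =
      F.pull (fun z => f (φ (2 * Real.pi * s) z)) om x :=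
    F.pull_comp ((smap h _).diff hx) (hf _)
  rw [cv, Wn_eq h hx, h1, rsL_apply, F.pull, ii_pb, ii_pb]
  have h2 : fderiv ℝ (fun z => f (φ (2 * Real.pi * s) z)) x (gen φ x) = 0 := by
    have e1 : HasFDerivAt (fun z => f (φ (2 * Real.pi * s) z))
        (fderiv ℝ (fun z => f (φ (2 * Real.pi * s) z)) x) (φ 0 x) := by
      rw [h.zero x hx]
      exact ((hf _).comp x ((smap h _).diff hx)).hasFDerivAt
    have e2 := h.hasDerivAt hx 0
    rw [h.zero x hx] at e2
    have e3 : HasDerivAt (fun r => f (φ (2 * Real.pi * s) (φ r x)))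
        (fderiv ℝ (fun z => f (φ (2 * Real.pi * s) z)) x (gen φ x)) 0 :=
      HasFDerivAt.comp_hasDerivAt (l := fun z => f (φ (2 * Real.pi * s) z)) (f := fun r => φ r x)
        0 e1 e2
    have e4 : (fun r => f (φ (2 * Real.pi * s) (φ r x))) = fun _ => f x := by
      funext r; rw [← h.add _ _ x hx, hc]
    rw [e4] at e3
    exact e3.unique (hasDerivAt_const _ _)
  have h3 : ((fderiv ℝ (fun z => f (φ (2 * Real.pi * s) z)) x : E →L[ℝ] F') : E →ₗ[ℝ] F')
      ((Tan X x).subtype (tg h hx)) = 0 := h2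
  rw [h3, map_zero, LinearMap.zero_apply, map_zero, map_zero]

/-! ### doubling -/

/-- the doubled action -/
def dbl (φ : ℝ → E → E) (t : ℝ) : E → E := φ (2 * t)

theorem Act.dbl (h : Act X φ) : Act X (VC.dbl φ) where
  smooth := fun t x hx => ContDiffAt.comp (g := fun q : ℝ × E => φ q.1 q.2)
    (f := fun q : ℝ × E => (2 * q.1, q.2)) (t, x) (h.smooth (2 * t) x hx) (by fun_prop)
  maps := fun t => h.maps _
  zero := fun x hx => by rw [VC.dbl, mul_zero, h.zero x hx]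
  add := fun s t x hx => by rw [VC.dbl, VC.dbl, VC.dbl, mul_add, h.add _ _ x hx]
  per := fun x hx => by
    rw [VC.dbl, two_mul, h.add _ _ x hx, h.per x hx, h.per x hx]

theorem gen_dbl (h : Act X φ) (hx : x ∈ X) : gen (dbl φ) x = (2 : ℝ) • gen φ x := by
  have h1 := h.hasDerivAt hx 0
  rw [h.zero x hx] at h1
  have h2 : HasDerivAt (fun t : ℝ => 2 * t) 2 0 := by simpa using (hasDerivAt_id (0 : ℝ)).const_mul 2
  have h3 : HasDerivAt (fun s => φ s x) (gen φ x) ((fun t : ℝ => 2 * t) 0) := by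
    simpa using h1
  exact (h3.scomp 0 h2).deriv

theorem cv_dbl (h : Act X φ) (hx : x ∈ X) :
    cv X (dbl φ) b x = fun s => cv X φ b x (2 * s) := by
  funext s
  rw [cv, cv, Wn_eq h.dbl hx, Wn_eq h hx, dbl, mul_left_comm]

theorem tg_dbl (h : Act X φ) (hx : x ∈ X) : tg h.dbl hx = (2 : ℝ) • tg h hx :=
  Subtype.ext (gen_dbl h hx)

theorem Av_dbl (h : Act X φ) (hb : Sm X b) : Eqv X (Av (dbl φ) b) (Av φ b) :=
  eqv_iff.2 fun x hx => by
  have h1 := rs_Av h.dbl hb hx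
  rw [cv_dbl h hx, MM_double (w := cv X φ b x) (continuous_cv h hb hx) (cvp b h hx), ← rs_Av h hb hx] at h1
  exact h1

theorem xi_dbl (h : Act X φ) (hb : Sm X b) : Eqv X (xi (dbl φ) b) ((2 : ℝ) • xi φ b) :=
  eqv_iff.2 fun x hx => by
  have h1 := rs_xi h.dbl hb hx
  rw [cv_dbl h hx, MM_double (w := cv X φ b x) (continuous_cv h hb hx) (cvp b h hx), tg_dbl h hx, map_smul,
    LinearMap.smul_apply, ← rs_xi h hb hx, ← map_smul] at h1
  exact h1

/-- **doubling** -/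
theorem psi_dbl (h : Act X φ) (hb : Sm X b) (he : ∀ x ∈ X, F.inv (b x) = b x) :
    Eqv X (psi (dbl φ) b) ((4 : ℝ) • psi φ b) :=
  eqv_iff.2 fun x hx => by
  have h1 := rs_psi h.dbl hb hx
  rw [cv_dbl h hx, tg_dbl h hx, PSI_double (w := cv X φ b x) _ (continuous_cv h hb hx) (cvp b h hx)
    (cv_even h he hx), ← rs_psi h hb hx, ← map_smul] at h1
  exact h1

end Crest.Agent.R208.VC
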