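import Crest.Agent.R208.CG3
import Crest.Agent.R208.VC3

/-! Row 208, block RR, piece (CG) (helper99), part CG8: interchange of the two fibre integrals;
`Wp φ = 2π xi φ`; the ray integral of `xi φ b`. -/

set_option autoImplicit false
set_option linter.unusedSectionVars false
set_option linter.unusedVariables false

open MeasureTheory Set Filter Topology Module
open scoped ContDiff
open Crest.Agent.R208.F Crest.Agent.R208.FI Crest.Agent.R208.CW Crest.Agent.R208.T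
open Crest.Agent.R208.RR

noncomputable section

namespace Crest.Agent.R208.CG

universe u
variable {E : Type u} [NormedAddCommGroup E] [NormedSpace ℝ E] [FiniteDimensional ℝ E]
  {E' : Type u} [NormedAddCommGroup E'] [NormedSpace ℝ E'] [FiniteDimensional ℝ E']
  {Z : Set E} {Y : Set E'} {x : E}

/-- contraction with the two parameter directions -/
def ig2 (w : (E × ℝ) × ℝ → Ext ((E × ℝ) × ℝ)) (x : E) (t s : ℝ) : Ext E :=
  pb (((ContinuousLinearMap.inl ℝ (E × ℝ) ℝ).comp (ContinuousLinearMap.inl ℝ E ℝ) :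
    E →L[ℝ] (E × ℝ) × ℝ) : E →ₗ[ℝ] (E × ℝ) × ℝ)
    (ii (((0, 1), 0) : (E × ℝ) × ℝ) (ii ((0, 1) : (E × ℝ) × ℝ) (w ((x, t), s))))

theorem ig2_eq (w : (E × ℝ) × ℝ → Ext ((E × ℝ) × ℝ)) (x : E) (t s : ℝ) :
    hopL (ContinuousLinearMap.inl ℝ E ℝ) ((0, 1) : E × ℝ) (ig (E := E × ℝ) w (x, t) s) =
      ig2 w x t s := by
  rw [ig, hopL_apply, hopL_apply, ii_pb, pb_comp, ig2]
  rfl

theorem continuous_ig2 {w : (E × ℝ) × ℝ → Ext ((E × ℝ) × ℝ)} (hw : Sm (Cyl (Cyl Z)) w)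
    (hx : x ∈ Z) : Continuous fun p : ℝ × ℝ => ig2 w x p.1 p.2 := by
  have h1 : (fun p : ℝ × ℝ => ig2 w x p.1 p.2) = fun p : ℝ × ℝ =>
      hopL (ContinuousLinearMap.inl ℝ E ℝ) ((0, 1) : E × ℝ)
        (hopL (ContinuousLinearMap.inl ℝ (E × ℝ) ℝ) ((0, 1) : (E × ℝ) × ℝ) (w ((x, p.1), p.2))) := by
    funext p
    rw [← ig2_eq]
    rfl
  rw [h1]
  refine (hopL _ _).continuous.comp ((hopL _ _).continuous.comp ?_)
  rw [continuous_iff_continuousAt]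
  intro p
  have h2 : ContinuousAt w ((fun p : ℝ × ℝ => (((x, p.1), p.2) : (E × ℝ) × ℝ)) p) :=
    (hw _ (mem_Cyl.2 (mem_Cyl.2 hx))).continuousAt
  exact h2.comp (f := fun p : ℝ × ℝ => (((x, p.1), p.2) : (E × ℝ) × ℝ)) (by fun_prop :
    Continuous (fun p : ℝ × ℝ => (((x, p.1), p.2) : (E × ℝ) × ℝ))).continuousAt

theorem K2_apply {w : (E × ℝ) × ℝ → Ext ((E × ℝ) × ℝ)} (hw : Sm (Cyl (Cyl Z)) w) (hx : x ∈ Z) :
    K2 w x = ∫ t in (0 : ℝ)..1, ∫ s in (0 : ℝ)..1, ig2 w x t s := by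
  rw [K2, K_apply]
  refine intervalIntegral.integral_congr fun t _ => ?_
  change hopL (ContinuousLinearMap.inl ℝ E ℝ) ((0, 1) : E × ℝ) (KI w (x, t)) = _
  rw [KI, K_apply, ← ContinuousLinearMap.intervalIntegral_comp_comm _
    ((continuous_ig (E := E × ℝ) hw (mem_Cyl.2 hx)).intervalIntegrable _ _)]
  refine intervalIntegral.integral_congr fun s _ => ?_
  exact ig2_eq w x t s

/-- the interchange of the parameters -/
def sw (y : (E × ℝ) × ℝ) : (E × ℝ) × ℝ := ((y.1.1, y.2), y.1.2)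

/-- `sw` as a continuous linear map -/
def swL (E : Type u) [NormedAddCommGroup E] [NormedSpace ℝ E] : (E × ℝ) × ℝ →L[ℝ] (E × ℝ) × ℝ :=
  (((ContinuousLinearMap.fst ℝ E ℝ).comp (ContinuousLinearMap.fst ℝ (E × ℝ) ℝ)).prod
    (ContinuousLinearMap.snd ℝ (E × ℝ) ℝ)).prod
    ((ContinuousLinearMap.snd ℝ E ℝ).comp (ContinuousLinearMap.fst ℝ (E × ℝ) ℝ))

theorem fderiv_sw (y : (E × ℝ) × ℝ) : fderiv ℝ (sw (E := E)) y = swL E :=
  (swL E).hasFDerivAt.fderiv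

theorem contDiff_sw : ContDiff ℝ ∞ (sw (E := E)) := (swL E).contDiff

theorem smap_sw : SMap (Cyl (Cyl Z)) (Cyl (Cyl Z)) (sw (E := E)) :=
  ⟨fun _ _ => contDiff_sw.contDiffAt, fun _ hy => mem_Cyl.2 (mem_Cyl.2 (mem_Cyl.1 (mem_Cyl.1 hy)))⟩

theorem ig2_sw (w : (E × ℝ) × ℝ → Ext ((E × ℝ) × ℝ)) (x : E) (t s : ℝ) :
    ig2 (F.pull (sw (E := E)) w) x t s = - ig2 w x s t := by
  rw [ig2, F.pull, fderiv_sw, ii_pb, ii_pb, pb_comp, ig2]
  have h1 : ((swL E : (E × ℝ) × ℝ →L[ℝ] (E × ℝ) × ℝ) : (E × ℝ) × ℝ →ₗ[ℝ] (E × ℝ) × ℝ) ∘ₗ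
      (((ContinuousLinearMap.inl ℝ (E × ℝ) ℝ).comp (ContinuousLinearMap.inl ℝ E ℝ) :
    E →L[ℝ] (E × ℝ) × ℝ) : E →ₗ[ℝ] (E × ℝ) × ℝ) =
      (((ContinuousLinearMap.inl ℝ (E × ℝ) ℝ).comp (ContinuousLinearMap.inl ℝ E ℝ) :
    E →L[ℝ] (E × ℝ) × ℝ) : E →ₗ[ℝ] (E × ℝ) × ℝ) := by
    ext z <;> rfl
  rw [h1]
  change pb _ (ii ((swL E) (((0, 1), 0) : (E × ℝ) × ℝ))
    (ii ((swL E) ((0, 1) : (E × ℝ) × ℝ)) (w (sw ((x, t), s))))) = _
  have h2 : (swL E) (((0, 1), 0) : (E × ℝ) × ℝ) = ((0, 1) : (E × ℝ) × ℝ) := rfl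
  have h3 : (swL E) ((0, 1) : (E × ℝ) × ℝ) = (((0, 1), 0) : (E × ℝ) × ℝ) := rfl
  have h4 : sw ((x, t), s) = ((x, s), t) := rfl
  rw [h2, h3, h4, ii_comm, map_neg]

/-- **interchange of the two fibre integrals** -/
theorem K2_sw {w : (E × ℝ) × ℝ → Ext ((E × ℝ) × ℝ)} (hw : Sm (Cyl (Cyl Z)) w) (hx : x ∈ Z) :
    K2 (F.pull (sw (E := E)) w) x = - K2 w x := by
  rw [K2_apply (hw.pull smap_sw) hx, K2_apply hw hx]
  simp only [ig2_sw, intervalIntegral.integral_neg]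
  congr 1
  rw [intervalIntegral_intervalIntegral_swap]
  have h1 : IntegrableOn (Function.uncurry fun t s : ℝ => ig2 w x s t)
      (uIcc (0 : ℝ) 1 ×ˢ uIcc (0 : ℝ) 1) volume :=
    ((continuous_ig2 hw hx).comp continuous_swap).continuousOn.integrableOn_compact
      (isCompact_uIcc.prod isCompact_uIcc)
  exact h1.mono_set (Set.prod_mono uIoc_subset_uIcc uIoc_subset_uIcc)

end Crest.Agent.R208.CG
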