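import Crest.Agent.R208.CG8
import Crest.Agent.R208.CG4

/-! Row 208, block RR, piece (CG) (helper99), part CG9: `Wp φ = 2π xi φ`, and the ray integral of
`xi φ b` in terms of `Wp φ (K (sc^* b))`. -/

set_option autoImplicit false
set_option linter.unusedSectionVars false
set_option linter.unusedVariables false

open MeasureTheory Set Filter Topology Module
open scoped ContDiff
open Crest.Agent.R208.F Crest.Agent.R208.FI Crest.Agent.R208.CW Crest.Agent.R208.T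
open Crest.Agent.R208.RR

noncomputable section

namespace Crest.Agent.R208.CG

universe u
variable {E : Type u} [NormedAddCommGroup E] [NormedSpace ℝ E] [FiniteDimensional ℝ E]
  {E' : Type u} [NormedAddCommGroup E'] [NormedSpace ℝ E'] [FiniteDimensional ℝ E']
  {Z : Set E} {X : Set E'} {x : E} {φ : ℝ → E → E} {φ' : ℝ → E' → E'} {μ : E → Ext E}
  {sc : E × ℝ → E'} {b : E' → Ext E'}

/-- **`Wp φ` is `2π` times the contracted average** -/
theorem Wp_eq_xi (hφ : CM.Cir Z φ) (hμ : Sm Z μ) (hx : x ∈ Z) :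
    Wp φ μ x = (2 * Real.pi) • VC.xi φ μ x := by
  have hA : VC.Act Z φ := VC.Act.of_cir hφ
  rw [Wp_apply, VC.xi_eq, VC.MM]
  change _ = (2 * Real.pi) • iiL (CM.gen φ x) _
  rw [← ContinuousLinearMap.intervalIntegral_comp_comm _
    ((VC.continuous_Wn hA hμ hx).intervalIntegrable _ _), ← intervalIntegral.integral_smul]
  refine intervalIntegral.integral_congr fun t _ => ?_
  change hopL (ContinuousLinearMap.inl ℝ E ℝ) ((0, 1) : E × ℝ) (F.pull (Fl φ) μ (x, t)) =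
    (2 * Real.pi) • iiL (CM.gen φ x) (VC.Wn φ μ (x, t))
  rw [hopL_Fl hφ hx, iiL_apply, VC.Wn_eq hA hx, F.pull, ii_pb]
  congr 2
  change ii (CM.gen φ (φ (2 * Real.pi * t) x)) _ =
    ii (fderiv ℝ (φ (2 * Real.pi * t)) x (CM.gen φ x)) _
  rw [hφ.fderiv_gen hx]

theorem Wp_eqv_xi (hφ : CM.Cir Z φ) (hμ : Sm Z μ) :
    Eqv Z (Wp φ μ) ((2 * Real.pi) • VC.xi φ μ) := Eqv.of_eq fun _ hx => Wp_eq_xi hφ hμ hx

/-- `K (f^* (K (A^* ξ)))` as a double integral, general form -/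
theorem KfK' {Y : Set E'} {f : E × ℝ → E'} (hf : SMap (Cyl Z) Y f) {v : E' × ℝ → Ext (E' × ℝ)}
    (hv : Sm (Cyl Y) v) :
    Eqv Z (K (E := E) (F.pull f (K (E := E') v)))
      (K2 (F.pull (fx (E := E × ℝ) (E' := E') f fun s => s) v)) := by
  have sf : SMap (Cyl (Cyl Z)) (Cyl Y) (fx (E := E × ℝ) (E' := E') f fun s => s) :=
    smap_fx hf contDiff_id
  have h1 : Eqv (Cyl Z) (F.pull f (K (E := E') v))
      (KI (F.pull (fx (E := E × ℝ) (E' := E') f fun s => s) v)) :=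
    Eqv.of_eq fun y hy => pull_K (E := E × ℝ) (E' := E') (hf.diff hy) hv (hf.maps hy)
  exact K_eqv (E := E) ((Sm.K hv).pull hf) (Sm.KI (hv.pull sf)) h1

/-- **the ray integral of the orbit integral** -/
theorem K_sc_Wp (hφ : CM.Cir Z φ) (hφ' : CM.Cir X φ') (hsc : SMap (Cyl Z) X sc)
    (hc : ∀ x ∈ Z, ∀ t s : ℝ, sc (φ t x, s) = φ' t (sc (x, s))) (hb : Sm X b) :
    Eqv Z (K (E := E) (F.pull sc (Wp φ' b))) (-(Wp φ (K (E := E) (F.pull sc b)))) := by
  have hF := smap_Fl hφ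
  have hF' := smap_Fl hφ'
  have sb : Sm (Cyl X) (F.pull (Fl φ') b) := hb.pull hF'
  have ss : Sm (Cyl Z) (F.pull sc b) := hb.pull hsc
  have f1 : SMap (Cyl (Cyl Z)) (Cyl X) (fx (E := E × ℝ) (E' := E') sc fun s => s) :=
    smap_fx hsc contDiff_id
  have f2 : SMap (Cyl (Cyl Z)) (Cyl Z) (fx (E := E × ℝ) (E' := E) (Fl φ) fun s => s) :=
    smap_fx hF contDiff_id
  have e1 : Eqv Z (K (E := E) (F.pull sc (Wp φ' b)))
      (K2 (F.pull (fx (E := E × ℝ) (E' := E') sc fun s => s) (F.pull (Fl φ') b))) :=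
    KfK' hsc sb
  have e2 : Eqv Z (Wp φ (K (E := E) (F.pull sc b)))
      (K2 (F.pull (fx (E := E × ℝ) (E' := E) (Fl φ) fun s => s) (F.pull sc b))) :=
    KfK' hF ss
  have s1 := sb.pull f1
  have s2 := ss.pull f2
  have e3 : Eqv (Cyl (Cyl Z))
      (F.pull (fx (E := E × ℝ) (E' := E) (Fl φ) fun s => s) (F.pull sc b))
      (F.pull (sw (E := E))
        (F.pull (fx (E := E × ℝ) (E' := E') sc fun s => s) (F.pull (Fl φ') b))) := by
    have a1 : Eqv (Cyl (Cyl Z))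
        (F.pull (fx (E := E × ℝ) (E' := E) (Fl φ) fun s => s) (F.pull sc b))
        (F.pull (fun y => sc (fx (E := E × ℝ) (E' := E) (Fl φ) (fun s => s) y)) b) :=
      pull_pull hsc f2
    have a2 : Eqv (Cyl (Cyl Z))
        (F.pull (fx (E := E × ℝ) (E' := E') sc fun s => s) (F.pull (Fl φ') b))
        (F.pull (fun y => Fl φ' (fx (E := E × ℝ) (E' := E') sc (fun s => s) y)) b) :=
      pull_pull hF' f1
    have m1 : SMap (Cyl (Cyl Z)) X
        (fun y => Fl φ' (fx (E := E × ℝ) (E' := E') sc (fun s => s) y)) := smap_comp hF' f1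
    have m2 : SMap (Cyl (Cyl Z)) X
        (fun y => sc (fx (E := E × ℝ) (E' := E) (Fl φ) (fun s => s) y)) := smap_comp hsc f2
    have a3 := Eqv.pull (smap_sw (Z := Z)) a2
    have a4 : Eqv (Cyl (Cyl Z)) (F.pull (sw (E := E))
        (F.pull (fun y => Fl φ' (fx (E := E × ℝ) (E' := E') sc (fun s => s) y)) b))
        (F.pull (fun y => Fl φ' (fx (E := E × ℝ) (E' := E') sc (fun s => s) (sw y))) b) :=
      pull_pull m1 smap_sw
    have m3 : SMap (Cyl (Cyl Z)) X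
        (fun y => Fl φ' (fx (E := E × ℝ) (E' := E') sc (fun s => s) (sw y))) :=
      smap_comp (g := fun y => Fl φ' (fx (E := E × ℝ) (E' := E') sc (fun s => s) y))
        (f := sw (E := E)) m1 smap_sw
    refine a1.trans (Eqv.trans ?_ (a3.trans a4).symm)
    refine eqv_pull_of_eq b (fun y hy => m2.diff hy) (fun y hy => m3.diff hy) fun y hy => ?_
    exact hc _ (mem_Cyl.1 (mem_Cyl.1 hy)) _ _
  have e4 := K2_eqv s2 (s1.pull smap_sw) e3
  refine e1.trans (Eqv.trans ?_ (e2.trans e4).neg.symm)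
  refine Eqv.of_eq fun x hx => ?_
  rw [Pi.neg_apply, K2_sw s1 hx, neg_neg]

/-- the ray integral of `xi` -/
theorem K_sc_xi (hφ : CM.Cir Z φ) (hφ' : CM.Cir X φ') (hsc : SMap (Cyl Z) X sc)
    (hc : ∀ x ∈ Z, ∀ t s : ℝ, sc (φ t x, s) = φ' t (sc (x, s))) (hb : Sm X b) :
    Eqv Z ((2 * Real.pi) • K (E := E) (F.pull sc (VC.xi φ' b)))
      (-(Wp φ (K (E := E) (F.pull sc b)))) := by
  refine Eqv.trans ?_ (K_sc_Wp hφ hφ' hsc hc hb)
  have hA : VC.Act X φ' := VC.Act.of_cir hφ'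
  have sx : Sm X (VC.xi φ' b) := VC.sm_xi hA hb
  have h1 : Eqv (Cyl Z) (F.pull sc (Wp φ' b)) ((2 * Real.pi) • F.pull sc (VC.xi φ' b)) := by
    have h2 := Eqv.pull hsc (Wp_eqv_xi hφ' hb)
    rwa [pull_smul'] at h2
  have h3 := K_eqv (E := E) ((Sm.Wp hφ' hb).pull hsc) ((sx.pull hsc).smul _) h1
  rw [K_smul] at h3
  exact h3.symm

end Crest.Agent.R208.CG
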