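import Crest.Agent.R208.FH11

/-! Row 208, block CH (helper305), part CH1: the **degree of a thin chain**.  `X` closed oriented,
`f : X → Y`, `χ : X → ℝ` a cut off such that all top forms pulled back by `f` vanish where `χ` is
not `0, 1`, and all forms of one degree less pulled back by `f` and multiplied by `dχ` vanish.
Then `∫_X χ f^* om = d ∫_Y om` with an integer `d`. -/

set_option autoImplicit false
set_option linter.unusedSectionVars false

open MeasureTheory MeasureTheory.Measure Set Filter Topology Module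
open scoped ContDiff
open Crest.Agent.R208.F Crest.Agent.R208.FI

noncomputable section

namespace Crest.Agent.R208.CH

variable {E E' : Type*} [NormedAddCommGroup E] [NormedSpace ℝ E] [FiniteDimensional ℝ E]
  [NormedAddCommGroup E'] [NormedSpace ℝ E'] [FiniteDimensional ℝ E']

section mult
variable {n : ℕ} {X : Set E} {Y : Set E'} {f : E → E'} {oX : E → Ext E} {oY : E' → Ext E'}

/-- **area formula with multiplicity on a closed part `A` of `X`** -/
theorem exists_mult_on (hX : Clo n X) (hoX : Ori n X oX) (hY : Clo n Y) (hoY : Ori n Y oY)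
    (hf : ∀ x ∈ X, ContDiffAt ℝ 1 f x) (hm : MapsTo f X Y) {A : Set E} (hA : IsClosed A) :
    ∃ N : EuclideanSpace ℝ (Fin (finrank ℝ E')) → ℝ, Integrable N (mY n Y) ∧
      (∀ᵐ y ∂(mY n Y), ∃ m : ℤ, N y = m) ∧
      ∀ om : E' → Ext E', ContinuousOn om Y →
        JS n X oX (pull f om) (X ∩ A) =
          ∫ y, N y * dens n Y oY om ((TE E').symm y) ∂(mY n Y) := by
  classical
  obtain ⟨K, φ, V, P, -, hC, hPV, hPm, hdisj, hU⟩ := exists_decomp hX.compact (fun _ _ => True)
    (fun z hz => by
      obtain ⟨f, V, hf, hz'⟩ := hX.chart z hz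
      exact ⟨f, V, trivial, hf, hz'⟩)
  set P' : Fin K → Set (Eu n) := fun i => P i ∩ (φ i) ⁻¹' A with hP'
  have hPm' : ∀ i, MeasurableSet (P' i) := fun i => by
    have h1 : P' i = P i \ (V i ∩ (φ i) ⁻¹' Aᶜ) := by
      ext u
      constructor
      · rintro ⟨h1, h2⟩; exact ⟨h1, fun h => h.2 h2⟩
      · rintro ⟨h1, h2⟩
        refine ⟨h1, ?_⟩
        by_contra h3
        exact h2 ⟨hPV i h1, h3⟩
    rw [h1]
    exact (hPm i).diff ((hC i).contDiffOn.continuousOn.isOpen_inter_preimage (hC i).isOpen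
      hA.isOpen_compl).measurableSet
  have hPV' : ∀ i, P' i ⊆ V i := fun i u hu => hPV i hu.1
  have hex := fun i => sheet_piece hY hoY hX hoX hf hm (hC i) (hPm' i) (hPV' i)
  choose N hN1 hN2 hN3 using hex
  refine ⟨fun y => ∑ i, N i y, integrable_finsetSum _ fun i _ => hN1 i, ?_, ?_⟩
  · have : ∀ᵐ y ∂(mY n Y), ∀ i, ∃ m : ℤ, N i y = m := ae_all_iff.2 hN2
    filter_upwards [this] with y hy
    choose m hm using hy
    exact ⟨∑ i, m i, by push_cast; exact Finset.sum_congr rfl fun i _ => hm i⟩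
  · intro om hom
    have hc : ContinuousOn (pull f om) X := FI.continuousOn_pull
      (fun x hx => (hf x hx).continuousAt.continuousWithinAt)
      (fun x hx => ((hf x hx).fderiv_right (m := 0) (by norm_num)).continuousAt.continuousWithinAt)
      hm hom
    have hUA : (⋃ i, φ i '' P' i) = X ∩ A := by
      rw [← hU, iUnion_inter]
      refine iUnion_congr fun i => ?_
      rw [hP', image_inter_preimage]
    have hdisj' : Pairwise fun i j => Disjoint (φ i '' P' i) (φ j '' P' j) := fun i j hij =>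
      (hdisj hij).mono (image_mono inter_subset_left) (image_mono inter_subset_left)
    have h1 : JS n X oX (pull f om) (X ∩ A) = ∑ i, JS n X oX (pull f om) (φ i '' P' i) := by
      rw [← JS_iUnion _ (fun i => (hC i).measurableSet_image (hPm' i) (hPV' i)) hdisj'
        (by
          rw [hUA]
          exact (integrableOn_dens hX hoX hc).mono_set (image_mono inter_subset_left)), hUA]
    have h2 : ∀ i, JS n X oX (pull f om) (φ i '' P' i) =
        ∫ y, N i y * dens n Y oY om ((TE E').symm y) ∂(mY n Y) := fun i => by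
      rw [← hN3 i om hom]
      exact integral_chart (hC i) (hPm' i) (hPV' i)
    rw [h1, Finset.sum_congr rfl fun i _ => h2 i, ← integral_finsetSum _ fun i _ =>
      integrable_mul_dens hY hoY hom (hN1 i)]
    refine integral_congr_ae (Eventually.of_forall fun y => ?_)
    simp only [Finset.sum_mul]

end mult

section thin
variable {n : ℕ} {X : Set E} {Y : Set E'} {f : E → E'} {oX : E → Ext E} {oY : E' → Ext E'}
  {χ : E → ℝ}

/-- a map `f : X → E'` with a cut off `χ`: thin where `χ` is not `0`, `1`, and thin in the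
direction of the level sets of `χ`. -/
structure Thin (n : ℕ) (X : Set E) (f : E → E') (χ : E → ℝ) : Prop where
  smooth : ∀ x ∈ X, ContDiffAt ℝ ∞ χ x
  top : ∀ x ∈ X, χ x ≠ 0 → χ x ≠ 1 → ∀ c : Ext E', ∀ w : Fin n → E, (∀ i, w i ∈ Tan X x) →
    evA E n (pb (fderiv ℝ f x : E →ₗ[ℝ] E') c) w = 0
  bd : ∀ x ∈ X, ∀ c : Ext E', ∀ w : Fin n → E, (∀ i, w i ∈ Tan X x) →
    evA E n (io ((fderiv ℝ χ x : E →L[ℝ] ℝ) : Module.Dual ℝ E) *
      pb (fderiv ℝ f x : E →ₗ[ℝ] E') c) w = 0

theorem Thin.JS_eq (hX : Clo n X) (hT : Thin n X f χ) (om : E' → Ext E') :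
    J n X oX (fun x => χ x • pull f om x) = JS n X oX (pull f om) (X ∩ {x | x ∈ X ∧ χ x = 1}) := by
  have hcl : IsClosed {x | x ∈ X ∧ χ x = 1} := by
    have h1 : ContinuousOn χ X := fun x hx => (hT.smooth x hx).continuousAt.continuousWithinAt
    exact h1.preimage_isClosed_of_isClosed hX.compact.isClosed isClosed_singleton
  have h0 : X ∩ {x | x ∈ X ∧ χ x = 1} = {x | x ∈ X ∧ χ x = 1} :=
    inter_eq_right.2 fun x hx => hx.1
  rw [h0]
  have hmX : MeasurableSet (TE E '' X) := hX.measurableSet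
  have hm : MeasurableSet (TE E '' {x | x ∈ X ∧ χ x = 1}) := by
    have : IsClosed (TE E '' {x | x ∈ X ∧ χ x = 1}) :=
      (TE E).toHomeomorph.isClosedMap _ hcl
    exact this.measurableSet
  have hsub : TE E '' {x | x ∈ X ∧ χ x = 1} ⊆ TE E '' X := image_mono fun x hx => hx.1
  rw [J, JS]
  have h2 : ∀ y ∈ TE E '' X \ TE E '' {x | x ∈ X ∧ χ x = 1},
      dens n X oX (fun x => χ x • pull f om x) ((TE E).symm y) = 0 := by
    rintro _ ⟨⟨x, hx, rfl⟩, hy⟩
    rw [ContinuousLinearEquiv.symm_apply_apply, dens_fun_smul]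
    by_cases hx0 : χ x = 0
    · rw [hx0, zero_mul]
    by_cases hx1 : χ x = 1
    · exact absurd ⟨x, ⟨hx, hx1⟩, rfl⟩ hy
    · have := hT.top x hx hx0 hx1 (om (f x)) (frame n X x)
        (frame_isFrame (hX.finrank_Tan hx)).2
      simp only [dens, pull] at this ⊢
      rw [this, zero_mul, mul_zero]
  refine (setIntegral_eq_of_subset_of_forall_sdiff_eq_zero hmX hsub h2).trans ?_
  refine setIntegral_congr_fun hm ?_
  rintro _ ⟨x, hx, rfl⟩
  simp only [ContinuousLinearEquiv.symm_apply_apply]
  rw [dens_fun_smul, hx.2, one_mul]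

/-- **THE DEGREE OF A THIN CHAIN** is an integer. -/
theorem Thin.degree (hX : Clo n X) (hoX : Ori n X oX) (hY : Clo n Y) (hoY : Ori n Y oY)
    (hYc : IsPreconnected Y) (hf : ∀ x ∈ X, ContDiffAt ℝ 2 f x) (hm : MapsTo f X Y)
    (hT : Thin n X f χ) :
    ∃ d : ℤ, ∀ om : E' → Ext E', ContinuousOn om Y →
      J n X oX (fun x => χ x • pull f om x) = d * J n Y oY om := by
  have hcl : IsClosed {x | x ∈ X ∧ χ x = 1} := by
    have h1 : ContinuousOn χ X := fun x hx => (hT.smooth x hx).continuousAt.continuousWithinAt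
    exact h1.preimage_isClosed_of_isClosed hX.compact.isClosed isClosed_singleton
  obtain ⟨N, hN1, hN2, hN3⟩ := exists_mult_on hX hoX hY hoY
    (fun x hx => (hf x hx).of_le (by norm_num)) hm hcl
  obtain ⟨d, hd⟩ := ae_const_int hY hoY hYc hN1 hN2 (fun β hβ => by
    rw [J_fun_smul, ← hN3 _ (continuousOn_d hβ), ← hT.JS_eq hX]
    have hpβ : ∀ x ∈ X, ContDiffAt ℝ 1 (pull f β) x := fun x hx =>
      contDiffAt_pull (hf x hx) (by norm_num [one_add_one_eq_two]) (hβ _ (hm hx))
    have hχ1 : ∀ x ∈ X, ContDiffAt ℝ 1 χ x := fun x hx => (hT.smooth x hx).of_le (by simp)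
    have h1 : J n X oX (fun x => χ x • pull f (F.d β) x) =
        J n X oX (F.d (fun x => χ x • pull f β x)) := by
      refine J_congr hX fun x hx w hw => ?_
      rw [d_smul ((hχ1 x hx).differentiableAt (by norm_num))
        ((hpβ x hx).differentiableAt (by norm_num)), map_add, AlternatingMap.add_apply,
        d_pull (hf x hx) ((hβ _ (hm hx)).differentiableAt (by norm_num))]
      have := hT.bd x hx (β (f x)) w hw
      rw [show pull f β x = pb (fderiv ℝ f x : E →ₗ[ℝ] E') (β (f x)) from rfl, this, zero_add]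
    rw [h1]
    exact J_d hX hoX fun x hx => (hχ1 x hx).smul (hpβ x hx))
  refine ⟨d, fun om hom => ?_⟩
  rw [hT.JS_eq hX, hN3 om hom]
  have h2 : ∫ y, N y * dens n Y oY om ((TE E').symm y) ∂(mY n Y) =
      ∫ y, (d : ℝ) * dens n Y oY om ((TE E').symm y) ∂(mY n Y) := by
    refine integral_congr_ae ?_
    filter_upwards [hd] with y hy
    rw [hy]
  rw [h2, integral_const_mul]
  rfl

/-- the constant cut off -/
theorem Thin.const_one (f : E → E') (X : Set E) : Thin n X f (fun _ => (1 : ℝ)) where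
  smooth := fun x _ => contDiffAt_const
  top := fun x _ _ h => absurd rfl h
  bd := fun x _ c w _ => by
    have : fderiv ℝ (fun _ : E => (1 : ℝ)) x = 0 := fderiv_const_apply _
    rw [this]
    have h0 : ((0 : E →L[ℝ] ℝ) : Module.Dual ℝ E) = 0 := rfl
    rw [h0, map_zero, zero_mul, map_zero]; rfl

end thin

end Crest.Agent.R208.CH
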