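import Crest.Agent.R208.CM1

/-! Row 208, block CM (helper971), part CM1b: equivariant pieces (phase retraction). -/

set_option autoImplicit false
set_option linter.unusedSectionVars false
set_option linter.unusedVariables false

open Set Filter Topology Module MeasureTheory
open scoped ContDiff RealInnerProductSpace
open Crest.Agent.R208.F Crest.Agent.R208.FI

noncomputable section

namespace Crest.Agent.R208.CM

local notation "π" => Real.pi

section gen

variable {E W : Type*} [NormedAddCommGroup E] [NormedSpace ℝ E] [NormedAddCommGroup W]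
  [NormedSpace ℝ W] {X : Set E}

/-- two functions agreeing on `X` have the same derivative on `Tan X x`. -/
theorem fderiv_eq_of_eqOn {f g : E → W} {x : E} (hf : DifferentiableAt ℝ f x)
    (hg : DifferentiableAt ℝ g x) (h : ∀ᶠ y in 𝓝[X] x, f y = g y) {v : E} (hv : v ∈ Tan X x) :
    fderiv ℝ f x v = fderiv ℝ g x v := by
  have : Tan X x ≤ LinearMap.ker ((fderiv ℝ f x - fderiv ℝ g x : E →L[ℝ] W) : E →ₗ[ℝ] W) := by
    rw [Tan, Submodule.span_le]
    rintro v ⟨γ, rfl, hγ, hS⟩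
    have h1 : HasDerivAt (fun t => f (γ t)) (fderiv ℝ f (γ 0) v) 0 :=
      hf.hasFDerivAt.comp_hasDerivAt 0 hγ
    have h2 : HasDerivAt (fun t => g (γ t)) (fderiv ℝ g (γ 0) v) 0 :=
      hg.hasFDerivAt.comp_hasDerivAt 0 hγ
    have h3 : Tendsto γ (𝓝 0) (𝓝[X] (γ 0)) :=
      tendsto_nhdsWithin_iff.2 ⟨hγ.continuousAt, hS⟩
    have h4 : (fun t => f (γ t)) =ᶠ[𝓝 0] fun t => g (γ t) := h3.eventually h
    have h5 := (h2.congr_of_eventuallyEq h4).unique h1
    change fderiv ℝ f (γ 0) v - fderiv ℝ g (γ 0) v = 0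
    rw [← h5, sub_self]
  have := this hv
  exact sub_eq_zero.1 this

end gen

variable {E : Type} [NormedAddCommGroup E] [NormedSpace ℝ E] [FiniteDimensional ℝ E]
  {X : Set E} {φ : ℝ → E → E}

theorem Cir.fderiv_inj (h : Cir X φ) {x : E} (hx : x ∈ X) (t : ℝ) {v : E} (hv : v ∈ Tan X x)
    (h0 : fderiv ℝ (φ t) x v = 0) : v = 0 := by
  have h1 : HasFDerivAt (φ t) (fderiv ℝ (φ t) x) x :=
    ((h.smooth_right t hx).differentiableAt (by simp)).hasFDerivAt
  have h2 : HasFDerivAt (φ (-t)) (fderiv ℝ (φ (-t)) (φ t x)) (φ t x) :=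
    ((h.smooth_right (-t) (h.maps t hx)).differentiableAt (by simp)).hasFDerivAt
  have h3 := h2.comp x h1
  have h4 := fderiv_eq_of_eqOn (X := X) (f := φ (-t) ∘ φ t) (g := id) h3.differentiableAt
    differentiableAt_id (eventually_nhdsWithin_of_forall fun y hy => h.neg_add t hy) hv
  rw [h3.fderiv, fderiv_id] at h4
  have h5 : fderiv ℝ (φ (-t)) (φ t x) (fderiv ℝ (φ t) x v) = v := h4
  rw [← h5, h0, map_zero]

/-- the phase retraction defined by `u` -/
def ret (φ : ℝ → E → E) (u : E → ℂ) (y : E) : E := φ (-(Complex.arg (u y))) y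

theorem Cir.ret_eq (h : Cir X φ) {u : E → ℂ} {y : E} (hy : y ∈ X) (hu : u y ≠ 0) {θ : ℝ}
    (hθ : Complex.exp (θ * Complex.I) = Complex.exp ((Complex.arg (u y) : ℂ) * Complex.I)) :
    ret φ u y = φ (-θ) y := by
  obtain ⟨n, hn⟩ := Complex.exp_eq_exp_iff_exists_int.1 hθ
  have h1 : θ = Complex.arg (u y) + 2 * π * n := by
    have h2 : ((θ : ℂ)) * Complex.I = ((Complex.arg (u y) + 2 * π * n : ℝ) : ℂ) * Complex.I := by
      rw [hn]; push_cast; ring
    have h3 := mul_right_cancel₀ Complex.I_ne_zero h2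
    exact_mod_cast h3
  unfold ret
  rw [h1, show -(Complex.arg (u y) + 2 * π * n) = -Complex.arg (u y) + 2 * π * ((-n : ℤ) : ℝ) by
    push_cast; ring, h.add_int _ _ hy]

theorem exp_arg {z : ℂ} (hz : z ≠ 0) : Complex.exp ((Complex.arg z : ℂ) * Complex.I) = z / ‖z‖ := by
  have h1 := Complex.norm_mul_exp_arg_mul_I z
  have h2 : (‖z‖ : ℂ) ≠ 0 := by simpa using hz
  rw [eq_div_iff h2, mul_comm]
  exact h1

theorem Cir.ret_inv (h : Cir X φ) {u : E → ℂ}
    (hu : ∀ x ∈ X, ∀ t : ℝ, u (φ t x) = Complex.exp (t * Complex.I) * u x) {x : E} (hx : x ∈ X)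
    (hx0 : u x ≠ 0) (t : ℝ) : ret φ u (φ t x) = ret φ u x := by
  have h0 : u (φ t x) ≠ 0 := by rw [hu x hx]; exact mul_ne_zero (Complex.exp_ne_zero _) hx0
  have h1 : ret φ u (φ t x) = φ (-(t + Complex.arg (u x))) (φ t x) := by
    refine h.ret_eq (h.maps t hx) h0 ?_
    rw [exp_arg h0, hu x hx, norm_mul, Complex.norm_exp_ofReal_mul_I, one_mul]
    push_cast
    rw [add_mul, Complex.exp_add, exp_arg hx0, mul_div_assoc]
  rw [h1, ← h.add _ _ x hx, ret]
  congr 1; ring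

theorem contDiffAt_arg {z : ℂ} (hz : z ∈ Complex.slitPlane) :
    ContDiffAt ℝ ∞ Complex.arg z := by
  have h1 : ContDiffAt ℝ ∞ Complex.log z := (Complex.contDiffAt_log hz).restrict_scalars ℝ
  have h2 := Complex.imCLM.contDiff.contDiffAt.comp z h1
  exact h2.congr_of_eventuallyEq (Eventually.of_forall fun w => (Complex.log_im w).symm)

/-- the local smooth model of the retraction -/
def ret' (φ : ℝ → E → E) (u : E → ℂ) (x y : E) : E :=
  φ (-(Complex.arg (u y / u x) + Complex.arg (u x))) y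

theorem Cir.ret'_eq (h : Cir X φ) {u : E → ℂ} {x y : E} (hy : y ∈ X) (hx0 : u x ≠ 0)
    (hy0 : u y ≠ 0) : ret φ u y = ret' φ u x y := by
  refine h.ret_eq hy hy0 ?_
  push_cast
  have h1 : u y / u x ≠ 0 := div_ne_zero hy0 hx0
  have h2 : (‖u x‖ : ℂ) ≠ 0 := by simpa using hx0
  have h3 : (‖u y‖ : ℂ) ≠ 0 := by simpa using hy0
  rw [add_mul, Complex.exp_add, exp_arg h1, exp_arg hx0, exp_arg hy0, norm_div]
  push_cast
  field_simp

theorem contDiffAt_ph {u : E → ℂ} {x : E} (hux : ContDiffAt ℝ ∞ u x) (hx0 : u x ≠ 0) :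
    ContDiffAt ℝ ∞ (fun y => -(Complex.arg (u y / u x) + Complex.arg (u x))) x := by
  have h1 : ContDiffAt ℝ ∞ (fun y => u y / u x) x := by
    simp only [div_eq_mul_inv]
    exact hux.mul contDiffAt_const
  have h2 : ContDiffAt ℝ ∞ Complex.arg (u x / u x) := by
    refine contDiffAt_arg ?_
    rw [div_self hx0]; exact Complex.one_mem_slitPlane
  have h3 : ContDiffAt ℝ ∞ (fun y => Complex.arg (u y / u x)) x :=
    ContDiffAt.comp (g := Complex.arg) (f := fun y => u y / u x) x h2 h1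
  exact (h3.add contDiffAt_const).neg

theorem Cir.contDiffAt_ret' (h : Cir X φ) {u : E → ℂ} {x : E} (hx : x ∈ X)
    (hux : ContDiffAt ℝ ∞ u x) (hx0 : u x ≠ 0) : ContDiffAt ℝ ∞ (ret' φ u x) x := by
  exact ContDiffAt.comp (g := fun q : ℝ × E => φ q.1 q.2)
    (f := fun y => (-(Complex.arg (u y / u x) + Complex.arg (u x)), y)) x (h.smooth _ x hx)
    ((contDiffAt_ph hux hx0).prodMk contDiffAt_id)

/-- the kernel of the derivative of the retraction on the tangent space -/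
theorem Cir.ker_ret' (h : Cir X φ) {u : E → ℂ} {x : E} (hx : x ∈ X)
    (hux : ContDiffAt ℝ ∞ u x) (hx0 : u x ≠ 0) {v : E} (hv : v ∈ Tan X x)
    (h0 : fderiv ℝ (ret' φ u x) x v = 0) : ∃ c : ℝ, v = c • gen φ x := by
  set θ : E → ℝ := fun y => -(Complex.arg (u y / u x) + Complex.arg (u x)) with hθ
  have hθd : HasFDerivAt θ (fderiv ℝ θ x) x :=
    ((contDiffAt_ph hux hx0).differentiableAt (by simp)).hasFDerivAt
  have h1 : HasFDerivAt (fun q : ℝ × E => φ q.1 q.2)
      (fderiv ℝ (fun q : ℝ × E => φ q.1 q.2) (θ x, x)) (θ x, x) :=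
    ((h.smooth _ x hx).differentiableAt (by simp)).hasFDerivAt
  set A := fderiv ℝ (fun q : ℝ × E => φ q.1 q.2) (θ x, x) with hA
  have h2 : HasFDerivAt (fun y => φ (θ y) y) _ x :=
    HasFDerivAt.comp (g := fun q : ℝ × E => φ q.1 q.2) (f := fun y => (θ y, y)) x h1
      (hθd.prodMk (hasFDerivAt_id x))
  have h3 : fderiv ℝ (ret' φ u x) x v = A (fderiv ℝ θ x v, v) := by
    have : fderiv ℝ (ret' φ u x) x = _ := h2.fderiv
    rw [this]; rfl
  have h4 : A (1, 0) = gen φ (φ (θ x) x) := by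
    have e1 : HasDerivAt (fun s : ℝ => (s, x)) ((1 : ℝ), (0 : E)) (θ x) :=
      (hasDerivAt_id (θ x)).prodMk (hasDerivAt_const (θ x) x)
    have e2 : HasDerivAt (fun s => φ s x) (A (1, 0)) (θ x) :=
      HasFDerivAt.comp_hasDerivAt (l := fun q : ℝ × E => φ q.1 q.2) (f := fun s : ℝ => (s, x))
        (θ x) h1 e1
    exact e2.unique (h.hasDerivAt hx (θ x))
  have h5 : A (0, v) = fderiv ℝ (φ (θ x)) x v := by
    have e1 : HasFDerivAt (fun y : E => (θ x, y)) (ContinuousLinearMap.inr ℝ ℝ E) x :=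
      (hasFDerivAt_const (θ x) x).prodMk (hasFDerivAt_id x)
    have e2 : HasFDerivAt (fun y => φ (θ x) y) (A.comp (ContinuousLinearMap.inr ℝ ℝ E)) x :=
      HasFDerivAt.comp (g := fun q : ℝ × E => φ q.1 q.2) x h1 e1
    have e3 : fderiv ℝ (φ (θ x)) x = _ := e2.fderiv
    rw [e3]; rfl
  have h6 : A (fderiv ℝ θ x v, v) = fderiv ℝ θ x v • A (1, 0) + A (0, v) := by
    rw [← map_smul, ← map_add]
    congr 1
    simp
  rw [h3, h6, h4, h5, ← h.fderiv_gen hx, ← map_smul, ← map_add] at h0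
  have h7 := h.fderiv_inj hx _ ((Tan X x).add_mem ((Tan X x).smul_mem _ (h.gen_mem hx)) hv) h0
  refine ⟨-(fderiv ℝ θ x v), ?_⟩
  rw [neg_smul]
  exact eq_neg_of_add_eq_zero_right h7

end Crest.Agent.R208.CM
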