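import Crest.Agent.R208.CH1
import Crest.Agent.R208.CM1b
import Crest.Agent.R208.FG1b
import Crest.Agent.R208.CW5b

/-! Row 208, block CH (helper305), part CH2: **rank condition for thin chains** (`Thn`), its
consequences, behaviour under fibre maps and Stokes. -/

set_option autoImplicit false
set_option linter.unusedSectionVars false

open MeasureTheory MeasureTheory.Measure Set Filter Topology Module
open scoped ContDiff
open Crest.Agent.R208.F Crest.Agent.R208.FI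

noncomputable section

namespace Crest.Agent.R208.CH

variable {E E' E'' : Type*} [NormedAddCommGroup E] [NormedSpace ℝ E] [FiniteDimensional ℝ E]
  [NormedAddCommGroup E'] [NormedSpace ℝ E'] [FiniteDimensional ℝ E']
  [NormedAddCommGroup E''] [NormedSpace ℝ E''] [FiniteDimensional ℝ E'']

/-! ### linear algebra -/
section lin
variable {V V' V'' : Type*} [AddCommGroup V] [Module ℝ V] [FiniteDimensional ℝ V]
  [AddCommGroup V'] [Module ℝ V'] [FiniteDimensional ℝ V']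
  [AddCommGroup V''] [Module ℝ V''] [FiniteDimensional ℝ V'']

theorem evA_zero_of_rank (A : V →ₗ[ℝ] V') (S : Submodule ℝ V) {n : ℕ}
    (h : finrank ℝ (S.map A) < n) (c : Ext V') (w : Fin n → V) (hw : ∀ i, w i ∈ S) :
    evA V n (pb A c) w = 0 := by
  rw [evA_pb]
  refine AlternatingMap.map_linearDependent _ _ fun hli => ?_
  have h1 : LinearIndependent ℝ fun i : Fin n =>
      (⟨A (w i), Submodule.mem_map_of_mem (hw i)⟩ : S.map A) := by
    refine LinearIndependent.of_comp (S.map A).subtype ?_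
    exact hli
  have h2 := h1.fintype_card_le_finrank
  rw [Fintype.card_fin] at h2
  omega

theorem evA_congr_on {A B : V →ₗ[ℝ] V'} {S : Submodule ℝ V} (h : ∀ v ∈ S, A v = B v) {n : ℕ}
    (c : Ext V') (w : Fin n → V) (hw : ∀ i, w i ∈ S) :
    evA V n (pb A c) w = evA V n (pb B c) w := by
  rw [evA_pb, evA_pb]
  congr 1
  funext i
  exact h _ (hw i)

/-- rank of a composition with kernel. -/
theorem finrank_le_map_add (T : Submodule ℝ V) (q : V →ₗ[ℝ] V') (K : Submodule ℝ V)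
    (hK : ∀ v ∈ T, q v = 0 → v ∈ K) : finrank ℝ T ≤ finrank ℝ (T.map q) + finrank ℝ K := by
  have h1 := LinearMap.finrank_range_add_finrank_ker (q.domRestrict T)
  have h2 : LinearMap.range (q.domRestrict T) = T.map q := by
    rw [LinearMap.range_domRestrict]
  have h3 : finrank ℝ (LinearMap.ker (q.domRestrict T)) ≤ finrank ℝ K := by
    let f : LinearMap.ker (q.domRestrict T) →ₗ[ℝ] K :=
      { toFun := fun v => ⟨(v : T), hK _ (v : T).2 v.2⟩
        map_add' := fun _ _ => rfl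
        map_smul' := fun _ _ => rfl }
    have hf : Function.Injective f := by
      intro a b hab
      have : ((a : T) : V) = ((b : T) : V) := congrArg (fun z : K => (z : V)) hab
      exact Subtype.ext (Subtype.ext this)
    exact LinearMap.finrank_le_finrank_of_injective hf
  rw [h2] at h1
  omega

theorem io_mul_pb (A : V →ₗ[ℝ] V') (l : Module.Dual ℝ V) (c : Ext V') :
    io l * pb A c = pb (A.prod l) (io (LinearMap.snd ℝ V' ℝ) * pb (LinearMap.fst ℝ V' ℝ) c) := by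
  rw [map_mul, pb_io, pb_comp, LinearMap.snd_prod, LinearMap.fst_prod]

end lin

/-! ### thin chains -/

/-- **thin chain** (rank form): at every point of `X` either the cut off `χ` is `0` or `1` with
vanishing differential, or the rank of `(g, χ)` on `X` is less than the dimension. -/
def Thn (d : ℕ) (X : Set E) (g : E → E') (χ : E → ℝ) : Prop :=
  (∀ x ∈ X, ContDiffAt ℝ ∞ χ x) ∧ ∀ x ∈ X,
    ((χ x = 0 ∨ χ x = 1) ∧ ∀ v ∈ Tan X x, fderiv ℝ χ x v = 0) ∨
    finrank ℝ ((Tan X x).map ((fderiv ℝ g x).prod (fderiv ℝ χ x) : E →ₗ[ℝ] E' × ℝ)) < d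

theorem Thn.one {d : ℕ} {X : Set E} (g : E → E') : Thn d X g (fun _ => (1 : ℝ)) :=
  ⟨fun _ _ => contDiffAt_const, fun x _ => Or.inl ⟨Or.inr rfl, fun v _ => by
    rw [fderiv_const_apply]; rfl⟩⟩

/-- vanishing of top forms, general form: `f` a map whose derivative factors through that of `g`
along `X`. -/
theorem Thn.thin_of {d : ℕ} {X : Set E} {g : E → E'} {χ : E → ℝ} {f : E → E''}
    (h : Thn d X g χ) (hf : ∀ x ∈ X, ∃ L : E' →ₗ[ℝ] E'', ∀ v ∈ Tan X x,
      fderiv ℝ f x v = L (fderiv ℝ g x v)) : Thin d X f χ where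
  smooth := h.1
  top := by
    intro x hx h0 h1 c w hw
    rcases h.2 x hx with ⟨h2 | h2, -⟩ | h2
    · exact absurd h2 h0
    · exact absurd h2 h1
    obtain ⟨L, hL⟩ := hf x hx
    have e1 : evA E d (pb (fderiv ℝ f x : E →ₗ[ℝ] E'') c) w =
        evA E d (pb (L ∘ₗ (LinearMap.fst ℝ E' ℝ) ∘ₗ
          ((fderiv ℝ g x).prod (fderiv ℝ χ x) : E →ₗ[ℝ] E' × ℝ)) c) w :=
      evA_congr_on (S := Tan X x) (fun v hv => hL v hv) c w hw
    rw [e1, ← LinearMap.comp_assoc, ← pb_comp]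
    exact evA_zero_of_rank _ _ h2 _ w hw
  bd := by
    intro x hx c w hw
    rcases h.2 x hx with ⟨-, h2⟩ | h2
    · cases d with
      | zero => rw [evA_zero_io_mul']; rfl
      | succ q =>
        rw [evA_io_mul]
        refine Finset.sum_eq_zero fun i _ => ?_
        have : ((fderiv ℝ χ x : E →L[ℝ] ℝ) : Module.Dual ℝ E) (w i) = 0 := h2 _ (hw i)
        rw [this]; ring
    · obtain ⟨L, hL⟩ := hf x hx
      rw [io_mul_pb]
      have e1 : ∀ c' : Ext (E'' × ℝ),
          evA E d (pb ((fderiv ℝ f x : E →ₗ[ℝ] E'').prod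
            ((fderiv ℝ χ x : E →L[ℝ] ℝ) : Module.Dual ℝ E)) c') w =
          evA E d (pb ((L.prodMap LinearMap.id) ∘ₗ
          ((fderiv ℝ g x).prod (fderiv ℝ χ x) : E →ₗ[ℝ] E' × ℝ)) c') w := fun c' =>
        evA_congr_on (S := Tan X x) (fun v hv => by
          show (fderiv ℝ f x v, fderiv ℝ χ x v) = (L (fderiv ℝ g x v), fderiv ℝ χ x v)
          rw [hL v hv]) c' w hw
      rw [e1, ← pb_comp]
      exact evA_zero_of_rank _ _ h2 _ w hw

theorem Thn.thin {d : ℕ} {X : Set E} {g : E → E'} {χ : E → ℝ} (h : Thn d X g χ) :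
    Thin d X g χ :=
  h.thin_of fun _ _ => ⟨LinearMap.id, fun _ _ => rfl⟩

theorem Thn.thin_comp {d : ℕ} {X : Set E} {g : E → E'} {χ : E → ℝ} {φ : E' → E''}
    (h : Thn d X g χ) (hg : ∀ x ∈ X, DifferentiableAt ℝ g x)
    (hφ : ∀ x ∈ X, DifferentiableAt ℝ φ (g x)) : Thin d X (fun x => φ (g x)) χ :=
  h.thin_of fun x hx => ⟨(fderiv ℝ φ (g x) : E' →ₗ[ℝ] E''), fun v _ => by
    have : fderiv ℝ (fun x => φ (g x)) x = (fderiv ℝ φ (g x)).comp (fderiv ℝ g x) :=
      fderiv_comp x (hφ x hx) (hg x hx)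
    rw [this]; rfl⟩

theorem subm_ker {r d : ℕ} {Z : Set E'} {Y : Set E} {π : E' → E} (h : Subm r d Z Y π) {z : E'}
    (hz : z ∈ Z) :
    finrank ℝ ((Tan Z z ⊓ LinearMap.ker (fderiv ℝ π z : E' →ₗ[ℝ] E) : Submodule ℝ E')) = r := by
  rw [← h.tan_fibre hz]
  exact (h.clo_fibre (π z)).finrank_Tan ⟨hz, rfl⟩

section fibre
variable {E₁ E₂ : Type*} [NormedAddCommGroup E₁] [NormedSpace ℝ E₁] [FiniteDimensional ℝ E₁]
  [NormedAddCommGroup E₂] [NormedSpace ℝ E₂] [FiniteDimensional ℝ E₂]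

/-- rank estimate for a fibre map -/
theorem rank_fibre {r dY : ℕ} {X : Set E} {g : E → E'} {χ : E → ℝ} {Z : Set E₂} {Y : Set E'}
    {π : E₂ → E'} (hπ : Subm r dY Z Y π) {X' : Set E₁} {p : E₁ → E} {f' : E₁ → E₂}
    (hpm : MapsTo p X' X) (hf'm : MapsTo f' X' Z)
    (hc : ∀ x ∈ X', π (f' x) = g (p x)) {x : E₁} (hx : x ∈ X')
    (hg : DifferentiableAt ℝ g (p x)) (hp : DifferentiableAt ℝ p x)
    (hf' : DifferentiableAt ℝ f' x) (hχ : DifferentiableAt ℝ χ (p x)) :
    finrank ℝ ((Tan X' x).map ((fderiv ℝ f' x).prod (fderiv ℝ (fun x => χ (p x)) x) :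
      E₁ →ₗ[ℝ] E₂ × ℝ)) ≤
    finrank ℝ ((Tan X (p x)).map ((fderiv ℝ g (p x)).prod (fderiv ℝ χ (p x)) :
      E →ₗ[ℝ] E' × ℝ)) + r := by
  have hπd : DifferentiableAt ℝ π (f' x) := (hπ.smooth _ (hf'm hx)).differentiableAt (by simp)
  set T := (Tan X' x).map ((fderiv ℝ f' x).prod (fderiv ℝ (fun x => χ (p x)) x) :
      E₁ →ₗ[ℝ] E₂ × ℝ) with hT
  set q : E₂ × ℝ →ₗ[ℝ] E' × ℝ := (fderiv ℝ π (f' x) : E₂ →ₗ[ℝ] E').prodMap LinearMap.id with hq
  set K : Submodule ℝ E₂ := Tan Z (f' x) ⊓ LinearMap.ker (fderiv ℝ π (f' x) : E₂ →ₗ[ℝ] E') with hK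
  have hχ' : fderiv ℝ (fun x => χ (p x)) x = (fderiv ℝ χ (p x)).comp (fderiv ℝ p x) :=
    fderiv_comp x hχ hp
  have hTan : ∀ v ∈ Tan X' x, fderiv ℝ p x v ∈ Tan X (p x) := fun v hv =>
    fderiv_mapsTo_Tan hp hpm hv
  have hTan' : ∀ v ∈ Tan X' x, fderiv ℝ f' x v ∈ Tan Z (f' x) := fun v hv =>
    fderiv_mapsTo_Tan hf' hf'm hv
  have hcomm : ∀ v ∈ Tan X' x, fderiv ℝ π (f' x) (fderiv ℝ f' x v) =
      fderiv ℝ g (p x) (fderiv ℝ p x v) := fun v hv => by
    have h1 := CM.fderiv_eq_of_eqOn (X := X') (f := fun y => π (f' y)) (g := fun y => g (p y))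
      (hπd.comp x hf') (hg.comp x hp) (eventually_nhdsWithin_of_forall hc) hv
    rw [fderiv_fun_comp x hπd hf', fderiv_fun_comp x hg hp] at h1
    exact h1
  have h1 := finrank_le_map_add T q (K.map (LinearMap.inl ℝ E₂ ℝ)) (by
    rintro v hv hqv
    obtain ⟨u, hu, rfl⟩ := hv
    have h2 : fderiv ℝ π (f' x) (fderiv ℝ f' x u) = 0 := congrArg Prod.fst hqv
    have h3 : fderiv ℝ (fun x => χ (p x)) x u = 0 := congrArg Prod.snd hqv
    refine ⟨fderiv ℝ f' x u, ⟨hTan' u hu, h2⟩, ?_⟩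
    exact Prod.ext rfl h3.symm)
  have h2 : finrank ℝ (K.map (LinearMap.inl ℝ E₂ ℝ)) ≤ r :=
    (Submodule.finrank_map_le _ _).trans (subm_ker hπ (hf'm hx)).le
  have h3 : T.map q ≤ (Tan X (p x)).map ((fderiv ℝ g (p x)).prod (fderiv ℝ χ (p x)) :
      E →ₗ[ℝ] E' × ℝ) := by
    rintro _ ⟨_, ⟨u, hu, rfl⟩, rfl⟩
    refine ⟨fderiv ℝ p x u, hTan u hu, Prod.ext (hcomm u hu).symm ?_⟩
    show fderiv ℝ χ (p x) (fderiv ℝ p x u) = fderiv ℝ (fun x => χ (p x)) x u
    rw [hχ']; rfl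
  have h4 := Submodule.finrank_mono h3
  omega

/-- **fibre maps of thin chains are thin** -/
theorem Thn.of_fibre {d r dY : ℕ} {X : Set E} {g : E → E'} {χ : E → ℝ} {Z : Set E₂} {Y : Set E'}
    {π : E₂ → E'} (hπ : Subm r dY Z Y π) {X' : Set E₁} {p : E₁ → E} {f' : E₁ → E₂}
    (h : Thn d X g χ) (hg : ∀ x ∈ X, DifferentiableAt ℝ g x)
    (hp : ∀ x ∈ X', ContDiffAt ℝ ∞ p x) (hpm : MapsTo p X' X)
    (hf' : ∀ x ∈ X', DifferentiableAt ℝ f' x) (hf'm : MapsTo f' X' Z)
    (hc : ∀ x ∈ X', π (f' x) = g (p x)) : Thn (d + r) X' f' (fun x => χ (p x)) := by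
  refine ⟨fun x hx => (h.1 _ (hpm hx)).comp x (hp x hx), fun x hx => ?_⟩
  have hpd : DifferentiableAt ℝ p x := (hp x hx).differentiableAt (by simp)
  have hχd : DifferentiableAt ℝ χ (p x) := (h.1 _ (hpm hx)).differentiableAt (by simp)
  rcases h.2 _ (hpm hx) with ⟨h1, h2⟩ | h1
  · refine Or.inl ⟨h1, fun v hv => ?_⟩
    rw [fderiv_fun_comp x hχd hpd]
    exact h2 _ (fderiv_mapsTo_Tan hpd hpm hv)
  · refine Or.inr ?_
    have h2 := rank_fibre hπ hpm hf'm hc hx (hg _ (hpm hx)) hpd (hf' x hx) hχd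
    omega

end fibre

/-! ### Stokes -/
section stokes
variable {d : ℕ} {X : Set E} {g : E → E'} {χ : E → ℝ} {oX : E → Ext E}

/-- Stokes with a cut off -/
theorem J_cut_d (hX : Clo d X) (ho : Ori d X oX) {β : E → Ext E}
    (hχ : ∀ x ∈ X, ContDiffAt ℝ ∞ χ x) (hβ : ∀ x ∈ X, ContDiffAt ℝ ∞ β x) :
    J d X oX (fun x => χ x • F.d β x) = - J d X oX (fun x =>
      io ((fderiv ℝ χ x : E →L[ℝ] ℝ) : Module.Dual ℝ E) * β x) := by
  have h0 := J_d hX ho (β := fun x => χ x • β x)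
    (fun x hx => ((hχ x hx).smul (hβ x hx)).of_le (by simp))
  have h1 : J d X oX (F.d fun x => χ x • β x) = J d X oX (fun x =>
      io ((fderiv ℝ χ x : E →L[ℝ] ℝ) : Module.Dual ℝ E) * β x + χ x • F.d β x) :=
    J_congr' hX fun x hx => d_smul ((hχ x hx).differentiableAt (by simp))
      ((hβ x hx).differentiableAt (by simp))
  rw [h1, J_add hX ho] at h0
  · linarith
  · have e1 : ContinuousOn (fun x => io ((fderiv ℝ χ x : E →L[ℝ] ℝ) : Module.Dual ℝ E)) X := by
      intro x hx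
      have h3 : ContinuousAt (fderiv ℝ χ) x :=
        ((hχ x hx).fderiv_right (m := 0) (by simp)).continuousAt
      let L : (E →L[ℝ] ℝ) →ₗ[ℝ] Ext E :=
        (io : Module.Dual ℝ E →ₗ[ℝ] Ext E) ∘ₗ (ContinuousLinearMap.coeLM ℝ)
      have h4 : Continuous L := L.continuous_of_finiteDimensional
      exact (h4.continuousAt.comp h3).continuousWithinAt
    exact continuousOn_mul e1 fun x hx => (hβ x hx).continuousAt.continuousWithinAt
  · exact ContinuousOn.smul (fun x hx => (hχ x hx).continuousAt.continuousWithinAt)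
      (continuousOn_d fun x hx => (hβ x hx).of_le (by simp))

/-- the integral over a thin chain of an exact form of the target vanishes. -/
theorem Thn.J_d (h : Thn d X g χ) (hX : Clo d X) (ho : Ori d X oX)
    (hg : ∀ x ∈ X, ContDiffAt ℝ ∞ g x) {η : E' → Ext E'}
    (hη : ∀ x ∈ X, ContDiffAt ℝ ∞ η (g x)) :
    J d X oX (fun x => χ x • F.pull g (F.d η) x) = 0 := by
  have hp : ∀ x ∈ X, ContDiffAt ℝ ∞ (F.pull g η) x := fun x hx =>
    contDiffAt_pull (hg x hx) (by simp) (hη x hx)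
  have h1 : J d X oX (fun x => χ x • F.pull g (F.d η) x) =
      J d X oX (fun x => χ x • F.d (F.pull g η) x) :=
    J_congr' hX fun x hx => by
      rw [d_pull ((hg x hx).of_le two_le_infty)
        ((hη x hx).differentiableAt (by simp))]
  have h2 : J d X oX (fun x => io ((fderiv ℝ χ x : E →L[ℝ] ℝ) : Module.Dual ℝ E) *
      F.pull g η x) = 0 := J_eq_zero hX fun x hx w hw => h.thin.bd x hx (η (g x)) w hw
  rw [h1, J_cut_d hX ho h.1 hp, h2, neg_zero]

theorem J_eqv' (hX : Clo d X) {a b : E → Ext E} (h : T.Eqv X a b) (χ : E → ℝ) :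
    J d X oX (fun x => χ x • a x) = J d X oX (fun x => χ x • b x) := by
  refine J_congr hX fun x hx w hw => ?_
  have h1 := T.eqv_iff.1 h x hx
  have h2 := evA_pb d (Tan X x).subtype (a x) (fun i => ⟨w i, hw i⟩)
  have h3 := evA_pb d (Tan X x).subtype (b x) (fun i => ⟨w i, hw i⟩)
  rw [h1] at h2
  have h4 := h2.symm.trans h3
  rw [map_smul, map_smul, AlternatingMap.smul_apply, AlternatingMap.smul_apply]
  congr 1

/-- the integral over a thin chain only depends on the cohomology class on the target. -/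
theorem Thn.J_coh (h : Thn d X g χ) (hX : Clo d X) (ho : Ori d X oX) {Y : Set E'}
    (hg : CW.SMap X Y g) {a b : E' → Ext E'} (ha : T.Sm Y a) (hb : T.Sm Y b) (hab : T.Coh Y a b) :
    J d X oX (fun x => χ x • F.pull g a x) = J d X oX (fun x => χ x • F.pull g b x) := by
  obtain ⟨ξ, hξ, hξ'⟩ := hab
  have h1 : T.Eqv X (F.pull g a - F.pull g b) (F.pull g (F.d ξ)) := by
    rw [← T.pull_sub']; exact hξ'.pull hg
  have h2 := J_eqv' (oX := oX) hX h1 χ
  rw [h.J_d hX ho hg.smooth fun x hx => hξ _ (hg.maps hx)] at h2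
  have h3 : (fun x => χ x • (F.pull g a - F.pull g b) x) =
      fun x => χ x • F.pull g a x - χ x • F.pull g b x := by
    funext x; rw [Pi.sub_apply, smul_sub]
  have hc : ∀ c : E' → Ext E', T.Sm Y c → ContinuousOn (fun x => χ x • F.pull g c x) X :=
    fun c hc x hx => ((h.1 x hx).continuousAt.smul (contDiffAt_pull (hg.smooth x hx)
      (m := ∞) (by simp) (hc _ (hg.maps hx))).continuousAt).continuousWithinAt
  rw [h3, J_sub hX ho (hc a ha) (hc b hb)] at h2
  exact sub_eq_zero.1 h2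

end stokes

end Crest.Agent.R208.CH
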