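import Crest.Agent.R208.CH3

/-! Row 208, block CH (helper305), part CH3b: the swept chain is thin. -/

set_option autoImplicit false
set_option linter.unusedSectionVars false

open MeasureTheory MeasureTheory.Measure Set Filter Topology Module
open scoped ContDiff
open Crest.Agent.R208.F Crest.Agent.R208.FI

noncomputable section

namespace Crest.Agent.R208.CH

open HW (U SU)

variable {E E' V : Type*} [NormedAddCommGroup E] [NormedSpace ℝ E] [FiniteDimensional ℝ E]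
  [NormedAddCommGroup E'] [NormedSpace ℝ E'] [FiniteDimensional ℝ E']
  [NormedAddCommGroup V] [NormedSpace ℝ V] [FiniteDimensional ℝ V]

/-- the content of `Dfm` with the open set as a parameter -/
structure DfmO (X K : Set E) (ρ : ℕ) (R : E × ℝ → E) (O : Set E) : Prop where
  op : IsOpen O
  sub : K ⊆ O
  sm : ∀ z ∈ O ∩ X, ∀ t, ContDiffAt ℝ ∞ R (z, t)
  mem : ∀ z ∈ O ∩ X, ∀ t, R (z, t) ∈ X
  zero : ∀ z ∈ O ∩ X, ∀ t ≤ 0, R (z, t) = z
  one : ∀ z ∈ O ∩ X, ∀ t, 1 ≤ t → R (z, t) = R (z, 1)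
  rk : ∀ z ∈ O ∩ X, finrank ℝ ((Tan X z).map (fderiv ℝ (fun y => R (y, 1)) z : E →ₗ[ℝ] E)) ≤ ρ

theorem Dfm.exO {X K : Set E} {ρ : ℕ} {R : E × ℝ → E} (h : Dfm X K ρ R) : ∃ O, DfmO X K ρ R O := by
  obtain ⟨O, h1, h2, h3, h4, h5, h6, h7⟩ := h.ex
  exact ⟨O, h1, h2, h3, h4, h5, h6, h7⟩

variable {X : Set E} {Z : Set V} {B : Set E'} {π : E → E'} {g : V → E'} {χ : V → ℝ}
  {R : E × ℝ → E} {n d ρ : ℕ} {O : Set E}

theorem mem_K {y : (E × V) × U 0} (hy : y ∈ ZS X Z π g)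
    (hR : DfmO X (Prod.fst '' FG.FP X Z π g) ρ R O) : y.1.1 ∈ O ∩ X :=
  ⟨hR.sub ⟨y.1, hy.1, rfl⟩, hy.1.1⟩

theorem GS_mem {y : (E × V) × U 0} (hy : y ∈ ZS X Z π g)
    (hR : DfmO X (Prod.fst '' FG.FP X Z π g) ρ R O) : GS R y ∈ X := hR.mem _ (mem_K hy hR) _

theorem GS_diff {y : (E × V) × U 0} (hy : y ∈ ZS X Z π g)
    (hR : DfmO X (Prod.fst '' FG.FP X Z π g) ρ R O) : DifferentiableAt ℝ (GS (V := V) R) y :=
  (contDiffAt_GS (hR.sm _ (mem_K hy hR) _)).differentiableAt (by simp)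

/-- case `t = 0` -/
theorem fderiv_GS_A {y : (E × V) × U 0} (hy : y ∈ ZS X Z π g)
    (hR : DfmO X (Prod.fst '' FG.FP X Z π g) ρ R O) (hA : y.2 (0, 0) < -(1 / 2))
    {v : (E × V) × U 0} (hv : v ∈ Tan (ZS X Z π g) y) : fderiv ℝ (GS R) y v = v.1.1 := by
  have h1 : ∀ᶠ y' in 𝓝[ZS X Z π g] y, GS R y' = y'.1.1 := by
    have h2 : ∀ᶠ y' : (E × V) × U 0 in 𝓝 y, y'.2 (0, 0) < -(1 / 2) :=
      (continuous_snd.continuousAt (x := y)).eventually (ev_lt hA)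
    filter_upwards [self_mem_nhdsWithin, nhdsWithin_le_nhds h2] with y' h3 h4
    rw [GS, tt_zero h4.le]
    exact hR.zero _ (mem_K h3 hR) 0 le_rfl
  have h2 := CM.fderiv_eq_of_eqOn (GS_diff hy hR)
    (g := fun y' : (E × V) × U 0 => y'.1.1)
    ((differentiableAt_fst.comp y differentiableAt_fst)) h1 hv
  rw [h2]
  have h3 : HasFDerivAt (fun y' : (E × V) × U 0 => y'.1.1)
      ((ContinuousLinearMap.fst ℝ E V).comp (ContinuousLinearMap.fst ℝ (E × V) (U 0))) y :=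
    hasFDerivAt_fst.comp y hasFDerivAt_fst
  rw [h3.fderiv]; rfl

/-- case `t = 1` -/
theorem fderiv_GS_B {y : (E × V) × U 0} (hy : y ∈ ZS X Z π g)
    (hR : DfmO X (Prod.fst '' FG.FP X Z π g) ρ R O) (hB : 1 / 2 < y.2 (0, 0))
    (v : (E × V) × U 0) : fderiv ℝ (GS R) y v = fderiv ℝ (fun z => R (z, 1)) y.1.1 v.1.1 := by
  have h1 : GS R =ᶠ[𝓝 y] fun y' : (E × V) × U 0 => R (y'.1.1, 1) := by
    have h2 : ∀ᶠ y' : (E × V) × U 0 in 𝓝 y, 1 / 2 < y'.2 (0, 0) :=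
      (continuous_snd.continuousAt (x := y)).eventually (ev_gt hB)
    filter_upwards [h2] with y' h4
    rw [GS, tt_one h4.le]
  rw [h1.fderiv_eq]
  have h2 : ContDiffAt ℝ ∞ (fun z => R (z, 1)) y.1.1 :=
    ContDiffAt.comp (g := R) (f := fun z : E => (z, (1 : ℝ))) y.1.1 (hR.sm _ (mem_K hy hR) 1)
      (contDiffAt_id.prodMk contDiffAt_const)
  have h3 : HasFDerivAt (fun y' : (E × V) × U 0 => y'.1.1)
      ((ContinuousLinearMap.fst ℝ E V).comp (ContinuousLinearMap.fst ℝ (E × V) (U 0))) y :=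
    hasFDerivAt_fst.comp y hasFDerivAt_fst
  have h4 : HasFDerivAt (fun z => R (z, 1)) (fderiv ℝ (fun z => R (z, 1)) y.1.1) y.1.1 :=
    (h2.differentiableAt (by simp)).hasFDerivAt
  have h5 := HasFDerivAt.comp (g := fun z => R (z, 1)) y h4 h3
  have h6 : fderiv ℝ (fun y' : (E × V) × U 0 => R (y'.1.1, 1)) y = _ := h5.fderiv
  rw [h6]; rfl

theorem fderiv_GS {y : (E × V) × U 0} (hy : y ∈ ZS X Z π g)
    (hR : DfmO X (Prod.fst '' FG.FP X Z π g) ρ R O) (v : (E × V) × U 0) :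
    fderiv ℝ (GS R) y v = fderiv ℝ R (y.1.1, tt y.2) (v.1.1, fderiv ℝ tt y.2 v.2) := by
  have h1 : HasFDerivAt R (fderiv ℝ R (y.1.1, tt y.2)) (y.1.1, tt y.2) :=
    ((hR.sm _ (mem_K hy hR) _).differentiableAt (by simp)).hasFDerivAt
  have h3 : HasFDerivAt (fun y' : (E × V) × U 0 => y'.1.1)
      ((ContinuousLinearMap.fst ℝ E V).comp (ContinuousLinearMap.fst ℝ (E × V) (U 0))) y :=
    hasFDerivAt_fst.comp y hasFDerivAt_fst
  have h4 : HasFDerivAt (fun y' : (E × V) × U 0 => tt y'.2)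
      ((fderiv ℝ tt y.2).comp (ContinuousLinearMap.snd ℝ (E × V) (U 0))) y :=
    HasFDerivAt.comp (g := tt) y
      ((contDiff_tt.contDiffAt.differentiableAt (by simp)).hasFDerivAt) hasFDerivAt_snd
  have h5 := h1.comp y (h3.prodMk h4)
  have h6 : fderiv ℝ (GS (V := V) R) y = _ := h5.fderiv
  rw [h6]; rfl

theorem fderiv_cS {y : (E × V) × U 0} (hχ : ContDiffAt ℝ ∞ χ y.1.2) (v : (E × V) × U 0) :
    fderiv ℝ (cS (E := E) χ) y v =
      kk y.2 * fderiv ℝ χ y.1.2 v.1.2 + χ y.1.2 * fderiv ℝ kk y.2 v.2 := by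
  have h3 : HasFDerivAt (fun y' : (E × V) × U 0 => y'.1.2)
      ((ContinuousLinearMap.snd ℝ E V).comp (ContinuousLinearMap.fst ℝ (E × V) (U 0))) y :=
    hasFDerivAt_snd.comp y hasFDerivAt_fst
  have h1 : HasFDerivAt (fun y' : (E × V) × U 0 => χ y'.1.2)
      ((fderiv ℝ χ y.1.2).comp ((ContinuousLinearMap.snd ℝ E V).comp
        (ContinuousLinearMap.fst ℝ (E × V) (U 0)))) y :=
    HasFDerivAt.comp (g := χ) y ((hχ.differentiableAt (by simp)).hasFDerivAt) h3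
  have h4 : HasFDerivAt (fun y' : (E × V) × U 0 => kk y'.2)
      ((fderiv ℝ kk y.2).comp (ContinuousLinearMap.snd ℝ (E × V) (U 0))) y :=
    HasFDerivAt.comp (g := kk) y
      ((contDiff_kk.contDiffAt.differentiableAt (by simp)).hasFDerivAt) hasFDerivAt_snd
  have h5 := h1.mul h4
  have h6 : fderiv ℝ (cS (E := E) χ) y = _ := h5.fderiv
  rw [h6]
  simp
  ring

theorem kk_ev_one {y : (E × V) × U 0} (hC : 1 / 2 < y.2 (0, 1)) :
    kk y.2 = 1 ∧ fderiv ℝ kk y.2 = 0 := by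
  have h1 : kk =ᶠ[𝓝 y.2] fun _ => 1 := by
    filter_upwards [ev_gt hC] with u hu using kk_one hu.le
  exact ⟨h1.self_of_nhds, by rw [h1.fderiv_eq]; exact fderiv_const_apply _⟩

theorem kk_ev_zero {y : (E × V) × U 0} (hC : y.2 (0, 1) < -(1 / 2)) :
    kk y.2 = 0 ∧ fderiv ℝ kk y.2 = 0 := by
  have h1 : kk =ᶠ[𝓝 y.2] fun _ => 0 := by
    filter_upwards [ev_lt hC] with u hu using kk_zero hu.le
  exact ⟨h1.self_of_nhds, by rw [h1.fderiv_eq]; exact fderiv_const_apply _⟩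

theorem fderiv_gS (hπ : Subm 1 n X B π) {y : (E × V) × U 0} (hy : y ∈ ZS X Z π g)
    (hR : DfmO X (Prod.fst '' FG.FP X Z π g) ρ R O) (v : (E × V) × U 0) :
    fderiv ℝ (gS π R) y v = fderiv ℝ π (GS R y) (fderiv ℝ (GS R) y v) := by
  have h1 : DifferentiableAt ℝ π (GS R y) :=
    (hπ.smooth _ (GS_mem hy hR)).differentiableAt (by simp)
  have h2 : gS (V := V) π R = fun y => π (GS R y) := rfl
  rw [h2, fderiv_fun_comp y h1 (GS_diff hy hR)]
  rfl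

/-- the differential of `(GS, cS)` -/
abbrev DD (R : E × ℝ → E) (χ : V → ℝ) (y : (E × V) × U 0) : ((E × V) × U 0) →ₗ[ℝ] E × ℝ :=
  (fderiv ℝ (GS R) y).prod (fderiv ℝ (cS (E := E) χ) y)

theorem rank_B {y : (E × V) × U 0} (hy : y ∈ ZS X Z π g)
    (hR : DfmO X (Prod.fst '' FG.FP X Z π g) ρ R O) (hB : 1 / 2 < y.2 (0, 0)) :
    finrank ℝ ((Tan (ZS X Z π g) y).map (DD R χ y)) ≤ ρ + 1 := by
  refine (finrank_prod_le _).trans (Nat.add_le_add_right ?_ 1)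
  refine le_trans (Submodule.finrank_mono ?_) (hR.rk _ (mem_K hy hR))
  rintro _ ⟨_, ⟨v, hv, rfl⟩, rfl⟩
  exact ⟨v.1.1, (tan_ZS hv).2.2.1, (fderiv_GS_B hy hR hB v).symm⟩

theorem finrank_Tan_SU {u : U 0} (hu : u ∈ SU 0) : finrank ℝ (Tan (SU 0) u) = 1 :=
  (HW.clo_SU (k := 0)).finrank_Tan hu

theorem rank_C (hπ : Subm 1 n X B π) (hg : CW.SMap Z B g) {y : (E × V) × U 0}
    (hy : y ∈ ZS X Z π g) (hχ : ContDiffAt ℝ ∞ χ y.1.2)
    (hR : DfmO X (Prod.fst '' FG.FP X Z π g) ρ R O) (hC : 1 / 2 < y.2 (0, 1))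
    (hr : finrank ℝ ((Tan Z y.1.2).map ((fderiv ℝ g y.1.2).prod (fderiv ℝ χ y.1.2) :
      V →ₗ[ℝ] E' × ℝ)) < d) :
    finrank ℝ ((Tan (ZS X Z π g) y).map (DD R χ y)) ≤ d + 1 := by
  have h1 := rank_fibre (X := Z) (g := g) (χ := χ) hπ (X' := FG.FP X Z π g)
    (p := fun z : E × V => z.2) (f' := fun z : E × V => z.1) (fun z hz => hz.2.1)
    (fun z hz => hz.1) (fun z hz => hz.2.2) (x := y.1) hy.1
    ((hg.smooth _ hy.1.2.1).differentiableAt (by simp)) differentiableAt_snd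
    differentiableAt_fst (hχ.differentiableAt (by simp))
  set T1 := (Tan (FG.FP X Z π g) y.1).map ((fderiv ℝ (fun z : E × V => z.1) y.1).prod
    (fderiv ℝ (fun z : E × V => χ z.2) y.1) : (E × V) →ₗ[ℝ] E × ℝ) with hT1
  set N : ((E × V) × U 0) →ₗ[ℝ] (E × ℝ) × U 0 :=
    (((fderiv ℝ (fun z : E × V => z.1) y.1).prod
    (fderiv ℝ (fun z : E × V => χ z.2) y.1) : (E × V) →ₗ[ℝ] E × ℝ)).prodMap LinearMap.id with hN
  set T2 := (Tan (ZS X Z π g) y).map N with hT2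
  have h2 : finrank ℝ T2 ≤ finrank ℝ T1 + 1 := by
    have h3 := finrank_le_map_add T2 (LinearMap.fst ℝ (E × ℝ) (U 0))
      ((Tan (SU 0) y.2).map (LinearMap.inr ℝ (E × ℝ) (U 0))) (by
        rintro _ ⟨v, hv, rfl⟩ h
        exact ⟨v.2, (tan_ZS hv).2.1, Prod.ext (show (0 : E × ℝ) = _ from h.symm) rfl⟩)
    have h4 : T2.map (LinearMap.fst ℝ (E × ℝ) (U 0)) ≤ T1 := by
      rintro _ ⟨_, ⟨v, hv, rfl⟩, rfl⟩
      exact ⟨v.1, (tan_ZS hv).1, rfl⟩
    have h5 := Submodule.finrank_mono h4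
    have h6 : finrank ℝ ((Tan (SU 0) y.2).map (LinearMap.inr ℝ (E × ℝ) (U 0))) ≤ 1 :=
      (Submodule.finrank_map_le _ _).trans (finrank_Tan_SU hy.2).le
    omega
  set M : (E × ℝ) × U 0 →ₗ[ℝ] E × ℝ :=
    ((fderiv ℝ R (y.1.1, tt y.2) : E × ℝ →ₗ[ℝ] E) ∘ₗ
      ((LinearMap.fst ℝ E ℝ).prodMap (fderiv ℝ tt y.2 : U 0 →ₗ[ℝ] ℝ))).prod
      (LinearMap.snd ℝ E ℝ ∘ₗ LinearMap.fst ℝ (E × ℝ) (U 0)) with hM
  have h7 : (Tan (ZS X Z π g) y).map (DD R χ y) ≤ T2.map M := by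
    rintro _ ⟨v, hv, rfl⟩
    refine ⟨N v, ⟨v, hv, rfl⟩, ?_⟩
    have e1 : fderiv ℝ (fun z : E × V => z.1) y.1 v.1 = v.1.1 := by rw [fderiv_fst]; rfl
    have e2 : fderiv ℝ (fun z : E × V => χ z.2) y.1 v.1 = fderiv ℝ χ y.1.2 v.1.2 := by
      rw [fderiv_fun_comp y.1 (hχ.differentiableAt (by simp)) differentiableAt_snd, fderiv_snd]
      rfl
    refine Prod.ext ?_ ?_
    · show fderiv ℝ R (y.1.1, tt y.2) (fderiv ℝ (fun z : E × V => z.1) y.1 v.1,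
        fderiv ℝ tt y.2 v.2) = fderiv ℝ (GS R) y v
      rw [e1, fderiv_GS hy hR]
    · show fderiv ℝ (fun z : E × V => χ z.2) y.1 v.1 = fderiv ℝ (cS (E := E) χ) y v
      rw [e2, fderiv_cS hχ, (kk_ev_one hC).1, (kk_ev_one hC).2]
      simp
  have h8 := Submodule.finrank_mono h7
  have h9 : finrank ℝ (T2.map M) ≤ finrank ℝ T2 := Submodule.finrank_map_le _ _
  omega

/-- **the swept chain is thin** -/
theorem thn_sweep (hπ : Subm 1 n X B π) (hg : CW.SMap Z B g) (hZ : Clo d Z) (ht : Thn d Z g χ)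
    (hR : DfmO X (Prod.fst '' FG.FP X Z π g) ρ R O) (hρ : ρ ≤ d) :
    Thn (d + 2) (ZS X Z π g) (gS π R) (cS χ) := by
  refine ⟨fun y hy => contDiffAt_cS (ht.1 _ hy.1.2.1), fun y hy => ?_⟩
  have hχ := ht.1 _ hy.1.2.1
  have hle : finrank ℝ ((Tan (ZS X Z π g) y).map ((fderiv ℝ (gS π R) y).prod
      (fderiv ℝ (cS (E := E) χ) y) : _ →ₗ[ℝ] E' × ℝ)) ≤
      finrank ℝ ((Tan (ZS X Z π g) y).map (DD R χ y)) := by
    have h1 : (Tan (ZS X Z π g) y).map ((fderiv ℝ (gS π R) y).prod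
      (fderiv ℝ (cS (E := E) χ) y) : _ →ₗ[ℝ] E' × ℝ) ≤
      ((Tan (ZS X Z π g) y).map (DD R χ y)).map
        ((fderiv ℝ π (GS R y) : E →ₗ[ℝ] E').prodMap LinearMap.id) := by
      rintro _ ⟨v, hv, rfl⟩
      exact ⟨_, ⟨v, hv, rfl⟩, Prod.ext (fderiv_gS hπ hy hR v).symm rfl⟩
    exact (Submodule.finrank_mono h1).trans (Submodule.finrank_map_le _ _)
  rcases circle_cases hy.2 with hA | hB | hC | hD
  · right
    refine lt_of_le_of_lt (finrank_prod_le _) ?_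
    have h1 : ((Tan (ZS X Z π g) y).map ((fderiv ℝ (gS π R) y).prod
      (fderiv ℝ (cS (E := E) χ) y) : _ →ₗ[ℝ] E' × ℝ)).map (LinearMap.fst ℝ E' ℝ) ≤
        (Tan Z y.1.2).map (fderiv ℝ g y.1.2 : V →ₗ[ℝ] E') := by
      rintro _ ⟨_, ⟨v, hv, rfl⟩, rfl⟩
      refine ⟨v.1.2, (tan_ZS hv).2.2.2, ?_⟩
      show fderiv ℝ g y.1.2 v.1.2 = fderiv ℝ (gS π R) y v
      have hG : GS R y = y.1.1 := by
        rw [GS, tt_zero hA.le]; exact hR.zero _ (mem_K hy hR) 0 le_rfl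
      rw [fderiv_gS hπ hy hR, fderiv_GS_A hy hR hA hv, hG]
      have h2 := CM.fderiv_eq_of_eqOn (X := FG.FP X Z π g) (f := fun z : E × V => π z.1)
        (g := fun z : E × V => g z.2) (x := y.1)
        (((hπ.smooth _ hy.1.1).differentiableAt (by simp)).comp y.1 differentiableAt_fst)
        (((hg.smooth _ hy.1.2.1).differentiableAt (by simp)).comp y.1 differentiableAt_snd)
        (eventually_nhdsWithin_of_forall fun z hz => hz.2.2) (tan_ZS hv).1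
      rw [fderiv_fun_comp y.1 ((hπ.smooth _ hy.1.1).differentiableAt (by simp))
        differentiableAt_fst, fderiv_fun_comp y.1
        ((hg.smooth _ hy.1.2.1).differentiableAt (by simp)) differentiableAt_snd,
        fderiv_fst, fderiv_snd] at h2
      exact h2.symm
    have h2 := (Submodule.finrank_mono h1).trans ((Submodule.finrank_map_le _ _).trans
      (hZ.finrank_Tan hy.1.2.1).le)
    omega
  · right
    have := rank_B (χ := χ) hy hR hB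
    omega
  · rcases ht.2 _ hy.1.2.1 with ⟨h1, h2⟩ | h1
    · left
      refine ⟨?_, fun v hv => ?_⟩
      · rw [cS, (kk_ev_one hC).1, mul_one]; exact h1
      · rw [fderiv_cS hχ, (kk_ev_one hC).2, h2 _ (tan_ZS hv).2.2.2]
        simp
    · right
      have := rank_C hπ hg hy hχ hR hC h1
      omega
  · left
    refine ⟨Or.inl (by rw [cS, (kk_ev_zero hD).1, mul_zero]), fun v hv => ?_⟩
    rw [fderiv_cS hχ, (kk_ev_zero hD).1, (kk_ev_zero hD).2]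
    simp

theorem clo_ZS (hπ : Subm 1 n X B π) (hZ : Clo d Z) (hg : CW.SMap Z B g) :
    Clo (d + 2) (ZS X Z π g) := by
  have h1 := FG.bc_clo hπ ⟨hZ, hg.smooth, hg.maps⟩
  have h2 := h1.prod (HW.clo_SU (k := 0))
  have e : 1 + d + (2 * 0 + 1) = d + 2 := by omega
  rw [e] at h2
  exact h2

theorem smap_gS (hπ : Subm 1 n X B π)
    (hR : DfmO X (Prod.fst '' FG.FP X Z π g) ρ R O) : CW.SMap (ZS X Z π g) B (gS π R) :=
  ⟨fun y hy => ContDiffAt.comp y (hπ.smooth _ (GS_mem hy hR))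
    (contDiffAt_GS (hR.sm _ (mem_K hy hR) _)), fun _ hy => hπ.mapsTo (GS_mem hy hR)⟩

end Crest.Agent.R208.CH
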