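import Crest.Agent.R208.CH3b
import Crest.Agent.R208.HW2
import Crest.Agent.R208.CM5

/-! Row 208, block CH (helper305), part CH3c: the parameter circle: action, orientation, the
fibre integral of `(1 - tt) d kk`. -/

set_option autoImplicit false
set_option linter.unusedSectionVars false

open MeasureTheory MeasureTheory.Measure Set Filter Topology Module
open scoped ContDiff RealInnerProductSpace
open Crest.Agent.R208.F Crest.Agent.R208.FI

noncomputable section

namespace Crest.Agent.R208.CH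

open HW (U SU)

section orbit
variable {E : Type*} [NormedAddCommGroup E] [NormedSpace ℝ E] [FiniteDimensional ℝ E]

/-- integral of any form over one orbit -/
theorem J_orbit_gen {X : Set E} {φ : ℝ → E → E} (h : CM.Cir X φ) {O : Set E} (hO : Clo 1 O) {x : E}
    (hx : x ∈ X) (hOx : O = range fun t => φ t x) {al : E → Ext E}
    (hal : ∀ y ∈ O, evA E 1 (al y) (fun _ => CM.gen φ y) = 1) (η : E → Ext E) :
    J 1 O al η = ∫ s in (0 : ℝ)..(2 * Real.pi), evA E 1 (η (φ s x)) (fun _ => CM.gen φ (φ s x)) := by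
  have hπ := Real.pi_pos
  set A : Set (Eu 1) := {u : Eu 1 | u 0 ∈ Ico (0 : ℝ) (2 * Real.pi)} with hA
  have hAm : MeasurableSet A := by
    have : Measurable fun u : Eu 1 => u 0 :=
      ((EuclideanSpace.proj (0 : Fin 1) : Eu 1 →L[ℝ] ℝ).continuous).measurable
    exact this measurableSet_Ico
  have hmemO : ∀ u, CM.orb φ x u ∈ O := fun u => by rw [hOx]; exact ⟨u 0, rfl⟩
  have himg : CM.orb φ x '' A = O := by
    refine Subset.antisymm (by rintro _ ⟨u, -, rfl⟩; exact hmemO u) ?_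
    rw [hOx]
    rintro _ ⟨t, rfl⟩
    obtain ⟨s, hs, k, hk⟩ : ∃ s ∈ Ico (0 : ℝ) (2 * Real.pi), ∃ k : ℤ, t = s + 2 * Real.pi * k := by
      refine ⟨toIcoMod (CM.two_pi_pos_aux) 0 t, ?_, toIcoDiv CM.two_pi_pos_aux 0 t, ?_⟩
      · have := toIcoMod_mem_Ico CM.two_pi_pos_aux 0 t
        rwa [zero_add] at this
      · have := toIcoMod_add_toIcoDiv_zsmul CM.two_pi_pos_aux 0 t
        rw [zsmul_eq_mul] at this
        linarith
    refine ⟨!₂[s], ?_, ?_⟩
    · simpa [hA] using hs
    · show φ ((!₂[s] : Eu 1) 0) x = φ t x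
      rw [hk, h.add_int s k hx]
      rfl
  have hinj : InjOn (CM.orb φ x) A := by
    intro u hu v hv huv
    obtain ⟨k, hk⟩ := (h.eq_iff hx).1 huv
    have hu' : 0 ≤ u 0 ∧ u 0 < 2 * Real.pi := hu
    have hv' : 0 ≤ v 0 ∧ v 0 < 2 * Real.pi := hv
    have hk0 : k = 0 := by
      have h1 : (k : ℝ) < 1 := by
        by_contra hc
        push Not at hc
        nlinarith
      have h2 : (-1 : ℝ) < k := by
        by_contra hc
        push Not at hc
        nlinarith
      have h1' : k < 1 := by exact_mod_cast h1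
      have h2' : -1 < k := by exact_mod_cast h2
      omega
    rw [hk0] at hk
    ext i
    rw [Fin.fin_one_eq_zero i]
    simpa using hk
  have hd : ∀ u, HasFDerivAt (CM.orb φ x) _ u := fun u => CM.hasFDerivAt_orb h hx u
  have key := integral_param (X := O) (o := al) (om := η) (f := CM.orb φ x) hAm
    (fun u _ => (hd u).differentiableAt) hinj (fun u _ => hO.finrank_Tan (hmemO u))
    (fun u _ w => fderiv_mem_Tan (hd u).differentiableAt (Eventually.of_forall hmemO) w)
  rw [himg] at key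
  have htop : ∀ (c : E → Ext E) (u : Eu 1), top 1 (pull (CM.orb φ x) c u) =
      evA E 1 (c (φ (u 0) x)) (fun _ => CM.gen φ (φ (u 0) x)) := by
    intro c u
    unfold pull
    rw [top_pb]
    congr 1
    funext i
    rw [ContinuousLinearMap.coe_coe, (hd u).fderiv, Fin.fin_one_eq_zero i]
    simp [sb]
  have h2 : ∀ u ∈ A, top 1 (pull (CM.orb φ x) η u) * Real.sign (top 1 (pull (CM.orb φ x) al u)) =
      evA E 1 (η (φ (u 0) x)) (fun _ => CM.gen φ (φ (u 0) x)) := by
    intro u _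
    have h3 : evA E 1 (al (φ (u 0) x)) (fun _ => CM.gen φ (φ (u 0) x)) = 1 := hal _ (hmemO u)
    rw [htop, htop, h3, Real.sign_one, mul_one]
  unfold J
  rw [key, setIntegral_congr_fun hAm h2]
  have h1 : MeasurePreserving (fun u : Eu 1 => u 0) := by
    have h2 := (PiLp.volume_preserving_ofLp (Fin 1))
    have h3 := (volume_preserving_funUnique (Fin 1) ℝ)
    exact h3.comp h2
  have hemb : MeasurableEmbedding (fun u : Eu 1 => u 0) := by
    refine (EuclideanSpace.proj (0 : Fin 1) : Eu 1 →L[ℝ] ℝ).continuous.measurableEmbedding ?_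
    intro a b hab
    ext i
    rw [Fin.fin_one_eq_zero i]
    exact hab
  have h3 := h1.setIntegral_preimage_emb hemb
    (fun s => evA E 1 (η (φ s x)) (fun _ => CM.gen φ (φ s x))) (Ico (0 : ℝ) (2 * Real.pi))
  rw [intervalIntegral.integral_of_le (by positivity), ← integral_Ico_eq_integral_Ioc, ← h3]
  rfl

end orbit

section circle
variable {E : Type*} [NormedAddCommGroup E] [NormedSpace ℝ E] [FiniteDimensional ℝ E]

/-- rotation of the parameter circle -/
def rc (t : ℝ) (y : E × U 0) : E × U 0 := (y.1, HW.rt 0 t y.2)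

theorem cir_rc (W : Set E) : CM.Cir (W ×ˢ SU 0) (rc (E := E)) where
  smooth := fun t y _ => by
    have h0 : ContDiff ℝ ∞ fun q : ℝ × (E × U 0) => (q.1, q.2.2) :=
      contDiff_fst.prodMk (contDiff_snd.comp contDiff_snd)
    have h2 : ContDiff ℝ ∞ fun q : ℝ × (E × U 0) => HW.rt 0 q.1 q.2.2 :=
      ContDiff.comp (g := fun q : ℝ × U 0 => HW.rt 0 q.1 q.2)
        (f := fun q : ℝ × (E × U 0) => (q.1, q.2.2)) HW.contDiff_rt h0
    have h1 : ContDiff ℝ ∞ fun q : ℝ × (E × U 0) => (q.2.1, HW.rt 0 q.1 q.2.2) :=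
      (contDiff_fst.comp contDiff_snd).prodMk h2
    exact h1.contDiffAt
  maps := fun t y hy => ⟨hy.1, by
    rw [HW.mem_SU]
    show ‖HW.rt 0 t y.2‖ = 1
    rw [HW.norm_rt]; exact hy.2⟩
  zero := fun y _ => by rw [rc, HW.rt_zero]; rfl
  add := fun s t y _ => Prod.ext rfl (HW.rt_add s t y.2)
  per := fun y _ => by rw [rc, HW.rt_two_pi]; rfl
  free := fun t y hy h => by
    have h1 : HW.rt 0 t y.2 = y.2 := congrArg Prod.snd h
    have h2 := HW.inner_rt_self t y.2
    rw [h1, real_inner_self_eq_norm_sq, HW.mem_SU.1 hy.2] at h2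
    have h3 : Real.cos t = 1 := by linarith
    obtain ⟨k, hk⟩ := (Real.cos_eq_one_iff t).1 h3
    exact ⟨k, by rw [← hk]; ring⟩

theorem gen_rc (y : E × U 0) : CM.gen rc y = (0, HW.JJ 0 y.2) := by
  have h1 : HasDerivAt (fun t => rc t y) ((0 : E), HW.rt 0 0 (HW.JJ 0 y.2)) 0 :=
    (hasDerivAt_const (0 : ℝ) y.1).prodMk (HW.hasDerivAt_rt 0 y.2)
  rw [HW.rt_zero] at h1
  exact h1.deriv

theorem subm_rc {m : ℕ} {W : Set E} (hW : Clo m W) : Subm 1 m (W ×ˢ SU 0) W (Prod.fst : E × U 0 → E) where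
  cloZ := by
    have h := hW.prod (HW.clo_SU (k := 0))
    rwa [show m + (2 * 0 + 1) = 1 + m by omega] at h
  cloX := hW
  smooth := fun _ _ => contDiffAt_fst
  mapsTo := fun _ hz => hz.1
  sub := by
    rintro ⟨w, u⟩ hz v hv
    refine ⟨(v, 0), ?_, by rw [fderiv_fst]; rfl⟩
    rw [Tan_prod hW.sub (HW.clo_SU (k := 0)).sub hz.1 hz.2]
    exact ⟨hv, Submodule.zero_mem _⟩

/-- the connection form of the parameter circle -/
def b0' (y : E × U 0) : Ext (E × U 0) := F.pull Prod.snd (HW.b0 0) y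

theorem b0'_gen {y : E × U 0} (hy : y.2 ∈ SU 0) : evA (E × U 0) 1 (b0' y) (fun _ => CM.gen rc y) = 1 := by
  rw [b0', F.pull, evA_pb, gen_rc]
  have h1 : (fun _ : Fin 1 => ((fderiv ℝ (Prod.snd : E × U 0 → U 0) y : (E × U 0) →L[ℝ] U 0) :
      (E × U 0) →ₗ[ℝ] U 0) ((0 : E), HW.JJ 0 y.2)) = fun _ => HW.JJ 0 y.2 := by
    funext i; rw [fderiv_snd]; rfl
  rw [HW.b0]
  simp only [h1]
  rw [evA_io, HW.b0L_apply, real_inner_self_eq_norm_sq, HW.norm_JJ, HW.mem_SU.1 hy]
  norm_num

theorem hom_b0' : T.Hom 1 (b0' (E := E)) := HW.hom_b0.pull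

theorem sm_b0' (S : Set (E × U 0)) : T.Sm S (b0' (E := E)) := fun y _ =>
  contDiffAt_pull (n := ∞) (m := ∞) contDiffAt_snd (by simp) HW.contDiff_b0.contDiffAt

/-- the base point of the circle -/
def u1 : U 0 := WithLp.toLp 2 fun p => if p.2 = 0 then 1 else 0

theorem rt_u1_zero (s : ℝ) : HW.rt 0 s u1 (0, 0) = Real.cos s := by
  rw [HW.rt_apply]
  show Real.cos s * u1 (0, 0) + Real.sin s * HW.JJ 0 u1 (0, 0) = _
  rw [HW.JJ_zero']
  simp [u1]

theorem rt_u1_one (s : ℝ) : HW.rt 0 s u1 (0, 1) = Real.sin s := by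
  rw [HW.rt_apply]
  show Real.cos s * u1 (0, 1) + Real.sin s * HW.JJ 0 u1 (0, 1) = _
  rw [HW.JJ_one']
  simp [u1]

theorem range_rt : (range fun t => HW.rt 0 t u1) = SU 0 := by
  ext u
  constructor
  · rintro ⟨t, rfl⟩
    rw [HW.mem_SU]
    have h1 := HW.inner_eq (HW.rt 0 t u1) (HW.rt 0 t u1)
    rw [real_inner_self_eq_norm_sq] at h1
    simp only [Nat.reduceAdd, Finset.univ_unique, Fin.default_eq_zero, Fin.isValue,
      Finset.sum_singleton] at h1
    rw [rt_u1_zero, rt_u1_one] at h1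
    have h2 : ‖HW.rt 0 t u1‖ ^ 2 = 1 := by
      rw [h1]; nlinarith [Real.sin_sq_add_cos_sq t]
    exact (pow_eq_one_iff_of_nonneg (norm_nonneg _) two_ne_zero).1 h2
  · intro hu
    have h1 : u (0, 0) ^ 2 + u (0, 1) ^ 2 = 1 := by
      have h2 := HW.inner_eq u u
      rw [real_inner_self_eq_norm_sq, HW.mem_SU.1 hu] at h2
      simp only [Nat.reduceAdd, Finset.univ_unique, Fin.default_eq_zero, Fin.isValue,
        Finset.sum_singleton] at h2
      nlinarith
    have h2 : ‖(⟨u (0, 0), u (0, 1)⟩ : ℂ)‖ = 1 := by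
      rw [Complex.norm_def, Complex.normSq_mk, ← sq, ← sq, h1, Real.sqrt_one]
    obtain ⟨θ, hθ⟩ := (Complex.norm_eq_one_iff _).1 h2
    refine ⟨θ, ?_⟩
    have h3 : Real.cos θ = u (0, 0) := by
      have := congrArg Complex.re hθ
      rwa [Complex.exp_ofReal_mul_I_re] at this
    have h4 : Real.sin θ = u (0, 1) := by
      have := congrArg Complex.im hθ
      rwa [Complex.exp_ofReal_mul_I_im] at this
    ext ⟨a, b⟩
    rw [Fin.fin_one_eq_zero a]
    fin_cases b
    · exact (rt_u1_zero θ).trans h3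
    · exact (rt_u1_one θ).trans h4

/-- the one form `(1 - tt) d kk` on the parameter circle -/
def ek (u : U 0) : Ext (U 0) := (1 - tt u) • io ((fderiv ℝ kk u : U 0 →L[ℝ] ℝ) : Module.Dual ℝ (U 0))

theorem contDiff_ek : ContDiff ℝ ∞ ek := by
  have h1 : ContDiff ℝ ∞ (fderiv ℝ kk) := contDiff_kk.fderiv_right (by simp)
  let L : (U 0 →L[ℝ] ℝ) →ₗ[ℝ] Ext (U 0) :=
    (io : Module.Dual ℝ (U 0) →ₗ[ℝ] Ext (U 0)) ∘ₗ (ContinuousLinearMap.coeLM ℝ)
  have h4 : ContDiff ℝ ∞ L := (LinearMap.toContinuousLinearMap L).contDiff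
  exact (contDiff_const.sub contDiff_tt).smul (h4.comp h1)

/-- `F s = smoothTransition (sin s + 1/2)` -/
def Fs (s : ℝ) : ℝ := Real.smoothTransition (Real.sin s + 1 / 2)

theorem contDiff_Fs : ContDiff ℝ ∞ Fs :=
  Real.smoothTransition.contDiff.comp (Real.contDiff_sin.add contDiff_const)

theorem deriv_Fs_zero {s : ℝ} (h : 1 / 2 < |Real.sin s|) : deriv Fs s = 0 := by
  rcases lt_abs.1 h with h1 | h1
  · have h2 : Fs =ᶠ[𝓝 s] fun _ => 1 := by
      filter_upwards [Real.continuous_sin.continuousAt.eventually (lt_mem_nhds h1)] with t ht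
      exact Real.smoothTransition.one_of_one_le (by linarith)
    rw [h2.deriv_eq, deriv_const]
  · have h1' : Real.sin s < -(1 / 2) := by linarith
    have h2 : Fs =ᶠ[𝓝 s] fun _ => 0 := by
      filter_upwards [Real.continuous_sin.continuousAt.eventually (gt_mem_nhds h1')] with t ht
      exact Real.smoothTransition.zero_of_nonpos (by linarith)
    rw [h2.deriv_eq, deriv_const]

theorem ek_eval (s : ℝ) : evA (U 0) 1 (ek (HW.rt 0 s u1)) (fun _ => HW.JJ 0 (HW.rt 0 s u1)) =
    (1 - Real.smoothTransition (Real.cos s + 1 / 2)) * deriv Fs s := by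
  have h1 : HasDerivAt (fun s => kk (HW.rt 0 s u1))
      (fderiv ℝ kk (HW.rt 0 s u1) (HW.rt 0 s (HW.JJ 0 u1))) s :=
    (contDiff_kk.contDiffAt.differentiableAt (by simp)).hasFDerivAt.comp_hasDerivAt s
      (HW.hasDerivAt_rt s u1)
  have h2 : (fun s => kk (HW.rt 0 s u1)) = Fs := funext fun s => by
    rw [kk, rt_u1_one, Fs]
  rw [h2] at h1
  rw [ek, map_smul, AlternatingMap.smul_apply, evA_io, h1.deriv, HW.rt_JJ, tt, rt_u1_zero]
  rfl

theorem int_ek : ∫ s in (0 : ℝ)..(2 * Real.pi),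
    (1 - Real.smoothTransition (Real.cos s + 1 / 2)) * deriv Fs s = -1 := by
  have hπ := Real.pi_pos
  have hc : Continuous fun s : ℝ =>
      (1 - Real.smoothTransition (Real.cos s + 1 / 2)) * deriv Fs s := by
    have h1 : Continuous (deriv Fs) := contDiff_Fs.continuous_deriv (by simp)
    have h2 : Continuous fun s : ℝ => Real.smoothTransition (Real.cos s + 1 / 2) :=
      Real.smoothTransition.continuous.comp (Real.continuous_cos.add continuous_const)
    exact (continuous_const.sub h2).mul h1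
  have hi : ∀ a b : ℝ, IntervalIntegrable (fun s : ℝ =>
      (1 - Real.smoothTransition (Real.cos s + 1 / 2)) * deriv Fs s) volume a b :=
    fun a b => hc.intervalIntegrable a b
  have hzero : ∀ s : ℝ, 0 ≤ Real.cos s →
      (1 - Real.smoothTransition (Real.cos s + 1 / 2)) * deriv Fs s = 0 := fun s hs => by
    by_cases h : 1 / 2 ≤ Real.cos s
    · rw [Real.smoothTransition.one_of_one_le (by linarith), sub_self, zero_mul]
    · rw [deriv_Fs_zero, mul_zero]
      rw [← sq_lt_sq₀ (by norm_num) (abs_nonneg _), sq_abs]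
      nlinarith [Real.sin_sq_add_cos_sq s]
  have hfull : ∀ s : ℝ, Real.cos s ≤ 0 →
      (1 - Real.smoothTransition (Real.cos s + 1 / 2)) * deriv Fs s = deriv Fs s := fun s hs => by
    by_cases h : Real.cos s ≤ -(1 / 2)
    · rw [Real.smoothTransition.zero_of_nonpos (by linarith), sub_zero, one_mul]
    · rw [deriv_Fs_zero, mul_zero]
      rw [← sq_lt_sq₀ (by norm_num) (abs_nonneg _), sq_abs]
      nlinarith [Real.sin_sq_add_cos_sq s]
  rw [← intervalIntegral.integral_add_adjacent_intervals (hi 0 (Real.pi / 2))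
    (hi (Real.pi / 2) (2 * Real.pi)), ← intervalIntegral.integral_add_adjacent_intervals
    (hi (Real.pi / 2) (3 * Real.pi / 2)) (hi (3 * Real.pi / 2) (2 * Real.pi))]
  have e1 : ∫ s in (0 : ℝ)..(Real.pi / 2),
      (1 - Real.smoothTransition (Real.cos s + 1 / 2)) * deriv Fs s = 0 := by
    refine intervalIntegral.integral_zero_ae (Eventually.of_forall fun s hs => ?_)
    rw [uIoc_of_le (by positivity)] at hs
    exact hzero s (Real.cos_nonneg_of_mem_Icc ⟨by linarith [hs.1], hs.2⟩)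
  have e3 : ∫ s in (3 * Real.pi / 2)..(2 * Real.pi),
      (1 - Real.smoothTransition (Real.cos s + 1 / 2)) * deriv Fs s = 0 := by
    refine intervalIntegral.integral_zero_ae (Eventually.of_forall fun s hs => ?_)
    rw [uIoc_of_le (by linarith)] at hs
    refine hzero s ?_
    rw [← Real.cos_sub_two_pi]
    exact Real.cos_nonneg_of_mem_Icc ⟨by linarith [hs.1], by linarith [hs.2]⟩
  have e2 : ∫ s in (Real.pi / 2)..(3 * Real.pi / 2),
      (1 - Real.smoothTransition (Real.cos s + 1 / 2)) * deriv Fs s = -1 := by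
    have h1 : ∫ s in (Real.pi / 2)..(3 * Real.pi / 2),
      (1 - Real.smoothTransition (Real.cos s + 1 / 2)) * deriv Fs s =
      ∫ s in (Real.pi / 2)..(3 * Real.pi / 2), deriv Fs s := by
      refine intervalIntegral.integral_congr fun s hs => ?_
      rw [uIcc_of_le (by linarith)] at hs
      exact hfull s (Real.cos_nonpos_of_pi_div_two_le_of_le hs.1 (by linarith [hs.2]))
    rw [h1, intervalIntegral.integral_deriv_eq_sub
      (fun s _ => (contDiff_Fs.contDiffAt.differentiableAt (by simp)))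
      ((contDiff_Fs.continuous_deriv (by simp)).intervalIntegrable _ _)]
    have h2 : Real.sin (3 * Real.pi / 2) = -1 := by
      rw [show 3 * Real.pi / 2 = Real.pi / 2 + Real.pi by ring, Real.sin_add_pi,
        Real.sin_pi_div_two]
    rw [Fs, Fs, h2, Real.sin_pi_div_two, Real.smoothTransition.zero_of_nonpos (by norm_num),
      Real.smoothTransition.one_of_one_le (by norm_num)]
    norm_num
  rw [e1, e2, e3]
  norm_num

/-- **the fibre integral of `(1 - tt) d kk`** -/
theorem J_fibre_ek {m : ℕ} {W : Set E} (hW : Clo m W) {w : E} (hw : w ∈ W) :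
    J 1 ((W ×ˢ SU 0) ∩ (Prod.fst : E × U 0 → E) ⁻¹' {w}) b0' (F.pull Prod.snd ek) = -1 := by
  have hx : (w, u1) ∈ W ×ˢ SU 0 := ⟨hw, by rw [← range_rt]; exact ⟨0, by
    show HW.rt 0 0 u1 = u1
    rw [HW.rt_zero]; rfl⟩⟩
  have hO : (W ×ˢ SU 0) ∩ (Prod.fst : E × U 0 → E) ⁻¹' {w} = range fun t => rc t (w, u1) := by
    ext ⟨a, u⟩
    constructor
    · rintro ⟨⟨h1, h2⟩, h3⟩
      have h3' : a = w := h3
      rw [← range_rt] at h2
      obtain ⟨t, ht⟩ := h2
      exact ⟨t, Prod.ext h3'.symm ht⟩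
    · rintro ⟨t, ht⟩
      have h1 : w = a := congrArg Prod.fst ht
      have h2 : HW.rt 0 t u1 = u := congrArg Prod.snd ht
      refine ⟨⟨by rw [← h1]; exact hw, ?_⟩, h1.symm⟩
      rw [← range_rt]; exact ⟨t, h2⟩
  rw [J_orbit_gen (cir_rc W) ((subm_rc hW).clo_fibre w) hx hO (fun y hy => b0'_gen hy.1.2)
    (F.pull Prod.snd ek)]
  rw [← int_ek]
  congr 1
  funext s
  rw [← ek_eval, F.pull, evA_pb, gen_rc]
  have h1 : (fun _ : Fin 1 => ((fderiv ℝ (Prod.snd : E × U 0 → U 0) (rc s (w, u1)) :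
      (E × U 0) →L[ℝ] U 0) : (E × U 0) →ₗ[ℝ] U 0) ((0 : E), HW.JJ 0 (rc s (w, u1)).2)) =
      fun _ => HW.JJ 0 (HW.rt 0 s u1) := by
    funext i; rw [fderiv_snd]; rfl
  rw [h1]
  rfl

end circle

end Crest.Agent.R208.CH
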