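import Crest.Agent.R208.CH3c

/-! Row 208, block CH (helper305), part CH3d: **the sweep theorem** (Stokes recursion). -/

set_option autoImplicit false
set_option linter.unusedSectionVars false

open MeasureTheory MeasureTheory.Measure Set Filter Topology Module
open scoped ContDiff RealInnerProductSpace
open Crest.Agent.R208.F Crest.Agent.R208.FI

noncomputable section

namespace Crest.Agent.R208.CH

open HW (U SU)

section circle
variable {E E' V : Type*} [NormedAddCommGroup E] [NormedSpace ℝ E] [FiniteDimensional ℝ E]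
  [NormedAddCommGroup E'] [NormedSpace ℝ E'] [FiniteDimensional ℝ E']
  [NormedAddCommGroup V] [NormedSpace ℝ V] [FiniteDimensional ℝ V]
  {X : Set E} {Z : Set V} {B : Set E'} {π : E → E'} {g : V → E'} {χ : V → ℝ}
  {R : E × ℝ → E} {n d ρ : ℕ} {O : Set E} {φ : ℝ → E → E} {al : E → Ext E} {Fc : E' → Ext E'}
  {oZ : V → Ext V}

/-- circle action on the lift -/
def phW (φ : ℝ → E → E) (t : ℝ) (w : E × V) : E × V := (φ t w.1, w.2)

theorem cir_W (h : CB n X φ B π al Fc) : CM.Cir (FG.FP X Z π g) (phW (V := V) φ) where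
  smooth := fun t w hw => by
    have h0 : ContDiffAt ℝ ∞ (fun q : ℝ × (E × V) => (q.1, q.2.1)) (t, w) :=
      (contDiff_fst.prodMk (contDiff_fst.comp contDiff_snd)).contDiffAt
    have h2 : ContDiffAt ℝ ∞ (fun q : ℝ × (E × V) => φ q.1 q.2.1) (t, w) :=
      ContDiffAt.comp (g := fun q : ℝ × E => φ q.1 q.2)
        (f := fun q : ℝ × (E × V) => (q.1, q.2.1)) (t, w) (h.cir.smooth t _ hw.1) h0
    exact h2.prodMk (contDiff_snd.comp contDiff_snd).contDiffAt
  maps := fun t w hw => ⟨h.cir.maps t hw.1, hw.2.1, by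
    show π (φ t w.1) = g w.2
    rw [h.inv _ hw.1, hw.2.2]⟩
  zero := fun w hw => Prod.ext (h.cir.zero _ hw.1) rfl
  add := fun s t w hw => Prod.ext (h.cir.add s t _ hw.1) rfl
  per := fun w hw => Prod.ext (h.cir.per _ hw.1) rfl
  free := fun t w hw e => h.cir.free t _ hw.1 (congrArg Prod.fst e)

theorem gen_W (h : CB n X φ B π al Fc) {w : E × V} (hw : w ∈ FG.FP X Z π g) :
    CM.gen (phW φ) w = (CM.gen φ w.1, 0) := by
  have h1 : HasDerivAt (fun t => φ t w.1) (CM.gen φ w.1) 0 := by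
    have := h.cir.hasDerivAt hw.1 0
    rwa [h.cir.zero _ hw.1] at this
  have h2 : HasDerivAt (fun t => phW φ t w) (CM.gen φ w.1, (0 : V)) 0 :=
    h1.prodMk (hasDerivAt_const (0 : ℝ) w.2)
  exact h2.deriv

theorem cont_fst (h : CB n X φ B π al Fc) :
    ContinuousOn (F.pull (Prod.fst : E × V → E) al) (FG.FP X Z π g) :=
  FG.cont_pull_fst (fun _ hz => hz.1) fun x hx => (h.sm x hx).continuousAt.continuousWithinAt

theorem al_W (h : CB n X φ B π al Fc) {w : E × V} (hw : w ∈ FG.FP X Z π g) :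
    evA (E × V) 1 (F.pull (Prod.fst : E × V → E) al w) (fun _ => CM.gen (phW φ) w) = 1 := by
  rw [F.pull, evA_pb, gen_W h hw, ← h.one _ hw.1]
  congr 1
  funext i
  rw [fderiv_fst]; rfl

/-- orientation form of the lift -/
def oW (al : E → Ext E) (oZ : V → Ext V) (w : E × V) : Ext (E × V) :=
  F.pull (Prod.fst : E × V → E) al w * F.pull (Prod.snd : E × V → V) oZ w

theorem J_W (h : CB n X φ B π al Fc) (hZ : Clo d Z) (hg : CW.SMap Z B g) (ho : Ori d Z oZ)
    {η : V → Ext V} (hη : ContinuousOn η Z) :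
    Ori (d + 1) (FG.FP X Z π g) (oW al oZ) ∧
      J (d + 1) (FG.FP X Z π g) (oW al oZ) (fun w => F.pull (Prod.fst : E × V → E) al w *
        F.pull (Prod.snd : E × V → V) η w) = 2 * Real.pi * J d Z oZ η :=
  CM.J_fib (cir_W h) (FG.bc_subm h.subm ⟨hZ, hg.smooth, hg.maps⟩) (fun _ _ _ => rfl)
    (fun x hx y hy e => by
      have h1 : π y.1 = π x.1 := by
        rw [hx.2.2, hy.2.2]
        exact congrArg g e
      obtain ⟨t, ht⟩ := h.fib _ hx.1 _ hy.1 h1
      exact ⟨t, Prod.ext ht e⟩)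
    (fun b hb => by
      obtain ⟨x, hx, hxb⟩ := h.sur _ (hg.maps hb)
      exact ⟨(x, b), ⟨hx, hb, hxb⟩, rfl⟩)
    (cont_fst h) (fun x _ => (h.hom x.1).pb _) (fun x hx => al_W h hx) ho hη

theorem hom_oW (hh : T.Hom 1 al) (ho : T.Hom d oZ) : T.Hom (1 + d) (oW al oZ) :=
  fun w => T.isDeg_mul (hh.pull w) (ho.pull w)

/-- orientation form of the swept manifold -/
def oS (al : E → Ext E) (oZ : V → Ext V) (y : (E × V) × U 0) : Ext ((E × V) × U 0) :=
  b0' y * F.pull (Prod.fst : (E × V) × U 0 → E × V) (oW al oZ) y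

theorem clo_W (h : CB n X φ B π al Fc) (hZ : Clo d Z) (hg : CW.SMap Z B g) :
    Clo (d + 1) (FG.FP X Z π g) := by
  have := FG.bc_clo h.subm ⟨hZ, hg.smooth, hg.maps⟩
  rwa [add_comm 1 d] at this

theorem ori_S (h : CB n X φ B π al Fc) (hZ : Clo d Z) (hg : CW.SMap Z B g) (ho : Ori d Z oZ) :
    Ori (d + 1 + 1) (ZS X Z π g) (oS al oZ) := by
  have hW := (J_W h hZ hg ho (η := fun _ => 0) continuousOn_const).1
  refine (CM.J_fib (cir_rc (FG.FP X Z π g)) (subm_rc (clo_W h hZ hg)) (fun _ _ _ => rfl)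
    (fun x hx y hy e => ?_) (fun b hb => ?_)
    (fun x hx => ((sm_b0' (ZS X Z π g)) x hx).continuousAt.continuousWithinAt)
    (fun x _ => hom_b0' x) (fun x hx => b0'_gen hx.2) hW
    (η := fun _ => 0) continuousOn_const).1
  · have hx2 := hx.2
    have hy2 := hy.2
    rw [← range_rt] at hx2 hy2
    obtain ⟨s, hs⟩ := hx2
    obtain ⟨t, ht⟩ := hy2
    refine ⟨t + -s, Prod.ext e ?_⟩
    show y.2 = HW.rt 0 (t + -s) x.2
    rw [← hs, ← ht]
    show HW.rt 0 t u1 = HW.rt 0 (t + -s) (HW.rt 0 s u1)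
    rw [← HW.rt_add, neg_add_cancel_right]
  · refine ⟨(b, u1), ⟨hb, ?_⟩, rfl⟩
    rw [← range_rt]
    exact ⟨0, by show HW.rt 0 0 u1 = u1; rw [HW.rt_zero]; rfl⟩

/-! ### Stokes -/

theorem evA_io_zero {W : Type*} [AddCommGroup W] [Module ℝ W] [FiniteDimensional ℝ W]
    {l : Module.Dual ℝ W} {S : Submodule ℝ W} (hl : ∀ v ∈ S, l v = 0) {q : ℕ} (c : Ext W)
    (w : Fin (q + 1) → W) (hw : ∀ i, w i ∈ S) : evA W (q + 1) (io l * c) w = 0 := by
  rw [evA_io_mul]
  refine Finset.sum_eq_zero fun i _ => ?_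
  rw [hl _ (hw i)]; ring

/-- the form on the swept manifold which remains after Stokes -/
def rS (χ : V → ℝ) (β : E → Ext E) (y : (E × V) × U 0) : Ext ((E × V) × U 0) :=
  F.pull (Prod.snd : (E × V) × U 0 → U 0) ek y *
    F.pull (Prod.fst : (E × V) × U 0 → E × V)
      (fun w => χ w.2 • F.pull (Prod.fst : E × V → E) β w) y

theorem rS_eq (β : E → Ext E) (y : (E × V) × U 0) :
    rS χ β y = ((1 - tt y.2) * χ y.1.2) •
      (io ((fderiv ℝ kk y.2 : U 0 →ₗ[ℝ] ℝ) ∘ₗ LinearMap.snd ℝ (E × V) (U 0)) *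
        pb (LinearMap.fst ℝ E V ∘ₗ LinearMap.fst ℝ (E × V) (U 0)) (β y.1.1)) := by
  have h1 : F.pull (Prod.snd : (E × V) × U 0 → U 0) ek y = (1 - tt y.2) •
      io ((fderiv ℝ kk y.2 : U 0 →ₗ[ℝ] ℝ) ∘ₗ LinearMap.snd ℝ (E × V) (U 0)) := by
    rw [FG.pull_snd_apply, ek, map_smul, pb_io]; rfl
  have h2 : F.pull (Prod.fst : (E × V) × U 0 → E × V)
      (fun w => χ w.2 • F.pull (Prod.fst : E × V → E) β w) y =
      χ y.1.2 • pb (LinearMap.fst ℝ E V ∘ₗ LinearMap.fst ℝ (E × V) (U 0)) (β y.1.1) := by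
    rw [FG.pull_fst_apply, map_smul, FG.pull_fst_apply, pb_comp]; rfl
  rw [rS, h1, h2, smul_mul_smul_comm]

theorem key_stokes (h : CB n X φ B π al Fc) (hZ : Clo d Z) (hg : CW.SMap Z B g)
    (ht : Thn d Z g χ) (hR : DfmO X (Prod.fst '' FG.FP X Z π g) ρ R O) (hρ : ρ ≤ d)
    (β : E → Ext E) {y : (E × V) × U 0} (hy : y ∈ ZS X Z π g)
    (w : Fin (d + 1 + 1) → (E × V) × U 0) (hw : ∀ i, w i ∈ Tan (ZS X Z π g) y) :
    evA _ (d + 1 + 1) (io ((fderiv ℝ (cS χ) y : ((E × V) × U 0) →L[ℝ] ℝ) :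
      Module.Dual ℝ ((E × V) × U 0)) * F.pull (GS R) β y) w =
    evA _ (d + 1 + 1) (rS χ β y) w := by
  have hχ := ht.1 _ hy.1.2.1
  have e0 : F.pull (GS R) β y = pb (fderiv ℝ (GS (V := V) R) y : _ →ₗ[ℝ] E) (β (GS R y)) := rfl
  rw [rS_eq]
  rcases circle_cases hy.2 with hA | hB | hC | hD
  · -- `t = 0`
    have hG : GS R y = y.1.1 := by
      rw [GS, tt_zero hA.le]; exact hR.zero _ (mem_K hy hR) 0 le_rfl
    rw [tt_zero hA.le, sub_zero, one_mul, e0, hG]
    set A1 : ((E × V) × U 0) →ₗ[ℝ] E := LinearMap.fst ℝ E V ∘ₗ LinearMap.fst ℝ (E × V) (U 0)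
      with hA1
    set l1 : Module.Dual ℝ ((E × V) × U 0) := (fderiv ℝ χ y.1.2 : V →ₗ[ℝ] ℝ) ∘ₗ
      LinearMap.snd ℝ E V ∘ₗ LinearMap.fst ℝ (E × V) (U 0) with hl1
    set l2 : Module.Dual ℝ ((E × V) × U 0) := (fderiv ℝ kk y.2 : U 0 →ₗ[ℝ] ℝ) ∘ₗ
      LinearMap.snd ℝ (E × V) (U 0) with hl2
    rw [io_mul_pb]
    have h1 := evA_congr_on (n := d + 1 + 1) (S := Tan (ZS X Z π g) y)
      (A := (fderiv ℝ (GS (V := V) R) y : _ →ₗ[ℝ] E).prod
        ((fderiv ℝ (cS χ) y : ((E × V) × U 0) →L[ℝ] ℝ) : Module.Dual ℝ ((E × V) × U 0)))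
      (B := A1.prod (kk y.2 • l1 + χ y.1.2 • l2)) (fun v hv => by
        refine Prod.ext (fderiv_GS_A hy hR hA hv) ?_
        exact fderiv_cS hχ v)
      (io (LinearMap.snd ℝ E ℝ) * pb (LinearMap.fst ℝ E ℝ) (β y.1.1)) w hw
    rw [h1, ← io_mul_pb, map_add, map_smul, map_smul, add_mul, smul_mul_assoc, smul_mul_assoc,
      map_add, map_smul, map_smul, AlternatingMap.add_apply, AlternatingMap.smul_apply,
      AlternatingMap.smul_apply]
    have h2 : evA _ (d + 1 + 1) (io l1 * pb A1 (β y.1.1)) w = 0 := by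
      rw [io_mul_pb]
      refine evA_zero_of_rank _ (Tan (ZS X Z π g) y) ?_ _ w hw
      have h3 : (Tan (ZS X Z π g) y).map (A1.prod l1) ≤
          (Tan (FG.FP X Z π g) y.1).map ((LinearMap.fst ℝ E V).prod
            ((fderiv ℝ χ y.1.2 : V →ₗ[ℝ] ℝ) ∘ₗ LinearMap.snd ℝ E V)) := by
        rintro _ ⟨v, hv, rfl⟩
        exact ⟨v.1, (tan_ZS hv).1, rfl⟩
      have h4 := (Submodule.finrank_mono h3).trans (Submodule.finrank_map_le _ _)
      rw [(clo_W h hZ hg).finrank_Tan hy.1] at h4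
      omega
    rw [h2, smul_zero, zero_add]
  · -- `t = 1`
    rw [tt_one hB.le, sub_self, zero_mul, zero_smul, map_zero, AlternatingMap.zero_apply, e0,
      io_mul_pb]
    exact evA_zero_of_rank _ (Tan (ZS X Z π g) y)
      (lt_of_le_of_lt (rank_B (χ := χ) hy hR hB) (by omega)) _ w hw
  · -- `kk = 1`
    have hz : io ((fderiv ℝ kk y.2 : U 0 →ₗ[ℝ] ℝ) ∘ₗ LinearMap.snd ℝ (E × V) (U 0)) = 0 := by
      rw [(kk_ev_one hC).2]
      have : ((0 : U 0 →L[ℝ] ℝ) : U 0 →ₗ[ℝ] ℝ) ∘ₗ LinearMap.snd ℝ (E × V) (U 0) = 0 := by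
        ext <;> rfl
      rw [this, map_zero]
    rw [hz, zero_mul, smul_zero, map_zero, AlternatingMap.zero_apply]
    rcases ht.2 _ hy.1.2.1 with ⟨-, h2⟩ | h1
    · refine evA_io_zero (S := Tan (ZS X Z π g) y) (fun v hv => ?_) _ w hw
      show fderiv ℝ (cS (E := E) χ) y v = 0
      rw [fderiv_cS hχ, (kk_ev_one hC).2, h2 _ (tan_ZS hv).2.2.2]
      simp
    · rw [e0, io_mul_pb]
      exact evA_zero_of_rank _ (Tan (ZS X Z π g) y)
        (lt_of_le_of_lt (rank_C h.subm hg hy hχ hR hC h1) (by omega)) _ w hw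
  · -- `kk = 0`
    have hz : io ((fderiv ℝ kk y.2 : U 0 →ₗ[ℝ] ℝ) ∘ₗ LinearMap.snd ℝ (E × V) (U 0)) = 0 := by
      rw [(kk_ev_zero hD).2]
      have : ((0 : U 0 →L[ℝ] ℝ) : U 0 →ₗ[ℝ] ℝ) ∘ₗ LinearMap.snd ℝ (E × V) (U 0) = 0 := by
        ext <;> rfl
      rw [this, map_zero]
    rw [hz, zero_mul, smul_zero, map_zero, AlternatingMap.zero_apply]
    refine evA_io_zero (S := Tan (ZS X Z π g) y) (fun v hv => ?_) _ w hw
    show fderiv ℝ (cS (E := E) χ) y v = 0
    rw [fderiv_cS hχ, (kk_ev_zero hD).1, (kk_ev_zero hD).2]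
    simp

theorem smap_GS (hR : DfmO X (Prod.fst '' FG.FP X Z π g) ρ R O) :
    CW.SMap (ZS X Z π g) X (GS R) :=
  ⟨fun _ hy => contDiffAt_GS (hR.sm _ (mem_K hy hR) _), fun _ hy => GS_mem hy hR⟩

set_option maxHeartbeats 1000000 in
/-- **the recursion**: `∫_{Z⁺} χ⁺ g⁺^*(Fc ∧ om) = 2π ∫_Z χ g^* om`. -/
theorem sweep_J (h : CB n X φ B π al Fc) (hZ : Clo d Z) (hg : CW.SMap Z B g) (ho : Ori d Z oZ)
    (hoZ : T.Hom d oZ) (ht : Thn d Z g χ)
    (hR : DfmO X (Prod.fst '' FG.FP X Z π g) ρ R O) (hρ : ρ ≤ d) {om : E' → Ext E'}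
    (hs : T.Sm B om) (hc : T.Cl B om) (hd : T.Hom d om) :
    J (d + 1 + 1) (ZS X Z π g) (oS al oZ) (fun y => cS χ y • F.pull (gS π R) (Fc * om) y) =
      2 * Real.pi * J d Z oZ (fun x => χ x • F.pull g om x) := by
  have hS : Clo (d + 1 + 1) (ZS X Z π g) := clo_ZS h.subm hZ hg
  have hoS := ori_S h hZ hg ho
  have hπ : CW.SMap X B π := ⟨h.subm.smooth, h.subm.mapsTo⟩
  set b : E → Ext E := al * F.pull π om with hb
  have sb : T.Sm X b := h.sm.mul (hs.pull hπ)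
  have hGS := smap_GS hR
  -- (1)
  have e1 : T.Eqv (ZS X Z π g) (F.pull (gS π R) (Fc * om)) (F.d (F.pull (GS R) b)) := by
    have h1 : T.Eqv X (F.pull π (Fc * om)) (F.d b) := by
      rw [T.pull_mul']
      have h2 := T.d_mul_eqv h.sm (hs.pull hπ)
      have h3 : T.Eqv X (F.d (F.pull π om)) 0 := T.resZero_iff.1 (hc.pull hπ hs)
      have h4 := (T.Eqv.refl (X := X) (F.d al * F.pull π om)).add
        ((T.Eqv.refl (X := X) (fun x => F.inv (al x))).mul h3)
      rw [mul_zero, add_zero] at h4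
      exact (h.curv.symm.mul (T.Eqv.refl _)).trans (h2.trans h4).symm
    have h5 : T.Eqv (ZS X Z π g) (F.pull (GS R) (F.pull π (Fc * om)))
        (F.pull (gS π R) (Fc * om)) :=
      T.eqv_pull_pull hGS hπ (smap_gS h.subm hR) (fun _ _ => rfl) _
    exact h5.symm.trans ((h1.pull hGS).trans (T.d_pull_eqv hGS sb).symm)
  rw [J_eqv' hS e1 (cS χ)]
  -- (2) Stokes
  rw [J_cut_d hS hoS (fun y hy => contDiffAt_cS (ht.1 _ hy.1.2.1)) (sb.pull hGS)]
  have e2 : J (d + 1 + 1) (ZS X Z π g) (oS al oZ) (fun y =>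
      io ((fderiv ℝ (cS χ) y : ((E × V) × U 0) →L[ℝ] ℝ) :
        Module.Dual ℝ ((E × V) × U 0)) * F.pull (GS R) b y) =
      J (d + 1 + 1) (ZS X Z π g) (oS al oZ) (rS χ b) :=
    J_congr hS fun y hy w hw => key_stokes h hZ hg ht hR hρ b hy w hw
  rw [e2]
  -- (3) fibre integration
  have hW := clo_W h hZ hg
  have hsub := subm_rc hW
  obtain ⟨hoW, hJW⟩ := J_W h hZ hg ho
    (η := fun z => χ z • F.pull g om z) (fun x hx =>
      ((ht.1 x hx).continuousAt.smul (contDiffAt_pull (n := ∞) (m := ∞) (hg.smooth x hx)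
        (by simp) (hs _ (hg.maps hx))).continuousAt).continuousWithinAt)
  have hbd : T.Hom (1 + d) b := h.hom.mul hd.pull
  set Om : E × V → Ext (E × V) := fun w => χ w.2 • F.pull (Prod.fst : E × V → E) b w with hOm
  have hOmc : ContinuousOn Om (FG.FP X Z π g) := by
    have h2 : ContinuousOn (F.pull (Prod.fst : E × V → E) b) (FG.FP X Z π g) :=
      FG.cont_pull_fst (X := X) (fun _ hz => hz.1)
        fun x hx => (sb x hx).continuousAt.continuousWithinAt
    have h1 : ContinuousOn (fun w : E × V => χ w.2) (FG.FP X Z π g) := fun w hw =>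
      (ContinuousAt.comp (g := χ) (f := fun w : E × V => w.2) (ht.1 _ hw.2.1).continuousAt
        continuousAt_snd).continuousWithinAt
    exact h1.smul h2
  have e3 := fibre_integration hsub (oV := b0') (oX := oW al oZ) (η := F.pull Prod.snd ek)
    (om := Om) (fun y hy => ((sm_b0' (ZS X Z π g)) y hy).continuousAt.continuousWithinAt)
    (by rw [add_comm 1 (d + 1)]; exact hoS)
    (fun w _ q hq => hom_oW h.hom hoZ w q (by omega))
    (fun y _ => (contDiffAt_pull (n := ∞) (m := ∞) contDiffAt_snd (by simp)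
      contDiff_ek.contDiffAt).continuousAt.continuousWithinAt) hOmc
    (fun w _ q hq => (hbd.pull w).smul _ q (by omega))
  rw [add_comm 1 (d + 1)] at e3
  have e4 : J (d + 1 + 1) (ZS X Z π g) (oS al oZ) (rS χ b) = _ := e3
  rw [e4]
  have e5 : J (d + 1) (FG.FP X Z π g) (oW al oZ) (fun w =>
      J 1 (FG.FP X Z π g ×ˢ SU 0 ∩ (Prod.fst : (E × V) × U 0 → E × V) ⁻¹' {w}) b0'
        (F.pull Prod.snd ek) • Om w) =
      J (d + 1) (FG.FP X Z π g) (oW al oZ) (fun w => (-1 : ℝ) • Om w) :=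
    J_congr' hW fun w hw => by rw [J_fibre_ek hW hw]
  rw [e5, J_smul]
  have e6 : J (d + 1) (FG.FP X Z π g) (oW al oZ) Om = J (d + 1) (FG.FP X Z π g) (oW al oZ)
      (fun w => F.pull (Prod.fst : E × V → E) al w *
        F.pull (Prod.snd : E × V → V) (fun z => χ z • F.pull g om z) w) := by
    have hfst : CW.SMap (FG.FP X Z π g) X (Prod.fst : E × V → E) :=
      ⟨fun _ _ => contDiffAt_fst, fun _ hz => hz.1⟩
    have hsnd : CW.SMap (FG.FP X Z π g) Z (Prod.snd : E × V → V) :=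
      ⟨fun _ _ => contDiffAt_snd, fun _ hz => hz.2.1⟩
    have hcomp : CW.SMap (FG.FP X Z π g) B (fun w : E × V => π w.1) :=
      ⟨fun w hw => ContDiffAt.comp w (h.subm.smooth _ hw.1) contDiffAt_fst,
        fun w hw => h.subm.mapsTo hw.1⟩
    have h1 : T.Eqv (FG.FP X Z π g) (F.pull Prod.fst (F.pull π om))
        (F.pull Prod.snd (F.pull g om)) :=
      (T.eqv_pull_pull hfst hπ hcomp (fun _ _ => rfl) om).trans
        (T.eqv_pull_pull hsnd hg hcomp (fun w hw => hw.2.2.symm) om).symm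
    have h2 : T.Eqv (FG.FP X Z π g) (F.pull (Prod.fst : E × V → E) b)
        (F.pull Prod.fst al * F.pull Prod.snd (F.pull g om)) := by
      rw [hb, T.pull_mul']
      exact (T.Eqv.refl _).mul h1
    rw [J_eqv' hW h2 (fun w => χ w.2)]
    refine J_congr' hW fun w _ => ?_
    rw [Pi.mul_apply, FG.pull_snd_apply (fun z => χ z • F.pull g om z), map_smul,
      mul_smul_comm, FG.pull_snd_apply]
  rw [e6, hJW]
  ring

/-- **THE SWEEP**: a deformation of small final rank raises a thin chain by two dimensions and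
multiplies its periods by the curvature. -/
theorem sweep {E E' : Type} [NormedAddCommGroup E] [NormedSpace ℝ E] [FiniteDimensional ℝ E]
    [NormedAddCommGroup E'] [NormedSpace ℝ E'] [FiniteDimensional ℝ E'] {X : Set E} {B : Set E'}
    {π : E → E'} {φ : ℝ → E → E} {al : E → Ext E} {Fc : E' → Ext E'} {n d ρ : ℕ}
    {R : E × ℝ → E} (h : CB n X φ B π al Fc) (c : Chn B d)
    (hR : Dfm X (Prod.fst '' lft X π c) ρ R) (hρ : ρ ≤ d) :
    ∃ c' : Chn B (d + 2), ∀ om, T.Sm B om → T.Cl B om → T.Hom d om →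
      c'.I (Fc * om) = 2 * Real.pi * c.I om := by
  obtain ⟨O, hO⟩ := hR.exO
  refine ⟨{ V := (E × c.V) × U 0
            Z := ZS X c.Z π c.g
            g := gS π R
            χ := cS c.χ
            o := oS al c.o
            clo := clo_ZS h.subm c.clo c.sm
            ori := ori_S h c.clo c.sm c.ori
            hom := fun y => ?_
            sm := smap_gS h.subm hO
            thn := thn_sweep h.subm c.sm c.clo c.thn hO hρ }, fun om hs hc hd => ?_⟩
  · have := T.isDeg_mul (hom_b0' y)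
      ((hom_oW h.hom c.hom).pull (f := (Prod.fst : (E × c.V) × U 0 → E × c.V)) y)
    rwa [show 1 + (1 + d) = d + 2 by omega] at this
  · exact sweep_J h c.clo c.sm c.ori c.hom c.thn hO hρ hs hc hd

end circle

end Crest.Agent.R208.CH
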