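import Crest.Agent.R208.CM5
import Crest.Agent.R208.FG1b

/-!
R208, block CHS (helper378, for 305's CH3), part 1: base change of a circle bundle `π : X → B`
along `g : Z → B`; integration over its orbits.
-/

set_option autoImplicit false
set_option linter.unusedSectionVars false

open Set Filter Topology Module
open scoped ContDiff
open Crest.Agent.R208.F Crest.Agent.R208.FI Crest.Agent.R208.T
open Crest.Agent.R208.FG (FP BC bc_subm bc_clo)
open Crest.Agent.R208.CM (Cir gen)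

noncomputable section

namespace Crest.Agent.R208.CHS

variable {E : Type*} [NormedAddCommGroup E] [NormedSpace ℝ E] [FiniteDimensional ℝ E]
  {E' : Type*} [NormedAddCommGroup E'] [NormedSpace ℝ E'] [FiniteDimensional ℝ E']
  {V : Type*} [NormedAddCommGroup V] [NormedSpace ℝ V] [FiniteDimensional ℝ V]
  {X : Set E} {φ : ℝ → E → E} {B : Set E'} {π : E → E'} {Z : Set V} {g : V → E'} {n d : ℕ}

/-- the action on the base change -/
def pc (V : Type*) (φ : ℝ → E → E) (t : ℝ) (z : E × V) : E × V := (φ t z.1, z.2)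

/-- the base change of a principal circle bundle -/
theorem cir_FP (h : Cir X φ) (hinv : ∀ x ∈ X, ∀ t, π (φ t x) = π x) :
    Cir (FP X Z π g) (pc V φ) where
  smooth := fun t z hz => by
    have h1 : ContDiffAt ℝ ∞ (fun q : ℝ × (E × V) => φ q.1 q.2.1) (t, z) :=
      ContDiffAt.comp (g := fun q : ℝ × E => φ q.1 q.2) (f := fun q : ℝ × (E × V) => (q.1, q.2.1))
        (t, z) (h.smooth t z.1 hz.1) (contDiffAt_fst.prodMk contDiffAt_snd.fst)
    exact h1.prodMk contDiffAt_snd.snd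
  maps := fun t z hz => ⟨h.maps t hz.1, hz.2.1, (hinv z.1 hz.1 t).trans hz.2.2⟩
  zero := fun z hz => Prod.ext (h.zero _ hz.1) rfl
  add := fun s t z hz => Prod.ext (h.add s t _ hz.1) rfl
  per := fun z hz => Prod.ext (h.per _ hz.1) rfl
  free := fun t z hz ht => h.free t _ hz.1 (congrArg Prod.fst ht)

theorem gen_pc (h : Cir X φ) (hinv : ∀ x ∈ X, ∀ t, π (φ t x) = π x) {z : E × V}
    (hz : z ∈ FP X Z π g) : gen (pc V φ) z = (gen φ z.1, 0) := by
  have h1 := (cir_FP (Z := Z) (g := g) (V := V) h hinv).hasDerivAt hz 0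
  rw [(cir_FP (Z := Z) (g := g) (V := V) h hinv).zero z hz] at h1
  have h2 : HasDerivAt (fun s => pc V φ s z) (gen φ z.1, (0 : V)) 0 := by
    have h3 := h.hasDerivAt hz.1 0
    rw [h.zero _ hz.1] at h3
    exact h3.prodMk (hasDerivAt_const 0 z.2)
  exact h1.unique h2

/-- **(F)**: integration over the base change of a circle bundle -/
theorem J_FP (h : Cir X φ) (hS : Subm 1 n X B π) (hinv : ∀ x ∈ X, ∀ t, π (φ t x) = π x)
    (hfib : ∀ x ∈ X, ∀ y ∈ X, π y = π x → ∃ t, y = φ t x) (hsur : ∀ b ∈ B, ∃ x ∈ X, π x = b)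
    {al : E → Ext E} (halc : ContinuousOn al X) (hal1 : ∀ x ∈ X, IsDeg 1 (al x))
    (halV : ∀ x ∈ X, evA E 1 (al x) (fun _ => gen φ x) = 1)
    (hg : BC d Z B g) {oZ η : V → Ext V} (hoZ : Ori d Z oZ) (hη : ContinuousOn η Z) :
    Ori (d + 1) (FP X Z π g) (fun z => pull Prod.fst al z * pull Prod.snd oZ z) ∧
      J (d + 1) (FP X Z π g) (fun z => pull Prod.fst al z * pull Prod.snd oZ z)
        (fun z => pull Prod.fst al z * pull Prod.snd η z) = 2 * Real.pi * J d Z oZ η := by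
  refine CM.J_fib (cir_FP h hinv) (bc_subm hS hg) (fun _ _ _ => rfl) ?_ ?_
    (al := pull Prod.fst al) (FG.cont_pull_fst (fun z hz => hz.1) halc) ?_ ?_ hoZ hη
  · rintro ⟨x, z⟩ hx ⟨y, z'⟩ hy hyx
    have e : z' = z := hyx
    subst e
    obtain ⟨t, ht⟩ := hfib x hx.1 y hy.1 (hy.2.2.trans hx.2.2.symm)
    exact ⟨t, Prod.ext ht rfl⟩
  · intro z hz
    obtain ⟨x, hx, hxz⟩ := hsur (g z) (hg.maps hz)
    exact ⟨(x, z), ⟨hx, hz, hxz⟩, rfl⟩
  · intro z hz
    rw [FG.pull_fst_apply]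
    exact (hal1 _ hz.1).pb _
  · intro z hz
    rw [gen_pc h hinv hz, FG.pull_fst_apply, evA_pb]
    exact halV _ hz.1

end Crest.Agent.R208.CHS
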