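import Crest.Agent.R208.HW3

/-!
R208, block HW (helper664), part 4: integration over `X' = X × S^{2k+1}`.
-/

set_option autoImplicit false
set_option linter.unusedSectionVars false
set_option linter.unusedVariables false

open Set Filter Topology Module
open scoped ContDiff RealInnerProductSpace
open Crest.Agent.R208.F Crest.Agent.R208.FI Crest.Agent.R208.T Crest.Agent.R208.CM
open Crest.Agent.R208.CW (SMap)

noncomputable section

namespace Crest.Agent.R208.HW

variable {k : ℕ} {E : Type} [NormedAddCommGroup E] [NormedSpace ℝ E] [FiniteDimensional ℝ E]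
  {X : Set E} {φ : ℝ → E → E} {d : ℕ}

/-- the degree `n` component of the second factor -/
theorem evA_mul_dpl' {V : Type*} [NormedAddCommGroup V] [NormedSpace ℝ V] [FiniteDimensional ℝ V]
    {p : ℕ} {a : Ext V} (ha : IsDeg p a) (n : ℕ) (c : Ext V) :
    evA V (p + n) (a * c) = evA V (p + n) (a * dpl n c) := by
  have h1 : ∀ j, j ≠ n → evA V (p + n) (a * dpl j c) = 0 := fun j hj =>
    isDeg_mul ha (isDeg_dpl j c) (p + n) (by omega)
  have h3 := sum_dpl c
  by_cases hn : n ∈ Finset.range (finrank ℝ V + 1)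
  · conv_lhs => rw [← h3, Finset.mul_sum, map_sum]
    rw [Finset.sum_eq_single_of_mem n hn fun j _ hj => h1 j hj]
  · have h2 : ∀ j, j ≠ n → dpl n (dpl j c) = 0 := fun j hj =>
      dpl_of_isDeg_ne (isDeg_dpl j c) hj
    have h4 : dpl n c = 0 := by
      conv_lhs => rw [← h3, map_sum]
      exact Finset.sum_eq_zero fun j hj => h2 j (fun h => hn (h ▸ hj))
    rw [h4, mul_zero, map_zero]
    conv_lhs => rw [← h3, Finset.mul_sum, map_sum]
    exact Finset.sum_eq_zero fun j hj => h1 j (fun h => hn (h ▸ hj))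

/-- the volume form of the sphere on `E × U k` -/
def vv (E : Type) [NormedAddCommGroup E] [NormedSpace ℝ E] [FiniteDimensional ℝ E] (k : ℕ) :
    E × U k → Ext (E × U k) := pull Prod.snd (v0 k)

theorem vv_apply (z : E × U k) :
    vv E k z = pb ((ContinuousLinearMap.snd ℝ E (U k) : (E × U k) →L[ℝ] U k) :
      (E × U k) →ₗ[ℝ] U k) (v0 k z.2) := by
  show pb ((fderiv ℝ Prod.snd z : (E × U k) →L[ℝ] U k) : (E × U k) →ₗ[ℝ] U k) (v0 k z.2) = _
  rw [fderiv_snd]

theorem pullfst_apply (a : E → Ext E) (z : E × U k) :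
    pull Prod.fst a z = pb ((ContinuousLinearMap.fst ℝ E (U k) : (E × U k) →L[ℝ] E) :
      (E × U k) →ₗ[ℝ] E) (a z.1) := by
  show pb ((fderiv ℝ Prod.fst z : (E × U k) →L[ℝ] E) : (E × U k) →ₗ[ℝ] E) (a z.1) = _
  rw [fderiv_fst]

theorem hom_vv : Hom (2 * k + 1) (vv E k) := hom_v0.pull

theorem sm_vv : Sm (XX X k) (vv E k) :=
  Sm.pull (smap_snd (X := X)) (fun u _ => contDiff_v0.contDiffAt)

theorem cl_vv : Cl (XX X k) (vv E k) :=
  Cl.pull (smap_snd (X := X)) (fun u _ => contDiff_v0.contDiffAt) cl_v0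

theorem subm_fst (hX : Clo d X) : Subm (2 * k + 1) d (XX X k) X (Prod.fst : E × U k → E) where
  cloZ := by
    have e : 2 * k + 1 + d = d + (2 * k + 1) := by omega
    rw [e]; exact clo_XX hX
  cloX := hX
  smooth := fun z _ => contDiffAt_fst
  mapsTo := fun z hz => (mem_XX.1 hz).1
  sub := fun z hz w hw => by
    refine ⟨(w, 0), ?_, by rw [fderiv_fst]; rfl⟩
    rw [Tan_XX hX.sub hz]
    exact ⟨hw, Submodule.zero_mem _⟩

theorem cont_pull_fst {om : E → Ext E} (hX : Clo d X) (h : ContinuousOn om X) :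
    ContinuousOn (pull (Prod.fst : E × U k → E) om) (XX X k) :=
  (subm_fst hX).continuousOn_pull h

theorem continuousOn_vv : ContinuousOn (vv E k) (XX X k) := fun z hz =>
  (sm_vv z hz).continuousAt.continuousWithinAt

/-- **orientation and integration of `X × S^{2k+1}`** -/
theorem J_prod (k : ℕ) (hX : Clo d X) (hc : IsPreconnected X) (hne : X.Nonempty) {oX : E → Ext E}
    (hoX : Ori d X oX) :
    Ori (2 * k + 1 + d) (XX X k) (fun z => vv E k z * pull Prod.fst oX z) ∧
      ∃ C : ℝ, 0 < C ∧ ∀ om : E → Ext E, ContinuousOn om X →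
        J (2 * k + 1 + d) (XX X k) (fun z => vv E k z * pull Prod.fst oX z)
          (fun z => vv E k z * pull Prod.fst om z) = C * J d X oX om := by
  have hS := subm_fst (k := k) hX
  have hcl := hS.cloZ
  have hdc : Continuous fun c : Ext E => dpl d c := (dplL (E := E) d).continuous
  have hdpc : ∀ om : E → Ext E, ContinuousOn om X → ContinuousOn (dp d om) X := fun om h =>
    hdc.comp_continuousOn h
  have hev : ∀ (om : E → Ext E), ∀ z : E × U k,
      evA (E × U k) (2 * k + 1 + d) (vv E k z * pull Prod.fst om z) =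
      evA (E × U k) (2 * k + 1 + d) (vv E k z * pull Prod.fst (dp d om) z) := fun om z => by
    rw [evA_mul_dpl' (hom_vv z) d]
    have : dpl d (pull Prod.fst om z) = pull Prod.fst (dp d om) z := by
      rw [← dp_pull]; rfl
    rw [this]
  have hdp0 : ∀ (om : E → Ext E), ∀ x ∈ X, ∀ q < d, evA E q (dp d om x) = 0 :=
    fun om x _ q hq => isDeg_dpl d (om x) q (by omega)
  have hori' : Ori (2 * k + 1 + d) (XX X k) (fun z => vv E k z * pull Prod.fst (dp d oX) z) := by
    refine ori_of hcl (FI.continuousOn_mul continuousOn_vv (cont_pull_fst hX (hdpc _ hoX.cont)))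
      fun z hz => ?_
    obtain ⟨w, hw, hwe⟩ := exists_frame_SU (k := k) (mem_SU.2 (mem_XX.1 hz).2)
    have hfr := frame_isFrame (hX.finrank_Tan (mem_XX.1 hz).1)
    refine ⟨Fin.append (fun i => ((0 : E), w i)) (fun i => (frame d X z.1 i, (0 : U k))),
      fun i => ?_, ?_⟩
    · rw [Tan_XX hX.sub hz]
      refine Fin.addCases (fun j => ?_) (fun j => ?_) i
      · rw [Fin.append_left]; exact ⟨Submodule.zero_mem _, hw j⟩
      · rw [Fin.append_right]; exact ⟨hfr.2 j, Submodule.zero_mem _⟩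
    · rw [pullfst_apply, evA_mul_pb _ _ (hdp0 oX z.1 (mem_XX.1 hz).1) _ _ _ (fun i => rfl),
        vv_apply, evA_pb]
      have h1 : (fun i => ((ContinuousLinearMap.snd ℝ E (U k) : (E × U k) →L[ℝ] U k) :
          (E × U k) →ₗ[ℝ] U k) ((0 : E), w i)) = w := rfl
      have h2 : (fun i => ((ContinuousLinearMap.fst ℝ E (U k) : (E × U k) →L[ℝ] E) :
          (E × U k) →ₗ[ℝ] E) (frame d X z.1 i, (0 : U k))) = frame d X z.1 := rfl
      rw [h1, h2, hwe]
      have h3 : evA E d (dp d oX z.1) (frame d X z.1) = evA E d (oX z.1) (frame d X z.1) := by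
        show evA E d (dpl d (oX z.1)) _ = _
        rw [evA_dpl_same]
      rw [h3]
      exact mul_ne_zero (by positivity) (hoX.ne _ (mem_XX.1 hz).1)
  have hori : Ori (2 * k + 1 + d) (XX X k) (fun z => vv E k z * pull Prod.fst oX z) :=
    ⟨FI.continuousOn_mul continuousOn_vv (cont_pull_fst hX hoX.cont), fun z hz => by
      rw [hev oX z]; exact hori'.ne z hz⟩
  refine ⟨hori, ?_⟩
  have hoX' : Ori d X (dp d oX) := ⟨hdpc _ hoX.cont, fun x hx => by
    show evA E d (dpl d (oX x)) _ ≠ 0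
    rw [evA_dpl_same]; exact hoX.ne x hx⟩
  obtain ⟨y, hy⟩ := hne
  refine ⟨J (2 * k + 1) (XX X k ∩ Prod.fst ⁻¹' {y}) (vv E k) (vv E k), ?_, fun om hom => ?_⟩
  · refine J_pos (hS.clo_fibre y) (hS.fibre_ori continuousOn_vv hori' (hdp0 oX) y) ?_
    obtain ⟨u, hu⟩ := SU_nonempty (k := k)
    exact ⟨(y, u), mem_XX.2 ⟨hy, hu⟩, rfl⟩
  · have h1 : J (2 * k + 1 + d) (XX X k) (fun z => vv E k z * pull Prod.fst oX z)
        (fun z => vv E k z * pull Prod.fst om z) =
        J (2 * k + 1 + d) (XX X k) (fun z => vv E k z * pull Prod.fst (dp d oX) z)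
        (fun z => vv E k z * pull Prod.fst (dp d om) z) :=
      J_congr_dens hcl (fun z hz => by rw [hev oX z]) (fun z hz => by rw [hev om z])
    rw [h1, fibre_integration_const hS hc hoX' continuousOn_vv hori' (hdp0 oX)
      (fun z hz => (sm_vv z hz).of_le (by simp)) cl_vv (hdpc _ hom) (hdp0 om) hy]
    congr 1
    exact J_congr_dens hX (fun x _ => by
      show evA E d (dpl d (oX x)) _ = _; rw [evA_dpl_same]) (fun x _ => by
      show evA E d (dpl d (om x)) _ = _; rw [evA_dpl_same])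

end Crest.Agent.R208.HW
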