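import Crest.Agent.R208.CM5
import Crest.Agent.R208.HW4

/-!
R208, block CHS (helper378, for 305's CH3), part 2: integration over the unit circle `SU 0`.
-/

set_option autoImplicit false
set_option linter.unusedSectionVars false

open Set Filter Topology Module MeasureTheory
open scoped ContDiff RealInnerProductSpace
open Crest.Agent.R208.F Crest.Agent.R208.FI Crest.Agent.R208.T Crest.Agent.R208.HW
open Crest.Agent.R208.CM (Cir gen orb hasFDerivAt_orb)

noncomputable section

namespace Crest.Agent.R208.CHS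

/-- the circle action on the circle -/
def r0 (t : ℝ) (u : U 0) : U 0 := rt 0 t u

theorem cir_r0 : Cir (SU 0) r0 where
  smooth := fun t u _ => contDiff_rt.contDiffAt
  maps := fun t u hu => by rw [mem_SU] at hu ⊢; exact (norm_rt t u).trans hu
  zero := fun u _ => by rw [r0, rt_zero]; rfl
  add := fun s t u _ => rt_add s t u
  per := fun u _ => by rw [r0, rt_two_pi]; rfl
  free := fun t u hu ht => by
    have h1 : Real.cos t = 1 := by
      have h2 := inner_rt_self t u
      have h3 : rt 0 t u = u := ht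
      rw [h3, real_inner_self_eq_norm_sq, mem_SU.1 hu] at h2
      linarith
    obtain ⟨k, hk⟩ := (Real.cos_eq_one_iff t).1 h1
    exact ⟨k, by rw [← hk]; ring⟩

theorem gen_r0 {u : U 0} (hu : u ∈ SU 0) : gen r0 u = JJ 0 u := by
  have h1 := cir_r0.hasDerivAt hu 0
  have h2 : HasDerivAt (fun s => r0 s u) (JJ 0 u) 0 := by
    have h3 := hasDerivAt_rt (k := 0) 0 u
    rw [rt_zero] at h3
    exact h3
  rw [cir_r0.zero u hu] at h1
  exact h1.unique h2

/-- the base point of the circle -/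
def e0 : U 0 := EuclideanSpace.single (0, 0) 1

theorem e0_mem : e0 ∈ SU 0 := by simp [e0, mem_SU]

theorem r0_re (t : ℝ) : (r0 t e0) (0, 0) = Real.cos t := by
  simp [r0, rt_apply, e0, JJ_zero']

theorem r0_im (t : ℝ) : (r0 t e0) (0, 1) = Real.sin t := by
  simp [r0, rt_apply, e0, JJ_one']

theorem sq_add_sq {u : U 0} (hu : u ∈ SU 0) : u (0, 0) ^ 2 + u (0, 1) ^ 2 = 1 := by
  have h1 := inner_eq u u
  rw [real_inner_self_eq_norm_sq, mem_SU.1 hu] at h1
  simp at h1
  nlinarith

theorem exists_r0 {u : U 0} (hu : u ∈ SU 0) : ∃ t, u = r0 t e0 := by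
  have h1 : ‖(⟨u (0, 0), u (0, 1)⟩ : ℂ)‖ = 1 := by
    have h2 := Complex.sq_norm (⟨u (0, 0), u (0, 1)⟩ : ℂ)
    rw [Complex.normSq_mk] at h2
    have h3 := sq_add_sq hu
    have h4 : ‖(⟨u (0, 0), u (0, 1)⟩ : ℂ)‖ ^ 2 = 1 := by rw [h2]; nlinarith
    have h5 := norm_nonneg (⟨u (0, 0), u (0, 1)⟩ : ℂ)
    nlinarith
  obtain ⟨θ, hθ⟩ := (Complex.norm_eq_one_iff _).1 h1
  refine ⟨θ, ?_⟩
  have hre := congrArg Complex.re hθ
  have him := congrArg Complex.im hθ
  rw [Complex.exp_ofReal_mul_I_re] at hre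
  rw [Complex.exp_ofReal_mul_I_im] at him
  ext ⟨a, b⟩
  fin_cases a
  fin_cases b
  · exact (hre.symm).trans (r0_re θ).symm
  · exact (him.symm).trans (r0_im θ).symm

theorem evA_v0 {u : U 0} (hu : u ∈ SU 0) : evA (U 0) 1 (v0 0 u) (fun _ => JJ 0 u) = 1 := by
  have h1 : v0 0 u = io (b0L 0 u) := by
    rw [v0, pow_zero, mul_one]; rfl
  rw [h1, evA_io, b0L_apply, inner_JJ_JJ, real_inner_self_eq_norm_sq, mem_SU.1 hu]
  norm_num

/-- the slab of `Eu 1` as an interval -/
theorem integral_slab (F : ℝ → ℝ) :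
    ∫ u in {u : Eu 1 | u 0 ∈ Ico (0 : ℝ) (2 * Real.pi)}, F (u 0) =
      ∫ t in (0:ℝ)..(2 * Real.pi), F t := by
  have h1 : MeasurePreserving (fun u : Eu 1 => u 0) := by
    have h2 := (PiLp.volume_preserving_ofLp (Fin 1))
    have h3 := (volume_preserving_funUnique (Fin 1) ℝ)
    exact h3.comp h2
  have he : MeasurableEmbedding (fun u : Eu 1 => u 0) :=
    ((MeasurableEquiv.toLp 2 (Fin 1 → ℝ)).symm.trans
      (MeasurableEquiv.funUnique (Fin 1) ℝ)).measurableEmbedding
  have h4 := h1.setIntegral_preimage_emb he F (Ico (0 : ℝ) (2 * Real.pi))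
  rw [intervalIntegral.integral_of_le (by positivity), ← integral_Ico_eq_integral_Ioc]
  exact h4

/-- **integration over the circle** -/
theorem J_circle (om : U 0 → Ext (U 0)) : J 1 (SU 0) (v0 0) om =
    ∫ t in (0:ℝ)..(2 * Real.pi), evA (U 0) 1 (om (r0 t e0)) (fun _ => JJ 0 (r0 t e0)) := by
  have hπ := Real.pi_pos
  have h := cir_r0
  have hx := e0_mem
  set x := e0 with hxd
  set A : Set (Eu 1) := {u : Eu 1 | u 0 ∈ Ico (0 : ℝ) (2 * Real.pi)} with hA
  have hAm : MeasurableSet A := by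
    have : Measurable fun u : Eu 1 => u 0 :=
      ((EuclideanSpace.proj (0 : Fin 1) : Eu 1 →L[ℝ] ℝ).continuous).measurable
    exact this measurableSet_Ico
  have hmemO : ∀ u, orb r0 x u ∈ SU 0 := fun u => h.maps _ hx
  have himg : orb r0 x '' A = SU 0 := by
    refine Subset.antisymm (by rintro _ ⟨u, -, rfl⟩; exact hmemO u) ?_
    intro y hy
    obtain ⟨t, rfl⟩ := exists_r0 hy
    obtain ⟨s, hs, k, hk⟩ : ∃ s ∈ Ico (0 : ℝ) (2 * Real.pi), ∃ k : ℤ, t = s + 2 * Real.pi * k := by
      refine ⟨toIcoMod (CM.two_pi_pos_aux) 0 t, ?_, toIcoDiv CM.two_pi_pos_aux 0 t, ?_⟩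
      · have := toIcoMod_mem_Ico CM.two_pi_pos_aux 0 t
        rwa [zero_add] at this
      · have := toIcoMod_add_toIcoDiv_zsmul CM.two_pi_pos_aux 0 t
        rw [zsmul_eq_mul] at this
        linarith
    refine ⟨!₂[s], ?_, ?_⟩
    · simpa [hA] using hs
    · show r0 ((!₂[s] : Eu 1) 0) x = r0 t x
      rw [hk, h.add_int s k hx]
      rfl
  have hinj : InjOn (orb r0 x) A := by
    intro u hu v hv huv
    obtain ⟨k, hk⟩ := (h.eq_iff hx).1 huv
    have hu' : 0 ≤ u 0 ∧ u 0 < 2 * Real.pi := hu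
    have hv' : 0 ≤ v 0 ∧ v 0 < 2 * Real.pi := hv
    have hk0 : k = 0 := by
      have h1 : (k : ℝ) < 1 := by
        by_contra hc
        push Not at hc
        nlinarith
      have h2 : (-1 : ℝ) < k := by
        by_contra hc
        push Not at hc
        nlinarith
      have h1' : k < 1 := by exact_mod_cast h1
      have h2' : -1 < k := by exact_mod_cast h2
      omega
    rw [hk0] at hk
    ext i
    rw [Fin.fin_one_eq_zero i]
    simpa using hk
  have hd : ∀ u, HasFDerivAt (orb r0 x) _ u := fun u => hasFDerivAt_orb h hx u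
  have key := integral_param (X := SU 0) (o := v0 0) (om := om) (f := orb r0 x) hAm
    (fun u _ => (hd u).differentiableAt) hinj
    (fun u _ => (clo_SU (k := 0)).finrank_Tan (hmemO u))
    (fun u _ w => fderiv_mem_Tan (hd u).differentiableAt (Eventually.of_forall hmemO) w)
  rw [himg] at key
  have hval : ∀ (c : U 0 → Ext (U 0)) (u : Eu 1), top 1 (pull (orb r0 x) c u) =
      evA (U 0) 1 (c (r0 (u 0) x)) (fun _ => JJ 0 (r0 (u 0) x)) := by
    intro c u
    unfold pull
    rw [top_pb]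
    congr 1
    funext i
    rw [ContinuousLinearMap.coe_coe, (hd u).fderiv, Fin.fin_one_eq_zero i]
    simp [sb, gen_r0 (h.maps (u 0) hx)]
  have htop : ∀ u ∈ A, top 1 (pull (orb r0 x) om u) * Real.sign (top 1 (pull (orb r0 x) (v0 0) u)) =
      evA (U 0) 1 (om (r0 (u 0) x)) (fun _ => JJ 0 (r0 (u 0) x)) := by
    intro u _
    rw [hval, hval, evA_v0 (h.maps (u 0) hx), Real.sign_one, mul_one]
  unfold J
  have key' := key.trans (setIntegral_congr_fun hAm htop)
  exact key'.trans (integral_slab fun t => evA (U 0) 1 (om (r0 t x)) (fun _ => JJ 0 (r0 t x)))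

end Crest.Agent.R208.CHS
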