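import Crest.Agent.R208.CHS1
import Crest.Agent.R208.CHS2
import Crest.Agent.R208.CH3b

/-!
R208, block CHS (helper378, for 305's CH3), part 3: the Stokes half of the sweep.
-/

set_option autoImplicit false
set_option linter.unusedSectionVars false

open Set Filter Topology Module MeasureTheory
open scoped ContDiff RealInnerProductSpace
open Crest.Agent.R208.F Crest.Agent.R208.FI Crest.Agent.R208.T Crest.Agent.R208.CH
open Crest.Agent.R208.HW (U SU JJ rt v0 mem_SU clo_SU)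
open Crest.Agent.R208.CM (Cir gen)

noncomputable section

namespace Crest.Agent.R208.CHS

/-! ### the number `c₁` -/

/-- the form `(1 - tt) d kk` -/
def th1 (u : U 0) : Ext (U 0) := (1 - tt u) • io ((fderiv ℝ kk u : U 0 →L[ℝ] ℝ) : Dual ℝ (U 0))

theorem hasDerivAt_r0 (t : ℝ) : HasDerivAt (fun t => r0 t e0) (JJ 0 (r0 t e0)) t := by
  have h1 := HW.hasDerivAt_rt (k := 0) t e0
  rw [HW.rt_JJ] at h1
  exact h1

theorem hasDerivAt_kk (t : ℝ) :
    HasDerivAt (fun t => kk (r0 t e0)) (fderiv ℝ kk (r0 t e0) (JJ 0 (r0 t e0))) t :=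
  HasFDerivAt.comp_hasDerivAt (l := kk) t
    ((contDiff_kk.contDiffAt.differentiableAt (by simp)).hasFDerivAt) (hasDerivAt_r0 t)

theorem contDiff_r0 : ContDiff ℝ ∞ (fun t => r0 t e0) := by
  have h1 : ContDiff ℝ ∞ (fun t : ℝ => Real.cos t • e0) := Real.contDiff_cos.smul contDiff_const
  have h2 : ContDiff ℝ ∞ (fun t : ℝ => Real.sin t • JJ 0 e0) :=
    Real.contDiff_sin.smul contDiff_const
  exact h1.add h2

theorem cont_f' : Continuous fun t => fderiv ℝ kk (r0 t e0) (JJ 0 (r0 t e0)) := by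
  have h1 : Continuous (fderiv ℝ kk) := contDiff_kk.continuous_fderiv (by simp)
  exact (h1.comp contDiff_r0.continuous).clm_apply ((JJ 0).continuous.comp contDiff_r0.continuous)

theorem f'_zero {t : ℝ} (h : 1 / 2 < |Real.sin t|) :
    fderiv ℝ kk (r0 t e0) (JJ 0 (r0 t e0)) = 0 := by
  rcases lt_abs.1 h with h1 | h1
  · have h2 : kk =ᶠ[𝓝 (r0 t e0)] fun _ => 1 := by
      have h3 : 1 / 2 < (r0 t e0) (0, 1) := by rw [r0_im]; exact h1
      filter_upwards [ev_gt h3] with u hu using kk_one hu.le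
    rw [h2.fderiv_eq, fderiv_const_apply]; rfl
  · have h2 : kk =ᶠ[𝓝 (r0 t e0)] fun _ => 0 := by
      have h3 : (r0 t e0) (0, 1) < -(1 / 2) := by rw [r0_im]; linarith
      filter_upwards [ev_lt h3] with u hu using kk_zero hu.le
    rw [h2.fderiv_eq, fderiv_const_apply]; rfl

theorem cos_sq_ge {t : ℝ} (h : ¬ 1 / 2 < |Real.sin t|) : 1 / 4 < Real.cos t ^ 2 := by
  have h1 := Real.sin_sq_add_cos_sq t
  have h2 : |Real.sin t| ≤ 1 / 2 := not_lt.1 h
  have h3 : Real.sin t ^ 2 ≤ (1 / 2) ^ 2 := by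
    rw [← sq_abs (Real.sin t)]
    exact pow_le_pow_left₀ (abs_nonneg _) h2 2
  nlinarith

theorem w_pos {t : ℝ} (hc : 0 ≤ Real.cos t) :
    (1 - tt (r0 t e0)) * fderiv ℝ kk (r0 t e0) (JJ 0 (r0 t e0)) = 0 := by
  by_cases h : 1 / 2 < |Real.sin t|
  · rw [f'_zero h, mul_zero]
  · have h1 := cos_sq_ge h
    have h2 : 1 / 2 ≤ Real.cos t := by nlinarith
    rw [tt_one (by rw [r0_re]; exact h2), sub_self, zero_mul]

theorem w_neg {t : ℝ} (hc : Real.cos t ≤ 0) :
    (1 - tt (r0 t e0)) * fderiv ℝ kk (r0 t e0) (JJ 0 (r0 t e0)) =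
      fderiv ℝ kk (r0 t e0) (JJ 0 (r0 t e0)) := by
  by_cases h : 1 / 2 < |Real.sin t|
  · rw [f'_zero h, mul_zero]
  · have h1 := cos_sq_ge h
    have h2 : Real.cos t ≤ -(1 / 2) := by nlinarith
    rw [tt_zero (by rw [r0_re]; exact h2), sub_zero, one_mul]

theorem cont_w : Continuous fun t => (1 - tt (r0 t e0)) *
    fderiv ℝ kk (r0 t e0) (JJ 0 (r0 t e0)) :=
  (continuous_const.sub (contDiff_tt.continuous.comp contDiff_r0.continuous)).mul cont_f'

theorem J_th1 : J 1 (SU 0) (v0 0) th1 = -1 := by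
  have hπ := Real.pi_pos
  rw [J_circle]
  have h0 : ∀ t, evA (U 0) 1 (th1 (r0 t e0)) (fun _ => JJ 0 (r0 t e0)) =
      (1 - tt (r0 t e0)) * fderiv ℝ kk (r0 t e0) (JJ 0 (r0 t e0)) := by
    intro t
    rw [th1, map_smul, AlternatingMap.smul_apply, evA_io]
    rfl
  simp only [h0]
  have hi : ∀ a b, IntervalIntegrable (fun t => (1 - tt (r0 t e0)) *
    fderiv ℝ kk (r0 t e0) (JJ 0 (r0 t e0))) volume a b := fun a b =>
      cont_w.intervalIntegrable a b
  rw [← intervalIntegral.integral_add_adjacent_intervals (hi 0 (Real.pi / 2))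
    (hi (Real.pi / 2) (2 * Real.pi)), ← intervalIntegral.integral_add_adjacent_intervals
    (hi (Real.pi / 2) (Real.pi / 2 + Real.pi)) (hi (Real.pi / 2 + Real.pi) (2 * Real.pi))]
  have e1 : ∫ t in (0:ℝ)..(Real.pi / 2), (1 - tt (r0 t e0)) *
      fderiv ℝ kk (r0 t e0) (JJ 0 (r0 t e0)) = 0 := by
    refine (intervalIntegral.integral_congr (g := fun _ => (0:ℝ)) fun t ht => ?_).trans (by simp)
    rw [uIcc_of_le (by positivity)] at ht
    exact w_pos (Real.cos_nonneg_of_neg_pi_div_two_le_of_le (by linarith [ht.1]) ht.2)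
  have e3 : ∫ t in (Real.pi / 2 + Real.pi)..(2 * Real.pi), (1 - tt (r0 t e0)) *
      fderiv ℝ kk (r0 t e0) (JJ 0 (r0 t e0)) = 0 := by
    refine (intervalIntegral.integral_congr (g := fun _ => (0:ℝ)) fun t ht => ?_).trans (by simp)
    rw [uIcc_of_le (by linarith)] at ht
    refine w_pos ?_
    rw [← Real.cos_sub_two_pi]
    exact Real.cos_nonneg_of_neg_pi_div_two_le_of_le (by linarith [ht.1]) (by linarith [ht.2])
  have e2 : ∫ t in (Real.pi / 2)..(Real.pi / 2 + Real.pi), (1 - tt (r0 t e0)) *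
      fderiv ℝ kk (r0 t e0) (JJ 0 (r0 t e0)) = -1 := by
    have h1 : ∫ t in (Real.pi / 2)..(Real.pi / 2 + Real.pi), (1 - tt (r0 t e0)) *
      fderiv ℝ kk (r0 t e0) (JJ 0 (r0 t e0)) =
      ∫ t in (Real.pi / 2)..(Real.pi / 2 + Real.pi),
        fderiv ℝ kk (r0 t e0) (JJ 0 (r0 t e0)) := by
      refine intervalIntegral.integral_congr fun t ht => ?_
      rw [uIcc_of_le (by linarith)] at ht
      exact w_neg (Real.cos_nonpos_of_pi_div_two_le_of_le ht.1 (by linarith [ht.2]))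
    rw [h1, intervalIntegral.integral_eq_sub_of_hasDerivAt (fun t _ => hasDerivAt_kk t)
      (cont_f'.intervalIntegrable _ _)]
    rw [kk_zero (by
      rw [r0_im, Real.sin_add_pi, Real.sin_pi_div_two]
      norm_num), kk_one (by
      rw [r0_im, Real.sin_pi_div_two]
      norm_num)]
    norm_num
  rw [e1, e2, e3]
  norm_num

/-! ### products with the circle -/

section prod
variable {W : Type*} [NormedAddCommGroup W] [NormedSpace ℝ W] [FiniteDimensional ℝ W]
  {m : ℕ} {L : Set W} {oL om : W → Ext W} {θ : U 0 → Ext (U 0)}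

theorem subm_L (hL : Clo m L) : Subm 1 m (L ×ˢ SU 0) L (Prod.fst : W × U 0 → W) where
  cloZ := by
    have h1 := hL.prod (clo_SU (k := 0))
    have e : m + (2 * 0 + 1) = 1 + m := by omega
    rwa [e] at h1
  cloX := hL
  smooth := fun z _ => contDiffAt_fst
  mapsTo := fun z hz => hz.1
  sub := fun z hz w hw => by
    refine ⟨(w, 0), ?_, by rw [fderiv_fst]; rfl⟩
    rw [Tan_prod hL.sub (clo_SU (k := 0)).sub hz.1 hz.2]
    exact ⟨hw, Submodule.zero_mem _⟩

theorem cont_v0' : ContinuousOn (pull (Prod.snd : W × U 0 → U 0) (v0 0)) (L ×ˢ SU 0) :=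
  FG.cont_pull_snd (fun z hz => hz.2) (HW.contDiff_v0 (j := ∞)).continuous.continuousOn

theorem ori_L (hL : Clo m L) (hoL : Ori m L oL) (hLd : Hom m oL) :
    Ori (1 + m) (L ×ˢ SU 0) (fun z => pull Prod.snd (v0 0) z * pull Prod.fst oL z) := by
  refine ori_of (subm_L hL).cloZ (FI.continuousOn_mul cont_v0'
    (FG.cont_pull_fst (fun z hz => hz.1) hoL.cont)) fun z hz => ?_
  have hfr := frame_isFrame (hL.finrank_Tan hz.1)
  refine ⟨Fin.append (fun i : Fin 1 => ((0 : W), JJ 0 z.2)) (fun i => (frame m L z.1 i, (0 : U 0))),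
    fun i => ?_, ?_⟩
  · rw [Tan_prod hL.sub (clo_SU (k := 0)).sub hz.1 hz.2]
    refine Fin.addCases (fun j => ?_) (fun j => ?_) i
    · rw [Fin.append_left]
      refine ⟨Submodule.zero_mem _, ?_⟩
      show JJ 0 z.2 ∈ Tan (SU 0) z.2
      rw [HW.mem_Tan_SU hz.2]
      exact HW.inner_self_JJ z.2
    · rw [Fin.append_right]; exact ⟨hfr.2 j, Submodule.zero_mem _⟩
  · rw [FG.pull_fst_apply, evA_mul_pb _ _ (fun q hq => hLd z.1 q (by omega)) _ _ _ (fun i => rfl),
      FG.pull_snd_apply, evA_pb]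
    have h1 : (fun i : Fin 1 => ((ContinuousLinearMap.snd ℝ W (U 0) : (W × U 0) →L[ℝ] U 0) :
        (W × U 0) →ₗ[ℝ] U 0) ((0 : W), JJ 0 z.2)) = fun _ => JJ 0 z.2 := rfl
    have h2 : (fun i => ((ContinuousLinearMap.fst ℝ W (U 0) : (W × U 0) →L[ℝ] W) :
        (W × U 0) →ₗ[ℝ] W) (frame m L z.1 i, (0 : U 0))) = frame m L z.1 := rfl
    rw [h1, h2, evA_v0 hz.2, one_mul]
    exact hoL.ne _ hz.1

/-- **Fubini for the product with the circle** -/
theorem J_L (hL : Clo m L) (hoL : Ori m L oL) (hLd : Hom m oL) (hom : ContinuousOn om L)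
    (homd : ∀ x ∈ L, ∀ q < m, evA W q (om x) = 0) (hθ : ContinuousOn θ (SU 0)) :
    J (1 + m) (L ×ˢ SU 0) (fun z => pull Prod.snd (v0 0) z * pull Prod.fst oL z)
      (fun z => pull Prod.snd θ z * pull Prod.fst om z) = J 1 (SU 0) (v0 0) θ * J m L oL om := by
  have h1 := fibre_integration (subm_L hL) cont_v0' (ori_L hL hoL hLd)
    (fun x _ q hq => hLd x q (by omega)) (η := pull Prod.snd θ)
    (FG.cont_pull_snd (fun z hz => hz.2) hθ) hom homd
  rw [h1, ← J_smul]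
  refine J_congr hL fun x hx w hw => ?_
  have h2 : J 1 (L ×ˢ SU 0 ∩ Prod.fst ⁻¹' {x}) (pull Prod.snd (v0 0)) (pull Prod.snd θ) =
      J 1 (SU 0) (v0 0) θ := by
    have hC : Clo 1 (SU 0) := clo_SU (k := 0)
    have hO : Ori 1 (SU 0) (v0 0) := HW.ori_SU (k := 0)
    refine J_pull ((subm_L hL).clo_fibre x) hC (fun z _ => differentiableAt_snd) ?_ hO hθ
    refine ⟨fun z hz => hz.1.2, fun z hz z' hz' h => Prod.ext (hz.2.trans hz'.2.symm) h,
      fun u hu => ⟨(x, u), ⟨⟨hx, hu⟩, rfl⟩, rfl⟩⟩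
  rw [h2]

end prod

end Crest.Agent.R208.CHS
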