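import Crest.Agent.R208.FH9a

/-! Row 208, block F2 (helper198), part FH10a: smoothness of `x ↦ ∫_0^1 g(x,t) dt`, the Cartan
formula for a constant field and the **homotopy operator** on `E × ℝ`. -/

set_option autoImplicit false
set_option linter.unusedSectionVars false

open MeasureTheory Set Filter Topology Module
open scoped ContDiff
open Crest.Agent.R208.F

noncomputable section

namespace Crest.Agent.R208.FI

/-! ### parametric integrals -/
section par
universe u
variable {E H : Type u} [NormedAddCommGroup E] [NormedSpace ℝ E] [FiniteDimensional ℝ E]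
  [NormedAddCommGroup H] [NormedSpace ℝ H]

/-- `x ↦ ∫_0^1 g(x,t) dt` -/
def I1 (g : E × ℝ → H) (x : E) : H := ∫ t in (0 : ℝ)..1, g (x, t)

/-- the slices over `[0,1]` -/
def Sl (U : Set (E × ℝ)) : Set E := {x | ∀ t ∈ Icc (0 : ℝ) 1, (x, t) ∈ U}

theorem exists_tube {U : Set (E × ℝ)} (hU : IsOpen U) {x : E} (hx : x ∈ Sl U) :
    ∃ C : Set E, IsCompact C ∧ C ∈ 𝓝 x ∧ C ⊆ Sl U := by
  obtain ⟨V, W, hV, hW, hxV, hIW, hVW⟩ := generalized_tube_lemma (isCompact_singleton (x := x))
    (isCompact_Icc (a := (0 : ℝ)) (b := 1)) hU (by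
      rintro ⟨y, t⟩ ⟨hy, ht⟩
      rw [mem_singleton_iff] at hy
      subst hy
      exact hx t ht)
  obtain ⟨C, hCn, hC, hCV⟩ := exists_mem_nhds_isCompact_mapsTo (f := id) (s := V) (x := x)
    continuous_id (hV.mem_nhds (hxV rfl))
  exact ⟨C, hC, hCn, fun y hy t ht => hVW ⟨hCV hy, hIW ht⟩⟩

theorem isOpen_Sl {U : Set (E × ℝ)} (hU : IsOpen U) : IsOpen (Sl U) := by
  rw [isOpen_iff_mem_nhds]
  intro x hx
  obtain ⟨C, -, hC, hCS⟩ := exists_tube hU hx
  exact mem_of_superset hC hCS

theorem intervalIntegrable_slice {U : Set (E × ℝ)} {g : E × ℝ → H} (hg : ContinuousOn g U) {x : E}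
    (hx : x ∈ Sl U) : IntervalIntegrable (fun t => g (x, t)) volume 0 1 := by
  refine ContinuousOn.intervalIntegrable ?_
  rw [uIcc_of_le zero_le_one]
  exact hg.comp (by fun_prop) fun t ht => hx t ht

theorem aesm_slice {U : Set (E × ℝ)} {g : E × ℝ → H} (hg : ContinuousOn g U) {x : E}
    (hx : x ∈ Sl U) : AEStronglyMeasurable (fun t => g (x, t))
      ((volume : Measure ℝ).restrict (uIoc 0 1)) := by
  have := (intervalIntegrable_slice hg hx).1.aestronglyMeasurable
  rwa [← uIoc_of_le (zero_le_one' ℝ)] at this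

theorem continuousOn_I1 {U : Set (E × ℝ)} (hU : IsOpen U) {g : E × ℝ → H} (hg : ContinuousOn g U) :
    ContinuousOn (I1 g) (Sl U) := by
  intro x hx
  obtain ⟨C, hC, hCn, hCS⟩ := exists_tube hU hx
  have hgC : ContinuousOn g (C ×ˢ Icc (0 : ℝ) 1) := hg.mono (by
    rintro ⟨y, t⟩ ⟨hy, ht⟩; exact hCS hy t ht)
  obtain ⟨M, hM⟩ := (hC.prod isCompact_Icc).exists_bound_of_continuousOn hgC
  refine ContinuousAt.continuousWithinAt ?_
  refine intervalIntegral.continuousAt_of_dominated_interval (bound := fun _ => M) ?_ ?_ ?_ ?_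
  · filter_upwards [hCn] with y hy using aesm_slice hg (hCS hy)
  · filter_upwards [hCn] with y hy
    refine Eventually.of_forall fun t ht => ?_
    rw [uIoc_of_le zero_le_one] at ht
    exact hM (y, t) ⟨hy, Ioc_subset_Icc_self ht⟩
  · exact intervalIntegrable_const
  · refine Eventually.of_forall fun t ht => ?_
    rw [uIoc_of_le zero_le_one] at ht
    have h1 : ContinuousAt g (x, t) :=
      hg.continuousAt (hU.mem_nhds (hx t (Ioc_subset_Icc_self ht)))
    exact ContinuousAt.comp (g := g) (f := fun y : E => (y, t)) h1 (by fun_prop)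

theorem hasFDerivAt_I1 {U : Set (E × ℝ)} (hU : IsOpen U) {g : E × ℝ → H}
    (hg : ContDiffOn ℝ 1 g U) {x : E} (hx : x ∈ Sl U) :
    HasFDerivAt (I1 g) (I1 (fun p => (fderiv ℝ g p).comp (ContinuousLinearMap.inl ℝ E ℝ)) x) x := by
  obtain ⟨C, hC, hCn, hCS⟩ := exists_tube hU hx
  have hg0 : ContinuousOn g U := hg.continuousOn
  have hg' : ContinuousOn (fun p => (fderiv ℝ g p).comp (ContinuousLinearMap.inl ℝ E ℝ)) U :=
    (hg.continuousOn_fderiv_of_isOpen hU (by norm_num)).clm_comp continuousOn_const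
  have hgC : ContinuousOn (fun p => (fderiv ℝ g p).comp (ContinuousLinearMap.inl ℝ E ℝ))
      (C ×ˢ Icc (0 : ℝ) 1) := hg'.mono (by rintro ⟨y, t⟩ ⟨hy, ht⟩; exact hCS hy t ht)
  obtain ⟨M, hM⟩ := (hC.prod isCompact_Icc).exists_bound_of_continuousOn hgC
  refine intervalIntegral.hasFDerivAt_integral_of_dominated_of_fderiv_le (s := C)
    (bound := fun _ => M) (F := fun y t => g (y, t))
    (F' := fun y t => (fderiv ℝ g (y, t)).comp (ContinuousLinearMap.inl ℝ E ℝ)) hCn ?_ ?_ ?_ ?_ ?_ ?_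
  · filter_upwards [hCn] with y hy using aesm_slice hg0 (hCS hy)
  · exact intervalIntegrable_slice hg0 hx
  · exact aesm_slice hg' hx
  · refine Eventually.of_forall fun t ht y hy => ?_
    rw [uIoc_of_le zero_le_one] at ht
    exact hM (y, t) ⟨hy, Ioc_subset_Icc_self ht⟩
  · exact intervalIntegrable_const
  · refine Eventually.of_forall fun t ht y hy => ?_
    rw [uIoc_of_le zero_le_one] at ht
    have h1 : HasFDerivAt g (fderiv ℝ g (y, t)) (y, t) :=
      ((hg.contDiffAt (hU.mem_nhds (hCS hy t (Ioc_subset_Icc_self ht)))).differentiableAt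
        (by norm_num)).hasFDerivAt
    have h2 : HasFDerivAt (fun y : E => (y, t)) (ContinuousLinearMap.inl ℝ E ℝ) y :=
      (hasFDerivAt_id y).prodMk (hasFDerivAt_const t y)
    exact h1.comp y h2

theorem contDiffOn_I1 (n : ℕ) {H : Type u} [NormedAddCommGroup H] [NormedSpace ℝ H]
    {U : Set (E × ℝ)} (hU : IsOpen U) {g : E × ℝ → H} (hg : ContDiffOn ℝ n g U) :
    ContDiffOn ℝ n (I1 g) (Sl U) := by
  induction n generalizing H with
  | zero =>
    rw [Nat.cast_zero, contDiffOn_zero] at hg ⊢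
    exact continuousOn_I1 hU hg
  | succ n ih =>
    have h1 : ContDiffOn ℝ 1 g U := hg.of_le (by norm_cast; omega)
    have h2 : ContDiffOn ℝ n (fun p => (fderiv ℝ g p).comp (ContinuousLinearMap.inl ℝ E ℝ)) U := by
      have h3 : ContDiffOn ℝ n (fderiv ℝ g) U := by
        refine hg.fderiv_of_isOpen hU ?_
        push_cast
        exact le_rfl
      exact h3.clm_comp contDiffOn_const
    have h4 := ih h2
    push_cast
    rw [contDiffOn_succ_iff_fderiv_of_isOpen (isOpen_Sl hU)]
    refine ⟨fun x hx => (hasFDerivAt_I1 hU h1 hx).differentiableAt.differentiableWithinAt,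
      fun h => absurd h (by simp), h4.congr fun x hx => (hasFDerivAt_I1 hU h1 hx).fderiv⟩

theorem contDiffAt_I1_nat {n : ℕ} {g : E × ℝ → H} {x : E}
    (hg : ∀ t ∈ Icc (0 : ℝ) 1, ContDiffAt ℝ n g (x, t)) : ContDiffAt ℝ n (I1 g) x := by
  set U : Set (E × ℝ) := {p | ContDiffAt ℝ n g p} with hU
  have hUo : IsOpen U := by
    rw [isOpen_iff_mem_nhds]
    intro p hp
    exact ContDiffAt.eventually hp (by simp)
  have h1 : ContDiffOn ℝ n g U := fun p hp => ContDiffAt.contDiffWithinAt hp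
  exact (contDiffOn_I1 n hUo h1).contDiffAt ((isOpen_Sl hUo).mem_nhds hg)

/-- smoothness of parametric integrals over `[0,1]`. -/
theorem contDiffAt_I1 {g : E × ℝ → H} {x : E}
    (hg : ∀ t ∈ Icc (0 : ℝ) 1, ContDiffAt ℝ ∞ g (x, t)) : ContDiffAt ℝ ∞ (I1 g) x := by
  rw [contDiffAt_infty]
  intro n
  exact contDiffAt_I1_nat fun t ht => contDiffAt_infty.1 (hg t ht) n

end par

/-! ### the Cartan formula for constant fields -/
section cartan
universe u
variable {E : Type u} [NormedAddCommGroup E] [NormedSpace ℝ E] [FiniteDimensional ℝ E]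
  {E' : Type*} [NormedAddCommGroup E'] [NormedSpace ℝ E'] [FiniteDimensional ℝ E']

/-- continuous version of the contraction with `v` -/
def iiL (v : E) : Ext E →L[ℝ] Ext E := LinearMap.toContinuousLinearMap (ii v)

@[simp] theorem iiL_apply (v : E) (c : Ext E) : iiL v c = ii v c := rfl

theorem ii_wd (v : E) (T : E →L[ℝ] Ext E) :
    ii v (wd E T) = T v - wd E ((iiL v).comp T) := by
  rw [wd_apply, wd_apply, _root_.map_sum]
  simp only [ii_io_mul, Finset.sum_sub_distrib, ContinuousLinearMap.comp_apply, iiL_apply]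
  congr 1
  conv_rhs => rw [← (finBasis ℝ E).sum_repr v]
  rw [_root_.map_sum]
  exact Finset.sum_congr rfl fun i _ => by rw [map_smul]; rfl

/-- Cartan: `ι_v dΩ + d ι_v Ω = ∂_v Ω` for a constant vector `v`. -/
theorem cartan (v : E) {Om : E → Ext E} {x : E} (h : DifferentiableAt ℝ Om x) :
    ii v (F.d Om x) = fderiv ℝ Om x v - F.d (fun y => ii v (Om y)) x := by
  have h1 : HasFDerivAt (fun y => ii v (Om y)) ((iiL v).comp (fderiv ℝ Om x)) x :=
    (iiL v).hasFDerivAt.comp x h.hasFDerivAt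
  rw [d_of_hasFDerivAt h1, F.d, ii_wd]

/-! ### the homotopy operator -/
variable {G : Type*} [NormedAddCommGroup G] [NormedSpace ℝ G] [FiniteDimensional ℝ G]

/-- the linear part of the homotopy operator -/
def hopL (j : E →L[ℝ] G) (v : G) : Ext G →L[ℝ] Ext E := (pbL j).comp (iiL v)

theorem hopL_apply (j : E →L[ℝ] G) (v : G) (c : Ext G) :
    hopL j v c = pb (j : E →ₗ[ℝ] G) (ii v c) := rfl

/-- the map `(x,t) ↦ j x + t v` -/
def jv (j : E →L[ℝ] G) (v : G) : E × ℝ →L[ℝ] G :=
  j.coprod (ContinuousLinearMap.toSpanSingleton ℝ v)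

theorem jv_apply (j : E →L[ℝ] G) (v : G) (x : E) (t : ℝ) : jv j v (x, t) = j x + t • v := rfl

/-- the integrand of the homotopy operator -/
def hopg (j : E →L[ℝ] G) (v : G) (Om : G → Ext G) (p : E × ℝ) : Ext E := hopL j v (Om (jv j v p))

/-- the homotopy operator `x ↦ ∫_0^1 j^* ι_v Ω (j x + t v) dt`. -/
def hop (j : E →L[ℝ] G) (v : G) (Om : G → Ext G) : E → Ext E := I1 (hopg j v Om)

variable {j : E →L[ℝ] G} {v : G} {Om : G → Ext G}

theorem contDiffAt_hopg {n : WithTop ℕ∞} {p : E × ℝ} (h : ContDiffAt ℝ n Om (jv j v p)) :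
    ContDiffAt ℝ n (hopg j v Om) p :=
  (hopL j v).contDiff.contDiffAt.comp p (h.comp p (jv j v).contDiff.contDiffAt)

theorem contDiffAt_hop {x : E} (h : ∀ t ∈ Icc (0 : ℝ) 1, ContDiffAt ℝ ∞ Om (jv j v (x, t))) :
    ContDiffAt ℝ ∞ (hop j v Om) x :=
  contDiffAt_I1 fun t ht => contDiffAt_hopg (h t ht)

theorem contDiffAt_hop_nat {n : ℕ} {x : E}
    (h : ∀ t ∈ Icc (0 : ℝ) 1, ContDiffAt ℝ n Om (jv j v (x, t))) :
    ContDiffAt ℝ n (hop j v Om) x :=
  contDiffAt_I1_nat fun t ht => contDiffAt_hopg (h t ht)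

theorem hasFDerivAt_jt (t : ℝ) (x : E) : HasFDerivAt (fun y : E => jv j v (y, t)) j x := by
  have h1 : HasFDerivAt (fun y : E => j y + t • v) j x := j.hasFDerivAt.add_const (t • v)
  exact h1

theorem hasDerivAt_jv (x : E) (t : ℝ) : HasDerivAt (fun t : ℝ => jv j v (x, t)) v t := by
  have : HasDerivAt (fun t : ℝ => j x + t • v) v t := by
    simpa using ((hasDerivAt_id t).smul_const v).const_add (j x)
  exact this

/-- pointwise identity behind the homotopy formula -/
theorem hop_pt {x : E} {t : ℝ} (h : ContDiffAt ℝ 1 Om (jv j v (x, t))) :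
    wd E ((fderiv ℝ (hopg j v Om) (x, t)).comp (ContinuousLinearMap.inl ℝ E ℝ)) +
      hopL j v (F.d Om (jv j v (x, t))) = pbL j (fderiv ℝ Om (jv j v (x, t)) v) := by
  have hOt : DifferentiableAt ℝ Om (jv j v (x, t)) := h.differentiableAt (by norm_num)
  have hii : DifferentiableAt ℝ (fun p => ii v (Om p)) (jv j v (x, t)) :=
    (iiL v).differentiableAt.comp _ hOt
  have hj2 : ContDiffAt ℝ 2 (fun y : E => jv j v (y, t)) x := by
    have : ContDiff ℝ 2 (fun y : E => j y + t • v) := j.contDiff.add contDiff_const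
    exact this.contDiffAt
  have e2 : pull (fun y : E => jv j v (y, t)) (fun p => ii v (Om p)) =
      fun y => hopg j v Om (y, t) := by
    funext y
    rw [pull, (hasFDerivAt_jt t y).fderiv]
    rfl
  have e3 : HasFDerivAt (hopg j v Om) (fderiv ℝ (hopg j v Om) (x, t)) (x, t) :=
    ((contDiffAt_hopg h).differentiableAt (by norm_num)).hasFDerivAt
  have hj : HasFDerivAt (fun y : E => (y, t)) (ContinuousLinearMap.inl ℝ E ℝ) x :=
    (hasFDerivAt_id x).prodMk (hasFDerivAt_const t x)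
  have e1 : wd E ((fderiv ℝ (hopg j v Om) (x, t)).comp (ContinuousLinearMap.inl ℝ E ℝ)) =
      F.d (pull (fun y : E => jv j v (y, t)) (fun p => ii v (Om p))) x := by
    rw [e2]
    exact (d_of_hasFDerivAt (e3.comp x hj)).symm
  rw [e1, d_pull hj2 hii, pull, (hasFDerivAt_jt t x).fderiv, hopL_apply, cartan v hOt, map_sub,
    pbL_apply]
  abel

/-- **homotopy formula** `d K Ω + K d Ω = j_1^* Ω - j_0^* Ω`. -/
theorem d_hop {x : E} (h : ∀ t ∈ Icc (0 : ℝ) 1, ContDiffAt ℝ 1 Om (jv j v (x, t))) :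
    F.d (hop j v Om) x + hop j v (F.d Om) x =
      pbL j (Om (jv j v (x, 1))) - pbL j (Om (jv j v (x, 0))) := by
  set U : Set (E × ℝ) := {p | ContDiffAt ℝ 1 Om (jv j v p)} with hU
  have hUo : IsOpen U := by
    have h1 : IsOpen {p : G | ContDiffAt ℝ 1 Om p} := by
      rw [isOpen_iff_mem_nhds]
      intro p hp
      exact ContDiffAt.eventually hp (by simp)
    exact h1.preimage (jv j v).continuous
  have hxS : x ∈ Sl U := h
  have hgC : ContDiffOn ℝ 1 (hopg j v Om) U := fun p hp =>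
    (contDiffAt_hopg (show ContDiffAt ℝ 1 Om (jv j v p) from hp)).contDiffWithinAt
  have h1 := hasFDerivAt_I1 hUo hgC hxS
  have hg' : ContinuousOn (fun p => (fderiv ℝ (hopg j v Om) p).comp
      (ContinuousLinearMap.inl ℝ E ℝ)) U :=
    (hgC.continuousOn_fderiv_of_isOpen hUo (by norm_num)).clm_comp continuousOn_const
  have h2 : F.d (hop j v Om) x = ∫ t in (0 : ℝ)..1,
      wd E ((fderiv ℝ (hopg j v Om) (x, t)).comp (ContinuousLinearMap.inl ℝ E ℝ)) := by
    rw [hop, d_of_hasFDerivAt h1, I1]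
    exact ((wd E).intervalIntegral_comp_comm (intervalIntegrable_slice hg' hxS)).symm
  have hdO : ContinuousOn (fun p => F.d Om (jv j v p)) U := by
    intro p hp
    have hp' : ContDiffAt ℝ 1 Om (jv j v p) := hp
    have h3 : ContinuousAt (F.d Om) (jv j v p) :=
      (contDiffAt_d (m := 0) hp' (by norm_num)).continuousAt
    exact (h3.comp (f := fun p => jv j v p) (jv j v).continuous.continuousAt).continuousWithinAt
  have hint1 : IntervalIntegrable (fun t => wd E ((fderiv ℝ (hopg j v Om) (x, t)).comp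
      (ContinuousLinearMap.inl ℝ E ℝ))) volume 0 1 :=
    intervalIntegrable_slice ((wd E).continuous.comp_continuousOn hg') hxS
  have hint2 : IntervalIntegrable (fun t => hopL j v (F.d Om (jv j v (x, t)))) volume 0 1 :=
    intervalIntegrable_slice (g := fun p => hopL j v (F.d Om (jv j v p)))
      ((hopL j v).continuous.comp_continuousOn hdO) hxS
  have h3 : hop j v (F.d Om) x = ∫ t in (0 : ℝ)..1, hopL j v (F.d Om (jv j v (x, t))) := rfl
  rw [h2, h3, ← intervalIntegral.integral_add hint1 hint2]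
  have hcongr : ∫ t in (0 : ℝ)..1, (wd E ((fderiv ℝ (hopg j v Om) (x, t)).comp
      (ContinuousLinearMap.inl ℝ E ℝ)) + hopL j v (F.d Om (jv j v (x, t)))) =
      ∫ t in (0 : ℝ)..1, pbL j (fderiv ℝ Om (jv j v (x, t)) v) := by
    refine intervalIntegral.integral_congr ?_
    rw [uIcc_of_le zero_le_one]
    exact fun t ht => hop_pt (h t ht)
  rw [hcongr]
  have hderiv : ∀ t ∈ uIcc (0 : ℝ) 1, HasDerivAt (fun t => pbL j (Om (jv j v (x, t))))
      (pbL j (fderiv ℝ Om (jv j v (x, t)) v)) t := by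
    intro t ht
    rw [uIcc_of_le zero_le_one] at ht
    have hOt : HasFDerivAt Om (fderiv ℝ Om (jv j v (x, t))) (jv j v (x, t)) :=
      ((h t ht).differentiableAt (by norm_num)).hasFDerivAt
    exact (pbL j).hasFDerivAt.comp_hasDerivAt t (hOt.comp_hasDerivAt t (hasDerivAt_jv x t))
  refine intervalIntegral.integral_eq_sub_of_hasDerivAt hderiv ?_
  have h6 : ContinuousOn (fun p => pbL j (fderiv ℝ Om (jv j v p) v)) U := by
    refine (pbL j).continuous.comp_continuousOn (ContinuousOn.clm_apply ?_ continuousOn_const)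
    intro p hp
    have hp' : ContDiffAt ℝ 1 Om (jv j v p) := hp
    have h3 : ContinuousAt (fderiv ℝ Om) (jv j v p) :=
      (hp'.fderiv_right (m := 0) (by norm_num)).continuousAt
    exact (h3.comp (f := fun p => jv j v p) (jv j v).continuous.continuousAt).continuousWithinAt
  exact intervalIntegrable_slice h6 hxS

end cartan

end Crest.Agent.R208.FI
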