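import Mathlib

/-!
R208, block G5 / (I.3): linear algebra with parameters.
Orthogonal projections onto kernels of constant dimension are `C¹`.
-/

set_option autoImplicit false

open Set Filter Topology
open scoped RealInnerProductSpace

noncomputable section

namespace Crest.Agent.R208.IB

variable {V F : Type*} [NormedAddCommGroup V] [InnerProductSpace ℝ V] [FiniteDimensional ℝ V]
  [NormedAddCommGroup F] [InnerProductSpace ℝ F] [FiniteDimensional ℝ F]

/-- the adjoint as a real-linear continuous map -/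
def adjL (V F : Type*) [NormedAddCommGroup V] [InnerProductSpace ℝ V] [FiniteDimensional ℝ V]
    [NormedAddCommGroup F] [InnerProductSpace ℝ F] [FiniteDimensional ℝ F] :
    (V →L[ℝ] F) →L[ℝ] (F →L[ℝ] V) :=
  LinearMap.mkContinuous
    { toFun := fun A => ContinuousLinearMap.adjoint A
      map_add' := fun A B => map_add _ A B
      map_smul' := fun r A => by simp } 1 (fun A => by simp)

@[simp] theorem adjL_apply (A : V →L[ℝ] F) : adjL V F A = ContinuousLinearMap.adjoint A := rfl

theorem injective_comp_adjoint {A : V →L[ℝ] F} (hA : Function.Surjective A) :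
    Function.Injective (A ∘L ContinuousLinearMap.adjoint A) := by
  rw [injective_iff_map_eq_zero]
  intro w hw
  have h1 : ⟪ContinuousLinearMap.adjoint A w, ContinuousLinearMap.adjoint A w⟫ = 0 := by
    rw [ContinuousLinearMap.adjoint_inner_left]
    have : A (ContinuousLinearMap.adjoint A w) = 0 := hw
    rw [this, inner_zero_right]
  have h2 : ContinuousLinearMap.adjoint A w = 0 := inner_self_eq_zero.1 h1
  obtain ⟨x, rfl⟩ := hA w
  have h3 : ⟪A x, A x⟫ = 0 := by
    rw [← ContinuousLinearMap.adjoint_inner_right, h2, inner_zero_right]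
  exact inner_self_eq_zero.1 h3

theorem isUnit_of_injective {B : F →L[ℝ] F} (hB : Function.Injective B) : IsUnit B := by
  have hs : Function.Surjective B := by
    have := LinearMap.injective_iff_surjective (f := (B : F →ₗ[ℝ] F))
    exact this.1 hB
  let e : F ≃L[ℝ] F := (LinearEquiv.ofBijective (B : F →ₗ[ℝ] F) ⟨hB, hs⟩).toContinuousLinearEquiv
  refine ⟨⟨B, e.symm, ?_, ?_⟩, rfl⟩
  · ext x
    change e (e.symm x) = x
    simp
  · ext x
    change e.symm (e x) = x
    simp

/-- the candidate for the orthogonal projection onto `ker A`, smooth in `A` -/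
def kproj (A : V →L[ℝ] F) : V →L[ℝ] V :=
  ContinuousLinearMap.id ℝ V -
    (ContinuousLinearMap.adjoint A) ∘L (Ring.inverse (A ∘L ContinuousLinearMap.adjoint A)) ∘L A

theorem kproj_eq {A : V →L[ℝ] F} (hA : IsUnit (A ∘L ContinuousLinearMap.adjoint A)) :
    (LinearMap.ker (A : V →ₗ[ℝ] F)).starProjection = kproj A := by
  ext x
  apply Submodule.eq_starProjection_of_mem_orthogonal
  · rw [LinearMap.mem_ker]
    have h1 : (A ∘L ContinuousLinearMap.adjoint A) *
        Ring.inverse (A ∘L ContinuousLinearMap.adjoint A) = 1 := Ring.mul_inverse_cancel _ hA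
    have h2 := congrArg (fun T : F →L[ℝ] F => T (A x)) h1
    simp only [mul_apply_eq_comp, ContinuousLinearMap.comp_apply,
      one_apply_eq_self] at h2
    simp only [kproj, sub_apply, ContinuousLinearMap.comp_apply,
      ContinuousLinearMap.id_apply, ContinuousLinearMap.coe_coe, map_sub]
    rw [h2, sub_self]
  · intro y hy
    have hy' : A y = 0 := hy
    have : x - kproj A x =
        (ContinuousLinearMap.adjoint A) ((Ring.inverse (A ∘L ContinuousLinearMap.adjoint A)) (A x)) := by
      simp [kproj]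
    rw [this, ContinuousLinearMap.adjoint_inner_right, hy', inner_zero_left]

theorem contDiffAt_kproj {A : V →L[ℝ] F} (hA : IsUnit (A ∘L ContinuousLinearMap.adjoint A)) :
    ContDiffAt ℝ 1 (kproj : (V →L[ℝ] F) → (V →L[ℝ] V)) A := by
  have had : ContDiffAt ℝ 1 (fun A : V →L[ℝ] F => ContinuousLinearMap.adjoint A) A :=
    (adjL V F).contDiff.contDiffAt
  have hmul : ContDiffAt ℝ 1 (fun A : V →L[ℝ] F => A ∘L ContinuousLinearMap.adjoint A) A :=
    contDiffAt_id.clm_comp had
  have hinv : ContDiffAt ℝ 1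
      (fun A : V →L[ℝ] F => Ring.inverse (A ∘L ContinuousLinearMap.adjoint A)) A := by
    obtain ⟨u, hu⟩ := hA
    have h := contDiffAt_ringInverse ℝ (n := 1) u
    rw [hu] at h
    exact h.comp A hmul
  exact contDiffAt_const.sub (had.clm_comp (hinv.clm_comp contDiffAt_id))

omit [FiniteDimensional ℝ F] in
theorem exists_proj (D : V → (V →L[ℝ] F)) (v0 : V) (hD : ContDiffAt ℝ 1 D v0) :
    ∃ Q : V → (V →L[ℝ] V), ContDiffAt ℝ 1 Q v0 ∧ ∀ᶠ v in 𝓝 v0,
      Module.finrank ℝ (LinearMap.ker (D v : V →ₗ[ℝ] F)) ≤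
          Module.finrank ℝ (LinearMap.ker (D v0 : V →ₗ[ℝ] F)) ∧
      (Module.finrank ℝ (LinearMap.ker (D v : V →ₗ[ℝ] F)) =
          Module.finrank ℝ (LinearMap.ker (D v0 : V →ₗ[ℝ] F)) →
        (LinearMap.ker (D v : V →ₗ[ℝ] F)).starProjection = Q v) := by
  set W : Submodule ℝ F := LinearMap.range (D v0 : V →ₗ[ℝ] F) with hW
  let π : F →L[ℝ] W := W.orthogonalProjectionOnto
  let A : V → (V →L[ℝ] W) := fun v => π ∘L D v
  have hA1 : ContDiffAt ℝ 1 A v0 := contDiffAt_const.clm_comp hD
  have hsurj : Function.Surjective (A v0) := by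
    rintro ⟨w, hw⟩
    obtain ⟨x, hx⟩ := id hw
    refine ⟨x, ?_⟩
    have hx' : D v0 x = w := hx
    change W.orthogonalProjectionOnto (D v0 x) = _
    rw [hx']
    exact Submodule.orthogonalProjectionOnto_mem_subspace_eq_self (K := W) ⟨w, hw⟩
  have hunit : IsUnit (A v0 ∘L ContinuousLinearMap.adjoint (A v0)) :=
    isUnit_of_injective (injective_comp_adjoint hsurj)
  have hcont : ContinuousAt (fun v => A v ∘L ContinuousLinearMap.adjoint (A v)) v0 := by
    have had : ContinuousAt (fun v => ContinuousLinearMap.adjoint (A v)) v0 :=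
      ((adjL V W).continuous.continuousAt (x := A v0)).comp hA1.continuousAt
    exact hA1.continuousAt.clm_comp had
  have hev : ∀ᶠ v in 𝓝 v0, IsUnit (A v ∘L ContinuousLinearMap.adjoint (A v)) :=
    hcont.eventually (Units.isOpen.mem_nhds hunit)
  refine ⟨fun v => kproj (A v), (contDiffAt_kproj hunit).comp v0 hA1, ?_⟩
  filter_upwards [hev] with v hv
  have hsv : Function.Surjective (A v) := by
    intro w
    obtain ⟨u, hu⟩ := hv
    refine ⟨ContinuousLinearMap.adjoint (A v) ((↑u⁻¹ : W →L[ℝ] W) w), ?_⟩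
    have h1 : (A v ∘L ContinuousLinearMap.adjoint (A v)) * (↑u⁻¹ : W →L[ℝ] W) = 1 := by
      rw [← hu]; exact u.mul_inv
    have h2 := congrArg (fun T : W →L[ℝ] W => T w) h1
    simpa using h2
  have hkA : Module.finrank ℝ (LinearMap.ker (A v : V →ₗ[ℝ] W)) =
      Module.finrank ℝ (LinearMap.ker (D v0 : V →ₗ[ℝ] F)) := by
    have h1 := LinearMap.finrank_range_add_finrank_ker (A v : V →ₗ[ℝ] W)
    have h2 := LinearMap.finrank_range_add_finrank_ker (D v0 : V →ₗ[ℝ] F)
    have h3 : LinearMap.range (A v : V →ₗ[ℝ] W) = ⊤ := LinearMap.range_eq_top.2 hsv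
    rw [h3, finrank_top] at h1
    rw [← hW] at h2
    omega
  have hle : LinearMap.ker (D v : V →ₗ[ℝ] F) ≤ LinearMap.ker (A v : V →ₗ[ℝ] W) := by
    intro x hx
    have hx' : D v x = 0 := hx
    change π (D v x) = 0
    rw [hx', map_zero]
  refine ⟨?_, fun heq => ?_⟩
  · rw [← hkA]; exact Submodule.finrank_mono hle
  · have hker : LinearMap.ker (D v : V →ₗ[ℝ] F) = LinearMap.ker (A v : V →ₗ[ℝ] W) :=
      Submodule.eq_of_le_of_finrank_eq hle (by rw [hkA, heq])
    have := kproj_eq hv
    simp only [← this]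
    congr 1

end Crest.Agent.R208.IB
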