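import Crest.Agent.R208.FI2d
import Crest.Agent.R208.IB1

/-! Row 208, block F2 (helper349), part FV1: general lemmas for the construction of `F = {d = π}`
and of the field `V` of link spaces: smooth kernel projections, gluing of smooth extensions,
images of slices. -/

set_option autoImplicit false
set_option linter.unusedSectionVars false
set_option linter.unusedVariables false

open Set Filter Topology Module
open scoped ContDiff RealInnerProductSpace
open Crest.Agent.R208.F Crest.Agent.R208.FI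

noncomputable section

namespace Crest.Agent.R208.FV

section ker

variable {V F : Type*} [NormedAddCommGroup V] [InnerProductSpace ℝ V] [FiniteDimensional ℝ V]
  [NormedAddCommGroup F] [InnerProductSpace ℝ F] [FiniteDimensional ℝ F]
  {E : Type*} [NormedAddCommGroup E] [NormedSpace ℝ E]

theorem contDiffAt_kproj {A : V →L[ℝ] F} (hA : IsUnit (A ∘L ContinuousLinearMap.adjoint A)) :
    ContDiffAt ℝ ∞ (IB.kproj : (V →L[ℝ] F) → (V →L[ℝ] V)) A := by
  have had : ContDiffAt ℝ ∞ (fun A : V →L[ℝ] F => ContinuousLinearMap.adjoint A) A :=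
    (IB.adjL V F).contDiff.contDiffAt
  have hmul : ContDiffAt ℝ ∞ (fun A : V →L[ℝ] F => A ∘L ContinuousLinearMap.adjoint A) A :=
    contDiffAt_id.clm_comp had
  have hinv : ContDiffAt ℝ ∞
      (fun A : V →L[ℝ] F => Ring.inverse (A ∘L ContinuousLinearMap.adjoint A)) A := by
    obtain ⟨u, hu⟩ := hA
    have h := contDiffAt_ringInverse ℝ (n := ∞) u
    rw [hu] at h
    exact h.comp A hmul
  exact contDiffAt_const.sub (had.clm_comp (hinv.clm_comp contDiffAt_id))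

/-- **Smoothness of kernel projections of constant rank.** -/
theorem exists_kerproj (D : E → (V →L[ℝ] F)) (x0 : E) (hD : ContDiffAt ℝ ∞ D x0) :
    ∃ Q : E → (V →L[ℝ] V), ContDiffAt ℝ ∞ Q x0 ∧ ∀ᶠ x in 𝓝 x0,
      finrank ℝ (LinearMap.ker (D x : V →ₗ[ℝ] F)) =
          finrank ℝ (LinearMap.ker (D x0 : V →ₗ[ℝ] F)) →
        (LinearMap.ker (D x : V →ₗ[ℝ] F)).starProjection = Q x := by
  set W : Submodule ℝ F := LinearMap.range (D x0 : V →ₗ[ℝ] F) with hW
  let π : F →L[ℝ] W := W.orthogonalProjectionOnto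
  let A : E → (V →L[ℝ] W) := fun v => π ∘L D v
  have hA1 : ContDiffAt ℝ ∞ A x0 := contDiffAt_const.clm_comp hD
  have hsurj : Function.Surjective (A x0) := by
    rintro ⟨w, hw⟩
    obtain ⟨x, hx⟩ := id hw
    refine ⟨x, ?_⟩
    have hx' : D x0 x = w := hx
    change W.orthogonalProjectionOnto (D x0 x) = _
    rw [hx']
    exact Submodule.orthogonalProjectionOnto_mem_subspace_eq_self (K := W) ⟨w, hw⟩
  have hunit : IsUnit (A x0 ∘L ContinuousLinearMap.adjoint (A x0)) :=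
    IB.isUnit_of_injective (IB.injective_comp_adjoint hsurj)
  have hcont : ContinuousAt (fun v => A v ∘L ContinuousLinearMap.adjoint (A v)) x0 := by
    have had : ContinuousAt (fun v => ContinuousLinearMap.adjoint (A v)) x0 :=
      ((IB.adjL V W).continuous.continuousAt (x := A x0)).comp hA1.continuousAt
    exact hA1.continuousAt.clm_comp had
  have hev : ∀ᶠ v in 𝓝 x0, IsUnit (A v ∘L ContinuousLinearMap.adjoint (A v)) :=
    hcont.eventually (Units.isOpen.mem_nhds hunit)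
  refine ⟨fun v => IB.kproj (A v), (contDiffAt_kproj hunit).comp x0 hA1, ?_⟩
  filter_upwards [hev] with v hv
  have hsv : Function.Surjective (A v) := by
    intro w
    obtain ⟨u, hu⟩ := hv
    refine ⟨ContinuousLinearMap.adjoint (A v) ((↑u⁻¹ : W →L[ℝ] W) w), ?_⟩
    have h1 : (A v ∘L ContinuousLinearMap.adjoint (A v)) * (↑u⁻¹ : W →L[ℝ] W) = 1 := by
      rw [← hu]; exact u.mul_inv
    have h2 := congrArg (fun T : W →L[ℝ] W => T w) h1
    simpa using h2
  have hkA : finrank ℝ (LinearMap.ker (A v : V →ₗ[ℝ] W)) =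
      finrank ℝ (LinearMap.ker (D x0 : V →ₗ[ℝ] F)) := by
    have h1 := LinearMap.finrank_range_add_finrank_ker (A v : V →ₗ[ℝ] W)
    have h2 := LinearMap.finrank_range_add_finrank_ker (D x0 : V →ₗ[ℝ] F)
    have h3 : LinearMap.range (A v : V →ₗ[ℝ] W) = ⊤ := LinearMap.range_eq_top.2 hsv
    rw [h3, finrank_top] at h1
    rw [← hW] at h2
    omega
  have hle : LinearMap.ker (D v : V →ₗ[ℝ] F) ≤ LinearMap.ker (A v : V →ₗ[ℝ] W) := by
    intro x hx
    have hx' : D v x = 0 := hx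
    change π (D v x) = 0
    rw [hx', map_zero]
  intro heq
  have hker : LinearMap.ker (D v : V →ₗ[ℝ] F) = LinearMap.ker (A v : V →ₗ[ℝ] W) :=
    Submodule.eq_of_le_of_finrank_eq hle (by rw [hkA, heq])
  have := IB.kproj_eq hv
  simp only [← this]
  congr 1

end ker

/-! ### gluing -/

section glue

variable {E : Type*} [NormedAddCommGroup E] [NormedSpace ℝ E] [FiniteDimensional ℝ E]
  {W : Type*} [NormedAddCommGroup W] [NormedSpace ℝ W]

/-- a function on a submanifold having local `C^∞` extensions is `C^∞` in parametrisations -/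
theorem contDiffOn_comp_loc {n : ℕ} {X : Set E} {f : Eu n → E} {U : Set (Eu n)} {O : Set E}
    {ℓ : E → Eu n} (h : Loc X f U O ℓ) {g : E → W}
    (hg : ∀ x ∈ X, ∃ g' : E → W, ContDiffAt ℝ ∞ g' x ∧ g' =ᶠ[𝓝[X] x] g) :
    ContDiffOn ℝ ∞ (fun u => g (f u)) U := by
  intro u hu
  apply ContDiffAt.contDiffWithinAt
  obtain ⟨g', h1, h2⟩ := hg _ (h.mem hu).1
  have h3 : ContDiffAt ℝ ∞ (fun u => g' (f u)) u := h1.comp u (h.fC' hu)
  refine h3.congr_of_eventuallyEq ?_
  have h4 : Tendsto f (𝓝 u) (𝓝[X] (f u)) := by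
    refine tendsto_nhdsWithin_iff.2 ⟨(h.fC' hu).continuousAt, ?_⟩
    filter_upwards [h.oW.mem_nhds hu] with w hw using (h.mem hw).1
  exact (h4.eventually h2).mono fun w hw => hw.symm

open scoped Manifold in
/-- **Gluing**: local `C^∞` extensions along a closed submanifold give a global `C^∞` extension. -/
theorem exists_glue {n : ℕ} {X : Set E} (hX : Sub n X) (hXc : IsClosed X) {g : E → W}
    (hg : ∀ x ∈ X, ∃ g' : E → W, ContDiffAt ℝ ∞ g' x ∧ g' =ᶠ[𝓝[X] x] g) :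
    ∃ g' : E → W, ContDiff ℝ ∞ g' ∧ ∀ x ∈ X, g' x = g x := by
  classical
  have hconv : ∀ x : E, Convex ℝ {y : W | x ∈ X → y = g x} := by
    intro x
    by_cases hx : x ∈ X
    · have : {y : W | x ∈ X → y = g x} = {g x} := by
        ext y; simp [hx]
      rw [this]; exact convex_singleton _
    · have : {y : W | x ∈ X → y = g x} = univ := by
        ext y; simp [hx]
      rw [this]; exact convex_univ
  have hloc : ∀ x : E, ∃ U ∈ 𝓝 x, ∃ s : E → W,
      ContMDiffOn 𝓘(ℝ, E) 𝓘(ℝ, W) ((⊤ : ℕ∞) : WithTop ℕ∞) s U ∧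
        ∀ y ∈ U, s y ∈ {z : W | y ∈ X → z = g y} := by
    intro x
    by_cases hx : x ∈ X
    · obtain ⟨f, U, O, ℓ, h1, h2⟩ := hX.exists_loc hx
      refine ⟨O, h1.oO.mem_nhds h2, fun y => g (f (ℓ y)), ?_, fun y hy hyX => ?_⟩
      · refine ContDiffOn.contMDiffOn ?_
        exact (contDiffOn_comp_loc h1 hg).comp h1.lC fun y hy => h1.maps y hy
      · change g (f (ℓ y)) = g y
        rw [h1.right_inv hyX hy]
    · exact ⟨Xᶜ, hXc.isOpen_compl.mem_nhds hx, fun _ => 0, contMDiffOn_const,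
        fun y hy hyX => absurd hyX hy⟩
  obtain ⟨s, hs⟩ := exists_contMDiffMap_forall_mem_convex_of_local (n := (⊤ : ℕ∞))
    (I := 𝓘(ℝ, E)) (M := E) (F := W) (t := fun x => {y : W | x ∈ X → y = g x}) hconv hloc
  exact ⟨s, s.contMDiff.contDiff, fun x hx => hs x hx⟩

end glue

/-! ### images of local parametrisations under immersions -/

section image

variable {E : Type*} [NormedAddCommGroup E] [NormedSpace ℝ E] [FiniteDimensional ℝ E]
  {E' : Type*} [NormedAddCommGroup E'] [NormedSpace ℝ E'] [FiniteDimensional ℝ E']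

/-- Let `g` be smooth along `X`, immersive at `x`, `g(X) ⊆ Y` near `x`, and such that all points of
`Y` near `g x` are images of points of `X` near `x`. Then a parametrisation of `X` at `x` gives one
of `Y` at `g x`. -/
theorem Loc.image {n : ℕ} {X : Set E} {f : Eu n → E} {U : Set (Eu n)} {O : Set E}
    {ℓ : E → Eu n} (h : Loc X f U O ℓ) {g : E → E'} {Y : Set E'}
    (hg : ∀ x ∈ X, ContDiffAt ℝ ∞ g x) {x : E} (hx : x ∈ X) (hxO : x ∈ O)
    (hi : ∀ v ∈ Tan X x, fderiv ℝ g x v = 0 → v = 0) (hXY : ∀ x ∈ X, g x ∈ Y)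
    (hop : ∀ O' : Set E, IsOpen O' → x ∈ O' → ∀ᶠ y in 𝓝[Y] (g x), ∃ z ∈ X ∩ O', g z = y) :
    ∃ (U' : Set (Eu n)) (O' : Set E') (ℓ' : E' → Eu n),
      Loc Y (fun u => g (f u)) U' O' ℓ' ∧ g x ∈ O' ∧ ℓ x ∈ U' ∧ U' ⊆ U := by
  classical
  set u0 : Eu n := ℓ x with hu0
  have hu0U : u0 ∈ U := h.maps x hxO
  have hfu0 : f u0 = x := h.right_inv hx hxO
  set k : Eu n → E' := fun u => g (f u) with hk
  have hkC : ∀ u ∈ U, ContDiffAt ℝ ∞ k u := fun u hu => (hg _ (h.mem hu).1).comp u (h.fC' hu)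
  set D : Eu n →L[ℝ] E' := fderiv ℝ k u0 with hD
  have hDd : D = (fderiv ℝ g x) ∘L (fderiv ℝ f u0) := by
    have h1 : HasFDerivAt g (fderiv ℝ g x) (f u0) := by
      rw [hfu0]; exact ((hg x hx).differentiableAt (by simp)).hasFDerivAt
    exact (h1.comp u0 ((h.fC' hu0U).differentiableAt (by simp)).hasFDerivAt).fderiv
  have hDi : Function.Injective D := by
    rw [injective_iff_map_eq_zero]
    intro v hv
    have h1 : fderiv ℝ f u0 v = 0 := by
      apply hi
      · rw [← hfu0, ← h.range_eq_Tan hu0U]; exact ⟨v, rfl⟩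
      · rw [hDd] at hv; exact hv
    have h2 : Function.Injective (fderiv ℝ f u0) := h.chart.inj u0 hu0U
    exact h2 (by rw [h1, map_zero])
  obtain ⟨B0, hB0⟩ := LinearMap.exists_leftInverse_of_injective (D : Eu n →ₗ[ℝ] E')
    (LinearMap.ker_eq_bot.2 hDi)
  set B : E' →L[ℝ] Eu n := LinearMap.toContinuousLinearMap B0 with hB
  have hBD : B ∘L D = ContinuousLinearMap.id ℝ (Eu n) := by
    ext1 v
    have := congrArg (fun L => L v) hB0
    simpa [hB] using this
  set Φ : Eu n → Eu n := fun u => B (k u) with hΦ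
  have hΦC : ∀ u ∈ U, ContDiffAt ℝ ∞ Φ u := fun u hu => B.contDiff.contDiffAt.comp u (hkC u hu)
  have hΦd : ∀ u ∈ U, HasFDerivAt Φ (B ∘L fderiv ℝ k u) u := fun u hu =>
    B.hasFDerivAt.comp u ((hkC u hu).differentiableAt (by simp)).hasFDerivAt
  have hΦ0 : HasFDerivAt Φ ((ContinuousLinearEquiv.refl ℝ (Eu n) : Eu n ≃L[ℝ] Eu n) :
      Eu n →L[ℝ] Eu n) u0 := by
    have := hΦd u0 hu0U
    rw [← hD, hBD] at this
    exact this
  set e := (hΦC u0 hu0U).toOpenPartialHomeomorph Φ hΦ0 (by simp) with he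
  have hu0e : u0 ∈ e.source := ContDiffAt.mem_toOpenPartialHomeomorph_source _ _ _
  have hecoe : (e : Eu n → Eu n) = Φ := rfl
  have hcont : ContinuousOn (fun u => B ∘L fderiv ℝ k u) U := by
    have h1 : ContinuousOn (fderiv ℝ k) U := by
      have : ContDiffOn ℝ ∞ k U := fun u hu => (hkC u hu).contDiffWithinAt
      exact this.continuousOn_fderiv_of_isOpen h.oW (by simp)
    exact continuousOn_const.clm_comp h1
  have hinvopen : IsOpen (U ∩ (fun u => B ∘L fderiv ℝ k u) ⁻¹'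
      {L | ∃ M : Eu n ≃L[ℝ] Eu n, (M : Eu n →L[ℝ] Eu n) = L}) :=
    hcont.isOpen_inter_preimage h.oW ContinuousLinearEquiv.isOpen
  set U1 : Set (Eu n) := (U ∩ (fun u => B ∘L fderiv ℝ k u) ⁻¹'
      {L | ∃ M : Eu n ≃L[ℝ] Eu n, (M : Eu n →L[ℝ] Eu n) = L}) ∩ e.source with hU1
  have hU1o : IsOpen U1 := hinvopen.inter e.open_source
  have hU1U : U1 ⊆ U := fun u hu => hu.1.1
  have hu0U1 : u0 ∈ U1 := by
    refine ⟨⟨hu0U, ContinuousLinearEquiv.refl ℝ _, ?_⟩, hu0e⟩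
    change _ = B ∘L fderiv ℝ k u0
    rw [← hD, hBD]; rfl
  have hΩo : IsOpen (Φ '' U1) := e.isOpen_image_of_subset_source hU1o fun u hu => hu.2
  -- all points of `Y` near `g x` come from `U1`
  have hO1 : IsOpen (O ∩ ℓ ⁻¹' U1) := h.lC.continuousOn.isOpen_inter_preimage h.oO hU1o
  have hev := hop (O ∩ ℓ ⁻¹' U1) hO1 ⟨hxO, hu0U1⟩
  rw [eventually_nhdsWithin_iff] at hev
  obtain ⟨N, hN, hNo, hxN⟩ := eventually_nhds_iff.1 hev
  have hkx : k u0 = g x := by simp only [hk, hfu0]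
  have hfC : ContinuousOn k U1 := fun u hu => (hkC u (hU1U hu)).continuousAt.continuousWithinAt
  have hloc := Loc.mk' (X := Y) (f := k) (W := U1 ∩ k ⁻¹' N) (O := N ∩ B ⁻¹' (Φ '' U1))
    (ℓ := fun y => e.symm (B y)) (hfC.isOpen_inter_preimage hU1o hNo)
    (hNo.inter (hΩo.preimage B.continuous)) ?_ ?_ ?_ ?_
  · refine ⟨U1 ∩ k ⁻¹' N, _, _, hloc, ⟨⟨hxN, ?_⟩, ?_⟩, ⟨hu0U1, ?_⟩,
      fun u hu => hU1U hu.1⟩
    · exact ⟨u0, hu0U1, by rw [← hkx]⟩
    · change e.symm (B (g x)) ∈ U1 ∩ k ⁻¹' N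
      have : e.symm (e u0) = u0 := e.left_inv hu0e
      rw [← hkx]
      change e.symm (e u0) ∈ U1 ∩ k ⁻¹' N
      rw [this]
      exact ⟨hu0U1, by rw [mem_preimage, hkx]; exact hxN⟩
    · rw [mem_preimage, hkx]; exact hxN
  · exact fun u hu => (hkC u (hU1U hu.1)).contDiffWithinAt
  · rintro y ⟨hyN, u, hu, huy⟩
    apply ContDiffAt.contDiffWithinAt
    have hBy : B y = e u := huy.symm
    have hys : e.symm (B y) = u := by rw [hBy]; exact e.left_inv hu.2
    obtain ⟨M, hM⟩ := hu.1.2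
    have hM' : HasFDerivAt e (M : Eu n →L[ℝ] Eu n) (e.symm (B y)) := by
      rw [hys, hM]; exact hΦd u (hU1U hu)
    have h1 : ContDiffAt ℝ ∞ e.symm (B y) :=
      e.contDiffAt_symm (by rw [hBy]; exact e.map_source hu.2) hM'
        (by rw [hys]; exact hΦC u (hU1U hu))
    exact h1.comp y B.contDiff.contDiffAt
  · apply Subset.antisymm
    · rintro _ ⟨u, ⟨hu, huN⟩, rfl⟩
      exact ⟨hXY _ (h.mem (hU1U hu)).1, huN, u, hu, rfl⟩
    · rintro y ⟨hyY, hyN, -⟩
      obtain ⟨z, ⟨hzX, hzO, hzU⟩, hzy⟩ := hN y hyN hyY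
      have hfz : f (ℓ z) = z := h.right_inv hzX hzO
      have hkz : k (ℓ z) = y := by simp only [hk, hfz, hzy]
      exact ⟨ℓ z, ⟨hzU, by rw [mem_preimage, hkz]; exact hyN⟩, hkz⟩
  · rintro u ⟨hu, -⟩
    change e.symm (e u) = u
    exact e.left_inv hu.2

theorem Tan_le_ker {G : Type*} [NormedAddCommGroup G] [NormedSpace ℝ G] {X : Set E} {g : E → G}
    {x : E} (hg : DifferentiableAt ℝ g x) :
    Tan {x ∈ X | g x = 0} x ≤ Tan X x ⊓ LinearMap.ker (fderiv ℝ g x : E →ₗ[ℝ] G) := by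
  refine le_inf (Tan_mono_of_subset (fun y hy => hy.1) x) ?_
  rw [Tan, Submodule.span_le]
  rintro v ⟨γ, rfl, hγ, hS⟩
  have h1 : HasDerivAt (fun t => g (γ t)) (fderiv ℝ g (γ 0) v) 0 :=
    hg.hasFDerivAt.comp_hasDerivAt 0 hγ
  have h2 : HasDerivAt (fun t => g (γ t)) 0 0 := by
    refine (hasDerivAt_const (0 : ℝ) (0 : G)).congr_of_eventuallyEq ?_
    filter_upwards [hS] with t ht using ht.2
  exact h1.unique h2

/-- **Local sections**: in the situation of `Loc.image`, `σ = f ∘ ℓ'` is a smooth section near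
`g x`. -/
theorem exists_section {n : ℕ} {X : Set E} {f : Eu n → E} {U : Set (Eu n)} {O : Set E}
    {ℓ : E → Eu n} (h : Loc X f U O ℓ) {g : E → E'} {Y : Set E'}
    (hg : ∀ x ∈ X, ContDiffAt ℝ ∞ g x) {x : E} (hx : x ∈ X) (hxO : x ∈ O)
    (hi : ∀ v ∈ Tan X x, fderiv ℝ g x v = 0 → v = 0) (hXY : ∀ x ∈ X, g x ∈ Y)
    (hop : ∀ O' : Set E, IsOpen O' → x ∈ O' → ∀ᶠ y in 𝓝[Y] (g x), ∃ z ∈ X ∩ O', g z = y) :
    ∃ (σ : E' → E) (O' : Set E'), IsOpen O' ∧ g x ∈ O' ∧ ContDiffOn ℝ ∞ σ O' ∧ σ (g x) = x ∧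
      (∀ y ∈ O', σ y ∈ X) ∧ (∀ y ∈ Y ∩ O', g (σ y) = y) ∧
      (∀ᶠ z in 𝓝[X] x, σ (g z) = z) := by
  obtain ⟨U', O', ℓ', h1, h2, h3, h4⟩ := Loc.image h hg hx hxO hi hXY hop
  have hfx : f (ℓ x) = x := h.right_inv hx hxO
  have e1 : ℓ' (g x) = ℓ x := by
    have := h1.inv _ h3
    simp only [hfx] at this
    exact this
  refine ⟨fun y => f (ℓ' y), O', h1.oO, h2, ?_, ?_, ?_, ?_, ?_⟩
  · exact (h.fC.mono h4).comp h1.lC fun y hy => h1.maps y hy
  · simp only [e1, hfx]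
  · intro y hy; exact (h.mem (h4 (h1.maps y hy))).1
  · rintro y ⟨hy, hyO⟩; exact h1.right_inv hy hyO
  · have h5 : ∀ᶠ z in 𝓝[X] x, z ∈ O ∧ ℓ z ∈ U' := by
      have : ∀ᶠ z in 𝓝 x, z ∈ O ∧ ℓ z ∈ U' := by
        filter_upwards [h.oO.mem_nhds hxO,
          (h.lC' hxO).continuousAt.eventually (h1.oW.mem_nhds h3)] with z a b using ⟨a, b⟩
      exact nhdsWithin_le_nhds this
    filter_upwards [h5, self_mem_nhdsWithin] with z hz hzX
    have h6 := h1.inv _ hz.2
    simp only [h.right_inv hzX hz.1] at h6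
    rw [h6, h.right_inv hzX hz.1]

end image

end Crest.Agent.R208.FV
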