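import Crest.Agent.R208.CM0
import Crest.Agent.R208.FV1
import Crest.Agent.R208.FH10a

/-! Row 208, block CM (helper971), part CM1: equivariant embedding of a compact submanifold with a
free circle action into the unit sphere of `ℂ^m`. -/

set_option autoImplicit false
set_option linter.unusedSectionVars false
set_option linter.unusedVariables false

open Set Filter Topology Module MeasureTheory
open scoped ContDiff RealInnerProductSpace
open Crest.Agent.R208.F Crest.Agent.R208.FI

noncomputable section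

namespace Crest.Agent.R208.CM

local notation "π" => Real.pi

variable {E : Type} [NormedAddCommGroup E] [NormedSpace ℝ E] [FiniteDimensional ℝ E]
  {X : Set E} {φ : ℝ → E → E}

/-- the integrand of the first Fourier mode along the orbits -/
def avi (φ : ℝ → E → E) (ρ : E → ℂ) (q : E × ℝ) : ℂ :=
  Complex.exp (-((2 * π * q.2 : ℝ) : ℂ) * Complex.I) * ρ (φ (2 * π * q.2) q.1)

/-- the first Fourier mode along the orbits -/
def avg (φ : ℝ → E → E) (ρ : E → ℂ) : E → ℂ := I1 (avi φ ρ)

theorem contDiffAt_avi (h : Cir X φ) {ρ : E → ℂ} (hρ : ContDiff ℝ ∞ ρ) {x : E} (hx : x ∈ X)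
    (t : ℝ) : ContDiffAt ℝ ∞ (avi φ ρ) (x, t) := by
  have h1 : ContDiffAt ℝ ∞ (fun q : E × ℝ => Complex.exp (-((2 * π * q.2 : ℝ) : ℂ) * Complex.I))
      (x, t) := by
    have : ContDiff ℝ ∞ (fun q : E × ℝ => ((2 * π * q.2 : ℝ) : ℂ)) :=
      Complex.ofRealCLM.contDiff.comp (contDiff_const.mul contDiff_snd)
    exact ((this.neg.mul contDiff_const).cexp).contDiffAt
  have h2 : ContDiffAt ℝ ∞ (fun q : E × ℝ => φ (2 * π * q.2) q.1) (x, t) := by
    have h3 : ContDiffAt ℝ ∞ (fun q : E × ℝ => (2 * π * q.2, q.1)) (x, t) :=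
      ((contDiff_const.mul contDiff_snd).prodMk contDiff_fst).contDiffAt
    exact ContDiffAt.comp (g := fun q : ℝ × E => φ q.1 q.2) (x, t) (h.smooth _ x hx) h3
  exact h1.mul (hρ.contDiffAt.comp (x, t) h2)

theorem contDiffAt_avg (h : Cir X φ) {ρ : E → ℂ} (hρ : ContDiff ℝ ∞ ρ) {x : E} (hx : x ∈ X) :
    ContDiffAt ℝ ∞ (avg φ ρ) x := contDiffAt_I1 fun t _ => contDiffAt_avi h hρ hx t

theorem avg_equi (h : Cir X φ) (ρ : E → ℂ) {x : E} (hx : x ∈ X) (t : ℝ) :
    avg φ ρ (φ t x) = Complex.exp ((t : ℂ) * Complex.I) * avg φ ρ x := by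
  have hπ : (2 * π : ℝ) ≠ 0 := by positivity
  set P : ℝ → ℂ := fun s => avi φ ρ (x, s) with hP
  have hper : Function.Periodic P 1 := by
    intro s
    simp only [hP, avi]
    have e1 : (2 * π * (s + 1) : ℝ) = 2 * π * s + 2 * π := by ring
    rw [e1, h.add_two_pi _ hx]
    congr 1
    have e2 : (-((2 * π * s + 2 * π : ℝ) : ℂ) * Complex.I) =
        -((2 * π * s : ℝ) : ℂ) * Complex.I - 2 * π * Complex.I := by push_cast; ring
    rw [e2, Complex.exp_sub, Complex.exp_two_pi_mul_I, div_one]
  have h1 : ∀ s, avi φ ρ (φ t x, s) = Complex.exp ((t : ℂ) * Complex.I) * P (s + t / (2 * π)) := by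
    intro s
    simp only [hP, avi]
    have e1 : (2 * π * (s + t / (2 * π)) : ℝ) = 2 * π * s + t := by field_simp
    rw [e1, ← h.add _ _ x hx, ← mul_assoc, ← Complex.exp_add]
    congr 2
    push_cast; ring
  unfold avg I1
  simp only [h1]
  rw [intervalIntegral.integral_const_mul]
  congr 1
  rw [intervalIntegral.integral_comp_add_right (fun s => P s)]
  have := hper.intervalIntegral_add_eq (t / (2 * π)) 0
  rw [zero_add] at this ⊢
  rw [add_comm 1 (t / (2 * π))]
  exact this

/-- **non vanishing** of a first Fourier mode -/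
theorem exists_avg_ne (h : Cir X φ) {x : E} (hx : x ∈ X) :
    ∃ ρ : E → ℂ, ContDiff ℝ ∞ ρ ∧ avg φ ρ x ≠ 0 := by
  classical
  have hcont : Continuous fun s => φ s x :=
    continuous_iff_continuousAt.2 fun t => (h.smooth_left t hx).continuousAt
  set C : Set E := (fun s => φ s x) '' (Icc 0 (2 * π) ∩ {s | Real.cos s ≤ 0}) with hC
  have hCc : IsCompact C :=
    (isCompact_Icc.inter_right (isClosed_le Real.continuous_cos continuous_const)).image hcont
  have hxC : x ∉ C := by
    rintro ⟨s, ⟨-, hs⟩, hsx⟩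
    obtain ⟨k, rfl⟩ := h.free s x hx hsx
    have h1 : Real.cos (2 * π * k) = 1 := by
      rw [mul_comm]; exact Real.cos_int_mul_two_pi k
    have h2 : Real.cos (2 * π * k) ≤ 0 := hs
    rw [h1] at h2
    exact absurd h2 (by norm_num)
  obtain ⟨ε, hε, hεC⟩ := Metric.isOpen_iff.1 hCc.isClosed.isOpen_compl x hxC
  let f : ContDiffBump x := ⟨ε / 2, ε, by positivity, by linarith⟩
  refine ⟨fun y => ((f y : ℝ) : ℂ), Complex.ofRealCLM.contDiff.comp f.contDiff, fun h0 => ?_⟩
  have hcont' : Continuous fun s => avi φ (fun y => ((f y : ℝ) : ℂ)) (x, s) := by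
    have hf : ContDiff ℝ ∞ (fun y => ((f y : ℝ) : ℂ)) := Complex.ofRealCLM.contDiff.comp f.contDiff
    refine continuous_iff_continuousAt.2 fun t => ?_
    exact ((contDiffAt_avi h hf hx t).continuousAt).comp (f := fun s : ℝ => (x, s)) (by fun_prop)
  have hre : ∀ s, (avi φ (fun y => ((f y : ℝ) : ℂ)) (x, s)).re =
      Real.cos (2 * π * s) * f (φ (2 * π * s) x) := by
    intro s
    simp only [avi]
    rw [Complex.re_mul_ofReal]
    congr 1
    have : (-((2 * π * s : ℝ) : ℂ) * Complex.I) = ((-(2 * π * s) : ℝ) : ℂ) * Complex.I := by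
      push_cast; ring
    rw [this, Complex.exp_ofReal_mul_I_re, Real.cos_neg]
  have h2 : (avg φ (fun y => ((f y : ℝ) : ℂ)) x).re =
      ∫ s in (0 : ℝ)..1, Real.cos (2 * π * s) * f (φ (2 * π * s) x) := by
    unfold avg I1
    have := Complex.reCLM.intervalIntegral_comp_comm (hcont'.intervalIntegrable (μ := volume) 0 1)
    simp only [Complex.reCLM_apply] at this
    rw [← this]
    simp only [hre]
  have h3 : 0 < ∫ s in (0 : ℝ)..1, Real.cos (2 * π * s) * f (φ (2 * π * s) x) := by
    refine intervalIntegral.integral_pos zero_lt_one ?_ ?_ ⟨0, by simp, ?_⟩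
    · refine Continuous.continuousOn ?_
      have : Continuous fun s : ℝ => φ (2 * π * s) x := hcont.comp (by fun_prop)
      exact (Real.continuous_cos.comp (by fun_prop)).mul (f.continuous.comp this)
    · intro s hs
      by_cases hc : Real.cos (2 * π * s) ≤ 0
      · have : φ (2 * π * s) x ∈ C := by
          refine ⟨2 * π * s, ⟨⟨by have := hs.1; positivity, ?_⟩, hc⟩, rfl⟩
          have := hs.2
          nlinarith [Real.pi_pos]
        have h4 : φ (2 * π * s) x ∉ Metric.ball x ε := fun hb => hεC hb this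
        have h5 : f (φ (2 * π * s) x) = 0 := by
          refine f.zero_of_le_dist ?_
          rw [Metric.mem_ball, not_lt] at h4
          exact h4
        rw [h5, mul_zero]
      · push Not at hc
        exact mul_nonneg hc.le f.nonneg
    · rw [mul_zero, Real.cos_zero, h.zero x hx, one_mul]
      exact f.pos_of_mem_ball (Metric.mem_ball_self hε)
  rw [← h2, h0] at h3
  exact absurd h3 (by simp)

end Crest.Agent.R208.CM
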