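import Crest.Agent.R208.CM1b

/-! Row 208, block CM (helper971), part CM1c: local equivariant pieces and the equivariant embedding
into the unit sphere of `ℂ^m`. -/

set_option autoImplicit false
set_option linter.unusedSectionVars false
set_option linter.unusedVariables false

open Set Filter Topology Module MeasureTheory
open scoped ContDiff RealInnerProductSpace
open Crest.Agent.R208.F Crest.Agent.R208.FI

noncomputable section

namespace Crest.Agent.R208.CM

local notation "π" => Real.pi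

variable {E : Type} [NormedAddCommGroup E] [NormedSpace ℝ E] [FiniteDimensional ℝ E]
  {X : Set E} {φ : ℝ → E → E}

/-- an equivariant map which is an embedding modulo the action where it does not vanish -/
structure Piece (X : Set E) (φ : ℝ → E → E) {κ : Type} [Fintype κ] (G : E → κ → ℂ) : Prop where
  smooth : ContDiff ℝ ∞ G
  equi : ∀ x ∈ X, ∀ t : ℝ, G (φ t x) = Complex.exp (t * Complex.I) • G x
  sep : ∀ x ∈ X, ∀ y ∈ X, G x ≠ 0 → G y ≠ 0 → (∃ z : ℂ, G y = z • G x) → ∃ t, y = φ t x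
  imm : ∀ x ∈ X, G x ≠ 0 → ∀ v ∈ Tan X x, (∃ z : ℂ, fderiv ℝ G x v = z • G x) →
    ∃ c : ℝ, v = c • gen φ x

variable (E) in
/-- the coordinates, as a linear map to `ℂ^(1+e)` with zero first component -/
def cL : E →L[ℝ] (Option (Fin (finrank ℝ E)) → ℂ) :=
  LinearMap.toContinuousLinearMap
    { toFun := fun z a => Option.elim a 0 (fun j => (((finBasis ℝ E).repr z j : ℝ) : ℂ))
      map_add' := fun x y => by
        funext a
        cases a <;> simp
      map_smul' := fun r x => by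
        funext a
        cases a <;> simp }

theorem cL_none (z : E) : cL E z none = 0 := rfl
theorem cL_some (z : E) (j : Fin (finrank ℝ E)) :
    cL E z (some j) = (((finBasis ℝ E).repr z j : ℝ) : ℂ) := rfl

theorem cL_inj {z : E} (h : cL E z = 0) : z = 0 := by
  have h1 : (finBasis ℝ E).repr z = 0 := by
    ext j
    have := congrFun h (some j)
    rw [cL_some] at this
    simpa using this
  exact (finBasis ℝ E).repr.map_eq_zero_iff.1 h1

variable (E) in
/-- the constant `(1,0,…,0)` -/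
def c0 : Option (Fin (finrank ℝ E)) → ℂ := fun a => Option.elim a 1 fun _ => 0

theorem c0_none : c0 E none = 1 := rfl

/-- the cutoff -/
def lam (ε : ℝ) (z : ℂ) : ℝ := Real.smoothTransition (‖z‖ ^ 2 - ε)

theorem contDiff_lam (ε : ℝ) : ContDiff ℝ ∞ (lam ε) :=
  Real.smoothTransition.contDiff.comp ((contDiff_norm_sq ℝ).sub contDiff_const)

theorem lam_pos {ε : ℝ} {z : ℂ} (h : ε < ‖z‖ ^ 2) : 0 < lam ε z :=
  Real.smoothTransition.pos_of_pos (by linarith)

theorem lam_zero {ε : ℝ} {z : ℂ} (h : ‖z‖ ^ 2 ≤ ε) : lam ε z = 0 :=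
  Real.smoothTransition.zero_of_nonpos (by linarith)

/-- the model of the piece -/
def G0 (φ : ℝ → E → E) (u : E → ℂ) (ε : ℝ) (y : E) : Option (Fin (finrank ℝ E)) → ℂ :=
  ((lam ε (u y) : ℂ) * u y) • (c0 E + cL E (ret φ u y))

theorem exists_piece {n : ℕ} (h : Cir X φ) (hX : Sub n X) (hXc : IsClosed X) {u : E → ℂ}
    (hus : ∀ x ∈ X, ContDiffAt ℝ ∞ u x)
    (hu : ∀ x ∈ X, ∀ t : ℝ, u (φ t x) = Complex.exp (t * Complex.I) * u x) {ε : ℝ} (hε : 0 < ε) :
    ∃ G : E → (Option (Fin (finrank ℝ E)) → ℂ), Piece X φ G ∧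
      ∀ x ∈ X, ε < ‖u x‖ ^ 2 → G x ≠ 0 := by
  classical
  set m : E → ℂ := fun y => (lam ε (u y) : ℂ) * u y with hm
  have hms : ∀ x ∈ X, ContDiffAt ℝ ∞ m x := fun x hx => by
    have h1 : ContDiffAt ℝ ∞ (fun y => (lam ε (u y) : ℂ)) x :=
      Complex.ofRealCLM.contDiff.contDiffAt.comp x
        ((contDiff_lam ε).contDiffAt.comp x (hus x hx))
    exact h1.mul (hus x hx)
  -- local models
  have hloc : ∀ x ∈ X, u x ≠ 0 → ContDiffAt ℝ ∞ (fun y => m y • (c0 E + cL E (ret' φ u x y))) x ∧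
      (fun y => m y • (c0 E + cL E (ret' φ u x y))) =ᶠ[𝓝[X] x] G0 φ u ε := by
    intro x hx hx0
    constructor
    · exact (hms x hx).smul (contDiffAt_const.add
        ((cL E).contDiff.contDiffAt.comp x (h.contDiffAt_ret' hx (hus x hx) hx0)))
    · have h1 : ∀ᶠ y in 𝓝 x, u y ≠ 0 := (hus x hx).continuousAt.eventually_ne hx0
      filter_upwards [nhdsWithin_le_nhds h1, self_mem_nhdsWithin] with y hy hyX
      rw [G0, h.ret'_eq hyX hx0 hy]
  have hg : ∀ x ∈ X, ∃ g' : E → (Option (Fin (finrank ℝ E)) → ℂ), ContDiffAt ℝ ∞ g' x ∧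
      g' =ᶠ[𝓝[X] x] G0 φ u ε := by
    intro x hx
    by_cases hx0 : u x = 0
    · refine ⟨fun _ => 0, contDiffAt_const, ?_⟩
      have h1 : ∀ᶠ y in 𝓝 x, ‖u y‖ ^ 2 < ε := by
        have : ContinuousAt (fun y => ‖u y‖ ^ 2) x := ((hus x hx).continuousAt.norm).pow 2
        refine this.tendsto.eventually_lt_const (u := ε) ?_
        rw [hx0]
        simpa using hε
      filter_upwards [nhdsWithin_le_nhds h1] with y hy
      rw [G0, lam_zero hy.le]
      simp
    · exact ⟨_, hloc x hx hx0⟩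
  obtain ⟨G, hGs, hG⟩ := FV.exists_glue hX hXc hg
  have hG' : ∀ x ∈ X, G x = m x • (c0 E + cL E (ret φ u x)) := fun x hx => hG x hx
  have hnone : ∀ x ∈ X, G x none = m x := fun x hx => by
    rw [hG' x hx, Pi.smul_apply, Pi.add_apply, cL_none, c0_none]; simp
  have hm0 : ∀ x ∈ X, G x ≠ 0 → m x ≠ 0 ∧ u x ≠ 0 := by
    intro x hx hGx
    have : m x ≠ 0 := fun h0 => hGx (by rw [hG' x hx, h0, zero_smul])
    exact ⟨this, fun h0 => this (by simp only [hm, h0, mul_zero])⟩
  refine ⟨G, ⟨hGs, ?_, ?_, ?_⟩, ?_⟩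
  · intro x hx t
    rw [hG' _ (h.maps t hx), hG' x hx]
    have e1 : m (φ t x) = Complex.exp (t * Complex.I) * m x := by
      simp only [hm]
      rw [hu x hx, lam, lam, norm_mul, Complex.norm_exp_ofReal_mul_I, one_mul]
      ring
    by_cases hx0 : u x = 0
    · have : m x = 0 := by simp only [hm, hx0, mul_zero]
      rw [e1, this]; simp
    · rw [h.ret_inv hu hx hx0, e1, smul_smul]
  · rintro x hx y hy hGx hGy ⟨z, hz⟩
    obtain ⟨hmx, hux⟩ := hm0 x hx hGx
    obtain ⟨hmy, huy⟩ := hm0 y hy hGy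
    have e1 : m y = z * m x := by
      have := congrFun hz none
      rw [hnone y hy, Pi.smul_apply, hnone x hx] at this
      exact this
    have e2 : cL E (ret φ u y) = cL E (ret φ u x) := by
      have := hz
      rw [hG' y hy, hG' x hx, smul_smul, ← e1] at this
      exact add_left_cancel (smul_right_injective _ hmy this)
    have e3 : ret φ u y = ret φ u x := by
      have : cL E (ret φ u y - ret φ u x) = 0 := by rw [map_sub, e2, sub_self]
      exact sub_eq_zero.1 (cL_inj this)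
    refine ⟨Complex.arg (u y) + -Complex.arg (u x), ?_⟩
    rw [h.add _ _ x hx]
    change y = φ _ (ret φ u x)
    rw [← e3]
    exact (h.add_neg _ hy).symm
  · rintro x hx hGx v hv ⟨z, hz⟩
    obtain ⟨hmx, hux⟩ := hm0 x hx hGx
    obtain ⟨h1, h2⟩ := hloc x hx hux
    have hRs := h.contDiffAt_ret' hx (hus x hx) hux
    have hR : HasFDerivAt (ret' φ u x) (fderiv ℝ (ret' φ u x) x) x :=
      (hRs.differentiableAt (by simp)).hasFDerivAt
    have e1 : fderiv ℝ G x v = fderiv ℝ (fun y => m y • (c0 E + cL E (ret' φ u x y))) x v := by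
      refine fderiv_eq_of_eqOn (X := X) (hGs.contDiffAt.differentiableAt (by simp))
        (h1.differentiableAt (by simp)) ?_ hv
      filter_upwards [h2, self_mem_nhdsWithin] with y hy hyX
      rw [hy]; exact hG y hyX
    have h3 : HasFDerivAt (fun y => c0 E + cL E (ret' φ u x y))
        ((cL E).comp (fderiv ℝ (ret' φ u x) x)) x := ((cL E).hasFDerivAt.comp x hR).const_add _
    have hmd : HasFDerivAt m (fderiv ℝ m x) x :=
      ((hms x hx).differentiableAt (by simp)).hasFDerivAt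
    have h4 := hmd.smul h3
    have e2 : fderiv ℝ (fun y => m y • (c0 E + cL E (ret' φ u x y))) x v =
        m x • cL E (fderiv ℝ (ret' φ u x) x v) +
          (fderiv ℝ m x v) • (c0 E + cL E (ret' φ u x x)) := by
      have := h4.fderiv
      have e : (fun y => m y • (c0 E + cL E (ret' φ u x y))) =
        m • fun y => c0 E + cL E (ret' φ u x y) := rfl
      rw [e, this]
      rfl
    rw [e1, e2, hG' x hx, h.ret'_eq hx hux hux, smul_smul] at hz
    have e3 : fderiv ℝ m x v = z * m x := by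
      have := congrFun hz none
      simp only [Pi.add_apply, Pi.smul_apply, cL_none, c0_none, smul_eq_mul] at this
      simpa using this
    rw [e3] at hz
    have e4 : m x • cL E (fderiv ℝ (ret' φ u x) x v) = 0 := by
      have := sub_eq_zero.2 hz
      rw [add_sub_cancel_right] at this
      exact this
    have e5 : cL E (fderiv ℝ (ret' φ u x) x v) = 0 := (smul_eq_zero.1 e4).resolve_left hmx
    exact h.ker_ret' hx (hus x hx) hux hv (cL_inj e5)
  · intro x hx hxε h0
    have h1 : m x = 0 := by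
      have := congrFun h0 none
      rwa [hnone x hx] at this
    have h2 : u x ≠ 0 := by
      rintro h3
      rw [h3] at hxε
      simp only [norm_zero] at hxε
      nlinarith
    simp only [hm] at h1
    rcases mul_eq_zero.1 h1 with h3 | h3
    · have := lam_pos hxε
      exact this.ne' (by exact_mod_cast h3)
    · exact h2 h3

/-- equivariant embedding into the unit sphere of `ℂ^ι`, modulo the action an embedding into the
projective space. -/
structure Emb (X : Set E) (φ : ℝ → E → E) {ι : Type} [Fintype ι] (g : E → ι → ℂ) : Prop where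
  smooth : ∀ x ∈ X, ContDiffAt ℝ ∞ g x
  unit : ∀ x ∈ X, ∑ a, ‖g x a‖ ^ 2 = 1
  equi : ∀ x ∈ X, ∀ t : ℝ, g (φ t x) = Complex.exp (t * Complex.I) • g x
  sep : ∀ x ∈ X, ∀ y ∈ X, (∃ z : ℂ, g y = z • g x) → ∃ t, y = φ t x
  imm : ∀ x ∈ X, ∀ v ∈ Tan X x, (∃ z : ℂ, fderiv ℝ g x v = z • g x) → ∃ c : ℝ, v = c • gen φ x

theorem Piece.sum {I κ : Type} [Fintype I] [Fintype κ] {G : I → E → κ → ℂ}
    (hG : ∀ i, Piece X φ (G i)) (hc : ∀ x ∈ X, ∃ i, G i x ≠ 0) :
    ∃ g : E → (I × κ) → ℂ, Emb X φ g := by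
  classical
  set g₁ : E → (I × κ) → ℂ := fun x a => G a.1 x a.2 with hg₁
  have hg₁s : ContDiff ℝ ∞ g₁ := by
    rw [contDiff_pi]
    intro a
    have := (hG a.1).smooth
    rw [contDiff_pi] at this
    exact this a.2
  set q : E → ℝ := fun x => ∑ a, ‖g₁ x a‖ ^ 2 with hq
  have hqs : ContDiff ℝ ∞ q := by
    refine ContDiff.sum fun a _ => ?_
    exact (contDiff_norm_sq ℝ).comp (contDiff_pi.1 hg₁s a)
  have hqpos : ∀ x ∈ X, 0 < q x := by
    intro x hx
    obtain ⟨i, hi⟩ := hc x hx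
    obtain ⟨b, hb⟩ := Function.ne_iff.1 hi
    refine Finset.sum_pos' (fun a _ => by positivity) ⟨(i, b), Finset.mem_univ _, ?_⟩
    have : g₁ x (i, b) ≠ 0 := hb
    have := norm_pos_iff.2 this
    positivity
  set r : E → ℝ := fun x => (Real.sqrt (q x))⁻¹ with hr
  have hrs : ∀ x ∈ X, ContDiffAt ℝ ∞ r x := fun x hx =>
    (hqs.contDiffAt.sqrt (hqpos x hx).ne').inv (Real.sqrt_ne_zero'.2 (hqpos x hx))
  have hrpos : ∀ x ∈ X, 0 < r x := fun x hx => inv_pos.2 (Real.sqrt_pos.2 (hqpos x hx))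
  have hequi : ∀ x ∈ X, ∀ t : ℝ, g₁ (φ t x) = Complex.exp (t * Complex.I) • g₁ x := by
    intro x hx t
    funext a
    have := congrFun ((hG a.1).equi x hx t) a.2
    exact this
  refine ⟨fun x => r x • g₁ x, ⟨fun x hx => (hrs x hx).smul hg₁s.contDiffAt, ?_, ?_, ?_, ?_⟩⟩
  · intro x hx
    simp only [Pi.smul_apply, norm_smul, Real.norm_of_nonneg (hrpos x hx).le, mul_pow]
    rw [← Finset.mul_sum]
    have h1 : (r x) ^ 2 = (q x)⁻¹ := by
      simp only [hr]
      rw [inv_pow, Real.sq_sqrt (hqpos x hx).le]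
    rw [h1]
    exact inv_mul_cancel₀ (hqpos x hx).ne'
  · intro x hx t
    have h1 : q (φ t x) = q x := by
      simp only [hq, hequi x hx, Pi.smul_apply, smul_eq_mul, norm_mul,
        Complex.norm_exp_ofReal_mul_I, one_mul]
    simp only [hr, h1, hequi x hx]
    rw [smul_comm]
  · rintro x hx y hy ⟨z, hz⟩
    have hz' : g₁ y = ((r y)⁻¹ * (z * r x) : ℂ) • g₁ x := by
      have h1 : (r y : ℂ) ≠ 0 := by exact_mod_cast (hrpos y hy).ne'
      funext a
      have := congrFun hz a
      simp only [Pi.smul_apply, Complex.real_smul, smul_eq_mul] at this ⊢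
      have h2 : g₁ y a = (r y : ℂ)⁻¹ * ((r y : ℂ) * g₁ y a) := by
        rw [← mul_assoc, inv_mul_cancel₀ h1, one_mul]
      rw [h2, this]; push_cast; ring
    obtain ⟨i, hi⟩ := hc y hy
    have h1 : G i y = ((r y)⁻¹ * (z * r x) : ℂ) • G i x := by
      funext b
      exact congrFun hz' (i, b)
    have h2 : G i x ≠ 0 := by
      intro h0
      rw [h0, smul_zero] at h1
      exact hi h1
    exact (hG i).sep x hx y hy h2 hi ⟨_, h1⟩
  · rintro x hx v hv ⟨z, hz⟩
    obtain ⟨i, hi⟩ := hc x hx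
    have hrd : HasFDerivAt r (fderiv ℝ r x) x :=
      ((hrs x hx).differentiableAt (by simp)).hasFDerivAt
    have hgd : HasFDerivAt g₁ (fderiv ℝ g₁ x) x :=
      (hg₁s.contDiffAt.differentiableAt (by simp)).hasFDerivAt
    have e1 : fderiv ℝ (fun x => r x • g₁ x) x v =
        r x • fderiv ℝ g₁ x v + (fderiv ℝ r x v) • g₁ x := by
      have := (hrd.smul hgd).fderiv
      have e : (fun x => r x • g₁ x) = r • g₁ := rfl
      rw [e, this]; rfl
    rw [e1] at hz
    have hr0 : (r x : ℂ) ≠ 0 := by exact_mod_cast (hrpos x hx).ne'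
    have h2 : fderiv ℝ g₁ x v = (z - (r x : ℂ)⁻¹ * (fderiv ℝ r x v : ℝ)) • g₁ x := by
      funext a
      have := congrFun hz a
      simp only [Pi.smul_apply, Pi.add_apply, Complex.real_smul, smul_eq_mul] at this ⊢
      have h3 : fderiv ℝ g₁ x v a = (r x : ℂ)⁻¹ * ((r x : ℂ) * fderiv ℝ g₁ x v a) := by
        rw [← mul_assoc, inv_mul_cancel₀ hr0, one_mul]
      rw [h3, eq_sub_of_add_eq this]
      field_simp
    have h4 : fderiv ℝ (G i) x v = (z - (r x : ℂ)⁻¹ * (fderiv ℝ r x v : ℝ)) • G i x := by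
      have h5 : fderiv ℝ (G i) x v = fun b => fderiv ℝ g₁ x v (i, b) := by
        set L : ((I × κ) → ℂ) →L[ℝ] (κ → ℂ) :=
          ContinuousLinearMap.pi fun b => ContinuousLinearMap.proj (i, b) with hL
        have h6 : HasFDerivAt (G i) (L.comp (fderiv ℝ g₁ x)) x := L.hasFDerivAt.comp x hgd
        rw [h6.fderiv]; rfl
      rw [h5, h2]
      rfl
    exact (hG i).imm x hx hi v hv ⟨_, h4⟩

theorem Emb.reindex {ι κ : Type} [Fintype ι] [Fintype κ] {g : E → ι → ℂ} (h : Emb X φ g)
    (e : κ ≃ ι) : Emb X φ (fun x a => g x (e a)) := by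
  set L : (ι → ℂ) →L[ℝ] (κ → ℂ) := ContinuousLinearMap.pi fun b => ContinuousLinearMap.proj (e b)
    with hL
  have hz : ∀ (a b : ι → ℂ) (z : ℂ), (fun c => a (e c)) = z • (fun c => b (e c)) → a = z • b := by
    intro a b z hab
    funext c
    have := congrFun hab (e.symm c)
    simpa using this
  refine ⟨fun x hx => L.contDiff.contDiffAt.comp x (h.smooth x hx), ?_, ?_, ?_, ?_⟩
  · intro x hx
    rw [← h.unit x hx]
    exact e.sum_comp (fun a => ‖g x a‖ ^ 2)
  · intro x hx t
    funext a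
    exact congrFun (h.equi x hx t) (e a)
  · rintro x hx y hy ⟨z, hzz⟩
    exact h.sep x hx y hy ⟨z, hz _ _ _ hzz⟩
  · rintro x hx v hv ⟨z, hzz⟩
    refine h.imm x hx v hv ⟨z, hz _ _ _ ?_⟩
    have h6 : HasFDerivAt (fun x a => g x (e a)) (L.comp (fderiv ℝ g x)) x :=
      L.hasFDerivAt.comp x ((h.smooth x hx).differentiableAt (by simp)).hasFDerivAt
    rw [h6.fderiv] at hzz
    exact hzz

/-- **CM1: a compact submanifold with a smooth free circle action embeds equivariantly into the unit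
sphere of some `ℂ^m`.** -/
theorem exists_emb {n : ℕ} (h : Cir X φ) (hX : Clo n X) :
    ∃ (m : ℕ) (g : E → Fin m → ℂ), Emb X φ g := by
  classical
  have h1 : ∀ x ∈ X, ∃ G : E → (Option (Fin (finrank ℝ E)) → ℂ), Piece X φ G ∧ G x ≠ 0 := by
    intro x hx
    obtain ⟨ρ, hρ, hρ0⟩ := exists_avg_ne h hx
    have hpos : 0 < ‖avg φ ρ x‖ ^ 2 := by
      have := norm_pos_iff.2 hρ0
      positivity
    obtain ⟨G, hG, hG0⟩ := exists_piece h hX.sub hX.compact.isClosed (u := avg φ ρ)
      (fun x hx => contDiffAt_avg h hρ hx) (fun x hx t => avg_equi h ρ hx t)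
      (ε := ‖avg φ ρ x‖ ^ 2 / 2) (by positivity)
    exact ⟨G, hG, hG0 x hx (by linarith)⟩
  choose! G hG hG0 using h1
  obtain ⟨t, ht, htX⟩ := hX.compact.elim_nhds_subcover (fun x => {y | G x y ≠ 0}) (fun x hx =>
    (isOpen_ne_fun (hG x hx).smooth.continuous continuous_const).mem_nhds (hG0 x hx))
  obtain ⟨g, hg⟩ := Piece.sum (X := X) (φ := φ) (I := t) (G := fun i => G i.1)
    (fun i => hG i.1 (ht i.1 i.2)) (fun x hx => by
      obtain ⟨i, hi, hxi⟩ := mem_iUnion₂.1 (htX hx)
      exact ⟨⟨i, hi⟩, hxi⟩)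
  exact ⟨Fintype.card (t × Option (Fin (finrank ℝ E))), _,
    hg.reindex (Fintype.equivFin (t × Option (Fin (finrank ℝ E)))).symm⟩

end Crest.Agent.R208.CM
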