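import Crest.Agent.R208.CM1c

/-! Row 208, block CM (helper971), part CM2: the quotient of a compact submanifold by a smooth free
circle action as a closed submanifold of a space of matrices. -/

set_option autoImplicit false
set_option linter.unusedSectionVars false
set_option linter.unusedVariables false

open Set Filter Topology Module MeasureTheory
open scoped ContDiff RealInnerProductSpace ComplexConjugate
open Crest.Agent.R208.F Crest.Agent.R208.FI

noncomputable section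

namespace Crest.Agent.R208.CM

local notation "π" => Real.pi

/-! ### general lemmas on tangent spaces and sections -/

section gen

variable {E E' : Type*} [NormedAddCommGroup E] [NormedSpace ℝ E] [NormedAddCommGroup E']
  [NormedSpace ℝ E'] {X : Set E} {Y : Set E'}

/-- the tangent space of a set at `g x` in the presence of a local section of `g` -/
theorem Tan_eq_map_of_section {g : E → E'} {x : E} (hx : x ∈ X) (hg : DifferentiableAt ℝ g x)
    (hXY : MapsTo g X Y) {σ : E' → E} {O' : Set E'} (hO' : O' ∈ 𝓝 (g x))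
    (hσ : DifferentiableAt ℝ σ (g x)) (hσx : σ (g x) = x) (hσX : ∀ y ∈ Y ∩ O', σ y ∈ X)
    (hs : ∀ y ∈ Y ∩ O', g (σ y) = y) :
    Tan Y (g x) = (Tan X x).map (fderiv ℝ g x : E →ₗ[ℝ] E') := by
  apply le_antisymm
  · rw [Tan, Submodule.span_le]
    rintro v ⟨γ, hγ0, hγ, hγS⟩
    have hσd : HasFDerivAt σ (fderiv ℝ σ (g x)) (γ 0) := by rw [hγ0]; exact hσ.hasFDerivAt
    have h1 : HasDerivAt (fun t => σ (γ t)) (fderiv ℝ σ (g x) v) 0 := hσd.comp_hasDerivAt 0 hγ
    have hO : ∀ᶠ t in 𝓝 (0 : ℝ), γ t ∈ O' := by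
      have : Tendsto γ (𝓝 0) (𝓝 (g x)) := by rw [← hγ0]; exact hγ.continuousAt
      exact this.eventually hO'
    have h2 : fderiv ℝ σ (g x) v ∈ Tan X x := by
      have := mem_Tan_of_curve (X := X) h1
        (by filter_upwards [hO, hγS] with t ht htS using hσX _ ⟨htS, ht⟩)
      rw [hγ0, hσx] at this
      exact this
    refine ⟨_, h2, ?_⟩
    have h3 : HasFDerivAt g (fderiv ℝ g x) (σ (γ 0)) := by
      rw [hγ0, hσx]; exact hg.hasFDerivAt
    have h4 : HasDerivAt (fun t => g (σ (γ t))) (fderiv ℝ g x (fderiv ℝ σ (g x) v)) 0 :=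
      HasFDerivAt.comp_hasDerivAt (l := g) (f := fun t => σ (γ t)) (0 : ℝ) h3 h1
    have h5 : γ =ᶠ[𝓝 0] fun t => g (σ (γ t)) := by
      filter_upwards [hO, hγS] with t ht htS using (hs _ ⟨htS, ht⟩).symm
    exact (h4.congr_of_eventuallyEq h5).unique hγ
  · rintro _ ⟨ξ, hξ, rfl⟩
    exact fderiv_mapsTo_Tan hg (fun z hz => hXY hz) hξ

end gen

variable {E : Type} [NormedAddCommGroup E] [NormedSpace ℝ E] [FiniteDimensional ℝ E]
  {X : Set E} {φ : ℝ → E → E} {m : ℕ} {g : E → Fin m → ℂ}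

/-- the matrices -/
abbrev MM (m : ℕ) : Type := Fin m → Fin m → ℂ

/-- the matrix of the orthogonal projection onto the complex line through `g x` -/
def jj (g : E → Fin m → ℂ) (x : E) : MM m := fun a b => g x a * conj (g x b)

/-- the quotient -/
def Quo (X : Set E) (g : E → Fin m → ℂ) : Set (MM m) := jj g '' X

theorem jj_mem {x : E} (hx : x ∈ X) : jj g x ∈ Quo X g := ⟨x, hx, rfl⟩

theorem contDiffAt_jj_of {x : E} {k : WithTop ℕ∞} (h : ContDiffAt ℝ k g x) :
    ContDiffAt ℝ k (jj g) x := by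
  rw [contDiffAt_pi]
  intro a
  rw [contDiffAt_pi]
  intro b
  have ha := contDiffAt_pi.1 h a
  have hb := contDiffAt_pi.1 h b
  exact ha.mul (Complex.conjCLE.contDiff.contDiffAt.comp x hb)

namespace Emb

theorem contDiffAt_jj (hg : Emb X φ g) {x : E} (hx : x ∈ X) : ContDiffAt ℝ ∞ (jj g) x :=
  contDiffAt_jj_of (hg.smooth x hx)

theorem differentiableAt_jj (hg : Emb X φ g) {x : E} (hx : x ∈ X) :
    DifferentiableAt ℝ (jj g) x := (hg.contDiffAt_jj hx).differentiableAt (by simp)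

theorem jj_act (hg : Emb X φ g) {x : E} (hx : x ∈ X) (t : ℝ) : jj g (φ t x) = jj g x := by
  funext a b
  simp only [jj, hg.equi x hx, Pi.smul_apply, smul_eq_mul, map_mul]
  have h1 : Complex.exp (t * Complex.I) * conj (Complex.exp (t * Complex.I)) = 1 := by
    rw [Complex.mul_conj, Complex.normSq_eq_norm_sq, Complex.norm_exp_ofReal_mul_I]
    simp
  calc Complex.exp (t * Complex.I) * g x a * (conj (Complex.exp (t * Complex.I)) * conj (g x b))
      = (Complex.exp (t * Complex.I) * conj (Complex.exp (t * Complex.I))) *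
        (g x a * conj (g x b)) := by ring
    _ = _ := by rw [h1, one_mul]

theorem sum_eq (hg : Emb X φ g) {x : E} (hx : x ∈ X) : ∑ b, conj (g x b) * g x b = 1 := by
  have h1 : ∀ b, conj (g x b) * g x b = ((‖g x b‖ ^ 2 : ℝ) : ℂ) := fun b => by
    rw [mul_comm, Complex.mul_conj, Complex.normSq_eq_norm_sq]
  simp only [h1]
  rw [← Complex.ofReal_sum, hg.unit x hx, Complex.ofReal_one]

theorem jj_eq_iff (hg : Emb X φ g) {x y : E} (hx : x ∈ X) (hy : y ∈ X) :
    jj g x = jj g y ↔ ∃ t, y = φ t x := by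
  constructor
  · intro e
    refine hg.sep x hx y hy ⟨∑ b, conj (g x b) * g y b, ?_⟩
    funext a
    have h1 : ∀ b, g x a * conj (g x b) * g y b = g y a * conj (g y b) * g y b := fun b => by
      have := congrFun (congrFun e a) b
      simp only [jj] at this
      rw [this]
    have h2 : ∑ b, g x a * conj (g x b) * g y b = g y a := by
      simp only [h1, mul_assoc]
      rw [← Finset.mul_sum, hg.sum_eq hy, mul_one]
    rw [← h2, Pi.smul_apply, smul_eq_mul, Finset.sum_mul]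
    exact Finset.sum_congr rfl fun b _ => by ring
  · rintro ⟨t, rfl⟩
    exact (hg.jj_act hx t).symm

/-- the kernel of `D jj` on the tangent space -/
theorem ker_jj (hg : Emb X φ g) (h : Cir X φ) {x : E} (hx : x ∈ X) {v : E} (hv : v ∈ Tan X x) :
    fderiv ℝ (jj g) x v = 0 ↔ ∃ c : ℝ, v = c • gen φ x := by
  have hgd : HasFDerivAt g (fderiv ℝ g x) x :=
    ((hg.smooth x hx).differentiableAt (by simp)).hasFDerivAt
  constructor
  · intro h0
    refine hg.imm x hx v hv ⟨-∑ b, conj (fderiv ℝ g x v b) * g x b, ?_⟩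
    funext a
    have hga : ∀ a, HasFDerivAt (fun y => g y a)
        ((ContinuousLinearMap.proj (R := ℝ) (φ := fun _ : Fin m => ℂ) a).comp (fderiv ℝ g x)) x :=
      fun a => (ContinuousLinearMap.proj (R := ℝ) (φ := fun _ : Fin m => ℂ) a).hasFDerivAt.comp x hgd
    have h1 : ∀ b, fderiv ℝ g x v a * conj (g x b) + g x a * conj (fderiv ℝ g x v b) = 0 := by
      intro b
      have hb : HasFDerivAt (fun y => conj (g y b))
          ((Complex.conjCLE : ℂ →L[ℝ] ℂ).comp
            ((ContinuousLinearMap.proj (R := ℝ) (φ := fun _ : Fin m => ℂ) b).comp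
              (fderiv ℝ g x))) x :=
        Complex.conjCLE.hasFDerivAt.comp x (hga b)
      have h2 := (hga a).mul hb
      have h3 : HasFDerivAt (fun y => jj g y a b)
          (((ContinuousLinearMap.proj (R := ℝ) (φ := fun _ : Fin m => ℂ) b).comp
            (ContinuousLinearMap.proj (R := ℝ) (φ := fun _ : Fin m => (Fin m → ℂ)) a)).comp
              (fderiv ℝ (jj g) x)) x :=
        ((ContinuousLinearMap.proj (R := ℝ) (φ := fun _ : Fin m => ℂ) b).comp
          (ContinuousLinearMap.proj (R := ℝ) (φ := fun _ : Fin m => (Fin m → ℂ))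
            a)).hasFDerivAt.comp x (hg.differentiableAt_jj hx).hasFDerivAt
      have h4 := congrArg (fun L : E →L[ℝ] ℂ => L v) (h2.unique h3)
      have h5 : g x a * conj (fderiv ℝ g x v b) + conj (g x b) * fderiv ℝ g x v a =
          fderiv ℝ (jj g) x v a b := h4
      rw [h0] at h5
      have h6 : g x a * conj (fderiv ℝ g x v b) + conj (g x b) * fderiv ℝ g x v a = 0 := h5
      rw [← h6]; ring
    have h2 : ∑ b, (fderiv ℝ g x v a * conj (g x b) + g x a * conj (fderiv ℝ g x v b)) * g x b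
        = 0 := Finset.sum_eq_zero fun b _ => by rw [h1 b, zero_mul]
    have h3 : ∑ b, (fderiv ℝ g x v a * conj (g x b) + g x a * conj (fderiv ℝ g x v b)) * g x b
        = fderiv ℝ g x v a * ∑ b, conj (g x b) * g x b +
          g x a * ∑ b, conj (fderiv ℝ g x v b) * g x b := by
      rw [Finset.mul_sum, Finset.mul_sum, ← Finset.sum_add_distrib]
      exact Finset.sum_congr rfl fun b _ => by ring
    rw [h3, hg.sum_eq hx, mul_one] at h2
    rw [Pi.smul_apply, smul_eq_mul]
    linear_combination h2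
  · rintro ⟨c, rfl⟩
    rw [map_smul]
    have h1 := h.hasDerivAt hx 0
    rw [h.zero x hx] at h1
    have h2 : HasFDerivAt (jj g) (fderiv ℝ (jj g) x) (φ 0 x) := by
      rw [h.zero x hx]; exact (hg.differentiableAt_jj hx).hasFDerivAt
    have h3 : HasDerivAt (fun t => jj g (φ t x)) (fderiv ℝ (jj g) x (gen φ x)) 0 :=
      HasFDerivAt.comp_hasDerivAt (l := jj g) (f := fun t => φ t x) (0 : ℝ) h2 h1
    have h4 : (fun t => jj g (φ t x)) = fun _ => jj g x := by
      funext t; exact hg.jj_act hx t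
    rw [h4] at h3
    rw [h3.unique (hasDerivAt_const _ _), smul_zero]

/-! ### slices -/

/-- the pairing with `g x` -/
def hc (g : E → Fin m → ℂ) (x y : E) : ℂ := ∑ a, conj (g x a) * g y a

theorem contDiffAt_hc (hg : Emb X φ g) (x : E) {y : E} (hy : y ∈ X) :
    ContDiffAt ℝ ∞ (hc g x) y :=
  ContDiffAt.sum fun a _ => contDiffAt_const.mul (contDiffAt_pi.1 (hg.smooth y hy) a)

theorem hc_act (hg : Emb X φ g) (x : E) {y : E} (hy : y ∈ X) (t : ℝ) :
    hc g x (φ t y) = Complex.exp (t * Complex.I) * hc g x y := by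
  simp only [hc, hg.equi y hy, Pi.smul_apply, smul_eq_mul]
  rw [Finset.mul_sum]
  exact Finset.sum_congr rfl fun a _ => by ring

theorem hc_self (hg : Emb X φ g) {x : E} (hx : x ∈ X) : hc g x x = 1 := hg.sum_eq hx

/-- the slice function -/
def hs (g : E → Fin m → ℂ) (x y : E) : ℝ := (hc g x y).im

theorem contDiffAt_hs (hg : Emb X φ g) (x : E) {y : E} (hy : y ∈ X) :
    ContDiffAt ℝ ∞ (hs g x) y := Complex.imCLM.contDiff.contDiffAt.comp y (hg.contDiffAt_hc x hy)

theorem hs_self (hg : Emb X φ g) {x : E} (hx : x ∈ X) : hs g x x = 0 := by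
  rw [hs, hg.hc_self hx, Complex.one_im]

theorem fderiv_hs_gen (hg : Emb X φ g) (h : Cir X φ) {x : E} (hx : x ∈ X) :
    fderiv ℝ (hs g x) x (gen φ x) = 1 := by
  have h1 := h.hasDerivAt hx 0
  rw [h.zero x hx] at h1
  have h2 : HasFDerivAt (hs g x) (fderiv ℝ (hs g x) x) (φ 0 x) := by
    rw [h.zero x hx]; exact ((hg.contDiffAt_hs x hx).differentiableAt (by simp)).hasFDerivAt
  have h3 : HasDerivAt (fun t => hs g x (φ t x)) (fderiv ℝ (hs g x) x (gen φ x)) 0 :=
    HasFDerivAt.comp_hasDerivAt (l := hs g x) (f := fun t => φ t x) (0 : ℝ) h2 h1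
  have h4 : (fun t => hs g x (φ t x)) = Real.sin := by
    funext t
    rw [hs, hg.hc_act x hx, hg.hc_self hx, mul_one, Complex.exp_ofReal_mul_I_im]
  rw [h4] at h3
  have := h3.unique (Real.hasDerivAt_sin 0)
  rw [this, Real.cos_zero]

theorem hop (hg : Emb X φ g) (h : Cir X φ) (hXc : IsCompact X) {x : E} (hx : x ∈ X)
    (O' : Set E) (hO' : IsOpen O') (hxO : x ∈ O') :
    ∀ᶠ y in 𝓝[Quo X g] (jj g x), ∃ z ∈ {z ∈ X | hs g x z = 0} ∩ O', jj g z = y := by
  set K : Set E := {z ∈ X | hs g x z = 0 ∧ 0 ≤ (hc g x z).re} with hK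
  have hcc : ContinuousOn (hc g x) X := fun z hz =>
    (hg.contDiffAt_hc x hz).continuousAt.continuousWithinAt
  have hKc : IsCompact K := by
    have h1 : ContinuousOn (fun z => (hc g x z)) X := hcc
    have h2 : K = X ∩ (hc g x) ⁻¹' {w : ℂ | w.im = 0 ∧ 0 ≤ w.re} := rfl
    rw [h2]
    refine hXc.of_isClosed_subset (hcc.preimage_isClosed_of_isClosed hXc.isClosed ?_)
      inter_subset_left
    exact (isClosed_eq Complex.continuous_im continuous_const).inter
      (isClosed_le continuous_const Complex.continuous_re)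
  have hKO : IsCompact (K \ O') := hKc.diff hO'
  have himg : IsCompact (jj g '' (K \ O')) := hKO.image_of_continuousOn fun z hz =>
    (hg.contDiffAt_jj hz.1.1).continuousAt.continuousWithinAt
  have hnot : jj g x ∉ jj g '' (K \ O') := by
    rintro ⟨z, ⟨⟨hzX, hz0, hz1⟩, hzO⟩, hz⟩
    apply hzO
    obtain ⟨t, rfl⟩ := (hg.jj_eq_iff hx hzX).1 hz.symm
    have e1 : hc g x (φ t x) = Complex.exp (t * Complex.I) := by
      rw [hg.hc_act x hx, hg.hc_self hx, mul_one]
    have e2 : Real.sin t = 0 := by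
      rw [← Complex.exp_ofReal_mul_I_im, ← e1]; exact hz0
    have e3 : 0 ≤ Real.cos t := by
      rw [← Complex.exp_ofReal_mul_I_re, ← e1]; exact hz1
    have e4 : Real.cos t = 1 := by
      have := Real.sin_sq_add_cos_sq t
      rw [e2] at this
      nlinarith
    obtain ⟨k, hk⟩ := (Real.cos_eq_one_iff t).1 e4
    have : φ t x = x := by
      rw [← hk, mul_comm]; exact h.int k hx
    rw [this]; exact hxO
  have hN : (jj g '' (K \ O'))ᶜ ∈ 𝓝 (jj g x) := himg.isClosed.isOpen_compl.mem_nhds hnot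
  filter_upwards [nhdsWithin_le_nhds hN, self_mem_nhdsWithin] with y hy1 hy2
  obtain ⟨w, hw, rfl⟩ := hy2
  set θ : ℝ := -Complex.arg (hc g x w) with hθ
  have e0 : hc g x (φ θ w) = (‖hc g x w‖ : ℂ) := by
    rw [hg.hc_act x hw]
    conv_lhs => rw [← Complex.norm_mul_exp_arg_mul_I (hc g x w)]
    rw [mul_left_comm, ← Complex.exp_add, hθ]
    have : ((-(hc g x w).arg : ℝ) : ℂ) * Complex.I + ((hc g x w).arg : ℂ) * Complex.I = 0 := by
      push_cast; ring
    rw [this, Complex.exp_zero, mul_one]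
  have hzK : φ θ w ∈ K := by
    refine ⟨h.maps θ hw, ?_, ?_⟩
    · rw [hs, e0, Complex.ofReal_im]
    · rw [e0, Complex.ofReal_re]; exact norm_nonneg _
  have hj : jj g (φ θ w) = jj g w := hg.jj_act hw θ
  have hzO : φ θ w ∈ O' := by
    by_contra hc'
    exact hy1 ⟨_, ⟨hzK, hc'⟩, hj⟩
  exact ⟨_, ⟨⟨hzK.1, hzK.2.1⟩, hzO⟩, hj⟩

theorem hi (hg : Emb X φ g) (h : Cir X φ) {x : E} (hx : x ∈ X) (v : E)
    (hv : v ∈ Tan {z ∈ X | hs g x z = 0} x) (h0 : fderiv ℝ (jj g) x v = 0) : v = 0 := by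
  have h1 := FV.Tan_le_ker (X := X) (g := hs g x)
    ((hg.contDiffAt_hs x hx).differentiableAt (by simp)) hv
  obtain ⟨h2, h3⟩ := h1
  obtain ⟨c, rfl⟩ := (hg.ker_jj h hx h2).1 h0
  have h4 : fderiv ℝ (hs g x) x (c • gen φ x) = 0 := h3
  rw [map_smul, hg.fderiv_hs_gen h hx, smul_eq_mul, mul_one] at h4
  rw [h4, zero_smul]

variable {n : ℕ}

theorem loc_slice (hg : Emb X φ g) (h : Cir X φ) (hX : Sub (n + 1) X) {x : E} (hx : x ∈ X) :
    ∃ (f : Eu n → E) (W : Set (Eu n)) (O : Set E) (ℓ : E → Eu n),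
      Loc {z ∈ X | hs g x z = 0} f W O ℓ ∧ x ∈ O := by
  obtain ⟨f, W, O, ℓ, h1, h2⟩ := hX.exists_loc hx
  have h3 := h1.level (g := hs g x) (fun z hz => hg.contDiffAt_hs x hz) hx h2 (hg.hs_self hx)
    (fun y => ⟨y • gen φ x, (Tan X x).smul_mem _ (h.gen_mem hx), by
      rw [map_smul, hg.fderiv_hs_gen h hx, smul_eq_mul, mul_one]⟩)
  have h4 : n + 1 - finrank ℝ ℝ = n := by rw [finrank_self]; omega
  rw [h4] at h3
  exact h3

/-- **the quotient is a submanifold** -/
theorem sub_Quo (hg : Emb X φ g) (h : Cir X φ) (hX : Clo (n + 1) X) : Sub n (Quo X g) := by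
  refine Sub.of_loc' fun z hz => ?_
  obtain ⟨x, hx, rfl⟩ := hz
  obtain ⟨f, W, O, ℓ, h1, h2⟩ := hg.loc_slice h hX.sub hx
  obtain ⟨U', O', ℓ', h3, h4, -, -⟩ := FV.Loc.image h1 (g := jj g) (Y := Quo X g)
    (fun z hz => hg.contDiffAt_jj hz.1) (x := x) ⟨hx, hg.hs_self hx⟩ h2
    (fun v hv h0 => hg.hi h hx v hv h0) (fun z hz => jj_mem hz.1)
    (fun O' hO' hxO => hg.hop h hX.compact hx O' hO' hxO)
  exact ⟨_, _, _, _, h3, h4⟩

theorem isCompact_Quo (hg : Emb X φ g) (hX : IsCompact X) : IsCompact (Quo X g) :=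
  hX.image_of_continuousOn fun z hz => (hg.contDiffAt_jj hz).continuousAt.continuousWithinAt

/-- **CM2: the quotient of a closed manifold by a smooth free circle action is a closed
manifold.** -/
theorem clo_Quo (hg : Emb X φ g) (h : Cir X φ) (hX : Clo (n + 1) X) : Clo n (Quo X g) :=
  (hg.sub_Quo h hX).clo (hg.isCompact_Quo hX.compact)

/-- **Smooth local sections of `X → Quo X g` through every point.** -/
theorem exists_sec (hg : Emb X φ g) (h : Cir X φ) (hX : Clo (n + 1) X) {x : E} (hx : x ∈ X) :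
    ∃ (σ : MM m → E) (O' : Set (MM m)), IsOpen O' ∧ jj g x ∈ O' ∧
      ContDiffOn ℝ ∞ σ O' ∧ σ (jj g x) = x ∧ (∀ y ∈ O', σ y ∈ X) ∧
      (∀ y ∈ Quo X g ∩ O', jj g (σ y) = y) := by
  obtain ⟨f, W, O, ℓ, h1, h2⟩ := hg.loc_slice h hX.sub hx
  obtain ⟨σ, O', a1, a2, a3, a4, a5, a6, -⟩ := FV.exists_section h1 (g := jj g) (Y := Quo X g)
    (fun z hz => hg.contDiffAt_jj hz.1) (x := x) ⟨hx, hg.hs_self hx⟩ h2
    (fun v hv h0 => hg.hi h hx v hv h0) (fun z hz => jj_mem hz.1)
    (fun O' hO' hxO => hg.hop h hX.compact hx O' hO' hxO)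
  exact ⟨σ, O', a1, a2, a3, a4, fun y hy => (a5 y hy).1, a6⟩

/-- the tangent space of the quotient -/
theorem Tan_Quo (hg : Emb X φ g) (h : Cir X φ) (hX : Clo (n + 1) X) {x : E} (hx : x ∈ X) :
    Tan (Quo X g) (jj g x) = (Tan X x).map (fderiv ℝ (jj g) x : E →ₗ[ℝ] MM m) := by
  obtain ⟨σ, O', a1, a2, a3, a4, a5, a6⟩ := hg.exists_sec h hX hx
  exact Tan_eq_map_of_section hx (hg.differentiableAt_jj hx) (fun z hz => jj_mem hz)
    (a1.mem_nhds a2) ((a3.contDiffAt (a1.mem_nhds a2)).differentiableAt (by simp)) a4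
    (fun y hy => a5 y hy.2) a6

end Emb

end Crest.Agent.R208.CM
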