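import Crest.Agent.R208.FI1c

/-! Row 208, block F2 (helper349), part FI1d: **Stokes** on closed submanifolds. -/

set_option autoImplicit false
set_option linter.unusedSectionVars false
set_option linter.unusedVariables false

open Set Filter Topology Module MeasureTheory MeasureTheory.Measure
open scoped ContDiff
open Crest.Agent.R208.F

noncomputable section

namespace Crest.Agent.R208.FI

variable {E : Type*} [NormedAddCommGroup E] [NormedSpace ℝ E] [FiniteDimensional ℝ E]
  {n : ℕ} {X : Set E} {o om om' β : E → Ext E}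
  {f : Eu n → E} {V : Set (Eu n)}

/-- the sign of the orientation is constant on a preconnected chart domain. -/
theorem Chart.exists_sign (hf : Chart n X f V) (ho : Ori n X o) (hV : IsPreconnected V) :
    ∃ ε : ℝ, ∀ u ∈ V, Real.sign (top n (pull f o u)) = ε := by
  rcases V.eq_empty_or_nonempty with rfl | ⟨u0, hu0⟩
  · exact ⟨0, by simp⟩
  refine ⟨Real.sign (top n (pull f o u0)), fun u hu => ?_⟩
  have hc : ContinuousOn (fun u => top n (pull f o u)) V :=
    continuous_top.comp_continuousOn (hf.continuousOn_pull ho.cont)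
  have hne : ∀ u ∈ V, top n (pull f o u) ≠ 0 := fun u hu => hf.top_ne_zero ho hu
  have himg : IsPreconnected ((fun u => top n (pull f o u)) '' V) := hV.image _ hc
  have hord := himg.ordConnected
  by_contra hcon
  have h1 : (top n (pull f o u)) ∈ (fun u => top n (pull f o u)) '' V := ⟨u, hu, rfl⟩
  have h2 : (top n (pull f o u0)) ∈ (fun u => top n (pull f o u)) '' V := ⟨u0, hu0, rfl⟩
  have h3 : (0 : ℝ) ∉ (fun u => top n (pull f o u)) '' V := by
    rintro ⟨v, hv, hv0⟩; exact hne v hv hv0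
  rcases lt_or_gt_of_ne (hne u hu) with h | h <;> rcases lt_or_gt_of_ne (hne u0 hu0) with h' | h'
  · rw [Real.sign_of_neg h, Real.sign_of_neg h'] at hcon; exact hcon rfl
  · exact h3 (hord.out h1 h2 ⟨h.le, h'.le⟩)
  · exact h3 (hord.out h2 h1 ⟨h'.le, h.le⟩)
  · rw [Real.sign_of_pos h, Real.sign_of_pos h'] at hcon; exact hcon rfl

/-- extension by zero of the pull-back of a form with compact support in a chart -/
theorem Chart.stokes_aux (hf : Chart n X f V) (hβ : ∀ u ∈ V, ContDiffAt ℝ 1 β (f u))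
    {K : Set (Eu n)} (hK : IsCompact K) (hKV : K ⊆ V) (h0 : ∀ u ∈ V, u ∉ K → β =ᶠ[𝓝 (f u)] 0) :
    ∫ u in V, top n (pull f (Crest.Agent.R208.F.d β) u) = 0 := by
  classical
  set b : Eu n → Ext (Eu n) := V.indicator (pull f β) with hb
  have hbV : ∀ u ∈ V, b =ᶠ[𝓝 u] pull f β := by
    intro u hu
    filter_upwards [hf.isOpen.mem_nhds hu] with v hv
    rw [hb, indicator_of_mem hv]
  have hb0 : ∀ u, u ∉ K → b =ᶠ[𝓝 u] 0 := by
    intro u hu
    by_cases huV : u ∈ V
    · have h1 : ∀ᶠ v in 𝓝 u, v ∈ V ∧ v ∉ K :=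
        inter_mem (hf.isOpen.mem_nhds huV) (hK.isClosed.isOpen_compl.mem_nhds hu)
      filter_upwards [h1] with v hv
      rw [hb, indicator_of_mem hv.1, pull, (h0 v hv.1 hv.2).eq_of_nhds]
      simp
    · have h1 : ∀ᶠ v in 𝓝 u, v ∉ K := hK.isClosed.isOpen_compl.mem_nhds hu
      filter_upwards [h1] with v hv
      by_cases hvV : v ∈ V
      · rw [hb, indicator_of_mem hvV, pull, (h0 v hvV hv).eq_of_nhds]
        simp
      · rw [hb, indicator_of_notMem hvV]; rfl
  have hbC : ContDiff ℝ 1 b := by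
    rw [contDiff_iff_contDiffAt]
    intro u
    by_cases hu : u ∈ V
    · have h1 : ContDiffAt ℝ 1 (pull f β) u :=
        contDiffAt_pull (n := 2) ((hf.contDiffAt hu).of_le (by norm_cast))
          (by norm_num) (hβ u hu)
      exact h1.congr_of_eventuallyEq (hbV u hu)
    · have hu' : u ∉ K := fun h => hu (hKV h)
      exact contDiffAt_const.congr_of_eventuallyEq (hb0 u hu')
  have hbs : HasCompactSupport b := by
    refine HasCompactSupport.intro hK fun u hu => (hb0 u hu).eq_of_nhds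
  have h2 : ∫ u in V, top n (pull f (Crest.Agent.R208.F.d β) u)
      = ∫ u in V, top n (Crest.Agent.R208.F.d b u) := by
    refine setIntegral_congr_fun hf.isOpen.measurableSet fun u hu => ?_
    change top n (pull f (Crest.Agent.R208.F.d β) u) = top n (Crest.Agent.R208.F.d b u)
    rw [d_congr (hbV u hu), d_pull ((hf.contDiffAt hu).of_le (by norm_cast))
      ((hβ u hu).differentiableAt (by norm_num))]
  rw [h2, setIntegral_eq_integral_of_forall_compl_eq_zero]
  · exact integral_functional_d_eq_zero volume hbC hbs (top n)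
  · intro u hu
    have hu' : u ∉ K := fun h => hu (hKV h)
    rw [d_congr (hb0 u hu')]
    have : Crest.Agent.R208.F.d (0 : Eu n → Ext (Eu n)) u = 0 := d_const 0 u
    rw [this, map_zero]

theorem Chart.continuousOn_inv (hf : Chart n X f V) :
    ContinuousOn (Function.invFunOn f V) (f '' V) := by
  rintro _ ⟨u, hu, rfl⟩
  obtain ⟨O, ℓ, hO, hxO, hℓ, hℓV, hℓx, hℓS⟩ := exists_coord hf hu
  have hinv : ∀ v ∈ V, Function.invFunOn f V (f v) = v := fun v hv =>
    hf.injOn (Function.invFunOn_mem ⟨v, hv, rfl⟩) hv (Function.invFunOn_eq ⟨v, hv, rfl⟩)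
  have h3 : ContinuousWithinAt ℓ (f '' V) (f u) :=
    (hℓ.contDiffAt (hO.mem_nhds hxO)).continuousAt.continuousWithinAt
  refine h3.congr_of_eventuallyEq ?_ ?_
  · filter_upwards [self_mem_nhdsWithin, nhdsWithin_le_nhds (hO.mem_nhds hxO)] with q hq hqO
    have h4 := hℓS q hqO (hf.image_subset hq)
    conv_lhs => rw [← h4]
    exact hinv _ (hℓV q hqO)
  · rw [hinv u hu, hℓx]

/-- Stokes for a form supported in a chart. -/
theorem stokes_chart (hX : Clo n X) (ho : Ori n X o) (hf : Chart n X f V) (hV : IsPreconnected V)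
    (hβ : ∀ x ∈ X, ContDiffAt ℝ 1 β x) {U : Set E} (hU : IsOpen U) (hUX : f '' V = X ∩ U)
    (hs : tsupport β ⊆ U) : J n X o (Crest.Agent.R208.F.d β) = 0 := by
  have hinv : ∀ v ∈ V, Function.invFunOn f V (f v) = v := fun v hv =>
    hf.injOn (Function.invFunOn_mem ⟨v, hv, rfl⟩) hv (Function.invFunOn_eq ⟨v, hv, rfl⟩)
  have hC : IsCompact (X ∩ tsupport β) := hX.compact.inter_right (isClosed_tsupport β)
  have hCV : X ∩ tsupport β ⊆ f '' V := by rw [hUX]; exact inter_subset_inter_right _ hs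
  set K := Function.invFunOn f V '' (X ∩ tsupport β) with hKdef
  have hK : IsCompact K := hC.image_of_continuousOn (hf.continuousOn_inv.mono hCV)
  have hKV : K ⊆ V := by
    rintro _ ⟨x, hx, rfl⟩
    exact Function.invFunOn_mem (hCV hx)
  have h0 : ∀ u ∈ V, u ∉ K → β =ᶠ[𝓝 (f u)] 0 := by
    intro u hu huK
    refine notMem_tsupport_iff_eventuallyEq.1 fun h => huK ⟨f u, ⟨hf.mem hu, h⟩, hinv u hu⟩
  rw [J_eq_chart hX hf]
  · obtain ⟨ε, hε⟩ := hf.exists_sign ho hV
    have h1 : ∫ u in V, top n (pull f (Crest.Agent.R208.F.d β) u) * Real.sign (top n (pull f o u))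
        = ∫ u in V, top n (pull f (Crest.Agent.R208.F.d β) u) * ε :=
      setIntegral_congr_fun hf.isOpen.measurableSet fun u hu => by
        simp only [hε u hu]
    rw [h1, integral_mul_const, hf.stokes_aux (fun u hu => hβ _ (hf.mem hu)) hK hKV h0, zero_mul]
  · intro x hx hxV
    have hxU : x ∉ tsupport β := fun h => hxV (by rw [hUX]; exact ⟨hx, hs h⟩)
    rw [d_congr (notMem_tsupport_iff_eventuallyEq.1 hxU)]
    have : Crest.Agent.R208.F.d (0 : E → Ext E) x = 0 := d_const 0 x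
    rw [this]; simp

/-- charts with preconnected domain around any point -/
theorem Clo.exists_chart (hX : Clo n X) {x : E} (hx : x ∈ X) :
    ∃ (f : Eu n → E) (V : Set (Eu n)) (U : Set E), Chart n X f V ∧ IsPreconnected V ∧ IsOpen U ∧
      x ∈ U ∧ f '' V = X ∩ U := by
  obtain ⟨f, V, hf, u, hu, rfl⟩ := hX.chart x hx
  obtain ⟨r, hr, hrV⟩ := Metric.isOpen_iff.1 hf.isOpen u hu
  have h1 := hf.mono hrV Metric.isOpen_ball
  obtain ⟨U, hU, hUX⟩ := h1.image_open _ le_rfl Metric.isOpen_ball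
  refine ⟨f, Metric.ball u r, U, h1, (convex_ball u r).isPreconnected, hU, ?_, hUX⟩
  have : f u ∈ f '' Metric.ball u r := ⟨u, Metric.mem_ball_self hr, rfl⟩
  rw [hUX] at this; exact this.2

theorem continuousOn_d (hβ : ∀ x ∈ X, ContDiffAt ℝ 1 β x) :
    ContinuousOn (Crest.Agent.R208.F.d β) X := fun x hx =>
  (contDiffAt_d (m := 0) (hβ x hx) (by norm_num)).continuousAt.continuousWithinAt

theorem continuousOn_of_contDiffAt {k : WithTop ℕ∞} (hβ : ∀ x ∈ X, ContDiffAt ℝ k β x) :
    ContinuousOn β X := fun x hx => (hβ x hx).continuousAt.continuousWithinAt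

/-- **STOKES** on a closed submanifold. -/
theorem J_d (hX : Clo n X) (ho : Ori n X o) (hβ : ∀ x ∈ X, ContDiffAt ℝ 1 β x) :
    J n X o (Crest.Agent.R208.F.d β) = 0 := by
  classical
  have key : ∀ x : E, x ∈ X → ∃ (φ : E → ℝ) (f : Eu n → E) (V : Set (Eu n)) (U : Set E),
      Chart n X f V ∧ IsPreconnected V ∧ IsOpen U ∧ f '' V = X ∩ U ∧ tsupport φ ⊆ U ∧
      ContDiff ℝ 1 φ ∧ (∀ y, 0 ≤ φ y) ∧ 0 < φ x := by
    intro x hx
    obtain ⟨f, V, U, hf, hV, hU, hxU, hUX⟩ := hX.exists_chart hx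
    obtain ⟨φ, h1, h2, h3, h4, h5⟩ := exists_contDiff_tsupport_subset (n := 1) (hU.mem_nhds hxU)
    refine ⟨φ, f, V, U, hf, hV, hU, hUX, h1, h3, fun y => (h4 ⟨y, rfl⟩).1, by rw [h5]; norm_num⟩
  choose! φ f V U hf hV hU hUX hs hφ hφ0 hφp using key
  obtain ⟨t, htX, ht⟩ := hX.compact.elim_nhds_subcover (fun x => {y | 0 < φ x y}) (fun x hx =>
    (isOpen_lt continuous_const (hφ x hx).continuous).mem_nhds (hφp x hx))
  set Φ : E → ℝ := fun y => ∑ x ∈ t, φ x y with hΦ
  have hΦC : ContDiff ℝ 1 Φ := ContDiff.sum fun x hx => hφ x (htX x hx)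
  have hΦp : ∀ y ∈ X, 0 < Φ y := by
    intro y hy
    obtain ⟨x, hx, hxy⟩ := mem_iUnion₂.1 (ht hy)
    exact Finset.sum_pos' (fun z hz => hφ0 z (htX z hz) y) ⟨x, hx, hxy⟩
  set β' : E → Ext E := fun y => (Φ y)⁻¹ • β y with hβ'
  have hβ'C : ∀ x ∈ X, ContDiffAt ℝ 1 β' x := fun x hx =>
    (hΦC.contDiffAt.inv (hΦp x hx).ne').smul (hβ x hx)
  have hterm : ∀ i ∈ t, ∀ x ∈ X, ContDiffAt ℝ 1 (fun y => φ i y • β' y) x := fun i hi x hx =>
    (hφ i (htX i hi)).contDiffAt.smul (hβ'C x hx)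
  have hsum : ∀ x ∈ X, Crest.Agent.R208.F.d β x
      = ∑ i ∈ t, Crest.Agent.R208.F.d (fun y => φ i y • β' y) x := by
    intro x hx
    rw [← d_sum t fun i hi => (hterm i hi x hx).differentiableAt (by norm_num)]
    apply d_congr
    filter_upwards [hΦC.continuous.continuousAt.eventually (lt_mem_nhds (hΦp x hx))] with y hy
    rw [← Finset.sum_smul, hβ', smul_smul]
    change β y = (Φ y * (Φ y)⁻¹) • β y
    rw [mul_inv_cancel₀ hy.ne', one_smul]
  rw [J_congr' hX hsum, J_sum hX ho t fun i hi => continuousOn_d (hterm i hi)]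
  refine Finset.sum_eq_zero fun i hi => ?_
  refine stokes_chart hX ho (hf i (htX i hi)) (hV i (htX i hi)) (hterm i hi) (hU i (htX i hi))
    (hUX i (htX i hi)) ?_
  exact (tsupport_smul_subset_left _ _).trans (hs i (htX i hi))

end Crest.Agent.R208.FI
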