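import Crest.Agent.R208.T0
import Crest.Agent.R208.CW0c

/-! Row 208, block T (helper316).  T0b: calculus of real forms on a submanifold up to restriction
(`Eqv`) and up to exact forms (`Coh`). -/

set_option autoImplicit false
set_option linter.unusedSectionVars false

open Set Filter Topology Module
open scoped ContDiff
open Crest.Agent.R208.F Crest.Agent.R208.FI Crest.Agent.R208.CW

noncomputable section

namespace Crest.Agent.R208.T

universe u
variable {E F' G : Type*} [NormedAddCommGroup E] [NormedSpace ℝ E] [FiniteDimensional ℝ E]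
  [NormedAddCommGroup F'] [NormedSpace ℝ F'] [FiniteDimensional ℝ F']
  [NormedAddCommGroup G] [NormedSpace ℝ G] [FiniteDimensional ℝ G]
  {m : ℕ} {X : Set E} {Y : Set F'} {a b c a' b' : E → Ext E} {x : E}

/-- forms which agree on `X` -/
def Eqv (X : Set E) (a b : E → Ext E) : Prop := ResZero X (a - b)

/-- smooth at the points of `X` -/
def Sm (X : Set E) (a : E → Ext E) : Prop := ∀ x ∈ X, ContDiffAt ℝ ∞ a x

/-- closed on `X` -/
def Cl (X : Set E) (a : E → Ext E) : Prop := ResZero X (F.d a)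

/-- cohomologous on `X` -/
def Coh (X : Set E) (a b : E → Ext E) : Prop := ∃ ξ : E → Ext E, Sm X ξ ∧ Eqv X (a - b) (F.d ξ)

theorem pbT (X : Set E) (x : E) (a b : E → Ext E) :
    pb (Tan X x).subtype ((a - b) x) = pb (Tan X x).subtype (a x) - pb (Tan X x).subtype (b x) :=
  map_sub _ _ _

theorem eqv_iff : Eqv X a b ↔ ∀ x ∈ X, pb (Tan X x).subtype (a x) = pb (Tan X x).subtype (b x) := by
  refine forall₂_congr fun x _ => ?_
  rw [pbT, sub_eq_zero]

theorem Eqv.of_eq (h : ∀ x ∈ X, a x = b x) : Eqv X a b := eqv_iff.2 fun x hx => by rw [h x hx]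
theorem Eqv.refl (a : E → Ext E) : Eqv X a a := Eqv.of_eq fun _ _ => rfl
theorem Eqv.symm (h : Eqv X a b) : Eqv X b a := eqv_iff.2 fun x hx => (eqv_iff.1 h x hx).symm
theorem Eqv.trans (h : Eqv X a b) (h' : Eqv X b c) : Eqv X a c :=
  eqv_iff.2 fun x hx => (eqv_iff.1 h x hx).trans (eqv_iff.1 h' x hx)
theorem Eqv.add (h : Eqv X a b) (h' : Eqv X a' b') : Eqv X (a + a') (b + b') :=
  eqv_iff.2 fun x hx => by
    rw [Pi.add_apply, Pi.add_apply, map_add, map_add, eqv_iff.1 h x hx, eqv_iff.1 h' x hx]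
theorem Eqv.sub (h : Eqv X a b) (h' : Eqv X a' b') : Eqv X (a - a') (b - b') :=
  eqv_iff.2 fun x hx => by
    rw [pbT, pbT, eqv_iff.1 h x hx, eqv_iff.1 h' x hx]
theorem Eqv.neg (h : Eqv X a b) : Eqv X (-a) (-b) :=
  eqv_iff.2 fun x hx => by
    rw [Pi.neg_apply, Pi.neg_apply, map_neg, map_neg, eqv_iff.1 h x hx]
theorem Eqv.mul (h : Eqv X a b) (h' : Eqv X a' b') : Eqv X (a * a') (b * b') :=
  eqv_iff.2 fun x hx => by
    rw [Pi.mul_apply, Pi.mul_apply, map_mul, map_mul, eqv_iff.1 h x hx, eqv_iff.1 h' x hx]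
theorem Eqv.smul (r : ℝ) (h : Eqv X a b) : Eqv X (r • a) (r • b) :=
  eqv_iff.2 fun x hx => by
    rw [Pi.smul_apply, Pi.smul_apply, map_smul, map_smul, eqv_iff.1 h x hx]
theorem Eqv.mono_tan {X' : Set E} (hs : X' ⊆ X) (h : Eqv X a b) : Eqv X' a b := by
  refine eqv_iff.2 fun x hx => ?_
  have h1 := eqv_iff.1 h x (hs hx)
  have h2 : Tan X' x ≤ Tan X x := Tan_mono_of_subset hs x
  have h3 : (Tan X' x).subtype = (Tan X x).subtype ∘ₗ Submodule.inclusion h2 := rfl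
  rw [h3, ← pb_comp, ← pb_comp, h1]

theorem resZero_iff : ResZero X a ↔ Eqv X a 0 := by
  rw [Eqv, sub_zero]

theorem ResZero.mono {X' : Set E} (hs : X' ⊆ X) (h : ResZero X a) : ResZero X' a :=
  resZero_iff.2 ((resZero_iff.1 h).mono_tan hs)

theorem pb_pull_eq_zero {f : E → F'} (hf : DifferentiableAt ℝ f x) (hXY : MapsTo f X Y)
    {c : Ext F'} (h : pb (Tan Y (f x)).subtype c = 0) :
    pb (Tan X x).subtype (pb ((fderiv ℝ f x : E →L[ℝ] F') : E →ₗ[ℝ] F') c) = 0 := by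
  have hmem : ∀ v : Tan X x, fderiv ℝ f x v ∈ Tan Y (f x) := fun v =>
    fderiv_mapsTo_Tan hf (fun z hz => hXY hz) v.2
  let A : Tan X x →ₗ[ℝ] Tan Y (f x) :=
    (((fderiv ℝ f x : E →L[ℝ] F') : E →ₗ[ℝ] F') ∘ₗ (Tan X x).subtype).codRestrict _ hmem
  have hA : ((fderiv ℝ f x : E →L[ℝ] F') : E →ₗ[ℝ] F') ∘ₗ (Tan X x).subtype
      = (Tan Y (f x)).subtype ∘ₗ A := by
    ext v; rfl
  rw [pb_comp, hA, ← pb_comp, h, map_zero]

theorem ResZero.pull {f : E → F'} {w : F' → Ext F'} (hf : SMap X Y f) (h : ResZero Y w) :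
    ResZero X (F.pull f w) := fun _ hx =>
  pb_pull_eq_zero (hf.diff hx) hf.maps (h _ (hf.maps hx))

theorem pull_sub' (f : E → F') (w w' : F' → Ext F') : F.pull f (w - w') = F.pull f w - F.pull f w' :=
  funext fun x => F.pull_sub f w w' x
theorem pull_add' (f : E → F') (w w' : F' → Ext F') : F.pull f (w + w') = F.pull f w + F.pull f w' :=
  funext fun x => F.pull_add f w w' x
theorem pull_mul' (f : E → F') (w w' : F' → Ext F') : F.pull f (w * w') = F.pull f w * F.pull f w' :=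
  funext fun x => F.pull_mul f w w' x
theorem pull_smul' (f : E → F') (r : ℝ) (w : F' → Ext F') : F.pull f (r • w) = r • F.pull f w :=
  funext fun x => map_smul (pb _) r (w (f x))
theorem pull_neg' (f : E → F') (w : F' → Ext F') : F.pull f (-w) = -F.pull f w :=
  funext fun x => map_neg (pb _) (w (f x))
theorem pull_zero' (f : E → F') : F.pull f (0 : F' → Ext F') = 0 :=
  funext fun x => map_zero (pb _)

theorem Eqv.pull {f : E → F'} {w w' : F' → Ext F'} (hf : SMap X Y f) (h : Eqv Y w w') :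
    Eqv X (F.pull f w) (F.pull f w') := by
  rw [Eqv, ← pull_sub']
  exact ResZero.pull hf h

/-- maps which agree on `X` -/
theorem Eqv.pull_congr {f g : E → F'} {w : F' → Ext F'} (hf : DifferentiableAt ℝ f x)
    (hg : DifferentiableAt ℝ g x) (hx : x ∈ X) (h : ∀ y ∈ X, f y = g y) :
    pb (Tan X x).subtype (F.pull f w x) = pb (Tan X x).subtype (F.pull g w x) := by
  rw [F.pull, F.pull, pb_comp, pb_comp, h x hx]
  congr 2
  refine LinearMap.ext fun v => ?_
  have key : ∀ w ∈ Tan X x, fderiv ℝ f x w = fderiv ℝ g x w := by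
    intro w hw
    refine Submodule.span_induction (p := fun w _ => fderiv ℝ f x w = fderiv ℝ g x w) ?_ ?_ ?_ ?_ hw
    · rintro w ⟨γ, rfl, hγ, hS⟩
      have h1 := hf.hasFDerivAt.comp_hasDerivAt 0 hγ
      have h2 := hg.hasFDerivAt.comp_hasDerivAt 0 hγ
      have h3 : (f ∘ γ) =ᶠ[𝓝 0] (g ∘ γ) := hS.mono fun t ht => h _ ht
      exact (h1.congr_of_eventuallyEq h3.symm).unique h2
    · simp
    · intro a b _ _ ha hb; simp only [map_add, ha, hb]
    · intro r a _ ha; simp only [map_smul, ha]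
  exact key v v.2

theorem eqv_pull_of_eq {f g : E → F'} (w : F' → Ext F') (hf : ∀ x ∈ X, DifferentiableAt ℝ f x)
    (hg : ∀ x ∈ X, DifferentiableAt ℝ g x) (h : ∀ y ∈ X, f y = g y) :
    Eqv X (F.pull f w) (F.pull g w) :=
  eqv_iff.2 fun x hx => Eqv.pull_congr (hf x hx) (hg x hx) hx h

/-! ### differentials -/

theorem res_chart {f : Eu m → E} {V : Set (Eu m)} (hf : Chart m X f V) {u : Eu m} (hu : u ∈ V)
    (c : Ext E) : pb (Tan X (f u)).subtype c = 0 ↔
      pb ((fderiv ℝ f u : Eu m →L[ℝ] E) : Eu m →ₗ[ℝ] E) c = 0 := by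
  have hr := range_fderiv_eq_Tan hf hu
  have hmem : ∀ v : Eu m, fderiv ℝ f u v ∈ Tan X (f u) := fun v => hf.fderiv_mem hu v
  let A : Eu m →ₗ[ℝ] Tan X (f u) :=
    ((fderiv ℝ f u : Eu m →L[ℝ] E) : Eu m →ₗ[ℝ] E).codRestrict _ hmem
  have hA : ((fderiv ℝ f u : Eu m →L[ℝ] E) : Eu m →ₗ[ℝ] E) = (Tan X (f u)).subtype ∘ₗ A := by
    ext v; rfl
  have hs : Function.Surjective A := by
    rintro ⟨y, hy⟩
    rw [← hr] at hy
    obtain ⟨v, hv⟩ := hy
    exact ⟨v, Subtype.ext hv⟩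
  obtain ⟨B, hB⟩ := A.exists_rightInverse_of_surjective (LinearMap.range_eq_top.2 hs)
  rw [hA, ← pb_comp]
  constructor
  · intro h
    rw [h, map_zero]
  · intro h
    have h2 := congrArg (pb B) h
    rw [pb_comp, hB, pb_id, map_zero] at h2
    exact h2

/-- forms vanishing on `X` have differential vanishing on `X` -/
theorem resZero_d (hX : Sub m X) (ha : Sm X a) (h : ResZero X a) : ResZero X (F.d a) := by
  intro x hx
  obtain ⟨f, V, hf, u, hu, rfl⟩ := hX x hx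
  rw [res_chart hf hu]
  have h2 : ContDiffAt ℝ 2 f u := (hf.contDiffAt hu).of_le two_le
  have h3 : pb ((fderiv ℝ f u : Eu m →L[ℝ] E) : Eu m →ₗ[ℝ] E) (F.d a (f u)) = F.pull f (F.d a) u :=
    rfl
  rw [h3, ← d_pull h2 ((ha _ hx).differentiableAt (by simp))]
  have h4 : F.pull f a =ᶠ[𝓝 u] fun _ => 0 := by
    filter_upwards [hf.isOpen.mem_nhds hu] with w hwV
    exact (res_chart hf hwV _).1 (h _ (hf.mem hwV))
  rw [F.d_congr h4, F.d_const]

theorem Sm.diff (ha : Sm X a) (hx : x ∈ X) : DifferentiableAt ℝ a x :=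
  (ha x hx).differentiableAt (by simp)
theorem Sm.add (ha : Sm X a) (hb : Sm X b) : Sm X (a + b) := fun x hx => (ha x hx).add (hb x hx)
theorem Sm.sub (ha : Sm X a) (hb : Sm X b) : Sm X (a - b) := fun x hx => (ha x hx).sub (hb x hx)
theorem Sm.neg (ha : Sm X a) : Sm X (-a) := fun x hx => (ha x hx).neg
theorem Sm.mul (ha : Sm X a) (hb : Sm X b) : Sm X (a * b) := fun x hx =>
  F.contDiffAt_mul (ha x hx) (hb x hx)
theorem Sm.smul (r : ℝ) (ha : Sm X a) : Sm X (r • a) := fun x hx =>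
  contDiffAt_const.smul (ha x hx)
theorem Sm.zero : Sm X (0 : E → Ext E) := fun _ _ => contDiffAt_const
theorem Sm.d (ha : Sm X a) : Sm X (F.d a) := fun x hx => contDiffAt_d (ha x hx) (by simp)
theorem Sm.inv (ha : Sm X a) : Sm X (fun x => F.inv (a x)) := fun x hx =>
  (invL (E := E)).contDiff.contDiffAt.comp x (ha x hx)
theorem Sm.mono {X' : Set E} (hs : X' ⊆ X) (ha : Sm X a) : Sm X' a := fun x hx => ha x (hs hx)
theorem Sm.pull {f : E → F'} {w : F' → Ext F'} (hf : SMap X Y f) (h : Sm Y w) :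
    Sm X (F.pull f w) := fun x hx => contDiffAt_pull (hf.smooth x hx) (by simp) (h _ (hf.maps hx))

theorem Eqv.d (hX : Sub m X) (ha : Sm X a) (hb : Sm X b) (h : Eqv X a b) :
    Eqv X (F.d a) (F.d b) := by
  have h1 := resZero_d hX (ha.sub hb) h
  refine eqv_iff.2 fun x hx => ?_
  have h2 := h1 x hx
  have h3 : F.d (a - b) x = F.d a x - F.d b x := F.d_sub (ha.diff hx) (hb.diff hx)
  rw [h3, map_sub, sub_eq_zero] at h2
  exact h2

theorem d_add_eqv (ha : Sm X a) (hb : Sm X b) : Eqv X (F.d (a + b)) (F.d a + F.d b) :=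
  Eqv.of_eq fun _ hx => F.d_add (ha.diff hx) (hb.diff hx)
theorem d_sub_eqv (ha : Sm X a) (hb : Sm X b) : Eqv X (F.d (a - b)) (F.d a - F.d b) :=
  Eqv.of_eq fun _ hx => F.d_sub (ha.diff hx) (hb.diff hx)
theorem d_neg' (a : E → Ext E) : F.d (-a) = - F.d a := funext fun _ => F.d_neg
theorem d_zero' : F.d (0 : E → Ext E) = 0 := funext fun x => F.d_const _ x
theorem d_smul_eqv (r : ℝ) (ha : Sm X a) : Eqv X (F.d (r • a)) (r • F.d a) :=
  Eqv.of_eq fun _ hx => F.d_const_smul r (ha.diff hx)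
theorem d_mul_eqv (ha : Sm X a) (hb : Sm X b) :
    Eqv X (F.d (a * b)) (F.d a * b + (fun x => F.inv (a x)) * F.d b) :=
  Eqv.of_eq fun _ hx => F.d_mul (ha.diff hx) (hb.diff hx)
theorem d_pull_eqv {f : E → F'} {w : F' → Ext F'} (hf : SMap X Y f) (h : Sm Y w) :
    Eqv X (F.d (F.pull f w)) (F.pull f (F.d w)) :=
  Eqv.of_eq fun _ hx => d_pull (hf.c2 hx) (h.diff (hf.maps hx))
theorem d_d' (ha : Sm X a) : Cl X (F.d a) := fun x hx => by
  rw [F.d_d ((ha x hx).of_le two_le), map_zero]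

theorem Cl.add (ha : Sm X a) (hb : Sm X b) (h : Cl X a) (h' : Cl X b) : Cl X (a + b) := by
  rw [Cl, resZero_iff] at *
  have := (d_add_eqv ha hb).trans (h.add h')
  rwa [add_zero] at this
theorem Cl.sub (ha : Sm X a) (hb : Sm X b) (h : Cl X a) (h' : Cl X b) : Cl X (a - b) := by
  rw [Cl, resZero_iff] at *
  have := (d_sub_eqv ha hb).trans (h.sub h')
  rwa [sub_zero] at this
theorem Cl.smul (r : ℝ) (ha : Sm X a) (h : Cl X a) : Cl X (r • a) := by
  rw [Cl, resZero_iff] at *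
  have := (d_smul_eqv r ha).trans (h.smul r)
  rwa [smul_zero] at this
theorem Cl.mul (ha : Sm X a) (hb : Sm X b) (h : Cl X a) (h' : Cl X b) : Cl X (a * b) := by
  rw [Cl, resZero_iff] at *
  have := (d_mul_eqv ha hb).trans ((h.mul (Eqv.refl b)).add
    ((Eqv.refl (fun x => F.inv (a x))).mul h'))
  rwa [zero_mul, mul_zero, add_zero] at this
theorem Cl.pull {f : E → F'} {w : F' → Ext F'} (hf : SMap X Y f) (hs : Sm Y w) (h : Cl Y w) :
    Cl X (F.pull f w) := by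
  rw [Cl, resZero_iff]
  refine (d_pull_eqv hf hs).trans ?_
  have := Eqv.pull hf (resZero_iff.1 h)
  rwa [pull_zero'] at this
theorem Cl.of_eqv (hX : Sub m X) (ha : Sm X a) (hb : Sm X b) (h : Eqv X a b) (h' : Cl X b) :
    Cl X a := by
  rw [Cl, resZero_iff] at *
  exact (h.d hX ha hb).trans h'
theorem Cl.mono {X' : Set E} (hs : X' ⊆ X) (h : Cl X a) : Cl X' a := ResZero.mono hs h
theorem Cl.const (c : Ext E) : Cl X (fun _ => c) := fun x _ => by rw [F.d_const, map_zero]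

/-! ### cohomologous forms -/

theorem Coh.of_eqv (h : Eqv X a b) : Coh X a b :=
  ⟨0, Sm.zero, by rw [d_zero', Eqv, sub_zero]; exact h⟩
theorem Coh.refl (a : E → Ext E) : Coh X a a := Coh.of_eqv (Eqv.refl a)
theorem Coh.symm (h : Coh X a b) : Coh X b a := by
  obtain ⟨ξ, h1, h2⟩ := h
  refine ⟨-ξ, h1.neg, ?_⟩
  have := h2.neg
  rwa [neg_sub, ← d_neg'] at this
theorem Coh.trans (h : Coh X a b) (h' : Coh X b c) : Coh X a c := by
  obtain ⟨ξ, h1, h2⟩ := h
  obtain ⟨ζ, h3, h4⟩ := h'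
  refine ⟨ξ + ζ, h1.add h3, ?_⟩
  have := (h2.add h4).trans (d_add_eqv h1 h3).symm
  rwa [sub_add_sub_cancel] at this
theorem Coh.add (h : Coh X a b) (h' : Coh X a' b') : Coh X (a + a') (b + b') := by
  obtain ⟨ξ, h1, h2⟩ := h
  obtain ⟨ζ, h3, h4⟩ := h'
  refine ⟨ξ + ζ, h1.add h3, ?_⟩
  have := (h2.add h4).trans (d_add_eqv h1 h3).symm
  rwa [← add_sub_add_comm] at this
theorem Coh.smul (r : ℝ) (h : Coh X a b) : Coh X (r • a) (r • b) := by
  obtain ⟨ξ, h1, h2⟩ := h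
  refine ⟨r • ξ, h1.smul r, ?_⟩
  have := (h2.smul r).trans (d_smul_eqv r h1).symm
  rwa [smul_sub] at this
theorem Coh.neg (h : Coh X a b) : Coh X (-a) (-b) := by
  have := h.smul (-1); simpa using this
theorem Coh.sub (h : Coh X a b) (h' : Coh X a' b') : Coh X (a - a') (b - b') := by
  rw [sub_eq_add_neg, sub_eq_add_neg]; exact h.add h'.neg
theorem Coh.mul_right (hc : Sm X c) (hcc : Cl X c) (h : Coh X a b) : Coh X (a * c) (b * c) := by
  obtain ⟨ξ, h1, h2⟩ := h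
  refine ⟨ξ * c, h1.mul hc, ?_⟩
  rw [← sub_mul]
  refine (h2.mul (Eqv.refl c)).trans ((d_mul_eqv h1 hc).trans ?_).symm
  have := (Eqv.refl (X := X) (F.d ξ * c)).add ((Eqv.refl (fun x => F.inv (ξ x))).mul
    (resZero_iff.1 hcc))
  rwa [mul_zero, add_zero] at this
theorem Coh.pull {f : E → F'} {w w' : F' → Ext F'} (hf : SMap X Y f) (h : Coh Y w w') :
    Coh X (F.pull f w) (F.pull f w') := by
  obtain ⟨ξ, h1, h2⟩ := h
  refine ⟨F.pull f ξ, h1.pull hf, ?_⟩
  rw [← pull_sub']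
  exact (h2.pull hf).trans (d_pull_eqv hf h1).symm
theorem Coh.mono {X' : Set E} (hs : X' ⊆ X) (h : Coh X a b) : Coh X' a b := by
  obtain ⟨ξ, h1, h2⟩ := h
  exact ⟨ξ, h1.mono hs, h2.mono_tan hs⟩
theorem Coh.cl (hX : Sub m X) (ha : Sm X a) (hb : Sm X b) (h : Coh X a b) (h' : Cl X b) :
    Cl X a := by
  obtain ⟨ξ, h1, h2⟩ := h
  have h3 : Cl X (a - b) := Cl.of_eqv hX (ha.sub hb) h1.d h2 (d_d' h1)
  have := Cl.add (ha.sub hb) hb h3 h'
  rwa [sub_add_cancel] at this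

/-- homotopic maps -/
theorem coh_homotopy {E : Type u} [NormedAddCommGroup E] [NormedSpace ℝ E] [FiniteDimensional ℝ E]
    {X : Set E} {Fh : E × ℝ → F'} {w : F' → Ext F'}
    (hF : ∀ x ∈ X, ∀ t ∈ Icc (0 : ℝ) 1, ContDiffAt ℝ ∞ Fh (x, t))
    (hm : ∀ x ∈ X, ∀ t ∈ Icc (0 : ℝ) 1, Fh (x, t) ∈ Y) (hw : Sm Y w) (hc : Cl Y w) :
    Coh X (F.pull (fun y => Fh (y, 1)) w) (F.pull (fun y => Fh (y, 0)) w) :=
  ⟨Hop Fh w, fun x hx => contDiffAt_Hop (hF x hx) fun t ht => hw _ (hm x hx t ht),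
    resZero_Hop (fun x hx t ht => (hF x hx t ht).of_le two_le) hm
      (fun y hy => (hw y hy).of_le (by exact_mod_cast le_top)) hc⟩

/-- even forms are central -/
theorem even_mul_comm {a : Ext E} (h : F.inv a = a) (b : Ext E) : a * b = b * a := even_comm h b

end Crest.Agent.R208.T
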