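import Crest.Agent.R208.CM2b
import Crest.Agent.R208.T0b

/-! Row 208, block CM (helper971), part CM3: injective immersions of closed manifolds have smooth
inverses; forms on the quotient are determined by their pull-backs; basic forms in the language
of `Sm`, `Cl`, `Eqv`, `Coh`. -/

set_option autoImplicit false
set_option linter.unusedSectionVars false
set_option linter.unusedVariables false

open Set Filter Topology Module MeasureTheory
open scoped ContDiff RealInnerProductSpace ComplexConjugate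
open Crest.Agent.R208.F Crest.Agent.R208.FI
open Crest.Agent.R208.CW (SMap)
open Crest.Agent.R208.T (Sm Cl Eqv Coh eqv_iff)

noncomputable section

namespace Crest.Agent.R208.CM

/-! ### injective immersions -/

section inj

variable {E E' : Type*} [NormedAddCommGroup E] [NormedSpace ℝ E] [FiniteDimensional ℝ E]
  [NormedAddCommGroup E'] [NormedSpace ℝ E'] [FiniteDimensional ℝ E'] {X : Set E} {n : ℕ}

theorem hop_of_inj (hXc : IsCompact X) {f : E → E'} (hf : ∀ x ∈ X, ContDiffAt ℝ ∞ f x)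
    (hinj : InjOn f X) {x : E} (hx : x ∈ X) (O' : Set E) (hO' : IsOpen O') (hxO : x ∈ O') :
    ∀ᶠ y in 𝓝[f '' X] (f x), ∃ z ∈ X ∩ O', f z = y := by
  have himg : IsCompact (f '' (X \ O')) := (hXc.diff hO').image_of_continuousOn fun z hz =>
    (hf z hz.1).continuousAt.continuousWithinAt
  have hnot : f x ∉ f '' (X \ O') := by
    rintro ⟨z, ⟨hzX, hzO⟩, hz⟩
    exact hzO (by rw [hinj hzX hx hz]; exact hxO)
  have hN : (f '' (X \ O'))ᶜ ∈ 𝓝 (f x) := himg.isClosed.isOpen_compl.mem_nhds hnot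
  filter_upwards [nhdsWithin_le_nhds hN, self_mem_nhdsWithin] with y hy1 hy2
  obtain ⟨z, hz, rfl⟩ := hy2
  refine ⟨z, ⟨hz, ?_⟩, rfl⟩
  by_contra hzO
  exact hy1 ⟨z, ⟨hz, hzO⟩, rfl⟩

/-- **the image of a closed manifold under an injective immersion is a closed manifold** -/
theorem clo_image_of_inj (hX : Clo n X) {f : E → E'} (hf : ∀ x ∈ X, ContDiffAt ℝ ∞ f x)
    (hinj : InjOn f X) (himm : ∀ x ∈ X, ∀ v ∈ Tan X x, fderiv ℝ f x v = 0 → v = 0) :
    Clo n (f '' X) := by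
  refine Sub.clo (Sub.of_loc' fun z hz => ?_) (hX.compact.image_of_continuousOn fun z hz =>
    (hf z hz).continuousAt.continuousWithinAt)
  obtain ⟨x, hx, rfl⟩ := hz
  obtain ⟨p, W, O, ℓ, h1, h2⟩ := hX.sub.exists_loc hx
  obtain ⟨U', O', ℓ', h3, h4, -, -⟩ := FV.Loc.image h1 (g := f) (Y := f '' X) hf hx h2
    (himm x hx) (fun z hz => ⟨z, hz, rfl⟩)
    (fun O' hO' hxO => hop_of_inj hX.compact hf hinj hx O' hO' hxO)
  exact ⟨_, _, _, _, h3, h4⟩

/-- **smooth inverses of injective immersions of closed manifolds** -/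
theorem exists_smooth_inv (hX : Clo n X) {f : E → E'} (hf : ∀ x ∈ X, ContDiffAt ℝ ∞ f x)
    (hinj : InjOn f X) (himm : ∀ x ∈ X, ∀ v ∈ Tan X x, fderiv ℝ f x v = 0 → v = 0) :
    ∃ ψ : E' → E, ContDiff ℝ ∞ ψ ∧ ∀ x ∈ X, ψ (f x) = x := by
  have hY := clo_image_of_inj hX hf hinj himm
  set ψ₀ : E' → E := Function.invFunOn f X with hψ₀
  have hinv : ∀ x ∈ X, ψ₀ (f x) = x := fun x hx =>
    hinj (Function.invFunOn_mem ⟨x, hx, rfl⟩) hx (Function.invFunOn_eq ⟨x, hx, rfl⟩)
  obtain ⟨ψ, h1, h2⟩ := FV.exists_glue hY.sub hY.compact.isClosed (g := ψ₀) (by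
    rintro y ⟨x, hx, rfl⟩
    obtain ⟨p, W, O, ℓ, h1, h2⟩ := hX.sub.exists_loc hx
    obtain ⟨σ, O', a1, a2, a3, a4, a5, a6, -⟩ := FV.exists_section h1 (g := f) (Y := f '' X) hf
      hx h2 (himm x hx) (fun z hz => ⟨z, hz, rfl⟩)
      (fun O' hO' hxO => hop_of_inj hX.compact hf hinj hx O' hO' hxO)
    refine ⟨σ, a3.contDiffAt (a1.mem_nhds a2), ?_⟩
    filter_upwards [nhdsWithin_le_nhds (a1.mem_nhds a2), self_mem_nhdsWithin] with y hy hyX
    have h3 := hinv _ (a5 y hy)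
    rw [a6 y ⟨hyX, hy⟩] at h3
    exact h3.symm)
  exact ⟨ψ, h1, fun x hx => by rw [h2 _ ⟨x, hx, rfl⟩, hinv x hx]⟩

end inj

/-! ### pull-back along surjective maps is injective -/

section surj

theorem pb_injective {V T : Type*} [AddCommGroup V] [Module ℝ V] [AddCommGroup T] [Module ℝ T]
    {A : V →ₗ[ℝ] T} (hA : Function.Surjective A) : Function.Injective (pb A) := by
  obtain ⟨B, hB⟩ := A.exists_rightInverse_of_surjective (LinearMap.range_eq_top.2 hA)
  intro c c' h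
  have h1 := congrArg (pb B) h
  rwa [pb_comp, pb_comp, hB, pb_id, pb_id] at h1

variable {E E' : Type*} [NormedAddCommGroup E] [NormedSpace ℝ E] [FiniteDimensional ℝ E]
  [NormedAddCommGroup E'] [NormedSpace ℝ E'] [FiniteDimensional ℝ E'] {X : Set E} {Y : Set E'}

/-- forms on `Y` are determined by the pull-back to `X` under a surjective submersion -/
theorem eqv_of_pull {f : E → E'} (hf : SMap X Y f) (hs : ∀ y ∈ Y, ∃ x ∈ X, f x = y)
    (ht : ∀ x ∈ X, Tan Y (f x) ≤ (Tan X x).map (fderiv ℝ f x : E →ₗ[ℝ] E'))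
    {a b : E' → Ext E'} (h : Eqv X (pull f a) (pull f b)) : Eqv Y a b := by
  rw [eqv_iff] at h ⊢
  intro y hy
  obtain ⟨x, hx, rfl⟩ := hs y hy
  have hmem : ∀ v : Tan X x, fderiv ℝ f x v ∈ Tan Y (f x) := fun v =>
    fderiv_mapsTo_Tan (hf.diff hx) (fun z hz => hf.maps hz) v.2
  let A : Tan X x →ₗ[ℝ] Tan Y (f x) :=
    (((fderiv ℝ f x : E →L[ℝ] E') : E →ₗ[ℝ] E') ∘ₗ (Tan X x).subtype).codRestrict _ hmem
  have hA : Function.Surjective A := by
    rintro ⟨w, hw⟩
    obtain ⟨v, hv, rfl⟩ := ht x hx hw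
    exact ⟨⟨v, hv⟩, rfl⟩
  apply pb_injective hA
  have h1 := h x hx
  rw [pull, pull, pb_comp, pb_comp] at h1
  rw [pb_comp, pb_comp]
  exact h1

end surj

variable {E : Type} [NormedAddCommGroup E] [NormedSpace ℝ E] [FiniteDimensional ℝ E]
  {X : Set E} {φ : ℝ → E → E} {m : ℕ} {g : E → Fin m → ℂ} {n : ℕ}

namespace Emb

theorem smap_jj (hg : Emb X φ g) : SMap X (Quo X g) (jj g) :=
  ⟨fun x hx => hg.contDiffAt_jj hx, fun x hx => jj_mem hx⟩

/-- forms on the quotient are determined by their pull-backs -/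
theorem eqv_of_pull (hg : Emb X φ g) (h : Cir X φ) (hX : Clo (n + 1) X)
    {a b : MM m → Ext (MM m)} (hab : Eqv X (pull (jj g) a) (pull (jj g) b)) :
    Eqv (Quo X g) a b :=
  CM.eqv_of_pull hg.smap_jj (fun y hy => hy) (fun x hx => (hg.Tan_Quo h hX hx).le) hab

/-- a closed basic form descends to a closed form -/
theorem cl_of_pull (hg : Emb X φ g) (h : Cir X φ) (hX : Clo (n + 1) X)
    {a : MM m → Ext (MM m)} (ha : Sm (Quo X g) a) (hab : Cl X (pull (jj g) a)) :
    Cl (Quo X g) a := by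
  rw [T.Cl, T.resZero_iff] at hab ⊢
  refine hg.eqv_of_pull h hX ?_
  rw [T.pull_zero']
  exact (T.d_pull_eqv hg.smap_jj ha).symm.trans hab

/-- **descent of basic forms**, in the language of `Eqv` -/
theorem exists_basic (hg : Emb X φ g) (h : Cir X φ) (hX : Clo (n + 1) X) {om : E → Ext E}
    (hs : Sm X om) (hinv : ∀ t, Eqv X (pull (φ t) om) om)
    (hor : Eqv X (fun x => ii (gen φ x) (om x)) 0) :
    ∃ om' : MM m → Ext (MM m), ContDiff ℝ ∞ om' ∧ Eqv X (pull (jj g) om') om := by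
  obtain ⟨om', h1, h2⟩ := hg.exists_descF h hX hs (fun x hx t => eqv_iff.1 (hinv t) x hx)
    (fun x hx => by
      have := eqv_iff.1 hor x hx
      rw [this]; exact map_zero _)
  exact ⟨om', h1, eqv_iff.2 h2⟩

end Emb

end Crest.Agent.R208.CM
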