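import Crest.Agent.R208.CM3b
import Crest.Agent.R208.CW6

/-! Row 208, block CM (helper971), part CM3c: the Euler form of an oriented plane field with a global
frame, the standard connection form of the tautological circle bundle and its curvature. -/

set_option autoImplicit false
set_option linter.unusedSectionVars false
set_option linter.unusedVariables false

open Set Filter Topology Module MeasureTheory
open scoped ContDiff RealInnerProductSpace ComplexConjugate
open Crest.Agent.R208.F Crest.Agent.R208.FI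
open Crest.Agent.R208.CW
open Crest.Agent.R208.T (Sm Cl Eqv Coh eqv_iff)

noncomputable section

namespace Crest.Agent.R208.CM

section pf

theorem pfS_unit {A : Type*} [CommRing A] (M : Matrix (Unit × Fin 2) (Unit × Fin 2) A) :
    PF.pfS M = M ((), 0) ((), 1) - M ((), 1) ((), 0) := by
  have hu : (Finset.univ : Finset (Equiv.Perm (Unit × Fin 2))) =
      {1, Equiv.swap ((), 0) ((), 1)} := by decide
  rw [PF.pfS, hu, Finset.sum_pair (by decide)]
  simp [Equiv.Perm.sign_swap, sub_eq_add_neg]

end pf

section frame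

variable {E : Type*} [NormedAddCommGroup E] [NormedSpace ℝ E] [FiniteDimensional ℝ E]
  {X : Set E} {x : E} {n : Type*} [Fintype n] [DecidableEq n]

/-- the Euler form of an oriented plane field with a global orthonormal frame on `X` -/
theorem rs_ef_frame2 {P : E → Matrix n n ℂ} {W : E → (Unit × Fin 2 → n) → ℂ}
    {f : E → Matrix n (Unit × Fin 2) ℂ} (hx : x ∈ X) (hf : SM 1 f x) (hP1 : SM 1 P x)
    (h1 : ∀ y ∈ X, (f y).transpose * f y = 1) (h2 : ∀ y ∈ X, P y = f y * (f y).transpose)
    (h3 : ∀ I, W x I = ((f x).submatrix I id).det) {l : n → Fin 2 → Module.Dual ℝ (Tan X x)}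
    (hl : ∀ p s, dl X f x p ((), s) = Cx.ofR (io (l p s))) :
    rs X x (ef P W x) = Cx.ofR ((2 : ℝ) • ∑ p, io (l p 0) * io (l p 1)) := by
  set D : Matrix n (Unit × Fin 2) (CF (Tan X x)) := dl X f x with hD
  set fh : Matrix n (Unit × Fin 2) (CF (Tan X x)) := hat (Tan X x) (f x) with hfh
  set ft : Matrix (Unit × Fin 2) n (CF (Tan X x)) := hat (Tan X x) (f x).transpose with hft
  have hff : ft * fh = 1 := by rw [hft, hfh, ← hat_mul, h1 x hx, hat_one]
  have hδ : dl X P x = D * ft + fh * D.transpose := by
    rw [dl_congr_gen hx hP1 (hf.mul hf.transpose) h2, dl_mul hf hf.transpose]; rfl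
  have h0 : D.transpose * fh + ft * D = 0 := by
    have e1 := dl_mul (X := X) hf.transpose hf
    have e2 := dl_congr_gen (X := X) hx (hf.transpose.mul hf)
      (B := fun _ => (1 : Matrix (Unit × Fin 2) (Unit × Fin 2) ℂ)) (fun i j => contDiffAt_const) h1
    rw [e1, dl_const] at e2
    exact e2
  set A : Matrix (Unit × Fin 2) (Unit × Fin 2) (CF (Tan X x)) := ft * D with hA
  have hDf : D.transpose * fh = -A := eq_neg_of_add_eq_zero_left h0
  have hPf : hat (Tan X x) (P x) * fh = fh := by
    rw [h2 x hx, hfh, ← hat_mul, Matrix.mul_assoc, h1 x hx, Matrix.mul_one]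
  have hfP : ft * hat (Tan X x) (P x) = ft := by
    rw [h2 x hx, hft, ← hat_mul, ← Matrix.mul_assoc, h1 x hx, Matrix.one_mul]
  have hM : ft * (hat (Tan X x) (P x) * (dl X P x * dl X P x) * hat (Tan X x) (P x)) * fh
      = D.transpose * D + A * A := by
    have e1 : ft * dl X P x = A * ft + D.transpose := by
      rw [hδ, Matrix.mul_add, ← Matrix.mul_assoc, ← Matrix.mul_assoc, hff, Matrix.one_mul]
    have e2 : dl X P x * fh = D - fh * A := by
      rw [hδ, Matrix.add_mul, Matrix.mul_assoc, Matrix.mul_assoc, hff, Matrix.mul_one, hDf,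
        Matrix.mul_neg, sub_eq_add_neg]
    calc ft * (hat (Tan X x) (P x) * (dl X P x * dl X P x) * hat (Tan X x) (P x)) * fh
        = (ft * hat (Tan X x) (P x)) * (dl X P x * dl X P x) * (hat (Tan X x) (P x) * fh) := by
          simp only [Matrix.mul_assoc]
      _ = (ft * dl X P x) * (dl X P x * fh) := by rw [hfP, hPf]; simp only [Matrix.mul_assoc]
      _ = (A * ft + D.transpose) * (D - fh * A) := by rw [e1, e2]
      _ = A * (ft * D) - A * ((ft * fh) * A) + (D.transpose * D - (D.transpose * fh) * A) := by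
          simp only [Matrix.add_mul, Matrix.mul_sub, Matrix.mul_assoc]
          abel
      _ = D.transpose * D + A * A := by
          rw [hff, hDf, Matrix.one_mul, ← hA, Matrix.neg_mul]
          abel
  have hAt : ∀ i j, A i j = - A j i := by
    intro i j
    have e1 := congrFun (congrFun hDf j) i
    have e2 : (D.transpose * fh) j i = A i j := by
      rw [hA, Matrix.mul_apply, Matrix.mul_apply]
      exact Finset.sum_congr rfl fun a _ => (alg_comm _ _).symm
    rw [← e2, e1]; rfl
  have hAd : ∀ i, A i i = 0 := by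
    intro i
    have e1 := hAt i i
    have e2 : (2 : ℂ) • A i i = 0 := by
      rw [two_smul]; nth_rewrite 1 [e1]; exact neg_add_cancel _
    exact (smul_eq_zero.1 e2).resolve_left two_ne_zero
  have hAA : ∀ s t : Fin 2, s ≠ t → (A * A) ((), s) ((), t) = 0 := by
    intro s t hst
    rw [Matrix.mul_apply, Fintype.sum_prod_type]
    simp only [Finset.univ_unique, Finset.sum_singleton, Fin.sum_univ_two, PUnit.default_eq_unit]
    have h01 : (s = 0 ∧ t = 1) ∨ (s = 1 ∧ t = 0) := by
      revert s t; decide
    rcases h01 with ⟨rfl, rfl⟩ | ⟨rfl, rfl⟩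
    · rw [hAd, hAd, zero_mul, mul_zero, add_zero]
    · rw [hAd, hAd, zero_mul, mul_zero, add_zero]
  -- the Euler form
  rw [rs_ef, eu_frame h3, pfS_unit]
  have hv1 : vl ((hv (Tan X x) (f x)).transpose * wv (P x) (dl X P x) (invM_dl P x) * hv (Tan X x) (f x)) =
      D.transpose * D + A * A := by
    rw [vl_mul, vl_mul, vl_wv, vl_hv, ← hM]
    rfl
  have e01 : ((((hv (Tan X x) (f x)).transpose * wv (P x) (dl X P x) (invM_dl P x) * hv (Tan X x) (f x))
      ((), 0) ((), 1) : EvC (Tan X x)) : CF (Tan X x)) = ∑ p, Cx.ofR (io (l p 0) * io (l p 1)) := by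
    have := congrFun (congrFun hv1 ((), 0)) ((), 1)
    refine Eq.trans this ?_
    rw [Matrix.add_apply, hAA 0 1 (by decide), add_zero, Matrix.mul_apply]
    refine Finset.sum_congr rfl fun p _ => ?_
    rw [Matrix.transpose_apply, hl, hl, map_mul]
  have e10 : ((((hv (Tan X x) (f x)).transpose * wv (P x) (dl X P x) (invM_dl P x) * hv (Tan X x) (f x))
      ((), 1) ((), 0) : EvC (Tan X x)) : CF (Tan X x)) = - ∑ p, Cx.ofR (io (l p 0) * io (l p 1)) := by
    have := congrFun (congrFun hv1 ((), 1)) ((), 0)
    refine Eq.trans this ?_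
    rw [Matrix.add_apply, hAA 1 0 (by decide), add_zero, Matrix.mul_apply, ← Finset.sum_neg_distrib]
    refine Finset.sum_congr rfl fun p _ => ?_
    rw [Matrix.transpose_apply, hl, hl, ← map_mul, io_anti, map_neg]
  have hsub : ∀ a b : EvC (Tan X x), ((a - b : EvC (Tan X x)) : CF (Tan X x)) = (a : CF (Tan X x)) - (b : CF (Tan X x)) := fun a b => rfl
  rw [hsub, e01, e10, sub_neg_eq_add, ← map_sum, ← map_add, ← two_smul ℝ]

end frame

end Crest.Agent.R208.CM
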