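import Crest.Agent.R208.CM3c
import Crest.Agent.R208.T2d

/-! Row 208, block CM (helper971), part CM3d: connections of a free circle action, curvature, the
Euler form of the tautological line. -/

set_option autoImplicit false
set_option linter.unusedSectionVars false
set_option linter.unusedVariables false

open Set Filter Topology Module MeasureTheory
open scoped ContDiff RealInnerProductSpace ComplexConjugate
open Crest.Agent.R208.F Crest.Agent.R208.FI
open Crest.Agent.R208.CW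
open Crest.Agent.R208.T (Sm Cl Eqv Coh eqv_iff Hom mtx wC)

noncomputable section

namespace Crest.Agent.R208.CM

variable {m : ℕ}

/-! ### the standard form -/

section th0

/-- real part of the `a`-th coordinate -/
def reL (m : ℕ) (a : Fin m) : (Fin m → ℂ) →L[ℝ] ℝ :=
  Complex.reCLM.comp (ContinuousLinearMap.proj a)

/-- imaginary part of the `a`-th coordinate -/
def imL (m : ℕ) (a : Fin m) : (Fin m → ℂ) →L[ℝ] ℝ :=
  Complex.imCLM.comp (ContinuousLinearMap.proj a)

@[simp] theorem reL_apply (a : Fin m) (z : Fin m → ℂ) : reL m a z = (z a).re := rfl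
@[simp] theorem imL_apply (a : Fin m) (z : Fin m → ℂ) : imL m a z = (z a).im := rfl

/-- `reL` as a covector -/
def reD (m : ℕ) (a : Fin m) : Module.Dual ℝ (Fin m → ℂ) := (reL m a : (Fin m → ℂ) →ₗ[ℝ] ℝ)
/-- `imL` as a covector -/
def imD (m : ℕ) (a : Fin m) : Module.Dual ℝ (Fin m → ℂ) := (imL m a : (Fin m → ℂ) →ₗ[ℝ] ℝ)

@[simp] theorem reD_apply (a : Fin m) (z : Fin m → ℂ) : reD m a z = (z a).re := rfl
@[simp] theorem imD_apply (a : Fin m) (z : Fin m → ℂ) : imD m a z = (z a).im := rfl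

/-- the covector `v ↦ ∑ Im (conj z_a v_a)` -/
def Lth (z : Fin m → ℂ) : Module.Dual ℝ (Fin m → ℂ) :=
  ∑ a, ((z a).re • imD m a - (z a).im • reD m a)

theorem Lth_apply (z v : Fin m → ℂ) : Lth z v = ∑ a, (conj (z a) * v a).im := by
  rw [Lth, LinearMap.sum_apply]
  refine Finset.sum_congr rfl fun a _ => ?_
  rw [LinearMap.sub_apply, LinearMap.smul_apply, LinearMap.smul_apply, imD_apply, reD_apply,
    smul_eq_mul, smul_eq_mul, Complex.mul_im, Complex.conj_re, Complex.conj_im]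
  ring

/-- **the standard contact form of `ℂ^m`** -/
def th0 (z : Fin m → ℂ) : Ext (Fin m → ℂ) := io (Lth z)

theorem th0_eq : (th0 : (Fin m → ℂ) → Ext (Fin m → ℂ)) =
    fun z => ∑ a, (reL m a z • io (imD m a) - imL m a z • io (reD m a)) := by
  funext z
  rw [th0, Lth, map_sum]
  refine Finset.sum_congr rfl fun a _ => ?_
  rw [map_sub, map_smul, map_smul]; rfl

theorem contDiff_th0 {k : WithTop ℕ∞} : ContDiff ℝ k (th0 : (Fin m → ℂ) → Ext (Fin m → ℂ)) := by
  rw [th0_eq]
  refine ContDiff.sum fun a _ => ?_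
  have h1 : ContDiff ℝ k (fun z : Fin m → ℂ => reL m a z • (io (imD m a) : Ext (Fin m → ℂ))) :=
    (reL m a).contDiff.fun_smul contDiff_const
  have h2 : ContDiff ℝ k (fun z : Fin m → ℂ => imL m a z • (io (reD m a) : Ext (Fin m → ℂ))) :=
    (imL m a).contDiff.fun_smul contDiff_const
  exact h1.sub h2

theorem d_th0 (z : Fin m → ℂ) : F.d th0 z = (2 : ℝ) • ∑ a, io (reD m a) * io (imD m a) := by
  have h1 : ∀ a, DifferentiableAt ℝ
      (fun z : Fin m → ℂ => reL m a z • (io (imD m a) : Ext (Fin m → ℂ))) z := fun a =>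
    (reL m a).differentiableAt.fun_smul (differentiableAt_const _)
  have h2 : ∀ a, DifferentiableAt ℝ
      (fun z : Fin m → ℂ => imL m a z • (io (reD m a) : Ext (Fin m → ℂ))) z := fun a =>
    (imL m a).differentiableAt.fun_smul (differentiableAt_const _)
  rw [th0_eq, F.d_sum _ (fun a _ => (h1 a).fun_sub (h2 a)), Finset.smul_sum]
  refine Finset.sum_congr rfl fun a _ => ?_
  rw [F.d_sub (h1 a) (h2 a),
    F.d_smul (reL m a).differentiableAt (differentiableAt_const _),
    F.d_smul (imL m a).differentiableAt (differentiableAt_const _), F.d_const, F.d_const,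
    smul_zero, smul_zero, add_zero, add_zero]
  have e1 : fderiv ℝ (fun y => reL m a y) z = reL m a := (reL m a).hasFDerivAt.fderiv
  have e2 : fderiv ℝ (fun y => imL m a y) z = imL m a := (imL m a).hasFDerivAt.fderiv
  rw [e1, e2]
  change io (reD m a) * io (imD m a) - io (imD m a) * io (reD m a) = _
  rw [io_anti (imD m a) (reD m a), sub_neg_eq_add, two_smul]

theorem Lth_rot (u : ℂ) (hu : ‖u‖ = 1) (z v : Fin m → ℂ) : Lth (u • z) (u • v) = Lth z v := by
  rw [Lth_apply, Lth_apply]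
  refine Finset.sum_congr rfl fun a _ => ?_
  have h1 : conj ((u • z) a) * (u • v) a = (conj u * u) * (conj (z a) * v a) := by
    simp only [Pi.smul_apply, smul_eq_mul, map_mul]; ring
  have h2 : conj u * u = 1 := by
    rw [mul_comm, Complex.mul_conj, Complex.normSq_eq_norm_sq, hu]; simp
  rw [h1, h2, one_mul]

theorem Lth_I {z : Fin m → ℂ} (hz : ∑ a, ‖z a‖ ^ 2 = 1) : Lth z (Complex.I • z) = 1 := by
  rw [Lth_apply, ← hz]
  refine Finset.sum_congr rfl fun a _ => ?_
  have : conj (z a) * (Complex.I • z) a = Complex.I * ((‖z a‖ ^ 2 : ℝ) : ℂ) := by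
    rw [Pi.smul_apply, smul_eq_mul, ← Complex.normSq_eq_norm_sq, ← Complex.mul_conj]; ring
  rw [this, Complex.im_mul_ofReal, Complex.I_im, one_mul]

end th0

/-! ### connections -/

variable {E : Type} [NormedAddCommGroup E] [NormedSpace ℝ E] [FiniteDimensional ℝ E]
  {X : Set E} {φ : ℝ → E → E} {g : E → Fin m → ℂ} {n : ℕ}

/-- **connection of a free circle action** -/
structure Conn (X : Set E) (φ : ℝ → E → E) (al : E → Ext E) : Prop where
  sm : Sm X al
  hom : Hom 1 al
  unit : ∀ x ∈ X, ii (gen φ x) (al x) = 1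
  inv : ∀ t, Eqv X (F.pull (φ t) al) al

/-- the connection form of the embedding -/
def th (g : E → Fin m → ℂ) : E → Ext E := F.pull g th0

theorem isDeg_io {T : Type*} [AddCommGroup T] [Module ℝ T] (l : Module.Dual ℝ T) :
    IsDeg 1 (io l) := by
  have h := IsDeg.iMulti (p := 1) (fun _ => l)
  have e : ExteriorAlgebra.ιMulti ℝ 1 (fun _ => l) = io l := by
    rw [ExteriorAlgebra.ιMulti_apply]; simp
  rwa [e] at h

theorem pull_rot (u : ℂ) (hu : ‖u‖ = 1) :
    F.pull (fun z : Fin m → ℂ => u • z) th0 = th0 := by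
  funext z
  have h1 : fderiv ℝ (fun z : Fin m → ℂ => u • z) z =
      (u • ContinuousLinearMap.id ℂ (Fin m → ℂ)).restrictScalars ℝ :=
    ((u • ContinuousLinearMap.id ℂ (Fin m → ℂ)).restrictScalars ℝ).hasFDerivAt.fderiv
  rw [F.pull, h1, th0, th0, pb_io]
  congr 1
  refine LinearMap.ext fun v => ?_
  exact Lth_rot u hu z v

namespace Emb

theorem smap_g (hg : Emb X φ g) : SMap X univ g := ⟨hg.smooth, fun x _ => mem_univ _⟩

theorem conn_th (hg : Emb X φ g) (h : Cir X φ) : Conn X φ (th g) := by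
  have hsg : Sm univ (th0 : (Fin m → ℂ) → Ext (Fin m → ℂ)) := fun z _ => contDiff_th0.contDiffAt
  refine ⟨Sm.pull hg.smap_g hsg, fun x => (isDeg_io _).pb _, fun x hx => ?_, fun t => ?_⟩
  · rw [th, F.pull, ii_pb]
    have h1 : ((fderiv ℝ g x : E →L[ℝ] (Fin m → ℂ)) : E →ₗ[ℝ] (Fin m → ℂ)) (gen φ x) =
        Complex.I • g x := hg.fderiv_g_gen h hx
    rw [h1, th0, ii_io, Lth_I (hg.unit x hx), map_one, map_one]
  · set u : ℂ := Complex.exp (t * Complex.I) with hu
    have hu1 : ‖u‖ = 1 := Complex.norm_exp_ofReal_mul_I t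
    have hgd : ∀ x ∈ X, DifferentiableAt ℝ g x := fun x hx => (hg.smooth x hx).differentiableAt (by simp)
    have hφd : ∀ x ∈ X, DifferentiableAt ℝ (φ t) x := fun x hx =>
      (h.smooth_right t hx).differentiableAt (by simp)
    have hcomp : ∀ x ∈ X, DifferentiableAt ℝ (g ∘ φ t) x := fun x hx =>
      (hgd _ (h.maps t hx)).comp x (hφd x hx)
    have hud : ∀ z : Fin m → ℂ, DifferentiableAt ℝ (fun z : Fin m → ℂ => u • z) z := fun z =>
      differentiableAt_id.const_smul u
    have e1 : Eqv X (F.pull (φ t) (th g)) (F.pull (g ∘ φ t) th0) := by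
      refine Eqv.of_eq fun x hx => ?_
      rw [th]
      exact F.pull_comp (hφd x hx) (hgd _ (h.maps t hx))
    have e2 : Eqv X (F.pull (g ∘ φ t) th0) (F.pull ((fun z : Fin m → ℂ => u • z) ∘ g) th0) :=
      T.eqv_pull_of_eq _ hcomp (fun x hx => (hud _).comp x (hgd x hx)) (fun x hx => hg.equi x hx t)
    have e3 : Eqv X (F.pull ((fun z : Fin m → ℂ => u • z) ∘ g) th0) (th g) := by
      refine Eqv.of_eq fun x hx => ?_
      rw [← F.pull_comp (hgd x hx) (hud _), pull_rot u hu1, th]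
    exact (e1.trans e2).trans e3

/-- the curvature of the standard connection -/
theorem d_th (hg : Emb X φ g) {x : E} (hx : x ∈ X) : F.d (th g) x = (2 : ℝ) • ∑ a,
    io (reD m a ∘ₗ (fderiv ℝ g x : E →ₗ[ℝ] (Fin m → ℂ))) *
      io (imD m a ∘ₗ (fderiv ℝ g x : E →ₗ[ℝ] (Fin m → ℂ))) := by
  rw [th, F.d_pull ((hg.smooth x hx).of_le FI.two_le_infty)
    (contDiff_th0.contDiffAt (n := ∞) |>.differentiableAt (by simp))]
  rw [F.pull, d_th0, map_smul, map_sum]
  congr 1
  refine Finset.sum_congr rfl fun a _ => ?_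
  rw [map_mul, pb_io, pb_io]

/-- the entries of the frame are linear -/
def Lfm (p : RI m) (s : Fin 2) : (Fin m → ℂ) →L[ℝ] ℝ :=
  if s = 0 then (if p.2 = 0 then reL m p.1 else imL m p.1)
        else (if p.2 = 0 then - imL m p.1 else reL m p.1)

theorem fm_eq (p : RI m) (s : Fin 2) (z : Fin m → ℂ) : fm z p ((), s) = Lfm p s z := by
  obtain ⟨a, r⟩ := p
  rw [Lfm]
  fin_cases s <;> fin_cases r <;> simp [fm]

theorem dlg (hg : Emb X φ g) {x : E} (hx : x ∈ X) (p : RI m) (s : Fin 2) :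
    dl X (fun y => (fm (g y)).map (algebraMap ℝ ℂ)) x p ((), s) =
      Cx.ofR (io ((if s = 0 then (if p.2 = 0 then reD m p.1 else imD m p.1)
        else (if p.2 = 0 then - imD m p.1 else reD m p.1)) ∘ₗ
          (fderiv ℝ g x : E →ₗ[ℝ] (Fin m → ℂ)) ∘ₗ (Tan X x).subtype)) := by
  set L : (Fin m → ℂ) →L[ℝ] ℝ := Lfm p s with hL
  have hfm : ∀ z : Fin m → ℂ, fm z p ((), s) = L z := fm_eq p s
  have hLD : (L : (Fin m → ℂ) →ₗ[ℝ] ℝ) = (if s = 0 then (if p.2 = 0 then reD m p.1 else imD m p.1)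
        else (if p.2 = 0 then - imD m p.1 else reD m p.1)) := by
    rw [hL, Lfm]
    split_ifs <;> rfl
  rw [← hLD]
  have hgd : DifferentiableAt ℝ g x := (hg.smooth x hx).differentiableAt (by simp)
  have hd : HasFDerivAt (fun y => L (g y)) (L.comp (fderiv ℝ g x)) x :=
    L.hasFDerivAt.comp x hgd.hasFDerivAt
  have h1 : DD (fun y => (fm (g y)).map (algebraMap ℝ ℂ)) x p ((), s) =
      Cx.ofR (io ((L.comp (fderiv ℝ g x) : E →L[ℝ] ℝ) : Module.Dual ℝ E)) := by
    rw [DD_apply]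
    refine Cx.ext ?_ ?_
    · change F.d (fun y => algebraMap ℝ (Ext E) (((fm (g y) p ((), s) : ℝ) : ℂ).re)) x = _
      simp only [Complex.ofReal_re, hfm]
      rw [d_fun hd.differentiableAt, hd.fderiv]
      rfl
    · change F.d (fun y => algebraMap ℝ (Ext E) (((fm (g y) p ((), s) : ℝ) : ℂ).im)) x = 0
      simp only [Complex.ofReal_im, map_zero]
      exact F.d_const _ _
  have h2 : dl X (fun y => (fm (g y)).map (algebraMap ℝ ℂ)) x p ((), s)
      = rs X x (DD (fun y => (fm (g y)).map (algebraMap ℝ ℂ)) x p ((), s)) := rfl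
  rw [h2, h1]
  refine Cx.ext ?_ ?_
  · change pb (Tan X x).subtype (io _) = _
    rw [pb_io]; rfl
  · exact map_zero (pb (Tan X x).subtype)

theorem mtx_mE' {k : Type} [Fintype k] [DecidableEq k] (S : Matrix k k ℝ) :
    mtx (T.mE S) = S.map (algebraMap ℝ ℂ) := by
  ext i j
  rw [T.mtx_mE, T.mE_single]; rfl

/-- **the Euler form of the tautological line pulls back to `-2 dθ`** -/
theorem pull_eR (hg : Emb X φ g) (h : Cir X φ) :
    Eqv X (F.pull (jj g) (T.eR (PL (m := m)) WL)) ((-2 : ℝ) • F.d (th g)) := by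
  refine eqv_iff.2 fun x hx => ?_
  have hP : ∀ Q : MM m, SM 1 (fun y : MM m => mtx (PL y)) Q := fun Q i j => by
    have h1 : (fun y : MM m => mtx (PL y) i j) = fun y => ((PL y (EuclideanSpace.single j 1) i : ℝ) : ℂ) := rfl
    rw [h1]
    have h2 : ContDiff ℝ 1 (fun y : MM m => PL y (EuclideanSpace.single j 1)) :=
      (ContinuousLinearMap.apply ℝ _ (EuclideanSpace.single j (1 : ℝ))).contDiff.comp contDiff_PL
    exact (Complex.ofRealCLM.contDiff.comp ((EuclideanSpace.proj i).contDiff.comp h2)).contDiffAt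
  have h1 : F.pull (jj g) (T.eR (PL (m := m)) WL) x =
      (ef (fun y => mtx (PL (jj g y))) (fun y => wC WL (jj g y)) x).re := by
    rw [← pullC_ef (P := fun y => mtx (PL y)) (W := fun y => wC WL y)
      ((hg.contDiffAt_jj hx).of_le FI.two_le_infty) (hP _)]
    rfl
  rw [h1]
  have hff : ∀ i j, ContDiffAt ℝ 1 (fun y => (fm (g y)).map (algebraMap ℝ ℂ) i j) x := by
    rintro p ⟨⟨⟩, s⟩
    have e1 : (fun y => (fm (g y)).map (algebraMap ℝ ℂ) p ((), s)) =
        fun y => ((Lfm p s (g y) : ℝ) : ℂ) := by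
      funext y
      rw [← fm_eq]; rfl
    have e2 : ContDiff ℝ 1 (fun z : Fin m → ℂ => ((Lfm p s z : ℝ) : ℂ)) :=
      Complex.ofRealCLM.contDiff.comp (Lfm p s).contDiff
    rw [e1]
    exact e2.contDiffAt.comp x ((hg.smooth x hx).of_le one_le_inf)
  have hf : SM 1 (fun y => (fm (g y)).map (algebraMap ℝ ℂ)) x := hff
  have hP1 : SM 1 (fun y => mtx (PL (jj g y))) x :=
    (hP (jj g x)).comp ((hg.contDiffAt_jj hx).of_le one_le_inf)
  have h1' : ∀ y ∈ X, ((fm (g y)).map (algebraMap ℝ ℂ)).transpose * (fm (g y)).map (algebraMap ℝ ℂ) = 1 := by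
    intro y hy
    have h0 : ((fm (g y)).map (algebraMap ℝ ℂ)).transpose = (fm (g y)).transpose.map (algebraMap ℝ ℂ) := rfl
    rw [h0, ← Matrix.map_mul, fm_tr_mul (hg.unit y hy)]
    exact Matrix.map_one _ (map_zero _) (map_one _)
  have h2' : ∀ y ∈ X, mtx (PL (jj g y)) =
      (fm (g y)).map (algebraMap ℝ ℂ) * ((fm (g y)).map (algebraMap ℝ ℂ)).transpose := by
    intro y hy
    have h0 : ((fm (g y)).map (algebraMap ℝ ℂ)).transpose = (fm (g y)).transpose.map (algebraMap ℝ ℂ) := rfl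
    rw [h0, ← Matrix.map_mul, ← Pm_jj, PL, mtx_mE']
  have h3' : ∀ I, wC WL (jj g x) I = (((fm (g x)).map (algebraMap ℝ ℂ)).submatrix I id).det := by
    intro I
    rw [wC, WL_jj]
    exact RingHom.map_det (algebraMap ℝ ℂ) ((fm (g x)).submatrix I id)
  have h2 := rs_ef_frame2 (X := X) (x := x) (P := fun y => mtx (PL (jj g y)))
    (W := fun y => wC WL (jj g y)) (f := fun y => (fm (g y)).map (algebraMap ℝ ℂ)) hx
    hf hP1 h1' h2' h3' (hg.dlg hx)
  have h3 := congrArg Cx.re h2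
  refine Eq.trans h3 ?_
  change (2 : ℝ) • ∑ p : RI m, _ = pb (Tan X x).subtype ((-2 : ℝ) • F.d (th g) x)
  rw [map_smul, hg.d_th hx, map_smul, map_sum, smul_smul, Fintype.sum_prod_type]
  simp only [Fin.sum_univ_two, if_true, one_ne_zero, if_false]
  rw [Finset.smul_sum, Finset.smul_sum]
  refine Finset.sum_congr rfl fun a _ => ?_
  rw [map_mul, pb_io, pb_io, LinearMap.neg_comp, map_neg, mul_neg,
    io_anti (imD m a ∘ₗ _) (reD m a ∘ₗ _), ← two_smul ℝ (-_), smul_smul, smul_neg, ← neg_smul]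
  norm_num
  rfl

end Emb

end Crest.Agent.R208.CM
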