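import Crest.Agent.R208.CM4a

/-! Row 208, block CM (helper423), part CM4b: equivariant fields of orthogonal projections descend
to the quotient of a free circle action. -/

set_option autoImplicit false
set_option linter.unusedSectionVars false
set_option linter.unusedVariables false

open Set Filter Topology Module MeasureTheory
open scoped ContDiff RealInnerProductSpace
open Crest.Agent.R208.F Crest.Agent.R208.FI

noncomputable section

namespace Crest.Agent.R208.CM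

local notation "π" => Real.pi

section desc
variable {E : Type*} [NormedAddCommGroup E] [NormedSpace ℝ E]
  {W V : Type*} [NormedAddCommGroup W] [InnerProductSpace ℝ W] [FiniteDimensional ℝ W]
  [NormedAddCommGroup V] [InnerProductSpace ℝ V] [FiniteDimensional ℝ V]
  {X : Set E} {φ : ℝ → E → E} {R : ℝ → W →L[ℝ] W} {T : E → W →L[ℝ] V} {P : E → W →L[ℝ] W}

/-- trivialisation of the representation `R` along the action `φ` on `X` -/
structure Triv (X : Set E) (φ : ℝ → E → E) (R : ℝ → W →L[ℝ] W) (T : E → W →L[ℝ] V) : Prop where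
  smooth : ∀ x ∈ X, ContDiffAt ℝ ∞ T x
  iso : ∀ x ∈ X, ∀ w, ‖T x w‖ = ‖w‖
  equi : ∀ x ∈ X, ∀ t w, T (φ t x) (R t w) = T x w

theorem Rep.inner (hR : Rep R) (t : ℝ) (v w : W) : ⟪R t v, R t w⟫ = ⟪v, w⟫ := by
  have h := fun v => hR.iso t v
  have h1 := real_inner_eq_norm_add_mul_self_sub_norm_mul_self_sub_norm_mul_self_div_two (R t v) (R t w)
  rw [← map_add, h, h, h, ← real_inner_eq_norm_add_mul_self_sub_norm_mul_self_sub_norm_mul_self_div_two] at h1
  exact h1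

theorem Rep.inner_neg (hR : Rep R) (t : ℝ) (v w : W) : ⟪R (-t) v, w⟫ = ⟪v, R t w⟫ := by
  rw [← hR.inner t, hR.add_neg]

namespace Triv

theorem inner (hT : Triv X φ R T) {x : E} (hx : x ∈ X) (v w : W) : ⟪T x v, T x w⟫ = ⟪v, w⟫ := by
  have h := fun v => hT.iso x hx v
  have h1 := real_inner_eq_norm_add_mul_self_sub_norm_mul_self_sub_norm_mul_self_div_two (T x v) (T x w)
  rw [← map_add, h, h, h, ← real_inner_eq_norm_add_mul_self_sub_norm_mul_self_sub_norm_mul_self_div_two] at h1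
  exact h1

theorem adj (hT : Triv X φ R T) {x : E} (hx : x ∈ X) (w : W) :
    ContinuousLinearMap.adjoint (T x) (T x w) = w := by
  refine ext_inner_right ℝ fun v => ?_
  rw [ContinuousLinearMap.adjoint_inner_left, hT.inner hx]

theorem inj (hT : Triv X φ R T) {x : E} (hx : x ∈ X) : Function.Injective (T x) := fun v w h => by
  have := congrArg (ContinuousLinearMap.adjoint (T x)) h
  rwa [hT.adj hx, hT.adj hx] at this

theorem equi' (hT : Triv X φ R T) (hR : Rep R) {x : E} (hx : x ∈ X) (t : ℝ) (w : W) :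
    T (φ t x) w = T x (R (-t) w) := by
  rw [← hT.equi x hx t, hR.add_neg]

theorem adj_equi (hT : Triv X φ R T) (hR : Rep R) {x : E} (hx : x ∈ X) (t : ℝ) (v : V) :
    ContinuousLinearMap.adjoint (T (φ t x)) v = R t (ContinuousLinearMap.adjoint (T x) v) := by
  refine ext_inner_right ℝ fun w => ?_
  rw [ContinuousLinearMap.adjoint_inner_left, hT.equi' hR hx,
    ← ContinuousLinearMap.adjoint_inner_left, ← hR.inner_neg (-t), neg_neg]

end Triv

/-- the descended field on `X` -/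
def Qd (T : E → W →L[ℝ] V) (P : E → W →L[ℝ] W) (x : E) : V →L[ℝ] V :=
  (T x).comp ((P x).comp (ContinuousLinearMap.adjoint (T x)))

theorem Qd_apply (x : E) (v : V) : Qd T P x v = T x (P x (ContinuousLinearMap.adjoint (T x) v)) := rfl

namespace Triv

theorem contDiffAt_Qd (hT : Triv X φ R T) {x : E} (hx : x ∈ X) (hP : ContDiffAt ℝ ∞ P x) :
    ContDiffAt ℝ ∞ (Qd T P) x := by
  have ha : ContDiffAt ℝ ∞ (fun y => ContinuousLinearMap.adjoint (T y)) x :=
    (ContinuousLinearMap.adjoint (𝕜 := ℝ) (E := W)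
      (F := V)).toContinuousLinearEquiv.contDiff.contDiffAt.comp x (hT.smooth x hx)
  exact (hT.smooth x hx).clm_comp (hP.clm_comp ha)

theorem Qd_T (hT : Triv X φ R T) {x : E} (hx : x ∈ X) (w : W) : Qd T P x (T x w) = T x (P x w) := by
  rw [Qd_apply, hT.adj hx]

theorem Qd_inv (hT : Triv X φ R T) (hR : Rep R) {x : E} (hx : x ∈ X) (t : ℝ)
    (he : ∀ w, P (φ t x) (R t w) = R t (P x w)) : Qd T P (φ t x) = Qd T P x := by
  ext v
  rw [Qd_apply, Qd_apply, hT.adj_equi hR hx, he, hT.equi x hx]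

theorem Qd_idem (hT : Triv X φ R T) {x : E} (hx : x ∈ X) (hi : ∀ v, P x (P x v) = P x v) (v : V) :
    Qd T P x (Qd T P x v) = Qd T P x v := by
  rw [Qd_apply x v, hT.Qd_T hx, hi]

theorem Qd_symm {x : E} (hs : ∀ v w, ⟪P x v, w⟫ = ⟪v, P x w⟫) (v w : V) :
    ⟪Qd T P x v, w⟫ = ⟪v, Qd T P x w⟫ := by
  have h1 : ⟪T x (P x (ContinuousLinearMap.adjoint (T x) v)), w⟫
      = ⟪P x (ContinuousLinearMap.adjoint (T x) v), ContinuousLinearMap.adjoint (T x) w⟫ :=
    (ContinuousLinearMap.adjoint_inner_right (T x) _ w).symm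
  have h2 : ⟪v, T x (P x (ContinuousLinearMap.adjoint (T x) w))⟫
      = ⟪ContinuousLinearMap.adjoint (T x) v, P x (ContinuousLinearMap.adjoint (T x) w)⟫ :=
    (ContinuousLinearMap.adjoint_inner_left (T x) _ v).symm
  rw [Qd_apply, Qd_apply, h1, h2, hs]

/-- the range of the descended field -/
theorem mem_range (hT : Triv X φ R T) {x : E} (hx : x ∈ X) {v : V} (hv : Qd T P x v = v) :
    T x (ContinuousLinearMap.adjoint (T x) v) = v ∧
      P x (ContinuousLinearMap.adjoint (T x) v) = ContinuousLinearMap.adjoint (T x) v := by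
  have h1 : ContinuousLinearMap.adjoint (T x) v = P x (ContinuousLinearMap.adjoint (T x) v) := by
    conv_lhs => rw [← hv]
    rw [Qd_apply, hT.adj hx]
  refine ⟨?_, h1.symm⟩
  rw [h1]
  exact hv

theorem range_Qd (hT : Triv X φ R T) {x : E} (hx : x ∈ X) :
    LinearMap.range (Qd T P x : V →ₗ[ℝ] V)
      = (LinearMap.range (P x : W →ₗ[ℝ] W)).map (T x : W →ₗ[ℝ] V) := by
  ext v
  constructor
  · rintro ⟨u, rfl⟩
    exact ⟨_, ⟨_, rfl⟩, rfl⟩
  · rintro ⟨w, ⟨u, rfl⟩, rfl⟩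
    refine ⟨T x u, ?_⟩
    exact hT.Qd_T hx u

theorem finrank_Qd (hT : Triv X φ R T) {x : E} (hx : x ∈ X) :
    finrank ℝ (LinearMap.range (Qd T P x : V →ₗ[ℝ] V))
      = finrank ℝ (LinearMap.range (P x : W →ₗ[ℝ] W)) := by
  rw [hT.range_Qd hx]
  exact (Submodule.equivMapOfInjective (T x : W →ₗ[ℝ] V) (hT.inj hx) _).symm.finrank_eq

end Triv

variable {B : Type*} [NormedAddCommGroup B] [NormedSpace ℝ B] {q : E → B} {r : ℕ}
  {P' : B → V →L[ℝ] V}

/-- the descended field is a field of projections of the same rank -/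
theorem Triv.pfield_desc (hT : Triv X φ R T) (hP : PField X r P)
    (hs : ∀ x ∈ X, ContDiffAt ℝ ∞ P' (q x)) (h : ∀ x ∈ X, P' (q x) = Qd T P x) :
    PField (q '' X) r P' := by
  refine ⟨?_, ?_, ?_⟩
  · rintro _ ⟨x, hx, rfl⟩
    exact hs x hx
  · rintro _ ⟨x, hx, rfl⟩ v
    rw [h x hx]
    exact hT.Qd_idem hx (hP.idem x hx) v
  · rintro _ ⟨x, hx, rfl⟩
    rw [h x hx, hT.finrank_Qd hx, hP.rank x hx]

theorem Triv.symm_desc (hsym : ∀ x ∈ X, ∀ v w, ⟪P x v, w⟫ = ⟪v, P x w⟫)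
    (h : ∀ x ∈ X, P' (q x) = Qd T P x) {y : B} (hy : y ∈ q '' X) (v w : V) :
    ⟪P' y v, w⟫ = ⟪v, P' y w⟫ := by
  obtain ⟨x, hx, rfl⟩ := hy
  rw [h x hx]
  exact Triv.Qd_symm (hsym x hx) v w

/-! the total spaces and sphere bundles -/

/-- the map of total spaces -/
def Th (q : E → B) (T : E → W →L[ℝ] V) (z : E × W) : B × V := (q z.1, T z.1 z.2)

/-- the action on total spaces -/
def phR (φ : ℝ → E → E) (R : ℝ → W →L[ℝ] W) (t : ℝ) (z : E × W) : E × W := (φ t z.1, R t z.2)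

theorem Triv.Th_phR (hT : Triv X φ R T) (hq : ∀ x ∈ X, ∀ t, q (φ t x) = q x) (t : ℝ) {z : E × W}
    (hz : z.1 ∈ X) : Th q T (phR φ R t z) = Th q T z := by
  refine Prod.ext (hq _ hz t) ?_
  exact hT.equi _ hz t z.2

theorem Triv.norm_Th (hT : Triv X φ R T) {z : E × W} (hz : z.1 ∈ X) : ‖(Th q T z).2‖ = ‖z.2‖ :=
  hT.iso _ hz _

theorem Triv.Th_mem (hT : Triv X φ R T) (h : ∀ x ∈ X, P' (q x) = Qd T P x) {z : E × W}
    (hz : z ∈ Tot X P) : Th q T z ∈ Tot (q '' X) P' := by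
  refine ⟨⟨z.1, hz.1, rfl⟩, ?_⟩
  change P' (q z.1) (T z.1 z.2) = T z.1 z.2
  rw [h _ hz.1, hT.Qd_T hz.1, hz.2]

theorem Triv.Th_surj (hT : Triv X φ R T) (h : ∀ x ∈ X, P' (q x) = Qd T P x) {y : B × V}
    (hy : y ∈ Tot (q '' X) P') : ∃ z ∈ Tot X P, Th q T z = y := by
  obtain ⟨⟨x, hx, hxy⟩, h2⟩ := hy
  rw [← hxy, h x hx] at h2
  obtain ⟨h3, h4⟩ := hT.mem_range hx h2
  exact ⟨(x, ContinuousLinearMap.adjoint (T x) y.2), ⟨hx, h4⟩, Prod.ext hxy h3⟩

theorem Triv.Th_image (hT : Triv X φ R T) (h : ∀ x ∈ X, P' (q x) = Qd T P x) :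
    Th q T '' Tot X P = Tot (q '' X) P' := by
  ext y
  constructor
  · rintro ⟨z, hz, rfl⟩; exact hT.Th_mem h hz
  · intro hy
    obtain ⟨z, hz, rfl⟩ := hT.Th_surj h hy
    exact ⟨z, hz, rfl⟩

theorem Triv.Th_eq_iff (hT : Triv X φ R T) (hR : Rep R)
    (hq : ∀ x ∈ X, ∀ y ∈ X, q x = q y ↔ ∃ t, y = φ t x) {z z' : E × W} (hz : z.1 ∈ X)
    (hz' : z'.1 ∈ X) : Th q T z = Th q T z' ↔ ∃ t, z' = phR φ R t z := by
  constructor
  · intro h
    have h1 : q z.1 = q z'.1 := congrArg Prod.fst h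
    have h2 : T z.1 z.2 = T z'.1 z'.2 := congrArg Prod.snd h
    obtain ⟨t, ht⟩ := (hq _ hz _ hz').1 h1
    refine ⟨t, Prod.ext ht ?_⟩
    rw [ht, hT.equi' hR hz] at h2
    have h3 := hT.inj hz h2
    change z'.2 = R t z.2
    rw [h3, hR.add_neg]
  · rintro ⟨t, rfl⟩
    refine Prod.ext ((hq _ hz _ hz').2 ⟨t, rfl⟩) ?_
    exact (hT.equi _ hz t z.2).symm

/-- the action on the total space of an equivariant field -/
theorem Cir.tot (h : Cir X φ) (hR : Rep R)
    (he : ∀ x ∈ X, ∀ t w, P (φ t x) (R t w) = R t (P x w)) : Cir (Tot X P) (phR φ R) where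
  smooth := by
    intro t z hz
    have h1 : ContDiffAt ℝ ∞ (fun q : ℝ × (E × W) => φ q.1 q.2.1) (t, z) :=
      ContDiffAt.comp (g := fun q : ℝ × E => φ q.1 q.2) (t, z) (h.smooth t z.1 hz.1)
        (contDiffAt_fst.prodMk (contDiffAt_fst.comp (t, z) contDiffAt_snd))
    have h2 : ContDiffAt ℝ ∞ (fun q : ℝ × (E × W) => R q.1 q.2.2) (t, z) :=
      ((hR.smooth.contDiffAt).comp (t, z) contDiffAt_fst).clm_apply
        (contDiffAt_snd.comp (t, z) contDiffAt_snd)
    exact h1.prodMk h2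
  maps := by
    intro t z hz
    refine ⟨h.maps t hz.1, ?_⟩
    change P (φ t z.1) (R t z.2) = R t z.2
    rw [he _ hz.1, hz.2]
  zero := fun z hz => Prod.ext (h.zero _ hz.1) (hR.zero _)
  add := fun s t z hz => Prod.ext (h.add s t _ hz.1) (hR.add s t _)
  per := fun z hz => Prod.ext (h.per _ hz.1) (hR.per _)
  free := fun t z hz hzt => h.free t _ hz.1 (congrArg Prod.fst hzt)

end desc

end Crest.Agent.R208.CM
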