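import Crest.Agent.R208.CW5d
import Crest.Agent.R208.SP9

/-! Row 208, block CW (helper586).  CW7: orientations, unitary frames; the Euler class of a real
bundle with an arbitrary complex structure is, up to sign, the top Chern class. -/

set_option autoImplicit false
set_option linter.unusedSectionVars false
set_option linter.unusedSimpArgs false
set_option linter.unusedVariables false

open scoped BigOperators ContDiff Topology
open Module Set Matrix

noncomputable section

namespace Crest.Agent.R208.CW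

open Crest.Agent.R208.F Crest.Agent.R208.FI

universe u

section pt
variable {ι n m : Type*} [Fintype ι] [DecidableEq ι] [Fintype n] [DecidableEq n] [Fintype m]
  [DecidableEq m]

/-- orientation tensors are unique up to sign -/
theorem Fr.unique {P : Matrix n n ℂ} {W W' : (ι × Fin 2 → n) → ℂ} (h : Fr P W) (h' : Fr P W') :
    W' = W ∨ W' = - W := by
  obtain ⟨f, f1, f2, f3⟩ := h
  obtain ⟨g, g1, g2, g3⟩ := h'
  set O := fᵀ * g with hO
  have e1 : f * O = g := by
    rw [hO, ← Matrix.mul_assoc, f2, ← g2, Matrix.mul_assoc, g1, Matrix.mul_one]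
  have e2 : Oᵀ * O = 1 := by
    rw [hO, transpose_mul, transpose_transpose, Matrix.mul_assoc, ← Matrix.mul_assoc f, f2, ← g2,
      Matrix.mul_assoc g, g1, Matrix.mul_one, g1]
  have e3 := congrArg Matrix.det e2
  rw [det_mul, det_transpose, det_one] at e3
  have e4 : ∀ I, W' I = W I * O.det := fun I => by
    rw [g3, f3, ← det_mul, ← e1]; rfl
  rcases mul_self_eq_one_iff.1 e3 with h | h
  · left; funext I; rw [e4, h, mul_one]
  · right; funext I; rw [e4, h, mul_neg, mul_one]; rfl

theorem Fr.ne_zero {P : Matrix n n ℂ} {W : (ι × Fin 2 → n) → ℂ} (h : Fr P W) : W ≠ 0 := by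
  obtain ⟨f, f1, f2, f3⟩ := h
  intro h0
  have e := pushW_frame (fᵀ) f f3 id
  rw [f1] at e
  have e2 : ((1 : Matrix (ι × Fin 2) (ι × Fin 2) ℂ).submatrix (id : ι × Fin 2 → ι × Fin 2) id).det
      = 1 := by rw [submatrix_id_id, det_one]
  rw [e2, pushW, h0] at e
  simp at e

/-- Hermitian idempotents have unitary frames -/
theorem exists_unitary {Q : Matrix n n ℂ} (hQ : Q * Q = Q) (hH : Qᴴ = Q)
    (hr : Q.rank = Fintype.card ι) : ∃ z : Matrix n ι ℂ, zᴴ * z = 1 ∧ z * zᴴ = Q := by
  have hA : Q.IsHermitian := hH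
  set U : Matrix n n ℂ := (hA.eigenvectorUnitary : Matrix n n ℂ) with hU
  have hUU : Uᴴ * U = 1 := Matrix.UnitaryGroup.star_mul_self hA.eigenvectorUnitary
  set L : n → ℂ := fun i => (hA.eigenvalues i : ℂ) with hL
  have hs : Q = U * Matrix.diagonal L * Uᴴ := hA.spectral_theorem
  have hL2 : ∀ i, L i * L i = L i := by
    have e1 : Uᴴ * Q * U = Matrix.diagonal L := by
      rw [hs]
      calc Uᴴ * (U * Matrix.diagonal L * Uᴴ) * U
          = (Uᴴ * U) * Matrix.diagonal L * (Uᴴ * U) := by simp only [Matrix.mul_assoc]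
        _ = _ := by rw [hUU, Matrix.one_mul, Matrix.mul_one]
    have hUU' : U * Uᴴ = 1 := mul_eq_one_comm.1 hUU
    have e2 : Matrix.diagonal L * Matrix.diagonal L = Matrix.diagonal L := by
      rw [← e1]
      calc Uᴴ * Q * U * (Uᴴ * Q * U) = Uᴴ * Q * (U * Uᴴ) * Q * U := by
            simp only [Matrix.mul_assoc]
        _ = Uᴴ * (Q * Q) * U := by rw [hUU', Matrix.mul_one]; simp only [Matrix.mul_assoc]
        _ = _ := by rw [hQ]
    intro i
    have := congrFun (congrFun e2 i) i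
    rw [diagonal_mul_diagonal, diagonal_apply_eq, diagonal_apply_eq] at this
    exact this
  have hcard : Fintype.card ι = Fintype.card {i // hA.eigenvalues i ≠ 0} := by
    rw [← hr, hA.rank_eq_card_non_zero_eigs]
  let e : ι ≃ {i // hA.eigenvalues i ≠ 0} := Fintype.equivOfCardEq hcard
  refine ⟨U.submatrix id (fun j => (e j).1), ?_, ?_⟩
  · refine Matrix.ext fun j k => ?_
    have := congrFun (congrFun hUU (e j).1) (e k).1
    rw [Matrix.mul_apply] at this ⊢
    rw [show (∑ a, (U.submatrix id (fun j => (e j).1))ᴴ j a * U.submatrix id (fun j => (e j).1) a k)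
      = _ from this, Matrix.one_apply, Matrix.one_apply]
    have : ((e j).1 = (e k).1) ↔ j = k :=
      ⟨fun h => e.injective (Subtype.ext h), fun h => by rw [h]⟩
    simp only [this]
  · refine Matrix.ext fun a c => ?_
    have h1 : Q a c = ∑ i, U a i * L i * Uᴴ i c := by
      conv_lhs => rw [hs]
      rw [Matrix.mul_apply]
      exact Finset.sum_congr rfl fun i _ => by rw [Matrix.mul_diagonal]
    rw [h1, Matrix.mul_apply]
    have h2 : ∑ i, U a i * L i * Uᴴ i c
        = ∑ i : {i // hA.eigenvalues i ≠ 0}, U a i * L i * Uᴴ i c := by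
      rw [← Finset.sum_subtype (s := Finset.univ.filter fun i => hA.eigenvalues i ≠ 0)
        (p := fun i => hA.eigenvalues i ≠ 0) (by simp) (fun i => U a i * L i * Uᴴ i c)]
      symm
      refine Finset.sum_subset (Finset.filter_subset _ _) fun i _ hi => ?_
      have : hA.eigenvalues i = 0 := by simpa using hi
      rw [hL]; simp only [this]; simp
    rw [h2, ← e.sum_comp]
    refine Finset.sum_congr rfl fun j _ => ?_
    have h3 : L (e j).1 = 1 := by
      have h4 : L (e j).1 ≠ 0 := by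
        have := (e j).2
        rw [hL]; simpa using this
      exact mul_left_cancel₀ h4 (by rw [hL2, mul_one])
    rw [h3, mul_one]
    rfl

open SP in
/-- the `+i` eigenprojection -/
def qJ (P J : Matrix n n ℂ) : Matrix n n ℂ := ((1 : ℂ) / 2) • P + Complex.I • ((1 : ℂ) / 2) • (- J)

/-- data of a real complex structure at a point -/
structure RJ (P J : Matrix n n ℂ) : Prop where
  cP : SP.cj P = P
  cJ : SP.cj J = J
  Pt : Pᵀ = P
  PP : P * P = P
  JJ : J * J = -P
  JP : J * P = J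
  PJ : P * J = J

theorem RJ.qJ_idem {P J : Matrix n n ℂ} (h : RJ P J) : qJ P J * qJ P J = qJ P J := by
  rw [qJ, cv_mul]
  simp only [Matrix.smul_mul, Matrix.mul_smul, Matrix.neg_mul, Matrix.mul_neg, h.PP, h.PJ,
    h.JP, h.JJ, smul_smul, neg_neg, smul_neg]
  module

theorem RJ.J_qJ {P J : Matrix n n ℂ} (h : RJ P J) : J * qJ P J = Complex.I • qJ P J := by
  rw [qJ, Matrix.mul_add, Matrix.mul_smul, Matrix.mul_smul, Matrix.mul_smul, Matrix.mul_neg, h.JP,
    h.JJ, smul_add, smul_smul, smul_smul, smul_smul, neg_neg, Complex.I_mul_I]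
  module

theorem cj_map (M : Matrix n n ℂ) : SP.cj M = M.map (starRingEnd ℂ) := rfl

theorem RJ.conj_qJ {P J : Matrix n n ℂ} (h : RJ P J) :
    (qJ P J).map (starRingEnd ℂ) = ((1 : ℂ) / 2) • P + Complex.I • ((1 : ℂ) / 2) • J := by
  have h1 : ∀ i j, (starRingEnd ℂ) (P i j) = P i j := fun i j => congrFun (congrFun h.cP i) j
  have h2 : ∀ i j, (starRingEnd ℂ) (J i j) = J i j := fun i j => congrFun (congrFun h.cJ i) j
  refine Matrix.ext fun i j => ?_
  simp only [qJ, map_apply, Matrix.add_apply, Matrix.smul_apply, Matrix.neg_apply, smul_eq_mul,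
    map_add, map_mul, map_neg, h1, h2, Complex.conj_I, map_div₀, map_one, map_ofNat]
  ring

theorem exists_FrJ {P J : Matrix n n ℂ} (h : RJ P J) (hJt : Jᵀ = -J)
    (hr : P.trace = 2 * (Fintype.card ι : ℂ)) :
    ∃ W : (ι × Fin 2 → n) → ℂ, FrJ P J W := by
  set Q := qJ P J with hQ
  have hcj1 : ∀ i j, (starRingEnd ℂ) (P i j) = P i j := fun i j => congrFun (congrFun h.cP i) j
  have hcj2 : ∀ i j, (starRingEnd ℂ) (J i j) = J i j := fun i j => congrFun (congrFun h.cJ i) j
  have hQt : Qᵀ = Q.map (starRingEnd ℂ) := by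
    rw [hQ, h.conj_qJ, qJ, transpose_add, transpose_smul, transpose_smul, transpose_smul,
      transpose_neg, h.Pt, hJt, neg_neg]
  have hQQ : Q * Q = Q := h.qJ_idem
  have hcc : ∀ M : Matrix n ι ℂ, (M.map (starRingEnd ℂ)).map (starRingEnd ℂ) = M := fun M =>
    Matrix.ext fun i j => Complex.conj_conj _
  have hQH : Qᴴ = Q := by
    have e : Qᴴ = (Q.map (starRingEnd ℂ))ᵀ := rfl
    rw [e, ← hQt, transpose_transpose]
  have htJ : J.trace = 0 := by
    have h1 := trace_transpose J
    rw [hJt, trace_neg] at h1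
    have h2 : (2 : ℂ) * J.trace = 0 := by linear_combination -h1
    exact (mul_eq_zero.1 h2).resolve_left two_ne_zero
  have hrank : Q.rank = Fintype.card ι := by
    have h1 := rank_eq_trace hQQ
    rw [hQ, qJ, trace_add, trace_smul, trace_smul, trace_smul, trace_neg, htJ, hr, neg_zero,
      smul_zero, smul_zero, add_zero, smul_eq_mul] at h1
    have h2 : ((qJ P J).rank : ℂ) = (Fintype.card ι : ℂ) := by rw [qJ, h1]; ring
    exact_mod_cast h2
  obtain ⟨z, z1, z2⟩ := exists_unitary (ι := ι) hQQ hQH hrank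
  set zb : Matrix n ι ℂ := z.map (starRingEnd ℂ) with hzb
  have zH : zᴴ = zbᵀ := rfl
  rw [zH] at z1 z2
  have z1' : zᵀ * zb = 1 := by
    have := congrArg Matrix.transpose z1
    rwa [transpose_mul, transpose_transpose, transpose_one] at this
  have z2' : zb * zᵀ = Qᵀ := by
    have := congrArg Matrix.transpose z2
    rwa [transpose_mul, transpose_transpose] at this
  have hQz : Q * z = z := by rw [← z2, Matrix.mul_assoc, z1, Matrix.mul_one]
  have hQzb : Qᵀ * zb = zb := by rw [← z2', Matrix.mul_assoc, z1', Matrix.mul_one]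
  have hJz : J * z = Complex.I • z := by
    conv_lhs => rw [← hQz, ← Matrix.mul_assoc, h.J_qJ, Matrix.smul_mul, hQz]
  have hJzb : J * zb = -(Complex.I • zb) := by
    have e1 : J * zb = (J * z).map (starRingEnd ℂ) := by
      rw [Matrix.map_mul]
      congr 1
      exact (Matrix.ext fun i j => hcj2 i j).symm
    rw [e1, hJz]
    refine Matrix.ext fun i j => ?_
    simp [hzb]
  have hQQt : Qᵀ * Q = 0 := by
    rw [hQt, hQ, h.conj_qJ, qJ, cv_mul]
    simp only [Matrix.smul_mul, Matrix.mul_smul, Matrix.neg_mul, Matrix.mul_neg, h.PP, h.PJ,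
      h.JP, h.JJ, smul_smul, neg_neg, smul_neg]
    module
  have z3 : zᵀ * z = 0 := by
    have e : zᵀ = zᵀ * Qᵀ := by rw [← transpose_mul, hQz]
    conv_lhs => rw [e, ← hQz, Matrix.mul_assoc, ← Matrix.mul_assoc Qᵀ, hQQt, Matrix.zero_mul,
      Matrix.mul_zero]
  have z3' : zbᵀ * zb = 0 := by
    have e : zbᵀ * zb = (zᵀ * z).map (starRingEnd ℂ) := by
      rw [Matrix.map_mul]; rfl
    rw [e, z3]
    exact Matrix.map_zero _ (map_zero _)
  set c : ℂ := ((Real.sqrt 2 : ℝ) : ℂ)⁻¹ with hc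
  have hcc2 : c * c = 1 / 2 := sqrt2_sq
  set u : Matrix n ι ℂ := c • (z + zb) with hu
  have hJu : J * u = c • (Complex.I • (z - zb)) := by
    rw [hu, Matrix.mul_smul, Matrix.mul_add, hJz, hJzb]
    module
  have hII : ∀ M : Matrix ι ι ℂ, Complex.I • Complex.I • M = -M := fun M => by
    rw [smul_smul, Complex.I_mul_I, neg_one_smul]
  have hII' : ∀ M : Matrix n n ℂ, Complex.I • Complex.I • M = -M := fun M => by
    rw [smul_smul, Complex.I_mul_I, neg_one_smul]
  have b1 : uᵀ * u = 1 := by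
    rw [hu, transpose_smul, transpose_add, Matrix.smul_mul, Matrix.mul_smul, smul_smul, hcc2,
      Matrix.add_mul, Matrix.mul_add, Matrix.mul_add, z1, z1', z3, z3']
    module
  have b2 : uᵀ * (J * u) = 0 := by
    rw [hJu, hu, transpose_smul, transpose_add, Matrix.smul_mul, Matrix.mul_smul, Matrix.mul_smul,
      Matrix.add_mul, Matrix.mul_sub, Matrix.mul_sub, z1, z1', z3, z3']
    simp
  have b3 : (J * u)ᵀ * (J * u) = 1 := by
    rw [hJu, transpose_smul, transpose_smul, transpose_sub, Matrix.smul_mul, Matrix.mul_smul,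
      Matrix.smul_mul, Matrix.mul_smul, hII, smul_smul, hcc2,
      Matrix.sub_mul, Matrix.mul_sub, Matrix.mul_sub, z1, z1', z3, z3']
    module
  have b4 : u * uᵀ + (J * u) * (J * u)ᵀ = P := by
    rw [hJu, hu, transpose_smul, transpose_smul, transpose_smul, transpose_sub, transpose_add,
      Matrix.smul_mul, Matrix.mul_smul, Matrix.smul_mul, Matrix.mul_smul, Matrix.smul_mul,
      Matrix.mul_smul, hII', smul_smul, smul_smul, hcc2,
      Matrix.sub_mul, Matrix.mul_sub, Matrix.mul_sub, Matrix.add_mul, Matrix.mul_add,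
      Matrix.mul_add, z2, z2', hQt, hQ, h.conj_qJ, qJ]
    module
  set f : Matrix n (ι × Fin 2) ℂ := Matrix.of fun a p => if p.2 = 0 then u a p.1 else (J * u) a p.1
    with hf
  have hf0 : ∀ a j, f a (j, 0) = u a j := fun a j => by simp [hf]
  have hf1 : ∀ a j, f a (j, 1) = (J * u) a j := fun a j => by simp [hf]
  have b2' : (J * u)ᵀ * u = 0 := by
    have := congrArg Matrix.transpose b2
    rwa [transpose_mul, transpose_transpose, transpose_zero] at this
  refine ⟨fun I => (f.submatrix I id).det, u, f, hf0, hf1, ?_, ?_, fun I => rfl⟩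
  · refine Matrix.ext fun p q => ?_
    obtain ⟨j, e⟩ := p
    obtain ⟨k, e'⟩ := q
    rw [Matrix.mul_apply]
    fin_cases e <;> fin_cases e'
    · have := congrFun (congrFun b1 j) k
      rw [Matrix.mul_apply] at this
      simp only [Fin.zero_eta, transpose_apply, hf0] at this ⊢
      rw [this]; simp [Matrix.one_apply]
    · have := congrFun (congrFun b2 j) k
      rw [Matrix.mul_apply] at this
      simp only [Fin.zero_eta, Fin.mk_one, transpose_apply, hf0, hf1] at this ⊢
      rw [this]; simp [Matrix.one_apply]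
    · have := congrFun (congrFun b2' j) k
      rw [Matrix.mul_apply] at this
      simp only [Fin.zero_eta, Fin.mk_one, transpose_apply, hf0, hf1] at this ⊢
      rw [this]; simp [Matrix.one_apply]
    · have := congrFun (congrFun b3 j) k
      rw [Matrix.mul_apply] at this
      simp only [Fin.mk_one, transpose_apply, hf1] at this ⊢
      rw [this]; simp [Matrix.one_apply]
  · rw [← b4]
    refine Matrix.ext fun a c => ?_
    rw [Matrix.mul_apply, Fintype.sum_prod_type, Matrix.add_apply, Matrix.mul_apply (M := u),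
      Matrix.mul_apply (M := J * u), ← Finset.sum_add_distrib]
    refine Finset.sum_congr rfl fun j _ => ?_
    rw [Fin.sum_univ_two]
    simp only [transpose_apply, hf0, hf1]

/-- the orientation tensor of a complex structure -/
def wJ (ι : Type*) [Fintype ι] [DecidableEq ι] (J : Matrix n n ℂ) (I : ι × Fin 2 → n) : ℂ :=
  ((-1) ^ Fintype.card ι * ((2 : ℂ) ^ Fintype.card ι * (Fintype.card ι).factorial)⁻¹)
    * PF.pfS (J.submatrix I I)

theorem FrJ.eq_wJ {P J : Matrix n n ℂ} {W : (ι × Fin 2 → n) → ℂ} (h : FrJ P J W) (hJt : Jᵀ = -J)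
    (hJ : J * J = -P) (hJP : J * P = J) : W = wJ ι J := by
  obtain ⟨u, f, hu, hJu, h1, h2, h3⟩ := h
  obtain ⟨hPu, hJd, hPd⟩ := unit_frame hu hJu h1 h2 hJt hJ hJP
  funext I
  have e1 : J = (-1 : ℂ) • (f * PF.stdJ ι ℂ * fᵀ) := by
    have g1 : ∀ a p, (f * PF.stdJ ι ℂ) a p = if p.2 = 0 then - f a (p.1, 1) else f a (p.1, 0) := by
      intro a p
      obtain ⟨j, e⟩ := p
      rw [Matrix.mul_apply, Fintype.sum_prod_type, Finset.sum_eq_single j]
      · rw [Fin.sum_univ_two]
        fin_cases e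
        · simp [PF.stdJ]
        · simp [PF.stdJ]
      · intro k _ hk
        rw [Fin.sum_univ_two]
        simp [PF.stdJ, hk]
      · intro h0; exact absurd (Finset.mem_univ _) h0
    have g2 : J = (J * u) * uᵀ - u * (J * u)ᵀ := by
      have : u * (J * u)ᵀ = - (u * uᵀ * J) := by
        rw [transpose_mul, hJt, Matrix.mul_neg, Matrix.mul_neg, Matrix.mul_assoc]
      rw [this, sub_neg_eq_add, Matrix.mul_assoc, ← hJd]
    refine Matrix.ext fun a c => ?_
    conv_lhs => rw [g2]
    rw [Matrix.sub_apply, Matrix.mul_apply (M := J * u), Matrix.mul_apply (M := u),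
      Matrix.smul_apply, Matrix.mul_apply, Fintype.sum_prod_type, ← Finset.sum_sub_distrib,
      Finset.smul_sum]
    refine Finset.sum_congr rfl fun j _ => ?_
    rw [Fin.sum_univ_two]
    simp only [g1, transpose_apply, hu, hJu, if_true, one_ne_zero, if_false, smul_eq_mul]
    ring
  have e2 : J.submatrix I I
      = (-1 : ℂ) • (((f.submatrix I id)ᵀ)ᵀ * PF.stdJ ι ℂ * (f.submatrix I id)ᵀ) := by
    rw [transpose_transpose]
    conv_lhs => rw [e1]
    rfl
  rw [wJ, e2, PF.pfS_smul, PF.pfS_congr, PF.pfS_stdJ, det_transpose, h3]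
  have hne : ((2 : ℂ) ^ Fintype.card ι * (Fintype.card ι).factorial) ≠ 0 :=
    mul_ne_zero (pow_ne_zero _ two_ne_zero) (Nat.cast_ne_zero.2 (Nat.factorial_ne_zero _))
  have h11 : ((-1 : ℂ) ^ Fintype.card ι) * ((-1) ^ Fintype.card ι) = 1 := by
    rw [← mul_pow]; norm_num
  set κ : ℂ := (2 : ℂ) ^ Fintype.card ι * (Fintype.card ι).factorial with hκ
  have e3 : (-1) ^ Fintype.card ι * κ⁻¹ * ((-1) ^ Fintype.card ι * ((f.submatrix I id).det * κ))
      = ((-1) ^ Fintype.card ι * (-1) ^ Fintype.card ι) * (f.submatrix I id).det * (κ⁻¹ * κ) := by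
    ring
  rw [e3, h11, inv_mul_cancel₀ hne]; ring

/-! ### orthogonalisation of a complex structure -/

/-- the metric making `J` orthogonal -/
def gG (J : Matrix n n ℂ) : Matrix n n ℂ := 1 + Jᵀ * J

open scoped ComplexOrder in
theorem RJ.dom {P J : Matrix n n ℂ} (h : RJ P J) : SP.Dom (gG J) := by
  intro t ht
  have hJH : Jᴴ = Jᵀ := by
    have : Jᴴ = (SP.cj J)ᵀ := rfl
    rw [this, h.cJ]
  have e : gG J + algebraMap ℂ (Matrix n n ℂ) t
      = ((1 + t : ℝ) : ℂ) • (1 : Matrix n n ℂ) + Jᴴ * J := by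
    rw [gG, hJH, Algebra.algebraMap_eq_smul_one]
    push_cast
    rw [add_smul, one_smul]; abel
  rw [e]
  have h1 : (((1 + t : ℝ) : ℂ) • (1 : Matrix n n ℂ)).PosDef :=
    Matrix.PosDef.one.smul (by
      rw [Complex.zero_lt_real]; linarith)
  exact (h1.add_posSemidef (Matrix.posSemidef_conjTranspose_mul_self J)).isUnit

/-- the square root of the metric -/
def rR (J : Matrix n n ℂ) : Matrix n n ℂ := SP.sq (gG J)

theorem RJ.rR_sq {P J : Matrix n n ℂ} (h : RJ P J) : rR J * rR J = gG J := SP.sq_mul_self h.dom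

theorem RJ.rR_t {P J : Matrix n n ℂ} (h : RJ P J) : (rR J)ᵀ = rR J := by
  symm
  refine SP.sq_eq_of (x := (rR J)ᵀ) (fun z hz => ?_) ?_
  · have h1 := SP.rhp_sq h.dom z hz
    have e : (rR J)ᵀ - algebraMap ℂ (Matrix n n ℂ) z
        = (SP.sq (gG J) - algebraMap ℂ (Matrix n n ℂ) z)ᵀ := by
      rw [transpose_sub, Algebra.algebraMap_eq_smul_one, transpose_smul, transpose_one]; rfl
    rw [e]
    rw [Matrix.isUnit_iff_isUnit_det] at h1 ⊢
    rwa [det_transpose]
  · rw [← transpose_mul, h.rR_sq, gG, transpose_add, transpose_one, transpose_mul,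
      transpose_transpose]

theorem RJ.rR_cj {P J : Matrix n n ℂ} (h : RJ P J) : SP.cj (rR J) = rR J := by
  symm
  refine SP.sq_eq_of (x := SP.cj (rR J)) (SP.rhp_sq h.dom).cj ?_
  have e : SP.cj (Jᵀ) = (SP.cj J)ᵀ := rfl
  rw [← map_mul, h.rR_sq, gG, map_add, map_one, map_mul, e, h.cJ]

theorem RJ.comm_P {P J : Matrix n n ℂ} (h : RJ P J) : rR J * P = P * rR J := by
  refine (SP.sq_commute (a := gG J) (b := P) ?_).eq
  rw [Commute, SemiconjBy, gG, Matrix.add_mul, Matrix.mul_add, Matrix.one_mul, Matrix.mul_one,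
    Matrix.mul_assoc, h.JP, ← Matrix.mul_assoc]
  have : P * Jᵀ = Jᵀ := by
    have := congrArg Matrix.transpose h.JP
    rwa [transpose_mul, h.Pt] at this
  rw [this]

theorem RJ.rR_unit {P J : Matrix n n ℂ} (h : RJ P J) : IsUnit (rR J) := (SP.rhp_sq h.dom).isUnit

/-- inverse of the square root -/
def vR (J : Matrix n n ℂ) : Matrix n n ℂ := Ring.inverse (rR J)

theorem RJ.rv {P J : Matrix n n ℂ} (h : RJ P J) : rR J * vR J = 1 :=
  Ring.mul_inverse_cancel _ h.rR_unit
theorem RJ.vr {P J : Matrix n n ℂ} (h : RJ P J) : vR J * rR J = 1 :=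
  Ring.inverse_mul_cancel _ h.rR_unit

theorem RJ.vt {P J : Matrix n n ℂ} (h : RJ P J) : (vR J)ᵀ = vR J := by
  have e := congrArg Matrix.transpose h.rv
  rw [transpose_mul, h.rR_t, transpose_one] at e
  calc (vR J)ᵀ = (vR J)ᵀ * (rR J * vR J) := by rw [h.rv, Matrix.mul_one]
    _ = vR J := by rw [← Matrix.mul_assoc, e, Matrix.one_mul]

theorem RJ.vcj {P J : Matrix n n ℂ} (h : RJ P J) : SP.cj (vR J) = vR J := by
  have e := congrArg SP.cj h.vr
  rw [map_mul, h.rR_cj, map_one] at e
  calc SP.cj (vR J) = SP.cj (vR J) * (rR J * vR J) := by rw [h.rv, Matrix.mul_one]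
    _ = vR J := by rw [← Matrix.mul_assoc, e, Matrix.one_mul]

theorem RJ.vP {P J : Matrix n n ℂ} (h : RJ P J) : vR J * P = P * vR J := by
  calc vR J * P = vR J * (P * (rR J * vR J)) := by rw [h.rv, Matrix.mul_one]
    _ = vR J * (P * rR J) * vR J := by simp only [Matrix.mul_assoc]
    _ = vR J * rR J * P * vR J := by rw [← h.comm_P]; simp only [Matrix.mul_assoc]
    _ = _ := by rw [h.vr, Matrix.one_mul]

/-- the orthogonalised complex structure -/
def oJ (J : Matrix n n ℂ) : Matrix n n ℂ := rR J * J * vR J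

theorem RJ.orth {P J : Matrix n n ℂ} (h : RJ P J) : RJ P (oJ J) := by
  refine ⟨h.cP, ?_, h.Pt, h.PP, ?_, ?_, ?_⟩
  · rw [oJ, map_mul, map_mul, h.rR_cj, h.cJ, h.vcj]
  · calc oJ J * oJ J = rR J * J * (vR J * rR J) * J * vR J := by
          rw [oJ]; simp only [Matrix.mul_assoc]
      _ = rR J * (J * J) * vR J := by rw [h.vr, Matrix.mul_one]; simp only [Matrix.mul_assoc]
      _ = -(rR J * P * vR J) := by rw [h.JJ, Matrix.mul_neg, Matrix.neg_mul]
      _ = -(P * (rR J * vR J)) := by rw [h.comm_P, Matrix.mul_assoc]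
      _ = -P := by rw [h.rv, Matrix.mul_one]
  · rw [oJ, Matrix.mul_assoc, h.vP, ← Matrix.mul_assoc, Matrix.mul_assoc (rR J), h.JP]
  · rw [oJ, ← Matrix.mul_assoc, ← Matrix.mul_assoc, ← h.comm_P, Matrix.mul_assoc (rR J), h.PJ]

theorem RJ.orth_t {P J : Matrix n n ℂ} (h : RJ P J) : (oJ J)ᵀ = - oJ J := by
  have e1 : Jᵀ * gG J = - (gG J * J) := by
    have f1 : Jᵀ * Jᵀ = -P := by rw [← transpose_mul, h.JJ, transpose_neg, h.Pt]
    have f2 : Jᵀ * P = Jᵀ := by
      have := congrArg Matrix.transpose h.PJ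
      rwa [transpose_mul, h.Pt] at this
    rw [gG, Matrix.mul_add, Matrix.add_mul, Matrix.mul_one, Matrix.one_mul, ← Matrix.mul_assoc, f1,
      Matrix.mul_assoc Jᵀ J J, h.JJ, Matrix.mul_neg, f2, Matrix.neg_mul, h.PJ]
    abel
  rw [oJ, transpose_mul, transpose_mul, h.vt, h.rR_t]
  calc vR J * (Jᵀ * rR J) = vR J * (Jᵀ * (rR J * rR J)) * vR J := by
        rw [Matrix.mul_assoc, Matrix.mul_assoc, Matrix.mul_assoc, h.rv, Matrix.mul_one]
    _ = -(vR J * (rR J * rR J) * J * vR J) := by
        rw [h.rR_sq, e1]; simp only [Matrix.mul_neg, Matrix.neg_mul, Matrix.mul_assoc]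
    _ = -(vR J * rR J * (rR J * J * vR J)) := by simp only [Matrix.mul_assoc]
    _ = _ := by rw [h.vr, Matrix.one_mul]

theorem RJ.qJ_orth {P J : Matrix n n ℂ} (h : RJ P J) : qJ P (oJ J) = rR J * qJ P J * vR J := by
  have e : rR J * P * vR J = P := by rw [h.comm_P, Matrix.mul_assoc, h.rv, Matrix.mul_one]
  rw [qJ, qJ, oJ, Matrix.mul_add, Matrix.add_mul, Matrix.mul_smul, Matrix.smul_mul, e]
  simp only [Matrix.mul_smul, Matrix.smul_mul, Matrix.mul_neg, Matrix.neg_mul]

theorem RJ.pIso {P J : Matrix n n ℂ} (h : RJ P J) :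
    SP.PIso (qJ P J) (qJ P (oJ J)) (rR J * qJ P J) (qJ P J * vR J) := by
  have hq := h.qJ_idem
  have hrv := h.rv
  have hvr := h.vr
  refine ⟨?_, ?_, ?_, ?_, ?_, ?_⟩
  · rw [Matrix.mul_assoc, hq]
  · rw [h.qJ_orth]
    calc rR J * qJ P J * vR J * (rR J * qJ P J) = rR J * qJ P J * (vR J * rR J) * qJ P J := by
          simp only [Matrix.mul_assoc]
      _ = rR J * (qJ P J * qJ P J) := by rw [hvr, Matrix.mul_one, Matrix.mul_assoc]
      _ = _ := by rw [hq]
  · rw [h.qJ_orth]
    calc qJ P J * vR J * (rR J * qJ P J * vR J) = qJ P J * (vR J * rR J) * qJ P J * vR J := by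
          simp only [Matrix.mul_assoc]
      _ = _ := by rw [hvr, Matrix.mul_one, hq]
  · rw [← Matrix.mul_assoc, hq]
  · calc qJ P J * vR J * (rR J * qJ P J) = qJ P J * (vR J * rR J) * qJ P J := by
          simp only [Matrix.mul_assoc]
      _ = _ := by rw [hvr, Matrix.mul_one, hq]
  · rw [h.qJ_orth, ← Matrix.mul_assoc, Matrix.mul_assoc (rR J), hq]

end pt

end Crest.Agent.R208.CW
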