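import Crest.Agent.R208.CM4b
import Crest.Agent.R208.CM2b
import Crest.Agent.R208.CW7
import Crest.Agent.R208.T2d

/-! Row 208, block CM (helper423), part CM4c: equivariant (oriented) fields of orthogonal projections
descend to `Quo X g`. -/

set_option autoImplicit false
set_option linter.unusedSectionVars false
set_option linter.unusedVariables false

open Set Filter Topology Module MeasureTheory
open scoped ContDiff RealInnerProductSpace Matrix
open Crest.Agent.R208.F Crest.Agent.R208.FI Crest.Agent.R208.CW Crest.Agent.R208.T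

noncomputable section

namespace Crest.Agent.R208.CM

local notation "π" => Real.pi

/-! ### the matrix of a linear map -/
section mat
variable {n p : Type} [Fintype n] [DecidableEq n] [Fintype p] [DecidableEq p]

/-- the matrix of a linear map of Euclidean spaces -/
def MT (A : EuclideanSpace ℝ n →L[ℝ] EuclideanSpace ℝ p) : Matrix p n ℝ :=
  Matrix.of fun i j => A (EuclideanSpace.single j 1) i

theorem mE_MT (A : EuclideanSpace ℝ n →L[ℝ] EuclideanSpace ℝ p) (v : EuclideanSpace ℝ n) :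
    mE (MT A) v = A v := by
  ext i
  rw [mE_apply]
  have h1 : v = ∑ j, v j • (EuclideanSpace.single j (1 : ℝ)) := by
    ext k
    simp [Finset.sum_apply, Pi.single_apply]
  conv_rhs => rw [h1]
  rw [map_sum]
  simp only [map_smul, WithLp.ofLp_sum, WithLp.ofLp_smul, Finset.sum_apply, Pi.smul_apply,
    smul_eq_mul, MT, Matrix.of_apply]
  exact Finset.sum_congr rfl fun j _ => mul_comm _ _

theorem adjoint_mE (S : Matrix p n ℝ) (v : EuclideanSpace ℝ p) :
    ContinuousLinearMap.adjoint (mE S) v = mE Sᵀ v := by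
  refine ext_inner_right ℝ fun w => ?_
  rw [ContinuousLinearMap.adjoint_inner_left]
  have h1 := mE_inner S w v
  rw [PiLp.inner_apply, PiLp.inner_apply]
  simp only [RCLike.inner_apply, conj_trivial]
  have h2 : ∑ i, mE S w i * v i = ∑ i, v i * mE S w i :=
    Finset.sum_congr rfl fun i _ => mul_comm _ _
  have h3 : ∑ j, w j * mE Sᵀ v j = ∑ j, mE Sᵀ v j * w j :=
    Finset.sum_congr rfl fun i _ => mul_comm _ _
  rw [h2, h3, h1]

theorem mE_injective {S S' : Matrix p n ℝ} (h : mE S = mE S') : S = S' := by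
  ext i j
  have h1 : ∀ S : Matrix p n ℝ, mE S (EuclideanSpace.single j 1) i = S i j := fun S => by
    simp [mE_apply]
  rw [← h1 S, ← h1 S', h]

theorem MT_iso {A : EuclideanSpace ℝ n →L[ℝ] EuclideanSpace ℝ p} (hA : ∀ w, ‖A w‖ = ‖w‖) :
    (MT A)ᵀ * MT A = 1 := by
  refine mE_injective ?_
  ext1 w
  rw [← mE_mE, mE_one]
  refine ext_inner_right ℝ fun v => ?_
  rw [← adjoint_mE, ContinuousLinearMap.adjoint_inner_left, mE_MT, mE_MT]
  have h1 := real_inner_eq_norm_add_mul_self_sub_norm_mul_self_sub_norm_mul_self_div_two (A w) (A v)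
  rw [← map_add, hA, hA, hA,
    ← real_inner_eq_norm_add_mul_self_sub_norm_mul_self_sub_norm_mul_self_div_two] at h1
  exact h1

end mat

section OR
variable {E : Type} [NormedAddCommGroup E] [NormedSpace ℝ E] [FiniteDimensional ℝ E]
  {n p : Type} [Fintype n] [DecidableEq n] [Fintype p] [DecidableEq p]
  {ι : Type} [Fintype ι] [DecidableEq ι]
  {X : Set E} {φ : ℝ → E → E} {R : ℝ → EuclideanSpace ℝ n →L[ℝ] EuclideanSpace ℝ n}
  {T : E → EuclideanSpace ℝ n →L[ℝ] EuclideanSpace ℝ p}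
  {P : E → EuclideanSpace ℝ n →L[ℝ] EuclideanSpace ℝ n} {W : E → (ι × Fin 2 → n) → ℝ}

/-- the descended orientation tensor -/
def Wd (T : E → EuclideanSpace ℝ n →L[ℝ] EuclideanSpace ℝ p) (W : E → (ι × Fin 2 → n) → ℝ) (x : E) :
    (ι × Fin 2 → p) → ℝ := pushR (MT (T x)) (W x)

theorem Triv.or_Qd (hT : Triv X φ R T) (h : OR X P W) : OR X (Qd T P) (Wd T W) := by
  refine ⟨fun x hx => hT.contDiffAt_Qd hx (h.sP x hx), fun x hx J => ?_, fun x hx => ?_⟩
  · refine ContDiffAt.sum fun I _ => ContDiffAt.mul ?_ (h.sW x hx I)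
    refine contDiffAt_prod fun k _ => ?_
    have h1 : ContDiffAt ℝ ∞ (fun y => T y (EuclideanSpace.single (I k) 1)) x :=
      (hT.smooth x hx).clm_apply contDiffAt_const
    exact (contDiff_coord (J k)).contDiffAt.comp x h1
  · obtain ⟨f, h1, h2, h3⟩ := h.fr x hx
    have hS := MT_iso (hT.iso x hx)
    refine ⟨MT (T x) * f, ?_, fun v i => ?_, fun J => pushR_frame _ f h3 J⟩
    · rw [Matrix.transpose_mul, Matrix.mul_assoc, ← Matrix.mul_assoc (MT (T x))ᵀ, hS,
        Matrix.one_mul, h1]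
    · have e0 : T x = mE (MT (T x)) := by ext1 v; rw [mE_MT]
      have e1 : Qd T P x v = mE (MT (T x)) (mE (f * fᵀ) (mE (MT (T x))ᵀ v)) := by
        rw [Qd_apply, ← adjoint_mE, ← e0]
        congr 1
        ext k
        rw [h2, mE_apply]
      rw [e1, mE_mE, mE_mE, mE_apply, Matrix.transpose_mul]
      simp only [Matrix.mul_assoc]

/-- **invariance** of the descended orientation tensor: the circle is connected -/
theorem Triv.Wd_inv (h : Cir X φ) (hR : Rep R) (hT : Triv X φ R T) (hO : OR X P W)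
    (he : ∀ x ∈ X, ∀ t w, P (φ t x) (R t w) = R t (P x w)) {x : E} (hx : x ∈ X) (t : ℝ) :
    Wd T W (φ t x) = Wd T W x := by
  have hO' := hT.or_Qd hO
  have hfr : ∀ y ∈ X, Fr (mtx (Qd T P y)) (wC (Wd T W) y) := fun y hy => (OR.of hO').fr y hy
  have hpm : ∀ s, Wd T W (φ s x) = Wd T W x ∨ Wd T W (φ s x) = - Wd T W x := by
    intro s
    have h1 := hfr (φ s x) (h.maps s hx)
    rw [hT.Qd_inv hR hx s (he x hx s)] at h1
    rcases Fr.unique (hfr x hx) h1 with h2 | h2
    · left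
      funext J
      have := congrFun h2 J
      simp only [wC] at this
      exact_mod_cast this
    · right
      funext J
      have := congrFun h2 J
      simp only [wC, Pi.neg_apply] at this
      rw [Pi.neg_apply]
      exact_mod_cast this
  have hne : Wd T W x ≠ 0 := by
    intro h0
    refine Fr.ne_zero (hfr x hx) ?_
    funext J
    simp [wC, h0]
  obtain ⟨J, hJ⟩ := Function.ne_iff.1 hne
  have hJ' : Wd T W x J ≠ 0 := hJ
  have hcont : Continuous fun s => Wd T W (φ s x) J := by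
    rw [continuous_iff_continuousAt]
    intro s
    have h1 : ContinuousAt (fun y => Wd T W y J) (φ s x) :=
      (hO'.sW _ (h.maps s hx) J).continuousAt
    exact ContinuousAt.comp (g := fun y => Wd T W y J) (f := fun s => φ s x) h1
      (h.smooth_left s hx).continuousAt
  rcases hpm t with h1 | h1
  · exact h1
  · exfalso
    set c := Wd T W x J with hc
    have h0 : Wd T W (φ 0 x) J = c := by rw [h.zero x hx]
    have ht : Wd T W (φ t x) J = -c := by rw [h1]; rfl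
    have h2 : (0 : ℝ) ∈ (fun s => Wd T W (φ s x) J) '' (uIcc 0 t) := by
      refine intermediate_value_uIcc hcont.continuousOn ?_
      rw [h0, ht, mem_uIcc]
      rcases le_total c 0 with h | h
      · left; exact ⟨h, by linarith⟩
      · right; exact ⟨by linarith, h⟩
    obtain ⟨s, -, hs⟩ := h2
    rcases hpm s with h3 | h3
    · have : Wd T W (φ s x) J = c := by rw [h3]
      exact hJ' (this.symm.trans hs)
    · have : Wd T W (φ s x) J = -c := by rw [h3]; rfl
      have h4 : -c = 0 := this.symm.trans hs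
      exact hJ' (neg_eq_zero.1 h4)

end OR

/-! ### descent to `Quo X g` -/
section final
variable {E : Type} [NormedAddCommGroup E] [NormedSpace ℝ E] [FiniteDimensional ℝ E]
  {X : Set E} {φ : ℝ → E → E} {m d r : ℕ} {g : E → Fin m → ℂ}

/-- **CM4 (PField)** -/
theorem Emb.desc_PField (hg : Emb X φ g) (h : Cir X φ) (hX : Clo (d + 1) X)
    {W V : Type*} [NormedAddCommGroup W] [InnerProductSpace ℝ W] [FiniteDimensional ℝ W]
    [NormedAddCommGroup V] [InnerProductSpace ℝ V] [FiniteDimensional ℝ V]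
    {R : ℝ → W →L[ℝ] W} {T : E → W →L[ℝ] V} {P : E → W →L[ℝ] W}
    (hR : Rep R) (hT : Triv X φ R T) (hP : PField X r P)
    (hsym : ∀ x ∈ X, ∀ v w, ⟪P x v, w⟫ = ⟪v, P x w⟫)
    (he : ∀ x ∈ X, ∀ t w, P (φ t x) (R t w) = R t (P x w)) :
    ∃ P' : MM m → V →L[ℝ] V, ContDiff ℝ ∞ P' ∧ PField (Quo X g) r P' ∧
      (∀ y ∈ Quo X g, ∀ v w, ⟪P' y v, w⟫ = ⟪v, P' y w⟫) ∧ ∀ x ∈ X, P' (jj g x) = Qd T P x := by
  obtain ⟨P', h1, h2⟩ := hg.exists_desc h hX (f := Qd T P)
    (fun x hx => hT.contDiffAt_Qd hx (hP.smooth x hx)) (fun x hx t => hT.Qd_inv hR hx t (he x hx t))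
  exact ⟨P', h1, hT.pfield_desc hP (fun x _ => h1.contDiffAt) h2,
    fun y hy v w => Triv.symm_desc hsym h2 hy v w, h2⟩

/-- **CM4 (OR)** -/
theorem Emb.desc_OR (hg : Emb X φ g) (h : Cir X φ) (hX : Clo (d + 1) X)
    {n p : Type} [Fintype n] [DecidableEq n] [Fintype p] [DecidableEq p]
    {ι : Type} [Fintype ι] [DecidableEq ι]
    {R : ℝ → EuclideanSpace ℝ n →L[ℝ] EuclideanSpace ℝ n}
    {T : E → EuclideanSpace ℝ n →L[ℝ] EuclideanSpace ℝ p}
    {P : E → EuclideanSpace ℝ n →L[ℝ] EuclideanSpace ℝ n} {W : E → (ι × Fin 2 → n) → ℝ}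
    (hR : Rep R) (hT : Triv X φ R T) (hO : OR X P W)
    (he : ∀ x ∈ X, ∀ t w, P (φ t x) (R t w) = R t (P x w)) :
    ∃ (P' : MM m → EuclideanSpace ℝ p →L[ℝ] EuclideanSpace ℝ p) (W' : MM m → (ι × Fin 2 → p) → ℝ),
      ContDiff ℝ ∞ P' ∧ ContDiff ℝ ∞ W' ∧ OR (Quo X g) P' W' ∧
      (∀ x ∈ X, P' (jj g x) = Qd T P x) ∧ ∀ x ∈ X, W' (jj g x) = Wd T W x := by
  have hO' := hT.or_Qd hO
  obtain ⟨P', h1, h2⟩ := hg.exists_desc h hX (f := Qd T P) hO'.sP
    (fun x hx t => hT.Qd_inv hR hx t (he x hx t))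
  obtain ⟨W', h3, h4⟩ := hg.exists_desc h hX (f := Wd T W)
    (fun x hx => contDiffAt_pi.2 fun J => hO'.sW x hx J)
    (fun x hx t => Triv.Wd_inv h hR hT hO he hx t)
  refine ⟨P', W', h1, h3, ⟨fun y _ => h1.contDiffAt, fun y _ I => ?_, ?_⟩, h2, h4⟩
  · exact ((contDiff_apply ℝ ℝ I).comp h3).contDiffAt
  · rintro _ ⟨x, hx, rfl⟩
    obtain ⟨f, f1, f2, f3⟩ := hO'.fr x hx
    refine ⟨f, f1, ?_, ?_⟩
    · rw [h2 x hx]; exact f2
    · rw [h4 x hx]; exact f3

/-- **CM4**: everything at once -/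
theorem Emb.exists_quotient_field (hg : Emb X φ g) (h : Cir X φ) (hX : Clo (d + 1) X)
    {n : Type} [Fintype n] [DecidableEq n] {ι : Type} [Fintype ι] [DecidableEq ι]
    {R : ℝ → EuclideanSpace ℝ n →L[ℝ] EuclideanSpace ℝ n}
    {P : E → EuclideanSpace ℝ n →L[ℝ] EuclideanSpace ℝ n} {W : E → (ι × Fin 2 → n) → ℝ}
    (hR : Rep R) (hO : OR X P W) (he : ∀ x ∈ X, ∀ t w, P (φ t x) (R t w) = R t (P x w)) :
    ∃ (p : ℕ) (T : E → EuclideanSpace ℝ n →L[ℝ] EuclideanSpace ℝ (Fin p))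
      (P' : MM m → EuclideanSpace ℝ (Fin p) →L[ℝ] EuclideanSpace ℝ (Fin p))
      (W' : MM m → (ι × Fin 2 → Fin p) → ℝ), Triv X φ R T ∧
      ContDiff ℝ ∞ P' ∧ ContDiff ℝ ∞ W' ∧ OR (Quo X g) P' W' ∧
      (∀ x ∈ X, P' (jj g x) = Qd T P x) ∧ ∀ x ∈ X, W' (jj g x) = Wd T W x := by
  obtain ⟨p, T, t1, t2, t3⟩ := exists_T hg hR
  have hT : Triv X φ R T := ⟨t1, t2, t3⟩
  obtain ⟨P', W', h1, h2, h3, h4, h5⟩ := hg.desc_OR h hX hR hT hO he
  exact ⟨p, T, P', W', hT, h1, h2, h3, h4, h5⟩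

end final

end Crest.Agent.R208.CM
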