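import Crest.Agent.R208.CM5
import Crest.Agent.R208.CM2

/-!
R208, block CM5b (helper631): `J_fib` for the quotient map `jj g : X → Quo X g` of 971.
-/

set_option autoImplicit false
set_option linter.unusedSectionVars false

open Set Filter Topology Module MeasureTheory
open scoped ContDiff RealInnerProductSpace
open Crest.Agent.R208.F Crest.Agent.R208.FI Crest.Agent.R208.T

noncomputable section

namespace Crest.Agent.R208.CM

variable {E : Type} [NormedAddCommGroup E] [NormedSpace ℝ E] [FiniteDimensional ℝ E]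
variable {X : Set E} {φ : ℝ → E → E} {m n : ℕ} {g : E → Fin m → ℂ}

namespace Emb

/-- the quotient map is a submersion with one-dimensional fibres -/
theorem subm_jj (hg : Emb X φ g) (h : Cir X φ) (hX : Clo (n + 1) X) :
    Subm 1 n X (Quo X g) (jj g) where
  cloZ := by rw [add_comm]; exact hX
  cloX := hg.clo_Quo h hX
  smooth := fun z hz => hg.contDiffAt_jj hz
  mapsTo := fun z hz => jj_mem hz
  sub := fun z hz w hw => by
    rw [hg.Tan_Quo h hX hz, Submodule.mem_map] at hw
    exact hw

/-- **FIBRE INTEGRAL for `X → X/S¹`** -/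
theorem J_fib (hg : Emb X φ g) (h : Cir X φ) (hX : Clo (n + 1) X)
    {al : E → Ext E} (halc : ContinuousOn al X) (hal1 : ∀ x ∈ X, IsDeg 1 (al x))
    (halV : ∀ x ∈ X, evA E 1 (al x) (fun _ => gen φ x) = 1)
    {oB η : MM m → Ext (MM m)} (hoB : Ori n (Quo X g) oB) (hη : ContinuousOn η (Quo X g)) :
    Ori (n + 1) X (fun x => al x * F.pull (jj g) oB x) ∧
      J (n + 1) X (fun x => al x * F.pull (jj g) oB x) (fun x => al x * F.pull (jj g) η x) =
        2 * Real.pi * J n (Quo X g) oB η :=
  CM.J_fib h (hg.subm_jj h hX) (fun x hx t => hg.jj_act hx t)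
    (fun x hx y hy hxy => (hg.jj_eq_iff hx hy).1 hxy.symm) (fun b hb => by
      obtain ⟨x, hx, rfl⟩ := hb; exact ⟨x, hx, rfl⟩) halc hal1 halV hoB hη

end Emb

end Crest.Agent.R208.CM
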