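import Crest.Agent.R208.CM5b
import Crest.Agent.R208.CM3e

/-! Row 208, block CM (helper971), part CM6a: orientation of the quotient and the integral of a
contact volume form. -/

set_option autoImplicit false
set_option linter.unusedSectionVars false
set_option linter.unusedVariables false

open Set Filter Topology Module MeasureTheory
open scoped ContDiff RealInnerProductSpace ComplexConjugate
open Crest.Agent.R208.F Crest.Agent.R208.FI
open Crest.Agent.R208.CW (SMap)
open Crest.Agent.R208.T (Sm Cl Eqv Coh eqv_iff Hom)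

noncomputable section

namespace Crest.Agent.R208.CM

variable {m : ℕ} {E : Type} [NormedAddCommGroup E] [NormedSpace ℝ E] [FiniteDimensional ℝ E]
  {X : Set E} {φ : ℝ → E → E} {g : E → Fin m → ℂ} {n : ℕ} {al : E → Ext E}
  {Fc oB η : MM m → Ext (MM m)}

/-- the values on tangent vectors depend only on the restriction -/
theorem evA_of_res {d : ℕ} {a b : Ext E} {K : Submodule ℝ E} (h : pb K.subtype a = pb K.subtype b)
    {w : Fin d → E} (hw : ∀ i, w i ∈ K) : evA E d a w = evA E d b w := by
  have h1 : ∀ c : Ext E, evA E d c w = evA K d (pb K.subtype c) (fun i => ⟨w i, hw i⟩) := by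
    intro c
    rw [evA_pb]
    rfl
  rw [h1, h1, h]

theorem Ori.of_eqv {d : ℕ} (hX : Clo d X) {o o' : E → Ext E} (h : Ori d X o)
    (hc : ContinuousOn o' X) (he : Eqv X o o') : Ori d X o' := by
  refine ⟨hc, fun x hx => ?_⟩
  have hf := frame_isFrame (hX.finrank_Tan hx)
  rw [← evA_of_res (eqv_iff.1 he x hx) hf.2]
  exact h.ne x hx

/-- the restriction of the degree `d` part is determined by the values on tangent vectors -/
theorem pb_dpl_eq_zero {d : ℕ} {a : Ext E} {K : Submodule ℝ E}
    (h : ∀ w : Fin d → E, (∀ i, w i ∈ K) → evA E d a w = 0) :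
    pb K.subtype (T.dpl d a) = 0 := by
  refine T.ext_evA fun q => ?_
  ext w
  rw [evA_pb, T.evA_dpl]
  by_cases hq : q = d
  · subst hq
    have h1 := h (fun i => K.subtype (w i)) fun i => (w i).2
    rw [if_pos rfl, h1]
    simp
  · rw [if_neg hq]
    simp

/-- **orientation of the quotient** -/
theorem Emb.ori_quo (hg : Emb X φ g) (h : Cir X φ) (hX : Clo (n + 1) X)
    (hal : ∀ x ∈ X, IsDeg 1 (al x)) (hoB : ContinuousOn oB (Quo X g))
    (ho : Ori (n + 1) X (fun x => al x * F.pull (jj g) oB x)) : Ori n (Quo X g) oB := by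
  refine ori_of (hg.clo_Quo h hX) hoB ?_
  rintro _ ⟨x, hx, rfl⟩
  by_contra hcon
  push Not at hcon
  have h1 : pb (Tan (Quo X g) (jj g x)).subtype (T.dpl n (oB (jj g x))) = 0 :=
    pb_dpl_eq_zero fun w hw => hcon w hw
  have h2 := T.pb_pull_eq_zero (hg.differentiableAt_jj hx) (Y := Quo X g)
    (fun z hz => jj_mem hz) h1
  rw [← T.dpl_pb] at h2
  have hf := frame_isFrame (hX.finrank_Tan hx)
  apply ho.ne x hx
  have e1 : n + 1 = 1 + n := add_comm _ _
  have h3 : ∀ w : Fin (1 + n) → E, (∀ i, w i ∈ Tan X x) →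
      evA E (1 + n) (al x * F.pull (jj g) oB x) w = 0 := by
    intro w hw
    rw [evA_mul_dpl (hal x hx)]
    have h4 := evA_of_res (a := al x * T.dpl n (F.pull (jj g) oB x)) (b := 0) (K := Tan X x) (by
      rw [map_mul, map_zero]
      change _ * pb (Tan X x).subtype (T.dpl n (pb _ (oB (jj g x)))) = 0
      rw [h2, mul_zero]) hw
    rw [h4]; simp
  have h5 : ∀ k (e : k = 1 + n) (w : Fin k → E), (∀ i, w i ∈ Tan X x) →
      evA E k (al x * F.pull (jj g) oB x) w = 0 := by
    rintro k rfl w hw
    exact h3 w hw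
  exact h5 _ e1 _ hf.2

theorem continuousOn_pow' {E' : Type*} [NormedAddCommGroup E'] [NormedSpace ℝ E']
    [FiniteDimensional ℝ E'] {Y : Set E'} {a : E' → Ext E'} (ha : ContinuousOn a Y) (p : ℕ) :
    ContinuousOn (fun y => a y ^ p) Y := by
  induction p with
  | zero => simpa using continuousOn_const
  | succ p ih =>
    simp only [pow_succ]
    exact FI.continuousOn_mul ih ha

theorem Conn.evA_gen (ha : Conn X φ al) {x : E} (hx : x ∈ X) :
    evA E 1 (al x) (fun _ => gen φ x) = 1 := by
  have h1 : (fun _ : Fin 1 => gen φ x) = Matrix.vecCons (gen φ x) ![] := by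
    funext i; fin_cases i; rfl
  rw [h1, evA_ii, ha.unit x hx]
  have := evA_zero_algebraMap (E := E) 1 ![]
  rwa [map_one] at this

/-- **THE CONTACT VOLUME AND THE VOLUME OF THE QUOTIENT** -/
theorem Conn.J_eq {p : ℕ} (hg : Emb X φ g) (h : Cir X φ) (hX : Clo (2 * p + 1) X)
    (ha : Conn X φ al) (hc : Curv X g al Fc)
    (ho : Ori (2 * p + 1) X (fun x => al x * F.d al x ^ p)) :
    Ori (2 * p) (Quo X g) (fun y => Fc y ^ p) ∧
    ∀ η : MM m → Ext (MM m), ContinuousOn η (Quo X g) →
      J (2 * p + 1) X (fun x => al x * F.d al x ^ p) (fun x => al x * F.pull (jj g) η x) =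
        2 * Real.pi * J (2 * p) (Quo X g) (fun y => Fc y ^ p) η := by
  have hFc : ContinuousOn (fun y => Fc y ^ p) (Quo X g) := continuousOn_pow' (fun y hy =>
    (hc.sm y hy).continuousAt.continuousWithinAt) p
  have halc : ContinuousOn al X := fun x hx => (ha.sm x hx).continuousAt.continuousWithinAt
  have e1 : ∀ x, F.pull (jj g) (fun y => Fc y ^ p) x = F.pull (jj g) Fc x ^ p := fun x => by
    rw [F.pull, map_pow]; rfl
  have hpull : ∀ x ∈ X, pb (Tan X x).subtype (F.pull (jj g) (fun y => Fc y ^ p) x) =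
      pb (Tan X x).subtype (F.d al x ^ p) := fun x hx => by
    rw [e1, map_pow, map_pow, eqv_iff.1 hc.pull x hx]
  have he : Eqv X (fun x => al x * F.d al x ^ p)
      (fun x => al x * F.pull (jj g) (fun y => Fc y ^ p) x) := eqv_iff.2 fun x hx => by
    rw [map_mul, map_mul, hpull x hx]
  have hcont : ContinuousOn (fun x => al x * F.pull (jj g) (fun y => Fc y ^ p) x) X :=
    FI.continuousOn_mul halc ((hg.subm_jj h hX).continuousOn_pull hFc)
  have hori := Ori.of_eqv hX ho hcont he
  have horiB := hg.ori_quo h hX (fun x _ => ha.hom x) hFc hori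
  refine ⟨horiB, fun η hη => ?_⟩
  have h1 := (hg.J_fib h hX halc (fun x _ => ha.hom x) (fun x hx => ha.evA_gen hx) horiB hη).2
  rw [← h1]
  refine J_congr_dens hX (fun x hx => ?_) (fun x hx => rfl)
  exact evA_of_res (eqv_iff.1 he x hx) (frame_isFrame (hX.finrank_Tan hx)).2

end Crest.Agent.R208.CM
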