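import Crest.Agent.R208.MSDefs

/-!
R208, block MS (helper286), part MS2a: general integral lemmas for the averaged Birkhoff step.
-/

set_option autoImplicit false

open Set Filter Topology MeasureTheory
open scoped ContDiff RealInnerProductSpace Real

noncomputable section

namespace Crest.Agent.R208.MS

section gen

variable {H : Type*} [NormedAddCommGroup H] [NormedSpace ℝ H]

/-- differentiation under an interval integral, jointly continuous derivative -/
theorem hasDerivAt_par {F F' : ℝ → ℝ → H} (hF : ∀ t, Continuous (F t))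
    (hF' : Continuous (Function.uncurry F')) (h : ∀ t a, HasDerivAt (fun t => F t a) (F' t a) t)
    (w t₀ : ℝ) :
    HasDerivAt (fun t => ∫ a in (0:ℝ)..w, F t a) (∫ a in (0:ℝ)..w, F' t₀ a) t₀ := by
  obtain ⟨M, hM⟩ := ((isCompact_Icc (a := t₀ - 1) (b := t₀ + 1)).prod
    (isCompact_uIcc (a := (0:ℝ)) (b := w))).exists_bound_of_continuousOn hF'.continuousOn
  refine (intervalIntegral.hasDerivAt_integral_of_dominated_loc_of_deriv_le
    (F := F) (F' := F') (bound := fun _ => M)
    (s := Icc (t₀ - 1) (t₀ + 1)) (Icc_mem_nhds (by linarith) (by linarith)) ?_ ?_ ?_ ?_ ?_ ?_).2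
  · exact Eventually.of_forall fun t => (hF t).aestronglyMeasurable
  · exact (hF t₀).intervalIntegrable _ _
  · exact (hF'.comp (continuous_const.prodMk continuous_id)).aestronglyMeasurable
  · refine Eventually.of_forall fun a ha t ht => ?_
    exact hM (t, a) ⟨ht, uIoc_subset_uIcc ha⟩
  · exact intervalIntegrable_const
  · exact Eventually.of_forall fun a _ t _ => h t a

/-- swap of interval integrals of a jointly continuous function -/
theorem swap_par {F : ℝ → ℝ → H} (hF : Continuous (Function.uncurry F)) (a b c d : ℝ) :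
    ∫ x in a..b, ∫ y in c..d, F x y = ∫ y in c..d, ∫ x in a..b, F x y := by
  refine intervalIntegral_intervalIntegral_swap ?_
  have : IntegrableOn (Function.uncurry F) (uIcc a b ×ˢ uIcc c d) :=
    hF.continuousOn.integrableOn_compact (isCompact_uIcc.prod isCompact_uIcc)
  exact this.mono_set (Set.prod_mono uIoc_subset_uIcc uIoc_subset_uIcc)

theorem continuous_par {F : ℝ → ℝ → H} (hF : Continuous (Function.uncurry F)) (c d : ℝ) :
    Continuous fun x => ∫ y in c..d, F x y :=
  intervalIntegral.continuous_parametric_intervalIntegral_of_continuous' hF c d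

/-- shear invariance: `F` periodic in the first variable -/
theorem shear_par {F : ℝ → ℝ → H} (hF : Continuous (Function.uncurry F)) {T : ℝ}
    (hper : ∀ s a, F (s + T) a = F s a) (w : ℝ) :
    ∫ t in (0:ℝ)..T, ∫ a in (0:ℝ)..w, F (t - a) a = ∫ s in (0:ℝ)..T, ∫ a in (0:ℝ)..w, F s a := by
  have h1 : Continuous (Function.uncurry fun t a => F (t - a) a) :=
    hF.comp ((continuous_fst.sub continuous_snd).prodMk continuous_snd)
  rw [swap_par h1, swap_par hF]
  congr 1
  funext a
  have h2 : Function.Periodic (fun s => F s a) T := fun s => hper s a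
  rw [intervalIntegral.integral_comp_sub_right (fun s => F s a) a]
  have h3 := h2.intervalIntegral_add_eq (0 - a) 0
  rw [zero_add] at h3
  rw [← h3]
  congr 1
  ring

/-- Jensen: `‖avg f‖² ≤ avg ‖f‖²` -/
theorem norm_avg_sq_le {f : ℝ → H} (hf : Continuous f) {w : ℝ} (hw : 0 < w) :
    ‖(1 / w) • ∫ a in (0:ℝ)..w, f a‖ ^ 2 ≤ (1 / w) * ∫ a in (0:ℝ)..w, ‖f a‖ ^ 2 := by
  have h1 : ‖∫ a in (0:ℝ)..w, f a‖ ≤ ∫ a in (0:ℝ)..w, ‖f a‖ :=
    intervalIntegral.norm_integral_le_integral_norm hw.le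
  -- for every `m`, `2 m ‖f‖ ≤ m² + ‖f‖²`
  set m : ℝ := (1 / w) * ∫ a in (0:ℝ)..w, ‖f a‖ with hm
  have hm0 : 0 ≤ m := mul_nonneg (by positivity)
    (intervalIntegral.integral_nonneg hw.le fun _ _ => norm_nonneg _)
  have h2 : m ^ 2 ≤ (1 / w) * ∫ a in (0:ℝ)..w, ‖f a‖ ^ 2 := by
    have h3 : ∫ a in (0:ℝ)..w, (2 * m * ‖f a‖ - m ^ 2) ≤ ∫ a in (0:ℝ)..w, ‖f a‖ ^ 2 := by
      refine intervalIntegral.integral_mono_on hw.le ?_ ?_ fun a _ => ?_
      · exact Continuous.intervalIntegrable (by fun_prop) _ _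
      · exact Continuous.intervalIntegrable (by fun_prop) _ _
      · nlinarith [sq_nonneg (‖f a‖ - m)]
    rw [intervalIntegral.integral_sub (Continuous.intervalIntegrable (by fun_prop) _ _)
      (Continuous.intervalIntegrable (by fun_prop) _ _),
      intervalIntegral.integral_const_mul, intervalIntegral.integral_const, smul_eq_mul,
      sub_zero] at h3
    have h4 : ∫ a in (0:ℝ)..w, ‖f a‖ = w * m := by rw [hm]; field_simp
    rw [h4] at h3
    have h5 : w * m ^ 2 ≤ ∫ a in (0:ℝ)..w, ‖f a‖ ^ 2 := by nlinarith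
    rw [one_div, inv_mul_eq_div, le_div_iff₀ hw]
    linarith
  refine le_trans ?_ h2
  have h3 : ‖(1 / w) • ∫ a in (0:ℝ)..w, f a‖ ≤ m := by
    rw [norm_smul, Real.norm_eq_abs, abs_of_pos (by positivity)]
    exact mul_le_mul_of_nonneg_left h1 (by positivity)
  exact pow_le_pow_left₀ (norm_nonneg _) h3 2

/-- Cauchy–Schwarz for an increment -/
theorem norm_integral_sq_le {f : ℝ → H} (hf : Continuous f) {a b : ℝ} (hab : a ≤ b) :
    ‖∫ t in a..b, f t‖ ^ 2 ≤ (b - a) * ∫ t in a..b, ‖f t‖ ^ 2 := by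
  rcases hab.eq_or_lt with rfl | hab
  · simp
  have h := norm_avg_sq_le (f := fun t => f (t + a)) (by fun_prop) (sub_pos.2 hab)
  rw [intervalIntegral.integral_comp_add_right (fun t => f t) a,
    intervalIntegral.integral_comp_add_right (fun t => ‖f t‖ ^ 2) a, zero_add,
    sub_add_cancel, norm_smul, Real.norm_eq_abs,
    abs_of_pos (one_div_pos.2 (sub_pos.2 hab)), mul_pow] at h
  have hp : 0 < b - a := sub_pos.2 hab
  rw [div_pow, one_pow, one_div_mul_eq_div, one_div_mul_eq_div, div_le_div_iff₀ (by positivity) hp]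
    at h
  have : ‖∫ t in a..b, f t‖ ^ 2 * (b - a) ≤ ((b - a) * ∫ t in a..b, ‖f t‖ ^ 2) * (b - a) := by
    nlinarith
  exact le_of_mul_le_mul_right this hp

/-- a function vanishing at `0` is bounded by its derivative in `L²` -/
theorem norm_sq_le_of_zero [CompleteSpace H] {u u' : ℝ → H} (hu' : Continuous u')
    (hu : ∀ a, HasDerivAt u (u' a) a) (h0 : u 0 = 0) {w a : ℝ} (ha : a ∈ Icc 0 w) :
    ‖u a‖ ^ 2 ≤ w * ∫ t in (0:ℝ)..w, ‖u' t‖ ^ 2 := by
  have h1 : u a = ∫ t in (0:ℝ)..a, u' t := by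
    rw [intervalIntegral.integral_eq_sub_of_hasDerivAt (fun t _ => hu t)
      (hu'.intervalIntegrable _ _), h0, sub_zero]
  rw [h1]
  refine (norm_integral_sq_le hu' ha.1).trans ?_
  have h2 : ∫ t in (0:ℝ)..a, ‖u' t‖ ^ 2 ≤ ∫ t in (0:ℝ)..w, ‖u' t‖ ^ 2 := by
    refine intervalIntegral.integral_mono_interval le_rfl ha.1 ha.2 ?_
      (Continuous.intervalIntegrable (by fun_prop) _ _)
    exact Eventually.of_forall fun t => by positivity
  have h3 : 0 ≤ ∫ t in (0:ℝ)..a, ‖u' t‖ ^ 2 :=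
    intervalIntegral.integral_nonneg ha.1 fun _ _ => by positivity
  rw [sub_zero]
  exact mul_le_mul ha.2 h2 h3 (ha.1.trans ha.2)

end gen

section seg

variable {H : Type*} [NormedAddCommGroup H] [InnerProductSpace ℝ H] [CompleteSpace H]

/-- **the segment inequality**: `p` has constant speed `l`, its acceleration is orthogonal to
`p - c` up to `C l² ‖p - c‖²`, `p = c` at the end points. -/
theorem segment {c c' p p' p'' : ℝ → H} {w l C : ℝ} (hw : 0 ≤ w) (hC : 0 ≤ C)
    (hc : ∀ a, HasDerivAt c (c' a) a) (hc' : Continuous c')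
    (hp : ∀ a, HasDerivAt p (p' a) a) (hp' : ∀ a, HasDerivAt p' (p'' a) a)
    (hp'' : Continuous p'') (h0 : p 0 = c 0) (h1 : p w = c w)
    (hacc : ∀ a ∈ Icc (0:ℝ) w, |⟪p'' a, p a - c a⟫| ≤ C * l ^ 2 * ‖p a - c a‖ ^ 2)
    (hsmall : 4 * C * l ^ 2 * w ^ 2 ≤ 1) :
    (∫ a in (0:ℝ)..w, ‖p' a‖ ^ 2) + (1 / 2) * (∫ a in (0:ℝ)..w, ‖p' a - c' a‖ ^ 2) ≤
      ∫ a in (0:ℝ)..w, ‖c' a‖ ^ 2 := by
  have hp'c : Continuous p' := continuous_iff_continuousAt.2 fun a => (hp' a).continuousAt
  have hpc : Continuous p := continuous_iff_continuousAt.2 fun a => (hp a).continuousAt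
  have hcc : Continuous c := continuous_iff_continuousAt.2 fun a => (hc a).continuousAt
  set u : ℝ → H := fun a => p a - c a with hu
  set u' : ℝ → H := fun a => p' a - c' a with hu'
  have hud : ∀ a, HasDerivAt u (u' a) a := fun a => (hp a).sub (hc a)
  have hu'c : Continuous u' := hp'c.sub hc'
  have huc : Continuous u := hpc.sub hcc
  have hu0 : u 0 = 0 := by simp [hu, h0]
  have huw : u w = 0 := by simp [hu, h1]
  set I : ℝ := ∫ a in (0:ℝ)..w, ‖u' a‖ ^ 2 with hI
  have hI0 : 0 ≤ I := intervalIntegral.integral_nonneg hw fun _ _ => by positivity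
  have hub : ∀ a ∈ Icc (0:ℝ) w, ‖u a‖ ^ 2 ≤ w * I := fun a ha =>
    norm_sq_le_of_zero hu'c hud hu0 ha
  -- integration by parts
  have hparts : ∫ a in (0:ℝ)..w, (⟪p'' a, u a⟫ + ⟪p' a, u' a⟫) = 0 := by
    have hd : ∀ a, HasDerivAt (fun a => ⟪p' a, u a⟫) (⟪p'' a, u a⟫ + ⟪p' a, u' a⟫) a := by
      intro a
      have := (hp' a).inner ℝ (hud a)
      rw [add_comm]
      exact this
    rw [intervalIntegral.integral_eq_sub_of_hasDerivAt (fun a _ => hd a)
      (Continuous.intervalIntegrable (by fun_prop) _ _), hu0, huw]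
    simp
  have hq : |∫ a in (0:ℝ)..w, ⟪p'' a, u a⟫| ≤ (1 / 4) * I := by
    have h2 : ‖∫ a in (0:ℝ)..w, ⟪p'' a, u a⟫‖ ≤ (C * l ^ 2 * (w * I)) * |w - 0| := by
      refine intervalIntegral.norm_integral_le_of_norm_le_const fun a ha => ?_
      rw [uIoc_of_le hw] at ha
      have ha' : a ∈ Icc (0:ℝ) w := ⟨ha.1.le, ha.2⟩
      rw [Real.norm_eq_abs]
      refine (hacc a ha').trans ?_
      exact mul_le_mul_of_nonneg_left (hub a ha') (by positivity)
    rw [sub_zero, abs_of_nonneg hw, Real.norm_eq_abs] at h2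
    nlinarith
  have hsplit : ∫ a in (0:ℝ)..w, ‖c' a‖ ^ 2 =
      (∫ a in (0:ℝ)..w, ‖p' a‖ ^ 2) - 2 * (∫ a in (0:ℝ)..w, ⟪p' a, u' a⟫) + I := by
    have h3 : ∀ a, ‖c' a‖ ^ 2 = ‖p' a‖ ^ 2 - 2 * ⟪p' a, u' a⟫ + ‖u' a‖ ^ 2 := by
      intro a
      have h4 : c' a = p' a - u' a := by simp [hu']
      rw [h4, norm_sub_sq_real]
    simp_rw [h3]
    rw [intervalIntegral.integral_add (Continuous.intervalIntegrable (by fun_prop) _ _)
      (Continuous.intervalIntegrable (by fun_prop) _ _),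
      intervalIntegral.integral_sub (Continuous.intervalIntegrable (by fun_prop) _ _)
      (Continuous.intervalIntegrable (by fun_prop) _ _), intervalIntegral.integral_const_mul]
  rw [intervalIntegral.integral_add (Continuous.intervalIntegrable (by fun_prop) _ _)
    (Continuous.intervalIntegrable (by fun_prop) _ _)] at hparts
  have h5 := (abs_le.1 hq).1
  rw [hsplit]
  linarith

end seg

end Crest.Agent.R208.MS
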