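import Crest.Agent.R208.J3
import Crest.Agent.R208.MS2a

/-!
R208, block CO (helper286), part CO1: an approximate weak solution of the Jacobi equation is
`H^1`-close to a Jacobi field (abstract, in a parallel frame).
-/

set_option autoImplicit false

open Set Filter Topology MeasureTheory
open scoped ContDiff RealInnerProductSpace Real
open Crest.Agent.R208.J

noncomputable section

namespace Crest.Agent.R208.CO

variable {E : Type*} [NormedAddCommGroup E] [InnerProductSpace ℝ E] [CompleteSpace E]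
  {R : ℝ → E →L[ℝ] E} {w w' j j' : ℝ → E} {T : ℝ}

/-- the integral of `R w` -/
def bb (R : ℝ → E →L[ℝ] E) (w : ℝ → E) (t : ℝ) : E := ∫ s in (0:ℝ)..t, R s (w s)

/-- the mean of `w' + bb` on `[0,T]` -/
def mm (R : ℝ → E →L[ℝ] E) (w : ℝ → E) (T : ℝ) : E :=
  (1 / T) • ((w T - w 0) + ∫ s in (0:ℝ)..T, bb R w s)

theorem hasDerivAt_bb (hR : Continuous R) (hw : Continuous w) (t : ℝ) :
    HasDerivAt (bb R w) (R t (w t)) t := by
  have hc : Continuous fun s => R s (w s) := hR.clm_apply hw
  exact intervalIntegral.integral_hasDerivAt_right (hc.intervalIntegrable _ _)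
    hc.aestronglyMeasurable.stronglyMeasurableAtFilter hc.continuousAt

/-- **first step**: the weak equation, tested against fields vanishing at both ends, gives
`w' + ∫ R w - m` small in `L²`. -/
theorem weak (hT : 0 < T) (hR : Continuous R) (hw : ∀ t, HasDerivAt w (w' t) t)
    (hw' : Continuous w') {r : ℝ} {P : E →L[ℝ] E} (hPw : ∀ t, P (w t) = w t)
    (hPw' : ∀ t, P (w' t) = w' t) (hPR : ∀ t u, P (R t u) = R t u)
    (hweak : ∀ x x' : ℝ → E, (∀ t, HasDerivAt x (x' t) t) → Continuous x' → x 0 = 0 → x T = 0 →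
      (∀ t, P (x t) = x t) → (∀ t, P (x' t) = x' t) →
      |∫ t in (0:ℝ)..T, (⟪w' t, x' t⟫ - ⟪R t (w t), x t⟫)| ≤
        r * Real.sqrt (∫ t in (0:ℝ)..T, ‖x' t‖ ^ 2)) :
    ∫ t in (0:ℝ)..T, ‖w' t + bb R w t - mm R w T‖ ^ 2 ≤ r ^ 2 := by
  have hwc : Continuous w := continuous_iff_continuousAt.2 fun t => (hw t).continuousAt
  have hbd : ∀ t, HasDerivAt (bb R w) (R t (w t)) t := hasDerivAt_bb hR hwc
  have hbc : Continuous (bb R w) := continuous_iff_continuousAt.2 fun t => (hbd t).continuousAt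
  have hRw : Continuous fun t => R t (w t) := hR.clm_apply hwc
  set m := mm R w T with hm
  set x' : ℝ → E := fun t => w' t + bb R w t - m with hx'
  have hx'c : Continuous x' := (hw'.add hbc).sub continuous_const
  set x : ℝ → E := fun t => ∫ s in (0:ℝ)..t, x' s with hx
  have hxd : ∀ t, HasDerivAt x (x' t) t := fun t =>
    intervalIntegral.integral_hasDerivAt_right (hx'c.intervalIntegrable _ _)
      hx'c.aestronglyMeasurable.stronglyMeasurableAtFilter hx'c.continuousAt
  have hxc : Continuous x := continuous_iff_continuousAt.2 fun t => (hxd t).continuousAt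
  have hx0 : x 0 = 0 := by simp [hx]
  have hxT : x T = 0 := by
    have e1 : x T = ∫ t in (0:ℝ)..T, (w' t + bb R w t - m) := rfl
    have e2 : IntervalIntegrable (fun t => w' t + bb R w t) volume 0 T :=
      (hw'.add hbc).intervalIntegrable _ _
    rw [e1, intervalIntegral.integral_sub e2
      intervalIntegrable_const, intervalIntegral.integral_add (hw'.intervalIntegrable _ _)
      (hbc.intervalIntegrable _ _), intervalIntegral.integral_const, sub_zero,
      intervalIntegral.integral_eq_sub_of_hasDerivAt (fun t _ => hw t) (hw'.intervalIntegrable _ _),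
      hm, mm, smul_smul, mul_one_div_cancel hT.ne', one_smul, sub_self]
  have hPb : ∀ t, P (bb R w t) = bb R w t := by
    intro t
    unfold bb
    rw [← ContinuousLinearMap.intervalIntegral_comp_comm _ (hRw.intervalIntegrable _ _)]
    congr 1
    funext s
    exact hPR s _
  have hPm : P m = m := by
    rw [hm, mm, map_smul, map_add, map_sub, hPw, hPw,
      ← ContinuousLinearMap.intervalIntegral_comp_comm _ (hbc.intervalIntegrable _ _)]
    simp_rw [hPb]
  have hPx' : ∀ t, P (x' t) = x' t := by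
    intro t
    simp only [hx', map_sub, map_add, hPw', hPb, hPm]
  have hPx : ∀ t, P (x t) = x t := by
    intro t
    simp only [hx]
    rw [← ContinuousLinearMap.intervalIntegral_comp_comm _ (hx'c.intervalIntegrable _ _)]
    simp_rw [hPx']
  have key := hweak x x' hxd hx'c hx0 hxT hPx hPx'
  -- the integral is `∫ ‖x'‖²`
  have h1 : ∫ t in (0:ℝ)..T, (⟪R t (w t), x t⟫ + ⟪bb R w t, x' t⟫) = 0 := by
    have hd : ∀ t, HasDerivAt (fun t => ⟪bb R w t, x t⟫)
        (⟪R t (w t), x t⟫ + ⟪bb R w t, x' t⟫) t := by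
      intro t
      have := (hbd t).inner ℝ (hxd t)
      rw [add_comm]
      exact this
    rw [intervalIntegral.integral_eq_sub_of_hasDerivAt (fun t _ => hd t)
      (Continuous.intervalIntegrable (by fun_prop) _ _), hx0, hxT]
    simp
  have h2 : ∫ t in (0:ℝ)..T, ⟪m, x' t⟫ = 0 := by
    have hd : ∀ t, HasDerivAt (fun t => ⟪m, x t⟫) (⟪m, x' t⟫) t := by
      intro t
      have := (hasDerivAt_const t m).inner ℝ (hxd t)
      simpa using this
    rw [intervalIntegral.integral_eq_sub_of_hasDerivAt (fun t _ => hd t)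
      (Continuous.intervalIntegrable (by fun_prop) _ _), hx0, hxT]
    simp
  have h3 : ∫ t in (0:ℝ)..T, (⟪w' t, x' t⟫ - ⟪R t (w t), x t⟫) = ∫ t in (0:ℝ)..T, ‖x' t‖ ^ 2 := by
    have h4 : ∀ t, ⟪w' t, x' t⟫ - ⟪R t (w t), x t⟫ =
        ‖x' t‖ ^ 2 + ⟪m, x' t⟫ - (⟪R t (w t), x t⟫ + ⟪bb R w t, x' t⟫) := by
      intro t
      have : w' t = x' t + m - bb R w t := by simp only [hx']; abel
      rw [this, inner_sub_left, inner_add_left, real_inner_self_eq_norm_sq]
      ring
    simp_rw [h4]
    rw [intervalIntegral.integral_sub (Continuous.intervalIntegrable (by fun_prop) _ _)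
      (Continuous.intervalIntegrable (by fun_prop) _ _), intervalIntegral.integral_add
      (Continuous.intervalIntegrable (by fun_prop) _ _)
      (Continuous.intervalIntegrable (by fun_prop) _ _), h1, h2]
    ring
  rw [h3] at key
  set I := ∫ t in (0:ℝ)..T, ‖x' t‖ ^ 2 with hI
  have hI0 : 0 ≤ I := intervalIntegral.integral_nonneg hT.le fun _ _ => by positivity
  rw [abs_of_nonneg hI0] at key
  have hs := Real.mul_self_sqrt hI0
  have hs0 := Real.sqrt_nonneg I
  rcases hs0.eq_or_lt with h0 | h0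
  · rw [← h0, mul_zero] at hs
    rw [← hs]; positivity
  · have h5 : Real.sqrt I ≤ r := by
      have : Real.sqrt I * Real.sqrt I ≤ r * Real.sqrt I := by rw [hs]; exact key
      exact le_of_mul_le_mul_right this h0
    calc I = Real.sqrt I ^ 2 := by rw [sq, hs]
      _ ≤ r ^ 2 := pow_le_pow_left₀ h0.le h5 2

/-- integral Gronwall inequality -/
theorem gron {f : ℝ → ℝ} (hf : Continuous f) (hf0 : ∀ t, 0 ≤ f t) {A K : ℝ} (hK : 0 ≤ K)
    (h : ∀ t ∈ Icc 0 T, f t ≤ A + K * ∫ s in (0:ℝ)..t, f s) {t : ℝ} (ht : t ∈ Icc 0 T) :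
    f t ≤ A * (1 + K * T * Real.exp (K * T)) := by
  have hT : 0 ≤ T := ht.1.trans ht.2
  have hA : 0 ≤ A := by
    have := h 0 ⟨le_rfl, hT⟩
    rw [intervalIntegral.integral_same, mul_zero, add_zero] at this
    exact (hf0 0).trans this
  set F : ℝ → ℝ := fun t => ∫ s in (0:ℝ)..t, f s with hF
  have hFd : ∀ t, HasDerivAt F (f t) t := fun t =>
    intervalIntegral.integral_hasDerivAt_right (hf.intervalIntegrable _ _)
      hf.aestronglyMeasurable.stronglyMeasurableAtFilter hf.continuousAt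
  have hF0 : F 0 = 0 := by simp [hF]
  -- `exp (-K t) F t - A t` is decreasing
  have hd : ∀ t, HasDerivAt (fun t => Real.exp (-(K * t)) * F t - A * t)
      ((-(K) * Real.exp (-(K * t))) * F t + Real.exp (-(K * t)) * f t - A) t := by
    intro t
    have h1 : HasDerivAt (fun t : ℝ => Real.exp (-(K * t))) (-(K) * Real.exp (-(K * t))) t := by
      have h2 : HasDerivAt (fun t : ℝ => -(K * t)) (-K) t := by
        have h2a : HasDerivAt (fun t : ℝ => K * t) K t := by
          simpa using (hasDerivAt_id t).const_mul K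
        exact h2a.neg
      have := h2.exp
      refine this.congr_deriv ?_
      ring
    have h3 := (h1.mul (hFd t)).sub ((hasDerivAt_id t).const_mul A)
    refine h3.congr_deriv ?_
    simp
  have hanti : AntitoneOn (fun t => Real.exp (-(K * t)) * F t - A * t) (Icc 0 T) := by
    refine antitoneOn_of_deriv_nonpos (convex_Icc 0 T)
      (fun t _ => (hd t).continuousAt.continuousWithinAt)
      (fun t _ => (hd t).differentiableAt.differentiableWithinAt) fun t ht => ?_
    rw [interior_Icc] at ht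
    rw [(hd t).deriv]
    have h4 := h t ⟨ht.1.le, ht.2.le⟩
    have h5 : Real.exp (-(K * t)) ≤ 1 := by
      rw [Real.exp_le_one_iff]
      have := ht.1.le
      nlinarith
    have h6 : 0 < Real.exp (-(K * t)) := Real.exp_pos _
    have h7 : Real.exp (-(K * t)) * f t ≤ Real.exp (-(K * t)) * (A + K * F t) :=
      mul_le_mul_of_nonneg_left h4 h6.le
    nlinarith
  have h8 := hanti ⟨le_rfl, hT⟩ ht ht.1
  simp only [hF0, mul_zero, sub_zero] at h8
  have h9 : F t ≤ A * t * Real.exp (K * t) := by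
    have h10 : Real.exp (-(K * t)) * F t ≤ A * t := by linarith
    have h11 : Real.exp (K * t) * (Real.exp (-(K * t)) * F t) ≤ Real.exp (K * t) * (A * t) :=
      mul_le_mul_of_nonneg_left h10 (Real.exp_pos _).le
    rw [← mul_assoc, ← Real.exp_add, add_neg_cancel, Real.exp_zero, one_mul] at h11
    linarith
  have h10 : F t ≤ A * T * Real.exp (K * T) := by
    refine h9.trans ?_
    have h11 : Real.exp (K * t) ≤ Real.exp (K * T) :=
      Real.exp_le_exp.2 (mul_le_mul_of_nonneg_left ht.2 hK)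
    have h12 : A * t ≤ A * T := mul_le_mul_of_nonneg_left ht.2 hA
    exact mul_le_mul h12 h11 (Real.exp_pos _).le (mul_nonneg hA hT)
  refine (h t ht).trans ?_
  have h13 : K * F t ≤ K * (A * T * Real.exp (K * T)) := mul_le_mul_of_nonneg_left h10 hK
  calc A + K * F t ≤ A + K * (A * T * Real.exp (K * T)) := by linarith
    _ = A * (1 + K * T * Real.exp (K * T)) := by ring

/-- **second step**: comparison with the Jacobi field with the initial values `w 0`, `mm` -/
theorem compare (hT : 0 < T) (hR : Continuous R) {M : ℝ} (hM0 : 0 ≤ M)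
    (hM : ∀ t ∈ Icc 0 T, ‖R t‖ ≤ M) (hw : ∀ t, HasDerivAt w (w' t) t)
    (hw' : Continuous w') (hj : IsJac R j j') (hj0 : j 0 = w 0) (hj1 : j' 0 = mm R w T) {r : ℝ}
    (hr : 0 ≤ r) (he : ∫ t in (0:ℝ)..T, ‖w' t + bb R w t - mm R w T‖ ^ 2 ≤ r ^ 2) :
    (∀ t ∈ Icc 0 T, ‖w t - j t‖ ≤
      (Real.sqrt T * (1 + M * T * T * Real.exp (M * T * T))) * r) ∧
    ∫ t in (0:ℝ)..T, ‖w' t - j' t‖ ^ 2 ≤
      (2 + 2 * T * (M * T) ^ 2 * (Real.sqrt T * (1 + M * T * T * Real.exp (M * T * T))) ^ 2)
        * r ^ 2 := by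
  have hwc : Continuous w := continuous_iff_continuousAt.2 fun t => (hw t).continuousAt
  have hjc : Continuous j := continuous_iff_continuousAt.2 fun t => (hj.fst t).continuousAt
  have hj'c : Continuous j' := continuous_iff_continuousAt.2 fun t => (hj.snd t).continuousAt
  have hbd : ∀ t, HasDerivAt (bb R w) (R t (w t)) t := hasDerivAt_bb hR hwc
  have hbc : Continuous (bb R w) := continuous_iff_continuousAt.2 fun t => (hbd t).continuousAt
  set m := mm R w T with hm
  set e : ℝ → E := fun t => w' t + bb R w t - m with he'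
  have hec : Continuous e := (hw'.add hbc).sub continuous_const
  set d : ℝ → E := fun t => w t - j t with hd
  have hdc : Continuous d := hwc.sub hjc
  have hRd : Continuous fun t => R t (d t) := hR.clm_apply hdc
  -- `d' = e - ∫ R d`
  have hd' : ∀ t, w' t - j' t = e t - ∫ s in (0:ℝ)..t, R s (d s) := by
    intro t
    have h1 : j' t = m - ∫ s in (0:ℝ)..t, R s (j s) := by
      have hRj : Continuous fun s => R s (j s) := hR.clm_apply hjc
      have h2 : ∫ s in (0:ℝ)..t, -(R s (j s)) = j' t - j' 0 :=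
        intervalIntegral.integral_eq_sub_of_hasDerivAt (fun s _ => hj.snd s)
          (hRj.neg.intervalIntegrable _ _)
      rw [intervalIntegral.integral_neg, hj1] at h2
      rw [← sub_eq_zero]
      have h3 : j' t - (m - ∫ s in (0:ℝ)..t, R s (j s)) =
        (j' t - m) + ∫ s in (0:ℝ)..t, R s (j s) := by abel
      rw [h3, ← h2, neg_add_cancel]
    have h4 : ∫ s in (0:ℝ)..t, R s (d s) = bb R w t - ∫ s in (0:ℝ)..t, R s (j s) := by
      simp only [hd, map_sub, bb]
      rw [intervalIntegral.integral_sub ((hR.clm_apply hwc).intervalIntegrable _ _)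
        ((hR.clm_apply hjc).intervalIntegrable _ _)]
    rw [h4, h1]
    simp only [he']
    abel
  have hI : ∀ t ∈ Icc 0 T, ‖∫ s in (0:ℝ)..t, R s (d s)‖ ≤ M * ∫ s in (0:ℝ)..t, ‖d s‖ := by
    intro t ht
    have h1 : ‖∫ s in (0:ℝ)..t, R s (d s)‖ ≤ ∫ s in (0:ℝ)..t, M * ‖d s‖ := by
      refine intervalIntegral.norm_integral_le_of_norm_le ht.1 ?_
        (Continuous.intervalIntegrable (by fun_prop) _ _)
      refine Eventually.of_forall fun s hs => ?_
      refine (ContinuousLinearMap.le_opNorm _ _).trans ?_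
      exact mul_le_mul_of_nonneg_right (hM s ⟨hs.1.le, hs.2.trans ht.2⟩) (norm_nonneg _)
    rwa [intervalIntegral.integral_const_mul] at h1
  have heL1 : ∀ t ∈ Icc 0 T, ∫ s in (0:ℝ)..t, ‖e s‖ ≤ Real.sqrt T * r := by
    intro t ht
    have h1 : ∫ s in (0:ℝ)..t, ‖e s‖ ≤ ∫ s in (0:ℝ)..T, ‖e s‖ := by
      refine intervalIntegral.integral_mono_interval le_rfl ht.1 ht.2 ?_
        (Continuous.intervalIntegrable (by fun_prop) _ _)
      exact Eventually.of_forall fun s => norm_nonneg _
    have h2 := MS.norm_integral_sq_le (f := fun s => ‖e s‖) (by fun_prop) hT.le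
    rw [Real.norm_eq_abs, sq_abs] at h2
    simp only [norm_norm, sub_zero] at h2
    have h3 : 0 ≤ ∫ s in (0:ℝ)..T, ‖e s‖ :=
      intervalIntegral.integral_nonneg hT.le fun _ _ => norm_nonneg _
    have h4 : (∫ s in (0:ℝ)..T, ‖e s‖) ^ 2 ≤ (Real.sqrt T * r) ^ 2 := by
      rw [mul_pow, Real.sq_sqrt hT.le]
      exact h2.trans (mul_le_mul_of_nonneg_left he hT.le)
    exact h1.trans (le_of_sq_le_sq h4 (by positivity))
  have hgr : ∀ t ∈ Icc 0 T, ‖d t‖ ≤ Real.sqrt T * r + M * T * ∫ s in (0:ℝ)..t, ‖d s‖ := by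
    intro t ht
    have hdd : ∀ t, HasDerivAt d (w' t - j' t) t := fun t => (hw t).sub (hj.fst t)
    have hc' : Continuous fun t => w' t - j' t := hw'.sub hj'c
    have h1 : d t = ∫ s in (0:ℝ)..t, (w' s - j' s) := by
      rw [intervalIntegral.integral_eq_sub_of_hasDerivAt (fun s _ => hdd s)
        (hc'.intervalIntegrable _ _)]
      simp [hd, hj0]
    have h2 : ‖d t‖ ≤ ∫ s in (0:ℝ)..t, (‖e s‖ + M * ∫ u in (0:ℝ)..t, ‖d u‖) := by
      rw [h1]
      refine intervalIntegral.norm_integral_le_of_norm_le ht.1 ?_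
        (Continuous.intervalIntegrable (by fun_prop) _ _)
      refine Eventually.of_forall fun s hs => ?_
      rw [hd' s]
      refine (norm_sub_le _ _).trans ?_
      have h3 := hI s ⟨hs.1.le, hs.2.trans ht.2⟩
      have h4 : ∫ u in (0:ℝ)..s, ‖d u‖ ≤ ∫ u in (0:ℝ)..t, ‖d u‖ := by
        refine intervalIntegral.integral_mono_interval le_rfl hs.1.le hs.2 ?_
          (Continuous.intervalIntegrable (by fun_prop) _ _)
        exact Eventually.of_forall fun s => norm_nonneg _
      have h5 := mul_le_mul_of_nonneg_left h4 hM0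
      linarith
    rw [intervalIntegral.integral_add (Continuous.intervalIntegrable (by fun_prop) _ _)
      intervalIntegrable_const, intervalIntegral.integral_const, smul_eq_mul, sub_zero] at h2
    have h3 := heL1 t ht
    have h4 : 0 ≤ ∫ u in (0:ℝ)..t, ‖d u‖ :=
      intervalIntegral.integral_nonneg ht.1 fun _ _ => norm_nonneg _
    have h5 : t * (M * ∫ u in (0:ℝ)..t, ‖d u‖) ≤ T * (M * ∫ u in (0:ℝ)..t, ‖d u‖) :=
      mul_le_mul_of_nonneg_right ht.2 (mul_nonneg hM0 h4)
    linarith
  set C := Real.sqrt T * (1 + M * T * T * Real.exp (M * T * T)) with hC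
  have hC0 : 0 ≤ C := by positivity
  have hfin : ∀ t ∈ Icc 0 T, ‖d t‖ ≤ C * r := by
    intro t ht
    have h1 := gron (f := fun t => ‖d t‖) (by fun_prop) (fun _ => norm_nonneg _)
      (A := Real.sqrt T * r) (K := M * T) (by positivity) hgr ht
    refine h1.trans (le_of_eq ?_)
    rw [hC]; ring
  refine ⟨hfin, ?_⟩
  have h1 : ∫ t in (0:ℝ)..T, ‖w' t - j' t‖ ^ 2 ≤
      ∫ t in (0:ℝ)..T, (2 * ‖e t‖ ^ 2 + 2 * (M * (T * (C * r))) ^ 2) := by
    refine intervalIntegral.integral_mono_on hT.le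
      (Continuous.intervalIntegrable (by fun_prop) _ _)
      (Continuous.intervalIntegrable (by fun_prop) _ _) fun t ht => ?_
    rw [hd' t]
    have h2 := hI t ht
    have h3 : ∫ s in (0:ℝ)..t, ‖d s‖ ≤ ∫ s in (0:ℝ)..t, C * r := by
      refine intervalIntegral.integral_mono_on ht.1
        (Continuous.intervalIntegrable (by fun_prop) _ _) intervalIntegrable_const fun s hs => ?_
      exact hfin s ⟨hs.1, hs.2.trans ht.2⟩
    rw [intervalIntegral.integral_const, smul_eq_mul, sub_zero] at h3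
    have h4 : t * (C * r) ≤ T * (C * r) := mul_le_mul_of_nonneg_right ht.2 (by positivity)
    have h5 : ‖∫ s in (0:ℝ)..t, R s (d s)‖ ≤ M * (T * (C * r)) :=
      h2.trans (mul_le_mul_of_nonneg_left (h3.trans h4) hM0)
    have h6 := norm_sub_le (e t) (∫ s in (0:ℝ)..t, R s (d s))
    have h7 : ‖e t - ∫ s in (0:ℝ)..t, R s (d s)‖ ^ 2 ≤
        (‖e t‖ + ‖∫ s in (0:ℝ)..t, R s (d s)‖) ^ 2 := pow_le_pow_left₀ (norm_nonneg _) h6 2
    have h8 : ‖∫ s in (0:ℝ)..t, R s (d s)‖ ^ 2 ≤ (M * (T * (C * r))) ^ 2 :=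
      pow_le_pow_left₀ (norm_nonneg _) h5 2
    nlinarith [sq_nonneg (‖e t‖ - ‖∫ s in (0:ℝ)..t, R s (d s)‖)]
  rw [intervalIntegral.integral_add (Continuous.intervalIntegrable (by fun_prop) _ _)
    intervalIntegrable_const, intervalIntegral.integral_const_mul,
    intervalIntegral.integral_const, smul_eq_mul, sub_zero] at h1
  have h2 : 2 * (∫ t in (0:ℝ)..T, ‖e t‖ ^ 2) ≤ 2 * r ^ 2 := by linarith
  calc _ ≤ 2 * (∫ t in (0:ℝ)..T, ‖e t‖ ^ 2) + T * (2 * (M * (T * (C * r))) ^ 2) := h1
    _ ≤ 2 * r ^ 2 + T * (2 * (M * (T * (C * r))) ^ 2) := by linarith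
    _ = _ := by ring

end Crest.Agent.R208.CO
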