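import Crest.Agent.R208.SV4
import Crest.Agent.R208.G3b

/-!
R208, block SV (helper336), part 5: energy of `t ↦ Exp (γ t) (A t)`, positivity of the index form on
fields vanishing at the ends of a minimising arc.
-/

set_option autoImplicit false

open Set Filter Topology MeasureTheory
open scoped ContDiff RealInnerProductSpace Interval
open Crest.GeometryTopology.Submanifold
open Crest.Agent.R241.DDefs
open Crest.Agent.R241.D2
open Crest.Agent.R208.L (om TanTS dfl)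

noncomputable section

namespace Crest.Agent.R208.SV

variable {n N : ℕ} {κ : ℝ} {S : Set (Euc N)} {G : Geo n N κ S} {q ξ : Euc N × Euc N}

lemma Fld.tanTS (hq : q ∈ TS G) {a b : ℝ} (hab : a < b) {A A' : ℝ → Euc N}
    (hA : Fld G q a b A A') {t : ℝ} (ht : t ∈ Icc a b) :
    TanTS G ((fl G (q, t)).1, A t) ((fl G (q, t)).2, A' t) := by
  have hft := fl_mem G hq t
  have h1 : HasDerivAt (fun t => (fl G (q, t)).1) (fl G (q, t)).2 t :=
    hda_fst (hasDerivAt_fl G (complete G hq t))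
  have h2 : HasDerivAt (fun t => G.P (fl G (q, t)).1) (fderiv ℝ G.P (fl G (q, t)).1
      (fl G (q, t)).2) t :=
    ((differentiable_P G) _).hasFDerivAt.comp_hasDerivAt t h1
  have h3 : HasDerivWithinAt (fun t => G.P (fl G (q, t)).1 (A t))
      (fderiv ℝ G.P (fl G (q, t)).1 (fl G (q, t)).2 (A t) + G.P (fl G (q, t)).1 (A' t))
      (Icc a b) t := h2.hasDerivWithinAt.clm_apply (hA.der t ht)
  have h4 : HasDerivWithinAt A
      (fderiv ℝ G.P (fl G (q, t)).1 (fl G (q, t)).2 (A t) + G.P (fl G (q, t)).1 (A' t))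
      (Icc a b) t := by
    refine h3.congr (fun r hr => ?_) ?_
    · exact ((P_eq_self G (fl_mem G hq r).1).1 (hA.mem r hr)).symm
    · exact ((P_eq_self G hft.1).1 (hA.mem t ht)).symm
  have h5 := (uniqueDiffOn_Icc hab t ht).eq_deriv _ (hA.der t ht) h4
  have h6 : A' t = II G (fl G (q, t)).1 (A t) (fl G (q, t)).2 + G.P (fl G (q, t)).1 (A' t) := by
    rw [II_comm hft.1 (hA.mem t ht) hft.2]
    exact h5
  rw [h6]
  exact tanTS_mk hft.1 (hA.mem t ht) hft.2 (P_mem G hft.1)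

variable (G) in
/-- the curve `Exp (γ t) (A t)` -/
def cv (q : Euc N × Euc N) (A : ℝ → Euc N) (t : ℝ) : Euc N := Exp G (fl G (q, t)).1 (A t)

variable (G) in
/-- its velocity -/
def cv' (q : Euc N × Euc N) (A A' : ℝ → Euc N) (t : ℝ) : Euc N :=
  (dfl G ((fl G (q, t)).1, A t) 1 ((fl G (q, t)).2, A' t)).1

lemma Fld.mem_TS (hq : q ∈ TS G) {a b : ℝ} {A A' : ℝ → Euc N}
    (hA : Fld G q a b A A') {t : ℝ} (ht : t ∈ Icc a b) : ((fl G (q, t)).1, A t) ∈ TS G :=
  ⟨(fl_mem G hq t).1, hA.mem t ht⟩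

lemma Fld.cv_mem (hq : q ∈ TS G) {a b : ℝ} {A A' : ℝ → Euc N}
    (hA : Fld G q a b A A') {t : ℝ} (ht : t ∈ Icc a b) : cv G q A t ∈ S :=
  Exp_mem G (fl_mem G hq t).1 (hA.mem t ht)

lemma Fld.hasDerivWithinAt_cv (hq : q ∈ TS G) {a b : ℝ} {A A' : ℝ → Euc N}
    (hA : Fld G q a b A A') {t : ℝ} (ht : t ∈ Icc a b) :
    HasDerivWithinAt (cv G q A) (cv' G q A A' t) (Icc a b) t := by
  have h1 : HasDerivAt (fun t => (fl G (q, t)).1) (fl G (q, t)).2 t :=
    hda_fst (hasDerivAt_fl G (complete G hq t))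
  have h2 : HasDerivWithinAt (fun t => ((fl G (q, t)).1, A t)) ((fl G (q, t)).2, A' t)
      (Icc a b) t := h1.hasDerivWithinAt.prodMk (hA.der t ht)
  have h3 := L.hasFDerivAt_fl_left (hA.mem_TS hq ht) 1
  have h4 : HasDerivWithinAt (fun t => fl G (((fl G (q, t)).1, A t), 1))
      (dfl G ((fl G (q, t)).1, A t) 1 ((fl G (q, t)).2, A' t)) (Icc a b) t :=
    HasFDerivAt.comp_hasDerivWithinAt (f := fun t => ((fl G (q, t)).1, A t)) t h3 h2
  exact (hasFDerivAt_fst (𝕜 := ℝ)).comp_hasDerivWithinAt t h4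

lemma Fld.contOn_cv' (hq : q ∈ TS G) {a b : ℝ} {A A' : ℝ → Euc N}
    (hA : Fld G q a b A A') : ContinuousOn (cv' G q A A') (Icc a b) := by
  intro t ht
  have h1 : ContinuousAt (LL G) ((((fl G (q, t)).1, A t), ((fl G (q, t)).2, A' t)), 1) :=
    (contDiffAt_LL (hA.mem_TS hq ht) _ 1).continuousAt
  have h2 := contOn_fl hq (Icc a b) t ht
  have h3 : ContinuousWithinAt (fun t =>
      (((((fl G (q, t)).1, A t), ((fl G (q, t)).2, A' t)), (1 : ℝ)) :
        ((Euc N × Euc N) × (Euc N × Euc N)) × ℝ)) (Icc a b) t :=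
    ((h2.fst.prodMk (hA.contX t ht)).prodMk (h2.snd.prodMk (hA.cont t ht))).prodMk
      continuousWithinAt_const
  have h4 := h1.comp_continuousWithinAt (f := fun t =>
      (((((fl G (q, t)).1, A t), ((fl G (q, t)).2, A' t)), (1 : ℝ)) :
        ((Euc N × Euc N) × (Euc N × Euc N)) × ℝ)) h3
  have h5 := h4.fst
  refine h5.congr (fun r hr => ?_) ?_
  · unfold cv'; rw [Function.comp_apply, LL_eq (hA.mem_TS hq hr)]
  · unfold cv'; rw [Function.comp_apply, LL_eq (hA.mem_TS hq ht)]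

/-- `∫ ⟪γ', A'⟫ = [⟪γ', A⟫]` -/
lemma Fld.int_inner (hq : q ∈ TS G) {a b : ℝ} (hab : a ≤ b) {A A' : ℝ → Euc N}
    (hA : Fld G q a b A A') :
    ∫ t in a..b, ⟪(fl G (q, t)).2, A' t⟫ = ⟪(fl G (q, b)).2, A b⟫ - ⟪(fl G (q, a)).2, A a⟫ := by
  have hc2 : ContinuousOn (fun t => (fl G (q, t)).2) (Icc a b) :=
    continuous_snd.comp_continuousOn (contOn_fl hq _)
  have hc3 : ContinuousOn (fun t => ⟪(fl G (q, t)).2, A t⟫) (Icc a b) := hc2.inner hA.contX
  refine intervalIntegral.integral_eq_sub_of_hasDerivAt_of_le hab hc3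
    (fun t ht => ?_) ?_
  · have ht' : t ∈ Icc a b := ⟨ht.1.le, ht.2.le⟩
    have h1 := hda_snd (hasDerivAt_fl G (complete G hq t))
    have h2 := (hA.der t ht').hasDerivAt (Icc_mem_nhds ht.1 ht.2)
    refine (h1.inner ℝ h2).congr_deriv ?_
    have h3 := fl_mem G hq t
    have h4 : ⟪(X G (fl G (q, t))).2, A t⟫ = 0 := inner_II G h3.1 h3.2 h3.2 (hA.mem t ht')
    rw [h4, add_zero]
  · apply ContinuousOn.intervalIntegrable
    rw [uIcc_of_le hab]
    exact hc2.inner hA.cont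

/-- **energy expansion** -/
theorem energy_expand (hc : IsCompact S) : ∃ C, 0 ≤ C ∧ ∀ q ∈ TS G, ‖q.2‖ ≤ 1 →
    ∀ a b : ℝ, a ≤ b → ∀ A A' : ℝ → Euc N, Fld G q a b A A' → ∀ ρ ≤ 1,
      (∀ t ∈ Icc a b, ‖A t‖ ≤ ρ) →
      |(∫ t in a..b, ‖cv' G q A A' t‖ ^ 2) - (b - a) * ‖q.2‖ ^ 2 -
          2 * (⟪(fl G (q, b)).2, A b⟫ - ⟪(fl G (q, a)).2, A a⟫) - ix G q a b A A' A A'| ≤
        C * ρ * ∫ t in a..b, (‖A t‖ ^ 2 + ‖A' t‖ ^ 2) := by
  obtain ⟨C, hC0, hC⟩ := pt (G := G) hc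
  refine ⟨C, hC0, ?_⟩
  intro q hq hq1 a b hab A A' hA ρ hρ hAρ
  rcases hab.eq_or_lt with rfl | hlt
  · simp [ix]
  have i1 : IntervalIntegrable (fun t => ‖cv' G q A A' t‖ ^ 2) volume a b := by
    apply ContinuousOn.intervalIntegrable
    rw [uIcc_of_le hab]
    exact (hA.contOn_cv' hq).norm.pow 2
  have hc2 : ContinuousOn (fun t => (fl G (q, t)).2) (Icc a b) :=
    continuous_snd.comp_continuousOn (contOn_fl hq _)
  have i2 : IntervalIntegrable (fun t => 2 * ⟪(fl G (q, t)).2, A' t⟫) volume a b := by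
    apply ContinuousOn.intervalIntegrable
    rw [uIcc_of_le hab]
    exact continuousOn_const.mul (hc2.inner hA.cont)
  have i3 := hA.intble hq hab hA
  have i4 : IntervalIntegrable (fun _ : ℝ => ‖q.2‖ ^ 2) volume a b := by simp
  have i5 : IntervalIntegrable (fun t => ‖A t‖ ^ 2 + ‖A' t‖ ^ 2) volume a b := by
    apply ContinuousOn.intervalIntegrable
    rw [uIcc_of_le hab]
    exact (hA.contX.norm.pow 2).add (hA.cont.norm.pow 2)
  have e1 : (∫ t in a..b, ‖cv' G q A A' t‖ ^ 2) - (b - a) * ‖q.2‖ ^ 2 -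
          2 * (⟪(fl G (q, b)).2, A b⟫ - ⟪(fl G (q, a)).2, A a⟫) - ix G q a b A A' A A' =
      ∫ t in a..b, (‖cv' G q A A' t‖ ^ 2 - ‖q.2‖ ^ 2 - 2 * ⟪(fl G (q, t)).2, A' t⟫ -
        ixd G q A A' A A' t) := by
    rw [intervalIntegral.integral_sub ((i1.sub i4).sub i2) i3,
      intervalIntegral.integral_sub (i1.sub i4) i2, intervalIntegral.integral_sub i1 i4,
      intervalIntegral.integral_const_mul, hA.int_inner hq hab]
    simp [ix]
  rw [e1, ← intervalIntegral.integral_const_mul]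
  rw [← Real.norm_eq_abs]
  refine (intervalIntegral.norm_integral_le_integral_norm hab).trans ?_
  apply intervalIntegral.integral_mono_on hab (((i1.sub i4).sub i2).sub i3).norm (i5.const_mul _)
  intro t ht
  have hft := fl_mem G hq t
  have h1 := hA.tanTS hq hlt ht
  have h2 := hC _ _ _ _ h1 (by rw [norm_fl G hq]; exact hq1) ((hAρ t ht).trans hρ)
  have h3 : ‖cv' G q A A' t‖ ^ 2 - ‖q.2‖ ^ 2 - 2 * ⟪(fl G (q, t)).2, A' t⟫ -
        ixd G q A A' A A' t = Rr G (fl G (q, t)).1 (A t) (fl G (q, t)).2 (A' t) := by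
    unfold Rr cv' ixd
    rw [norm_fl G hq, real_inner_self_eq_norm_sq]
    have : (X G (fl G (q, t))).2 = II G (fl G (q, t)).1 (fl G (q, t)).2 (fl G (q, t)).2 := rfl
    rw [this, real_inner_comm (II G (fl G (q, t)).1 (A t) (A t))]
  rw [h3, Real.norm_eq_abs]
  refine h2.trans ?_
  have h4 := hAρ t ht
  have h5 : 0 ≤ ‖A t‖ ^ 2 + ‖A' t‖ ^ 2 := by positivity
  calc C * (‖A t‖ * (‖A t‖ ^ 2 + ‖A' t‖ ^ 2)) ≤ C * (ρ * (‖A t‖ ^ 2 + ‖A' t‖ ^ 2)) := by gcongr
    _ = C * ρ * (‖A t‖ ^ 2 + ‖A' t‖ ^ 2) := by ring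

/-- **the index form is nonnegative on fields vanishing at the ends of a minimising arc** -/
theorem ix_nonneg {D : ℝ} (hB : Bl n N κ S G D) (hq : q ∈ TS G) (hq1 : ‖q.2‖ = 1) {a b : ℝ}
    (hab : a ≤ b) (hbD : b - a ≤ D) {A A' : ℝ → Euc N} (hA : Fld G q a b A A')
    (ha : A a = 0) (hb : A b = 0) : 0 ≤ ix G q a b A A' A A' := by
  obtain ⟨C, hC0, hC⟩ := energy_expand (G := G) hB.cpt
  obtain ⟨M, hM⟩ := isCompact_Icc.exists_bound_of_continuousOn hA.contX
  set M' := max M 1 with hM'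
  have hM1 : 1 ≤ M' := le_max_right _ _
  have hMt : ∀ t ∈ Icc a b, ‖A t‖ ≤ M' := fun t ht => (hM t ht).trans (le_max_left _ _)
  set I := ∫ t in a..b, (‖A t‖ ^ 2 + ‖A' t‖ ^ 2) with hI
  have hI0 : 0 ≤ I := intervalIntegral.integral_nonneg hab fun t _ => by positivity
  -- the key inequality
  have key : ∀ ε : ℝ, 0 < ε → ε ≤ 1 / M' → -(C * (ε * M') * I) ≤ ix G q a b A A' A A' := by
    intro ε hε hεM
    have hεM' : ε * M' ≤ 1 := by rwa [le_div_iff₀ (by linarith)] at hεM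
    have hεA := hA.smul ε
    have h1 := hC q hq hq1.le a b hab (ε • A) (ε • A') hεA (ε * M') hεM' (fun t ht => by
      rw [Pi.smul_apply, norm_smul, Real.norm_of_nonneg hε.le]
      exact mul_le_mul_of_nonneg_left (hMt t ht) hε.le)
    simp only [Pi.smul_apply, ha, hb, smul_zero, inner_zero_right, sub_zero, mul_zero, hq1,
      one_pow, mul_one] at h1
    rw [ix_smul_left, ix_smul_right] at h1
    have h2 : ∫ t in a..b, (‖ε • A t‖ ^ 2 + ‖ε • A' t‖ ^ 2) = ε ^ 2 * I := by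
      rw [hI, ← intervalIntegral.integral_const_mul]
      refine intervalIntegral.integral_congr fun t _ => ?_
      simp only [norm_smul, mul_pow, Real.norm_eq_abs, sq_abs]
      ring
    rw [h2] at h1
    -- minimality
    have h3 := (intrinsicDist_le_integral hB.sub hB.cpt hab (fun t ht => hεA.cv_mem hq ht)
      (fun t ht => hεA.hasDerivWithinAt_cv hq ht) (hεA.contOn_cv' hq)).2
    have h4 : cv G q (ε • A) a = (fl G (q, a)).1 := by
      unfold cv; rw [Pi.smul_apply, ha, smul_zero, Exp_zero G (fl_mem G hq a).1]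
    have h5 : cv G q (ε • A) b = (fl G (q, b)).1 := by
      unfold cv; rw [Pi.smul_apply, hb, smul_zero, Exp_zero G (fl_mem G hq b).1]
    rw [h4, h5, hB.dist_fl q hq hq1 a b hab hbD] at h3
    have hcn : ContinuousOn (fun t => ‖cv' G q (ε • A) (ε • A') t‖) (uIcc a b) := by
      rw [uIcc_of_le hab]; exact (hεA.contOn_cv' hq).norm
    have h6 : 0 ≤ ∫ t in a..b, (‖cv' G q (ε • A) (ε • A') t‖ - 1) ^ 2 :=
      intervalIntegral.integral_nonneg hab fun t _ => sq_nonneg _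
    have h7 : ∫ t in a..b, (‖cv' G q (ε • A) (ε • A') t‖ - 1) ^ 2 =
        (∫ t in a..b, ‖cv' G q (ε • A) (ε • A') t‖ ^ 2) -
          2 * (∫ t in a..b, ‖cv' G q (ε • A) (ε • A') t‖) + (b - a) := by
      have j1 : IntervalIntegrable (fun t => ‖cv' G q (ε • A) (ε • A') t‖ ^ 2) volume a b :=
        (hcn.pow 2).intervalIntegrable
      have j2 : IntervalIntegrable (fun t => 2 * ‖cv' G q (ε • A) (ε • A') t‖) volume a b :=
        (continuousOn_const.mul hcn).intervalIntegrable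
      have j3 : IntervalIntegrable (fun _ : ℝ => (1 : ℝ)) volume a b := by simp
      rw [← intervalIntegral.integral_const_mul, ← intervalIntegral.integral_sub j1 j2]
      have e3 : b - a = ∫ _t in a..b, (1 : ℝ) := by simp
      rw [e3, ← intervalIntegral.integral_add (j1.sub j2) j3]
      refine intervalIntegral.integral_congr fun t _ => ?_
      ring
    have h8 : b - a ≤ ∫ t in a..b, ‖cv' G q (ε • A) (ε • A') t‖ ^ 2 := by linarith
    rw [abs_le] at h1
    have h9 : 0 ≤ ε ^ 2 * ix G q a b A A' A A' + C * (ε * M') * (ε ^ 2 * I) := by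
      nlinarith [h1.2]
    have h10 : 0 ≤ ε ^ 2 * (ix G q a b A A' A A' + C * (ε * M') * I) := by nlinarith
    have h11 := nonneg_of_mul_nonneg_right h10 (by positivity)
    linarith
  -- let `ε → 0`
  by_contra hneg
  rw [not_le] at hneg
  set J := ix G q a b A A' A A' with hJ
  set ε := min (1 / M') (-J / (2 * (C * M' * I + 1))) with hε
  have hpos : 0 < C * M' * I + 1 := by positivity
  have hε0 : 0 < ε := lt_min (by positivity) (div_pos (by linarith) (by positivity))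
  have h12 := key ε hε0 (min_le_left _ _)
  have h13 : ε ≤ -J / (2 * (C * M' * I + 1)) := min_le_right _ _
  rw [le_div_iff₀ (by positivity)] at h13
  have h14 : 0 ≤ C * M' * I := by positivity
  nlinarith

end Crest.Agent.R208.SV
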