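import Crest.Agent.R208.CO1
import Crest.Agent.R208.NN1b
import Crest.Agent.R208.SV5

/-!
R208, block CO (helper286), part CO2: the index form of a closed geodesic is non-negative on the
orthogonal complement (for the index form) of a negative space of maximal dimension, and the
Cauchy-Schwarz inequality on that complement.
-/

set_option autoImplicit false

open Set Filter Topology MeasureTheory Module
open scoped ContDiff RealInnerProductSpace
open Crest.GeometryTopology.Submanifold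
open Crest.Agent.R241.DDefs
open Crest.Agent.R241.D2 hiding fd
open Crest.Agent.R208.SV Crest.Agent.R208.NN

noncomputable section

namespace Crest.Agent.R208.CO

variable {n N k K : ℕ} {κ : ℝ} {S : Set (Euc N)} {G : Geo n N κ S} {z : Euc N × Euc N}
  {V V' X X' A A' : ℝ → Euc N}

local notation "π" => Real.pi

/-- abbreviation: index form on `[0, 2π]` -/
def I2 (G : Geo n N κ S) (z : Euc N × Euc N) (A A' B B' : ℝ → Euc N) : ℝ :=
  ix G z 0 (2 * π) A A' B B'

/-- the squared `H^1` norm -/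
def Hn (A A' : ℝ → Euc N) : ℝ := ∫ t in (0:ℝ)..(2 * π), (‖A t‖ ^ 2 + ‖A' t‖ ^ 2)

/-- a periodic field on `[0, 2π]` -/
structure PF (G : Geo n N κ S) (z : Euc N × Euc N) (A A' : ℝ → Euc N) : Prop where
  fld : Fld G z 0 (2 * π) A A'
  per : A (2 * π) = A 0

theorem two_pi_nonneg : (0:ℝ) ≤ 2 * π := by positivity

theorem PF.add {B B' : ℝ → Euc N} (hA : PF G z A A') (hB : PF G z B B') :
    PF G z (A + B) (A' + B') :=
  ⟨hA.fld.add hB.fld, by rw [Pi.add_apply, Pi.add_apply, hA.per, hB.per]⟩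

theorem PF.sub {B B' : ℝ → Euc N} (hA : PF G z A A') (hB : PF G z B B') :
    PF G z (A - B) (A' - B') :=
  ⟨hA.fld.sub hB.fld, by rw [Pi.sub_apply, Pi.sub_apply, hA.per, hB.per]⟩

theorem PF.smul (c : ℝ) (hA : PF G z A A') : PF G z (c • A) (c • A') :=
  ⟨hA.fld.smul c, by rw [Pi.smul_apply, Pi.smul_apply, hA.per]⟩

theorem pf_fd (h : GT.Bla G k) (hz : z ∈ L.US G) (w : Wt N K) :
    PF G z (fd G z (nuP K) w) (fd' G z (nuP K) w) :=
  ⟨fld_fd hz.1 _ _ _ _, fd_two_pi h hz w⟩

theorem fd_add_fun (ν : Fin K → ℝ) (w w' : Wt N K) :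
    fd G z ν (w + w') = fd G z ν w + fd G z ν w' := by
  funext t; simp only [fd, map_add, Pi.add_apply]

theorem fd'_add_fun (ν : Fin K → ℝ) (w w' : Wt N K) :
    fd' G z ν (w + w') = fd' G z ν w + fd' G z ν w' := by
  funext t; simp only [fd', map_add, Pi.add_apply]; abel

theorem fd_smul_fun (ν : Fin K → ℝ) (c : ℝ) (w : Wt N K) :
    fd G z ν (c • w) = c • fd G z ν w := by
  funext t; simp only [fd, map_smul, Pi.smul_apply]

theorem fd'_smul_fun (ν : Fin K → ℝ) (c : ℝ) (w : Wt N K) :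
    fd' G z ν (c • w) = c • fd' G z ν w := by
  funext t; simp only [fd', map_smul, Pi.smul_apply, smul_add]

/-- the functional `w ↦ I(X, fd w)` -/
def fnl (hz : z ∈ TS G) (hX : Fld G z 0 (2 * π) X X') : Wt N K →ₗ[ℝ] ℝ where
  toFun w := I2 G z X X' (fd G z (nuP K) w) (fd' G z (nuP K) w)
  map_add' w w' := by
    rw [fd_add_fun, fd'_add_fun]
    exact ix_add_right two_pi_nonneg hz hX (fld_fd hz _ _ _ _) (fld_fd hz _ _ _ _)
  map_smul' c w := by
    rw [fd_smul_fun, fd'_smul_fun]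
    exact ix_smul_right c

variable {Nz : Submodule ℝ (Wt N K)}

/-- every functional on a negative space is represented by the index form -/
theorem exists_repr (hz : z ∈ L.US G)
    (hneg : ∀ w ∈ Nz, w ≠ 0 → I2 G z (fd G z (nuP K) w) (fd' G z (nuP K) w)
      (fd G z (nuP K) w) (fd' G z (nuP K) w) < 0)
    (hX : Fld G z 0 (2 * π) X X') :
    ∃ m ∈ Nz, ∀ w ∈ Nz, I2 G z (X - fd G z (nuP K) m) (X' - fd' G z (nuP K) m)
      (fd G z (nuP K) w) (fd' G z (nuP K) w) = 0 := by
  let Φ : Nz →ₗ[ℝ] (Nz →ₗ[ℝ] ℝ) :=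
    { toFun := fun m => (fnl hz.1 (fld_fd hz.1 (nuP K) (m : Wt N K) 0 (2 * π))).comp Nz.subtype
      map_add' := fun m m' => by
        ext w
        change I2 G z _ _ _ _ = I2 G z _ _ _ _ + I2 G z _ _ _ _
        rw [Submodule.coe_add, fd_add_fun, fd'_add_fun]
        exact ix_add_left two_pi_nonneg hz.1 (fld_fd hz.1 _ _ _ _) (fld_fd hz.1 _ _ _ _)
          (fld_fd hz.1 _ _ _ _)
      map_smul' := fun c m => by
        ext w
        change I2 G z _ _ _ _ = c * I2 G z _ _ _ _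
        rw [Submodule.coe_smul, fd_smul_fun, fd'_smul_fun]
        exact ix_smul_left c }
  have hinj : Function.Injective Φ := by
    rw [← LinearMap.ker_eq_bot, LinearMap.ker_eq_bot']
    intro m hm
    by_contra hne
    have h1 := hneg m m.2 (fun h0 => hne (Subtype.ext h0))
    have h2 : Φ m m = 0 := by rw [hm]; rfl
    exact h1.ne h2
  have hsurj : Function.Surjective Φ := by
    have hfin : finrank ℝ (Nz →ₗ[ℝ] ℝ) = finrank ℝ Nz := Subspace.dual_finrank_eq
    exact (LinearMap.injective_iff_surjective_of_finrank_eq_finrank hfin.symm).1 hinj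
  obtain ⟨m, hm⟩ := hsurj ((fnl hz.1 hX).comp Nz.subtype)
  refine ⟨m, m.2, fun w hw => ?_⟩
  have h1 : Φ m ⟨w, hw⟩ = (fnl hz.1 hX).comp Nz.subtype ⟨w, hw⟩ := by rw [hm]
  have h2 : I2 G z (fd G z (nuP K) m) (fd' G z (nuP K) m) (fd G z (nuP K) w) (fd' G z (nuP K) w) =
    I2 G z X X' (fd G z (nuP K) w) (fd' G z (nuP K) w) := h1
  unfold I2 at h2 ⊢
  rw [ix_sub_left two_pi_nonneg hz.1 hX (fld_fd hz.1 _ _ _ _) (fld_fd hz.1 _ _ _ _), h2, sub_self]

/-- **the index form is non-negative on the complement of a maximal negative space** -/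
theorem nonneg_orth (h : GT.Bla G k) (hz : z ∈ L.US G) (hdim : finrank ℝ Nz + 1 = k)
    (hneg : ∀ w ∈ Nz, w ≠ 0 → I2 G z (fd G z (nuP K) w) (fd' G z (nuP K) w)
      (fd G z (nuP K) w) (fd' G z (nuP K) w) < 0)
    (hV : PF G z V V')
    (horth : ∀ w ∈ Nz, I2 G z V V' (fd G z (nuP K) w) (fd' G z (nuP K) w) = 0) :
    0 ≤ I2 G z V V' V V' := by
  -- `l0` is a bijection of `Nz` onto `V0`
  let Λ : Nz →ₗ[ℝ] V0 G z :=
    LinearMap.codRestrict (V0 G z) ((l0 G z (nuP K)).toLinearMap.comp Nz.subtype)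
      (fun w => l0_mem _ _)
  have hinj : Function.Injective Λ := by
    rw [← LinearMap.ker_eq_bot, LinearMap.ker_eq_bot']
    intro m hm
    by_contra hne
    have h1 := hneg m m.2 (fun h0 => hne (Subtype.ext h0))
    have h2 : l0 G z (nuP K) (m : Wt N K) = 0 := congrArg Subtype.val hm
    have h3 : 0 ≤ I2 G z (fd G z (nuP K) (m : Wt N K)) (fd' G z (nuP K) (m : Wt N K))
        (fd G z (nuP K) (m : Wt N K)) (fd' G z (nuP K) (m : Wt N K)) := by
      refine nonneg_per h hz (fld_fd hz.1 _ _ _ _) (fd_two_pi h hz _) ?_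
      intro u hu hu0
      have := inner_l0 h hz (nuP K) (m : Wt N K) (mem_V0.2 ⟨hu, hu0⟩)
      rw [h2, inner_zero_right] at this
      exact this.symm
    linarith
  have hfr : finrank ℝ Nz = finrank ℝ (V0 G z) := by
    have := finrank_V0 h hz
    omega
  have hsurj : Function.Surjective Λ :=
    (LinearMap.injective_iff_surjective_of_finrank_eq_finrank hfr).1 hinj
  set u₀ : Euc N := (V0 G z).starProjection (V 0 + GT.lf G (qq G z) z.1 (V π)) with hu₀
  have hu₀m : u₀ ∈ V0 G z := Submodule.starProjection_apply_mem _ _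
  obtain ⟨m, hm⟩ := hsurj ⟨-u₀, (V0 G z).neg_mem hu₀m⟩
  have hm' : l0 G z (nuP K) (m : Wt N K) = -u₀ := congrArg Subtype.val hm
  have hF := pf_fd (K := K) h hz (m : Wt N K)
  have hsum : 0 ≤ ix G z 0 (2 * π) (V + fd G z (nuP K) (m : Wt N K))
      (V' + fd' G z (nuP K) (m : Wt N K)) (V + fd G z (nuP K) (m : Wt N K))
      (V' + fd' G z (nuP K) (m : Wt N K)) := by
    refine nonneg_per h hz (hV.add hF).fld (hV.add hF).per ?_
    intro u hu hu0
    have huV : u ∈ V0 G z := mem_V0.2 ⟨hu, hu0⟩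
    have e1 := inner_l0 h hz (nuP K) (m : Wt N K) huV
    have e2 : ⟪u, u₀⟫ = ⟪u, V 0⟫ + ⟪GT.lf G z.1 (qq G z) u, V π⟫ := by
      rw [hu₀, ← Submodule.inner_starProjection_left_eq_right,
        Submodule.starProjection_eq_self_iff.2 huV, inner_add_right,
        inner_lf_adj (q := qq G z) h (mem_FF h hz) (mem_V0.1 huV).1]
    rw [hm', inner_neg_right, e2] at e1
    change ⟪u, V 0 + fd G z (nuP K) (m : Wt N K) 0⟫ +
      ⟪GT.lf G z.1 (qq G z) u, V π + fd G z (nuP K) (m : Wt N K) π⟫ = 0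
    rw [inner_add_right, inner_add_right]
    linarith
  rw [ix_add_self two_pi_nonneg hz.1 hV.fld hF.fld] at hsum
  have h1 := horth m m.2
  unfold I2 at h1
  rw [ix_symm two_pi_nonneg hz.1 hV.fld hF.fld] at h1
  have h2 : I2 G z (fd G z (nuP K) (m : Wt N K)) (fd' G z (nuP K) (m : Wt N K))
      (fd G z (nuP K) (m : Wt N K)) (fd' G z (nuP K) (m : Wt N K)) ≤ 0 := by
    by_cases h0 : (m : Wt N K) = 0
    · have e1 : fd G z (nuP K) (m : Wt N K) = (0:ℝ) • fd G z (nuP K) (m : Wt N K) := by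
        rw [← fd_smul_fun, h0, smul_zero]
      have e2 : fd' G z (nuP K) (m : Wt N K) = (0:ℝ) • fd' G z (nuP K) (m : Wt N K) := by
        rw [← fd'_smul_fun, h0, smul_zero]
      unfold I2
      rw [e1, e2]
      rw [ix_smul_left, zero_mul]
    · exact (hneg m m.2 h0).le
  unfold I2 at h2 ⊢
  rw [h1] at hsum
  linarith

end Crest.Agent.R208.CO
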