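import Crest.Agent.R208.CO2

/-!
R208, block CO (helper286), part CO3: **Cauchy-Schwarz**: a field which is orthogonal (for the
index form) to the negative space and has small index form is an approximate weak solution of the
Jacobi equation.
-/

set_option autoImplicit false

open Set Filter Topology MeasureTheory Module
open scoped ContDiff RealInnerProductSpace
open Crest.GeometryTopology.Submanifold
open Crest.Agent.R241.DDefs
open Crest.Agent.R241.D2 hiding fd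
open Crest.Agent.R208.SV Crest.Agent.R208.NN

noncomputable section

namespace Crest.Agent.R208.CO

variable {n N k K : ℕ} {κ : ℝ} {S : Set (Euc N)} {G : Geo n N κ S} {z : Euc N × Euc N}
  {V V' X X' A A' B B' : ℝ → Euc N} {C₁ C₂ δ : ℝ}

local notation "π" => Real.pi

/-- pointwise bound of the integrand of the index form -/
def Bd (G : Geo n N κ S) (C₁ : ℝ) : Prop :=
  1 ≤ C₁ ∧ ∀ z ∈ L.US G, ∀ A A' B B' : ℝ → Euc N, ∀ t, |ixd G z A A' B B' t| ≤
    C₁ * (‖A t‖ * ‖B t‖ + ‖A' t‖ * ‖B' t‖)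

theorem exists_Bd (hc : IsCompact S) : ∃ C₁, Bd G C₁ := by
  obtain ⟨M, hM⟩ := hc.exists_bound_of_continuousOn
    (f := fun x => fderiv ℝ G.P x) ((G.contDiff_P.continuous_fderiv (by simp)).continuousOn)
  refine ⟨max 1 (M ^ 2), le_max_left _ _, fun z hz A A' B B' t => ?_⟩
  have hzt := fl_mem G hz.1 t
  have hn : ‖(fl G (z, t)).2‖ = 1 := by rw [norm_fl G hz.1, hz.2]
  have h1 : ∀ u v : Euc N, ‖fderiv ℝ G.P (fl G (z, t)).1 u v‖ ≤ M * ‖u‖ * ‖v‖ := by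
    intro u v
    have e1 := (fderiv ℝ G.P (fl G (z, t)).1 u).le_opNorm v
    have e2 := (fderiv ℝ G.P (fl G (z, t)).1).le_opNorm u
    have e3 := hM _ hzt.1
    calc ‖fderiv ℝ G.P (fl G (z, t)).1 u v‖ ≤ ‖fderiv ℝ G.P (fl G (z, t)).1 u‖ * ‖v‖ := e1
      _ ≤ (‖fderiv ℝ G.P (fl G (z, t)).1‖ * ‖u‖) * ‖v‖ :=
          mul_le_mul_of_nonneg_right e2 (norm_nonneg _)
      _ ≤ (M * ‖u‖) * ‖v‖ := mul_le_mul_of_nonneg_right
          (mul_le_mul_of_nonneg_right e3 (norm_nonneg _)) (norm_nonneg _)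
  have hM0 : 0 ≤ M := (norm_nonneg _).trans (hM _ hzt.1)
  unfold ixd
  have e1 : |⟪A' t, B' t⟫| ≤ ‖A' t‖ * ‖B' t‖ := abs_real_inner_le_norm _ _
  have e2 : |⟪(X G (fl G (z, t))).2, II G (fl G (z, t)).1 (A t) (B t)⟫| ≤
      M ^ 2 * (‖A t‖ * ‖B t‖) := by
    refine (abs_real_inner_le_norm _ _).trans ?_
    have f1 : ‖(Crest.Agent.R241.D2.X G (fl G (z, t))).2‖ ≤ M := by
      have := h1 (fl G (z, t)).2 (fl G (z, t)).2
      rw [hn, mul_one, mul_one] at this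
      exact this
    have f2 : ‖II G (fl G (z, t)).1 (A t) (B t)‖ ≤ M * ‖A t‖ * ‖B t‖ := h1 _ _
    calc _ ≤ M * (M * ‖A t‖ * ‖B t‖) := mul_le_mul f1 f2 (norm_nonneg _) hM0
      _ = _ := by ring
  have e3 : |⟪A' t, B' t⟫ - ⟪(Crest.Agent.R241.D2.X G (fl G (z, t))).2,
      II G (fl G (z, t)).1 (A t) (B t)⟫| ≤ ‖A' t‖ * ‖B' t‖ + M ^ 2 * (‖A t‖ * ‖B t‖) :=
    (abs_sub _ _).trans (add_le_add e1 e2)
  refine e3.trans ?_
  have f1 : M ^ 2 * (‖A t‖ * ‖B t‖) ≤ max 1 (M ^ 2) * (‖A t‖ * ‖B t‖) :=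
    mul_le_mul_of_nonneg_right (le_max_right _ _) (by positivity)
  have f2 : ‖A' t‖ * ‖B' t‖ ≤ max 1 (M ^ 2) * (‖A' t‖ * ‖B' t‖) :=
    le_mul_of_one_le_left (by positivity) (le_max_left _ _)
  linarith

theorem Hn_nonneg : 0 ≤ Hn A A' :=
  intervalIntegral.integral_nonneg two_pi_nonneg fun _ _ => by positivity

theorem intble_sq (hA : Fld G z 0 (2 * π) A A') :
    IntervalIntegrable (fun t => ‖A t‖ ^ 2 + ‖A' t‖ ^ 2) volume 0 (2 * π) := by
  refine ContinuousOn.intervalIntegrable ?_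
  rw [uIcc_of_le two_pi_nonneg]
  exact (hA.contX.norm.pow 2).add (hA.cont.norm.pow 2)

/-- weighted bound of the index form -/
theorem abs_I2_le (hbd : Bd G C₁) (hz : z ∈ L.US G) (hA : Fld G z 0 (2 * π) A A')
    (hB : Fld G z 0 (2 * π) B B') {ε : ℝ} (hε : 0 < ε) :
    |I2 G z A A' B B'| ≤ C₁ / (2 * ε) * Hn A A' + C₁ * ε / 2 * Hn B B' := by
  have hC : 0 ≤ C₁ := zero_le_one.trans hbd.1
  unfold I2 ix
  have h1 : ‖∫ t in (0:ℝ)..(2 * π), ixd G z A A' B B' t‖ ≤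
      ∫ t in (0:ℝ)..(2 * π), (C₁ / (2 * ε) * (‖A t‖ ^ 2 + ‖A' t‖ ^ 2) +
        C₁ * ε / 2 * (‖B t‖ ^ 2 + ‖B' t‖ ^ 2)) := by
    refine intervalIntegral.norm_integral_le_of_norm_le two_pi_nonneg ?_
      (((intble_sq hA).const_mul _).add ((intble_sq hB).const_mul _))
    refine Eventually.of_forall fun t _ => ?_
    rw [Real.norm_eq_abs]
    refine (hbd.2 z hz A A' B B' t).trans ?_
    have key : ∀ a b : ℝ, a * b ≤ 1 / (2 * ε) * a ^ 2 + ε / 2 * b ^ 2 := by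
      intro a b
      have e1 : 0 ≤ (a - ε * b) ^ 2 / (2 * ε) := by positivity
      have e2 : (a - ε * b) ^ 2 / (2 * ε) = 1 / (2 * ε) * a ^ 2 - a * b + ε / 2 * b ^ 2 := by
        field_simp
        ring
      linarith
    have e1 := key ‖A t‖ ‖B t‖
    have e2 := key ‖A' t‖ ‖B' t‖
    have e3 : C₁ / (2 * ε) * (‖A t‖ ^ 2 + ‖A' t‖ ^ 2) + C₁ * ε / 2 * (‖B t‖ ^ 2 + ‖B' t‖ ^ 2) =
      C₁ * ((1 / (2 * ε) * ‖A t‖ ^ 2 + ε / 2 * ‖B t‖ ^ 2) +
        (1 / (2 * ε) * ‖A' t‖ ^ 2 + ε / 2 * ‖B' t‖ ^ 2)) := by ring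
    rw [e3]
    exact mul_le_mul_of_nonneg_left (add_le_add e1 e2) hC
  rw [intervalIntegral.integral_add ((intble_sq hA).const_mul _) ((intble_sq hB).const_mul _),
    intervalIntegral.integral_const_mul, intervalIntegral.integral_const_mul] at h1
  exact h1

theorem abs_I2_self_le (hbd : Bd G C₁) (hz : z ∈ L.US G) (hA : Fld G z 0 (2 * π) A A') :
    |I2 G z A A' A A'| ≤ C₁ * Hn A A' := by
  have := abs_I2_le hbd hz hA hA one_pos
  refine this.trans (le_of_eq ?_)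
  ring

/-- `Hn` of the fields `fd w` is bounded -/
def Bf (G : Geo n N κ S) (K : ℕ) (C₂ : ℝ) : Prop :=
  1 ≤ C₂ ∧ ∀ z ∈ L.US G, ∀ w : Wt N K, Hn (fd G z (nuP K) w) (fd' G z (nuP K) w) ≤ C₂ * ‖w‖ ^ 2

theorem exists_Bf (hc : IsCompact S) (K : ℕ) : ∃ C₂, Bf G K C₂ := by
  have hUS := LB.isCompact_US (G := G) hc
  -- bounds of `ev`, `ev'`, `P`, `DP`
  obtain ⟨M, hM⟩ := hc.exists_bound_of_continuousOn
    (f := fun x => fderiv ℝ G.P x) ((G.contDiff_P.continuous_fderiv (by simp)).continuousOn)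
  obtain ⟨M1, hM1⟩ := hc.exists_bound_of_continuousOn
    (f := fun x => G.P x) (G.contDiff_P.continuous.continuousOn)
  obtain ⟨E1, hE1⟩ := (isCompact_Icc (a := (0:ℝ)) (b := 2 * π)).exists_bound_of_continuousOn
    (f := fun t => (ev (nuP K) t : Wt N K →L[ℝ] Euc N)) (contDiff_ev (nuP K)).continuous.continuousOn
  obtain ⟨E2, hE2⟩ := (isCompact_Icc (a := (0:ℝ)) (b := 2 * π)).exists_bound_of_continuousOn
    (f := fun t => (ev' (nuP K) t : Wt N K →L[ℝ] Euc N))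
    (contDiff_ev' (nuP K)).continuous.continuousOn
  refine ⟨max 1 (2 * π * ((M1 * E1) ^ 2 + (M * E1 + M1 * E2) ^ 2)), le_max_left _ _,
    fun z hz w => ?_⟩
  have hpt : ∀ t ∈ Icc (0:ℝ) (2 * π), ‖fd G z (nuP K) w t‖ ^ 2 + ‖fd' G z (nuP K) w t‖ ^ 2 ≤
      ((M1 * E1) ^ 2 + (M * E1 + M1 * E2) ^ 2) * ‖w‖ ^ 2 := by
    intro t ht
    have hzt := fl_mem G hz.1 t
    have hn : ‖(fl G (z, t)).2‖ = 1 := by rw [norm_fl G hz.1, hz.2]
    have a1 := hE1 t ht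
    have a2 := hE2 t ht
    have a3 := hM _ hzt.1
    have a4 := hM1 _ hzt.1
    have hE10 : 0 ≤ E1 := (norm_nonneg _).trans a1
    have hE20 : 0 ≤ E2 := (norm_nonneg _).trans a2
    have hM0 : 0 ≤ M := (norm_nonneg _).trans a3
    have hM10 : 0 ≤ M1 := (norm_nonneg _).trans a4
    have b1 : ‖ev (nuP K) t w‖ ≤ E1 * ‖w‖ :=
      ((ev (nuP K) t).le_opNorm w).trans (mul_le_mul_of_nonneg_right a1 (norm_nonneg _))
    have b2 : ‖ev' (nuP K) t w‖ ≤ E2 * ‖w‖ :=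
      ((ev' (nuP K) t).le_opNorm w).trans (mul_le_mul_of_nonneg_right a2 (norm_nonneg _))
    have c1 : ‖fd G z (nuP K) w t‖ ≤ (M1 * E1) * ‖w‖ := by
      unfold fd
      refine ((G.P _).le_opNorm _).trans ?_
      calc _ ≤ M1 * (E1 * ‖w‖) := mul_le_mul a4 b1 (norm_nonneg _) hM10
        _ = _ := by ring
    have c2 : ‖fd' G z (nuP K) w t‖ ≤ (M * E1 + M1 * E2) * ‖w‖ := by
      unfold fd'
      refine (norm_add_le _ _).trans ?_
      have d1 : ‖fderiv ℝ G.P (fl G (z, t)).1 (fl G (z, t)).2 (ev (nuP K) t w)‖ ≤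
          M * (E1 * ‖w‖) := by
        refine (ContinuousLinearMap.le_opNorm _ _).trans ?_
        have d2 : ‖fderiv ℝ G.P (fl G (z, t)).1 (fl G (z, t)).2‖ ≤ M := by
          have := (fderiv ℝ G.P (fl G (z, t)).1).le_opNorm (fl G (z, t)).2
          rw [hn, mul_one] at this
          exact this.trans a3
        exact mul_le_mul d2 b1 (norm_nonneg _) hM0
      have d3 : ‖G.P (fl G (z, t)).1 (ev' (nuP K) t w)‖ ≤ M1 * (E2 * ‖w‖) :=
        ((G.P _).le_opNorm _).trans (mul_le_mul a4 b2 (norm_nonneg _) hM10)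
      linarith
    have c3 := pow_le_pow_left₀ (norm_nonneg _) c1 2
    have c4 := pow_le_pow_left₀ (norm_nonneg _) c2 2
    calc _ ≤ ((M1 * E1) * ‖w‖) ^ 2 + ((M * E1 + M1 * E2) * ‖w‖) ^ 2 := add_le_add c3 c4
      _ = _ := by ring
  have h1 : Hn (fd G z (nuP K) w) (fd' G z (nuP K) w) ≤
      ∫ t in (0:ℝ)..(2 * π), ((M1 * E1) ^ 2 + (M * E1 + M1 * E2) ^ 2) * ‖w‖ ^ 2 := by
    refine intervalIntegral.integral_mono_on two_pi_nonneg (intble_sq (fld_fd hz.1 _ _ _ _))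
      intervalIntegrable_const hpt
  rw [intervalIntegral.integral_const, smul_eq_mul, sub_zero, ← mul_assoc] at h1
  exact h1.trans (mul_le_mul_of_nonneg_right (le_max_right _ _) (by positivity))

variable {Nz : Submodule ℝ (Wt N K)}

/-- **Cauchy-Schwarz on the complement** -/
theorem cs (h : GT.Bla G k) (hbd : Bd G C₁) (hbf : Bf G K C₂) (hz : z ∈ L.US G)
    (hdim : finrank ℝ Nz + 1 = k) (hδ : 0 < δ)
    (hneg : ∀ w ∈ Nz, I2 G z (fd G z (nuP K) w) (fd' G z (nuP K) w)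
      (fd G z (nuP K) w) (fd' G z (nuP K) w) ≤ -(δ * ‖w‖ ^ 2))
    (hA : PF G z A A')
    (horth : ∀ w ∈ Nz, I2 G z A A' (fd G z (nuP K) w) (fd' G z (nuP K) w) = 0)
    (hX : PF G z X X') :
    I2 G z A A' X X' ^ 2 ≤ I2 G z A A' A A' * ((C₁ + C₁ ^ 2 * C₂ / δ) * Hn X X') := by
  have hC1 : 1 ≤ C₁ := hbd.1
  have hC2 : 1 ≤ C₂ := hbf.1
  have hneg' : ∀ w ∈ Nz, w ≠ 0 → I2 G z (fd G z (nuP K) w) (fd' G z (nuP K) w)
      (fd G z (nuP K) w) (fd' G z (nuP K) w) < 0 := by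
    intro w hw hw0
    have h1 := hneg w hw
    have h2 : 0 < ‖w‖ := norm_pos_iff.2 hw0
    have : 0 < δ * ‖w‖ ^ 2 := by positivity
    linarith
  obtain ⟨m, hm, hmo⟩ := exists_repr (K := K) hz hneg' hX.fld
  set F := fd G z (nuP K) m with hF
  set F' := fd' G z (nuP K) m with hF'
  have hFp : PF G z F F' := pf_fd h hz m
  have hFf := hFp.fld
  set Y := X - F with hY
  set Y' := X' - F' with hY'
  have hYp : PF G z Y Y' := hX.sub hFp
  -- `I(X, F) = I(F, F)`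
  have hXF : I2 G z X X' F F' = I2 G z F F' F F' := by
    have h1 := hmo m hm
    unfold I2 at h1 ⊢
    rw [ix_sub_left two_pi_nonneg hz.1 hX.fld hFf hFf] at h1
    linarith
  have hYY : I2 G z Y Y' Y Y' = I2 G z X X' X X' - I2 G z F F' F F' := by
    have h1 : I2 G z Y Y' Y Y' = I2 G z X X' X X' - 2 * I2 G z F F' X X' + I2 G z F F' F F' :=
      ix_sub_self two_pi_nonneg hz.1 hX.fld hFf
    have h2 : I2 G z F F' X X' = I2 G z X X' F F' :=
      ix_symm two_pi_nonneg hz.1 hFf hX.fld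
    rw [h1, h2, hXF]; ring
  have hAY : I2 G z A A' X X' = I2 G z A A' Y Y' := by
    have h1 : I2 G z A A' Y Y' = I2 G z A A' X X' - I2 G z A A' F F' :=
      ix_sub_right two_pi_nonneg hz.1 hA.fld hX.fld hFf
    rw [h1, horth m hm, sub_zero]
  -- bound of `I(Y, Y)`
  have hHX : 0 ≤ Hn X X' := Hn_nonneg
  have hFbound : -(I2 G z F F' F F') ≤ C₁ ^ 2 * C₂ / δ * Hn X X' := by
    have hε : 0 < δ / (C₁ * C₂) := by positivity
    have h1 := abs_I2_le hbd hz hX.fld hFf hε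
    rw [hXF] at h1
    have h2 := hbf.2 z hz m
    have h3 := hneg m hm
    have h4 : -(I2 G z F F' F F') ≤ |I2 G z F F' F F'| := neg_le_abs _
    have h5 : C₁ / (2 * (δ / (C₁ * C₂))) * Hn X X' = C₁ ^ 2 * C₂ / (2 * δ) * Hn X X' := by
      field_simp
    have h6 : C₁ * (δ / (C₁ * C₂)) / 2 * Hn F F' ≤ C₁ * (δ / (C₁ * C₂)) / 2 * (C₂ * ‖m‖ ^ 2) :=
      mul_le_mul_of_nonneg_left h2 (by positivity)
    have h7 : C₁ * (δ / (C₁ * C₂)) / 2 * (C₂ * ‖m‖ ^ 2) = δ / 2 * ‖m‖ ^ 2 := by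
      field_simp
    have h8 : -(I2 G z F F' F F') ≤ C₁ ^ 2 * C₂ / (2 * δ) * Hn X X' + δ / 2 * ‖m‖ ^ 2 := by
      rw [← h5]; linarith
    have h9 : C₁ ^ 2 * C₂ / δ * Hn X X' = 2 * (C₁ ^ 2 * C₂ / (2 * δ) * Hn X X') := by
      field_simp
    rw [h9]
    linarith
  have hYYb : I2 G z Y Y' Y Y' ≤ (C₁ + C₁ ^ 2 * C₂ / δ) * Hn X X' := by
    have h1 := abs_I2_self_le hbd hz hX.fld
    have h2 := le_abs_self (I2 G z X X' X X')
    rw [hYY, add_mul]
    linarith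
  -- discriminant
  have hdisc : I2 G z A A' Y Y' ^ 2 ≤ I2 G z A A' A A' * I2 G z Y Y' Y Y' := by
    have hq : ∀ s : ℝ, 0 ≤ I2 G z Y Y' Y Y' * (s * s) + (2 * I2 G z A A' Y Y') * s +
        I2 G z A A' A A' := by
      intro s
      have hsum := hA.add (hYp.smul s)
      have h1 := nonneg_orth h hz hdim hneg' hsum ?_
      · have h2 : I2 G z (A + s • Y) (A' + s • Y') (A + s • Y) (A' + s • Y') =
            I2 G z A A' A A' + 2 * I2 G z (s • Y) (s • Y') A A' +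
              I2 G z (s • Y) (s • Y') (s • Y) (s • Y') :=
          ix_add_self two_pi_nonneg hz.1 hA.fld (hYp.smul s).fld
        have h3 : I2 G z (s • Y) (s • Y') A A' = s * I2 G z Y Y' A A' := ix_smul_left s
        have h4 : I2 G z (s • Y) (s • Y') (s • Y) (s • Y') = s * (s * I2 G z Y Y' Y Y') := by
          have e1 : I2 G z (s • Y) (s • Y') (s • Y) (s • Y') =
            s * I2 G z Y Y' (s • Y) (s • Y') := ix_smul_left s
          have e2 : I2 G z Y Y' (s • Y) (s • Y') = s * I2 G z Y Y' Y Y' := ix_smul_right s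
          rw [e1, e2]
        have h5 : I2 G z Y Y' A A' = I2 G z A A' Y Y' :=
          ix_symm two_pi_nonneg hz.1 hYp.fld hA.fld
        rw [h2, h3, h4, h5] at h1
        linarith
      · intro w hw
        have e1 : I2 G z (A + s • Y) (A' + s • Y') (fd G z (nuP K) w) (fd' G z (nuP K) w) =
            I2 G z A A' (fd G z (nuP K) w) (fd' G z (nuP K) w) +
              I2 G z (s • Y) (s • Y') (fd G z (nuP K) w) (fd' G z (nuP K) w) :=
          ix_add_left two_pi_nonneg hz.1 hA.fld (hYp.smul s).fld (fld_fd hz.1 _ _ _ _)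
        have e2 : I2 G z (s • Y) (s • Y') (fd G z (nuP K) w) (fd' G z (nuP K) w) =
            s * I2 G z Y Y' (fd G z (nuP K) w) (fd' G z (nuP K) w) := ix_smul_left s
        rw [e1, e2, horth w hw, hmo w hw, mul_zero, add_zero]
    have h1 := discrim_le_zero hq
    unfold discrim at h1
    nlinarith
  have hAA : 0 ≤ I2 G z A A' A A' := nonneg_orth h hz hdim hneg' hA horth
  rw [hAY]
  exact hdisc.trans (mul_le_mul_of_nonneg_left hYYb hAA)

end Crest.Agent.R208.CO
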