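import Crest.Agent.R208.NN0

/-!
Row 208, block [N], part NN0b (helper589): the quadratic form `qf` on the space of coefficients,
and the component of a tangent field orthogonal to the geodesic.
-/

set_option autoImplicit false

open MeasureTheory Measure Set Filter Topology Module Metric
open scoped ContDiff RealInnerProductSpace
open Crest.GeometryTopology.Submanifold
open Crest.Agent.R241.DDefs
open Crest.Agent.R241.D2
open Crest.Agent.R208.L (om TanTS dfl om_dfl)

noncomputable section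

namespace Crest.Agent.R208.NN

variable {n N K : ℕ} {κ : ℝ} {S : Set (Euc N)}

/-- the quadratic form: index form of the tangential projection of the trigonometric polynomial
plus the square of the `L²` norm of its normal part -/
def qf (G : Geo n N κ S) (z : Euc N × Euc N) (ν : Fin K → ℝ) (w : Wt N K) : ℝ :=
  SV.ix G z 0 (2 * Real.pi) (fd G z ν w) (fd' G z ν w) (fd G z ν w) (fd' G z ν w) +
    ∫ t in (0 : ℝ)..(2 * Real.pi), ‖ev ν t w - fd G z ν w t‖ ^ 2

variable {G : Geo n N κ S} {z : Euc N × Euc N} {a b : ℝ} {V V' : ℝ → Euc N}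

theorem qf_ge (G : Geo n N κ S) (z : Euc N × Euc N) (ν : Fin K → ℝ) (w : Wt N K) :
    SV.ix G z 0 (2 * Real.pi) (fd G z ν w) (fd' G z ν w) (fd G z ν w) (fd' G z ν w) ≤
      qf G z ν w := by
  unfold qf
  have h : 0 ≤ ∫ t in (0 : ℝ)..(2 * Real.pi), ‖ev ν t w - fd G z ν w t‖ ^ 2 :=
    intervalIntegral.integral_nonneg (by positivity) fun t _ => by positivity
  linarith

/-- the normal part of the derivative of a tangent field -/
theorem der_eq (hz : z ∈ TS G) (hV : SV.Fld G z a b V V') (hab : a < b) {t : ℝ}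
    (ht : t ∈ Icc a b) :
    V' t = II G (fl G (z, t)).1 (fl G (z, t)).2 (V t) + G.P (fl G (z, t)).1 (V' t) := by
  have h1 : HasDerivAt (fun t => (fl G (z, t)).1) (fl G (z, t)).2 t :=
    hda_fst (hasDerivAt_fl G (complete G hz t))
  have h2 : HasDerivAt (fun t => G.P (fl G (z, t)).1)
      (fderiv ℝ G.P (fl G (z, t)).1 (fl G (z, t)).2) t :=
    ((differentiable_P G).differentiableAt.hasFDerivAt).comp_hasDerivAt t h1
  have h3 := h2.hasDerivWithinAt.clm_apply (hV.der t ht)
  have h4 : HasDerivWithinAt V (fderiv ℝ G.P (fl G (z, t)).1 (fl G (z, t)).2 (V t) +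
      G.P (fl G (z, t)).1 (V' t)) (Icc a b) t := by
    refine h3.congr (fun s hs => ?_) ?_
    · exact ((P_eq_self G (fl_mem G hz s).1).1 (hV.mem s hs)).symm
    · exact ((P_eq_self G (fl_mem G hz t).1).1 (hV.mem t ht)).symm
  exact (uniqueDiffOn_Icc hab t ht).eq_deriv _ (hV.der t ht) h4

/-- component of `V` orthogonal to the geodesic -/
def pp (G : Geo n N κ S) (z : Euc N × Euc N) (V : ℝ → Euc N) (t : ℝ) : Euc N :=
  V t - ⟪V t, (fl G (z, t)).2⟫ • (fl G (z, t)).2

/-- derivative of `pp` -/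
def pp' (G : Geo n N κ S) (z : Euc N × Euc N) (V V' : ℝ → Euc N) (t : ℝ) : Euc N :=
  V' t - (⟪V' t, (fl G (z, t)).2⟫ • (fl G (z, t)).2 + ⟪V t, (fl G (z, t)).2⟫ • (X G (fl G (z, t))).2)

theorem inner_X_tan (hz : z ∈ TS G) {t : ℝ} {x : Euc N} (hx : x ∈ G.T (fl G (z, t)).1) :
    ⟪(X G (fl G (z, t))).2, x⟫ = 0 :=
  inner_II G (fl_mem G hz t).1 (fl_mem G hz t).2 (fl_mem G hz t).2 hx

theorem fld_pp (hz : z ∈ TS G) (hV : SV.Fld G z a b V V') :
    SV.Fld G z a b (pp G z V) (pp' G z V V') where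
  der t ht := by
    have h1 : HasDerivAt (fun t => (fl G (z, t)).2) (X G (fl G (z, t))).2 t :=
      hda_snd (hasDerivAt_fl G (complete G hz t))
    have h2 : HasDerivWithinAt (fun t => ⟪V t, (fl G (z, t)).2⟫) (⟪V' t, (fl G (z, t)).2⟫)
        (Icc a b) t := by
      refine ((hV.der t ht).inner ℝ h1.hasDerivWithinAt).congr_deriv ?_
      rw [real_inner_comm, inner_X_tan hz (hV.mem t ht), zero_add]
    have h3 := (hV.der t ht).sub (h2.smul h1.hasDerivWithinAt)
    have h4 : V' t - (⟪V t, (fl G (z, t)).2⟫ • (X G (fl G (z, t))).2 +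
        ⟪V' t, (fl G (z, t)).2⟫ • (fl G (z, t)).2) = pp' G z V V' t := by
      unfold pp'
      rw [add_comm]
    rw [h4] at h3
    exact h3
  cont := by
    have h1 := SV.contOn_fl hz (Icc a b)
    have h2 : ContinuousOn (fun t => (fl G (z, t)).2) (Icc a b) := continuous_snd.comp_continuousOn h1
    have h3 : ContinuousOn (fun t => (X G (fl G (z, t))).2) (Icc a b) :=
      continuous_snd.comp_continuousOn ((contDiff_X G).continuous.comp_continuousOn h1)
    have h4 : ContinuousOn (fun t => ⟪V' t, (fl G (z, t)).2⟫) (Icc a b) := hV.cont.inner h2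
    have h5 : ContinuousOn (fun t => ⟪V t, (fl G (z, t)).2⟫) (Icc a b) := hV.contX.inner h2
    exact hV.cont.sub ((h4.smul h2).add (h5.smul h3))
  mem t ht := (G.T _).sub_mem (hV.mem t ht) ((G.T _).smul_mem _ (fl_mem G hz t).2)

theorem inner_pp (hz : z ∈ TS G) (h1 : ‖z.2‖ = 1) (V : ℝ → Euc N) (t : ℝ) :
    ⟪pp G z V t, (fl G (z, t)).2⟫ = 0 := by
  unfold pp
  rw [inner_sub_left, real_inner_smul_left, real_inner_self_eq_norm_sq, norm_fl G hz, h1]
  ring

/-- pointwise comparison of the index forms of `V` and of its orthogonal component -/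
theorem ixd_pp_of (hz : z ∈ TS G) (h1 : ‖z.2‖ = 1) {t : ℝ} (hVt : V t ∈ G.T (fl G (z, t)).1)
    (hd : V' t = II G (fl G (z, t)).1 (fl G (z, t)).2 (V t) + G.P (fl G (z, t)).1 (V' t)) :
    SV.ixd G z V V' V V' t =
      SV.ixd G z (pp G z V) (pp' G z V V') (pp G z V) (pp' G z V V') t +
        ⟪V' t, (fl G (z, t)).2⟫ ^ 2 := by
  have hm := fl_mem G hz t
  have hn : ⟪(fl G (z, t)).2, (fl G (z, t)).2⟫ = (1 : ℝ) := by
    rw [real_inner_self_eq_norm_sq, norm_fl G hz, h1, one_pow]
  have hx : (X G (fl G (z, t))).2 = II G (fl G (z, t)).1 (fl G (z, t)).2 (fl G (z, t)).2 := rfl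
  set c := (fl G (z, t)).1 with hc
  set c' := (fl G (z, t)).2 with hc'
  set x := (X G (fl G (z, t))).2 with hxd
  have e1 : ⟪x, c'⟫ = 0 := inner_X_tan hz hm.2
  have e1' : ⟪c', x⟫ = 0 := by rw [real_inner_comm]; exact e1
  have e2 : ⟪x, V' t⟫ = ⟪x, II G c c' (V t)⟫ := by
    rw [hd, inner_add_right, inner_X_tan hz (P_mem G hm.1), add_zero]
  have e3 : II G c (pp G z V t) (pp G z V t) = II G c (V t) (V t) -
      (2 * ⟪V t, c'⟫) • II G c c' (V t) + ⟪V t, c'⟫ ^ 2 • x := by
    have h4 : II G c (V t) c' = II G c c' (V t) := L.II_symm G hm.1 hVt hm.2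
    rw [hx]
    unfold pp
    rw [← hc']
    unfold II at h4 ⊢
    simp only [map_sub, map_smul, _root_.sub_apply, _root_.smul_apply]
    rw [h4]
    module
  unfold SV.ixd
  rw [← hc, ← hxd, e3]
  unfold pp'
  rw [← hc', ← hxd]
  simp only [inner_sub_left, inner_sub_right, inner_add_left, inner_add_right,
    real_inner_smul_left, real_inner_smul_right, hn, e1, e1']
  rw [real_inner_comm x (V' t)]
  simp only [e2, real_inner_comm (V' t) c']
  ring

theorem ixd_pp (hz : z ∈ TS G) (h1 : ‖z.2‖ = 1) (hV : SV.Fld G z a b V V') (hab : a < b) {t : ℝ}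
    (ht : t ∈ Icc a b) :
    SV.ixd G z V V' V V' t =
      SV.ixd G z (pp G z V) (pp' G z V V') (pp G z V) (pp' G z V V') t +
        ⟪V' t, (fl G (z, t)).2⟫ ^ 2 :=
  ixd_pp_of hz h1 (hV.mem t ht) (der_eq hz hV hab ht)

/-- the index form of the orthogonal component is smaller -/
theorem ix_pp_le (hz : z ∈ TS G) (h1 : ‖z.2‖ = 1) (hV : SV.Fld G z a b V V') (hab : a ≤ b) :
    SV.ix G z a b (pp G z V) (pp' G z V V') (pp G z V) (pp' G z V V') ≤
      SV.ix G z a b V V' V V' := by
  have hW := fld_pp hz hV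
  unfold SV.ix
  rcases hab.eq_or_lt with rfl | hab'
  · simp
  refine intervalIntegral.integral_mono_on hab (hW.intble hz hab hW) (hV.intble hz hab hV) ?_
  intro t ht
  rw [ixd_pp hz h1 hV hab' ht]
  have := sq_nonneg (⟪V' t, (fl G (z, t)).2⟫)
  linarith

end Crest.Agent.R208.NN
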