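import Crest.Agent.R208.CO3
import Crest.Agent.R208.NB3
import Crest.Agent.R208.MS2a

/-!
R208, block CO (helper286), part CO4: test fields in the parallel frame.
-/

set_option autoImplicit false

open Set Filter Topology MeasureTheory Module
open scoped ContDiff RealInnerProductSpace
open Crest.GeometryTopology.Submanifold
open Crest.Agent.R241.DDefs
open Crest.Agent.R241.D2 hiding fd
open Crest.Agent.R208.SV Crest.Agent.R208.NN Crest.Agent.R208.J
open Crest.Agent.R208.NB (pf pf' hasDerivAt_pf continuous_pf' pf_mem der_split)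

noncomputable section

namespace Crest.Agent.R208.CO

variable {n N k K : ℕ} {κ : ℝ} {S : Set (Euc N)} {G : Geo n N κ S} {z : Euc N × Euc N}
  {A A' B B' x x' : ℝ → Euc N}

local notation "π" => Real.pi

/-- a `C¹` tangent field along the whole geodesic -/
structure TF (G : Geo n N κ S) (z : Euc N × Euc N) (A A' : ℝ → Euc N) : Prop where
  der : ∀ t, HasDerivAt A (A' t) t
  cont : Continuous A'
  mem : ∀ t, A t ∈ G.T (fl G (z, t)).1

theorem TF.fld (h : TF G z A A') (a b : ℝ) : Fld G z a b A A' :=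
  ⟨fun t _ => (h.der t).hasDerivWithinAt, h.cont.continuousOn, fun t _ => h.mem t⟩

theorem TF.add (hA : TF G z A A') (hB : TF G z B B') : TF G z (A + B) (A' + B') :=
  ⟨fun t => (hA.der t).add (hB.der t), hA.cont.add hB.cont,
    fun t => Submodule.add_mem _ (hA.mem t) (hB.mem t)⟩

theorem TF.sub (hA : TF G z A A') (hB : TF G z B B') : TF G z (A - B) (A' - B') :=
  ⟨fun t => (hA.der t).sub (hB.der t), hA.cont.sub hB.cont,
    fun t => Submodule.sub_mem _ (hA.mem t) (hB.mem t)⟩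

theorem TF.continuous (hA : TF G z A A') : Continuous A :=
  continuous_iff_continuousAt.2 fun t => (hA.der t).continuousAt

/-- the test field of a curve `x` in the parallel frame -/
def tX (G : Geo n N κ S) (z : Euc N × Euc N) (x : ℝ → Euc N) (t : ℝ) : Euc N := PT G z t (x t)

/-- its derivative -/
def tX' (G : Geo n N κ S) (z : Euc N × Euc N) (x x' : ℝ → Euc N) (t : ℝ) : Euc N :=
  Om G (fl G (z, t)) (PT G z t (x t)) + PT G z t (x' t)

theorem TF_tX (hz : z ∈ TS G) (hx : ∀ t, HasDerivAt x (x' t) t) (hx' : Continuous x')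
    (hm : ∀ t, G.P z.1 (x t) = x t) : TF G z (tX G z x) (tX' G z x x') := by
  have hxc : Continuous x := continuous_iff_continuousAt.2 fun t => (hx t).continuousAt
  have hPTc : Continuous (PT G z) := (contDiff_PT hz).continuous
  refine ⟨fun t => ?_, ?_, fun t => PT_mem hz t ((P_eq_self G hz.1).2 (hm t))⟩
  · have h1 := (hasDerivAt_PT hz t).clm_apply (hx t)
    refine h1.congr_deriv ?_
    rfl
  · exact (((contDiff_Om (G := G)).continuous.comp (continuous_fl hz)).clm_apply
      (hPTc.clm_apply hxc)).add (hPTc.clm_apply hx')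

theorem pf_tX (hz : z ∈ TS G) : pf G z (tX G z x) = x := by
  funext t
  exact PTi_PT hz t _

theorem pf'_tX (hz : z ∈ TS G) (hx : ∀ t, HasDerivAt x (x' t) t) (hx' : Continuous x')
    (hm : ∀ t, G.P z.1 (x t) = x t) : pf' G z (tX' G z x x') = x' := by
  funext t
  have hT := TF_tX hz hx hx' hm
  have h1 := hasDerivAt_pf hz hT.der hT.mem t
  rw [pf_tX hz] at h1
  exact h1.unique (hx t)

theorem pf_add (t : ℝ) : pf G z (A + B) t = pf G z A t + pf G z B t := by
  simp only [pf, Pi.add_apply, map_add]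

theorem pf'_add (t : ℝ) : pf' G z (A' + B') t = pf' G z A' t + pf' G z B' t := by
  simp only [pf', Pi.add_apply, map_add]

theorem pf_sub (t : ℝ) : pf G z (A - B) t = pf G z A t - pf G z B t := by
  simp only [pf, Pi.sub_apply, map_sub]

theorem pf'_sub (t : ℝ) : pf' G z (A' - B') t = pf' G z A' t - pf' G z B' t := by
  simp only [pf', Pi.sub_apply, map_sub]

/-- the polarised index form in the parallel frame -/
theorem ixd_pair (hz : z ∈ TS G) (hA : TF G z A A') (hB : TF G z B B') (t : ℝ) :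
    ixd G z A A' B B' t = ⟪pf' G z A' t, pf' G z B' t⟫ - ⟪Rh G z t (pf G z A t), pf G z B t⟫ := by
  have hS := hA.add hB
  have e1 := NB.ixd_eq hz hS.der hS.mem t
  have e2 := NB.ixd_eq hz hA.der hA.mem t
  have e3 := NB.ixd_eq hz hB.der hB.mem t
  have e4 : ixd G z B B' A A' t = ixd G z A A' B B' t := by
    unfold ixd
    rw [real_inner_comm, II_comm (fl_mem G hz t).1 (hB.mem t) (hA.mem t)]
  rw [ixd_add_left, ixd_add_right, ixd_add_right, e2, e3, e4, pf_add, pf'_add, map_add,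
    norm_add_sq_real] at e1
  simp only [inner_add_left, inner_add_right] at e1
  have e5 : ⟪Rh G z t (pf G z B t), pf G z A t⟫ = ⟪Rh G z t (pf G z A t), pf G z B t⟫ := by
    rw [inner_Rh hz, real_inner_comm]
  rw [e5] at e1
  linarith

theorem I2_pair (hz : z ∈ TS G) (hA : TF G z A A') (hB : TF G z B B') :
    I2 G z A A' B B' = ∫ t in (0:ℝ)..(2 * π),
      (⟪pf' G z A' t, pf' G z B' t⟫ - ⟪Rh G z t (pf G z A t), pf G z B t⟫) :=
  intervalIntegral.integral_congr fun t _ => ixd_pair hz hA hB t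

/-- bounds for the tensors along geodesics -/
structure BT (G : Geo n N κ S) (M : ℝ) : Prop where
  one : 1 ≤ M
  Om : ∀ q ∈ L.US G, ‖J.Om G q‖ ≤ M
  Rm : ∀ q ∈ L.US G, ‖J.Rm G q‖ ≤ M
  dP : ∀ q ∈ L.US G, ‖J.dP G q‖ ≤ M

theorem exists_BT (hc : IsCompact S) (G : Geo n N κ S) : ∃ M, BT G M := by
  have hUS := LB.isCompact_US (G := G) hc
  obtain ⟨M1, h1⟩ := hUS.exists_bound_of_continuousOn
    (f := fun q => J.Om G q) (contDiff_Om (G := G)).continuous.continuousOn
  obtain ⟨M2, h2⟩ := hUS.exists_bound_of_continuousOn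
    (f := fun q => J.Rm G q) (contDiff_Rm (G := G)).continuous.continuousOn
  obtain ⟨M3, h3⟩ := hUS.exists_bound_of_continuousOn
    (f := fun q => J.dP G q) (contDiff_dP (G := G)).continuous.continuousOn
  refine ⟨max 1 (max M1 (max M2 M3)), le_max_left _ _, fun q hq => ?_, fun q hq => ?_,
    fun q hq => ?_⟩
  · exact (h1 q hq).trans ((le_max_left _ _).trans (le_max_right _ _))
  · exact (h2 q hq).trans ((le_max_left _ _).trans ((le_max_right _ _).trans (le_max_right _ _)))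
  · exact (h3 q hq).trans ((le_max_right _ _).trans ((le_max_right _ _).trans (le_max_right _ _)))

theorem fl_US (hz : z ∈ L.US G) (t : ℝ) : fl G (z, t) ∈ L.US G :=
  ⟨fl_mem G hz.1 t, by rw [norm_fl G hz.1, hz.2]⟩

variable {M : ℝ}

theorem norm_Rh_le (hM : BT G M) (hz : z ∈ L.US G) (t : ℝ) : ‖Rh G z t‖ ≤ M := by
  refine ContinuousLinearMap.opNorm_le_bound _ (zero_le_one.trans hM.one) fun u => ?_
  rw [Rh_apply, norm_PTi hz.1]
  refine (ContinuousLinearMap.le_opNorm _ _).trans ?_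
  rw [norm_PT hz.1]
  exact mul_le_mul_of_nonneg_right (hM.Rm _ (fl_US hz t)) (norm_nonneg _)

/-- `Hn` of a test field -/
theorem Hn_tX_le (hM : BT G M) (hz : z ∈ L.US G) (hx : ∀ t, HasDerivAt x (x' t) t)
    (hx' : Continuous x') (h0 : x 0 = 0) :
    Hn (tX G z x) (tX' G z x x') ≤ ((1 + 2 * M ^ 2) * (2 * π) ^ 2 + 2) *
      ∫ t in (0:ℝ)..(2 * π), ‖x' t‖ ^ 2 := by
  have hxc : Continuous x := continuous_iff_continuousAt.2 fun t => (hx t).continuousAt
  have hM0 : 0 ≤ M := zero_le_one.trans hM.one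
  set I := ∫ t in (0:ℝ)..(2 * π), ‖x' t‖ ^ 2 with hI
  have hpt : ∀ t ∈ Icc (0:ℝ) (2 * π), ‖tX G z x t‖ ^ 2 + ‖tX' G z x x' t‖ ^ 2 ≤
      (1 + 2 * M ^ 2) * (2 * π * I) + 2 * ‖x' t‖ ^ 2 := by
    intro t ht
    have e1 : ‖tX G z x t‖ = ‖x t‖ := norm_PT hz.1 t _
    have e2 : ‖x t‖ ^ 2 ≤ 2 * π * I := MS.norm_sq_le_of_zero hx' hx h0 ht
    have e3 : ‖tX' G z x x' t‖ ≤ M * ‖x t‖ + ‖x' t‖ := by
      refine (norm_add_le _ _).trans (add_le_add ?_ (norm_PT hz.1 t _).le)
      refine (ContinuousLinearMap.le_opNorm _ _).trans ?_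
      rw [norm_PT hz.1]
      exact mul_le_mul_of_nonneg_right (hM.Om _ (fl_US hz t)) (norm_nonneg _)
    have e4 : ‖tX' G z x x' t‖ ^ 2 ≤ (M * ‖x t‖ + ‖x' t‖) ^ 2 :=
      pow_le_pow_left₀ (norm_nonneg _) e3 2
    rw [e1]
    have e5 : (M * ‖x t‖ + ‖x' t‖) ^ 2 ≤ 2 * M ^ 2 * ‖x t‖ ^ 2 + 2 * ‖x' t‖ ^ 2 := by
      nlinarith [sq_nonneg (M * ‖x t‖ - ‖x' t‖)]
    have e6 : (1 + 2 * M ^ 2) * ‖x t‖ ^ 2 ≤ (1 + 2 * M ^ 2) * (2 * π * I) :=
      mul_le_mul_of_nonneg_left e2 (by positivity)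
    nlinarith
  have hint : IntervalIntegrable (fun t => ‖x' t‖ ^ 2) volume 0 (2 * π) :=
    (hx'.norm.pow 2).intervalIntegrable _ _
  have hint2 : IntervalIntegrable (fun t => (1 + 2 * M ^ 2) * (2 * π * I) + 2 * ‖x' t‖ ^ 2)
      volume 0 (2 * π) := (intervalIntegrable_const).add (hint.const_mul 2)
  unfold Hn
  have hpi := Real.pi_pos
  by_cases hni : IntervalIntegrable (fun t => ‖tX G z x t‖ ^ 2 + ‖tX' G z x x' t‖ ^ 2) volume 0
      (2 * π)
  · refine (intervalIntegral.integral_mono_on two_pi_nonneg hni hint2 hpt).trans ?_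
    rw [intervalIntegral.integral_add intervalIntegrable_const (hint.const_mul 2),
      intervalIntegral.integral_const, intervalIntegral.integral_const_mul]
    rw [smul_eq_mul, sub_zero, ← hI]
    nlinarith
  · rw [intervalIntegral.integral_undef hni]
    have : 0 ≤ I := intervalIntegral.integral_nonneg two_pi_nonneg fun _ _ => by positivity
    positivity

end Crest.Agent.R208.CO
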