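import Crest.Agent.R208.CO4

/-!
R208, block CO (helper286), part CO5: coercivity of the index form of a closed geodesic modulo the
periodic Jacobi fields, on the complement of a maximal negative space.
-/

set_option autoImplicit false

open Set Filter Topology MeasureTheory Module
open scoped ContDiff RealInnerProductSpace
open Crest.GeometryTopology.Submanifold
open Crest.Agent.R241.DDefs
open Crest.Agent.R241.D2 hiding fd
open Crest.Agent.R208.FI (Tan)
open Crest.Agent.R208.SV Crest.Agent.R208.NN Crest.Agent.R208.J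
open Crest.Agent.R208.NB (pf pf' hasDerivAt_pf continuous_pf' pf_mem der_split)

noncomputable section

namespace Crest.Agent.R208.CO

variable {n N k K : ℕ} {κ : ℝ} {S : Set (Euc N)} {G : Geo n N κ S} {z : Euc N × Euc N}
  {A A' B B' x x' : ℝ → Euc N} {M C₁ C₂ δ : ℝ} {Nz : Submodule ℝ (Wt N K)}

local notation "π" => Real.pi

/-- `Hn` in terms of the parallel frame -/
theorem Hn_le_frame (hM : BT G M) (hz : z ∈ L.US G) (hA : TF G z A A') {r₁ r₂ : ℝ}
    (h1 : ∀ t ∈ Icc (0:ℝ) (2 * π), ‖pf G z A t‖ ≤ r₁)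
    (h2 : ∫ t in (0:ℝ)..(2 * π), ‖pf' G z A' t‖ ^ 2 ≤ r₂) :
    Hn A A' ≤ (1 + 2 * M ^ 2) * (2 * π) * r₁ ^ 2 + 2 * r₂ := by
  have hM0 : 0 ≤ M := zero_le_one.trans hM.one
  have hpi := Real.pi_pos
  have hpt : ∀ t ∈ Icc (0:ℝ) (2 * π), ‖A t‖ ^ 2 + ‖A' t‖ ^ 2 ≤
      (1 + 2 * M ^ 2) * r₁ ^ 2 + 2 * ‖pf' G z A' t‖ ^ 2 := by
    intro t ht
    have e1 : ‖A t‖ ≤ r₁ := by
      have := h1 t ht
      rwa [pf, norm_PTi hz.1] at this
    have e2 : ‖pf' G z A' t‖ = ‖G.P (fl G (z, t)).1 (A' t)‖ := by rw [pf', norm_PTi hz.1]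
    have e3 : ‖A' t‖ ≤ ‖pf' G z A' t‖ + M * ‖A t‖ := by
      rw [e2]
      conv_lhs => rw [der_split hz.1 hA.der hA.mem t]
      refine (norm_add_le _ _).trans (add_le_add le_rfl ?_)
      refine (ContinuousLinearMap.le_opNorm _ _).trans ?_
      exact mul_le_mul_of_nonneg_right (hM.dP _ (fl_US hz t)) (norm_nonneg _)
    have e4 : ‖A' t‖ ^ 2 ≤ (‖pf' G z A' t‖ + M * ‖A t‖) ^ 2 :=
      pow_le_pow_left₀ (norm_nonneg _) e3 2
    have e5 : (‖pf' G z A' t‖ + M * ‖A t‖) ^ 2 ≤ 2 * ‖pf' G z A' t‖ ^ 2 +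
        2 * M ^ 2 * ‖A t‖ ^ 2 := by
      nlinarith [sq_nonneg (M * ‖A t‖ - ‖pf' G z A' t‖)]
    have e6 : ‖A t‖ ^ 2 ≤ r₁ ^ 2 := pow_le_pow_left₀ (norm_nonneg _) e1 2
    have e7 : (1 + 2 * M ^ 2) * ‖A t‖ ^ 2 ≤ (1 + 2 * M ^ 2) * r₁ ^ 2 :=
      mul_le_mul_of_nonneg_left e6 (by positivity)
    nlinarith
  have hc : Continuous (pf' G z A') := continuous_pf' hz.1 hA.cont
  have hint : IntervalIntegrable (fun t => ‖pf' G z A' t‖ ^ 2) volume 0 (2 * π) :=
    (hc.norm.pow 2).intervalIntegrable _ _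
  have hint1 : IntervalIntegrable (fun t => ‖A t‖ ^ 2 + ‖A' t‖ ^ 2) volume 0 (2 * π) :=
    ((hA.continuous.norm.pow 2).add (hA.cont.norm.pow 2)).intervalIntegrable _ _
  unfold Hn
  refine (intervalIntegral.integral_mono_on two_pi_nonneg hint1
    (intervalIntegrable_const.add (hint.const_mul 2)) hpt).trans ?_
  rw [intervalIntegral.integral_add intervalIntegrable_const (hint.const_mul 2),
    intervalIntegral.integral_const, intervalIntegral.integral_const_mul]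
  rw [smul_eq_mul, sub_zero]
  nlinarith

/-- the Jacobi field of `Tan US` with given initial data -/
theorem jac_data (h : GT.Bla G k) (hz : z ∈ L.US G) {a m : Euc N} (ha : a ∈ G.T z.1)
    (hm : m ∈ G.T z.1) (hm0 : ⟪m, z.2⟫ = 0) :
    ((a, dP G z a + m) : Euc N × Euc N) ∈ Tan (L.US G) z ∧
      TF G z (jf G z (a, dP G z a + m)) (jf' G z (a, dP G z a + m)) ∧
      pf G z (jf G z (a, dP G z a + m)) = Wj G z a m ∧
      pf' G z (jf' G z (a, dP G z a + m)) = Wj' G z a m := by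
  have hT := tanTS_of' hz.1 ha hm
  have hmem : ((a, dP G z a + m) : Euc N × Euc N) ∈ Tan (L.US G) z := by
    refine (LB.mem_Tan_US (FV.sub_S h.bl) hz).2 ⟨ha, ?_, ?_⟩
    · change dP G z a + m - G.P z.1 (dP G z a + m) = _
      rw [map_add, dP_tangent_normal hz.1 ha, (P_eq_self G hz.1.1).1 hm, zero_add,
        add_sub_cancel_right]
      exact (dP_comm hz.1.1 ha hz.1.2).symm ▸ rfl
    · change ⟪z.2, dP G z a + m⟫ = 0
      rw [inner_add_right, real_inner_comm m z.2, hm0, add_zero]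
      have e1 : G.P z.1 (dP G z a) = 0 := dP_tangent_normal hz.1 ha
      rw [← (P_eq_self G hz.1.1).1 hz.1.2, inner_P_left G hz.1.1, e1, inner_zero_right]
  have hTT := tanTS_of_Tan h hz hmem
  have hfld : TF G z (jf G z (a, dP G z a + m)) (jf' G z (a, dP G z a + m)) := by
    refine ⟨hasDerivAt_jf hz.1 _, ?_, ?_⟩
    · have h1 : Continuous fun t => L.dfl G z t (a, dP G z a + m) :=
        continuous_iff_continuousAt.2 fun t => (L.hasDerivAt_dfl hz.1 _ t).continuousAt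
      exact continuous_snd.comp h1
    · intro t
      exact (fld_jf hTT t t).mem t ⟨le_rfl, le_rfl⟩
  have hpf : pf G z (jf G z (a, dP G z a + m)) = Wj G z a m := by
    funext t
    unfold pf Wj jf JF Dfl
    rw [L.dfl_apply hz.1]
  refine ⟨hmem, hfld, hpf, ?_⟩
  funext t
  have h1 := hasDerivAt_pf hz.1 hfld.der hfld.mem t
  rw [hpf] at h1
  exact h1.unique ((isJac_Wj hz.1 ha hm).fst t)

/-- the mean lies in the tangent space -/
theorem P_mm {E : Type*} [NormedAddCommGroup E] [InnerProductSpace ℝ E] [CompleteSpace E]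
    {R : ℝ → E →L[ℝ] E} {w : ℝ → E} {T : ℝ} {P : E →L[ℝ] E} (hR : Continuous R)
    (hwc : Continuous w) (hPw : ∀ t, P (w t) = w t) (hPR : ∀ t u, P (R t u) = R t u) :
    P (mm R w T) = mm R w T := by
  have hRw : Continuous fun t => R t (w t) := hR.clm_apply hwc
  have hbc : Continuous (bb R w) :=
    continuous_iff_continuousAt.2 fun t => (hasDerivAt_bb hR hwc t).continuousAt
  have hPb : ∀ t, P (bb R w t) = bb R w t := by
    intro t
    unfold bb
    rw [← ContinuousLinearMap.intervalIntegral_comp_comm _ (hRw.intervalIntegrable _ _)]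
    congr 1
    funext s
    exact hPR s _
  rw [mm, map_smul, map_add, map_sub, hPw, hPw,
    ← ContinuousLinearMap.intervalIntegral_comp_comm _ (hbc.intervalIntegrable _ _)]
  simp_rw [hPb]

/-- the constants -/
def ca (M : ℝ) : ℝ :=
  Real.sqrt (2 * π) * (1 + M * (2 * π) * (2 * π) * Real.exp (M * (2 * π) * (2 * π)))

def cb (M : ℝ) : ℝ := 2 + 2 * (2 * π) * (M * (2 * π)) ^ 2 * ca M ^ 2

def cr (M C₁ C₂ δ : ℝ) : ℝ := (C₁ + C₁ ^ 2 * C₂ / δ) * ((1 + 2 * M ^ 2) * (2 * π) ^ 2 + 2)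

def CC (M C₁ C₂ δ : ℝ) : ℝ :=
  ((1 + 2 * M ^ 2) * (2 * π) * (4 * ca M ^ 2) + 4 * cb M + 4 * ca M ^ 2) * cr M C₁ C₂ δ

/-- **the weak Jacobi equation for a field in the complement** -/
theorem weak_frame (h : GT.Bla G k) (hM : BT G M) (hbd : Bd G C₁) (hbf : Bf G K C₂) (hδ : 0 < δ)
    (hz : z ∈ L.US G) (hdim : finrank ℝ Nz + 1 = k)
    (hneg : ∀ w ∈ Nz, I2 G z (fd G z (nuP K) w) (fd' G z (nuP K) w)
      (fd G z (nuP K) w) (fd' G z (nuP K) w) ≤ -(δ * ‖w‖ ^ 2))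
    (hA : TF G z A A') (hper : A (2 * π) = A 0)
    (horth : ∀ w ∈ Nz, I2 G z A A' (fd G z (nuP K) w) (fd' G z (nuP K) w) = 0)
    (h0 : 0 ≤ I2 G z A A' A A') :
    ∫ t in (0:ℝ)..(2 * π), ‖pf' G z A' t + bb (Rh G z) (pf G z A) t -
      mm (Rh G z) (pf G z A) (2 * π)‖ ^ 2 ≤
      Real.sqrt (I2 G z A A' A A' * cr M C₁ C₂ δ) ^ 2 := by
  have hPF : PF G z A A' := ⟨hA.fld _ _, hper⟩
  refine weak (P := G.P z.1) (by positivity) (contDiff_Rh hz.1).continuous
    (hasDerivAt_pf hz.1 hA.der hA.mem) (continuous_pf' hz.1 hA.cont)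
    (fun t => (P_eq_self G hz.1.1).1 (pf_mem hz.1 hA.mem t)) (fun t => ?_)
    (fun t u => (P_eq_self G hz.1.1).1 (Rh_mem hz.1 t u)) ?_
  · exact (P_eq_self G hz.1.1).1 (PTi_mem hz.1 t (P_mem G (fl_mem G hz.1 t).1))
  · intro x x' hx hx' hx0 hxT hPx hPx'
    have hT := TF_tX hz.1 hx hx' hPx
    have hXP : PF G z (tX G z x) (tX' G z x x') := by
      refine ⟨hT.fld _ _, ?_⟩
      unfold tX
      rw [hxT, hx0, map_zero, map_zero]
    have e1 := I2_pair hz.1 hA hT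
    rw [pf_tX hz.1, pf'_tX hz.1 hx hx' hPx] at e1
    rw [← e1]
    have e2 := cs h hbd hbf hz hdim hδ hneg hPF horth hXP
    have e3 := Hn_tX_le hM hz hx hx' hx0
    set I := ∫ t in (0:ℝ)..(2 * π), ‖x' t‖ ^ 2 with hI
    have hI0 : 0 ≤ I := intervalIntegral.integral_nonneg two_pi_nonneg fun _ _ => by positivity
    have hC1 : 0 < C₁ := zero_lt_one.trans_le hbd.1
    have hC2 : 0 < C₂ := zero_lt_one.trans_le hbf.1
    rw [← Real.sqrt_mul' _ hI0]
    refine Real.abs_le_sqrt (e2.trans ?_)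
    unfold cr
    calc I2 G z A A' A A' * ((C₁ + C₁ ^ 2 * C₂ / δ) * Hn (tX G z x) (tX' G z x x'))
        ≤ I2 G z A A' A A' * ((C₁ + C₁ ^ 2 * C₂ / δ) *
          (((1 + 2 * M ^ 2) * (2 * π) ^ 2 + 2) * I)) := by
          refine mul_le_mul_of_nonneg_left (mul_le_mul_of_nonneg_left e3 (by positivity)) h0
      _ = _ := by ring

/-- **coercivity** of the index form modulo periodic Jacobi fields, on the complement of a maximal
negative space -/
theorem coer (h : GT.Bla G k) (hM : BT G M) (hbd : Bd G C₁) (hbf : Bf G K C₂) (hδ : 0 < δ)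
    (hz : z ∈ L.US G) (hdim : finrank ℝ Nz + 1 = k)
    (hneg : ∀ w ∈ Nz, I2 G z (fd G z (nuP K) w) (fd' G z (nuP K) w)
      (fd G z (nuP K) w) (fd' G z (nuP K) w) ≤ -(δ * ‖w‖ ^ 2))
    (hA : TF G z A A') (hper : A (2 * π) = A 0)
    (horth : ∀ w ∈ Nz, I2 G z A A' (fd G z (nuP K) w) (fd' G z (nuP K) w) = 0)
    (h0 : 0 ≤ I2 G z A A' A A') :
    ∃ ξ ∈ Tan (L.US G) z, TF G z (jf G z ξ) (jf' G z ξ) ∧
      Hn (A - jf G z ξ) (A' - jf' G z ξ) ≤ CC M C₁ C₂ δ * I2 G z A A' A A' := by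
  have hpi := Real.pi_pos
  have hM0 : 0 ≤ M := zero_le_one.trans hM.one
  have hC1 : 0 < C₁ := zero_lt_one.trans_le hbd.1
  have hC2 : 0 < C₂ := zero_lt_one.trans_le hbf.1
  have hRc : Continuous (Rh G z) := (contDiff_Rh hz.1).continuous
  have hwd := hasDerivAt_pf hz.1 hA.der hA.mem
  have hwc : Continuous (pf G z A) := continuous_iff_continuousAt.2 fun t => (hwd t).continuousAt
  have hw'c : Continuous (pf' G z A') := continuous_pf' hz.1 hA.cont
  have hPw : ∀ t, G.P z.1 (pf G z A t) = pf G z A t :=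
    fun t => (P_eq_self G hz.1.1).1 (pf_mem hz.1 hA.mem t)
  have hPR : ∀ t u, G.P z.1 (Rh G z t u) = Rh G z t u :=
    fun t u => (P_eq_self G hz.1.1).1 (Rh_mem hz.1 t u)
  set m := mm (Rh G z) (pf G z A) (2 * π) with hm
  have hmT : m ∈ G.T z.1 := (P_eq_self G hz.1.1).2 (P_mm hRc hwc hPw hPR)
  have haT : A 0 ∈ G.T z.1 := by
    have := hA.mem 0
    rwa [fl_zero] at this
  have hz1 : ⟪z.2, z.2⟫ = (1:ℝ) := by rw [real_inner_self_eq_norm_sq, hz.2, one_pow]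
  set c := ⟪m, z.2⟫ with hc
  set m₁ := m - c • z.2 with hm₁
  have hm₁T : m₁ ∈ G.T z.1 := Submodule.sub_mem _ hmT (Submodule.smul_mem _ _ hz.1.2)
  have hm₁0 : ⟪m₁, z.2⟫ = 0 := by
    rw [hm₁, inner_sub_left, inner_smul_left, hz1, ← hc]; simp
  obtain ⟨hξ, hTF, hj, hj'⟩ := jac_data h hz haT hm₁T hm₁0
  refine ⟨_, hξ, hTF, ?_⟩
  set ξ : Euc N × Euc N := (A 0, dP G z (A 0) + m₁) with hξd
  have he := weak_frame h hM hbd hbf hδ hz hdim hneg hA hper horth h0
  set r := Real.sqrt (I2 G z A A' A A' * cr M C₁ C₂ δ) with hr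
  have hr0 : 0 ≤ r := Real.sqrt_nonneg _
  have hJac := (isJac_Wj hz.1 haT hm₁T).add ((NB.isJac_lin hz.1).smul c)
  have hj00 : Wj G z (A 0) m₁ 0 + c • ((0:ℝ) • z.2) = pf G z A 0 := by
    rw [Wj_zero, pf, PTi_zero_apply, zero_smul, smul_zero, add_zero]
  have hj10 : Wj' G z (A 0) m₁ 0 + c • z.2 = m := by
    rw [Wj'_zero hz.1 haT hm₁T, hm₁, sub_add_cancel]
  obtain ⟨k1, k2⟩ := compare (T := 2 * π) (by positivity) hRc hM0
    (fun t _ => norm_Rh_le hM hz t) hwd hw'c hJac hj00 hj10 hr0 he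
  have k1' : ∀ t ∈ Icc (0:ℝ) (2 * π), ‖pf G z A t - (Wj G z (A 0) m₁ t + c • (t • z.2))‖ ≤
      ca M * r := k1
  have k2' : ∫ t in (0:ℝ)..(2 * π), ‖pf' G z A' t - (Wj' G z (A 0) m₁ t + c • z.2)‖ ^ 2 ≤
      cb M * r ^ 2 := k2
  -- the tangential part
  have hcle : 2 * π * |c| ≤ ca M * r := by
    have e1 := k1' (2 * π) ⟨by positivity, le_rfl⟩
    have e2 : pf G z A (2 * π) = Wj G z (A 0) m₁ (2 * π) := by
      rw [← hj, pf, pf, hper]
      unfold jf
      rw [dfl_two_pi h hz hξ]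
    rw [e2, sub_add_cancel_left, norm_neg, norm_smul, norm_smul, hz.2, mul_one, Real.norm_eq_abs,
      Real.norm_eq_abs, abs_of_pos (by positivity : (0:ℝ) < 2 * π)] at e1
    linarith
  have f1 : ∀ t ∈ Icc (0:ℝ) (2 * π), ‖pf G z (A - jf G z ξ) t‖ ≤ 2 * (ca M * r) := by
    intro t ht
    have e1 := k1' t ht
    have e2 : pf G z (A - jf G z ξ) t = (pf G z A t - (Wj G z (A 0) m₁ t + c • (t • z.2))) +
        c • (t • z.2) := by
      rw [pf_sub, hj]; abel
    rw [e2]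
    refine (norm_add_le _ _).trans ?_
    have e3 : ‖c • (t • z.2)‖ ≤ ca M * r := by
      rw [norm_smul, norm_smul, hz.2, mul_one, Real.norm_eq_abs, Real.norm_eq_abs,
        abs_of_nonneg ht.1]
      calc |c| * t ≤ |c| * (2 * π) := mul_le_mul_of_nonneg_left ht.2 (abs_nonneg _)
        _ = 2 * π * |c| := by ring
        _ ≤ _ := hcle
    linarith
  have hcac : Continuous (fun t => pf' G z A' t - (Wj' G z (A 0) m₁ t + c • z.2)) := by
    have hWc : Continuous (Wj' G z (A 0) m₁) :=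
      continuous_iff_continuousAt.2 fun t => ((isJac_Wj hz.1 haT hm₁T).snd t).continuousAt
    exact hw'c.sub (hWc.add continuous_const)
  have f2 : ∫ t in (0:ℝ)..(2 * π), ‖pf' G z (A' - jf' G z ξ) t‖ ^ 2 ≤
      2 * (cb M * r ^ 2) + 2 * (ca M * r) ^ 2 := by
    have hc1 : Continuous (pf' G z (A' - jf' G z ξ)) :=
      continuous_pf' hz.1 (hA.cont.sub hTF.cont)
    have hi : IntervalIntegrable (fun t => ‖pf' G z A' t - (Wj' G z (A 0) m₁ t + c • z.2)‖ ^ 2)
        volume 0 (2 * π) := (hcac.norm.pow 2).intervalIntegrable _ _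
    have e1 : ∫ t in (0:ℝ)..(2 * π), ‖pf' G z (A' - jf' G z ξ) t‖ ^ 2 ≤
        ∫ t in (0:ℝ)..(2 * π), (2 * ‖pf' G z A' t - (Wj' G z (A 0) m₁ t + c • z.2)‖ ^ 2 +
          2 * c ^ 2) := by
      refine intervalIntegral.integral_mono_on two_pi_nonneg
        ((hc1.norm.pow 2).intervalIntegrable _ _)
        ((hi.const_mul 2).add intervalIntegrable_const) fun t _ => ?_
      have e2 : pf' G z (A' - jf' G z ξ) t = (pf' G z A' t - (Wj' G z (A 0) m₁ t + c • z.2)) +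
          c • z.2 := by
        rw [pf'_sub, hj']; abel
      have e3 : ‖c • z.2‖ = |c| := by rw [norm_smul, hz.2, mul_one, Real.norm_eq_abs]
      have e4 := norm_add_le (pf' G z A' t - (Wj' G z (A 0) m₁ t + c • z.2)) (c • z.2)
      rw [← e2, e3] at e4
      have e5 := pow_le_pow_left₀ (norm_nonneg _) e4 2
      have e6 := sq_abs c
      nlinarith [sq_nonneg (‖pf' G z A' t - (Wj' G z (A 0) m₁ t + c • z.2)‖ - |c|)]
    refine e1.trans ?_
    rw [intervalIntegral.integral_add (hi.const_mul 2) intervalIntegrable_const,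
      intervalIntegral.integral_const_mul, intervalIntegral.integral_const, smul_eq_mul, sub_zero]
    have e7 : 2 * π * (2 * c ^ 2) ≤ 2 * (ca M * r) ^ 2 := by
      have e8 : (2 * π * |c|) ^ 2 ≤ (ca M * r) ^ 2 := pow_le_pow_left₀ (by positivity) hcle 2
      have e9 : (2 * π * |c|) ^ 2 = (2 * π) ^ 2 * c ^ 2 := by rw [mul_pow, sq_abs]
      have e10 : 2 * π ≤ (2 * π) ^ 2 := by nlinarith [Real.pi_gt_three]
      nlinarith [sq_nonneg c, mul_le_mul_of_nonneg_right e10 (sq_nonneg c)]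
    linarith
  have hfin := Hn_le_frame hM hz (hA.sub hTF) f1 f2
  have hcr : 0 ≤ cr M C₁ C₂ δ := by unfold cr; positivity
  have hr2 : r ^ 2 = I2 G z A A' A A' * cr M C₁ C₂ δ := Real.sq_sqrt (mul_nonneg h0 hcr)
  refine hfin.trans (le_of_eq ?_)
  unfold CC
  have : (2 * (ca M * r)) ^ 2 = 4 * ca M ^ 2 * r ^ 2 := by ring
  rw [this, mul_pow, hr2]
  ring

end Crest.Agent.R208.CO
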