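import Crest.Agent.R208.CO5
import Crest.Agent.R208.NB8

/-!
R208, block CO (helper286), part CO6 = (U2): for `C¹` periodic tangent fields `A` along the closed
geodesic of `z`, `L²`-orthogonal to all periodic Jacobi fields,
`c₀ ‖A‖²_{H¹} ≤ ix(A,A) + C ‖n(A)‖²`, where `n(A) = npr z A` is the negative part.
-/

set_option autoImplicit false

open Set Filter Topology MeasureTheory Module
open scoped ContDiff RealInnerProductSpace
open Crest.GeometryTopology.Submanifold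
open Crest.Agent.R241.DDefs
open Crest.Agent.R241.D2 hiding fd
open Crest.Agent.R208.FI (Tan)
open Crest.Agent.R208.SV Crest.Agent.R208.NN Crest.Agent.R208.J
open Crest.Agent.R208.NB (NegB npr)

noncomputable section

namespace Crest.Agent.R208.CO

variable {n N k K : ℕ} {κ : ℝ} {S : Set (Euc N)} {G : Geo n N κ S} {z : Euc N × Euc N}
  {A A' B B' : ℝ → Euc N} {M C₁ C₂ δ : ℝ} {PN : Euc N × Euc N → Wt N K →L[ℝ] Wt N K}

local notation "π" => Real.pi

theorem TF_fd (hz : z ∈ TS G) (ν : Fin K → ℝ) (w : Wt N K) :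
    TF G z (fd G z ν w) (fd' G z ν w) :=
  ⟨hasDerivAt_fd hz ν w, continuous_fd' hz ν w, fun t => fd_mem hz ν w t⟩

/-- coercivity for the negative bundle `PN`: distance to the periodic Jacobi fields -/
theorem coer_NegB (h : GT.Bla G k) (hc : IsCompact S) (H : NegB G (k - 1) (nuP K) δ PN) :
    ∃ C : ℝ, 1 ≤ C ∧ ∀ z ∈ L.US G, ∀ A A', TF G z A A' → A (2 * π) = A 0 →
      (∀ m, PN z m = m → I2 G z A A' (fd G z (nuP K) m) (fd' G z (nuP K) m) = 0) →
      ∃ ξ ∈ Tan (L.US G) z, TF G z (jf G z ξ) (jf' G z ξ) ∧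
        Hn (A - jf G z ξ) (A' - jf' G z ξ) ≤ C * I2 G z A A' A A' := by
  obtain ⟨M, hM⟩ := exists_BT hc G
  obtain ⟨C₁, hbd⟩ := exists_Bd (G := G) hc
  obtain ⟨C₂, hbf⟩ := exists_Bf (G := G) hc K
  refine ⟨max 1 (CC M C₁ C₂ δ), le_max_left _ _, fun z hz A A' hA hper horth => ?_⟩
  have h0 : 0 ≤ I2 G z A A' A A' := H.compl_nonneg h hz (hA.fld _ _) hper horth
  have hmem : ∀ w ∈ LinearMap.range (PN z : Wt N K →ₗ[ℝ] Wt N K), PN z w = w := by
    rintro w ⟨u, rfl⟩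
    exact H.idem z u
  have hk := finrank_V0 h hz
  have hdim : finrank ℝ (LinearMap.range (PN z : Wt N K →ₗ[ℝ] Wt N K)) + 1 = k := by
    rw [H.rank z hz]; omega
  obtain ⟨ξ, hξ, hTF, hle⟩ := coer h hM hbd hbf H.pos_δ hz hdim
    (fun w hw => H.ix_neg hz (hmem w hw)) hA hper (fun w hw => horth w (hmem w hw)) h0
  exact ⟨ξ, hξ, hTF, hle.trans (mul_le_mul_of_nonneg_right (le_max_right _ _) h0)⟩

theorem intble_normsq (hA : TF G z A A') : IntervalIntegrable (fun t => ‖A t‖ ^ 2) volume 0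
    (2 * π) := (hA.continuous.norm.pow 2).intervalIntegrable _ _

theorem intble_normsq' (hA : TF G z A A') : IntervalIntegrable (fun t => ‖A' t‖ ^ 2) volume 0
    (2 * π) := (hA.cont.norm.pow 2).intervalIntegrable _ _

theorem Hn_eq (hA : TF G z A A') : Hn A A' = (∫ t in (0:ℝ)..(2 * π), ‖A t‖ ^ 2) +
    ∫ t in (0:ℝ)..(2 * π), ‖A' t‖ ^ 2 :=
  intervalIntegral.integral_add (intble_normsq hA) (intble_normsq' hA)

/-- Gårding -/
theorem garding (hbd : Bd G C₁) (hz : z ∈ L.US G) (hA : TF G z A A') :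
    ∫ t in (0:ℝ)..(2 * π), ‖A' t‖ ^ 2 ≤ I2 G z A A' A A' +
      C₁ * ∫ t in (0:ℝ)..(2 * π), ‖A t‖ ^ 2 := by
  have hfl := hA.fld 0 (2 * π)
  have hi : IntervalIntegrable (fun t => ixd G z A A' A A' t) volume 0 (2 * π) :=
    hfl.intble hz.1 two_pi_nonneg hfl
  unfold I2 ix
  rw [← intervalIntegral.integral_const_mul, ← intervalIntegral.integral_add hi
    ((intble_normsq hA).const_mul _)]
  refine intervalIntegral.integral_mono_on two_pi_nonneg (intble_normsq' hA)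
    (hi.add ((intble_normsq hA).const_mul _)) fun t _ => ?_
  have h1 := hbd.2 z hz A (fun _ => 0) A (fun _ => 0) t
  have h2 : ixd G z A A' A A' t = ‖A' t‖ ^ 2 + ixd G z A (fun _ => 0) A (fun _ => 0) t := by
    unfold ixd
    rw [real_inner_self_eq_norm_sq, inner_zero_left]
    ring
  rw [norm_zero, mul_zero, add_zero] at h1
  have h3 := neg_abs_le (ixd G z A (fun _ => 0) A (fun _ => 0) t)
  rw [h2]
  nlinarith

/-- **(U2)** -/
theorem U2 (h : GT.Bla G k) (hc : IsCompact S) (H : NegB G (k - 1) (nuP K) δ PN) :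
    ∃ c₀ C : ℝ, 0 < c₀ ∧ 0 ≤ C ∧ ∀ z ∈ L.US G, ∀ A A', TF G z A A' → A (2 * π) = A 0 →
      (∀ ξ ∈ Tan (L.US G) z, ∫ t in (0:ℝ)..(2 * π), ⟪A t, jf G z ξ t⟫ = 0) →
      c₀ * Hn A A' ≤ ix G z 0 (2 * π) A A' A A' + C * ‖npr G (nuP K) δ PN z A‖ ^ 2 := by
  obtain ⟨C₁, hbd⟩ := exists_Bd (G := G) hc
  obtain ⟨C₂, hbf⟩ := exists_Bf (G := G) hc K
  obtain ⟨Q, hQ1, hQ⟩ := coer_NegB h hc H
  have hC1 : 0 < C₁ := zero_lt_one.trans_le hbd.1
  have hC2 : 0 < C₂ := zero_lt_one.trans_le hbf.1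
  have hQ0 : 0 < Q := zero_lt_one.trans_le hQ1
  refine ⟨1 / (1 + 2 * (1 + C₁) * Q), (1 / (1 + 2 * (1 + C₁) * Q)) * ((1 + C₁) *
    (2 * C₂ + 2 * Q * (C₁ * C₂))), by positivity, by positivity, fun z hz A A' hA hper hJ => ?_⟩
  set w := npr G (nuP K) δ PN z A with hw
  obtain ⟨hw1, hBf, horth, hB0, hsplit⟩ := H.decomp h hz (hA.fld _ _) hper hw.symm
  have hF := TF_fd hz.1 (nuP K) w
  have hB := hA.sub hF
  have hBper : (A - fd G z (nuP K) w) (2 * π) = (A - fd G z (nuP K) w) 0 := by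
    rw [Pi.sub_apply, Pi.sub_apply, hper, fd_two_pi h hz]
  obtain ⟨ξ, hξ, hTJ, hle⟩ := hQ z hz _ _ hB hBper horth
  have hJξ := hJ ξ hξ
  -- `L²` estimate
  have hE := hB.sub hTJ
  set IB := I2 G z (A - fd G z (nuP K) w) (A' - fd' G z (nuP K) w) (A - fd G z (nuP K) w)
    (A' - fd' G z (nuP K) w) with hIB
  set IF := I2 G z (fd G z (nuP K) w) (fd' G z (nuP K) w) (fd G z (nuP K) w)
    (fd' G z (nuP K) w) with hIF
  have hsplit' : I2 G z A A' A A' = IB + IF := hsplit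
  have hFn : Hn (fd G z (nuP K) w) (fd' G z (nuP K) w) ≤ C₂ * ‖w‖ ^ 2 := hbf.2 z hz w
  have hIFle : |IF| ≤ C₁ * (C₂ * ‖w‖ ^ 2) :=
    (abs_I2_self_le hbd hz (hF.fld _ _)).trans (mul_le_mul_of_nonneg_left hFn hC1.le)
  have hL2 : ∫ t in (0:ℝ)..(2 * π), ‖A t‖ ^ 2 ≤ 2 * (C₂ * ‖w‖ ^ 2) + 2 * (Q * IB) := by
    have hAc := hA.continuous
    have hJc := hTJ.continuous
    have hFc := hF.continuous
    have hEc := hE.continuous
    have e1 : ∫ t in (0:ℝ)..(2 * π), ‖A t‖ ^ 2 ≤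
        ∫ t in (0:ℝ)..(2 * π), ‖A t - jf G z ξ t‖ ^ 2 := by
      have e2 : ∫ t in (0:ℝ)..(2 * π), ‖A t - jf G z ξ t‖ ^ 2 =
          (∫ t in (0:ℝ)..(2 * π), ‖A t‖ ^ 2) - 2 * (∫ t in (0:ℝ)..(2 * π), ⟪A t, jf G z ξ t⟫) +
            ∫ t in (0:ℝ)..(2 * π), ‖jf G z ξ t‖ ^ 2 := by
        simp_rw [norm_sub_sq_real]
        rw [intervalIntegral.integral_add (Continuous.intervalIntegrable (by fun_prop) _ _)
          (Continuous.intervalIntegrable (by fun_prop) _ _), intervalIntegral.integral_sub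
          (Continuous.intervalIntegrable (by fun_prop) _ _)
          (Continuous.intervalIntegrable (by fun_prop) _ _), intervalIntegral.integral_const_mul]
      rw [e2, hJξ]
      have e3 : 0 ≤ ∫ t in (0:ℝ)..(2 * π), ‖jf G z ξ t‖ ^ 2 :=
        intervalIntegral.integral_nonneg two_pi_nonneg fun _ _ => by positivity
      linarith
    have e4 : ∫ t in (0:ℝ)..(2 * π), ‖A t - jf G z ξ t‖ ^ 2 ≤
        ∫ t in (0:ℝ)..(2 * π), (2 * ‖fd G z (nuP K) w t‖ ^ 2 +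
          2 * ‖(A - fd G z (nuP K) w - jf G z ξ) t‖ ^ 2) := by
      refine intervalIntegral.integral_mono_on two_pi_nonneg
        (Continuous.intervalIntegrable (by fun_prop) _ _)
        (Continuous.intervalIntegrable (by fun_prop) _ _) fun t _ => ?_
      have e5 : A t - jf G z ξ t = fd G z (nuP K) w t + (A - fd G z (nuP K) w - jf G z ξ) t := by
        simp only [Pi.sub_apply]; abel
      rw [e5]
      have e6 := norm_add_le (fd G z (nuP K) w t) ((A - fd G z (nuP K) w - jf G z ξ) t)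
      have e7 := pow_le_pow_left₀ (norm_nonneg _) e6 2
      nlinarith [sq_nonneg (‖fd G z (nuP K) w t‖ - ‖(A - fd G z (nuP K) w - jf G z ξ) t‖)]
    rw [intervalIntegral.integral_add (Continuous.intervalIntegrable (by fun_prop) _ _)
      (Continuous.intervalIntegrable (by fun_prop) _ _), intervalIntegral.integral_const_mul,
      intervalIntegral.integral_const_mul] at e4
    have e8 := Hn_eq hF
    have e9 := Hn_eq hE
    have e10 : 0 ≤ ∫ t in (0:ℝ)..(2 * π), ‖fd' G z (nuP K) w t‖ ^ 2 :=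
      intervalIntegral.integral_nonneg two_pi_nonneg fun _ _ => by positivity
    have e11 : 0 ≤ ∫ t in (0:ℝ)..(2 * π), ‖(A' - fd' G z (nuP K) w - jf' G z ξ) t‖ ^ 2 :=
      intervalIntegral.integral_nonneg two_pi_nonneg fun _ _ => by positivity
    linarith
  have hg := garding hbd hz hA
  have hHn := Hn_eq hA
  have hIF1 := (abs_le.1 hIFle).1
  have key : Hn A A' ≤ (1 + 2 * (1 + C₁) * Q) * I2 G z A A' A A' +
      ((1 + C₁) * (2 * C₂ + 2 * Q * (C₁ * C₂))) * ‖w‖ ^ 2 := by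
    have e1 : Hn A A' ≤ I2 G z A A' A A' + (1 + C₁) * (2 * (C₂ * ‖w‖ ^ 2) + 2 * (Q * IB)) := by
      have := mul_le_mul_of_nonneg_left hL2 (by positivity : 0 ≤ 1 + C₁)
      rw [hHn]
      nlinarith
    have e2 : IB ≤ I2 G z A A' A A' + C₁ * (C₂ * ‖w‖ ^ 2) := by rw [hsplit']; linarith
    have e3 : (1 + C₁) * (2 * (C₂ * ‖w‖ ^ 2) + 2 * (Q * IB)) ≤
        (1 + C₁) * (2 * (C₂ * ‖w‖ ^ 2) + 2 * (Q * (I2 G z A A' A A' + C₁ * (C₂ * ‖w‖ ^ 2)))) := by
      have := mul_le_mul_of_nonneg_left e2 hQ0.le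
      exact mul_le_mul_of_nonneg_left (by linarith) (by positivity)
    refine (e1.trans (add_le_add le_rfl e3)).trans (le_of_eq ?_)
    ring
  have hpos : 0 < 1 + 2 * (1 + C₁) * Q := by positivity
  have e := mul_le_mul_of_nonneg_left key (by positivity : 0 ≤ 1 / (1 + 2 * (1 + C₁) * Q))
  refine e.trans (le_of_eq ?_)
  change _ = I2 G z A A' A A' + _
  field_simp

end Crest.Agent.R208.CO
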