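import Crest.Agent.R208.CS1
import Crest.Agent.R208.TX6b

/-! Row 208, block Q, part CH5 (helper423), CS2: the chain over a cut locus, the two 12-chains. -/

set_option autoImplicit false
set_option linter.unusedSectionVars false
set_option linter.unusedVariables false

open MeasureTheory Set Filter Topology Module
open scoped ContDiff RealInnerProductSpace
open Crest.GeometryTopology.Submanifold
open Crest.Agent.R241.DDefs
open Crest.Agent.R241.D2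
open Crest.Agent.R208.F Crest.Agent.R208.FI
open Crest.Agent.R208.CW (SMap)
open Crest.Agent.R208.T (Sm Cl Eqv Coh eqv_iff Hom)
open Crest.Agent.R208.L (US)
open Crest.Agent.R208.LB (al)
open Crest.Agent.R208.CH
open Crest.Agent.R208.CM (gf MM jj Quo Emb Curv)

noncomputable section

namespace Crest.Agent.R208.CS

variable {n N k m : ℕ} {κ : ℝ} {S : Set (Euc N)} {G : Geo n N κ S}
  {E' : Type} [NormedAddCommGroup E'] [NormedSpace ℝ E'] [FiniteDimensional ℝ E']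
  {B : Set E'} {π : Euc N × Euc N → E'} {F₀ x₀ : E' → Ext E'}
  {a : Euc N × Euc N → Ext (Euc N × Euc N)} {nB d : ℕ} {q : Euc N}
  {sec : Euc N → Euc N × Euc N} {o x : Euc N → Ext (Euc N)}

theorem exists_sec (h : GT.Bla G k) (hn : 1 < n) : ∃ q ∈ S, ∃ sec : Euc N → Euc N × Euc N,
    ∀ c ∈ GP.Cut S q, ContDiffAt ℝ ∞ sec c ∧ sec c ∈ US G ∧ (sec c).1 = c := by
  obtain ⟨q, hq, O, R, g, sec, -, -, -, -, -, -, -, r6⟩ := QO.q_out h (W := (∅ : Set ℝ)) (D := 0)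
    (fun x hx => hx.elim) (f := fun _ => 0) (fun w hw => hw.elim) (fun w hw => hw.elim) hn
  exact ⟨q, hq, sec, r6⟩

/-- the chain `π ∘ sec` over the cut locus of `q` -/
def cutC (h : GT.Bla G k) (hC : CB nB (US G) (gf G) B π a F₀) (hq : q ∈ S)
    (hsec : ∀ c ∈ GP.Cut S q, ContDiffAt ℝ ∞ sec c ∧ sec c ∈ US G ∧ (sec c).1 = c)
    (ho : Ori (n - k) (GP.Cut S q) o) (hd : Hom (n - k) o) : Chn B (n - k) where
  V := Euc N
  Z := GP.Cut S q
  g := fun c => π (sec c)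
  χ := fun _ => 1
  o := o
  clo := FV.clo_Cut h hq
  ori := ho
  hom := hd
  sm := ⟨fun c hc => ContDiffAt.comp (g := π) c (hC.subm.smooth _ (hsec c hc).2.1) (hsec c hc).1,
    fun c hc => hC.subm.mapsTo (hsec c hc).2.1⟩
  thn := Thn.one _

section cut
variable (h : GT.Bla G k) (hC : CB nB (US G) (gf G) B π a F₀) (hq : q ∈ S)
    (hsec : ∀ c ∈ GP.Cut S q, ContDiffAt ℝ ∞ sec c ∧ sec c ∈ US G ∧ (sec c).1 = c)
    (ho : Ori (n - k) (GP.Cut S q) o) (hd : Hom (n - k) o)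

theorem cutC_I (om : E' → Ext E') : (cutC h hC hq hsec ho hd).I om =
    J (n - k) (GP.Cut S q) o (F.pull (fun c => π (sec c)) om) := by
  have h1 : (fun x => (cutC h hC hq hsec ho hd).χ x • F.pull (cutC h hC hq hsec ho hd).g om x) =
      F.pull (fun c => π (sec c)) om := funext fun x => one_smul ℝ _
  rw [Chn.I, h1]
  rfl

theorem smap_sec (hsec : ∀ c ∈ GP.Cut S q, ContDiffAt ℝ ∞ sec c ∧ sec c ∈ US G ∧ (sec c).1 = c) :
    SMap (GP.Cut S q) (US G) sec := ⟨fun c hc => (hsec c hc).1, fun c hc => (hsec c hc).2.1⟩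

theorem smap_pi (hC : CB nB (US G) (gf G) B π a F₀) : SMap (US G) B π :=
  ⟨hC.subm.smooth, hC.subm.mapsTo⟩

theorem eqv_pull_comp (hC : CB nB (US G) (gf G) B π a F₀)
    (hsec : ∀ c ∈ GP.Cut S q, ContDiffAt ℝ ∞ sec c ∧ sec c ∈ US G ∧ (sec c).1 = c)
    (om : E' → Ext E') :
    Eqv (GP.Cut S q) (F.pull (fun c => π (sec c)) om) (F.pull sec (F.pull π om)) :=
  Eqv.of_eq fun c hc => (F.pull_comp ((hsec c hc).1.differentiableAt (by simp))
    ((hC.subm.smooth _ (hsec c hc).2.1).differentiableAt (by simp))).symm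

include h hq in
/-- powers of the curvature integrate to zero -/
theorem cutC_pow {j : ℕ} : (cutC h hC hq hsec ho hd).I (F₀ ^ (j + 1)) = 0 := by
  have sS := smap_sec (G := G) hsec
  have sP := smap_pi hC
  rw [cutC_I]
  set A := F.pull sec a with hA
  have sA : Sm (GP.Cut S q) A := hC.sm.pull sS
  have h1 : Eqv (GP.Cut S q) (F.pull (fun c => π (sec c)) F₀) (F.d A) :=
    (eqv_pull_comp hC hsec F₀).trans (((Eqv.pull sS hC.curv.symm)).trans
      (T.d_pull_eqv sS hC.sm).symm)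
  have h2 : Eqv (GP.Cut S q) (F.pull (fun c => π (sec c)) (F₀ ^ (j + 1))) (F.d A ^ (j + 1)) := by
    rw [T.pull_pow']
    exact T.Eqv.pow h1 _
  have sdA : Sm (GP.Cut S q) (F.d A) := sA.d
  have cdA : Cl (GP.Cut S q) (F.d A) := T.d_d' sA
  rw [SO.J_eqv (FV.clo_Cut h hq) h2]
  refine SO.J_coh_zero (FV.clo_Cut h hq) ho (T.Sm.pow sdA _) ?_
  rw [pow_succ]
  have h3 : Coh (GP.Cut S q) (F.d A) 0 := SO.coh_d_zero sA
  have h4 := T.Coh.mul_left (T.Sm.pow sdA j) (T.Cl.pow sdA cdA j) h3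
  rwa [mul_zero] at h4

include h hq in
/-- a class of `B` whose lift comes from `S` -/
theorem cutC_x (sx : Sm S x) (sx0 : Sm B x₀)
    (hx0 : Coh (US G) (F.pull π x₀) (F.pull Prod.fst x)) :
    (cutC h hC hq hsec ho hd).I x₀ = J (n - k) (GP.Cut S q) o x := by
  have sS := smap_sec (G := G) hsec
  have sP := smap_pi hC
  have sC : SMap (GP.Cut S q) S (fun c => c) := ⟨fun _ _ => contDiffAt_id, fun c hc => hc.1⟩
  rw [cutC_I]
  have sxC : Sm (GP.Cut S q) x := fun c hc => sx c hc.1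
  refine SO.J_coh (FV.clo_Cut h hq) ho ?_ sxC ?_
  · exact sx0.pull ⟨fun c hc => ContDiffAt.comp (g := π) c (hC.subm.smooth _ (hsec c hc).2.1)
      (hsec c hc).1, fun c hc => hC.subm.mapsTo (hsec c hc).2.1⟩
  · refine (Coh.of_eqv (eqv_pull_comp hC hsec x₀)).trans ((hx0.pull sS).trans (Coh.of_eqv ?_))
    have sF : SMap (US G) S Prod.fst := ⟨fun _ _ => contDiffAt_fst, fun z hz => hz.1.1⟩
    exact (T.eqv_pull_pull sS sF sC (fun c hc => (hsec c hc).2.2) x).trans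
      (Eqv.of_eq fun c _ => F.pull_id x c)

end cut

/-- two outward sweeps -/
theorem out_two (h : GT.Bla G k) (hC : CB nB (US G) (gf G) B π a F₀) (cF : Cl B F₀)
    (h2 : Hom 2 F₀) (c : Chn B d) (hd : n - k ≤ d) (hd' : d + 4 < n) :
    ∃ c' : Chn B (d + 4), ∀ om, Sm B om → Cl B om → Hom d om →
      c'.I (F₀ ^ 2 * om) = (2 * Real.pi) ^ 2 * c.I om := by
  obtain ⟨c₁, h₁⟩ := step_out h hC c hd (by omega)
  obtain ⟨c₂, h₂⟩ := step_out h hC c₁ (by omega) (by omega)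
  refine ⟨c₂, fun om s1 s2 s3 => ?_⟩
  rw [sq F₀, mul_assoc, h₂ _ (hC.smF.mul s1) (Cl.mul hC.smF s1 cF s2)
    (by rw [add_comm]; exact h2.mul s3), h₁ om s1 s2 s3]
  ring

/-- **THE CHAINS OF BLOCK Q** for `(k, n) = (8, 16)` -/
theorem chains (h : GT.Bla G 8) (hn : n = 16) (hC : CB nB (US G) (gf G) B π a F₀) (cF : Cl B F₀)
    (h2 : Hom 2 F₀) (hne : B.Nonempty) (sx0 : Sm B x₀)
    (sx : Sm S x) (hx0 : Coh (US G) (F.pull π x₀) (F.pull Prod.fst x)) :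
    (∃ (c8 : Chn B 8) (c12 : Chn B 12), c8.I (F₀ ^ 4) = (2 * Real.pi) ^ 4 ∧
      c12.I (F₀ ^ 6) = (2 * Real.pi) ^ 6 ∧
      ∀ om, Sm B om → Cl B om → Hom 8 om → c12.I (F₀ ^ 2 * om) = (2 * Real.pi) ^ 2 * c8.I om) ∧
    ∃ q ∈ S, ∃ o, Ori 8 (GP.Cut S q) o ∧ Sm (GP.Cut S q) o ∧ Hom 8 o ∧
      ∃ (c8 : Chn B 8) (c12 : Chn B 12), c8.I x₀ = J 8 (GP.Cut S q) o x ∧ c8.I (F₀ ^ 4) = 0 ∧
        c12.I (F₀ ^ 6) = 0 ∧
        ∀ om, Sm B om → Cl B om → Hom 8 om →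
          c12.I (F₀ ^ 2 * om) = (2 * Real.pi) ^ 2 * c8.I om := by
  subst hn
  have e6 : F₀ ^ 6 = F₀ ^ 2 * F₀ ^ 4 := by rw [← pow_add]
  have s4 := T.Sm.pow hC.smF 4
  have c4 := T.Cl.pow hC.smF cF 4
  have d4 : Hom 8 (F₀ ^ 4) := T.Hom.pow h2 4
  constructor
  · obtain ⟨c8, h8⟩ := start_in h hC cF h2 hne 4 (by norm_num) (by norm_num)
    obtain ⟨c12, h12⟩ := out_two h hC cF h2 c8 (by norm_num) (by norm_num)
    refine ⟨c8, c12, h8, ?_, h12⟩
    rw [e6, h12 _ s4 c4 d4, h8]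
    ring
  · obtain ⟨q, hq, sec, hsec⟩ := exists_sec h (by norm_num)
    obtain ⟨o, ho, so, hd⟩ := T.exists_ori_Cut h (by norm_num) (by norm_num) hq
    obtain ⟨c12, h12⟩ := out_two h hC cF h2 (cutC h hC hq hsec ho hd) (by norm_num)
      (by norm_num)
    refine ⟨q, hq, o, ho, so, hd, cutC h hC hq hsec ho hd, c12,
      cutC_x h hC hq hsec ho hd sx sx0 hx0, cutC_pow h hC hq hsec ho hd (j := 3), ?_, h12⟩
    rw [e6]
    refine (h12 _ s4 c4 d4).trans ?_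
    rw [cutC_pow h hC hq hsec ho hd (j := 3), mul_zero]

end Crest.Agent.R208.CS
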