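import Crest.Agent.R208.QS2
import Crest.Agent.R208.SN10

/-! Row 208, block Q (helper586), part QS3: **assembly of block Q for `k = 8`**: `β ∈ ℤ`,
`2 n₀ ∈ ℤ`, `α + β n₀ ∈ ℤ`. -/

set_option autoImplicit false
set_option linter.unusedSectionVars false

open MeasureTheory MeasureTheory.Measure Set Filter Topology Module
open scoped ContDiff RealInnerProductSpace
open Crest.Agent.R208.F Crest.Agent.R208.FI Crest.Agent.R208.CW Crest.Agent.R208.FG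
open Crest.Agent.R208.T (Sm Cl Hom Coh Eqv eR OR EC rcl)
open Crest.Agent.R208.EP Crest.Agent.R208.EW Crest.Agent.R208.CM

noncomputable section

namespace Crest.Agent.R208.QS

/-- signs do not matter -/
theorem int_of_abs {α β n₀ : ℝ} {A X : ℝ} (hA : |A| = 1) (hX : |X| = |n₀|)
    (hβ : ∃ n : ℤ, β = n) (hn : ∃ n : ℤ, 2 * n₀ = n) (h : ∃ n : ℤ, α * A + β * X = n) :
    ∃ n : ℤ, α + β * n₀ = n := by
  obtain ⟨b, rfl⟩ := hβ
  obtain ⟨m, hm⟩ := hn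
  obtain ⟨z, hz⟩ := h
  have hA' : A = 1 ∨ A = -1 := by
    rcases abs_cases A with ⟨h, _⟩ | ⟨h, _⟩
    · left; linarith
    · right; linarith
  have hX' : X = n₀ ∨ X = -n₀ := abs_eq_abs.1 hX
  rcases hA' with rfl | rfl <;> rcases hX' with rfl | rfl
  · exact ⟨z, by linarith⟩
  · exact ⟨z + b * m, by push_cast; rw [← hm]; linarith⟩
  · exact ⟨-z + b * m, by push_cast; rw [← hm]; linarith⟩
  · exact ⟨-z, by push_cast; linarith⟩

section q8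
variable {E' : Type} [NormedAddCommGroup E'] [NormedSpace ℝ E'] [FiniteDimensional ℝ E']
  {p ι : Type} [Fintype p] [DecidableEq p] [Fintype ι] [DecidableEq ι]
  {B : Set E'} {N : E' → EuclideanSpace ℝ p →L[ℝ] EuclideanSpace ℝ p} {b : ℕ}
  {Fc x0 : E' → Ext E'} {α β τ : ℝ}

/-- value of the Chern form on a chain -/
theorem I_cR (c : CH.Chn B 12) (hB : Sub b B) (hN : PField B 7 N) (sF : Sm B Fc) (sx : Sm B x0)
    (hp3 : Coh B (cR 6 N) (α • Fc ^ 6 + (β * (2 * Real.pi) ^ 4 / τ) • (Fc ^ 2 * x0))) :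
    c.I (cR 6 N) = α * c.I (Fc ^ 6) + (β * (2 * Real.pi) ^ 4 / τ) * c.I (Fc ^ 2 * x0) := by
  have h1 : Sm B (cR 6 N) := (ec_cfr hB (idF_of_pfield hN) 6).sm
  have s1 : Sm B (α • Fc ^ 6) := (sF.pow 6).smul _
  have s2 : Sm B ((β * (2 * Real.pi) ^ 4 / τ) • (Fc ^ 2 * x0)) := ((sF.pow 2).mul sx).smul _
  rw [c.I_coh h1 (s1.add s2) hp3, c.I_add s1 s2, c.I_smul, c.I_smul]

/-- **block Q**, `k = 8` -/
theorem block_q (hB : Clo b B) (hBc : IsPreconnected B) (hN : PField B 7 N)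
    (hs : ∀ x ∈ B, ∀ u v, ⟪N x u, v⟫ = ⟪u, N x v⟫) (hι : Fintype.card ι = 7)
    (sF : Sm B Fc) (sx : Sm B x0) (hτ : 0 < τ)
    (hp3 : Coh B (cR 6 N) (α • Fc ^ 6 + (β * (2 * Real.pi) ^ 4 / τ) • (Fc ^ 2 * x0)))
    {c₁ c₂ : CH.Chn B 12} {c₈ : CH.Chn B 8}
    (IT : ∀ c : CH.Chn B 12, ∃ z : ℤ, J 14 (c.Z ×ˢ CPk 1) (oP c)
      (fun z => cP c z • F.pull (fP c) (eR (NLp N) (WNp ι N)) z) = XF.tau ι * z)
    (h1 : |c₁.I (Fc ^ 6)| = (2 * Real.pi) ^ 6)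
    (h1' : |c₁.I (Fc ^ 2 * x0)| = (2 * Real.pi) ^ 2 * |c₈.I x0|)
    (h2 : c₂.I (Fc ^ 6) = 0) (h2' : |c₂.I (Fc ^ 2 * x0)| = (2 * Real.pi) ^ 2 * τ)
    (hn0 : ∃ z : ℤ, 2 * c₈.I x0 = τ * z) :
    (∃ n : ℤ, β = n) ∧ ∃ n₀ : ℝ, (∃ n : ℤ, 2 * n₀ = n) ∧ ∃ n : ℤ, α + β * n₀ = n := by
  have hpi : (0 : ℝ) < 2 * Real.pi := by positivity
  have hp6 : ((2 * Real.pi) ^ 6 : ℝ) ≠ 0 := by positivity
  have hτ0 : τ ≠ 0 := hτ.ne'
  obtain ⟨z1, hz1⟩ := int_cR (s := 3) hB hBc hN hs hι (by norm_num) c₁ (IT c₁)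
  obtain ⟨z2, hz2⟩ := int_cR (s := 3) hB hBc hN hs hι (by norm_num) c₂ (IT c₂)
  have e1 : c₁.I (cR 6 N) = _ := I_cR c₁ hB.sub hN sF sx hp3
  have e2 : c₂.I (cR 6 N) = _ := I_cR c₂ hB.sub hN sF sx hp3
  rw [show (2 * 3 : ℕ) = 6 from rfl] at hz1 hz2
  rw [e1] at hz1
  rw [e2, h2, mul_zero, zero_add] at hz2
  have hβ : ∃ n : ℤ, β = n := by
    have h3 : c₂.I (Fc ^ 2 * x0) = (2 * Real.pi) ^ 2 * τ ∨
        c₂.I (Fc ^ 2 * x0) = -((2 * Real.pi) ^ 2 * τ) := by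
      rcases abs_cases (c₂.I (Fc ^ 2 * x0)) with ⟨h, _⟩ | ⟨h, _⟩
      · left; linarith
      · right; linarith
    rcases h3 with h3 | h3
    · refine ⟨z2, ?_⟩
      rw [h3] at hz2
      have : β * (2 * Real.pi) ^ 6 = (2 * Real.pi) ^ 6 * z2 := by
        rw [← hz2]; field_simp
      apply mul_right_cancel₀ hp6
      rw [this]; ring
    · refine ⟨-z2, ?_⟩
      rw [h3] at hz2
      have : -(β * (2 * Real.pi) ^ 6) = (2 * Real.pi) ^ 6 * z2 := by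
        rw [← hz2]; field_simp
      apply mul_right_cancel₀ hp6
      push_cast
      linear_combination -this
  obtain ⟨zn, hzn⟩ := hn0
  have hn : ∃ n : ℤ, 2 * (c₈.I x0 / τ) = n := ⟨zn, by
    rw [← mul_div_assoc, hzn]; field_simp⟩
  refine ⟨hβ, c₈.I x0 / τ, hn, ?_⟩
  refine int_of_abs (A := c₁.I (Fc ^ 6) / (2 * Real.pi) ^ 6)
    (X := c₁.I (Fc ^ 2 * x0) / ((2 * Real.pi) ^ 2 * τ)) ?_ ?_ hβ hn ⟨z1, ?_⟩
  · rw [abs_div, h1, abs_of_pos (by positivity)]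
    exact div_self hp6
  · rw [abs_div, h1', abs_div, abs_of_pos (show 0 < (2 * Real.pi) ^ 2 * τ by positivity),
      abs_of_pos hτ]
    field_simp
  · apply mul_left_cancel₀ hp6
    rw [← hz1]
    field_simp

end q8

end Crest.Agent.R208.QS
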