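import Crest.Agent.R208.CQ1
import Crest.Agent.R208.CS2
import Crest.Agent.R208.QS3
import Crest.Agent.R208.ZH3b
import Crest.Agent.R208.TX9

/-! Row 208, block Q (helper423), part CQ2: **the instance of block Q for `(k, n) = (8, 16)`**:
the fields `hβ`, `hn`, `hα` of the endgame `ZA.bound`. -/

set_option autoImplicit false
set_option linter.unusedSectionVars false
set_option linter.unusedVariables false

open MeasureTheory Set Filter Topology Module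
open scoped ContDiff RealInnerProductSpace
open Crest.GeometryTopology.Submanifold
open Crest.Agent.R241.DDefs
open Crest.Agent.R241.D2
open Crest.Agent.R208.F Crest.Agent.R208.FI
open Crest.Agent.R208.CW (SMap)
open Crest.Agent.R208.T (Sm Cl Eqv Coh eqv_iff Hom OR eR)
open Crest.Agent.R208.L (US)
open Crest.Agent.R208.LB (al)
open Crest.Agent.R208.CM (gf MM jj Quo Emb Curv)
open Crest.Agent.R208.EW (cR)
open Crest.Agent.R208.EP (NLp WNp CPk)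

noncomputable section

namespace Crest.Agent.R208.CQ

/-- the sign of `ν` does not matter -/
theorem fields_of {α β τ ν β₁ P : ℝ} (hP : 0 < P) (hτ : 0 < τ) (hν : |ν| * τ = 12 * P)
    (hb : β * P / τ = β₁)
    (h : (∃ n : ℤ, β = n) ∧ ∃ n₀ : ℝ, (∃ n : ℤ, 2 * n₀ = n) ∧ ∃ n : ℤ, α + β * n₀ = n) :
    ∃ n₀ : ℝ, (∃ n : ℤ, 12 * β₁ / ν = n) ∧ (∃ n : ℤ, 2 * n₀ = n) ∧
      ∃ n : ℤ, α + 12 * β₁ / ν * n₀ = n := by
  have hν0 : ν ≠ 0 := by
    rintro rfl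
    rw [abs_zero, zero_mul] at hν
    linarith
  have hβ1 : β₁ * τ = β * P := by rw [← hb]; field_simp
  obtain ⟨⟨b, hb'⟩, n₀, ⟨z, hz⟩, w, hw⟩ := h
  have key : 12 * β₁ / ν = β ∨ 12 * β₁ / ν = -β := by
    rcases abs_cases ν with ⟨h1, _⟩ | ⟨h1, _⟩
    · left
      rw [h1] at hν
      rw [div_eq_iff hν0]
      have : (12 * β₁ - β * ν) * τ = 0 := by
        have e : (12 * β₁ - β * ν) * τ = 12 * (β₁ * τ) - β * (ν * τ) := by ring
        rw [e, hβ1, hν]; ring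
      rcases mul_eq_zero.1 this with h2 | h2
      · linarith
      · exact absurd h2 hτ.ne'
    · right
      rw [h1] at hν
      rw [div_eq_iff hν0]
      have : (12 * β₁ + β * ν) * τ = 0 := by
        have e : (12 * β₁ + β * ν) * τ = 12 * (β₁ * τ) - β * (-ν * τ) := by ring
        rw [e, hβ1, hν]; ring
      rcases mul_eq_zero.1 this with h2 | h2
      · linarith
      · exact absurd h2 hτ.ne'
  rcases key with h1 | h1
  · exact ⟨n₀, ⟨b, by rw [h1, hb']⟩, ⟨z, hz⟩, ⟨w, by rw [h1, hw]⟩⟩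
  · refine ⟨-n₀, ⟨-b, by rw [h1, hb']; push_cast; ring⟩, ⟨-z, by push_cast; linarith⟩, ⟨w, ?_⟩⟩
    rw [h1, ← hw]; ring

variable {n N k m : ℕ} {κ : ℝ} {S : Set (Euc N)} {G : Geo n N κ S}
  {ι : Type} [Fintype ι] [DecidableEq ι] {W : Euc N × Euc N → (ι × Fin 2 → Fin N) → ℝ}
  {p₀ : Euc N} {x : Euc N → Ext (Euc N)}
  {g : Euc N × Euc N → Fin m → ℂ} {Fc x0 : MM m → Ext (MM m)}
  {pt : Type} [Fintype pt] [DecidableEq pt] {κ₇ : Type} [Fintype κ₇] [DecidableEq κ₇]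
  {P' : MM m → EuclideanSpace ℝ pt →L[ℝ] EuclideanSpace ℝ pt} {α β₁ ν : ℝ}

/-- **block Q**, the instance over the manifold of geodesics. -/
theorem fields {h : GT.Bla G 8} (D : T.XM h 2 W p₀ x) (hper : HS.Per G)
    (hg : Emb (US G) (gf G) g) (hc : Curv (US G) g (al (N := N)) Fc)
    (hN : PField (Quo (US G) g) 7 P')
    (hs : ∀ y ∈ Quo (US G) g, ∀ u v, ⟪P' y u, v⟫ = ⟪u, P' y v⟫)
    (h7 : Fintype.card κ₇ = 7)
    (sx0 : Sm (Quo (US G) g) x0) (cx0 : Cl (Quo (US G) g) x0) (dx0 : Hom 8 x0) (hx0 : Coh (US G) (F.pull (jj g) x0) (F.pull Prod.fst x))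
    (hν : |ν| * XF.tau ι = 12 * (2 * Real.pi) ^ 4)
    (hp3 : Coh (Quo (US G) g) (cR 6 P') (α • Fc ^ 6 + β₁ • (x0 * Fc ^ 2)))
    (IT : ∀ c : CH.Chn (Quo (US G) g) 12, ∃ z : ℤ, J 14 (c.Z ×ˢ CPk 1) (QS.oP c)
      (fun z => QS.cP c z • F.pull (QS.fP c) (eR (NLp P') (WNp κ₇ P')) z) = XF.tau κ₇ * z)
    (hn0 : ∀ c : CH.Chn (Quo (US G) g) 8, ∃ z : ℤ, 2 * c.I x0 = XF.tau ι * z) :
    ∃ n₀ : ℝ, (∃ n : ℤ, 12 * β₁ / ν = n) ∧ (∃ n : ℤ, 2 * n₀ = n) ∧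
      ∃ n : ℤ, α + 12 * β₁ / ν * n₀ = n := by
  have hn : n = 16 := by rw [D.hn]
  have hC := CS.cb_US h.bl hper hg hc
  have hτ := XF.tau_pos ι
  have hP4 : (0 : ℝ) < (2 * Real.pi) ^ 4 := by positivity
  have hne : (Quo (US G) g).Nonempty := by
    obtain ⟨z, hz⟩ := T.nonempty_UST h D.hp
    exact ⟨jj g z, z, hz, rfl⟩
  have hB := ZG.clo_B h hper hg
  have hBc := ZG.preconn_B h (by omega) hg
  obtain ⟨⟨c8, c12, -, a2, a3⟩, q, hq, o, ho, so, dO, c8', c12', b1, b2, b3, b4⟩ :=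
    CS.chains h hn hC hc.cl hc.hom hne sx0 D.sx hx0
  have hJ : |J 8 (GP.Cut S q) o x| = XF.tau ι := by
    have := J_Cut_val D hq (o := o) (by rw [hn]; exact ho)
    rwa [hn] at this
  refine fields_of hP4 hτ hν (β := β₁ * XF.tau ι / (2 * Real.pi) ^ 4) ?_ ?_
  · field_simp
  · refine QS.block_q (ι := κ₇) (b := 2 * (n - 1)) (c₁ := c12) (c₂ := c12') (c₈ := c8) hB hBc hN hs
      h7 hC.smF sx0 hτ ?_ IT ?_ ?_ b3 ?_ (hn0 c8)
    · have e1 : β₁ * XF.tau ι / (2 * Real.pi) ^ 4 * (2 * Real.pi) ^ 4 / XF.tau ι = β₁ := by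
        field_simp
      have e2 : Fc ^ 2 * x0 = x0 * Fc ^ 2 := by
        have := (T.Hom.commute (hc.hom.mul hc.hom) ⟨2, rfl⟩ x0).eq
        rwa [← sq] at this
      rw [e1, e2]
      exact hp3
    · rw [a2, abs_of_pos (by positivity)]
    · rw [a3 x0 sx0 cx0 dx0, abs_mul, abs_of_pos (by positivity)]
    · rw [b4 x0 sx0 cx0 dx0, b1, abs_mul, abs_of_pos (by positivity), hJ]

end Crest.Agent.R208.CQ
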