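import Crest.Agent.R208.SN7

/-! Row 208, block SN (helper900).  SN8: the tower of sphere bundles; **the spread number**. -/

set_option autoImplicit false
set_option linter.unusedSectionVars false

open MeasureTheory Set Filter Topology Module Matrix
open scoped ContDiff RealInnerProductSpace ENNReal
open Crest.Agent.R208.F Crest.Agent.R208.FI Crest.Agent.R208.CW Crest.Agent.R208.T

noncomputable section

namespace Crest.Agent.R208.SN

universe u

section point
variable {E : Type*} [NormedAddCommGroup E] [NormedSpace ℝ E] [FiniteDimensional ℝ E]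

theorem chart_point (p : E) : Chart 0 ({p} : Set E) (fun _ => p) univ := by
  refine ⟨isOpen_univ, contDiff_const.contDiffOn, ?_, ?_, ?_⟩
  · intro a _ b _ _; exact Subsingleton.elim a b
  · intro u _ a b _; exact Subsingleton.elim a b
  · intro W _ hWo
    rcases W.eq_empty_or_nonempty with rfl | ⟨w, hw⟩
    · exact ⟨∅, isOpen_empty, by simp⟩
    · refine ⟨univ, isOpen_univ, ?_⟩
      ext y
      constructor
      · rintro ⟨v, _, rfl⟩; exact ⟨rfl, mem_univ _⟩
      · rintro ⟨hy, _⟩; exact ⟨w, hw, hy.symm⟩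

theorem clo_point (p : E) : Clo 0 ({p} : Set E) := (sub_point p).clo isCompact_singleton

theorem evA_zero_one (w : Fin 0 → E) : evA E 0 (1 : Ext E) w = 1 := by
  have : (1 : Ext E) = ExteriorAlgebra.ιMulti ℝ 0 (fun i : Fin 0 => i.elim0) := by
    rw [ExteriorAlgebra.ιMulti_apply]; simp
  rw [this, evA_iMulti]
  simp

theorem ori_point (p : E) : Ori 0 ({p} : Set E) 1 :=
  ⟨continuousOn_const, fun x _ => by
    have : evA E 0 ((1 : E → Ext E) x) (frame 0 {p} x) = 1 := evA_zero_one _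
    rw [this]; exact one_ne_zero⟩

theorem J_point (p : E) : J 0 ({p} : Set E) 1 1 = 1 := by
  rw [J_eq_chart (clo_point p) (chart_point p) (V := univ)]
  · have h1 : ∀ u : Eu 0, top 0 (pull (fun _ : Eu 0 => p) (1 : E → Ext E) u) = 1 := fun u => by
      have h2 : pull (fun _ : Eu 0 => p) (1 : E → Ext E) u = 1 := map_one _
      rw [h2]
      exact evA_zero_one _
    simp only [h1, Real.sign_one, mul_one]
    rw [setIntegral_const, smul_eq_mul, mul_one, Measure.real]
    have h4 : (volume : Measure (Eu 0)) univ = 1 := by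
      have h5 := (PiLp.volume_preserving_ofLp (Fin 0)).measure_preimage
        (s := (univ : Set (Fin 0 → ℝ))) MeasurableSet.univ.nullMeasurableSet
      rw [preimage_univ] at h5
      rw [h5, volume_pi, Measure.pi_univ]
      simp
    rw [h4]; rfl
  · intro x hx hxn
    exact absurd ⟨0, mem_univ _, hx.symm⟩ hxn

end point

section tower
variable {n : Type u} {ι : Type*} [Fintype n] [DecidableEq n] [Fintype ι] [DecidableEq ι]
  {T : Submodule ℝ (EuclideanSpace ℝ n)} {C : Set (EuclideanSpace ℝ n)}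
  {P : EuclideanSpace ℝ n → EuclideanSpace ℝ n →L[ℝ] EuclideanSpace ℝ n}
  {W : EuclideanSpace ℝ n → (ι × Fin 2 → n) → ℝ} {rho : EuclideanSpace ℝ n → EuclideanSpace ℝ n}

/-- a level of the tower -/
structure Lv {E : Type*} [NormedAddCommGroup E] [NormedSpace ℝ E] [FiniteDimensional ℝ E]
    (C : Set (EuclideanSpace ℝ n)) (P : EuclideanSpace ℝ n → EuclideanSpace ℝ n →L[ℝ] EuclideanSpace ℝ n)
    (W : EuclideanSpace ℝ n → (ι × Fin 2 → n) → ℝ) (i : ℕ) (X : Set E) (o : E → Ext E)
    (f : E → EuclideanSpace ℝ n) : Prop where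
  clo : Clo (2 * Fintype.card ι * i) X
  ori : Ori (2 * Fintype.card ι * i) X o
  deg : ∀ x ∈ X, IsDeg (2 * Fintype.card ι * i) (o x)
  conn : IsPreconnected X
  ne : X.Nonempty
  sm : SMap X C f
  val : |J (2 * Fintype.card ι * i) X o ((F.pull f (eR P W)) ^ i)| = (|kGG ι| / 2) ^ i

/-- the point -/
theorem Lv.zero {q : EuclideanSpace ℝ n} (hq : q ∈ C) :
    Lv (ι := ι) C P W 0 ({q} : Set (EuclideanSpace ℝ n)) 1 id where
  clo := clo_point q
  ori := ori_point q
  deg x _ := by
    have : (1 : Ext (EuclideanSpace ℝ n)) = ExteriorAlgebra.ιMulti ℝ 0 (fun i : Fin 0 => i.elim0) := by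
      rw [ExteriorAlgebra.ιMulti_apply]; simp
    show IsDeg (2 * Fintype.card ι * 0) ((1 : EuclideanSpace ℝ n → Ext (EuclideanSpace ℝ n)) x)
    rw [Pi.one_apply, this]
    exact IsDeg.iMulti _
  conn := isPreconnected_singleton
  ne := singleton_nonempty _
  sm := ⟨fun x _ => contDiffAt_id, fun x hx => by
    rw [mem_singleton_iff.1 hx]; exact hq⟩
  val := by
    rw [pow_zero, pow_zero]
    have : J (2 * Fintype.card ι * 0) ({q} : Set (EuclideanSpace ℝ n)) 1 1 = 1 := J_point q
    rw [this, abs_one]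

variable {E : Type*} [NormedAddCommGroup E] [NormedSpace ℝ E] [FiniteDimensional ℝ E]
  {X : Set E} {o : E → Ext E} {f : E → EuclideanSpace ℝ n} {i c : ℕ}

/-- **one step** -/
theorem Lv.step [Nonempty ι] (hC : Sub c C) (h : Spr T C P W rho) (hL : Lv C P W i X o f)
    {w : EuclideanSpace ℝ n} {g : (E × EuclideanSpace ℝ n) × ℝ → EuclideanSpace ℝ n}
    (hs : Stp T C P W rho X f w g) :
    Lv C P W (i + 1) (SB X (fun x => P (f x)))
      (fun z => oVf (fun x => W (f x)) z * F.pull pB o z) g := by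
  have e : Fintype.card ι * 2 + 2 * Fintype.card ι * i = 2 * Fintype.card ι * (i + 1) := by ring
  have hcard : 1 ≤ Fintype.card ι := Fintype.card_pos
  have hor := OR_comp h.or hL.sm
  have hlow : ∀ x ∈ X, ∀ q < 2 * Fintype.card ι * i, evA E q (o x) = 0 := fun x hx q hq =>
    hL.deg x hx q hq.ne
  have hP := pf h hL.sm
  obtain ⟨x, hx⟩ := hL.ne
  obtain ⟨R, hR1, hR⟩ := exists_R hL.clo hs
  refine ⟨e ▸ clo_SB hL.clo hP, e ▸ ori_SB hL.clo hL.ori hor (fun x hx => OR_sym hor hx) hlow, ?_,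
    preconn_SB hL.clo hL.conn hP (by omega), SB_nonempty hL.ne, hs.smap, ?_⟩
  · intro z hz
    rw [← e]
    exact isDeg_mul (isDeg_oVf _ z) ((hL.deg _ hz.1.1.1).pb _)
  · have h1 := step_int hC hL.clo hL.conn hL.ori hlow hs hR rfl hx
    have h2 := J_fibre hC hL.clo hL.ori hlow hs hR1 hR hx
    have h3 := hL.val
    have h4 := congrArg abs h1
    rw [abs_mul, abs_mul, h2, h3, abs_two] at h4
    rw [← e, pow_succ (|kGG ι| / 2)]
    linarith

theorem exists_Lv [Nonempty ι] (hC : Sub c C) (hne : C.Nonempty) (h : Spr T C P W rho) (i : ℕ)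
    (hi : 2 * Fintype.card ι * i < finrank ℝ T) :
    ∃ (E : Type u) (_ : NormedAddCommGroup E) (_ : NormedSpace ℝ E) (_ : FiniteDimensional ℝ E)
      (X : Set E) (o : E → Ext E) (f : E → EuclideanSpace ℝ n), Lv C P W i X o f := by
  induction i with
  | zero =>
    obtain ⟨q, hq⟩ := hne
    exact ⟨EuclideanSpace ℝ n, inferInstance, inferInstance, inferInstance, {q}, 1, id, Lv.zero hq⟩
  | succ i ih =>
    have e : Fintype.card ι * 2 + 2 * Fintype.card ι * i = 2 * Fintype.card ι * (i + 1) := by ring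
    obtain ⟨E, i1, i2, i3, X, o, f, hL⟩ := ih (by omega)
    obtain ⟨w, hwT, hw⟩ := exists_w h hL.clo.sub hL.sm (by omega)
    obtain ⟨g, h1, h2, h3⟩ := exists_g h hL.clo hL.sm hwT hw
    exact ⟨(E × EuclideanSpace ℝ n) × ℝ, inferInstance, inferInstance, inferInstance, _, _, g,
      hL.step hC h ⟨h, hL.sm, hwT, hw, h1, h2, h3⟩⟩

/-- **the spread number**, up to the value of `kGG` -/
theorem spread [Nonempty ι] (h : Spr T C P W rho) {i : ℕ} (hC : Clo (2 * Fintype.card ι * i) C)
    (hne : C.Nonempty) (hCc : IsPreconnected C) {oC : EuclideanSpace ℝ n → Ext (EuclideanSpace ℝ n)}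
    (hoC : Ori (2 * Fintype.card ι * i) C oC) (hi : 2 * Fintype.card ι * i < finrank ℝ T) :
    ∃ D : ℤ, |D * J (2 * Fintype.card ι * i) C oC ((eR P W) ^ i)| = (|kGG ι| / 2) ^ i := by
  obtain ⟨E, i1, i2, i3, X, o, f, hL⟩ := exists_Lv hC.sub hne h i hi
  obtain ⟨D, hD⟩ := exists_degree hL.clo hL.ori hC hoC hCc
    (fun x hx => (hL.sm.smooth x hx).of_le (WithTop.coe_le_coe.2 le_top)) hL.sm.maps
  refine ⟨D, ?_⟩
  have h1 : ContinuousOn ((eR P W) ^ i) C := fun y hy =>
    (((eR_ec h.or).sm.pow i) y hy).continuousAt.continuousWithinAt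
  rw [← hD _ h1, ← hL.val]
  congr 1
  rw [pull_pow]

end tower

end Crest.Agent.R208.SN
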