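import Crest.Agent.R208.IM10
import Crest.Agent.R208.SN8

/-! Row 208, block IM (helper631).  IM11: **the Euler number is an integer**: final forms. -/

set_option autoImplicit false
set_option linter.unusedSectionVars false

open MeasureTheory Set Filter Topology Module Matrix
open scoped ContDiff RealInnerProductSpace
open Crest.Agent.R208.F Crest.Agent.R208.FI Crest.Agent.R208.CW Crest.Agent.R208.T
open Crest.Agent.R208.SN Crest.Agent.R208.CH

noncomputable section

namespace Crest.Agent.R208.IM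

section ori
variable {E : Type*} [NormedAddCommGroup E] [NormedSpace ℝ E] [FiniteDimensional ℝ E]
  {X : Set E} {d : ℕ} {o om : E → Ext E}

theorem ori_dp (ho : Ori d X o) : Ori d X (dp d o) where
  cont := (dplL (E := E) d).continuous.comp_continuousOn ho.cont
  ne x hx := by
    show evA E d (dpl d (o x)) _ ≠ 0
    rw [CM.evA_dpl_same]
    exact ho.ne x hx

theorem dp_low (o : E → Ext E) (x : E) : ∀ q < d, evA E q (dp d o x) = 0 := fun q hq =>
  isDeg_dpl d (o x) q (by omega)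

theorem J_dp (hX : Clo d X) : J d X (dp d o) om = J d X o om :=
  CM.J_congr_dens hX (fun x _ => by
    show evA E d (dpl d (o x)) _ = _
    rw [CM.evA_dpl_same]) (fun _ _ => rfl)

end ori

section fac
variable {E E₁ E₂ : Type*} [NormedAddCommGroup E] [NormedSpace ℝ E] [FiniteDimensional ℝ E]
  [NormedAddCommGroup E₁] [NormedSpace ℝ E₁] [FiniteDimensional ℝ E₁]
  [NormedAddCommGroup E₂] [NormedSpace ℝ E₂] [FiniteDimensional ℝ E₂]
  {X : Set E} {n : ℕ} {f : E → E₁} {G : E → E₂} {χ : E → ℝ}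

/-- thinness passes to maps with a bigger kernel -/
theorem thin_mono (hX : Sub n X) (hT : Thin n X f χ)
    (h : ∀ x ∈ X, ∀ w ∈ Tan X x, fderiv ℝ f x w = 0 → fderiv ℝ G x w = 0) : Thin n X G χ := by
  refine thin_of_ker hX hT.smooth (fun x hx h0 h1 => ?_) (fun x hx => ?_)
  · obtain ⟨w, hw, hne, hk⟩ := thin_ker1 hX hT hx h0 h1
    exact ⟨w, hw, hne, h x hx w hw hk⟩
  · rcases thin_ker2 hX hT hx with h2 | ⟨w, hw, hne, hl, hk⟩
    · exact Or.inl h2
    · exact Or.inr ⟨w, hw, hne, hl, h x hx w hw hk⟩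

/-- adding a constant component -/
theorem thin_const (hX : Sub n X) (hT : Thin n X f χ) (hf : ∀ x ∈ X, DifferentiableAt ℝ f x)
    (p : E₂) : Thin n X (fun x => (f x, p)) χ :=
  thin_mono hX hT fun x hx w _ h0 => by
    rw [(hf x hx).fderiv_prodMk (differentiableAt_const p)]
    refine Prod.ext h0 ?_
    show fderiv ℝ (fun _ : E => p) x w = 0
    rw [fderiv_const_apply]; rfl

end fac

variable {n ι : Type} [Fintype n] [DecidableEq n] [Fintype ι] [DecidableEq ι]
  {E E₁ E₂ : Type} [NormedAddCommGroup E] [NormedSpace ℝ E] [FiniteDimensional ℝ E]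
  [NormedAddCommGroup E₁] [NormedSpace ℝ E₁] [FiniteDimensional ℝ E₁]
  [NormedAddCommGroup E₂] [NormedSpace ℝ E₂] [FiniteDimensional ℝ E₂]
  {X : Set E} {Y : Set E₁} {M : Set E₂} {P : E₁ → EuclideanSpace ℝ n →L[ℝ] EuclideanSpace ℝ n}
  {W : E₁ → (ι × Fin 2 → n) → ℝ}
  {f : E → E₁} {g : E → E₂} {χ : E → ℝ}
  {dY m : ℕ} {oX : E → Ext E} {oM : E₂ → Ext E₂}

/-- **INT-M, thin version**: the Euler class of an oriented bundle of rank `2 card ι` evaluates
to integers on thin chains fibred over `M`. -/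
theorem int_thin [Nonempty ι] (hY : Sub dY Y) (hYc : IsPreconnected Y) (h : OR Y P W)
    (hX : Clo (2 * Fintype.card ι + m) X) (hoX : Ori (2 * Fintype.card ι + m) X oX)
    (hf : SMap X Y f) (hM : Clo m M) (hMc : IsPreconnected M) (hoM : Ori m M oM)
    (hg : SMap X M g)
    (hT : Thin (2 * Fintype.card ι + m) X (fun x => (f x, g x)) χ) :
    ∃ z : ℤ, ∀ μ : E₂ → Ext E₂, Sm M μ → Hom m μ →
      J (2 * Fintype.card ι + m) X oX (fun x => χ x • (F.pull f (eR P W) x * F.pull g μ x)) =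
        XF.tau ι * z * J m M oM μ := by
  rcases X.eq_empty_or_nonempty with rfl | ⟨x₀, hx₀⟩
  · refine ⟨0, fun μ _ _ => ?_⟩
    rw [J_eq_zero hX fun x hx => hx.elim]
    simp
  have hne : Y.Nonempty := ⟨_, hf.maps hx₀⟩
  obtain ⟨q, r, eq, -⟩ := exists_par h hne
  have hS := iM_iso (n := n) (Fin q)
  obtain ⟨z, hz⟩ := int_core (oX := dp _ oX) (oM := dp m oM) eq hY hYc (h.push hS) hX (ori_dp hoX)
    (fun x _ => dp_low oX x) hf hg hM hMc (ori_dp hoM) (fun x _ => dp_low oM x) hT hx₀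
  refine ⟨z, fun μ hμ hμm => ?_⟩
  have e1 := hz μ hμ hμm
  rw [J_dp hX, J_dp hM] at e1
  rw [← e1]
  have e2 : Eqv X (fun x => F.pull f (eR P W) x * F.pull g μ x)
      (fun x => F.pull f (eR (pushE (iM n (Fin q)) P) (fun x => pushR (iM n (Fin q)) (W x))) x *
        F.pull g μ x) :=
    ((eqv_eR_push hS h).symm.pull hf).mul (Eqv.refl (F.pull g μ))
  exact J_eqv' hX e2 χ

/-- INT-M without cut off -/
theorem int_map [Nonempty ι] (hY : Sub dY Y) (hYc : IsPreconnected Y) (h : OR Y P W)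
    (hX : Clo (2 * Fintype.card ι + m) X) (hoX : Ori (2 * Fintype.card ι + m) X oX)
    (hf : SMap X Y f) (hM : Clo m M) (hMc : IsPreconnected M) (hoM : Ori m M oM)
    (hg : SMap X M g) :
    ∃ z : ℤ, ∀ μ : E₂ → Ext E₂, Sm M μ → Hom m μ →
      J (2 * Fintype.card ι + m) X oX (F.pull f (eR P W) * F.pull g μ) =
        XF.tau ι * z * J m M oM μ := by
  obtain ⟨z, hz⟩ := int_thin hY hYc h hX hoX hf hM hMc hoM hg (Thin.const_one _ X)
  refine ⟨z, fun μ hμ hμm => ?_⟩
  rw [← hz μ hμ hμm]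
  refine J_congr' hX fun x _ => ?_
  rw [one_smul]; rfl

/-- **the Euler number of a thin chain is an integer** (normalised by `tau`) -/
theorem int_pt_thin [Nonempty ι] (hY : Sub dY Y) (hYc : IsPreconnected Y) (h : OR Y P W)
    (hX : Clo (2 * Fintype.card ι) X) (hoX : Ori (2 * Fintype.card ι) X oX)
    (hf : SMap X Y f) (hT : Thin (2 * Fintype.card ι) X f χ) :
    ∃ z : ℤ, J (2 * Fintype.card ι) X oX (fun x => χ x • F.pull f (eR P W) x) =
      XF.tau ι * z := by
  have hgp : SMap X ({0} : Set ℝ) (fun _ => (0 : ℝ)) := ⟨fun _ _ => contDiffAt_const, fun _ _ => rfl⟩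
  obtain ⟨z, hz⟩ := int_thin (m := 0) (M := ({0} : Set ℝ)) (oM := 1) (g := fun _ => (0 : ℝ))
    hY hYc h hX hoX hf (clo_point 0) isPreconnected_singleton (ori_point 0) hgp
    (thin_const hX.sub hT (fun x hx => hf.diff hx) 0)
  refine ⟨z, ?_⟩
  have h1 : Sm ({0} : Set ℝ) (1 : ℝ → Ext ℝ) := fun _ _ => contDiffAt_const
  have h2 : Hom 0 (1 : ℝ → Ext ℝ) := fun x => by
    have := isDeg_algebraMap (E := ℝ) 1
    rwa [map_one] at this
  have e1 := hz 1 h1 h2
  rw [J_point, mul_one] at e1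
  rw [← e1]
  refine J_congr' hX fun x _ => ?_
  have : F.pull (fun _ : E => (0 : ℝ)) (1 : ℝ → Ext ℝ) x = 1 := map_one _
  rw [this, mul_one]

/-- **the Euler number is an integer** (normalised by `tau`) -/
theorem int_pt [Nonempty ι] (hY : Sub dY Y) (hYc : IsPreconnected Y) (h : OR Y P W)
    (hX : Clo (2 * Fintype.card ι) X) (hoX : Ori (2 * Fintype.card ι) X oX)
    (hf : SMap X Y f) :
    ∃ z : ℤ, J (2 * Fintype.card ι) X oX (F.pull f (eR P W)) = XF.tau ι * z := by
  obtain ⟨z, hz⟩ := int_pt_thin hY hYc h hX hoX hf (Thin.const_one _ X)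
  refine ⟨z, ?_⟩
  rw [← hz]
  refine J_congr' hX fun x _ => ?_
  rw [one_smul]

/-- the Euler number of an oriented bundle over a closed connected `X` -/
theorem int_self [Nonempty ι] {X : Set E} {P : E → EuclideanSpace ℝ n →L[ℝ] EuclideanSpace ℝ n}
    {W : E → (ι × Fin 2 → n) → ℝ} (hX : Clo (2 * Fintype.card ι) X) (hXc : IsPreconnected X)
    (h : OR X P W) (hoX : Ori (2 * Fintype.card ι) X oX) :
    ∃ z : ℤ, J (2 * Fintype.card ι) X oX (eR P W) = XF.tau ι * z := by
  obtain ⟨z, hz⟩ := int_pt (f := fun x => x) hX.sub hXc h hX hoX (SMap.id X)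
  refine ⟨z, ?_⟩
  rw [← hz]
  exact J_congr' hX fun x _ => (F.pull_id _ x).symm

end Crest.Agent.R208.IM
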