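import Crest.Agent.R208.QT2
import Crest.Agent.R208.SB5

/-! Row 208, block Q (helper586), part QT3: integrality of thin chains with a target; **(n0)**:
`2 ∫_c x₀ ∈ τ ℤ` for every thin `k`-chain of the manifold of geodesics. -/

set_option autoImplicit false
set_option linter.unusedSectionVars false

open MeasureTheory Set Filter Topology Module
open scoped ContDiff RealInnerProductSpace
open Crest.GeometryTopology.Submanifold
open Crest.Agent.R241.DDefs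
open Crest.Agent.R241.D2
open Crest.Agent.R208.F Crest.Agent.R208.FI Crest.Agent.R208.CW Crest.Agent.R208.FG
open Crest.Agent.R208.T (Sm Cl Hom Coh Eqv eR OR Sph)
open Crest.Agent.R208.SO (CF2)
open Crest.Agent.R208.SB (OddB)

noncomputable section

namespace Crest.Agent.R208.QT

/-- integrality of thin chains with a target (631's `IM.int_thin`) -/
def IntM : Prop := ∀ {n ι : Type} [Fintype n] [DecidableEq n] [Fintype ι] [DecidableEq ι]
  [Nonempty ι] {E E₁ E₂ : Type} [NormedAddCommGroup E] [NormedSpace ℝ E] [FiniteDimensional ℝ E]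
  [NormedAddCommGroup E₁] [NormedSpace ℝ E₁] [FiniteDimensional ℝ E₁]
  [NormedAddCommGroup E₂] [NormedSpace ℝ E₂] [FiniteDimensional ℝ E₂]
  {X : Set E} {Y : Set E₁} {M : Set E₂} {P : E₁ → EuclideanSpace ℝ n →L[ℝ] EuclideanSpace ℝ n}
  {W : E₁ → (ι × Fin 2 → n) → ℝ} {f : E → E₁} {g : E → E₂} {χ : E → ℝ} {d m : ℕ}
  {oX : E → Ext E} {oM : E₂ → Ext E₂},
  Sub d Y → IsPreconnected Y → OR Y P W → Clo (2 * Fintype.card ι + m) X →
  Ori (2 * Fintype.card ι + m) X oX → SMap X Y f → Clo m M → IsPreconnected M → Ori m M oM →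
  SMap X M g → CH.Thin (2 * Fintype.card ι + m) X (fun x => (f x, g x)) χ →
  ∃ z : ℤ, ∀ μ : E₂ → Ext E₂, Sm M μ → Hom m μ →
    J (2 * Fintype.card ι + m) X oX (fun x => χ x • (F.pull f (eR P W) x * F.pull g μ x)) =
      XF.tau ι * z * J m M oM μ

section gen
variable {n ι : Type} [Fintype n] [DecidableEq n] [Fintype ι] [DecidableEq ι] [Nonempty ι]
  {E' E₁ E₂ : Type} [NormedAddCommGroup E'] [NormedSpace ℝ E'] [FiniteDimensional ℝ E']
  [NormedAddCommGroup E₁] [NormedSpace ℝ E₁] [FiniteDimensional ℝ E₁]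
  [NormedAddCommGroup E₂] [NormedSpace ℝ E₂] [FiniteDimensional ℝ E₂]
  {K : Set E'} {Y : Set E₁} {M : Set E₂} {P : E₁ → EuclideanSpace ℝ n →L[ℝ] EuclideanSpace ℝ n}
  {W : E₁ → (ι × Fin 2 → n) → ℝ} {φ : E' → E₁} {g : E' → E₂} {d dd m : ℕ}
  {oM : E₂ → Ext E₂}

/-- **integrality over a chain** -/
theorem int_chain (IT : IntM) (hY : Sub d Y) (hYc : IsPreconnected Y) (h : OR Y P W)
    (hdd : dd = 2 * Fintype.card ι + m) (c : CH.Chn K dd)
    (hφ : SMap K Y φ) (hM : Clo m M) (hMc : IsPreconnected M) (hoM : Ori m M oM)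
    (hg : SMap K M g) : ∃ z : ℤ, ∀ μ : E₂ → Ext E₂, Sm M μ → Hom m μ →
      c.I (F.pull φ (eR P W) * F.pull g μ) = XF.tau ι * z * J m M oM μ := by
  subst hdd
  have hφ' : SMap c.Z Y (fun x => φ (c.g x)) := hφ.comp c.sm
  have hg' : SMap c.Z M (fun x => g (c.g x)) := hg.comp c.sm
  have hT : CH.Thin (2 * Fintype.card ι + m) c.Z (fun x => (φ (c.g x), g (c.g x))) c.χ :=
    c.thn.thin_comp (φ := fun y => (φ y, g y))
      (fun x hx => (c.sm.smooth x hx).differentiableAt (by simp))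
      (fun x hx => ((hφ.smooth _ (c.sm.maps hx)).differentiableAt (by simp)).prodMk
        ((hg.smooth _ (c.sm.maps hx)).differentiableAt (by simp)))
  obtain ⟨z, hz⟩ := IT hY hYc h c.clo c.ori hφ' hM hMc hoM hg' hT
  refine ⟨z, fun μ hμ dμ => ?_⟩
  rw [← hz μ hμ dμ]
  refine J_congr' c.clo fun x hx => ?_
  congr 1
  have e1 := F.pull_comp (om := eR P W)
    ((c.sm.smooth x hx).differentiableAt (by simp) : DifferentiableAt ℝ c.g x)
    ((hφ.smooth _ (c.sm.maps hx)).differentiableAt (by simp))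
  have e2 := F.pull_comp (om := μ)
    ((c.sm.smooth x hx).differentiableAt (by simp) : DifferentiableAt ℝ c.g x)
    ((hg.smooth _ (c.sm.maps hx)).differentiableAt (by simp))
  change F.pull c.g (F.pull φ (eR P W) * F.pull g μ) x =
    F.pull (φ ∘ c.g) (eR P W) x * F.pull (g ∘ c.g) μ x
  rw [← e1, ← e2]
  exact map_mul _ _ _

end gen

section J0
variable {E : Type*} [NormedAddCommGroup E] [NormedSpace ℝ E] [FiniteDimensional ℝ E]

theorem J_hom_ne {X : Set E} {d q : ℕ} {o η : E → Ext E} (hX : Clo d X) (h : Hom q η)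
    (hq : d ≠ q) : J d X o η = 0 :=
  J_eq_zero hX fun x _ w _ => by rw [h x d hq]; rfl

end J0

attribute [local irreducible] bcC mapC

/-! ### sphere bundles -/
section sph
variable {E₁ : Type} [NormedAddCommGroup E₁] [NormedSpace ℝ E₁] [FiniteDimensional ℝ E₁]
  {n₁ ι₁ : Type} [Fintype n₁] [DecidableEq n₁] [Fintype ι₁] [DecidableEq ι₁] [Nonempty ι₁]
  {B : Set E₁} {P' : E₁ → EuclideanSpace ℝ n₁ →L[ℝ] EuclideanSpace ℝ n₁}
  {oP' : E₁ → Ext (EuclideanSpace ℝ n₁)} {oB w : E₁ → Ext E₁}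
  {η : E₁ × EuclideanSpace ℝ n₁ → Ext (E₁ × EuclideanSpace ℝ n₁)} {r b d q : ℕ}

/-- the part of the sphere bundle over a chain -/
def sphC (ob : OddB ι₁ B r P' oP') (hB : Clo b B) (hoB : Ori b B oB) (dB : ∀ z, IsDeg b (oB z))
    (c : CH.Chn B d) : CH.Chn (Sph B P') (r + d) :=
  mapC (K := FP (Sph B P') B Prod.fst (fun y => y)) (v := Prod.fst) smap_FP_fst
    (bcC (SB.osubm_Sph hB ob.pf ob.op hoB dB) (SB.isDeg_oV ob.op) hB (SMap.id B) c)

theorem sphC_I (ob : OddB ι₁ B r P' oP') (hB : Clo b B) (hBc : IsPreconnected B)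
    (hoB : Ori b B oB) (dB : ∀ z, IsDeg b (oB z)) (c : CH.Chn B d) (sη : Sm (Sph B P') η)
    (cη : Cl (Sph B P') η) (sw : Sm B w) (hw : Hom q w) (hq : d ≤ q) {y : E₁} (hy : y ∈ B) :
    (sphC ob hB hoB dB c).I (η * F.pull Prod.fst w) =
      J r (Sph B P' ∩ Prod.fst ⁻¹' {y}) (SB.oV oP') η * c.I w := by
  rw [sphC, mapC_I, T.pull_mul']
  have h1 : SMap (FP (Sph B P') B Prod.fst (fun y => y)) (Sph B P')
    (Prod.fst : (E₁ × EuclideanSpace ℝ n₁) × E₁ → _) := smap_FP_fst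
  have h2 : SMap (FP (Sph B P') B Prod.fst (fun y => y)) B
    (Prod.snd : (E₁ × EuclideanSpace ℝ n₁) × E₁ → _) := smap_FP_snd
  have h3 : SMap (Sph B P') B (Prod.fst : E₁ × EuclideanSpace ℝ n₁ → E₁) :=
    ⟨fun _ _ => contDiffAt_fst, fun z hz => hz.1.1⟩
  have e1 : Eqv (FP (Sph B P') B Prod.fst (fun y => y))
      (F.pull (Prod.fst : (E₁ × EuclideanSpace ℝ n₁) × E₁ → _) (F.pull Prod.fst w))
      (F.pull (Prod.snd : (E₁ × EuclideanSpace ℝ n₁) × E₁ → _) w) :=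
    T.eqv_pull_pull h1 h3 h2 (fun z hz => hz.2.2) w
  rw [I_eqv _ ((Eqv.refl _).mul e1)]
  exact bcC_I (SB.osubm_Sph hB ob.pf ob.op hoB dB) (SB.isDeg_oV ob.op) hB (SMap.id B) c hBc sη cη
    sw hw hq hy

theorem smap_fstB : SMap (Sph B P') B (Prod.fst : E₁ × EuclideanSpace ℝ n₁ → E₁) :=
  ⟨fun _ _ => contDiffAt_fst, fun _ hz => hz.1.1⟩

theorem cf2_one {E : Type*} [NormedAddCommGroup E] [NormedSpace ℝ E] [FiniteDimensional ℝ E]
    (X : Set E) : CF2 X 0 (1 : E → Ext E) :=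
  ⟨T.EC.one.sm, T.EC.one.cl, fun _ => T.isDeg_one, ⟨0, rfl⟩⟩

/-- `∫ (x₀ + l e w) w` over the part of the sphere bundle over a chain -/
theorem I_AW {A W' : E₁ × EuclideanSpace ℝ n₁ → Ext (E₁ × EuclideanSpace ℝ n₁)}
    {e x0 p3 : E₁ → Ext E₁} {l : ℝ} (ob : OddB ι₁ B r P' oP') (hB : Clo b B)
    (hBc : IsPreconnected B) (hoB : Ori b B oB) (dB : ∀ z, IsDeg b (oB z)) (c : CH.Chn B d)
    (hr : 0 < r) (he : CF2 B 2 e) (hx : CF2 B d x0) (hp : CF2 B (2 * r) p3) (hdr : d ≤ 2 + 2 * r)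
    (hW : CF2 (Sph B P') r W') (h2 : Coh (Sph B P') (W' * W') (F.pull Prod.fst p3))
    (sA : Sm (Sph B P') A)
    (h3 : Coh (Sph B P') A (F.pull Prod.fst x0 + l • (F.pull Prod.fst e * W'))) {y : E₁}
    (hy : y ∈ B) : (sphC ob hB hoB dB c).I (A * W') =
      J r (Sph B P' ∩ Prod.fst ⁻¹' {y}) (SB.oV oP') W' * c.I x0 := by
  have sρ : SMap (Sph B P') B (Prod.fst : E₁ × EuclideanSpace ℝ n₁ → E₁) := smap_fstB
  have ex : CF2 (Sph B P') d (F.pull Prod.fst x0) := hx.pull sρ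
  have ee : CF2 (Sph B P') 2 (F.pull Prod.fst e) := he.pull sρ
  have ep : CF2 (Sph B P') (2 * r) (F.pull Prod.fst p3) := hp.pull sρ
  have e1 : (F.pull Prod.fst x0 + l • (F.pull Prod.fst e * W')) * W' =
      W' * F.pull Prod.fst x0 + l • (F.pull Prod.fst e * (W' * W')) := by
    rw [add_mul, smul_mul_assoc, mul_assoc, hW.comm (F.pull Prod.fst x0)]
  have c1 : Coh (Sph B P') (A * W') (W' * F.pull Prod.fst x0 +
      l • (1 * F.pull Prod.fst (e * p3))) := by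
    refine (Coh.mul_right hW.sm hW.cl h3).trans ?_
    rw [e1, one_mul, T.pull_mul']
    exact (Coh.refl _).add ((T.Coh.mul_left ee.sm ee.cl h2).smul l)
  have s1 : Sm (Sph B P') (W' * F.pull Prod.fst x0) := hW.sm.mul ex.sm
  have s2 : Sm (Sph B P') (1 * F.pull Prod.fst (e * p3)) :=
    (cf2_one _).sm.mul ((he.sm.mul hp.sm).pull sρ)
  rw [(sphC ob hB hoB dB c).I_coh (sA.mul hW.sm) (s1.add (s2.smul l)) c1,
    (sphC ob hB hoB dB c).I_add s1 (s2.smul l), (sphC ob hB hoB dB c).I_smul,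
    sphC_I ob hB hBc hoB dB c hW.sm hW.cl hx.sm hx.hom le_rfl hy,
    sphC_I ob hB hBc hoB dB c (cf2_one _).sm (cf2_one _).cl (he.sm.mul hp.sm)
      (he.hom.mul hp.hom) hdr hy]
  have h0 : J r (Sph B P' ∩ Prod.fst ⁻¹' {y}) (SB.oV oP')
      (1 : E₁ × EuclideanSpace ℝ n₁ → Ext (E₁ × EuclideanSpace ℝ n₁)) = 0 := by
    refine J_hom_ne ?_ (cf2_one (Sph B P')).hom hr.ne'
    rw [SB.OddB.fibre_eq hy]
    exact ob.clo_fibre hy
  rw [h0, zero_mul, mul_zero, add_zero]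

end sph

/-! ### (n0) -/
section n0
variable {n N k m : ℕ} {κ : ℝ} {S : Set (Euc N)} {G : Geo n N κ S} {p : Euc N}
  {ι : Type} [Fintype ι] [DecidableEq ι] {W : Euc N × Euc N → (ι × Fin 2 → Fin N) → ℝ}
  {x : Euc N → Ext (Euc N)} {h : GT.Bla G k} {oS : Euc N → Ext (Euc N)}
  {oV : Euc N × Euc N → Ext (Euc N × Euc N)}
  {E₁ : Type} [NormedAddCommGroup E₁] [NormedSpace ℝ E₁] [FiniteDimensional ℝ E₁]
  {n₁ ι₁ : Type} [Fintype n₁] [DecidableEq n₁] [Fintype ι₁] [DecidableEq ι₁] [Nonempty ι₁]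
  {B : Set E₁} {P' : E₁ → EuclideanSpace ℝ n₁ →L[ℝ] EuclideanSpace ℝ n₁}
  {oP' : E₁ → Ext (EuclideanSpace ℝ n₁)} {oB e x0 p3 : E₁ → Ext E₁}
  {fY : E₁ × EuclideanSpace ℝ n₁ → Euc N} {l : ℝ} {r b : ℕ}

/-- **(n0)** -/
theorem n0 (IT : IntM) (M : T.XM h m W p x) (hO : OSubm (n - k) n (GT.FF S) S Prod.fst oV oS)
    (hV : ∀ z, IsDeg (n - k) (oV z))
    (hJ0 : J (n - k) (GT.FF S ∩ Prod.fst ⁻¹' {p}) oV (F.pull Prod.snd x ^ (m - 1)) ≠ 0)
    (hJ : |J n S oS (x ^ m)| = XF.tau ι *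
      |J (n - k) (GT.FF S ∩ Prod.fst ⁻¹' {p}) oV (F.pull Prod.snd x ^ (m - 1))|)
    (ob : OddB ι₁ B r P' oP') (hrk : r + 2 = k) (hB : Clo b B) (hBc : IsPreconnected B)
    (hne : B.Nonempty) (hYc : IsPreconnected (Sph B P'))
    (hoB : Ori b B oB) (dB : ∀ z, IsDeg b (oB z)) (he : CF2 B 2 e) (hx : CF2 B k x0)
    (hp : CF2 B (2 * r) p3)
    (h2 : Coh (Sph B P') (OddB.eV ι₁ ob.hr P' oP' * OddB.eV ι₁ ob.hr P' oP')
      (F.pull Prod.fst p3)) (sfY : SMap (Sph B P') S fY)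
    (h3 : Coh (Sph B P') (F.pull fY x)
      (F.pull Prod.fst x0 + l • (F.pull Prod.fst e * OddB.eV ι₁ ob.hr P' oP')))
    (c : CH.Chn B k) : ∃ z : ℤ, 2 * c.I x0 = XF.tau ι * z := by
  obtain ⟨y, hy⟩ := hne
  have hk := M.hk
  have hkn := M.hkn
  have hY : Clo (r + b) (Sph B P') := SB.clo_Sph hB ob.pf
  have hcι : 0 < Fintype.card ι₁ := Fintype.card_pos
  have hr := ob.hr
  set w := OddB.eV ι₁ ob.hr P' oP' with hw
  have hW : CF2 (Sph B P') r w := ⟨ob.ec_eV.sm, ob.ec_eV.cl, OddB.hom_eV ob.hr,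
    by rw [hr]; exact even_two_mul _⟩
  set c₁ := sphC ob hB hoB dB c with hc₁
  set c₂ := bcC hO hV hY sfY c₁ with hc₂
  have s1F : SMap (FP (GT.FF S) (Sph B P') Prod.fst fY) (GT.FF S)
    (Prod.fst : (Euc N × Euc N) × (E₁ × EuclideanSpace ℝ n₁) → _) := smap_FP_fst
  have s2F : SMap (FP (GT.FF S) (Sph B P') Prod.fst fY) (Sph B P')
    (Prod.snd : (Euc N × Euc N) × (E₁ × EuclideanSpace ℝ n₁) → _) := smap_FP_snd
  have s12 : SMap (FP (GT.FF S) (Sph B P') Prod.fst fY) S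
    (fun z : (Euc N × Euc N) × (E₁ × EuclideanSpace ℝ n₁) => z.1.2) := FG.smap_snd.comp s1F
  obtain ⟨z, hz⟩ := int_chain IT hY.sub hYc ob.orv (m := n)
    (show n - k + (r + k) = 2 * Fintype.card ι₁ + n by omega) c₂ s2F (GP.clo_S h.bl)
    h.bl.conn.isPreconnected hO.base s12
  have hz' := hz (x ^ m) (M.sx.pow m) (by rw [M.hn]; exact M.dx.pow m)
  have hpush := push (q := r) M hO hV hY sfY c₁ hW.sm hW.cl hW.hom rfl
  have e1 : c₂.I (F.pull Prod.snd w * F.pull (fun z => z.1.2) (x ^ m)) =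
      c₂.I (F.pull Prod.fst (F.pull Prod.snd (x ^ m)) * F.pull Prod.snd w) := by
    have h4 : Eqv (FP (GT.FF S) (Sph B P') Prod.fst fY)
        (F.pull (Prod.fst : (Euc N × Euc N) × (E₁ × EuclideanSpace ℝ n₁) → _)
          (F.pull Prod.snd (x ^ m)))
        (F.pull (fun z : (Euc N × Euc N) × (E₁ × EuclideanSpace ℝ n₁) => z.1.2) (x ^ m)) :=
      T.eqv_pull_pull s1F FG.smap_snd s12 (fun _ _ => rfl) _
    have h5 : CF2 (FP (GT.FF S) (Sph B P') Prod.fst fY) r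
      (F.pull (Prod.snd : (Euc N × Euc N) × (E₁ × EuclideanSpace ℝ n₁) → _) w) := hW.pull s2F
    rw [h5.comm]
    exact (I_eqv c₂ (h4.mul (Eqv.refl _))).symm
  have hz2 : c₂.I (F.pull Prod.snd w * F.pull (fun z => z.1.2) (x ^ m)) =
      XF.tau ι₁ * z * J n S oS (x ^ m) := hz'
  rw [e1, hpush, I_AW ob hB hBc hoB dB c (by omega) he hx hp (by omega) hW h2
    (M.sx.pull sfY) h3 hy, ob.J_fibre' hy] at hz2
  set a := J (n - k) (GT.FF S ∩ Prod.fst ⁻¹' {p}) oV (F.pull Prod.snd x ^ (m - 1)) with ha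
  have ht := XF.tau_pos ι₁
  have ha' : J n S oS (x ^ m) = XF.tau ι * a ∨ J n S oS (x ^ m) = -(XF.tau ι * a) := by
    have h6 := XF.tau_pos ι
    rw [← abs_of_pos h6, ← abs_mul] at hJ
    exact abs_eq_abs.1 hJ
  rcases ha' with h7 | h7
  · refine ⟨-z, ?_⟩
    rw [h7] at hz2
    apply mul_left_cancel₀ (mul_ne_zero ht.ne' hJ0)
    push_cast
    linear_combination -hz2
  · refine ⟨z, ?_⟩
    rw [h7] at hz2
    apply mul_left_cancel₀ (mul_ne_zero ht.ne' hJ0)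
    linear_combination -hz2

end n0

end Crest.Agent.R208.QT
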