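import Crest.Agent.R208.CQ2
import Crest.Agent.R208.QT3
import Crest.Agent.R208.IM11

/-! Row 208, block Q (helper423), part CQ3: the integrality hypothesis `IT` of `QS.block_q` and of
`CQ.fields` from 631's `IM.int_thin` (the Euler number of a thin chain is an integer). -/

set_option autoImplicit false
set_option linter.unusedSectionVars false
set_option linter.unusedVariables false

open MeasureTheory Set Filter Topology Module
open scoped ContDiff RealInnerProductSpace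
open Crest.GeometryTopology.Submanifold
open Crest.Agent.R241.DDefs
open Crest.Agent.R241.D2
open Crest.Agent.R208.F Crest.Agent.R208.FI
open Crest.Agent.R208.CW (SMap)
open Crest.Agent.R208.T (Sm Cl Eqv Coh eqv_iff Hom OR eR)
open Crest.Agent.R208.L (US)
open Crest.Agent.R208.LB (al)
open Crest.Agent.R208.CM (gf MM jj Quo Emb Curv)
open Crest.Agent.R208.EW (cR)
open Crest.Agent.R208.EP (NLp WNp CPk clo_CPk or_NLp isPreconnected_CPk)

noncomputable section

namespace Crest.Agent.R208.CQ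

/-- 586's form of the integrality of thin chains with a target -/
theorem intM : QT.IntM := fun hY hYc h hX hoX hf hM hMc hoM hg hT =>
  IM.int_thin hY hYc h hX hoX hf hM hMc hoM hg hT

/-- integrality of closed thin chains (target a point) -/
theorem int_pt {n ι : Type} [Fintype n] [DecidableEq n] [Fintype ι]
    [DecidableEq ι] [Nonempty ι] {E E₁ : Type} [NormedAddCommGroup E] [NormedSpace ℝ E]
    [FiniteDimensional ℝ E] [NormedAddCommGroup E₁] [NormedSpace ℝ E₁] [FiniteDimensional ℝ E₁]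
    {X : Set E} {Y : Set E₁} {P : E₁ → EuclideanSpace ℝ n →L[ℝ] EuclideanSpace ℝ n}
    {W : E₁ → (ι × Fin 2 → n) → ℝ} {f : E → E₁} {χ : E → ℝ} {d e : ℕ} {oX : E → Ext E}
    (he : e = 2 * Fintype.card ι) (hY : Sub d Y) (hYc : IsPreconnected Y) (h : OR Y P W)
    (hX : Clo e X) (hoX : Ori e X oX) (hf : SMap X Y f) (hT : CH.Thn e X f χ) :
    ∃ z : ℤ, J e X oX (fun x => χ x • F.pull f (eR P W) x) = XF.tau ι * z := by
  subst he
  exact IM.int_pt_thin hY hYc h hX hoX hf hT.thin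

section inst
variable {E' : Type} [NormedAddCommGroup E'] [NormedSpace ℝ E'] [FiniteDimensional ℝ E']
  {p ι : Type} [Fintype p] [DecidableEq p] [Fintype ι] [DecidableEq ι]
  {B : Set E'} {N : E' → EuclideanSpace ℝ p →L[ℝ] EuclideanSpace ℝ p} {b r d : ℕ}

/-- **the hypothesis `IT` of block Q** -/
theorem IT_of (hB : Clo b B) (hBc : IsPreconnected B) (hN : PField B r N)
    (hs : ∀ x ∈ B, ∀ u v, ⟪N x u, v⟫ = ⟪u, N x v⟫) (hι : Fintype.card ι = r)
    (hd : d + 2 = 2 * r) (c : CH.Chn B d) :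
    ∃ z : ℤ, J (d + 2) (c.Z ×ˢ CPk 1) (QS.oP c)
      (fun z => QS.cP c z • F.pull (QS.fP c) (eR (NLp N) (WNp ι N)) z) = XF.tau ι * z := by
  have : Nonempty ι := Fintype.card_pos_iff.1 (by omega)
  exact int_pt (by rw [hι, hd]) (hB.prod (clo_CPk (k := 1))).sub (hBc.prod isPreconnected_CPk)
    (or_NLp hN hs hι) (QS.clo_P c) (QS.ori_P c) (QS.smap_P c) (QS.thn_P c hB)

end inst

variable {n N k m : ℕ} {κ : ℝ} {S : Set (Euc N)} {G : Geo n N κ S}
  {ι : Type} [Fintype ι] [DecidableEq ι] {W : Euc N × Euc N → (ι × Fin 2 → Fin N) → ℝ}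
  {p₀ : Euc N} {x : Euc N → Ext (Euc N)}
  {g : Euc N × Euc N → Fin m → ℂ} {Fc x0 : MM m → Ext (MM m)}
  {pt : Type} [Fintype pt] [DecidableEq pt]
  {P' : MM m → EuclideanSpace ℝ pt →L[ℝ] EuclideanSpace ℝ pt} {α β₁ ν : ℝ}

/-- **block Q**, the instance over the manifold of geodesics; only `(n0)` is left open. -/
theorem fields' {h : GT.Bla G 8} (D : T.XM h 2 W p₀ x) (hper : HS.Per G)
    (hg : Emb (US G) (gf G) g) (hc : Curv (US G) g (al (N := N)) Fc)
    (hN : PField (Quo (US G) g) 7 P')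
    (hs : ∀ y ∈ Quo (US G) g, ∀ u v, ⟪P' y u, v⟫ = ⟪u, P' y v⟫)
    (sx0 : Sm (Quo (US G) g) x0) (cx0 : Cl (Quo (US G) g) x0) (dx0 : Hom 8 x0)
    (hx0 : Coh (US G) (F.pull (jj g) x0) (F.pull Prod.fst x))
    (hν : |ν| * XF.tau ι = 12 * (2 * Real.pi) ^ 4)
    (hp3 : Coh (Quo (US G) g) (cR 6 P') (α • Fc ^ 6 + β₁ • (x0 * Fc ^ 2)))
    (hn0 : ∀ c : CH.Chn (Quo (US G) g) 8, ∃ z : ℤ, 2 * c.I x0 = XF.tau ι * z) :
    ∃ n₀ : ℝ, (∃ n : ℤ, 12 * β₁ / ν = n) ∧ (∃ n : ℤ, 2 * n₀ = n) ∧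
      ∃ n : ℤ, α + 12 * β₁ / ν * n₀ = n :=
  fields (κ₇ := Fin 7) D hper hg hc hN hs (Fintype.card_fin 7) sx0 cx0 dx0 hx0 hν hp3
    (fun c => IT_of (ZG.clo_B h hper hg) (ZG.preconn_B h (by rw [D.hn]; omega) hg) hN hs
      (Fintype.card_fin 7) rfl c) hn0

end Crest.Agent.R208.CQ
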