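import Crest.Agent.R208.JV6

/-! Row 208, block JV (helper638).  JV7: the fibre integrals; **`|∫_S x^m| = τ |∫_{C_q} x^(m-1)|`**. -/

set_option autoImplicit false
set_option linter.unusedSectionVars false

open MeasureTheory MeasureTheory.Measure Set Filter Topology Module Metric
open scoped ContDiff RealInnerProductSpace
open Crest.GeometryTopology.Submanifold
open Crest.Agent.R241.DDefs
open Crest.Agent.R241.D2
open Crest.Agent.R208.F Crest.Agent.R208.FI Crest.Agent.R208.CW Crest.Agent.R208.T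
open Crest.Agent.R208.RR (Cyl sl K)
open Crest.Agent.R208.RRC (EE PP smap_EE smap_PP)
open Crest.Agent.R208.L (US)

noncomputable section

namespace Crest.Agent.R208.JV

variable {n N k m : ℕ} {κ : ℝ} {S : Set (Euc N)} {G : Geo n N κ S} {p q : Euc N}
  {ι : Type} [Fintype ι] [DecidableEq ι] {W : Euc N × Euc N → (ι × Fin 2 → Fin N) → ℝ}
  {x oS oC : Euc N → Ext (Euc N)} {d dF : ℕ} {oU oF b : Euc N × Euc N → Ext (Euc N × Euc N)}

theorem dif_cut (hq : q ∈ S) : SB.Dif (GT.FF S ∩ (Prod.fst : Euc N × Euc N → Euc N) ⁻¹' {q})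
    (GP.Cut S q) Prod.snd (fun y => (q, y)) where
  fw := ⟨fun _ _ => contDiffAt_snd, fun z hz => (FG.bij_fib q hq).mapsTo hz⟩
  inv := ⟨fun _ _ => contDiffAt_const.prodMk contDiffAt_id, fun y hy => by
    obtain ⟨z, hz, he⟩ := (FG.bij_fib q hq).surjOn hy
    have h1 : z.1 = q := hz.2
    have : (q, y) = z := Prod.ext h1.symm he.symm
    show (q, y) ∈ _
    rw [this]
    exact hz⟩
  left z hz := by
    have h1 : z.1 = q := hz.2
    exact Prod.ext h1.symm rfl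
  right _ _ := rfl

/-- **integration over `F → S`** -/
theorem abs_J_FF (h : GT.Bla G k) (hk : 2 ≤ k) (hkn : k < n) (hq : q ∈ S)
    (hdF : dF + k = 2 * n) (hoF : Ori dF (GT.FF S) oF) (hoS : Ori n S oS)
    {c b' : Euc N → Ext (Euc N)} (sc : Sm S c) (cc : Cl S c) (sb : Sm S b') (db : Hom n b')
    (hoC : Ori (n - k) (GP.Cut S q) oC) :
    |J dF (GT.FF S) oF (F.pull Prod.snd c * F.pull Prod.fst b')| =
      |J (n - k) (GP.Cut S q) oC c| * |J n S oS b'| := by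
  obtain ⟨w, sw, dw, hC, hos⟩ := SB.exists_osubm_F h hk hkn (ori_dp hoS)
    (fun x => isDeg_dpl _ _)
  obtain rfl : dF = n - k + n := by omega
  have hcl := hos.subm.cloZ
  have h1 := SO.fib rfl hos.subm (preconn_S h) hos.base (fun x => isDeg_dpl _ _) hos.cV hos.tot
    (sc.pull KD.smap_snd_FF) (T.Cl.pull KD.smap_snd_FF sc cc) sb db hq
  have h2 := abs_J_ori hcl (FV.preconn_FF' h (by omega)) hos.tot hoF
    (F.pull Prod.snd c * F.pull Prod.fst b')
  have h3 := abs_J_dif (dif_cut hq) (hos.subm.clo_fibre q) (FV.clo_Cut h hq)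
    (FG.preconn_fib h (by omega) hq) (hos.fib q) hoC (om := c)
    (RR.Sm.cont (sc.mono fun y hy => (FG.smap_cut q).maps hy))
  rw [h2]
  have h4 : |J (n - k + n) (GT.FF S) (fun z => pb (ContinuousLinearMap.snd ℝ (Euc N) (Euc N) :
      Euc N × Euc N →ₗ[ℝ] Euc N) (w z) * F.pull Prod.fst (T.dp n oS) z)
      (F.pull Prod.snd c * F.pull Prod.fst b')| = _ := congrArg abs h1
  rw [h4, abs_mul, h3, abs_J_ori (GP.clo_S h.bl) (preconn_S h) hoS (ori_dp hoS)]

theorem subm_phi (h : GT.Bla G k) (hk : 1 ≤ k) (hdF : dF + k = 2 * n)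
    (hW : OR (GT.FF S) (FV.PVB h) W) (hr : k - 1 + 1 = Fintype.card ι * 2) :
    Subm (k - 1) dF (US G) (GT.FF S) (FV.phi G) := by
  have hU : Clo (k - 1 + dF) (US G) := SB.clo_US h (by omega)
  exact (SB.dif_US h).subm hU (SB.subm_Sph (FV.clo_FF' h hdF) (pfr hW hr))

theorem dif_fib (h : GT.Bla G k) (z₀ : Euc N × Euc N) :
    SB.Dif (US G ∩ FV.phi G ⁻¹' {z₀}) (Sph (GT.FF S) (FV.PVB h) ∩
      (Prod.fst : (Euc N × Euc N) × Euc N → Euc N × Euc N) ⁻¹' {z₀}) (FV.up G) FV.dn where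
  fw := ⟨fun z hz => (SB.dif_US h).fw.smooth z hz.1, fun z hz =>
    ⟨(SB.dif_US h).fw.maps hz.1, hz.2⟩⟩
  inv := ⟨fun z hz => (SB.dif_US h).inv.smooth z hz.1, fun z hz =>
    ⟨(SB.dif_US h).inv.maps hz.1, by
      have h1 := (SB.dif_US h).right z hz.1
      have h2 : FV.phi G (FV.dn z) = z.1 := congrArg Prod.fst h1
      show FV.phi G (FV.dn z) = z₀
      rw [h2]
      exact hz.2⟩⟩
  left z hz := (SB.dif_US h).left z hz.1
  right z hz := (SB.dif_US h).right z hz.1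

/-- a form of positive degree pulled back by a map which is constant on `X` -/
theorem pull_const_eqv {E E' : Type*} [NormedAddCommGroup E] [NormedSpace ℝ E]
    [FiniteDimensional ℝ E] [NormedAddCommGroup E'] [NormedSpace ℝ E'] [FiniteDimensional ℝ E']
    {X : Set E} {f : E → E'} {c : E'} (hf : ∀ z ∈ X, DifferentiableAt ℝ f z)
    (hc : ∀ z ∈ X, f z = c) {μ : E' → Ext E'} {i : ℕ} (hμ : Hom (i + 1) μ) :
    Eqv X (F.pull f μ) 0 := by
  refine (eqv_pull_of_eq (g := fun _ => c) μ hf (fun _ _ => differentiableAt_const c) hc).trans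
    (Eqv.of_eq fun z _ => ?_)
  rw [F.pull, fderiv_fun_const, Pi.zero_apply]
  refine ext_evA fun r => ?_
  ext v
  rw [evA_pb]
  rcases Nat.eq_zero_or_pos r with h0 | h0
  · subst h0
    have := hμ c 0 (by omega)
    simp [this]
  · have h1 : (fun i => ((0 : E →L[ℝ] E') : E →ₗ[ℝ] E') (v i)) = fun _ => 0 := by
      funext i; simp
    simp only [Pi.zero_apply, map_zero]
    rw [h1]
    exact (evA E' r (μ c)).map_coord_zero ⟨0, h0⟩ rfl

theorem preconn_fibre_phi (h : GT.Bla G k)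
    (hW : OR (GT.FF S) (FV.PVB h) W) (hr : k - 1 + 1 = Fintype.card ι * 2)
    {z₀ : Euc N × Euc N} (hz : z₀ ∈ GT.FF S) : IsPreconnected (US G ∩ FV.phi G ⁻¹' {z₀}) := by
  have hP : PField ({z₀} : Set (Euc N × Euc N)) (k - 1 + 1) (FV.PVB h) :=
    pfr (OR.mono (singleton_subset_iff.2 hz) hW) hr
  have h1 := preconn_Sph (P := FV.PVB h) (isCompact_singleton (x := z₀))
    isPreconnected_singleton hP (by omega)
  rw [Sph_point hz] at h1
  have hD := dif_fib h z₀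
  have h2 : US G ∩ FV.phi G ⁻¹' {z₀} = FV.dn '' (Sph (GT.FF S) (FV.PVB h) ∩
      (Prod.fst : (Euc N × Euc N) × Euc N → Euc N × Euc N) ⁻¹' {z₀}) := by
    ext y
    constructor
    · exact fun hy => ⟨FV.up G y, hD.fw.maps hy, hD.left y hy⟩
    · rintro ⟨z, hz', rfl⟩
      exact hD.inv.maps hz'
  rw [h2]
  exact h1.image _ fun z hz' => (hD.inv.smooth z hz').continuousAt.continuousWithinAt

/-- **the integral of `K(E^*x)` over one sphere of `V` is `± τ`** -/
theorem abs_J_KX_fib {h : GT.Bla G k} (D : XM h m W p x) {z₀ : Euc N × Euc N}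
    (hz : z₀ ∈ GT.FF S) {oW : Euc N × Euc N → Ext (Euc N × Euc N)}
    (hoW : Ori (k - 1) (US G ∩ FV.phi G ⁻¹' {z₀}) oW) :
    |J (k - 1) (US G ∩ FV.phi G ⁻¹' {z₀}) oW (K (F.pull (EE G) x))| = XF.tau ι := by
  have := XM.ne D
  have hk := D.hk
  have hkn := D.hkn
  have hdF := XM.eF D
  have hr : k - 1 + 1 = Fintype.card ι * 2 := by have := D.hι; omega
  obtain ⟨μ, sμ, dμ, hc⟩ := exists_kappa D
  have hS := subm_phi h (by omega) hdF D.hW hr
  have hcl := hS.clo_fibre z₀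
  have hS' := SB.subm_Sph (FV.clo_FF' h hdF) (pfr D.hW hr)
  have hcl' := hS'.clo_fibre z₀
  have hsub : US G ∩ FV.phi G ⁻¹' {z₀} ⊆ US G := inter_subset_left
  have hc' := hc.mono hsub
  have sK : Sm (US G) (K (F.pull (EE G) x)) := sm_KX D.sx
  have sU : Sm (US G) (kU G h W) := sm_kU h hdF D.hW
  have sφ : Sm (US G) (F.pull (FV.phi G) μ) := sμ.pull (KD.smap_phi h.bl)
  rw [SO.J_coh hcl hoW (sK.mono hsub) ((sU.add sφ).mono hsub) hc']
  have e1 : Eqv (US G ∩ FV.phi G ⁻¹' {z₀}) (F.pull (FV.phi G) μ) 0 := by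
    refine pull_const_eqv (c := z₀) (i := k - 2)
      (fun z hz => (KD.smap_phi h.bl).diff hz.1) (fun z hz => hz.2) ?_
    rwa [show k - 2 + 1 = k - 1 by omega]
  have e2 : Eqv (US G ∩ FV.phi G ⁻¹' {z₀}) (kU G h W + F.pull (FV.phi G) μ) (kU G h W) :=
    ((Eqv.refl _).add e1).trans (Eqv.of_eq fun z _ => by
      rw [Pi.add_apply, Pi.zero_apply, add_zero])
  rw [SO.J_eqv hcl e2]
  have hP : PField ({z₀} : Set (Euc N × Euc N)) (k - 1 + 1) (FV.PVB h) :=
    pfr (OR.mono (singleton_subset_iff.2 hz) D.hW) hr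
  have ho0 := (swp (SN.clo_point z₀) hP).ori (ori_oSB (SN.clo_point z₀) (SN.ori_point z₀)
    (fun _ => T.isDeg_one) (OR.mono (singleton_subset_iff.2 hz) D.hW) hr)
  rw [Sph_point hz, Nat.add_zero] at ho0
  have h3 := abs_J_ang_fib D.hW hr hz ho0
  rw [← h3]
  refine abs_J_dif (dif_fib h z₀) hcl hcl' (preconn_fibre_phi h D.hW hr hz) hoW
    ho0 ?_
  exact RR.Sm.cont ((sm_ang (FV.sub_FF' h hdF) D.hW).mono inter_subset_left)

/-- **THE VALUE**: `|∫_S x^m| = τ |∫_{C_q} x^(m-1)|` -/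
theorem abs_J_S {h : GT.Bla G k} (D : XM h m W p x) (hoS : Ori n S oS) (hq : q ∈ S)
    (hoC : Ori (n - k) (GP.Cut S q) oC) :
    |J n S oS (x ^ m)| = XF.tau ι * |J (n - k) (GP.Cut S q) oC (x ^ (m - 1))| := by
  have hk := D.hk
  have hkn := D.hkn
  have hm := D.hm
  obtain ⟨m', rfl⟩ : ∃ m', m = m' + 1 := ⟨m - 1, by omega⟩
  have hdF := XM.eF D
  have hd : 2 * n - 1 + 1 = 2 * n := by omega
  obtain ⟨w, -, -, -, hos⟩ := SB.exists_osubm_F h hk hkn (ori_dp hoS) (fun x => isDeg_dpl _ _)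
  have hoF := hos.tot
  rw [show n - k + n = 2 * n - k by omega] at hoF
  obtain ⟨oV, -, -, hos'⟩ := SB.exists_osubm_phi h hk hkn hdF (ori_dp hoF)
    (fun x => isDeg_dpl _ _)
  have hoU := hos'.tot
  rw [show k - 1 + (2 * n - k) = 2 * n - 1 by omega] at hoU
  have dm : Hom n (x ^ (m' + 1)) := by
    have := KD.hom_pow' D.dx (m' + 1)
    rwa [← D.hn] at this
  have h1 := sq_eq h.bl (by omega) D.hke D.hn (by omega) hd hoU hoS D.sx D.cx D.dx
  have sb : Sm (GT.FF S) (F.pull Prod.snd (x ^ m') * F.pull Prod.fst (x ^ (m' + 1))) :=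
    ((RR.Sm.pow D.sx m').pull KD.smap_snd_FF).mul ((RR.Sm.pow D.sx (m' + 1)).pull KD.smap_fst_FF)
  have db : Hom (2 * n - k) (F.pull Prod.snd (x ^ m') * F.pull Prod.fst (x ^ (m' + 1))) := by
    have e : 2 * n - k = k * m' + n := by
      have := D.hn
      rw [mul_add, mul_one] at this
      omega
    rw [e]
    exact fun z => isDeg_mul ((KD.hom_pow' D.dx m' _).pb _) ((dm _).pb _)
  have h2 := abs_J_KX D hdF hd hoU hoF sb db
  have h3 := abs_J_FF h hk hkn hq hdF hoF hoS (RR.Sm.pow D.sx m')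
    (T.Cl.pow D.sx D.cx m') (RR.Sm.pow D.sx (m' + 1)) dm hoC
  rw [h1, h3] at h2
  have hne : |J n S oS (x ^ (m' + 1))| ≠ 0 := abs_ne_zero.2 (D.J_ne hoS)
  rw [← sq_abs, sq, ← mul_assoc] at h2
  exact mul_right_cancel₀ hne h2

end Crest.Agent.R208.JV
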