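import Crest.Agent.R208.CQ3
import Crest.Agent.R208.JV7
import Crest.Agent.R208.CM6b

/-! Row 208, block Q (helper423), part CQ4: **(n0)** over the manifold of geodesics: `2 ∫_c x₀ ∈ τ ℤ`
for every thin `k`-chain, when the contraction exists (586's `QT.n0` with all geometric inputs), and
the fields `hβ`, `hn`, `hα` of the endgame of `(8, 16)` without any integrality hypothesis. -/

set_option autoImplicit false
set_option linter.unusedSectionVars false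
set_option linter.unusedVariables false

open MeasureTheory Set Filter Topology Module
open scoped ContDiff RealInnerProductSpace
open Crest.GeometryTopology.Submanifold
open Crest.Agent.R241.DDefs
open Crest.Agent.R241.D2
open Crest.Agent.R208.F Crest.Agent.R208.FI
open Crest.Agent.R208.CW (SMap)
open Crest.Agent.R208.T (Sm Cl Eqv Coh eqv_iff Hom OR eR Sph)
open Crest.Agent.R208.L (US)
open Crest.Agent.R208.LB (al)
open Crest.Agent.R208.CM (gf MM jj Quo Emb Curv)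
open Crest.Agent.R208.EW (cR)
open Crest.Agent.R208.EP (NLp WNp CPk)
open Crest.Agent.R208.FG (OSubm)
open Crest.Agent.R208.SO (CF2)
open Crest.Agent.R208.SB (OddB)

noncomputable section

namespace Crest.Agent.R208.CQ

variable {n N k m : ℕ} {κ : ℝ} {S : Set (Euc N)} {G : Geo n N κ S}
  {ι : Type} [Fintype ι] [DecidableEq ι] {W : Euc N × Euc N → (ι × Fin 2 → Fin N) → ℝ}
  {p₀ : Euc N} {x : Euc N → Ext (Euc N)}
  {ι₁ : Type} [Fintype ι₁] [DecidableEq ι₁] [Nonempty ι₁]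

/-- the oriented submersion `F → S` with its values -/
theorem exists_V {h : GT.Bla G k} (D : T.XM h m W p₀ x) :
    ∃ (oS : Euc N → Ext (Euc N)) (oV : Euc N × Euc N → Ext (Euc N × Euc N)),
      OSubm (n - k) n (GT.FF S) S Prod.fst oV oS ∧ (∀ z, IsDeg (n - k) (oV z)) ∧
      J (n - k) (GT.FF S ∩ Prod.fst ⁻¹' {p₀}) oV (F.pull Prod.snd x ^ (m - 1)) ≠ 0 ∧
      |J n S oS (x ^ m)| = XF.tau ι *
        |J (n - k) (GT.FF S ∩ Prod.fst ⁻¹' {p₀}) oV (F.pull Prod.snd x ^ (m - 1))| := by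
  have hk := D.hk
  have hkn := D.hkn
  obtain ⟨oS, hoS, -, dS⟩ := GP.exists_ori h.bl h.ty hk
  obtain ⟨oV, dV, hO⟩ := FG.exists_osubm h hk hkn hoS dS
  obtain ⟨oC, hoC⟩ : ∃ oC, Ori (n - k) (GP.Cut S p₀) oC := by
    obtain ⟨oC, h1, -⟩ := T.exists_ori_Cut h hk hkn D.hp
    exact ⟨oC, h1⟩
  have hJ := JV.abs_J_S D hoS D.hp hoC
  have hc : ContinuousOn (x ^ (m - 1)) (GP.Cut S p₀) :=
    RR.Sm.cont ((D.sx.pow (m - 1)).mono fun y hy => (FG.smap_cut p₀).maps hy)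
  have h3 := JV.abs_J_dif (JV.dif_cut D.hp) (hO.subm.clo_fibre p₀) (FV.clo_Cut h D.hp)
    (FG.preconn_fib h (by omega) D.hp) (hO.fib p₀) hoC hc
  rw [T.pull_pow'] at h3
  rw [← h3] at hJ
  refine ⟨oS, oV, hO, dV, fun h0 => ?_, hJ⟩
  rw [h0, abs_zero, mul_zero, abs_eq_zero] at hJ
  exact D.J_ne hoS hJ

variable {m' : ℕ} {g : Euc N × Euc N → Fin m' → ℂ} {Fc : MM m' → Ext (MM m')}
  {pt : Type} [Fintype pt] [DecidableEq pt]
  {P' : MM m' → EuclideanSpace ℝ pt →L[ℝ] EuclideanSpace ℝ pt}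
  {oP' : MM m' → Ext (EuclideanSpace ℝ pt)} {e y x0 : MM m' → Ext (MM m')}
  {fY : MM m' × EuclideanSpace ℝ pt → Euc N} {r : ℕ} {l : ℝ}

/-- **(n0) over the manifold of geodesics** -/
theorem n0_B {h : GT.Bla G k} (D : T.XM h m W p₀ x) (hper : HS.Per G)
    (hg : Emb (US G) (gf G) g) (hc : Curv (US G) g (al (N := N)) Fc)
    (ob : OddB ι₁ (Quo (US G) g) r P' oP') (hrk : r + 2 = k)
    (he : CF2 (Quo (US G) g) 2 e) (hy : CF2 (Quo (US G) g) k y)
    (sf : SMap (Sph (Quo (US G) g) P') S fY)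
    (h3 : Coh (Sph (Quo (US G) g) P') (F.pull fY x)
      (F.pull Prod.fst y + l • (F.pull Prod.fst e * OddB.eV ι₁ ob.hr P' oP')))
    (c : CH.Chn (Quo (US G) g) k) : ∃ z : ℤ, 2 * c.I y = XF.tau ι * z := by
  have hk := D.hk
  have hkn := D.hkn
  have hB := ZG.clo_B h hper hg
  have hBc := ZG.preconn_B h (by omega) hg
  have hne : (Quo (US G) g).Nonempty := by
    obtain ⟨z, hz⟩ := T.nonempty_UST h D.hp
    exact ⟨jj g z, z, hz, rfl⟩
  obtain ⟨oS, oV, hO, dV, hJ0, hJ⟩ := exists_V D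
  have hr : 0 < r := by
    have h1 := ob.hr
    have h2 : 0 < Fintype.card ι₁ := Fintype.card_pos
    omega
  have hYc : IsPreconnected (Sph (Quo (US G) g) P') :=
    JV.preconn_Sph hB.compact hBc ob.pf (by omega)
  obtain ⟨hoB, -, -⟩ := CM.J_US h.bl hper hg hc
  have hFd : Hom (2 * (n - 1)) (fun y => Fc y ^ (n - 1)) := T.Hom.pow hc.hom (n - 1)
  have hEC := EW.ec_cfr hB.sub (EW.idF_of_pfield ob.pf) r
  have hp : CF2 (Quo (US G) g) (2 * r) ((VX.nE ι₁ ^ 2) • cR r P') :=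
    ⟨(hEC.smul _).sm, (hEC.smul _).cl, T.Hom.smul _ (EW.hom_cfr r), even_two_mul r⟩
  have h2 : Coh (Sph (Quo (US G) g) P') (OddB.eV ι₁ ob.hr P' oP' * OddB.eV ι₁ ob.hr P' oP')
      (F.pull Prod.fst ((VX.nE ι₁ ^ 2) • cR r P')) := by
    rw [T.pull_smul']
    exact ob.sq_eV hB.sub
  exact QT.n0 intM D hO dV hJ0 hJ ob hrk hB hBc hne hYc hoB hFd he hy hp h2 sf h3 c

/-- **block Q, final form**: the fields `hβ`, `hn`, `hα` of the endgame of `(8, 16)`. -/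
theorem fields8 {α β₁ ν : ℝ} {h : GT.Bla G 8} (D : T.XM h 2 W p₀ x) (hper : HS.Per G)
    (hg : Emb (US G) (gf G) g) (hc : Curv (US G) g (al (N := N)) Fc)
    (ob : OddB ι₁ (Quo (US G) g) 6 P' oP')
    (he : CF2 (Quo (US G) g) 2 e) (hy : CF2 (Quo (US G) g) 8 x0)
    (hx0 : Coh (US G) (F.pull (jj g) x0) (F.pull Prod.fst x))
    (hν : |ν| * XF.tau ι = 12 * (2 * Real.pi) ^ 4)
    (hp3 : Coh (Quo (US G) g) (cR 6 P') (α • Fc ^ 6 + β₁ • (x0 * Fc ^ 2)))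
    (sf : SMap (Sph (Quo (US G) g) P') S fY)
    (h3 : Coh (Sph (Quo (US G) g) P') (F.pull fY x)
      (F.pull Prod.fst x0 + l • (F.pull Prod.fst e * OddB.eV ι₁ ob.hr P' oP'))) :
    ∃ n₀ : ℝ, (∃ n : ℤ, 12 * β₁ / ν = n) ∧ (∃ n : ℤ, 2 * n₀ = n) ∧
      ∃ n : ℤ, α + 12 * β₁ / ν * n₀ = n :=
  fields' D hper hg hc ob.pf ob.sy hy.sm hy.cl hy.hom hx0 hν hp3
    (n0_B D hper hg hc ob (by norm_num) he hy sf h3)

end Crest.Agent.R208.CQ
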