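import Crest.Agent.R208.FI2b

/-! Row 208, block FG (helper586), part FG1: **fibre products** of submanifolds. -/

set_option autoImplicit false
set_option linter.unusedSectionVars false

open Set Filter Topology Module
open scoped ContDiff
open Crest.Agent.R208.F Crest.Agent.R208.FI

noncomputable section

namespace Crest.Agent.R208.FG

variable {E : Type*} [NormedAddCommGroup E] [NormedSpace ℝ E] [FiniteDimensional ℝ E]
  {E' : Type*} [NormedAddCommGroup E'] [NormedSpace ℝ E'] [FiniteDimensional ℝ E']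
  {B : Type*} [NormedAddCommGroup B] [NormedSpace ℝ B] [FiniteDimensional ℝ B]

theorem tan_inter {X U : Set E} (hU : IsOpen U) {x : E} (hx : x ∈ U) :
    Tan (X ∩ U) x = Tan X x := by
  refine le_antisymm (Tan_mono_of_subset inter_subset_left x) ?_
  refine Submodule.span_le.2 ?_
  rintro v ⟨γ, h0, hγ, hS⟩
  refine Submodule.subset_span ⟨γ, h0, hγ, ?_⟩
  have h1 : ∀ᶠ t in 𝓝 (0 : ℝ), γ t ∈ U :=
    hγ.continuousAt.eventually (by rw [h0]; exact hU.mem_nhds hx)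
  filter_upwards [hS, h1] with t h2 h3 using ⟨h2, h3⟩

theorem chart_of_inter {n : ℕ} {X U : Set E} (hU : IsOpen U) {f : Eu n → E} {V : Set (Eu n)}
    (h : Chart n (X ∩ U) f V) : Chart n X f V where
  isOpen := h.isOpen
  contDiffOn := h.contDiffOn
  injOn := h.injOn
  inj := h.inj
  image_open := by
    intro W hW hWo
    obtain ⟨O, hO, h1⟩ := h.image_open W hW hWo
    exact ⟨U ∩ O, hU.inter hO, by rw [h1, inter_assoc]⟩

theorem sub_of_local {n : ℕ} {X : Set E}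
    (h : ∀ x ∈ X, ∃ U : Set E, IsOpen U ∧ x ∈ U ∧ Sub n (X ∩ U)) : Sub n X := by
  intro x hx
  obtain ⟨U, hU, hxU, hS⟩ := h x hx
  obtain ⟨f, V, hf, hxf⟩ := hS x ⟨hx, hxU⟩
  exact ⟨f, V, chart_of_inter hU hf, hxf⟩

/-- the fibre product of `f : X → Y` and `f' : X' → Y`. -/
def FP (X : Set E) (X' : Set E') (f : E → B) (f' : E' → B) : Set (E × E') :=
  {z | z.1 ∈ X ∧ z.2 ∈ X' ∧ f z.1 = f' z.2}

/-- the data of a fibre product (`f` submersive) -/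
structure FPD (a a' b : ℕ) (X : Set E) (X' : Set E') (Y : Set B) (f : E → B) (f' : E' → B) :
    Prop where
  hX : Sub a X
  hX' : Sub a' X'
  hY : Sub b Y
  hf : ∀ x ∈ X, ContDiffAt ℝ ∞ f x
  hf' : ∀ x ∈ X', ContDiffAt ℝ ∞ f' x
  hm : MapsTo f X Y
  hm' : MapsTo f' X' Y
  hs : ∀ x ∈ X, ∀ v ∈ Tan Y (f x), ∃ u ∈ Tan X x, fderiv ℝ f x u = v

variable {a a' b : ℕ} {X : Set E} {X' : Set E'} {Y : Set B} {f : E → B} {f' : E' → B}

/-- local equations of the fibre product -/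
theorem FPD.local (h : FPD a a' b X X' Y f f') {z : E × E'} (hz : z ∈ FP X X' f f') :
    ∃ (U : Set (E × E')) (g : E × E' → Eu b), IsOpen U ∧ z ∈ U ∧
      (∀ w ∈ (X ×ˢ X') ∩ U, ContDiffAt ℝ ∞ g w) ∧
      FP X X' f f' ∩ U = {w ∈ (X ×ˢ X') ∩ U | g w = 0} ∧
      (∀ w ∈ (X ×ˢ X') ∩ U, g w = 0 →
        ∀ y, ∃ v ∈ Tan ((X ×ˢ X') ∩ U) w, fderiv ℝ g w v = y) ∧
      (∀ w ∈ FP X X' f f' ∩ U, ∀ u ∈ Tan X w.1, ∀ u' ∈ Tan X' w.2,
        (fderiv ℝ g w (u, u') = 0 ↔ fderiv ℝ f w.1 u = fderiv ℝ f' w.2 u')) := by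
  obtain ⟨hz1, hz2, hz3⟩ := hz
  obtain ⟨γ, W, O, ℓ, hL, hO⟩ := h.hY.exists_loc (h.hm hz1)
  have hcf : ContinuousAt f z.1 := (h.hf _ hz1).continuousAt
  have hcf' : ContinuousAt f' z.2 := (h.hf' _ hz2).continuousAt
  have hO' : f' z.2 ∈ O := by rw [← hz3]; exact hO
  obtain ⟨U1, hU1s, hU1, hzU1⟩ := _root_.mem_nhds_iff.1 (hcf (hL.oO.mem_nhds hO))
  obtain ⟨U2, hU2s, hU2, hzU2⟩ := _root_.mem_nhds_iff.1 (hcf' (hL.oO.mem_nhds hO'))
  set U : Set (E × E') := U1 ×ˢ U2 with hUdef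
  have hU : IsOpen U := hU1.prod hU2
  set g : E × E' → Eu b := fun w => ℓ (f w.1) - ℓ (f' w.2) with hg
  have hgd : ∀ w ∈ (X ×ˢ X') ∩ U, ContDiffAt ℝ ∞ g w := by
    rintro w ⟨⟨hw1, hw2⟩, hwU⟩
    have h1 : ContDiffAt ℝ ∞ (fun w : E × E' => ℓ (f w.1)) w :=
      ContDiffAt.comp w (hL.lC' (hU1s hwU.1)) ((h.hf _ hw1).comp w contDiffAt_fst)
    have h2 : ContDiffAt ℝ ∞ (fun w : E × E' => ℓ (f' w.2)) w :=
      ContDiffAt.comp w (hL.lC' (hU2s hwU.2)) ((h.hf' _ hw2).comp w contDiffAt_snd)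
    exact h1.sub h2
  have hfd : ∀ w ∈ (X ×ˢ X') ∩ U, ∀ u u', fderiv ℝ g w (u, u') =
      fderiv ℝ ℓ (f w.1) (fderiv ℝ f w.1 u) - fderiv ℝ ℓ (f' w.2) (fderiv ℝ f' w.2 u') := by
    rintro w ⟨⟨hw1, hw2⟩, hwU⟩ u u'
    have e1 : HasFDerivAt (fun w : E × E' => f w.1) ((fderiv ℝ f w.1).comp
        (ContinuousLinearMap.fst ℝ E E')) w :=
      ((h.hf _ hw1).differentiableAt (by simp)).hasFDerivAt.comp w hasFDerivAt_fst
    have e2 : HasFDerivAt (fun w : E × E' => f' w.2) ((fderiv ℝ f' w.2).comp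
        (ContinuousLinearMap.snd ℝ E E')) w :=
      ((h.hf' _ hw2).differentiableAt (by simp)).hasFDerivAt.comp w hasFDerivAt_snd
    have e3 : HasFDerivAt (fun w : E × E' => ℓ (f w.1)) ((fderiv ℝ ℓ (f w.1)).comp
        ((fderiv ℝ f w.1).comp (ContinuousLinearMap.fst ℝ E E'))) w :=
      ((hL.lC' (hU1s hwU.1)).differentiableAt (by simp)).hasFDerivAt.comp w e1
    have e4 : HasFDerivAt (fun w : E × E' => ℓ (f' w.2)) ((fderiv ℝ ℓ (f' w.2)).comp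
        ((fderiv ℝ f' w.2).comp (ContinuousLinearMap.snd ℝ E E'))) w :=
      ((hL.lC' (hU2s hwU.2)).differentiableAt (by simp)).hasFDerivAt.comp w e2
    have e5 : HasFDerivAt g _ w := e3.sub e4
    rw [e5.fderiv]
    rfl
  -- `Dℓ` on the tangent space of `Y`
  have hYinv : ∀ y ∈ Y ∩ O, ∀ t : Eu b, ∃ v ∈ Tan Y y, fderiv ℝ ℓ y v = t := by
    rintro y ⟨hy, hyO⟩ t
    have e0 := hL.right_inv hy hyO
    have hw : ℓ y ∈ W := hL.maps y hyO
    have h1 := hL.range_eq_Tan hw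
    rw [e0] at h1
    refine ⟨fderiv ℝ γ (ℓ y) t, ?_, ?_⟩
    · rw [← h1]; exact ⟨t, rfl⟩
    · have hγ : HasFDerivAt γ (fderiv ℝ γ (ℓ y)) (ℓ y) :=
        ((hL.fC' hw).differentiableAt (by simp)).hasFDerivAt
      have hℓ : HasFDerivAt ℓ (fderiv ℝ ℓ y) (γ (ℓ y)) := by
        rw [e0]; exact ((hL.lC' hyO).differentiableAt (by simp)).hasFDerivAt
      have h2 := hℓ.comp (ℓ y) hγ
      have h3 : HasFDerivAt (ℓ ∘ γ) (ContinuousLinearMap.id ℝ (Eu b)) (ℓ y) := by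
        refine (hasFDerivAt_id (ℓ y)).congr_of_eventuallyEq ?_
        filter_upwards [hL.oW.mem_nhds hw] with w hw using hL.inv w hw
      have h4 := congrArg (fun L => L t) (h2.unique h3)
      simpa using h4
  have hYinj : ∀ y ∈ Y ∩ O, ∀ v ∈ Tan Y y, fderiv ℝ ℓ y v = 0 → v = 0 := by
    rintro y ⟨hy, hyO⟩ v hv hv0
    have e0 := hL.right_inv hy hyO
    have hw : ℓ y ∈ W := hL.maps y hyO
    have h1 := hL.range_eq_Tan hw
    rw [e0] at h1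
    rw [← h1] at hv
    obtain ⟨t, rfl⟩ := hv
    have hγ : HasFDerivAt γ (fderiv ℝ γ (ℓ y)) (ℓ y) :=
      ((hL.fC' hw).differentiableAt (by simp)).hasFDerivAt
    have hℓ : HasFDerivAt ℓ (fderiv ℝ ℓ y) (γ (ℓ y)) := by
      rw [e0]; exact ((hL.lC' hyO).differentiableAt (by simp)).hasFDerivAt
    have h2 := hℓ.comp (ℓ y) hγ
    have h3 : HasFDerivAt (ℓ ∘ γ) (ContinuousLinearMap.id ℝ (Eu b)) (ℓ y) := by
      refine (hasFDerivAt_id (ℓ y)).congr_of_eventuallyEq ?_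
      filter_upwards [hL.oW.mem_nhds hw] with w hw using hL.inv w hw
    have h4 := congrArg (fun L => L t) (h2.unique h3)
    have h5 : t = 0 := by
      have h6 : fderiv ℝ ℓ y (fderiv ℝ γ (ℓ y) t) = t := by simpa using h4
      rw [← h6]; exact hv0
    rw [h5]; exact map_zero _
  have htan : ∀ w ∈ (X ×ˢ X') ∩ U, Tan ((X ×ˢ X') ∩ U) w = (Tan X w.1).prod (Tan X' w.2) := by
    rintro w ⟨⟨hw1, hw2⟩, hwU⟩
    rw [tan_inter hU hwU]
    exact Tan_prod h.hX h.hX' hw1 hw2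
  refine ⟨U, g, hU, ⟨hzU1, hzU2⟩, hgd, ?_, ?_, ?_⟩
  · ext w
    constructor
    · rintro ⟨⟨h1, h2, h3⟩, h4⟩
      exact ⟨⟨⟨h1, h2⟩, h4⟩, by rw [hg]; simp only; rw [h3, sub_self]⟩
    · rintro ⟨⟨⟨h1, h2⟩, h4⟩, h5⟩
      refine ⟨⟨h1, h2, ?_⟩, h4⟩
      have h6 : ℓ (f w.1) = ℓ (f' w.2) := sub_eq_zero.1 h5
      rw [← hL.right_inv (h.hm h1) (hU1s h4.1), ← hL.right_inv (h.hm' h2) (hU2s h4.2), h6]
  · intro w hw _ y
    obtain ⟨v, hv, hvy⟩ := hYinv (f w.1) ⟨h.hm hw.1.1, hU1s hw.2.1⟩ y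
    obtain ⟨u, hu, huv⟩ := h.hs _ hw.1.1 v hv
    refine ⟨(u, 0), ?_, ?_⟩
    · rw [htan w hw]; exact ⟨hu, Submodule.zero_mem _⟩
    · rw [hfd w hw, huv, hvy]
      simp
  · rintro w ⟨⟨h1, h2, h3⟩, h4⟩ u hu u' hu'
    rw [hfd w ⟨⟨h1, h2⟩, h4⟩, ← h3, ← map_sub]
    have hm1 : fderiv ℝ f w.1 u ∈ Tan Y (f w.1) :=
      fderiv_mapsTo_Tan ((h.hf _ h1).differentiableAt (by simp)) h.hm hu
    have hm2 : fderiv ℝ f' w.2 u' ∈ Tan Y (f w.1) := by
      rw [h3]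
      exact fderiv_mapsTo_Tan ((h.hf' _ h2).differentiableAt (by simp)) h.hm' hu'
    constructor
    · intro h5
      exact sub_eq_zero.1 (hYinj (f w.1) ⟨h.hm h1, hU1s h4.1⟩ _ (Submodule.sub_mem _ hm1 hm2) h5)
    · intro h5
      rw [h5, sub_self, map_zero]

/-- **the fibre product is a submanifold** -/
theorem FPD.sub (h : FPD a a' b X X' Y f f') : Sub (a + a' - b) (FP X X' f f') := by
  refine sub_of_local fun z hz => ?_
  obtain ⟨U, g, hU, hzU, h1, h2, h3, -⟩ := h.local hz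
  refine ⟨U, hU, hzU, ?_⟩
  rw [h2]
  have h4 := (((h.hX.prod h.hX').inter_open hU).level h1 h3)
  rwa [finrank_euclideanSpace_fin] at h4

/-- tangent spaces of the fibre product -/
theorem FPD.mem_Tan (h : FPD a a' b X X' Y f f') {z : E × E'} (hz : z ∈ FP X X' f f')
    {u : E} {u' : E'} : (u, u') ∈ Tan (FP X X' f f') z ↔
      u ∈ Tan X z.1 ∧ u' ∈ Tan X' z.2 ∧ fderiv ℝ f z.1 u = fderiv ℝ f' z.2 u' := by
  obtain ⟨U, g, hU, hzU, h1, h2, h3, h4⟩ := h.local hz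
  have hzz : z ∈ {w ∈ (X ×ˢ X') ∩ U | g w = 0} := by rw [← h2]; exact ⟨hz, hzU⟩
  have h5 := ((h.hX.prod h.hX').inter_open hU).Tan_level h1 h3 hzz.1 hzz.2
  rw [← h2, tan_inter hU hzU, tan_inter hU hzU, Tan_prod h.hX h.hX' hz.1 hz.2.1] at h5
  rw [h5]
  constructor
  · rintro ⟨⟨h6, h7⟩, h8⟩
    exact ⟨h6, h7, (h4 z ⟨hz, hzU⟩ u h6 u' h7).1 h8⟩
  · rintro ⟨h6, h7, h8⟩
    exact ⟨⟨h6, h7⟩, (h4 z ⟨hz, hzU⟩ u h6 u' h7).2 h8⟩

theorem FPD.compact (h : FPD a a' b X X' Y f f') (hc : IsCompact X) (hc' : IsCompact X') :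
    IsCompact (FP X X' f f') := by
  have h1 : ContinuousOn (fun z : E × E' => f z.1) (X ×ˢ X') := fun z hz =>
    ((h.hf _ hz.1).continuousAt.comp continuousAt_fst).continuousWithinAt
  have h2 : ContinuousOn (fun z : E × E' => f' z.2) (X ×ˢ X') := fun z hz =>
    ((h.hf' _ hz.2).continuousAt.comp continuousAt_snd).continuousWithinAt
  have h3 : ContinuousOn (fun z : E × E' => f z.1 - f' z.2) (X ×ˢ X') := h1.sub h2
  have hK : IsCompact (X ×ˢ X') := hc.prod hc'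
  have h4 := h3.preimage_isClosed_of_isClosed hK.isClosed (isClosed_singleton (x := (0 : B)))
  have h5 : FP X X' f f' = (X ×ˢ X') ∩ (fun z : E × E' => f z.1 - f' z.2) ⁻¹' {0} := by
    ext z
    constructor
    · rintro ⟨h6, h7, h8⟩
      exact ⟨⟨h6, h7⟩, by simp [h8]⟩
    · rintro ⟨⟨h6, h7⟩, h8⟩
      exact ⟨h6, h7, sub_eq_zero.1 (by simpa using h8)⟩
  rw [h5]
  exact hK.of_isClosed_subset h4 inter_subset_left

theorem FPD.clo (h : FPD a a' b X X' Y f f') (hc : IsCompact X) (hc' : IsCompact X') :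
    Clo (a + a' - b) (FP X X' f f') := h.sub.clo (h.compact hc hc')

end Crest.Agent.R208.FG
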