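import Crest.Agent.R208.QO2
import Crest.Agent.R208.RS1
import Crest.Agent.R208.FG1
import Crest.Agent.R208.FV5

/-! Row 208, block Q (helper198).  QI1 = (Q-in): a family of unit tangent vectors of dimension
`D < k` is contracted, pointwise, to one unit tangent vector `z₀`. -/

set_option autoImplicit false
set_option linter.unusedSectionVars false

open MeasureTheory Set Filter Topology Module
open scoped ContDiff RealInnerProductSpace
open Crest.GeometryTopology.Submanifold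
open Crest.Agent.R241.DDefs
open Crest.Agent.R241.D2
open Crest.Agent.R208.F Crest.Agent.R208.FI
open Crest.Agent.R208.L (US)
open Crest.Agent.R208.QO

noncomputable section

namespace Crest.Agent.R208.QI

variable {n N k D : ℕ} {κ : ℝ} {S : Set (Euc N)} {G : Geo n N κ S}
  {E' : Type*} [NormedAddCommGroup E'] [NormedSpace ℝ E'] [FiniteDimensional ℝ E']

/-- **a generic point is at distance `< π` from a `D`-dimensional family of points, `D < k`** -/
theorem exists_near (h : GT.Bla G k) {W : Set E'} (hW : Sub D W) {g : E' → Euc N}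
    (hg : ∀ w ∈ W, ContDiffAt ℝ ∞ g w) (hgS : ∀ w ∈ W, g w ∈ S) (hD : D < k) :
    ∃ q ∈ S, ∀ w ∈ W, intrinsicDist S q (g w) < Real.pi := by
  have hkn := h.ty.le
  have hS := FV.sub_S h.bl
  have hdat : FG.FPD ((n - k) + n) D n (GT.FF S) W S Prod.fst g :=
    { hX := FV.sub_FF' h (by omega)
      hX' := hW
      hY := hS
      hf := fun _ _ => contDiffAt_fst
      hf' := hg
      hm := fun z hz => hz.1
      hm' := hgS
      hs := (FV.subm_fst h).sub }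
  obtain ⟨q, hq, hqn⟩ := exists_missed (S := S) (f := fun z : (Euc N × Euc N) × E' => z.1.2) hS
    h.bl.conn.nonempty hdat.sub (fun z _ => by fun_prop) (by omega)
  refine ⟨q, hq, fun w hw => lt_of_le_of_ne (h.bl.dist_le q hq _ (hgS w hw)) fun he => hqn ?_⟩
  have h1 : (q, g w) ∈ GT.FF S := ⟨hq, hgS w hw, he⟩
  exact ⟨((g w, q), w), ⟨GT.FF_symm h1, hw, rfl⟩, rfl⟩

/-- a unit vector opposite to no member of a family of dimension `D < n - 1` -/
theorem exists_unit (G : Geo n N κ S) {q : Euc N} (hq : q ∈ S) {W : Set E'} (hW : Sub D W)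
    {u : E' → Euc N} (hu : ∀ w ∈ W, ContDiffAt ℝ ∞ u w) (hD : D + 1 < n) :
    ∃ e ∈ G.T q, ‖e‖ = 1 ∧ ∀ w ∈ W, u w + e ≠ 0 := by
  obtain ⟨b, hb⟩ := exists_frame G hq
  obtain ⟨L, hL⟩ := b.toLinearMap.exists_leftInverse_of_injective
    (LinearMap.ker_eq_bot.2 b.injective)
  set Lc : Euc N →L[ℝ] Euc n := LinearMap.toContinuousLinearMap L with hLc
  have hLb : ∀ a, Lc (b a) = a := fun a => LinearMap.congr_fun hL a
  have hX : Sub (D + 1) (W ×ˢ (univ : Set ℝ)) :=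
    hW.prod (sub_open (n := 1) (finrank_self ℝ) isOpen_univ)
  have hne : ({0}ᶜ : Set (Euc n)).Nonempty := by
    have : Nontrivial (Euc n) := by
      apply Module.nontrivial_of_finrank_pos (R := ℝ)
      rw [finrank_euclideanSpace_fin]; omega
    exact nonempty_compl_of_nontrivial 0
  obtain ⟨a, ha0, ha⟩ := exists_notMem (f := fun y : E' × ℝ => -(y.2 • Lc (u y.1))) hX
    Subset.rfl (fun y hy => by
      have b1 : ContDiffAt ℝ ∞ (fun y : E' × ℝ => u y.1) y :=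
        ContDiffAt.comp (g := u) y (hu _ hy.1) contDiffAt_fst
      have b2 : ContDiffAt ℝ ∞ (fun y : E' × ℝ => Lc (u y.1)) y :=
        Lc.contDiff.contDiffAt.comp y b1
      exact ((contDiffAt_snd.smul b2).neg).of_le (by exact_mod_cast le_top))
    (by rw [finrank_euclideanSpace_fin]; exact hD) isOpen_compl_singleton hne
  have ha0' : b a ≠ 0 := fun h0 => ha0 (by
    have := hLb a
    rw [h0, map_zero] at this
    exact this.symm)
  refine ⟨nrm (b a), (G.T q).smul_mem _ (frame_mem hb a), norm_nrm ha0', fun w hw h0 => ?_⟩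
  refine ha ⟨(w, ‖b a‖), ⟨hw, mem_univ _⟩, ?_⟩
  change -(‖b a‖ • Lc (u w)) = a
  have e1 : u w = -nrm (b a) := eq_neg_of_add_eq_zero_left h0
  rw [e1, nrm, map_neg, smul_neg, neg_neg, map_smul, smul_smul,
    mul_inv_cancel₀ (norm_ne_zero_iff.2 ha0'), one_smul, hLb]

/-- radial geodesics from a point `q`, away from the cut locus of `q` -/
theorem exists_rad (h : GT.Bla G k) {q : Euc N} (hq : q ∈ S) :
    ∃ Γ : Euc N → Euc N × Euc N, (∀ x, (Γ x).1 = q) ∧ ∀ x ∈ S ∩ (GP.Cut S q)ᶜ, Rad G Γ x := by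
  obtain ⟨sg, s1, s2, -, -⟩ := RS.exists_sg h.bl
  refine ⟨fun x => (q, sg q x), fun _ => rfl, fun x hx => ?_⟩
  have hlt : intrinsicDist S q x < Real.pi :=
    lt_of_le_of_ne (h.bl.dist_le q hq x hx.1) fun he => hx.2 ⟨hx.1, he⟩
  obtain ⟨a1, a2, a3⟩ := s1 q hq x hx.1
  refine ⟨contDiffAt_const.prodMk ?_, ⟨hq, a1⟩, a3⟩
  exact ContDiffAt.comp (g := fun p : Euc N × Euc N => sg p.1 p.2)
    (f := fun y : Euc N => (q, y)) x (s2 q hq x hx.1 hlt) (contDiffAt_const.prodMk contDiffAt_id)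

/-- **(Q-in)** -/
theorem q_in (h : GT.Bla G k) {W : Set E'} (hW : Sub D W) {f : E' → Euc N × Euc N}
    (hf : ∀ w ∈ W, ContDiffAt ℝ ∞ f w) (hfU : ∀ w ∈ W, f w ∈ US G) (hD : D < k)
    (hD' : D + 1 < n) :
    ∃ q ∈ S, ∃ z₀ ∈ US G, z₀.1 = q ∧
    ∃ (U : Set (Euc N × Euc N)) (R : (Euc N × Euc N) × ℝ → Euc N × Euc N),
      IsOpen U ∧ f '' W ⊆ U ∧
      (∀ z ∈ U ∩ US G, intrinsicDist S q z.1 < Real.pi) ∧
      (∀ z ∈ U ∩ US G, ∀ t, ContDiffAt ℝ ∞ R (z, t)) ∧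
      (∀ z ∈ U ∩ US G, ∀ t, R (z, t) ∈ US G) ∧
      (∀ z ∈ U ∩ US G, ∀ t ≤ 0, R (z, t) = z) ∧
      (∀ z ∈ U ∩ US G, ∀ t, 1 ≤ t → R (z, t) = z₀) := by
  obtain ⟨q, hq, hqW⟩ := exists_near h hW (g := fun w => (f w).1) (fun w hw => (hf w hw).fst)
    (fun w hw => (hfU w hw).1.1) hD
  obtain ⟨Γ, hΓq, hrad⟩ := exists_rad h hq
  have hnot : ∀ w ∈ W, (f w).1 ∈ S ∩ (GP.Cut S q)ᶜ := fun w hw =>
    ⟨(hfU w hw).1.1, fun h0 => (hqW w hw).ne h0.2⟩
  obtain ⟨e, he, he1, hew⟩ := exists_unit G hq hW (u := fun w => ue G Γ (f w))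
    (fun w hw => ContDiffAt.comp (g := ue G Γ) w (hrad _ (hnot w hw)).contDiffAt_ue (hf w hw)) hD'
  obtain ⟨U, R, hU, hKU, -, hUD, r1, r2, r3, r4⟩ := two_stage (G := G) (Γ := Γ)
    (D := (GP.Cut S q)ᶜ) (GP.isClosed_Cut h.bl hq).isClosed.isOpen_compl hrad (e := fun _ => e)
    (A := univ) isOpen_univ
    (fun z hz hzD => ⟨contDiffAt_const, by rw [hΓq]; exact he, he1⟩)
    (K := f '' W) (by rintro _ ⟨w, hw, rfl⟩; exact hfU w hw) (subset_univ _)
    (by rintro _ ⟨w, hw, rfl⟩; exact (hnot w hw).2)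
    (by rintro _ ⟨w, hw, rfl⟩; exact hew w hw)
  refine ⟨q, hq, (q, e), ⟨⟨hq, he⟩, he1⟩, rfl, U, R, hU, hKU, fun z hz => ?_, r1, r2, r3,
    fun z hz t ht => ?_⟩
  · exact lt_of_le_of_ne (h.bl.dist_le q hq _ hz.2.1.1) fun h0 => hUD z hz.1 ⟨hz.2.1.1, h0⟩
  · rw [r4 z hz t ht, hΓq]

end Crest.Agent.R208.QI
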