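import Crest.Agent.R208.T1a

/-! Row 208, block T (helper316).  T1b: **the Thom lemma** by rotation. -/

set_option autoImplicit false
set_option linter.unusedSectionVars false

open MeasureTheory Set Filter Topology Module
open scoped ContDiff
open Crest.Agent.R208.F Crest.Agent.R208.FI Crest.Agent.R208.CW

noncomputable section

namespace Crest.Agent.R208.T

universe u w

section cut
variable {E H : Type*} [NormedAddCommGroup E] [NormedSpace ℝ E] [FiniteDimensional ℝ E]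
  [NormedAddCommGroup H] [InnerProductSpace ℝ H] [FiniteDimensional ℝ H]
  {Y : Set (E × H)} {a : E × H → Ext (E × H)} {R : ℝ}

/-- cut-off: `1` for `‖h‖ ≤ R`, `0` for `‖h‖ ≥ R + 1` -/
def chi (R : ℝ) (h : H) : ℝ := Real.smoothTransition ((R + 1) ^ 2 - ‖h‖ ^ 2)

theorem contDiff_chi (R : ℝ) : ContDiff ℝ ∞ (chi (H := H) R) :=
  Real.smoothTransition.contDiff.comp (contDiff_const.sub (contDiff_norm_sq ℝ))

theorem chi_one (hR : 0 ≤ R) {h : H} (hh : ‖h‖ ≤ R) : chi R h = 1 := by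
  refine Real.smoothTransition.one_of_one_le ?_
  have := norm_nonneg h
  nlinarith

theorem chi_zero (hR : 0 ≤ R) {h : H} (hh : R + 1 ≤ ‖h‖) : chi R h = 0 := by
  refine Real.smoothTransition.zero_of_nonpos ?_
  nlinarith

/-- cut off form -/
def cutH (R : ℝ) (a : E × H → Ext (E × H)) (z : E × H) : Ext (E × H) := chi R z.2 • a z

theorem Vt.cutH (hR : 0 ≤ R) : Vt (R + 1) (cutH R a) := fun z hz => by
  rw [T.cutH, chi_zero hR hz.le, zero_smul]

theorem Sm.cutH (h : Sm Y a) : Sm Y (cutH R a) := fun x hx =>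
  ((contDiff_chi R).contDiffAt.comp x contDiffAt_snd).smul (h x hx)

theorem cutH_eq (hR : 0 ≤ R) {z : E × H} (h : R < ‖z.2‖ → a z = 0) : cutH R a z = a z := by
  rw [cutH]
  rcases le_or_gt ‖z.2‖ R with h1 | h1
  · rw [chi_one hR h1, one_smul]
  · rw [h h1, smul_zero]

theorem eqv_cutH (hR : 0 ≤ R) (h : ∀ z ∈ Y, R < ‖z.2‖ → a z = 0) : Eqv Y (cutH R a) a :=
  Eqv.of_eq fun z hz => cutH_eq hR (h z hz)

end cut

section rot
variable {E : Type u} {H : Type w} [NormedAddCommGroup E] [NormedSpace ℝ E] [FiniteDimensional ℝ E]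
  [NormedAddCommGroup H] [InnerProductSpace ℝ H] [FiniteDimensional ℝ H]
  {X : Set E} {P : E → H →L[ℝ] H} {r d : ℕ}

/-- rotation by `π/2 t` in `V ⊕ V ⊂ V ⊕ H` -/
def rot (P : E → H →L[ℝ] H) (p : ((E × H) × H) × ℝ) : (E × H) × H :=
  ((p.1.1.1, p.1.1.2 + P p.1.1.1 ((Real.cos (Real.pi / 2 * p.2) - 1) • p.1.1.2
      - Real.sin (Real.pi / 2 * p.2) • p.1.2)),
    p.1.2 + P p.1.1.1 (Real.sin (Real.pi / 2 * p.2) • p.1.1.2
      + (Real.cos (Real.pi / 2 * p.2) - 1) • p.1.2))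

theorem contDiffAt_rot (hP : PField X r P) {p : ((E × H) × H) × ℝ} (hp : p.1.1.1 ∈ X) :
    ContDiffAt ℝ ∞ (rot P) p := by
  have h1 : ContDiffAt ℝ ∞ (fun p : ((E × H) × H) × ℝ => P p.1.1.1) p :=
    (hP.smooth _ hp).comp p (f := fun p : ((E × H) × H) × ℝ => p.1.1.1) (by fun_prop)
  have h2 : ContDiff ℝ ∞ (fun p : ((E × H) × H) × ℝ =>
      (Real.cos (Real.pi / 2 * p.2) - 1) • p.1.1.2 - Real.sin (Real.pi / 2 * p.2) • p.1.2) := by
    fun_prop
  have h3 : ContDiff ℝ ∞ (fun p : ((E × H) × H) × ℝ =>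
      Real.sin (Real.pi / 2 * p.2) • p.1.1.2 + (Real.cos (Real.pi / 2 * p.2) - 1) • p.1.2) := by
    fun_prop
  have h4 : ContDiff ℝ ∞ (fun p : ((E × H) × H) × ℝ => p.1.1.1) := by fun_prop
  have h5 : ContDiff ℝ ∞ (fun p : ((E × H) × H) × ℝ => p.1.1.2) := by fun_prop
  have h6 : ContDiff ℝ ∞ (fun p : ((E × H) × H) × ℝ => p.1.2) := by fun_prop
  exact (h4.contDiffAt.prodMk (h5.contDiffAt.add (h1.clm_apply h2.contDiffAt))).prodMk
    (h6.contDiffAt.add (h1.clm_apply h3.contDiffAt))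

theorem rot_mem (hP : PField X r P) {z : (E × H) × H} (hz : z ∈ Tot X P ×ˢ (univ : Set H)) (t : ℝ) :
    rot P (z, t) ∈ Tot X P ×ˢ (univ : Set H) := by
  obtain ⟨⟨hx, hv⟩, -⟩ := hz
  refine ⟨⟨hx, ?_⟩, mem_univ _⟩
  change P z.1.1 (z.1.2 + P z.1.1 _) = z.1.2 + P z.1.1 _
  rw [map_add, hP.idem _ hx, hv]

theorem rot_zero (P : E → H →L[ℝ] H) (z : (E × H) × H) : rot P (z, 0) = z := by
  simp [rot]

theorem rot_one (P : E → H →L[ℝ] H) (z : (E × H) × H) : rot P (z, 1) =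
    ((z.1.1, z.1.2 + P z.1.1 (-z.1.2 - z.2)), z.2 + P z.1.1 (z.1.2 - z.2)) := by
  simp [rot, sub_eq_add_neg]

/-- `(x,h) ↦ (x,-Ph)` -/
def nbet (P : E → H →L[ℝ] H) (z : E × H) : E × H := (z.1, -P z.1 z.2)

/-- `((x,v),h) ↦ (x,h)` -/
def rho (z : (E × H) × H) : E × H := (z.1.1, z.2)

theorem pfield_compl (hP : PField X r P) : PField X (finrank ℝ H - r) (fun x => 1 - P x) := by
  refine ⟨fun x hx => contDiffAt_const.sub (hP.smooth x hx), fun x hx v => ?_, fun x hx => ?_⟩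
  · have := hP.idem x hx v
    simp only [_root_.sub_apply, one_apply_eq_self, map_sub, this]
    abel
  · have h1 := hP.rank x hx
    have h2 : LinearMap.range ((1 - P x : H →L[ℝ] H) : H →ₗ[ℝ] H) =
        LinearMap.ker (P x : H →ₗ[ℝ] H) := by
      ext v
      constructor
      · rintro ⟨w, rfl⟩
        simp [hP.idem x hx]
      · intro hv
        refine ⟨v, ?_⟩
        have : P x v = 0 := hv
        simp [this]
    rw [h2]
    have h3 := LinearMap.finrank_range_add_finrank_ker (P x : H →ₗ[ℝ] H)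
    omega

theorem smap_gam (hP : PField X r P) :
    SMap (X ×ˢ (univ : Set H)) (Tot X (fun x => 1 - P x)) (gam P) := by
  refine ⟨fun z hz => ?_, fun z hz => ⟨hz.1, ?_⟩⟩
  · exact contDiffAt_fst.prodMk (contDiffAt_snd.sub
      (((hP.smooth _ hz.1).comp z contDiffAt_fst).clm_apply contDiffAt_snd))
  · have := hP.idem _ hz.1 z.2
    simp [gam, this]

theorem smap_bet (hP : PField X r P) : SMap (X ×ˢ (univ : Set H)) (Tot X P) (bet P) :=
  ⟨fun z hz => contDiffAt_fst.prodMk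
      (((hP.smooth _ hz.1).comp z contDiffAt_fst).clm_apply contDiffAt_snd),
    fun z hz => ⟨hz.1, hP.idem _ hz.1 z.2⟩⟩

theorem smap_nbet (hP : PField X r P) : SMap (X ×ˢ (univ : Set H)) (Tot X P) (nbet P) :=
  ⟨fun z hz => contDiffAt_fst.prodMk
      (((hP.smooth _ hz.1).comp z contDiffAt_fst).clm_apply contDiffAt_snd).neg,
    fun z hz => ⟨hz.1, by
      change P z.1 (-P z.1 z.2) = -P z.1 z.2
      rw [map_neg, hP.idem _ hz.1 z.2]⟩⟩

theorem smap_rho : SMap (Tot X P ×ˢ (univ : Set H)) (X ×ˢ (univ : Set H)) (rho (E := E) (H := H)) :=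
  ⟨fun z _ => (contDiff_fst.fst'.contDiffAt).prodMk contDiffAt_snd, fun _ hz => ⟨hz.1.1, mem_univ _⟩⟩

theorem smap_fst : SMap (Tot X P ×ˢ (univ : Set H)) (Tot X P) (Prod.fst : (E × H) × H → E × H) :=
  ⟨fun z _ => contDiffAt_fst, fun _ hz => hz.1⟩

theorem smap_fst' : SMap (Tot X P) X (Prod.fst : E × H → E) :=
  ⟨fun z _ => contDiffAt_fst, fun _ hz => hz.1⟩

end rot

end Crest.Agent.R208.T
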