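import Crest.Agent.R208.TI3

/-! Row 208, block (X0) (helper595).  TI4: the class `xM` of the cut locus and the cohomology of `S`
in degrees `2 ≤ j < n`. -/

set_option autoImplicit false
set_option linter.unusedSectionVars false

open MeasureTheory Set Filter Topology Module
open scoped ContDiff RealInnerProductSpace
open Crest.GeometryTopology.Submanifold
open Crest.Agent.R241.DDefs
open Crest.Agent.R241.D2
open Crest.Agent.R208.F Crest.Agent.R208.FI Crest.Agent.R208.CW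

noncomputable section

namespace Crest.Agent.R208.T

variable {n N k : ℕ} {κ : ℝ} {S : Set (Euc N)} {G : Geo n N κ S} {p : Euc N}
  {ι : Type} [Fintype ι] [DecidableEq ι] {W : Euc N → (ι × Fin 2 → Fin N) → ℝ}
  {x : Euc N → Ext (Euc N)}

/-- the tube, over the field `PC h p` -/
theorem exists_Tube' (h : GT.Bla G k) (hp : p ∈ S) : ∃ Gt : Euc N → Euc N × Euc N,
    Tube S (GP.Cut S p) p (FV.PC h p) Real.pi (GP.Psi G) Gt ∧
      (∀ x ∈ S \ {p}, ‖(Gt x).2‖ = Real.pi - intrinsicDist S p x) :=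
  GP.exists_Tube h.bl h.ty (FV.sub_S h.bl) hp

/-- **(I4)**: the class of the cut locus -/
theorem exists_xM (h : GT.Bla G k) (hk : 2 ≤ k) (hp : p ∈ S)
    (hι : 2 * Fintype.card ι = k) (hW : OR (GP.Cut S p) (FV.PC h p) W) :
    ∃ x : Euc N → Ext (Euc N), Sm S x ∧ Cl S x ∧ Hom k x ∧
      Eqv (GP.Cut S p) x (eR (FV.PC h p) W) := by
  have : Nonempty ι := Fintype.card_pos_iff.1 (by omega)
  obtain ⟨Gt, hG, -⟩ := exists_Tube' h hp
  have hd : Hom k (thomF (FV.PC h p) W) := by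
    intro z
    have := thomF_deg (P := FV.PC h p) (W := W) z
    rwa [hι] at this
  obtain ⟨x, h1, h2, h3, h4⟩ := hG.exists_dual (FV.sub_S h.bl) (by omega)
    (csf_thomF (FV.sub_Cut h hp) hW) hd (thomF_zero hW)
  refine ⟨(2⁻¹ : ℝ) • x, h1.smul _, Cl.smul _ h1 h2, h3.smul _, ?_⟩
  have := h4.smul (2⁻¹ : ℝ)
  rwa [smul_smul, inv_mul_cancel₀ two_ne_zero, one_smul] at this

/-- **(I4)**: closed forms of degree `2 ≤ j < n` on `S` are multiples of powers of `x` -/
theorem S_classes (h : GT.Bla G k) (hk : 2 ≤ k) (hkn : k < n) (hp : p ∈ S)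
    (hι : 2 * Fintype.card ι = k) (hW : OR (GP.Cut S p) (FV.PC h p) W)
    (sx : Sm S x) (cx : Cl S x) (dx : Hom k x) (ex : Eqv (GP.Cut S p) x (eR (FV.PC h p) W))
    (j : ℕ) (b : Euc N → Ext (Euc N)) (hj : 2 ≤ j) (hjn : j < n) (hb : Sm S b) (hc : Cl S b)
    (hd : Hom j b) :
    ∃ c : ℝ, (¬ k ∣ j → c = 0) ∧ Coh S b (c • x ^ (j / k)) := by
  obtain ⟨Gt, hG, -⟩ := exists_Tube' h hp
  obtain ⟨U, Λ, hpol, -, -⟩ := GP.exists_polar (G := G) h.bl hp one_pos
    (by linarith [Real.pi_gt_three])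
  exact hG.classes hpol
    (fun i h1 h2 => exactIn_sphere_all ((LB.pfield G).idem p hp) (finrank_range_P G hp) h1 h2)
    sx cx dx ex (by omega)
    (fun i a _ sa ca da => Cut_classes h hk hkn hp hι hW i sa ca da) hj hjn hb hc hd

end Crest.Agent.R208.T
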