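import Crest.Agent.R208.QO2
import Crest.Agent.R208.TI4
import Crest.Agent.R208.T1b

/-! Row 208, block Q (helper595).  QO3 = (Q-out): a family of unit tangent vectors of dimension
`D < n - 1` is pushed, pointwise, into the image of a section over a cut locus. -/

set_option autoImplicit false
set_option linter.unusedSectionVars false

open MeasureTheory Set Filter Topology Module
open scoped ContDiff RealInnerProductSpace
open Crest.GeometryTopology.Submanifold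
open Crest.Agent.R241.DDefs
open Crest.Agent.R241.D2
open Crest.Agent.R208.F Crest.Agent.R208.FI
open Crest.Agent.R208.L (US)
open Crest.Agent.R208.J (PT PTi)

noncomputable section

namespace Crest.Agent.R208.QO

variable {n N k D : ℕ} {κ : ℝ} {S : Set (Euc N)} {G : Geo n N κ S}
  {E' : Type*} [NormedAddCommGroup E'] [NormedSpace ℝ E'] [FiniteDimensional ℝ E']

theorem le_N (G : Geo n N κ S) {x : Euc N} (hx : x ∈ S) : n ≤ N := by
  have h1 := Submodule.finrank_le (G.T x)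
  rwa [G.finrank_T x hx, finrank_euclideanSpace_fin] at h1

/-- the complementary field `1 - P` pulled back along a map to `S` -/
theorem pfield_co (G : Geo n N κ S) {X : Set E'} {g : E' → Euc N} (hg : ∀ x ∈ X, ContDiffAt ℝ ∞ g x)
    (hm : MapsTo g X S) : PField X (N - n) (fun x => 1 - G.P (g x)) := by
  have h1 : PField X n (fun x => G.P (g x)) :=
    ⟨fun x hx => G.contDiff_P.contDiffAt.comp x (hg x hx),
      fun x hx v => (LB.pfield G).idem _ (hm hx) v, fun x hx => (LB.pfield G).rank _ (hm hx)⟩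
  have h2 := T.pfield_compl h1
  rwa [finrank_euclideanSpace_fin] at h2

theorem rad_tube (h : GT.Bla G k) {q : Euc N} (hq : q ∈ S) {Gt : Euc N → Euc N × Euc N}
    (hG : T.Tube S (GP.Cut S q) q (FV.PC h q) Real.pi (GP.Psi G) Gt) {x : Euc N}
    (hx : x ∈ S ∩ {q}ᶜ) : Rad G Gt x ∧ (Gt x).1 ∈ GP.Cut S q := by
  have h1 := hG.sG.maps hx
  have h2 := h1.1.2
  have hF : ((Gt x).1, q) ∈ GT.FF S := FV.Cut_swap hq h1.1.1
  have h3 : (Gt x).2 ∈ FV.Vl G ((Gt x).1, q) :=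
    (FV.PV_eq_self h.bl h.ty (FV.sub_S h.bl) hF).1 h2
  exact ⟨⟨hG.sG.smooth x hx, ⟨h1.1.1.1, FV.Vl_le h.ty hF h3⟩, hG.ΨG x hx⟩, h1.1.1⟩

/-- **(Q-out)** -/
theorem q_out (h : GT.Bla G k) {W : Set E'} (hW : Sub D W) {f : E' → Euc N × Euc N}
    (hf : ∀ w ∈ W, ContDiffAt ℝ ∞ f w) (hfU : ∀ w ∈ W, f w ∈ US G) (hD : D + 1 < n) :
    ∃ q ∈ S, ∃ (U : Set (Euc N × Euc N)) (R : (Euc N × Euc N) × ℝ → Euc N × Euc N)
      (g : Euc N × Euc N → Euc N) (sec : Euc N → Euc N × Euc N),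
      IsOpen U ∧ f '' W ⊆ U ∧
      (∀ z ∈ U ∩ US G, ∀ t, ContDiffAt ℝ ∞ R (z, t)) ∧
      (∀ z ∈ U ∩ US G, ∀ t, R (z, t) ∈ US G) ∧
      (∀ z ∈ U ∩ US G, ∀ t ≤ 0, R (z, t) = z) ∧
      (∀ z ∈ U ∩ US G, ∀ t, 1 ≤ t → R (z, t) = sec (g z)) ∧
      (∀ z ∈ U ∩ US G, ContDiffAt ℝ ∞ g z ∧ g z ∈ GP.Cut S q) ∧
      (∀ c ∈ GP.Cut S q, ContDiffAt ℝ ∞ sec c ∧ sec c ∈ US G ∧ (sec c).1 = c) := by
  have hne : S.Nonempty := h.bl.conn.nonempty
  have hS := FV.sub_S h.bl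
  -- generic base point
  obtain ⟨q, hq, hqW⟩ := exists_missed (f := fun w => (f w).1) hS hne hW
    (fun w hw => ((hf w hw).fst).of_le (by exact_mod_cast le_top)) (by omega)
  obtain ⟨Gt, hG, -⟩ := T.exists_Tube' h hq
  have hrad := fun x hx => rad_tube h hq hG (x := x) hx
  have hnot : ∀ w ∈ W, (f w).1 ∈ S ∩ {q}ᶜ := fun w hw =>
    ⟨(hfU w hw).1.1, fun h0 => hqW ⟨w, hw, h0⟩⟩
  have hnN : n ≤ N := le_N G hq
  have hk1 := h.ty.one_le
  have hkn := h.ty.le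
  -- generic vector
  have hP1 : PField (GP.Cut S q) (N - n) (fun x => 1 - G.P x) :=
    pfield_co G (fun _ _ => contDiffAt_id) (fun x hx => hx.1)
  have sX1 := hP1.sub_tot (FV.sub_Cut h hq)
  have hgt : ∀ y ∈ W ×ˢ (univ : Set ℝ), ContDiffAt ℝ ∞ (fun y : E' × ℝ => (Gt (f y.1).1).1) y := by
    intro y hy
    have a1 : ContDiffAt ℝ ∞ (fun y : E' × ℝ => (f y.1).1) y :=
      ((hf y.1 hy.1).comp y contDiffAt_fst).fst
    exact (ContDiffAt.comp (g := Gt) y (hrad _ (hnot y.1 hy.1)).1.sm a1).fst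
  have hP2 : PField (W ×ˢ (univ : Set ℝ)) (N - n) (fun y => 1 - G.P (Gt (f y.1).1).1) :=
    pfield_co G hgt (fun y hy => (hrad _ (hnot y.1 hy.1)).2.1)
  have sX2 := hP2.sub_tot (hW.prod (sub_open (n := 1) (finrank_self ℝ) isOpen_univ))
  obtain ⟨a, ha1, ha2⟩ := exists_notMem₂ (f := fun z : Euc N × Euc N => z.2)
    (f' := fun ζ : (E' × ℝ) × Euc N => ζ.2 - ζ.1.2 • ue G Gt (f ζ.1.1)) sX1 Subset.rfl
    (fun _ _ => contDiffAt_snd) (by rw [finrank_euclideanSpace_fin]; omega) sX2 Subset.rfl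
    (fun ζ hζ => by
      have b1 : ContDiffAt ℝ ∞ (fun ζ : (E' × ℝ) × Euc N => f ζ.1.1) ζ :=
        ContDiffAt.comp (g := f) ζ (hf _ hζ.1.1) (by fun_prop)
      have b2 : ContDiffAt ℝ ∞ (fun ζ : (E' × ℝ) × Euc N => ue G Gt (f ζ.1.1)) ζ :=
        ContDiffAt.comp (g := ue G Gt) ζ (hrad _ (hnot _ hζ.1.1)).1.contDiffAt_ue b1
      have b3 : ContDiffAt ℝ ∞ (fun ζ : (E' × ℝ) × Euc N => ζ.1.2) ζ := by fun_prop
      exact ((contDiffAt_snd.sub (b3.smul b2))).of_le (by exact_mod_cast le_top))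
    (by rw [finrank_euclideanSpace_fin]; omega)
  have hPa : ∀ c ∈ GP.Cut S q, G.P c a ≠ 0 := by
    intro c hc h0
    refine ha1 ⟨(c, a), ⟨hc, ?_⟩, rfl⟩
    change a - G.P c a = a
    rw [h0, sub_zero]
  set e : Euc N × Euc N → Euc N := fun z => nrm (G.P (Gt z.1).1 a) with he
  have hemem : ∀ {c : Euc N}, c ∈ S → nrm (G.P c a) ∈ G.T c := fun hc =>
    (G.T _).smul_mem _ (P_mem G hc)
  have hKe : ∀ z ∈ f '' W, ue G Gt z + e z ≠ 0 := by
    rintro _ ⟨w, hw, rfl⟩ h0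
    set y := (Gt (f w).1).1 with hy
    have hyS : y ∈ GP.Cut S q := (hrad _ (hnot w hw)).2
    have hr := hPa y hyS
    have e1 : G.P y a = ‖G.P y a‖ • e (f w) := by
      change G.P y a = ‖G.P y a‖ • (‖G.P y a‖⁻¹ • G.P y a)
      rw [smul_smul, mul_inv_cancel₀ (norm_ne_zero_iff.2 hr), one_smul]
    have e2 : e (f w) = - ue G Gt (f w) := (neg_eq_of_add_eq_zero_right h0).symm
    refine ha2 ⟨((w, ‖G.P y a‖), a - G.P y a), ⟨⟨hw, mem_univ _⟩, ?_⟩, ?_⟩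
    · change (a - G.P y a) - G.P y (a - G.P y a) = a - G.P y a
      rw [map_sub, (LB.pfield G).idem y hyS.1 a, sub_self, sub_zero]
    · change (a - G.P y a) - ‖G.P y a‖ • ue G Gt (f w) = a
      rw [e2, smul_neg] at e1
      rw [neg_eq_iff_eq_neg.1 e1.symm]
      abel
  obtain ⟨U, R, hU, hKU, -, hUD, r1, r2, r3, r4⟩ := two_stage (G := G) (Γ := Gt) (D := {q}ᶜ)
    isOpen_compl_singleton (fun x hx => (hrad x hx).1) (e := e) (A := univ) isOpen_univ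
    (fun z hz hzD => by
      have hzS : z.1 ∈ S ∩ {q}ᶜ := ⟨hz.2.1.1, hzD⟩
      have hC := (hrad _ hzS).2
      have b1 : ContDiffAt ℝ ∞ (fun z : Euc N × Euc N => G.P (Gt z.1).1 a) z :=
        (G.contDiff_P.contDiffAt.comp z
          (ContDiffAt.comp (g := Gt) z (hrad _ hzS).1.sm contDiffAt_fst).fst).clm_apply
          contDiffAt_const
      exact ⟨ContDiffAt.comp (g := nrm) z (contDiffAt_nrm (hPa _ hC)) b1, hemem hC.1,
        norm_nrm (hPa _ hC)⟩)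
    (K := f '' W) (by rintro _ ⟨w, hw, rfl⟩; exact hfU w hw) (subset_univ _)
    (by rintro _ ⟨w, hw, rfl⟩; exact (hnot w hw).2) hKe
  refine ⟨q, hq, U, R, fun z => (Gt z.1).1, fun c => (c, nrm (G.P c a)), hU, hKU, r1, r2, r3,
    r4, fun z hz => ?_, fun c hc => ⟨?_, ⟨⟨hc.1, hemem hc.1⟩, norm_nrm (hPa c hc)⟩, rfl⟩⟩
  · have hzS : z.1 ∈ S ∩ {q}ᶜ := ⟨hz.2.1.1, hUD z hz.1⟩
    exact ⟨(ContDiffAt.comp (g := Gt) z (hrad _ hzS).1.sm contDiffAt_fst).fst, (hrad _ hzS).2⟩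
  · have b1 : ContDiffAt ℝ ∞ (fun c : Euc N => G.P c a) c :=
      G.contDiff_P.contDiffAt.clm_apply contDiffAt_const
    exact contDiffAt_id.prodMk (ContDiffAt.comp (g := nrm) c (contDiffAt_nrm (hPa c hc)) b1)

end Crest.Agent.R208.QO
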