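import Crest.Agent.R208.CH3d
import Crest.Agent.R208.QI1
import Crest.Agent.R208.QO3
import Crest.Agent.R208.CM6b
import Crest.Agent.R208.SN8
import Crest.Agent.R208.SO1

/-! Row 208, block Q, part CH5 (helper423), CS1: the deformations of `US G` as sweeps, the starting
chains. -/

set_option autoImplicit false
set_option linter.unusedSectionVars false
set_option linter.unusedVariables false

open MeasureTheory Set Filter Topology Module
open scoped ContDiff RealInnerProductSpace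
open Crest.GeometryTopology.Submanifold
open Crest.Agent.R241.DDefs
open Crest.Agent.R241.D2
open Crest.Agent.R208.F Crest.Agent.R208.FI
open Crest.Agent.R208.CW (SMap)
open Crest.Agent.R208.T (Sm Cl Eqv Coh eqv_iff Hom)
open Crest.Agent.R208.L (US)
open Crest.Agent.R208.LB (al)
open Crest.Agent.R208.CH
open Crest.Agent.R208.CM (gf MM jj Quo Emb Curv)

noncomputable section

namespace Crest.Agent.R208.CS

/-! ### the bundle `US G → B` -/

variable {n N k m : ℕ} {κ : ℝ} {S : Set (Euc N)} {G : Geo n N κ S}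
  {g : Euc N × Euc N → Fin m → ℂ} {Fc : MM m → Ext (MM m)}

theorem cb_US (hB : Bl n N κ S G Real.pi) (hper : HS.Per G) (hg : Emb (US G) (gf G) g)
    (hc : Curv (US G) g (al (N := N)) Fc) :
    CB (2 * (n - 1)) (US G) (gf G) (Quo (US G) g) (jj g) (al (N := N)) Fc where
  cir := CM.cir_US hB hper
  subm := hg.subm_jj (CM.cir_US hB hper) (CM.clo_US' hB)
  inv x hx t := hg.jj_act hx t
  fib x hx y hy e := (hg.jj_eq_iff hx hy).1 e.symm
  sur := fun _ ⟨x, hx, e⟩ => ⟨x, hx, e⟩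
  sm := (CM.conn_al (FV.sub_S hB)).sm
  hom := (CM.conn_al (G := G) (FV.sub_S hB)).hom
  one x hx := (CM.conn_al (FV.sub_S hB)).evA_gen hx
  smF := hc.sm
  curv := hc.pull.symm

theorem clo_lft {E E' : Type} [NormedAddCommGroup E] [NormedSpace ℝ E] [FiniteDimensional ℝ E]
    [NormedAddCommGroup E'] [NormedSpace ℝ E'] [FiniteDimensional ℝ E']
    {n : ℕ} {X : Set E} {φ : ℝ → E → E} {B : Set E'} {π : E → E'} {a : E → Ext E}
    {Fc : E' → Ext E'} (h : CB n X φ B π a Fc) {d : ℕ} (c : Chn B d) :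
    Clo (1 + d) (lft X π c) := FG.bc_clo h.subm ⟨c.clo, c.sm.smooth, c.sm.maps⟩

/-! ### the chain of a point -/

section pt
variable {E' : Type} [NormedAddCommGroup E'] [NormedSpace ℝ E'] [FiniteDimensional ℝ E']
  {B : Set E'} {b : E'}

/-- the chain of one point -/
def pt (hb : b ∈ B) : Chn B 0 where
  V := ℝ
  Z := {0}
  g := fun _ => b
  χ := fun _ => 1
  o := 1
  clo := SN.clo_point 0
  ori := SN.ori_point 0
  hom := fun _ => T.isDeg_one
  sm := ⟨fun _ _ => contDiffAt_const, fun _ _ => hb⟩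
  thn := Thn.one _

theorem I_pt (hb : b ∈ B) : (pt hb).I 1 = 1 := by
  have h1 : (fun x => (pt hb).χ x • F.pull (pt hb).g (1 : E' → Ext E') x) = (1 : ℝ → Ext ℝ) := by
    funext x
    have h2 : F.pull (pt hb).g (1 : E' → Ext E') x = 1 := map_one _
    rw [h2]
    exact one_smul ℝ _
  rw [Chn.I, h1]
  exact SN.J_point (0 : ℝ)

end pt

/-! ### the two sweeps -/

section sweeps
variable {E' : Type} [NormedAddCommGroup E'] [NormedSpace ℝ E'] [FiniteDimensional ℝ E']
  {B : Set E'} {π : Euc N × Euc N → E'} {F₀ : E' → Ext E'} {a : Euc N × Euc N → Ext (Euc N × Euc N)}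
  {nB d : ℕ}

/-- inward sweep -/
theorem step_in (h : GT.Bla G k) (hC : CB nB (US G) (gf G) B π a F₀) (c : Chn B d)
    (hd : d + 1 < k) (hd' : d + 2 < n) :
    ∃ c' : Chn B (d + 2), ∀ om, Sm B om → Cl B om → Hom d om →
      c'.I (F₀ * om) = 2 * Real.pi * c.I om := by
  obtain ⟨q, hq, z₀, hz₀, hzq, O, R, hO, hK, -, r1, r2, r3, r4⟩ := QI.q_in h
    (clo_lft hC c).sub (f := Prod.fst) (fun w _ => contDiffAt_fst) (fun w hw => hw.1)
    (by omega) (by omega)
  refine sweep hC c (Dfm.of (C := ({0} : Set ℝ)) (g := fun _ => (0 : ℝ)) (sec := fun _ => z₀)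
    (SN.clo_point 0).sub hO hK r1 r2 r3 r4 (fun z _ => ⟨contDiffAt_const, rfl⟩)
    (fun c _ => contDiffAt_const)) (Nat.zero_le _)

/-- outward sweep -/
theorem step_out (h : GT.Bla G k) (hC : CB nB (US G) (gf G) B π a F₀) (c : Chn B d)
    (hd : n - k ≤ d) (hd' : d + 2 < n) :
    ∃ c' : Chn B (d + 2), ∀ om, Sm B om → Cl B om → Hom d om →
      c'.I (F₀ * om) = 2 * Real.pi * c.I om := by
  obtain ⟨q, hq, O, R, g, sec, hO, hK, r1, r2, r3, r4, r5, r6⟩ := QO.q_out h
    (clo_lft hC c).sub (f := Prod.fst) (fun w _ => contDiffAt_fst) (fun w hw => hw.1)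
    (by omega)
  exact sweep hC c (Dfm.of (FV.sub_Cut h hq) hO hK r1 r2 r3 r4 r5 fun c hc => (r6 c hc).1) hd

/-- **start 1**: the chains over which `F₀ ^ j` has integral `(2π) ^ j`, `2 j ≤ k` -/
theorem start_in (h : GT.Bla G k) (hC : CB nB (US G) (gf G) B π a F₀) (cF : Cl B F₀)
    (h2 : Hom 2 F₀) (hne : B.Nonempty) :
    ∀ j : ℕ, 2 * j ≤ k → 2 * j < n → ∃ c : Chn B (2 * j), c.I (F₀ ^ j) = (2 * Real.pi) ^ j := by
  intro j
  induction j with
  | zero =>
    intro _ _
    obtain ⟨b, hb⟩ := hne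
    exact ⟨pt hb, by rw [pow_zero, pow_zero, I_pt]⟩
  | succ j ih =>
    intro h1 h3
    obtain ⟨c, hc⟩ := ih (by omega) (by omega)
    obtain ⟨c', hc'⟩ := step_in h hC c (by omega) (by omega)
    refine ⟨c', ?_⟩
    rw [pow_succ', hc' _ (T.Sm.pow hC.smF j) (T.Cl.pow hC.smF cF j) (T.Hom.pow h2 j), hc]
    ring

end sweeps

end Crest.Agent.R208.CS
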