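import Crest.Agent.R208.F1c

/-! Row 208, block CW (helper586).  CW0: complexification of a (possibly non-commutative) real
algebra, complex valued differential forms, and their calculus by components. -/

set_option autoImplicit false
set_option linter.unusedSectionVars false
set_option linter.unusedSimpArgs false

open scoped BigOperators ContDiff Topology
open Module

noncomputable section

namespace Crest.Agent.R208.CW

/-- complexification of a ring: `re + i im` -/
@[ext] structure Cx (R : Type*) where
  re : R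
  im : R

namespace Cx
variable {R S : Type*}

section ring
variable [Ring R]

instance : Zero (Cx R) := ⟨⟨0, 0⟩⟩
instance : One (Cx R) := ⟨⟨1, 0⟩⟩
instance : Add (Cx R) := ⟨fun a b => ⟨a.re + b.re, a.im + b.im⟩⟩
instance : Neg (Cx R) := ⟨fun a => ⟨-a.re, -a.im⟩⟩
instance : Mul (Cx R) := ⟨fun a b => ⟨a.re * b.re - a.im * b.im, a.re * b.im + a.im * b.re⟩⟩

@[simp] theorem zero_re : (0 : Cx R).re = 0 := rfl
@[simp] theorem zero_im : (0 : Cx R).im = 0 := rfl
@[simp] theorem one_re : (1 : Cx R).re = 1 := rfl
@[simp] theorem one_im : (1 : Cx R).im = 0 := rfl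
@[simp] theorem add_re (a b : Cx R) : (a + b).re = a.re + b.re := rfl
@[simp] theorem add_im (a b : Cx R) : (a + b).im = a.im + b.im := rfl
@[simp] theorem neg_re (a : Cx R) : (-a).re = -a.re := rfl
@[simp] theorem neg_im (a : Cx R) : (-a).im = -a.im := rfl
@[simp] theorem mul_re (a b : Cx R) : (a * b).re = a.re * b.re - a.im * b.im := rfl
@[simp] theorem mul_im (a b : Cx R) : (a * b).im = a.re * b.im + a.im * b.re := rfl

instance : Ring (Cx R) :=
  Ring.ofMinimalAxioms
    (fun a b c => Cx.ext (add_assoc _ _ _) (add_assoc _ _ _))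
    (fun a => Cx.ext (zero_add _) (zero_add _))
    (fun a => Cx.ext (neg_add_cancel _) (neg_add_cancel _))
    (fun a b c => by
      refine Cx.ext ?_ ?_ <;>
      · simp only [mul_re, mul_im]
        noncomm_ring)
    (fun a => by refine Cx.ext ?_ ?_ <;> simp)
    (fun a => by refine Cx.ext ?_ ?_ <;> simp)
    (fun a b c => by
      refine Cx.ext ?_ ?_ <;>
      · simp only [mul_re, mul_im, add_re, add_im]
        noncomm_ring)
    (fun a b c => by
      refine Cx.ext ?_ ?_ <;>
      · simp only [mul_re, mul_im, add_re, add_im]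
        noncomm_ring)

@[simp] theorem sub_re (a b : Cx R) : (a - b).re = a.re - b.re := by
  rw [sub_eq_add_neg, add_re, neg_re, sub_eq_add_neg]
@[simp] theorem sub_im (a b : Cx R) : (a - b).im = a.im - b.im := by
  rw [sub_eq_add_neg, add_im, neg_im, sub_eq_add_neg]

variable (R) in
/-- real part, additive -/
def reA : Cx R →+ R := { toFun := re, map_zero' := rfl, map_add' := fun _ _ => rfl }
variable (R) in
/-- imaginary part, additive -/
def imA : Cx R →+ R := { toFun := im, map_zero' := rfl, map_add' := fun _ _ => rfl }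

@[simp] theorem sum_re {ι : Type*} (s : Finset ι) (f : ι → Cx R) :
    (∑ i ∈ s, f i).re = ∑ i ∈ s, (f i).re := map_sum (reA R) f s
@[simp] theorem sum_im {ι : Type*} (s : Finset ι) (f : ι → Cx R) :
    (∑ i ∈ s, f i).im = ∑ i ∈ s, (f i).im := map_sum (imA R) f s

/-- inclusion of the real part -/
def ofR : R →+* Cx R where
  toFun r := ⟨r, 0⟩
  map_one' := rfl
  map_mul' a b := by refine Cx.ext ?_ ?_ <;> simp
  map_zero' := rfl
  map_add' a b := by refine Cx.ext ?_ ?_ <;> simp

@[simp] theorem ofR_re (r : R) : (ofR r).re = r := rfl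
@[simp] theorem ofR_im (r : R) : (ofR r).im = 0 := rfl

/-- complex conjugation -/
def conj : Cx R →+* Cx R where
  toFun z := ⟨z.re, -z.im⟩
  map_one' := by refine Cx.ext ?_ ?_ <;> simp
  map_mul' a b := by refine Cx.ext ?_ ?_ <;> simp; abel
  map_zero' := by refine Cx.ext ?_ ?_ <;> simp
  map_add' a b := by refine Cx.ext ?_ ?_ <;> simp; abel

@[simp] theorem conj_re (z : Cx R) : (conj z).re = z.re := rfl
@[simp] theorem conj_im (z : Cx R) : (conj z).im = -z.im := rfl
theorem conj_conj (z : Cx R) : conj (conj z) = z := by refine Cx.ext ?_ ?_ <;> simp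

variable [Ring S]

/-- functoriality -/
def map (f : R →+* S) : Cx R →+* Cx S where
  toFun z := ⟨f z.re, f z.im⟩
  map_one' := by refine Cx.ext ?_ ?_ <;> simp
  map_mul' a b := by refine Cx.ext ?_ ?_ <;> simp
  map_zero' := by refine Cx.ext ?_ ?_ <;> simp
  map_add' a b := by refine Cx.ext ?_ ?_ <;> simp

@[simp] theorem map_re (f : R →+* S) (z : Cx R) : (map f z).re = f z.re := rfl
@[simp] theorem map_im (f : R →+* S) (z : Cx R) : (map f z).im = f z.im := rfl

end ring

section alg
variable [Ring R] [Algebra ℝ R]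

instance : Algebra ℝ (Cx R) where
  smul r a := ⟨r • a.re, r • a.im⟩
  algebraMap :=
    { toFun := fun r => ⟨algebraMap ℝ R r, 0⟩
      map_one' := by refine Cx.ext ?_ ?_ <;> simp
      map_mul' := fun a b => by refine Cx.ext ?_ ?_ <;> simp
      map_zero' := by refine Cx.ext ?_ ?_ <;> simp
      map_add' := fun a b => by refine Cx.ext ?_ ?_ <;> simp }
  commutes' r x := by
    refine Cx.ext ?_ ?_ <;> simp [Algebra.commutes]
  smul_def' r x := by
    refine Cx.ext ?_ ?_
    · change r • x.re = _; simp [Algebra.smul_def]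
    · change r • x.im = _; simp [Algebra.smul_def]

@[simp] theorem smul_re (r : ℝ) (a : Cx R) : (r • a).re = r • a.re := rfl
@[simp] theorem smul_im (r : ℝ) (a : Cx R) : (r • a).im = r • a.im := rfl

instance : Algebra ℂ (Cx R) where
  smul z a := ⟨z.re • a.re - z.im • a.im, z.re • a.im + z.im • a.re⟩
  algebraMap :=
    { toFun := fun z => ⟨algebraMap ℝ R z.re, algebraMap ℝ R z.im⟩
      map_one' := by refine Cx.ext ?_ ?_ <;> simp
      map_mul' := fun a b => by refine Cx.ext ?_ ?_ <;> simp
      map_zero' := by refine Cx.ext ?_ ?_ <;> simp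
      map_add' := fun a b => by refine Cx.ext ?_ ?_ <;> simp }
  commutes' r x := by
    refine Cx.ext ?_ ?_
    · simp only [RingHom.coe_mk, MonoidHom.coe_mk, OneHom.coe_mk, mul_re, mul_im,
        Algebra.commutes]
    · simp only [RingHom.coe_mk, MonoidHom.coe_mk, OneHom.coe_mk, mul_re, mul_im,
        Algebra.commutes]
      abel
  smul_def' r x := by
    refine Cx.ext ?_ ?_
    · change r.re • x.re - r.im • x.im = _; simp [Algebra.smul_def]
    · change r.re • x.im + r.im • x.re = _; simp [Algebra.smul_def]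

@[simp] theorem csmul_re (r : ℂ) (a : Cx R) : (r • a).re = r.re • a.re - r.im • a.im := rfl
@[simp] theorem csmul_im (r : ℂ) (a : Cx R) : (r • a).im = r.re • a.im + r.im • a.re := rfl
@[simp] theorem algebraMap_re (z : ℂ) : (algebraMap ℂ (Cx R) z).re = algebraMap ℝ R z.re := rfl
@[simp] theorem algebraMap_im (z : ℂ) : (algebraMap ℂ (Cx R) z).im = algebraMap ℝ R z.im := rfl

theorem algebraMap_ofReal (r : ℝ) : algebraMap ℂ (Cx R) r = ofR (algebraMap ℝ R r) := by
  refine Cx.ext ?_ ?_ <;> simp

instance : IsScalarTower ℝ ℂ (Cx R) := ⟨fun r z a => by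
  refine Cx.ext ?_ ?_
  · change (r • z).re • a.re - (r • z).im • a.im = r • (z.re • a.re - z.im • a.im)
    simp [smul_sub, mul_smul]
  · change (r • z).re • a.im + (r • z).im • a.re = r • (z.re • a.im + z.im • a.re)
    simp [smul_add, mul_smul]⟩

variable [Ring S] [Algebra ℝ S]

theorem map_algebraMap (f : R →ₐ[ℝ] S) (z : ℂ) :
    map (f : R →+* S) (algebraMap ℂ (Cx R) z) = algebraMap ℂ (Cx S) z := by
  refine Cx.ext ?_ ?_ <;> simp

theorem map_smul (f : R →ₐ[ℝ] S) (z : ℂ) (a : Cx R) :
    map (f : R →+* S) (z • a) = z • map (f : R →+* S) a := by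
  refine Cx.ext ?_ ?_ <;> simp

end alg

instance [CommRing R] : CommRing (Cx R) :=
  { (inferInstance : Ring (Cx R)) with
    mul_comm := fun a b => by
      refine Cx.ext ?_ ?_
      · simp only [mul_re]; ring
      · simp only [mul_im]; ring }

end Cx

end Crest.Agent.R208.CW
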