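import Crest.Agent.R208.CW0

/-! Row 208, block CW (helper586).  CW0b: complex valued forms, their exterior derivative,
Leibniz rule, pull-back, matrices of forms. -/

set_option autoImplicit false
set_option linter.unusedSectionVars false
set_option linter.unusedSimpArgs false

open scoped BigOperators ContDiff Topology
open Module

noncomputable section

namespace Crest.Agent.R208.CW

open Crest.Agent.R208.F

/-! ### even and odd elements -/

section parity
variable {E F : Type*} [AddCommGroup E] [Module ℝ E] [AddCommGroup F] [Module ℝ F]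

theorem ev_od (a : Ext E) : (∀ b, (a + inv a) * b = b * (a + inv a)) ∧
    (∀ b, (a - inv a) * b = inv b * (a - inv a)) := by
  induction a using ExteriorAlgebra.induction with
  | algebraMap r =>
    refine ⟨fun b => ?_, fun b => ?_⟩
    · rw [AlgHom.commutes, add_mul, mul_add, Algebra.commutes]
    · rw [AlgHom.commutes, sub_self, zero_mul, mul_zero]
  | ι m =>
    refine ⟨fun b => ?_, fun b => ?_⟩
    · rw [inv_io, add_neg_cancel, zero_mul, mul_zero]
    · rw [inv_io, sub_neg_eq_add, add_mul, mul_add, io_mul]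
  | mul p q hp hq =>
    have key : ∀ c : Ext E, (2 : ℝ) • c = c + c := fun c => two_smul ℝ c
    obtain ⟨hp1, hp2⟩ := hp
    obtain ⟨hq1, hq2⟩ := hq
    generalize hP1 : p + inv p = P1 at hp1
    generalize hP2 : p - inv p = P2 at hp2
    generalize hQ1 : q + inv q = Q1 at hq1
    generalize hQ2 : q - inv q = Q2 at hq2
    refine ⟨fun b => ?_, fun b => ?_⟩
    · have e : (2 : ℝ) • (p * q + inv (p * q)) = P1 * Q1 + P2 * Q2 := by
        rw [key, map_mul, ← hP1, ← hP2, ← hQ1, ← hQ2]; noncomm_ring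
      have e1 : P1 * Q1 * b = b * (P1 * Q1) := by
        rw [mul_assoc, hq1, ← mul_assoc, hp1, mul_assoc]
      have e2 : P2 * Q2 * b = b * (P2 * Q2) := by
        rw [mul_assoc, hq2, ← mul_assoc, hp2, F.inv_inv, mul_assoc]
      have h : (2 : ℝ) • ((p * q + inv (p * q)) * b) = (2 : ℝ) • (b * (p * q + inv (p * q))) := by
        rw [← smul_mul_assoc, ← mul_smul_comm, e, add_mul, mul_add, e1, e2]
      exact smul_right_injective _ two_ne_zero h
    · have e : (2 : ℝ) • (p * q - inv (p * q)) = P1 * Q2 + P2 * Q1 := by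
        rw [key, map_mul, ← hP1, ← hP2, ← hQ1, ← hQ2]; noncomm_ring
      have e1 : P1 * Q2 * b = inv b * (P1 * Q2) := by
        rw [mul_assoc, hq2, ← mul_assoc, hp1, mul_assoc]
      have e2 : P2 * Q1 * b = inv b * (P2 * Q1) := by
        rw [mul_assoc, hq1, ← mul_assoc, hp2, mul_assoc]
      have h : (2 : ℝ) • ((p * q - inv (p * q)) * b)
          = (2 : ℝ) • (inv b * (p * q - inv (p * q))) := by
        rw [← smul_mul_assoc, ← mul_smul_comm, e, add_mul, mul_add, e1, e2]
      exact smul_right_injective _ two_ne_zero h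
  | add p q hp hq =>
    refine ⟨fun b => ?_, fun b => ?_⟩
    · have e : p + q + inv (p + q) = (p + inv p) + (q + inv q) := by rw [map_add]; abel
      rw [e, add_mul, mul_add, hp.1, hq.1]
    · have e : p + q - inv (p + q) = (p - inv p) + (q - inv q) := by rw [map_add]; abel
      rw [e, add_mul, mul_add, hp.2, hq.2]

theorem even_comm {a : Ext E} (h : inv a = a) (b : Ext E) : a * b = b * a := by
  have := (ev_od a).1 b
  rw [h, ← two_smul ℝ, smul_mul_assoc, mul_smul_comm] at this
  exact smul_right_injective _ two_ne_zero this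

theorem odd_comm {a : Ext E} (h : inv a = -a) (b : Ext E) : a * b = inv b * a := by
  have := (ev_od a).2 b
  rw [h, sub_neg_eq_add, ← two_smul ℝ, smul_mul_assoc, mul_smul_comm] at this
  exact smul_right_injective _ two_ne_zero this

/-- complex valued forms at a point -/
abbrev CF (E : Type*) [AddCommGroup E] [Module ℝ E] := Cx (Ext E)

/-- grade involution -/
def invC : CF E →+* CF E := Cx.map ((inv : Ext E →ₐ[ℝ] Ext E) : Ext E →+* Ext E)

@[simp] theorem invC_re (z : CF E) : (invC z).re = inv z.re := rfl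
@[simp] theorem invC_im (z : CF E) : (invC z).im = inv z.im := rfl
theorem invC_invC (z : CF E) : invC (invC z) = z := by
  refine Cx.ext ?_ ?_ <;> simp [F.inv_inv]
@[simp] theorem invC_algebraMap (z : ℂ) : invC (algebraMap ℂ (CF E) z) = algebraMap ℂ (CF E) z :=
  Cx.map_algebraMap _ z
@[simp] theorem invC_smul (z : ℂ) (a : CF E) : invC (z • a) = z • invC a :=
  Cx.map_smul _ z a

theorem even_commC {a : CF E} (h : invC a = a) (b : CF E) : a * b = b * a := by
  have h1 : inv a.re = a.re := congrArg Cx.re h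
  have h2 : inv a.im = a.im := congrArg Cx.im h
  refine Cx.ext ?_ ?_
  · rw [Cx.mul_re, Cx.mul_re, even_comm h1, even_comm h2]
  · rw [Cx.mul_im, Cx.mul_im, even_comm h1, even_comm h2, add_comm]

theorem odd_commC {a : CF E} (h : invC a = -a) (b : CF E) : a * b = invC b * a := by
  have h1 : inv a.re = -a.re := congrArg Cx.re h
  have h2 : inv a.im = -a.im := congrArg Cx.im h
  refine Cx.ext ?_ ?_
  · rw [Cx.mul_re, Cx.mul_re, odd_comm h1, odd_comm h2]; rfl
  · rw [Cx.mul_im, Cx.mul_im, odd_comm h1, odd_comm h2, add_comm]; rfl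

/-- pull back of complex forms by a linear map -/
def pbC (A : E →ₗ[ℝ] F) : CF F →+* CF E := Cx.map ((pb A : Ext F →ₐ[ℝ] Ext E) : Ext F →+* Ext E)

@[simp] theorem pbC_re (A : E →ₗ[ℝ] F) (z : CF F) : (pbC A z).re = pb A z.re := rfl
@[simp] theorem pbC_im (A : E →ₗ[ℝ] F) (z : CF F) : (pbC A z).im = pb A z.im := rfl
@[simp] theorem pbC_algebraMap (A : E →ₗ[ℝ] F) (z : ℂ) :
    pbC A (algebraMap ℂ (CF F) z) = algebraMap ℂ (CF E) z := Cx.map_algebraMap _ z
@[simp] theorem pbC_smul (A : E →ₗ[ℝ] F) (z : ℂ) (a : CF F) : pbC A (z • a) = z • pbC A a :=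
  Cx.map_smul _ z a
theorem pbC_invC (A : E →ₗ[ℝ] F) (z : CF F) : pbC A (invC z) = invC (pbC A z) := by
  refine Cx.ext ?_ ?_ <;> simp [pb_inv]

end parity

/-! ### calculus -/

section clc
variable {E F G : Type*} [NormedAddCommGroup E] [NormedSpace ℝ E] [FiniteDimensional ℝ E]
  [NormedAddCommGroup F] [NormedSpace ℝ F] [FiniteDimensional ℝ F]
  [NormedAddCommGroup G] [NormedSpace ℝ G]

/-- regularity of a complex form -/
structure CD (k : WithTop ℕ∞) (om : G → CF E) (x : G) : Prop where
  re : ContDiffAt ℝ k (fun y => (om y).re) x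
  im : ContDiffAt ℝ k (fun y => (om y).im) x

namespace CD
variable {k m : WithTop ℕ∞} {om η : G → CF E} {x : G}

theorem of_le (h : CD k om x) (hm : m ≤ k) : CD m om x := ⟨h.re.of_le hm, h.im.of_le hm⟩

theorem congr (h : CD k om x) (hη : η =ᶠ[𝓝 x] om) : CD k η x :=
  ⟨h.re.congr_of_eventuallyEq (hη.mono fun y hy => by simp only [hy]),
    h.im.congr_of_eventuallyEq (hη.mono fun y hy => by simp only [hy])⟩

theorem const (c : CF E) : CD k (fun _ : G => c) x := ⟨contDiffAt_const, contDiffAt_const⟩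

theorem add (h : CD k om x) (h' : CD k η x) : CD k (fun y => om y + η y) x :=
  ⟨h.re.add h'.re, h.im.add h'.im⟩

theorem neg (h : CD k om x) : CD k (fun y => -om y) x := ⟨h.re.neg, h.im.neg⟩

theorem sub (h : CD k om x) (h' : CD k η x) : CD k (fun y => om y - η y) x := by
  simpa only [sub_eq_add_neg] using h.add h'.neg

theorem mul (h : CD k om x) (h' : CD k η x) : CD k (fun y => om y * η y) x :=
  ⟨(contDiffAt_mul h.re h'.re).sub (contDiffAt_mul h.im h'.im),
    (contDiffAt_mul h.re h'.im).add (contDiffAt_mul h.im h'.re)⟩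

theorem sum {ι : Type*} {s : Finset ι} {om : ι → G → CF E} (h : ∀ i ∈ s, CD k (om i) x) :
    CD k (fun y => ∑ i ∈ s, om i y) x := by
  refine ⟨?_, ?_⟩
  · simp only [Cx.sum_re]; exact ContDiffAt.sum fun i hi => (h i hi).re
  · simp only [Cx.sum_im]; exact ContDiffAt.sum fun i hi => (h i hi).im

theorem csmul (z : ℂ) (h : CD k om x) : CD k (fun y => z • om y) x := by
  refine ⟨?_, ?_⟩
  · simp only [Cx.csmul_re]; exact (h.re.const_smul _).sub (h.im.const_smul _)
  · simp only [Cx.csmul_im]; exact (h.im.const_smul _).add (h.re.const_smul _)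

theorem rsmul (z : ℝ) (h : CD k om x) : CD k (fun y => z • om y) x :=
  ⟨h.re.const_smul _, h.im.const_smul _⟩

theorem pow (h : CD k om x) (j : ℕ) : CD k (fun y => om y ^ j) x := by
  induction j with
  | zero => simpa only [pow_zero] using CD.const 1
  | succ j ih => simpa only [pow_succ] using ih.mul h

theorem invC (h : CD k om x) : CD k (fun y => invC (om y)) x :=
  ⟨(invL (E := E)).contDiff.contDiffAt.comp x h.re, (invL (E := E)).contDiff.contDiffAt.comp x h.im⟩

/-- scalar functions are forms -/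
theorem of_fun {g : G → ℂ} (h : ContDiffAt ℝ k g x) :
    CD k (fun y => algebraMap ℂ (CF E) (g y)) x := by
  have hr : ContDiffAt ℝ k (fun y => (g y).re) x := Complex.reCLM.contDiff.contDiffAt.comp x h
  have hi : ContDiffAt ℝ k (fun y => (g y).im) x := Complex.imCLM.contDiff.contDiffAt.comp x h
  refine ⟨?_, ?_⟩
  · have : (fun y => (algebraMap ℂ (CF E) (g y)).re) = fun y => (g y).re • (1 : Ext E) := by
      funext y; rw [Cx.algebraMap_re, Algebra.algebraMap_eq_smul_one]
    rw [this]
    exact ContDiffAt.smul (g := fun _ => (1 : Ext E)) hr contDiffAt_const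
  · have : (fun y => (algebraMap ℂ (CF E) (g y)).im) = fun y => (g y).im • (1 : Ext E) := by
      funext y; rw [Cx.algebraMap_im, Algebra.algebraMap_eq_smul_one]
    rw [this]
    exact ContDiffAt.smul (g := fun _ => (1 : Ext E)) hi contDiffAt_const

theorem comp {f : F → G} {y : F} (h : CD k om (f y)) (hf : ContDiffAt ℝ k f y) :
    CD k (fun z => om (f z)) y := ⟨h.re.comp y hf, h.im.comp y hf⟩

end CD

/-- exterior derivative of complex forms -/
def dC (om : E → CF E) (x : E) : CF E := ⟨d (fun y => (om y).re) x, d (fun y => (om y).im) x⟩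

variable {om η : E → CF E} {x : E}

private theorem dfa {f : E → Ext E} (h : ContDiffAt ℝ 1 f x) : DifferentiableAt ℝ f x :=
  h.differentiableAt (by norm_num)

theorem dC_congr (h : om =ᶠ[𝓝 x] η) : dC om x = dC η x :=
  Cx.ext (d_congr (h.mono fun y hy => by simp only [hy])) (d_congr (h.mono fun y hy => by simp only [hy]))

theorem dC_congr_nhds (h : om =ᶠ[𝓝 x] η) : dC om =ᶠ[𝓝 x] dC η := by
  filter_upwards [h.eventuallyEq_nhds] with y hy using dC_congr hy

theorem dC_const (c : CF E) (x : E) : dC (fun _ => c) x = 0 := Cx.ext (d_const _ _) (d_const _ _)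

theorem dC_add (h : CD 1 om x) (h' : CD 1 η x) :
    dC (fun y => om y + η y) x = dC om x + dC η x :=
  Cx.ext (d_add (dfa h.re) (dfa h'.re)) (d_add (dfa h.im) (dfa h'.im))

theorem dC_neg : dC (fun y => - om y) x = - dC om x := Cx.ext d_neg d_neg

theorem dC_sub (h : CD 1 om x) (h' : CD 1 η x) :
    dC (fun y => om y - η y) x = dC om x - dC η x := by
  simp only [sub_eq_add_neg]
  rw [dC_add h h'.neg, dC_neg]

theorem dC_mul (h : CD 1 om x) (h' : CD 1 η x) :
    dC (fun y => om y * η y) x = dC om x * η x + invC (om x) * dC η x := by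
  refine Cx.ext ?_ ?_
  · have h1 := contDiffAt_mul h.re h'.re
    have h2 := contDiffAt_mul h.im h'.im
    change d (fun y => (om y).re * (η y).re - (om y).im * (η y).im) x = _
    rw [d_sub (dfa h1) (dfa h2), d_mul (dfa h.re) (dfa h'.re), d_mul (dfa h.im) (dfa h'.im)]
    simp only [Cx.add_re, Cx.mul_re, dC, invC_re, invC_im]
    abel
  · have h1 := contDiffAt_mul h.re h'.im
    have h2 := contDiffAt_mul h.im h'.re
    change d (fun y => (om y).re * (η y).im + (om y).im * (η y).re) x = _
    rw [d_add (dfa h1) (dfa h2), d_mul (dfa h.re) (dfa h'.im), d_mul (dfa h.im) (dfa h'.re)]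
    simp only [Cx.add_im, Cx.mul_im, dC, invC_re, invC_im]
    abel

theorem dC_sum {ι : Type*} (s : Finset ι) {om : ι → E → CF E} (h : ∀ i ∈ s, CD 1 (om i) x) :
    dC (fun y => ∑ i ∈ s, om i y) x = ∑ i ∈ s, dC (om i) x := by
  refine Cx.ext ?_ ?_
  · rw [Cx.sum_re]
    simp only [dC, Cx.sum_re]
    exact d_sum s fun i hi => dfa (h i hi).re
  · rw [Cx.sum_im]
    simp only [dC, Cx.sum_im]
    exact d_sum s fun i hi => dfa (h i hi).im

theorem dC_csmul (z : ℂ) (h : CD 1 om x) : dC (fun y => z • om y) x = z • dC om x := by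
  refine Cx.ext ?_ ?_
  · simp only [dC, Cx.csmul_re]
    rw [d_sub (dfa (h.re.const_smul _)) (dfa (h.im.const_smul _)), d_const_smul _ (dfa h.re),
      d_const_smul _ (dfa h.im)]
  · simp only [dC, Cx.csmul_im]
    rw [d_add (dfa (h.im.const_smul _)) (dfa (h.re.const_smul _)), d_const_smul _ (dfa h.re),
      d_const_smul _ (dfa h.im)]

theorem dC_rsmul (z : ℝ) (h : CD 1 om x) : dC (fun y => z • om y) x = z • dC om x :=
  Cx.ext (d_const_smul _ (dfa h.re)) (d_const_smul _ (dfa h.im))

theorem CD.dC {k m : WithTop ℕ∞} (h : CD k om x) (hm : m + 1 ≤ k) : CD m (dC om) x :=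
  ⟨contDiffAt_d h.re hm, contDiffAt_d h.im hm⟩

theorem dC_dC (h : CD 2 om x) : dC (dC om) x = 0 := Cx.ext (d_d h.re) (d_d h.im)

theorem d_inv {om : E → Ext E} {x : E} (h : DifferentiableAt ℝ om x) :
    d (fun y => inv (om y)) x = - inv (d om x) := by
  have h1 : HasFDerivAt (fun y => inv (om y)) ((invL (E := E)).comp (fderiv ℝ om x)) x :=
    (invL (E := E)).hasFDerivAt.comp x h.hasFDerivAt
  rw [d_of_hasFDerivAt h1, d, wd_apply, wd_apply, map_sum, ← Finset.sum_neg_distrib]
  refine Finset.sum_congr rfl fun i _ => ?_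
  rw [map_mul, inv_io, neg_mul, neg_neg]
  rfl

theorem dC_invC (h : CD 1 om x) : dC (fun y => invC (om y)) x = - invC (dC om x) :=
  Cx.ext (d_inv (dfa h.re)) (d_inv (dfa h.im))

/-- pull-back -/
def pullC (f : E → F) (om : F → CF F) (x : E) : CF E :=
  pbC ((fderiv ℝ f x : E →L[ℝ] F) : E →ₗ[ℝ] F) (om (f x))

theorem pullC_re (f : E → F) (om : F → CF F) (x : E) :
    (pullC f om x).re = pull f (fun y => (om y).re) x := rfl
theorem pullC_im (f : E → F) (om : F → CF F) (x : E) :
    (pullC f om x).im = pull f (fun y => (om y).im) x := rfl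

theorem dC_pullC {f : E → F} {om : F → CF F} {x : E} (hf : ContDiffAt ℝ 2 f x)
    (h : CD 1 om (f x)) : dC (pullC f om) x = pullC f (dC om) x := by
  refine Cx.ext ?_ ?_
  · exact d_pull (om := fun y => (om y).re) hf (h.re.differentiableAt (by norm_num))
  · exact d_pull (om := fun y => (om y).im) hf (h.im.differentiableAt (by norm_num))

theorem CD.pullC {k m : WithTop ℕ∞} {f : E → F} {om : F → CF F} {x : E} (hf : ContDiffAt ℝ k f x)
    (hm : m + 1 ≤ k) (h : CD m om (f x)) : CD m (pullC f om) x :=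
  ⟨contDiffAt_pull hf hm h.re, contDiffAt_pull hf hm h.im⟩

end clc

end Crest.Agent.R208.CW
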