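import Crest.Agent.R208.CW0c

/-! Row 208, block CW (helper586).  CW1: matrices of forms; the closed forms
`s_k(Q) = tr (Q (dQ)^(2k))` of a smooth field of idempotents along `X`. -/

set_option autoImplicit false
set_option linter.unusedSectionVars false
set_option linter.unusedSimpArgs false
set_option linter.unusedVariables false

open scoped BigOperators ContDiff Topology
open Module Set

noncomputable section

namespace Crest.Agent.R208.CW

open Crest.Agent.R208.F Crest.Agent.R208.FI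

/-! ### pure algebra of an idempotent with an odd derivation -/

section alg
variable {R : Type*} [Ring R] {q δ : R}

theorem idem_mid (hq : q * q = q) (hδ : δ = δ * q + q * δ) : q * δ * q = 0 := by
  have h : q * δ * q = q * δ * q + q * δ * q := by
    conv_lhs => rw [hδ]
    rw [mul_add, add_mul, mul_assoc q (δ * q) q, mul_assoc δ q q, hq, ← mul_assoc q q δ, hq,
      ← mul_assoc q δ q]
  exact left_eq_add.1 h

theorem idem_compl (hδ : δ = δ * q + q * δ) : δ = δ * (1 - q) + (1 - q) * δ := by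
  have : δ * (1 - q) + (1 - q) * δ = δ + δ - (δ * q + q * δ) := by noncomm_ring
  rw [this, ← hδ, add_sub_cancel_right]

theorem idem_sq_comm (hδ : δ = δ * q + q * δ) : Commute q (δ * δ) := by
  have h1 : q * δ = δ - δ * q := eq_sub_of_add_eq' hδ.symm
  have h2 : δ * q = δ - q * δ := by rw [h1]; abel
  change q * (δ * δ) = δ * δ * q
  have h3 : q * (δ * δ) = δ * δ - δ * (q * δ) := by
    rw [h1, mul_sub, ← mul_assoc, h1, sub_mul, mul_assoc δ q δ, h1, mul_sub, ← mul_assoc]
  rw [h3, mul_assoc, h2, mul_sub]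

theorem idem_pow_comm (hδ : δ = δ * q + q * δ) (k : ℕ) : Commute q (δ ^ (2 * k)) := by
  rw [pow_mul, sq]; exact (idem_sq_comm hδ).pow_right k

theorem idem_odd (hq : q * q = q) (hδ : δ = δ * q + q * δ) (k : ℕ) :
    q * δ ^ (2 * k + 1) * q = 0 := by
  rw [pow_succ, ← mul_assoc, (idem_pow_comm hδ k).eq, mul_assoc, mul_assoc, ← mul_assoc q,
    idem_mid hq hδ, mul_zero]

/-- `q δ^(2k) = q (q δ δ q)^k` -/
theorem idem_pow (hq : q * q = q) (hδ : δ = δ * q + q * δ) (k : ℕ) :
    q * δ ^ (2 * k) = q * (q * (δ * δ) * q) ^ k := by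
  have h1 : q * (δ * δ) * q = q * (δ * δ) := by
    rw [mul_assoc, ← (idem_sq_comm hδ).eq, ← mul_assoc, hq]
  rw [h1]
  rw [pow_mul, sq, (idem_sq_comm hδ).mul_pow, ← mul_assoc, ← pow_succ']
  cases k with
  | zero => simp
  | succ k =>
    have : q ^ (k + 1 + 1) = q := by
      induction k with
      | zero => rw [zero_add, one_add_one_eq_two, sq, hq]
      | succ k ih => rw [pow_succ, ih, hq]
    have h2 : q ^ (k + 1 + 1) = q := this
    rw [h2]

end alg

/-! ### matrices of forms -/

section matalg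
variable {E : Type*} [AddCommGroup E] [Module ℝ E] {n m l : Type*} [Fintype n] [Fintype m] [Fintype l]

/-- grade involution on matrices -/
def invM (A : Matrix n m (CF E)) : Matrix n m (CF E) := A.map invC

theorem invM_mul (A : Matrix n m (CF E)) (B : Matrix m l (CF E)) :
    invM (A * B) = invM A * invM B := Matrix.map_mul

theorem invM_neg (A : Matrix n m (CF E)) : invM (-A) = - invM A :=
  Matrix.ext fun i j => map_neg invC _

theorem invM_invM (A : Matrix n m (CF E)) : invM (invM A) = A :=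
  Matrix.ext fun i j => invC_invC _

theorem invM_one [DecidableEq n] : invM (1 : Matrix n n (CF E)) = 1 :=
  Matrix.map_one _ (map_zero _) (map_one _)

theorem invM_pow [DecidableEq n] (A : Matrix n n (CF E)) (j : ℕ) : invM (A ^ j) = invM A ^ j := by
  induction j with
  | zero => rw [pow_zero, pow_zero, invM_one]
  | succ j ih => rw [pow_succ, pow_succ, invM_mul, ih]

/-- complex matrix as a matrix of forms -/
def hat (E : Type*) [AddCommGroup E] [Module ℝ E] {n m : Type*} (M : Matrix n m ℂ) :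
    Matrix n m (CF E) := M.map (algebraMap ℂ (CF E))

theorem hat_mul (A : Matrix n m ℂ) (B : Matrix m l ℂ) : hat E (A * B) = hat E A * hat E B :=
  Matrix.map_mul
theorem hat_one [DecidableEq n] : hat E (1 : Matrix n n ℂ) = 1 :=
  Matrix.map_one _ (map_zero _) (map_one _)
theorem hat_zero : hat E (0 : Matrix n m ℂ) = 0 :=
  Matrix.ext fun i j => map_zero (algebraMap ℂ (CF E))
theorem hat_add (A B : Matrix n m ℂ) : hat E (A + B) = hat E A + hat E B :=
  Matrix.ext fun i j => map_add (algebraMap ℂ (CF E)) _ _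
theorem hat_sub (A B : Matrix n m ℂ) : hat E (A - B) = hat E A - hat E B :=
  Matrix.ext fun i j => map_sub (algebraMap ℂ (CF E)) _ _
theorem invM_hat (A : Matrix n m ℂ) : invM (hat E A) = hat E A :=
  Matrix.ext fun i j => invC_algebraMap _

theorem alg_comm (z : ℂ) (c : CF E) : algebraMap ℂ (CF E) z * c = c * algebraMap ℂ (CF E) z :=
  Algebra.commutes z c

theorem trace_hat_comm (A : Matrix n m ℂ) (B : Matrix m n (CF E)) :
    (hat E A * B).trace = (B * hat E A).trace := by
  simp only [Matrix.trace, Matrix.diag_apply, Matrix.mul_apply]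
  rw [Finset.sum_comm]
  exact Finset.sum_congr rfl fun i _ => Finset.sum_congr rfl fun j _ => alg_comm _ _

theorem invC_trace (A : Matrix n n (CF E)) : invC A.trace = (invM A).trace := map_sum invC _ _

theorem trace_odd [DecidableEq n] 
    {q : Matrix n n ℂ} {δ : Matrix n n (CF E)} (hq : q * q = q)
    (hδ : δ = δ * hat E q + hat E q * δ) (j : ℕ) : (hat E q * δ ^ (2 * j + 1)).trace = 0 := by
  have hq' : hat E q * hat E q = hat E q := by rw [← hat_mul, hq]
  have h1 : (hat E q * δ ^ (2 * j + 1)).trace = (hat E q * (hat E q * δ ^ (2 * j + 1))).trace := by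
    rw [← mul_assoc, hq']
  rw [h1, trace_hat_comm, idem_odd hq' hδ, Matrix.trace_zero]

theorem trace_odd_all [DecidableEq n] 
    {q : Matrix n n ℂ} {δ : Matrix n n (CF E)} (hq : q * q = q)
    (hδ : δ = δ * hat E q + hat E q * δ) (j : ℕ) : (δ ^ (2 * j + 1)).trace = 0 := by
  have h1 := trace_odd hq hδ j
  have hc : (1 - q) * (1 - q) = 1 - q := by
    rw [mul_sub, mul_one, sub_mul, one_mul, hq, sub_self, sub_zero]
  have h3 : δ = δ * hat E (1 - q) + hat E (1 - q) * δ := by
    rw [hat_sub, hat_one]; exact idem_compl hδ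
  have h2 := trace_odd hc h3 j
  rw [hat_sub, hat_one, sub_mul, one_mul, Matrix.trace_sub, h1, sub_zero] at h2
  exact h2

end matalg

section dinv
variable {E : Type*} [NormedAddCommGroup E] [NormedSpace ℝ E] [FiniteDimensional ℝ E]

/-- grade involution as a continuous linear equivalence -/
def invE : Ext E ≃L[ℝ] Ext E :=
  LinearEquiv.toContinuousLinearEquiv
    { toFun := fun c => inv c
      invFun := fun c => inv c
      map_add' := fun a b => map_add _ a b
      map_smul' := fun r a => map_smul _ r a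
      left_inv := fun c => F.inv_inv c
      right_inv := fun c => F.inv_inv c }

theorem d_inv' (om : E → Ext E) (x : E) : d (fun y => inv (om y)) x = - inv (d om x) := by
  have h1 : fderiv ℝ (fun y => inv (om y)) x = (invE (E := E) : Ext E →L[ℝ] Ext E).comp (fderiv ℝ om x) :=
    (invE (E := E)).comp_fderiv
  rw [d, h1, d, wd_apply, wd_apply, map_sum, ← Finset.sum_neg_distrib]
  refine Finset.sum_congr rfl fun i _ => ?_
  rw [map_mul, inv_io, neg_mul, neg_neg]
  rfl

theorem dC_invC' (om : E → CF E) (x : E) : dC (fun y => invC (om y)) x = - invC (dC om x) :=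
  Cx.ext (d_inv' _ _) (d_inv' _ _)

end dinv

section mat
variable {E F G : Type*} [NormedAddCommGroup E] [NormedSpace ℝ E] [FiniteDimensional ℝ E]
  [NormedAddCommGroup F] [NormedSpace ℝ F] [FiniteDimensional ℝ F]
  [NormedAddCommGroup G] [NormedSpace ℝ G]
  {n m l : Type*} [Fintype n] [Fintype m] [Fintype l] {k : WithTop ℕ∞} {x : E}

/-- smooth matrix of forms -/
def MD (k : WithTop ℕ∞) (A : G → Matrix n m (CF E)) (x : G) : Prop :=
  ∀ i j, CD k (fun y => A y i j) x

theorem MD.of_le {A : G → Matrix n m (CF E)} {k l : WithTop ℕ∞} {x : G} (h : MD k A x)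
    (hl : l ≤ k) : MD l A x := fun i j => (h i j).of_le hl

theorem MD.mul {A : G → Matrix n m (CF E)} {B : G → Matrix m l (CF E)} {x : G} (hA : MD k A x)
    (hB : MD k B x) : MD k (fun y => A y * B y) x := fun i j => by
  simp only [Matrix.mul_apply]
  exact CD.sum fun a _ => (hA i a).mul (hB a j)

theorem MD.add {A B : G → Matrix n m (CF E)} {x : G} (hA : MD k A x)
    (hB : MD k B x) : MD k (fun y => A y + B y) x := fun i j => (hA i j).add (hB i j)

theorem MD.sub {A B : G → Matrix n m (CF E)} {x : G} (hA : MD k A x)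
    (hB : MD k B x) : MD k (fun y => A y - B y) x := fun i j => (hA i j).sub (hB i j)

theorem MD.const (A : Matrix n m (CF E)) {x : G} : MD k (fun _ => A) x := fun i j => CD.const _

theorem MD.pow [DecidableEq n] {A : G → Matrix n n (CF E)} {x : G} (hA : MD k A x) (j : ℕ) :
    MD k (fun y => A y ^ j) x := by
  induction j with
  | zero => simpa only [pow_zero] using MD.const 1
  | succ j ih => simpa only [pow_succ] using ih.mul hA

theorem MD.trace {A : G → Matrix n n (CF E)} {x : G} (hA : MD k A x) :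
    CD k (fun y => (A y).trace) x := CD.sum fun i _ => hA i i

/-- exterior derivative of a matrix of forms -/
def dM (A : E → Matrix n m (CF E)) (x : E) : Matrix n m (CF E) :=
  Matrix.of fun i j => dC (fun y => A y i j) x

theorem dM_apply (A : E → Matrix n m (CF E)) (x : E) (i : n) (j : m) :
    dM A x i j = dC (fun y => A y i j) x := rfl

theorem dM_mul {A : E → Matrix n m (CF E)} {B : E → Matrix m l (CF E)} (hA : MD 1 A x)
    (hB : MD 1 B x) : dM (fun y => A y * B y) x = dM A x * B x + invM (A x) * dM B x := by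
  refine Matrix.ext fun i j => ?_
  simp only [dM_apply, Matrix.mul_apply, Matrix.add_apply, invM, Matrix.map_apply]
  rw [dC_sum _ fun a _ => (hA i a).mul (hB a j), ← Finset.sum_add_distrib]
  exact Finset.sum_congr rfl fun a _ => dC_mul (hA i a) (hB a j)

theorem dM_add {A B : E → Matrix n m (CF E)} (hA : MD 1 A x) (hB : MD 1 B x) :
    dM (fun y => A y + B y) x = dM A x + dM B x := Matrix.ext fun i j => dC_add (hA i j) (hB i j)

theorem dM_const (A : Matrix n m (CF E)) : dM (fun _ => A) x = 0 :=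
  Matrix.ext fun i j => dC_const _ _

theorem dM_dM {A : E → Matrix n m (CF E)} (hA : MD 2 A x) : dM (dM A) x = 0 :=
  Matrix.ext fun i j => dC_dC (hA i j)

theorem MD.dM {A : E → Matrix n m (CF E)} {k l : WithTop ℕ∞} (hA : MD k A x) (hl : l + 1 ≤ k) :
    MD l (dM A) x := fun i j => (hA i j).dC hl

theorem dC_trace {A : E → Matrix n n (CF E)} (hA : MD 1 A x) :
    dC (fun y => (A y).trace) x = (dM A x).trace := dC_sum _ fun i _ => hA i i

/-! ### complex matrices as matrices of 0-forms -/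

/-- smoothness of a matrix valued function -/
def SM (k : WithTop ℕ∞) (M : G → Matrix n m ℂ) (x : G) : Prop :=
  ∀ i j, ContDiffAt ℝ k (fun y => M y i j) x

theorem SM.of_le {k l : WithTop ℕ∞} {M : G → Matrix n m ℂ} {x : G} (h : SM k M x) (hl : l ≤ k) :
    SM l M x := fun i j => (h i j).of_le hl
theorem SM.const (M : Matrix n m ℂ) {x : G} : SM k (fun _ => M) x := fun i j => contDiffAt_const
theorem SM.add {A B : G → Matrix n m ℂ} {x : G} (hA : SM k A x) (hB : SM k B x) :
    SM k (fun y => A y + B y) x := fun i j => (hA i j).add (hB i j)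
theorem SM.sub {A B : G → Matrix n m ℂ} {x : G} (hA : SM k A x) (hB : SM k B x) :
    SM k (fun y => A y - B y) x := fun i j => (hA i j).sub (hB i j)
theorem SM.mul {A : G → Matrix n m ℂ} {B : G → Matrix m l ℂ} {x : G} (hA : SM k A x)
    (hB : SM k B x) : SM k (fun y => A y * B y) x := fun i j => by
  simp only [Matrix.mul_apply]
  exact ContDiffAt.sum fun a _ => (hA i a).mul (hB a j)
theorem SM.smul {c : G → ℂ} {A : G → Matrix n m ℂ} {x : G} (hc : ContDiffAt ℝ k c x)
    (hA : SM k A x) : SM k (fun y => c y • A y) x := fun i j => hc.mul (hA i j)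
theorem SM.transpose {A : G → Matrix n m ℂ} {x : G} (hA : SM k A x) :
    SM k (fun y => (A y).transpose) x := fun i j => hA j i
theorem SM.conj {A : G → Matrix n m ℂ} {x : G} (hA : SM k A x) :
    SM k (fun y => (A y).map (starRingEnd ℂ)) x := fun i j =>
  (Complex.conjCLE : ℂ ≃L[ℝ] ℂ).contDiff.contDiffAt.comp x (hA i j)
theorem SM.comp {M : G → Matrix n m ℂ} {f : F → G} {y : F} (h : SM k M (f y))
    (hf : ContDiffAt ℝ k f y) : SM k (fun z => M (f z)) y := fun i j => (h i j).comp y hf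

theorem SM.hat {M : G → Matrix n m ℂ} {x : G} (h : SM k M x) :
    MD k (fun y => hat E (M y)) x := fun i j => CD.of_fun (h i j)

/-- the differential of a complex matrix field -/
def DD (M : E → Matrix n m ℂ) (x : E) : Matrix n m (CF E) := dM (fun y => hat E (M y)) x

theorem DD_apply (M : E → Matrix n m ℂ) (x : E) (i : n) (j : m) :
    DD M x i j = dC (fun y => algebraMap ℂ (CF E) (M y i j)) x := rfl

theorem invM_DD (M : E → Matrix n m ℂ) (x : E) : invM (DD M x) = - DD M x := by
  refine Matrix.ext fun i j => ?_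
  have h := dC_invC' (fun y => algebraMap ℂ (CF E) (M y i j)) x
  simp only [invC_algebraMap] at h
  change invC (DD M x i j) = - DD M x i j
  rw [DD_apply]
  exact (neg_eq_iff_eq_neg.2 h).symm ▸ rfl

theorem DD_mul {A : E → Matrix n m ℂ} {B : E → Matrix m l ℂ} (hA : SM 1 A x) (hB : SM 1 B x) :
    DD (fun y => A y * B y) x = DD A x * hat E (B x) + hat E (A x) * DD B x := by
  have h := dM_mul (hA.hat (E := E)) (hB.hat (E := E))
  rw [invM_hat] at h
  rw [DD, DD, DD, ← h]
  congr 1
  funext y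
  exact hat_mul _ _

theorem DD_add {A B : E → Matrix n m ℂ} (hA : SM 1 A x) (hB : SM 1 B x) :
    DD (fun y => A y + B y) x = DD A x + DD B x := by
  rw [DD, DD, DD, ← dM_add (hA.hat (E := E)) (hB.hat (E := E))]
  congr 1
  funext y
  exact hat_add _ _

theorem DD_const (M : Matrix n m ℂ) : DD (fun _ : E => M) x = 0 := dM_const _

theorem SM.MD_DD {M : E → Matrix n m ℂ} {k l : WithTop ℕ∞} (h : SM k M x) (hl : l + 1 ≤ k) :
    MD l (DD M) x := h.hat.dM hl

theorem dM_DD {M : E → Matrix n m ℂ} (h : SM 2 M x) : dM (DD M) x = 0 := dM_dM h.hat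

theorem dM_DD_pow [DecidableEq n] {M : E → Matrix n n ℂ} (h : SM 2 M x) (j : ℕ) :
    dM (fun y => DD M y ^ j) x = 0 := by
  have h1 : MD 1 (DD M) x := h.MD_DD (by norm_num)
  induction j with
  | zero => simp only [pow_zero]; exact dM_const _
  | succ j ih =>
    simp only [pow_succ]
    rw [dM_mul (h1.pow j) h1, ih, dM_DD h, zero_mul, mul_zero, add_zero]

/-! ### the forms `s_k` -/

/-- `s_k(Q) = tr (Q (dQ)^{2k})` -/
def sf [DecidableEq n] (k : ℕ) (Q : E → Matrix n n ℂ) (x : E) : CF E := (hat E (Q x) * DD Q x ^ (2 * k)).trace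

theorem invC_sf [DecidableEq n] (j : ℕ) (Q : E → Matrix n n ℂ) (x : E) : invC (sf j Q x) = sf j Q x := by
  rw [sf, invC_trace, invM_mul, invM_hat, invM_pow, invM_DD, neg_pow, pow_mul (-1 : Matrix n n (CF E)),
    neg_one_sq, one_pow, one_mul]

theorem CD_sf [DecidableEq n] {Q : E → Matrix n n ℂ} {k l : WithTop ℕ∞} (h : SM k Q x) (hl : l + 1 ≤ k) (j : ℕ) :
    CD l (sf j Q) x :=
  ((h.of_le (le_trans le_self_add hl)).hat.mul ((h.MD_DD hl).pow (2 * j))).trace

theorem dC_sf [DecidableEq n] {Q : E → Matrix n n ℂ} (h : SM 2 Q x) (j : ℕ) :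
    dC (sf j Q) x = (DD Q x ^ (2 * j + 1)).trace := by
  have h1 : MD 1 (DD Q) x := h.MD_DD (by norm_num)
  have h0 : MD 1 (fun y => hat E (Q y)) x := (h.of_le (by norm_num)).hat
  change dC (fun y => (hat E (Q y) * DD Q y ^ (2 * j)).trace) x = _
  rw [dC_trace (h0.mul (h1.pow _)), dM_mul h0 (h1.pow _), dM_DD_pow h, mul_zero, add_zero, pow_succ']
  rfl

/-! ### restriction to `X` -/

variable {X : Set E} {Y : Set F} {dX dY : ℕ}

/-- restriction of matrices to the tangent space -/
def rsM (X : Set E) (x : E) (A : Matrix n m (CF E)) : Matrix n m (CF (Tan X x)) := A.map (rs X x)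

theorem rsM_mul (A : Matrix n m (CF E)) (B : Matrix m l (CF E)) :
    rsM X x (A * B) = rsM X x A * rsM X x B := Matrix.map_mul
theorem rsM_add (A B : Matrix n m (CF E)) : rsM X x (A + B) = rsM X x A + rsM X x B :=
  Matrix.ext fun i j => map_add (rs X x) _ _
theorem rsM_one [DecidableEq n] : rsM X x (1 : Matrix n n (CF E)) = 1 := Matrix.map_one _ (map_zero _) (map_one _)
theorem rsM_pow [DecidableEq n] (A : Matrix n n (CF E)) (j : ℕ) : rsM X x (A ^ j) = rsM X x A ^ j := by
  induction j with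
  | zero => rw [pow_zero, pow_zero, rsM_one]
  | succ j ih => rw [pow_succ, pow_succ, rsM_mul, ih]
theorem rsM_hat (A : Matrix n m ℂ) : rsM X x (hat E A) = hat (Tan X x) A :=
  Matrix.ext fun i j => rs_algebraMap _
theorem rs_trace (A : Matrix n n (CF E)) : rs X x A.trace = (rsM X x A).trace := map_sum (rs X x) _ _

/-- restricted differential of a matrix field -/
def dl (X : Set E) (M : E → Matrix n m ℂ) (x : E) : Matrix n m (CF (Tan X x)) := rsM X x (DD M x)

theorem invM_dl (M : E → Matrix n m ℂ) (x : E) : invM (dl X M x) = - dl X M x := by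
  have h := invM_DD M x
  refine Matrix.ext fun i j => ?_
  change invC (rs X x (DD M x i j)) = - rs X x (DD M x i j)
  rw [← rs_invC, ← map_neg]
  congr 1
  exact congrFun (congrFun h i) j

theorem dl_mul {A : E → Matrix n m ℂ} {B : E → Matrix m l ℂ} (hA : SM 1 A x) (hB : SM 1 B x) :
    dl X (fun y => A y * B y) x = dl X A x * hat (Tan X x) (B x) + hat (Tan X x) (A x) * dl X B x := by
  rw [dl, DD_mul hA hB, rsM_add, rsM_mul, rsM_mul, rsM_hat, rsM_hat]; rfl

theorem dl_add {A B : E → Matrix n m ℂ} (hA : SM 1 A x) (hB : SM 1 B x) :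
    dl X (fun y => A y + B y) x = dl X A x + dl X B x := by
  rw [dl, DD_add hA hB, rsM_add]; rfl

theorem dl_const (M : Matrix n m ℂ) : dl X (fun _ : E => M) x = 0 := by
  rw [dl, DD_const]; exact Matrix.ext fun i j => map_zero (rs X x)

theorem dl_congr (hX : Sub dX X) (hx : x ∈ X) {A B : E → Matrix n m ℂ} (hA : SM 1 A x)
    (hB : SM 1 B x) (h : ∀ y ∈ X, A y = B y) : dl X A x = dl X B x := by
  refine Matrix.ext fun i j => ?_
  exact rs_dC_congr hX hx (CD.of_fun (hA i j)) (CD.of_fun (hB i j))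
    (Filter.Eventually.of_forall fun y hy => by simp only [h y hy])

/-- smooth field of idempotents along `X` -/
structure IdF (X : Set E) (Q : E → Matrix n n ℂ) : Prop where
  smooth : ∀ x ∈ X, SM ∞ Q x
  idem : ∀ x ∈ X, Q x * Q x = Q x

theorem one_le_inf : (1 : WithTop ℕ∞) ≤ ∞ := WithTop.coe_le_coe.2 le_top

theorem IdF.s1 {Q : E → Matrix n n ℂ} (hQ : IdF X Q) (hx : x ∈ X) : SM 1 Q x :=
  (hQ.smooth x hx).of_le one_le_inf
theorem IdF.s2 {Q : E → Matrix n n ℂ} (hQ : IdF X Q) (hx : x ∈ X) : SM 2 Q x :=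
  (hQ.smooth x hx).of_le two_le

theorem IdF.hat_idem {Q : E → Matrix n n ℂ} (hQ : IdF X Q) (hx : x ∈ X) :
    hat F (Q x) * hat F (Q x) = hat F (Q x) := by rw [← hat_mul, hQ.idem x hx]

theorem IdF.dl_eq {Q : E → Matrix n n ℂ} (hX : Sub dX X) (hQ : IdF X Q) (hx : x ∈ X) :
    dl X Q x = dl X Q x * hat (Tan X x) (Q x) + hat (Tan X x) (Q x) * dl X Q x := by
  conv_lhs => rw [dl_congr hX hx (hQ.s1 hx) ((hQ.s1 hx).mul (hQ.s1 hx))
    (fun y hy => (hQ.idem y hy).symm)]
  rw [dl_mul (hQ.s1 hx) (hQ.s1 hx)]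

theorem rs_sf [DecidableEq n] (j : ℕ) (Q : E → Matrix n n ℂ) (x : E) :
    rs X x (sf j Q x) = (hat (Tan X x) (Q x) * dl X Q x ^ (2 * j)).trace := by
  rw [sf, rs_trace, rsM_mul, rsM_hat, rsM_pow]; rfl

theorem rs_trace_pow [DecidableEq n] (M : E → Matrix n n ℂ) (x : E) (j : ℕ) :
    rs X x ((DD M x ^ j).trace) = (dl X M x ^ j).trace := by
  rw [rs_trace, rsM_pow]; rfl

theorem rs_dC_sf [DecidableEq n] (hX : Sub dX X) {Q : E → Matrix n n ℂ} (hQ : IdF X Q)
    (j : ℕ) (hx : x ∈ X) : rs X x (dC (sf j Q) x) = 0 := by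
  have h1 := dC_sf (hQ.s2 hx) j
  have h2 := rs_trace_pow (X := X) Q x (2 * j + 1)
  have h3 := trace_odd_all (hQ.idem x hx) (hQ.dl_eq hX hx) j
  rw [h1, h2, h3]

theorem inf_add_one : (∞ : WithTop ℕ∞) + 1 ≤ ∞ := le_refl _

theorem Smo_sf [DecidableEq n] {Q : E → Matrix n n ℂ} (hQ : IdF X Q) (j : ℕ) :
    Smo X (sf j Q) := fun x hx => CD_sf (k := ∞) (l := ∞) (hQ.smooth x hx) inf_add_one j

theorem sf_mem_Z [DecidableEq n] (hX : Sub dX X) {Q : E → Matrix n n ℂ} (hQ : IdF X Q) (j : ℕ) :
    sf j Q ∈ Z X :=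
  mem_Z.2 ⟨fun x => invC_sf j Q x, Smo_sf hQ j, fun x hx => rs_dC_sf hX hQ j hx⟩

/-- the class of `s_k(Q)` -/
def sc [DecidableEq n] (hX : Sub dX X) {Q : E → Matrix n n ℂ} (hQ : IdF X Q) (j : ℕ) : H X :=
  cls (sf j Q) (sf_mem_Z hX hQ j)

/-- naturality of the differential -/
theorem pbC_DD {f : E → F} {M : F → Matrix n m ℂ} (hf : ContDiffAt ℝ 2 f x) (hM : SM 1 M (f x)) :
    (DD M (f x)).map (pbC ((fderiv ℝ f x : E →L[ℝ] F) : E →ₗ[ℝ] F))
      = DD (fun y => M (f y)) x := by
  refine Matrix.ext fun i j => ?_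
  have h := dC_pullC (om := fun y => algebraMap ℂ (CF F) (M y i j)) hf (CD.of_fun (hM i j))
  have h2 : pullC f (fun y => algebraMap ℂ (CF F) (M y i j))
      = fun y => algebraMap ℂ (CF E) (M (f y) i j) := funext fun y => pbC_algebraMap _ _
  rw [h2] at h
  exact h.symm

theorem pullC_sf [DecidableEq n] {f : E → F} {Q : F → Matrix n n ℂ} (hf : ContDiffAt ℝ 2 f x)
    (hQ : SM 1 Q (f x)) (j : ℕ) : pullC f (sf j Q) x = sf j (fun y => Q (f y)) x := by
  set φ : CF F →+* CF E := pbC ((fderiv ℝ f x : E →L[ℝ] F) : E →ₗ[ℝ] F) with hφ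
  have h1 : pullC f (sf j Q) x = φ ((hat F (Q (f x)) * DD Q (f x) ^ (2 * j)).trace) := rfl
  have h2 : ∀ A : Matrix n n (CF F), φ A.trace = (φ.mapMatrix A).trace := fun A => map_sum φ _ _
  have h3 : φ.mapMatrix (DD Q (f x)) = DD (fun y => Q (f y)) x := pbC_DD hf hQ
  have h4 : φ.mapMatrix (hat F (Q (f x))) = hat E (Q (f x)) :=
    Matrix.ext fun i j => pbC_algebraMap _ _
  rw [h1, h2, map_mul, map_pow, h3, h4]
  rfl

theorem IdF.comp {Q : F → Matrix n n ℂ} (hQ : IdF Y Q) {f : E → F} (hf : SMap X Y f) :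
    IdF X (fun x => Q (f x)) :=
  ⟨fun x hx => (hQ.smooth _ (hf.maps hx)).comp (hf.smooth x hx), fun x hx => hQ.idem _ (hf.maps hx)⟩

/-- functoriality of `s_k` -/
theorem map_sc [DecidableEq n] (hX : Sub dX X) (hY : Sub dY Y) {f : E → F} (hf : SMap X Y f)
    {Q : F → Matrix n n ℂ} (hQ : IdF Y Q) (j : ℕ) :
    H.map hf (sc hY hQ j) = sc hX (hQ.comp hf) j := by
  rw [sc, H.map_cls]
  exact cls_congr fun x hx => by rw [pullC_sf (hf.c2 hx) (hQ.s1 (hf.maps hx))]

theorem sc_congr [DecidableEq n] (hX : Sub dX X) {Q Q' : E → Matrix n n ℂ} (hQ : IdF X Q) (hQ' : IdF X Q')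
    (h : ∀ x ∈ X, Q x = Q' x) (j : ℕ) : sc hX hQ j = sc hX hQ' j :=
  cls_congr fun x hx => by
    rw [rs_sf, rs_sf, h x hx, dl_congr hX hx (hQ.s1 hx) (hQ'.s1 hx) h]

end mat

end Crest.Agent.R208.CW
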