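import Mathlib

/-! Row 208, block CW (helper586).  CW3: Newton identities for `det (1 + t M)` over a commutative
ring, the formal Chern series of a sequence of power sums. -/

set_option autoImplicit false
set_option linter.unusedSectionVars false
set_option linter.unusedSimpArgs false
set_option linter.unusedVariables false

open Polynomial Matrix

noncomputable section

namespace Crest.Agent.R208.CW

section newton
variable {A : Type*} [CommRing A] {n : Type*} [Fintype n] [DecidableEq n]

/-- `det (1 + X M)` -/
def cpoly (M : Matrix n n A) : A[X] := det (1 + (X : A[X]) • M.map C)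

theorem cpoly_map {B : Type*} [CommRing B] (f : A →+* B) (M : Matrix n n A) :
    (cpoly M).map f = cpoly (M.map f) := by
  have h := RingHom.map_det (Polynomial.mapRingHom f) (1 + (X : A[X]) • M.map C)
  rw [cpoly, cpoly, ← Polynomial.coe_mapRingHom, h]
  congr 1
  refine Matrix.ext fun i j => ?_
  simp only [RingHom.mapMatrix_apply, map_apply, Matrix.add_apply, Matrix.smul_apply, smul_eq_mul, map_add,
    map_mul, coe_mapRingHom, map_X, map_C]
  rw [Polynomial.map_mul, map_X, map_C]
  congr 1
  by_cases h : i = j
  · subst h; simp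
  · simp [Matrix.one_apply_ne h]

theorem cpoly_coeff_zero (M : Matrix n n A) : (cpoly M).coeff 0 = 1 := by
  rw [coeff_zero_eq_eval_zero, cpoly, eval_det_add_X_smul, det_one, eval_one]

theorem cpoly_coeff_one (M : Matrix n n A) : (cpoly M).coeff 1 = M.trace :=
  coeff_det_one_add_X_smul_one M

/-- the inverse of `1 + X M` -/
def gi (M : Matrix n n A) : Matrix n n (PowerSeries A) :=
  Matrix.of fun a b => PowerSeries.mk fun i => (-1) ^ i * (M ^ i) a b

theorem mul_gi (M : Matrix n n A) :
    (1 + (PowerSeries.X : PowerSeries A) • M.map (PowerSeries.C (R := A))) * gi M = 1 := by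
  refine Matrix.ext fun a b => ?_
  rw [add_mul, one_mul, smul_mul, Matrix.add_apply, Matrix.smul_apply, smul_eq_mul, Matrix.mul_apply]
  refine PowerSeries.ext fun i => ?_
  cases i with
  | zero =>
    rw [map_add, PowerSeries.coeff_zero_X_mul, add_zero, gi, of_apply, PowerSeries.coeff_mk, pow_zero,
      pow_zero, one_mul]
    by_cases h : a = b
    · subst h; simp
    · simp [Matrix.one_apply_ne h]
  | succ i =>
    rw [map_add, PowerSeries.coeff_succ_X_mul, map_sum, gi, of_apply, PowerSeries.coeff_mk]
    simp only [map_apply, of_apply, PowerSeries.coeff_C_mul, PowerSeries.coeff_mk]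
    have h1 : ∑ c, M a c * ((-1) ^ i * (M ^ i) c b) = (-1) ^ i * (M ^ (i + 1)) a b := by
      rw [pow_succ', Matrix.mul_apply, Finset.mul_sum]
      exact Finset.sum_congr rfl fun c _ => by ring
    rw [h1, pow_succ, mul_neg, mul_one, neg_mul, neg_add_cancel]
    by_cases h : a = b
    · subst h; simp [PowerSeries.coeff_one]
    · simp [Matrix.one_apply_ne h]

theorem gi_trace (M : Matrix n n A) : (gi M * M.map (PowerSeries.C (R := A))).trace
    = PowerSeries.mk fun i => (-1) ^ i * (M ^ (i + 1)).trace := by
  refine PowerSeries.ext fun i => ?_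
  rw [PowerSeries.coeff_mk, trace, map_sum, trace, Finset.mul_sum]
  refine Finset.sum_congr rfl fun a _ => ?_
  rw [diag_apply, Matrix.mul_apply, map_sum, diag_apply, pow_succ, Matrix.mul_apply, Finset.mul_sum]
  refine Finset.sum_congr rfl fun b _ => ?_
  rw [map_apply, PowerSeries.coeff_mul_C, gi, of_apply, PowerSeries.coeff_mk, mul_assoc]

/-- Newton's identities as a differential equation -/
theorem cpoly_ode (M : Matrix n n A) :
    PowerSeries.derivative A (cpoly M : PowerSeries A)
      = (cpoly M : PowerSeries A) * PowerSeries.mk fun i => (-1) ^ i * (M ^ (i + 1)).trace := by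
  set ι : A →+* PowerSeries A := PowerSeries.C (R := A) with hι
  set x : PowerSeries A := PowerSeries.X with hx
  set f : (PowerSeries A)[X] := (cpoly M).map ι with hf
  have h1 : ∀ p : A[X], (p.map ι).eval x = (p : PowerSeries A) := fun p => by
    rw [eval_map]; exact eval₂_C_X_eq_coe
  have h2 : f.derivative.eval x = PowerSeries.derivative A (cpoly M : PowerSeries A) := by
    rw [PowerSeries.derivative_coe, hf, derivative_map, h1]
  rw [← h2, ← taylor_coeff_one, taylor_apply]
  have h3 : f.comp (X + C x) = det ((1 + x • M.map ι).map C + (X : (PowerSeries A)[X]) • (M.map ι).map C) := by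
    have h := RingHom.map_det (Polynomial.compRingHom (X + C x))
      (1 + (X : (PowerSeries A)[X]) • (M.map ι).map C)
    rw [hf, cpoly_map, cpoly, ← coe_compRingHom_apply, h]
    congr 1
    refine Matrix.ext fun i j => ?_
    simp only [RingHom.mapMatrix_apply, map_apply, Matrix.add_apply, Matrix.smul_apply, smul_eq_mul, map_add,
      map_mul, coe_compRingHom_apply, X_comp, C_comp]
    by_cases h : i = j
    · subst h; simp only [one_apply_eq, one_comp, map_one]; ring
    · simp only [one_apply_ne h, zero_comp, map_zero]; ring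
  have h4 : (1 + x • M.map ι).map C + (X : (PowerSeries A)[X]) • (M.map ι).map C
      = (1 + x • M.map ι).map C * (1 + (X : (PowerSeries A)[X]) • (gi M * M.map ι).map C) := by
    have h5 : (1 + x • M.map ι) * (gi M * M.map ι) = M.map ι := by
      rw [← mul_assoc, mul_gi, one_mul]
    rw [mul_add, mul_one, Matrix.mul_smul, ← Matrix.map_mul, h5]
  rw [h3, h4, det_mul]
  have h6 : ((1 + x • M.map ι).map C).det = C ((1 + x • M.map ι).det) :=
    (RingHom.map_det (C : PowerSeries A →+* (PowerSeries A)[X]) _).symm
  have h7 : (1 + x • M.map ι).det = (cpoly M : PowerSeries A) := by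
    rw [← h1, ← coe_evalRingHom, cpoly_map, cpoly, RingHom.map_det]
    congr 1
    refine Matrix.ext fun i j => ?_
    simp only [RingHom.mapMatrix_apply, map_apply, Matrix.add_apply, Matrix.smul_apply, smul_eq_mul,
      coe_evalRingHom, eval_add, eval_mul, eval_X, eval_C]
    by_cases h : i = j
    · subst h; simp [mul_comm]
    · simp [Matrix.one_apply_ne h, mul_comm]
  rw [h6, coeff_C_mul, h7]
  congr 1
  have h8 := cpoly_coeff_one (gi M * M.map ι)
  rw [cpoly] at h8
  rw [h8, gi_trace]

/-- **Newton's identities** -/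
theorem newton (M : Matrix n n A) (j : ℕ) :
    ((j : A) + 1) * (cpoly M).coeff (j + 1)
      = ∑ i ∈ Finset.range (j + 1), (-1) ^ i * (cpoly M).coeff (j - i) * (M ^ (i + 1)).trace := by
  have h := congrArg (PowerSeries.coeff j) (cpoly_ode M)
  rw [PowerSeries.coeff_derivative, PowerSeries.coeff_mul, Polynomial.coeff_coe, mul_comm] at h
  rw [h, Finset.Nat.sum_antidiagonal_eq_sum_range_succ_mk, ← Finset.sum_range_reflect]
  refine Finset.sum_congr rfl fun i hi => ?_
  have hi' : i ≤ j := Nat.lt_succ_iff.1 (Finset.mem_range.1 hi)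
  have e1 : j + 1 - 1 - i = j - i := by omega
  have e2 : j - (j - i) = i := by omega
  simp only [e1, e2, Polynomial.coeff_coe, PowerSeries.coeff_mk]
  ring

/-- Sylvester: `det (1 + X S T)` has degree at most the size of the middle index -/
theorem cpoly_coeff_eq_zero {r : Type*} [Fintype r] [DecidableEq r] (S : Matrix n r A)
    (T : Matrix r n A) {j : ℕ} (hj : Fintype.card r < j) : (cpoly (S * T)).coeff j = 0 := by
  have h : cpoly (S * T) = cpoly (T * S) := by
    rw [cpoly, cpoly, Matrix.map_mul, Matrix.map_mul, ← Matrix.smul_mul,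
      Matrix.det_one_add_mul_comm, Matrix.mul_smul]
  rw [h, cpoly]
  refine coeff_eq_zero_of_natDegree_lt (lt_of_le_of_lt ?_ hj)
  have := natDegree_det_X_add_C_le (T * S) (1 : Matrix r r A)
  rw [add_comm]
  simpa using this

end newton

/-! ### the formal Chern series of a sequence of power sums -/

section series
open PowerSeries

variable {A B : Type*} [CommRing A] [CommRing B]

/-- the alternating series `∑ (-1)^i s_{i+1} X^i` -/
def alt (s : ℕ → A) : PowerSeries A := PowerSeries.mk fun i => (-1) ^ i * s (i + 1)

theorem alt_add (s s' : ℕ → A) : alt (fun i => s i + s' i) = alt s + alt s' := by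
  refine PowerSeries.ext fun i => ?_
  simp only [alt, map_add, PowerSeries.coeff_mk]; ring

theorem ode_coeff {F S : PowerSeries A} (hF : PowerSeries.derivative A F = F * S) (j : ℕ) :
    ((j : A) + 1) * PowerSeries.coeff (j + 1) F
      = ∑ i ∈ Finset.range (j + 1), PowerSeries.coeff (j - i) F * PowerSeries.coeff i S := by
  have h := congrArg (PowerSeries.coeff j) hF
  rw [PowerSeries.coeff_derivative, PowerSeries.coeff_mul, mul_comm] at h
  rw [h, Finset.Nat.sum_antidiagonal_eq_sum_range_succ_mk, ← Finset.sum_range_reflect]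
  refine Finset.sum_congr rfl fun i hi => ?_
  have hi' : i ≤ j := Nat.lt_succ_iff.1 (Finset.mem_range.1 hi)
  have e1 : j + 1 - 1 - i = j - i := by omega
  have e2 : j - (j - i) = i := by omega
  simp only [e1, e2]

theorem ode_unique (hA : ∀ j : ℕ, IsUnit ((j : A) + 1)) {F G S : PowerSeries A}
    (hF : PowerSeries.derivative A F = F * S) (hG : PowerSeries.derivative A G = G * S)
    (h0 : PowerSeries.coeff 0 F = PowerSeries.coeff 0 G) : F = G := by
  refine PowerSeries.ext fun j => ?_
  induction j using Nat.strong_induction_on with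
  | _ j ih =>
    cases j with
    | zero => exact h0
    | succ j =>
      refine (hA j).mul_left_cancel ?_
      rw [ode_coeff hF, ode_coeff hG]
      refine Finset.sum_congr rfl fun i hi => ?_
      rw [ih (j - i) (by omega)]

theorem ode_mul {F G S T : PowerSeries A}
    (hF : PowerSeries.derivative A F = F * S) (hG : PowerSeries.derivative A G = G * T) :
    PowerSeries.derivative A (F * G) = F * G * (S + T) := by
  rw [Derivation.leibniz, hF, hG, smul_eq_mul, smul_eq_mul]; ring

variable [Algebra ℂ A] [Algebra ℂ B]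

theorem isUnit_succ (A : Type*) [CommRing A] [Algebra ℂ A] (j : ℕ) : IsUnit ((j : A) + 1) := by
  have h : ((j : ℂ) + 1) ≠ 0 := by exact_mod_cast Nat.succ_ne_zero j
  have := (isUnit_iff_ne_zero.2 h).map (algebraMap ℂ A)
  simpa using this

/-- coefficients of the Chern series: `(j+1) e_{j+1} = ∑ (-1)^i e_{j-i} s_{i+1}`, `e_0 = 1` -/
def el (s : ℕ → A) : ℕ → A
  | 0 => 1
  | (j + 1) => ((j : ℂ) + 1)⁻¹ • ∑ i : Fin (j + 1), (-1) ^ (i : ℕ) * el s (j - i) * s (i + 1)
  decreasing_by omega

theorem el_zero (s : ℕ → A) : el s 0 = 1 := by rw [el]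

theorem el_succ (s : ℕ → A) (j : ℕ) : ((j : A) + 1) * el s (j + 1)
    = ∑ i ∈ Finset.range (j + 1), (-1) ^ i * el s (j - i) * s (i + 1) := by
  have h : ((j : ℂ) + 1) ≠ 0 := by exact_mod_cast Nat.succ_ne_zero j
  rw [el, mul_smul_comm, Finset.sum_range]
  have : ((j : A) + 1) = algebraMap ℂ A ((j : ℂ) + 1) := by simp
  rw [this, ← Algebra.smul_def, smul_smul, inv_mul_cancel₀ h, one_smul]

/-- the Chern series of a sequence of power sums: `exp (∑ (-1)^(k-1) s_k t^k / k)` -/
def cser (s : ℕ → A) : PowerSeries A := PowerSeries.mk (el s)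

@[simp] theorem coeff_cser (s : ℕ → A) (j : ℕ) : PowerSeries.coeff j (cser s) = el s j :=
  PowerSeries.coeff_mk _ _

theorem cser_ode (s : ℕ → A) : PowerSeries.derivative A (cser s) = cser s * alt s := by
  refine PowerSeries.ext fun j => ?_
  rw [PowerSeries.coeff_derivative, PowerSeries.coeff_mul, coeff_cser, mul_comm, el_succ,
    Finset.Nat.sum_antidiagonal_eq_sum_range_succ_mk, ← Finset.sum_range_reflect]
  refine Finset.sum_congr rfl fun i hi => ?_
  have hi' : i ≤ j := Nat.lt_succ_iff.1 (Finset.mem_range.1 hi)
  have e1 : j + 1 - 1 - i = j - i := by omega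
  have e2 : j - (j - i) = i := by omega
  simp only [e1, e2, coeff_cser, alt, PowerSeries.coeff_mk]
  ring

theorem cser_unique (s : ℕ → A) {F : PowerSeries A} (h0 : PowerSeries.coeff 0 F = 1)
    (hF : PowerSeries.derivative A F = F * alt s) : F = cser s :=
  ode_unique (isUnit_succ A) hF (cser_ode s) (by rw [h0, coeff_cser, el_zero])

/-- `e_j` depends only on `s_1, …, s_j` -/
theorem el_congr {s s' : ℕ → A} {j : ℕ} (h : ∀ i, 1 ≤ i → i ≤ j → s i = s' i) :
    el s j = el s' j := by
  induction j using Nat.strong_induction_on with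
  | _ j ih =>
    cases j with
    | zero => rw [el_zero, el_zero]
    | succ j =>
      refine (isUnit_succ A j).mul_left_cancel ?_
      rw [el_succ, el_succ]
      refine Finset.sum_congr rfl fun i hi => ?_
      have hi' : i ≤ j := Nat.lt_succ_iff.1 (Finset.mem_range.1 hi)
      rw [ih (j - i) (by omega) fun a ha1 ha2 => h a ha1 (by omega),
        h (i + 1) (by omega) (by omega)]

theorem cser_congr {s s' : ℕ → A} (h : ∀ i, 1 ≤ i → s i = s' i) : cser s = cser s' :=
  PowerSeries.ext fun j => by
    rw [coeff_cser, coeff_cser]; exact el_congr fun i h1 _ => h i h1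

theorem cser_add (s s' : ℕ → A) : cser (fun i => s i + s' i) = cser s * cser s' := by
  symm
  refine cser_unique _ ?_ ?_
  · rw [PowerSeries.coeff_mul, Finset.Nat.antidiagonal_zero, Finset.sum_singleton, coeff_cser,
      coeff_cser, el_zero, el_zero, one_mul]
  · rw [ode_mul (cser_ode s) (cser_ode s'), alt_add]

theorem cser_zero : cser (fun _ => (0 : A)) = 1 := by
  symm
  refine cser_unique _ (by simp) ?_
  have : alt (fun _ => (0 : A)) = 0 := PowerSeries.ext fun i => by simp [alt]
  rw [this, mul_zero]
  exact Derivation.map_one_eq_zero _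

theorem cser_zero' {s : ℕ → A} (h : ∀ i, 1 ≤ i → s i = 0) : cser s = 1 := by
  rw [cser_congr (s' := fun _ => 0) h, cser_zero]

theorem el_map (f : A →+* B) (s : ℕ → A) (j : ℕ) : f (el s j) = el (fun i => f (s i)) j := by
  induction j using Nat.strong_induction_on with
  | _ j ih =>
    cases j with
    | zero => rw [el_zero, el_zero, map_one]
    | succ j =>
      refine (isUnit_succ B j).mul_left_cancel ?_
      have h : ((j : B) + 1) = f ((j : A) + 1) := by simp
      rw [el_succ, h, ← map_mul, el_succ, map_sum]
      refine Finset.sum_congr rfl fun i hi => ?_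
      rw [map_mul, map_mul, ih (j - i) (by omega), map_pow, map_neg, map_one]

theorem cser_map (f : A →+* B) (s : ℕ → A) :
    (cser s).map f = cser (fun i => f (s i)) :=
  PowerSeries.ext fun j => by rw [PowerSeries.coeff_map, coeff_cser, coeff_cser, el_map]

/-- scaling `s_k ↦ r^k s_k` scales `e_k ↦ r^k e_k` -/
theorem el_scale (r : A) (s : ℕ → A) (j : ℕ) : el (fun i => r ^ i * s i) j = r ^ j * el s j := by
  induction j using Nat.strong_induction_on with
  | _ j ih =>
    cases j with
    | zero => rw [el_zero, el_zero, pow_zero, one_mul]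
    | succ j =>
      refine (isUnit_succ A j).mul_left_cancel ?_
      rw [el_succ, mul_left_comm, el_succ, Finset.mul_sum]
      refine Finset.sum_congr rfl fun i hi => ?_
      have hi' : i ≤ j := Nat.lt_succ_iff.1 (Finset.mem_range.1 hi)
      rw [ih (j - i) (by omega)]
      have : r ^ (j + 1) = r ^ (j - i) * r ^ (i + 1) := by rw [← pow_add]; congr 1; omega
      rw [this]; ring

theorem cpoly_eq_cser {n : Type*} [Fintype n] [DecidableEq n] (M : Matrix n n A) :
    ((cpoly M : Polynomial A) : PowerSeries A) = cser fun i => (M ^ i).trace :=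
  cser_unique _ (by rw [Polynomial.coeff_coe, cpoly_coeff_zero]) (cpoly_ode M)

theorem cpoly_coeff_eq_el {n : Type*} [Fintype n] [DecidableEq n] (M : Matrix n n A) (j : ℕ) :
    (cpoly M).coeff j = el (fun i => (M ^ i).trace) j := by
  rw [← coeff_cser, ← cpoly_eq_cser, Polynomial.coeff_coe]

end series

end Crest.Agent.R208.CW
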