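import Crest.Agent.R208.CW1
import Crest.Agent.R208.CW3

/-! Row 208, block CW (helper586).  CW1b: curvature in the commutative ring of even forms,
Chern classes `c_j(Q) ∈ H X`, `c_j = 0` above the rank. -/

set_option autoImplicit false
set_option linter.unusedSectionVars false
set_option linter.unusedSimpArgs false
set_option linter.unusedVariables false

open scoped BigOperators ContDiff Topology
open Module Set

noncomputable section

namespace Crest.Agent.R208.CW

open Crest.Agent.R208.F Crest.Agent.R208.FI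

section evc
variable (E : Type*) [AddCommGroup E] [Module ℝ E]

/-- even complex forms at a point -/
def EvC : Subalgebra ℂ (CF E) where
  carrier := {c | invC c = c}
  mul_mem' := by
    rintro a b ha hb
    change invC (a * b) = a * b
    rw [map_mul, show invC a = a from ha, show invC b = b from hb]
  add_mem' := by
    rintro a b ha hb
    change invC (a + b) = a + b
    rw [map_add, show invC a = a from ha, show invC b = b from hb]
  algebraMap_mem' := fun z => invC_algebraMap z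

instance instCommRingEvC : CommRing (EvC E) :=
  { (inferInstance : Ring (EvC E)) with
    mul_comm := fun a b => Subtype.ext (even_commC a.2 b.1) }

variable {E} {F : Type*} [AddCommGroup F] [Module ℝ F] {n m l : Type*} [Fintype n] [Fintype m]
  [Fintype l]

theorem EvC.inv (a : EvC E) : invC (a : CF E) = a := a.2

/-- complex matrix as a matrix of even forms -/
def hv (E : Type*) [AddCommGroup E] [Module ℝ E] {n m : Type*} (M : Matrix n m ℂ) :
    Matrix n m (EvC E) := M.map (algebraMap ℂ (EvC E))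

theorem hv_mul (A : Matrix n m ℂ) (B : Matrix m l ℂ) : hv E (A * B) = hv E A * hv E B :=
  Matrix.map_mul

/-- forget evenness -/
def vl (A : Matrix n m (EvC E)) : Matrix n m (CF E) := A.map (EvC E).val

theorem vl_mul (A : Matrix n m (EvC E)) (B : Matrix m l (EvC E)) : vl (A * B) = vl A * vl B :=
  Matrix.map_mul

theorem vl_hv (A : Matrix n m ℂ) : vl (hv E A) = hat E A := rfl

theorem vl_inj {A B : Matrix n m (EvC E)} (h : vl A = vl B) : A = B :=
  Matrix.ext fun i j => Subtype.ext (congrFun (congrFun h i) j)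

theorem vl_pow [DecidableEq n] (A : Matrix n n (EvC E)) (j : ℕ) : vl (A ^ j) = vl A ^ j :=
  map_pow ((EvC E).val : EvC E →+* CF E).mapMatrix A j

theorem vl_trace (A : Matrix n n (EvC E)) : (A.trace : CF E) = (vl A).trace :=
  map_sum (EvC E).val _ _

/-- even matrices -/
def toEv (A : Matrix n m (CF E)) (h : invM A = A) : Matrix n m (EvC E) :=
  Matrix.of fun i j => ⟨A i j, congrFun (congrFun h i) j⟩

theorem vl_toEv (A : Matrix n m (CF E)) (h : invM A = A) : vl (toEv A h) = A := rfl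

theorem invM_sq {A : Matrix n n (CF E)} (h : invM A = -A) : invM (A * A) = A * A := by
  rw [invM_mul, h, neg_mul_neg]

end evc

section cf
variable {E F : Type*} [NormedAddCommGroup E] [NormedSpace ℝ E] [FiniteDimensional ℝ E]
  [NormedAddCommGroup F] [NormedSpace ℝ F] [FiniteDimensional ℝ F]
  {n m l : Type*} [Fintype n] [Fintype m] [Fintype l] {x : E} {X : Set E} {Y : Set F} {dX dY : ℕ}

/-- `(dQ)^2` -/
def D2 (Q : E → Matrix n n ℂ) (x : E) : Matrix n n (EvC E) :=
  toEv (DD Q x * DD Q x) (invM_sq (invM_DD Q x))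

/-- the curvature `Q (dQ)^2 Q` -/
def Om (Q : E → Matrix n n ℂ) (x : E) : Matrix n n (EvC E) :=
  hv E (Q x) * D2 Q x * hv E (Q x)

theorem vl_Om (Q : E → Matrix n n ℂ) (x : E) :
    vl (Om Q x) = hat E (Q x) * (DD Q x * DD Q x) * hat E (Q x) := by
  rw [Om, vl_mul, vl_mul, vl_hv]; rfl

variable [DecidableEq n]

/-- `tr Ω^j` -/
def sf' (j : ℕ) (Q : E → Matrix n n ℂ) (x : E) : CF E := ((Om Q x ^ j).trace : EvC E)

theorem sf'_eq (j : ℕ) (Q : E → Matrix n n ℂ) (x : E) :
    sf' j Q x = ((hat E (Q x) * (DD Q x * DD Q x) * hat E (Q x)) ^ j).trace := by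
  rw [sf', vl_trace, vl_pow, vl_Om]

theorem Smo_sf' {Q : E → Matrix n n ℂ} (hQ : IdF X Q) (j : ℕ) : Smo X (sf' j Q) := fun x hx => by
  have h1 : MD ∞ (DD Q) x := (hQ.smooth x hx).MD_DD inf_add_one
  have h0 : MD ∞ (fun y => hat E (Q y)) x := (hQ.smooth x hx).hat
  have : sf' j Q = fun x => ((hat E (Q x) * (DD Q x * DD Q x) * hat E (Q x)) ^ j).trace :=
    funext fun x => sf'_eq j Q x
  rw [this]
  exact (((h0.mul (h1.mul h1)).mul h0).pow j).trace

theorem idem_mul_pow {R : Type*} [Ring R] {q w : R} (h : q * w = w) {j : ℕ} (hj : 1 ≤ j) :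
    q * w ^ j = w ^ j := by
  obtain ⟨i, rfl⟩ := Nat.exists_eq_add_of_le hj
  rw [pow_add, pow_one, ← mul_assoc, h]

theorem rs_sf' (hX : Sub dX X) {Q : E → Matrix n n ℂ} (hQ : IdF X Q) {j : ℕ} (hj : 1 ≤ j)
    (hx : x ∈ X) : rs X x (sf' j Q x) = rs X x (sf j Q x) := by
  have hq := hQ.hat_idem (F := Tan X x) hx
  have hd := hQ.dl_eq hX hx
  rw [rs_sf, sf'_eq, rs_trace, rsM_pow, rsM_mul, rsM_mul, rsM_mul, rsM_hat]
  rw [show rsM X x (DD Q x) = dl X Q x from rfl, idem_pow hq hd, idem_mul_pow _ hj]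
  rw [mul_assoc, ← mul_assoc, ← mul_assoc, hq, mul_assoc]

theorem sf'_mem_Z (hX : Sub dX X) {Q : E → Matrix n n ℂ} (hQ : IdF X Q) (j : ℕ) : sf' j Q ∈ Z X := by
  rcases Nat.eq_zero_or_pos j with h | h
  · subst h
    have : sf' 0 Q = algebraMap ℂ (E → CF E) (Fintype.card n) := by
      funext x
      rw [sf'_eq, pow_zero, Matrix.trace_one]
      simp
    rw [this]
    exact (Z X).algebraMap_mem _
  · exact mem_Z_of hX (fun x => EvC.inv _) (Smo_sf' hQ j) (sf_mem_Z hX hQ j)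
      fun x hx => rs_sf' hX hQ h hx

/-- Chern forms: the coefficients of `det (1 + t Ω)` -/
def cf (j : ℕ) (Q : E → Matrix n n ℂ) (x : E) : CF E := ((cpoly (Om Q x)).coeff j : EvC E)

/-- evaluation at a point -/
def Z.ev (X : Set E) (x : E) : Z X →ₐ[ℂ] EvC E where
  toFun a := ⟨a.1 x, a.2.1 x⟩
  map_one' := rfl
  map_mul' _ _ := rfl
  map_zero' := rfl
  map_add' _ _ := rfl
  commutes' _ := rfl

theorem cf_eq (hX : Sub dX X) {Q : E → Matrix n n ℂ} (hQ : IdF X Q) (j : ℕ) :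
    cf j Q = (el (fun i => (⟨sf' i Q, sf'_mem_Z hX hQ i⟩ : Z X)) j).1 := by
  funext x
  have h := el_map (Z.ev X x : Z X →+* EvC E) (fun i => (⟨sf' i Q, sf'_mem_Z hX hQ i⟩ : Z X)) j
  have h2 : cf j Q x = ((el (fun i => (Om Q x ^ i).trace) j : EvC E) : CF E) := by
    rw [cf, cpoly_coeff_eq_el]
  rw [h2]
  exact (congrArg (fun a : EvC E => (a : CF E)) h).symm

theorem cf_mem_Z (hX : Sub dX X) {Q : E → Matrix n n ℂ} (hQ : IdF X Q) (j : ℕ) : cf j Q ∈ Z X := by
  rw [cf_eq hX hQ j]; exact Subtype.prop _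

/-- the Chern classes -/
def cc (hX : Sub dX X) {Q : E → Matrix n n ℂ} (hQ : IdF X Q) (j : ℕ) : H X :=
  cls (cf j Q) (cf_mem_Z hX hQ j)

theorem cc_eq_el (hX : Sub dX X) {Q : E → Matrix n n ℂ} (hQ : IdF X Q) (j : ℕ) :
    cc hX hQ j = el (sc hX hQ) j := by
  have h1 : cc hX hQ j = H.mk X (el (fun i => (⟨sf' i Q, sf'_mem_Z hX hQ i⟩ : Z X)) j) := by
    rw [cc, cls]; congr 1; exact Subtype.ext (cf_eq hX hQ j)
  have h2 := el_map (H.mk X : Z X →+* H X) (fun i => (⟨sf' i Q, sf'_mem_Z hX hQ i⟩ : Z X)) j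
  rw [h1]
  refine h2.trans (el_congr fun i hi _ => ?_)
  exact cls_congr (h := sf'_mem_Z hX hQ i) (h' := sf_mem_Z hX hQ i) fun x hx => rs_sf' hX hQ hi hx

theorem cc_zero (hX : Sub dX X) {Q : E → Matrix n n ℂ} (hQ : IdF X Q) : cc hX hQ 0 = 1 := by
  rw [cc_eq_el, el_zero]

/-- factorisation of a matrix through its rank -/
theorem exists_factor (M : Matrix n n ℂ) :
    ∃ (S : Matrix n (Fin M.rank) ℂ) (T : Matrix (Fin M.rank) n ℂ), M = S * T := by
  classical
  let V := LinearMap.range M.mulVecLin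
  have hV : finrank ℂ V = M.rank := rfl
  let e : V ≃ₗ[ℂ] (Fin M.rank → ℂ) := LinearEquiv.ofFinrankEq _ _ (by rw [hV]; simp)
  let f : (Fin M.rank → ℂ) →ₗ[ℂ] (n → ℂ) := V.subtype ∘ₗ e.symm.toLinearMap
  let g : (n → ℂ) →ₗ[ℂ] (Fin M.rank → ℂ) := e.toLinearMap ∘ₗ M.mulVecLin.rangeRestrict
  refine ⟨LinearMap.toMatrix' f, LinearMap.toMatrix' g, ?_⟩
  rw [← LinearMap.toMatrix'_comp]
  have : f ∘ₗ g = M.mulVecLin := by
    refine LinearMap.ext fun v => ?_
    simp [f, g]
  rw [this, ← Matrix.toLin'_apply', LinearMap.toMatrix'_toLin']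

theorem cf_eq_zero {j : ℕ} {Q : E → Matrix n n ℂ} (h : (Q x).rank < j) : cf j Q x = 0 := by
  obtain ⟨S, T, hST⟩ := exists_factor (Q x)
  have : Om Q x = hv E S * (hv E T * D2 Q x * hv E (Q x)) := by
    have e : hv E (Q x) = hv E S * hv E T := by rw [← hv_mul, ← hST]
    rw [Om]
    nth_rewrite 1 [e]
    simp only [Matrix.mul_assoc]
  rw [cf, this, cpoly_coeff_eq_zero _ _ (by simpa using h)]
  rfl

theorem cc_eq_zero (hX : Sub dX X) {Q : E → Matrix n n ℂ} (hQ : IdF X Q) {j : ℕ}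
    (h : ∀ x ∈ X, (Q x).rank < j) : cc hX hQ j = 0 :=
  cls_eq_zero_iff.2 ⟨fun _ => 0, Smo.const _, fun x hx => by
    rw [cf_eq_zero (h x hx), dC_const]⟩

theorem rank_eq_trace {M : Matrix n n ℂ} (h : M * M = M) : (M.rank : ℂ) = M.trace := by
  have h1 : IsIdempotentElem (Matrix.toLin' M) := by
    change Matrix.toLin' M * Matrix.toLin' M = _
    rw [Module.End.mul_eq_comp, ← Matrix.toLin'_mul, h]
  have h2 := (LinearMap.IsIdempotentElem.isProj_range _ h1).trace
  rw [Matrix.trace_toLin'_eq] at h2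
  rw [h2]
  rfl

end cf

end Crest.Agent.R208.CW
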