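import Crest.Agent.R208.CW1b

/-! Row 208, block CW (helper586).  CW1c: block sums, transposes, conjugates, Kronecker products,
constant fields, line bundles, for the classes `s_k(Q) ∈ H X`. -/

set_option autoImplicit false
set_option linter.unusedSectionVars false
set_option linter.unusedSimpArgs false
set_option linter.unusedVariables false

open scoped BigOperators ContDiff Topology Kronecker
open Module Set

noncomputable section

namespace Crest.Agent.R208.CW

open Crest.Agent.R208.F Crest.Agent.R208.FI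

section rsZ
variable {E : Type*} [NormedAddCommGroup E] [NormedSpace ℝ E] [FiniteDimensional ℝ E] {X : Set E}

/-- restriction of a closed form at a point of `X` -/
def rsZ (X : Set E) (x : E) : Z X →+* CF (Tan X x) where
  toFun a := rs X x (a.1 x)
  map_one' := map_one _
  map_mul' a b := map_mul (rs X x) _ _
  map_zero' := map_zero _
  map_add' a b := map_add (rs X x) _ _

theorem H.mk_congr {a b : Z X} (h : ∀ x ∈ X, rsZ X x a = rsZ X x b) : H.mk X a = H.mk X b :=
  cls_congr (h := a.2) (h' := b.2) h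

end rsZ

section sums
variable {E F : Type*} [NormedAddCommGroup E] [NormedSpace ℝ E] [FiniteDimensional ℝ E]
  [NormedAddCommGroup F] [NormedSpace ℝ F] [FiniteDimensional ℝ F]
  {n n' : Type*} [Fintype n] [Fintype n'] [DecidableEq n] [DecidableEq n']
  {x : E} {X : Set E} {Y : Set F} {dX dY : ℕ}

theorem sc_eq' (hX : Sub dX X) {Q : E → Matrix n n ℂ} (hQ : IdF X Q) {j : ℕ} (hj : 1 ≤ j) :
    sc hX hQ j = cls (sf' j Q) (sf'_mem_Z hX hQ j) :=
  cls_congr fun x hx => (rs_sf' hX hQ hj hx).symm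

theorem sf_zero (Q : E → Matrix n n ℂ) (x : E) :
    sf 0 Q x = algebraMap ℂ (CF E) ((Q x).trace) := by
  rw [sf, mul_zero, pow_zero, mul_one]
  exact (map_sum (algebraMap ℂ (CF E)) _ _).symm

theorem sc_zero_of_rank (hX : Sub dX X) {Q : E → Matrix n n ℂ} (hQ : IdF X Q) {r : ℕ}
    (h : ∀ x ∈ X, (Q x).rank = r) : sc hX hQ 0 = r := by
  have h1 : (r : H X) = cls (algebraMap ℂ (E → CF E) r) ((Z X).algebraMap_mem _) := by
    have h2 : algebraMap ℂ (H X) (r : ℂ) = r := map_natCast _ r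
    rw [← h2, ← (H.mk X).commutes (r : ℂ)]
    rfl
  rw [h1]
  refine cls_congr fun x hx => ?_
  rw [sf_zero, ← rank_eq_trace (hQ.idem x hx), h x hx]
  rfl

/-! ### constant fields -/

theorem IdF.const {M : Matrix n n ℂ} (h : M * M = M) : IdF X (fun _ => M) :=
  ⟨fun _ _ => SM.const M, fun _ _ => h⟩

theorem sc_const (hX : Sub dX X) {M : Matrix n n ℂ} (h : IdF X (fun _ => M)) {j : ℕ}
    (hj : 1 ≤ j) : sc hX h j = 0 := by
  refine cls_eq_zero_iff.2 ⟨fun _ => 0, Smo.const _, fun x hx => ?_⟩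
  have h0 : (2 * j) ≠ 0 := by omega
  rw [dC_const, sf, DD_const, zero_pow h0, mul_zero, Matrix.trace_zero]

/-! ### block sums -/

/-- direct sum -/
def bsum (Q : E → Matrix n n ℂ) (Q' : E → Matrix n' n' ℂ) (x : E) :
    Matrix (n ⊕ n') (n ⊕ n') ℂ := Matrix.fromBlocks (Q x) 0 0 (Q' x)

theorem SM.fromBlocks {m m' : Type*} [Fintype m] [Fintype m'] {k : WithTop ℕ∞}
    {A : E → Matrix n m ℂ} {B : E → Matrix n m' ℂ} {C : E → Matrix n' m ℂ} {D : E → Matrix n' m' ℂ}
    (hA : SM k A x) (hB : SM k B x) (hC : SM k C x) (hD : SM k D x) :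
    SM k (fun y => Matrix.fromBlocks (A y) (B y) (C y) (D y)) x := by
  rintro (i | i) (j | j)
  · exact hA i j
  · exact hB i j
  · exact hC i j
  · exact hD i j

theorem IdF.bsum {Q : E → Matrix n n ℂ} {Q' : E → Matrix n' n' ℂ} (hQ : IdF X Q)
    (hQ' : IdF X Q') : IdF X (bsum Q Q') :=
  ⟨fun x hx => SM.fromBlocks (hQ.smooth x hx) (SM.const 0) (SM.const 0) (hQ'.smooth x hx),
    fun x hx => by
      simp only [CW.bsum, Matrix.fromBlocks_multiply, hQ.idem x hx, hQ'.idem x hx, mul_zero,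
        zero_mul, Matrix.mul_zero, Matrix.zero_mul, add_zero, zero_add]⟩

theorem DD_bsum (Q : E → Matrix n n ℂ) (Q' : E → Matrix n' n' ℂ) (x : E) :
    DD (bsum Q Q') x = Matrix.fromBlocks (DD Q x) 0 0 (DD Q' x) := by
  refine Matrix.ext fun i j => ?_
  have h0 : dC (fun _ : E => algebraMap ℂ (CF E) 0) x = 0 := dC_const _ _
  rcases i with i | i <;> rcases j with j | j
  · rfl
  · exact h0
  · exact h0
  · rfl

theorem fromBlocks_pow {R : Type*} [Ring R] (A : Matrix n n R) (D : Matrix n' n' R) (k : ℕ) :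
    Matrix.fromBlocks A 0 0 D ^ k = Matrix.fromBlocks (A ^ k) 0 0 (D ^ k) := by
  induction k with
  | zero => simp only [pow_zero, Matrix.fromBlocks_one]
  | succ k ih => simp only [pow_succ, ih, Matrix.fromBlocks_multiply, Matrix.mul_zero,
      Matrix.zero_mul, add_zero, zero_add]

theorem hat_fromBlocks (A : Matrix n n ℂ) (D : Matrix n' n' ℂ) :
    hat E (Matrix.fromBlocks A 0 0 D) = Matrix.fromBlocks (hat E A) 0 0 (hat E D) := by
  rw [hat, Matrix.fromBlocks_map]
  congr 1

theorem trace_fb {R : Type*} [Ring R] (A : Matrix n n R) (D : Matrix n' n' R) :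
    (Matrix.fromBlocks A 0 0 D).trace = A.trace + D.trace := by
  simp [Matrix.trace, Fintype.sum_sum_type]

theorem sf_bsum (j : ℕ) (Q : E → Matrix n n ℂ) (Q' : E → Matrix n' n' ℂ) (x : E) :
    sf j (bsum Q Q') x = sf j Q x + sf j Q' x := by
  rw [sf, DD_bsum, CW.bsum, hat_fromBlocks, fromBlocks_pow, Matrix.fromBlocks_multiply]
  simp only [Matrix.mul_zero, Matrix.zero_mul, add_zero, zero_add]
  rw [trace_fb]; rfl

theorem sc_bsum (hX : Sub dX X) {Q : E → Matrix n n ℂ} {Q' : E → Matrix n' n' ℂ} (hQ : IdF X Q)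
    (hQ' : IdF X Q') (j : ℕ) : sc hX (hQ.bsum hQ') j = sc hX hQ j + sc hX hQ' j := by
  rw [sc, sc, sc, ← cls_add]
  exact cls_congr fun x hx => by rw [sf_bsum]; rfl

/-! ### transpose: the dual bundle -/

theorem D2_transpose (Q : E → Matrix n n ℂ) (x : E) :
    D2 (fun y => (Q y).transpose) x = - (D2 Q x).transpose := by
  refine vl_inj (Matrix.ext fun i j => ?_)
  change (DD (fun y => (Q y).transpose) x * DD (fun y => (Q y).transpose) x) i j
    = - (DD Q x * DD Q x) j i
  rw [Matrix.mul_apply, Matrix.mul_apply, ← Finset.sum_neg_distrib]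
  refine Finset.sum_congr rfl fun k _ => ?_
  change DD Q x k i * DD Q x j k = - (DD Q x j k * DD Q x k i)
  have ho : ∀ a b, invC (DD Q x a b) = - DD Q x a b := fun a b =>
    congrFun (congrFun (invM_DD Q x) a) b
  rw [odd_commC (ho k i), ho, neg_mul]

theorem Om_transpose (Q : E → Matrix n n ℂ) (x : E) :
    Om (fun y => (Q y).transpose) x = - (Om Q x).transpose := by
  have h : hv E (Q x).transpose = (hv E (Q x)).transpose := rfl
  rw [Om, Om, D2_transpose, h, Matrix.transpose_mul, Matrix.transpose_mul, Matrix.mul_neg,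
    Matrix.neg_mul, Matrix.mul_assoc]

theorem sf'_transpose (j : ℕ) (Q : E → Matrix n n ℂ) (x : E) :
    sf' j (fun y => (Q y).transpose) x = (-1) ^ j * sf' j Q x := by
  have h : ((-(Om Q x).transpose) ^ j).trace = (-1) ^ j * (Om Q x ^ j).trace := by
    rw [neg_pow, ← Matrix.transpose_pow]
    rcases Nat.even_or_odd j with h | h
    · rw [h.neg_one_pow, h.neg_one_pow, one_mul, one_mul, Matrix.trace_transpose]
    · rw [h.neg_one_pow, h.neg_one_pow, neg_mul, one_mul, Matrix.trace_neg,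
        Matrix.trace_transpose, neg_mul, one_mul]
  rw [sf', sf', Om_transpose, h]
  push_cast
  rfl

theorem IdF.transpose {Q : E → Matrix n n ℂ} (hQ : IdF X Q) :
    IdF X (fun y => (Q y).transpose) :=
  ⟨fun x hx => (hQ.smooth x hx).transpose, fun x hx => by
    rw [← Matrix.transpose_mul, hQ.idem x hx]⟩

theorem sc_transpose (hX : Sub dX X) {Q : E → Matrix n n ℂ} (hQ : IdF X Q) (j : ℕ) :
    sc hX hQ.transpose j = (-1) ^ j * sc hX hQ j := by
  rcases Nat.eq_zero_or_pos j with h | h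
  · subst h
    rw [pow_zero, one_mul]
    refine cls_congr fun x hx => ?_
    rw [sf_zero, sf_zero, Matrix.trace_transpose]
  · rw [sc_eq' hX _ h, sc_eq' hX hQ h]
    have h1 : (-1 : H X) ^ j * cls (sf' j Q) (sf'_mem_Z hX hQ j)
        = H.mk X ((-1) ^ j * ⟨sf' j Q, sf'_mem_Z hX hQ j⟩) := by
      rw [map_mul, map_pow, map_neg, map_one]; rfl
    rw [h1]
    refine H.mk_congr (a := ⟨_, sf'_mem_Z hX hQ.transpose j⟩) fun x hx => ?_
    rw [map_mul, map_pow, map_neg, map_one]
    change rs X x (sf' j _ x) = (-1) ^ j * rs X x (sf' j Q x)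
    rw [sf'_transpose, map_mul, map_pow, map_neg, map_one]

/-! ### complex conjugation -/

theorem dC_conj (om : E → CF E) (x : E) : dC (fun y => Cx.conj (om y)) x = Cx.conj (dC om x) :=
  Cx.ext rfl (d_neg (om := fun y => (om y).im) (x := x))

theorem pbC_conj {E F : Type*} [AddCommGroup E] [Module ℝ E] [AddCommGroup F] [Module ℝ F]
    (A : E →ₗ[ℝ] F) (c : CF F) : pbC A (Cx.conj c) = Cx.conj (pbC A c) :=
  Cx.ext rfl (map_neg (pb A) _)

theorem invC_conj (c : CF E) : invC (Cx.conj c) = Cx.conj (invC c) :=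
  Cx.ext rfl (map_neg inv _)

theorem CD.conj {k : WithTop ℕ∞} {om : E → CF E} (h : CD k om x) :
    CD k (fun y => Cx.conj (om y)) x := ⟨h.re, h.im.neg⟩

theorem conj_algebraMap (z : ℂ) :
    Cx.conj (algebraMap ℂ (CF E) z) = algebraMap ℂ (CF E) (starRingEnd ℂ z) :=
  Cx.ext (by simp) (by simp)

theorem conj_mem_Z {om : E → CF E} (h : om ∈ Z X) : (fun y => Cx.conj (om y)) ∈ Z X :=
  mem_Z.2 ⟨fun x => by rw [invC_conj, h.1], fun x hx => (h.2.1 x hx).conj, fun x hx => by
    rw [dC_conj]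
    have : rs X x (Cx.conj (dC om x)) = Cx.conj (rs X x (dC om x)) := pbC_conj _ _
    rw [this, h.2.2 x hx, map_zero]⟩

/-- conjugation of closed forms -/
def Z.conj (X : Set E) : Z X →+* Z X where
  toFun a := ⟨fun y => Cx.conj (a.1 y), conj_mem_Z a.2⟩
  map_one' := Subtype.ext (funext fun y => map_one Cx.conj)
  map_mul' a b := Subtype.ext (funext fun y => map_mul Cx.conj _ _)
  map_zero' := Subtype.ext (funext fun y => map_zero Cx.conj)
  map_add' a b := Subtype.ext (funext fun y => map_add Cx.conj _ _)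

/-- conjugation of classes -/
def H.conj (X : Set E) : H X →+* H X :=
  Ideal.Quotient.lift (B X) ((H.mk X : Z X →+* H X).comp (Z.conj X)) fun a ha => by
    obtain ⟨ξ, h1, h2⟩ := ha
    have : Z.conj X a ∈ B X := by
      refine ⟨fun y => Cx.conj (ξ y), fun x hx => (h1 x hx).conj, fun x hx => ?_⟩
      rw [dC_conj]
      have e : ∀ c : CF E, rs X x (Cx.conj c) = Cx.conj (rs X x c) := fun c => pbC_conj _ _
      change rs X x (Cx.conj (a.1 x)) = _
      rw [e, e, h2 x hx]
    exact Ideal.Quotient.eq_zero_iff_mem.2 this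

theorem H.conj_cls {om : E → CF E} (h : om ∈ Z X) :
    H.conj X (cls om h) = cls (fun y => Cx.conj (om y)) (conj_mem_Z h) := rfl

theorem H.conj_conj (a : H X) : H.conj X (H.conj X a) = a := by
  obtain ⟨om, h, rfl⟩ := H.exists_rep a
  rw [H.conj_cls, H.conj_cls]
  exact cls_congr fun x hx => by rw [Cx.conj_conj]

theorem H.conj_smul (z : ℂ) (a : H X) : H.conj X (z • a) = (starRingEnd ℂ z) • H.conj X a := by
  obtain ⟨om, h, rfl⟩ := H.exists_rep a
  rw [← cls_smul, H.conj_cls, H.conj_cls, ← cls_smul]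
  refine cls_congr fun x hx => ?_
  congr 1
  change Cx.conj (z • om x) = (starRingEnd ℂ z) • Cx.conj (om x)
  rw [Algebra.smul_def, map_mul, conj_algebraMap, Algebra.smul_def]

theorem H.conj_map {f : E → F} (hf : SMap X Y f) (a : H Y) :
    H.conj X (H.map hf a) = H.map hf (H.conj Y a) := by
  obtain ⟨om, h, rfl⟩ := H.exists_rep a
  rw [H.conj_cls, H.map_cls, H.map_cls, H.conj_cls]
  exact cls_congr fun x hx => by rw [pullC, pullC, pbC_conj]

theorem integ_conj {n : ℕ} {o : E → Ext E} (hX : Clo n X) (ho : Ori n X o) (a : H X) :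
    integ hX ho (H.conj X a) = starRingEnd ℂ (integ hX ho a) := by
  obtain ⟨om, h, rfl⟩ := H.exists_rep a
  rw [H.conj_cls, integ_cls, integ_cls]
  exact Complex.ext rfl J_neg

theorem IdF.conj {Q : E → Matrix n n ℂ} (hQ : IdF X Q) :
    IdF X (fun y => (Q y).map (starRingEnd ℂ)) :=
  ⟨fun x hx => (hQ.smooth x hx).conj, fun x hx => by
    rw [← Matrix.map_mul, hQ.idem x hx]⟩

theorem sf_conj (j : ℕ) (Q : E → Matrix n n ℂ) (x : E) :
    sf j (fun y => (Q y).map (starRingEnd ℂ)) x = Cx.conj (sf j Q x) := by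
  have h1 : DD (fun y => (Q y).map (starRingEnd ℂ)) x = (Cx.conj : CF E →+* CF E).mapMatrix (DD Q x) := by
    refine Matrix.ext fun a b => ?_
    have := dC_conj (fun y => algebraMap ℂ (CF E) (Q y a b)) x
    simp only [conj_algebraMap] at this
    exact this
  have h2 : hat E ((Q x).map (starRingEnd ℂ)) = (Cx.conj : CF E →+* CF E).mapMatrix (hat E (Q x)) :=
    Matrix.ext fun a b => (conj_algebraMap _).symm
  have h3 : ∀ A : Matrix n n (CF E), Cx.conj A.trace = ((Cx.conj : CF E →+* CF E).mapMatrix A).trace :=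
    fun A => map_sum Cx.conj _ _
  rw [sf, sf, h1, h2, h3, map_mul, map_pow]

theorem sc_conj (hX : Sub dX X) {Q : E → Matrix n n ℂ} (hQ : IdF X Q) (j : ℕ) :
    sc hX hQ.conj j = H.conj X (sc hX hQ j) := by
  rw [sc, sc, H.conj_cls]
  exact cls_congr fun x hx => by rw [sf_conj]

end sums

end Crest.Agent.R208.CW
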