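import Crest.Agent.R208.CW1c

/-! Row 208, block CW (helper586).  CW1d: Kronecker products (tensor products of bundles) and line
bundles. -/

set_option autoImplicit false
set_option linter.unusedSectionVars false
set_option linter.unusedSimpArgs false
set_option linter.unusedVariables false

open scoped BigOperators ContDiff Topology Kronecker
open Module Set

noncomputable section

namespace Crest.Agent.R208.CW

open Crest.Agent.R208.F Crest.Agent.R208.FI

section nk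
variable {R : Type*} [Ring R] {n n' m m' l l' : Type*} [Fintype n] [Fintype n'] [Fintype m]
  [Fintype m'] [Fintype l] [Fintype l']

theorem nk_mul (A : Matrix n m R) (B : Matrix n' m' R) (C : Matrix m l R) (D : Matrix m' l' R)
    (h : ∀ i j k l, B i j * C k l = C k l * B i j) :
    (A ⊗ₖ B) * (C ⊗ₖ D) = (A * C) ⊗ₖ (B * D) := by
  refine Matrix.ext ?_
  rintro ⟨i, i'⟩ ⟨j, j'⟩
  simp only [Matrix.mul_apply, Matrix.kroneckerMap_apply, Fintype.sum_prod_type,
    Finset.sum_mul_sum]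
  refine Finset.sum_congr rfl fun k _ => Finset.sum_congr rfl fun k' _ => ?_
  rw [mul_assoc, ← mul_assoc (B i' k'), h, mul_assoc, mul_assoc]

theorem nk_mul_anti (A : Matrix n m R) (B : Matrix n' m' R) (C : Matrix m l R) (D : Matrix m' l' R)
    (h : ∀ i j k l, B i j * C k l = - (C k l * B i j)) :
    (A ⊗ₖ B) * (C ⊗ₖ D) = - ((A * C) ⊗ₖ (B * D)) := by
  refine Matrix.ext ?_
  rintro ⟨i, i'⟩ ⟨j, j'⟩
  simp only [Matrix.mul_apply, Matrix.kroneckerMap_apply, Fintype.sum_prod_type,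
    Finset.sum_mul_sum, Matrix.neg_apply]
  rw [← Finset.sum_neg_distrib]
  refine Finset.sum_congr rfl fun k _ => ?_
  rw [← Finset.sum_neg_distrib]
  refine Finset.sum_congr rfl fun k' _ => ?_
  rw [mul_assoc, ← mul_assoc (B i' k'), h, neg_mul, mul_neg, mul_assoc, mul_assoc]

end nk

section trace
variable {A : Type*} [CommRing A] {n n' : Type*} [Fintype n] [Fintype n'] [DecidableEq n]
  [DecidableEq n']

theorem nk_pow (a : Matrix n n A) (b : Matrix n' n' A) (k : ℕ) :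
    (a ⊗ₖ b) ^ k = (a ^ k) ⊗ₖ (b ^ k) := by
  induction k with
  | zero => simp only [pow_zero, Matrix.one_kronecker_one]
  | succ k ih => rw [pow_succ, pow_succ, pow_succ, ih, Matrix.mul_kronecker_mul]

theorem idem_pow_eq {R : Type*} [Ring R] {p : R} (h : p * p = p) {k : ℕ} (hk : 1 ≤ k) :
    p ^ k = p := by
  obtain ⟨i, rfl⟩ := Nat.exists_eq_add_of_le' hk
  induction i with
  | zero => simp
  | succ i ih => rw [pow_succ, ih (by omega), h]

theorem tr_aux {p a : Matrix n n A} (hp : p * p = p) (h1 : p * a = a) (h2 : a * p = a) {m l : ℕ}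
    (h : 1 ≤ m + l) : (a ^ m * p ^ l).trace = (p * a ^ m).trace := by
  rcases Nat.eq_zero_or_pos l with h0 | h0
  · subst h0
    rw [pow_zero, mul_one, idem_mul_pow h1 (by omega)]
  · rw [idem_pow_eq hp h0, Matrix.trace_mul_comm]

theorem tr_kron_pow {p a : Matrix n n A} {p' b : Matrix n' n' A} (hp : p * p = p)
    (h1 : p * a = a) (h2 : a * p = a) (hp' : p' * p' = p') (h1' : p' * b = b) (h2' : b * p' = b)
    {k : ℕ} (hk : 1 ≤ k) :
    ((a ⊗ₖ p' + p ⊗ₖ b) ^ k).trace = ∑ i ∈ Finset.range (k + 1),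
      (k.choose i : A) * (p * a ^ i).trace * (p' * b ^ (k - i)).trace := by
  have hc : Commute (a ⊗ₖ p') (p ⊗ₖ b) := by
    change a ⊗ₖ p' * p ⊗ₖ b = p ⊗ₖ b * a ⊗ₖ p'
    rw [← Matrix.mul_kronecker_mul, ← Matrix.mul_kronecker_mul, h1, h2, h1', h2']
  rw [hc.add_pow, Matrix.trace_sum]
  refine Finset.sum_congr rfl fun i hi => ?_
  have hi' : i ≤ k := Nat.lt_succ_iff.1 (Finset.mem_range.1 hi)
  have e1 : (a ⊗ₖ p') ^ i * (p ⊗ₖ b) ^ (k - i) * ((k.choose i : ℕ) : Matrix (n × n') (n × n') A)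
      = (k.choose i : A) • ((a ^ i * p ^ (k - i)) ⊗ₖ (p' ^ i * b ^ (k - i))) := by
    rw [nk_pow, nk_pow, ← Matrix.mul_kronecker_mul, ← Nat.cast_commute, ← nsmul_eq_mul,
      Nat.cast_smul_eq_nsmul]
  rw [e1, Matrix.trace_smul, Matrix.trace_kronecker, smul_eq_mul, tr_aux hp h1 h2 (by omega),
    Matrix.trace_mul_comm (p' ^ i), tr_aux hp' h1' h2' (by omega), mul_assoc]

end trace

section curv
variable {T : Type*} [AddCommGroup T] [Module ℝ T] {n n' : Type*} [Fintype n] [Fintype n']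
  [DecidableEq n] [DecidableEq n']

/-- curvature at a point from `q` and `δ` -/
def wv (q : Matrix n n ℂ) (δ : Matrix n n (CF T)) (hδ : invM δ = -δ) : Matrix n n (EvC T) :=
  hv T q * toEv (δ * δ) (invM_sq hδ) * hv T q

theorem vl_wv (q : Matrix n n ℂ) (δ : Matrix n n (CF T)) (hδ : invM δ = -δ) :
    vl (wv q δ hδ) = hat T q * (δ * δ) * hat T q := by
  rw [wv, vl_mul, vl_mul, vl_hv, vl_toEv]

theorem hv_idem {q : Matrix n n ℂ} (hq : q * q = q) : hv T q * hv T q = hv T q := by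
  rw [← hv_mul, hq]

theorem hv_wv {q : Matrix n n ℂ} (hq : q * q = q) (δ : Matrix n n (CF T)) (hδ : invM δ = -δ) :
    hv T q * wv q δ hδ = wv q δ hδ := by
  rw [wv, mul_assoc, ← mul_assoc, hv_idem hq]

theorem wv_hv {q : Matrix n n ℂ} (hq : q * q = q) (δ : Matrix n n (CF T)) (hδ : invM δ = -δ) :
    wv q δ hδ * hv T q = wv q δ hδ := by
  rw [wv, mul_assoc, hv_idem hq]

theorem hat_entry (q : Matrix n n ℂ) (i j : n) (c : CF T) : hat T q i j * c = c * hat T q i j :=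
  alg_comm _ _

theorem tr_wv {q : Matrix n n ℂ} (hq : q * q = q) (δ : Matrix n n (CF T)) (hδ : invM δ = -δ)
    (h : δ = δ * hat T q + hat T q * δ) (j : ℕ) :
    ((hv T q * wv q δ hδ ^ j).trace : CF T) = (hat T q * δ ^ (2 * j)).trace := by
  have hq' : hat T q * hat T q = hat T q := by rw [← hat_mul, hq]
  rw [vl_trace, vl_mul, vl_pow, vl_wv, vl_hv, idem_pow hq' h]

theorem kron_wv {q : Matrix n n ℂ} {q' : Matrix n' n' ℂ} (hq : q * q = q) (hq' : q' * q' = q')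
    {δ : Matrix n n (CF T)} {δ' : Matrix n' n' (CF T)} (hδ : invM δ = -δ) (hδ' : invM δ' = -δ')
    (h : δ = δ * hat T q + hat T q * δ) (h' : δ' = δ' * hat T q' + hat T q' * δ')
    {δK : Matrix (n × n') (n × n') (CF T)} (hδK : invM δK = -δK)
    (hK : δK = δ ⊗ₖ hat T q' + hat T q ⊗ₖ δ') :
    wv (q ⊗ₖ q') δK hδK = wv q δ hδ ⊗ₖ hv T q' + hv T q ⊗ₖ wv q' δ' hδ' := by
  refine vl_inj ?_
  have e1 : vl (wv q δ hδ ⊗ₖ hv T q' + hv T q ⊗ₖ wv q' δ' hδ')
      = vl (wv q δ hδ) ⊗ₖ hat T q' + hat T q ⊗ₖ vl (wv q' δ' hδ') := rfl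
  have e2 : hat T (q ⊗ₖ q') = hat T q ⊗ₖ hat T q' := by
    refine Matrix.ext ?_
    rintro ⟨i, i'⟩ ⟨j, j'⟩
    exact map_mul (algebraMap ℂ (CF T)) _ _
  rw [e1, vl_wv, vl_wv, vl_wv, e2]
  set g := hat T q with hg
  set g' := hat T q' with hg'
  have gg : g * g = g := by rw [hg, ← hat_mul, hq]
  have gg' : g' * g' = g' := by rw [hg', ← hat_mul, hq']
  have cg : ∀ i j (c : CF T), g i j * c = c * g i j := fun i j c => hat_entry q i j c
  have cg' : ∀ i j (c : CF T), g' i j * c = c * g' i j := fun i j c => hat_entry q' i j c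
  have mid : g * δ * g = 0 := idem_mid gg h
  have mid' : g' * δ' * g' = 0 := idem_mid gg' h'
  have hodd : ∀ i j, invC (δ i j) = -δ i j := fun i j => congrFun (congrFun hδ i) j
  have anti : ∀ i j k l, δ' i j * δ k l = - (δ k l * δ' i j) := fun i j k l => by
    have h1 : invC (δ' i j) = -δ' i j := congrFun (congrFun hδ' i) j
    rw [odd_commC h1, hodd, neg_mul]
  have sq : δK * δK = (δ * δ) ⊗ₖ (g' * g') + (δ * g) ⊗ₖ (g' * δ')
      - (g * δ) ⊗ₖ (δ' * g') + (g * g) ⊗ₖ (δ' * δ') := by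
    rw [hK, add_mul, mul_add, mul_add, nk_mul _ _ _ _ fun i j k l => cg' i j _,
      nk_mul _ _ _ _ fun i j k l => cg' i j _, nk_mul_anti _ _ _ _ anti,
      nk_mul _ _ _ _ fun i j k l => (cg k l _).symm]
    abel
  have L : ∀ (C : Matrix n n (CF T)) (D : Matrix n' n' (CF T)),
      (g ⊗ₖ g') * (C ⊗ₖ D) * (g ⊗ₖ g') = (g * C * g) ⊗ₖ (g' * D * g') := fun C D => by
    rw [nk_mul _ _ _ _ fun i j k l => cg' i j _, nk_mul _ _ _ _ fun i j k l => (cg k l _).symm]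
  have z1 : ∀ D : Matrix n' n' (CF T), (0 : Matrix n n (CF T)) ⊗ₖ D = 0 := fun D =>
    Matrix.ext fun i j => zero_mul _
  have m1 : g * (δ * g) * g = 0 := by rw [← mul_assoc g δ g, mid, zero_mul]
  have m2 : g * (g * δ) * g = 0 := by rw [← mul_assoc g g δ, gg, mid]
  rw [sq, mul_add, mul_sub, mul_add, add_mul, sub_mul, add_mul, L, L, L, L, m1, m2, z1, z1,
    add_zero, sub_zero, gg', gg', gg', gg, gg, gg]

theorem tr_kron {q : Matrix n n ℂ} {q' : Matrix n' n' ℂ} (hq : q * q = q) (hq' : q' * q' = q')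
    {δ : Matrix n n (CF T)} {δ' : Matrix n' n' (CF T)} (hδ : invM δ = -δ) (hδ' : invM δ' = -δ')
    (h : δ = δ * hat T q + hat T q * δ) (h' : δ' = δ' * hat T q' + hat T q' * δ')
    {δK : Matrix (n × n') (n × n') (CF T)} (hδK : invM δK = -δK)
    (hK : δK = δ ⊗ₖ hat T q' + hat T q ⊗ₖ δ')
    (hK' : δK = δK * hat T (q ⊗ₖ q') + hat T (q ⊗ₖ q') * δK) {k : ℕ} (hk : 1 ≤ k) :
    (hat T (q ⊗ₖ q') * δK ^ (2 * k)).trace = ∑ i ∈ Finset.range (k + 1),
      (k.choose i : CF T) * (hat T q * δ ^ (2 * i)).trace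
        * (hat T q' * δ' ^ (2 * (k - i))).trace := by
  have hqq : (q ⊗ₖ q') * (q ⊗ₖ q') = q ⊗ₖ q' := by rw [← Matrix.mul_kronecker_mul, hq, hq']
  rw [← tr_wv hqq δK hδK hK' k, idem_mul_pow (hv_wv hqq δK hδK) hk,
    kron_wv hq hq' hδ hδ' h h' hδK hK, tr_kron_pow (hv_idem hq) (hv_wv hq _ _) (wv_hv hq _ _)
      (hv_idem hq') (hv_wv hq' _ _) (wv_hv hq' _ _) hk]
  have e1 : ∀ (s : Finset ℕ) (f : ℕ → EvC T),
      ((∑ i ∈ s, f i : EvC T) : CF T) = ∑ i ∈ s, (f i : CF T) :=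
    fun s f => map_sum (EvC T).val f s
  rw [e1]
  refine Finset.sum_congr rfl fun i hi => ?_
  rw [← tr_wv hq δ hδ h i, ← tr_wv hq' δ' hδ' h' (k - i)]
  push_cast
  rfl

end curv

section kron
variable {E F : Type*} [NormedAddCommGroup E] [NormedSpace ℝ E] [FiniteDimensional ℝ E]
  [NormedAddCommGroup F] [NormedSpace ℝ F] [FiniteDimensional ℝ F]
  {n n' : Type*} [Fintype n] [Fintype n'] [DecidableEq n] [DecidableEq n']
  {x : E} {X : Set E} {Y : Set F} {dX dY : ℕ}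

theorem SM.kron {k : WithTop ℕ∞} {A : E → Matrix n n ℂ} {B : E → Matrix n' n' ℂ} (hA : SM k A x)
    (hB : SM k B x) : SM k (fun y => A y ⊗ₖ B y) x := fun i j => (hA i.1 j.1).mul (hB i.2 j.2)

theorem IdF.kron {Q : E → Matrix n n ℂ} {Q' : E → Matrix n' n' ℂ} (hQ : IdF X Q)
    (hQ' : IdF X Q') : IdF X (fun y => Q y ⊗ₖ Q' y) :=
  ⟨fun x hx => (hQ.smooth x hx).kron (hQ'.smooth x hx), fun x hx => by
    rw [← Matrix.mul_kronecker_mul, hQ.idem x hx, hQ'.idem x hx]⟩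

theorem dl_kron {Q : E → Matrix n n ℂ} {Q' : E → Matrix n' n' ℂ} (hQ : SM 1 Q x)
    (hQ' : SM 1 Q' x) : dl X (fun y => Q y ⊗ₖ Q' y) x
      = dl X Q x ⊗ₖ hat (Tan X x) (Q' x) + hat (Tan X x) (Q x) ⊗ₖ dl X Q' x := by
  refine Matrix.ext ?_
  rintro ⟨i, i'⟩ ⟨j, j'⟩
  have h : dC (fun y => algebraMap ℂ (CF E) ((Q y ⊗ₖ Q' y) (i, i') (j, j'))) x
      = dC (fun y => algebraMap ℂ (CF E) (Q y i j)) x * algebraMap ℂ (CF E) (Q' x i' j')
        + invC (algebraMap ℂ (CF E) (Q x i j)) * dC (fun y => algebraMap ℂ (CF E) (Q' y i' j')) x := by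
    rw [← dC_mul (CD.of_fun (hQ i j)) (CD.of_fun (hQ' i' j'))]
    congr 1
    funext y
    rw [← map_mul]; rfl
  rw [invC_algebraMap] at h
  change rs X x (dC (fun y => algebraMap ℂ (CF E) ((Q y ⊗ₖ Q' y) (i, i') (j, j'))) x) = _
  rw [h, map_add, map_mul, map_mul, rs_algebraMap, rs_algebraMap]
  rfl

theorem sc_kron (hX : Sub dX X) {Q : E → Matrix n n ℂ} {Q' : E → Matrix n' n' ℂ} (hQ : IdF X Q)
    (hQ' : IdF X Q') (k : ℕ) : sc hX (hQ.kron hQ') k
      = ∑ i ∈ Finset.range (k + 1), (k.choose i : H X) * sc hX hQ i * sc hX hQ' (k - i) := by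
  have key : sc hX (hQ.kron hQ') k = H.mk X (∑ i ∈ Finset.range (k + 1),
      (k.choose i : Z X) * ⟨sf i Q, sf_mem_Z hX hQ i⟩ * ⟨sf (k - i) Q', sf_mem_Z hX hQ' (k - i)⟩) := by
    refine H.mk_congr (a := ⟨_, sf_mem_Z hX (hQ.kron hQ') k⟩) fun x hx => ?_
    rw [map_sum]
    simp only [map_mul, map_natCast]
    change rs X x (sf k (fun y => Q y ⊗ₖ Q' y) x)
      = ∑ i ∈ Finset.range (k + 1), (k.choose i : CF (Tan X x)) * rs X x (sf i Q x)
        * rs X x (sf (k - i) Q' x)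
    rcases Nat.eq_zero_or_pos k with h0 | h0
    · subst h0
      rw [zero_add, Finset.sum_range_one, Nat.choose_self, Nat.cast_one, one_mul, sf_zero, sf_zero,
        sf_zero, Matrix.trace_kronecker, map_mul, map_mul]
    · rw [rs_sf]
      have e0 := tr_kron (hQ.idem x hx) (hQ'.idem x hx) (invM_dl Q x) (invM_dl Q' x)
        (hQ.dl_eq hX hx) (hQ'.dl_eq hX hx) (invM_dl (X := X) (fun y => Q y ⊗ₖ Q' y) x)
        (dl_kron (hQ.s1 hx) (hQ'.s1 hx)) ((hQ.kron hQ').dl_eq hX hx) h0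
      refine e0.trans (Finset.sum_congr rfl fun i hi => ?_)
      rw [rs_sf, rs_sf]
  rw [key, map_sum]
  simp only [map_mul, map_natCast]
  rfl

/-! ### line bundles -/

theorem pow_unique {A : Type*} [CommRing A] (w : Matrix (Fin 1) (Fin 1) A) {j : ℕ} :
    (w ^ j).trace = w.trace ^ j := by
  induction j with
  | zero => simp
  | succ j ih =>
    rw [pow_succ, pow_succ, ← ih]
    simp [Matrix.trace, Matrix.mul_apply]

theorem trace_rank_one {A : Type*} [CommRing A] (S : Matrix n (Fin 1) A) (T : Matrix (Fin 1) n A)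
    {j : ℕ} (hj : 1 ≤ j) : ((S * T) ^ j).trace = (S * T).trace ^ j := by
  obtain ⟨i, rfl⟩ := Nat.exists_eq_add_of_le' hj
  have h : (S * T) ^ (i + 1) = S * ((T * S) ^ i * T) := by
    clear hj
    induction i with
    | zero => simp
    | succ i ih =>
      rw [pow_succ', ih, pow_succ' (T * S)]
      simp only [Matrix.mul_assoc]
  rw [h, Matrix.trace_mul_comm, Matrix.trace_mul_comm S T, Matrix.mul_assoc, ← pow_succ, pow_unique]

theorem exists_factor' (M : Matrix n n ℂ) {r : ℕ} (h : M.rank = r) :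
    ∃ (S : Matrix n (Fin r) ℂ) (T : Matrix (Fin r) n ℂ), M = S * T := by
  subst h; exact exists_factor M

theorem sf'_line {Q : E → Matrix n n ℂ} (h : (Q x).rank = 1) {j : ℕ} (hj : 1 ≤ j) :
    sf' j Q x = sf' 1 Q x ^ j := by
  obtain ⟨S, T, hST⟩ := exists_factor' (Q x) h
  have e : hv E (Q x) = hv E S * hv E T := by rw [← hv_mul, ← hST]
  have : Om Q x = hv E S * (hv E T * D2 Q x * hv E (Q x)) := by
    rw [Om]
    nth_rewrite 1 [e]
    simp only [Matrix.mul_assoc]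
  rw [sf', sf', this, trace_rank_one _ _ hj, pow_one]
  push_cast
  rfl

theorem sc_line (hX : Sub dX X) {Q : E → Matrix n n ℂ} (hQ : IdF X Q)
    (h : ∀ x ∈ X, (Q x).rank = 1) (j : ℕ) : sc hX hQ j = sc hX hQ 1 ^ j := by
  rcases Nat.eq_zero_or_pos j with h0 | h0
  · subst h0
    rw [pow_zero, sc_zero_of_rank hX hQ h, Nat.cast_one]
  · rw [sc_eq' hX hQ h0, sc_eq' hX hQ le_rfl]
    change _ = (H.mk X ⟨_, _⟩) ^ j
    rw [← map_pow]
    refine H.mk_congr (a := ⟨_, sf'_mem_Z hX hQ j⟩) fun x hx => ?_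
    rw [map_pow]
    change rs X x (sf' j Q x) = rs X x (sf' 1 Q x) ^ j
    rw [sf'_line (h x hx) h0, map_pow]

end kron

end Crest.Agent.R208.CW
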