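import Crest.Agent.R208.SP4

/-!
# R208, block SPEC, part 6: entrywise smoothness calculus, the smooth partial inverse, the
package `T_J`, `F_J`
-/

set_option autoImplicit false

namespace Crest.Agent.R208.SP

open Filter Topology Matrix

/-! ### entrywise smoothness -/

section MSm

variable {𝕜 : Type*} [RCLike 𝕜] {X : Type*} [NormedAddCommGroup X] [NormedSpace ℝ X]
variable {l m n : Type*}

/-- entrywise smoothness at a point -/
def MSm (k : WithTop ℕ∞) (M : X → Matrix m n 𝕜) (x : X) : Prop :=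
  ∀ i j, ContDiffAt ℝ k (fun y => M y i j) x

variable {k : WithTop ℕ∞} {M N : X → Matrix m n 𝕜} {x : X}

theorem MSm.add (hM : MSm k M x) (hN : MSm k N x) : MSm k (fun y => M y + N y) x :=
  fun i j => (hM i j).add (hN i j)

theorem MSm.sub (hM : MSm k M x) (hN : MSm k N x) : MSm k (fun y => M y - N y) x :=
  fun i j => (hM i j).sub (hN i j)

theorem MSm.neg (hM : MSm k M x) : MSm k (fun y => -M y) x :=
  fun i j => (hM i j).neg

theorem MSm.const (M : Matrix m n 𝕜) : MSm k (fun _ : X => M) x :=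
  fun _ _ => contDiffAt_const

theorem MSm.smul {c : X → 𝕜} (hc : ContDiffAt ℝ k c x) (hM : MSm k M x) :
    MSm k (fun y => c y • M y) x :=
  fun i j => hc.mul (hM i j)

theorem MSm.const_smul (c : 𝕜) (hM : MSm k M x) : MSm k (fun y => c • M y) x :=
  hM.smul contDiffAt_const

theorem MSm.mul [Fintype n] {N : X → Matrix n l 𝕜} (hM : MSm k M x) (hN : MSm k N x) :
    MSm k (fun y => M y * N y) x := by
  intro i j
  simp only [Matrix.mul_apply]
  exact ContDiffAt.sum fun a _ => (hM i a).mul (hN a j)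

theorem MSm.conjTranspose (hM : MSm k M x) : MSm k (fun y => (M y)ᴴ) x := by
  intro i j
  simp only [Matrix.conjTranspose_apply]
  exact (RCLike.conjCLE (K := 𝕜)).contDiff.contDiffAt.comp x (hM j i)

theorem MSm.transpose (hM : MSm k M x) : MSm k (fun y => (M y)ᵀ) x :=
  fun i j => hM j i

theorem MSm.kron {o p : Type*} {N : X → Matrix o p 𝕜} (hM : MSm k M x) (hN : MSm k N x) :
    MSm k (fun y => Matrix.kroneckerMap (· * ·) (M y) (N y)) x :=
  fun i j => (hM i.1 j.1).mul (hN i.2 j.2)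

theorem MSm.congr (hM : MSm k M x) (h : ∀ᶠ y in 𝓝 x, N y = M y) : MSm k N x := by
  intro i j
  refine (hM i j).congr_of_eventuallyEq ?_
  filter_upwards [h] with y hy
  rw [hy]

theorem MSm.of_le {k' : WithTop ℕ∞} (hM : MSm k M x) (h : k' ≤ k) : MSm k' M x :=
  fun i j => (hM i j).of_le h

section Inv

variable [Fintype n] [DecidableEq n]

attribute [local instance] Matrix.linftyOpNormedRing Matrix.linftyOpNormedAlgebra

theorem MSm.contDiffAt {M : X → Matrix n n 𝕜} (hM : MSm k M x) : ContDiffAt ℝ k M x := by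
  have h1 : M = fun y => ∑ i, ∑ j, (M y i j) • (Matrix.single i j (1 : 𝕜) : Matrix n n 𝕜) := by
    funext y
    conv_lhs => rw [Matrix.matrix_eq_sum_single (M y)]
    refine Finset.sum_congr rfl fun i _ => Finset.sum_congr rfl fun j _ => ?_
    rw [Matrix.smul_single]
    simp
  rw [h1]
  exact ContDiffAt.sum fun i _ => ContDiffAt.sum fun j _ => (hM i j).smul contDiffAt_const

theorem MSm.of_contDiffAt {M : X → Matrix n n 𝕜} (hM : ContDiffAt ℝ k M x) : MSm k M x := by
  intro i j
  let L : Matrix n n 𝕜 →ₗ[ℝ] 𝕜 :=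
    { toFun := fun M => M i j
      map_add' := by intro a b; rfl
      map_smul' := by intro c a; rfl }
  have : FiniteDimensional ℝ (Matrix n n 𝕜) := by
    have : FiniteDimensional ℝ 𝕜 := inferInstance
    exact inferInstanceAs (FiniteDimensional ℝ (n → n → 𝕜))
  have hL : ContDiffAt ℝ k (L.toContinuousLinearMap) (M x) :=
    (L.toContinuousLinearMap).contDiff.contDiffAt
  exact hL.comp x hM

theorem MSm.ringInverse {M : X → Matrix n n 𝕜} (hM : MSm k M x) (hu : IsUnit (M x)) :
    MSm k (fun y => Ring.inverse (M y)) x := by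
  have : FiniteDimensional ℝ (Matrix n n 𝕜) := by
    have : FiniteDimensional ℝ 𝕜 := inferInstance
    exact inferInstanceAs (FiniteDimensional ℝ (n → n → 𝕜))
  have : CompleteSpace (Matrix n n 𝕜) := FiniteDimensional.complete ℝ _
  apply MSm.of_contDiffAt
  obtain ⟨u, hu⟩ := hu
  have h3 : ContDiffAt ℝ k (Ring.inverse : Matrix n n 𝕜 → Matrix n n 𝕜) (u : Matrix n n 𝕜) :=
    contDiffAt_ringInverse ℝ u
  rw [hu] at h3
  exact ContDiffAt.comp (g := (Ring.inverse : Matrix n n 𝕜 → Matrix n n 𝕜)) (f := M) x h3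
    hM.contDiffAt

end Inv

end MSm

/-! ### the smooth partial inverse -/

section Pinv

variable {𝕜 : Type*} [RCLike 𝕜] {m n : Type*} [Fintype m] [Fintype n] [DecidableEq n]

/-- the unit used for the partial inverse -/
noncomputable def gram (P : Matrix n n 𝕜) (S : Matrix m n 𝕜) : Matrix n n 𝕜 :=
  Sᴴ * S + (1 - P)ᴴ * (1 - P)

/-- the partial inverse of `S : range P → range P'` -/
noncomputable def pinv (P : Matrix n n 𝕜) (P' : Matrix m m 𝕜) (S : Matrix m n 𝕜) :
    Matrix n m 𝕜 :=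
  Ring.inverse (gram P S) * (Sᴴ * P')

open scoped ComplexOrder in
theorem isUnit_gram {P : Matrix n n 𝕜} {S : Matrix m n 𝕜}
    (h : ∀ v : n → 𝕜, P.mulVec v = v → S.mulVec v = 0 → v = 0) : IsUnit (gram P S) := by
  rw [← Matrix.mulVec_injective_iff_isUnit]
  intro v w hvw
  have h2 : (gram P S).mulVec (v - w) = 0 := by
    rw [Matrix.mulVec_sub, sub_eq_zero]; exact hvw
  set u := v - w with hu
  have h3 : star (S.mulVec u) ⬝ᵥ S.mulVec u + star ((1 - P).mulVec u) ⬝ᵥ (1 - P).mulVec u = 0 := by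
    have : star u ⬝ᵥ (gram P S).mulVec u = 0 := by rw [h2, dotProduct_zero]
    rw [gram, Matrix.add_mulVec, dotProduct_add, ← Matrix.mulVec_mulVec, ← Matrix.mulVec_mulVec,
      Matrix.dotProduct_mulVec, Matrix.dotProduct_mulVec _ (1 - P)ᴴ] at this
    rw [Matrix.star_mulVec, Matrix.star_mulVec]
    exact this
  have h4 := (add_eq_zero_iff_of_nonneg (dotProduct_star_self_nonneg (S.mulVec u))
    (dotProduct_star_self_nonneg ((1 - P).mulVec u))).mp h3
  have h5 : S.mulVec u = 0 := dotProduct_star_self_eq_zero.mp h4.1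
  have h6 : (1 - P).mulVec u = 0 := dotProduct_star_self_eq_zero.mp h4.2
  have h7 : P.mulVec u = u := by
    rw [Matrix.sub_mulVec, Matrix.one_mulVec, sub_eq_zero] at h6; exact h6.symm
  exact sub_eq_zero.mp (h u h7 h5)

omit [DecidableEq n] in
theorem PIso.inj {P : Matrix n n 𝕜} {P' : Matrix m m 𝕜} {S : Matrix m n 𝕜} {W : Matrix n m 𝕜}
    (h : PIso P P' S W) (v : n → 𝕜) (hv : P.mulVec v = v) (hS : S.mulVec v = 0) : v = 0 := by
  rw [← hv, ← h.ws, ← Matrix.mulVec_mulVec, hS, Matrix.mulVec_zero]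

/-- The formula for the partial inverse. -/
theorem PIso.eq_pinv {P : Matrix n n 𝕜} {P' : Matrix m m 𝕜} {S : Matrix m n 𝕜} {W : Matrix n m 𝕜}
    (h : PIso P P' S W) : W = pinv P P' S := by
  have hu := isUnit_gram (P := P) (S := S) h.inj
  have h1 : gram P S * W = Sᴴ * P' := by
    rw [gram, Matrix.add_mul, Matrix.mul_assoc, h.sw, Matrix.mul_assoc, Matrix.sub_mul,
      Matrix.one_mul, h.pw, sub_self, Matrix.mul_zero, add_zero]
  rw [pinv, ← h1, ← Matrix.mul_assoc, Ring.inverse_mul_cancel _ hu, Matrix.one_mul]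

theorem PIso.to_pinv {P : Matrix n n 𝕜} {P' : Matrix m m 𝕜} {S : Matrix m n 𝕜} {W : Matrix n m 𝕜}
    (h : PIso P P' S W) : PIso P P' S (pinv P P' S) := by
  rw [← h.eq_pinv]; exact h

/-- existence of the partial inverse: `S` injective on the range of `P`, and onto the range of
`P'`. -/
theorem exists_pIso {P : Matrix n n 𝕜} {P' : Matrix m m 𝕜} {S : Matrix m n 𝕜}
    (hP : P * P = P) (hP' : P' * P' = P') (hSP : S * P = S) (hPS : P' * S = S)
    (hinj : ∀ v : n → 𝕜, P.mulVec v = v → S.mulVec v = 0 → v = 0)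
    (hsurj : ∀ w : m → 𝕜, P'.mulVec w = w → ∃ v, S.mulVec v = w) : PIso P P' S (pinv P P' S) := by
  classical
  have hu := isUnit_gram (P := P) (S := S) hinj
  -- the left inverse `L = gram⁻¹ Sᴴ` satisfies `L S = P`
  have hgP : gram P S * P = Sᴴ * S := by
    rw [gram, Matrix.add_mul, Matrix.mul_assoc, hSP, Matrix.mul_assoc, Matrix.sub_mul,
      Matrix.one_mul, hP, sub_self, Matrix.mul_zero, add_zero]
  have hLS : Ring.inverse (gram P S) * Sᴴ * S = P := by
    rw [Matrix.mul_assoc, ← hgP, ← Matrix.mul_assoc, Ring.inverse_mul_cancel _ hu, Matrix.one_mul]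
  have hWS : pinv P P' S * S = P := by
    rw [pinv, Matrix.mul_assoc, Matrix.mul_assoc, hPS, ← Matrix.mul_assoc, hLS]
  -- surjectivity
  have hSW : S * pinv P P' S = P' := by
    have key : ∀ w : m → 𝕜, (S * pinv P P' S).mulVec w = P'.mulVec w := by
      intro w
      obtain ⟨v, hv⟩ := hsurj (P'.mulVec w) (by rw [Matrix.mulVec_mulVec, hP'])
      have h1 : (pinv P P' S).mulVec w = P.mulVec v := by
        have h2 : pinv P P' S = pinv P P' S * P' := by
          rw [pinv, Matrix.mul_assoc, Matrix.mul_assoc, hP']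
        rw [h2, ← Matrix.mulVec_mulVec, ← hv, Matrix.mulVec_mulVec, hWS]
      rw [← Matrix.mulVec_mulVec, h1, Matrix.mulVec_mulVec, hSP, hv]
    ext i j
    have := congrFun (key (Pi.single j 1)) i
    simpa using this
  refine ⟨hSP, hPS, ?_, ?_, hWS, hSW⟩
  · rw [pinv, Matrix.mul_assoc, Matrix.mul_assoc, hP']
  · -- `P W = W S W = W P' = W`
    have h3 : pinv P P' S * P' = pinv P P' S := by
      rw [pinv, Matrix.mul_assoc, Matrix.mul_assoc, hP']
    calc P * pinv P P' S = pinv P P' S * S * pinv P P' S := by rw [hWS]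
      _ = pinv P P' S * (S * pinv P P' S) := Matrix.mul_assoc _ _ _
      _ = pinv P P' S := by rw [hSW, h3]

theorem MSm.pinv {X : Type*} [NormedAddCommGroup X] [NormedSpace ℝ X] {k : WithTop ℕ∞} {x : X}
    {P : X → Matrix n n 𝕜} {P' : X → Matrix m m 𝕜} {S : X → Matrix m n 𝕜} (hP : MSm k P x)
    (hP' : MSm k P' x) (hS : MSm k S x) {W : Matrix n m 𝕜} (h : PIso (P x) (P' x) (S x) W) :
    MSm k (fun y => SP.pinv (P y) (P' y) (S y)) x := by
  have h1 : MSm k (fun y => gram (P y) (S y)) x :=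
    (hS.conjTranspose.mul hS).add
      (((MSm.const 1).sub hP).conjTranspose.mul ((MSm.const 1).sub hP))
  exact (h1.ringInverse (isUnit_gram h.inj)).mul (hS.conjTranspose.mul hP')

end Pinv

/-! ### smoothness of the spectral idempotent and of the intertwiner -/

section Smooth

variable {X : Type*} [NormedAddCommGroup X] [NormedSpace ℝ X] {k : WithTop ℕ∞} {x : X}
variable {m n : Type*} [Fintype m] [Fintype n] [DecidableEq n]

theorem MSm.cx {P : X → Matrix n n ℝ} (h : MSm k P x) : MSm k (fun y => SP.cx (P y)) x :=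
  fun i j => Complex.ofRealCLM.contDiff.contDiffAt.comp x (h i j)

theorem MSm.pol {P J : X → Matrix n n ℂ} (hP : MSm k P x) (hJ : MSm k J x)
    (h : NoReal (P x) (J x)) : MSm k (fun y => SP.pol (P y) (J y)) x := by
  let _ := Matrix.linftyOpNormedRing (n := n) (α := ℂ)
  let _ := Matrix.linftyOpNormedAlgebra (n := n) (α := ℂ) (R := ℂ)
  exact MSm.of_contDiffAt (contDiffAt_pol hP.contDiffAt hJ.contDiffAt h)

theorem MSm.polR {P J : X → Matrix n n ℝ} (hP : MSm k P x) (hJ : MSm k J x)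
    (h : NoRealR (P x) (J x)) : MSm k (fun y => SP.polR (P y) (J y)) x :=
  fun i j => contDiffAt_polR hP hJ h i j

theorem MSm.qp {P I : X → Matrix n n ℂ} (hP : MSm k P x) (hI : MSm k I x) :
    MSm k (fun y => SP.qp (P y) (I y)) x :=
  (hP.sub (hI.const_smul _)).const_smul _

theorem MSm.sHat {P I : X → Matrix n n ℂ} {S₁ S₂ : X → Matrix m n ℂ} (hP : MSm k P x)
    (hI : MSm k I x) (h1 : MSm k S₁ x) (h2 : MSm k S₂ x) :
    MSm k (fun y => SP.sHat (P y) (I y) (S₁ y) (S₂ y)) x :=
  (h1.sub (h2.const_smul _)).mul (hP.qp hI)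

theorem MSm.uU {P J I : X → Matrix n n ℂ} (hP : MSm k P x) (hJ : MSm k J x) (hI : MSm k I x) :
    MSm k (fun y => SP.uU (P y) (J y) (I y)) x :=
  ((hP.qp hI).mul (hJ.add ((MSm.const 1).const_smul _))).add ((MSm.const 1).sub (hP.qp hI))

theorem MSm.wHat {P J I : X → Matrix n n ℂ} {W : X → Matrix n m ℂ} (hP : MSm k P x)
    (hJ : MSm k J x) (hI : MSm k I x) (hW : MSm k W x) (h : Pol (P x) (J x) (I x)) :
    MSm k (fun y => SP.wHat (P y) (J y) (I y) (W y)) x :=
  (((hP.qp hI).mul ((hP.uU hJ hI).ringInverse (isUnit_uU h))).mul hW).const_smul _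

end Smooth

end Crest.Agent.R208.SP
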