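import Crest.Agent.R208.CW1d
import Crest.Agent.R208.FH10
import Crest.Agent.R208.SP6

/-! Row 208, block CW (helper586).  CW2: homotopy invariance of `H.map`, of the classes `s_k(Q)`,
isomorphism invariance, orthogonal sums (Whitney). -/

set_option autoImplicit false
set_option linter.unusedSectionVars false
set_option linter.unusedSimpArgs false
set_option linter.unusedVariables false

open scoped BigOperators ContDiff Topology
open Module Set

noncomputable section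

namespace Crest.Agent.R208.CW

open Crest.Agent.R208.F Crest.Agent.R208.FI

universe u

section homotopy
variable {E : Type u} [NormedAddCommGroup E] [NormedSpace ℝ E] [FiniteDimensional ℝ E]
  {F : Type*} [NormedAddCommGroup F] [NormedSpace ℝ F] [FiniteDimensional ℝ F]
  {X : Set E} {Y : Set F}

/-- homotopic maps induce the same map on classes -/
theorem H.map_homotopy {Fh : E × ℝ → F}
    (hF : ∀ x ∈ X, ∀ t ∈ Icc (0 : ℝ) 1, ContDiffAt ℝ ∞ Fh (x, t))
    (hm : ∀ x ∈ X, ∀ t ∈ Icc (0 : ℝ) 1, Fh (x, t) ∈ Y)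
    (h0 : SMap X Y fun y => Fh (y, 0)) (h1 : SMap X Y fun y => Fh (y, 1)) (a : H Y) :
    H.map h1 a = H.map h0 a := by
  obtain ⟨om, h, rfl⟩ := H.exists_rep a
  rw [H.map_cls, H.map_cls]
  have hF2 : ∀ x ∈ X, ∀ t ∈ Icc (0 : ℝ) 1, ContDiffAt ℝ 2 Fh (x, t) := fun x hx t ht =>
    (hF x hx t ht).of_le two_le
  have hr := resZero_Hop (Fh := Fh) (om := fun y => (om y).re) hF2 hm
    (fun y hy => (h.2.1 y hy).re.of_le one_le_inf) (fun y hy => congrArg Cx.re (h.2.2 y hy))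
  have hi := resZero_Hop (Fh := Fh) (om := fun y => (om y).im) hF2 hm
    (fun y hy => (h.2.1 y hy).im.of_le one_le_inf) (fun y hy => congrArg Cx.im (h.2.2 y hy))
  refine cls_eq_iff.2 ⟨fun x => ⟨Hop Fh (fun y => (om y).re) x, Hop Fh (fun y => (om y).im) x⟩,
    fun x hx => ⟨contDiffAt_Hop (hF x hx) fun t ht => (h.2.1 _ (hm x hx t ht)).re,
      contDiffAt_Hop (hF x hx) fun t ht => (h.2.1 _ (hm x hx t ht)).im⟩, fun x hx => ?_⟩
  have hr' := hr x hx
  have hi' := hi x hx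
  simp only [map_sub] at hr' hi'
  rw [map_add]
  refine Cx.ext ?_ ?_
  · rw [Cx.add_re]
    have h3 := sub_eq_zero.1 hr'
    have h4 := eq_add_of_sub_eq h3
    rw [add_comm] at h4
    exact h4
  · rw [Cx.add_im]
    have h3 := sub_eq_zero.1 hi'
    have h4 := eq_add_of_sub_eq h3
    rw [add_comm] at h4
    exact h4

end homotopy

/-! ### closedness over an arbitrary set -/

section gen
variable {E F : Type*} [NormedAddCommGroup E] [NormedSpace ℝ E] [FiniteDimensional ℝ E]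
  [NormedAddCommGroup F] [NormedSpace ℝ F] [FiniteDimensional ℝ F]
  {n m : Type*} [Fintype n] [Fintype m]
  {x : E} {X : Set E} {Y : Set F} {dX dY : ℕ}

theorem rs_d_real_zero (hx : x ∈ X) {g : E → ℝ} (hg : DifferentiableAt ℝ g x)
    (h : ∀ y ∈ X, g y = 0) : pb (Tan X x).subtype (d (fun y => g y • (1 : Ext E)) x) = 0 := by
  rw [d_smul hg (differentiableAt_const _), d_const, smul_zero, add_zero, mul_one, pb_io]
  have : ((fderiv ℝ g x : E →L[ℝ] ℝ) : Module.Dual ℝ E) ∘ₗ (Tan X x).subtype = 0 := by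
    refine LinearMap.ext fun v => ?_
    have key : ∀ w ∈ Tan X x, fderiv ℝ g x w = 0 := by
      intro w hw
      refine Submodule.span_induction (p := fun w _ => fderiv ℝ g x w = 0) ?_ ?_ ?_ ?_ hw
      · rintro w ⟨γ, rfl, hγ, hS⟩
        have h1 := hg.hasFDerivAt.comp_hasDerivAt 0 hγ
        have h3 : (g ∘ γ) =ᶠ[𝓝 0] fun _ => (0 : ℝ) := hS.mono fun t ht => h _ ht
        exact (h1.congr_of_eventuallyEq h3.symm).unique (hasDerivAt_const 0 0)
      · simp
      · intro a b _ _ ha hb; simp only [map_add, ha, hb, add_zero]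
      · intro r a _ ha; simp only [map_smul, ha, smul_zero]
    exact key v v.2
  rw [this, map_zero]

theorem rs_dC_fun_zero (hx : x ∈ X) {g : E → ℂ} (hg : ContDiffAt ℝ 1 g x)
    (h : ∀ y ∈ X, g y = 0) : rs X x (dC (fun y => algebraMap ℂ (CF E) (g y)) x) = 0 := by
  have hr : ContDiffAt ℝ 1 (fun y => (g y).re) x := Complex.reCLM.contDiff.contDiffAt.comp x hg
  have hi : ContDiffAt ℝ 1 (fun y => (g y).im) x := Complex.imCLM.contDiff.contDiffAt.comp x hg
  have e1 : (fun y => (algebraMap ℂ (CF E) (g y)).re) = fun y => (g y).re • (1 : Ext E) := by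
    funext y; rw [Cx.algebraMap_re, Algebra.algebraMap_eq_smul_one]
  have e2 : (fun y => (algebraMap ℂ (CF E) (g y)).im) = fun y => (g y).im • (1 : Ext E) := by
    funext y; rw [Cx.algebraMap_im, Algebra.algebraMap_eq_smul_one]
  refine Cx.ext ?_ ?_
  · change pb (Tan X x).subtype (d (fun y => (algebraMap ℂ (CF E) (g y)).re) x) = 0
    rw [e1]
    exact rs_d_real_zero hx (hr.differentiableAt (by norm_num)) fun y hy => by rw [h y hy]; rfl
  · change pb (Tan X x).subtype (d (fun y => (algebraMap ℂ (CF E) (g y)).im) x) = 0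
    rw [e2]
    exact rs_d_real_zero hx (hi.differentiableAt (by norm_num)) fun y hy => by rw [h y hy]; rfl

theorem dl_congr_gen (hx : x ∈ X) {A B : E → Matrix n m ℂ} (hA : SM 1 A x)
    (hB : SM 1 B x) (h : ∀ y ∈ X, A y = B y) : dl X A x = dl X B x := by
  refine Matrix.ext fun i j => ?_
  have h1 := rs_dC_fun_zero (X := X) hx (g := fun y => A y i j - B y i j) ((hA i j).sub (hB i j))
    (fun y hy => by simp only [h y hy, sub_self])
  have h2 : (fun y => algebraMap ℂ (CF E) (A y i j - B y i j))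
      = fun y => algebraMap ℂ (CF E) (A y i j) - algebraMap ℂ (CF E) (B y i j) :=
    funext fun y => map_sub _ _ _
  rw [h2, dC_sub (CD.of_fun (hA i j)) (CD.of_fun (hB i j)), map_sub] at h1
  exact sub_eq_zero.1 h1

theorem IdF.dl_eq_gen {Q : E → Matrix n n ℂ} (hQ : IdF X Q) (hx : x ∈ X) :
    dl X Q x = dl X Q x * hat (Tan X x) (Q x) + hat (Tan X x) (Q x) * dl X Q x := by
  conv_lhs => rw [dl_congr_gen hx (hQ.s1 hx) ((hQ.s1 hx).mul (hQ.s1 hx))
    (fun y hy => (hQ.idem y hy).symm)]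
  rw [dl_mul (hQ.s1 hx) (hQ.s1 hx)]

theorem sf_mem_Z_gen [DecidableEq n] {Q : E → Matrix n n ℂ} (hQ : IdF X Q) (j : ℕ) :
    sf j Q ∈ Z X :=
  mem_Z.2 ⟨fun x => invC_sf j Q x, Smo_sf hQ j, fun x hx => by
    have h1 := dC_sf (hQ.s2 hx) j
    have h2 := rs_trace_pow (X := X) Q x (2 * j + 1)
    have h3 := trace_odd_all (hQ.idem x hx) (hQ.dl_eq_gen hx) j
    rw [h1, h2, h3]⟩

/-! ### the classifying map -/

/-- the set of idempotent matrices -/
def Idem (n : Type*) [Fintype n] : Set (n → n → ℂ) :=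
  {M | (Matrix.of M) * (Matrix.of M) = Matrix.of M}

/-- the tautological field -/
def taut (n : Type*) [Fintype n] (M : n → n → ℂ) : Matrix n n ℂ := Matrix.of M

theorem idF_taut : IdF (Idem n) (taut n) :=
  ⟨fun M _ i j => ((contDiff_apply_apply ℝ ℂ i j).contDiffAt : _), fun M hM => hM⟩

theorem contDiffAt_cl {G : Type*} [NormedAddCommGroup G] [NormedSpace ℝ G] {k : WithTop ℕ∞}
    {Q : G → Matrix n m ℂ} {x : G} (h : SM k Q x) :
    ContDiffAt ℝ k (fun y => (fun i j => Q y i j : n → m → ℂ)) x :=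
  contDiffAt_pi.2 fun i => contDiffAt_pi.2 fun j => h i j

theorem IdF.smap {Q : E → Matrix n n ℂ} (hQ : IdF X Q) :
    SMap X (Idem n) (fun y => (fun i j => Q y i j : n → n → ℂ)) :=
  ⟨fun x hx => contDiffAt_cl (hQ.smooth x hx), fun x hx => hQ.idem x hx⟩

theorem sc_eq_map [DecidableEq n] (hX : Sub dX X) {Q : E → Matrix n n ℂ} (hQ : IdF X Q) (j : ℕ) :
    sc hX hQ j = H.map hQ.smap (cls (sf j (taut n)) (sf_mem_Z_gen idF_taut j)) := by
  rw [H.map_cls]
  refine cls_congr fun x hx => ?_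
  rw [pullC_sf (hQ.smap.c2 hx) (idF_taut.s1 (hQ.smap.maps hx))]
  rfl

end gen

section inv
variable {E : Type u} [NormedAddCommGroup E] [NormedSpace ℝ E] [FiniteDimensional ℝ E]
  {n m : Type*} [Fintype n] [Fintype m] [DecidableEq n] [DecidableEq m]
  {x : E} {X : Set E} {dX : ℕ}

/-- homotopy invariance of the classes -/
theorem sc_homotopy (hX : Sub dX X) {R : E × ℝ → Matrix n n ℂ}
    (hs : ∀ x ∈ X, ∀ t ∈ Icc (0 : ℝ) 1, SM ∞ R (x, t))
    (hi : ∀ x ∈ X, ∀ t ∈ Icc (0 : ℝ) 1, R (x, t) * R (x, t) = R (x, t))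
    (h0 : IdF X fun y => R (y, 0)) (h1 : IdF X fun y => R (y, 1)) (j : ℕ) :
    sc hX h1 j = sc hX h0 j := by
  rw [sc_eq_map, sc_eq_map]
  exact H.map_homotopy (Fh := fun z => (fun i j => R z i j : n → n → ℂ))
    (fun x hx t ht => contDiffAt_cl (hs x hx t ht)) (fun x hx t ht => hi x hx t ht)
    h0.smap h1.smap _

theorem idF_zero : IdF X (fun _ => (0 : Matrix n n ℂ)) := IdF.const (mul_zero 0)

theorem sc_zero_field (hX : Sub dX X) (h : IdF X (fun _ => (0 : Matrix n n ℂ))) (j : ℕ) :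
    sc hX h j = 0 :=
  cls_eq_zero_iff.2 ⟨fun _ => 0, Smo.const _, fun x hx => by
    rw [dC_const, sf, hat_zero, zero_mul, Matrix.trace_zero]⟩

/-- the path of idempotents joining `Q ⊕ 0` to `0 ⊕ Q'` -/
def rot (Q : E → Matrix n n ℂ) (Q' : E → Matrix m m ℂ) (S : E → Matrix m n ℂ)
    (T : E → Matrix n m ℂ) (z : E × ℝ) : Matrix (n ⊕ m) (n ⊕ m) ℂ :=
  Matrix.fromBlocks ((Real.cos (Real.pi / 2 * z.2) ^ 2 : ℂ) • Q z.1)
    ((Real.cos (Real.pi / 2 * z.2) * Real.sin (Real.pi / 2 * z.2) : ℂ) • T z.1)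
    ((Real.cos (Real.pi / 2 * z.2) * Real.sin (Real.pi / 2 * z.2) : ℂ) • S z.1)
    ((Real.sin (Real.pi / 2 * z.2) ^ 2 : ℂ) • Q' z.1)

open SP in
theorem rot_idem {Q : E → Matrix n n ℂ} {Q' : E → Matrix m m ℂ} {S : E → Matrix m n ℂ}
    {T : E → Matrix n m ℂ} {x : E} (h : PIso (Q x) (Q' x) (S x) (T x)) (t : ℝ) :
    rot Q Q' S T (x, t) * rot Q Q' S T (x, t) = rot Q Q' S T (x, t) := by
  have hQ : Q x * Q x = Q x := h.idem
  have hQ' : Q' x * Q' x = Q' x := h.symm.idem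
  have e : (Real.cos (Real.pi / 2 * t) : ℂ) ^ 2 + (Real.sin (Real.pi / 2 * t) : ℂ) ^ 2 = 1 := by
    have := Real.cos_sq_add_sin_sq (Real.pi / 2 * t)
    exact_mod_cast this
  simp only [rot, Matrix.fromBlocks_multiply, Matrix.smul_mul, Matrix.mul_smul, smul_smul, hQ, hQ',
    h.sp, h.ps, h.wp, h.pw, h.ws, h.sw, ← add_smul]
  set c := (Real.cos (Real.pi / 2 * t) : ℂ)
  set s := (Real.sin (Real.pi / 2 * t) : ℂ)
  have e1 : c ^ 2 * c ^ 2 + c * s * (c * s) = c ^ 2 := by linear_combination c ^ 2 * e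
  have e2 : c ^ 2 * (c * s) + c * s * s ^ 2 = c * s := by linear_combination c * s * e
  have e3 : c * s * c ^ 2 + s ^ 2 * (c * s) = c * s := by linear_combination c * s * e
  have e4 : c * s * (c * s) + s ^ 2 * s ^ 2 = s ^ 2 := by linear_combination s ^ 2 * e
  rw [e1, e2, e3, e4]

theorem rot_smooth {Q : E → Matrix n n ℂ} {Q' : E → Matrix m m ℂ} {S : E → Matrix m n ℂ}
    {T : E → Matrix n m ℂ} {x : E} (hQ : SM ∞ Q x) (hQ' : SM ∞ Q' x) (hS : SM ∞ S x)
    (hT : SM ∞ T x) (t : ℝ) : SM ∞ (rot Q Q' S T) (x, t) := by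
  have hf : ContDiffAt ℝ ∞ (fun z : E × ℝ => z.1) (x, t) := contDiffAt_fst
  have hc : ContDiffAt ℝ ∞ (fun z : E × ℝ => (Real.cos (Real.pi / 2 * z.2) : ℂ)) (x, t) :=
    Complex.ofRealCLM.contDiff.contDiffAt.comp (x, t)
      (Real.contDiff_cos.contDiffAt.comp (x, t) (contDiffAt_const.mul contDiffAt_snd))
  have hs : ContDiffAt ℝ ∞ (fun z : E × ℝ => (Real.sin (Real.pi / 2 * z.2) : ℂ)) (x, t) :=
    Complex.ofRealCLM.contDiff.contDiffAt.comp (x, t)
      (Real.contDiff_sin.contDiffAt.comp (x, t) (contDiffAt_const.mul contDiffAt_snd))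
  rintro (i | i) (j | j)
  · exact (hc.pow 2).mul (ContDiffAt.comp (g := fun y => Q y i j) (f := fun z : E × ℝ => z.1) (x, t) (hQ i j) hf)
  · exact (hc.mul hs).mul (ContDiffAt.comp (g := fun y => T y i j) (f := fun z : E × ℝ => z.1) (x, t) (hT i j) hf)
  · exact (hc.mul hs).mul (ContDiffAt.comp (g := fun y => S y i j) (f := fun z : E × ℝ => z.1) (x, t) (hS i j) hf)
  · exact (hs.pow 2).mul (ContDiffAt.comp (g := fun y => Q' y i j) (f := fun z : E × ℝ => z.1) (x, t) (hQ' i j) hf)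

open SP in
/-- **isomorphic bundles have the same classes** -/
theorem sc_iso' (hX : Sub dX X) {Q : E → Matrix n n ℂ} {Q' : E → Matrix m m ℂ} (hQ : IdF X Q)
    (hQ' : IdF X Q') {S : E → Matrix m n ℂ} {T : E → Matrix n m ℂ} (hS : ∀ x ∈ X, SM ∞ S x)
    (hT : ∀ x ∈ X, SM ∞ T x) (h : ∀ x ∈ X, PIso (Q x) (Q' x) (S x) (T x)) (j : ℕ) :
    sc hX hQ j = sc hX hQ' j := by
  have e0 : (fun y : E => rot Q Q' S T (y, 0)) = bsum Q fun _ => 0 := by
    funext y; simp [rot, bsum]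
  have e1 : (fun y : E => rot Q Q' S T (y, 1)) = bsum (fun _ => 0) Q' := by
    funext y; simp [rot, bsum]
  have i0 : IdF X (fun y : E => rot Q Q' S T (y, 0)) := by rw [e0]; exact hQ.bsum idF_zero
  have i1 : IdF X (fun y : E => rot Q Q' S T (y, 1)) := by rw [e1]; exact idF_zero.bsum hQ'
  have h1 := sc_homotopy hX (R := rot Q Q' S T)
    (fun x hx t _ => rot_smooth (hQ.smooth x hx) (hQ'.smooth x hx) (hS x hx) (hT x hx) t)
    (fun x hx t _ => rot_idem (h x hx) t) i0 i1 j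
  have h2 : sc hX i0 j = sc hX hQ j + sc hX (idF_zero (n := m)) j := by
    rw [← sc_bsum]; exact sc_congr hX _ _ (fun x _ => congrFun e0 x) j
  have h3 : sc hX i1 j = sc hX (idF_zero (n := n)) j + sc hX hQ' j := by
    rw [← sc_bsum]; exact sc_congr hX _ _ (fun x _ => congrFun e1 x) j
  rw [h2, h3, sc_zero_field, sc_zero_field, zero_add, add_zero] at h1
  exact h1.symm

open SP in
/-- **isomorphic bundles have the same classes**: the inverse is automatically smooth -/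
theorem sc_iso (hX : Sub dX X) {Q : E → Matrix n n ℂ} {Q' : E → Matrix m m ℂ} (hQ : IdF X Q)
    (hQ' : IdF X Q') {S : E → Matrix m n ℂ} (hS : ∀ x ∈ X, SM ∞ S x)
    (h : ∀ x ∈ X, ∃ W, PIso (Q x) (Q' x) (S x) W) (j : ℕ) :
    sc hX hQ j = sc hX hQ' j := by
  refine sc_iso' hX hQ hQ' hS (T := fun x => pinv (Q x) (Q' x) (S x)) (fun x hx => ?_)
    (fun x hx => ?_) j
  · obtain ⟨W, hW⟩ := h x hx
    exact MSm.pinv (hQ.smooth x hx) (hQ'.smooth x hx) (hS x hx) hW
  · obtain ⟨W, hW⟩ := h x hx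
    exact hW.to_pinv

open SP in
/-- **Whitney**: orthogonal sums of idempotents -/
theorem sc_orth (hX : Sub dX X) {Q P₁ P₂ : E → Matrix n n ℂ} (hQ : IdF X Q) (h₁ : IdF X P₁)
    (h₂ : IdF X P₂) (hs : ∀ x ∈ X, Q x = P₁ x + P₂ x) (h12 : ∀ x ∈ X, P₁ x * P₂ x = 0)
    (h21 : ∀ x ∈ X, P₂ x * P₁ x = 0) (j : ℕ) : sc hX hQ j = sc hX h₁ j + sc hX h₂ j := by
  rw [← sc_bsum hX h₁ h₂]
  let S : E → Matrix (n ⊕ n) n ℂ := fun x => Matrix.fromRows (P₁ x) (P₂ x)
  let T : E → Matrix n (n ⊕ n) ℂ := fun x => Matrix.fromCols (P₁ x) (P₂ x)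
  refine sc_iso' hX hQ (h₁.bsum h₂) (S := S) (T := T) (fun x hx => ?_) (fun x hx => ?_)
    (fun x hx => ?_) j
  · rintro (i | i) k
    · exact h₁.smooth x hx i k
    · exact h₂.smooth x hx i k
  · rintro i (k | k)
    · exact h₁.smooth x hx i k
    · exact h₂.smooth x hx i k
  · have a1 := h₁.idem x hx
    have a2 := h₂.idem x hx
    have a3 := h12 x hx
    have a4 := h21 x hx
    refine ⟨?_, ?_, ?_, ?_, ?_, ?_⟩
    · simp only [S, hs x hx, Matrix.fromRows_mul, mul_add, a1, a2, a3, a4, add_zero, zero_add]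
    · simp only [S, bsum, Matrix.fromBlocks_mul_fromRows, a1, a2, Matrix.zero_mul, add_zero, zero_add]
    · simp only [T, bsum, Matrix.fromCols_mul_fromBlocks, a1, a2, Matrix.mul_zero, add_zero, zero_add]
    · simp only [T, hs x hx, Matrix.mul_fromCols, add_mul, a1, a2, a3, a4, add_zero, zero_add]
    · simp only [S, T, hs x hx, Matrix.fromCols_mul_fromRows, a1, a2]
    · simp only [S, T, bsum, Matrix.fromRows_mul_fromCols, a1, a2, a3, a4]

end inv

end Crest.Agent.R208.CW
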