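import Mathlib

/-! Row 208, block CW (helper586).  CW5a: combinatorics of orientation tensors (frames, index
functions `I : ι × Fin 2 → n`). -/

set_option autoImplicit false
set_option linter.unusedSectionVars false
set_option linter.unusedSimpArgs false
set_option linter.unusedVariables false

open scoped BigOperators
open Matrix

noncomputable section

namespace Crest.Agent.R208.CW

section comb
variable {ι : Type*} [Fintype ι] [DecidableEq ι] {κ n m : Type*} [Fintype κ] [DecidableEq κ]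
  [Fintype n] [DecidableEq n] [Fintype m] [DecidableEq m]

/-- functions on `ι × Fin 2` -/
def cur (ι κ : Type*) : (ι × Fin 2 → κ) ≃ (ι → κ × κ) where
  toFun K j := (K (j, 0), K (j, 1))
  invFun L p := if p.2 = 0 then (L p.1).1 else (L p.1).2
  left_inv K := by
    funext ⟨j, e⟩
    fin_cases e <;> simp
  right_inv L := by
    funext j
    simp

theorem prod_sum2 {A : Type*} [CommRing A] (g : ι → κ → κ → A) :
    ∏ j, ∑ a, ∑ b, g j a b = ∑ K : ι × Fin 2 → κ, ∏ j, g j (K (j, 0)) (K (j, 1)) := by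
  have h1 : ∀ j, ∑ a, ∑ b, g j a b = ∑ c : κ × κ, g j c.1 c.2 := fun j =>
    (Fintype.sum_prod_type' (fun a b => g j a b)).symm
  simp only [h1]
  rw [Finset.prod_univ_sum, Fintype.piFinset_univ]
  exact (Fintype.sum_equiv (cur ι κ) _ _ fun K => rfl).symm

theorem prod_pair {A : Type*} [CommRing A] (g : ι × Fin 2 → A) :
    ∏ p, g p = ∏ j, (g (j, 0) * g (j, 1)) := by
  rw [Fintype.prod_prod_type]
  exact Finset.prod_congr rfl fun j _ => Fin.prod_univ_two _

/-- two index substitution at `j` -/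
def upd2 (I : ι × Fin 2 → n) (j : ι) (a b : n) : ι × Fin 2 → n :=
  fun p => if p = (j, 0) then a else if p = (j, 1) then b else I p

theorem upd2_0 (I : ι × Fin 2 → n) (j : ι) (a b : n) : upd2 I j a b (j, 0) = a := by simp [upd2]
theorem upd2_1 (I : ι × Fin 2 → n) (j : ι) (a b : n) : upd2 I j a b (j, 1) = b := by simp [upd2]
theorem upd2_ne (I : ι × Fin 2 → n) (j : ι) (a b : n) {p : ι × Fin 2} (h : p.1 ≠ j) :
    upd2 I j a b p = I p := by
  rw [upd2, if_neg (fun e => h (by rw [e])), if_neg (fun e => h (by rw [e]))]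

/-- the involution exchanging the two indices at `j` with a pair -/
def invo (j : ι) (z : (ι × Fin 2 → n) × n × n) : (ι × Fin 2 → n) × n × n :=
  (upd2 z.1 j z.2.1 z.2.2, z.1 (j, 0), z.1 (j, 1))

theorem invo_invo (j : ι) (z : (ι × Fin 2 → n) × n × n) : invo j (invo j z) = z := by
  obtain ⟨I, a, b⟩ := z
  refine Prod.ext ?_ (Prod.ext ?_ ?_)
  · funext p
    simp only [invo, upd2]
    by_cases h0 : p = (j, 0)
    · simp [h0]
    · by_cases h1 : p = (j, 1)
      · simp [h1]
      · simp [h0, h1]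
  · simp [invo, upd2]
  · simp [invo, upd2]

theorem sum_eq_zero_of_upd2 {V : Type*} [AddCommGroup V] [Module ℂ V] (j : ι)
    (F : (ι × Fin 2 → n) → V) (h : ∀ I, ∑ a, ∑ b, F (upd2 I j a b) = 0) : ∑ I, F I = 0 := by
  rcases isEmpty_or_nonempty n with hn | hn
  · have : IsEmpty (ι × Fin 2 → n) := ⟨fun I => hn.elim (I (j, 0))⟩
    exact Finset.sum_of_isEmpty _
  have h1 : ∑ z : (ι × Fin 2 → n) × n × n, F (upd2 z.1 j z.2.1 z.2.2) = 0 := by
    rw [Fintype.sum_prod_type]
    refine Finset.sum_eq_zero fun I _ => ?_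
    rw [Fintype.sum_prod_type]
    exact h I
  have h2 : ∑ z : (ι × Fin 2 → n) × n × n, F (upd2 z.1 j z.2.1 z.2.2)
      = ∑ z : (ι × Fin 2 → n) × n × n, F z.1 :=
    Fintype.sum_equiv (Function.Involutive.toPerm (invo j) (invo_invo j)) _ _ fun z => rfl
  rw [h2, Fintype.sum_prod_type] at h1
  simp only [Finset.sum_const, Finset.card_univ, ← Finset.smul_sum] at h1
  rw [← Nat.cast_smul_eq_nsmul ℂ] at h1
  refine (smul_eq_zero.1 h1).resolve_left ?_
  exact_mod_cast Fintype.card_ne_zero

/-- expansion of the determinant of a submatrix -/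
theorem det_sub (f : Matrix n κ ℂ) (I : κ → n) :
    (f.submatrix I id).det = ∑ σ : Equiv.Perm κ, ((Equiv.Perm.sign σ : ℤ) : ℂ) * ∏ p, f (I p) (σ p) := by
  rw [← det_transpose, det_apply']
  rfl

theorem det_sub_perm (f : Matrix n κ ℂ) (I : κ → n) (π : Equiv.Perm κ) :
    (f.submatrix (fun p => I (π p)) id).det = ((Equiv.Perm.sign π : ℤ) : ℂ) * (f.submatrix I id).det := by
  have : f.submatrix (fun p => I (π p)) id = (f.submatrix I id).submatrix π id := rfl
  rw [this, det_permute]

/-- coordinates of a tensor in a frame -/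
def co (f : Matrix n κ ℂ) {V : Type*} [AddCommGroup V] [Module ℂ V] (D : (κ → n) → V)
    (K : κ → κ) : V := ∑ I : κ → n, (∏ p, f (I p) (K p)) • D I

theorem co_perm (f : Matrix n κ ℂ) {V : Type*} [AddCommGroup V] [Module ℂ V] {D : (κ → n) → V}
    (hD : ∀ (π : Equiv.Perm κ) I, D (fun p => I (π p)) = ((Equiv.Perm.sign π : ℤ) : ℂ) • D I)
    (K : κ → κ) (π : Equiv.Perm κ) :
    co f D (fun p => K (π p)) = ((Equiv.Perm.sign π : ℤ) : ℂ) • co f D K := by
  rw [co, co, Finset.smul_sum]
  refine Fintype.sum_equiv (Equiv.arrowCongr π (Equiv.refl n)) _ _ fun I => ?_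
  have e1 : (Equiv.arrowCongr π (Equiv.refl n)) I = fun p => I (π.symm p) := rfl
  rw [e1]
  have h1 := hD π (fun p => I (π.symm p))
  simp only [Equiv.symm_apply_apply] at h1
  have h2 : ∏ p, f (I p) (K (π p)) = ∏ p, f (I (π.symm p)) (K p) := by
    refine Fintype.prod_equiv π _ _ fun p => ?_
    rw [Equiv.symm_apply_apply]
  rw [h2, h1, smul_smul, smul_smul, mul_comm]

theorem co_not_inj (f : Matrix n κ ℂ) {V : Type*} [AddCommGroup V] [Module ℂ V]
    {D : (κ → n) → V}
    (hD : ∀ (π : Equiv.Perm κ) I, D (fun p => I (π p)) = ((Equiv.Perm.sign π : ℤ) : ℂ) • D I)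
    {K : κ → κ} (hK : ¬ Function.Injective K) : co f D K = 0 := by
  rw [Function.Injective] at hK
  push Not at hK
  obtain ⟨p, q, hpq, hne⟩ := hK
  have h1 := co_perm f hD K (Equiv.swap p q)
  have h2 : (fun r => K (Equiv.swap p q r)) = K := by
    funext r
    rcases eq_or_ne r p with rfl | h
    · rw [Equiv.swap_apply_left, hpq]
    rcases eq_or_ne r q with rfl | h'
    · rw [Equiv.swap_apply_right, hpq]
    · rw [Equiv.swap_apply_of_ne_of_ne h h']
  rw [h2, Equiv.Perm.sign_swap hne] at h1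
  have h3 : (2 : ℂ) • co f D K = 0 := by
    rw [two_smul]
    nth_rewrite 1 [h1]
    simp
  exact (smul_eq_zero.1 h3).resolve_left two_ne_zero

/-- an alternating tensor orthogonal to the frame tensor has vanishing frame coordinates -/
theorem co_eq_zero (f : Matrix n κ ℂ) {V : Type*} [AddCommGroup V] [Module ℂ V]
    {D : (κ → n) → V}
    (hD : ∀ (π : Equiv.Perm κ) I, D (fun p => I (π p)) = ((Equiv.Perm.sign π : ℤ) : ℂ) • D I)
    (h0 : ∑ I, (f.submatrix I id).det • D I = 0) (K : κ → κ) : co f D K = 0 := by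
  by_cases hK : Function.Injective K
  · have hb : Function.Bijective K := Finite.injective_iff_bijective.1 hK
    have e : ∀ π : Equiv.Perm κ, co f D π = ((Equiv.Perm.sign π : ℤ) : ℂ) • co f D id := fun π =>
      co_perm f hD id π
    have h1 : ∑ I, (f.submatrix I id).det • D I
        = ∑ σ : Equiv.Perm κ, ((Equiv.Perm.sign σ : ℤ) : ℂ) • co f D σ := by
      simp only [det_sub, Finset.sum_smul, co, Finset.smul_sum, smul_smul]
      rw [Finset.sum_comm]
    have h2 : ∀ σ : Equiv.Perm κ, ((Equiv.Perm.sign σ : ℤ) : ℂ) • co f D σ = co f D id := by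
      intro σ
      rw [e, smul_smul]
      rcases Int.units_eq_one_or (Equiv.Perm.sign σ) with h | h <;> simp [h]
    rw [h1] at h0
    simp only [h2, Finset.sum_const, Finset.card_univ] at h0
    rw [← Nat.cast_smul_eq_nsmul ℂ] at h0
    have h3 : co f D id = 0 := (smul_eq_zero.1 h0).resolve_left (by
      exact_mod_cast Fintype.card_ne_zero)
    have h4 := e (Equiv.ofBijective K hb)
    rw [h3, smul_zero] at h4
    exact h4
  · exact co_not_inj f hD hK

/-- the sum of the squares of the frame tensor depends only on `fᵀ f` -/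
theorem sum_sq_det (f : Matrix n κ ℂ) (hf : fᵀ * f = 1) :
    ∑ I : κ → n, (f.submatrix I id).det * (f.submatrix I id).det
      = ∑ σ : Equiv.Perm κ, ∑ τ : Equiv.Perm κ,
        ((Equiv.Perm.sign σ : ℤ) : ℂ) * ((Equiv.Perm.sign τ : ℤ) : ℂ)
          * ∏ p, (1 : Matrix κ κ ℂ) (σ p) (τ p) := by
  have h1 : ∀ σ τ : Equiv.Perm κ, ∏ p, (1 : Matrix κ κ ℂ) (σ p) (τ p)
      = ∑ I : κ → n, (∏ p, f (I p) (σ p)) * ∏ p, f (I p) (τ p) := by
    intro σ τ
    rw [← hf]
    simp only [mul_apply, transpose_apply, ← Finset.prod_mul_distrib]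
    rw [Finset.prod_univ_sum, Fintype.piFinset_univ]
  have h2 : ∀ I : κ → n, (f.submatrix I id).det * (f.submatrix I id).det
      = ∑ σ : Equiv.Perm κ, ∑ τ : Equiv.Perm κ,
        (((Equiv.Perm.sign σ : ℤ) : ℂ) * ∏ p, f (I p) (σ p))
          * (((Equiv.Perm.sign τ : ℤ) : ℂ) * ∏ p, f (I p) (τ p)) := fun I => by
    rw [det_sub, Finset.sum_mul_sum]
  simp only [h1, h2, Finset.mul_sum]
  rw [Finset.sum_comm]
  refine Finset.sum_congr rfl fun σ _ => ?_
  rw [Finset.sum_comm]
  refine Finset.sum_congr rfl fun τ _ => Finset.sum_congr rfl fun I _ => ?_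
  ring

end comb

end Crest.Agent.R208.CW
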