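import Crest.Agent.R208.CW4
import Crest.Agent.R208.CW5a

/-! Row 208, block CW (helper586).  CW5: the Euler form (Pfaffian with orientation tensor) of an
orthogonal projection field is closed. -/

set_option autoImplicit false
set_option linter.unusedSectionVars false
set_option linter.unusedSimpArgs false
set_option linter.unusedVariables false

open scoped BigOperators ContDiff Topology
open Module Set Matrix

noncomputable section

namespace Crest.Agent.R208.CW

open Crest.Agent.R208.F Crest.Agent.R208.FI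

/-! ### products of even forms -/

section prod
variable {E G : Type*} [NormedAddCommGroup E] [NormedSpace ℝ E] [FiniteDimensional ℝ E]
  [NormedAddCommGroup G] [NormedSpace ℝ G] {ι : Type*} [DecidableEq ι]

theorem CD_prod (s : Finset ι) {k : WithTop ℕ∞} {a : ι → G → EvC E} {x : G}
    (h : ∀ j ∈ s, CD k (fun y => (a j y : CF E)) x) :
    CD k (fun y => ((∏ j ∈ s, a j y : EvC E) : CF E)) x := by
  induction s using Finset.induction_on with
  | empty => simpa using CD.const (E := E) (1 : CF E)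
  | insert j s hj ih =>
    simp only [Finset.prod_insert hj]
    exact (h j (Finset.mem_insert_self _ _)).mul (ih fun i hi => h i (Finset.mem_insert_of_mem hi))

theorem dC_prod (s : Finset ι) {a : ι → E → EvC E} {x : E}
    (h : ∀ j ∈ s, CD 1 (fun y => (a j y : CF E)) x) :
    dC (fun y => ((∏ j ∈ s, a j y : EvC E) : CF E)) x
      = ∑ j ∈ s, dC (fun y => (a j y : CF E)) x * ((∏ l ∈ s.erase j, a l x : EvC E) : CF E) := by
  induction s using Finset.induction_on with
  | empty => simpa using dC_const (E := E) (1 : CF E) x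
  | insert j s hj ih =>
    have h1 := h j (Finset.mem_insert_self _ _)
    have h2 : ∀ i ∈ s, CD 1 (fun y => (a i y : CF E)) x := fun i hi =>
      h i (Finset.mem_insert_of_mem hi)
    simp only [Finset.prod_insert hj]
    have e := dC_mul h1 (CD_prod s h2)
    have e2 : dC (fun y => ((a j y * ∏ i ∈ s, a i y : EvC E) : CF E)) x
        = dC (fun y => (a j y : CF E)) x * ((∏ i ∈ s, a i x : EvC E) : CF E)
          + invC (a j x : CF E) * dC (fun y => ((∏ i ∈ s, a i y : EvC E) : CF E)) x := e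
    rw [e2, ih h2, EvC.inv, Finset.sum_insert hj, Finset.erase_insert hj, Finset.mul_sum]
    congr 1
    refine Finset.sum_congr rfl fun i hi => ?_
    have hij : j ≠ i := fun e => hj (e ▸ hi)
    rw [Finset.erase_insert_of_ne hij, Finset.prod_insert (fun e => hj (Finset.mem_of_mem_erase e)),
      ← mul_assoc, even_commC (EvC.inv (a j x)), mul_assoc]
    rfl

end prod

/-! ### the Euler expression at a point -/

section pt
variable {T : Type*} [AddCommGroup T] [Module ℝ T] {ι n m : Type*} [Fintype ι] [DecidableEq ι]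
  [Fintype n] [DecidableEq n] [Fintype m] [DecidableEq m]

/-- `W` is the orientation tensor of an orthonormal frame of the range of `P` -/
def Fr (P : Matrix n n ℂ) (W : (ι × Fin 2 → n) → ℂ) : Prop :=
  ∃ f : Matrix n (ι × Fin 2) ℂ, fᵀ * f = 1 ∧ f * fᵀ = P ∧ ∀ I, W I = (f.submatrix I id).det

/-- the Euler expression -/
def eu (W : (ι × Fin 2 → n) → ℂ) (w : Matrix n n (EvC T)) : EvC T :=
  ∑ I : ι × Fin 2 → n, W I • ∏ j : ι, w (I (j, 0)) (I (j, 1))

theorem Fr.idem {P : Matrix n n ℂ} {W : (ι × Fin 2 → n) → ℂ} (h : Fr P W) : P * P = P := by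
  obtain ⟨f, h1, rfl, h3⟩ := h
  rw [Matrix.mul_assoc, ← Matrix.mul_assoc fᵀ, h1, Matrix.one_mul]

theorem hv_apply (M : Matrix n m ℂ) (i : n) (j : m) : hv T M i j = algebraMap ℂ (EvC T) (M i j) := rfl

theorem expand_frame (f : Matrix n (ι × Fin 2) ℂ) (M : Matrix (ι × Fin 2) (ι × Fin 2) (EvC T))
    (a b : n) : (hv T f * M * (hv T f)ᵀ) a b = ∑ p, ∑ q, (f a p * f b q) • M p q := by
  simp only [Matrix.mul_apply, Finset.sum_mul, transpose_apply, hv_apply]
  rw [Finset.sum_comm]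
  refine Finset.sum_congr rfl fun p _ => Finset.sum_congr rfl fun q _ => ?_
  rw [Algebra.smul_def, map_mul]; ring

theorem prod_expand (f : Matrix n (ι × Fin 2) ℂ) (M : Matrix (ι × Fin 2) (ι × Fin 2) (EvC T))
    (I : ι × Fin 2 → n) :
    ∏ j, (hv T f * M * (hv T f)ᵀ) (I (j, 0)) (I (j, 1))
      = ∑ K : ι × Fin 2 → ι × Fin 2, (∏ p, f (I p) (K p)) • ∏ j, M (K (j, 0)) (K (j, 1)) := by
  simp only [expand_frame]
  rw [prod_sum2 (fun j p q => (f (I (j, 0)) p * f (I (j, 1)) q) • M p q)]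
  refine Finset.sum_congr rfl fun K _ => ?_
  rw [prod_pair (fun p => f (I p) (K p))]
  simp only [Algebra.smul_def]
  rw [Finset.prod_mul_distrib, map_prod]

theorem frame_w {P : Matrix n n ℂ} {f : Matrix n (ι × Fin 2) ℂ} (hP : f * fᵀ = P)
    {w : Matrix n n (EvC T)} (hw : hv T P * w * hv T P = w) :
    w = hv T f * ((hv T f)ᵀ * w * hv T f) * (hv T f)ᵀ := by
  conv_lhs => rw [← hw, ← hP]
  have : hv T fᵀ = (hv T f)ᵀ := rfl
  rw [hv_mul, this]
  simp only [Matrix.mul_assoc]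

/-- first vanishing: derivative of the orientation tensor -/
theorem Z1 {P : Matrix n n ℂ} {f : Matrix n (ι × Fin 2) ℂ} (hP : f * fᵀ = P)
    {w : Matrix n n (EvC T)} (hw : hv T P * w * hv T P = w) {D : (ι × Fin 2 → n) → CF T}
    (hD : ∀ (π : Equiv.Perm (ι × Fin 2)) I,
      D (fun p => I (π p)) = ((Equiv.Perm.sign π : ℤ) : ℂ) • D I)
    (h0 : ∑ I, (f.submatrix I id).det • D I = 0) :
    ∑ I, D I * ((∏ j, w (I (j, 0)) (I (j, 1)) : EvC T) : CF T) = 0 := by
  rw [frame_w hP hw]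
  set M := (hv T f)ᵀ * w * hv T f
  have h1 : ∀ I, D I * ((∏ j, (hv T f * M * (hv T f)ᵀ) (I (j, 0)) (I (j, 1)) : EvC T) : CF T)
      = ∑ K : ι × Fin 2 → ι × Fin 2, ((∏ p, f (I p) (K p)) • D I)
          * ((∏ j, M (K (j, 0)) (K (j, 1)) : EvC T) : CF T) := fun I => by
    rw [prod_expand]
    have e1 : ∀ (s : Finset (ι × Fin 2 → ι × Fin 2)) (g : (ι × Fin 2 → ι × Fin 2) → EvC T),
        ((∑ i ∈ s, g i : EvC T) : CF T) = ∑ i ∈ s, (g i : CF T) := fun s g =>
      map_sum (EvC T).val g s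
    rw [e1, Finset.mul_sum]
    refine Finset.sum_congr rfl fun K _ => ?_
    rw [smul_mul_assoc, ← mul_smul_comm]
    rfl
  simp only [h1]
  rw [Finset.sum_comm]
  refine Finset.sum_eq_zero fun K _ => ?_
  rw [← Finset.sum_mul]
  have := co_eq_zero f hD h0 K
  rw [co] at this
  rw [this, zero_mul]

/-- second vanishing: Bianchi -/
theorem Z2 {f : Matrix n (ι × Fin 2) ℂ} {mm : Matrix n n (CF T)}
    (hm : (hat T f)ᵀ * mm * hat T f = 0) (j : ι) {R : (ι × Fin 2 → n) → CF T}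
    (hR : ∀ I a b, R (upd2 I j a b) = R I) :
    ∑ I, (f.submatrix I id).det • (mm (I (j, 0)) (I (j, 1)) * R I) = 0 := by
  simp only [det_sub, Finset.sum_smul]
  rw [Finset.sum_comm]
  refine Finset.sum_eq_zero fun σ _ => ?_
  refine sum_eq_zero_of_upd2 j _ fun I => ?_
  set C : ℂ := ∏ j' ∈ Finset.univ.erase j, (f (I (j', 0)) (σ (j', 0)) * f (I (j', 1)) (σ (j', 1)))
    with hC
  have h1 : ∀ a b, ∏ p, f (upd2 I j a b p) (σ p) = f a (σ (j, 0)) * f b (σ (j, 1)) * C := by
    intro a b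
    rw [prod_pair (fun p => f (upd2 I j a b p) (σ p)), ← Finset.mul_prod_erase _ _ (Finset.mem_univ j),
      upd2_0, upd2_1, hC]
    congr 1
    refine Finset.prod_congr rfl fun j' hj' => ?_
    have hne : j' ≠ j := Finset.ne_of_mem_erase hj'
    rw [upd2_ne I j a b (p := (j', 0)) hne, upd2_ne I j a b (p := (j', 1)) hne]
  have h2 : ∑ a, ∑ b, (f a (σ (j, 0)) * f b (σ (j, 1))) • mm a b = 0 := by
    have h3 := congrFun (congrFun hm (σ (j, 0))) (σ (j, 1))
    rw [Matrix.mul_apply] at h3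
    simp only [Matrix.mul_apply, Finset.sum_mul, transpose_apply] at h3
    rw [Finset.sum_comm] at h3
    rw [← show _ = (0 : CF T) from h3]
    refine Finset.sum_congr rfl fun a _ => Finset.sum_congr rfl fun b _ => ?_
    have e1 : hat T f a (σ (j, 0)) = algebraMap ℂ (CF T) (f a (σ (j, 0))) := rfl
    have e2 : hat T f b (σ (j, 1)) = algebraMap ℂ (CF T) (f b (σ (j, 1))) := rfl
    rw [e1, e2, ← Algebra.commutes, ← mul_assoc, ← map_mul, Algebra.smul_def, mul_comm (f b _)]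
  have h4 : ∀ a b, (((Equiv.Perm.sign σ : ℤ) : ℂ) * ∏ p, f (upd2 I j a b p) (σ p))
        • (mm (upd2 I j a b (j, 0)) (upd2 I j a b (j, 1)) * R (upd2 I j a b))
      = (((Equiv.Perm.sign σ : ℤ) : ℂ) * C)
        • (((f a (σ (j, 0)) * f b (σ (j, 1))) • mm a b) * R I) := by
    intro a b
    rw [h1, upd2_0, upd2_1, hR, smul_mul_assoc, smul_smul]
    congr 1
    ring
  simp only [h4, ← Finset.smul_sum, ← Finset.sum_mul, h2, zero_mul, smul_zero]

end pt

/-! ### the Euler form of a field -/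

section field
variable {E F : Type*} [NormedAddCommGroup E] [NormedSpace ℝ E] [FiniteDimensional ℝ E]
  [NormedAddCommGroup F] [NormedSpace ℝ F] [FiniteDimensional ℝ F]
  {ι n m : Type*} [Fintype ι] [DecidableEq ι] [Fintype n] [DecidableEq n] [Fintype m]
  [DecidableEq m] {x : E} {X : Set E} {Y : Set F} {dX dY : ℕ}

/-- oriented orthogonal projection field along `X` -/
structure OF (X : Set E) (P : E → Matrix n n ℂ) (W : E → (ι × Fin 2 → n) → ℂ) : Prop where
  sP : ∀ x ∈ X, SM ∞ P x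
  sW : ∀ x ∈ X, ∀ I, ContDiffAt ℝ ∞ (fun y => W y I) x
  fr : ∀ x ∈ X, Fr (P x) (W x)

theorem OF.idF {P : E → Matrix n n ℂ} {W : E → (ι × Fin 2 → n) → ℂ} (h : OF X P W) : IdF X P :=
  ⟨h.sP, fun x hx => (h.fr x hx).idem⟩

/-- Euler form (`2^r r!` times the Pfaffian of the curvature) -/
def ef (P : E → Matrix n n ℂ) (W : E → (ι × Fin 2 → n) → ℂ) (x : E) : CF E :=
  (eu (W x) (Om P x) : EvC E)

theorem ef_apply (P : E → Matrix n n ℂ) (W : E → (ι × Fin 2 → n) → ℂ) (x : E) :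
    ef P W x = ∑ I, algebraMap ℂ (CF E) (W x I)
      * ((∏ j, Om P x (I (j, 0)) (I (j, 1)) : EvC E) : CF E) := by
  have e1 : ∀ (s : Finset (ι × Fin 2 → n)) (g : (ι × Fin 2 → n) → EvC E),
      ((∑ i ∈ s, g i : EvC E) : CF E) = ∑ i ∈ s, (g i : CF E) := fun s g =>
    map_sum (EvC E).val g s
  rw [ef, eu, e1]
  refine Finset.sum_congr rfl fun I _ => ?_
  rw [← Algebra.smul_def]
  rfl

theorem MD_Om {P : E → Matrix n n ℂ} (h : SM ∞ P x) :
    MD ∞ (fun y => vl (Om P y)) x := by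
  have h1 : MD ∞ (DD P) x := h.MD_DD inf_add_one
  have h0 : MD ∞ (fun y => hat E (P y)) x := h.hat
  have : (fun y => vl (Om P y)) = fun y => hat E (P y) * (DD P y * DD P y) * hat E (P y) :=
    funext fun y => vl_Om P y
  rw [this]
  exact (h0.mul (h1.mul h1)).mul h0

theorem dM_Om {P : E → Matrix n n ℂ} (h : SM ∞ P x) :
    dM (fun y => vl (Om P y)) x
      = DD P x * (DD P x * DD P x) * hat E (P x) + hat E (P x) * (DD P x * DD P x) * DD P x := by
  have h1 : MD 1 (DD P) x := (h.MD_DD inf_add_one).of_le one_le_inf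
  have h0 : MD 1 (fun y => hat E (P y)) x := (h.of_le one_le_inf).hat
  have h2 := h.of_le two_le
  have : (fun y => vl (Om P y)) = fun y => hat E (P y) * (DD P y * DD P y) * hat E (P y) :=
    funext fun y => vl_Om P y
  rw [this, dM_mul (h0.mul (h1.mul h1)) h0, dM_mul h0 (h1.mul h1), dM_mul h1 h1, dM_DD h2,
    zero_mul, mul_zero, add_zero, mul_zero, add_zero, invM_mul, invM_hat, invM_mul, invM_DD,
    neg_mul_neg]
  rfl

/-- restriction of even forms -/
def rsE (X : Set E) (x : E) : EvC E →+* EvC (Tan X x) where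
  toFun a := ⟨rs X x a, by
    change invC (rs X x a) = rs X x a
    rw [← rs_invC, EvC.inv]⟩
  map_one' := Subtype.ext (map_one _)
  map_mul' a b := Subtype.ext (map_mul (rs X x) _ _)
  map_zero' := Subtype.ext (map_zero _)
  map_add' a b := Subtype.ext (map_add (rs X x) _ _)

theorem rsE_coe (a : EvC E) : (rsE X x a : CF (Tan X x)) = rs X x a := rfl

theorem rsE_Om (P : E → Matrix n n ℂ) (x : E) :
    (Om P x).map (rsE X x) = wv (P x) (dl X P x) (invM_dl P x) := by
  refine vl_inj ?_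
  rw [vl_wv]
  have h : vl ((Om P x).map (rsE X x)) = rsM X x (vl (Om P x)) := rfl
  rw [h, vl_Om, rsM_mul, rsM_mul, rsM_mul, rsM_hat]
  rfl

theorem rs_dC_alg_sub {g g' : E → ℂ} (hx : x ∈ X) (hg : ContDiffAt ℝ 1 g x)
    (hg' : ContDiffAt ℝ 1 g' x) (h : ∀ y ∈ X, g y = g' y) :
    rs X x (dC (fun y => algebraMap ℂ (CF E) (g y)) x)
      = rs X x (dC (fun y => algebraMap ℂ (CF E) (g' y)) x) := by
  have h1 := rs_dC_fun_zero (X := X) hx (g := fun y => g y - g' y) (hg.sub hg')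
    (fun y hy => by simp only [h y hy, sub_self])
  have h2 : (fun y => algebraMap ℂ (CF E) (g y - g' y))
      = fun y => algebraMap ℂ (CF E) (g y) - algebraMap ℂ (CF E) (g' y) :=
    funext fun y => map_sub _ _ _
  rw [h2, dC_sub (CD.of_fun hg) (CD.of_fun hg'), map_sub] at h1
  exact sub_eq_zero.1 h1

/-- restricted differential of the orientation tensor -/
def dW (X : Set E) (W : E → (ι × Fin 2 → n) → ℂ) (x : E) (I : ι × Fin 2 → n) : CF (Tan X x) :=
  rs X x (dC (fun y => algebraMap ℂ (CF E) (W y I)) x)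

theorem OF.dW_alt {P : E → Matrix n n ℂ} {W : E → (ι × Fin 2 → n) → ℂ} (h : OF X P W)
    (hx : x ∈ X) (π : Equiv.Perm (ι × Fin 2)) (I : ι × Fin 2 → n) :
    dW X W x (fun p => I (π p)) = ((Equiv.Perm.sign π : ℤ) : ℂ) • dW X W x I := by
  have h1 : ∀ I, ContDiffAt ℝ 1 (fun y => W y I) x := fun I => (h.sW x hx I).of_le one_le_inf
  have h2 := rs_dC_alg_sub (X := X) (g := fun y => W y (fun p => I (π p)))
    (g' := fun y => ((Equiv.Perm.sign π : ℤ) : ℂ) * W y I) hx (h1 _) (contDiffAt_const.mul (h1 I))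
    (fun y hy => by
      obtain ⟨f, _, _, hf⟩ := h.fr y hy
      simp only [hf, det_sub_perm])
  have h3 : (fun y => algebraMap ℂ (CF E) (((Equiv.Perm.sign π : ℤ) : ℂ) * W y I))
      = fun y => ((Equiv.Perm.sign π : ℤ) : ℂ) • algebraMap ℂ (CF E) (W y I) := by
    funext y; rw [map_mul, ← Algebra.smul_def]
  rw [h3, dC_csmul _ (CD.of_fun (h1 I)), rs_csmul] at h2
  exact h2

theorem OF.dW_orth {P : E → Matrix n n ℂ} {W : E → (ι × Fin 2 → n) → ℂ} (h : OF X P W)
    (hx : x ∈ X) : ∑ I, W x I • dW X W x I = 0 := by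
  have h1 : ∀ I, ContDiffAt ℝ 1 (fun y => W y I) x := fun I => (h.sW x hx I).of_le one_le_inf
  set c : ℂ := ∑ σ : Equiv.Perm (ι × Fin 2), ∑ τ : Equiv.Perm (ι × Fin 2),
        ((Equiv.Perm.sign σ : ℤ) : ℂ) * ((Equiv.Perm.sign τ : ℤ) : ℂ)
          * ∏ p, (1 : Matrix (ι × Fin 2) (ι × Fin 2) ℂ) (σ p) (τ p)
  have h2 := rs_dC_alg_sub (X := X) (g := fun y => ∑ I, W y I * W y I) (g' := fun _ => c) hx
    (ContDiffAt.sum fun I _ => (h1 I).mul (h1 I)) contDiffAt_const
    (fun y hy => by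
      obtain ⟨f, hf1, _, hf⟩ := h.fr y hy
      simp only [hf]
      exact sum_sq_det f hf1)
  have h3 : (fun y => algebraMap ℂ (CF E) (∑ I, W y I * W y I))
      = fun y => ∑ I, algebraMap ℂ (CF E) (W y I) * algebraMap ℂ (CF E) (W y I) := by
    funext y; rw [map_sum]; exact Finset.sum_congr rfl fun I _ => map_mul _ _ _
  rw [h3, dC_const, map_zero, dC_sum _ fun I _ => (CD.of_fun (h1 I)).mul (CD.of_fun (h1 I)),
    map_sum] at h2
  have h4 : ∀ I, rs X x (dC (fun y => algebraMap ℂ (CF E) (W y I) * algebraMap ℂ (CF E) (W y I)) x)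
      = (2 : ℂ) • (W x I • dW X W x I) := by
    intro I
    rw [dC_mul (CD.of_fun (h1 I)) (CD.of_fun (h1 I)), invC_algebraMap, map_add, map_mul, map_mul,
      rs_algebraMap, ← Algebra.commutes, ← Algebra.smul_def, two_smul]
    rfl
  simp only [h4, ← Finset.smul_sum] at h2
  exact (smul_eq_zero.1 h2).resolve_left two_ne_zero

theorem CD_ef {P : E → Matrix n n ℂ} {W : E → (ι × Fin 2 → n) → ℂ} (hP : SM ∞ P x)
    (hW : ∀ I, ContDiffAt ℝ ∞ (fun y => W y I) x) : CD ∞ (ef P W) x := by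
  have : ef P W = fun x => ∑ I, algebraMap ℂ (CF E) (W x I)
      * ((∏ j, Om P x (I (j, 0)) (I (j, 1)) : EvC E) : CF E) := funext fun x => ef_apply P W x
  rw [this]
  exact CD.sum fun I _ => (CD.of_fun (hW I)).mul (CD_prod _ fun j _ => MD_Om hP _ _)

theorem rs_dC_ef {P : E → Matrix n n ℂ} {W : E → (ι × Fin 2 → n) → ℂ} (h : OF X P W)
    (hx : x ∈ X) : rs X x (dC (ef P W) x) = 0 := by
  have hP := h.sP x hx
  have hW : ∀ I, CD 1 (fun y => algebraMap ℂ (CF E) (W y I)) x := fun I =>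
    CD.of_fun ((h.sW x hx I).of_le one_le_inf)
  have hO : ∀ a b, CD 1 (fun y => (Om P y a b : CF E)) x := fun a b =>
    (MD_Om hP a b).of_le one_le_inf
  have hpr : ∀ I : ι × Fin 2 → n, CD 1 (fun y => ((∏ j, Om P y (I (j, 0)) (I (j, 1)) : EvC E) : CF E)) x :=
    fun I => CD_prod _ fun j _ => hO _ _
  obtain ⟨f, hf1, hf2, hf3⟩ := h.fr x hx
  have hid := h.idF.idem x hx
  have hdl := h.idF.dl_eq_gen hx
  -- the derivative
  have e1 : dC (ef P W) x = (∑ I, dC (fun y => algebraMap ℂ (CF E) (W y I)) x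
        * ((∏ j, Om P x (I (j, 0)) (I (j, 1)) : EvC E) : CF E))
      + ∑ j, ∑ I, algebraMap ℂ (CF E) (W x I) * (dC (fun y => (Om P y (I (j, 0)) (I (j, 1)) : CF E)) x
        * ((∏ l ∈ Finset.univ.erase j, Om P x (I (l, 0)) (I (l, 1)) : EvC E) : CF E)) := by
    have : ef P W = fun x => ∑ I, algebraMap ℂ (CF E) (W x I)
      * ((∏ j, Om P x (I (j, 0)) (I (j, 1)) : EvC E) : CF E) := funext fun x => ef_apply P W x
    rw [this, dC_sum _ fun I _ => (hW I).mul (hpr I), Finset.sum_comm, ← Finset.sum_add_distrib]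
    refine Finset.sum_congr rfl fun I _ => ?_
    rw [dC_mul (hW I) (hpr I), invC_algebraMap, dC_prod _ fun j _ => hO _ _, Finset.mul_sum]
  rw [e1, map_add, map_sum, map_sum]
  -- first part
  have hw : hv (Tan X x) (P x) * (Om P x).map (rsE X x) * hv (Tan X x) (P x)
      = (Om P x).map (rsE X x) := by
    rw [rsE_Om, hv_wv hid, wv_hv hid]
  have z1 := Z1 hf2 hw (D := dW X W x) (fun π I => h.dW_alt hx π I) (by
    have := h.dW_orth hx
    simpa only [hf3] using this)
  have p1 : ∑ I, rs X x (dC (fun y => algebraMap ℂ (CF E) (W y I)) x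
        * ((∏ j, Om P x (I (j, 0)) (I (j, 1)) : EvC E) : CF E)) = 0 := by
    rw [← z1]
    refine Finset.sum_congr rfl fun I _ => ?_
    rw [map_mul, ← rsE_coe, map_prod]
    rfl
  rw [p1, zero_add]
  refine Finset.sum_eq_zero fun j _ => ?_
  rw [map_sum]
  -- second part
  set mm : Matrix n n (CF (Tan X x)) := rsM X x (dM (fun y => vl (Om P y)) x) with hmm
  have hmm2 : mm = dl X P x * (dl X P x * dl X P x) * hat (Tan X x) (P x)
      + hat (Tan X x) (P x) * (dl X P x * dl X P x) * dl X P x := by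
    rw [hmm, dM_Om hP, rsM_add, rsM_mul, rsM_mul, rsM_mul, rsM_mul, rsM_mul, rsM_mul, rsM_hat]
    rfl
  have hPf : P x * f = f := by rw [← hf2, Matrix.mul_assoc, hf1, Matrix.mul_one]
  have hPt : (P x)ᵀ = P x := by rw [← hf2, transpose_mul, transpose_transpose]
  have hfP : fᵀ * P x = fᵀ := by rw [← hPt, ← transpose_mul, hPf]
  have hqf : hat (Tan X x) (P x) * hat (Tan X x) f = hat (Tan X x) f := by rw [← hat_mul, hPf]
  have hfq : (hat (Tan X x) f)ᵀ * hat (Tan X x) (P x) = (hat (Tan X x) f)ᵀ := by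
    have e : (hat (Tan X x) f)ᵀ = hat (Tan X x) fᵀ := rfl
    rw [e, ← hat_mul, hfP]
  have hqq : hat (Tan X x) (P x) * hat (Tan X x) (P x) = hat (Tan X x) (P x) := by
    rw [← hat_mul, hid]
  have hodd := idem_odd hqq hdl 1
  have hm0 : (hat (Tan X x) f)ᵀ * mm * hat (Tan X x) f = 0 := by
    have c3 : dl X P x * (dl X P x * dl X P x) = dl X P x ^ (2 * 1 + 1) := by
      rw [← mul_assoc]; simp [pow_succ]
    have c4 : dl X P x * dl X P x * dl X P x = dl X P x ^ (2 * 1 + 1) := by simp [pow_succ]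
    have c1 : (hat (Tan X x) f)ᵀ * (dl X P x ^ (2 * 1 + 1)) * hat (Tan X x) f = 0 := by
      calc (hat (Tan X x) f)ᵀ * (dl X P x ^ (2 * 1 + 1)) * hat (Tan X x) f
          = ((hat (Tan X x) f)ᵀ * hat (Tan X x) (P x)) * (dl X P x ^ (2 * 1 + 1))
              * (hat (Tan X x) (P x) * hat (Tan X x) f) := by rw [hqf, hfq]
        _ = (hat (Tan X x) f)ᵀ * (hat (Tan X x) (P x) * (dl X P x ^ (2 * 1 + 1))
              * hat (Tan X x) (P x)) * hat (Tan X x) f := by simp only [Matrix.mul_assoc]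
        _ = 0 := by rw [hodd, Matrix.mul_zero, Matrix.zero_mul]
    rw [hmm2, c3, mul_assoc (hat (Tan X x) (P x)), c4, Matrix.mul_add, Matrix.add_mul,
      ← Matrix.mul_assoc (hat (Tan X x) f)ᵀ (hat (Tan X x) (P x)), hfq, c1, add_zero,
      Matrix.mul_assoc, Matrix.mul_assoc, hqf, ← Matrix.mul_assoc, c1]
  have z2 := Z2 hm0 j (R := fun I => ((∏ l ∈ Finset.univ.erase j,
    ((Om P x).map (rsE X x)) (I (l, 0)) (I (l, 1)) : EvC (Tan X x)) : CF (Tan X x)))
    (fun I a b => by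
      congr 1
      refine Finset.prod_congr rfl fun l hl => ?_
      have hne : l ≠ j := Finset.ne_of_mem_erase hl
      rw [upd2_ne I j a b (p := (l, 0)) hne, upd2_ne I j a b (p := (l, 1)) hne])
  rw [← z2]
  refine Finset.sum_congr rfl fun I _ => ?_
  rw [map_mul, rs_algebraMap, map_mul, ← hf3 I, Algebra.smul_def, ← rsE_coe, map_prod]
  rfl

/-- **the Euler form is closed on `X`** (any set `X`) -/
theorem ef_mem_Z {P : E → Matrix n n ℂ} {W : E → (ι × Fin 2 → n) → ℂ} (h : OF X P W) :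
    ef P W ∈ Z X :=
  mem_Z.2 ⟨fun x => EvC.inv _, fun x hx => CD_ef (h.sP x hx) (h.sW x hx), fun x hx => rs_dC_ef h hx⟩

/-- the Euler class (unnormalised) -/
def ec {P : E → Matrix n n ℂ} {W : E → (ι × Fin 2 → n) → ℂ} (h : OF X P W) : H X :=
  cls (ef P W) (ef_mem_Z h)

end field

end Crest.Agent.R208.CW
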