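import Crest.Agent.R208.PF2

/-!
# Pfaffian algebra, part 3: off-diagonal matrices, realification (PF3).
-/

namespace Crest.Agent.R208.PF

open Matrix Finset
open scoped Kronecker

set_option linter.unusedSectionVars false

variable {ι : Type*} [Fintype ι] [DecidableEq ι] {A : Type*} [CommRing A]

/-- off-diagonal matrix with respect to the `Fin 2`-index. -/
def offD (X Y : Matrix ι ι A) : Matrix (ι × Fin 2) (ι × Fin 2) A :=
  Matrix.of fun p q => if p.2 = 0 ∧ q.2 = 1 then X p.1 q.1
    else if p.2 = 1 ∧ q.2 = 0 then Y p.1 q.1 else 0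

theorem offD_eq (X : Matrix ι ι A) :
    offD X (-Xᵀ) = (blockDiagonal ![Xᵀ, 1])ᵀ * stdJ ι A * blockDiagonal ![Xᵀ, 1] := by
  ext p q
  obtain ⟨i, a⟩ := p
  obtain ⟨j, b⟩ := q
  fin_cases a <;> fin_cases b <;>
    simp [mul_apply, Fintype.sum_prod_type, Fin.sum_univ_two, blockDiagonal_apply, stdJ, offD,
      Matrix.one_apply, Finset.sum_ite_eq']

/-- `Pf [[0, X], [-Xᵀ, 0]] = det X` (in the pair order). -/
theorem pfS_offD (X : Matrix ι ι A) :
    pfS (offD X (-Xᵀ)) = (2 : A) ^ Fintype.card ι * (Fintype.card ι).factorial * X.det := by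
  rw [offD_eq, pfS_congr, pfS_stdJ, det_blockDiagonal]
  simp [Fin.prod_univ_two]
  ring

/-- realification of `a + I b`. -/
def realM (a b : Matrix ι ι A) : Matrix (ι × Fin 2) (ι × Fin 2) A :=
  Matrix.of fun p q => if p.2 = q.2 then a p.1 q.1 else if p.2 = 0 then -b p.1 q.1 else b p.1 q.1

/-- **(PF3)**. -/
theorem pfS_realM (h2 : IsUnit (2 : A)) (I : A) (hI : I * I = -1) (a b : Matrix ι ι A)
    (ha : aᵀ = -a) (hb : bᵀ = b) :
    pfS (Matrix.of fun p q : ι × Fin 2 => if p.2 = q.2 then a p.1 q.1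
        else if p.2 = 0 then -b p.1 q.1 else b p.1 q.1)
      = (2 : A) ^ Fintype.card ι * (Fintype.card ι).factorial * I ^ Fintype.card ι
        * (a + I • b).det := by
  set R : Matrix (ι × Fin 2) (ι × Fin 2) A := Matrix.of fun p q : ι × Fin 2 =>
    if p.2 = q.2 then a p.1 q.1 else if p.2 = 0 then -b p.1 q.1 else b p.1 q.1 with hR
  set C : Matrix (ι × Fin 2) (ι × Fin 2) A := (1 : Matrix ι ι A) ⊗ₖ !![1, 1; I, -I] with hC
  have hdet : C.det = (-2 * I) ^ Fintype.card ι := by
    rw [hC, det_kronecker, det_one, one_pow, one_mul, det_fin_two_of]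
    congr 1
    ring
  have hCR : Cᵀ * R * C = (2 : A) • offD (a + I • b) (-(a + I • b)ᵀ) := by
    have ha' : ∀ i j, a j i = -a i j := fun i j => by
      have := congrFun (congrFun ha i) j
      simpa using this
    have hb' : ∀ i j, b j i = b i j := fun i j => by
      have := congrFun (congrFun hb i) j
      simpa using this
    ext p q
    obtain ⟨i, x⟩ := p
    obtain ⟨j, y⟩ := q
    have h1 : (Cᵀ * R * C) (i, x) (j, y)
        = !![1, 1; I, -I] 0 x * R (i, 0) (j, 0) * !![1, 1; I, -I] 0 y
        + !![1, 1; I, -I] 1 x * R (i, 1) (j, 0) * !![1, 1; I, -I] 0 y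
        + !![1, 1; I, -I] 0 x * R (i, 0) (j, 1) * !![1, 1; I, -I] 1 y
        + !![1, 1; I, -I] 1 x * R (i, 1) (j, 1) * !![1, 1; I, -I] 1 y := by
      simp only [mul_apply, Fintype.sum_prod_type, Fin.sum_univ_two, hC, kroneckerMap_apply,
        transpose_apply, Matrix.one_apply, ite_mul, one_mul, zero_mul, mul_ite, mul_zero,
        Finset.sum_add_distrib, Finset.sum_ite_eq', Finset.mem_univ, if_true]
      ring
    rw [h1]
    fin_cases x <;> fin_cases y <;>
      simp [hR, offD] <;>
      first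
        | linear_combination (-a i j) * hI
        | (rw [ha' i j, hb' i j]; linear_combination (-a i j) * hI)
        | linear_combination (a i j) * hI
  have h3 := pfS_congr C R
  rw [hCR, pfS_smul, pfS_offD, hdet] at h3
  have h4 : (2 : A) ^ Fintype.card ι * pfS R = (2 : A) ^ Fintype.card ι *
      ((2 : A) ^ Fintype.card ι * (Fintype.card ι).factorial * I ^ Fintype.card ι
        * (a + I • b).det) := by
    have h5 : I ^ Fintype.card ι * (-2 * I) ^ Fintype.card ι = (2 : A) ^ Fintype.card ι := by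
      rw [← mul_pow]
      congr 1
      linear_combination (-2) * hI
    calc (2 : A) ^ Fintype.card ι * pfS R
        = I ^ Fintype.card ι * ((-2 * I) ^ Fintype.card ι * pfS R) := by
          rw [← mul_assoc, h5]
      _ = _ := by
          rw [← h3]
          ring
  exact (h2.pow _).mul_left_cancel h4

end Crest.Agent.R208.PF
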