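import Crest.Agent.R208.CW5c
import Crest.Agent.R208.PF3

/-! Row 208, block CW (helper586).  CW5d: the Euler class of a bundle with a complex structure is
the top Chern class. -/

set_option autoImplicit false
set_option linter.unusedSectionVars false
set_option linter.unusedSimpArgs false
set_option linter.unusedVariables false

open scoped BigOperators ContDiff Topology
open Module Set Matrix

noncomputable section

namespace Crest.Agent.R208.CW

open Crest.Agent.R208.F Crest.Agent.R208.FI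

universe u

/-! ### realification -/

section rm
variable {R : Type*} {n m l : Type*} [Fintype n] [DecidableEq n] [Fintype m] [DecidableEq m]
  [Fintype l] [DecidableEq l]

/-- realification of `a + i b` -/
def rM [Neg R] (a b : Matrix n m R) : Matrix (n × Fin 2) (m × Fin 2) R :=
  Matrix.of fun p q => if p.2 = q.2 then a p.1 q.1 else if p.2 = 0 then - b p.1 q.1 else b p.1 q.1

theorem rM_mul [Ring R] (a b : Matrix n m R) (c d : Matrix m l R) :
    rM a b * rM c d = rM (a * c - b * d) (a * d + b * c) := by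
  refine Matrix.ext fun p q => ?_
  obtain ⟨i, e⟩ := p
  obtain ⟨j, e'⟩ := q
  rw [Matrix.mul_apply, Fintype.sum_prod_type]
  fin_cases e <;> fin_cases e' <;>
    simp [rM, Matrix.mul_apply, Matrix.sub_apply, Matrix.add_apply, Fin.sum_univ_two,
      Finset.sum_add_distrib, Finset.sum_sub_distrib, Finset.sum_neg_distrib, sub_eq_add_neg,
      add_comm]

theorem rM_transpose [Ring R] (a b : Matrix n m R) : (rM a b)ᵀ = rM aᵀ (-bᵀ) := by
  refine Matrix.ext fun p q => ?_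
  obtain ⟨i, e⟩ := p
  obtain ⟨j, e'⟩ := q
  fin_cases e <;> fin_cases e' <;> simp [rM]

theorem rM_neg [Ring R] (a b : Matrix n m R) : - rM a b = rM (-a) (-b) := by
  refine Matrix.ext fun p q => ?_
  obtain ⟨i, e⟩ := p
  obtain ⟨j, e'⟩ := q
  fin_cases e <;> fin_cases e' <;> simp [rM]

theorem rM_inj [Ring R] {a b c d : Matrix n m R} (h : rM a b = rM c d) : a = c ∧ b = d := by
  constructor
  · refine Matrix.ext fun i j => ?_
    have := congrFun (congrFun h (i, 0)) (j, 0)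
    simpa [rM] using this
  · refine Matrix.ext fun i j => ?_
    have := congrFun (congrFun h (i, 1)) (j, 0)
    simpa [rM] using this

theorem cv_mul [Ring R] [Algebra ℂ R] (a b : Matrix n m R) (c d : Matrix m l R) :
    (a + Complex.I • b) * (c + Complex.I • d)
      = (a * c - b * d) + Complex.I • (a * d + b * c) := by
  rw [Matrix.add_mul, Matrix.mul_add, Matrix.mul_add, Matrix.smul_mul, Matrix.smul_mul,
    Matrix.mul_smul, Matrix.mul_smul, smul_smul, Complex.I_mul_I, neg_one_smul, smul_add]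
  abel

end rm

section pt
variable {T : Type*} [AddCommGroup T] [Module ℝ T] {ι n m l : Type*} [Fintype ι] [DecidableEq ι]
  [Fintype n] [DecidableEq n] [Fintype m] [DecidableEq m] [Fintype l] [DecidableEq l]

theorem hat_rM (a b : Matrix n m ℂ) : hat T (rM a b) = rM (hat T a) (hat T b) := by
  refine Matrix.ext fun p q => ?_
  obtain ⟨i, e⟩ := p
  obtain ⟨j, e'⟩ := q
  fin_cases e <;> fin_cases e' <;> simp [rM, hat]

theorem hv_rM (a b : Matrix n m ℂ) : hv T (rM a b) = rM (hv T a) (hv T b) := by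
  refine Matrix.ext fun p q => ?_
  obtain ⟨i, e⟩ := p
  obtain ⟨j, e'⟩ := q
  fin_cases e <;> fin_cases e' <;> simp [rM, hv]

theorem invM_rM (a b : Matrix n m (CF T)) : invM (rM a b) = rM (invM a) (invM b) := by
  refine Matrix.ext fun p q => ?_
  obtain ⟨i, e⟩ := p
  obtain ⟨j, e'⟩ := q
  fin_cases e <;> fin_cases e' <;> simp [rM, invM]

theorem vl_rM (a b : Matrix n m (EvC T)) : vl (rM a b) = rM (vl a) (vl b) := by
  refine Matrix.ext fun p q => ?_
  obtain ⟨i, e⟩ := p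
  obtain ⟨j, e'⟩ := q
  fin_cases e <;> fin_cases e' <;> simp [rM, vl]

theorem hat_smul' (z : ℂ) (a : Matrix n m ℂ) : hat T (z • a) = z • hat T a := by
  refine Matrix.ext fun p q => ?_
  change algebraMap ℂ (CF T) (z * a p q) = z • algebraMap ℂ (CF T) (a p q)
  rw [map_mul, Algebra.smul_def]

theorem hv_smul' (z : ℂ) (a : Matrix n m ℂ) : hv T (z • a) = z • hv T a := by
  refine Matrix.ext fun p q => ?_
  change algebraMap ℂ (EvC T) (z * a p q) = z • algebraMap ℂ (EvC T) (a p q)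
  rw [map_mul, Algebra.smul_def]

theorem hv_add' (a b : Matrix n m ℂ) : hv T (a + b) = hv T a + hv T b := by
  refine Matrix.ext fun p q => ?_
  change algebraMap ℂ (EvC T) (a p q + b p q) = _
  rw [map_add]; rfl

theorem vl_add' (a b : Matrix n m (EvC T)) : vl (a + b) = vl a + vl b := rfl
theorem vl_smul' (z : ℂ) (a : Matrix n m (EvC T)) : vl (z • a) = z • vl a := rfl

/-- the curvature of a realification -/
theorem wv_rM {a b : Matrix n n ℂ} {δa δb : Matrix n n (CF T)} (h : invM (rM δa δb) = - rM δa δb)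
    (h' : invM (δa + Complex.I • δb) = - (δa + Complex.I • δb)) :
    ∃ α β : Matrix n n (EvC T), wv (rM a b) (rM δa δb) h = rM α β ∧
      α + Complex.I • β = wv (a + Complex.I • b) (δa + Complex.I • δb) h' := by
  set A : Matrix n n (CF T) := _
  set B : Matrix n n (CF T) := _
  have e : vl (wv (rM a b) (rM δa δb) h) = rM A B := by
    rw [vl_wv, hat_rM, rM_mul, rM_mul, rM_mul]
  have hev : invM (vl (wv (rM a b) (rM δa δb) h)) = vl (wv (rM a b) (rM δa δb) h) :=
    Matrix.ext fun i j => EvC.inv _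
  rw [e, invM_rM] at hev
  obtain ⟨h1, h2⟩ := rM_inj hev
  refine ⟨toEv A h1, toEv B h2, vl_inj ?_, vl_inj ?_⟩
  · rw [e, vl_rM, vl_toEv, vl_toEv]
  · rw [vl_add', vl_smul', vl_toEv, vl_toEv, vl_wv, hat_add, hat_smul', cv_mul, cv_mul, cv_mul]

theorem pfS_rM_frame {α β : Matrix n n (EvC T)} {c d : Matrix n ι ℂ} {w : Matrix n n (EvC T)}
    (hw : α + Complex.I • β = w)
    (hsk : ((hv T (rM c d))ᵀ * rM α β * hv T (rM c d))ᵀ
      = -((hv T (rM c d))ᵀ * rM α β * hv T (rM c d))) {Q : Matrix n n ℂ}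
    (hQ : (c + Complex.I • d) * (cᵀ + Complex.I • (-dᵀ)) = Q) (hwQ : w * hv T Q = w) :
    PF.pfS ((hv T (rM c d))ᵀ * rM α β * hv T (rM c d))
      = ((2 : ℂ) ^ Fintype.card ι * (Fintype.card ι).factorial * Complex.I ^ Fintype.card ι)
        • (cpoly w).coeff (Fintype.card ι) := by
  set A' : Matrix ι ι (EvC T) := _
  set B' : Matrix ι ι (EvC T) := _
  have e : (hv T (rM c d))ᵀ * rM α β * hv T (rM c d) = rM A' B' := by
    have e1 : (hv T (rM c d))ᵀ = hv T (rM c d)ᵀ := rfl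
    rw [e1, rM_transpose, hv_rM, hv_rM, rM_mul, rM_mul]
  have e2 : A' + Complex.I • B' = (hv T (cᵀ + Complex.I • (-dᵀ)) * w)
      * hv T (c + Complex.I • d) := by
    rw [hv_add', hv_add', hv_smul', hv_smul', ← hw, cv_mul, cv_mul]
  rw [e, rM_transpose, rM_neg] at hsk
  obtain ⟨s1, s2⟩ := rM_inj hsk
  have s3 : B'ᵀ = B' := neg_injective s2
  have hI : algebraMap ℂ (EvC T) Complex.I * algebraMap ℂ (EvC T) Complex.I = -1 := by
    rw [← map_mul, Complex.I_mul_I, map_neg, map_one]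
  have key := PF.pfS_realM (two_unit T) (algebraMap ℂ (EvC T) Complex.I) hI A' B' s1 s3
  rw [e]
  have e3 : PF.pfS (rM A' B') = (2 : EvC T) ^ Fintype.card ι * (Fintype.card ι).factorial
      * algebraMap ℂ (EvC T) Complex.I ^ Fintype.card ι
        * (A' + algebraMap ℂ (EvC T) Complex.I • B').det := key
  have e4 : algebraMap ℂ (EvC T) Complex.I • B' = Complex.I • B' :=
    algebraMap_smul (EvC T) Complex.I B'
  rw [e3, e4, e2, ← cpoly_coeff_card, Matrix.mul_assoc, cpoly_mul_comm, Matrix.mul_assoc, ← hv_mul,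
    hQ, hwQ, Algebra.smul_def]
  congr 1
  have c2 : algebraMap ℂ (EvC T) 2 = 2 := map_ofNat _ 2
  have c3 : algebraMap ℂ (EvC T) ((Fintype.card ι).factorial : ℂ)
    = ((Fintype.card ι).factorial : EvC T) := map_natCast _ _
  rw [map_mul, map_mul, map_pow, map_pow, c2, c3]

/-- frame adapted to the complex structure `J` of the range of `P` -/
def FrJ (P J : Matrix n n ℂ) (W : (ι × Fin 2 → n) → ℂ) : Prop :=
  ∃ u : Matrix n ι ℂ, ∃ f : Matrix n (ι × Fin 2) ℂ,
    (∀ a j, f a (j, 0) = u a j) ∧ (∀ a j, f a (j, 1) = (J * u) a j) ∧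
    fᵀ * f = 1 ∧ f * fᵀ = P ∧ ∀ I, W I = (f.submatrix I id).det

theorem FrJ.fr {P J : Matrix n n ℂ} {W : (ι × Fin 2 → n) → ℂ} (h : FrJ P J W) : Fr P W := by
  obtain ⟨u, f, _, _, h1, h2, h3⟩ := h
  exact ⟨f, h1, h2, h3⟩

/-- the unitary embedding -/
def Sj (P J : Matrix n n ℂ) : Matrix (n × Fin 2) n ℂ :=
  Matrix.of fun p b => ((Real.sqrt 2 : ℝ) : ℂ)⁻¹ * (if p.2 = 0 then P p.1 b else - J p.1 b)

theorem sqrt2_sq : ((Real.sqrt 2 : ℝ) : ℂ)⁻¹ * ((Real.sqrt 2 : ℝ) : ℂ)⁻¹ = 1 / 2 := by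
  rw [← mul_inv]
  have : ((Real.sqrt 2 : ℝ) : ℂ) * ((Real.sqrt 2 : ℝ) : ℂ) = 2 := by
    have h := Real.mul_self_sqrt (show (0 : ℝ) ≤ 2 by norm_num)
    exact_mod_cast h
  rw [this]; norm_num

theorem Sj_tr {P J : Matrix n n ℂ} (hPt : Pᵀ = P) (hP : P * P = P) (hJt : Jᵀ = -J)
    (hJ : J * J = -P) : (Sj P J)ᵀ * Sj P J = P := by
  have e : (Sj P J)ᵀ * Sj P J = ((1 : ℂ) / 2) • (Pᵀ * P + Jᵀ * J) := by
    refine Matrix.ext fun a b => ?_
    rw [Matrix.mul_apply, Fintype.sum_prod_type, Matrix.smul_apply, Matrix.add_apply,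
      Matrix.mul_apply, Matrix.mul_apply, ← Finset.sum_add_distrib, Finset.smul_sum]
    refine Finset.sum_congr rfl fun i _ => ?_
    rw [Fin.sum_univ_two]
    simp only [Sj, transpose_apply, of_apply, if_true, one_ne_zero, if_false, smul_eq_mul,
      ← sqrt2_sq]
    ring
  rw [e, hPt, hP, hJt, Matrix.neg_mul, hJ, neg_neg, ← two_smul ℂ P, smul_smul]
  norm_num

theorem Sj_P {P J : Matrix n n ℂ} (hPt : Pᵀ = P) (hP : P * P = P) (hJt : Jᵀ = -J)
    (hJ : J * J = -P) (hJP : J * P = J) :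
    Sj P J * P * (Sj P J)ᵀ = rM (((1 : ℂ) / 2) • P) (((1 : ℂ) / 2) • (-J)) := by
  have hPJ : P * J = J := by
    have := congrArg Matrix.transpose hJP
    rw [transpose_mul, hPt, hJt, Matrix.mul_neg] at this
    exact neg_injective this
  have e1 : Sj P J * P = Sj P J := by
    refine Matrix.ext fun p b => ?_
    obtain ⟨i, e⟩ := p
    rw [Matrix.mul_apply]
    fin_cases e
    · simp only [Sj, of_apply, Fin.zero_eta, if_true, mul_assoc, ← Finset.mul_sum]
      rw [← Matrix.mul_apply, hP]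
    · simp only [Sj, of_apply, Fin.mk_one, one_ne_zero, if_false, mul_assoc, ← Finset.mul_sum,
        neg_mul, Finset.sum_neg_distrib]
      rw [← Matrix.mul_apply, hJP]
  have hs : ∀ x y : ℂ, ((Real.sqrt 2 : ℝ) : ℂ)⁻¹ * x * (((Real.sqrt 2 : ℝ) : ℂ)⁻¹ * y)
      = 1 / 2 * (x * y) := fun x y => by
    rw [← sqrt2_sq]; ring
  rw [e1]
  refine Matrix.ext fun p q => ?_
  obtain ⟨i, e⟩ := p
  obtain ⟨j, e'⟩ := q
  rw [Matrix.mul_apply]
  simp only [Sj, transpose_apply, of_apply, hs, ← Finset.mul_sum]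
  have h1 := congrFun (congrFun (show P * Pᵀ = P by rw [hPt, hP]) i) j
  have h2 := congrFun (congrFun (show P * Jᵀ = -J by rw [hJt, Matrix.mul_neg, hPJ]) i) j
  have h3 := congrFun (congrFun (show J * Pᵀ = J by rw [hPt, hJP]) i) j
  have h4 := congrFun (congrFun (show J * Jᵀ = P by rw [hJt, Matrix.mul_neg, hJ, neg_neg]) i) j
  rw [Matrix.mul_apply] at h1 h2 h3 h4
  simp only [transpose_apply] at h1 h2 h3 h4
  fin_cases e <;> fin_cases e'
  · simp [rM, h1]
  · simp only [Fin.zero_eta, Fin.mk_one, if_true, one_ne_zero, if_false, mul_neg,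
      Finset.sum_neg_distrib, h2]
    simp [rM]
  · simp only [Fin.zero_eta, Fin.mk_one, if_true, one_ne_zero, if_false, neg_mul,
      Finset.sum_neg_distrib, h3]
    simp [rM]
  · simp only [Fin.zero_eta, Fin.mk_one, if_true, one_ne_zero, if_false, neg_mul, mul_neg, neg_neg,
      h4]
    simp [rM]

theorem unit_frame {P J : Matrix n n ℂ} {u : Matrix n ι ℂ} {f : Matrix n (ι × Fin 2) ℂ}
    (hu : ∀ a j, f a (j, 0) = u a j) (hJu : ∀ a j, f a (j, 1) = (J * u) a j) (h1 : fᵀ * f = 1)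
    (h2 : f * fᵀ = P) (hJt : Jᵀ = -J) (hJ : J * J = -P) (hJP : J * P = J) :
    P * u = u ∧ J = J * (u * uᵀ) + u * uᵀ * J ∧ P = u * uᵀ + (J * u) * (J * u)ᵀ := by
  have hPf : P * f = f := by rw [← h2, Matrix.mul_assoc, h1, Matrix.mul_one]
  have hPu : P * u = u := by
    refine Matrix.ext fun a j => ?_
    have := congrFun (congrFun hPf a) (j, 0)
    rw [Matrix.mul_apply] at this ⊢
    rw [← hu, ← this]
    exact Finset.sum_congr rfl fun b _ => by rw [hu]
  have hPd : P = u * uᵀ + (J * u) * (J * u)ᵀ := by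
    refine Matrix.ext fun a b => ?_
    rw [← h2, Matrix.mul_apply, Fintype.sum_prod_type, Matrix.add_apply, Matrix.mul_apply (M := u),
      Matrix.mul_apply (M := J * u), ← Finset.sum_add_distrib]
    refine Finset.sum_congr rfl fun j _ => ?_
    rw [Fin.sum_univ_two]
    simp only [transpose_apply, hu, hJu]
  refine ⟨hPu, ?_, hPd⟩
  have e : J * P = J * (u * uᵀ) + u * uᵀ * J := by
    conv_lhs => rw [hPd]
    rw [Matrix.mul_add, transpose_mul, hJt]
    congr 1
    have e3 : J * (J * u) = - u := by rw [← Matrix.mul_assoc, hJ, Matrix.neg_mul, hPu]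
    rw [← Matrix.mul_assoc, e3, Matrix.mul_neg, Matrix.neg_mul, Matrix.mul_neg, neg_neg,
      Matrix.mul_assoc]
  rw [← e, hJP]

theorem Sj_frame {P J : Matrix n n ℂ} {u : Matrix n ι ℂ} {f : Matrix n (ι × Fin 2) ℂ}
    (hu : ∀ a j, f a (j, 0) = u a j) (hJu : ∀ a j, f a (j, 1) = (J * u) a j) (h1 : fᵀ * f = 1)
    (h2 : f * fᵀ = P) (hJ : J * J = -P) :
    Sj P J * f = rM ((((Real.sqrt 2 : ℝ) : ℂ)⁻¹) • u) (-((((Real.sqrt 2 : ℝ) : ℂ)⁻¹) • (J * u))) := by
  have hPf : P * f = f := by rw [← h2, Matrix.mul_assoc, h1, Matrix.mul_one]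
  have g1 : ∀ a j, ∑ b, P a b * f b (j, 0) = u a j := fun a j => by
    rw [← Matrix.mul_apply, hPf, hu]
  have g2 : ∀ a j, ∑ b, P a b * f b (j, 1) = (J * u) a j := fun a j => by
    rw [← Matrix.mul_apply, hPf, hJu]
  have g3 : ∀ a j, ∑ b, J a b * f b (j, 0) = (J * u) a j := fun a j => by
    rw [Matrix.mul_apply]; exact Finset.sum_congr rfl fun b _ => by rw [hu]
  have g4 : ∀ a j, ∑ b, J a b * f b (j, 1) = - u a j := fun a j => by
    have hPu : (P * u) a j = u a j := by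
      rw [Matrix.mul_apply, ← g1 a j]; exact Finset.sum_congr rfl fun b _ => by rw [hu]
    have : ∑ b, J a b * f b (j, 1) = (J * (J * u)) a j := by
      rw [Matrix.mul_apply]; exact Finset.sum_congr rfl fun b _ => by rw [hJu]
    rw [this, ← Matrix.mul_assoc, hJ, Matrix.neg_mul, Matrix.neg_apply, hPu]
  refine Matrix.ext fun p q => ?_
  obtain ⟨i, e⟩ := p
  obtain ⟨j, e'⟩ := q
  rw [Matrix.mul_apply]
  fin_cases e <;> fin_cases e' <;>
    simp [Sj, rM, mul_assoc, ← Finset.mul_sum, g1, g2, g3, g4]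

end pt

/-! ### the theorem -/

section cplx
variable {E : Type u} [NormedAddCommGroup E] [NormedSpace ℝ E] [FiniteDimensional ℝ E]
  {ι n m : Type*} [Fintype ι] [DecidableEq ι] [Fintype n] [DecidableEq n] [Fintype m]
  [DecidableEq m] {x : E} {X : Set E} {dX : ℕ}

theorem dl_rM (A B : E → Matrix n m ℂ) (x : E) :
    dl X (fun y => rM (A y) (B y)) x = rM (dl X A x) (dl X B x) := by
  refine Matrix.ext fun p q => ?_
  obtain ⟨i, e⟩ := p
  obtain ⟨j, e'⟩ := q
  have hneg : rs X x (dC (fun y => algebraMap ℂ (CF E) (-B y i j)) x)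
      = - rs X x (dC (fun y => algebraMap ℂ (CF E) (B y i j)) x) := by
    have : (fun y => algebraMap ℂ (CF E) (-B y i j)) = fun y => - algebraMap ℂ (CF E) (B y i j) :=
      funext fun y => map_neg _ _
    rw [this, dC_neg, map_neg]
  fin_cases e <;> fin_cases e'
  · rfl
  · exact hneg
  · rfl
  · rfl

theorem dl_csmul (z : ℂ) {A : E → Matrix n m ℂ} (hA : SM 1 A x) :
    dl X (fun y => z • A y) x = z • dl X A x := by
  refine Matrix.ext fun i j => ?_
  change rs X x (dC (fun y => algebraMap ℂ (CF E) (z * A y i j)) x)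
    = z • rs X x (dC (fun y => algebraMap ℂ (CF E) (A y i j)) x)
  have : (fun y => algebraMap ℂ (CF E) (z * A y i j)) = fun y => z • algebraMap ℂ (CF E) (A y i j) :=
    funext fun y => by rw [map_mul, Algebra.smul_def]
  rw [this, dC_csmul z (CD.of_fun (hA i j)), rs_csmul]

theorem SM.csmul {G : Type*} [NormedAddCommGroup G] [NormedSpace ℝ G] {x : G} {k : WithTop ℕ∞}
    (z : ℂ) {A : G → Matrix n m ℂ} (hA : SM k A x) : SM k (fun y => z • A y) x := fun i j =>
  contDiffAt_const.mul (hA i j)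

theorem SM.neg' {G : Type*} [NormedAddCommGroup G] [NormedSpace ℝ G] {x : G} {k : WithTop ℕ∞}
    {A : G → Matrix n m ℂ} (hA : SM k A x) : SM k (fun y => - A y) x := fun i j => (hA i j).neg

/-- complex structure on an oriented bundle, orthogonal -/
structure CS (X : Set E) (P J : E → Matrix n n ℂ) (W : E → (ι × Fin 2 → n) → ℂ) : Prop where
  of : OF X P W
  sJ : ∀ x ∈ X, SM ∞ J x
  tr : ∀ x ∈ X, (J x)ᵀ = - J x
  sq : ∀ x ∈ X, J x * J x = - P x
  mulP : ∀ x ∈ X, J x * P x = J x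
  fr : ∀ x ∈ X, FrJ (P x) (J x) (W x)

theorem CS.idF {P J : E → Matrix n n ℂ} {W : E → (ι × Fin 2 → n) → ℂ} (h : CS X P J W) :
    IdF X (fun x => ((1 : ℂ) / 2) • P x + Complex.I • ((1 : ℂ) / 2) • (- J x)) := by
  refine ⟨fun x hx => ((h.of.sP x hx).csmul _).add (((h.sJ x hx).neg'.csmul _).csmul _),
    fun x hx => ?_⟩
  have hP := h.of.idF.idem x hx
  have hPJ : P x * J x = J x := by
    have := congrArg Matrix.transpose (h.mulP x hx)
    rw [transpose_mul, h.of.pt hx, h.tr x hx, Matrix.mul_neg] at this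
    exact neg_injective this
  rw [cv_mul]
  simp only [Matrix.smul_mul, Matrix.mul_smul, Matrix.neg_mul, Matrix.mul_neg, hP, hPJ,
    h.mulP x hx, h.sq x hx, smul_smul, neg_neg, smul_neg]
  module

/-- **the Euler class of a complex bundle is the top Chern class** -/
theorem CS.ec_eq (hX : Sub dX X) {P J : E → Matrix n n ℂ} {W : E → (ι × Fin 2 → n) → ℂ}
    (h : CS X P J W) : ec h.of
      = ((2 : ℂ) ^ Fintype.card ι * (Fintype.card ι).factorial * Complex.I ^ Fintype.card ι)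
        • cc hX h.idF (Fintype.card ι) := by
  have hS : ∀ x ∈ X, SM ∞ (fun y => Sj (P y) (J y)) x := fun x hx => by
    rintro ⟨i, e⟩ j
    fin_cases e
    · exact contDiffAt_const.mul (h.of.sP x hx i j)
    · exact contDiffAt_const.mul (h.sJ x hx i j).neg
  have hi : ∀ x ∈ X, P x * ((Sj (P x) (J x))ᵀ * Sj (P x) (J x)) * P x = P x := fun x hx => by
    rw [Sj_tr (h.of.pt hx) (h.of.idF.idem x hx) (h.tr x hx) (h.sq x hx), h.of.idF.idem x hx,
      h.of.idF.idem x hx]
  have h' := h.of.push hS hi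
  rw [← ec_iso h.of hS hi h', ec, cc, ← cls_smul]
  refine cls_congr fun x hx => ?_
  obtain ⟨u, f, hu, hJu, h1, h2, h3⟩ := h.fr x hx
  obtain ⟨hPu, hJd, hPd⟩ := unit_frame hu hJu h1 h2 (h.tr x hx) (h.sq x hx) (h.mulP x hx)
  set A : E → Matrix n n ℂ := fun y => ((1 : ℂ) / 2) • P y with hA
  set B : E → Matrix n n ℂ := fun y => ((1 : ℂ) / 2) • (- J y) with hB
  have hP' : ∀ y ∈ X, Sj (P y) (J y) * P y * (Sj (P y) (J y))ᵀ = rM (A y) (B y) := fun y hy =>
    Sj_P (h.of.pt hy) (h.of.idF.idem y hy) (h.tr y hy) (h.sq y hy) (h.mulP y hy)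
  have sA : SM 1 A x := (h.of.idF.s1 hx).csmul _
  have sB : SM 1 B x := ((h.sJ x hx).of_le one_le_inf).neg'.csmul _
  have sAB : SM 1 (fun y => rM (A y) (B y)) x := by
    rintro ⟨i, e⟩ ⟨j, e'⟩
    fin_cases e <;> fin_cases e'
    · exact sA i j
    · exact (sB i j).neg
    · exact sB i j
    · exact sA i j
  have hdl : dl X (fun y => Sj (P y) (J y) * P y * (Sj (P y) (J y))ᵀ) x
      = rM (dl X A x) (dl X B x) := by
    rw [dl_congr_gen hx (h'.idF.s1 hx) sAB hP', dl_rM]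
  have hinv : invM (rM (dl X A x) (dl X B x)) = - rM (dl X A x) (dl X B x) := by
    rw [← hdl]; exact invM_dl _ _
  have hdQ : dl X (fun y => A y + Complex.I • B y) x = dl X A x + Complex.I • dl X B x := by
    rw [dl_add sA (sB.csmul _), dl_csmul _ sB]
  have hinv' : invM (dl X A x + Complex.I • dl X B x) = - (dl X A x + Complex.I • dl X B x) := by
    rw [← hdQ]; exact invM_dl _ _
  obtain ⟨α, β, e1, e2⟩ := wv_rM (a := A x) (b := B x) hinv hinv'
  have hw : wv (Sj (P x) (J x) * P x * (Sj (P x) (J x))ᵀ)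
      (dl X (fun y => Sj (P y) (J y) * P y * (Sj (P y) (J y))ᵀ) x) (invM_dl _ x) = rM α β := by
    rw [← e1]
    refine vl_inj ?_
    rw [vl_wv, vl_wv, hdl, hP' x hx]
  have hwt : (rM α β)ᵀ = - rM α β := by
    rw [← hw]; exact wv_transpose (h'.pt hx) _ (h'.dlt hx)
  have hf := Sj_frame hu hJu h1 h2 (h.sq x hx)
  rw [rs_ef, eu_frame (pushW_frame (Sj (P x) (J x)) f h3), hw, hf, Pi.smul_apply, rs_csmul, rs_cf]
  have hAB : A x + Complex.I • B x = (fun x => ((1 : ℂ) / 2) • P x + Complex.I • ((1 : ℂ) / 2)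
    • (- J x)) x := rfl
  have hQid := h.idF.idem x hx
  have hskew : ((hv (Tan X x) (Sj (P x) (J x) * f))ᵀ * rM α β * hv (Tan X x) (Sj (P x) (J x) * f))ᵀ
      = -((hv (Tan X x) (Sj (P x) (J x) * f))ᵀ * rM α β * hv (Tan X x) (Sj (P x) (J x) * f)) := by
    rw [transpose_mul, transpose_mul, transpose_transpose, hwt, Matrix.neg_mul, Matrix.mul_neg,
      Matrix.mul_assoc]
  rw [hf] at hskew
  have hQ : ((((Real.sqrt 2 : ℝ) : ℂ)⁻¹) • u + Complex.I • (-((((Real.sqrt 2 : ℝ) : ℂ)⁻¹) • (J x * u))))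
      * (((((Real.sqrt 2 : ℝ) : ℂ)⁻¹) • u)ᵀ
        + Complex.I • (-(-((((Real.sqrt 2 : ℝ) : ℂ)⁻¹) • (J x * u)))ᵀ))
      = A x + Complex.I • B x := by
    have e3 : u * (J x * u)ᵀ = - (u * uᵀ * J x) := by
      rw [transpose_mul, h.tr x hx, Matrix.mul_neg, Matrix.mul_neg, Matrix.mul_assoc]
    have e4 : J x * u * uᵀ = J x * (u * uᵀ) := Matrix.mul_assoc _ _ _
    have f1 : (((Real.sqrt 2 : ℝ) : ℂ)⁻¹) • u + Complex.I • (-((((Real.sqrt 2 : ℝ) : ℂ)⁻¹) • (J x * u)))
        = (((Real.sqrt 2 : ℝ) : ℂ)⁻¹) • (u + Complex.I • (-(J x * u))) := by module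
    have f2 : ((((Real.sqrt 2 : ℝ) : ℂ)⁻¹) • u)ᵀ
        + Complex.I • (-(-((((Real.sqrt 2 : ℝ) : ℂ)⁻¹) • (J x * u)))ᵀ)
        = (((Real.sqrt 2 : ℝ) : ℂ)⁻¹) • (uᵀ + Complex.I • (J x * u)ᵀ) := by
      rw [transpose_neg, neg_neg, transpose_smul, transpose_smul]; module
    rw [f1, f2, Matrix.smul_mul, Matrix.mul_smul, smul_smul, sqrt2_sq, cv_mul]
    have e6 : A x = ((1 : ℂ) / 2) • (u * uᵀ + (J x * u) * (J x * u)ᵀ) := by rw [← hPd]
    have e7 : B x = ((1 : ℂ) / 2) • (- (J x * (u * uᵀ) + u * uᵀ * J x)) := by rw [← hJd]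
    rw [e6, e7]
    simp only [Matrix.neg_mul, e3, e4, sub_neg_eq_add]
    module
  have key := pfS_rM_frame (T := Tan X x) (α := α) (β := β) e2 hskew hQ (wv_hv hQid _ _)
  have e5 : wv (A x + Complex.I • B x) (dl X A x + Complex.I • dl X B x) hinv'
      = wv (((1 : ℂ) / 2) • P x + Complex.I • ((1 : ℂ) / 2) • (- J x))
        (dl X (fun x => ((1 : ℂ) / 2) • P x + Complex.I • ((1 : ℂ) / 2) • (- J x)) x)
        (invM_dl _ x) := by
    refine vl_inj ?_
    rw [vl_wv, vl_wv, ← hdQ]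
  rw [key, e5]
  rfl

end cplx

end Crest.Agent.R208.CW
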