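import Crest.Agent.R208.CW6b

/-! Row 208, block CW (helper586).  CW6c: the Euler form of the round sphere. -/

set_option autoImplicit false
set_option linter.unusedSectionVars false
set_option linter.unusedSimpArgs false
set_option linter.unusedVariables false

open scoped BigOperators ContDiff Topology RealInnerProductSpace
open Module Set Matrix

noncomputable section

namespace Crest.Agent.R208.CW

open Crest.Agent.R208.F Crest.Agent.R208.FI

/-! ### the Pfaffian of `θ_p θ_q` -/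

section pf
variable {T : Type*} [AddCommGroup T] [Module ℝ T] {ι : Type*} [Fintype ι] [DecidableEq ι]

/-- enumeration of the pairs -/
def en {r : ℕ} (e0 : Fin r ≃ ι) : Fin (r * 2) ≃ ι × Fin 2 :=
  finProdFinEquiv.symm.trans (e0.prodCongr (Equiv.refl _))

theorem ofR_list (l : List (Ext T)) : (l.map (Cx.ofR : Ext T →+* CF T)).prod = Cx.ofR l.prod :=
  (map_list_prod (Cx.ofR : Ext T →+* CF T) l).symm

theorem iMulti_pairs {r : ℕ} (e0 : Fin r ≃ ι) (θ : ι × Fin 2 → Module.Dual ℝ T) :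
    ExteriorAlgebra.ιMulti ℝ (r * 2) (fun k => θ (en e0 k))
      = (List.ofFn fun i : Fin r => io (θ (e0 i, 0)) * io (θ (e0 i, 1))).prod := by
  rw [ExteriorAlgebra.ιMulti_apply, List.ofFn_mul, List.prod_flatten, List.map_ofFn]
  congr 1
  refine congrArg List.ofFn (funext fun i => ?_)
  rw [Function.comp_apply, List.ofFn_succ, List.ofFn_succ, List.ofFn_zero, List.prod_cons,
    List.prod_cons, List.prod_nil, mul_one]
  have h0 : en e0 ⟨(i : ℕ) * 2 + ((0 : Fin 2) : ℕ), by omega⟩ = (e0 i, 0) := by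
    rw [en, Equiv.trans_apply]
    have : (⟨(i : ℕ) * 2 + ((0 : Fin 2) : ℕ), by omega⟩ : Fin (r * 2)) = finProdFinEquiv (i, 0) := by
      ext; simp [finProdFinEquiv]; ring
    rw [this, Equiv.symm_apply_apply]; rfl
  have h1 : en e0 ⟨(i : ℕ) * 2 + ((1 : Fin 2) : ℕ), by omega⟩ = (e0 i, 1) := by
    rw [en, Equiv.trans_apply]
    have : (⟨(i : ℕ) * 2 + ((1 : Fin 2) : ℕ), by omega⟩ : Fin (r * 2)) = finProdFinEquiv (i, 1) := by
      ext; simp [finProdFinEquiv]; ring
    rw [this, Equiv.symm_apply_apply]; rfl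
  exact congrArg₂ (· * ·) (congrArg (fun p => io (θ p)) h0) (congrArg (fun p => io (θ p)) h1)

theorem prod_pairs {r : ℕ} (e0 : Fin r ≃ ι) (θ : ι × Fin 2 → Module.Dual ℝ T) {g : ι → EvC T}
    (hg : ∀ j, (g j : CF T) = Cx.ofR (io (θ (j, 0)) * io (θ (j, 1)))) :
    ((∏ j, g j : EvC T) : CF T)
      = Cx.ofR (ExteriorAlgebra.ιMulti ℝ (r * 2) (fun k => θ (en e0 k))) := by
  rw [iMulti_pairs, ← ofR_list, List.map_ofFn, ← e0.prod_comp, ← List.prod_ofFn]
  have := map_list_prod ((EvC T).val : EvC T →+* CF T) (List.ofFn fun i => g (e0 i))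
  have h2 : (((List.ofFn fun i => g (e0 i)).prod : EvC T) : CF T)
    = (List.map ((EvC T).val : EvC T →+* CF T) (List.ofFn fun i => g (e0 i))).prod := this
  rw [h2, List.map_ofFn]
  congr 2
  funext i
  exact hg (e0 i)

/-- **Pfaffian of a decomposable matrix** -/
theorem pfS_theta {r : ℕ} (e0 : Fin r ≃ ι) (θ : ι × Fin 2 → Module.Dual ℝ T)
    {M : Matrix (ι × Fin 2) (ι × Fin 2) (EvC T)}
    (hM : ∀ p q, (M p q : CF T) = Cx.ofR (io (θ p) * io (θ q))) :
    ((PF.pfS M : EvC T) : CF T) = Cx.ofR (((r * 2).factorial : ℝ)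
      • (ExteriorAlgebra.ιMulti ℝ (r * 2) (fun k => θ (en e0 k)))) := by
  have h1 : ∀ σ : Equiv.Perm (ι × Fin 2),
      ((((Equiv.Perm.sign σ : ℤ) : EvC T) * ∏ j, M (σ (j, 0)) (σ (j, 1)) : EvC T) : CF T)
        = Cx.ofR (ExteriorAlgebra.ιMulti ℝ (r * 2) (fun k => θ (en e0 k))) := by
    intro σ
    have e1 := prod_pairs e0 (fun p => θ (σ p)) (g := fun j => M (σ (j, 0)) (σ (j, 1)))
      (fun j => hM _ _)
    have e2 : (fun k => θ (σ (en e0 k)))
        = (fun k => θ (en e0 k)) ∘ ((en e0).trans (σ.trans (en e0).symm) : Equiv.Perm (Fin (r * 2))) := by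
      funext k; simp
    have e3 : Equiv.Perm.sign ((en e0).trans (σ.trans (en e0).symm) : Equiv.Perm (Fin (r * 2)))
        = Equiv.Perm.sign σ := Equiv.Perm.sign_trans_trans_symm σ (en e0)
    have e4 : ExteriorAlgebra.ιMulti ℝ (r * 2) (fun k => θ (σ (en e0 k)))
        = Equiv.Perm.sign σ • ExteriorAlgebra.ιMulti ℝ (r * 2) (fun k => θ (en e0 k)) := by
      rw [e2, AlternatingMap.map_perm, e3]
    have e5 : ((((Equiv.Perm.sign σ : ℤ) : EvC T) * ∏ j, M (σ (j, 0)) (σ (j, 1)) : EvC T) : CF T)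
        = ((Equiv.Perm.sign σ : ℤ) : CF T)
          * ((∏ j, M (σ (j, 0)) (σ (j, 1)) : EvC T) : CF T) := by
      push_cast; rfl
    rw [e5, e1, e4]
    rcases Int.units_eq_one_or (Equiv.Perm.sign σ) with h | h
    · rw [h]; simp
    · rw [h]; simp
  have h2 : ((PF.pfS M : EvC T) : CF T)
      = ∑ σ : Equiv.Perm (ι × Fin 2),
        ((((Equiv.Perm.sign σ : ℤ) : EvC T) * ∏ j, M (σ (j, 0)) (σ (j, 1)) : EvC T) : CF T) := by
    rw [PF.pfS]
    exact map_sum (EvC T).val _ _
  have hr : Fintype.card ι = r := by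
    rw [← Fintype.card_congr e0, Fintype.card_fin]
  rw [h2]
  simp only [h1, Finset.sum_const, Finset.card_univ, Fintype.card_perm, Fintype.card_prod,
    Fintype.card_fin, hr]
  rw [Nat.cast_smul_eq_nsmul ℝ, map_nsmul]

end pf

/-! ### the sphere -/

section frame
variable {H : Type*} [NormedAddCommGroup H] [InnerProductSpace ℝ H]
  {A ι n : Type*} [Fintype A] [DecidableEq A] [Fintype ι] [DecidableEq ι] [Fintype n]
  [DecidableEq n]

/-- complex matrix of a family -/
def fM (b : OrthonormalBasis n ℝ H) (f : A → H) : Matrix n A ℂ :=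
  Matrix.of fun a p => ((⟪b a, f p⟫ : ℝ) : ℂ)

theorem fM_tr_mul {B : Type*} [Fintype B] [DecidableEq B] (b : OrthonormalBasis n ℝ H) (f : A → H)
    (g : B → H) : (fM b f)ᵀ * fM b g = Matrix.of fun p q => ((⟪f p, g q⟫ : ℝ) : ℂ) := by
  refine Matrix.ext fun p q => ?_
  rw [Matrix.mul_apply]
  simp only [transpose_apply, fM, of_apply]
  rw [← b.sum_inner_mul_inner (f p) (g q)]
  push_cast
  exact Finset.sum_congr rfl fun i _ => by rw [real_inner_comm (f p)]

theorem cW_tn (b : OrthonormalBasis n ℝ H) (f : A → H) (I : A → n) :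
    cW (tn b f) I = ((fM b f).submatrix I id).det :=
  RingHom.map_det Complex.ofRealHom (Matrix.of fun p q => ⟪b (I p), f q⟫)

theorem cM_frame (b : OrthonormalBasis n ℝ H) {P : H →L[ℝ] H} {f : A → H}
    (h : ∀ v, P v = ∑ p, ⟪f p, v⟫ • f p) : cM b P = fM b f * (fM b f)ᵀ := by
  refine Matrix.ext fun i j => ?_
  rw [Matrix.mul_apply, cM_apply, h, inner_sum]
  simp only [transpose_apply, fM, of_apply, inner_smul_right]
  push_cast
  refine Finset.sum_congr rfl fun p _ => ?_
  rw [real_inner_comm (f p) (b j), mul_comm]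

variable [FiniteDimensional ℝ H]

/-- projection to the orthogonal complement of `u` -/
def sphP (u : H) : H →L[ℝ] H := 1 - (innerSL ℝ u).smulRight u

theorem sphP_apply (u v : H) : sphP u v = v - ⟪u, v⟫ • u := rfl

/-- orientation tensor of `u^⊥` -/
def sphW (e : Unit ⊕ A ≃ n) (b : OrthonormalBasis n ℝ H) (u : H) : TW A n :=
  star e (tn b (fun _ : Unit => u))

theorem tn_unit (b : OrthonormalBasis n ℝ H) (u : H) :
    tn b (fun _ : Unit => u) = fun I => ⟪b (I ()), u⟫ := by
  funext I; simp [tn]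

theorem contDiff_sphP {k : WithTop ℕ∞} : ContDiff ℝ k (sphP : H → H →L[ℝ] H) :=
  contDiff_const.sub (ContDiff.smulRight (innerSL ℝ (E := H)).contDiff contDiff_id)

theorem contDiff_sphW (e : Unit ⊕ A ≃ n) (b : OrthonormalBasis n ℝ H) {k : WithTop ℕ∞} :
    ContDiff ℝ k (sphW e b : H → TW A n) := by
  refine (contDiff_star e).comp ?_
  have : (fun u : H => tn b (fun _ : Unit => u)) = fun u I => ⟪b (I ()), u⟫ :=
    funext fun u => tn_unit b u
  rw [this]
  exact contDiff_pi.2 fun I => contDiff_const.inner ℝ contDiff_id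

theorem frR_unit (b : OrthonormalBasis n ℝ H) {u : H} (hu : ‖u‖ = 1) :
    FrR b ((innerSL ℝ u).smulRight u) (tn b (fun _ : Unit => u)) := by
  refine ⟨fun _ => u, ⟨fun _ => hu, fun p q hpq => absurd (Subsingleton.elim p q) hpq⟩,
    fun v => ?_, rfl⟩
  simp

/-- the family `u ↦ u^⊥` on the unit sphere -/
theorem oFR_sph [Nonempty A] (e : Unit ⊕ A ≃ n) (b : OrthonormalBasis n ℝ H) :
    OFR b (Metric.sphere (0 : H) 1) sphP (sphW e b) :=
  ⟨fun x _ => contDiff_sphP.contDiffAt, fun x _ => (contDiff_sphW e b).contDiffAt,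
    fun x hx => (frR_unit b (mem_sphere_zero_iff_norm.1 hx)).compl e⟩

theorem mem_Tan_sphere {u v : H} (hu : ‖u‖ = 1) (h : ⟪u, v⟫ = 0) :
    v ∈ Tan (Metric.sphere (0 : H) 1) u := by
  by_cases hv : v = 0
  · rw [hv]; exact Submodule.zero_mem _
  set w : H := ‖v‖⁻¹ • v with hw
  have hvn : ‖v‖ ≠ 0 := norm_ne_zero_iff.2 hv
  have hwn : ‖w‖ = 1 := by rw [hw, norm_smul, norm_inv, norm_norm, inv_mul_cancel₀ hvn]
  have huw : ⟪u, w⟫ = 0 := by rw [hw, inner_smul_right, h, mul_zero]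
  have hmem : w ∈ Tan (Metric.sphere (0 : H) 1) u := by
    refine Submodule.subset_span ⟨fun t => Real.cos t • u + Real.sin t • w, by simp, ?_, ?_⟩
    · have h1 := ((Real.hasDerivAt_cos 0).smul_const u).add ((Real.hasDerivAt_sin 0).smul_const w)
      have h2 : HasDerivAt (fun t => Real.cos t • u + Real.sin t • w)
        (-Real.sin 0 • u + Real.cos 0 • w) 0 := h1
      simpa using h2
    · refine Filter.Eventually.of_forall fun t => ?_
      rw [mem_sphere_zero_iff_norm]
      have e : ‖Real.cos t • u + Real.sin t • w‖ ^ 2 = 1 := by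
        rw [norm_add_sq_real, norm_smul, norm_smul, hu, hwn, inner_smul_left, inner_smul_right, huw]
        simp [Real.cos_sq_add_sin_sq]
      nlinarith [norm_nonneg (Real.cos t • u + Real.sin t • w),
        sq_nonneg (‖Real.cos t • u + Real.sin t • w‖ - 1)]
  have : v = ‖v‖ • w := by rw [hw, smul_smul, mul_inv_cancel₀ hvn, one_smul]
  rw [this]; exact Submodule.smul_mem _ _ hmem

/-- the linear form `⟪f, ·⟫` -/
def ip (f : H) : Module.Dual ℝ H := ((innerSL ℝ f : H →L[ℝ] ℝ) : Module.Dual ℝ H)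

theorem ip_apply (f v : H) : ip f v = ⟪f, v⟫ := rfl

theorem dlY {X : Set H} {x : H} (b : OrthonormalBasis n ℝ H) (i : n) :
    dl X (fun y => fM b (fun _ : Unit => y)) x i ()
      = Cx.ofR (io (ip (b i) ∘ₗ (Tan X x).subtype)) := by
  have h1 : DD (fun y => fM b (fun _ : Unit => y)) x i () = Cx.ofR (io (ip (b i))) := by
    rw [DD_apply]
    have hd : DifferentiableAt ℝ (fun y : H => ⟪b i, y⟫) x :=
      (innerSL ℝ (b i)).differentiableAt
    refine Cx.ext ?_ ?_
    · change d (fun y => algebraMap ℝ (Ext H) (((⟪b i, y⟫ : ℝ) : ℂ).re)) x = io (ip (b i))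
      simp only [Complex.ofReal_re]
      rw [d_fun hd]
      congr 1
      have : fderiv ℝ (fun y : H => ⟪b i, y⟫) x = innerSL ℝ (b i) :=
        (innerSL ℝ (b i)).hasFDerivAt.fderiv
      rw [this]; rfl
    · change d (fun y => algebraMap ℝ (Ext H) (((⟪b i, y⟫ : ℝ) : ℂ).im)) x = 0
      simp only [Complex.ofReal_im, map_zero]
      exact d_const _ _
  have h2 : dl X (fun y => fM b (fun _ : Unit => y)) x i ()
      = rs X x (DD (fun y => fM b (fun _ : Unit => y)) x i ()) := rfl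
  rw [h2, h1]
  refine Cx.ext ?_ ?_
  · change pb (Tan X x).subtype (io (ip (b i))) = _
    rw [pb_io]; rfl
  · exact map_zero (pb (Tan X x).subtype)

theorem sum_ip (b : OrthonormalBasis n ℝ H) (f : H) : ∑ i, ⟪b i, f⟫ • ip (b i) = ip f := by
  refine LinearMap.ext fun v => ?_
  rw [LinearMap.sum_apply]
  simp only [LinearMap.smul_apply, ip_apply, smul_eq_mul]
  rw [← b.sum_inner_mul_inner f v]
  exact Finset.sum_congr rfl fun i _ => by rw [real_inner_comm f]

theorem ofR_smul_alg {T : Type*} [AddCommGroup T] [Module ℝ T] (r : ℝ) (c : Ext T) :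
    algebraMap ℂ (CF T) (r : ℂ) * Cx.ofR c = Cx.ofR (r • c) := by
  rw [Cx.algebraMap_ofReal, ← map_mul, Algebra.smul_def]

theorem FdlY {X : Set H} {x : H} (b : OrthonormalBasis n ℝ H) (f : A → H) (p : A) :
    (hat (Tan X x) (fM b f)ᵀ * dl X (fun y => fM b (fun _ : Unit => y)) x) p ()
      = Cx.ofR (io (ip (f p) ∘ₗ (Tan X x).subtype)) := by
  rw [Matrix.mul_apply]
  have h1 : ∀ i, hat (Tan X x) (fM b f)ᵀ p i * dl X (fun y => fM b (fun _ : Unit => y)) x i ()
      = Cx.ofR (⟪b i, f p⟫ • io (ip (b i) ∘ₗ (Tan X x).subtype)) := fun i => by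
    rw [dlY, ← ofR_smul_alg]; rfl
  simp only [h1, ← map_sum, ← map_smul]
  congr 2
  rw [← sum_ip b (f p)]
  refine LinearMap.ext fun v => ?_
  simp

theorem dlYF {X : Set H} {x : H} (b : OrthonormalBasis n ℝ H) (f : A → H) (p : A) :
    ((dl X (fun y => fM b (fun _ : Unit => y)) x)ᵀ * hat (Tan X x) (fM b f)) () p
      = Cx.ofR (io (ip (f p) ∘ₗ (Tan X x).subtype)) := by
  rw [← FdlY b f p, Matrix.mul_apply, Matrix.mul_apply]
  exact Finset.sum_congr rfl fun i _ => (alg_comm _ _).symm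

theorem cM_sphP (b : OrthonormalBasis n ℝ H) (y : H) :
    cM b (sphP y) = 1 - fM b (fun _ : Unit => y) * (fM b (fun _ : Unit => y))ᵀ := by
  rw [← cM_frame b (P := (innerSL ℝ y).smulRight y) (f := fun _ : Unit => y) (fun v => by simp)]
  refine Matrix.ext fun i j => ?_
  rw [Matrix.sub_apply, cM_apply, cM_apply, Matrix.one_apply, sphP_apply, inner_sub_right,
    (orthonormal_iff_ite.1 b.orthonormal) i j]
  have : ((innerSL ℝ y).smulRight y) (b j) = ⟪y, b j⟫ • y := rfl
  rw [this]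
  push_cast
  split_ifs <;> simp

theorem dl_sub {E : Type*} [NormedAddCommGroup E] [NormedSpace ℝ E] [FiniteDimensional ℝ E]
    {X : Set E} {x : E} {m : Type*} [Fintype m] [DecidableEq m] {M N : E → Matrix n m ℂ}
    (hM : SM 1 M x) (hN : SM 1 N x) :
    dl X (fun y => M y - N y) x = dl X M x - dl X N x := by
  have h := dl_add (X := X) (hM.sub hN) hN
  have e : (fun y => M y - N y + N y) = M := funext fun y => sub_add_cancel _ _
  rw [e] at h
  rw [h, add_sub_cancel_right]

/-- **the Euler form of the round sphere** -/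
theorem er_sphere [Nonempty ι] {r : ℕ} (e0 : Fin r ≃ ι) (e : Unit ⊕ (ι × Fin 2) ≃ n)
    (b : OrthonormalBasis n ℝ H) {u : H} (hu : ‖u‖ = 1) {f : ι × Fin 2 → H}
    (hf : Orthonormal ℝ (Sum.elim (fun _ : Unit => u) f))
    (hd : (oM e b (Sum.elim (fun _ : Unit => u) f)).det = 1) :
    pb (Tan (Metric.sphere (0 : H) 1) u).subtype (er b sphP (sphW e b) u)
      = ((r * 2).factorial : ℝ) • pb (Tan (Metric.sphere (0 : H) 1) u).subtype
        (ExteriorAlgebra.ιMulti ℝ (r * 2) fun k => ip (f (en e0 k))) := by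
  set X : Set H := Metric.sphere (0 : H) 1 with hX
  have hx : u ∈ X := mem_sphere_zero_iff_norm.2 hu
  have h := oFR_sph e b
  have hfo : Orthonormal ℝ f := hf.comp (Sum.inr : ι × Fin 2 → _) Sum.inr_injective
  have huf : ∀ p, ⟪u, f p⟫ = 0 := fun p => hf.2 (show (Sum.inl () : Unit ⊕ ι × Fin 2) ≠ Sum.inr p by simp)
  have hW : sphW e b u = tn b f := by
    have := star_tn e b hf hd
    exact this
  have h1 : rs X u (ef (fun y => cM b (sphP y)) (fun y => cW (sphW e b y)) u)
      = (PF.pfS ((hv (Tan X u) (fM b f))ᵀ * wv (cM b (sphP u)) (dl X (fun y => cM b (sphP y)) u)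
        (invM_dl _ u) * hv (Tan X u) (fM b f)) : EvC (Tan X u)) := by
    rw [rs_ef, eu_frame (f := fM b f)]
    intro I
    rw [hW, cW_tn]
  set V := Tan X u with hV
  set θ : ι × Fin 2 → Module.Dual ℝ V := fun p => ip (f p) ∘ₗ V.subtype with hθ
  set F := fM b f with hF
  set Y : H → Matrix n Unit ℂ := fun y => fM b (fun _ : Unit => y) with hY
  have sY : ∀ {k : WithTop ℕ∞}, SM k Y u := fun {k} i j =>
    Complex.ofRealCLM.contDiff.contDiffAt.comp u (contDiffAt_const.inner ℝ contDiffAt_id)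
  have hδ : dl X (fun y => cM b (sphP y)) u
      = - (dl X Y u * hat V (Y u)ᵀ + hat V (Y u) * (dl X Y u)ᵀ) := by
    have e1 : (fun y => cM b (sphP y)) = fun y => (1 : Matrix n n ℂ) - Y y * (Y y)ᵀ :=
      funext fun y => cM_sphP b y
    rw [e1, dl_sub (SM.const _) (sY.mul sY.transpose), dl_const, zero_sub, dl_mul sY sY.transpose]
    rfl
  have hFY : Fᵀ * Y u = 0 := by
    rw [hF, hY]
    simp only [fM_tr_mul]
    refine Matrix.ext fun p q => ?_
    rw [of_apply, real_inner_comm, huf]; simp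
  have hYF : (Y u)ᵀ * F = 0 := by
    have := congrArg Matrix.transpose hFY
    rwa [transpose_mul, transpose_transpose, transpose_zero] at this
  have hYY : (Y u)ᵀ * Y u = 1 := by
    rw [hY]
    simp only [fM_tr_mul]
    refine Matrix.ext fun p q => ?_
    rw [of_apply, real_inner_self_eq_norm_sq, hu, Subsingleton.elim q p, Matrix.one_apply_eq]
    simp
  have hPF : cM b (sphP u) * F = F := by
    rw [cM_sphP, Matrix.sub_mul, Matrix.one_mul, Matrix.mul_assoc, hYF, Matrix.mul_zero, sub_zero]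
  have hFP : Fᵀ * cM b (sphP u) = Fᵀ := by
    rw [cM_sphP, Matrix.mul_sub, Matrix.mul_one, ← Matrix.mul_assoc, hFY, Matrix.zero_mul, sub_zero]
  have hleft : hat V Fᵀ * dl X (fun y => cM b (sphP y)) u
      = - (hat V Fᵀ * dl X Y u * hat V (Y u)ᵀ) := by
    rw [hδ, Matrix.mul_neg, Matrix.mul_add, ← Matrix.mul_assoc, ← Matrix.mul_assoc, ← hat_mul, hFY,
      hat_zero, Matrix.zero_mul, add_zero]
  have hright : dl X (fun y => cM b (sphP y)) u * hat V F
      = - (hat V (Y u) * ((dl X Y u)ᵀ * hat V F)) := by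
    rw [hδ, Matrix.neg_mul, Matrix.add_mul, Matrix.mul_assoc, ← hat_mul, hYF, hat_zero,
      Matrix.mul_zero, zero_add, Matrix.mul_assoc]
  have hM : ∀ p q, ((((hv V F)ᵀ * wv (cM b (sphP u)) (dl X (fun y => cM b (sphP y)) u)
        (invM_dl _ u) * hv V F) p q : EvC V) : CF V) = Cx.ofR (io (θ p) * io (θ q)) := by
    intro p q
    have e1 : vl ((hv V F)ᵀ * wv (cM b (sphP u)) (dl X (fun y => cM b (sphP y)) u)
        (invM_dl _ u) * hv V F) = (hat V Fᵀ * dl X Y u) * ((dl X Y u)ᵀ * hat V F) := by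
      have e2 : vl ((hv V F)ᵀ) = hat V Fᵀ := rfl
      rw [vl_mul, vl_mul, vl_wv, e2, vl_hv]
      calc hat V Fᵀ * (hat V (cM b (sphP u)) * (dl X (fun y => cM b (sphP y)) u
            * dl X (fun y => cM b (sphP y)) u) * hat V (cM b (sphP u))) * hat V F
          = (hat V Fᵀ * hat V (cM b (sphP u))) * dl X (fun y => cM b (sphP y)) u
            * (dl X (fun y => cM b (sphP y)) u * (hat V (cM b (sphP u)) * hat V F)) := by
            simp only [Matrix.mul_assoc]
        _ = hat V Fᵀ * dl X (fun y => cM b (sphP y)) u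
            * (dl X (fun y => cM b (sphP y)) u * hat V F) := by
            rw [← hat_mul, ← hat_mul, hPF, hFP]
        _ = hat V Fᵀ * dl X Y u * (hat V (Y u)ᵀ * hat V (Y u)) * ((dl X Y u)ᵀ * hat V F) := by
            rw [hleft, hright, Matrix.neg_mul, Matrix.mul_neg, neg_neg]
            simp only [Matrix.mul_assoc]
        _ = _ := by rw [← hat_mul, hYY, hat_one, Matrix.mul_one]
    have e3 : ((((hv V F)ᵀ * wv (cM b (sphP u)) (dl X (fun y => cM b (sphP y)) u)
        (invM_dl _ u) * hv V F) p q : EvC V) : CF V)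
        = vl ((hv V F)ᵀ * wv (cM b (sphP u)) (dl X (fun y => cM b (sphP y)) u)
        (invM_dl _ u) * hv V F) p q := rfl
    rw [e3, e1, Matrix.mul_apply, Fintype.sum_unique, map_mul]
    exact congrArg₂ (· * ·) (FdlY b f p) (dlYF b f q)
  have h2 := pfS_theta e0 θ hM
  have h3 : rs X u (Cx.ofR (er b sphP (sphW e b) u))
      = Cx.ofR (((r * 2).factorial : ℝ) • ExteriorAlgebra.ιMulti ℝ (r * 2) fun k => θ (en e0 k)) := by
    rw [← h.ofR_er hx, h1, h2]
  have h4 := congrArg Cx.re h3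
  rw [pb_iMulti]
  exact h4

/-- **(v) evaluation of the Euler form of the round sphere on tangent vectors** -/
theorem er_sphere_eval [Nonempty ι] {r : ℕ} (e0 : Fin r ≃ ι) (e : Unit ⊕ (ι × Fin 2) ≃ n)
    (b : OrthonormalBasis n ℝ H) {u : H} (hu : ‖u‖ = 1) {v : ι × Fin 2 → H}
    (hv : ∀ p, ⟪u, v p⟫ = 0) :
    evA H (r * 2) (er b sphP (sphW e b) u) (fun k => v (en e0 k))
      = ((r * 2).factorial : ℝ) * (oM e b (Sum.elim (fun _ : Unit => u) v)).det := by
  obtain ⟨f, hf, hd⟩ := exists_compl e b (f := fun _ : Unit => u)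
    ⟨fun _ => hu, fun p q hpq => absurd (Subsingleton.elim p q) hpq⟩
  have key := er_sphere e0 e b hu hf hd
  set V := Tan (Metric.sphere (0 : H) 1) u with hV
  have e1 := evA_pb (r * 2) V.subtype (er b sphP (sphW e b) u)
    (fun k => (⟨v (en e0 k), mem_Tan_sphere hu (hv _)⟩ : V))
  have e2 : (fun k : Fin (r * 2) => V.subtype (⟨v (en e0 k), mem_Tan_sphere hu (hv _)⟩ : V))
      = fun k => v (en e0 k) := rfl
  rw [e2] at e1
  rw [← e1, key, map_smul, AlternatingMap.smul_apply, smul_eq_mul, evA_pb, evA_iMulti]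
  congr 1
  have e3 : (Matrix.of fun i j : Fin (r * 2) => ip (f (en e0 j))
      (V.subtype (⟨v (en e0 i), mem_Tan_sphere hu (hv _)⟩ : V)))
      = ((Matrix.of fun p q => ⟪f p, v q⟫).submatrix (en e0) (en e0))ᵀ := rfl
  rw [e3, det_transpose, det_submatrix_equiv_self]
  have e4 : (oM e b (Sum.elim (fun _ : Unit => u) f))ᵀ * oM e b (Sum.elim (fun _ : Unit => u) v)
      = Matrix.fromBlocks 1 0 0 (Matrix.of fun p q => ⟪f p, v q⟫) := by
    have huf : ∀ p, ⟪u, f p⟫ = 0 := fun p =>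
      hf.2 (show (Sum.inl () : Unit ⊕ ι × Fin 2) ≠ Sum.inr p by simp)
    refine Matrix.ext fun i j => ?_
    rw [Matrix.mul_apply]
    simp only [transpose_apply, oM, of_apply]
    rw [e.sum_comp (fun k => ⟪b k, Sum.elim (fun _ : Unit => u) f i⟫
      * ⟪b k, Sum.elim (fun _ : Unit => u) v j⟫)]
    have e5 : ∀ x y : H, ∑ k, ⟪b k, x⟫ * ⟪b k, y⟫ = ⟪x, y⟫ := fun x y => by
      rw [← b.sum_inner_mul_inner x y]
      exact Finset.sum_congr rfl fun k _ => by rw [real_inner_comm x]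
    rw [e5]
    rcases i with i | i <;> rcases j with j | j
    · simp [hu, Subsingleton.elim i j]
    · simp [hv]
    · simp [real_inner_comm, huf]
    · simp
  have e6 := congrArg Matrix.det e4
  rw [det_mul, det_transpose, hd, one_mul, det_fromBlocks_zero₁₂, det_one, one_mul] at e6
  exact e6.symm

end frame

end Crest.Agent.R208.CW
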