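import Crest.Agent.R208.PF1

/-!
# Pfaffian algebra, part 2: block matrices (PF4), off-diagonal matrices, realification (PF3).
-/

namespace Crest.Agent.R208.PF

open Matrix Finset

set_option linter.unusedSectionVars false

variable {ι : Type*} [Fintype ι] [DecidableEq ι] {A : Type*} [CommRing A]
variable {ι' : Type*} [Fintype ι'] [DecidableEq ι']

/-- block diagonal matrix on `(ι ⊕ ι') × Fin 2`. -/
def blockD (M : Matrix (ι × Fin 2) (ι × Fin 2) A) (M' : Matrix (ι' × Fin 2) (ι' × Fin 2) A) :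
    Matrix ((ι ⊕ ι') × Fin 2) ((ι ⊕ ι') × Fin 2) A :=
  (Matrix.fromBlocks M 0 0 M').submatrix (Equiv.sumProdDistrib ι ι' (Fin 2))
    (Equiv.sumProdDistrib ι ι' (Fin 2))

@[simp] theorem blockD_ll (M : Matrix (ι × Fin 2) (ι × Fin 2) A)
    (M' : Matrix (ι' × Fin 2) (ι' × Fin 2) A) (i j : ι) (a b : Fin 2) :
    blockD M M' (Sum.inl i, a) (Sum.inl j, b) = M (i, a) (j, b) := rfl

@[simp] theorem blockD_rr (M : Matrix (ι × Fin 2) (ι × Fin 2) A)
    (M' : Matrix (ι' × Fin 2) (ι' × Fin 2) A) (i j : ι') (a b : Fin 2) :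
    blockD M M' (Sum.inr i, a) (Sum.inr j, b) = M' (i, a) (j, b) := rfl

@[simp] theorem blockD_lr (M : Matrix (ι × Fin 2) (ι × Fin 2) A)
    (M' : Matrix (ι' × Fin 2) (ι' × Fin 2) A) (i : ι) (j : ι') (a b : Fin 2) :
    blockD M M' (Sum.inl i, a) (Sum.inr j, b) = 0 := rfl

@[simp] theorem blockD_rl (M : Matrix (ι × Fin 2) (ι × Fin 2) A)
    (M' : Matrix (ι' × Fin 2) (ι' × Fin 2) A) (i : ι') (j : ι) (a b : Fin 2) :
    blockD M M' (Sum.inr i, a) (Sum.inl j, b) = 0 := rfl

theorem blockD_apply_left (M : Matrix (ι × Fin 2) (ι × Fin 2) A)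
    (p q : (ι ⊕ ι') × Fin 2) (h : blockD M (0 : Matrix (ι' × Fin 2) (ι' × Fin 2) A) p q ≠ 0) :
    p.1.isLeft ∧ q.1.isLeft := by
  obtain ⟨i | i, a⟩ := p <;> obtain ⟨j | j, b⟩ := q <;> simp_all

theorem blockD_apply_right (M' : Matrix (ι' × Fin 2) (ι' × Fin 2) A)
    (p q : (ι ⊕ ι') × Fin 2) (h : blockD (0 : Matrix (ι × Fin 2) (ι × Fin 2) A) M' p q ≠ 0) :
    p.1.isRight ∧ q.1.isRight := by
  obtain ⟨i | i, a⟩ := p <;> obtain ⟨j | j, b⟩ := q <;> simp_all

theorem blockD_add (M : Matrix (ι × Fin 2) (ι × Fin 2) A)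
    (M' : Matrix (ι' × Fin 2) (ι' × Fin 2) A) :
    blockD M M' = blockD M 0 + blockD 0 M' := by
  ext p q
  obtain ⟨i | i, a⟩ := p <;> obtain ⟨j | j, b⟩ := q <;> simp

theorem det_blockD (M : Matrix (ι × Fin 2) (ι × Fin 2) A)
    (M' : Matrix (ι' × Fin 2) (ι' × Fin 2) A) : (blockD M M').det = M.det * M'.det := by
  rw [blockD, det_submatrix_equiv_self, det_fromBlocks_zero₂₁]

/-- the selection form. -/
def selS (M : Matrix (ι × Fin 2) (ι × Fin 2) A) (M' : Matrix (ι' × Fin 2) (ι' × Fin 2) A)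
    (S : Finset (ι ⊕ ι')) : A :=
  mixS fun j => if j ∈ S then blockD M (0 : Matrix (ι' × Fin 2) (ι' × Fin 2) A)
    else blockD (0 : Matrix (ι × Fin 2) (ι × Fin 2) A) M'

theorem pfS_blockD_sum (M : Matrix (ι × Fin 2) (ι × Fin 2) A)
    (M' : Matrix (ι' × Fin 2) (ι' × Fin 2) A) :
    pfS (blockD M M') = ∑ S : Finset (ι ⊕ ι'), selS M M' S := by
  unfold pfS selS mixS
  rw [Finset.sum_comm]
  refine Finset.sum_congr rfl fun σ _ => ?_
  rw [← Finset.mul_sum]
  congr 1
  rw [blockD_add]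
  simp only [Matrix.add_apply]
  rw [Finset.prod_add, Finset.powerset_univ]
  refine Finset.sum_congr rfl fun S _ => ?_
  have h : ∀ j : ι ⊕ ι', (if j ∈ S then blockD M (0 : Matrix (ι' × Fin 2) (ι' × Fin 2) A)
      else blockD (0 : Matrix (ι × Fin 2) (ι × Fin 2) A) M') (σ (j, 0)) (σ (j, 1))
      = if j ∈ S then blockD M (0 : Matrix (ι' × Fin 2) (ι' × Fin 2) A) (σ (j, 0)) (σ (j, 1))
      else blockD (0 : Matrix (ι × Fin 2) (ι × Fin 2) A) M' (σ (j, 0)) (σ (j, 1)) := by
    intro j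
    split_ifs <;> rfl
  rw [Finset.prod_congr rfl fun j _ => h j, Finset.prod_ite]
  congr 1
  · refine Finset.prod_congr (by ext; simp) fun _ _ => rfl
  · refine Finset.prod_congr (by ext; simp) fun _ _ => rfl

/-- only subsets with `card ι` elements contribute. -/
theorem selS_eq_zero (M : Matrix (ι × Fin 2) (ι × Fin 2) A)
    (M' : Matrix (ι' × Fin 2) (ι' × Fin 2) A) (S : Finset (ι ⊕ ι'))
    (hS : S.card ≠ Fintype.card ι) : selS M M' S = 0 := by
  classical
  unfold selS mixS
  refine Finset.sum_eq_zero fun σ _ => ?_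
  by_contra hne
  have hj : ∀ j : ι ⊕ ι', (if j ∈ S then blockD M (0 : Matrix (ι' × Fin 2) (ι' × Fin 2) A)
      else blockD (0 : Matrix (ι × Fin 2) (ι × Fin 2) A) M') (σ (j, 0)) (σ (j, 1)) ≠ 0 := by
    intro j h0
    exact hne (by rw [Finset.prod_eq_zero (Finset.mem_univ j) h0, mul_zero])
  have hmem : ∀ p : (ι ⊕ ι') × Fin 2, p.1 ∈ S ↔ (σ p).1.isLeft := by
    rintro ⟨j, b⟩
    constructor
    · intro h
      have := hj j
      rw [if_pos h] at this
      have := blockD_apply_left M _ _ this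
      fin_cases b
      · exact this.1
      · exact this.2
    · intro h
      by_contra hjS
      have := hj j
      rw [if_neg hjS] at this
      have := blockD_apply_right M' _ _ this
      fin_cases b
      · have h1 := this.1
        rcases hh : (σ (j, 0)).1 with x | x <;> simp_all
      · have h1 := this.2
        rcases hh : (σ (j, 1)).1 with x | x <;> simp_all
  have e1 : (S ×ˢ (Finset.univ : Finset (Fin 2))).card
      = ((Finset.univ : Finset ((ι ⊕ ι') × Fin 2)).filter fun p => p.1.isLeft).card := by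
    refine Finset.card_bij (fun p _ => σ p) ?_ (fun _ _ _ _ h => σ.injective h) ?_
    · intro p hp
      rw [Finset.mem_product] at hp
      simp [(hmem p).1 hp.1]
    · intro q hq
      refine ⟨σ.symm q, ?_, by simp⟩
      rw [Finset.mem_product]
      refine ⟨(hmem _).2 ?_, Finset.mem_univ _⟩
      simpa using (Finset.mem_filter.1 hq).2
  have e2 : ((Finset.univ : Finset ((ι ⊕ ι') × Fin 2)).filter fun p => p.1.isLeft).card
      = Fintype.card ι * 2 := by
    have hc : Fintype.card ι * 2 = (Finset.univ : Finset (ι × Fin 2)).card := by simp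
    rw [hc]
    symm
    refine Finset.card_bij (fun p _ => (Sum.inl p.1, p.2)) (fun p _ => by
      rw [Finset.mem_filter]; exact ⟨Finset.mem_univ _, rfl⟩) ?_ ?_
    · rintro ⟨a, b⟩ _ ⟨a', b'⟩ _ h
      have h1 := congrArg Prod.fst h
      have h2 := congrArg Prod.snd h
      exact Prod.ext (Sum.inl_injective h1) h2
    · rintro ⟨a | a, b⟩ h
      · exact ⟨(a, b), by simp, rfl⟩
      · rw [Finset.mem_filter] at h
        exact absurd h.2 (by simp)
  rw [Finset.card_product, Finset.card_univ, Fintype.card_fin, e2] at e1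
  omega

/-- the contribution of `S = range inl`. -/
theorem selS_inl (M : Matrix (ι × Fin 2) (ι × Fin 2) A)
    (M' : Matrix (ι' × Fin 2) (ι' × Fin 2) A) :
    selS M M' (Finset.univ.filter fun j => j.isLeft) = pfS M * pfS M' := by
  classical
  set e := Equiv.sumProdDistrib ι ι' (Fin 2) with he
  unfold selS mixS
  rw [← Equiv.sum_comp e.symm.permCongr]
  have hterm : ∀ σ : Equiv.Perm (ι × Fin 2 ⊕ ι' × Fin 2),
      ((Equiv.Perm.sign (e.symm.permCongr σ) : ℤ) : A) * ∏ j : ι ⊕ ι',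
        (if j ∈ (Finset.univ.filter fun j : ι ⊕ ι' => j.isLeft) then
          blockD M (0 : Matrix (ι' × Fin 2) (ι' × Fin 2) A)
        else blockD (0 : Matrix (ι × Fin 2) (ι × Fin 2) A) M')
          (e.symm.permCongr σ (j, 0)) (e.symm.permCongr σ (j, 1))
      = ((Equiv.Perm.sign σ : ℤ) : A) * ((∏ j : ι,
          (fromBlocks M 0 0 0 : Matrix (ι × Fin 2 ⊕ ι' × Fin 2) (ι × Fin 2 ⊕ ι' × Fin 2) A)
            (σ (Sum.inl (j, 0))) (σ (Sum.inl (j, 1)))) * ∏ j : ι',
          (fromBlocks 0 0 0 M' : Matrix (ι × Fin 2 ⊕ ι' × Fin 2) (ι × Fin 2 ⊕ ι' × Fin 2) A)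
            (σ (Sum.inr (j, 0))) (σ (Sum.inr (j, 1)))) := by
    intro σ
    rw [Equiv.Perm.sign_permCongr, Fintype.prod_sum_type]
    congr 2
    · refine Finset.prod_congr rfl fun j _ => ?_
      simp only [Finset.mem_filter, Finset.mem_univ, true_and, Sum.isLeft_inl, if_true]
      simp only [blockD, submatrix_apply, Equiv.permCongr_apply, Equiv.symm_symm, ← he,
        Equiv.apply_symm_apply]
      rfl
    · refine Finset.prod_congr rfl fun j _ => ?_
      simp only [Finset.mem_filter, Finset.mem_univ, true_and, Sum.isLeft_inr,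
        Bool.false_eq_true, if_false]
      simp only [blockD, submatrix_apply, Equiv.permCongr_apply, Equiv.symm_symm, ← he,
        Equiv.apply_symm_apply]
      rfl
  rw [Finset.sum_congr rfl fun σ _ => hterm σ]
  unfold pfS
  rw [Finset.sum_mul_sum, ← Finset.sum_product', Finset.univ_product_univ]
  symm
  refine Finset.sum_of_injOn (fun x : Equiv.Perm (ι × Fin 2) × Equiv.Perm (ι' × Fin 2) =>
    Equiv.Perm.sumCongr x.1 x.2) ?_ (fun _ _ => Finset.mem_coe.2 (Finset.mem_univ _)) ?_ ?_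
  · rintro ⟨a, b⟩ _ ⟨a', b'⟩ _ h
    have h1 := Equiv.Perm.sumCongrHom_injective (α := ι × Fin 2) (β := ι' × Fin 2)
    exact h1 h
  · intro σ _ hσ
    by_contra hne
    refine hσ ?_
    have h1 : ∀ j, (fromBlocks M 0 0 0 :
        Matrix (ι × Fin 2 ⊕ ι' × Fin 2) (ι × Fin 2 ⊕ ι' × Fin 2) A)
          (σ (Sum.inl (j, 0))) (σ (Sum.inl (j, 1))) ≠ 0 := by
      intro j h0
      exact hne (by rw [Finset.prod_eq_zero (Finset.mem_univ j) h0, zero_mul, mul_zero])
    have h2 : σ ∈ (Equiv.Perm.sumCongrHom (ι × Fin 2) (ι' × Fin 2)).range := by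
      refine Equiv.Perm.mem_sumCongrHom_range_of_perm_mapsTo_inl ?_
      rintro _ ⟨⟨j, b⟩, rfl⟩
      have h3 := h1 j
      fin_cases b
      · rcases hh : σ (Sum.inl (j, 0)) with x | x
        · exact ⟨x, hh.symm⟩
        · exact absurd (by rw [hh]; rcases σ (Sum.inl (j, 1)) with y | y <;> rfl) h3
      · rcases hh : σ (Sum.inl (j, 1)) with x | x
        · exact ⟨x, hh.symm⟩
        · exact absurd (by rw [hh]; rcases σ (Sum.inl (j, 0)) with y | y <;> rfl) h3
    obtain ⟨x, hx⟩ := h2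
    exact ⟨x, by simp, hx⟩
  · rintro ⟨a, b⟩ _
    simp only [Equiv.Perm.sign_sumCongr, Units.val_mul, Int.cast_mul]
    simp only [Equiv.Perm.sumCongr_apply, Sum.map_inl, Sum.map_inr, fromBlocks_apply₁₁,
      fromBlocks_apply₂₂]
    ring

/-- **(PF4)**. -/
theorem pfS_blockD (M : Matrix (ι × Fin 2) (ι × Fin 2) A)
    (M' : Matrix (ι' × Fin 2) (ι' × Fin 2) A) :
    pfS (blockD M M') = ((Fintype.card ι + Fintype.card ι').choose (Fintype.card ι) : ℕ)
      * (pfS M * pfS M') := by
  classical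
  rw [pfS_blockD_sum]
  have hall : ∀ S : Finset (ι ⊕ ι'), S.card = Fintype.card ι → selS M M' S = pfS M * pfS M' := by
    intro S hS
    rw [← selS_inl]
    set S₀ : Finset (ι ⊕ ι') := Finset.univ.filter fun j => j.isLeft with hS₀
    have hc₀ : S₀.card = Fintype.card ι := by
      rw [← Finset.card_univ]
      symm
      refine Finset.card_bij (fun p _ => Sum.inl p) (by simp [hS₀]) ?_ ?_
      · intro a _ b _ h
        exact Sum.inl_injective h
      · rintro (a | a) h
        · exact ⟨a, by simp, rfl⟩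
        · simp [hS₀] at h
    have he : Fintype.card {x // x ∈ S} = Fintype.card {x // x ∈ S₀} := by
      simp [hS, hc₀]
    obtain ⟨e⟩ := Fintype.card_eq.1 he
    obtain ⟨τ, hτ⟩ : ∃ τ : Equiv.Perm (ι ⊕ ι'), ∀ x, x ∈ S ↔ τ x ∈ S₀ := by
      refine ⟨e.extendSubtype, fun x => ?_⟩
      constructor
      · intro hx
        exact Equiv.extendSubtype_mem e x hx
      · intro hx
        by_contra hx'
        exact Equiv.extendSubtype_not_mem e x hx' hx
    unfold selS
    rw [← mixS_perm (fun j => if j ∈ S₀ then blockD M (0 : Matrix (ι' × Fin 2) (ι' × Fin 2) A)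
      else blockD (0 : Matrix (ι × Fin 2) (ι × Fin 2) A) M') τ]
    congr 1
    funext j
    simp only [hτ j]
  rw [← Finset.sum_filter_add_sum_filter_not Finset.univ
    (fun S : Finset (ι ⊕ ι') => S.card = Fintype.card ι)]
  rw [Finset.sum_congr rfl fun S hS => hall S (Finset.mem_filter.1 hS).2,
    Finset.sum_eq_zero (s := Finset.univ.filter _) fun S hS =>
      selS_eq_zero M M' S (Finset.mem_filter.1 hS).2]
  rw [Finset.sum_const, add_zero, nsmul_eq_mul]
  congr 2
  have : (Finset.univ.filter fun S : Finset (ι ⊕ ι') => S.card = Fintype.card ι)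
      = Finset.powersetCard (Fintype.card ι) Finset.univ := by
    ext S
    simp [Finset.mem_powersetCard]
  rw [this, Finset.card_powersetCard, Finset.card_univ, Fintype.card_sum]

/-- **(PF4)**, in the form asked for. -/
theorem pfS_blockD' (M : Matrix (ι × Fin 2) (ι × Fin 2) A)
    (M' : Matrix (ι' × Fin 2) (ι' × Fin 2) A) :
    pfS (blockD M M') * ((Fintype.card ι).factorial * (Fintype.card ι').factorial : ℕ)
      = ((Fintype.card ι + Fintype.card ι').factorial : ℕ) * (pfS M * pfS M') := by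
  rw [pfS_blockD, ← Nat.add_choose_mul_factorial_mul_factorial (Fintype.card ι)
    (Fintype.card ι'), Nat.choose_symm_add]
  push_cast
  ring

end Crest.Agent.R208.PF
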