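import Crest.Agent.R208.CW6b
import Crest.Agent.R208.PF2
import Crest.Agent.R208.TDefs

/-! Row 208, block CW (helper586).  CW8: the Euler class of an orthogonal sum. -/

set_option autoImplicit false
set_option linter.unusedSectionVars false
set_option linter.unusedSimpArgs false
set_option linter.unusedVariables false

open scoped BigOperators ContDiff Topology RealInnerProductSpace
open Module Set Matrix

noncomputable section

namespace Crest.Agent.R208.CW

open Crest.Agent.R208.F Crest.Agent.R208.FI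

universe u

section alg
variable {R : Type*} [CommRing R] {A B n : Type*} [Fintype A] [DecidableEq A] [Fintype B]
  [DecidableEq B] [Fintype n] [DecidableEq n]

theorem sumAB_frame (f : Matrix n A R) (f' : Matrix n B R) (J : A ⊕ B → n) :
    ∑ σ : Equiv.Perm (A ⊕ B), ((Equiv.Perm.sign σ : ℤ) : R) *
      ((f.submatrix (fun a => J (σ (Sum.inl a))) id).det
        * (f'.submatrix (fun b => J (σ (Sum.inr b))) id).det)
    = ((Fintype.card A).factorial * (Fintype.card B).factorial : ℕ)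
        * ((Matrix.fromCols f f').submatrix J id).det := by
  have h1 : ∀ (α : Equiv.Perm A) (β : Equiv.Perm B),
      ∑ σ : Equiv.Perm (A ⊕ B), ((Equiv.Perm.sign σ : ℤ) : R) *
        ((((Equiv.Perm.sign α : ℤ) : R) * ∏ a, f (J (σ (Sum.inl (α a)))) a)
          * (((Equiv.Perm.sign β : ℤ) : R) * ∏ b, f' (J (σ (Sum.inr (β b)))) b))
      = ((Matrix.fromCols f f').submatrix J id).det := by
    intro α β
    rw [det_apply']
    conv_rhs => rw [← Equiv.sum_comp (Equiv.mulRight (Equiv.Perm.sumCongr α β))]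
    refine Finset.sum_congr rfl fun σ _ => ?_
    rw [Equiv.coe_mulRight, Fintype.prod_sum_type, map_mul, Equiv.Perm.sign_sumCongr]
    simp only [submatrix_apply, id_eq, fromCols_apply_inl, fromCols_apply_inr, Equiv.Perm.mul_apply,
      Equiv.Perm.sumCongr_apply, Sum.map_inl, Sum.map_inr, Units.val_mul, Int.cast_mul]
    ring
  have h2 : ∀ σ : Equiv.Perm (A ⊕ B), ((Equiv.Perm.sign σ : ℤ) : R) *
      ((f.submatrix (fun a => J (σ (Sum.inl a))) id).det
        * (f'.submatrix (fun b => J (σ (Sum.inr b))) id).det)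
      = ∑ α : Equiv.Perm A, ∑ β : Equiv.Perm B, ((Equiv.Perm.sign σ : ℤ) : R) *
        ((((Equiv.Perm.sign α : ℤ) : R) * ∏ a, f (J (σ (Sum.inl (α a)))) a)
          * (((Equiv.Perm.sign β : ℤ) : R) * ∏ b, f' (J (σ (Sum.inr (β b)))) b)) := by
    intro σ
    rw [det_apply', det_apply', Finset.sum_mul_sum, Finset.mul_sum]
    refine Finset.sum_congr rfl fun α _ => ?_
    rw [Finset.mul_sum]
    rfl
  simp only [h2]
  rw [Finset.sum_comm]
  have h3 : ∀ α : Equiv.Perm A, ∑ σ : Equiv.Perm (A ⊕ B), ∑ β : Equiv.Perm B,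
      ((Equiv.Perm.sign σ : ℤ) : R) *
        ((((Equiv.Perm.sign α : ℤ) : R) * ∏ a, f (J (σ (Sum.inl (α a)))) a)
          * (((Equiv.Perm.sign β : ℤ) : R) * ∏ b, f' (J (σ (Sum.inr (β b)))) b))
      = (Fintype.card B).factorial * ((Matrix.fromCols f f').submatrix J id).det := by
    intro α
    rw [Finset.sum_comm]
    simp only [h1, Finset.sum_const, Finset.card_univ, Fintype.card_perm, nsmul_eq_mul]
  simp only [h3, Finset.sum_const, Finset.card_univ, Fintype.card_perm, nsmul_eq_mul]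
  push_cast
  ring

end alg

section ten
variable {R : Type*} [Field R] [CharZero R] {ι ι' n m : Type*} [Fintype ι] [DecidableEq ι]
  [Fintype ι'] [DecidableEq ι'] [Fintype n] [DecidableEq n] [Fintype m] [DecidableEq m]

/-- the orientation tensor of a direct sum -/
def sumT (W : (ι × Fin 2 → n) → R) (W' : (ι' × Fin 2 → n) → R) (I : (ι ⊕ ι') × Fin 2 → n) : R :=
  (((Fintype.card (ι × Fin 2)).factorial * (Fintype.card (ι' × Fin 2)).factorial : ℕ) : R)⁻¹
    * ∑ σ : Equiv.Perm (ι × Fin 2 ⊕ ι' × Fin 2), ((Equiv.Perm.sign σ : ℤ) : R) *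
      (W (fun a => I ((Equiv.sumProdDistrib ι ι' (Fin 2)).symm (σ (Sum.inl a))))
        * W' (fun b => I ((Equiv.sumProdDistrib ι ι' (Fin 2)).symm (σ (Sum.inr b)))))

/-- the frame of a direct sum -/
def sumF {R : Type*} (f : Matrix n (ι × Fin 2) R) (f' : Matrix n (ι' × Fin 2) R) :
    Matrix n ((ι ⊕ ι') × Fin 2) R :=
  (Matrix.fromCols f f').submatrix id (Equiv.sumProdDistrib ι ι' (Fin 2))

theorem sumT_frame {f : Matrix n (ι × Fin 2) R} {f' : Matrix n (ι' × Fin 2) R}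
    {W : (ι × Fin 2 → n) → R} {W' : (ι' × Fin 2 → n) → R}
    (h : ∀ I, W I = (f.submatrix I id).det) (h' : ∀ I, W' I = (f'.submatrix I id).det)
    (I : (ι ⊕ ι') × Fin 2 → n) : sumT W W' I = ((sumF f f').submatrix I id).det := by
  have h1 := sumAB_frame f f' (fun s => I ((Equiv.sumProdDistrib ι ι' (Fin 2)).symm s))
  rw [sumT]
  simp only [h, h', h1]
  rw [← mul_assoc, inv_mul_cancel₀, one_mul]
  · have : (sumF f f').submatrix I id
        = ((Matrix.fromCols f f').submatrix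
          (fun s => I ((Equiv.sumProdDistrib ι ι' (Fin 2)).symm s)) id).submatrix
          (Equiv.sumProdDistrib ι ι' (Fin 2)) (Equiv.sumProdDistrib ι ι' (Fin 2)) := by
      refine Matrix.ext fun i j => ?_
      simp only [sumF, submatrix_apply, id_eq, Equiv.symm_apply_apply]
    rw [this, det_submatrix_equiv_self]
  · exact_mod_cast Nat.mul_ne_zero (Nat.factorial_ne_zero _) (Nat.factorial_ne_zero _)

theorem sumF_mul_tr {R : Type*} [CommRing R] (f : Matrix n (ι × Fin 2) R)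
    (f' : Matrix n (ι' × Fin 2) R) (g : Matrix m (ι × Fin 2) R) (g' : Matrix m (ι' × Fin 2) R) :
    sumF f f' * (sumF g g')ᵀ = f * gᵀ + f' * g'ᵀ := by
  have h1 : sumF f f' * (sumF g g')ᵀ
      = (Matrix.fromCols f f') * (Matrix.fromCols g g')ᵀ := by
    rw [sumF, sumF, transpose_submatrix, submatrix_mul_equiv]
    rfl
  rw [h1, transpose_fromCols, fromCols_mul_fromRows]

theorem tr_sumF_mul {R : Type*} [CommRing R] (f : Matrix n (ι × Fin 2) R)
    (f' : Matrix n (ι' × Fin 2) R) (M : Matrix n n R) :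
    (sumF f f')ᵀ * M * sumF f f'
      = (Matrix.fromBlocks (fᵀ * M * f) (fᵀ * M * f') (f'ᵀ * M * f) (f'ᵀ * M * f')).submatrix
        (Equiv.sumProdDistrib ι ι' (Fin 2)) (Equiv.sumProdDistrib ι ι' (Fin 2)) := by
  have h1 : (sumF f f')ᵀ * M * sumF f f'
      = ((Matrix.fromCols f f')ᵀ * M * Matrix.fromCols f f').submatrix
        (Equiv.sumProdDistrib ι ι' (Fin 2)) (Equiv.sumProdDistrib ι ι' (Fin 2)) := by
    refine Matrix.ext fun i j => ?_
    simp only [sumF, Matrix.mul_apply, submatrix_apply, transpose_apply, id_eq]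
  rw [h1, transpose_fromCols, fromRows_mul, fromRows_mul_fromCols]

theorem mul_sumF {R : Type*} [CommRing R] (S : Matrix m n R) (f : Matrix n (ι × Fin 2) R)
    (f' : Matrix n (ι' × Fin 2) R) : S * sumF f f' = sumF (S * f) (S * f') := by
  refine Matrix.ext fun i j => ?_
  obtain ⟨s, c⟩ := j
  rcases s with s | s
  · rw [Matrix.mul_apply]; rfl
  · rw [Matrix.mul_apply]; rfl

end ten

section fr
variable {ι ι' n m n' : Type*} [Fintype ι] [DecidableEq ι]
  [Fintype ι'] [DecidableEq ι'] [Fintype n] [DecidableEq n] [Fintype m] [DecidableEq m]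
  [Fintype n'] [DecidableEq n']

theorem frame_orth {P P' : Matrix n n ℂ} {f : Matrix n (ι × Fin 2) ℂ} {f' : Matrix n (ι' × Fin 2) ℂ}
    (h1 : fᵀ * f = 1) (h2 : f * fᵀ = P) (h1' : f'ᵀ * f' = 1) (h2' : f' * f'ᵀ = P')
    (h0 : P * P' = 0) : fᵀ * f' = 0 := by
  have e1 : fᵀ * P = fᵀ := by rw [← h2, ← Matrix.mul_assoc, h1, Matrix.one_mul]
  have e2 : P' * f' = f' := by rw [← h2', Matrix.mul_assoc, h1', Matrix.mul_one]
  calc fᵀ * f' = fᵀ * P * (P' * f') := by rw [e1, e2]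
    _ = fᵀ * (P * P') * f' := by simp only [Matrix.mul_assoc]
    _ = 0 := by rw [h0, Matrix.mul_zero, Matrix.zero_mul]

theorem Fr.add {P P' : Matrix n n ℂ} {W : (ι × Fin 2 → n) → ℂ} {W' : (ι' × Fin 2 → n) → ℂ}
    (h : Fr P W) (h' : Fr P' W') (h0 : P * P' = 0) : Fr (P + P') (sumT W W') := by
  obtain ⟨f, h1, h2, h3⟩ := h
  obtain ⟨f', h1', h2', h3'⟩ := h'
  have e := frame_orth h1 h2 h1' h2' h0
  have e' : f'ᵀ * f = 0 := by
    have := congrArg Matrix.transpose e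
    rwa [transpose_mul, transpose_transpose, transpose_zero] at this
  refine ⟨sumF f f', ?_, ?_, sumT_frame h3 h3'⟩
  · have := tr_sumF_mul f f' (1 : Matrix n n ℂ)
    rw [Matrix.mul_one] at this
    rw [this]
    simp only [Matrix.mul_one, h1, h1', e, e', fromBlocks_one, submatrix_one_equiv]
  · rw [sumF_mul_tr, h2, h2']

theorem Fr.tr {P : Matrix n n ℂ} {W : (ι × Fin 2 → n) → ℂ} (h : Fr P W) : Pᵀ = P := by
  obtain ⟨f, h1, h2, h3⟩ := h
  rw [← h2, transpose_mul, transpose_transpose]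

theorem push_sumT (S : Matrix m n ℂ) {P P' : Matrix n n ℂ} {W : (ι × Fin 2 → n) → ℂ}
    {W' : (ι' × Fin 2 → n) → ℂ} (h : Fr P W) (h' : Fr P' W') :
    pushW S (sumT W W') = sumT (pushW S W) (pushW S W') := by
  obtain ⟨f, h1, h2, h3⟩ := h
  obtain ⟨f', h1', h2', h3'⟩ := h'
  funext J
  rw [pushW_frame S (sumF f f') (sumT_frame h3 h3'), mul_sumF,
    sumT_frame (pushW_frame S f h3) (pushW_frame S f' h3')]

theorem pushW_congr {S S' : Matrix m n ℂ} {P : Matrix n n ℂ} {W : (ι × Fin 2 → n) → ℂ}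
    (h : Fr P W) (hS : S * P = S' * P) : pushW S W = pushW S' W := by
  obtain ⟨f, h1, h2, h3⟩ := h
  have e : P * f = f := by rw [← h2, Matrix.mul_assoc, h1, Matrix.mul_one]
  funext J
  rw [pushW_frame S f h3, pushW_frame S' f h3, ← e, ← Matrix.mul_assoc, hS, Matrix.mul_assoc]

end fr

section field
variable {E : Type*} [NormedAddCommGroup E] [NormedSpace ℝ E] [FiniteDimensional ℝ E]
  {ι ι' n m n' : Type*} [Fintype ι] [DecidableEq ι]
  [Fintype ι'] [DecidableEq ι'] [Fintype n] [DecidableEq n] [Fintype m] [DecidableEq m]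
  [Fintype n'] [DecidableEq n'] {x : E} {X : Set E}

theorem contDiffAt_sumT {G : Type*} [NormedAddCommGroup G] [NormedSpace ℝ G] {x : G}
    {k : WithTop ℕ∞} {W : G → (ι × Fin 2 → n) → ℂ} {W' : G → (ι' × Fin 2 → n) → ℂ}
    (hW : ∀ I, ContDiffAt ℝ k (fun y => W y I) x) (hW' : ∀ I, ContDiffAt ℝ k (fun y => W' y I) x)
    (I : (ι ⊕ ι') × Fin 2 → n) : ContDiffAt ℝ k (fun y => sumT (W y) (W' y) I) x :=
  contDiffAt_const.mul (ContDiffAt.sum fun σ _ => contDiffAt_const.mul ((hW _).mul (hW' _)))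

theorem OF.add {P P' : E → Matrix n n ℂ} {W : E → (ι × Fin 2 → n) → ℂ}
    {W' : E → (ι' × Fin 2 → n) → ℂ} (h : OF X P W) (h' : OF X P' W')
    (h0 : ∀ x ∈ X, P x * P' x = 0) :
    OF X (fun x => P x + P' x) (fun x => sumT (W x) (W' x)) :=
  ⟨fun x hx => (h.sP x hx).add (h'.sP x hx),
    fun x hx => contDiffAt_sumT (h.sW x hx) (h'.sW x hx),
    fun x hx => (h.fr x hx).add (h'.fr x hx) (h0 x hx)⟩

theorem mac1 {R a b l : Type*} [Ring R] [Fintype a] [Fintype b] [Fintype l] [DecidableEq a]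
    {A : Matrix a b R} {B : Matrix b a R} (h : A * B = 1) (M : Matrix a l R) :
    A * (B * M) = M := by rw [← Matrix.mul_assoc, h, Matrix.one_mul]

theorem mac0 {R a b c l : Type*} [Ring R] [Fintype a] [Fintype b] [Fintype c] [Fintype l]
    {A : Matrix a b R} {B : Matrix b c R} (h : A * B = 0) (M : Matrix c l R) :
    A * (B * M) = 0 := by rw [← Matrix.mul_assoc, h, Matrix.zero_mul]

section pw
variable {V : Type*} [AddCommGroup V] [Module ℝ V]

theorem hv_tr_mul (S : Matrix m n ℂ) (S' : Matrix m n' ℂ) (h : Sᵀ * S' = 0) :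
    (hv V S)ᵀ * hv V S' = 0 := by
  refine vl_inj ?_
  have e3 : vl ((hv V S)ᵀ) = hat V Sᵀ := rfl
  rw [vl_mul, e3, vl_hv, ← hat_mul, h, hat_zero]
  exact (Matrix.map_zero _ (map_zero _)).symm

theorem hv_tr_mul_one (S : Matrix m n ℂ) (h : Sᵀ * S = 1) : (hv V S)ᵀ * hv V S = 1 := by
  refine vl_inj ?_
  have e3 : vl ((hv V S)ᵀ) = hat V Sᵀ := rfl
  rw [vl_mul, e3, vl_hv, ← hat_mul, h, hat_one]
  exact (Matrix.map_one _ (map_zero _) (map_one _)).symm

theorem wv_block {P : Matrix n n ℂ} {P' : Matrix n' n' ℂ} {δ : Matrix n n (CF V)}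
    {δ' : Matrix n' n' (CF V)} {D : Matrix m m (CF V)} (hδ : _) (hδ' : _) (hD : _)
    {S : Matrix m n ℂ} {S' : Matrix m n' ℂ} (hS : Sᵀ * S = 1) (hS' : S'ᵀ * S' = 1)
    (hSS : Sᵀ * S' = 0) (hSS' : S'ᵀ * S = 0)
    (e : D = hat V S * δ * hat V Sᵀ + hat V S' * δ' * hat V S'ᵀ) :
    wv (S * P * Sᵀ + S' * P' * S'ᵀ) D hD
      = hv V S * wv P δ hδ * (hv V S)ᵀ + hv V S' * wv P' δ' hδ' * (hv V S')ᵀ := by
  have a1 : hat V Sᵀ * hat V S = 1 := by rw [← hat_mul, hS, hat_one]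
  have a2 : hat V S'ᵀ * hat V S' = 1 := by rw [← hat_mul, hS', hat_one]
  have a3 : hat V Sᵀ * hat V S' = 0 := by rw [← hat_mul, hSS, hat_zero]
  have a4 : hat V S'ᵀ * hat V S = 0 := by rw [← hat_mul, hSS', hat_zero]
  refine vl_inj ?_
  have e3 : vl ((hv V S)ᵀ) = hat V Sᵀ := rfl
  have e3' : vl ((hv V S')ᵀ) = hat V S'ᵀ := rfl
  have e4 : ∀ M N : Matrix m m (EvC V), vl (M + N) = vl M + vl N := fun M N => rfl
  rw [vl_wv, e4, vl_mul, vl_mul, vl_mul, vl_mul, vl_wv, vl_wv, e3, e3', vl_hv, vl_hv,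
    e, hat_add, hat_mul, hat_mul, hat_mul, hat_mul]
  simp only [Matrix.mul_add, Matrix.add_mul, Matrix.mul_assoc, mac1 a1, mac1 a2, mac0 a3, mac0 a4,
    Matrix.mul_zero, add_zero, zero_add]

theorem pfS_block (f : Matrix n (ι × Fin 2) ℂ) (f' : Matrix n' (ι' × Fin 2) ℂ)
    {w : Matrix n n (EvC V)} {w' : Matrix n' n' (EvC V)}
    {S : Matrix m n ℂ} {S' : Matrix m n' ℂ} (hS : Sᵀ * S = 1) (hS' : S'ᵀ * S' = 1)
    (hSS : Sᵀ * S' = 0) (hSS' : S'ᵀ * S = 0) :
    PF.pfS ((hv V (sumF (S * f) (S' * f')))ᵀ * (hv V S * w * (hv V S)ᵀ + hv V S' * w' * (hv V S')ᵀ)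
        * hv V (sumF (S * f) (S' * f')))
      = ((Fintype.card ι + Fintype.card ι').choose (Fintype.card ι) : ℕ)
        * (PF.pfS ((hv V f)ᵀ * w * hv V f) * PF.pfS ((hv V f')ᵀ * w' * hv V f')) := by
  have c1 := hv_tr_mul_one (V := V) S hS
  have c2 := hv_tr_mul_one (V := V) S' hS'
  have c3 := hv_tr_mul (V := V) S S' hSS
  have c4 := hv_tr_mul (V := V) S' S hSS'
  have g1 : hv V (sumF (S * f) (S' * f')) = sumF (hv V S * hv V f) (hv V S' * hv V f') := by
    rw [← hv_mul, ← hv_mul]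
    refine Matrix.ext fun i j => ?_
    obtain ⟨s, c⟩ := j
    rcases s with s | s <;> rfl
  have g2 : (hv V (sumF (S * f) (S' * f')))ᵀ * (hv V S * w * (hv V S)ᵀ + hv V S' * w' * (hv V S')ᵀ)
        * hv V (sumF (S * f) (S' * f'))
      = PF.blockD ((hv V f)ᵀ * w * hv V f) ((hv V f')ᵀ * w' * hv V f') := by
    rw [g1, tr_sumF_mul, PF.blockD]
    simp only [transpose_mul, Matrix.mul_add, Matrix.add_mul, Matrix.mul_assoc, mac1 c1, mac1 c2,
      mac0 c3, mac0 c4, c3, c4, Matrix.mul_zero, add_zero, zero_add]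
  rw [g2, PF.pfS_blockD]

end pw

/-- the direct sum pushed to orthogonal subspaces -/
theorem rs_ef_block {P : E → Matrix n n ℂ} {W : E → (ι × Fin 2 → n) → ℂ} (h : OF X P W)
    {P' : E → Matrix n' n' ℂ} {W' : E → (ι' × Fin 2 → n') → ℂ} (h' : OF X P' W')
    {S : Matrix m n ℂ} {S' : Matrix m n' ℂ} (hS : Sᵀ * S = 1) (hS' : S'ᵀ * S' = 1)
    (hSS : Sᵀ * S' = 0) (hx : x ∈ X) :
    rs X x (ef (fun x => S * P x * Sᵀ + S' * P' x * S'ᵀ)
        (fun x => sumT (pushW S (W x)) (pushW S' (W' x))) x)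
      = ((Fintype.card ι + Fintype.card ι').choose (Fintype.card ι) : ℕ)
        * (rs X x (ef P W x) * rs X x (ef P' W' x)) := by
  obtain ⟨f, h1, h2, h3⟩ := h.fr x hx
  obtain ⟨f', h1', h2', h3'⟩ := h'.fr x hx
  have hSS' : S'ᵀ * S = 0 := by
    have := congrArg Matrix.transpose hSS
    rwa [transpose_mul, transpose_transpose, transpose_zero] at this
  have e1 : dl X (fun x => S * P x * Sᵀ + S' * P' x * S'ᵀ) x
      = hat (Tan X x) S * dl X P x * hat (Tan X x) Sᵀ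
        + hat (Tan X x) S' * dl X P' x * hat (Tan X x) S'ᵀ := by
    have hSc : SM 1 (fun _ : E => S) x := SM.const S
    have hSc' : SM 1 (fun _ : E => Sᵀ) x := SM.const _
    have hTc : SM 1 (fun _ : E => S') x := SM.const S'
    have hTc' : SM 1 (fun _ : E => S'ᵀ) x := SM.const _
    rw [dl_add ((hSc.mul (h.idF.s1 hx)).mul hSc') ((hTc.mul (h'.idF.s1 hx)).mul hTc'),
      dl_mul (hSc.mul (h.idF.s1 hx)) hSc', dl_mul hSc (h.idF.s1 hx),
      dl_mul (hTc.mul (h'.idF.s1 hx)) hTc', dl_mul hTc (h'.idF.s1 hx)]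
    simp only [dl_const, Matrix.zero_mul, zero_add, Matrix.mul_zero, add_zero]
  rw [rs_ef, rs_ef, rs_ef, eu_frame h3, eu_frame h3',
    eu_frame (sumT_frame (pushW_frame S f h3) (pushW_frame S' f' h3')),
    wv_block (invM_dl P x) (invM_dl P' x) (invM_dl _ x) hS hS' hSS hSS' e1,
    pfS_block f f' hS hS' hSS hSS']
  rfl

end field

end Crest.Agent.R208.CW
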