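import Crest.Agent.R208.CW4
import Crest.Agent.R208.CW1d
import Mathlib.RingTheory.PowerSeries.Derivative
import Mathlib.RingTheory.PowerSeries.WellKnown

/-! Row 208, block CW (helper586).  CW9: Chern classes of the tensor product with a line bundle. -/

set_option autoImplicit false
set_option linter.unusedSectionVars false
set_option linter.unusedSimpArgs false
set_option linter.unusedVariables false

open scoped BigOperators ContDiff Topology
open Module Set Matrix

noncomputable section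

namespace Crest.Agent.R208.CW

open Crest.Agent.R208.F Crest.Agent.R208.FI

universe u

section twist
open PowerSeries
variable {A : Type*} [CommRing A]

/-- the power sums of the tensor product with a line of first Chern class `z` -/
def twS (z : A) (s : ℕ → A) (j : ℕ) : A :=
  ∑ i ∈ Finset.range (j + 1), (j.choose i : A) * s i * z ^ (j - i)

/-- `1 + z X` -/
def gQ (z : A) : PowerSeries A := 1 + PowerSeries.C z * PowerSeries.X

/-- `(1 + z X)⁻¹` -/
def gI (z : A) : PowerSeries A := PowerSeries.mk fun n => (-z) ^ n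

theorem gQ_mul_gI (z : A) : gQ z * gI z = 1 := by
  refine PowerSeries.ext fun n => ?_
  rw [gQ, add_mul, one_mul, map_add, mul_assoc, PowerSeries.coeff_C_mul]
  cases n with
  | zero => simp [gI]
  | succ n =>
    rw [PowerSeries.coeff_succ_X_mul, gI, PowerSeries.coeff_mk, PowerSeries.coeff_mk,
      PowerSeries.coeff_one, if_neg (Nat.succ_ne_zero n)]
    ring

theorem gI_eq (z : A) : gI z = PowerSeries.rescale (-z) (PowerSeries.mk 1) := by
  refine PowerSeries.ext fun n => ?_
  rw [PowerSeries.coeff_rescale, gI, PowerSeries.coeff_mk, PowerSeries.coeff_mk]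
  simp

theorem coeff_gI_pow (z : A) (d n : ℕ) :
    PowerSeries.coeff n (gI z ^ (d + 1)) = (-z) ^ n * ((d + n).choose d : A) := by
  rw [gI_eq, ← map_pow, PowerSeries.mk_one_pow_eq_mk_choose_add, PowerSeries.coeff_rescale,
    PowerSeries.coeff_mk]

theorem coeff_gQ_pow (z : A) (m n : ℕ) :
    PowerSeries.coeff n (gQ z ^ m) = (m.choose n : A) * z ^ n := by
  induction m generalizing n with
  | zero =>
    rw [pow_zero, PowerSeries.coeff_one]
    cases n with
    | zero => simp
    | succ n => simp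
  | succ m ih =>
    have e : gQ z ^ (m + 1) = gQ z ^ m + PowerSeries.C z * (PowerSeries.X * gQ z ^ m) := by
      rw [pow_succ]; nth_rewrite 2 [gQ]; ring
    rw [e, map_add, PowerSeries.coeff_C_mul]
    cases n with
    | zero => simp [ih]
    | succ n =>
      rw [PowerSeries.coeff_succ_X_mul, ih, ih, Nat.choose_succ_succ]
      push_cast
      ring

/-- `X / (1 + z X)` -/
def gu (z : A) : PowerSeries A := PowerSeries.X * gI z

theorem gu_pow (z : A) (d : ℕ) : gu z ^ d = PowerSeries.X ^ d * gI z ^ d := mul_pow _ _ _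

theorem hasSubst_gu (z : A) : PowerSeries.HasSubst (gu z) :=
  PowerSeries.HasSubst.of_constantCoeff_zero' (by simp [gu])

theorem coeff_gu_pow (z : A) {d m : ℕ} (h : m < d) : PowerSeries.coeff m (gu z ^ d) = 0 := by
  rw [gu_pow, PowerSeries.coeff_X_pow_mul', if_neg (by omega)]

theorem coeff_subst_gu (z : A) (f : PowerSeries A) {m N : ℕ} (h : m ≤ N) :
    PowerSeries.coeff m (f.subst (gu z))
      = ∑ d ∈ Finset.range (N + 1), PowerSeries.coeff d f * PowerSeries.coeff m (gu z ^ d) := by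
  rw [PowerSeries.coeff_subst' (hasSubst_gu z)]
  refine (finsum_eq_sum_of_support_subset _ (s := Finset.range (N + 1)) fun d hd => ?_).trans ?_
  · by_contra hn
    refine hd ?_
    have : N < d := by simpa using hn
    simp only [coeff_gu_pow z (lt_of_le_of_lt h this), smul_zero]
  · simp only [smul_eq_mul]

theorem coeff_mul_subst_gu (z : A) (g f : PowerSeries A) (j : ℕ) :
    PowerSeries.coeff j (g * f.subst (gu z))
      = ∑ d ∈ Finset.range (j + 1), PowerSeries.coeff d f * PowerSeries.coeff j (g * gu z ^ d) := by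
  rw [PowerSeries.coeff_mul]
  have h1 : ∀ p ∈ Finset.HasAntidiagonal.antidiagonal j, PowerSeries.coeff p.1 g
      * PowerSeries.coeff p.2 (f.subst (gu z))
      = ∑ d ∈ Finset.range (j + 1), PowerSeries.coeff d f
        * (PowerSeries.coeff p.1 g * PowerSeries.coeff p.2 (gu z ^ d)) := fun p hp => by
    have hle : p.2 ≤ j := by have := Finset.HasAntidiagonal.mem_antidiagonal.1 hp; omega
    rw [coeff_subst_gu z f hle, Finset.mul_sum]
    exact Finset.sum_congr rfl fun d _ => by ring
  rw [Finset.sum_congr rfl h1, Finset.sum_comm]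
  refine Finset.sum_congr rfl fun d _ => ?_
  rw [PowerSeries.coeff_mul, Finset.mul_sum]

theorem deriv_gQ (z : A) : PowerSeries.derivative A (gQ z) = PowerSeries.C z := by
  refine PowerSeries.ext fun n => ?_
  rw [PowerSeries.coeff_derivative, gQ, map_add, PowerSeries.coeff_C_mul, PowerSeries.coeff_one,
    PowerSeries.coeff_X, PowerSeries.coeff_C, if_neg (Nat.succ_ne_zero n)]
  cases n with
  | zero => simp
  | succ n => simp

theorem deriv_gI (z : A) :
    PowerSeries.derivative A (gI z) = - (PowerSeries.C z * (gI z * gI z)) := by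
  have h := congrArg (PowerSeries.derivative A) (gQ_mul_gI z)
  rw [Derivation.leibniz, deriv_gQ, Derivation.map_one_eq_zero, smul_eq_mul, smul_eq_mul] at h
  calc PowerSeries.derivative A (gI z)
      = (gQ z * gI z) * PowerSeries.derivative A (gI z) := by rw [gQ_mul_gI, one_mul]
    _ = gI z * (gQ z * PowerSeries.derivative A (gI z) + gI z * PowerSeries.C z)
        - PowerSeries.C z * (gI z * gI z) := by ring
    _ = _ := by rw [h, mul_zero, zero_sub]

theorem deriv_gu (z : A) : PowerSeries.derivative A (gu z) = gI z * gI z := by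
  rw [gu, Derivation.leibniz, deriv_gI, smul_eq_mul, smul_eq_mul, PowerSeries.derivative_X]
  have h := gQ_mul_gI z
  calc PowerSeries.X * -(PowerSeries.C z * (gI z * gI z)) + gI z * 1
      = gI z * (gQ z * gI z) - PowerSeries.X * (PowerSeries.C z * (gI z * gI z)) := by
        rw [h]; ring
    _ = gI z * gI z := by rw [gQ]; ring

theorem deriv_gQ_pow (z : A) (r : ℕ) :
    PowerSeries.derivative A (gQ z ^ r) = gQ z ^ r * ((r : PowerSeries A) * PowerSeries.C z * gI z) := by
  induction r with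
  | zero => rw [pow_zero, Derivation.map_one_eq_zero]; simp
  | succ r ih =>
    rw [pow_succ, Derivation.leibniz, ih, deriv_gQ, smul_eq_mul, smul_eq_mul]
    have h := gQ_mul_gI z
    calc gQ z ^ r * PowerSeries.C z
          + gQ z * (gQ z ^ r * ((r : PowerSeries A) * PowerSeries.C z * gI z))
        = gQ z ^ r * PowerSeries.C z * (gQ z * gI z)
          + gQ z * (gQ z ^ r * ((r : PowerSeries A) * PowerSeries.C z * gI z)) := by
          rw [h, mul_one]
      _ = _ := by push_cast; ring

theorem alt_twS {s : ℕ → A} {r : ℕ} (h0 : s 0 = r) (z : A) :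
    alt (twS z s) = (r : PowerSeries A) * PowerSeries.C z * gI z
      + gI z * gI z * (alt s).subst (gu z) := by
  refine PowerSeries.ext fun j => ?_
  rw [map_add, coeff_mul_subst_gu]
  have e1 : PowerSeries.coeff j ((r : PowerSeries A) * PowerSeries.C z * gI z)
      = (r : A) * z * (-z) ^ j := by
    have : (r : PowerSeries A) * PowerSeries.C z = PowerSeries.C ((r : A) * z) := by
      rw [map_mul, map_natCast]
    rw [this, PowerSeries.coeff_C_mul, gI, PowerSeries.coeff_mk]
  have e2 : ∀ d ∈ Finset.range (j + 1), PowerSeries.coeff d (alt s)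
      * PowerSeries.coeff j (gI z * gI z * gu z ^ d)
      = (-1) ^ j * (((j + 1).choose (d + 1) : A) * s (d + 1) * z ^ (j - d)) := fun d hd => by
    have hd' : d ≤ j := Nat.lt_succ_iff.1 (Finset.mem_range.1 hd)
    have e3 : gI z * gI z * gu z ^ d = PowerSeries.X ^ d * gI z ^ (d + 1 + 1) := by
      rw [gu_pow]; ring
    rw [e3, PowerSeries.coeff_X_pow_mul', if_pos hd', coeff_gI_pow, alt, PowerSeries.coeff_mk]
    have e4 : d + 1 + (j - d) = j + 1 := by omega
    rw [e4, neg_pow z (j - d)]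
    have e5 : (-1 : A) ^ j = (-1) ^ d * (-1) ^ (j - d) := by rw [← pow_add]; congr 1; omega
    rw [e5]; ring
  rw [Finset.sum_congr rfl e2, e1, ← Finset.mul_sum, alt, PowerSeries.coeff_mk, twS,
    Finset.sum_range_succ']
  simp only [Nat.choose_zero_right, Nat.cast_one, one_mul, h0, Nat.sub_zero]
  have e6 : ∀ d, j + 1 - (d + 1) = j - d := fun d => by omega
  simp only [e6]
  rw [neg_pow z j, pow_succ]
  ring

variable [Algebra ℂ A]

/-- the twisted Chern series -/
theorem cser_twS {s : ℕ → A} {r : ℕ} (h0 : s 0 = r) (z : A) :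
    cser (twS z s) = gQ z ^ r * (cser s).subst (gu z) := by
  symm
  refine cser_unique _ ?_ ?_
  · rw [coeff_mul_subst_gu, Finset.sum_range_one, pow_zero, mul_one, coeff_cser, el_zero, one_mul,
      coeff_gQ_pow, Nat.choose_zero_right, Nat.cast_one, pow_zero, mul_one]
  · rw [Derivation.leibniz, PowerSeries.derivative_subst (hasSubst_gu z), cser_ode,
      PowerSeries.subst_mul (hasSubst_gu z), deriv_gu, deriv_gQ_pow, smul_eq_mul, smul_eq_mul,
      alt_twS h0]
    ring

/-- **Chern classes of `F ⊗ ℓ`** -/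
theorem el_twS {s : ℕ → A} {r : ℕ} (h0 : s 0 = r) (hc : ∀ i, r < i → el s i = 0) (z : A) (j : ℕ) :
    el (twS z s) j = ∑ i ∈ Finset.range (j + 1),
      ((r - i).choose (j - i) : A) * z ^ (j - i) * el s i := by
  rw [← coeff_cser, cser_twS h0, coeff_mul_subst_gu]
  refine Finset.sum_congr rfl fun i hi => ?_
  have hi' : i ≤ j := Nat.lt_succ_iff.1 (Finset.mem_range.1 hi)
  rw [coeff_cser]
  rcases lt_or_ge r i with h | h
  · rw [hc i h, zero_mul, mul_zero]
  · have e1 : gQ z ^ r * gu z ^ i = PowerSeries.X ^ i * gQ z ^ (r - i) := by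
      obtain ⟨k, rfl⟩ := Nat.exists_eq_add_of_le h
      rw [gu_pow, Nat.add_sub_cancel_left]
      calc gQ z ^ (i + k) * (PowerSeries.X ^ i * gI z ^ i)
          = PowerSeries.X ^ i * gQ z ^ k * (gQ z * gI z) ^ i := by rw [mul_pow]; ring
        _ = _ := by rw [gQ_mul_gI, one_pow, mul_one]
    rw [e1, PowerSeries.coeff_X_pow_mul', if_pos hi', coeff_gQ_pow]
    ring

theorem el_twS_top {s : ℕ → A} {r : ℕ} (h0 : s 0 = r) (hc : ∀ i, r < i → el s i = 0) (z : A) :
    el (twS z s) r = ∑ i ∈ Finset.range (r + 1), z ^ (r - i) * el s i := by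
  rw [el_twS h0 hc]
  exact Finset.sum_congr rfl fun i _ => by rw [Nat.choose_self, Nat.cast_one, one_mul]

theorem el_twS_gt {s : ℕ → A} {r : ℕ} (h0 : s 0 = r) (hc : ∀ i, r < i → el s i = 0) (z : A) {j : ℕ}
    (hj : r < j) : el (twS z s) j = 0 := by
  rw [el_twS h0 hc]
  refine Finset.sum_eq_zero fun i hi => ?_
  have hi' : i ≤ j := Nat.lt_succ_iff.1 (Finset.mem_range.1 hi)
  rcases lt_or_ge r i with h | h
  · rw [hc i h, mul_zero]
  · rw [Nat.choose_eq_zero_of_lt (by omega), Nat.cast_zero, zero_mul, zero_mul]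

/-- the same as a power series -/
theorem cser_twS_eq {s : ℕ → A} {r : ℕ} (h0 : s 0 = r) (hc : ∀ i, r < i → el s i = 0) (z : A) :
    cser (twS z s) = ∑ i ∈ Finset.range (r + 1),
      PowerSeries.C (el s i) * (PowerSeries.X ^ i * (1 + PowerSeries.C z * PowerSeries.X) ^ (r - i)) := by
  refine PowerSeries.ext fun j => ?_
  rw [coeff_cser, el_twS h0 hc, map_sum]
  have e1 : ∀ i, PowerSeries.coeff j (PowerSeries.C (el s i)
      * (PowerSeries.X ^ i * (1 + PowerSeries.C z * PowerSeries.X) ^ (r - i)))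
      = if i ≤ j then ((r - i).choose (j - i) : A) * z ^ (j - i) * el s i else 0 := fun i => by
    rw [PowerSeries.coeff_C_mul, PowerSeries.coeff_X_pow_mul']
    split_ifs with h
    · change el s i * PowerSeries.coeff (j - i) (gQ z ^ (r - i)) = _
      rw [coeff_gQ_pow]; ring
    · rw [mul_zero]
  simp only [e1]
  rw [← Finset.sum_filter]
  symm
  rw [← Finset.sum_filter_add_sum_filter_not (Finset.range (j + 1)) (fun i => i ≤ r)]
  rw [Finset.sum_eq_zero (s := Finset.filter (fun i => ¬ i ≤ r) _), add_zero]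
  · refine Finset.sum_congr ?_ fun _ _ => rfl
    ext i
    simp only [Finset.mem_filter, Finset.mem_range, Nat.lt_succ_iff]
    exact and_comm
  · intro i hi
    rw [hc i (not_le.1 (Finset.mem_filter.1 hi).2), mul_zero]

end twist

section geo
variable {E : Type*} [NormedAddCommGroup E] [NormedSpace ℝ E] [FiniteDimensional ℝ E]
  {n m l : Type*} [Fintype n] [DecidableEq n] [Fintype m] [DecidableEq m] [Fintype l]
  [DecidableEq l] {X : Set E} {dX : ℕ}

theorem cc_one (hX : Sub dX X) {L : E → Matrix n n ℂ} (hL : IdF X L) :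
    cc hX hL 1 = sc hX hL 1 := by
  rw [cc_eq_el]
  have h := el_succ (sc hX hL) 0
  simpa [el_zero] using h

/-- **Chern classes of `Q ⊗ L`**, `L` of rank one; the tensor product enters only through its
power sums -/
theorem cc_twist (hX : Sub dX X) {Q : E → Matrix n n ℂ} (hQ : IdF X Q) {L : E → Matrix m m ℂ}
    (hL : IdF X L) {R : E → Matrix l l ℂ} (hR : IdF X R) {r : ℕ} (hr : ∀ x ∈ X, (Q x).rank = r)
    (hl : ∀ x ∈ X, (L x).rank = 1)
    (h : ∀ j, 1 ≤ j → sc hX hR j = ∑ i ∈ Finset.range (j + 1),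
      (j.choose i : H X) * sc hX hQ i * sc hX hL (j - i)) (j : ℕ) :
    cc hX hR j = ∑ i ∈ Finset.range (j + 1),
      ((r - i).choose (j - i) : H X) * sc hX hL 1 ^ (j - i) * cc hX hQ i := by
  have h0 := sc_zero_of_rank hX hQ hr
  have hc : ∀ i, r < i → el (sc hX hQ) i = 0 := fun i hi => by
    rw [← cc_eq_el]; exact cc_eq_zero hX hQ fun x hx => by rw [hr x hx]; exact hi
  rw [cc_eq_el]
  have e1 : el (sc hX hR) j = el (twS (sc hX hL 1) (sc hX hQ)) j :=
    el_congr fun i h1 _ => by
      rw [h i h1, twS]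
      exact Finset.sum_congr rfl fun a _ => by rw [sc_line hX hL hl (i - a)]
  rw [e1, el_twS h0 hc]
  simp only [cc_eq_el]

/-- top class of `Q ⊗ L` -/
theorem cc_twist_top (hX : Sub dX X) {Q : E → Matrix n n ℂ} (hQ : IdF X Q) {L : E → Matrix m m ℂ}
    (hL : IdF X L) {R : E → Matrix l l ℂ} (hR : IdF X R) {r : ℕ} (hr : ∀ x ∈ X, (Q x).rank = r)
    (hl : ∀ x ∈ X, (L x).rank = 1)
    (h : ∀ j, 1 ≤ j → sc hX hR j = ∑ i ∈ Finset.range (j + 1),
      (j.choose i : H X) * sc hX hQ i * sc hX hL (j - i)) :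
    cc hX hR r = ∑ i ∈ Finset.range (r + 1), sc hX hL 1 ^ (r - i) * cc hX hQ i := by
  rw [cc_twist hX hQ hL hR hr hl h]
  exact Finset.sum_congr rfl fun i _ => by rw [Nat.choose_self, Nat.cast_one, one_mul]

theorem cc_twist_gt (hX : Sub dX X) {Q : E → Matrix n n ℂ} (hQ : IdF X Q) {L : E → Matrix m m ℂ}
    (hL : IdF X L) {R : E → Matrix l l ℂ} (hR : IdF X R) {r : ℕ} (hr : ∀ x ∈ X, (Q x).rank = r)
    (hl : ∀ x ∈ X, (L x).rank = 1)
    (h : ∀ j, 1 ≤ j → sc hX hR j = ∑ i ∈ Finset.range (j + 1),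
      (j.choose i : H X) * sc hX hQ i * sc hX hL (j - i)) {j : ℕ} (hj : r < j) :
    cc hX hR j = 0 := by
  rw [cc_twist hX hQ hL hR hr hl h]
  refine Finset.sum_eq_zero fun i hi => ?_
  have hi' : i ≤ j := Nat.lt_succ_iff.1 (Finset.mem_range.1 hi)
  rcases lt_or_ge r i with h | h
  · rw [cc_eq_zero hX hQ fun x hx => by rw [hr x hx]; exact h, mul_zero]
  · rw [Nat.choose_eq_zero_of_lt (by omega), Nat.cast_zero, zero_mul, zero_mul]

/-- Kronecker version -/
theorem cc_kron_line (hX : Sub dX X) {Q : E → Matrix n n ℂ} (hQ : IdF X Q) {L : E → Matrix m m ℂ}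
    (hL : IdF X L) {r : ℕ} (hr : ∀ x ∈ X, (Q x).rank = r) (hl : ∀ x ∈ X, (L x).rank = 1) (j : ℕ) :
    cc hX (hQ.kron hL) j = ∑ i ∈ Finset.range (j + 1),
      ((r - i).choose (j - i) : H X) * sc hX hL 1 ^ (j - i) * cc hX hQ i :=
  cc_twist hX hQ hL (hQ.kron hL) hr hl (fun j _ => sc_kron hX hQ hL j) j

/-- power series version: `c_t(Q ⊗ L) = Σ c_i t^i (1 + z t)^(r-i)` -/
theorem cs_twist (hX : Sub dX X) {Q : E → Matrix n n ℂ} (hQ : IdF X Q) {L : E → Matrix m m ℂ}
    (hL : IdF X L) {R : E → Matrix l l ℂ} (hR : IdF X R) {r : ℕ} (hr : ∀ x ∈ X, (Q x).rank = r)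
    (hl : ∀ x ∈ X, (L x).rank = 1)
    (h : ∀ j, 1 ≤ j → sc hX hR j = ∑ i ∈ Finset.range (j + 1),
      (j.choose i : H X) * sc hX hQ i * sc hX hL (j - i)) :
    cs hX hR = ∑ i ∈ Finset.range (r + 1), PowerSeries.C (cc hX hQ i)
      * (PowerSeries.X ^ i * (1 + PowerSeries.C (sc hX hL 1) * PowerSeries.X) ^ (r - i)) := by
  have h0 := sc_zero_of_rank hX hQ hr
  have hc : ∀ i, r < i → el (sc hX hQ) i = 0 := fun i hi => by
    rw [← cc_eq_el]; exact cc_eq_zero hX hQ fun x hx => by rw [hr x hx]; exact hi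
  have e1 : cs hX hR = cser (twS (sc hX hL 1) (sc hX hQ)) :=
    cser_congr fun i h1 => by
      rw [h i h1, twS]
      exact Finset.sum_congr rfl fun a _ => by rw [sc_line hX hL hl (i - a)]
  rw [e1, cser_twS_eq h0 hc]
  simp only [cc_eq_el]

end geo

end Crest.Agent.R208.CW
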