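import Crest.Agent.R208.ClosedForm365

/-!
R208 (II): the closed form of `p(TM)` over an arbitrary field `K` (helper365; version of
`ClosedForm365` asked for by helper586).
-/

namespace Crest.Agent.R208.CFK

open PowerSeries
open Crest.Agent.R208.CF (g r g_zero g_one g_rec wronskian rec_unique)

section Trunc

variable {K : Type*} [Field K]

/-- `K⟦X⟧ / (X^{m+1})` -/
abbrev TT (K : Type*) [Field K] (m : ℕ) : Type _ := K⟦X⟧ ⧸ Ideal.span {(X : K⟦X⟧) ^ (m + 1)}

/-- the quotient map -/
noncomputable abbrev qt (m : ℕ) : K⟦X⟧ →+* TT K m := Ideal.Quotient.mk _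

theorem qt_eq_iff {m : ℕ} {f h : K⟦X⟧} : qt m f = qt m h ↔ ∀ i ≤ m, coeff i f = coeff i h := by
  rw [Ideal.Quotient.eq, Ideal.mem_span_singleton, PowerSeries.X_pow_dvd_iff]
  constructor
  · intro H i hi
    have := H i (by omega)
    rw [map_sub, sub_eq_zero] at this
    exact this
  · intro H i hi
    rw [map_sub, sub_eq_zero]
    exact H i (by omega)

variable {H : Type*} [CommRing H] [Algebra K H] (m s : ℕ) (x : H) (I : H →ₗ[K] K)

/-- `λ_s(f) = Σ_{a ≤ m} I(x^{m-a} f_{s+a}) X^a` in `K⟦X⟧/(X^{m+1})`. -/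
noncomputable def lam (f : H⟦X⟧) : TT K m :=
  qt m (PowerSeries.mk fun a => I (x ^ (m - a) * coeff (s + a) f))

variable {m s x I}

theorem lam_add (f h : H⟦X⟧) : lam m s x I (f + h) = lam m s x I f + lam m s x I h := by
  unfold lam
  rw [← map_add]
  congr 1
  ext a
  simp [mul_add]

theorem lam_sub (f h : H⟦X⟧) : lam m s x I (f - h) = lam m s x I f - lam m s x I h := by
  unfold lam
  rw [← map_sub]
  congr 1
  ext a
  simp [mul_sub]

theorem lam_smul (c : K) (f : H⟦X⟧) :
    lam m s x I (C (algebraMap K H c) * f) = qt m (C c) * lam m s x I f := by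
  unfold lam
  rw [← map_mul]
  congr 1
  ext a
  rw [coeff_mk, coeff_C_mul, coeff_C_mul, coeff_mk]
  have : x ^ (m - a) * (algebraMap K H c * coeff (s + a) f)
      = c • (x ^ (m - a) * coeff (s + a) f) := by
    rw [Algebra.smul_def]; ring
  rw [this, map_smul, smul_eq_mul]

theorem lam_x (hx : x ^ (m + 1) = 0) (f : H⟦X⟧) :
    lam m s x I ((C x * X) * f) = qt m X * lam m s x I f := by
  unfold lam
  rw [← map_mul, qt_eq_iff]
  intro a ha
  rw [coeff_mk]
  rcases a with _ | a
  · have : coeff 0 ((X : K⟦X⟧) * PowerSeries.mk fun a => I (x ^ (m - a) * coeff (s + a) f)) = 0 := by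
      simp
    rw [this, Nat.sub_zero, Nat.add_zero]
    have e : x ^ m * coeff s (C x * X * f) = x ^ (m + 1) * coeff s (X * f) := by
      rw [mul_assoc, coeff_C_mul, pow_succ]; ring
    rw [e, hx, zero_mul, map_zero]
  · rw [coeff_succ_X_mul, coeff_mk]
    have e : coeff (s + (a + 1)) (C x * X * f) = x * coeff (s + a) f := by
      rw [mul_assoc, coeff_C_mul, ← add_assoc, coeff_succ_X_mul]
    rw [e]
    have e2 : x ^ (m - (a + 1)) * (x * coeff (s + a) f) = x ^ (m - a) * coeff (s + a) f := by
      have : m - a = (m - (a + 1)) + 1 := by omega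
      rw [this, pow_succ]; ring
    rw [e2]

end Trunc

section Main

variable {K : Type*} [Field K]

variable {H : Type*} [CommRing H] [Algebra K H]

/-- the total class of `V`: `1 + L(x+y) + (x-y)²`, graded by `t = X`. -/
noncomputable def chi (L : K) (x y : H) : H⟦X⟧ :=
  1 + C (L • (x + y)) * X + C ((x - y) ^ 2) * X ^ 2

theorem chi_eq (L : K) (x y : H) : chi L x y =
    (1 + C (algebraMap K H L) * (C x * X) + (C x * X) ^ 2)
    + (C (algebraMap K H L) - 2 * (C x * X)) * (C y * X) + (C y * X) ^ 2 := by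
  unfold chi
  rw [Algebra.smul_def]
  simp only [map_mul, map_add, map_pow, map_sub]
  ring

theorem lam_chi {m s : ℕ} {x : H} {I : H →ₗ[K] K} (hx : x ^ (m + 1) = 0) (L : K) (y : H)
    (f : H⟦X⟧) :
    lam m s x I (f * chi L x y) =
      (1 + qt m (C L) * qt m X + qt m X ^ 2) * lam m s x I f
      + (qt m (C L) - 2 * qt m X) * lam m s x I ((C y * X) * f)
      + lam m s x I ((C y * X) ^ 2 * f) := by
  have e : f * chi L x y = f + C (algebraMap K H L) * ((C x * X) * f) + (C x * X) * ((C x * X) * f)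
      + C (algebraMap K H L) * ((C y * X) * f)
      - C (algebraMap K H 2) * ((C x * X) * ((C y * X) * f)) + (C y * X) ^ 2 * f := by
    rw [chi_eq]
    have : (C (algebraMap K H 2) : H⟦X⟧) = 2 := by rw [map_ofNat, map_ofNat]
    rw [this]; ring
  rw [e, lam_add, lam_sub, lam_add, lam_add, lam_add, lam_smul, lam_x hx, lam_x hx, lam_x hx,
    lam_smul, lam_smul, lam_x hx]
  have : qt m (C (2 : K)) = 2 := by rw [map_ofNat, map_ofNat]
  rw [this]
  ring

/-- numbers of the push-forwards: `ρ (m-1) = 1`, `ρ m = -1`, else `0`. -/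
def rho (K : Type*) [Field K] (m : ℕ) (j : ℕ) : K := if j + 1 = m then 1 else if j = m then -1 else 0

theorem lam_mono {m : ℕ} (hm : 2 ≤ m) {x y z : H} {I : H →ₗ[K] K} {N : K}
    (hI : ∀ a b c, a + b + c = 3 * m - 2 → I (x ^ a * y ^ b * z ^ c) = N * rho K m b * rho K m c)
    (p : ℕ → K) (hy : y ^ (m + 1) = 0) (hz : z ^ (m + 1) = 0) (j l : ℕ) :
    lam m (2 * m - 2) x I ((C y * X) ^ j * ((C z * X) ^ l * PowerSeries.mk fun i => p i • x ^ i))
      = qt m (C N * PowerSeries.mk p) * r m (qt m (X : K⟦X⟧)) j * r m (qt m (X : K⟦X⟧)) l := by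
  have key : ∀ a, coeff (2 * m - 2 + a)
      ((C y * X) ^ j * ((C z * X) ^ l * PowerSeries.mk fun i => p i • x ^ i))
      = if j + l ≤ 2 * m - 2 + a then
          p (2 * m - 2 + a - (j + l)) • (x ^ (2 * m - 2 + a - (j + l)) * (y ^ j * z ^ l)) else 0 := by
    intro a
    have e : ((C y * X) ^ j * ((C z * X) ^ l * PowerSeries.mk fun i => p i • x ^ i) : H⟦X⟧)
        = C (y ^ j * z ^ l) * (X ^ (j + l) * PowerSeries.mk fun i => p i • x ^ i) := by
      rw [mul_pow, mul_pow, map_mul, map_pow, map_pow, pow_add]; ring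
    rw [e, coeff_C_mul, coeff_X_pow_mul']
    split_ifs with h
    · rw [coeff_mk, mul_smul_comm, mul_comm (y ^ j * z ^ l)]
    · rw [mul_zero]
  unfold lam
  by_cases hj : m < j
  · have h0 : y ^ j = 0 := by
      have : j = (m + 1) + (j - (m + 1)) := by omega
      rw [this, pow_add, hy, zero_mul]
    have : r m (qt m (X : K⟦X⟧)) j = 0 := by
      have h1 : ¬ (j + 1 = m) := by omega
      have h2 : ¬ (j = m) := by omega
      simp [r, h1, h2]
    rw [this, mul_zero, zero_mul, ← map_zero (qt m), qt_eq_iff]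
    intro a _
    rw [coeff_mk, key, h0]
    simp
  by_cases hl : m < l
  · have h0 : z ^ l = 0 := by
      have : l = (m + 1) + (l - (m + 1)) := by omega
      rw [this, pow_add, hz, zero_mul]
    have : r m (qt m (X : K⟦X⟧)) l = 0 := by
      have h1 : ¬ (l + 1 = m) := by omega
      have h2 : ¬ (l = m) := by omega
      simp [r, h1, h2]
    rw [this, mul_zero, ← map_zero (qt m), qt_eq_iff]
    intro a _
    rw [coeff_mk, key, h0]
    simp
  have key2 : ∀ a ≤ m, I (x ^ (m - a) * coeff (2 * m - 2 + a)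
      ((C y * X) ^ j * ((C z * X) ^ l * PowerSeries.mk fun i => p i • x ^ i)))
      = if j + l ≤ 2 * m - 2 + a then
          p (2 * m - 2 + a - (j + l)) * (N * rho K m j * rho K m l) else 0 := by
    intro a ha
    rw [key]
    split_ifs with h
    · have : x ^ (m - a) * p (2 * m - 2 + a - (j + l)) •
          (x ^ (2 * m - 2 + a - (j + l)) * (y ^ j * z ^ l))
          = p (2 * m - 2 + a - (j + l)) •
            (x ^ (m - a + (2 * m - 2 + a - (j + l))) * y ^ j * z ^ l) := by
        rw [mul_smul_comm, pow_add]; congr 1; ring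
      rw [this, map_smul, smul_eq_mul, hI _ _ _ (by omega)]
    · simp
  by_cases hj1 : j + 1 = m
  · by_cases hl1 : l + 1 = m
    · have e1 : r m (qt m (X : K⟦X⟧)) j = 1 := by simp [r, hj1]
      have e2 : r m (qt m (X : K⟦X⟧)) l = 1 := by simp [r, hl1]
      rw [e1, e2, mul_one, mul_one, qt_eq_iff]
      intro a ha
      rw [coeff_mk, key2 a ha, coeff_C_mul, coeff_mk, if_pos (by omega)]
      have : 2 * m - 2 + a - (j + l) = a := by omega
      rw [this]
      simp only [rho, hj1, hl1, if_true]; ring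
    · by_cases hl2 : l = m
      · have e1 : r m (qt m (X : K⟦X⟧)) j = 1 := by simp [r, hj1]
        have e2 : r m (qt m (X : K⟦X⟧)) l = qt m (-X : K⟦X⟧) := by
          have : ¬ (m + 1 = m) := by omega
          simp [r, hl2]
        rw [e1, e2, mul_one, ← map_mul, qt_eq_iff]
        intro a ha
        rw [coeff_mk, key2 a ha]
        have hr : rho K m j * rho K m l = -1 := by
          simp [rho, hj1, hl2]
        rcases a with _ | a
        · rw [if_neg (by omega)]
          simp
        · rw [if_pos (by omega)]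
          have : 2 * m - 2 + (a + 1) - (j + l) = a := by omega
          rw [this]
          have e3 : (C N * PowerSeries.mk p * -X : K⟦X⟧) = -(X * (C N * PowerSeries.mk p)) := by ring
          rw [e3, map_neg, coeff_succ_X_mul, coeff_C_mul, coeff_mk, mul_assoc N, hr]; ring
      · have e2 : r m (qt m (X : K⟦X⟧)) l = 0 := by simp [r, hl1, hl2]
        have hr : rho K m l = 0 := by simp [rho, hl1, hl2]
        rw [e2, mul_zero, ← map_zero (qt m), qt_eq_iff]
        intro a ha
        rw [coeff_mk, key2 a ha, hr]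
        simp
  · by_cases hj2 : j = m
    · by_cases hl1 : l + 1 = m
      · have e1 : r m (qt m (X : K⟦X⟧)) j = qt m (-X : K⟦X⟧) := by simp [r, hj2]
        have e2 : r m (qt m (X : K⟦X⟧)) l = 1 := by simp [r, hl1]
        rw [e1, e2, mul_one, ← map_mul, qt_eq_iff]
        intro a ha
        rw [coeff_mk, key2 a ha]
        have hr : rho K m j * rho K m l = -1 := by
          simp [rho, hj2, hl1]
        rcases a with _ | a
        · rw [if_neg (by omega)]
          simp
        · rw [if_pos (by omega)]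
          have : 2 * m - 2 + (a + 1) - (j + l) = a := by omega
          rw [this]
          have e3 : (C N * PowerSeries.mk p * -X : K⟦X⟧) = -(X * (C N * PowerSeries.mk p)) := by ring
          rw [e3, map_neg, coeff_succ_X_mul, coeff_C_mul, coeff_mk, mul_assoc N, hr]; ring
      · by_cases hl2 : l = m
        · have e1 : r m (qt m (X : K⟦X⟧)) j = qt m (-X : K⟦X⟧) := by simp [r, hj2]
          have e2 : r m (qt m (X : K⟦X⟧)) l = qt m (-X : K⟦X⟧) := by simp [r, hl2]
          rw [e1, e2, ← map_mul, ← map_mul, qt_eq_iff]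
          intro a ha
          rw [coeff_mk, key2 a ha]
          have hr : rho K m j * rho K m l = 1 := by
            simp [rho, hj2, hl2]
          have e3 : (C N * PowerSeries.mk p * -X * -X : K⟦X⟧)
              = X * (X * (C N * PowerSeries.mk p)) := by ring
          rw [e3]
          rcases a with _ | a
          · rw [if_neg (by omega)]
            simp
          · rw [coeff_succ_X_mul]
            rcases a with _ | a
            · rw [if_neg (by omega)]
              simp
            · rw [if_pos (by omega)]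
              have : 2 * m - 2 + (a + 1 + 1) - (j + l) = a := by omega
              rw [this, coeff_succ_X_mul, coeff_C_mul, coeff_mk, mul_assoc N, hr]; ring
        · have e2 : r m (qt m (X : K⟦X⟧)) l = 0 := by simp [r, hl1, hl2]
          have hr : rho K m l = 0 := by simp [rho, hl1, hl2]
          rw [e2, mul_zero, ← map_zero (qt m), qt_eq_iff]
          intro a ha
          rw [coeff_mk, key2 a ha, hr]
          simp
    · have e2 : r m (qt m (X : K⟦X⟧)) j = 0 := by simp [r, hj1, hj2]
      have hr : rho K m j = 0 := by simp [rho, hj1, hj2]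
      rw [e2, mul_zero, zero_mul, ← map_zero (qt m), qt_eq_iff]
      intro a ha
      rw [coeff_mk, key2 a ha, hr]
      simp

/-- **Closed form of the total class of `TM ⊗ ℂ`** (154's #9947 (3)).
`H` = cohomology of `F ×_M F`, `I` = integration, `x = x₁`, `y = x₂`, `z = x₂'`,
`σ = c(TM - V - V')` graded by `t`, `p i` the coefficients of `c(TM) = Σ p_i x^i t^i`. -/
theorem closed_form {m : ℕ} (hm : 2 ≤ m) (L N : K) (hN : N ≠ 0) {x y z : H} {I : H →ₗ[K] K}
    (hx : x ^ (m + 1) = 0) (hy : y ^ (m + 1) = 0) (hz : z ^ (m + 1) = 0)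
    (hI : ∀ a b c, a + b + c = 3 * m - 2 → I (x ^ a * y ^ b * z ^ c) = N * rho K m b * rho K m c)
    (p : ℕ → K) (hp : p 0 = 1) (σ : H⟦X⟧)
    (hσ : σ * chi L x y * chi L x z = PowerSeries.mk fun i => p i • x ^ i)
    (h : ∀ i, 1 ≤ i → i ≤ m → I (x ^ (m - i) * ((y - z) * z * coeff (2 * m - 4 + i) σ)) = 0) :
    ∀ i ≤ m, coeff i (PowerSeries.mk p * (1 + C (2 * L) * X))
      = coeff i ((1 + C L * X + X ^ 2) ^ (m + 1)) := by
  set lm := lam m (2 * m - 2) x I with hlm
  set Xq := qt m (X : K⟦X⟧)
  set Lq := qt m (C L)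
  -- inverse of D
  obtain ⟨Ds, hDs⟩ : ∃ Ds : K⟦X⟧, (1 + C L * X + X ^ 2) * Ds = 1 := by
    refine ⟨PowerSeries.invOfUnit (1 + C L * X + X ^ 2) 1, ?_⟩
    apply PowerSeries.mul_invOfUnit
    simp
  have hE : (1 + Lq * Xq + Xq ^ 2) * qt m Ds = 1 := by
    have := congrArg (qt m) hDs
    simpa [Xq, Lq, map_mul, map_add, map_pow] using this
  set D := 1 + Lq * Xq + Xq ^ 2 with hD
  set E := qt m Ds
  set Q := qt m (C N * PowerSeries.mk p) with hQ
  have hyj : ∀ j, m < j → (C y * X : H⟦X⟧) ^ j = 0 := by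
    intro j hj
    have h0 : y ^ j = 0 := by
      have : j = (m + 1) + (j - (m + 1)) := by omega
      rw [this, pow_add, hy, zero_mul]
    rw [mul_pow, ← map_pow, h0, map_zero, zero_mul]
  have hzj : ∀ j, m < j → (C z * X : H⟦X⟧) ^ j = 0 := by
    intro j hj
    have h0 : z ^ j = 0 := by
      have : j = (m + 1) + (j - (m + 1)) := by omega
      rw [this, pow_add, hz, zero_mul]
    rw [mul_pow, ← map_pow, h0, map_zero, zero_mul]
  have lz : lm 0 = 0 := by
    have := lam_sub (m := m) (s := 2 * m - 2) (x := x) (I := I) 0 0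
    rw [sub_zero, sub_self] at this
    exact this
  -- first recursion (in z)
  have hv : ∀ j i, i ≤ m → lm ((C y * X) ^ j * ((C z * X) ^ (m - i) * (σ * chi L x y)))
      = (Q * r m Xq j) * g Xq Lq E i := by
    intro j
    apply rec_unique hE hm (Q * r m Xq j)
      (fun l => lm ((C y * X) ^ j * ((C z * X) ^ l * (σ * chi L x y))))
    · intro l hl
      simp only [hzj l hl, zero_mul, mul_zero, lz]
    · intro l
      have := lam_chi (s := 2 * m - 2) (I := I) hx L z
        ((C y * X) ^ j * ((C z * X) ^ l * (σ * chi L x y)))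
      have e : (C y * X) ^ j * ((C z * X) ^ l * (σ * chi L x y)) * chi L x z
          = (C y * X) ^ j * ((C z * X) ^ l * PowerSeries.mk fun i => p i • x ^ i) := by
        rw [← hσ]; ring
      rw [e, lam_mono hm hI p hy hz] at this
      have e1 : (C z * X) * ((C y * X) ^ j * ((C z * X) ^ l * (σ * chi L x y)))
          = (C y * X) ^ j * ((C z * X) ^ (l + 1) * (σ * chi L x y)) := by ring
      have e2 : (C z * X) ^ 2 * ((C y * X) ^ j * ((C z * X) ^ l * (σ * chi L x y)))
          = (C y * X) ^ j * ((C z * X) ^ (l + 2) * (σ * chi L x y)) := by ring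
      rw [e1, e2] at this
      exact this.symm
  -- second recursion (in y)
  have hu : ∀ l, l ≤ m → ∀ i, i ≤ m →
      lm ((C y * X) ^ (m - i) * ((C z * X) ^ (m - l) * σ))
      = (Q * g Xq Lq E l) * g Xq Lq E i := by
    intro l hl
    apply rec_unique hE hm (Q * g Xq Lq E l)
      (fun j => lm ((C y * X) ^ j * ((C z * X) ^ (m - l) * σ)))
    · intro j hj
      simp only [hyj j hj, zero_mul, lz]
    · intro j
      have := lam_chi (s := 2 * m - 2) (I := I) hx L y ((C y * X) ^ j * ((C z * X) ^ (m - l) * σ))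
      have e : (C y * X) ^ j * ((C z * X) ^ (m - l) * σ) * chi L x y
          = (C y * X) ^ j * ((C z * X) ^ (m - l) * (σ * chi L x y)) := by ring
      rw [e] at this
      have h2 := hv j l hl
      rw [hlm] at h2
      rw [h2] at this
      have e1 : (C y * X) * ((C y * X) ^ j * ((C z * X) ^ (m - l) * σ))
          = (C y * X) ^ (j + 1) * ((C z * X) ^ (m - l) * σ) := by ring
      have e2 : (C y * X) ^ 2 * ((C y * X) ^ j * ((C z * X) ^ (m - l) * σ))
          = (C y * X) ^ (j + 2) * ((C z * X) ^ (m - l) * σ) := by ring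
      rw [e1, e2] at this
      have e3 : Q * g Xq Lq E l * r m Xq j = Q * r m Xq j * g Xq Lq E l := by ring
      rw [e3]
      exact this.symm
  -- the class that vanishes
  have key : ∃ c0 : K, lm (((C y * X) - (C z * X)) * (C z * X) * σ) = qt m (C c0) := by
    refine ⟨I (x ^ m * ((y - z) * z * coeff (2 * m - 4) σ)), ?_⟩
    rw [hlm]
    unfold lam
    rw [qt_eq_iff]
    intro a ha
    rw [coeff_mk]
    have e : (((C y * X) - (C z * X)) * (C z * X) * σ : H⟦X⟧) = C ((y - z) * z) * (X ^ 2 * σ) := by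
      simp only [map_mul, map_sub]; ring
    have e2 : 2 * m - 2 + a = (2 * m - 4 + a) + 2 := by omega
    rw [e, coeff_C_mul, e2, coeff_X_pow_mul]
    rcases a with _ | a
    · simp
    · rw [h (a + 1) (by omega) ha]
      simp
  obtain ⟨c0, hc0⟩ := key
  have e1 : (((C y * X) - (C z * X)) * (C z * X) * σ : H⟦X⟧)
      = (C y * X) ^ (m - (m - 1)) * ((C z * X) ^ (m - (m - 1)) * σ)
        - (C y * X) ^ (m - m) * ((C z * X) ^ (m - (m - 2)) * σ) := by
    have a1 : m - (m - 1) = 1 := by omega
    have a2 : m - m = 0 := by omega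
    have a3 : m - (m - 2) = 2 := by omega
    rw [a1, a2, a3]; ring
  rw [e1, hlm, lam_sub] at hc0
  have h1 := hu (m - 1) (by omega) (m - 1) (by omega)
  have h2 := hu (m - 2) (by omega) m (le_refl m)
  rw [hlm] at h1 h2
  rw [h1, h2] at hc0
  obtain ⟨b, hb⟩ : ∃ b, m = b + 2 := ⟨m - 2, by omega⟩
  have hw := wronskian (X := Xq) (L := Lq) (E := E) hE hD b
  have a1 : m - 1 = b + 1 := by omega
  have a2 : m - 2 = b := by omega
  have a3 : g Xq Lq E m = g Xq Lq E (b + 2) := congrArg (g Xq Lq E) hb
  rw [a1, a2, a3] at hc0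
  have a4 : D ^ (m + 1) = D ^ (b + 3) := congrArg (fun n : ℕ => D ^ n) (by omega)
  have hfin : D ^ (m + 1) * qt m (C c0) = Q * (1 + 2 * Lq * Xq) := by
    rw [a4, ← hc0, ← hw]; ring
  have hfin2 : qt m ((1 + C L * X + X ^ 2) ^ (m + 1) * C c0)
      = qt m (C N * PowerSeries.mk p * (1 + C (2 * L) * X)) := by
    have : (C (2 * L) : K⟦X⟧) = 2 * C L := by
      rw [map_mul]; congr 1
    rw [this]
    simp only [map_mul, map_pow, map_add, map_one, map_ofNat]
    rw [hD, hQ] at hfin
    simp only [map_mul] at hfin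
    exact hfin
  rw [qt_eq_iff] at hfin2
  have h0 := hfin2 0 (by omega)
  have hc : c0 = N := by
    have e1 : coeff 0 ((1 + C L * X + X ^ 2) ^ (m + 1) * C c0 : K⟦X⟧) = c0 := by
      rw [coeff_zero_eq_constantCoeff]
      simp
    have e2 : coeff 0 (C N * PowerSeries.mk p * (1 + C (2 * L) * X) : K⟦X⟧) = N := by
      rw [coeff_zero_eq_constantCoeff]
      simp only [map_mul, map_add, map_one, constantCoeff_C, constantCoeff_X, mul_zero, add_zero,
        mul_one]
      rw [← coeff_zero_eq_constantCoeff_apply, coeff_mk, hp, mul_one]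
    rw [← e1, h0, e2]
  intro i hi
  have := hfin2 i hi
  rw [hc, mul_comm _ (C N : K⟦X⟧), mul_assoc (C N : K⟦X⟧), coeff_C_mul, coeff_C_mul] at this
  exact (mul_left_cancel₀ hN this).symm

end Main

end Crest.Agent.R208.CFK
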