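import Crest.Agent.R208.EW6

/-! Row 208, block DD (helper683).  DD1: the doubled bundle `N ⊕ N` on `EuclideanSpace ℝ (a ⊕ a)`,
the rotations `R t ∘ e^{i w t}`, the canonical orientation. -/

set_option autoImplicit false
set_option linter.unusedSectionVars false
set_option linter.unusedVariables false
set_option linter.unusedSimpArgs false

open Set Filter Topology Module MeasureTheory Matrix
open scoped ContDiff RealInnerProductSpace ComplexConjugate Kronecker
open Crest.Agent.R208.F Crest.Agent.R208.FI Crest.Agent.R208.CW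
open Crest.Agent.R208.CM
open Crest.Agent.R208.T
open Crest.Agent.R208.EW

noncomputable section

namespace Crest.Agent.R208.DD

/-! ### the doubled Euclidean space -/
section lin
variable {a : Type} [Fintype a] [DecidableEq a]

/-- first inclusion -/
def jl : EuclideanSpace ℝ a →L[ℝ] EuclideanSpace ℝ (a ⊕ a) :=
  LinearMap.toContinuousLinearMap
    { toFun := fun u => WithLp.toLp 2 (Sum.elim (fun i => u i) fun _ => 0)
      map_add' := fun u v => by
        ext i; rcases i with i | i <;> simp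
      map_smul' := fun c v => by
        ext i; rcases i with i | i <;> simp }

/-- second inclusion -/
def jr : EuclideanSpace ℝ a →L[ℝ] EuclideanSpace ℝ (a ⊕ a) :=
  LinearMap.toContinuousLinearMap
    { toFun := fun u => WithLp.toLp 2 (Sum.elim (fun _ => 0) fun i => u i)
      map_add' := fun u v => by
        ext i; rcases i with i | i <;> simp
      map_smul' := fun c v => by
        ext i; rcases i with i | i <;> simp }

/-- first projection -/
def pl : EuclideanSpace ℝ (a ⊕ a) →L[ℝ] EuclideanSpace ℝ a :=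
  LinearMap.toContinuousLinearMap
    { toFun := fun w => WithLp.toLp 2 fun i => w (Sum.inl i)
      map_add' := fun u v => by ext i; simp
      map_smul' := fun c v => by ext i; simp }

/-- second projection -/
def pr : EuclideanSpace ℝ (a ⊕ a) →L[ℝ] EuclideanSpace ℝ a :=
  LinearMap.toContinuousLinearMap
    { toFun := fun w => WithLp.toLp 2 fun i => w (Sum.inr i)
      map_add' := fun u v => by ext i; simp
      map_smul' := fun c v => by ext i; simp }

@[simp] theorem jl_inl (u : EuclideanSpace ℝ a) (i : a) : jl u (Sum.inl i) = u i := rfl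
@[simp] theorem jl_inr (u : EuclideanSpace ℝ a) (i : a) : jl u (Sum.inr i) = 0 := rfl
@[simp] theorem jr_inl (u : EuclideanSpace ℝ a) (i : a) : jr u (Sum.inl i) = 0 := rfl
@[simp] theorem jr_inr (u : EuclideanSpace ℝ a) (i : a) : jr u (Sum.inr i) = u i := rfl
@[simp] theorem pl_apply (w : EuclideanSpace ℝ (a ⊕ a)) (i : a) : pl w i = w (Sum.inl i) := rfl
@[simp] theorem pr_apply (w : EuclideanSpace ℝ (a ⊕ a)) (i : a) : pr w i = w (Sum.inr i) := rfl

@[simp] theorem pl_jl (u : EuclideanSpace ℝ a) : pl (jl u) = u := rfl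
@[simp] theorem pr_jr (u : EuclideanSpace ℝ a) : pr (jr u) = u := rfl
@[simp] theorem pl_jr (u : EuclideanSpace ℝ a) : pl (jr u) = 0 := rfl
@[simp] theorem pr_jl (u : EuclideanSpace ℝ a) : pr (jl u) = 0 := rfl

theorem jl_pl_add (w : EuclideanSpace ℝ (a ⊕ a)) : jl (pl w) + jr (pr w) = w := by
  ext i; rcases i with i | i <;> simp

theorem inner_eq (v w : EuclideanSpace ℝ (a ⊕ a)) : ⟪v, w⟫ = ⟪pl v, pl w⟫ + ⟪pr v, pr w⟫ := by
  rw [PiLp.inner_apply, Fintype.sum_sum_type, PiLp.inner_apply, PiLp.inner_apply]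
  rfl

theorem norm_sq_eq (w : EuclideanSpace ℝ (a ⊕ a)) : ‖w‖ ^ 2 = ‖pl w‖ ^ 2 + ‖pr w‖ ^ 2 := by
  rw [← real_inner_self_eq_norm_sq, inner_eq, real_inner_self_eq_norm_sq,
    real_inner_self_eq_norm_sq]

theorem dbl : Dbl (jl (a := a)) jr where
  iso u v := by rw [norm_sq_eq, map_add, map_add]; simp
  surj w := ⟨pl w, pr w, (jl_pl_add w).symm⟩

theorem dbl' : Dbl (jr (a := a)) jl where
  iso u v := by rw [norm_sq_eq, map_add, map_add]; simp [add_comm]
  surj w := ⟨pr w, pl w, by rw [add_comm]; exact (jl_pl_add w).symm⟩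

theorem ext_d {v w : EuclideanSpace ℝ (a ⊕ a)} (h1 : pl v = pl w) (h2 : pr v = pr w) : v = w := by
  rw [← jl_pl_add v, ← jl_pl_add w, h1, h2]

/-- the doubled operator -/
def dd (A : EuclideanSpace ℝ a →L[ℝ] EuclideanSpace ℝ a) :
    EuclideanSpace ℝ (a ⊕ a) →L[ℝ] EuclideanSpace ℝ (a ⊕ a) :=
  jl.comp (A.comp pl) + jr.comp (A.comp pr)

theorem dd_apply (A : EuclideanSpace ℝ a →L[ℝ] EuclideanSpace ℝ a) (w : EuclideanSpace ℝ (a ⊕ a)) :
    dd A w = jl (A (pl w)) + jr (A (pr w)) := rfl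

@[simp] theorem pl_dd (A : EuclideanSpace ℝ a →L[ℝ] EuclideanSpace ℝ a)
    (w : EuclideanSpace ℝ (a ⊕ a)) : pl (dd A w) = A (pl w) := by
  rw [dd_apply, map_add, pl_jl, pl_jr, add_zero]

@[simp] theorem pr_dd (A : EuclideanSpace ℝ a →L[ℝ] EuclideanSpace ℝ a)
    (w : EuclideanSpace ℝ (a ⊕ a)) : pr (dd A w) = A (pr w) := by
  rw [dd_apply, map_add, pr_jl, pr_jr, zero_add]

/-- the complex structure composed with an operator: `(u, v) ↦ (-A v, A u)` -/
def dj (A : EuclideanSpace ℝ a →L[ℝ] EuclideanSpace ℝ a) :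
    EuclideanSpace ℝ (a ⊕ a) →L[ℝ] EuclideanSpace ℝ (a ⊕ a) :=
  jr.comp (A.comp pl) - jl.comp (A.comp pr)

theorem dj_apply (A : EuclideanSpace ℝ a →L[ℝ] EuclideanSpace ℝ a) (w : EuclideanSpace ℝ (a ⊕ a)) :
    dj A w = jr (A (pl w)) - jl (A (pr w)) := rfl

@[simp] theorem pl_dj (A : EuclideanSpace ℝ a →L[ℝ] EuclideanSpace ℝ a)
    (w : EuclideanSpace ℝ (a ⊕ a)) : pl (dj A w) = - A (pr w) := by
  rw [dj_apply, map_sub, pl_jl, pl_jr, zero_sub]

@[simp] theorem pr_dj (A : EuclideanSpace ℝ a →L[ℝ] EuclideanSpace ℝ a)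
    (w : EuclideanSpace ℝ (a ⊕ a)) : pr (dj A w) = A (pl w) := by
  rw [dj_apply, map_sub, pr_jl, pr_jr, sub_zero]

section sm
variable {G : Type*} [NormedAddCommGroup G] [NormedSpace ℝ G] {x : G} {k : WithTop ℕ∞}
  {A : G → EuclideanSpace ℝ a →L[ℝ] EuclideanSpace ℝ a}

theorem contDiffAt_dd (hA : ContDiffAt ℝ k A x) : ContDiffAt ℝ k (fun y => dd (A y)) x :=
  (contDiffAt_const.clm_comp (hA.clm_comp contDiffAt_const)).add
    (contDiffAt_const.clm_comp (hA.clm_comp contDiffAt_const))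

theorem contDiffAt_dj (hA : ContDiffAt ℝ k A x) : ContDiffAt ℝ k (fun y => dj (A y)) x :=
  (contDiffAt_const.clm_comp (hA.clm_comp contDiffAt_const)).sub
    (contDiffAt_const.clm_comp (hA.clm_comp contDiffAt_const))

end sm

/-! ### the rotations -/

/-- `R t` composed with the rotation by the angle `w t` -/
def R2 (R : ℝ → EuclideanSpace ℝ a →L[ℝ] EuclideanSpace ℝ a) (w t : ℝ) :
    EuclideanSpace ℝ (a ⊕ a) →L[ℝ] EuclideanSpace ℝ (a ⊕ a) :=
  Real.cos (w * t) • dd (R t) + Real.sin (w * t) • dj (R t)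

variable {R : ℝ → EuclideanSpace ℝ a →L[ℝ] EuclideanSpace ℝ a}

theorem R2_apply (w t : ℝ) (v : EuclideanSpace ℝ (a ⊕ a)) :
    R2 R w t v = Real.cos (w * t) • dd (R t) v + Real.sin (w * t) • dj (R t) v := rfl

theorem pl_R2 (w t : ℝ) (v : EuclideanSpace ℝ (a ⊕ a)) :
    pl (R2 R w t v) = Real.cos (w * t) • R t (pl v) - Real.sin (w * t) • R t (pr v) := by
  rw [R2_apply, map_add, map_smul, map_smul, pl_dd, pl_dj, smul_neg, sub_eq_add_neg]

theorem pr_R2 (w t : ℝ) (v : EuclideanSpace ℝ (a ⊕ a)) :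
    pr (R2 R w t v) = Real.sin (w * t) • R t (pl v) + Real.cos (w * t) • R t (pr v) := by
  rw [R2_apply, map_add, map_smul, map_smul, pr_dd, pr_dj, add_comm]

/-- the rotation in the form of `DD2.rot` -/
theorem R2_rot (w t : ℝ) (u v : EuclideanSpace ℝ a) :
    R2 R w t (jl u + jr v) = jl (Real.cos (w * t) • R t u - Real.sin (w * t) • R t v)
      + jr (Real.sin (w * t) • R t u + Real.cos (w * t) • R t v) := by
  refine ext_d ?_ ?_
  · rw [pl_R2]; simp
  · rw [pr_R2]; simp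

/-- the rotation in the form of `DD2.rot`, summands exchanged: weight `-w` -/
theorem R2_rot' (w t : ℝ) (u v : EuclideanSpace ℝ a) :
    R2 R (-w) t (jr u + jl v) = jr (Real.cos (w * t) • R t u - Real.sin (w * t) • R t v)
      + jl (Real.sin (w * t) • R t u + Real.cos (w * t) • R t v) := by
  refine ext_d ?_ ?_
  · rw [pl_R2, neg_mul, Real.cos_neg, Real.sin_neg]; simp; abel
  · rw [pr_R2, neg_mul, Real.cos_neg, Real.sin_neg]; simp; abel

theorem rep_R2 (hR : Rep R) {w : ℝ} (hw : ∃ k : ℤ, w = k) : Rep (R2 R w) where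
  smooth := by
    rw [contDiff_iff_contDiffAt]
    intro t
    have h1 : ContDiffAt ℝ ∞ (fun s : ℝ => w * s) t := contDiffAt_const.mul contDiffAt_id
    have h2 : ContDiffAt ℝ ∞ R t := hR.smooth.contDiffAt
    exact ((Real.contDiff_cos.contDiffAt.comp t h1).smul (contDiffAt_dd h2)).add
      ((Real.contDiff_sin.contDiffAt.comp t h1).smul (contDiffAt_dj h2))
  zero v := by
    refine ext_d ?_ ?_
    · rw [pl_R2, mul_zero, Real.cos_zero, Real.sin_zero, one_smul, zero_smul, sub_zero, hR.zero]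
    · rw [pr_R2, mul_zero, Real.cos_zero, Real.sin_zero, one_smul, zero_smul, zero_add, hR.zero]
  add s t v := by
    refine ext_d ?_ ?_
    · rw [pl_R2, pl_R2, pl_R2, pr_R2, mul_add, Real.cos_add, Real.sin_add, hR.add, hR.add]
      simp only [map_sub, map_add, map_smul]
      module
    · rw [pr_R2, pr_R2, pl_R2, pr_R2, mul_add, Real.cos_add, Real.sin_add, hR.add, hR.add]
      simp only [map_sub, map_add, map_smul]
      module
  per v := by
    obtain ⟨k, rfl⟩ := hw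
    have h1 : Real.cos ((k : ℝ) * (2 * Real.pi)) = 1 := Real.cos_int_mul_two_pi k
    have h2 : Real.sin ((k : ℝ) * (2 * Real.pi)) = 0 := by
      have := Real.sin_int_mul_pi (2 * k)
      push_cast at this
      rw [← this]; ring_nf
    refine ext_d ?_ ?_
    · rw [pl_R2, h1, h2, one_smul, zero_smul, sub_zero, hR.per]
    · rw [pr_R2, h1, h2, one_smul, zero_smul, zero_add, hR.per]
  iso t v := by
    have h1 : ‖R2 R w t v‖ ^ 2 = ‖v‖ ^ 2 := by
      rw [norm_sq_eq, norm_sq_eq v, pl_R2, pr_R2, norm_sub_sq_real, norm_add_sq_real]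
      simp only [norm_smul, hR.iso, real_inner_smul_left, real_inner_smul_right, mul_pow,
        Real.norm_eq_abs, sq_abs]
      linear_combination (‖pl v‖ ^ 2 + ‖pr v‖ ^ 2) * (Real.sin_sq_add_cos_sq (w * t))
    exact (sq_eq_sq₀ (norm_nonneg _) (norm_nonneg _)).1 h1

/-- rotation at double speed -/
theorem _root_.Crest.Agent.R208.CM.Rep.two {W : Type*} [NormedAddCommGroup W] [NormedSpace ℝ W]
    {R : ℝ → W →L[ℝ] W} (hR : Rep R) : Rep (fun t => R (2 * t)) where
  smooth := hR.smooth.comp (contDiff_const.mul contDiff_id)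
  zero w := by rw [mul_zero]; exact hR.zero w
  add s t w := by rw [mul_add]; exact hR.add _ _ w
  per w := by
    rw [show 2 * (2 * Real.pi) = 2 * Real.pi + 2 * Real.pi by ring, hR.add, hR.per, hR.per]
  iso t w := hR.iso _ w

end lin

/-! ### the doubled field -/
section field
variable {E : Type*} [NormedAddCommGroup E] [NormedSpace ℝ E]
  {a : Type} [Fintype a] [DecidableEq a] {X : Set E} {φ : ℝ → E → E} {r : ℕ}
  {R : ℝ → EuclideanSpace ℝ a →L[ℝ] EuclideanSpace ℝ a}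
  {N : E → EuclideanSpace ℝ a →L[ℝ] EuclideanSpace ℝ a} {x : E}

/-- `N ⊕ N` -/
def NN (N : E → EuclideanSpace ℝ a →L[ℝ] EuclideanSpace ℝ a) (x : E) :
    EuclideanSpace ℝ (a ⊕ a) →L[ℝ] EuclideanSpace ℝ (a ⊕ a) := dd (N x)

/-- the complex structure of `N ⊕ N` -/
def JJ (N : E → EuclideanSpace ℝ a →L[ℝ] EuclideanSpace ℝ a) (x : E) :
    EuclideanSpace ℝ (a ⊕ a) →L[ℝ] EuclideanSpace ℝ (a ⊕ a) := dj (N x)

theorem NN_add (u v : EuclideanSpace ℝ a) : NN N x (jl u + jr v) = jl (N x u) + jr (N x v) := by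
  rw [NN, dd_apply]; simp

theorem NN_add' (u v : EuclideanSpace ℝ a) : NN N x (jr u + jl v) = jr (N x u) + jl (N x v) := by
  rw [add_comm, NN_add, add_comm]

/-- points of the doubled bundle -/
theorem NN_eq_self_iff {w : EuclideanSpace ℝ (a ⊕ a)} :
    NN N x w = w ↔ N x (pl w) = pl w ∧ N x (pr w) = pr w := by
  constructor
  · intro h
    exact ⟨by rw [← pl_dd]; exact congrArg pl h, by rw [← pr_dd]; exact congrArg pr h⟩
  · rintro ⟨h1, h2⟩
    refine ext_d ?_ ?_
    · rw [NN, pl_dd, h1]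
    · rw [NN, pr_dd, h2]

theorem NN_idem (hi : ∀ v, N x (N x v) = N x v) (v : EuclideanSpace ℝ (a ⊕ a)) :
    NN N x (NN N x v) = NN N x v := by
  refine ext_d ?_ ?_
  · simp only [NN, pl_dd, hi]
  · simp only [NN, pr_dd, hi]

theorem NN_symm (hs : ∀ u v, ⟪N x u, v⟫ = ⟪u, N x v⟫) (u v : EuclideanSpace ℝ (a ⊕ a)) :
    ⟪NN N x u, v⟫ = ⟪u, NN N x v⟫ := by
  rw [inner_eq, inner_eq u]
  simp only [NN, pl_dd, pr_dd, hs]

theorem NN_equi (w : ℝ) (he : ∀ t v, N (φ t x) (R t v) = R t (N x v)) (t : ℝ)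
    (v : EuclideanSpace ℝ (a ⊕ a)) : NN N (φ t x) (R2 R w t v) = R2 R w t (NN N x v) := by
  refine ext_d ?_ ?_
  · rw [NN, pl_dd, pl_R2, pl_R2, NN, pl_dd, pr_dd]
    simp only [map_sub, map_smul, he]
  · rw [NN, pr_dd, pr_R2, pr_R2, NN, pl_dd, pr_dd]
    simp only [map_add, map_smul, he]

theorem contDiffAt_NN {k : WithTop ℕ∞} (h : ContDiffAt ℝ k N x) : ContDiffAt ℝ k (NN N) x :=
  contDiffAt_dd h

theorem contDiffAt_JJ {k : WithTop ℕ∞} (h : ContDiffAt ℝ k N x) : ContDiffAt ℝ k (JJ N) x :=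
  contDiffAt_dj h

/-- the range of `N ⊕ N` -/
def rangeE (x : E) : LinearMap.range (NN N x : EuclideanSpace ℝ (a ⊕ a) →ₗ[ℝ] EuclideanSpace ℝ (a ⊕ a))
    ≃ₗ[ℝ] LinearMap.range (N x : EuclideanSpace ℝ a →ₗ[ℝ] EuclideanSpace ℝ a)
      × LinearMap.range (N x : EuclideanSpace ℝ a →ₗ[ℝ] EuclideanSpace ℝ a) where
  toFun w := (⟨pl w.1, by obtain ⟨v, hv⟩ := w.2; exact ⟨pl v, by
      rw [← hv]; exact (pl_dd (N x) v).symm⟩⟩,
    ⟨pr w.1, by obtain ⟨v, hv⟩ := w.2; exact ⟨pr v, by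
      rw [← hv]; exact (pr_dd (N x) v).symm⟩⟩)
  map_add' v w := rfl
  map_smul' c w := rfl
  invFun p := ⟨jl p.1.1 + jr p.2.1, by
    obtain ⟨u, hu⟩ := p.1.2
    obtain ⟨v, hv⟩ := p.2.2
    refine ⟨jl u + jr v, ?_⟩
    have := NN_add (N := N) (x := x) u v
    rw [← hu, ← hv]
    exact this⟩
  left_inv w := Subtype.ext (jl_pl_add w.1)
  right_inv p := by
    refine Prod.ext (Subtype.ext ?_) (Subtype.ext ?_)
    · change pl (jl p.1.1 + jr p.2.1) = p.1.1
      simp
    · change pr (jl p.1.1 + jr p.2.1) = p.2.1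
      simp

theorem finrank_NN (x : E) :
    finrank ℝ (LinearMap.range (NN N x : EuclideanSpace ℝ (a ⊕ a) →ₗ[ℝ] EuclideanSpace ℝ (a ⊕ a)))
      = finrank ℝ (LinearMap.range (N x : EuclideanSpace ℝ a →ₗ[ℝ] EuclideanSpace ℝ a))
        + finrank ℝ (LinearMap.range (N x : EuclideanSpace ℝ a →ₗ[ℝ] EuclideanSpace ℝ a)) := by
  rw [(rangeE (N := N) x).finrank_eq, Module.finrank_prod]

theorem pfield_NN (h : PField X r N) : PField X (r + r) (NN N) where
  smooth x hx := contDiffAt_NN (h.smooth x hx)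
  idem x hx := NN_idem (h.idem x hx)
  rank x hx := by rw [finrank_NN, h.rank x hx]

end field

end Crest.Agent.R208.DD
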