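import Crest.Agent.R208.DD1

/-! Row 208, block DD (helper683).  DD2: the canonical orientation of `N ⊕ N`; 607's structure
`EW.DD2` for the doubled field. -/

set_option autoImplicit false
set_option linter.unusedSectionVars false
set_option linter.unusedVariables false
set_option linter.unusedSimpArgs false

open Set Filter Topology Module MeasureTheory Matrix
open scoped ContDiff RealInnerProductSpace ComplexConjugate Kronecker
open Crest.Agent.R208.F Crest.Agent.R208.FI Crest.Agent.R208.CW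
open Crest.Agent.R208.CM
open Crest.Agent.R208.T
open Crest.Agent.R208.EW

noncomputable section

namespace Crest.Agent.R208.DD

/-! ### orthonormal frames of symmetric projections -/
section frame
variable {a ι : Type} [Fintype a] [DecidableEq a] [Fintype ι] [DecidableEq ι]

/-- matrix of an orthonormal basis of the range of a symmetric projection -/
theorem exists_frame {A : EuclideanSpace ℝ a →L[ℝ] EuclideanSpace ℝ a} (hi : ∀ v, A (A v) = A v)
    (hs : ∀ u v, ⟪A u, v⟫ = ⟪u, A v⟫)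
    (hr : finrank ℝ (LinearMap.range (A : EuclideanSpace ℝ a →ₗ[ℝ] EuclideanSpace ℝ a))
      = Fintype.card ι) :
    ∃ u : ι → EuclideanSpace ℝ a, Orthonormal ℝ u ∧ (∀ i, A (u i) = u i) ∧
      ∀ v, A v = ∑ i, ⟪u i, v⟫ • u i := by
  set R := LinearMap.range (A : EuclideanSpace ℝ a →ₗ[ℝ] EuclideanSpace ℝ a) with hR
  let e : Fin (finrank ℝ R) ≃ ι := Fintype.equivOfCardEq (by rw [Fintype.card_fin, hr])
  let b : OrthonormalBasis ι ℝ R := (stdOrthonormalBasis ℝ R).reindex e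
  have hb : ∀ i, A (b i : EuclideanSpace ℝ a) = b i := fun i => by
    obtain ⟨v, hv⟩ := (b i).2
    have hv' : A v = (b i : EuclideanSpace ℝ a) := hv
    rw [← hv', hi]
  refine ⟨fun i => (b i : EuclideanSpace ℝ a), ?_, hb, fun v => ?_⟩
  · exact b.orthonormal.comp_linearIsometry R.subtypeₗᵢ
  · have h1 := b.sum_repr ⟨A v, ⟨v, rfl⟩⟩
    have h2 := congrArg (Subtype.val) h1
    rw [Submodule.coe_sum] at h2
    refine Eq.trans (Eq.symm h2) (Finset.sum_congr rfl fun i _ => ?_)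
    rw [Submodule.coe_smul, b.repr_apply_apply]
    congr 1
    change ⟪(b i : EuclideanSpace ℝ a), A v⟫ = _
    rw [← hs, hb]

/-- the frame of `N ⊕ N` -/
def fr2 (u : ι → EuclideanSpace ℝ a) : Matrix (a ⊕ a) (ι × Fin 2) ℝ :=
  Matrix.of fun s p => if p.2 = 0 then jl (u p.1) s else jr (u p.1) s

theorem fr2_zero (u : ι → EuclideanSpace ℝ a) (s : a ⊕ a) (j : ι) : fr2 u s (j, 0) = jl (u j) s := by
  simp [fr2]

theorem fr2_one (u : ι → EuclideanSpace ℝ a) (s : a ⊕ a) (j : ι) : fr2 u s (j, 1) = jr (u j) s := by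
  simp [fr2]

theorem fr2_iso {u : ι → EuclideanSpace ℝ a} (hu : Orthonormal ℝ u) : (fr2 u)ᵀ * fr2 u = 1 := by
  have huu : ∀ i j, ⟪u i, u j⟫ = if i = j then (1 : ℝ) else 0 :=
    orthonormal_iff_ite.1 hu
  have hs : ∀ i j, ∑ s, u i s * u j s = if i = j then (1 : ℝ) else 0 := fun i j => by
    rw [← huu, PiLp.inner_apply]
    exact Finset.sum_congr rfl fun s _ => by
      rw [RCLike.inner_apply, conj_trivial, mul_comm]
  refine Matrix.ext ?_
  rintro ⟨i, e⟩ ⟨j, e'⟩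
  rw [Matrix.mul_apply, Fintype.sum_sum_type, Matrix.one_apply]
  simp only [transpose_apply]
  fin_cases e <;> fin_cases e'
  · simp only [Fin.zero_eta, fr2_zero, jl_inl, jl_inr, mul_zero, Finset.sum_const_zero, add_zero, hs,
      Prod.mk.injEq, and_true]
  · simp [fr2_zero, fr2_one]
  · simp [fr2_zero, fr2_one]
  · simp only [Fin.mk_one, fr2_one, jr_inl, jr_inr, mul_zero, Finset.sum_const_zero, zero_add, hs,
      Prod.mk.injEq, and_true]

theorem fr2_proj {A : EuclideanSpace ℝ a →L[ℝ] EuclideanSpace ℝ a} {u : ι → EuclideanSpace ℝ a}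
    (hA : ∀ v, A v = ∑ i, ⟪u i, v⟫ • u i) (v : EuclideanSpace ℝ (a ⊕ a)) (s : a ⊕ a) :
    dd A v s = ∑ t, (fr2 u * (fr2 u)ᵀ) s t * v t := by
  have h1 : ∀ (w : EuclideanSpace ℝ a) (i : a), A w i = ∑ t, (∑ j, u j i * u j t) * w t := by
    intro w i
    rw [hA, WithLp.ofLp_sum, Finset.sum_apply]
    simp only [PiLp.smul_apply, smul_eq_mul, PiLp.inner_apply, RCLike.inner_apply, conj_trivial,
      Finset.sum_mul]
    rw [Finset.sum_comm]
    refine Finset.sum_congr rfl fun t _ => Finset.sum_congr rfl fun j _ => ?_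
    ring
  have h2 : ∀ s t, (fr2 u * (fr2 u)ᵀ) s t = ∑ j, (jl (u j) s * jl (u j) t + jr (u j) s * jr (u j) t) := by
    intro s t
    rw [Matrix.mul_apply, Fintype.sum_prod_type]
    refine Finset.sum_congr rfl fun j _ => ?_
    rw [Fin.sum_univ_two]
    simp only [transpose_apply, fr2_zero, fr2_one]
  rw [Fintype.sum_sum_type]
  rcases s with i | i
  · have e1 : dd A v (Sum.inl i) = A (pl v) i := by
      have := congrArg (fun w : EuclideanSpace ℝ a => w i) (pl_dd A v)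
      exact this
    rw [e1, h1]
    simp only [h2, jl_inl, jl_inr, jr_inl, jr_inr, mul_zero, zero_mul, add_zero, zero_add,
      Finset.sum_const_zero, pl_apply]
  · have e1 : dd A v (Sum.inr i) = A (pr v) i := by
      have := congrArg (fun w : EuclideanSpace ℝ a => w i) (pr_dd A v)
      exact this
    rw [e1, h1]
    simp only [h2, jl_inl, jl_inr, jr_inl, jr_inr, mul_zero, zero_mul, add_zero, zero_add,
      Finset.sum_const_zero, pr_apply]

end frame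

/-! ### the canonical orientation -/
section ori
variable {E : Type*} [NormedAddCommGroup E] [NormedSpace ℝ E] [FiniteDimensional ℝ E]
  {a ι : Type} [Fintype a] [DecidableEq a] [Fintype ι] [DecidableEq ι] {X : Set E}
  {N : E → EuclideanSpace ℝ a →L[ℝ] EuclideanSpace ℝ a} {x : E}

/-- the canonical orientation tensor of `N ⊕ N` -/
def Wc (ι : Type) [Fintype ι] [DecidableEq ι] (N : E → EuclideanSpace ℝ a →L[ℝ] EuclideanSpace ℝ a)
    (x : E) (I : ι × Fin 2 → a ⊕ a) : ℝ := (wJ ι (mc (JJ N x)) I).re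

theorem contDiffAt_Wc {k : WithTop ℕ∞} (h : ContDiffAt ℝ k N x) (I : ι × Fin 2 → a ⊕ a) :
    ContDiffAt ℝ k (fun y => Wc ι N y I) x :=
  Complex.reCLM.contDiff.contDiffAt.comp x
    (contDiffAt_wJ (k := k) (fun i j => contDiffAt_mc (contDiffAt_JJ h) i j) I)

theorem mc_JJ_tr (hs : ∀ u v, ⟪N x u, v⟫ = ⟪u, N x v⟫) : (mc (JJ N x))ᵀ = - mc (JJ N x) := by
  rw [← mc_adj, ← mc_neg]
  congr 1
  ext1 v
  refine ext_inner_right ℝ fun w => ?_
  rw [ContinuousLinearMap.adjoint_inner_left]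
  change ⟪v, JJ N x w⟫ = ⟪-(JJ N x v), w⟫
  rw [inner_neg_left, inner_eq, inner_eq (JJ N x v)]
  simp only [JJ, pl_dj, pr_dj, inner_neg_left, inner_neg_right]
  rw [hs, hs]
  ring

theorem mc_JJ_sq (hi : ∀ v, N x (N x v) = N x v) :
    mc (JJ N x) * mc (JJ N x) = - mc (NN N x) := by
  rw [← mc_comp, ← mc_neg]
  congr 1
  ext1 v
  change JJ N x (JJ N x v) = -(NN N x v)
  refine ext_d ?_ ?_
  · simp only [JJ, NN, pl_dj, pr_dj, map_neg, pl_dd, hi]
  · simp only [JJ, NN, pl_dj, pr_dj, map_neg, pr_dd, hi]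

theorem mc_JJ_NN (hi : ∀ v, N x (N x v) = N x v) :
    mc (JJ N x) * mc (NN N x) = mc (JJ N x) := by
  rw [← mc_comp]
  congr 1
  ext1 v
  change JJ N x (NN N x v) = JJ N x v
  refine ext_d ?_ ?_
  · simp only [JJ, NN, pl_dj, pr_dd, hi]
  · simp only [JJ, NN, pr_dj, pl_dd, hi]

theorem frJ (hi : ∀ v, N x (N x v) = N x v) (hs : ∀ u v, ⟪N x u, v⟫ = ⟪u, N x v⟫)
    {u : ι → EuclideanSpace ℝ a} (hu : Orthonormal ℝ u) (hNu : ∀ i, N x (u i) = u i)
    (hA : ∀ v, N x v = ∑ i, ⟪u i, v⟫ • u i) :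
    FrJ (mc (NN N x)) (mc (JJ N x))
      (fun I => ((((fr2 u).submatrix I id).det : ℝ) : ℂ)) := by
  refine ⟨Matrix.of fun s j => ((jl (u j) s : ℝ) : ℂ), (fr2 u).map (algebraMap ℝ ℂ),
    fun s j => ?_, fun s j => ?_, ?_, ?_, fun I => ?_⟩
  · rw [Matrix.map_apply, fr2_zero]; rfl
  · rw [Matrix.map_apply, fr2_one, Matrix.mul_apply]
    have h1 : JJ N x (jl (u j)) = jr (u j) := by
      refine ext_d ?_ ?_
      · simp [JJ]
      · simp [JJ, hNu]
    have h2 : JJ N x (jl (u j)) s = ∑ t, MT (JJ N x) s t * jl (u j) t := by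
      rw [← mE_apply, mE_MT]
    rw [h1] at h2
    rw [h2]
    simp only [Matrix.of_apply]
    change ((∑ t, MT (JJ N x) s t * jl (u j) t : ℝ) : ℂ) = _
    push_cast
    rfl
  · rw [← Matrix.transpose_map, ← Matrix.map_mul, fr2_iso hu,
      Matrix.map_one _ (map_zero _) (map_one _)]
  · rw [← Matrix.transpose_map, ← Matrix.map_mul]
    change (fr2 u * (fr2 u)ᵀ).map (algebraMap ℝ ℂ) = (MT (NN N x)).map (algebraMap ℝ ℂ)
    congr 1
    refine mE_injective ?_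
    ext1 v
    ext s
    rw [mE_MT, mE_apply]
    exact (fr2_proj hA v s).symm
  · change algebraMap ℝ ℂ ((fr2 u).submatrix I id).det
      = (((fr2 u).submatrix I id).map (algebraMap ℝ ℂ)).det
    exact RingHom.map_det (algebraMap ℝ ℂ) _

/-- **the doubled field is canonically oriented** -/
theorem or_NN (hsm : ∀ x ∈ X, ContDiffAt ℝ ∞ N x) (hi : ∀ x ∈ X, ∀ v, N x (N x v) = N x v)
    (hs : ∀ x ∈ X, ∀ u v, ⟪N x u, v⟫ = ⟪u, N x v⟫)
    (hr : ∀ x ∈ X, finrank ℝ (LinearMap.range (N x : EuclideanSpace ℝ a →ₗ[ℝ] EuclideanSpace ℝ a))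
      = Fintype.card ι) : OR (ι := ι) X (NN N) (Wc ι N) := by
  refine ⟨fun x hx => contDiffAt_NN (hsm x hx), fun x hx I => contDiffAt_Wc (hsm x hx) I,
    fun x hx => ?_⟩
  obtain ⟨u, hu, hNu, hA⟩ := exists_frame (ι := ι) (hi x hx) (hs x hx) (hr x hx)
  refine ⟨fr2 u, fr2_iso hu, fun v i => fr2_proj hA v i, fun I => ?_⟩
  have h := (frJ (hi x hx) (hs x hx) hu hNu hA).eq_wJ (mc_JJ_tr (hs x hx)) (mc_JJ_sq (hi x hx))
    (mc_JJ_NN (hi x hx))
  have h1 := congrFun h I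
  rw [Wc, ← h1, Complex.ofReal_re]

/-- the orientation tensor is that of every frame `(u_i, J u_i)` -/
theorem Wc_eq (hi : ∀ v, N x (N x v) = N x v) (hs : ∀ u v, ⟪N x u, v⟫ = ⟪u, N x v⟫)
    {u : ι → EuclideanSpace ℝ a} (hu : Orthonormal ℝ u) (hNu : ∀ i, N x (u i) = u i)
    (hA : ∀ v, N x v = ∑ i, ⟪u i, v⟫ • u i) (I : ι × Fin 2 → a ⊕ a) :
    Wc ι N x I = ((fr2 u).submatrix I id).det := by
  have h := (frJ hi hs hu hNu hA).eq_wJ (mc_JJ_tr hs) (mc_JJ_sq hi) (mc_JJ_NN hi)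
  have h1 := congrFun h I
  rw [Wc, ← h1, Complex.ofReal_re]

end ori

/-! ### 607's structure -/
section dd2
variable {E : Type} [NormedAddCommGroup E] [NormedSpace ℝ E] [FiniteDimensional ℝ E]
  {a p q κ : Type} [Fintype a] [DecidableEq a] [Fintype p]
  [DecidableEq p] [Fintype q] [DecidableEq q] [Fintype κ] [DecidableEq κ]
  {X : Set E} {φ : ℝ → E → E} {m d r : ℕ} {g : E → Fin m → ℂ}
  {R : ℝ → EuclideanSpace ℝ a →L[ℝ] EuclideanSpace ℝ a}
  {Tr : E → EuclideanSpace ℝ a →L[ℝ] EuclideanSpace ℝ p}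
  {T₂ : E → EuclideanSpace ℝ (a ⊕ a) →L[ℝ] EuclideanSpace ℝ q}
  {N : E → EuclideanSpace ℝ a →L[ℝ] EuclideanSpace ℝ a}
  {w : ℝ} {z : E → κ → ℂ}
  {ι : Type} [Fintype ι] [DecidableEq ι]

/-- equivariant symmetric projection field -/
structure EqF (X : Set E) (φ : ℝ → E → E) (R : ℝ → EuclideanSpace ℝ a →L[ℝ] EuclideanSpace ℝ a)
    (r : ℕ) (N : E → EuclideanSpace ℝ a →L[ℝ] EuclideanSpace ℝ a) : Prop where
  rep : Rep R
  pf : PField X r N
  sy : ∀ x ∈ X, ∀ u v, ⟪N x u, v⟫ = ⟪u, N x v⟫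
  eq : ∀ x ∈ X, ∀ t v, N (φ t x) (R t v) = R t (N x v)

/-- a map to the unit sphere of `ℂ^κ` of weight `w` -/
structure Wgt (X : Set E) (φ : ℝ → E → E) (w : ℝ) (z : E → κ → ℂ) : Prop where
  int : ∃ k : ℤ, w = k
  smz : ∀ x ∈ X, ContDiffAt ℝ ∞ z x
  unit : ∀ x ∈ X, ∑ i, z x i * conj (z x i) = 1
  eqz : ∀ x ∈ X, ∀ t : ℝ, z (φ t x) = Complex.exp ((w * t : ℝ) * Complex.I) • z x

/-- **607's structure** for `N ⊕ N`, rotation `R2 R w` -/
theorem EqF.dd2 (h : EqF X φ R r N) (hz : Wgt X φ w z) (hT : Triv X φ R Tr)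
    (hT₂ : Triv X φ (R2 R w) T₂) : EW.DD2 X φ R (R2 R w) Tr T₂ N (NN N) jl jr w z where
  dbl := dbl
  rep := h.rep
  rep₂ := rep_R2 h.rep hz.int
  triv := hT
  triv₂ := hT₂
  rot t u v := R2_rot w t u v
  smN := h.pf.smooth
  idN := h.pf.idem
  syN := h.sy
  eqN := h.eq
  nn x hx u v := NN_add u v
  smz := hz.smz
  unit := hz.unit
  eqz := hz.eqz

/-- **607's structure** for `N ⊕ N`, rotation `R2 R (-w)`, summands exchanged -/
theorem EqF.dd2' (h : EqF X φ R r N) (hz : Wgt X φ w z) (hT : Triv X φ R Tr)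
    (hT₂ : Triv X φ (R2 R (-w)) T₂) :
    EW.DD2 X φ R (R2 R (-w)) Tr T₂ N (NN N) jr jl w z where
  dbl := dbl'
  rep := h.rep
  rep₂ := rep_R2 h.rep (by obtain ⟨k, hk⟩ := hz.int; exact ⟨-k, by rw [hk]; push_cast; ring⟩)
  triv := hT
  triv₂ := hT₂
  rot t u v := R2_rot' w t u v
  smN := h.pf.smooth
  idN := h.pf.idem
  syN := h.sy
  eqN := h.eq
  nn x hx u v := NN_add' u v
  smz := hz.smz
  unit := hz.unit
  eqz := hz.eqz

theorem EqF.or (h : EqF X φ R (Fintype.card ι) N) : OR (ι := ι) X (NN N) (Wc ι N) :=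
  or_NN h.pf.smooth h.pf.idem h.sy h.pf.rank

theorem EqF.eq₂ (h : EqF X φ R r N) (w : ℝ) : ∀ x ∈ X, ∀ t v,
    NN N (φ t x) (R2 R w t v) = R2 R w t (NN N x v) := fun x hx t v => NN_equi w (h.eq x hx) t v

/-- weight one: the embedding itself -/
theorem wgt_one (hg : Emb X φ g) : Wgt X φ 1 g where
  int := ⟨1, by norm_num⟩
  smz := hg.smooth
  unit x hx := sum_g hg hx
  eqz x hx t := by rw [one_mul]; exact hg.equi x hx t

/-- weight two: `g ⊗ g` -/
theorem wgt_two (hg : Emb X φ g) : Wgt X φ 2 (g2 g) where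
  int := ⟨2, by norm_num⟩
  smz x hx := by
    rw [contDiffAt_pi]
    intro i
    exact (contDiffAt_pi.1 (hg.smooth x hx) i.1).mul (contDiffAt_pi.1 (hg.smooth x hx) i.2)
  unit x hx := sum_g2 hg hx
  eqz x hx t := by
    funext i
    change g (φ t x) i.1 * g (φ t x) i.2 = _
    rw [hg.equi x hx t]
    change (Complex.exp (t * Complex.I) * g x i.1) * (Complex.exp (t * Complex.I) * g x i.2)
      = Complex.exp ((2 * t : ℝ) * Complex.I) * (g x i.1 * g x i.2)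
    rw [show (((2 * t : ℝ) : ℂ)) * Complex.I = (t : ℂ) * Complex.I + (t : ℂ) * Complex.I by
      push_cast; ring, Complex.exp_add]
    ring

/-- the descended objects -/
structure Dsc (X : Set E) (g : E → Fin m → ℂ) (φ : ℝ → E → E)
    (R : ℝ → EuclideanSpace ℝ a →L[ℝ] EuclideanSpace ℝ a) (r : ℕ)
    (N : E → EuclideanSpace ℝ a →L[ℝ] EuclideanSpace ℝ a)
    (Tr : E → EuclideanSpace ℝ a →L[ℝ] EuclideanSpace ℝ p)
    (P' : MM m → EuclideanSpace ℝ p →L[ℝ] EuclideanSpace ℝ p) : Prop where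
  triv : Triv X φ R Tr
  sm : ContDiff ℝ ∞ P'
  pf : PField (Quo X g) r P'
  sy : ∀ y ∈ Quo X g, ∀ v w, ⟪P' y v, w⟫ = ⟪v, P' y w⟫
  eq : ∀ x ∈ X, P' (jj g x) = Qd Tr N x

/-- the descended doubled objects, with orientation -/
structure Dsc2 (ι : Type) [Fintype ι] [DecidableEq ι] (X : Set E) (g : E → Fin m → ℂ)
    (φ : ℝ → E → E) (R : ℝ → EuclideanSpace ℝ a →L[ℝ] EuclideanSpace ℝ a) (w : ℝ)
    (N : E → EuclideanSpace ℝ a →L[ℝ] EuclideanSpace ℝ a)
    (T₂ : E → EuclideanSpace ℝ (a ⊕ a) →L[ℝ] EuclideanSpace ℝ q)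
    (P₂ : MM m → EuclideanSpace ℝ q →L[ℝ] EuclideanSpace ℝ q) (W₂ : MM m → (ι × Fin 2 → q) → ℝ) :
    Prop where
  triv : Triv X φ (R2 R w) T₂
  smP : ContDiff ℝ ∞ P₂
  smW : ContDiff ℝ ∞ W₂
  or : OR (ι := ι) (Quo X g) P₂ W₂
  eqP : ∀ x ∈ X, P₂ (jj g x) = Qd T₂ (NN N) x
  eqW : ∀ x ∈ X, W₂ (jj g x) = Wd T₂ (Wc ι N) x

theorem EqF.exists_dsc (h : EqF X φ R r N) (hg : Emb X φ g) (hC : Cir X φ) (hX : Clo (d + 1) X) :
    ∃ (p : ℕ) (Tr : E → EuclideanSpace ℝ a →L[ℝ] EuclideanSpace ℝ (Fin p))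
      (P' : MM m → EuclideanSpace ℝ (Fin p) →L[ℝ] EuclideanSpace ℝ (Fin p)),
      Dsc X g φ R r N Tr P' := by
  obtain ⟨p, Tr, t1, t2, t3⟩ := exists_T hg h.rep
  have hT : Triv X φ R Tr := ⟨t1, t2, t3⟩
  obtain ⟨P', h1, h2, h3, h4⟩ := hg.desc_PField hC hX h.rep hT h.pf h.sy h.eq
  exact ⟨p, Tr, P', hT, h1, h2, h3, h4⟩

theorem EqF.exists_dsc2 (h : EqF X φ R (Fintype.card ι) N) (hg : Emb X φ g) (hC : Cir X φ)
    (hX : Clo (d + 1) X) (hw : ∃ k : ℤ, w = k) :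
    ∃ (q : ℕ) (T₂ : E → EuclideanSpace ℝ (a ⊕ a) →L[ℝ] EuclideanSpace ℝ (Fin q))
      (P₂ : MM m → EuclideanSpace ℝ (Fin q) →L[ℝ] EuclideanSpace ℝ (Fin q))
      (W₂ : MM m → (ι × Fin 2 → Fin q) → ℝ), Dsc2 ι X g φ R w N T₂ P₂ W₂ := by
  obtain ⟨q, T₂, P₂, W₂, h1, h2, h3, h4, h5, h6⟩ :=
    hg.exists_quotient_field hC hX (rep_R2 h.rep hw) (h.or (ι := ι)) (h.eq₂ w)
  exact ⟨q, T₂, P₂, W₂, h1, h2, h3, h4, h5, h6⟩

/-- rank of the descended doubled field -/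
theorem Dsc2.pfield {P₂ : MM m → EuclideanSpace ℝ q →L[ℝ] EuclideanSpace ℝ q}
    {W₂ : MM m → (ι × Fin 2 → q) → ℝ} (h : Dsc2 ι X g φ R w N T₂ P₂ W₂)
    (hN : EqF X φ R (Fintype.card ι) N) :
    PField (Quo X g) (Fintype.card ι + Fintype.card ι) P₂ :=
  h.triv.pfield_desc (pfield_NN hN.pf) (fun x _ => h.smP.contDiffAt) h.eqP

end dd2

end Crest.Agent.R208.DD
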