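import Mathlib

/-!
# R208, gap (A) (k = 8, m = 2): the Diophantine endgame

Input (posts #11064 (3), #11093 (4)): the two coefficient equations of the doubling identity
`(E)`, with `β` the (integer) coefficient, `G`, `η` rational and `k = ±1` the orientation sign.
Output: `β = -12`, hence `i(M) = 39`.
-/

namespace Crest.Agent.R208.DIO

/-- Newton iteration with fuel, used only to produce a witness. -/
def newton (n : ℕ) : ℕ → ℕ → ℕ
  | 0, x => x
  | k + 1, x => newton n k ((x + n / x) / 2)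

/-- `n` lies strictly between two consecutive squares. -/
def between (n r : ℕ) : Bool := decide (r * r < n) && decide (n < (r + 1) * (r + 1))

theorem not_sq_of_between {n r : ℕ} (h : between n r = true) (y : ℤ) : y ^ 2 ≠ (n : ℤ) := by
  intro hy
  simp only [between, Bool.and_eq_true, decide_eq_true_eq] at h
  obtain ⟨h1, h2⟩ := h
  have hy' : (y.natAbs) ^ 2 = n := by
    have : ((y.natAbs : ℤ)) ^ 2 = (n : ℤ) := by rw [Int.natAbs_sq]; exact hy
    exact_mod_cast this
  rw [← hy'] at h1 h2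
  have h1' : r * r < y.natAbs * y.natAbs := by simpa [sq] using h1
  have h2' : y.natAbs * y.natAbs < (r + 1) * (r + 1) := by simpa [sq] using h2
  have a1 : r < y.natAbs := Nat.mul_self_lt_mul_self_iff.mp h1'
  have a2 : y.natAbs < r + 1 := Nat.mul_self_lt_mul_self_iff.mp h2'
  omega

theorem not_sq_of_between_int {n a : ℤ} (ha : 0 ≤ a) (h1 : a ^ 2 < n) (h2 : n < (a + 1) ^ 2)
    (y : ℤ) : y ^ 2 ≠ n := by
  intro hy
  rw [← hy] at h1 h2
  have a1 : |a| < |y| := sq_lt_sq.mp h1
  have a2 : |y| < |a + 1| := sq_lt_sq.mp h2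
  rw [abs_of_nonneg ha] at a1
  rw [abs_of_nonneg (by omega : (0 : ℤ) ≤ a + 1)] at a2
  omega

/-! ### sign `+1` -/

def E1 (c : ℤ) : ℤ := 441 * c ^ 4 + 4032 * c ^ 3 + 3558 * c ^ 2 - 216 * c + 175617

/-- witness close to the root -/
def wit1 (c : ℤ) : ℕ :=
  newton (E1 c).toNat 8 (21 * c.natAbs * c.natAbs + 96 * c.natAbs + 500)

def ok1 (c : ℤ) : Bool :=
  decide (c = -6) || (decide (0 ≤ E1 c) && between (E1 c).toNat (wit1 c))

theorem all1 : (List.range 3100).all (fun n : ℕ => ok1 ((n : ℤ) - 2200)) = true := by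
  decide +kernel

theorem sq_E1 {c y : ℤ} (h : y ^ 2 = E1 c) : c = -6 := by
  by_contra hc
  rcases lt_or_ge c (-2200) with h1 | h1
  · refine not_sq_of_between_int (a := 21 * c ^ 2 + 96 * c - 135) ?_ ?_ ?_ y h
    · nlinarith
    · unfold E1; nlinarith
    · unfold E1; nlinarith
  · rcases lt_or_ge c 900 with h2 | h2
    · have := List.all_eq_true.mp all1 (c + 2200).toNat (by
        rw [List.mem_range]; omega)
      have e : (((c + 2200).toNat : ℕ) : ℤ) - 2200 = c := by omega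
      simp only [e, ok1, Bool.or_eq_true, Bool.and_eq_true, decide_eq_true_eq] at this
      rcases this with h3 | ⟨h3, h4⟩
      · exact hc h3
      · refine not_sq_of_between h4 y ?_
        rw [h, Int.toNat_of_nonneg h3]
    · refine not_sq_of_between_int (a := 21 * c ^ 2 + 96 * c - 135) ?_ ?_ ?_ y h
      · nlinarith
      · unfold E1; nlinarith
      · unfold E1; nlinarith

/-! ### sign `-1` -/

def E2 (c : ℤ) : ℤ := (149 * c ^ 2 - 96 * c + 255) ^ 2 + 12 * (3 - 2 * c) * (3072 - 4778 * c)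

def wit2 (c : ℤ) : ℕ :=
  newton (E2 c).toNat 8 (149 * c.natAbs * c.natAbs + 96 * c.natAbs + 1500)

def ok2 (c : ℤ) : Bool := (decide (0 ≤ E2 c) && between (E2 c).toNat (wit2 c))

theorem all2 : (List.range 3800).all (fun n : ℕ => ok2 ((n : ℤ) - 3000)) = true := by
  decide +kernel

theorem sq_E2 {c y : ℤ} (h : y ^ 2 = E2 c) : False := by
  rcases lt_or_ge c (-3000) with h1 | h1
  · refine not_sq_of_between_int (a := 149 * c ^ 2 - 96 * c + 255 + 384) ?_ ?_ ?_ y h
    · nlinarith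
    · unfold E2; nlinarith
    · unfold E2; nlinarith
  · rcases lt_or_ge c 800 with h2 | h2
    · have := List.all_eq_true.mp all2 (c + 3000).toNat (by
        rw [List.mem_range]; omega)
      have e : (((c + 3000).toNat : ℕ) : ℤ) - 3000 = c := by omega
      simp only [e, ok2, Bool.and_eq_true, decide_eq_true_eq] at this
      obtain ⟨h3, h4⟩ := this
      refine not_sq_of_between h4 y ?_
      rw [h, Int.toNat_of_nonneg h3]
    · refine not_sq_of_between_int (a := 149 * c ^ 2 - 96 * c + 255 + 384) ?_ ?_ ?_ y h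
      · nlinarith
      · unfold E2; nlinarith
      · unfold E2; nlinarith

/-- a rational square that is an integer is an integer square -/
theorem exists_int_sq {q : ℚ} {n : ℤ} (h : q ^ 2 = n) : ∃ y : ℤ, y ^ 2 = n := by
  have h1 : q.den = 1 := by
    have h2 : (q ^ 2).den = 1 := by rw [h]; exact Rat.den_intCast n
    rw [Rat.den_pow] at h2
    exact (Nat.pow_eq_one.mp h2).resolve_right (by norm_num)
  refine ⟨q.num, ?_⟩
  have h3 : (q.num : ℚ) = q := by
    conv_rhs => rw [← Rat.num_div_den q, h1]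
    simp
  exact_mod_cast (show ((q.num : ℚ)) ^ 2 = (n : ℚ) by rw [h3, h])

/-- **Endgame for `s = 1`** (rational form). -/
theorem endgame {b i : ℤ} (hi : 4 * i = b ^ 2 + 12) {k : ℤ} (hk : k = 1 ∨ k = -1) {G η : ℚ}
    (h1 : G * η + (3 - b) / 4 = -k * (1365 / 4096) * b)
    (h2 : 3 * G + (3 - b) * η - (3 - b) * b / 4 = k * (85 / 256) * (12 + b ^ 2)) :
    b = -12 ∧ i = 39 := by
  have hev : Even b := by
    have : Even (b ^ 2) := ⟨2 * i - 6, by linarith⟩
    exact (Int.even_pow.mp this).1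
  obtain ⟨c, hc⟩ := hev
  have hc' : b = 2 * c := by omega
  subst hc'
  have key : c = -6 := by
    rcases hk with rfl | rfl
    · obtain ⟨y, hy⟩ := exists_int_sq (q := 64 * (3 * G - (3 - 2 * c) * η)) (n := E1 c) (by
        unfold E1
        push_cast at h1 h2 ⊢
        have e1 : G * η = -(3 - 2 * (c:ℚ)) / 4 - (1365 / 4096) * (2 * c) := by linarith
        have e2 : 3 * G + (3 - 2 * (c:ℚ)) * η
            = (85 / 256) * (12 + (2 * c) ^ 2) + (3 - 2 * c) * (2 * c) / 4 := by linarith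
        have e3 : (64 * (3 * G - (3 - 2 * (c:ℚ)) * η)) ^ 2
          = 4096 * ((3 * G + (3 - 2 * (c:ℚ)) * η) ^ 2 - 12 * (3 - 2 * c) * (G * η)) := by ring
        rw [e3, e2, e1]; ring)
      exact sq_E1 hy
    · exfalso
      obtain ⟨y, hy⟩ := exists_int_sq (q := 64 * (3 * G - (3 - 2 * c) * η)) (n := E2 c) (by
        unfold E2
        push_cast at h1 h2 ⊢
        have e1 : G * η = -(3 - 2 * (c:ℚ)) / 4 + (1365 / 4096) * (2 * c) := by linarith
        have e2 : 3 * G + (3 - 2 * (c:ℚ)) * η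
            = -(85 / 256) * (12 + (2 * c) ^ 2) + (3 - 2 * c) * (2 * c) / 4 := by linarith
        have e3 : (64 * (3 * G - (3 - 2 * (c:ℚ)) * η)) ^ 2
          = 4096 * ((3 * G + (3 - 2 * (c:ℚ)) * η) ^ 2 - 12 * (3 - 2 * c) * (G * η)) := by ring
        rw [e3, e2, e1]; ring)
      exact sq_E2 hy
  subst key
  refine ⟨by norm_num, ?_⟩
  omega

/-- **Endgame, real form**: only `η` (the `e^4`-coefficient of `e(H)`) has to be rational. -/
theorem main {b i : ℤ} (hi : 4 * i = b ^ 2 + 12) {G η κ : ℝ} (hη : ∃ q : ℚ, η = q)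
    (hκ : κ = 1 ∨ κ = -1)
    (e1 : G * η + (3 - b) / 4 = -κ * (1365 / 4096) * b)
    (e2 : 3 * G + (3 - b) * η - (3 - b) * b / 4 = κ * (85 / 256) * (12 + b ^ 2)) :
    b = -12 ∧ i = 39 := by
  obtain ⟨q, rfl⟩ := hη
  obtain ⟨k, hk, hkκ⟩ : ∃ k : ℤ, (k = 1 ∨ k = -1) ∧ κ = (k : ℝ) := by
    rcases hκ with rfl | rfl
    · exact ⟨1, Or.inl rfl, by norm_num⟩
    · exact ⟨-1, Or.inr rfl, by norm_num⟩
  subst hkκ
  obtain ⟨g, hg⟩ : ∃ g : ℚ, G = (g : ℝ) := by
    refine ⟨(k * (85 / 256) * (12 + b ^ 2) - (3 - b) * q + (3 - b) * b / 4) / 3, ?_⟩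
    push_cast
    linarith
  subst hg
  refine endgame hi hk (G := g) (η := q) ?_ ?_
  · apply Rat.cast_injective (α := ℝ)
    push_cast
    linarith
  · apply Rat.cast_injective (α := ℝ)
    push_cast
    linarith

/-- mirrored form (`x₀ ↦ -x₀`, `b ↦ -b`). -/
theorem main' {b i : ℤ} (hi : 4 * i = b ^ 2 + 12) {G η κ : ℝ} (hη : ∃ q : ℚ, η = q)
    (hκ : κ = 1 ∨ κ = -1)
    (e1 : G * η + (3 + b) / 4 = κ * (1365 / 4096) * b)
    (e2 : 3 * G + (3 + b) * η + (3 + b) * b / 4 = κ * (85 / 256) * (12 + b ^ 2)) :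
    b = 12 ∧ i = 39 := by
  have := main (b := -b) (i := i) (by linarith [neg_sq b]) hη hκ (G := G)
    (by push_cast; linarith) (by push_cast; linarith)
  exact ⟨by linarith [this.1], this.2⟩

end Crest.Agent.R208.DIO

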