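import Crest.Agent.R208.DIO1

/-! R208, case (k, m) = (8, 2): the class-algebra step in degree 22, from the doubling identity
(P2) in a commutative algebra to the two scalar equations of `DIO.main` (helper95), and the
composition.  helper243. -/

namespace Crest.Agent.R208.DIO

section Classes

variable {A : Type*} [CommRing A] [Algebra ℝ A]

/-- The doubling identity (P2) in a commutative algebra, paired with two functionals
`I₁ = ∫ e^4 ·`, `I₂ = ∫ x ·` (or any two functionals that separate `e^11` and `e^7 x`), gives the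
two scalar equations.  `g` is the coefficient of `c_7(N_C ⊗ L^{1/2}) = (e/2)(g e^6 + (3-b) e^2 x)`. -/
theorem eqs_of_class (e x : A) (b g η κ : ℝ) (hκ : κ = 1 ∨ κ = -1)
    (hlin : ∀ u v : ℝ, u • e ^ 11 + v • (e ^ 7 * x) = 0 → u = 0 ∧ v = 0)
    (hrel : (12 : ℝ) • (e ^ 3 * x ^ 2) = e ^ 11 - b • (e ^ 7 * x))
    (hP : κ • (((1 / 2 : ℝ) • (g • e ^ 7 + (3 - b) • (e ^ 3 * x))) * (η • e ^ 4 + (3 : ℝ) • x))
      = (-(4 - 1 / 1024) * (b / 24)) • e ^ 11
        + ((4 - 1 / 64) * ((12 + b ^ 2) / 24)) • (e ^ 7 * x)) :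
    g * η + (3 - b) / 4 = -κ * (1365 / 4096) * b ∧
    3 * g + (3 - b) * η - (3 - b) * b / 4 = κ * (85 / 256) * (12 + b ^ 2) := by
  have hκ2 : κ * κ = 1 := by rcases hκ with rfl | rfl <;> norm_num
  have h3 : e ^ 3 * x ^ 2 = (1 / 12 : ℝ) • e ^ 11 - (b / 12) • (e ^ 7 * x) := by
    have := congrArg (fun z => (1 / 12 : ℝ) • z) hrel
    simp only [smul_smul, smul_sub] at this
    norm_num at this
    rw [this]
    congr 1
    ring_nf
  have hexp : ((1 / 2 : ℝ) • (g • e ^ 7 + (3 - b) • (e ^ 3 * x))) * (η • e ^ 4 + (3 : ℝ) • x)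
      = ((g * η + (3 - b) / 4) / 2) • e ^ 11
        + ((3 * g + (3 - b) * η - (3 - b) * b / 4) / 2) • (e ^ 7 * x) := by
    have : ((1 / 2 : ℝ) • (g • e ^ 7 + (3 - b) • (e ^ 3 * x))) * (η • e ^ 4 + (3 : ℝ) • x)
        = ((g * η) / 2) • e ^ 11 + ((3 * g + (3 - b) * η) / 2) • (e ^ 7 * x)
          + (3 * (3 - b) / 2) • (e ^ 3 * x ^ 2) := by
      have t1 : e ^ 7 * e ^ 4 = e ^ 11 := by ring
      have t2 : e ^ 3 * x * e ^ 4 = e ^ 7 * x := by ring
      have t3 : e ^ 3 * x * x = e ^ 3 * x ^ 2 := by ring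
      simp only [mul_add, add_mul, smul_add, smul_mul_assoc, mul_smul_comm, smul_smul, t1, t2, t3]
      module
    rw [this, h3]
    module
  rw [hexp] at hP
  have h0 := hlin (κ * ((g * η + (3 - b) / 4) / 2) + (4 - 1 / 1024) * (b / 24))
    (κ * ((3 * g + (3 - b) * η - (3 - b) * b / 4) / 2) - (4 - 1 / 64) * ((12 + b ^ 2) / 24)) (by
      rw [smul_add, smul_smul, smul_smul] at hP
      rw [add_smul, sub_smul, add_sub_assoc']
      have := sub_eq_zero.2 hP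
      rw [← this]
      module)
  obtain ⟨h1, h2⟩ := h0
  constructor
  · have : κ * (κ * ((g * η + (3 - b) / 4) / 2) + (4 - 1 / 1024) * (b / 24)) = 0 := by
      rw [h1]; ring
    linear_combination 2 * this - (g * η + (3 - b) / 4) * hκ2
  · have : κ * (κ * ((3 * g + (3 - b) * η - (3 - b) * b / 4) / 2)
        - (4 - 1 / 64) * ((12 + b ^ 2) / 24)) = 0 := by
      rw [h2]; ring
    linear_combination 2 * this - (3 * g + (3 - b) * η - (3 - b) * b / 4) * hκ2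

/-- Composition: (P2) in a commutative algebra gives `b = -12`, `i = 39`. -/
theorem endgame_of_class {b i : ℤ} (hi : 4 * i = b ^ 2 + 12) (e x : A) (g η κ : ℝ)
    (hη : ∃ q : ℚ, η = q) (hκ : κ = 1 ∨ κ = -1)
    (hlin : ∀ u v : ℝ, u • e ^ 11 + v • (e ^ 7 * x) = 0 → u = 0 ∧ v = 0)
    (hrel : (12 : ℝ) • (e ^ 3 * x ^ 2) = e ^ 11 - (b : ℝ) • (e ^ 7 * x))
    (hP : κ • (((1 / 2 : ℝ) • (g • e ^ 7 + (3 - (b : ℝ)) • (e ^ 3 * x)))
        * (η • e ^ 4 + (3 : ℝ) • x))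
      = (-(4 - 1 / 1024) * ((b : ℝ) / 24)) • e ^ 11
        + ((4 - 1 / 64) * ((12 + (b : ℝ) ^ 2) / 24)) • (e ^ 7 * x)) :
    b = -12 ∧ i = 39 := by
  obtain ⟨h1, h2⟩ := eqs_of_class e x b g η κ hκ hlin hrel hP
  exact main hi hη hκ h1 h2

/-- `hlin` from two linear functionals (`I₁ z = ∫ e^4 z`, `I₂ z = ∫ x z`) with non-zero
determinant. -/
theorem lin_of_pairing (e x : A) (I₁ I₂ : A →ₗ[ℝ] ℝ)
    (hdet : I₁ (e ^ 11) * I₂ (e ^ 7 * x) - I₁ (e ^ 7 * x) * I₂ (e ^ 11) ≠ 0) :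
    ∀ u v : ℝ, u • e ^ 11 + v • (e ^ 7 * x) = 0 → u = 0 ∧ v = 0 := by
  intro u v h
  have h1 := congrArg I₁ h
  have h2 := congrArg I₂ h
  simp only [map_add, map_smul, smul_eq_mul, map_zero] at h1 h2
  constructor
  · have : u * (I₁ (e ^ 11) * I₂ (e ^ 7 * x) - I₁ (e ^ 7 * x) * I₂ (e ^ 11)) = 0 := by
      linear_combination I₂ (e ^ 7 * x) * h1 - I₁ (e ^ 7 * x) * h2
    exact (mul_eq_zero.1 this).resolve_right hdet
  · have : v * (I₁ (e ^ 11) * I₂ (e ^ 7 * x) - I₁ (e ^ 7 * x) * I₂ (e ^ 11)) = 0 := by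
      linear_combination I₁ (e ^ 11) * h2 - I₂ (e ^ 11) * h1
    exact (mul_eq_zero.1 this).resolve_right hdet

end Classes

end Crest.Agent.R208.DIO
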