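import Mathlib

/-!
R208, block E1 (helper131): the shortcut operator on loops of length `< 2D` in a metric space with
unique minimal geodesics below distance `D`, and its parametrised version along the orbits of a
circle action.
-/

set_option autoImplicit false

open Set Filter Topology
open scoped Real ENNReal NNReal

noncomputable section

namespace Crest.Agent.R208.E

/-- Unique minimal geodesics below distance `D`, continuous in the end points. -/
structure GeoBelow (X : Type*) [MetricSpace X] (D : ℝ) (gd : X → X → ℝ → X) : Prop where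
  zero : ∀ a b, dist a b < D → gd a b 0 = a
  one : ∀ a b, dist a b < D → gd a b 1 = b
  dist_le : ∀ a b, dist a b < D → ∀ s ∈ Icc (0:ℝ) 1, ∀ t ∈ Icc (0:ℝ) 1,
    dist (gd a b s) (gd a b t) ≤ |s - t| * dist a b
  cont : ContinuousOn (fun p : (X × X) × ℝ => gd p.1.1 p.1.2 p.2)
    ({p : X × X | dist p.1 p.2 < D} ×ˢ Icc (0:ℝ) 1)

/-- A continuous action of the circle `ℝ / 2πℤ`, written as a `2π`-periodic flow. -/
structure Circ (Z : Type*) [TopologicalSpace Z] (φ : ℝ → Z → Z) : Prop where
  zero : ∀ z, φ 0 z = z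
  add : ∀ s t z, φ (s + t) z = φ s (φ t z)
  per : ∀ z, φ (2 * π) z = z
  cont : Continuous fun p : ℝ × Z => φ p.1 p.2

variable {X : Type*} [MetricSpace X] {D : ℝ} {gd : X → X → ℝ → X}

/-! ### Variation -/

theorem var_split (c : ℝ → X) {a b d : ℝ} (hab : a ≤ b) (hbd : b ≤ d) :
    eVariationOn c (Icc a b) + eVariationOn c (Icc b d) = eVariationOn c (Icc a d) := by
  have := eVariationOn.Icc_add_Icc c (s := univ) hab hbd (mem_univ b)
  simpa using this

theorem var_shift (c : ℝ → X) (a b r : ℝ) :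
    eVariationOn (fun t => c (t + r)) (Icc a b) = eVariationOn c (Icc (a + r) (b + r)) := by
  have h := eVariationOn.comp_eq_of_monotoneOn c (t := Icc a b) (fun t => t + r)
    (fun x _ y _ hxy => by simpa using hxy)
  rw [image_add_const_Icc] at h
  exact h

theorem var_rot {c : ℝ → X} (hper : ∀ t, c (t + 2 * π) = c t) {θ : ℝ} (h0 : 0 ≤ θ)
    (h1 : θ ≤ 2 * π) :
    eVariationOn (fun t => c (t + θ)) (Icc 0 (2 * π)) = eVariationOn c (Icc 0 (2 * π)) := by
  rw [var_shift, zero_add, ← var_split c h1 (show 2 * π ≤ 2 * π + θ by linarith),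
    ← var_split c h0 h1]
  have h2 : eVariationOn c (Icc (2 * π) (2 * π + θ)) = eVariationOn c (Icc 0 θ) := by
    have := var_shift c 0 θ (2 * π)
    rw [zero_add, add_comm θ] at this
    rw [← this]
    exact congrArg (fun f => eVariationOn f (Icc 0 θ)) (funext hper)
  rw [h2, add_comm]

/-- two points of a closed loop are at distance at most half of the length -/
theorem dist_le_half {c : ℝ → X} {L : ℝ} (hL0 : 0 ≤ L) (hclosed : c (2 * π) = c 0)
    (hL : eVariationOn c (Icc 0 (2 * π)) ≤ ENNReal.ofReal L) {s t : ℝ} (hs : s ∈ Icc 0 (2 * π))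
    (ht : t ∈ Icc 0 (2 * π)) : dist (c s) (c t) ≤ L / 2 := by
  wlog hst : s ≤ t generalizing s t
  · rw [dist_comm]
    exact this ht hs (le_of_not_ge hst)
  have h1 : edist (c 0) (c s) ≤ eVariationOn c (Icc 0 s) :=
    eVariationOn.edist_le c ⟨le_rfl, hs.1⟩ ⟨hs.1, le_rfl⟩
  have h2 : edist (c s) (c t) ≤ eVariationOn c (Icc s t) :=
    eVariationOn.edist_le c ⟨le_rfl, hst⟩ ⟨hst, le_rfl⟩
  have h3 : edist (c t) (c (2 * π)) ≤ eVariationOn c (Icc t (2 * π)) :=
    eVariationOn.edist_le c ⟨le_rfl, ht.2⟩ ⟨ht.2, le_rfl⟩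
  have h4 : edist (c s) (c t) + edist (c s) (c t) ≤ ENNReal.ofReal L := by
    calc edist (c s) (c t) + edist (c s) (c t)
        ≤ edist (c s) (c t) + (edist (c s) (c 0) + edist (c 0) (c t)) :=
          add_le_add le_rfl (edist_triangle _ _ _)
      _ = edist (c 0) (c s) + edist (c s) (c t) + edist (c t) (c (2 * π)) := by
          rw [hclosed, edist_comm (c s) (c 0), edist_comm (c 0) (c t)]
          ring
      _ ≤ eVariationOn c (Icc 0 s) + eVariationOn c (Icc s t) + eVariationOn c (Icc t (2 * π)) :=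
          add_le_add (add_le_add h1 h2) h3
      _ = eVariationOn c (Icc 0 (2 * π)) := by
          rw [var_split c hs.1 hst, var_split c (hs.1.trans hst) ht.2]
      _ ≤ _ := hL
  rw [edist_dist, ← ENNReal.ofReal_add dist_nonneg dist_nonneg,
    ENNReal.ofReal_le_ofReal_iff hL0] at h4
  linarith

/-! ### The shortcut of a loop -/

/-- the geodesic from `c 0` to `c s` on `[0,s]`, then `c` -/
def sh (gd : X → X → ℝ → X) (c : ℝ → X) (s t : ℝ) : X :=
  if t ≤ s then gd (c 0) (c s) (t / s) else c t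

theorem GeoBelow.self (h : GeoBelow X D gd) {a : X} (hD : 0 < D) {t : ℝ} (ht : t ∈ Icc (0:ℝ) 1) :
    gd a a t = a := by
  have h0 : dist a a < D := by rwa [dist_self]
  have h1 := h.dist_le a a h0 t ht 0 ⟨le_rfl, zero_le_one⟩
  rw [dist_self, mul_zero, h.zero a a h0] at h1
  exact dist_le_zero.1 h1

theorem var_geo (h : GeoBelow X D gd) {a b : X} (hab : dist a b < D) {s : ℝ} (hs : 0 < s) :
    eVariationOn (fun t => gd a b (t / s)) (Icc 0 s) ≤ edist a b := by
  have hlip : LipschitzOnWith (nndist a b) (gd a b) (Icc (0:ℝ) 1) :=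
    LipschitzOnWith.of_dist_le_mul fun x hx y hy => by
      rw [coe_nndist, mul_comm, Real.dist_eq]
      exact h.dist_le a b hab x hx y hy
  have hmaps : MapsTo (fun t : ℝ => t / s) (Icc 0 s) (Icc 0 1) := fun t ht =>
    ⟨div_nonneg ht.1 hs.le, (div_le_one hs).2 ht.2⟩
  have hmono : MonotoneOn (fun t : ℝ => t / s) (Icc 0 s) := fun x _ y _ hxy =>
    div_le_div_of_nonneg_right hxy hs.le
  have h1 := hlip.comp_eVariationOn_le hmaps
  have h2 : eVariationOn (fun t : ℝ => t / s) (Icc 0 s) ≤ 1 := by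
    have h3 := (hmono.eVariationOn_eq (left_mem_Icc.2 hs.le) (right_mem_Icc.2 hs.le)).le
    rw [inter_self] at h3
    refine h3.trans ?_
    rw [div_self hs.ne', zero_div, sub_zero, ENNReal.ofReal_one]
  calc eVariationOn (fun t => gd a b (t / s)) (Icc 0 s)
      ≤ (nndist a b : ℝ≥0∞) * eVariationOn (fun t : ℝ => t / s) (Icc 0 s) := h1
    _ ≤ (nndist a b : ℝ≥0∞) * 1 := by gcongr
    _ = edist a b := by rw [mul_one, edist_nndist]

theorem var_sh (h : GeoBelow X D gd) {c : ℝ → X} {s : ℝ} (hs : s ∈ Icc 0 (2 * π))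
    (hd : dist (c 0) (c s) < D) :
    eVariationOn (sh gd c s) (Icc 0 (2 * π)) ≤ eVariationOn c (Icc 0 (2 * π)) := by
  rcases hs.1.eq_or_lt with h0 | h0
  · subst h0
    refine le_of_eq (eVariationOn.congr fun t ht => ?_)
    unfold sh
    split_ifs with h1
    · have : t = 0 := le_antisymm h1 ht.1
      subst this
      rw [zero_div, h.zero _ _ hd]
    · rfl
  · rw [← var_split _ hs.1 hs.2, ← var_split c hs.1 hs.2]
    have h1 : eVariationOn (sh gd c s) (Icc 0 s) ≤ eVariationOn c (Icc 0 s) := by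
      have h2 : eVariationOn (sh gd c s) (Icc 0 s)
          = eVariationOn (fun t => gd (c 0) (c s) (t / s)) (Icc 0 s) :=
        eVariationOn.congr fun t ht => if_pos ht.2
      rw [h2]
      exact (var_geo h hd h0).trans
        (eVariationOn.edist_le c ⟨le_rfl, hs.1⟩ ⟨hs.1, le_rfl⟩)
    have h3 : eVariationOn (sh gd c s) (Icc s (2 * π)) = eVariationOn c (Icc s (2 * π)) := by
      refine eVariationOn.congr fun t ht => ?_
      unfold sh
      split_ifs with h4
      · have : t = s := le_antisymm h4 ht.1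
        subst this
        rw [div_self h0.ne', h.one _ _ hd]
      · rfl
    rw [h3]
    exact add_le_add h1 le_rfl

end Crest.Agent.R208.E
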