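import Crest.Agent.R208.E1

/-!
R208, block E2 (helper131): contraction of maps `f : Z → X` from a free circle space whose orbit
loops have length `< 2D` to circle-invariant maps, by finitely many parametrised shortcuts.
-/

set_option autoImplicit false

open Set Filter Topology
open scoped Real ENNReal NNReal unitInterval

noncomputable section

namespace Crest.Agent.R208.E

variable {X : Type*} [MetricSpace X] {D : ℝ} {gd : X → X → ℝ → X}
variable {Z : Type*} [TopologicalSpace Z] {φ : ℝ → Z → Z}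

namespace Circ

theorem neg_self (h : Circ Z φ) (t : ℝ) (z : Z) : φ (-t) (φ t z) = z := by
  rw [← h.add, neg_add_cancel, h.zero]

theorem self_neg (h : Circ Z φ) (t : ℝ) (z : Z) : φ t (φ (-t) z) = z := by
  rw [← h.add, add_neg_cancel, h.zero]

theorem add_period (h : Circ Z φ) (t : ℝ) (z : Z) : φ (t + 2 * π) z = φ t z := by
  rw [h.add, h.per]

theorem continuous_comp (h : Circ Z φ) {W : Type*} [TopologicalSpace W] {u : W → ℝ} {v : W → Z}
    (hu : Continuous u) (hv : Continuous v) : Continuous fun w => φ (u w) (v w) :=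
  h.cont.comp (hu.prodMk hv)

end Circ

/-- all orbit loops of `f` have length at most `L` -/
def OL (φ : ℝ → Z → Z) (L : ℝ) (f : Z → X) : Prop :=
  ∀ z, eVariationOn (fun t => f (φ t z)) (Icc 0 (2 * π)) ≤ ENNReal.ofReal L

/-- the closed interval `[0, 2π]` -/
abbrev I2 : Type := Icc (0:ℝ) (2 * π)

/-- the value at parameter `θ` of the shortcut (at `s`) of the orbit loop through `z`, based at
`φ (-θ) z` -/
def V (gd : X → X → ℝ → X) (φ : ℝ → Z → Z) (f : Z → X) (z : Z) (θ s : ℝ) : X :=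
  if θ ≤ s then gd (f (φ (-θ) z)) (f (φ (s - θ) z)) (θ / s) else f z

theorem V_orbit (hφ : Circ Z φ) (f : Z → X) (z : Z) (t s : ℝ) :
    V gd φ f (φ t z) t s = sh gd (fun r => f (φ r z)) s t := by
  unfold V sh
  simp only [hφ.neg_self, ← hφ.add, sub_add_cancel, hφ.zero]

variable {L : ℝ}

theorem OL.dist_le (hL0 : 0 ≤ L) (hφ : Circ Z φ) {f : Z → X} (hf : OL φ L f) (z : Z) {s t : ℝ}
    (hs : s ∈ Icc 0 (2 * π)) (ht : t ∈ Icc 0 (2 * π)) :
    dist (f (φ s z)) (f (φ t z)) ≤ L / 2 :=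
  dist_le_half (c := fun t => f (φ t z)) hL0 (by simp only [hφ.per, hφ.zero]) (hf z) hs ht

theorem OL.dist_lt (hL0 : 0 ≤ L) (hLD : L < 2 * D) (hφ : Circ Z φ) {f : Z → X} (hf : OL φ L f)
    (z : Z) (θ : ℝ) {s : ℝ} (hs : s ∈ Icc 0 (2 * π)) :
    dist (f (φ (-θ) z)) (f (φ (s - θ) z)) < D := by
  have h := hf.dist_le hL0 hφ (φ (-θ) z) (s := 0) (t := s) ⟨le_rfl, by positivity⟩ hs
  rw [hφ.zero, ← hφ.add, ← sub_eq_add_neg] at h
  linarith

/-- the geodesic part of `V` -/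
def A (gd : X → X → ℝ → X) (φ : ℝ → Z → Z) (f : Z → X) (p : I2 × (Z × I2)) : X :=
  gd (f (φ (-(p.1:ℝ)) p.2.1)) (f (φ ((p.2.2:ℝ) - p.1) p.2.1)) (min ((p.1:ℝ) / p.2.2) 1)

theorem continuous_A (h : GeoBelow X D gd) (hφ : Circ Z φ) (hL0 : 0 ≤ L) (hLD : L < 2 * D)
    {f : Z → X} (hf : OL φ L f) (hc : Continuous f) : Continuous (A gd φ f) := by
  have hc0 : Continuous fun p : I2 × (Z × I2) => f (φ (-(p.1:ℝ)) p.2.1) :=
    hc.comp (hφ.continuous_comp (by fun_prop) (by fun_prop))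
  have hcs : Continuous fun p : I2 × (Z × I2) => f (φ ((p.2.2:ℝ) - p.1) p.2.1) :=
    hc.comp (hφ.continuous_comp (by fun_prop) (by fun_prop))
  have hd : ∀ p : I2 × (Z × I2), dist (f (φ (-(p.1:ℝ)) p.2.1)) (f (φ ((p.2.2:ℝ) - p.1) p.2.1)) < D :=
    fun p => hf.dist_lt hL0 hLD hφ p.2.1 p.1 p.2.2.2
  have hmin : ∀ p : I2 × (Z × I2), min ((p.1:ℝ) / p.2.2) 1 ∈ Icc (0:ℝ) 1 := fun p =>
    ⟨le_min (div_nonneg p.1.2.1 p.2.2.2.1) zero_le_one, min_le_right _ _⟩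
  rw [continuous_iff_continuousAt]
  intro p₀
  rcases p₀.2.2.2.1.eq_or_lt with h0 | h0
  · -- `s = 0`
    have hval : A gd φ f p₀ = f (φ (-(p₀.1:ℝ)) p₀.2.1) := by
      unfold A
      have hlt := hd p₀
      rw [← h0, zero_sub] at hlt ⊢
      rw [div_zero, min_eq_left zero_le_one, h.zero _ _ hlt]
    unfold ContinuousAt
    rw [hval]
    have h1 : Tendsto (fun p : I2 × (Z × I2) => f (φ (-(p.1:ℝ)) p.2.1)) (𝓝 p₀)
        (𝓝 (f (φ (-(p₀.1:ℝ)) p₀.2.1))) := hc0.tendsto p₀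
    have h2 : Tendsto (fun p : I2 × (Z × I2) => f (φ ((p.2.2:ℝ) - p.1) p.2.1)) (𝓝 p₀)
        (𝓝 (f (φ (-(p₀.1:ℝ)) p₀.2.1))) := by
      have := hcs.tendsto p₀
      rwa [← h0, zero_sub] at this
    have h3 : Tendsto (fun p : I2 × (Z × I2) => dist (f (φ (-(p.1:ℝ)) p.2.1))
        (f (φ ((p.2.2:ℝ) - p.1) p.2.1))) (𝓝 p₀) (𝓝 0) := by
      have := h1.dist h2
      rwa [dist_self] at this
    have h4 : Tendsto (fun p : I2 × (Z × I2) => dist (A gd φ f p) (f (φ (-(p.1:ℝ)) p.2.1)))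
        (𝓝 p₀) (𝓝 0) := by
      refine squeeze_zero (fun _ => dist_nonneg) (fun p => ?_) h3
      have h5 := h.dist_le _ _ (hd p) _ (hmin p) 0 ⟨le_rfl, zero_le_one⟩
      rw [h.zero _ _ (hd p), sub_zero, abs_of_nonneg (hmin p).1] at h5
      exact h5.trans (mul_le_of_le_one_left dist_nonneg (hmin p).2)
    exact (tendsto_iff_of_dist (by simpa [dist_comm] using h4)).1 h1
  · -- `s > 0`
    have hu : ContinuousAt (fun p : I2 × (Z × I2) =>
        ((f (φ (-(p.1:ℝ)) p.2.1), f (φ ((p.2.2:ℝ) - p.1) p.2.1)), min ((p.1:ℝ) / p.2.2) 1)) p₀ := by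
      refine (hc0.continuousAt.prodMk hcs.continuousAt).prodMk ?_
      have h6 : ContinuousAt (fun p : I2 × (Z × I2) => (p.1:ℝ) / p.2.2) p₀ :=
        ContinuousAt.div (by fun_prop) (by fun_prop) h0.ne'
      exact Filter.Tendsto.min h6 tendsto_const_nhds
    have h1 := h.cont _ (show ((f (φ (-(p₀.1:ℝ)) p₀.2.1), f (φ ((p₀.2.2:ℝ) - p₀.1) p₀.2.1)),
      min ((p₀.1:ℝ) / p₀.2.2) 1) ∈ _ from ⟨hd p₀, hmin p₀⟩)
    have h2 := h1.tendsto.comp (tendsto_nhdsWithin_iff.2 ⟨hu, Eventually.of_forall fun p =>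
      ⟨hd p, hmin p⟩⟩)
    exact h2

theorem continuous_V (h : GeoBelow X D gd) (hφ : Circ Z φ) (hL0 : 0 ≤ L) (hLD : L < 2 * D)
    {f : Z → X} (hf : OL φ L f) (hc : Continuous f) :
    Continuous fun p : I2 × (Z × I2) => V gd φ f p.2.1 p.1 p.2.2 := by
  have hA := continuous_A h hφ hL0 hLD hf hc
  have h1 : (fun p : I2 × (Z × I2) => V gd φ f p.2.1 p.1 p.2.2)
      = fun p : I2 × (Z × I2) => if (p.1:ℝ) ≤ p.2.2 then A gd φ f p else f p.2.1 := by
    funext p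
    unfold V A
    split_ifs with h2
    · rcases p.2.2.2.1.eq_or_lt with h0 | h0
      · rw [← h0, div_zero, min_eq_left zero_le_one]
      · rw [min_eq_left ((div_le_one h0).2 h2)]
    · rfl
  rw [h1]
  refine Continuous.if_le hA (hc.comp (by fun_prop)) (by fun_prop) (by fun_prop) fun p hp => ?_
  have hd : dist (f (φ (-(p.1:ℝ)) p.2.1)) (f (φ ((p.2.2:ℝ) - p.1) p.2.1)) < D :=
    hf.dist_lt hL0 hLD hφ p.2.1 p.1 p.2.2.2
  unfold A
  rcases p.2.2.2.1.eq_or_lt with h0 | h0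
  · have h3 : (p.1:ℝ) = 0 := by rw [hp, ← h0]
    rw [← h0, h3] at hd ⊢
    rw [div_zero, min_eq_left zero_le_one, h.zero _ _ hd, neg_zero, hφ.zero]
  · rw [hp, div_self h0.ne', min_self]
    rw [hp] at hd
    rw [h.one _ _ hd, sub_self, hφ.zero]

theorem V_zero_left (h : GeoBelow X D gd) (hφ : Circ Z φ) (hL0 : 0 ≤ L) (hLD : L < 2 * D)
    {f : Z → X} (hf : OL φ L f) (z : Z) {s : ℝ} (hs : s ∈ Icc 0 (2 * π)) :
    V gd φ f z 0 s = f z := by
  have hd := hf.dist_lt hL0 hLD hφ z 0 hs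
  unfold V
  rw [if_pos hs.1, zero_div, h.zero _ _ hd, neg_zero, hφ.zero]

theorem V_two_pi_left (h : GeoBelow X D gd) (hφ : Circ Z φ) (hL0 : 0 ≤ L) (hLD : L < 2 * D)
    {f : Z → X} (hf : OL φ L f) (z : Z) {s : ℝ} (hs : s ∈ Icc 0 (2 * π)) :
    V gd φ f z (2 * π) s = f z := by
  have hd := hf.dist_lt hL0 hLD hφ z (2 * π) hs
  unfold V
  split_ifs with h1
  · have h2 : s = 2 * π := le_antisymm hs.2 h1
    rw [h2] at hd ⊢
    rw [div_self (by positivity), h.one _ _ hd, sub_self, hφ.zero]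
  · rfl

theorem V_zero_right (h : GeoBelow X D gd) (hφ : Circ Z φ) (hL0 : 0 ≤ L) (hLD : L < 2 * D)
    {f : Z → X} (hf : OL φ L f) (z : Z) {θ : ℝ} (hθ : 0 ≤ θ) :
    V gd φ f z θ 0 = f z := by
  have hd := hf.dist_lt hL0 hLD hφ z θ (s := 0) ⟨le_rfl, by positivity⟩
  unfold V
  split_ifs with h1
  · have h2 : θ = 0 := le_antisymm h1 hθ
    rw [h2] at hd ⊢
    rw [div_zero, h.zero _ _ hd, neg_zero, hφ.zero]
  · rfl

end Crest.Agent.R208.E
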