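import Crest.Agent.R208.E2

/-!
R208, block E2b (helper131): one step of the contraction (a shortcut glued with an equivariant
function `g : Z → ℂ`).
-/

set_option autoImplicit false
set_option linter.unusedSectionVars false

open Set Filter Topology
open scoped Real ENNReal NNReal unitInterval

noncomputable section

namespace Crest.Agent.R208.E

variable {X : Type*} [MetricSpace X] {D : ℝ} {gd : X → X → ℝ → X}
variable {Z : Type*} [TopologicalSpace Z] {φ : ℝ → Z → Z} {L : ℝ}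

instance fact2pi : Fact (0 < 2 * π) := ⟨by positivity⟩

/-- the circle -/
abbrev Ci : Type := AddCircle (2 * π)

namespace Circ

theorem add_int (h : Circ Z φ) (t : ℝ) (n : ℤ) (z : Z) : φ (t + n * (2 * π)) z = φ t z := by
  induction n using Int.induction_on with
  | zero => simp
  | succ n ih =>
    have : t + ((n:ℤ) + 1 : ℤ) * (2 * π) = (t + (n:ℤ) * (2 * π)) + 2 * π := by push_cast; ring
    rw [this, h.add_period, ih]
  | pred n ih =>
    have : t + ((-(n:ℤ) : ℤ) : ℝ) * (2 * π) = (t + ((-(n:ℤ) - 1 : ℤ) : ℝ) * (2 * π)) + 2 * π := by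
      push_cast; ring
    rw [← h.add_period, ← this, ih]

theorem eq_of_coe (h : Circ Z φ) {s t : ℝ} (hst : (s : Ci) = (t : Ci)) (z : Z) : φ s z = φ t z := by
  have h1 : ((s - t : ℝ) : Ci) = 0 := by rw [AddCircle.coe_sub, hst, sub_self]
  obtain ⟨n, hn⟩ := AddCircle.coe_eq_zero_iff (p := 2 * π) |>.1 h1
  have h2 : s = t + n * (2 * π) := by
    rw [zsmul_eq_mul] at hn
    linarith
  rw [h2, h.add_int]

end Circ

/-- every point of the circle has a representative in `[0, 2π)` -/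
theorem exists_rep (a : Ci) : ∃ θ : ℝ, θ ∈ Ico 0 (2 * π) ∧ (θ : Ci) = a := by
  refine ⟨(AddCircle.equivIco (2 * π) 0 a : ℝ), ?_, AddCircle.coe_equivIco⟩
  have := (AddCircle.equivIco (2 * π) 0 a).2
  exact ⟨this.1, by simpa using this.2⟩

/-- the angle of a complex number -/
def ang (x : ℂ) : Ci := ((Complex.arg x : ℝ) : Ci)

theorem continuousAt_ang {x : ℂ} (hx : x ≠ 0) : ContinuousAt ang x :=
  Complex.continuousAt_arg_coe_angle hx

theorem ang_exp_mul (t : ℝ) {x : ℂ} (hx : x ≠ 0) :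
    ang (Complex.exp (t * Complex.I) * x) = (t : Ci) + ang x := by
  have h1 : ((Complex.arg (Complex.exp (t * Complex.I) * x) : ℝ) : Real.Angle)
      = (t : Real.Angle) + (Complex.arg x : ℝ) := by
    rw [Complex.arg_mul_coe_angle (Complex.exp_ne_zero _) hx]
    congr 1
    have := Complex.arg_cos_add_sin_mul_I_coe_angle (t : Real.Angle)
    rw [Real.Angle.cos_coe, Real.Angle.sin_coe] at this
    rw [Complex.exp_mul_I]
    push_cast at this
    exact this
  exact h1

/-- compactness lemma: composition with an arbitrary function into a compact space -/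
theorem continuousAt_tube {Q Y P : Type*} [TopologicalSpace Q] [CompactSpace Q]
    [TopologicalSpace Y] [TopologicalSpace P] (W : C(Q × Y, X)) {y₀ : Y} {x₀ : X}
    (hW : ∀ a, W (a, y₀) = x₀) {p₀ : P} (u : P → Q) (y : P → Y) (hy : ContinuousAt y p₀)
    (hy0 : y p₀ = y₀) : ContinuousAt (fun p => W (u p, y p)) p₀ := by
  set W' : C(Y, C(Q, X)) := (W.comp ContinuousMap.prodSwap).curry with hW'
  have h1 : Tendsto (fun p => dist (W' (y p)) (W' y₀)) (𝓝 p₀) (𝓝 0) := by
    have h2 : Tendsto (fun p => W' (y p)) (𝓝 p₀) (𝓝 (W' y₀)) := by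
      rw [← hy0]
      exact (W'.continuous.continuousAt.comp hy).tendsto
    exact tendsto_iff_dist_tendsto_zero.1 h2
  have h3 : W (u p₀, y p₀) = x₀ := by rw [hy0]; exact hW _
  change Tendsto (fun p => W (u p, y p)) (𝓝 p₀) (𝓝 (W (u p₀, y p₀)))
  rw [h3, tendsto_iff_dist_tendsto_zero]
  refine squeeze_zero (fun _ => dist_nonneg) (fun p => ?_) h1
  have h4 : W (u p, y p) = W' (y p) (u p) := rfl
  have h5 : x₀ = W' y₀ (u p) := (hW (u p)).symm
  rw [h4]
  nth_rewrite 1 [h5]
  exact ContinuousMap.dist_apply_le_dist _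

section step

variable [CompactSpace Z] [T2Space Z]

/-- the function `V`, continuous on the whole circle -/
theorem exists_W (h : GeoBelow X D gd) (hφ : Circ Z φ) (hL0 : 0 ≤ L) (hLD : L < 2 * D)
    (f : C(Z, X)) (hf : OL φ L f) :
    ∃ W : C(Ci × (Z × I2), X), (∀ θ ∈ Ico 0 (2 * π), ∀ z (s : I2),
      W ((θ : Ci), (z, s)) = V gd φ f z θ s) ∧
      ∀ a z, W (a, (z, ⟨0, le_rfl, Real.two_pi_pos.le⟩)) = f z := by
  set Vm : C(I2 × (Z × I2), X) := ⟨_, continuous_V h hφ hL0 hLD hf f.continuous⟩ with hVm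
  set F : ℝ → C(Z × I2, X) := fun θ => Vm.curry (projIcc 0 (2 * π) Real.two_pi_pos.le θ) with hF
  have hFc : Continuous F := Vm.curry.continuous.comp continuous_projIcc
  have hF0 : F 0 = F (0 + 2 * π) := by
    ext p
    rw [zero_add]
    have e0 : projIcc 0 (2 * π) Real.two_pi_pos.le 0 = ⟨0, le_rfl, Real.two_pi_pos.le⟩ :=
      projIcc_left _
    have e1 : projIcc 0 (2 * π) Real.two_pi_pos.le (2 * π)
        = ⟨2 * π, Real.two_pi_pos.le, le_rfl⟩ := projIcc_right _
    simp only [hF, e0, e1]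
    change V gd φ f p.1 0 p.2 = V gd φ f p.1 (2 * π) p.2
    rw [V_zero_left h hφ hL0 hLD hf p.1 p.2.2, V_two_pi_left h hφ hL0 hLD hf p.1 p.2.2]
  set g : C(Ci, C(Z × I2, X)) := ⟨AddCircle.liftIco (2 * π) 0 F,
    AddCircle.liftIco_continuous hF0 hFc.continuousOn⟩ with hg
  have key : ∀ θ ∈ Ico 0 (2 * π), ∀ z (s : I2), g.uncurry ((θ : Ci), (z, s)) = V gd φ f z θ s := by
    intro θ hθ z s
    have h1 : g (θ : Ci) = F θ := by
      change AddCircle.liftIco (2 * π) 0 F (θ : Ci) = F θ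
      exact AddCircle.liftIco_zero_coe_apply hθ
    change g (θ : Ci) (z, s) = _
    rw [h1]
    simp only [hF]
    rw [projIcc_of_mem _ ⟨hθ.1, hθ.2.le⟩]
    rfl
  refine ⟨g.uncurry, key, fun a z => ?_⟩
  obtain ⟨θ, hθ, rfl⟩ := exists_rep a
  rw [key θ hθ]
  exact V_zero_right h hφ hL0 hLD hf z hθ.1

/-- the amount of shortcut -/
def sig (g : Z → ℂ) (ε : ℝ) (p : I × Z) : I2 :=
  ⟨2 * π * ((p.1:ℝ) * min (‖g p.2‖ / |ε|) 1), by
    have h1 : (0:ℝ) ≤ min (‖g p.2‖ / |ε|) 1 := le_min (by positivity) zero_le_one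
    have h2 : min (‖g p.2‖ / |ε|) 1 ≤ (1:ℝ) := min_le_right _ _
    constructor
    · have := p.1.2.1
      positivity
    · have h3 : (p.1:ℝ) * min (‖g p.2‖ / |ε|) 1 ≤ 1 := mul_le_one₀ p.1.2.2 h1 h2
      nlinarith [Real.two_pi_pos]⟩

theorem continuous_sig (g : C(Z, ℂ)) (ε : ℝ) : Continuous (sig g ε) := by
  unfold sig
  refine Continuous.subtype_mk ?_ _
  fun_prop

theorem step (h : GeoBelow X D gd) (hφ : Circ Z φ) (hL0 : 0 ≤ L) (hLD : L < 2 * D)
    (f : C(Z, X)) (hf : OL φ L f) (g : C(Z, ℂ))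
    (hg : ∀ t z, g (φ t z) = Complex.exp (t * Complex.I) * g z) {ε : ℝ} (hε : 0 < ε) :
    ∃ H : C(I × Z, X), (∀ z, H (0, z) = f z) ∧ (∀ τ, OL φ L fun z => H (τ, z)) ∧
      (∀ τ z, (∀ t, f (φ t z) = f z) → H (τ, z) = f z) ∧
      (∀ z, ε ≤ ‖g z‖ → ∀ t, H (1, φ t z) = H (1, z)) := by
  have hD : 0 < D := by linarith
  obtain ⟨W, hW, hW0⟩ := exists_W h hφ hL0 hLD f hf
  set H : I × Z → X := fun p => W (ang (g p.2), (p.2, sig g ε p)) with hH
  have hsig0 : ∀ p : I × Z, g p.2 = 0 → sig g ε p = ⟨0, le_rfl, Real.two_pi_pos.le⟩ := by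
    intro p hp
    unfold sig
    simp [hp]
  have hcont : Continuous H := by
    rw [continuous_iff_continuousAt]
    intro p₀
    by_cases hp : g p₀.2 = 0
    · refine continuousAt_tube W (y₀ := (p₀.2, ⟨0, le_rfl, Real.two_pi_pos.le⟩)) (x₀ := f p₀.2)
        (fun a => hW0 a p₀.2) (fun p : I × Z => ang (g p.2)) (fun p => (p.2, sig g ε p))
        ?_ ?_
      · exact (continuous_snd.prodMk (continuous_sig g ε)).continuousAt
      · rw [hsig0 p₀ hp]
    · have h1 : ContinuousAt (fun p : I × Z => (ang (g p.2), (p.2, sig g ε p))) p₀ := by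
        refine ContinuousAt.prodMk ?_ (continuous_snd.prodMk (continuous_sig g ε)).continuousAt
        exact (continuousAt_ang hp).comp_of_eq
          ((g.continuous.comp continuous_snd).continuousAt) rfl
      exact W.continuous.continuousAt.comp h1
  -- norms are invariant
  have hnorm : ∀ t z, ‖g (φ t z)‖ = ‖g z‖ := by
    intro t z
    rw [hg, norm_mul, Complex.norm_exp_ofReal_mul_I, one_mul]
  have hsigφ : ∀ τ t z, sig g ε (τ, φ t z) = sig g ε (τ, z) := by
    intro τ t z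
    unfold sig
    simp only [hnorm]
  -- the orbit through a point of angle zero
  have horb : ∀ τ z, g z ≠ 0 → ang (g z) = 0 → ∀ t ∈ Icc 0 (2 * π),
      H (τ, φ t z) = sh gd (fun r => f (φ r z)) (sig g ε (τ, z)) t := by
    intro τ z hz hz0 t ht
    rw [← V_orbit hφ f z t]
    rcases ht.2.eq_or_lt with h2 | h2
    · subst h2
      rw [hφ.per, V_two_pi_left h hφ hL0 hLD hf z (sig g ε (τ, z)).2]
      have h3 : H (τ, z) = W (((0:ℝ) : Ci), (z, sig g ε (τ, z))) := by
        simp only [hH]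
        rw [hz0]
        rfl
      rw [h3, hW 0 ⟨le_rfl, Real.two_pi_pos⟩, V_zero_left h hφ hL0 hLD hf z (sig g ε (τ, z)).2]
    · have h3 : H (τ, φ t z) = W ((t : Ci), (φ t z, sig g ε (τ, z))) := by
        simp only [hH]
        rw [hsigφ, hg, ang_exp_mul t hz, hz0, add_zero]
      rw [h3, hW t ⟨ht.1, h2⟩]
  -- base point of angle zero on the orbit
  have hbase : ∀ z, g z ≠ 0 → ∃ θ ∈ Ico 0 (2 * π), ∃ z', g z' ≠ 0 ∧ ang (g z') = 0 ∧
      z = φ θ z' ∧ ‖g z'‖ = ‖g z‖ := by
    intro z hz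
    obtain ⟨θ, hθ, hθz⟩ := exists_rep (ang (g z))
    have h1 : g (φ (-θ) z) ≠ 0 := by
      rw [hg]
      exact mul_ne_zero (Complex.exp_ne_zero _) hz
    refine ⟨θ, hθ, φ (-θ) z, h1, ?_, (hφ.self_neg θ z).symm, hnorm _ _⟩
    rw [hg, ang_exp_mul _ hz, ← hθz, ← AddCircle.coe_add, neg_add_cancel]
    rfl
  refine ⟨⟨H, hcont⟩, fun z => ?_, fun τ z => ?_, fun τ z hz => ?_, fun z hz t => ?_⟩
  · -- initial value
    have h1 : sig g ε ((0:I), z) = ⟨0, le_rfl, Real.two_pi_pos.le⟩ := by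
      unfold sig
      simp
    change H (0, z) = f z
    simp only [hH]
    rw [h1]
    exact hW0 _ _
  · -- lengths
    change eVariationOn (fun t => H (τ, φ t z)) (Icc 0 (2 * π)) ≤ _
    by_cases hz : g z = 0
    · have h1 : ∀ t, H (τ, φ t z) = f (φ t z) := by
        intro t
        have h2 : g (φ t z) = 0 := by rw [hg, hz, mul_zero]
        simp only [hH]
        rw [hsig0 (τ, φ t z) h2]
        exact hW0 _ _
      simp only [h1]
      exact hf z
    · obtain ⟨θ, hθ, z', hz', hang, hzz', -⟩ := hbase z hz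
      set C : ℝ → X := fun t => H (τ, φ t z') with hC
      have h1 : (fun t => H (τ, φ t z)) = fun t => C (t + θ) := by
        funext t
        simp only [hC]
        rw [hzz', ← hφ.add]
      have h2 : eVariationOn C (Icc 0 (2 * π))
          = eVariationOn (sh gd (fun r => f (φ r z')) (sig g ε (τ, z'))) (Icc 0 (2 * π)) :=
        eVariationOn.congr fun t ht => horb τ z' hz' hang t ht
      have hd : dist ((fun r => f (φ r z')) 0) ((fun r => f (φ r z')) (sig g ε (τ, z'))) < D := by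
        have := hf.dist_le hL0 hφ z' (s := 0) (t := sig g ε (τ, z'))
          ⟨le_rfl, Real.two_pi_pos.le⟩ (sig g ε (τ, z')).2
        exact lt_of_le_of_lt this (by linarith)
      rw [h1, var_rot (c := C) (fun t => by simp only [hC, hφ.add_period]) hθ.1 hθ.2.le, h2]
      exact (var_sh h (sig g ε (τ, z')).2 hd).trans (hf z')
  · -- constant orbits
    change H (τ, z) = f z
    simp only [hH]
    obtain ⟨θ, hθ, hθz⟩ := exists_rep (ang (g z))
    rw [← hθz, hW θ hθ]
    unfold V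
    split_ifs with h1
    · rw [hz, hz]
      refine h.self hD ⟨div_nonneg hθ.1 (hθ.1.trans h1), div_le_one_of_le₀ h1 (hθ.1.trans h1)⟩
    · rfl
  · -- final invariance
    change H (1, φ t z) = H (1, z)
    have hz0 : g z ≠ 0 := by
      intro h0
      rw [h0, norm_zero] at hz
      linarith
    obtain ⟨θ, hθ, z', hz', hang, hzz', hn⟩ := hbase z hz0
    have h1 : (sig g ε ((1:I), z') : ℝ) = 2 * π := by
      unfold sig
      have h2 : 1 ≤ ‖g z'‖ / |ε| := by
        rw [abs_of_pos hε, le_div_iff₀ hε, one_mul, hn]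
        exact hz
      simp [min_eq_right h2]
    have h3 : ∀ r ∈ Icc 0 (2 * π), H (1, φ r z') = f z' := by
      intro r hr
      rw [horb 1 z' hz' hang r hr]
      unfold sh
      rw [h1, if_pos hr.2]
      simp only [hφ.zero, hφ.per]
      exact h.self hD ⟨div_nonneg hr.1 Real.two_pi_pos.le,
        div_le_one_of_le₀ hr.2 Real.two_pi_pos.le⟩
    have h4 : ∀ r : ℝ, H (1, φ r z') = f z' := by
      intro r
      obtain ⟨r', hr', hrr'⟩ := exists_rep (r : Ci)
      rw [← hφ.eq_of_coe hrr' z']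
      exact h3 r' ⟨hr'.1, hr'.2.le⟩
    rw [hzz', ← hφ.add, h4, h4]

end step

end Crest.Agent.R208.E
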