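import Crest.Agent.R208.E2b
import Mathlib.Analysis.Complex.Tietze
import Mathlib.Analysis.Fourier.AddCircle

/-!
R208, block E2c (helper131): THEOREM E.  Induction over finitely many equivariant functions,
existence of the equivariant functions for a free circle flow, the contraction theorem.
-/

set_option autoImplicit false
set_option linter.unusedSectionVars false

open Set Filter Topology
open scoped Real ENNReal NNReal unitInterval

noncomputable section

namespace Crest.Agent.R208.E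

variable {X : Type*} [MetricSpace X] {D : ℝ} {gd : X → X → ℝ → X}
variable {Z : Type*} [TopologicalSpace Z] {φ : ℝ → Z → Z} {L : ℝ}

section many

variable [CompactSpace Z] [T2Space Z]

/-- finitely many steps -/
theorem many (h : GeoBelow X D gd) (hφ : Circ Z φ) (hL0 : 0 ≤ L) (hLD : L < 2 * D)
    {ε : ℝ} (hε : 0 < ε) (gs : List C(Z, ℂ))
    (hgs : ∀ g ∈ gs, ∀ t z, g (φ t z) = Complex.exp (t * Complex.I) * g z) :
    ∀ f : C(Z, X), OL φ L f →
    ∃ H : C(I × Z, X), (∀ z, H (0, z) = f z) ∧ (∀ τ, OL φ L fun z => H (τ, z)) ∧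
      (∀ τ z, (∀ t, f (φ t z) = f z) → H (τ, z) = f z) ∧
      (∀ z, (∃ g ∈ gs, ε ≤ ‖g z‖) → ∀ t, H (1, φ t z) = H (1, z)) := by
  induction gs with
  | nil =>
    intro f hf
    refine ⟨f.comp ContinuousMap.snd, fun _ => rfl, fun _ => hf, fun _ _ _ => rfl, ?_⟩
    rintro z ⟨g, hg, -⟩
    simp at hg
  | cons g gs ih =>
    intro f hf
    obtain ⟨H1, h10, h1L, h1c, h1i⟩ := step h hφ hL0 hLD f hf g (hgs g (by simp)) hε
    set f1 : C(Z, X) := ⟨fun z => H1 (1, z), by fun_prop⟩ with hf1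
    have hf1L : OL φ L f1 := h1L 1
    obtain ⟨H2, h20, h2L, h2c, h2i⟩ := ih (fun g' hg' => hgs g' (by simp [hg'])) f1 hf1L
    set f2 : C(Z, X) := ⟨fun z => H2 (1, z), by fun_prop⟩ with hf2
    set F1 : ContinuousMap.Homotopy f f1 := ⟨H1, h10, fun _ => rfl⟩ with hF1
    set F2 : ContinuousMap.Homotopy f1 f2 := ⟨H2, h20, fun _ => rfl⟩ with hF2
    set F := F1.trans F2 with hF
    have hFv : ∀ τ : I, (∃ τ', ∀ z, F (τ, z) = H1 (τ', z)) ∨ (∃ τ', ∀ z, F (τ, z) = H2 (τ', z)) := by
      intro τ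
      by_cases hτ : (τ : ℝ) ≤ 1/2
      · refine Or.inl ⟨⟨2 * τ, (unitInterval.mul_pos_mem_iff zero_lt_two).2 ⟨τ.2.1, hτ⟩⟩, fun z => ?_⟩
        rw [hF, ContinuousMap.Homotopy.trans_apply, dif_pos hτ]
        rfl
      · refine Or.inr ⟨⟨2 * τ - 1, unitInterval.two_mul_sub_one_mem_iff.2
          ⟨(not_le.1 hτ).le, τ.2.2⟩⟩, fun z => ?_⟩
        rw [hF, ContinuousMap.Homotopy.trans_apply, dif_neg hτ]
        rfl
    have hF1v : ∀ z, F (1, z) = H2 (1, z) := fun z => by
      rw [ContinuousMap.Homotopy.apply_one]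
      rfl
    -- constancy of f1 along constant orbits of f
    have hcf1 : ∀ z, (∀ t, f (φ t z) = f z) → (∀ t, f1 (φ t z) = f1 z) := by
      intro z hz t
      have h3 : f1 z = f z := h1c 1 z hz
      have h4 : f1 (φ t z) = f (φ t z) := h1c 1 (φ t z) (fun s => by rw [← hφ.add, hz, hz])
      rw [h3, h4, hz]
    refine ⟨F.toContinuousMap, fun z => F.apply_zero z, fun τ => ?_, fun τ z hz => ?_,
      fun z hz t => ?_⟩
    · rcases hFv τ with ⟨τ', h'⟩ | ⟨τ', h'⟩
      · change OL φ L fun z => F (τ, z)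
        simp only [h']
        exact h1L τ'
      · change OL φ L fun z => F (τ, z)
        simp only [h']
        exact h2L τ'
    · change F (τ, z) = f z
      rcases hFv τ with ⟨τ', h'⟩ | ⟨τ', h'⟩
      · rw [h']
        exact h1c τ' z hz
      · rw [h', h2c τ' z (hcf1 z hz)]
        exact h1c 1 z hz
    · change F (1, φ t z) = F (1, z)
      rw [hF1v, hF1v]
      obtain ⟨g', hg', hgz⟩ := hz
      rcases List.mem_cons.1 hg' with rfl | hg'
      · have h3 : ∀ s, f1 (φ s z) = f1 z := fun s => h1i z hgz s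
        rw [h2c 1 z h3, h2c 1 (φ t z) (fun s => by rw [← hφ.add, h3, h3]), h3]
      · exact h2i z ⟨g', hg', hgz⟩ t

/-- existence of equivariant functions for a free flow -/
theorem exists_equivariant (hφ : Circ Z φ) (free : ∀ z, ∀ t ∈ Ioo 0 (2 * π), φ t z ≠ z) (z₀ : Z) :
    ∃ g : C(Z, ℂ), (∀ t z, g (φ t z) = Complex.exp (t * Complex.I) * g z) ∧ 1 < ‖g z₀‖ := by
  -- the orbit map
  set F : ℝ → Z := fun t => φ t z₀ with hF
  have hFc : Continuous F := hφ.continuous_comp continuous_id continuous_const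
  have hF0 : F 0 = F (0 + 2 * π) := by simp only [hF]; rw [hφ.add_period]
  set o : Ci → Z := AddCircle.liftIco (2 * π) 0 F with ho
  have hoc : Continuous o := AddCircle.liftIco_continuous hF0 hFc.continuousOn
  have hov : ∀ t : ℝ, o (t : Ci) = φ t z₀ := by
    intro t
    obtain ⟨t', ht', htt'⟩ := exists_rep (t : Ci)
    rw [← hφ.eq_of_coe htt' z₀, ← htt']
    exact AddCircle.liftIco_zero_coe_apply ht'
  have hoi : Function.Injective o := by
    intro a b hab
    obtain ⟨s, hs, rfl⟩ := exists_rep a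
    obtain ⟨t, ht, rfl⟩ := exists_rep b
    rw [hov, hov] at hab
    rcases lt_trichotomy s t with h1 | h1 | h1
    · exfalso
      refine free (φ s z₀) (t - s) ⟨by linarith, by linarith [hs.1, ht.2]⟩ ?_
      rw [← hφ.add, sub_add_cancel, hab]
    · rw [h1]
    · exfalso
      refine free (φ t z₀) (s - t) ⟨by linarith, by linarith [ht.1, hs.2]⟩ ?_
      rw [← hφ.add, sub_add_cancel, hab]
  have hce : IsClosedEmbedding o := hoc.isClosedEmbedding hoi
  obtain ⟨ρ, hρ⟩ := ContinuousMap.exists_extension hce (fourier 1 : C(Ci, ℂ))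
  have hρ1 : ∀ t : ℝ, ρ (φ t z₀) = Complex.exp (t * Complex.I) := by
    intro t
    have h1 : ρ (o (t : Ci)) = fourier 1 (t : Ci) := by
      rw [← hρ]
      rfl
    rw [hov, fourier_coe_apply] at h1
    rw [h1]
    congr 1
    push_cast
    have : (2 * (π:ℂ)) ≠ 0 := by
      have := Real.pi_ne_zero
      simp [this]
    field_simp
  -- the average
  set G : C(ℝ, C(Z, ℂ)) := ContinuousMap.curry ⟨fun p : ℝ × Z =>
    Complex.exp (-(p.1 : ℂ) * Complex.I) * ρ (φ p.1 p.2), by
      have := ρ.continuous.comp hφ.cont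
      exact Continuous.mul (by fun_prop) this⟩ with hG
  have hGv : ∀ t z, G t z = Complex.exp (-(t : ℂ) * Complex.I) * ρ (φ t z) := fun _ _ => rfl
  set g : C(Z, ℂ) := ∫ t in (0:ℝ)..(2 * π), G t with hg
  have hgv : ∀ z, g z = ∫ t in (0:ℝ)..(2 * π), Complex.exp (-(t : ℂ) * Complex.I) * ρ (φ t z) := by
    intro z
    have := (ContinuousMap.evalCLM ℂ z).intervalIntegral_comp_comm
      (G.continuous.intervalIntegrable 0 (2 * π)) (μ := MeasureTheory.volume)
    change (ContinuousMap.evalCLM ℂ z) g = _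
    rw [hg, ← this]
    rfl
  refine ⟨g, fun s z => ?_, ?_⟩
  · rw [hgv, hgv]
    have hper : Function.Periodic (fun t : ℝ => Complex.exp (-(t : ℂ) * Complex.I) * ρ (φ t z))
        (2 * π) := by
      intro t
      simp only [hφ.add_period]
      congr 1
      have : -((t + 2 * π : ℝ) : ℂ) * Complex.I = -(t:ℂ) * Complex.I - 2 * π * Complex.I := by
        push_cast; ring
      rw [this, Complex.exp_sub, Complex.exp_two_pi_mul_I, div_one]
    have h1 : ∀ t : ℝ, Complex.exp (-(t : ℂ) * Complex.I) * ρ (φ t (φ s z))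
        = Complex.exp (s * Complex.I) *
          (fun t : ℝ => Complex.exp (-(t : ℂ) * Complex.I) * ρ (φ t z)) (t + s) := by
      intro t
      simp only
      rw [← hφ.add, ← mul_assoc, ← Complex.exp_add]
      congr 2
      push_cast
      ring
    simp only [h1]
    rw [intervalIntegral.integral_const_mul, intervalIntegral.integral_comp_add_right
      (fun t : ℝ => Complex.exp (-(t : ℂ) * Complex.I) * ρ (φ t z))]
    congr 1
    rw [zero_add, add_comm (2 * π) s]
    exact hper.intervalIntegral_add_eq s 0 |>.trans (by rw [zero_add])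
  · rw [hgv]
    have h1 : ∀ t : ℝ, Complex.exp (-(t : ℂ) * Complex.I) * ρ (φ t z₀) = 1 := by
      intro t
      rw [hρ1, ← Complex.exp_add]
      simp
    simp only [h1]
    rw [intervalIntegral.integral_const]
    simp only [sub_zero, Complex.real_smul, mul_one]
    rw [Complex.norm_real, Real.norm_eq_abs, abs_of_pos Real.two_pi_pos]
    linarith [Real.pi_gt_three]

/-- **THEOREM E**: equivariant contraction of the space of short loops -/
theorem contraction (h : GeoBelow X D gd) (hφ : Circ Z φ)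
    (free : ∀ z, ∀ t ∈ Ioo 0 (2 * π), φ t z ≠ z) (hL0 : 0 ≤ L) (hLD : L < 2 * D)
    (f : C(Z, X)) (hf : OL φ L f) :
    ∃ H : C(I × Z, X), (∀ z, H (0, z) = f z) ∧ (∀ τ, OL φ L fun z => H (τ, z)) ∧
      (∀ τ z, (∀ t, f (φ t z) = f z) → H (τ, z) = f z) ∧
      (∀ t z, H (1, φ t z) = H (1, z)) := by
  choose g hg1 hg2 using fun z₀ : Z => exists_equivariant hφ free z₀
  obtain ⟨T, hT⟩ := isCompact_univ.elim_finite_subcover (fun z₀ : Z => {z | 1 < ‖g z₀ z‖})
    (fun z₀ => isOpen_lt continuous_const (g z₀).continuous.norm)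
    (fun z _ => mem_iUnion.2 ⟨z, hg2 z⟩)
  obtain ⟨H, h0, hL, hc, hi⟩ := many h hφ hL0 hLD one_pos (T.toList.map g) (by
    intro g' hg'
    obtain ⟨z₀, -, rfl⟩ := List.mem_map.1 hg'
    exact hg1 z₀) f hf
  refine ⟨H, h0, hL, hc, fun t z => hi z ?_ t⟩
  obtain ⟨z₀, hz₀, hz⟩ := mem_iUnion₂.1 (hT (mem_univ z))
  exact ⟨g z₀, List.mem_map.2 ⟨z₀, Finset.mem_toList.2 hz₀, rfl⟩, le_of_lt hz⟩

end many

end Crest.Agent.R208.E
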