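import Crest.Agent.R208.E1
import Crest.Agent.R208.G3s

/-!
R208, block E3 (helper131): Blaschke data give a `GeoBelow` structure (unique minimal geodesics
below distance `D`, continuous in the end points).
-/

set_option autoImplicit false

open Set Filter Topology
open scoped Real ENNReal NNReal
open Crest.GeometryTopology.Submanifold
open Crest.Agent.R241.DDefs Crest.Agent.R241.D Crest.Agent.R241.D2

noncomputable section

namespace Crest.Agent.R208.E

variable {n N : ℕ} {κ : ℝ} {S : Set (Euc N)} {G : Geo n N κ S} {D : ℝ}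

attribute [local irreducible] Crest.Agent.R241.D2.Exp

/-- the initial velocity of the minimal geodesic -/
def vv (h : Bl n N κ S G D) (a b : XB h) : Euc N := Classical.choose (h.exists_Exp a.2 b.2)

theorem vv_mem (h : Bl n N κ S G D) (a b : XB h) : vv h a b ∈ G.T a.1 :=
  (Classical.choose_spec (h.exists_Exp a.2 b.2)).1

theorem norm_vv (h : Bl n N κ S G D) (a b : XB h) : ‖vv h a b‖ = dist a b :=
  (Classical.choose_spec (h.exists_Exp a.2 b.2)).2.1

theorem Exp_vv (h : Bl n N κ S G D) (a b : XB h) : Exp G a.1 (vv h a b) = b.1 :=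
  (Classical.choose_spec (h.exists_Exp a.2 b.2)).2.2

theorem vv_unique (h : Bl n N κ S G D) {a b : XB h} (hab : dist a b < D) {v : Euc N}
    (hv : v ∈ G.T a.1) (hvD : ‖v‖ ≤ D) (he : Exp G a.1 v = b.1) : v = vv h a b := by
  refine (h.Exp_inj a.2 (vv_mem h a b) hv ?_ hvD ?_).symm
  · rw [norm_vv]; exact hab
  · rw [Exp_vv, he]

/-- the minimal geodesic -/
def gdX (h : Bl n N κ S G D) (a b : XB h) (t : ℝ) : XB h :=
  XB.of h ⟨Exp G a.1 (t • vv h a b), Exp_mem G a.2 ((G.T a.1).smul_mem _ (vv_mem h a b))⟩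

theorem gdX_val (h : Bl n N κ S G D) (a b : XB h) (t : ℝ) :
    (gdX h a b t).1 = Exp G a.1 (t • vv h a b) := rfl

theorem continuous_val (h : Bl n N κ S G D) : Continuous fun a : XB h => (a.1 : Euc N) :=
  continuous_subtype_val.comp (XB.homeo h).continuous

theorem continuousOn_vv (h : Bl n N κ S G D) :
    ContinuousOn (fun p : XB h × XB h => vv h p.1 p.2) {p | dist p.1 p.2 < D} := by
  intro p hp
  refine (isCompact_closedBall (0 : Euc N) D).tendsto_nhds_of_unique_mapClusterPt ?_ ?_
  · filter_upwards [self_mem_nhdsWithin] with q hq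
    rw [mem_closedBall_zero_iff, norm_vv]
    exact le_of_lt hq
  · intro v hv hcl
    obtain ⟨U, hU, hUv⟩ := mapClusterPt_iff_ultrafilter.1 hcl
    have hUp : Tendsto (fun q : XB h × XB h => q) U (𝓝 p) := hU.trans nhdsWithin_le_nhds
    have h1 : Tendsto (fun q : XB h × XB h => (q.1.1 : Euc N)) U (𝓝 p.1.1) :=
      ((continuous_val h).comp continuous_fst).continuousAt.tendsto.comp hUp
    have h2 : Tendsto (fun q : XB h × XB h => (q.2.1 : Euc N)) U (𝓝 p.2.1) :=
      ((continuous_val h).comp continuous_snd).continuousAt.tendsto.comp hUp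
    have hTS : ((p.1.1 : Euc N), v) ∈ TS G := by
      refine (isClosed_TS G).mem_of_tendsto (h1.prodMk_nhds hUv) (Eventually.of_forall fun q => ?_)
      exact ⟨q.1.2, vv_mem h q.1 q.2⟩
    have hE : Exp G p.1.1 v = p.2.1 := by
      have h3 : Tendsto (fun q : XB h × XB h => Exp G q.1.1 (vv h q.1 q.2)) U
          (𝓝 (Exp G p.1.1 v)) := by
        have hc : Tendsto (fun q : Euc N × Euc N => Exp G q.1 q.2) (𝓝 ((p.1.1 : Euc N), v))
            (𝓝 (Exp G p.1.1 v)) := (contDiffAt_Exp G hTS.1 hTS.2).continuousAt.tendsto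
        have hc2 : Tendsto (fun q : XB h × XB h => ((q.1.1 : Euc N), vv h q.1 q.2)) U
            (𝓝 ((p.1.1 : Euc N), v)) := h1.prodMk_nhds hUv
        exact hc.comp hc2
      have h4 : (fun q : XB h × XB h => Exp G q.1.1 (vv h q.1 q.2)) = fun q => (q.2.1 : Euc N) :=
        funext fun q => Exp_vv h q.1 q.2
      rw [h4] at h3
      exact tendsto_nhds_unique h3 h2
    exact vv_unique h hp hTS.2 (mem_closedBall_zero_iff.1 hv) hE

/-- unique minimal geodesics below distance `D` -/
theorem geoBelow (h : Bl n N κ S G D) : GeoBelow (XB h) D (gdX h) where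
  zero a b _ := by
    apply Subtype.ext
    rw [gdX_val, zero_smul, Exp_zero G a.2]
  one a b _ := by
    apply Subtype.ext
    rw [gdX_val, one_smul, Exp_vv]
  dist_le a b hab s hs t ht := by
    rcases eq_or_ne (vv h a b) 0 with h0 | h0
    · have : gdX h a b s = gdX h a b t := by
        apply Subtype.ext
        rw [gdX_val, gdX_val, h0, smul_zero, smul_zero]
      rw [this, dist_self]
      positivity
    · have hr : 0 < ‖vv h a b‖ := norm_pos_iff.2 h0
      set r := ‖vv h a b‖ with hrdef
      have hrd : r = dist a b := norm_vv h a b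
      set u := r⁻¹ • vv h a b with hu
      have huT : u ∈ G.T a.1 := (G.T a.1).smul_mem _ (vv_mem h a b)
      have hu1 : ‖u‖ = 1 := by
        rw [hu, norm_smul, norm_inv, norm_norm, inv_mul_cancel₀ hr.ne']
      have hsu : ∀ x : ℝ, x • vv h a b = (x * r) • u := by
        intro x
        rw [hu, smul_smul, mul_assoc, mul_inv_cancel₀ hr.ne', mul_one]
      have hst : |s - t| ≤ 1 := by
        rw [abs_le]
        constructor <;> linarith [hs.1, hs.2, ht.1, ht.2]
      have h1 : |t * r - s * r| = |s - t| * r := by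
        rw [← sub_mul, abs_mul, abs_of_pos hr, abs_sub_comm]
      have h2 := h.dist_ray_abs a.2 huT hu1 (s := s * r) (t := t * r) (by
        rw [h1]
        nlinarith [hrd ▸ hab])
      change intrinsicDist S (Exp G a.1 (s • vv h a b)) (Exp G a.1 (t • vv h a b)) ≤ _
      rw [hsu, hsu, h2, h1, hrd]
  cont := by
    have hval : ContinuousOn (fun p : (XB h × XB h) × ℝ => Exp G p.1.1.1 (p.2 • vv h p.1.1 p.1.2))
        ({p : XB h × XB h | dist p.1 p.2 < D} ×ˢ Icc (0:ℝ) 1) := by
      intro p hp
      have hv : ContinuousWithinAt (fun p : (XB h × XB h) × ℝ => vv h p.1.1 p.1.2)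
          ({p : XB h × XB h | dist p.1 p.2 < D} ×ˢ Icc (0:ℝ) 1) p :=
        (continuousOn_vv h p.1 hp.1).comp continuous_fst.continuousWithinAt fun q hq => hq.1
      have h1 : ContinuousWithinAt (fun p : (XB h × XB h) × ℝ =>
          ((p.1.1.1 : Euc N), p.2 • vv h p.1.1 p.1.2))
          ({p : XB h × XB h | dist p.1 p.2 < D} ×ˢ Icc (0:ℝ) 1) p :=
        ((continuous_val h).comp (continuous_fst.comp continuous_fst)).continuousWithinAt.prodMk
          (continuous_snd.continuousWithinAt.smul hv)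
      have hc : Tendsto (fun q : Euc N × Euc N => Exp G q.1 q.2)
          (𝓝 ((p.1.1.1 : Euc N), p.2 • vv h p.1.1 p.1.2))
          (𝓝 (Exp G p.1.1.1 (p.2 • vv h p.1.1 p.1.2))) :=
        (contDiffAt_Exp G (p := p.1.1.1) (v := p.2 • vv h p.1.1 p.1.2) p.1.1.2
          ((G.T _).smul_mem _ (vv_mem h _ _))).continuousAt.tendsto
      have h2 : Tendsto (fun p : (XB h × XB h) × ℝ =>
          ((p.1.1.1 : Euc N), p.2 • vv h p.1.1 p.1.2))
          (𝓝[({p : XB h × XB h | dist p.1 p.2 < D} ×ˢ Icc (0:ℝ) 1)] p)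
          (𝓝 ((p.1.1.1 : Euc N), p.2 • vv h p.1.1 p.1.2)) := h1
      exact hc.comp h2
    rw [continuousOn_iff_continuous_domRestrict] at hval ⊢
    exact (XB.homeo h).symm.continuous.comp (Continuous.subtype_mk hval fun q =>
      Exp_mem G q.1.1.1.2 ((G.T _).smul_mem _ (vv_mem h _ _)))

end Crest.Agent.R208.E
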