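import Crest.Agent.R208.E4a
import Crest.Agent.R208.E3
import Crest.Agent.R208.E2c
import Crest.Agent.R208.FH10a
import Mathlib.Analysis.Calculus.BumpFunction.SmoothApprox
import Mathlib.Analysis.Complex.Tietze

/-!
R208, block E4b (helper131): THEOREM E, smooth version.
-/

set_option autoImplicit false

open Set Filter Topology
open scoped Real ENNReal NNReal unitInterval ContDiff
open Crest.GeometryTopology.Submanifold
open Crest.Agent.R241.DDefs Crest.Agent.R241.D Crest.Agent.R241.D2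

noncomputable section

namespace Crest.Agent.R208.E

/-- A free smooth circle action on the (compact) set `K`, as a `2π`-periodic flow. -/
structure CirS {E : Type*} [NormedAddCommGroup E] [NormedSpace ℝ E] (K : Set E)
    (φ : ℝ → E → E) : Prop where
  smooth : ∀ t, ∀ x ∈ K, ContDiffAt ℝ ∞ (fun p : ℝ × E => φ p.1 p.2) (t, x)
  maps : ∀ t, MapsTo (φ t) K K
  zero : ∀ x ∈ K, φ 0 x = x
  add : ∀ s t, ∀ x ∈ K, φ (s + t) x = φ s (φ t x)
  per : ∀ x ∈ K, φ (2 * π) x = x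
  free : ∀ x ∈ K, ∀ t ∈ Ioo 0 (2 * π), φ t x ≠ x

namespace CirS

variable {E : Type*} [NormedAddCommGroup E] [NormedSpace ℝ E] {K : Set E} {φ : ℝ → E → E}

theorem mono (h : CirS K φ) {K' : Set E} (hK : K' ⊆ K) (hm : ∀ t, MapsTo (φ t) K' K') :
    CirS K' φ :=
  ⟨fun t x hx => h.smooth t x (hK hx), hm, fun x hx => h.zero x (hK hx),
    fun s t x hx => h.add s t x (hK hx), fun x hx => h.per x (hK hx),
    fun x hx => h.free x (hK hx)⟩

theorem smooth_snd (h : CirS K φ) (t : ℝ) {x : E} (hx : x ∈ K) : ContDiffAt ℝ ∞ (φ t) x :=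
  (h.smooth t x hx).comp x (contDiffAt_const.prodMk contDiffAt_id)

theorem smooth_fst (h : CirS K φ) {x : E} (hx : x ∈ K) : ContDiff ℝ ∞ (fun t => φ t x) :=
  contDiff_iff_contDiffAt.2 fun t =>
    (h.smooth t x hx).comp t (contDiffAt_id.prodMk contDiffAt_const)

/-- the action on the subtype -/
def sub (h : CirS K φ) (t : ℝ) (z : K) : K := ⟨φ t z.1, h.maps t z.2⟩

theorem circ (h : CirS K φ) : Circ K h.sub where
  zero z := Subtype.ext (h.zero z.1 z.2)
  add s t z := Subtype.ext (h.add s t z.1 z.2)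
  per z := Subtype.ext (h.per z.1 z.2)
  cont := by
    refine Continuous.subtype_mk ?_ _
    rw [continuous_iff_continuousAt]
    rintro ⟨t, z⟩
    exact ContinuousAt.comp (f := fun p : ℝ × K => (p.1, (p.2 : E)))
      (g := fun p : ℝ × E => φ p.1 p.2) (h.smooth t z.1 z.2).continuousAt
      (by fun_prop)

end CirS

variable {n N : ℕ} {κ : ℝ} {S : Set (Euc N)} {G : Geo n N κ S} {D : ℝ}

/-- length of smooth loops in the metric space `XB h` -/
theorem eVar_le (h : Bl n N κ S G D) {c : ℝ → Euc N} (hc : ContDiff ℝ 1 c) (hcS : ∀ t, c t ∈ S)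
    {a b : ℝ} (hab : a ≤ b) :
    eVariationOn (fun t => XB.of h ⟨c t, hcS t⟩) (Icc a b)
      ≤ ENNReal.ofReal (∫ t in a..b, ‖deriv c t‖) := by
  have hcc : Continuous (deriv c) := hc.continuous_deriv le_rfl
  have hint : ∀ s t, IntervalIntegrable (fun t => ‖deriv c t‖) MeasureTheory.volume s t :=
    fun s t => hcc.norm.intervalIntegrable s t
  set Lf : ℝ → ℝ := fun t => ∫ s in a..t, ‖deriv c s‖ with hLf
  have hLsub : ∀ s t, Lf t - Lf s = ∫ r in s..t, ‖deriv c r‖ := fun s t =>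
    intervalIntegral.integral_interval_sub_left (hint a t) (hint a s)
  have hd : ∀ s t, s ≤ t → dist (XB.of h ⟨c s, hcS s⟩) (XB.of h ⟨c t, hcS t⟩) ≤ Lf t - Lf s := by
    intro s t hst
    rw [hLsub]
    exact (intrinsicDist_le_integral h.sub h.cpt hst (fun r _ => hcS r)
      (fun r _ => ((hc.differentiable one_ne_zero) r).hasDerivAt.hasDerivWithinAt)
      hcc.continuousOn).2
  have hmono : Monotone Lf := by
    intro s t hst
    have := hd s t hst
    linarith [dist_nonneg (x := XB.of h ⟨c s, hcS s⟩) (y := XB.of h ⟨c t, hcS t⟩)]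
  have h1 : eVariationOn (fun t => XB.of h ⟨c t, hcS t⟩) (Icc a b) ≤ eVariationOn Lf (Icc a b) := by
    refine iSup_le fun p => ?_
    refine le_trans ?_ (eVariationOn.sum_le (f := Lf) (s := Icc a b) (n := p.1) p.2.2.1 p.2.2.2)
    refine Finset.sum_le_sum fun i _ => ?_
    rw [edist_comm, edist_comm (Lf _), edist_dist, edist_dist]
    refine ENNReal.ofReal_le_ofReal ?_
    have hle := p.2.2.1 (Nat.le_succ i)
    have h2 := hd _ _ hle
    rw [Real.dist_eq, abs_sub_comm, abs_of_nonneg (by linarith [hmono hle])]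
    exact h2
  refine h1.trans ?_
  have h2 := (hmono.monotoneOn (Icc a b)).eVariationOn_eq (left_mem_Icc.2 hab) (right_mem_Icc.2 hab)
  rw [Set.inter_self] at h2
  refine h2.le.trans (le_of_eq ?_)
  rw [hLsub]

/-- **THEOREM E, smooth relative version.**  `K` is any compact invariant set of a free smooth circle
flow, `f` a smooth map near `K` into `S` all of whose orbit loops have length `≤ L < 2D`.  The
homotopy is constant where the invariant cut off `μ` is `1` (`f` must be invariant where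
`μ ≠ 0`). -/
theorem contraction_rel (h : Bl n N κ S G D) {E : Type} [NormedAddCommGroup E]
    [InnerProductSpace ℝ E] [FiniteDimensional ℝ E] {K : Set E} (hK : IsCompact K)
    {φ : ℝ → E → E} (hφ : CirS K φ) {f : E → Euc N} (hf : ∀ x ∈ K, ContDiffAt ℝ ∞ f x)
    (hfS : MapsTo f K S) {L : ℝ} (hL0 : 0 ≤ L) (hLD : L < 2 * D)
    (hlen : ∀ z ∈ K, ∫ t in (0:ℝ)..(2 * π), ‖deriv (fun t => f (φ t z)) t‖ ≤ L)
    {μ : E → ℝ} (hμ : ∀ x ∈ K, ContDiffAt ℝ ∞ μ x) (hμ0 : ∀ x ∈ K, 0 ≤ μ x)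
    (hμ1 : ∀ x ∈ K, μ x ≤ 1) (hμi : ∀ x ∈ K, ∀ t, μ (φ t x) = μ x)
    (hμf : ∀ x ∈ K, μ x ≠ 0 → ∀ t, f (φ t x) = f x) :
    ∃ F : E × ℝ → Euc N, (∀ z ∈ K, ∀ s, ContDiffAt ℝ ∞ F (z, s)) ∧
      (∀ z ∈ K, ∀ s, F (z, s) ∈ S) ∧ (∀ z ∈ K, ∀ s ≤ 1/4, F (z, s) = f z) ∧
      (∀ z ∈ K, ∀ t, ∀ s ≥ 3/4, F (φ t z, s) = F (z, s)) ∧
      (∀ z ∈ K, μ z = 1 → ∀ s, F (z, s) = f z) := by
  classical
  have : CompactSpace K := isCompact_iff_compactSpace.1 hK
  have hclo : FI.Clo n S := FI.clo_of_isSubmanifold h.sub h.cpt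
  obtain ⟨r, O, hO, hSO, hr, hrS, hrid⟩ := exists_retract hclo
  -- continuous version
  set f' : C(K, XB h) := ⟨fun z => XB.of h ⟨f z.1, hfS z.2⟩, by
    refine (XB.homeo h).symm.continuous.comp (Continuous.subtype_mk ?_ _)
    rw [continuous_iff_continuousAt]
    intro z
    exact ContinuousAt.comp (f := fun z : K => (z : E)) (g := f) (hf z.1 z.2).continuousAt
      (by fun_prop)⟩ with hf'
  have hfo : ∀ z ∈ K, ContDiff ℝ ∞ fun t => f (φ t z) := fun z hz =>
    contDiff_iff_contDiffAt.2 fun t =>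
      (hf _ (hφ.maps t hz)).comp t ((hφ.smooth_fst hz).contDiffAt)
  have hOL : OL hφ.sub L f' := by
    intro z
    refine (eVar_le h (c := fun t => f (φ t z.1)) ((hfo z.1 z.2).of_le (by simp))
      (fun t => hfS (hφ.maps t z.2)) (by positivity)).trans ?_
    exact ENNReal.ofReal_le_ofReal (hlen z.1 z.2)
  obtain ⟨H, hH0, -, hHc1, hH1⟩ := contraction (geoBelow h) hφ.circ
    (fun z t ht he => hφ.free z.1 z.2 t ht (congrArg Subtype.val he)) hL0 hLD f' hOL
  -- the map on `K × [0,1]` with constant ends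
  have hI : ∀ s : ℝ, projIcc (0:ℝ) 1 zero_le_one (3 * s - 1) ∈ (univ : Set I) := fun _ => mem_univ _
  set Hh : K × ℝ → Euc N := fun p =>
    (H (projIcc (0:ℝ) 1 zero_le_one (3 * p.2 - 1), p.1)).1 with hHh
  have hHc : Continuous Hh := by
    refine (continuous_val h).comp (H.continuous.comp ?_)
    exact (continuous_projIcc.comp (by fun_prop)).prodMk continuous_fst
  have hHS : ∀ p, Hh p ∈ S := fun p => (H (projIcc (0:ℝ) 1 zero_le_one (3 * p.2 - 1), p.1)).2
  have hHlo : ∀ (z : K) (s : ℝ), s ≤ 1/3 → Hh (z, s) = f z.1 := by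
    intro z s hs
    have : projIcc (0:ℝ) 1 zero_le_one (3 * s - 1) = 0 := projIcc_of_le_left _ (by linarith)
    simp only [hHh, this]
    rw [hH0]
    rfl
  have hHhi : ∀ (z : K) (s : ℝ), 2/3 ≤ s → Hh (z, s) = (H (1, z)).1 := by
    intro z s hs
    have : projIcc (0:ℝ) 1 zero_le_one (3 * s - 1) = 1 := projIcc_of_right_le _ (by linarith)
    simp only [hHh, this]
  have hHconst : ∀ (z : K), μ z.1 ≠ 0 → ∀ s, Hh (z, s) = f z.1 := by
    intro z hz s
    simp only [hHh]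
    rw [hHc1 _ z (fun t => Subtype.ext (hμf z.1 z.2 hz t))]
    rfl
  have hHinv : ∀ (z : K) (t : ℝ) (s : ℝ), 2/3 ≤ s → Hh (hφ.sub t z, s) = Hh (z, s) := by
    intro z t s hs
    rw [hHhi _ _ hs, hHhi _ _ hs, hH1]
  -- extension
  set ι : K × ℝ → E × ℝ := fun p => (p.1.1, p.2) with hι
  have hιc : IsClosedEmbedding ι :=
    (hK.isClosed.isClosedEmbedding_subtypeVal).prodMap IsClosedEmbedding.id
  obtain ⟨Fh, hFh⟩ := ContinuousMap.exists_extension hιc ⟨Hh, hHc⟩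
  have hFhv : ∀ p : K × ℝ, Fh (p.1.1, p.2) = Hh p := by
    intro p
    have := congrArg (fun g : C(K × ℝ, Euc N) => g p) hFh
    exact this
  -- the tube
  obtain ⟨ε, hε, hεO⟩ := h.cpt.exists_thickening_subset_open hO hSO
  have hball : ∀ x ∈ S, ∀ y, ‖y - x‖ < ε → y ∈ O := by
    intro x hx y hy
    apply hεO
    rw [Metric.mem_thickening_iff]
    exact ⟨x, hx, by rwa [dist_eq_norm]⟩
  -- smooth approximation
  set Kc : Set (E × ℝ) := K ×ˢ Icc (0:ℝ) 1 with hKc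
  have hKcc : IsCompact Kc := hK.prod isCompact_Icc
  obtain ⟨g, hgs, hgd⟩ : ∃ g : E × ℝ → Euc N, ContDiff ℝ ∞ g ∧ ∀ p ∈ Kc, ‖g p - Fh p‖ < ε / 2 := by
    have hde := ContinuousMap.dense_setOfPred_contDiff (E := E × ℝ) (F := Euc N)
    have hcl : Fh ∈ closure {f : C(E × ℝ, Euc N) | ContDiff ℝ ∞ f} := hde Fh
    rw [mem_closure_iff_nhds_basis (nhds_basis_uniformity
      Metric.uniformity_basis_dist.compactConvergenceUniformity)] at hcl
    obtain ⟨g, hg1, hg2⟩ := hcl (Kc, ε / 2) ⟨hKcc, by positivity⟩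
    exact ⟨g, hg1, fun p hp => by
      have := hg2 p hp
      simpa [dist_eq_norm] using this⟩
  -- the average
  set A : E → Euc N := fun z => FI.I1 (fun p : E × ℝ => g (φ (2 * π * p.2) p.1, 2/3)) z with hA
  have hAs : ∀ z ∈ K, ContDiffAt ℝ ∞ A z := by
    intro z hz
    refine FI.contDiffAt_I1 fun t _ => ?_
    have h1 : ContDiffAt ℝ ∞ (fun p : E × ℝ => φ (2 * π * p.2) p.1) (z, t) :=
      ContDiffAt.comp (z, t) (g := fun p : ℝ × E => φ p.1 p.2)
        (f := fun p : E × ℝ => (2 * π * p.2, p.1)) (hφ.smooth _ z hz)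
        ((contDiffAt_const.mul contDiffAt_snd).prodMk contDiffAt_fst)
    exact (hgs.contDiffAt).comp (z, t) (h1.prodMk contDiffAt_const)
  have hAv : ∀ z, A z = ∫ t in (0:ℝ)..1, g (φ (2 * π * t) z, 2/3) := fun z => rfl
  have hAinv : ∀ z ∈ K, ∀ t, A (φ t z) = A z := by
    intro z hz t
    rw [hAv, hAv]
    set u : ℝ → Euc N := fun s => g (φ (2 * π * s) z, 2/3) with hu
    have hper : Function.Periodic u 1 := by
      intro s
      simp only [hu]
      rw [show 2 * π * (s + 1) = 2 * π * s + 2 * π by ring, hφ.add _ _ z hz, hφ.per z hz]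
    have h1 : ∀ s : ℝ, g (φ (2 * π * s) (φ t z), 2/3) = u (s + t / (2 * π)) := by
      intro s
      simp only [hu]
      rw [← hφ.add _ _ z hz]
      congr 3
      field_simp
    simp only [h1]
    rw [intervalIntegral.integral_comp_add_right]
    rw [zero_add, add_comm 1 (t / (2 * π))]
    exact (hper.intervalIntegral_add_eq (t / (2 * π)) 0).trans (by rw [zero_add])
  have hAd : ∀ z (hz : z ∈ K), ‖A z - Hh (⟨z, hz⟩, 2/3)‖ ≤ ε / 2 := by
    intro z hz
    have h1 : A z - Hh (⟨z, hz⟩, 2/3)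
        = ∫ t in (0:ℝ)..1, (g (φ (2 * π * t) z, 2/3) - Hh (⟨z, hz⟩, 2/3)) := by
      rw [intervalIntegral.integral_sub, hAv]
      · simp
      · refine Continuous.intervalIntegrable ?_ _ _
        exact hgs.continuous.comp ((((hφ.smooth_fst hz).continuous).comp (by fun_prop)).prodMk
          continuous_const)
      · exact intervalIntegrable_const
    rw [h1]
    have h2 := intervalIntegral.norm_integral_le_of_norm_le_const (a := (0:ℝ)) (b := 1)
      (f := fun t => g (φ (2 * π * t) z, 2/3) - Hh (⟨z, hz⟩, 2/3)) (C := ε / 2) ?_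
    · simpa using h2
    · intro t _
      have h3 : Hh (⟨z, hz⟩, 2/3) = Fh (φ (2 * π * t) z, 2/3) := by
        rw [← hHinv ⟨z, hz⟩ (2 * π * t) (2/3) le_rfl]
        exact (hFhv (hφ.sub (2 * π * t) ⟨z, hz⟩, 2/3)).symm
      rw [h3]
      exact (hgd _ ⟨hφ.maps _ hz, by norm_num, by norm_num⟩).le
  clear_value A
  -- cut offs
  set χ₀ : ℝ → ℝ := fun s => Real.smoothTransition (12 * (1/3 - s)) with hχ₀
  set χ₁ : ℝ → ℝ := fun s => Real.smoothTransition (12 * (s - 2/3)) with hχ₁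
  have hχ₀s : ContDiff ℝ ∞ χ₀ := Real.smoothTransition.contDiff.comp (by fun_prop)
  have hχ₁s : ContDiff ℝ ∞ χ₁ := Real.smoothTransition.contDiff.comp (by fun_prop)
  set Ft : E × ℝ → Euc N := fun p =>
    (1 - χ₀ p.2 - χ₁ p.2) • g p + χ₀ p.2 • f p.1 + χ₁ p.2 • A p.1 with hFt
  have hFts : ∀ z ∈ K, ∀ s, ContDiffAt ℝ ∞ Ft (z, s) := by
    intro z hz s
    have h0 : ContDiffAt ℝ ∞ (fun p : E × ℝ => χ₀ p.2) (z, s) :=
      (hχ₀s.contDiffAt).comp (z, s) contDiffAt_snd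
    have h1 : ContDiffAt ℝ ∞ (fun p : E × ℝ => χ₁ p.2) (z, s) :=
      (hχ₁s.contDiffAt).comp (z, s) contDiffAt_snd
    have h2 : ContDiffAt ℝ ∞ (fun p : E × ℝ => f p.1) (z, s) := (hf z hz).comp (z, s) contDiffAt_fst
    have h3 : ContDiffAt ℝ ∞ (fun p : E × ℝ => A p.1) (z, s) :=
      ContDiffAt.comp (z, s) (g := A) (f := Prod.fst) (hAs z hz) contDiffAt_fst
    exact ((((contDiffAt_const.sub h0).sub h1).smul hgs.contDiffAt).add (h0.smul h2)).add (h1.smul h3)
  have hχ₀1 : ∀ s ≤ 1/4, χ₀ s = 1 := fun s hs => Real.smoothTransition.one_of_one_le (by linarith)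
  have hχ₀0 : ∀ s, 1/3 ≤ s → χ₀ s = 0 := fun s hs => Real.smoothTransition.zero_of_nonpos (by linarith)
  have hχ₁1 : ∀ s, 3/4 ≤ s → χ₁ s = 1 := fun s hs => Real.smoothTransition.one_of_one_le (by linarith)
  have hχ₁0 : ∀ s ≤ 2/3, χ₁ s = 0 := fun s hs => Real.smoothTransition.zero_of_nonpos (by linarith)
  have hχ₀b : ∀ s, χ₀ s ∈ Icc (0:ℝ) 1 := fun s =>
    ⟨Real.smoothTransition.nonneg _, Real.smoothTransition.le_one _⟩
  have hχ₁b : ∀ s, χ₁ s ∈ Icc (0:ℝ) 1 := fun s =>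
    ⟨Real.smoothTransition.nonneg _, Real.smoothTransition.le_one _⟩
  have hFtd : ∀ z (hz : z ∈ K) (s : ℝ), ‖Ft (z, s) - Hh (⟨z, hz⟩, s)‖ ≤ ε / 2 := by
    intro z hz s
    have key : Ft (z, s) - Hh (⟨z, hz⟩, s) = (1 - χ₀ s - χ₁ s) • (g (z, s) - Hh (⟨z, hz⟩, s))
        + χ₀ s • (f z - Hh (⟨z, hz⟩, s)) + χ₁ s • (A z - Hh (⟨z, hz⟩, s)) := by
      simp only [hFt]
      module
    have h0 : χ₀ s • (f z - Hh (⟨z, hz⟩, s)) = 0 := by
      rcases le_total s (1/3) with hs | hs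
      · rw [hHlo _ _ hs, sub_self, smul_zero]
      · rw [hχ₀0 s hs, zero_smul]
    have h1 : ‖χ₁ s • (A z - Hh (⟨z, hz⟩, s))‖ ≤ χ₁ s * (ε / 2) := by
      rw [norm_smul, Real.norm_of_nonneg (hχ₁b s).1]
      rcases le_total s (2/3) with hs | hs
      · rw [hχ₁0 s hs, zero_mul, zero_mul]
      · refine mul_le_mul_of_nonneg_left ?_ (hχ₁b s).1
        rw [hHhi _ _ hs, ← hHhi ⟨z, hz⟩ (2/3) le_rfl]
        exact hAd z hz
    have h2 : ‖(1 - χ₀ s - χ₁ s) • (g (z, s) - Hh (⟨z, hz⟩, s))‖ ≤ (1 - χ₀ s - χ₁ s) * (ε / 2) := by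
      have hnn : 0 ≤ 1 - χ₀ s - χ₁ s := by
        rcases le_total s (1/3) with hs | hs
        · rw [hχ₁0 s (by linarith)]; linarith [(hχ₀b s).2]
        · rw [hχ₀0 s hs]; linarith [(hχ₁b s).2]
      rw [norm_smul, Real.norm_of_nonneg hnn]
      by_cases hs : s ∈ Icc (0:ℝ) 1
      · refine mul_le_mul_of_nonneg_left ?_ hnn
        rw [← hFhv (⟨z, hz⟩, s)]
        exact (hgd (z, s) ⟨hz, hs⟩).le
      · have h3 : 1 - χ₀ s - χ₁ s = 0 := by
          rw [mem_Icc, not_and_or, not_le, not_le] at hs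
          rcases hs with hs | hs
          · rw [hχ₀1 s (by linarith), hχ₁0 s (by linarith)]; norm_num
          · rw [hχ₀0 s (by linarith), hχ₁1 s (by linarith)]; norm_num
        rw [h3, zero_mul, zero_mul]
    rw [key, h0, add_zero]
    have h4 := norm_add_le ((1 - χ₀ s - χ₁ s) • (g (z, s) - Hh (⟨z, hz⟩, s)))
      (χ₁ s • (A z - Hh (⟨z, hz⟩, s)))
    nlinarith [(hχ₀b s).1]
  -- the relative part
  set Fr : E × ℝ → Euc N := fun p => (1 - μ p.1) • Ft p + μ p.1 • f p.1 with hFr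
  have hFrs : ∀ z ∈ K, ∀ s, ContDiffAt ℝ ∞ Fr (z, s) := by
    intro z hz s
    have h0 : ContDiffAt ℝ ∞ (fun p : E × ℝ => μ p.1) (z, s) := (hμ z hz).comp (z, s) contDiffAt_fst
    have h2 : ContDiffAt ℝ ∞ (fun p : E × ℝ => f p.1) (z, s) := (hf z hz).comp (z, s) contDiffAt_fst
    exact ((contDiffAt_const.sub h0).smul (hFts z hz s)).add (h0.smul h2)
  have hFrd : ∀ z (hz : z ∈ K) (s : ℝ), ‖Fr (z, s) - Hh (⟨z, hz⟩, s)‖ ≤ ε / 2 := by
    intro z hz s
    have key : Fr (z, s) - Hh (⟨z, hz⟩, s) = (1 - μ z) • (Ft (z, s) - Hh (⟨z, hz⟩, s))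
        + μ z • (f z - Hh (⟨z, hz⟩, s)) := by
      simp only [hFr]
      module
    have h0 : μ z • (f z - Hh (⟨z, hz⟩, s)) = 0 := by
      rcases eq_or_ne (μ z) 0 with h1 | h1
      · rw [h1, zero_smul]
      · rw [hHconst ⟨z, hz⟩ h1 s, sub_self, smul_zero]
    rw [key, h0, add_zero, norm_smul, Real.norm_of_nonneg (by linarith [hμ1 z hz])]
    have h1 := hFtd z hz s
    have h2 : (1 - μ z) * ‖Ft (z, s) - Hh (⟨z, hz⟩, s)‖ ≤ 1 * (ε / 2) :=
      mul_le_mul (by linarith [hμ0 z hz]) h1 (norm_nonneg _) zero_le_one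
    linarith
  have hFtO : ∀ z ∈ K, ∀ s, Fr (z, s) ∈ O := fun z hz s =>
    hball _ (hHS (⟨z, hz⟩, s)) _ ((hFrd z hz s).trans_lt (by linarith))
  refine ⟨fun p => r (Fr p), fun z hz s => ?_, fun z hz s => hrS (hFtO z hz s),
    fun z hz s hs => ?_, fun z hz t s hs => ?_, fun z hz h1 s => ?_⟩
  · exact (hr.contDiffAt (hO.mem_nhds (hFtO z hz s))).comp (z, s) (hFrs z hz s)
  · have h2 : Ft (z, s) = f z := by
      simp only [hFt, hχ₀1 s hs, hχ₁0 s (by linarith)]
      simp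
    have : Fr (z, s) = f z := by
      simp only [hFr, h2]
      module
    simp only [this]
    exact hrid _ (hfS hz)
  · have h1 : ∀ w, Ft (w, s) = A w := by
      intro w
      simp only [hFt, hχ₀0 s (by linarith), hχ₁1 s hs]
      simp
    have h2 : Fr (φ t z, s) = Fr (z, s) := by
      simp only [hFr, h1, hAinv z hz t, hμi z hz t]
      rcases eq_or_ne (μ z) 0 with h3 | h3
      · simp [h3]
      · rw [hμf z hz h3 t]
    simp only [h2]
  · have : Fr (z, s) = f z := by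
      simp only [hFr, h1]
      module
    simp only [this]
    exact hrid _ (hfS hz)

/-- **THEOREM E, smooth version.**  `K` is any compact invariant set of a free smooth circle flow,
`f` a smooth map near `K` into `S` all of whose orbit loops have length `≤ L < 2D`. -/
theorem contraction_smooth (h : Bl n N κ S G D) {E : Type} [NormedAddCommGroup E]
    [InnerProductSpace ℝ E] [FiniteDimensional ℝ E] {K : Set E} (hK : IsCompact K)
    {φ : ℝ → E → E} (hφ : CirS K φ) {f : E → Euc N} (hf : ∀ x ∈ K, ContDiffAt ℝ ∞ f x)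
    (hfS : MapsTo f K S) {L : ℝ} (hL0 : 0 ≤ L) (hLD : L < 2 * D)
    (hlen : ∀ z ∈ K, ∫ t in (0:ℝ)..(2 * π), ‖deriv (fun t => f (φ t z)) t‖ ≤ L) :
    ∃ F : E × ℝ → Euc N, (∀ z ∈ K, ∀ s, ContDiffAt ℝ ∞ F (z, s)) ∧
      (∀ z ∈ K, ∀ s, F (z, s) ∈ S) ∧ (∀ z ∈ K, ∀ s ≤ 1/4, F (z, s) = f z) ∧
      (∀ z ∈ K, ∀ t, ∀ s ≥ 3/4, F (φ t z, s) = F (z, s)) := by
  obtain ⟨F, h1, h2, h3, h4, -⟩ := contraction_rel h hK hφ hf hfS hL0 hLD hlen (μ := fun _ => 0)
    (fun _ _ => contDiffAt_const) (fun _ _ => le_rfl) (fun _ _ => zero_le_one) (fun _ _ _ => rfl)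
    (fun _ _ h => absurd rfl h)
  exact ⟨F, h1, h2, h3, h4⟩

end Crest.Agent.R208.E
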