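import Crest.Agent.R208.E4b
import Crest.Agent.R208.CM0

/-!
R208, block E4c (helper131): THEOREM E, smooth version, for helper971's structure `CM.Cir`.
-/

set_option autoImplicit false

open Set Filter Topology
open scoped Real ContDiff
open Crest.GeometryTopology.Submanifold
open Crest.Agent.R241.DDefs Crest.Agent.R241.D Crest.Agent.R241.D2

noncomputable section

namespace Crest.Agent.R208.E

theorem CirS.of_cir {E : Type*} [NormedAddCommGroup E] [NormedSpace ℝ E] {K : Set E}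
    {φ : ℝ → E → E} (h : CM.Cir K φ) : CirS K φ where
  smooth := h.smooth
  maps := h.maps
  zero := h.zero
  add := h.add
  per := h.per
  free := by
    intro x hx t ht he
    obtain ⟨k, hk⟩ := h.free t x hx he
    have h2 : 0 < 2 * π := by positivity
    have h0 : (0:ℝ) < k := by
      by_contra h0
      push Not at h0
      have := mul_nonpos_of_nonneg_of_nonpos h2.le h0
      linarith [ht.1]
    have h1 : (k:ℝ) < 1 := by
      by_contra h1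
      push Not at h1
      have := mul_le_mul_of_nonneg_left h1 h2.le
      linarith [ht.2]
    have h3 : 0 < k := by exact_mod_cast h0
    have h4 : k < 1 := by exact_mod_cast h1
    omega

variable {n N : ℕ} {κ : ℝ} {S : Set (Euc N)} {G : Geo n N κ S} {D : ℝ}

/-- **THEOREM E (smooth, relative)** -/
theorem contraction_cir_rel (h : Bl n N κ S G D) {E : Type} [NormedAddCommGroup E]
    [InnerProductSpace ℝ E] [FiniteDimensional ℝ E] {K : Set E} (hK : IsCompact K)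
    {φ : ℝ → E → E} (hφ : CM.Cir K φ) {f : E → Euc N} (hf : ∀ x ∈ K, ContDiffAt ℝ ∞ f x)
    (hfS : MapsTo f K S) {L : ℝ} (hL0 : 0 ≤ L) (hLD : L < 2 * D)
    (hlen : ∀ z ∈ K, ∫ t in (0:ℝ)..(2 * π), ‖deriv (fun t => f (φ t z)) t‖ ≤ L)
    {μ : E → ℝ} (hμ : ∀ x ∈ K, ContDiffAt ℝ ∞ μ x) (hμ0 : ∀ x ∈ K, 0 ≤ μ x)
    (hμ1 : ∀ x ∈ K, μ x ≤ 1) (hμi : ∀ x ∈ K, ∀ t, μ (φ t x) = μ x)
    (hμf : ∀ x ∈ K, μ x ≠ 0 → ∀ t, f (φ t x) = f x) :
    ∃ F : E × ℝ → Euc N, (∀ z ∈ K, ∀ s, ContDiffAt ℝ ∞ F (z, s)) ∧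
      (∀ z ∈ K, ∀ s, F (z, s) ∈ S) ∧ (∀ z ∈ K, ∀ s ≤ 1/4, F (z, s) = f z) ∧
      (∀ z ∈ K, ∀ t, ∀ s ≥ 3/4, F (φ t z, s) = F (z, s)) ∧
      (∀ z ∈ K, μ z = 1 → ∀ s, F (z, s) = f z) :=
  contraction_rel h hK (CirS.of_cir hφ) hf hfS hL0 hLD hlen hμ hμ0 hμ1 hμi hμf

/-- **THEOREM E (smooth)** -/
theorem contraction_cir (h : Bl n N κ S G D) {E : Type} [NormedAddCommGroup E]
    [InnerProductSpace ℝ E] [FiniteDimensional ℝ E] {K : Set E} (hK : IsCompact K)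
    {φ : ℝ → E → E} (hφ : CM.Cir K φ) {f : E → Euc N} (hf : ∀ x ∈ K, ContDiffAt ℝ ∞ f x)
    (hfS : MapsTo f K S) {L : ℝ} (hL0 : 0 ≤ L) (hLD : L < 2 * D)
    (hlen : ∀ z ∈ K, ∫ t in (0:ℝ)..(2 * π), ‖deriv (fun t => f (φ t z)) t‖ ≤ L) :
    ∃ F : E × ℝ → Euc N, (∀ z ∈ K, ∀ s, ContDiffAt ℝ ∞ F (z, s)) ∧
      (∀ z ∈ K, ∀ s, F (z, s) ∈ S) ∧ (∀ z ∈ K, ∀ s ≤ 1/4, F (z, s) = f z) ∧
      (∀ z ∈ K, ∀ t, ∀ s ≥ 3/4, F (φ t z, s) = F (z, s)) :=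
  contraction_smooth h hK (CirS.of_cir hφ) hf hfS hL0 hLD hlen

end Crest.Agent.R208.E
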