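import Crest.Agent.R208.TDefs

/-! Row 208, block TH-A (helper423).  The orthogonal complement of an oriented projection field is
oriented. -/

set_option autoImplicit false
set_option linter.unusedSectionVars false

open Module Set Matrix
open scoped ContDiff
open Crest.Agent.R208.F Crest.Agent.R208.FI Crest.Agent.R208.CW

noncomputable section

namespace Crest.Agent.R208.T

section alg
variable {κ κ' n : Type*} [Fintype κ] [DecidableEq κ] [Fintype κ'] [DecidableEq κ']
  [Fintype n] [DecidableEq n]

/-- the matrix `(f | f')` made square by a labelling of the columns -/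
def glue (eq : κ ⊕ κ' ≃ n) (f : Matrix n κ ℝ) (f' : Matrix n κ' ℝ) : Matrix n n ℝ :=
  (Matrix.fromCols f f').submatrix id eq.symm

/-- the standard columns `(e_{I p})_p` -/
def stdc (I : κ → n) : Matrix n κ ℝ := Matrix.of fun a p => if a = I p then 1 else 0

theorem det_glue_left (eq : κ ⊕ κ' ≃ n) (f : Matrix n κ ℝ) (g : Matrix n κ' ℝ) :
    (glue eq f g).det = ∑ J : κ → n, (∏ p, f (J p) p) * (glue eq (stdc J) g).det := by
  classical
  have h1 : ∀ h : Matrix n κ ℝ, (glue eq h g).det
      = ∑ σ : Equiv.Perm n, ((Equiv.Perm.sign σ : ℤ) : ℝ) *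
        ((∏ p, h (σ (eq (Sum.inl p))) p) * ∏ q, g (σ (eq (Sum.inr q))) q) := by
    intro h
    rw [det_apply']
    refine Finset.sum_congr rfl fun σ _ => ?_
    congr 1
    rw [← eq.prod_comp, Fintype.prod_sum_type]
    simp [glue]
  rw [h1]
  simp only [h1, Finset.mul_sum]
  rw [Finset.sum_comm]
  refine Finset.sum_congr rfl fun σ _ => ?_
  rw [Finset.sum_eq_single (fun p => σ (eq (Sum.inl p)))]
  · have : ∏ p, (stdc (fun p => σ (eq (Sum.inl p))) : Matrix n κ ℝ) (σ (eq (Sum.inl p))) p = 1 :=
      Finset.prod_eq_one fun p _ => by simp [stdc]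
    rw [this]; ring
  · intro J _ hJ
    obtain ⟨p, hp⟩ := Function.ne_iff.1 hJ
    have : ∏ p, (stdc J : Matrix n κ ℝ) (σ (eq (Sum.inl p))) p = 0 :=
      Finset.prod_eq_zero (Finset.mem_univ p) (by
        simp only [stdc, Matrix.of_apply]
        exact if_neg (fun h => hp h.symm))
    rw [this]; ring
  · intro h; exact absurd (Finset.mem_univ _) h

theorem glue_stdc_perm (eq : κ ⊕ κ' ≃ n) (J : κ → n) (g : Matrix n κ' ℝ) (π : Equiv.Perm κ) :
    (glue eq (stdc fun p => J (π p)) g).det
      = ((Equiv.Perm.sign π : ℤ) : ℝ) * (glue eq (stdc J) g).det := by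
  have h : glue eq (stdc fun p => J (π p)) g
      = (glue eq (stdc J) g).submatrix id
        (eq.permCongr (Equiv.Perm.sumCongr π (Equiv.refl κ'))) := by
    ext a b
    obtain ⟨s, rfl⟩ := eq.surjective b
    simp only [glue, Matrix.submatrix_apply, id, Equiv.symm_apply_apply, Equiv.permCongr_apply]
    rcases s with p | q
    · simp [stdc]
    · simp
  rw [h, det_permute']
  congr 2
  rw [Equiv.Perm.sign_permCongr, Equiv.Perm.sign_sumCongr]
  simp

/-- antisymmetrised version -/
theorem det_glue_sub (eq : κ ⊕ κ' ≃ n) (f : Matrix n κ ℝ) (g : Matrix n κ' ℝ) :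
    ((Fintype.card κ).factorial : ℝ) * (glue eq f g).det
      = ∑ J : κ → n, (f.submatrix J id).det * (glue eq (stdc J) g).det := by
  classical
  have h1 : ∀ J : κ → n, (f.submatrix J id).det
      = ∑ π : Equiv.Perm κ, ((Equiv.Perm.sign π : ℤ) : ℝ) * ∏ p, f (J (π p)) p := by
    intro J
    rw [det_apply']
    rfl
  simp only [h1, Finset.sum_mul]
  rw [Finset.sum_comm]
  have h2 : ∀ π : Equiv.Perm κ, ∑ J : κ → n,
      ((Equiv.Perm.sign π : ℤ) : ℝ) * (∏ p, f (J (π p)) p) * (glue eq (stdc J) g).det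
      = (glue eq f g).det := by
    intro π
    rw [det_glue_left, ← (Equiv.arrowCongr π (Equiv.refl n)).sum_comp]
    refine Finset.sum_congr rfl fun J _ => ?_
    have e1 : (Equiv.arrowCongr π (Equiv.refl n)) J = fun p => J (π.symm p) := rfl
    rw [e1, glue_stdc_perm]
    simp only [Equiv.symm_apply_apply]
    have e2 : ((Equiv.Perm.sign π : ℤ) : ℝ) * ((Equiv.Perm.sign π.symm : ℤ) : ℝ) = 1 := by
      rw [Equiv.Perm.sign_symm, ← Int.cast_mul, ← Units.val_mul, Int.units_mul_self]
      simp
    linear_combination ((∏ p, f (J p) p) * (glue eq (stdc J) g).det) * e2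
  simp only [h2, Finset.sum_const, Finset.card_univ, Fintype.card_perm, nsmul_eq_mul]

/-- an oriented frame and its oriented complement -/
theorem det_glue_frame (eq : κ ⊕ κ' ≃ n) {f : Matrix n κ ℝ} {f' : Matrix n κ' ℝ}
    (h1 : fᵀ * f = 1) (h3 : f'ᵀ * f = 0) (hd : (glue eq f f').det = 1)
    (I : κ' → n) : (glue eq f (stdc I)).det = (f'.submatrix I id).det := by
  have h4 : fᵀ * f' = 0 := by
    have := congrArg Matrix.transpose h3
    simpa [transpose_mul] using this
  have h5 : (glue eq f f')ᵀ * glue eq f (stdc I)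
      = (Matrix.fromBlocks (1 : Matrix κ κ ℝ) (fᵀ * stdc I) 0 (f'ᵀ * stdc I)).submatrix eq.symm
        eq.symm := by
    rw [← h1, ← h3]
    ext a b
    obtain ⟨s, rfl⟩ := eq.surjective a
    obtain ⟨t, rfl⟩ := eq.surjective b
    rcases s with p | q <;> rcases t with p' | q' <;>
      simp [glue, Matrix.mul_apply]
  have h6 := congrArg Matrix.det h5
  rw [det_mul, det_transpose, hd, one_mul, det_submatrix_equiv_self, det_fromBlocks_zero₂₁,
    det_one, one_mul] at h6
  rw [h6, ← det_transpose]
  congr 1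
  ext q q'
  rw [transpose_apply, Matrix.mul_apply]
  simp [stdc]

/-- complementary frames exist -/
theorem exists_compl (eq : κ ⊕ κ' ≃ n) [Nonempty κ'] {f : Matrix n κ ℝ} (h1 : fᵀ * f = 1) :
    ∃ f' : Matrix n κ' ℝ, f'ᵀ * f' = 1 ∧ f'ᵀ * f = 0 ∧ f * fᵀ + f' * f'ᵀ = 1
      ∧ (glue eq f f').det = 1 := by
  classical
  set v : κ ⊕ κ' → EuclideanSpace ℝ n :=
    Sum.elim (fun p => WithLp.toLp 2 fun a => f a p) (fun _ => 0) with hv
  have hvp : ∀ p a, (v (Sum.inl p)) a = f a p := fun p a => rfl
  have hin : ∀ p q, inner ℝ (v (Sum.inl p)) (v (Sum.inl q)) = if p = q then (1 : ℝ) else 0 := by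
    intro p q
    have := congrFun (congrFun h1 p) q
    rw [Matrix.mul_apply, Matrix.one_apply] at this
    rw [← this, PiLp.inner_apply]
    refine Finset.sum_congr rfl fun a _ => ?_
    rw [RCLike.inner_apply, conj_trivial, hvp, hvp, transpose_apply, mul_comm]
  have hon : Orthonormal ℝ ((Set.range (Sum.inl : κ → κ ⊕ κ')).domRestrict v) := by
    rw [orthonormal_iff_ite]
    rintro ⟨_, p, rfl⟩ ⟨_, q, rfl⟩
    rw [Set.domRestrict_apply, Set.domRestrict_apply]
    rw [hin]
    by_cases h : p = q
    · subst h; simp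
    · rw [if_neg h, if_neg]
      intro h'
      exact h (Sum.inl_injective (congrArg Subtype.val h'))
  have hcard : finrank ℝ (EuclideanSpace ℝ n) = Fintype.card (κ ⊕ κ') := by
    rw [finrank_euclideanSpace, Fintype.card_congr eq]
  obtain ⟨b, hb⟩ := hon.exists_orthonormalBasis_extension_of_card_eq hcard
  have hb1 : ∀ p a, b (Sum.inl p) a = f a p := fun p a => by
    rw [hb _ ⟨p, rfl⟩]; rfl
  -- the complementary block
  set g : Matrix n κ' ℝ := Matrix.of fun a q => b (Sum.inr q) a with hg
  have hbb : ∀ s t, ∑ a, b s a * b t a = if s = t then (1 : ℝ) else 0 := by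
    intro s t
    have := (orthonormal_iff_ite.1 b.orthonormal) s t
    rw [← this, PiLp.inner_apply]
    refine Finset.sum_congr rfl fun a _ => ?_
    rw [RCLike.inner_apply, conj_trivial, mul_comm]
  have hF : (glue eq f g)ᵀ * glue eq f g = 1 := by
    ext x y
    obtain ⟨s, rfl⟩ := eq.surjective x
    obtain ⟨t, rfl⟩ := eq.surjective y
    have e : ∀ a s, glue eq f g a (eq s) = b s a := by
      intro a s
      rcases s with p | q
      · simp [glue, hb1]
      · simp [glue, hg]
    rw [Matrix.mul_apply, Matrix.one_apply]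
    simp only [transpose_apply, e, hbb, EmbeddingLike.apply_eq_iff_eq]
  have hF' : glue eq f g * (glue eq f g)ᵀ = 1 := mul_eq_one_comm.1 hF
  have g1 : gᵀ * g = 1 := by
    ext q q'
    rw [Matrix.mul_apply, Matrix.one_apply]
    simp only [transpose_apply, hg, Matrix.of_apply, hbb, Sum.inr.injEq]
  have g2 : gᵀ * f = 0 := by
    ext q p
    rw [Matrix.mul_apply, Matrix.zero_apply]
    have : ∀ a, f a p = b (Sum.inl p) a := fun a => (hb1 p a).symm
    simp only [transpose_apply, hg, Matrix.of_apply, this, hbb]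
    simp
  have g3 : f * fᵀ + g * gᵀ = 1 := by
    rw [← hF']
    ext a c
    rw [Matrix.add_apply, Matrix.mul_apply, Matrix.mul_apply, Matrix.mul_apply, ← eq.sum_comp,
      Fintype.sum_sum_type]
    simp [glue]
  have hdet : (glue eq f g).det = 1 ∨ (glue eq f g).det = -1 := by
    have := congrArg Matrix.det hF
    rw [det_mul, det_transpose, det_one] at this
    exact mul_self_eq_one_iff.1 this
  rcases hdet with hd | hd
  · exact ⟨g, g1, g2, g3, hd⟩
  · obtain ⟨q0⟩ := ‹Nonempty κ'›
    set D : Matrix κ' κ' ℝ := Matrix.diagonal fun q => if q = q0 then -1 else 1 with hD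
    have hDt : Dᵀ = D := Matrix.diagonal_transpose _
    have hDD : D * D = 1 := by
      rw [hD, Matrix.diagonal_mul_diagonal, ← Matrix.diagonal_one]
      congr 1
      funext q
      split_ifs <;> simp
    have hdD : D.det = -1 := by
      rw [hD, Matrix.det_diagonal, Finset.prod_ite_eq' Finset.univ q0 (fun _ => (-1 : ℝ))]
      simp
    refine ⟨g * D, ?_, ?_, ?_, ?_⟩
    · rw [transpose_mul, hDt, Matrix.mul_assoc, ← Matrix.mul_assoc gᵀ, g1, Matrix.one_mul, hDD]
    · rw [transpose_mul, Matrix.mul_assoc, g2, Matrix.mul_zero]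
    · rw [transpose_mul, hDt, Matrix.mul_assoc, ← Matrix.mul_assoc D, hDD, Matrix.one_mul, g3]
    · have e : glue eq f (g * D) = glue eq f g *
          (Matrix.fromBlocks (1 : Matrix κ κ ℝ) 0 0 D).submatrix eq.symm eq.symm := by
        ext a y
        obtain ⟨t, rfl⟩ := eq.surjective y
        rw [Matrix.mul_apply, ← eq.sum_comp, Fintype.sum_sum_type]
        rcases t with p | q
        · simp [glue, Matrix.one_apply]
        · simp [glue, Matrix.mul_apply]
      rw [e, det_mul, hd, det_submatrix_equiv_self, det_fromBlocks_zero₂₁, det_one, hdD]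
      norm_num

end alg

section field
variable {n : Type*} [Fintype n] [DecidableEq n] {E : Type*} [NormedAddCommGroup E]
  [NormedSpace ℝ E] [FiniteDimensional ℝ E] {ι ι' : Type*} [Fintype ι] [DecidableEq ι]
  [Fintype ι'] [DecidableEq ι']

/-- **(TH-A)** the orthogonal complement of an oriented projection field is oriented -/
theorem OR.compl {X : Set E} {P : E → EuclideanSpace ℝ n →L[ℝ] EuclideanSpace ℝ n}
    {W : E → (ι × Fin 2 → n) → ℝ} (eq : (ι × Fin 2) ⊕ (ι' × Fin 2) ≃ n) (h : OR X P W) :
    ∃ W' : E → (ι' × Fin 2 → n) → ℝ, OR X (fun x => 1 - P x) W' := by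
  classical
  rcases isEmpty_or_nonempty ι' with hι | hι
  · refine ⟨fun _ _ => 1, fun x hx => contDiffAt_const.sub (h.sP x hx), fun x _ I =>
      contDiffAt_const, fun x hx => ?_⟩
    obtain ⟨f, h1, h2, h3⟩ := h.fr x hx
    let e : ι × Fin 2 ≃ n := (Equiv.sumEmpty (ι × Fin 2) (ι' × Fin 2)).symm.trans eq
    have hf : f * fᵀ = 1 := by
      have e1 : (f.submatrix id e.symm)ᵀ * f.submatrix id e.symm = 1 := by
        have : (f.submatrix id e.symm)ᵀ * f.submatrix id e.symm
            = (fᵀ * f).submatrix e.symm e.symm := by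
          ext a b; simp [Matrix.mul_apply]
        rw [this, h1, Matrix.submatrix_one_equiv]
      have e2 := mul_eq_one_comm.1 e1
      rw [← e2]
      ext a b
      rw [Matrix.mul_apply, Matrix.mul_apply, ← e.sum_comp]
      simp
    refine ⟨0, Subsingleton.elim _ _, fun v i => ?_, fun I => ?_⟩
    · have : P x v i = v i := by
        rw [h2, hf]
        simp [Matrix.one_apply]
      change v i - P x v i = _
      rw [this]
      simp
    · rw [Matrix.det_isEmpty]
  · refine ⟨fun x I => ((Fintype.card (ι × Fin 2)).factorial : ℝ)⁻¹ *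
      ∑ J : ι × Fin 2 → n, W x J * (glue eq (stdc J) (stdc I)).det,
      fun x hx => contDiffAt_const.sub (h.sP x hx), fun x hx I =>
        contDiffAt_const.mul (ContDiffAt.sum fun J _ => (h.sW x hx J).mul contDiffAt_const),
      fun x hx => ?_⟩
    obtain ⟨f, h1, h2, h3⟩ := h.fr x hx
    obtain ⟨f', g1, g2, g3, g4⟩ := exists_compl eq h1
    refine ⟨f', g1, fun v i => ?_, fun I => ?_⟩
    · change v i - P x v i = _
      have e1 : v i = ∑ j, (f * fᵀ + f' * f'ᵀ) i j * v j := by
        rw [g3]; simp [Matrix.one_apply]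
      rw [h2, e1, ← Finset.sum_sub_distrib]
      refine Finset.sum_congr rfl fun j _ => ?_
      rw [Matrix.add_apply]; ring
    · simp only [h3]
      rw [← det_glue_sub, det_glue_frame eq h1 g2 g4 I, inv_mul_cancel_left₀]
      exact_mod_cast (Nat.factorial_pos _).ne'

end field

end Crest.Agent.R208.T
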