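import Crest.Agent.R208.T2b
import Crest.Agent.R208.THA

/-! Row 208, block T (helper316).  T2c: (B1), (B2) for oriented projection fields of even
codimension. -/

set_option autoImplicit false
set_option linter.unusedSectionVars false

open MeasureTheory Set Filter Topology Module
open scoped ContDiff
open Crest.Agent.R208.F Crest.Agent.R208.FI Crest.Agent.R208.CW

noncomputable section

namespace Crest.Agent.R208.T

variable {n : Type} [Fintype n] [DecidableEq n]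
  {E : Type} [NormedAddCommGroup E] [NormedSpace ℝ E] [FiniteDimensional ℝ E]
  {ι ι' : Type} [Fintype ι] [DecidableEq ι] [Fintype ι'] [DecidableEq ι']
  {X : Set E} {P : E → EuclideanSpace ℝ n →L[ℝ] EuclideanSpace ℝ n}
  {W : E → (ι × Fin 2 → n) → ℝ} {W' : E → (ι' × Fin 2 → n) → ℝ} {d : ℕ}

/-- statement of TH-D -/
def THDstmt : Prop :=
  ∀ {n : Type} [Fintype n] [DecidableEq n]
    {E : Type} [NormedAddCommGroup E] [NormedSpace ℝ E] [FiniteDimensional ℝ E]
    {ι : Type} {ι' : Type} [Fintype ι] [DecidableEq ι] [Fintype ι'] [DecidableEq ι']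
    [Nonempty ι] [Nonempty ι']
    {X : Set E} {P : E → EuclideanSpace ℝ n →L[ℝ] EuclideanSpace ℝ n}
    {W : E → (ι × Fin 2 → n) → ℝ} {W' : E → (ι' × Fin 2 → n) → ℝ}
    (_ : OR X P W) (_ : OR X (fun x => 1 - P x) W') (x : E), x ∈ X →
    ∃ c : ℝ, c ≠ 0 ∧ pI (volume : Measure (EuclideanSpace ℝ n))
      (F.pull (gam P) (thomF (fun x => 1 - P x) W') * F.pull (bet P) (thomF P W)) x =
      algebraMap ℝ (Ext E) c

theorem exists_thomPair (hD : THDstmt) [Nonempty ι] [Nonempty ι']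
    (eq : (ι × Fin 2) ⊕ (ι' × Fin 2) ≃ n) (hX : Sub d X) (hc : IsPreconnected X)
    (hne : X.Nonempty) (h : OR X P W) :
    ∃ (W' : E → (ι' × Fin 2 → n) → ℝ) (c₀ : ℝ),
      ThomPair (volume : Measure (EuclideanSpace ℝ n)) X P (2 * Fintype.card ι) 3 c₀
        ((2 : ℝ) • eR P W) (thomF P W) (thomF (fun x => 1 - P x) W') := by
  obtain ⟨W', h'⟩ := OR.compl eq h
  obtain ⟨c₀, h0, h1⟩ := unit_of_pointwise (μ := (volume : Measure (EuclideanSpace ℝ n))) hX hc hne
    h.pfield (csf_thomF hX h) (csf_thomF hX h') (fun x hx => hD h h' x hx)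
  refine ⟨W', c₀, csf_thomF hX h, csf_thomF hX h', fun z => thomF_even z, fun z => thomF_deg z,
    fun z => ?_, h1, h0, thomF_zero h⟩
  have h2 : finrank ℝ (EuclideanSpace ℝ n) - 2 * Fintype.card ι = 2 * Fintype.card ι' := by
    rw [finrank_euclideanSpace, ← Fintype.card_congr eq, Fintype.card_sum, Fintype.card_prod,
      Fintype.card_prod, Fintype.card_fin]
    omega
  rw [h2]
  exact thomF_deg z

theorem card_le (eq : (ι × Fin 2) ⊕ (ι' × Fin 2) ≃ n) :
    2 * Fintype.card ι ≤ finrank ℝ (EuclideanSpace ℝ n) := by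
  rw [finrank_euclideanSpace, ← Fintype.card_congr eq, Fintype.card_sum, Fintype.card_prod,
    Fintype.card_prod, Fintype.card_fin]
  omega

/-- (B1), even codimension -/
theorem sph_low_OR (hD : THDstmt) [Nonempty ι] [Nonempty ι']
    (eq : (ι × Fin 2) ⊕ (ι' × Fin 2) ≃ n) (hX : Sub d X) (hc : IsPreconnected X)
    (h : OR X P W) {j : ℕ} (hj : j + 1 < 2 * Fintype.card ι)
    {b : E × EuclideanSpace ℝ n → Ext (E × EuclideanSpace ℝ n)} (hb : Sm (Sph X P) b)
    (hcl : Cl (Sph X P) b) (hd : Hom j b) :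
    ∃ c : E → Ext E, Sm X c ∧ Cl X c ∧ Hom j c ∧ Coh (Sph X P) b (F.pull Prod.fst c) := by
  rcases X.eq_empty_or_nonempty with rfl | hne
  · refine ⟨0, Sm.zero, fun x hx => hx.elim, Hom.zero, Coh.of_eqv (Eqv.of_eq fun z hz => ?_)⟩
    exact hz.1.1.elim
  obtain ⟨W', c₀, hT⟩ := exists_thomPair hD eq hX hc hne h
  exact sph_low hX h.pfield hT (card_le eq) hj hb hcl hd

/-- (B2), even codimension -/
theorem gysin_OR (hD : THDstmt) [Nonempty ι] [Nonempty ι']
    (eq : (ι × Fin 2) ⊕ (ι' × Fin 2) ≃ n) (hX : Sub d X) (hc : IsPreconnected X)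
    (h : OR X P W) {j : ℕ} {b : E → Ext E} (hb : Sm X b) (hcl : Cl X b)
    (hd : Hom (j + 2 * Fintype.card ι) b)
    (h0 : Coh (Sph X P) (F.pull Prod.fst b) 0) :
    ∃ c : E → Ext E, Sm X c ∧ Cl X c ∧ Hom j c ∧ Coh X b (c * eR P W) := by
  rcases X.eq_empty_or_nonempty with rfl | hne
  · exact ⟨0, Sm.zero, fun x hx => hx.elim, Hom.zero, Coh.of_eqv (Eqv.of_eq fun z hz => hz.elim)⟩
  obtain ⟨W', c₀, hT⟩ := exists_thomPair hD eq hX hc hne h
  obtain ⟨c, h1, h2, h3, h4⟩ := gysin hX h.pfield hT hb hcl hd h0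
  refine ⟨(2 : ℝ) • c, h1.smul _, Cl.smul _ h1 h2, h3.smul _, ?_⟩
  rwa [mul_smul_comm, ← smul_mul_assoc] at h4

theorem gysin_low_OR (hD : THDstmt) [Nonempty ι] [Nonempty ι']
    (eq : (ι × Fin 2) ⊕ (ι' × Fin 2) ≃ n) (hX : Sub d X) (hc : IsPreconnected X)
    (h : OR X P W) {j : ℕ} {b : E → Ext E} (hb : Sm X b) (hcl : Cl X b)
    (hd : Hom j b) (hj : j < 2 * Fintype.card ι)
    (h0 : Coh (Sph X P) (F.pull Prod.fst b) 0) : Coh X b 0 := by
  rcases X.eq_empty_or_nonempty with rfl | hne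
  · exact Coh.of_eqv (Eqv.of_eq fun z hz => hz.elim)
  obtain ⟨W', c₀, hT⟩ := exists_thomPair hD eq hX hc hne h
  exact gysin_low hX h.pfield hT hb hcl hd hj h0

end Crest.Agent.R208.T
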