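import Crest.Agent.R208.TP4
import Crest.Agent.R208.T2c
import Crest.Agent.R208.CM4c

/-! Row 208, block TP (helper382).  TP5: descent of a basic closed form with compact vertical
support on `P₂ ⊕ P₁` to the quotient (`exists_CV`). -/

set_option autoImplicit false
set_option linter.unusedSectionVars false
set_option linter.unusedVariables false
set_option maxHeartbeats 1000000

open MeasureTheory Set Filter Topology Module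
open scoped ContDiff RealInnerProductSpace
open Crest.Agent.R208.F Crest.Agent.R208.FI Crest.Agent.R208.CW Crest.Agent.R208.T
open Crest.Agent.R208.CM

noncomputable section

namespace Crest.Agent.R208.TP

section two
variable {E E' : Type*} [NormedAddCommGroup E] [NormedSpace ℝ E] [FiniteDimensional ℝ E]
  [NormedAddCommGroup E'] [NormedSpace ℝ E'] [FiniteDimensional ℝ E']
  {H₁ V₁ : Type*} [NormedAddCommGroup H₁] [InnerProductSpace ℝ H₁] [FiniteDimensional ℝ H₁]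
  [NormedAddCommGroup V₁] [InnerProductSpace ℝ V₁] [FiniteDimensional ℝ V₁]
  {H₂ V₂ : Type*} [NormedAddCommGroup H₂] [InnerProductSpace ℝ H₂] [FiniteDimensional ℝ H₂]
  [NormedAddCommGroup V₂] [InnerProductSpace ℝ V₂] [FiniteDimensional ℝ V₂]
  {X : Set E} {Y : Set E'} {φ : ℝ → E → E} {q : E → E'} {R₁ : ℝ → H₁ →L[ℝ] H₁}
  {R₂ : ℝ → H₂ →L[ℝ] H₂}
  {T₁ : E → H₁ →L[ℝ] V₁} {P₁ : E → H₁ →L[ℝ] H₁} {P₁' : E' → V₁ →L[ℝ] V₁} {r₁ r₂ d : ℕ}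
  {T₂ : E → H₂ →L[ℝ] V₂} {P₂ : E → H₂ →L[ℝ] H₂} {P₂' : E' → V₂ →L[ℝ] V₂}

theorem triv_fst (hT₁ : Triv X φ R₁ T₁) :
    Triv (Tot X P₂) (phR φ R₂) R₁ (fun z : E × H₂ => T₁ z.1) :=
  ⟨fun z hz => (hT₁.smooth z.1 hz.1).comp z contDiffAt_fst, fun z hz w => hT₁.iso _ hz.1 w,
    fun z hz t w => hT₁.equi _ hz.1 t w⟩

theorem pfield_fst' (hP₁ : PField X r₁ P₁) : PField (Tot X P₂) r₁ (fun z : E × H₂ => P₁ z.1) :=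
  ⟨fun x hx => (hP₁.smooth _ hx.1).comp x contDiffAt_fst, fun _ hx => hP₁.idem _ hx.1,
    fun _ hx => hP₁.rank _ hx.1⟩

/-- the quotient map of `P₂ ⊕ P₁` -/
theorem QM.tot₂ (hq : QM X φ Y q) (h : Cir X φ) (hR₁ : Rep R₁) (hR₂ : Rep R₂)
    (hT₁ : Triv X φ R₁ T₁) (hT₂ : Triv X φ R₂ T₂) (hP₁ : PField X r₁ P₁) (hP₂ : PField X r₂ P₂)
    (he₁ : ∀ x ∈ X, ∀ t w, P₁ (φ t x) (R₁ t w) = R₁ t (P₁ x w))
    (he₂ : ∀ x ∈ X, ∀ t w, P₂ (φ t x) (R₂ t w) = R₂ t (P₂ x w))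
    (hs₁ : ContinuousOn P₁' Y) (hs₂ : ContinuousOn P₂' Y)
    (hd₁ : ∀ x ∈ X, P₁' (q x) = Qd T₁ P₁ x) (hd₂ : ∀ x ∈ X, P₂' (q x) = Qd T₂ P₂ x) :
    QM (TT X P₂ P₁) (phR (phR φ R₂) R₁) (TT Y P₂' P₁')
      (Th (Th q T₂) (fun z : E × H₂ => T₁ z.1)) :=
  (hq.tot h hR₂ hT₂ hP₂ he₂ hs₂ hd₂).tot (Cir.tot h hR₂ he₂) hR₁ (triv_fst hT₁)
    (pfield_fst' (P₂ := P₂) hP₁)
    (fun z hz t w => he₁ z.1 hz.1 t w)
    (hs₁.comp continuousOn_fst fun z hz => hz.1) (fun z hz => hd₁ z.1 hz.1)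

/-- cut off in both variables -/
def cut₂ (R : ℝ) (V : (E × H₂) × H₁ → Ext ((E × H₂) × H₁)) (z : (E × H₂) × H₁) :
    Ext ((E × H₂) × H₁) :=
  (chi R z.2 * chi R z.1.2) • V z

theorem eqv_cut₂ {X : Set ((E × H₂) × H₁)} {R : ℝ} (hR : 0 ≤ R)
    {V : (E × H₂) × H₁ → Ext ((E × H₂) × H₁)}
    (hz : ∀ z ∈ X, (R < ‖z.2‖ ∨ R < ‖z.1.2‖) → pb (Tan X z).subtype (V z) = 0) :
    Eqv X (cut₂ R V) V := by
  refine eqv_iff.2 fun z hzX => ?_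
  by_cases h1 : R < ‖z.2‖ ∨ R < ‖z.1.2‖
  · rw [cut₂, map_smul, hz z hzX h1, smul_zero]
  · push Not at h1
    rw [cut₂, chi_one hR h1.1, chi_one hR h1.2, one_mul, one_smul]

/-- **descent**: a closed, invariant, horizontal form on `P₂ ⊕ P₁` over `X` which vanishes outside
the `R`-disks comes from a form of type `CV` over the quotient. -/
theorem exists_CV' (hq : QM X φ Y q) (h : Cir X φ) (hX : Sub d X) (hR₁ : Rep R₁) (hR₂ : Rep R₂)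
    (hT₁ : Triv X φ R₁ T₁) (hT₂ : Triv X φ R₂ T₂) (hP₁ : PField X r₁ P₁) (hP₂ : PField X r₂ P₂)
    (he₁ : ∀ x ∈ X, ∀ t w, P₁ (φ t x) (R₁ t w) = R₁ t (P₁ x w))
    (he₂ : ∀ x ∈ X, ∀ t w, P₂ (φ t x) (R₂ t w) = R₂ t (P₂ x w))
    (hs₁ : ContinuousOn P₁' Y) (hs₂ : ContinuousOn P₂' Y)
    (hd₁ : ∀ x ∈ X, P₁' (q x) = Qd T₁ P₁ x) (hd₂ : ∀ x ∈ X, P₂' (q x) = Qd T₂ P₂ x)
    {R : ℝ} (hR : 0 ≤ R) {V : (E × H₂) × H₁ → Ext ((E × H₂) × H₁)}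
    (sV : Sm (TT X P₂ P₁) V) (cV : Cl (TT X P₂ P₁) V)
    (iV : ∀ t, Eqv (TT X P₂ P₁) (F.pull (phR (phR φ R₂) R₁ t) V) V)
    (bV : Eqv (TT X P₂ P₁) (fun z => ii (gen (phR (phR φ R₂) R₁) z) (V z)) 0)
    (zV : ∀ z ∈ TT X P₂ P₁, (R < ‖z.2‖ ∨ R < ‖z.1.2‖) → pb (Tan (TT X P₂ P₁) z).subtype (V z) = 0) :
    ∃ V' : (E' × V₂) × V₁ → Ext ((E' × V₂) × V₁), ContDiff ℝ ∞ V' ∧ CV Y P₂' P₁' (R + 1) V' ∧
      Eqv (TT X P₂ P₁) (F.pull (Th (Th q T₂) (fun z : E × H₂ => T₁ z.1)) V') V := by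
  have hQ := hq.tot₂ h hR₁ hR₂ hT₁ hT₂ hP₁ hP₂ he₁ he₂ hs₁ hs₂ hd₁ hd₂
  have hC : Cir (TT X P₂ P₁) (phR (phR φ R₂) R₁) :=
    Cir.tot (Cir.tot h hR₂ he₂) hR₁ (P := fun z : E × H₂ => P₁ z.1)
      (fun z hz t w => he₁ z.1 hz.1 t w)
  obtain ⟨V₀, s₀, e₀⟩ := hQ.exists_basic hC sV iV bV
  set Q := Th (Th q T₂) (fun z : E × H₂ => T₁ z.1) with hQd
  have hn : ∀ z ∈ TT X P₂ P₁, ‖(Q z).2‖ = ‖z.2‖ ∧ ‖(Q z).1.2‖ = ‖z.1.2‖ := fun z hz =>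
    ⟨hT₁.iso _ hz.1.1 _, hT₂.iso _ hz.1.1 _⟩
  have zV₀ : ∀ y ∈ TT Y P₂' P₁', (R < ‖y.2‖ ∨ R < ‖y.1.2‖) →
      pb (Tan (TT Y P₂' P₁') y).subtype (V₀ y) = 0 := by
    intro y hy hy2
    obtain ⟨z, hz, rfl⟩ := hQ.surj y hy
    rw [(hn z hz).1, (hn z hz).2] at hy2
    have h1 := hQ.pt_of_pull hz (c := V₀ (Q z)) (c' := 0) (by
      have := eqv_iff.1 e₀ z hz
      rw [zV z hz hy2] at this
      rw [map_zero, map_zero]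
      exact this)
    rwa [map_zero] at h1
  have eV₀ := eqv_cut₂ hR zV₀
  have sV' : ContDiff ℝ ∞ (cut₂ R V₀) :=
    (((contDiff_chi R).comp contDiff_snd).mul
      ((contDiff_chi R).comp (contDiff_snd.comp contDiff_fst))).smul s₀
  have sm' : ∀ Z : Set ((E' × V₂) × V₁), Sm Z (cut₂ R V₀) := fun Z y _ => sV'.contDiffAt
  have e1 : Eqv (TT X P₂ P₁) (F.pull Q (cut₂ R V₀)) V := (eV₀.pull hQ.smap).trans e₀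
  have hS : Sub (d + r₂ + r₁) (TT X P₂ P₁) :=
    (pfield_fst' (P₂ := P₂) hP₁).sub_tot (hP₂.sub_tot hX)
  refine ⟨cut₂ R V₀, sV', ⟨sm' _, fun z hz => ?_, fun z hz => ?_, ?_⟩, e1⟩
  · rw [cut₂, chi_zero hR hz.le, zero_mul, zero_smul]
  · rw [cut₂, chi_zero hR hz.le, mul_zero, zero_smul]
  · exact hQ.cl_of_pull (sm' _) (Cl.of_eqv hS ((sm' _).pull hQ.smap) sV e1 cV)

theorem exists_CV (hq : QM X φ Y q) (h : Cir X φ) (hX : Sub d X) (hR₁ : Rep R₁) (hR₂ : Rep R₂)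
    (hT₁ : Triv X φ R₁ T₁) (hT₂ : Triv X φ R₂ T₂) (hP₁ : PField X r₁ P₁) (hP₂ : PField X r₂ P₂)
    (he₁ : ∀ x ∈ X, ∀ t w, P₁ (φ t x) (R₁ t w) = R₁ t (P₁ x w))
    (he₂ : ∀ x ∈ X, ∀ t w, P₂ (φ t x) (R₂ t w) = R₂ t (P₂ x w))
    (hs₁ : ContinuousOn P₁' Y) (hs₂ : ContinuousOn P₂' Y)
    (hd₁ : ∀ x ∈ X, P₁' (q x) = Qd T₁ P₁ x) (hd₂ : ∀ x ∈ X, P₂' (q x) = Qd T₂ P₂ x)
    {R : ℝ} (hR : 0 ≤ R) {V : (E × H₂) × H₁ → Ext ((E × H₂) × H₁)}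
    (sV : Sm (TT X P₂ P₁) V) (cV : Cl (TT X P₂ P₁) V)
    (iV : ∀ t, Eqv (TT X P₂ P₁) (F.pull (phR (phR φ R₂) R₁ t) V) V)
    (bV : Eqv (TT X P₂ P₁) (fun z => ii (gen (phR (phR φ R₂) R₁) z) (V z)) 0)
    (zV : ∀ z ∈ TT X P₂ P₁, (R < ‖z.2‖ ∨ R < ‖z.1.2‖) → pb (Tan (TT X P₂ P₁) z).subtype (V z) = 0) :
    ∃ V' : (E' × V₂) × V₁ → Ext ((E' × V₂) × V₁), CV Y P₂' P₁' (R + 1) V' ∧
      Eqv (TT X P₂ P₁) (F.pull (Th (Th q T₂) (fun z : E × H₂ => T₁ z.1)) V') V := by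
  obtain ⟨V', -, h1, h2⟩ := exists_CV' hq h hX hR₁ hR₂ hT₁ hT₂ hP₁ hP₂ he₁ he₂ hs₁ hs₂ hd₁ hd₂ hR
    sV cV iV bV zV
  exact ⟨V', h1, h2⟩

end two

end Crest.Agent.R208.TP
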