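import Crest.Agent.R208.EX7
import Crest.Agent.R208.TP5

/-! Row 208, (8,2), block EA (helper595).  EA1: from the natural primitive `η` (helper530) to the
identity `c₀ push₁ v₀ ~ pu₂ V * e₂` over the quotient (helper382's `TP.main'`): restriction of the
relative form to the zero section of `P₂`, descent, comparison with the form of the restricted
family. -/

set_option autoImplicit false
set_option linter.unusedSectionVars false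
set_option linter.unusedVariables false

open MeasureTheory Set Filter Topology Module
open scoped ContDiff RealInnerProductSpace
open Crest.GeometryTopology.Submanifold
open Crest.Agent.R241.DDefs Crest.Agent.R241.D Crest.Agent.R241.D2
open Crest.Agent.R208.F Crest.Agent.R208.FI Crest.Agent.R208.CW Crest.Agent.R208.T
open Crest.Agent.R208.CM
open Crest.Agent.R208.VC
open Crest.Agent.R208.EX
open Crest.Agent.R208.TP (QM TT CV pu₁ pu₂ push up)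
open Crest.Agent.R208.MS (Fam oc En)

noncomputable section

namespace Crest.Agent.R208.EA

variable {N : ℕ}
  {E E' : Type} [NormedAddCommGroup E] [NormedSpace ℝ E] [FiniteDimensional ℝ E]
  [NormedAddCommGroup E'] [NormedSpace ℝ E'] [FiniteDimensional ℝ E']
  {H₁ V₁ : Type} [NormedAddCommGroup H₁] [InnerProductSpace ℝ H₁] [FiniteDimensional ℝ H₁]
  [NormedAddCommGroup V₁] [InnerProductSpace ℝ V₁] [FiniteDimensional ℝ V₁]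
  {H₂ V₂ : Type} [NormedAddCommGroup H₂] [InnerProductSpace ℝ H₂] [FiniteDimensional ℝ H₂]
  [NormedAddCommGroup V₂] [InnerProductSpace ℝ V₂] [FiniteDimensional ℝ V₂]

/-- the geometric frame: `q : X → Y` the quotient by a circle action, two equivariant fields `P₁`
(rank `r₁`) and `P₂` (rank `r₂`) over `X` and their descents. -/
structure Frm (d dY r₁ r₂ : ℕ) (X : Set E) (φ : ℝ → E → E) (Y : Set E') (q : E → E')
    (R₁ : ℝ → H₁ →L[ℝ] H₁) (T₁ : E → H₁ →L[ℝ] V₁) (P₁ : E → H₁ →L[ℝ] H₁) (P₁' : E' → V₁ →L[ℝ] V₁)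
    (R₂ : ℝ → H₂ →L[ℝ] H₂) (T₂ : E → H₂ →L[ℝ] V₂) (P₂ : E → H₂ →L[ℝ] H₂)
    (P₂' : E' → V₂ →L[ℝ] V₂) : Prop where
  qm : QM X φ Y q
  h : Cir X φ
  hX : Sub d X
  hY : Sub dY Y
  R1 : Rep R₁
  R2 : Rep R₂
  T1 : Triv X φ R₁ T₁
  T2 : Triv X φ R₂ T₂
  p1 : PField X r₁ P₁
  p2 : PField X r₂ P₂
  e1 : ∀ x ∈ X, ∀ t w, P₁ (φ t x) (R₁ t w) = R₁ t (P₁ x w)
  e2 : ∀ x ∈ X, ∀ t w, P₂ (φ t x) (R₂ t w) = R₂ t (P₂ x w)
  p1' : PField Y r₁ P₁'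
  p2' : PField Y r₂ P₂'
  d1 : ∀ x ∈ X, P₁' (q x) = Qd T₁ P₁ x
  d2 : ∀ x ∈ X, P₂' (q x) = Qd T₂ P₂ x

variable {d dY r₁ r₂ : ℕ} {X : Set E} {φ : ℝ → E → E} {Y : Set E'} {q : E → E'}
  {R₁ : ℝ → H₁ →L[ℝ] H₁} {T₁ : E → H₁ →L[ℝ] V₁} {P₁ : E → H₁ →L[ℝ] H₁} {P₁' : E' → V₁ →L[ℝ] V₁}
  {R₂ : ℝ → H₂ →L[ℝ] H₂} {T₂ : E → H₂ →L[ℝ] V₂} {P₂ : E → H₂ →L[ℝ] H₂}
  {P₂' : E' → V₂ →L[ℝ] V₂}

/-- the action on the total space of `P₂ ⊕ P₁` -/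
def act₂ (φ : ℝ → E → E) (R₂ : ℝ → H₂ →L[ℝ] H₂) (R₁ : ℝ → H₁ →L[ℝ] H₁) :
    ℝ → (E × H₂) × H₁ → (E × H₂) × H₁ := phR (phR φ R₂) R₁

/-- the quotient map of the total space of `P₂ ⊕ P₁` -/
def Q₂ (q : E → E') (T₂ : E → H₂ →L[ℝ] V₂) (T₁ : E → H₁ →L[ℝ] V₁) :
    (E × H₂) × H₁ → (E' × V₂) × V₁ := Th (Th q T₂) (fun z : E × H₂ => T₁ z.1)

/-- the inclusion of the zero section of `P₂` -/
def z₂ : E × H₁ → (E × H₂) × H₁ := up (zs (E := E) (H := H₂))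

theorem z₂_apply (z : E × H₁) : z₂ (H₂ := H₂) z = ((z.1, 0), z.2) := rfl

theorem contDiff_z₂ : ContDiff ℝ ∞ (z₂ (E := E) (H₁ := H₁) (H₂ := H₂)) := by
  show ContDiff ℝ ∞ fun z : E × H₁ => (((z.1, (0 : H₂)), z.2) : (E × H₂) × H₁)
  fun_prop

namespace Frm

variable (hF : Frm d dY r₁ r₂ X φ Y q R₁ T₁ P₁ P₁' R₂ T₂ P₂ P₂')

include hF

theorem contP1 : ContinuousOn P₁' Y := fun y hy =>
  (hF.p1'.smooth y hy).continuousAt.continuousWithinAt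
theorem contP2 : ContinuousOn P₂' Y := fun y hy =>
  (hF.p2'.smooth y hy).continuousAt.continuousWithinAt

theorem cir1 : Cir (Tot X P₁) (phR φ R₁) := Cir.tot hF.h hF.R1 hF.e1

theorem cir2 : Cir (TT X P₂ P₁) (act₂ φ R₂ R₁) :=
  Cir.tot (Cir.tot hF.h hF.R2 hF.e2) hF.R1 (P := fun z : E × H₂ => P₁ z.1)
    (fun z hz t w => hF.e1 z.1 hz.1 t w)

theorem qm1 : QM (Tot X P₁) (phR φ R₁) (Tot Y P₁') (Th q T₁) :=
  hF.qm.tot hF.h hF.R1 hF.T1 hF.p1 hF.e1 hF.contP1 hF.d1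

theorem qm2 : QM (TT X P₂ P₁) (act₂ φ R₂ R₁) (TT Y P₂' P₁') (Q₂ q T₂ T₁) :=
  TP.QM.tot₂ hF.qm hF.h hF.R1 hF.R2 hF.T1 hF.T2 hF.p1 hF.p2 hF.e1 hF.e2 hF.contP1 hF.contP2
    hF.d1 hF.d2

theorem sub1 : Sub (d + r₁) (Tot X P₁) := hF.p1.sub_tot hF.hX

theorem sub1' : Sub (dY + r₁) (Tot Y P₁') := hF.p1'.sub_tot hF.hY

theorem sub2 : Sub (d + r₂ + r₁) (TT X P₂ P₁) :=
  (TP.pfield_fst' (P₂ := P₂) hF.p1).sub_tot (hF.p2.sub_tot hF.hX)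

theorem z₂_mem {z : E × H₁} (hz : z ∈ Tot X P₁) : z₂ (H₂ := H₂) z ∈ TT X P₂ P₁ :=
  ⟨⟨hz.1, map_zero _⟩, hz.2⟩

theorem smap_z₂ : SMap (Tot X P₁) (TT X P₂ P₁) (z₂ (H₂ := H₂)) :=
  ⟨fun _ _ => contDiff_z₂.contDiffAt, fun _ hz => hF.z₂_mem hz⟩

theorem smap_z₂' : SMap (Tot Y P₁') (TT Y P₂' P₁') (z₂ (E := E') (H₁ := V₁) (H₂ := V₂)) :=
  ⟨fun _ _ => contDiff_z₂.contDiffAt, fun _ hz => ⟨⟨hz.1, map_zero _⟩, hz.2⟩⟩

omit hF in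
theorem z₂_act (t : ℝ) (z : E × H₁) :
    z₂ (H₂ := H₂) (phR φ R₁ t z) = act₂ φ R₂ R₁ t (z₂ z) := by
  show (((φ t z.1, (0 : H₂)), R₁ t z.2) : (E × H₂) × H₁) = ((φ t z.1, R₂ t 0), R₁ t z.2)
  rw [map_zero]

omit hF in
theorem Q₂_z₂ (z : E × H₁) : Q₂ q T₂ T₁ (z₂ z) = z₂ (Th q T₁ z) := by
  show (((q z.1, T₂ z.1 0), T₁ z.1 z.2) : (E' × V₂) × V₁) = ((q z.1, 0), T₁ z.1 z.2)
  rw [map_zero]

end Frm

/-- the base point of the total space of `P₂ ⊕ P₁` -/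
def b₂ (z : (E × H₂) × H₁) : E := z.1.1

/-- the restriction to `Up` determines the restriction -/
theorem rs_up_zero {A : Type} [NormedAddCommGroup A] [NormedSpace ℝ A] [FiniteDimensional ℝ A]
    {Z : Set A} {μ : A → ℝ} (hμ : ∀ x ∈ Z, ContDiffAt ℝ ∞ μ x) {x : A} (hx : x ∈ Up Z μ)
    {c : Ext A} (h : rsL (Up Z μ) x c = 0) : pb (Tan Z x).subtype c = 0 := by
  rw [rsL_apply] at h
  rw [up_eq hμ] at h hx
  have h2 : Tan (Z ∩ interior {y | 0 < μ y}) x = Tan Z x := Tan_inter_open isOpen_interior hx.2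
  have h3 : ∀ (K K' : Submodule ℝ A), K = K' → pb K.subtype c = 0 → pb K'.subtype c = 0 := by
    rintro K K' rfl h; exact h
  exact h3 _ _ h2 h

/-- data of the level-two family -/
structure Fam2 (D : ED N) (X : Set E) (φ : ℝ → E → E) (R₁ : ℝ → H₁ →L[ℝ] H₁)
    (P₁ : E → H₁ →L[ℝ] H₁) (R₂ : ℝ → H₂ →L[ℝ] H₂) (P₂ : E → H₂ →L[ℝ] H₂) (R : ℝ)
    (f : (E × H₂) × H₁ → Euc N) (c : (E × H₂) × H₁ → ℝ) : Prop where
  fam : Fam D.S (TT X P₂ P₁) f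
  cs : ∀ z ∈ TT X P₂ P₁, ContDiffAt ℝ ∞ c z
  ci : ∀ z ∈ TT X P₂ P₁, ∀ t, c (act₂ φ R₂ R₁ t z) = c z
  en : ∀ z ∈ TT X P₂ P₁, 0 < c z → En (oc (act₂ φ R₂ R₁) f z) ≤ D.B
  out : ∀ z ∈ TT X P₂ P₁, (R < ‖z.2‖ ∨ R < ‖z.1.2‖) → 3 / 4 < c z
  con : ∀ z ∈ Tot X P₁, R < ‖z.2‖ → ∀ t, f (z₂ (phR φ R₁ t z)) = f (z₂ z)

section main
variable {D : ED N} {θ : E → Ext E} {f : (E × H₂) × H₁ → Euc N} {c : (E × H₂) × H₁ → ℝ} {R : ℝ}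
  {η : (E × H₂) × H₁ → Ext ((E × H₂) × H₁)}
  (hF : Frm d dY r₁ r₂ X φ Y q R₁ T₁ P₁ P₁' R₂ T₂ P₂ P₂') (hD : D.OK) (hθ : Cn X φ θ)
  (hf : Fam2 D X φ R₁ P₁ R₂ P₂ R f c)

include hF hθ in
/-- the connection on the total space of `P₂ ⊕ P₁` -/
theorem cn2 : Cn (TT X P₂ P₁) (act₂ φ R₂ R₁) (F.pull b₂ θ) :=
  hθ.pull (Act.of_cir hF.h) (Act.of_cir hF.cir2)
    ⟨fun z hz => contDiffAt_fst.comp z contDiffAt_fst, fun z hz => hz.1.1⟩ (fun t z hz => rfl)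

include hF hθ in
theorem cn1 : Cn (Tot X P₁) (phR φ R₁) (F.pull Prod.fst θ) :=
  hθ.pull (Act.of_cir hF.h) (Act.of_cir hF.cir1) smap_fst' (fun t z hz => rfl)

include hF hD hθ hf in
/-- existence of the natural primitive of the level-two family -/
theorem exists_eta2 : ∃ η, D.IsEta (Up (TT X P₂ P₁) c) (act₂ φ R₂ R₁) (F.pull b₂ θ) f η :=
  ED.exists_eta hD (cir_up hF.cir2 hf.ci) (sub_up hf.cs hF.sub2)
    ((cn2 hF hθ).mono inter_subset_left) (fam_up hf.fam) (fun z hz => hf.en z hz.1 hz.2)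

include hF hD hθ hf in
/-- **descent of the relative form** -/
theorem exists_V (hR : 0 ≤ R)
    (hη : D.IsEta (Up (TT X P₂ P₁) c) (act₂ φ R₂ R₁) (F.pull b₂ θ) f η) :
    ∃ V : (E' × V₂) × V₁ → Ext ((E' × V₂) × V₁), CV Y P₂' P₁' (R + 1) V ∧
      Eqv (TT X P₂ P₁) (F.pull (Q₂ q T₂ T₁) V)
        (D.rel (act₂ φ R₂ R₁) (F.pull b₂ θ) f c η) := by
  have ha := Act.of_cir hF.cir2
  have hθ2 := cn2 hF hθ
  exact TP.exists_CV hF.qm hF.h hF.hX hF.R1 hF.R2 hF.T1 hF.T2 hF.p1 hF.p2 hF.e1 hF.e2 hF.contP1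
    hF.contP2 hF.d1 hF.d2 hR (ED.sm_rel hD ha hF.sub2 hθ2 hf.fam hf.cs hη)
    (ED.cl_rel hD ha hF.sub2 hθ2 hf.fam hf.cs hη)
    (ED.inv_rel hD ha hF.sub2 hθ2 hf.fam hf.cs hf.ci hη)
    (ED.hz_rel hD ha hF.sub2 hθ2 hf.fam hf.cs hf.ci hη)
    (fun z hz ho => ED.rel_zero hD ha hF.sub2 hθ2 hf.fam hf.cs hf.ci hη hz (hf.out z hz ho))

include hF hf in
theorem fam1 : Fam D.S (Tot X P₁) (fun z => f (z₂ z)) :=
  ⟨fun z hz => ContDiffAt.comp (g := f) z (hf.fam.smooth _ (hF.z₂_mem hz)) contDiff_z₂.contDiffAt,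
    fun z hz => hf.fam.maps _ (hF.z₂_mem hz)⟩

include hF hf in
theorem cs1 : ∀ z ∈ Tot X P₁, ContDiffAt ℝ ∞ (fun z => c (z₂ z)) z := fun z hz =>
  ContDiffAt.comp (g := c) z (hf.cs _ (hF.z₂_mem hz)) contDiff_z₂.contDiffAt

include hF hf in
theorem ci1 : ∀ z ∈ Tot X P₁, ∀ t, c (z₂ (phR φ R₁ t z)) = c (z₂ z) := fun z hz t => by
  rw [Frm.z₂_act (R₂ := R₂)]; exact hf.ci _ (hF.z₂_mem hz) t

include hF hf in
theorem en1 : ∀ z ∈ Tot X P₁, 0 < c (z₂ z) → En (oc (phR φ R₁) (fun z => f (z₂ z)) z) ≤ D.B := by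
  intro z hz h0
  have h1 := hf.en _ (hF.z₂_mem hz) h0
  have h2 : oc (phR φ R₁) (fun z => f (z₂ z)) z = oc (act₂ φ R₂ R₁) f (z₂ z) := by
    funext t
    show f (z₂ (phR φ R₁ t z)) = f (act₂ φ R₂ R₁ t (z₂ z))
    rw [Frm.z₂_act (R₂ := R₂)]
  rw [h2]; exact h1

include hF hD hθ hf in
/-- the natural primitive of the restricted family -/
theorem exists_eta1 : ∃ η₁, D.IsEta (Up (Tot X P₁) fun z => c (z₂ z)) (phR φ R₁)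
    (F.pull Prod.fst θ) (fun z => f (z₂ z)) η₁ :=
  ED.exists_eta hD (cir_up hF.cir1 (ci1 hF hf)) (sub_up (cs1 hF hf) hF.sub1)
    ((cn1 hF hθ).mono inter_subset_left) (fam_up (fam1 hF hf)) (fun z hz => en1 hF hf z hz.1 hz.2)

include hF hD hθ hf in
/-- restriction of the relative form -/
theorem rel_z₂ (hη : D.IsEta (Up (TT X P₂ P₁) c) (act₂ φ R₂ R₁) (F.pull b₂ θ) f η)
    {η₁ : E × H₁ → Ext (E × H₁)} (hη₁ : D.IsEta (Up (Tot X P₁) fun z => c (z₂ z)) (phR φ R₁)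
      (F.pull Prod.fst θ) (fun z => f (z₂ z)) η₁) :
    Eqv (Tot X P₁) (F.pull z₂ (D.rel (act₂ φ R₂ R₁) (F.pull b₂ θ) f c η))
      (D.rel (phR φ R₁) (F.pull Prod.fst θ) (fun z => f (z₂ z)) (fun z => c (z₂ z)) η₁) := by
  refine ED.rel_nat hD (Act.of_cir hF.cir2) hF.sub2 (cn2 hF hθ) hf.fam hf.cs hf.ci hη
    (Act.of_cir hF.cir1) hF.sub1 (cn1 hF hθ) (fam1 hF hf) (cs1 hF hf) (ci1 hF hf) hη₁
    hF.smap_z₂ (fun t y _ => Frm.z₂_act t y) (fun _ _ => rfl) ?_ (fun _ _ => rfl)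
  refine Eqv.of_eq fun z hz => ?_
  have h1 := F.pull_comp (f := z₂ (E := E) (H₁ := H₁) (H₂ := H₂)) (g := b₂ (E := E) (H₁ := H₁) (H₂ := H₂))
    (om := θ) (x := z) ((contDiff_z₂.differentiable (by simp)) z)
    (by show DifferentiableAt ℝ (fun z : (E × H₂) × H₁ => z.1.1) _; fun_prop)
  rw [h1]; rfl

include hF hD hθ hf in
/-- the difference of `vf` and of the relative form on `P₁`, over the quotient -/
theorem exists_L (hR : 0 ≤ R) {η₁ : E × H₁ → Ext (E × H₁)}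
    (hη₁ : D.IsEta (Up (Tot X P₁) fun z => c (z₂ z)) (phR φ R₁)
      (F.pull Prod.fst θ) (fun z => f (z₂ z)) η₁) :
    ∃ L : E' × V₁ → Ext (E' × V₁), Sm (Tot Y P₁') L ∧ Vt (R + 1) L ∧
      Eqv (Tot X P₁) (F.pull (Th q T₁) L) (fun z => kx (c (z₂ z)) • η₁ z) := by
  have ha1 := Act.of_cir hF.cir1
  have hup := act_up (c := fun z => c (z₂ z)) ha1 (ci1 hF hf)
  have hsu := sub_up (cs1 hF hf) hF.sub1
  have hcu := (cn1 hF hθ).mono (X' := Up (Tot X P₁) fun z => c (z₂ z)) inter_subset_left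
  have s0 := sm_cut (cs1 hF hf) hη₁.sm
  have i0 := inv_cut ha1 (cs1 hF hf) (ci1 hF hf) (hη₁.inv hD hup hsu hcu)
  have z0 := hz_cut (cs1 hF hf) (hη₁.hz hD hup hsu hcu)
  obtain ⟨L₀, sL, eL⟩ := hF.qm1.exists_basic hF.cir1 s0 i0 z0
  have hv : ∀ z ∈ Tot X P₁, R < ‖z.2‖ →
      pb (Tan (Tot X P₁) z).subtype (kx (c (z₂ z)) • η₁ z) = 0 := by
    intro z hz hn
    rcases le_or_gt (c (z₂ z)) 0 with h0 | h0
    · rw [kx_zero (by linarith), zero_smul, map_zero]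
    · have h1 := hη₁.zero hD hup hsu hcu (x := z) ⟨hz, h0⟩ (hf.con z hz hn)
      rw [map_smul, rs_up_zero (cs1 hF hf) ⟨hz, h0⟩ h1, smul_zero]
  have hv' : ∀ y ∈ Tot Y P₁', R < ‖y.2‖ → pb (Tan (Tot Y P₁') y).subtype (L₀ y) = 0 := by
    intro y hy hn
    obtain ⟨z, hz, rfl⟩ := hF.qm1.surj y hy
    have hn' : R < ‖z.2‖ := by
      have : ‖(Th q T₁ z).2‖ = ‖z.2‖ := hF.T1.iso _ hz.1 _
      rwa [this] at hn
    have h1 := hF.qm1.pt_of_pull hz (c := L₀ (Th q T₁ z)) (c' := 0) (by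
      have h2 := eqv_iff.1 eL z hz
      rw [hv z hz hn'] at h2
      rw [map_zero, map_zero]
      exact h2)
    rwa [map_zero] at h1
  have sc : Sm (Tot Y P₁') (cutH R L₀) := Sm.cutH (fun y _ => sL.contDiffAt)
  have ec : Eqv (Tot Y P₁') (cutH R L₀) L₀ := by
    refine eqv_iff.2 fun y hy => ?_
    rcases le_or_gt ‖y.2‖ R with h0 | h0
    · rw [cutH, chi_one hR h0, one_smul]
    · rw [cutH, map_smul, hv' y hy h0, smul_zero]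
  exact ⟨cutH R L₀, sc, Vt.cutH hR, (ec.pull hF.qm1.smap).trans eL⟩

end main

section final
variable {D : ED N} {θ : E → Ext E} {f : (E × H₂) × H₁ → Euc N} {c : (E × H₂) × H₁ → ℝ} {R : ℝ}
  {η : (E × H₂) × H₁ → Ext ((E × H₂) × H₁)}
  [MeasurableSpace V₁] [BorelSpace V₁] (μ₁ : Measure V₁) [μ₁.IsAddHaarMeasure]
  [MeasurableSpace V₂] [BorelSpace V₂] (μ₂ : Measure V₂) [μ₂.IsAddHaarMeasure]
  {τ₁' : E' × V₁ → Ext (E' × V₁)} {τ₂ τ₂' : E' × V₂ → Ext (E' × V₂)} {e₂ : E' → Ext E'} {c₀ ρ : ℝ}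
  {V : (E' × V₂) × V₁ → Ext ((E' × V₂) × V₁)} {v₀ : E' × V₁ → Ext (E' × V₁)}

/-- **(TH) for the level-two family**: `c₀ push₁ v₀ ~ pu₂ V * e₂`, `v₀` the form of the family
restricted to the zero section of `P₂`. -/
theorem th_level2 (hF : Frm d dY r₁ r₂ X φ Y q R₁ T₁ P₁ P₁' R₂ T₂ P₂ P₂') (hD : D.OK)
    (hθ : Cn X φ θ) (hf : Fam2 D X φ R₁ P₁ R₂ P₂ R f c) (hR : 0 ≤ R)
    (hη : D.IsEta (Up (TT X P₂ P₁) c) (act₂ φ R₂ R₁) (F.pull b₂ θ) f η) (hρ : R + 1 ≤ ρ)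
    (hτ₁ : CSF Y (fun x => 1 - P₁' x) ρ τ₁') (hev : ∀ z, F.inv (τ₁' z) = τ₁' z)
    (hT : ThomPair μ₂ Y P₂' r₂ ρ c₀ e₂ τ₂ τ₂') (hV : CV Y P₂' P₁' (R + 1) V)
    (eV : Eqv (TT X P₂ P₁) (F.pull (Q₂ q T₂ T₁) V) (D.rel (act₂ φ R₂ R₁) (F.pull b₂ θ) f c η))
    (s₀ : Sm (Tot Y P₁') v₀) (z₀ : Vt ρ v₀)
    (h₀ : Eqv (Tot X P₁) (F.pull (Th q T₁) v₀)
      (D.vf (phR φ R₁) (F.pull Prod.fst θ) (fun z => f (z₂ z)))) :
    Coh Y (c₀ • push μ₁ P₁' τ₁' v₀) (pu₂ μ₁ μ₂ P₂' τ₂' P₁' τ₁' V * e₂) := by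
  obtain ⟨η₁, hη₁⟩ := exists_eta1 hF hD hθ hf
  obtain ⟨L, sL, vL, eL⟩ := exists_L hF hD hθ hf hR hη₁
  have hV' : CV Y P₂' P₁' ρ V := ⟨hV.smooth, fun z hz => hV.supp₁ z (hρ.trans_lt hz),
    fun z hz => hV.supp₂ z (hρ.trans_lt hz), hV.closed⟩
  have hs1 := hF.qm1.smap
  refine TP.main' μ₁ μ₂ hF.hY hF.p1' hF.p2' hτ₁ hev hT (by linarith) hV' s₀ z₀ sL
    (fun z hz => vL z (hρ.trans_lt hz)) ?_
  refine hF.qm1.eqv_of_pull ?_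
  have s0 := sm_cut (cs1 hF hf) hη₁.sm
  -- the pull back of `V`
  have k1 : Eqv (Tot X P₁) (F.pull (Th q T₁) (F.pull (up zs) V))
      (F.pull z₂ (F.pull (Q₂ q T₂ T₁) V)) :=
    (eqv_pull_pull hs1 hF.smap_z₂' (hF.smap_z₂'.comp hs1) (fun _ _ => rfl) V).trans
      (eqv_pull_pull hF.smap_z₂ hF.qm2.smap (hF.smap_z₂'.comp hs1)
        (fun z _ => Frm.Q₂_z₂ (q := q) (T₁ := T₁) (T₂ := T₂) z) V).symm
  have k2 := k1.trans ((eV.pull hF.smap_z₂).trans (rel_z₂ hF hD hθ hf hη hη₁))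
  have k3 : Eqv (Tot X P₁) (F.pull (Th q T₁) (v₀ - F.pull (up zs) V))
      (F.d (fun z => kx (c (z₂ z)) • η₁ z)) := by
    rw [pull_sub']
    refine (h₀.sub k2).trans (Eqv.of_eq fun z _ => ?_)
    show D.vf _ _ _ z - (D.vf _ _ _ z - F.d _ z) = F.d _ z
    exact sub_sub_cancel _ _
  refine k3.trans ?_
  have k4 : Eqv (Tot X P₁) (F.d (F.pull (Th q T₁) L)) (F.d (fun z => kx (c (z₂ z)) • η₁ z)) :=
    Eqv.d hF.sub1 (sL.pull hs1) s0 eL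
  exact k4.symm.trans (d_pull_eqv hs1 sL)

end final

end Crest.Agent.R208.EA
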