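import Crest.Agent.R208.VE3

/-! Row 208, block VE (helper812).  VE4: the evaluation theorem. -/

set_option autoImplicit false
set_option linter.unusedSectionVars false
set_option linter.unusedVariables false

open MeasureTheory Set Filter Topology Module
open scoped ContDiff
open Crest.Agent.R208.F Crest.Agent.R208.FI Crest.Agent.R208.CW Crest.Agent.R208.T

noncomputable section

namespace Crest.Agent.R208.VE

universe u w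

variable {E : Type u} {H : Type w} [NormedAddCommGroup E] [NormedSpace ℝ E] [FiniteDimensional ℝ E]
  [NormedAddCommGroup H] [InnerProductSpace ℝ H] [FiniteDimensional ℝ H]
  [MeasurableSpace H] [BorelSpace H] {μ : Measure H} [μ.IsAddHaarMeasure]

namespace Inp

variable {d r : ℕ} {X : Set E} {P : E → H →L[ℝ] H} {τ' : E × H → Ext (E × H)} {R₁ R : ℝ}
  {e p3 : E → Ext E} {W ξ a Q Ψ : E × H → Ext (E × H)} {c w₀ : ℝ}
  (h : Inp μ d r X P τ' R₁ R e p3 W ξ a Q Ψ c w₀)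

include h

theorem hT : Sub (d + r) (Tot X P) := h.hP.sub_tot h.hX

theorem cl1 : Cl (Tot X P) (ξ * Ψ) := by
  have h4 : Eqv (Tot X P) (F.d (Ψ * Ψ)) ((2 : ℝ) • (ξ * Ψ)) :=
    (d_sq h.sΨ h.eΨ).trans ((h.dΨ.symm.mul (Eqv.refl Ψ)).smul 2)
  have h5 := h4.smul (2⁻¹ : ℝ)
  rw [smul_smul, inv_mul_cancel₀ two_ne_zero, one_smul] at h5
  exact Cl.of_eqv h.hT (h.sx.mul h.sΨ) ((h.sΨ.mul h.sΨ).d.smul _) h5.symm
    (Cl.smul _ (h.sΨ.mul h.sΨ).d (d_d' (h.sΨ.mul h.sΨ)))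

theorem cl2 : Cl (Tot X P) (ξ * (Ψ * Ψ)) := by
  have s3 : Sm (Tot X P) (Ψ * Ψ * Ψ) := (h.sΨ.mul h.sΨ).mul h.sΨ
  have h4 : Eqv (Tot X P) (F.d (Ψ * Ψ * Ψ)) ((3 : ℝ) • (ξ * (Ψ * Ψ))) :=
    (d_cube h.sΨ h.eΨ).trans ((h.dΨ.symm.mul (Eqv.refl (Ψ * Ψ))).smul 3)
  have h5 := h4.smul (3⁻¹ : ℝ)
  rw [smul_smul, inv_mul_cancel₀ three_ne_zero, one_smul] at h5
  exact Cl.of_eqv h.hT (h.sx.mul (h.sΨ.mul h.sΨ)) (s3.d.smul _) h5.symm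
    (Cl.smul _ s3.d (d_d' s3))

theorem cs1 : Cs X P R (ξ * Ψ) := h.cx.mul_right Ψ
theorem cs2 : Cs X P R (ξ * (Ψ * Ψ)) := h.cx.mul_right _
theorem cs3 : Cs X P R (ξ * (Ψ * Ψ * Ψ)) := h.cx.mul_right _
theorem sm1 : Sm (Tot X P) (ξ * Ψ) := h.sx.mul h.sΨ
theorem sm2 : Sm (Tot X P) (ξ * (Ψ * Ψ)) := h.sx.mul (h.sΨ.mul h.sΨ)
theorem sm3 : Sm (Tot X P) (ξ * (Ψ * Ψ * Ψ)) := h.sx.mul ((h.sΨ.mul h.sΨ).mul h.sΨ)

/-- `pu (w * A0)` -/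
theorem pu_A0 {f : E × H → Ext (E × H)} (hs : Sm (Tot X P) f) (hcs : Cs X P R f)
    (hc : Cl (Tot X P) f) {g : E → Ext E} (hg : Coh X (pu μ P τ' R f) g) :
    Coh X (pu μ P τ' R (f * h.A0)) (g * h.x0) :=
  (pu_mul_closed μ h.hX h.hR h.hP h.hC hs hcs hc h.sA0 h.cA0).trans
    (Coh.mul_right h.sx0 h.cx0 hg)

theorem pu_pf {f : E × H → Ext (E × H)} (hs : Sm (Tot X P) f) {g β : E → Ext E}
    (hβ : Sm X β) (hβc : Cl X β) (hg : Coh X (pu μ P τ' R f) g) :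
    Coh X (pu μ P τ' R (f * pf β)) (g * β) :=
  (Coh.of_eqv (pu_mul μ h.R0 h.hP h.hC hs β)).trans (Coh.mul_right hβ hβc hg)

theorem clA (n : ℕ) {f : E × H → Ext (E × H)} (hs : Sm (Tot X P) f) (hc : Cl (Tot X P) f) :
    Cl (Tot X P) (f * h.A0) := Cl.mul hs h.sA0 hc h.cA0

/-- **evaluation of `ξ a`** -/
theorem ev_a : Coh X (pu μ P τ' R (ξ * a)) ((c * w₀) • h.x0) := by
  have e1 : ξ * a = ξ * h.A0 - (ξ * Ψ) * pf e := by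
    conv_lhs => rw [h.a_eq]
    rw [mul_sub, h.epf.comm Ψ, mul_assoc]
  have s1 : Sm (Tot X P) (ξ * h.A0) := h.sx.mul h.sA0
  have s2 : Sm (Tot X P) ((ξ * Ψ) * pf e) := h.sm1.mul h.spf
  rw [e1]
  refine (Coh.of_eqv (pu_sub μ h.R0 h.hP h.hC s1 s2)).trans ?_
  have k1 := h.pu_A0 h.sx h.cx h.clx h.c1
  have k2 := h.pu_pf h.sm1 h.se h.ce h.c2
  have k3 := k1.sub k2
  rwa [smul_mul_assoc, one_mul, zero_mul, sub_zero] at k3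

/-- `pu (ξ a²)` -/
theorem ev_aa : Coh X (pu μ P τ' R (ξ * (a * a)))
    ((c * w₀) • (h.x0 * h.x0) + (c ^ 3 * w₀ / 3) • (p3 * (e * e))) := by
  have e1 := sq_expand (fun x => h.eA0.comm x) (fun x => h.epf.comm x) h.a_eq
  have s1 : Sm (Tot X P) (ξ * h.A0 * h.A0) := (h.sx.mul h.sA0).mul h.sA0
  have s2 : Sm (Tot X P) ((ξ * Ψ) * h.A0 * pf e) := (h.sm1.mul h.sA0).mul h.spf
  have s3 : Sm (Tot X P) ((ξ * (Ψ * Ψ)) * pf (e * e)) := h.sm2.mul ((h.se.mul h.se).pull smap_fst')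
  have e2 : ξ * (a * a) = ξ * h.A0 * h.A0 - (2 : ℝ) • ((ξ * Ψ) * h.A0 * pf e)
      + (ξ * (Ψ * Ψ)) * pf (e * e) := by
    have hp : (pf (e * e) : E × H → Ext (E × H)) = pf e * pf e := pull_mul' _ _ _
    rw [hp, e1]
    simp only [mul_add, mul_sub, mul_smul_comm, mul_assoc]
  rw [e2]
  refine (Coh.of_eqv (pu_add μ h.R0 h.hP h.hC (s1.sub (s2.smul 2)) s3)).trans ?_
  have k0 := Coh.of_eqv (pu_sub μ h.R0 h.hP h.hC s1 (s2.smul 2))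
  rw [pu_smul μ h.R0 h.hP h.hC] at k0
  have k1 := h.pu_A0 (h.sx.mul h.sA0) (h.cx.mul_right _) (h.clA 0 h.sx h.clx)
    (h.pu_A0 h.sx h.cx h.clx h.c1)
  have k2 := h.pu_pf (h.sm1.mul h.sA0) h.se h.ce (h.pu_A0 h.sm1 h.cs1 h.cl1 h.c2)
  have k3 := h.pu_pf h.sm2 (h.se.mul h.se) (Cl.mul h.se h.se h.ce h.ce) h.c3
  have k4 := (k0.trans (k1.sub (k2.smul 2))).add k3
  rwa [zero_mul, zero_mul, smul_zero, sub_zero, smul_mul_assoc, one_mul, smul_mul_assoc,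
    smul_mul_assoc] at k4

/-- `pu (ξ Ψ a²)` -/
theorem ev_Ψaa : Coh X (pu μ P τ' R (ξ * Ψ * (a * a)))
    (-(2 * (c ^ 3 * w₀ / 3)) • (p3 * h.x0 * e)) := by
  have e1 := sq_expand (fun x => h.eA0.comm x) (fun x => h.epf.comm x) h.a_eq
  have s1 : Sm (Tot X P) (ξ * Ψ * h.A0 * h.A0) := (h.sm1.mul h.sA0).mul h.sA0
  have s2 : Sm (Tot X P) ((ξ * (Ψ * Ψ)) * h.A0 * pf e) := (h.sm2.mul h.sA0).mul h.spf
  have s3 : Sm (Tot X P) ((ξ * (Ψ * Ψ * Ψ)) * pf (e * e)) :=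
    h.sm3.mul ((h.se.mul h.se).pull smap_fst')
  have e2 : ξ * Ψ * (a * a) = ξ * Ψ * h.A0 * h.A0 - (2 : ℝ) • ((ξ * (Ψ * Ψ)) * h.A0 * pf e)
      + (ξ * (Ψ * Ψ * Ψ)) * pf (e * e) := by
    have hp : (pf (e * e) : E × H → Ext (E × H)) = pf e * pf e := pull_mul' _ _ _
    rw [hp, e1]
    simp only [mul_add, mul_sub, mul_smul_comm, mul_assoc]
  rw [e2]
  refine (Coh.of_eqv (pu_add μ h.R0 h.hP h.hC (s1.sub (s2.smul 2)) s3)).trans ?_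
  have k0 := Coh.of_eqv (pu_sub μ h.R0 h.hP h.hC s1 (s2.smul 2))
  rw [pu_smul μ h.R0 h.hP h.hC] at k0
  have k1 := h.pu_A0 (h.sm1.mul h.sA0) (h.cs1.mul_right _) (h.clA 0 h.sm1 h.cl1)
    (h.pu_A0 h.sm1 h.cs1 h.cl1 h.c2)
  have k2 := h.pu_pf (h.sm2.mul h.sA0) h.se h.ce (h.pu_A0 h.sm2 h.cs2 h.cl2 h.c3)
  have k3 := h.pu_pf h.sm3 (h.se.mul h.se) (Cl.mul h.se h.se h.ce h.ce) h.c4
  have k4 := (k0.trans (k1.sub (k2.smul 2))).add k3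
  rw [zero_mul, zero_mul, zero_sub, zero_mul, add_zero, smul_mul_assoc, smul_mul_assoc,
    smul_smul, ← neg_smul] at k4
  exact k4

/-- **the relation** `3 x₀² + c² e² p₃ = 0` -/
theorem relation : Coh X ((c * w₀) • (h.x0 * h.x0) + (c ^ 3 * w₀ / 3) • (p3 * (e * e))) 0 := by
  have h1 : Coh X (pu μ P τ' R (F.d Q)) 0 := pu_coh μ h.R0 h.hP h.hC h.hX h.sQ h.cQ
  have s1 : Sm (Tot X P) (ξ * (a * a)) := h.sx.mul (h.sa.mul h.sa)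
  have h2 : Eqv (Tot X P) (F.d Q) ((-3 : ℝ) • (ξ * (a * a))) := by
    rw [← (h.ea.mul h.ea).comm ξ, neg_smul]
    exact h.dQ
  have h3 := pu_eqv μ h.R0 h.hP h.hC h.sQ.d (s1.smul (-3)) h2
  rw [pu_smul μ h.R0 h.hP h.hC] at h3
  have h4 := Coh.smul_zero' ((-3 : ℝ)⁻¹) ((Coh.of_eqv h3.symm).trans h1)
  rw [smul_smul, inv_mul_cancel₀ (by norm_num), one_smul] at h4
  exact h.ev_aa.symm.trans h4

/-- **evaluation of `ξ Q`** -/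
theorem ev_Q : Coh X (pu μ P τ' R (ξ * Q)) (-(2 * c ^ 3 * w₀) • (p3 * h.x0 * e)) := by
  have h1 : Coh X (pu μ P τ' R (F.d (Ψ * Q))) 0 :=
    pu_coh μ h.R0 h.hP h.hC h.hX (h.sΨ.mul h.sQ) (h.cQ.mul_left Ψ)
  have s1 : Sm (Tot X P) (ξ * Ψ * (a * a)) := h.sm1.mul (h.sa.mul h.sa)
  have s2 : Sm (Tot X P) (ξ * Q) := h.sx.mul h.sQ
  have h2 : Eqv (Tot X P) (F.d (Ψ * Q)) (ξ * Q + (-3 : ℝ) • (ξ * Ψ * (a * a))) := by
    refine (d_mul' h.sΨ h.sQ).trans ?_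
    rw [h.eΨ.iv_eq]
    refine (h.dΨ.symm.mul (Eqv.refl Q)).add (((Eqv.refl Ψ).mul h.dQ).trans ?_)
    refine Eqv.of_eq fun x _ => ?_
    have e1 : Ψ * (-((3 : ℝ) • (a * a * ξ))) = (-3 : ℝ) • (ξ * Ψ * (a * a)) := by
      rw [mul_neg, mul_smul_comm, (h.ea.mul h.ea).comm ξ, ← mul_assoc, h.eΨ.comm ξ, neg_smul]
    rw [e1]
  have h3 := pu_eqv μ h.R0 h.hP h.hC (h.sΨ.mul h.sQ).d (s2.add (s1.smul (-3))) h2
  have h4 := pu_add μ h.R0 h.hP h.hC s2 (s1.smul (-3))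
  rw [pu_smul μ h.R0 h.hP h.hC] at h4
  have h5 : Coh X (pu μ P τ' R (ξ * Q) + (-3 : ℝ) • pu μ P τ' R (ξ * Ψ * (a * a))) 0 :=
    (Coh.of_eqv (h3.trans h4).symm).trans h1
  have h6 := h5.sub (h.ev_Ψaa.smul (-3))
  rw [add_sub_cancel_right, zero_sub, smul_smul, ← neg_smul] at h6
  convert h6 using 2
  ring

/-- **(VE)**: fibre integral of `l ξ Q - s α ξ - t β a ξ`, for closed even forms `α`, `β` on the
base -/
theorem main {α β : E → Ext E} (hα : Sm X α) (hαc : Cl X α) (hαe : Ev α) (hβ : Sm X β)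
    (hβc : Cl X β) (hβe : Ev β) (l s t : ℝ) :
    Coh X (pu μ P τ' R (l • (ξ * Q) - s • (pf α * ξ) - t • (pf β * (a * ξ))))
      (-(l * (2 * c ^ 3 * w₀)) • (p3 * h.x0 * e) - (s * (c * w₀)) • α
        - (t * (c * w₀)) • (h.x0 * β)) := by
  have s1 : Sm (Tot X P) (ξ * Q) := h.sx.mul h.sQ
  have sα : Sm (Tot X P) (ξ * pf α) := h.sx.mul (hα.pull smap_fst')
  have sβ : Sm (Tot X P) (ξ * a * pf β) := (h.sx.mul h.sa).mul (hβ.pull smap_fst')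
  have e1 : (pf α : E × H → Ext (E × H)) * ξ = ξ * pf α := (Ev.pull hαe).comm ξ
  have e2 : (pf β : E × H → Ext (E × H)) * (a * ξ) = ξ * a * pf β := by
    rw [(Ev.pull hβe).comm, h.ea.comm ξ]
  rw [e1, e2]
  have k0 := Coh.of_eqv (pu_sub μ h.R0 h.hP h.hC ((s1.smul l).sub (sα.smul s)) (sβ.smul t))
  have k1 := Coh.of_eqv (pu_sub μ h.R0 h.hP h.hC (s1.smul l) (sα.smul s))
  rw [pu_smul μ h.R0 h.hP h.hC, pu_smul μ h.R0 h.hP h.hC] at k1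
  rw [pu_smul μ h.R0 h.hP h.hC] at k0
  have k2 := h.pu_pf h.sx hα hαc h.c1
  have k3 := h.pu_pf (h.sx.mul h.sa) hβ hβc h.ev_a
  have k4 := (k0.trans ((k1.trans ((h.ev_Q.smul l).sub (k2.smul s))).sub (k3.smul t)))
  rw [smul_smul, smul_mul_assoc, one_mul, smul_smul, smul_mul_assoc, smul_smul] at k4
  convert k4 using 4
  ring

end Inp

end Crest.Agent.R208.VE
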