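import Crest.Agent.R208.EA1
import Crest.Agent.R208.VE4

/-! Row 208, (8,2), block EA (helper595).  EA2: the form of the doubled level-one family over the
cover `X' → X` (half weights) and its class after integration over `N` (helper812's `VE.main`). -/

set_option autoImplicit false
set_option linter.unusedSectionVars false
set_option linter.unusedVariables false

open MeasureTheory Set Filter Topology Module
open scoped ContDiff RealInnerProductSpace
open Crest.GeometryTopology.Submanifold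
open Crest.Agent.R241.DDefs Crest.Agent.R241.D Crest.Agent.R241.D2
open Crest.Agent.R208.F Crest.Agent.R208.FI Crest.Agent.R208.CW Crest.Agent.R208.T
open Crest.Agent.R208.CM
open Crest.Agent.R208.VC
open Crest.Agent.R208.EX
open Crest.Agent.R208.TP (QM TT CV pu₁ pu₂ push up)
open Crest.Agent.R208.MS (Fam oc En)

noncomputable section

namespace Crest.Agent.R208.EA

section dbl
variable {E E' E₂ E₂' : Type} [NormedAddCommGroup E] [NormedSpace ℝ E] [FiniteDimensional ℝ E]
  [NormedAddCommGroup E'] [NormedSpace ℝ E'] [FiniteDimensional ℝ E']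
  [NormedAddCommGroup E₂] [NormedSpace ℝ E₂] [FiniteDimensional ℝ E₂]
  [NormedAddCommGroup E₂'] [NormedSpace ℝ E₂'] [FiniteDimensional ℝ E₂']

/-- the cover `X' → X` over which the action is doubled, and the induced map `B' → B` -/
structure Dbl (X : Set E) (φ : ℝ → E → E) (B : Set E') (q : E → E') (X' : Set E₂)
    (φ' : ℝ → E₂ → E₂) (B' : Set E₂') (q' : E₂ → E₂') (pX : E₂ → E) (p : E₂' → E') : Prop where
  sX : SMap X' X pX
  sB : SMap B' B p
  act : ∀ x ∈ X', ∀ t, pX (φ' t x) = φ (2 * t) (pX x)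
  comm : ∀ x ∈ X', q (pX x) = p (q' x)

variable {X : Set E} {φ : ℝ → E → E} {B : Set E'} {q : E → E'} {X' : Set E₂}
  {φ' : ℝ → E₂ → E₂} {B' : Set E₂'} {q' : E₂ → E₂'} {pX : E₂ → E} {p : E₂' → E'}
  {H V : Type} [NormedAddCommGroup H] [InnerProductSpace ℝ H] [FiniteDimensional ℝ H]
  [NormedAddCommGroup V] [InnerProductSpace ℝ V] [FiniteDimensional ℝ V]
  {R : ℝ → H →L[ℝ] H} {T : E → H →L[ℝ] V} {P : E → H →L[ℝ] H} {P' : E' → V →L[ℝ] V}
  {d dB r : ℕ} {N : ℕ}

/-- doubled representation -/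
def R2x (R : ℝ → H →L[ℝ] H) (t : ℝ) : H →L[ℝ] H := R (2 * t)

theorem rep_R2x (h : Rep R) : Rep (R2x R) where
  smooth := h.smooth.comp (contDiff_const.mul contDiff_id)
  zero w := by rw [R2x, mul_zero]; exact h.zero w
  add s t w := by rw [R2x, mul_add]; exact h.add _ _ w
  per w := by
    have h1 : (2 : ℝ) * (2 * Real.pi) = 2 * Real.pi + 2 * Real.pi := by ring
    rw [R2x, h1, h.add, h.per, h.per]
  iso t w := h.iso _ w

theorem triv_R2x (hd : Dbl X φ B q X' φ' B' q' pX p) (hT : Triv X φ R T) :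
    Triv X' φ' (R2x R) (fun x => T (pX x)) where
  smooth x hx := ContDiffAt.comp (g := T) x (hT.smooth _ (hd.sX.maps hx)) (hd.sX.smooth x hx)
  iso x hx w := hT.iso _ (hd.sX.maps hx) w
  equi x hx t w := by
    rw [hd.act x hx t]; exact hT.equi _ (hd.sX.maps hx) _ w

/-- smooth field pulled back -/
theorem qd_R2x (hd : Dbl X φ B q X' φ' B' q' pX p) (h1 : ∀ x ∈ X, P' (q x) = Qd T P x) :
    ∀ x ∈ X', P' (p (q' x)) = Qd (fun x => T (pX x)) (fun x => P (pX x)) x := fun x hx => by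
  rw [← hd.comm x hx, h1 _ (hd.sX.maps hx)]; rfl

theorem equi_R2x (hd : Dbl X φ B q X' φ' B' q' pX p)
    (he : ∀ x ∈ X, ∀ t w, P (φ t x) (R t w) = R t (P x w)) :
    ∀ x ∈ X', ∀ t w, P (pX (φ' t x)) (R2x R t w) = R2x R t (P (pX x) w) := fun x hx t w => by
  rw [hd.act x hx t]; exact he _ (hd.sX.maps hx) _ w

variable [MeasurableSpace H] [BorelSpace H] [MeasurableSpace V] [BorelSpace V]

/-- comparison of the quotient maps -/
theorem smap_upX (hd : Dbl X φ B q X' φ' B' q' pX p) :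
    SMap (Tot X' (fun x => P (pX x))) (Tot X P) (up pX) := TP.smap_up hd.sX

theorem up_comm (hd : Dbl X φ B q X' φ' B' q' pX p) {z : E₂ × H} (hz : z.1 ∈ X') :
    up p (Th q' (fun x => T (pX x)) z) = Th q T (up pX z) :=
  Prod.ext (hd.comm _ hz).symm rfl

theorem up_act (hd : Dbl X φ B q X' φ' B' q' pX p) {z : E₂ × H} (hz : z.1 ∈ X') (t : ℝ) :
    up pX (phR φ' (R2x R) t z) = VC.dbl (phR φ R) t (up pX z) :=
  Prod.ext (hd.act _ hz t) rfl

variable {D : ED N} {θ : E → Ext E} {θ' : E₂ → Ext E₂} {f1 : E × H → Euc N}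
  {V'' : E' × V → Ext (E' × V)}

/-- the form of the doubled family, pulled back to the cover -/
theorem v0_pull (hd : Dbl X φ B q X' φ' B' q' pX p) (hC : Cir (Tot X P) (phR φ R))
    (hC' : Cir (Tot X' (fun x => P (pX x))) (phR φ' (R2x R)))
    (hQ : QM (Tot X P) (phR φ R) (Tot B P') (Th q T))
    (hQ' : QM (Tot X' (fun x => P (pX x))) (phR φ' (R2x R)) (Tot B' (fun y => P' (p y)))
      (Th q' (fun x => T (pX x))))
    (hf : Fam D.S (Tot X P) f1) (hdat : Dat D.S D.om) (hθ : Sm X θ) (hθ' : Sm X' θ')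
    (hP : PField X r P) (hX' : Sub d X')
    (hθθ : Eqv X' θ' ((1 / 2 : ℝ) • F.pull pX θ))
    (hV : Eqv (Tot X P) (F.pull (Th q T) V'')
      (vv (VC.dbl (phR φ R)) ((1 / 2 : ℝ) • F.d (F.pull Prod.fst θ)) D.p D.q D.r D.s
        (F.pull f1 D.om))) :
    Eqv (Tot X' (fun x => P (pX x))) (F.pull (Th q' (fun x => T (pX x))) (F.pull (up p) V''))
      (D.vf (phR φ' (R2x R)) (F.pull Prod.fst θ') (fun z => f1 (up pX z))) := by
  have hu : SMap (Tot X' (fun x => P (pX x))) (Tot X P) (up pX) := smap_upX hd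
  have hup : SMap (Tot B' (fun y => P' (p y))) (Tot B P') (up p) := TP.smap_up hd.sB
  have hA := Act.of_cir hC
  have hA' := Act.of_cir hC'
  have hfs : SMap (Tot X P) D.S f1 := ⟨hf.smooth, fun z hz => hf.maps z hz⟩
  have sb : Sm (Tot X P) (F.pull f1 D.om) := hdat.sm.pull hfs
  have k1 : Eqv (Tot X' (fun x => P (pX x)))
      (F.pull (Th q' (fun x => T (pX x))) (F.pull (up p) V''))
      (F.pull (up pX) (F.pull (Th q T) V'')) :=
    (eqv_pull_pull hQ'.smap hup (hup.comp hQ'.smap) (fun _ _ => rfl) V'').trans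
      (eqv_pull_pull hu hQ.smap (hup.comp hQ'.smap)
        (fun z hz => (up_comm (T := T) hd hz.1).symm) V'').symm
  have k2 := k1.trans (hV.pull hu)
  have k3 := nat_vv (e := (1 / 2 : ℝ) • F.d (F.pull Prod.fst θ)) (p := D.p) (q := D.q)
    (r := D.r) (s := D.s) hA.dbl hA' hu (fun t y hy => up_act hd hy.1 t) sb
  refine (k2.trans k3).trans ?_
  rw [ED.vf]
  refine eqv_vv hA' (sb.pull hu) (hdat.sm.pull (hfs.comp hu)) ?_ ?_
  · exact eqv_pull_pull hu hfs (hfs.comp hu) (fun _ _ => rfl) D.om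
  · have sθ : Sm (Tot X P) (F.pull (Prod.fst : E × H → E) θ) := hθ.pull smap_fst'
    have sθ2 : Sm X' (F.pull pX θ) := hθ.pull hd.sX
    have sf' : SMap (Tot X' (fun x => P (pX x))) X' (Prod.fst : E₂ × H → E₂) := smap_fst'
    have e1 : Eqv (Tot X' (fun x => P (pX x)))
        (F.pull (up pX) ((1 / 2 : ℝ) • F.d (F.pull (Prod.fst : E × H → E) θ)))
        ((1 / 2 : ℝ) • F.d (F.pull (up pX) (F.pull (Prod.fst : E × H → E) θ))) := by
      rw [Crest.Agent.R208.T.pull_smul']
      exact (d_pull_eqv hu sθ).symm.smul _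
    have e2 : Eqv (Tot X' (fun x => P (pX x)))
        (F.pull (up pX) (F.pull (Prod.fst : E × H → E) θ))
        (F.pull (Prod.fst : E₂ × H → E₂) (F.pull pX θ)) :=
      (eqv_pull_pull hu smap_fst' (hd.sX.comp sf') (fun _ _ => rfl) θ).trans
        (eqv_pull_pull sf' hd.sX (hd.sX.comp sf') (fun _ _ => rfl) θ).symm
    have hT' : Sub (d + r) (Tot X' (fun x => P (pX x))) := (TP.pfield_up hP hd.sX).sub_tot hX'
    have e3 : Eqv (Tot X' (fun x => P (pX x))) (F.pull (Prod.fst : E₂ × H → E₂) θ')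
        ((1 / 2 : ℝ) • F.pull (Prod.fst : E₂ × H → E₂) (F.pull pX θ)) := by
      have := hθθ.pull sf'
      rwa [Crest.Agent.R208.T.pull_smul'] at this
    have e4 := Eqv.d hT' (hθ'.pull sf') ((sθ2.pull sf').smul _) e3
    have e5 := e4.trans (d_smul_eqv (1 / 2 : ℝ) (sθ2.pull sf'))
    refine e1.trans (Eqv.trans ?_ e5.symm)
    exact (Eqv.d hT' (sθ.pull hu) (sθ2.pull sf') e2).smul _

end dbl

end Crest.Agent.R208.EA
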