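import Crest.Agent.R208.EA2
import Crest.Agent.R208.T3a

/-! Row 208, (8,2), block EA (helper595).  EA3: homogeneity of `vv`; fibre integral of the form of
the doubled family. -/

set_option autoImplicit false
set_option linter.unusedSectionVars false
set_option linter.unusedVariables false

open MeasureTheory Set Filter Topology Module
open scoped ContDiff RealInnerProductSpace
open Crest.GeometryTopology.Submanifold
open Crest.Agent.R241.DDefs Crest.Agent.R241.D Crest.Agent.R241.D2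
open Crest.Agent.R208.F Crest.Agent.R208.FI Crest.Agent.R208.CW Crest.Agent.R208.T
open Crest.Agent.R208.CM
open Crest.Agent.R208.VC
open Crest.Agent.R208.EX
open Crest.Agent.R208.TP (QM TT CV pu₁ pu₂ push up)
open Crest.Agent.R208.MS (Fam oc En)

noncomputable section

namespace Crest.Agent.R208.EA

section hom
variable {E : Type*} [NormedAddCommGroup E] [NormedSpace ℝ E] [FiniteDimensional ℝ E]
  {φ : ℝ → E → E} {b e : E → Ext E} {k : ℕ}

theorem isDeg_ivl {f : ℝ → Ext E} {p : ℕ} (h : ∀ t, IsDeg p (f t)) (u v : ℝ) :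
    IsDeg p (∫ t in u..v, f t) := by
  rw [intervalIntegral]
  have h1 := isDeg_integral (volume.restrict (Ioc u v)) h
  have h2 := isDeg_integral (volume.restrict (Ioc v u)) h
  have h3 := h1.add (h2.smul (-1))
  rwa [neg_one_smul, ← sub_eq_add_neg] at h3

theorem deg_Wn (hb : Hom k b) (p : E × ℝ) : IsDeg k (Wn φ b p) := by
  rw [Wn, Wt, pbL_apply]
  exact IsDeg.pb (hb.pull (f := Ph φ) _) _

theorem hom_Av (hb : Hom k b) : Hom k (Av φ b) := fun x => isDeg_ivl (fun t => deg_Wn hb _) 0 1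

theorem hom_xi (hb : Hom (k + 1) b) : Hom k (xi φ b) := fun x => IsDeg.ii (hom_Av hb x) _

theorem deg_Lf (hb : Hom (k + 1) b) (p : E × ℝ) : IsDeg k (Lf φ b p) :=
  isDeg_ivl (fun t => (IsDeg.ii (deg_Wn hb _) _).smul _) 0 1

theorem hom_YY (hb : Hom (k + 1) b) : Hom (k + 1 + (k + 1) + k) (YY φ b) := fun x =>
  isDeg_ivl (fun t => isDeg_mul ((isDeg_mul (deg_Wn hb _) (deg_Wn hb _)).add
    (isDeg_mul (hom_Av hb _) (deg_Wn hb _))) (deg_Lf hb _)) 0 1

theorem hom_psi (hb : Hom (k + 1) b) : Hom (4 * k + 1) (psi φ b) := by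
  have h1 : Hom (k + 1 + (k + 1) + k) (YY φ b) := hom_YY hb
  have h2 : Hom (3 * k + 1) (iV φ (YY φ b)) := fun x => IsDeg.ii (by
    have := h1 x
    rwa [show k + 1 + (k + 1) + k = 3 * k + 1 + 1 by ring] at this) _
  have h3 := (hom_xi (φ := φ) hb).mul h2
  rwa [show k + (3 * k + 1) = 4 * k + 1 by ring] at h3

theorem hom_vv {p q : ℕ} {r s : ℝ} (hb : Hom (k + 1) b) (he : Hom 2 e) (hp : 2 * p = 3 * k + 1)
    (hq : 2 * q = 2 * k) : Hom (4 * k + 1) (vv φ e p q r s b) := by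
  have h1 := (he.pow p).mul (hom_xi (φ := φ) hb)
  have h2 := (he.pow q).mul ((hom_Av (φ := φ) hb).mul (hom_xi (φ := φ) hb))
  rw [show 2 * p + k = 4 * k + 1 by omega] at h1
  rw [show 2 * q + (k + 1 + k) = 4 * k + 1 by omega] at h2
  exact ((hom_psi hb).sub (h1.smul r)).sub (h2.smul s)

end hom

section push
variable {E E' E₂ E₂' : Type} [NormedAddCommGroup E] [NormedSpace ℝ E] [FiniteDimensional ℝ E]
  [NormedAddCommGroup E'] [NormedSpace ℝ E'] [FiniteDimensional ℝ E']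
  [NormedAddCommGroup E₂] [NormedSpace ℝ E₂] [FiniteDimensional ℝ E₂]
  [NormedAddCommGroup E₂'] [NormedSpace ℝ E₂'] [FiniteDimensional ℝ E₂']
  {X : Set E} {φ : ℝ → E → E} {B : Set E'} {q : E → E'} {X' : Set E₂}
  {φ' : ℝ → E₂ → E₂} {B' : Set E₂'} {q' : E₂ → E₂'} {pX : E₂ → E} {p : E₂' → E'}
  {V : Type} [NormedAddCommGroup V] [InnerProductSpace ℝ V] [FiniteDimensional ℝ V]
  [MeasurableSpace V] [BorelSpace V] (μ : Measure V) [μ.IsAddHaarMeasure]
  {P' : E' → V →L[ℝ] V} {r : ℕ} {ρ R₁ : ℝ} {V'' τ' : E' × V → Ext (E' × V)} {w : E' → Ext E'}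

/-- the fibre integral over the cover is the pull back -/
theorem push_cut (hρ : 0 ≤ ρ) (hp : SMap B' B p) (hP' : PField B r P') (hτ : VE.Co B P' R₁ τ')
    (hs : Sm (Tot B P') V'') (h : Coh B (VE.pu μ P' τ' ρ V'') w) :
    Coh B' (push μ (fun y => P' (p y)) (F.pull (up p) τ') (F.pull (up p) (cutH ρ V'')))
      (F.pull p w) := by
  refine Coh.trans (Coh.of_eqv (Eqv.of_eq fun y hy => ?_)) (h.pull hp)
  exact TP.push_up μ hP' hp hτ.csf (hs.cutH) (Vt.cutH hρ) hy

end push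

end Crest.Agent.R208.EA
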