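import Crest.Agent.R208.ZA1

/-!
R208, ZA2 (helper221): **the endgame of `(k, n) = (8, 16)` from closed forms** on `B` (the manifold
of geodesics, dimension 30) and `B'` (the quotient of `US × S³¹`), unnormalised.
-/

set_option autoImplicit false
set_option linter.unusedSectionVars false

open MeasureTheory Set Filter Topology Module
open scoped ContDiff
open Crest.Agent.R208.F Crest.Agent.R208.FI Crest.Agent.R208.CW Crest.Agent.R208.T
open Crest.Agent.R208.SO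

noncomputable section

namespace Crest.Agent.R208.ZA

variable {EB EB' : Type*} [NormedAddCommGroup EB] [NormedSpace ℝ EB] [FiniteDimensional ℝ EB]
  [NormedAddCommGroup EB'] [NormedSpace ℝ EB'] [FiniteDimensional ℝ EB']

section classes

variable {X : Set EB} {a b : EB → Ext EB}

theorem rcl_lin (r s : ℝ) (ha : EC X a) (hb : EC X b) :
    rcl ((ha.smul r).add (hb.smul s)) = r • rcl ha + s • rcl hb := by
  rw [rcl_add (ha.smul r) (hb.smul s), ZG.rcl_smul' r ha, ZG.rcl_smul' s hb]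

end classes

/-- the classes of the forms `p₃`, `T a` -/
theorem rcl_p3 {X : Set EB} {e x p3 : EB → Ext EB} (he : EC X e) (hx : EC X x) (hp3 : EC X p3)
    {t3 α β₁ : ℝ} (h3 : Coh X p3 (t3 • (α • e ^ 6 + β₁ • (x * e ^ 2)))) :
    rcl hp3 = t3 • (α • rcl he ^ 6 + β₁ • (rcl he ^ 2 * rcl hx)) := by
  have k2 : EC X (t3 • (α • e ^ 6 + β₁ • (x * e ^ 2))) :=
    (((he.pow 6).smul α).add ((hx.mul (he.pow 2)).smul β₁)).smul t3
  rw [rcl_congr hp3 k2 h3, ZG.rcl_smul' t3 (((he.pow 6).smul α).add ((hx.mul (he.pow 2)).smul β₁)),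
    rcl_lin α β₁ (he.pow 6) (hx.mul (he.pow 2)), rcl_mul hx (he.pow 2), rcl_pow he, rcl_pow he,
    mul_comm (rcl hx)]

theorem rcl_rel {X : Set EB} {e x p3 : EB → Ext EB} (he : EC X e) (hx : EC X x) (hp3 : EC X p3)
    {l : ℝ} (h : Coh X ((3 : ℝ) • (x * x) + (l ^ 2) • (p3 * (e * e))) 0) :
    (3 : ℝ) • (rcl hx * rcl hx) + (l ^ 2) • (rcl he * rcl he * rcl hp3) = 0 := by
  have k1 : EC X ((3 : ℝ) • (x * x) + (l ^ 2) • (p3 * (e * e))) :=
    ((hx.mul hx).smul 3).add ((hp3.mul (he.mul he)).smul _)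
  have q1 := (rcl_eq_zero_iff k1).2 h
  rw [rcl_lin 3 (l ^ 2) (hx.mul hx) (hp3.mul (he.mul he)), rcl_mul hx hx,
    rcl_mul hp3 (he.mul he), rcl_mul he he, mul_comm (rcl hp3)] at q1
  exact q1

theorem rcl_T {X : Set EB} {e x T : EB → Ext EB} (he : EC X e) (hx : EC X x) (hT : EC X T)
    {a b : ℝ} (h : Coh X T (a • e ^ 7 + b • (x * e ^ 3))) :
    rcl hT = a • rcl he ^ 7 + b • (rcl hx * rcl he ^ 3) := by
  have k2 : EC X (a • e ^ 7 + b • (x * e ^ 3)) := ((he.pow 7).smul a).add ((hx.mul (he.pow 3)).smul b)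
  rw [rcl_congr hT k2 h, rcl_lin a b (he.pow 7) (hx.mul (he.pow 3)), rcl_mul hx (he.pow 3),
    rcl_pow he, rcl_pow he]

/-- the right side of the doubling identity -/
def rhsE (l n₁ r s : ℝ) (p3 x e : EB → Ext EB) : EB → Ext EB :=
  (-(4 * (2 * l ^ 2 * n₁))) • (p3 * x * e) + (-(r / 1024 * n₁)) • e ^ 11
    + (-(s / 64 * n₁)) • (x * e ^ 7)

theorem ec_rhsE {X : Set EB} {e x p3 : EB → Ext EB} (he : EC X e) (hx : EC X x) (hp3 : EC X p3)
    (l n₁ r s : ℝ) : EC X (rhsE l n₁ r s p3 x e) :=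
  ((((hp3.mul hx).mul he).smul _).add ((he.pow 11).smul _)).add ((hx.mul (he.pow 7)).smul _)

theorem rcl_rhsE {X : Set EB} {e x p3 : EB → Ext EB} (he : EC X e) (hx : EC X x) (hp3 : EC X p3)
    (l n₁ r s : ℝ) : rcl (ec_rhsE he hx hp3 l n₁ r s) =
      (-(4 * (2 * l ^ 2 * n₁))) • (rcl hp3 * rcl hx * rcl he) - (r / 1024 * n₁) • rcl he ^ 11
        - (s / 64 * n₁) • (rcl hx * rcl he ^ 7) := by
  have e1 := rcl_add ((((hp3.mul hx).mul he).smul (-(4 * (2 * l ^ 2 * n₁)))).add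
    ((he.pow 11).smul (-(r / 1024 * n₁)))) ((hx.mul (he.pow 7)).smul (-(s / 64 * n₁)))
  rw [rcl_lin (-(4 * (2 * l ^ 2 * n₁))) (-(r / 1024 * n₁)) ((hp3.mul hx).mul he) (he.pow 11),
    ZG.rcl_smul' (-(s / 64 * n₁)) (hx.mul (he.pow 7)), rcl_mul (hp3.mul hx) he, rcl_mul hp3 hx,
    rcl_mul hx (he.pow 7), rcl_pow he, rcl_pow he] at e1
  refine Eq.trans e1 ?_
  module

set_option maxHeartbeats 1000000 in
/-- **the endgame of `(8, 2)` on forms.** -/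
theorem bound {B : Set EB} {B' : Set EB'} {oB : EB → Ext EB} {p : EB' → EB}
    (hB : Clo 30 B) (ho : Ori 30 B oB) (sp : SMap B' B p)
    (hinj : ∀ om η : EB → Ext EB, Sm B om → Sm B η → Cl B η → Coh B' (F.pull p om) 0 →
      J 30 B oB (om * η) = 0)
    {e x p3 T1 T2 Th : EB → Ext EB} (he : EC B e) (hx : EC B x) (hp3 : EC B p3)
    (hT1 : EC B T1) (hT2 : EC B T2) (hTh : EC B Th)
    {q1 q2 α β₁ ν l t3 n₀ a1 a2 ε7 c₀ n₁ : ℝ} (hν : ν ≠ 0) (hnl : ν ^ 2 * l ^ 2 * t3 = 36)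
    (h3 : Coh B p3 (t3 • (α • e ^ 6 + β₁ • (x * e ^ 2))))
    (h1 : Coh B T1 (((1 : ℝ) ^ 7 - q1 * 1 ^ 5 + q2 * 1 ^ 3 - α * 1) • e ^ 7 +
      (ν * 1 ^ 3 - β₁ * 1) • (x * e ^ 3)))
    (h2 : Coh B T2 (((2 : ℝ) ^ 7 - q1 * 2 ^ 5 + q2 * 2 ^ 3 - α * 2) • e ^ 7 +
      (ν * 2 ^ 3 - β₁ * 2) • (x * e ^ 3)))
    (hh : Coh B Th (((1 / 2 : ℝ) ^ 7 - q1 * (1 / 2) ^ 5 + q2 * (1 / 2) ^ 3 - α * (1 / 2)) • e ^ 7 +
      (ν * (1 / 2) ^ 3 - β₁ * (1 / 2)) • (x * e ^ 3)))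
    (hrel : Coh B ((3 : ℝ) • (x * x) + (l ^ 2) • (p3 * (e * e))) 0)
    (hx3 : J 30 B oB (e ^ 3 * x ^ 3) = 0)
    (hS : |2 * α * ν ^ 2 * J 30 B oB (e ^ 7 * x ^ 2)| = 144 * (2 * Real.pi) ^ 15)
    (hβ : ∃ n : ℤ, 12 * β₁ / ν = n) (hn : ∃ n : ℤ, 2 * n₀ = n)
    (hα : ∃ n : ℤ, α + 12 * β₁ / ν * n₀ = n)
    (hr : ∃ n : ℤ, ν ^ 2 * J 30 B oB (e ^ 7 * x ^ 2) = 36 * (2 * Real.pi) ^ 15 * n)
    (z0 : ∃ n : ℤ, J 30 B oB (e ^ 15) = (2 * Real.pi) ^ 15 * n)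
    (z1 : ∃ n : ℤ, J 30 B oB (e ^ 8 * T1) = (2 * Real.pi) ^ 15 * n)
    (z2 : ∃ n : ℤ, J 30 B oB (e ^ 8 * T2) = (2 * Real.pi) ^ 15 * n)
    {u e2 : EB' → Ext EB'} (hu : EC B' u) (he2 : EC B' e2)
    (hua : Coh B' u (F.pull p (a1 • e ^ 4 + a2 • x)))
    (he2T : Coh B' e2 (ε7 • F.pull p Th))
    (hκ : |ε7 * a2 * ν ^ 2| = 432 * |c₀ * n₁|) (hc : c₀ * n₁ ≠ 0)
    (hE : Coh B' (c₀ • F.pull p (rhsE l n₁ (r1 l t3 α β₁) (r2 l t3 α β₁) p3 x e)) (u * e2)) :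
    |J 30 B oB (e ^ 15)| ≤ 78 * (2 * Real.pi) ^ 15 := by
  have iI : ∀ {a : EB → Ext EB} (ha : EC B a), ZG.intR hB ho (rcl ha) = J 30 B oB a :=
    fun ha => ZG.intR_rcl hB ho ha
  have m1 : ∀ i j : ℕ, J 30 B oB (e ^ i * x ^ j) = ZG.intR hB ho (rcl he ^ i * rcl hx ^ j) := by
    intro i j
    rw [← iI ((he.pow i).mul (hx.pow j)), rcl_mul (he.pow i) (hx.pow j), rcl_pow he, rcl_pow hx]
  have m0 : J 30 B oB (e ^ 15) = ZG.intR hB ho (rcl he ^ 15) := by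
    rw [← iI (he.pow 15), rcl_pow he]
  have m8 : ∀ {T : EB → Ext EB} (hT : EC B T), J 30 B oB (e ^ 8 * T) =
      ZG.intR hB ho (rcl he ^ 8 * rcl hT) := by
    intro T hT
    rw [← iI ((he.pow 8).mul hT), rcl_mul (he.pow 8) hT, rcl_pow he]
  -- classes on `B'`
  have he' : EC B' (F.pull p e) := he.pull sp
  have hx' : EC B' (F.pull p x) := hx.pull sp
  have hp3' : EC B' (F.pull p p3) := hp3.pull sp
  have h3' : Coh B' (F.pull p p3)
      (t3 • (α • (F.pull p e) ^ 6 + β₁ • (F.pull p x * (F.pull p e) ^ 2))) := by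
    have := h3.pull sp
    rwa [pull_smul', pull_add', pull_smul', pull_smul', pull_mul', pull_pow', pull_pow'] at this
  have hrel' : Coh B' ((3 : ℝ) • (F.pull p x * F.pull p x) +
      (l ^ 2) • (F.pull p p3 * (F.pull p e * F.pull p e))) 0 := by
    have := hrel.pull sp
    rwa [pull_add', pull_smul', pull_smul', pull_mul', pull_mul', pull_mul', pull_zero'] at this
  have hua' : rcl hu = a1 • rcl he' ^ 4 + a2 • rcl hx' := by
    rw [pull_add', pull_smul', pull_smul', pull_pow'] at hua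
    rw [rcl_congr hu (((he'.pow 4).smul a1).add (hx'.smul a2)) hua, rcl_lin a1 a2 (he'.pow 4) hx',
      rcl_pow he']
  have hE2 : rcl he2 = ε7 • ((((1 / 2 : ℝ) ^ 7 - q1 * (1 / 2) ^ 5 + q2 * (1 / 2) ^ 3 -
      α * (1 / 2)) • rcl he' ^ 7 + (ν * (1 / 2) ^ 3 - β₁ * (1 / 2)) • (rcl hx' * rcl he' ^ 3))) := by
    have t1 := hh.pull sp
    rw [pull_add', pull_smul', pull_smul', pull_mul', pull_pow', pull_pow'] at t1
    have t2 := rcl_T he' hx' (hTh.pull sp) t1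
    rw [rcl_congr he2 ((hTh.pull sp).smul ε7) he2T, ZG.rcl_smul' ε7 (hTh.pull sp), t2]
  have hPr : c₀ • ((-(4 * (2 * l ^ 2 * n₁))) • (rcl hp3' * rcl hx' * rcl he')
      - (r1 l t3 α β₁ / 1024 * n₁) • rcl he' ^ 11
      - (r2 l t3 α β₁ / 64 * n₁) • (rcl hx' * rcl he' ^ 7)) = rcl hu * rcl he2 := by
    have t1 : F.pull p (rhsE l n₁ (r1 l t3 α β₁) (r2 l t3 α β₁) p3 x e) =
        rhsE l n₁ (r1 l t3 α β₁) (r2 l t3 α β₁) (F.pull p p3) (F.pull p x) (F.pull p e) := by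
      unfold rhsE
      rw [pull_add', pull_add', pull_smul', pull_smul', pull_smul', pull_mul', pull_mul', pull_mul',
        pull_pow', pull_pow']
    rw [t1] at hE
    have t2 := rcl_congr ((ec_rhsE he' hx' hp3' l n₁ (r1 l t3 α β₁) (r2 l t3 α β₁)).smul c₀)
      (hu.mul he2) hE
    rw [ZG.rcl_smul' c₀ (ec_rhsE he' hx' hp3' l n₁ (r1 l t3 α β₁) (r2 l t3 α β₁)),
      rcl_rhsE he' hx' hp3' l n₁ (r1 l t3 α β₁) (r2 l t3 α β₁), rcl_mul hu he2] at t2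
    exact t2
  have hlin : ∀ u v : ℝ, u • rcl he' ^ 11 + v • (rcl he' ^ 7 * rcl hx') = 0 → u = 0 ∧ v = 0 := by
    intro a b hab
    have ew : EC B (a • e ^ 11 + b • (e ^ 7 * x)) :=
      ((he.pow 11).smul a).add (((he.pow 7).mul hx).smul b)
    have ew' : EC B' (a • (F.pull p e) ^ 11 + b • ((F.pull p e) ^ 7 * F.pull p x)) :=
      ((he'.pow 11).smul a).add (((he'.pow 7).mul hx').smul b)
    have t1 : Coh B' (F.pull p (a • e ^ 11 + b • (e ^ 7 * x))) 0 := by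
      rw [pull_add', pull_smul', pull_smul', pull_mul', pull_pow', pull_pow']
      refine (rcl_eq_zero_iff ew').1 ?_
      have := rcl_lin a b (he'.pow 11) ((he'.pow 7).mul hx')
      rw [rcl_mul (he'.pow 7) hx', rcl_pow he', rcl_pow he', hab] at this
      exact this
    have t2 : ∀ {η : EB → Ext EB} (hη : EC B η),
        a * ZG.intR hB ho (rcl he ^ 11 * rcl hη) +
          b * ZG.intR hB ho (rcl he ^ 7 * rcl hx * rcl hη) = 0 := by
      intro η hη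
      have := hinj _ η ew.sm hη.sm hη.cl t1
      rw [← iI (ew.mul hη), rcl_mul ew hη] at this
      have t3 := rcl_lin a b (he.pow 11) ((he.pow 7).mul hx)
      rw [rcl_mul (he.pow 7) hx, rcl_pow he, rcl_pow he] at t3
      have t4 : rcl ew = a • rcl he ^ 11 + b • (rcl he ^ 7 * rcl hx) := t3
      rw [t4, add_mul, smul_mul_assoc, smul_mul_assoc, map_add, map_smul, map_smul] at this
      exact this
    have v1 := t2 (he.pow 4)
    have v2 := t2 hx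
    rw [rcl_pow he] at v1
    -- the relations
    have r3 := rcl_p3 he hx hp3 h3
    have r4 := rcl_rel he hx hp3 hrel
    have hlt : l ^ 2 * t3 ≠ 0 := by
      intro h0
      rw [mul_assoc, h0, mul_zero] at hnl
      norm_num at hnl
    have h2ne : ZG.intR hB ho (rcl he ^ 7 * rcl hx ^ 2) ≠ 0 := by
      intro h0
      rw [m1, h0, mul_zero, abs_zero] at hS
      have : (0 : ℝ) < 144 * (2 * Real.pi) ^ 15 := by positivity
      exact absurd hS this.ne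
    rw [m1] at hx3
    generalize rcl he = E at *
    generalize rcl hx = X at *
    generalize rcl hp3 = Q at *
    have rel0 : (3 : ℝ) • (X ^ 2) + (l ^ 2 * t3 * α) • E ^ 8 + (l ^ 2 * t3 * β₁) • (E ^ 4 * X) = 0 := by
      rw [← r4, r3]
      simp only [Algebra.smul_def, map_mul, map_pow]
      ring
    have w1 : 3 * ZG.intR hB ho (E ^ 7 * X ^ 2) + l ^ 2 * t3 * α * ZG.intR hB ho (E ^ 15) +
        l ^ 2 * t3 * β₁ * ZG.intR hB ho (E ^ 11 * X) = 0 := by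
      have := congrArg (fun z => ZG.intR hB ho (E ^ 7 * z)) rel0
      simp only [mul_zero, map_zero, mul_add, mul_smul_comm, map_add, map_smul, smul_eq_mul] at this
      rw [show E ^ 7 * E ^ 8 = E ^ 15 by ring, show E ^ 7 * (E ^ 4 * X) = E ^ 11 * X by ring] at this
      exact this
    have w2 : 3 * ZG.intR hB ho (E ^ 3 * X ^ 3) + l ^ 2 * t3 * α * ZG.intR hB ho (E ^ 11 * X) +
        l ^ 2 * t3 * β₁ * ZG.intR hB ho (E ^ 7 * X ^ 2) = 0 := by
      have := congrArg (fun z => ZG.intR hB ho (E ^ 3 * X * z)) rel0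
      simp only [mul_zero, map_zero, mul_add, mul_smul_comm, map_add, map_smul, smul_eq_mul] at this
      rw [show E ^ 3 * X * X ^ 2 = E ^ 3 * X ^ 3 by ring,
        show E ^ 3 * X * E ^ 8 = E ^ 11 * X by ring,
        show E ^ 3 * X * (E ^ 4 * X) = E ^ 7 * X ^ 2 by ring] at this
      exact this
    rw [hx3, mul_zero, zero_add] at w2
    rw [show E ^ 11 * E ^ 4 = E ^ 15 by ring, show E ^ 7 * X * E ^ 4 = E ^ 11 * X by ring] at v1
    rw [show E ^ 7 * X * X = E ^ 7 * X ^ 2 by ring] at v2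
    generalize ZG.intR hB ho (E ^ 7 * X ^ 2) = i2 at *
    generalize ZG.intR hB ho (E ^ 15) = i0 at *
    generalize ZG.intR hB ho (E ^ 11 * X) = i1 at *
    have ha : a * (3 * i2) = 0 := by
      linear_combination a * w1 + b * w2 - (l ^ 2 * t3 * α) * v1 - (l ^ 2 * t3 * β₁) * v2
    have ha0 : a = 0 := (mul_eq_zero.1 ha).resolve_right (mul_ne_zero (by norm_num) h2ne)
    rw [ha0, zero_mul, zero_add] at v2
    exact ⟨ha0, (mul_eq_zero.1 v2).resolve_right h2ne⟩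
  rw [m0]
  rw [m1] at hx3 hS
  rw [m0] at z0
  simp only [m1] at hr
  rw [m8 hT1] at z1
  rw [m8 hT2] at z2
  exact alg_bound (ZG.intR hB ho) (n₀ := n₀) (a1 := a1) (a2 := a2) (ε7 := ε7) (c₀ := c₀)
    (n₁ := n₁) (l := l) (t3 := t3) (by positivity) hν hnl (rcl_p3 he hx hp3 h3)
    (rcl_rel he hx hp3 hrel) (rcl_p3 he' hx' hp3' h3') (rcl_rel he' hx' hp3' hrel') hx3 hS hβ hn hα
    hr z0 (rcl_T he hx hT1 h1) (rcl_T he hx hT2 h2) z1 z2 hua' hE2 hκ hc hlin hPr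

end Crest.Agent.R208.ZA
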