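import Crest.Agent.R208.EA3
import Crest.Agent.R208.ZA2

/-! Row 208, (8,2), block EA (helper595).  EA4: the form of the doubled family over the total space
over `B`; the identity (E) over `B'`. -/

set_option autoImplicit false
set_option linter.unusedSectionVars false
set_option linter.unusedVariables false

open MeasureTheory Set Filter Topology Module
open scoped ContDiff RealInnerProductSpace
open Crest.GeometryTopology.Submanifold
open Crest.Agent.R241.DDefs Crest.Agent.R241.D Crest.Agent.R241.D2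
open Crest.Agent.R208.F Crest.Agent.R208.FI Crest.Agent.R208.CW Crest.Agent.R208.T
open Crest.Agent.R208.CM
open Crest.Agent.R208.VC
open Crest.Agent.R208.EX
open Crest.Agent.R208.TP (QM TT CV pu₁ pu₂ push up)
open Crest.Agent.R208.MS (Fam oc En)

noncomputable section

namespace Crest.Agent.R208.EA

section dbl
variable {E : Type*} [NormedAddCommGroup E] [NormedSpace ℝ E] [FiniteDimensional ℝ E]
  {X : Set E} {φ : ℝ → E → E} {a e : E → Ext E} {m : ℕ}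

theorem inv_dbl (h : Inv X φ a) : Inv X (VC.dbl φ) a := fun t => h (2 * t)

theorem inv_of_dbl (h : Inv X (VC.dbl φ) a) : Inv X φ a := fun t => by
  have h1 := h (t / 2)
  have h2 : VC.dbl φ (t / 2) = φ t := by rw [VC.dbl]; congr 1; ring
  rwa [h2] at h1

theorem iV_dbl (hA : Act X φ) : Eqv X (iV (VC.dbl φ) a) ((2 : ℝ) • iV φ a) :=
  Eqv.of_eq fun x hx => by
    rw [iV, gen_dbl hA hx, map_smul, LinearMap.smul_apply]; rfl

theorem hz_dbl (hA : Act X φ) (h : Hz X φ a) : Hz X (VC.dbl φ) a := by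
  have h0 : Eqv X (iV φ a) 0 := h
  have := (iV_dbl (a := a) hA).trans (T.Eqv.smul 2 h0)
  rwa [smul_zero] at this

theorem hz_of_dbl (hA : Act X φ) (h : Hz X (VC.dbl φ) a) : Hz X φ a := by
  have h0 : Eqv X (iV (VC.dbl φ) a) 0 := h
  have h1 := ((iV_dbl (a := a) hA).symm.trans h0).smul (1 / 2 : ℝ)
  rw [smul_zero, smul_smul] at h1
  norm_num at h1
  exact h1

theorem bas_dbl (hA : Act X φ) (h : Bas X φ e) : Bas X (VC.dbl φ) e :=
  ⟨h.sm, h.cl, h.ev, inv_dbl h.inv, hz_dbl hA h.hz⟩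

theorem bas_smul (r : ℝ) (h : Bas X φ e) : Bas X φ (r • e) where
  sm := h.sm.smul r
  cl := Cl.smul r h.sm h.cl
  ev := fun x hx => by rw [Pi.smul_apply, map_smul, h.ev x hx]
  inv := fun t => by rw [T.pull_smul']; exact (h.inv t).smul r
  hz := Hz.smul r h.hz

end dbl

section Vdd
variable {E E' : Type} [NormedAddCommGroup E] [NormedSpace ℝ E] [FiniteDimensional ℝ E]
  [NormedAddCommGroup E'] [NormedSpace ℝ E'] [FiniteDimensional ℝ E']
  {X : Set E} {φ : ℝ → E → E} {B : Set E'} {q : E → E'}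
  {H V : Type} [NormedAddCommGroup H] [InnerProductSpace ℝ H] [FiniteDimensional ℝ H]
  [NormedAddCommGroup V] [InnerProductSpace ℝ V] [FiniteDimensional ℝ V]
  {R : ℝ → H →L[ℝ] H} {T : E → H →L[ℝ] V} {P : E → H →L[ℝ] H} {P' : E' → V →L[ℝ] V}
  {d N : ℕ} {D : ED N} {Θ : E × H → Ext (E × H)} {f1 : E × H → Euc N} {ρ : ℝ}

/-- **existence of the form of the doubled family** over the total space over `B` -/
theorem exists_Vdd (hQ : QM (Tot X P) (phR φ R) (Tot B P') (Th q T))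
    (hC : Cir (Tot X P) (phR φ R)) (hS : Sub d (Tot X P)) (hT : Triv X φ R T) (hρ : 0 ≤ ρ)
    (hf : Fam D.S (Tot X P) f1) (hdat : Dat D.S D.om) (hΘ : Cn (Tot X P) (phR φ R) Θ)
    (hconst : ∀ z ∈ Tot X P, ρ < ‖z.2‖ → ∀ t, f1 (phR φ R t z) = f1 z) :
    ∃ V'' : E' × V → Ext (E' × V), ContDiff ℝ ∞ V'' ∧ Cl (Tot B P') V'' ∧
      (∀ y, ρ + 1 < ‖y.2‖ → V'' y = 0) ∧ VE.Cs B P' ρ V'' ∧
      Eqv (Tot X P) (F.pull (Th q T) V'')
        (vv (VC.dbl (phR φ R)) ((1 / 2 : ℝ) • F.d Θ) D.p D.q D.r D.s (F.pull f1 D.om)) := by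
  have hA := Act.of_cir hC
  have he := bas_smul (1 / 2 : ℝ) (bas_dbl hA (hΘ.bas hA hS))
  have hfs : SMap (Tot X P) D.S f1 := ⟨hf.smooth, fun z hz => hf.maps z hz⟩
  have hb : Dat (Tot X P) (F.pull f1 D.om) := hdat.pull hfs
  refine exists_desc hQ hC hS hT hρ (sm_vv hA.dbl he hb) (cl_vv hA.dbl hS he hb)
    (inv_of_dbl (inv_vv hA.dbl he hb)) (hz_of_dbl hA (hz_vv hA.dbl he hb)) fun z hz hn => ?_
  exact rs_vv_eq_zero hA.dbl hb.sm hz (ii_cv_pull hA.dbl hz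
    (fun t => hfs.diff (hA.maps _ hz)) fun t => hconst z hz hn _)

end Vdd

section E
variable {E E' E₂ E₂' : Type} [NormedAddCommGroup E] [NormedSpace ℝ E] [FiniteDimensional ℝ E]
  [NormedAddCommGroup E'] [NormedSpace ℝ E'] [FiniteDimensional ℝ E']
  [NormedAddCommGroup E₂] [NormedSpace ℝ E₂] [FiniteDimensional ℝ E₂]
  [NormedAddCommGroup E₂'] [NormedSpace ℝ E₂'] [FiniteDimensional ℝ E₂']
  {X : Set E} {φ : ℝ → E → E} {B : Set E'} {q : E → E'} {X' : Set E₂}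
  {φ' : ℝ → E₂ → E₂} {B' : Set E₂'} {q' : E₂ → E₂'} {pX : E₂ → E} {p : E₂' → E'}
  {H V : Type} [NormedAddCommGroup H] [InnerProductSpace ℝ H] [FiniteDimensional ℝ H]
  [MeasurableSpace H] [BorelSpace H]
  [NormedAddCommGroup V] [InnerProductSpace ℝ V] [FiniteDimensional ℝ V]
  [MeasurableSpace V] [BorelSpace V] (μ : Measure V) [μ.IsAddHaarMeasure]
  {R : ℝ → H →L[ℝ] H} {T : E → H →L[ℝ] V} {P : E → H →L[ℝ] H} {P' : E' → V →L[ℝ] V}
  {d d' r k N : ℕ} {D : ED N} {θ : E → Ext E} {θ' : E₂ → Ext E₂} {f1 : E × H → Euc N}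
  {ρ R₁ : ℝ} {τ' : E' × V → Ext (E' × V)}

/-- **(E)**: the left side of (TH) over `B'` is the pull back of the class of the doubled family
over `B` -/
theorem E_left (hd : Dbl X φ B q X' φ' B' q' pX p) (hX : Sub d X) (hX' : Sub d' X')
    (hc : Cir X φ) (hc' : Cir X' φ') (hP : PField X r P) (hP' : PField B r P') (hR : Rep R)
    (hT : Triv X φ R T) (hPe : ∀ x ∈ X, ∀ t w, P (φ t x) (R t w) = R t (P x w))
    (hPd : ∀ x ∈ X, P' (q x) = Qd T P x) (hq : QM X φ B q) (hq' : QM X' φ' B' q')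
    (hρ : 0 ≤ ρ) (hτ : VE.Co B P' R₁ τ')
    (hf : Fam D.S (Tot X P) f1) (hdat : Dat D.S D.om) (hdeg : Hom (k + 1) D.om)
    (hkp : 2 * D.p = 3 * k + 1) (hkq : 2 * D.q = 2 * k) (hθ : Cn X φ θ) (hθ' : Cn X' φ' θ')
    (hθθ : Eqv X' θ' ((1 / 2 : ℝ) • F.pull pX θ))
    (hconst : ∀ z ∈ Tot X P, ρ < ‖z.2‖ → ∀ t, f1 (phR φ R t z) = f1 z)
    {w : E' → Ext E'}
    (hpu : ∀ V'' : E' × V → Ext (E' × V), Sm (Tot B P') V'' → Cl (Tot B P') V'' →
      VE.Cs B P' ρ V'' → Eqv (Tot X P) (F.pull (Th q T) V'')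
        (vv (VC.dbl (phR φ R)) ((1 / 2 : ℝ) • F.d (F.pull Prod.fst θ)) D.p D.q D.r D.s
          (F.pull f1 D.om)) → Coh B (VE.pu μ P' τ' ρ V'') w) :
    ∃ v₀ : E₂' × V → Ext (E₂' × V), Sm (Tot B' (fun y => P' (p y))) v₀ ∧ Vt (ρ + 1) v₀ ∧
      Eqv (Tot X' (fun x => P (pX x))) (F.pull (Th q' (fun x => T (pX x))) v₀)
        (Crest.Agent.R208.T.dp (4 * k + 1)
          (D.vf (phR φ' (R2x R)) (F.pull Prod.fst θ') (fun z => f1 (up pX z)))) ∧
      Coh B' (push μ (fun y => P' (p y)) (F.pull (up p) τ') v₀) (F.pull p w) := by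
  have hcP' : ContinuousOn P' B := fun y hy => (hP'.smooth y hy).continuousAt.continuousWithinAt
  have hC : Cir (Tot X P) (phR φ R) := Cir.tot hc hR hPe
  have hPe' : ∀ x ∈ X', ∀ t w, P (pX (φ' t x)) (R2x R t w) = R2x R t (P (pX x) w) :=
    equi_R2x hd hPe
  have hC' : Cir (Tot X' (fun x => P (pX x))) (phR φ' (R2x R)) := Cir.tot hc' (rep_R2x hR) hPe'
  have hQ : QM (Tot X P) (phR φ R) (Tot B P') (Th q T) :=
    hq.tot hc hR hT hP hPe hcP' hPd
  have hPu := TP.pfield_up hP hd.sX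
  have hPu' := TP.pfield_up hP' hd.sB
  have hQ' : QM (Tot X' (fun x => P (pX x))) (phR φ' (R2x R)) (Tot B' (fun y => P' (p y)))
      (Th q' (fun x => T (pX x))) :=
    hq'.tot hc' (rep_R2x hR) (triv_R2x hd hT) hPu hPe'
      (fun y hy => (hPu'.smooth y hy).continuousAt.continuousWithinAt) (qd_R2x hd hPd)
  have hΘ : Cn (Tot X P) (phR φ R) (F.pull Prod.fst θ) :=
    hθ.pull (Act.of_cir hc) (Act.of_cir hC) smap_fst' (fun t z hz => rfl)
  obtain ⟨V'', s'', c'', z'', k'', e''⟩ := exists_Vdd hQ hC (hP.sub_tot hX) hT hρ hf hdat hΘ hconst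
  have sV : Sm (Tot B P') V'' := fun y _ => s''.contDiffAt
  have hpu' := hpu V'' sV c'' k'' e''
  have hup : SMap (Tot B' (fun y => P' (p y))) (Tot B P') (up p) := TP.smap_up hd.sB
  refine ⟨F.pull (up p) (cutH ρ V''), sV.cutH.pull hup, TP.vt_up (Vt.cutH hρ), ?_,
    push_cut μ hρ hd.sB hP' hτ sV hpu'⟩
  have ecut : Eqv (Tot X P) (F.pull (Th q T) (cutH ρ V'')) (F.pull (Th q T) V'') :=
    (VE.Cs.cut hρ k'').pull hQ.smap
  have h1 := v0_pull hd hC hC' hQ hQ' hf hdat hθ.sm hθ'.sm hP hX' hθθ (ecut.trans e'')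
  refine h1.trans (Eqv.of_eq fun z _ => ?_)
  have hfs : SMap (Tot X P) D.S f1 := ⟨hf.smooth, fun z hz => hf.maps z hz⟩
  have h2 : Hom (4 * k + 1) (D.vf (phR φ' (R2x R)) (F.pull Prod.fst θ') (fun z => f1 (up pX z))) :=
    hom_vv (hdeg.pull) (hθ'.hom.pull.d) hkp hkq
  rw [h2.dp_eq]

end E

end Crest.Agent.R208.EA
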