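import Crest.Agent.R208.MSDefs

/-!
R208, block MS1 (helper378): the short geodesic `lg x y`, jointly smooth near the diagonal of
`S × S`, and the second order estimate of `S`.
-/

set_option autoImplicit false

open Set Filter Topology MeasureTheory
open scoped ContDiff RealInnerProductSpace Real
open Crest.GeometryTopology.Submanifold
open Crest.Agent.R241.DDefs Crest.Agent.R241.D Crest.Agent.R241.D2

noncomputable section

namespace Crest.Agent.R208.MS

variable {n N : ℕ} {κ : ℝ} {S : Set (Euc N)}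

section general

/-! ### A smooth inverse near a compact set -/

variable {E F : Type*} [NormedAddCommGroup E] [NormedSpace ℝ E] [CompleteSpace E]
  [NormedAddCommGroup F] [NormedSpace ℝ F]

/-- A smooth map which is injective on a compact set `K` and a local diffeomorphism at the points
of `K` has a smooth inverse on a neighbourhood of `K`. -/
theorem exists_inv {f : E → F} {K W : Set E} (hK : IsCompact K) (hW : IsOpen W) (hKW : K ⊆ W)
    (hf : ∀ q ∈ W, ContDiffAt ℝ ∞ f q) (hinj : InjOn f K)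
    (hinv : ∀ q ∈ K, fderiv ℝ f q ∈ range ((↑) : (E ≃L[ℝ] F) → E →L[ℝ] F)) :
    ∃ (U : Set E) (ψ : F → E), IsOpen U ∧ K ⊆ U ∧ U ⊆ W ∧ InjOn f U ∧
      ∀ q ∈ U, ψ (f q) = q ∧ ContDiffAt ℝ ∞ ψ (f q) := by
  classical
  have hf1 : ContDiffOn ℝ ∞ f W := fun q hq => (hf q hq).contDiffWithinAt
  have hcd : ContinuousOn (fderiv ℝ f) W :=
    (hf1.continuousOn_fderiv_of_isOpen hW (by simp))
  set U' : Set E := W ∩ (fderiv ℝ f) ⁻¹' range ((↑) : (E ≃L[ℝ] F) → E →L[ℝ] F) with hU'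
  have hU'o : IsOpen U' := hcd.isOpen_inter_preimage hW (ContinuousLinearEquiv.isOpen)
  have hKU' : K ⊆ U' := fun q hq => ⟨hKW hq, hinv q hq⟩
  -- local inverses
  have hloc : ∀ q ∈ U', ∃ g : F → E, g (f q) = q ∧ ContDiffAt ℝ ∞ g (f q) ∧
      (∀ᶠ y in 𝓝 (f q), f (g y) = y) ∧ ∃ u ∈ 𝓝 q, InjOn f u := by
    rintro q ⟨hqW, e, he⟩
    have hd : HasFDerivAt f (e : E →L[ℝ] F) q := by
      rw [he]
      exact ((hf q hqW).differentiableAt (by simp)).hasFDerivAt
    have hs : HasStrictFDerivAt f (e : E →L[ℝ] F) q :=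
      (hf q hqW).hasStrictFDerivAt' hd (by simp)
    refine ⟨(hf q hqW).localInverse hd (by simp), ?_, ?_, ?_, ?_⟩
    · exact hs.localInverse_apply_image
    · exact (hf q hqW).to_localInverse hd (by simp)
    · exact hs.eventually_right_inverse
    · refine ⟨_, hs.eventually_left_inverse, ?_⟩
      intro a ha b hb hab
      have h1 : hs.localInverse f e q (f a) = a := ha
      have h2 : hs.localInverse f e q (f b) = b := hb
      rw [← h1, ← h2, hab]
  obtain ⟨t, ht, htinj⟩ := hinj.exists_mem_nhdsSet hK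
    (fun q hq => (hf q (hKW hq)).continuousAt)
    (fun q hq => by
      obtain ⟨g, -, -, -, h⟩ := hloc q (hKU' hq)
      exact h)
  set U : Set E := interior t ∩ U' with hU
  have hUo : IsOpen U := isOpen_interior.inter hU'o
  have hKU : K ⊆ U := fun q hq => ⟨mem_interior_iff_mem_nhds.2 (mem_nhdsSet_iff_forall.1 ht q hq),
    hKU' hq⟩
  have hUinj : InjOn f U := htinj.mono (fun q hq => interior_subset hq.1)
  rcases isEmpty_or_nonempty E with hE | hE
  · refine ⟨U, fun y => 0, hUo, hKU, fun q hq => hq.2.1, hUinj, fun q => (hE.false q).elim⟩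
  refine ⟨U, Function.invFunOn f U, hUo, hKU, fun q hq => hq.2.1, hUinj, fun q hq => ?_⟩
  obtain ⟨g, hg0, hg1, hg2, -⟩ := hloc q hq.2
  have hev : ∀ᶠ y in 𝓝 (f q), Function.invFunOn f U y = g y := by
    have h1 : ∀ᶠ y in 𝓝 (f q), g y ∈ U := by
      refine hg1.continuousAt.eventually ?_
      rw [hg0]
      exact hUo.mem_nhds hq
    filter_upwards [h1, hg2] with y hy1 hy2
    have h2 : ∃ a ∈ U, f a = y := ⟨g y, hy1, hy2⟩
    exact hUinj (Function.invFunOn_mem h2) hy1 ((Function.invFunOn_eq h2).trans hy2.symm)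
  exact ⟨(hev.self_of_nhds).trans hg0, hg1.congr_of_eventuallyEq hev⟩

end general

variable (G : Geo n N κ S)

/-- `Exp y 0 = y`, also off `S` -/
theorem Exp_zero' (y : Euc N) : Exp G y 0 = y := by
  have h1 := fl_of_curve G (c := fun _ => (y, (0 : Euc N))) (q := (y, 0)) (l := 1) rfl
    (fun s _ => by
      refine (hasDerivAt_const s _).congr_deriv ?_
      simp only [X, map_zero]
      rfl)
  show (fl G ((y, 0), 1)).1 = y
  rw [h1.2]

/-- the auxiliary map -/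
def Ph (q : Euc N × Euc N) : Euc N × Euc N :=
  (q.1, Exp G q.1 (G.P q.1 q.2) + (q.2 - G.P q.1 q.2))

/-- its domain of smoothness -/
def Wd : Set (Euc N × Euc N) := {q | ((q.1, G.P q.1 q.2), (1 : ℝ)) ∈ fd G}

private theorem contDiff_PP : ContDiff ℝ ∞ (fun q : Euc N × Euc N => G.P q.1 q.2) :=
  (G.contDiff_P.comp contDiff_fst).clm_apply contDiff_snd

theorem isOpen_Wd : IsOpen (Wd G) := by
  refine (isOpen_fd G).preimage ?_
  have h := (contDiff_PP G).continuous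
  fun_prop

theorem contDiffAt_Ph {q : Euc N × Euc N} (hq : q ∈ Wd G) : ContDiffAt ℝ ∞ (Ph G) q := by
  have h1 : ContDiffAt ℝ ∞ (fl G) ((q.1, G.P q.1 q.2), (1 : ℝ)) := contDiffAt_fl G hq
  have h2 : ContDiffAt ℝ ∞ (fun q : Euc N × Euc N => ((q.1, G.P q.1 q.2), (1 : ℝ))) q :=
    (contDiffAt_fst.prodMk (contDiff_PP G).contDiffAt).prodMk contDiffAt_const
  have h3 : ContDiffAt ℝ ∞ (fun q : Euc N × Euc N => Exp G q.1 (G.P q.1 q.2)) q :=
    (ContDiffAt.comp q h1 h2).fst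
  exact contDiffAt_fst.prodMk (h3.add (contDiffAt_snd.sub (contDiff_PP G).contDiffAt))

theorem mem_Wd_zero {x : Euc N} (hx : x ∈ S) : (x, (0 : Euc N)) ∈ Wd G := by
  show ((x, G.P x 0), (1 : ℝ)) ∈ fd G
  rw [map_zero]
  exact complete G (q := (x, 0)) ⟨hx, (G.T x).zero_mem⟩ 1

theorem Ph_zero (y : Euc N) : Ph G (y, 0) = (y, y) := by
  simp [Ph, Exp_zero']

theorem Ph_tan {x v : Euc N} (hx : x ∈ S) (hv : v ∈ G.T x) : Ph G (x, v) = (x, Exp G x v) := by
  have h1 : G.P x v = v := (P_eq_self G hx).1 hv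
  simp [Ph, h1]

theorem fderiv_Ph {x : Euc N} (hx : x ∈ S) (ξ η : Euc N) :
    fderiv ℝ (Ph G) (x, 0) (ξ, η) = (ξ, ξ + η) := by
  have hd : HasFDerivAt (Ph G) (fderiv ℝ (Ph G) (x, 0)) (x, (0 : Euc N)) :=
    ((contDiffAt_Ph G (mem_Wd_zero G hx)).differentiableAt (by simp)).hasFDerivAt
  have e1 : fderiv ℝ (Ph G) (x, 0) (ξ, 0) = (ξ, ξ) := by
    have h1 : HasDerivAt (fun t : ℝ => (x + t • ξ, (0 : Euc N))) (ξ, 0) 0 := by
      have h := ((hasDerivAt_id (0 : ℝ)).smul_const ξ).const_add x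
      simpa using h.prodMk (hasDerivAt_const (0 : ℝ) (0 : Euc N))
    have h2 : HasFDerivAt (Ph G) (fderiv ℝ (Ph G) (x, 0))
        ((fun t : ℝ => (x + t • ξ, (0 : Euc N))) 0) := by simpa using hd
    have h3 := h2.comp_hasDerivAt (0 : ℝ) h1
    have h4 : (Ph G ∘ fun t : ℝ => (x + t • ξ, (0 : Euc N))) =
        fun t : ℝ => (x + t • ξ, x + t • ξ) := by
      funext t
      exact Ph_zero G _
    rw [h4] at h3
    have h5 : HasDerivAt (fun t : ℝ => (x + t • ξ, x + t • ξ)) (ξ, ξ) 0 := by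
      have h := ((hasDerivAt_id (0 : ℝ)).smul_const ξ).const_add x
      simpa using h.prodMk h
    exact h3.unique h5
  have e2 : fderiv ℝ (Ph G) (x, 0) (0, η) = (0, η) := by
    have h1 : HasDerivAt (fun t : ℝ => (x, t • η)) ((0 : Euc N), η) 0 := by
      have h := (hasDerivAt_id (0 : ℝ)).smul_const η
      simpa using (hasDerivAt_const (0 : ℝ) x).prodMk h
    have h2 : HasFDerivAt (Ph G) (fderiv ℝ (Ph G) (x, 0))
        ((fun t : ℝ => (x, t • η)) 0) := by simpa using hd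
    have h3 := h2.comp_hasDerivAt (0 : ℝ) h1
    have hP : G.P x η ∈ G.T x := P_mem G hx
    have h4 : (Ph G ∘ fun t : ℝ => (x, t • η)) =
        fun t : ℝ => (x, (fl G ((x, G.P x η), t)).1 + t • (η - G.P x η)) := by
      funext t
      simp only [Ph, Function.comp]
      rw [map_smul, Exp_smul G hx hP, smul_sub]
    rw [h4] at h3
    have h5 : HasDerivAt (fun t : ℝ => (x, (fl G ((x, G.P x η), t)).1 + t • (η - G.P x η)))
        ((0 : Euc N), η) 0 := by
      have h6 := hasDerivAt_fl G (q := (x, G.P x η)) (t := 0) (complete G ⟨hx, hP⟩ 0)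
      have h7 := hda_fst h6
      have h8 := h7.add ((hasDerivAt_id (0 : ℝ)).smul_const (η - G.P x η))
      refine ((hasDerivAt_const (0 : ℝ) x).prodMk h8).congr_deriv ?_
      rw [fl_zero]
      simp [X]
    exact h3.unique h5
  have e3 : ((ξ, η) : Euc N × Euc N) = (ξ, 0) + (0, η) := by simp
  rw [e3, map_add, e1, e2]
  simp

theorem fderiv_Ph_mem {x : Euc N} (hx : x ∈ S) : fderiv ℝ (Ph G) (x, 0) ∈
    range ((↑) : ((Euc N × Euc N) ≃L[ℝ] (Euc N × Euc N)) → _ →L[ℝ] _) := by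
  let e : (Euc N × Euc N) ≃L[ℝ] (Euc N × Euc N) :=
    ContinuousLinearEquiv.equivOfInverse
      ((ContinuousLinearMap.fst ℝ (Euc N) (Euc N)).prod
        (ContinuousLinearMap.fst ℝ (Euc N) (Euc N) + ContinuousLinearMap.snd ℝ (Euc N) (Euc N)))
      ((ContinuousLinearMap.fst ℝ (Euc N) (Euc N)).prod
        (ContinuousLinearMap.snd ℝ (Euc N) (Euc N) - ContinuousLinearMap.fst ℝ (Euc N) (Euc N)))
      (fun q => by ext1 <;> simp) (fun q => by ext1 <;> simp)
  refine ⟨e, ?_⟩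
  refine ContinuousLinearMap.ext fun q => ?_
  obtain ⟨ξ, η⟩ := q
  rw [fderiv_Ph G hx]
  rfl

variable {G}

/-- second fundamental form: uniform bound -/
theorem exists_II_bound (hS : IsCompact S) : ∃ K : ℝ, 1 ≤ K ∧
    ∀ x ∈ S, ∀ v w : Euc N, ‖fderiv ℝ G.P x v w‖ ≤ K * ‖v‖ * ‖w‖ := by
  have hc : ContinuousOn (fun x => ‖fderiv ℝ G.P x‖) S :=
    (G.contDiff_P.continuous_fderiv (by simp)).norm.continuousOn
  obtain ⟨K, hK⟩ := hS.bddAbove_image hc
  refine ⟨max 1 K, le_max_left _ _, fun x hx v w => ?_⟩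
  have h1 : ‖fderiv ℝ G.P x‖ ≤ max 1 K := (hK (mem_image_of_mem _ hx)).trans (le_max_right _ _)
  calc ‖fderiv ℝ G.P x v w‖ ≤ ‖fderiv ℝ G.P x v‖ * ‖w‖ := ContinuousLinearMap.le_opNorm _ _
    _ ≤ (‖fderiv ℝ G.P x‖ * ‖v‖) * ‖w‖ := by
        gcongr
        exact ContinuousLinearMap.le_opNorm _ _
    _ ≤ max 1 K * ‖v‖ * ‖w‖ := by gcongr

/-- `Exp x w = x + w + O(|w|^2)`, and the velocity -/
theorem norm_vel_sub {K : ℝ} (hK : ∀ x ∈ S, ∀ v w : Euc N, ‖fderiv ℝ G.P x v w‖ ≤ K * ‖v‖ * ‖w‖)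
    {x w : Euc N} (hx : x ∈ S) (hw : w ∈ G.T x) {t : ℝ} (ht : t ∈ Icc (0 : ℝ) 1) :
    ‖(fl G ((x, w), t)).2 - w‖ ≤ K * ‖w‖ ^ 2 * t := by
  have hq : ((x, w) : Euc N × Euc N) ∈ TS G := ⟨hx, hw⟩
  have hd : ∀ s : ℝ, HasDerivAt (fun s => (fl G ((x, w), s)).2)
      (X G (fl G ((x, w), s))).2 s := fun s => hda_snd (hasDerivAt_fl G (complete G hq s))
  have h1 := norm_image_sub_le_of_norm_deriv_le_segment'
    (f := fun s => (fl G ((x, w), s)).2) (f' := fun s => (X G (fl G ((x, w), s))).2)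
    (C := K * ‖w‖ ^ 2) (a := 0) (b := 1)
    (fun s _ => (hd s).hasDerivWithinAt) (fun s _ => by
      have h2 := fl_mem G hq s
      have h3 := norm_fl G hq s
      have h4 := hK _ h2.1 (fl G ((x, w), s)).2 (fl G ((x, w), s)).2
      rw [h3] at h4
      show ‖fderiv ℝ G.P (fl G ((x, w), s)).1 (fl G ((x, w), s)).2 (fl G ((x, w), s)).2‖ ≤ _
      calc _ ≤ K * ‖w‖ * ‖w‖ := h4
        _ = K * ‖w‖ ^ 2 := by ring) t ht
  simpa [fl_zero] using h1

theorem norm_Exp_sub {K : ℝ} (hK : ∀ x ∈ S, ∀ v w : Euc N, ‖fderiv ℝ G.P x v w‖ ≤ K * ‖v‖ * ‖w‖)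
    (hK0 : 0 ≤ K) {x w : Euc N} (hx : x ∈ S) (hw : w ∈ G.T x) :
    ‖Exp G x w - x - w‖ ≤ K * ‖w‖ ^ 2 := by
  have hq : ((x, w) : Euc N × Euc N) ∈ TS G := ⟨hx, hw⟩
  have hd : ∀ s : ℝ, HasDerivAt (fun s => (fl G ((x, w), s)).1 - s • w)
      ((fl G ((x, w), s)).2 - w) s := fun s => by
    have h1 := (hda_fst (hasDerivAt_fl G (complete G hq s))).sub
      ((hasDerivAt_id s).smul_const w)
    refine h1.congr_deriv ?_
    simp [X]
  have h1 := norm_image_sub_le_of_norm_deriv_le_segment'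
    (f := fun s => (fl G ((x, w), s)).1 - s • w) (f' := fun s => (fl G ((x, w), s)).2 - w)
    (C := K * ‖w‖ ^ 2) (a := 0) (b := 1)
    (fun s _ => (hd s).hasDerivWithinAt) (fun s hs => by
      refine (norm_vel_sub hK hx hw ⟨hs.1, hs.2.le⟩).trans ?_
      have : 0 ≤ K * ‖w‖ ^ 2 := by positivity
      nlinarith [hs.2]) 1 ⟨zero_le_one, le_refl _⟩
  have h2 : Exp G x w - x - w =
      ((fl G ((x, w), 1)).1 - (1 : ℝ) • w) - ((fl G ((x, w), 0)).1 - (0 : ℝ) • w) := by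
    rw [fl_zero]
    simp only [Exp, one_smul, zero_smul, sub_zero]
    abel
  rw [h2]
  simpa using h1

/-- MS1: short geodesics -/
theorem exists_SG {D : ℝ} (hB : Bl n N κ S G D) : ∃ lg r C, SG G lg r C := by
  have hcpt := hB.cpt
  obtain ⟨K, hK1, hK⟩ := exists_II_bound (G := G) hcpt
  have hKc : IsCompact ((fun x : Euc N => (x, (0 : Euc N))) '' S) :=
    hcpt.image (by fun_prop)
  obtain ⟨U, ψ, hUo, hKU, -, -, hψ⟩ := exists_inv (f := Ph G) (W := Wd G) hKc (isOpen_Wd G)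
    (by
      rintro _ ⟨x, hx, rfl⟩
      exact mem_Wd_zero G hx)
    (fun q hq => contDiffAt_Ph G hq)
    (by
      rintro _ ⟨x, -, rfl⟩ _ ⟨y, -, rfl⟩ h
      simp only [Ph_zero] at h
      rw [Prod.ext_iff] at h
      simp only at h
      simp [h.1])
    (by
      rintro _ ⟨x, hx, rfl⟩
      exact fderiv_Ph_mem G hx)
  obtain ⟨δ, hδ, hδU⟩ := hKc.exists_thickening_subset_open hUo hKU
  have hball : ∀ x ∈ S, ∀ v : Euc N, ‖v‖ < δ → (x, v) ∈ U := by
    intro x hx v hv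
    refine hδU (Metric.mem_thickening_iff.2 ⟨(x, 0), mem_image_of_mem _ hx, ?_⟩)
    rw [Prod.dist_eq]
    simpa using hv
  obtain ⟨δ', hδ', hj⟩ := uniform_joinedLen hB.sub hcpt one_pos
  set r := min δ' (δ / 2) with hr
  have hr0 : 0 < r := lt_min hδ' (half_pos hδ)
  -- the tangent vector
  have hmain : ∀ x ∈ S, ∀ y ∈ S, ‖x - y‖ < r → (x, (ψ (x, y)).2) ∈ U ∧
      (ψ (x, y)).2 ∈ G.T x ∧ ‖(ψ (x, y)).2‖ ≤ 2 * ‖x - y‖ ∧ Exp G x (ψ (x, y)).2 = y := by
    intro x hx y hy hxy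
    obtain ⟨v, hv, hvn, hve⟩ := hB.exists_Exp hx hy
    obtain ⟨ℓ, h1, h2⟩ := hj x hx y hy (by
      rw [dist_eq_norm]
      exact hxy.trans_le (min_le_left _ _))
    have h3 : ‖v‖ ≤ 2 * ‖x - y‖ := by
      rw [hvn]
      refine (intrinsicDist_le h1).trans ?_
      rw [norm_sub_rev x y]
      linarith
    have h4 : (x, v) ∈ U := hball x hx v (by
      have := min_le_right δ' (δ / 2)
      linarith)
    have h5 : ψ (x, y) = (x, v) := by
      have := (hψ _ h4).1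
      rwa [Ph_tan G hx hv, hve] at this
    rw [h5]
    exact ⟨h4, hv, h3, hve⟩
  set C : ℝ := 2 + 4 * (K * K) + K / r with hC
  have hCK : 0 ≤ K := by linarith
  have hC2 : 2 ≤ C := by
    have : 0 ≤ K / r := by positivity
    nlinarith [mul_nonneg hCK hCK]
  refine ⟨fun x y => (ψ (x, y)).2, r, C, hr0, by linarith, ?_, ?_, ?_, ?_, ?_⟩
  · exact fun x hx y hy h => (hmain x hx y hy h).2.1
  · intro x hx y hy h
    obtain ⟨h1, h2, -, h4⟩ := hmain x hx y hy h
    have h5 := (hψ _ h1).2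
    rw [Ph_tan G hx h2, h4] at h5
    exact (h5.snd : ContDiffAt ℝ ∞ (fun q : Euc N × Euc N => (ψ q).2) (x, y))
  · exact fun x hx y hy h => (hmain x hx y hy h).2.2.2
  · intro x hx y hy h
    refine (hmain x hx y hy h).2.2.1.trans ?_
    gcongr
  · intro x hx z hz v hv
    have hb := hK x hx v v
    by_cases hxz : ‖x - z‖ < r
    · obtain ⟨h1, h2, h3, h4⟩ := hmain x hx z hz hxz
      set w := (ψ (x, z)).2 with hw
      have h5 := norm_Exp_sub hK hCK hx h2
      rw [h4] at h5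
      have h6 : ⟪fderiv ℝ G.P x v v, w⟫ = 0 := by
        have := II_normal G hx hv hv
        exact (Submodule.mem_orthogonal' _ _).1 ((P_eq_zero G hx).2 this) w h2
      have h7 : ⟪fderiv ℝ G.P x v v, z - x⟫ = ⟪fderiv ℝ G.P x v v, z - x - w⟫ := by
        rw [inner_sub_right (fderiv ℝ G.P x v v) (z - x) w, h6, sub_zero]
      rw [h7]
      have h8 : ‖w‖ ^ 2 ≤ 4 * ‖z - x‖ ^ 2 := by
        rw [norm_sub_rev] at h3
        nlinarith [norm_nonneg w, norm_nonneg (z - x)]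
      calc |⟪fderiv ℝ G.P x v v, z - x - w⟫| ≤ ‖fderiv ℝ G.P x v v‖ * ‖z - x - w‖ :=
            abs_real_inner_le_norm _ _
        _ ≤ (K * ‖v‖ * ‖v‖) * (K * (4 * ‖z - x‖ ^ 2)) := by
            gcongr
            exact h5.trans (by gcongr)
        _ = 4 * (K * K) * (‖v‖ ^ 2 * ‖z - x‖ ^ 2) := by ring
        _ ≤ C * (‖v‖ ^ 2 * ‖z - x‖ ^ 2) := by
            gcongr
            have : 0 ≤ K / r := by positivity
            linarith
        _ = C * ‖v‖ ^ 2 * ‖z - x‖ ^ 2 := by ring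
    · push Not at hxz
      rw [norm_sub_rev] at hxz
      calc |⟪fderiv ℝ G.P x v v, z - x⟫| ≤ ‖fderiv ℝ G.P x v v‖ * ‖z - x‖ :=
            abs_real_inner_le_norm _ _
        _ ≤ (K * ‖v‖ * ‖v‖) * ‖z - x‖ := by gcongr
        _ = K / r * ‖v‖ ^ 2 * (‖z - x‖ * r) := by
            field_simp
        _ ≤ K / r * ‖v‖ ^ 2 * (‖z - x‖ * ‖z - x‖) := by gcongr
        _ ≤ C * ‖v‖ ^ 2 * (‖z - x‖ * ‖z - x‖) := by
            gcongr
            nlinarith [mul_nonneg hCK hCK]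
        _ = C * ‖v‖ ^ 2 * ‖z - x‖ ^ 2 := by ring

end Crest.Agent.R208.MS
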