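import Crest.Agent.R208.NB4
import Crest.Agent.R208.NN1b

/-! Row 208, block NB (helper537), part NB5: assembly of the negative bundles `N` (periodic) and
`N_odd` (antiperiodic) from 336's lower bounds (as hypotheses `hneg`), 589's upper bounds and 631's
spectral projections. -/

set_option autoImplicit false
set_option linter.unusedSectionVars false
set_option linter.unusedVariables false

open MeasureTheory Set Filter Topology Module
open scoped ContDiff RealInnerProductSpace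
open Crest.GeometryTopology.Submanifold
open Crest.Agent.R241.DDefs
open Crest.Agent.R241.D2
open Crest.Agent.R208.NN

noncomputable section

namespace Crest.Agent.R208.NB

variable {n N k K r : ℕ} {κ : ℝ} {S : Set (Euc N)} {G : Geo n N κ S} {z : Euc N × Euc N}
  {ν : Fin K → ℝ} {δ : ℝ} {PN : Euc N × Euc N → Wt N K →L[ℝ] Wt N K} {V V' : ℝ → Euc N}

/-- a smooth equivariant field of negative spaces of `qf` of rank `r` -/
structure NegB (G : Geo n N κ S) (r : ℕ) (ν : Fin K → ℝ) (δ : ℝ)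
    (PN : Euc N × Euc N → Wt N K →L[ℝ] Wt N K) : Prop where
  pos_δ : 0 < δ
  smooth : ∀ z ∈ L.US G, ContDiffAt ℝ ∞ PN z
  idem : ∀ z w, PN z (PN z w) = PN z w
  sy : ∀ z, SPJ.Sy (PN z)
  rank : ∀ z ∈ L.US G, finrank ℝ (LinearMap.range (PN z : Wt N K →ₗ[ℝ] Wt N K)) = r
  equi : ∀ z ∈ L.US G, ∀ s w, PN (fl G (z, s)) (Rt ν s w) = Rt ν s (PN z w)
  neg : ∀ z ∈ L.US G, ∀ w, PN z w = w → qf G z ν w ≤ -(δ * ‖w‖ ^ 2)
  pos : ∀ z ∈ L.US G, ∀ w, PN z w = 0 → 0 ≤ qf G z ν w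

lemma fl_mem_US (hz : z ∈ L.US G) (s : ℝ) : fl G (z, s) ∈ L.US G :=
  ⟨fl_mem G hz.1 s, by rw [norm_fl G hz.1]; exact hz.2⟩

theorem exists_NegB (h : GT.Bla G k) {σ : ℝ} (hσ : Sig N ν σ) (hδ : 0 < δ)
    (hneg : ∀ z ∈ L.US G, ∃ M : Submodule ℝ (Wt N K), finrank ℝ M = r ∧
      ∀ w ∈ M, qf G z ν w ≤ -(δ * ‖w‖ ^ 2))
    (hpos : ∀ z ∈ L.US G, ∃ Q : Submodule ℝ (Wt N K), finrank ℝ Q + r = finrank ℝ (Wt N K) ∧
      ∀ w ∈ Q, 0 ≤ qf G z ν w) :
    ∃ PN : Euc N × Euc N → Wt N K →L[ℝ] Wt N K, NegB G r ν δ PN := by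
  obtain ⟨P, -, h1, h2, h3, h4, -, h6, h7, h8⟩ := SPJ.exists_specProj (A := Az G ν)
    (X := L.US G) (fun x hx => contDiffAt_Az hx.1) (fun x hx => sy_Az hx.1) hδ (r := r)
    (fun x hx => by
      obtain ⟨M, hM, hM'⟩ := hneg x hx
      exact ⟨M, hM, fun w hw => by rw [inner_Az_self hx.1]; exact hM' w hw⟩)
    (fun x hx => by
      obtain ⟨Q, hQ, hQ'⟩ := hpos x hx
      exact ⟨Q, hQ, fun w hw => by rw [inner_Az_self hx.1]; exact hQ' w hw⟩)
  refine ⟨P, hδ, h1, h2, h3, h4, ?_, ?_, ?_⟩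
  · intro z hz s w
    exact h8 (Ri N ν s) z (fl G (z, s)) hz (fl_mem_US hz s)
      (fun w => Az_equiv h.ty.per hz.1 hz.2 hσ s w) w
  · intro z hz w hw
    rw [← inner_Az_self hz.1]; exact h6 z hz w hw
  · intro z hz w hw
    rw [← inner_Az_self hz.1]; exact h7 z hz w hw

/-- periodic case -/
theorem exists_NegB_per (h : GT.Bla G k) (hK : 1 ≤ K) (hδ : 0 < δ)
    (hneg : ∀ z ∈ L.US G, ∃ M : Submodule ℝ (Wt N K), finrank ℝ M = k - 1 ∧
      ∀ w ∈ M, qf G z (nuP K) w ≤ -(δ * ‖w‖ ^ 2)) :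
    ∃ PN, NegB G (k - 1) (nuP K) δ PN :=
  exists_NegB h sig_per hδ hneg fun _ hz => hpos_per h hK hz

/-- antiperiodic case -/
theorem exists_NegB_aper (h : GT.Bla G k) (hK : 1 ≤ K) (hδ : 0 < δ)
    (hneg : ∀ z ∈ L.US G, ∃ M : Submodule ℝ (Wt N K), finrank ℝ M = n - 1 + (k - 1) ∧
      ∀ w ∈ M, qf G z (nuA K) w ≤ -(δ * ‖w‖ ^ 2)) :
    ∃ PN, NegB G (n - 1 + (k - 1)) (nuA K) δ PN :=
  exists_NegB h sig_aper hδ hneg fun _ hz => hpos_aper h hK hz

namespace NegB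

variable (H : NegB G r ν δ PN)

include H

theorem pfield : FI.PField (L.US G) r PN := ⟨H.smooth, fun x _ v => H.idem x v, H.rank⟩

theorem ix_neg (hz : z ∈ L.US G) {w : Wt N K} (hw : PN z w = w) :
    SV.ix G z 0 (2 * Real.pi) (fd G z ν w) (fd' G z ν w) (fd G z ν w) (fd' G z ν w) ≤
      -(δ * ‖w‖ ^ 2) := (qf_ge G z ν w).trans (H.neg z hz w hw)

theorem eq_zero_of_qf (hz : z ∈ L.US G) {w : Wt N K} (hw : PN z w = w)
    (h0 : 0 ≤ qf G z ν w) : w = 0 := by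
  have h1 := H.neg z hz w hw
  have h2 := H.pos_δ
  by_contra h3
  have h4 : 0 < ‖w‖ := norm_pos_iff.2 h3
  have : 0 < δ * ‖w‖ ^ 2 := by positivity
  linarith

/-- the negative space -/
theorem mem_range {w : Wt N K} : w ∈ LinearMap.range (PN z : Wt N K →ₗ[ℝ] Wt N K) ↔
    PN z w = w := by
  constructor
  · rintro ⟨v, rfl⟩; exact H.idem z v
  · intro h; exact ⟨w, h⟩

end NegB

/-! ### the periodic negative bundle and the links -/

namespace NegB

variable (h : GT.Bla G k) (H : NegB G (k - 1) (nuP K) δ PN)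

include h H

theorem l0_inj (hz : z ∈ L.US G) {w : Wt N K} (hw : PN z w = w) (h0 : l0 G z (nuP K) w = 0) :
    w = 0 := H.eq_zero_of_qf hz hw (qf_nonneg_of_l0 h hz h0)

/-- `l0` maps `N_z` bijectively onto `V_pq ⊖ v` -/
theorem l0_bij (hz : z ∈ L.US G) {u : Euc N} (hu : u ∈ V0 G z) :
    ∃ w : Wt N K, PN z w = w ∧ l0 G z (nuP K) w = u := by
  set R := LinearMap.range (PN z : Wt N K →ₗ[ℝ] Wt N K) with hR
  let f : R →ₗ[ℝ] V0 G z := LinearMap.codRestrict (V0 G z)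
    ((l0 G z (nuP K) : Wt N K →ₗ[ℝ] Euc N).comp R.subtype) (fun w => l0_mem _ _)
  have hinj : Function.Injective f := by
    rw [injective_iff_map_eq_zero]
    rintro ⟨w, hw⟩ h0
    have h1 : l0 G z (nuP K) w = 0 := congrArg Subtype.val h0
    exact Subtype.ext (H.l0_inj h hz (H.mem_range.1 hw) h1)
  have hfr : finrank ℝ R = finrank ℝ (V0 G z) := by
    have h1 := H.rank z hz
    have h2 := finrank_V0 h hz
    rw [hR, h1]; omega
  obtain ⟨w, hw⟩ := (LinearMap.injective_iff_surjective_of_finrank_eq_finrank hfr).1 hinj ⟨u, hu⟩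
  exact ⟨w, H.mem_range.1 w.2, congrArg Subtype.val hw⟩

/-- the form of `l0` for an arbitrary field -/
theorem exists_l0 (hz : z ∈ L.US G) (a b : Euc N) :
    ∃ w : Wt N K, PN z w = w ∧ ∀ u ∈ GT.Vs G z.1 (qq G z), ⟪u, z.2⟫ = 0 →
      ⟪u, fd G z (nuP K) w 0⟫ + ⟪GT.lf G z.1 (qq G z) u, fd G z (nuP K) w Real.pi⟫ =
        ⟪u, a⟫ + ⟪GT.lf G z.1 (qq G z) u, b⟫ := by
  set x := (V0 G z).starProjection (a + GT.lf G (qq G z) z.1 b) with hx
  obtain ⟨w, hw, hwx⟩ := H.l0_bij h hz (u := x) (Submodule.starProjection_apply_mem _ _)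
  refine ⟨w, hw, fun u hu hu0 => ?_⟩
  have huV : u ∈ V0 G z := mem_V0.2 ⟨hu, hu0⟩
  rw [← inner_l0 h hz (nuP K) w huV, hwx, hx, ← Submodule.inner_starProjection_left_eq_right,
    Submodule.starProjection_eq_self_iff.2 huV, inner_add_right,
    inner_lf_adj (q := qq G z) h (mem_FF h hz) hu]

/-- **the index form is non-negative on the complement of `N_z` in all `C¹` periodic fields** -/
theorem compl_nonneg (hz : z ∈ L.US G) (hV : SV.Fld G z 0 (2 * Real.pi) V V')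
    (hper : V (2 * Real.pi) = V 0)
    (h0 : ∀ m, PN z m = m →
      SV.ix G z 0 (2 * Real.pi) V V' (fd G z (nuP K) m) (fd' G z (nuP K) m) = 0) :
    0 ≤ SV.ix G z 0 (2 * Real.pi) V V' V V' := by
  have hπ : (0 : ℝ) ≤ 2 * Real.pi := by positivity
  obtain ⟨w, hw, hl⟩ := H.exists_l0 h hz (V 0) (V Real.pi)
  have hF := fld_fd hz.1 (nuP K) w 0 (2 * Real.pi)
  have hD := hV.sub hF
  have h1 := nonneg_per h hz hD (by
    rw [Pi.sub_apply, Pi.sub_apply, hper, fd_two_pi h hz w]) (fun u hu hu0 => by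
    have := hl u hu hu0
    unfold qq at this
    rw [Pi.sub_apply, Pi.sub_apply, inner_sub_right, inner_sub_right]
    linarith)
  rw [SV.ix_sub_self hπ hz.1 hV hF, SV.ix_symm hπ hz.1 hF hV, h0 w hw] at h1
  have h2 := H.ix_neg hz hw
  have h3 := H.pos_δ
  have h4 : 0 ≤ δ * ‖w‖ ^ 2 := by positivity
  linarith

end NegB

end Crest.Agent.R208.NB
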