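import Crest.Agent.R208.NN2e
import Crest.Agent.R208.NB5

/-!
Row 208, block [N], part NN2f (helper336): `hneg`, uniformly on the unit sphere bundle.
-/

set_option autoImplicit false

open MeasureTheory Set Filter Topology Module Metric
open scoped ContDiff RealInnerProductSpace
open Crest.GeometryTopology.Submanifold
open Crest.Agent.R241.DDefs
open Crest.Agent.R241.D2
open Crest.Agent.R208.L (om TanTS dfl om_dfl)

noncomputable section

namespace Crest.Agent.R208.NN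

variable {n N K k : ℕ} {κ : ℝ} {S : Set (Euc N)} {G : Geo n N κ S} {z : Euc N × Euc N}
  {w : Euc N}

/-! ### inclusion `Wt N K → Wt N (K+1)` -/

/-- extension of the coefficients by zero -/
def io (w : Wt N K) : Wt N (K + 1) :=
  WithLp.toLp 2 fun x => (Fin.lastCases (motive := fun _ => ℝ) 0 (fun i => w ((i, x.1.2), x.2))
    x.1.1 : ℝ)

lemma pr_io_castSucc (i : Fin K) (e : Fin 2) (w : Wt N K) : pr i.castSucc e (io w) = pr i e w := by
  ext j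
  simp [io]

lemma pr_io_last (e : Fin 2) (w : Wt N K) : pr (Fin.last K) e (io w) = 0 := by
  ext j
  simp [io]

/-- `io` as a linear map -/
def ioL (N K : ℕ) : Wt N K →ₗ[ℝ] Wt N (K + 1) where
  toFun := io
  map_add' w w' := by
    refine ext_pr fun i e => ?_
    refine Fin.lastCases ?_ (fun i => ?_) i
    · rw [map_add, pr_io_last, pr_io_last, pr_io_last, add_zero]
    · rw [map_add, pr_io_castSucc, pr_io_castSucc, pr_io_castSucc, map_add]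
  map_smul' c w := by
    refine ext_pr fun i e => ?_
    refine Fin.lastCases ?_ (fun i => ?_) i
    · rw [RingHom.id_apply, map_smul, pr_io_last, pr_io_last, smul_zero]
    · rw [RingHom.id_apply, map_smul, pr_io_castSucc, pr_io_castSucc, map_smul]

lemma nuP_castSucc (i : Fin K) : nuP (K + 1) i.castSucc = nuP K i := rfl

lemma ev_io (t : ℝ) (w : Wt N K) : ev (nuP (K + 1)) t (io w) = ev (nuP K) t w := by
  rw [ev_apply, ev_apply, Fin.sum_univ_castSucc, pr_io_last, pr_io_last]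
  simp only [pr_io_castSucc, nuP_castSucc, smul_zero, add_zero]

lemma ev'_io (t : ℝ) (w : Wt N K) : ev' (nuP (K + 1)) t (io w) = ev' (nuP K) t w := by
  rw [ev'_apply, ev'_apply, Fin.sum_univ_castSucc, pr_io_last, pr_io_last]
  simp only [pr_io_castSucc, nuP_castSucc, smul_zero, add_zero]

lemma qf_io (hz : z ∈ TS G) (w : Wt N K) : qf G z (nuP (K + 1)) (io w) = qf G z (nuP K) w := by
  rw [qf_eq hz, qf_eq hz]
  simp only [ev_io, ev'_io]

lemma norm_io (w : Wt N K) : ‖io w‖ = ‖w‖ := by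
  have h1 : ⟪io w, io w⟫ = ⟪w, w⟫ := by
    rw [inner_eq_sum, inner_eq_sum, Fin.sum_univ_castSucc, pr_io_last, pr_io_last]
    simp only [pr_io_castSucc, inner_zero_left, add_zero]
  rw [real_inner_self_eq_norm_sq, real_inner_self_eq_norm_sq] at h1
  exact (sq_eq_sq₀ (norm_nonneg _) (norm_nonneg _)).1 h1

lemma ioL_inj (N K : ℕ) : Function.Injective (ioL N K) := by
  rw [← LinearMap.ker_eq_bot, Submodule.eq_bot_iff]
  intro w hw
  rw [LinearMap.mem_ker] at hw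
  have : ‖io w‖ = 0 := by
    change ‖ioL N K w‖ = 0
    rw [hw, norm_zero]
  rwa [norm_io, norm_eq_zero] at this

/-! ### the uniform statement -/

variable (G) in
/-- a `(k-1)`-dimensional subspace on which `qf ≤ -δ|w|²` -/
def QQ (k K : ℕ) (δ : ℝ) (z : Euc N × Euc N) : Prop :=
  ∃ M : Submodule ℝ (Wt N K), finrank ℝ M + 1 = k ∧
    ∀ w ∈ M, qf G z (nuP K) w ≤ -(δ * ‖w‖ ^ 2)

lemma QQ.succ {δ : ℝ} (hz : z ∈ TS G) (h : QQ G k K δ z) : QQ G k (K + 1) δ z := by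
  obtain ⟨M, h1, h2⟩ := h
  refine ⟨M.map (ioL N K), ?_, ?_⟩
  · rw [← h1, (Submodule.equivMapOfInjective (ioL N K) (ioL_inj N K) M).finrank_eq]
  · rintro _ ⟨w, hw, rfl⟩
    change qf G z (nuP (K + 1)) (io w) ≤ -(δ * ‖io w‖ ^ 2)
    rw [qf_io hz, norm_io]
    exact h2 w hw

lemma QQ.mono_K {δ : ℝ} (hz : z ∈ TS G) (h : QQ G k K δ z) {K' : ℕ} (hK : K ≤ K') :
    QQ G k K' δ z := by
  induction K', hK using Nat.le_induction with
  | base => exact h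
  | succ m _ ih => exact ih.succ hz

lemma QQ.mono_δ {δ δ' : ℝ} (h : QQ G k K δ z) (hδ : δ' ≤ δ) : QQ G k K δ' z := by
  obtain ⟨M, h1, h2⟩ := h
  refine ⟨M, h1, fun w hw => (h2 w hw).trans ?_⟩
  have := sq_nonneg ‖w‖
  nlinarith

/-- local version -/
lemma QQ_local (h : GT.Bla G k) (hz : z ∈ TS G) (h1 : ‖z.2‖ = 1) :
    ∃ K δ, 0 < δ ∧ ∀ᶠ y in 𝓝[L.US G] z, QQ G k K δ y := by
  obtain ⟨K, M, hM, hneg⟩ := exists_neg_z h hz h1
  -- a uniform constant on the unit sphere of `M`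
  have hc : ∃ c : ℝ, 0 < c ∧ ∀ w ∈ M, ⟪NB.Az G (nuP K) z w, w⟫ ≤ -(c * ‖w‖ ^ 2) := by
    set Sph : Set (Wt N K) := sphere 0 1 ∩ (M : Set (Wt N K)) with hSph
    have hcpt : IsCompact Sph := (isCompact_sphere _ _).inter_right M.closed_of_finiteDimensional
    have hcont : Continuous fun w : Wt N K => ⟪NB.Az G (nuP K) z w, w⟫ := by fun_prop
    have hsph : ∀ w ∈ Sph, ⟪NB.Az G (nuP K) z w, w⟫ < 0 := by
      intro w hw
      rw [NB.inner_Az_self hz]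
      refine hneg w hw.2 ?_
      rintro rfl
      have := hw.1
      simp at this
    obtain ⟨c, hc0, hc⟩ : ∃ c : ℝ, 0 < c ∧ ∀ w ∈ Sph, ⟪NB.Az G (nuP K) z w, w⟫ ≤ -c := by
      rcases Sph.eq_empty_or_nonempty with he | hne
      · exact ⟨1, one_pos, fun w hw => by rw [he] at hw; exact absurd hw (notMem_empty _)⟩
      · obtain ⟨w0, hw0, hmax⟩ := hcpt.exists_isMaxOn hne hcont.continuousOn
        refine ⟨-⟪NB.Az G (nuP K) z w0, w0⟫, by linarith [hsph w0 hw0], fun w hw => ?_⟩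
        rw [neg_neg]
        exact hmax hw
    refine ⟨c, hc0, fun w hw => ?_⟩
    by_cases hw0 : w = 0
    · rw [hw0]; simp
    · have hn : 0 < ‖w‖ := norm_pos_iff.2 hw0
      have h2 := hc (‖w‖⁻¹ • w) ⟨by simp [norm_smul, hn.ne'], M.smul_mem _ hw⟩
      rw [map_smul, real_inner_smul_left, real_inner_smul_right] at h2
      have h3 : ‖w‖⁻¹ * (‖w‖⁻¹ * ⟪NB.Az G (nuP K) z w, w⟫) * ‖w‖ ^ 2 ≤ -c * ‖w‖ ^ 2 := by
        gcongr
      have h4 : ‖w‖⁻¹ * (‖w‖⁻¹ * ⟪NB.Az G (nuP K) z w, w⟫) * ‖w‖ ^ 2 =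
          ⟪NB.Az G (nuP K) z w, w⟫ := by field_simp
      rw [h4] at h3
      linarith
  obtain ⟨c, hc0, hc⟩ := hc
  refine ⟨K, c / 2, by positivity, ?_⟩
  have hcA : ContinuousAt (NB.Az G (nuP K)) z := (NB.contDiffAt_Az hz).continuousAt
  have hev : ∀ᶠ y in 𝓝 z, ‖NB.Az G (nuP K) y - NB.Az G (nuP K) z‖ < c / 2 := by
    have := Metric.tendsto_nhds.1 hcA.tendsto (c / 2) (by positivity)
    filter_upwards [this] with y hy
    rwa [dist_eq_norm] at hy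
  filter_upwards [nhdsWithin_le_nhds hev, self_mem_nhdsWithin] with y hy hyU
  refine ⟨M, hM, fun w hw => ?_⟩
  rw [← NB.inner_Az_self hyU.1]
  have h2 : ⟪NB.Az G (nuP K) y w, w⟫ = ⟪NB.Az G (nuP K) z w, w⟫ +
      ⟪(NB.Az G (nuP K) y - NB.Az G (nuP K) z) w, w⟫ := by
    rw [sub_apply, inner_sub_left]; ring
  have h3 : ⟪(NB.Az G (nuP K) y - NB.Az G (nuP K) z) w, w⟫ ≤ c / 2 * ‖w‖ ^ 2 := by
    refine (real_inner_le_norm _ _).trans ?_
    have h4 := (NB.Az G (nuP K) y - NB.Az G (nuP K) z).le_opNorm w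
    calc ‖(NB.Az G (nuP K) y - NB.Az G (nuP K) z) w‖ * ‖w‖ ≤
        (‖NB.Az G (nuP K) y - NB.Az G (nuP K) z‖ * ‖w‖) * ‖w‖ := by gcongr
      _ ≤ (c / 2 * ‖w‖) * ‖w‖ := by gcongr
      _ = c / 2 * ‖w‖ ^ 2 := by ring
  rw [h2]
  linarith [hc w hw]

/-- **hneg, periodic case** -/
theorem hneg_per (h : GT.Bla G k) : ∃ K0 : ℕ, ∀ K ≥ K0, ∃ δ : ℝ, 0 < δ ∧ ∀ z ∈ L.US G,
    ∃ M : Submodule ℝ (Wt N K), finrank ℝ M = k - 1 ∧
      ∀ w ∈ M, qf G z (nuP K) w ≤ -(δ * ‖w‖ ^ 2) := by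
  have hcpt : IsCompact (L.US G) := LB.isCompact_US h.bl.cpt
  have key : ∃ K0 δ, 0 < δ ∧ ∀ z ∈ L.US G, QQ G k K0 δ z := by
    refine hcpt.induction_on (p := fun s => ∃ K0 δ, 0 < δ ∧ ∀ z ∈ s ∩ L.US G, QQ G k K0 δ z)
      ?_ ?_ ?_ ?_ |>.imp fun K0 hK0 => ?_
    · exact ⟨0, 1, one_pos, fun z hz => absurd hz.1 (notMem_empty _)⟩
    · rintro s t hst ⟨K0, δ, h0, h1⟩
      exact ⟨K0, δ, h0, fun z hz => h1 z ⟨hst hz.1, hz.2⟩⟩
    · rintro s t ⟨K1, δ1, h1, h1'⟩ ⟨K2, δ2, h2, h2'⟩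
      refine ⟨max K1 K2, min δ1 δ2, lt_min h1 h2, ?_⟩
      rintro z ⟨hz | hz, hzU⟩
      · exact ((h1' z ⟨hz, hzU⟩).mono_K hzU.1 (le_max_left _ _)).mono_δ (min_le_left _ _)
      · exact ((h2' z ⟨hz, hzU⟩).mono_K hzU.1 (le_max_right _ _)).mono_δ (min_le_right _ _)
    · intro z hz
      obtain ⟨K, δ, h0, hev⟩ := QQ_local h hz.1 hz.2
      obtain ⟨t, ht, hq⟩ := hev.exists_mem
      exact ⟨t, ht, K, δ, h0, fun y hy => hq y hy.1⟩
    · obtain ⟨δ, h0, h1⟩ := hK0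
      exact ⟨δ, h0, fun z hz => h1 z ⟨hz, hz⟩⟩
  obtain ⟨K0, δ, h0, h1⟩ := key
  refine ⟨K0, fun K hK => ⟨δ, h0, fun z hz => ?_⟩⟩
  obtain ⟨M, hM, h2⟩ := (h1 z hz).mono_K hz.1 hK
  exact ⟨M, by omega, h2⟩

/-- **the negative bundle exists** -/
theorem exists_NegB (h : GT.Bla G k) : ∃ K0 : ℕ, ∀ K ≥ K0, ∃ δ : ℝ, ∃ PN,
    NB.NegB G (k - 1) (nuP K) δ PN := by
  obtain ⟨K0, hK0⟩ := hneg_per h
  refine ⟨max K0 1, fun K hK => ?_⟩
  obtain ⟨δ, h0, h1⟩ := hK0 K ((le_max_left _ _).trans hK)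
  exact ⟨δ, NB.exists_NegB_per h ((le_max_right _ _).trans hK) h0 h1⟩

end Crest.Agent.R208.NN
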