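import Crest.Agent.R208.FL4
import Crest.Agent.R208.MS1
import Crest.Agent.R208.MS1b
import Crest.Agent.R208.NN2f

/-!
R208, block FL (helper613), part FL5: **(F1)** the level one family
`f1 : Tot (US G) PN → S`: orbit loops `t ↦ ρ (γ t + ε nf w t)` for `‖w‖ ≤ 1`, energies `≤ π`, `< π`
off the zero section, constant loops for `‖w‖² ≥ 5/4`, obtained from the natural contraction.
-/

set_option autoImplicit false

open Set Filter Topology MeasureTheory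
open scoped ContDiff RealInnerProductSpace Real
open Crest.GeometryTopology.Submanifold
open Crest.Agent.R241.DDefs Crest.Agent.R241.D Crest.Agent.R241.D2

noncomputable section

namespace Crest.Agent.R208.FL

open Crest.Agent.R208.SV Crest.Agent.R208.MS Crest.Agent.R208.NN

variable {n N K k : ℕ} {κ : ℝ} {S : Set (Euc N)} {G : Geo n N κ S} {lg : Euc N → Euc N → Euc N}
  {ρ : Euc N → Euc N} {r C r' Kr B w δ : ℝ} {PN : Euc N × Euc N → Wt N K →L[ℝ] Wt N K}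

/-- geometric data common to all levels -/
structure D0 (G : Geo n N κ S) (k K : ℕ) (lg : Euc N → Euc N → Euc N) (ρ : Euc N → Euc N)
    (r C r' Kr B w δ : ℝ) (PN : Euc N × Euc N → Wt N K →L[ℝ] Wt N K) : Prop where
  bla : GT.Bla G k
  neg : NB.NegB G (k - 1) (nuP K) δ PN
  sg : SG G lg r C
  rt : Retr S ρ r' Kr
  der : ∀ x ∈ S, fderiv ℝ ρ x = G.P x
  sm : Small r C r' Kr B w
  piB : π ≤ B
  B4 : B < 4 * π

/-- the data exist, `B` arbitrary in `[π, 4π)`, all large `K`, all small `w` -/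
theorem exists_D0 (h : GT.Bla G k) {B : ℝ} (hB : π ≤ B) (hB4 : B < 4 * π) :
    ∃ (lg : Euc N → Euc N → Euc N) (ρ : Euc N → Euc N) (r C r' Kr : ℝ) (K : ℕ) (δ : ℝ)
      (PN : Euc N × Euc N → Wt N K →L[ℝ] Wt N K), ∃ w₀ > 0, ∀ w, 0 < w → w ≤ w₀ →
        D0 G k K lg ρ r C r' Kr B w δ PN := by
  obtain ⟨lg, r, C, hsg⟩ := exists_SG h.bl
  obtain ⟨ρ, r', Kr, hR, hder⟩ := exists_Retr h.bl
  obtain ⟨K0, hK0⟩ := NN.exists_NegB h
  obtain ⟨δ, PN, hN⟩ := hK0 K0 le_rfl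
  obtain ⟨w₀, hw₀, hw⟩ := exists_small (r := r) (r' := r') hsg.r_pos hR.r_pos C Kr B
  exact ⟨lg, ρ, r, C, r', Kr, K0, δ, PN, w₀, hw₀, fun w h0 h1 =>
    ⟨h, hN, hsg, hR, hder, hw w h0 h1, hB, hB4⟩⟩

/-- data of the level one family -/
structure D1 (G : Geo n N κ S) (k K : ℕ) (lg : Euc N → Euc N → Euc N) (ρ : Euc N → Euc N)
    (r C r' Kr B w δ : ℝ) (PN : Euc N × Euc N → Wt N K →L[ℝ] Wt N K) (ε : ℝ) (J : ℕ)
    (E₀ η : ℝ) : Prop extends D0 G k K lg ρ r C r' Kr B w δ PN where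
  eps_pos : 0 < ε
  small : ∀ q ∈ FI.Tot (L.US G) PN, ∀ t,
    ‖(ε * th (‖q.2‖ ^ 2)) • NN.fd G q.1 (nuP K) q.2 t‖ < r'
  en : ∀ q ∈ FI.Tot (L.US G) PN, En (oc (Ph G K) (sg0 G ρ ε) q) ≤
    π - (δ / 4) * ε ^ 2 * (th (‖q.2‖ ^ 2) ^ 2 * ‖q.2‖ ^ 2)
  ld : NL.LD G lg ρ w J r C r' Kr B E₀ η
  le_E : π - (δ / 4) * ε ^ 2 ≤ E₀
  E_lt : E₀ < π
  eta_pos : 0 < η
  eta_le : 2 * η ≤ E₀

/-- **existence of the level one data** -/
theorem D0.exists_D1 (h : D0 G k K lg ρ r C r' Kr B w δ PN) : ∃ ε₀ > 0, ∀ ε, 0 < ε → ε ≤ ε₀ →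
    ∀ E₁ < π, ∀ η₁ > 0, ∃ E₀ η : ℝ, E₁ ≤ E₀ ∧ η ≤ η₁ ∧ ∃ J₀ : ℕ, ∀ J, J₀ ≤ J →
      D1 G k K lg ρ r C r' Kr B w δ PN ε J E₀ η := by
  obtain ⟨ε₀, hε₀, hε⟩ := exists_eps_one h.bla h.rt h.der h.neg
  obtain ⟨η₂, hη₂, hη₂'⟩ := NL.exists_sm2 h.rt.r_pos Kr
  refine ⟨ε₀, hε₀, fun ε he hee E₁ hE₁ η₁ hη₁ => ?_⟩
  have hpi := Real.pi_gt_three
  have hδ := h.neg.pos_δ
  set E₀ : ℝ := max (max E₁ (π - (δ / 4) * ε ^ 2)) 1 with hE₀
  set η : ℝ := min (min η₁ η₂) (1 / 2) with hη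
  have hη0 : 0 < η := lt_min (lt_min hη₁ hη₂) (by norm_num)
  have hE₀lt : E₀ < π := by
    have : 0 < (δ / 4) * ε ^ 2 := by positivity
    exact max_lt (max_lt hE₁ (by linarith)) (by linarith)
  obtain ⟨J₀, hJ₀⟩ := exists_LD h.bla.bl h.bla.ty.per h.sg h.rt h.B4 h.sm hE₀lt
    (hE₀lt.le.trans h.piB) hη0 (hη₂' η hη0.le ((min_le_left _ _).trans (min_le_right _ _)))
  refine ⟨E₀, η, (le_max_left _ _).trans (le_max_left _ _),
    (min_le_left _ _).trans (min_le_left _ _), J₀, fun J hJ => ?_⟩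
  exact
    { toD0 := h
      eps_pos := he
      small := fun q hq t => (hε ε he hee q hq).1 t
      en := fun q hq => (hε ε he hee q hq).2
      ld := hJ₀ J hJ
      le_E := (le_max_right _ _).trans (le_max_left _ _)
      E_lt := hE₀lt
      eta_pos := hη0
      eta_le := by
        have h1 : η ≤ 1 / 2 := min_le_right _ _
        have h2 : (1:ℝ) ≤ E₀ := le_max_right _ _
        linarith }

/-- the time of the contraction -/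
def tm (q : (Euc N × Euc N) × Wt N K) : ℝ := bt (‖q.2‖ ^ 2)

/-- **the level one family** -/
def f1 (G : Geo n N κ S) (lg : Euc N → Euc N → Euc N) (ρ : Euc N → Euc N) (w : ℝ) (J : ℕ) (ε : ℝ) :
    (Euc N × Euc N) × Wt N K → Euc N :=
  NL.FLam (Ph G K) G lg ρ w J tm (sg0 G ρ ε)

section

variable {ε E₀ η : ℝ} {J : ℕ}

theorem D0.cir (h : D0 G k K lg ρ r C r' Kr B w δ PN) : CM.Cir (FI.Tot (L.US G) PN) (Ph G K) :=
  (CM.cir_US h.bla.bl h.bla.ty.per).tot rep_Rt fun x hx t w => h.neg.equi x hx t w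

theorem tm_si (X : Set ((Euc N × Euc N) × Wt N K)) : NL.SI X (Ph G K) tm where
  smooth := fun z _ => by
    unfold tm bt
    exact ((contDiff_ct 1).comp ((contDiff_norm_sq ℝ).comp contDiff_snd)).contDiffAt
  inv := fun z _ t => by
    unfold tm
    change bt (‖Rt (nuP K) t z.2‖ ^ 2) = _
    rw [norm_Rt]

theorem contDiff_sg_in (G : Geo n N κ S) (ε : ℝ) : ContDiff ℝ ∞
    (fun q : (Euc N × Euc N) × Wt N K =>
      q.1.1 + (ε * th (‖q.2‖ ^ 2)) • G.P q.1.1 (ev (nuP K) 0 q.2)) := by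
  have h1 : ContDiff ℝ ∞ (fun q : (Euc N × Euc N) × Wt N K => th (‖q.2‖ ^ 2)) :=
    contDiff_th.comp ((contDiff_norm_sq ℝ).comp contDiff_snd)
  have h2 : ContDiff ℝ ∞ (fun q : (Euc N × Euc N) × Wt N K => G.P q.1.1) :=
    G.contDiff_P.comp (by fun_prop)
  have h3 : ContDiff ℝ ∞ (fun q : (Euc N × Euc N) × Wt N K => (ev (nuP K) 0 q.2 : Euc N)) :=
    (ev (nuP K) 0 : Wt N K →L[ℝ] Euc N).contDiff.comp contDiff_snd
  have h4 : ContDiff ℝ ∞ (fun q : (Euc N × Euc N) × Wt N K => q.1.1) := by fun_prop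
  exact h4.add ((contDiff_const.mul h1).smul (h2.clm_apply h3))

theorem D1.fam0 (h : D1 G k K lg ρ r C r' Kr B w δ PN ε J E₀ η) :
    Fam S (FI.Tot (L.US G) PN) (sg0 G ρ ε) := by
  have key : ∀ q ∈ FI.Tot (L.US G) PN, q.1.1 ∈ S ∧
      ‖(q.1.1 + (ε * th (‖q.2‖ ^ 2)) • G.P q.1.1 (ev (nuP K) 0 q.2)) - q.1.1‖ < r' := by
    intro q hq
    have h1 := h.small q hq 0
    unfold NN.fd at h1
    rw [fl_zero] at h1
    exact ⟨hq.1.1.1, by rwa [add_sub_cancel_left]⟩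
  refine ⟨fun q hq => ?_, fun q hq => h.rt.mem _ (key q hq).1 _ (key q hq).2⟩
  exact ContDiffAt.comp q (h.rt.smooth _ (key q hq).1 _ (key q hq).2)
    (contDiff_sg_in G ε).contDiffAt

theorem D1.en_le (h : D1 G k K lg ρ r C r' Kr B w δ PN ε J E₀ η) {q : (Euc N × Euc N) × Wt N K}
    (hq : q ∈ FI.Tot (L.US G) PN) : En (oc (Ph G K) (sg0 G ρ ε) q) ≤ B := by
  have h1 := h.en q hq
  have h2 := h.neg.pos_δ
  have h3 : 0 ≤ (δ / 4) * ε ^ 2 * (th (‖q.2‖ ^ 2) ^ 2 * ‖q.2‖ ^ 2) := by positivity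
  have h4 := h.piB
  linarith

theorem D1.en_le' (h : D1 G k K lg ρ r C r' Kr B w δ PN ε J E₀ η) {q : (Euc N × Euc N) × Wt N K}
    (hq : q ∈ FI.Tot (L.US G) PN) (h1 : 1 ≤ ‖q.2‖ ^ 2) :
    En (oc (Ph G K) (sg0 G ρ ε) q) ≤ E₀ := by
  have h2 := h.en q hq
  have h3 := le_th_sq (q := ‖q.2‖ ^ 2) (by positivity)
  rw [min_eq_left h1] at h3
  have h4 := h.neg.pos_δ
  have h5 : (δ / 4) * ε ^ 2 * 1 ≤ (δ / 4) * ε ^ 2 * (th (‖q.2‖ ^ 2) ^ 2 * ‖q.2‖ ^ 2) :=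
    mul_le_mul_of_nonneg_left h3 (by positivity)
  have h6 := h.le_E
  linarith

theorem tm_le {q : (Euc N × Euc N) × Wt N K} (h : ‖q.2‖ ^ 2 ≤ 1) : tm q ≤ 1 / 4 := by
  unfold tm bt
  rw [ct_zero h]
  norm_num

theorem D1.dich (h : D1 G k K lg ρ r C r' Kr B w δ PN ε J E₀ η) {q : (Euc N × Euc N) × Wt N K}
    (hq : q ∈ FI.Tot (L.US G) PN) :
    NL.kj J J (tm q) = 0 ∨ En (oc (Ph G K) (sg0 G ρ ε) q) ≤ E₀ := by
  rcases le_total (‖q.2‖ ^ 2) 1 with h1 | h1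
  · exact Or.inl (NL.kj_zero _ _ (tm_le h1))
  · exact Or.inr (h.en_le' hq h1)

/-- (F1), smoothness -/
theorem D1.fam (h : D1 G k K lg ρ r C r' Kr B w δ PN ε J E₀ η) :
    Fam S (FI.Tot (L.US G) PN) (f1 G lg ρ w J ε) :=
  NL.fam_FLam h.ld h.cir h.fam0 (tm_si _) (fun _ hq => h.en_le hq) fun _ hq => h.dich hq

/-- (F1), the orbit loops -/
theorem D1.oc_f1 (h : D1 G k K lg ρ r C r' Kr B w δ PN ε J E₀ η) {q : (Euc N × Euc N) × Wt N K}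
    (hq : q ∈ FI.Tot (L.US G) PN) : oc (Ph G K) (f1 G lg ρ w J ε) q =
      NL.Lam G lg ρ w J (tm q) (oc (Ph G K) (sg0 G ρ ε) q) :=
  NL.oc_FLam h.ld h.cir h.fam0 (tm_si _) (fun _ hq => h.en_le hq) hq

/-- (F1), the orbit loops for `‖w‖ ≤ 1` -/
theorem D1.oc_f1_near (h : D1 G k K lg ρ r C r' Kr B w δ PN ε J E₀ η)
    {q : (Euc N × Euc N) × Wt N K} (hq : q ∈ FI.Tot (L.US G) PN) (h1 : ‖q.2‖ ^ 2 ≤ 1) :
    oc (Ph G K) (f1 G lg ρ w J ε) q = fun t =>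
      ρ ((fl G (q.1, t)).1 + ε • NN.fd G q.1 (nuP K) q.2 t) := by
  rw [h.oc_f1 hq, NL.Lam_start h.ld (loop_oc h.cir h.fam0 hq) (tm_le h1), oc_sg0,
    th_one (by linarith), mul_one]

theorem D1.f1_near (h : D1 G k K lg ρ r C r' Kr B w δ PN ε J E₀ η)
    {q : (Euc N × Euc N) × Wt N K} (hq : q ∈ FI.Tot (L.US G) PN) (h1 : ‖q.2‖ ^ 2 ≤ 1) :
    f1 G lg ρ w J ε q = ρ (q.1.1 + ε • G.P q.1.1 (ev (nuP K) 0 q.2)) := by
  have h2 := congrFun (h.oc_f1_near hq h1) 0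
  unfold oc at h2
  rw [h.cir.zero q hq] at h2
  rw [h2]
  unfold NN.fd
  rw [fl_zero]

/-- (F1), the zero section -/
theorem D1.f1_zero (h : D1 G k K lg ρ r C r' Kr B w δ PN ε J E₀ η) {z : Euc N × Euc N}
    (hz : z ∈ L.US G) : f1 G lg ρ w J ε (z, (0 : Wt N K)) = z.1 := by
  rw [h.f1_near (q := (z, (0 : Wt N K))) ⟨hz, map_zero _⟩ (by simp)]
  simp only [map_zero, smul_zero, add_zero]
  exact h.rt.eq _ hz.1.1

/-- (F1), energies -/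
theorem D1.En_f1_le (h : D1 G k K lg ρ r C r' Kr B w δ PN ε J E₀ η)
    {q : (Euc N × Euc N) × Wt N K} (hq : q ∈ FI.Tot (L.US G) PN) :
    En (oc (Ph G K) (f1 G lg ρ w J ε) q) ≤ max (π - (δ / 4) * ε ^ 2 * min 1 (‖q.2‖ ^ 2)) (2 * η) ∧
    (‖q.2‖ ^ 2 ≤ 1 → En (oc (Ph G K) (f1 G lg ρ w J ε) q) ≤ π - (δ / 4) * ε ^ 2 * ‖q.2‖ ^ 2) ∧
    (1 ≤ ‖q.2‖ ^ 2 → En (oc (Ph G K) (f1 G lg ρ w J ε) q) ≤ E₀) := by
  have hδ := h.neg.pos_δ
  have h2 := h.en q hq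
  have h3 := le_th_sq (q := ‖q.2‖ ^ 2) (by positivity)
  have h5 : (δ / 4) * ε ^ 2 * min 1 (‖q.2‖ ^ 2) ≤
      (δ / 4) * ε ^ 2 * (th (‖q.2‖ ^ 2) ^ 2 * ‖q.2‖ ^ 2) :=
    mul_le_mul_of_nonneg_left h3 (by positivity)
  have hL := loop_oc h.cir h.fam0 hq
  have hn : ‖q.2‖ ^ 2 ≤ 1 →
      En (oc (Ph G K) (f1 G lg ρ w J ε) q) ≤ π - (δ / 4) * ε ^ 2 * ‖q.2‖ ^ 2 := by
    intro h1
    rw [h.oc_f1 hq, NL.Lam_start h.ld hL (tm_le h1)]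
    rw [min_eq_right h1] at h5
    linarith
  have hf : 1 ≤ ‖q.2‖ ^ 2 → En (oc (Ph G K) (f1 G lg ρ w J ε) q) ≤
      max (π - (δ / 4) * ε ^ 2 * min 1 (‖q.2‖ ^ 2)) (2 * η) := by
    intro h1
    rw [h.oc_f1 hq]
    refine (NL.En_Lam_le h.ld hL (h.en_le' hq h1) _).trans (max_le_max ?_ le_rfl)
    linarith
  refine ⟨?_, hn, fun h1 => ?_⟩
  · rcases le_total (‖q.2‖ ^ 2) 1 with h1 | h1
    · rw [min_eq_right h1]
      exact (hn h1).trans (le_max_left _ _)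
    · exact hf h1
  · refine (hf h1).trans (max_le ?_ h.eta_le)
    rw [min_eq_left h1, mul_one]
    exact h.le_E

/-- (F1), constant loops far from the zero section -/
theorem D1.f1_const (h : D1 G k K lg ρ r C r' Kr B w δ PN ε J E₀ η)
    {q : (Euc N × Euc N) × Wt N K} (hq : q ∈ FI.Tot (L.US G) PN) (h1 : 5 / 4 ≤ ‖q.2‖ ^ 2) (t : ℝ) :
    f1 G lg ρ w J ε (Ph G K t q) = f1 G lg ρ w J ε q := by
  have h2 : (3:ℝ) / 4 ≤ tm q := by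
    unfold tm bt
    rw [ct_one (by linarith)]
    norm_num
  have h3 := h.oc_f1 hq
  rw [NL.Lam_end h2] at h3
  have h4 := congrFun h3 t
  have h5 := congrFun h3 0
  unfold oc at h4 h5
  rw [h.cir.zero q hq] at h5
  rw [h4, h5]

end

end Crest.Agent.R208.FL
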