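import Crest.Agent.R208.VE6

/-! Row 208, block VE (helper812).  VE7: injectivity of the fibre integral in odd rank. -/

set_option autoImplicit false
set_option linter.unusedSectionVars false
set_option linter.unusedVariables false

open MeasureTheory Set Filter Topology Module
open scoped ContDiff
open Crest.Agent.R208.F Crest.Agent.R208.FI Crest.Agent.R208.CW Crest.Agent.R208.T

noncomputable section

namespace Crest.Agent.R208.VE

universe u w

section gen
variable {E : Type*} [NormedAddCommGroup E] [NormedSpace ℝ E] [FiniteDimensional ℝ E]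
  {X : Set E} {κ o t V L : E → Ext E} {c₀ : ℝ}

theorem fin2_aux (sL : Sm X L) (sκ : Sm X κ) (st : Sm X t) (ct : Cl X t)
    (e : Eqv X (c₀ • o - V * t) (F.d L)) (hV : Eqv X V (F.d κ)) (ne : c₀ ≠ 0) :
    Eqv X o (F.d (c₀⁻¹ • (L + κ * t))) := by
  have s1 : Sm X (L + κ * t) := sL.add (sκ.mul st)
  refine Eqv.symm ((d_smul_eqv _ s1).trans ?_)
  have h1 : Eqv X (F.d (L + κ * t)) (F.d L + F.d κ * t) :=
    (d_add_eqv sL (sκ.mul st)).trans ((Eqv.refl _).add (d_mul_cl sκ st ct))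
  have h2 := h1.trans ((e.symm).add (hV.symm.mul (Eqv.refl t)))
  rw [sub_add_cancel] at h2
  have h3 := h2.smul c₀⁻¹
  rwa [smul_smul, inv_mul_cancel₀ ne, one_smul] at h3

/-- sign of the grade involution and exactness -/
theorem iv_exact (s : ℝ) (sκ : Sm X κ) (h : Eqv X V (F.d κ)) :
    Eqv X (s • iv V) (F.d ((-s) • iv κ)) := by
  have h1 : Eqv X (iv V) (iv (F.d κ)) := VE.Eqv.iv h
  have h2 : Eqv X (iv (F.d κ)) (-F.d (iv κ)) := by
    have := (d_iv sκ).neg
    rw [neg_neg] at this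
    exact this.symm
  have h3 := (h1.trans h2).smul s
  refine h3.trans (Eqv.symm ((d_smul_eqv _ (VE.Sm.iv sκ)).trans ?_))
  rw [smul_neg, neg_smul]
  exact Eqv.refl _

theorem zero_aux {x : E} (h : L x = 0) (h' : t x = 0) : (c₀⁻¹ • (L + κ * t)) x = 0 := by
  change c₀⁻¹ • (L x + κ x * t x) = 0
  rw [h, h', mul_zero, add_zero, smul_zero]

end gen

variable {E : Type u} {H : Type w} [NormedAddCommGroup E] [NormedSpace ℝ E] [FiniteDimensional ℝ E]
  [NormedAddCommGroup H] [InnerProductSpace ℝ H] [FiniteDimensional ℝ H]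
  {X : Set E} {P : E → H →L[ℝ] H} {r d : ℕ} {R R' R₁ c₀ : ℝ} {e : E → Ext E}
  {τ τ' om : E × H → Ext (E × H)}
  [MeasurableSpace H] [BorelSpace H] (μ : Measure H) [μ.IsAddHaarMeasure]

/-- **a closed form with compact vertical support and exact fibre integral is exact with compact
vertical support** (odd rank) -/
theorem thom_inj_odd (hX : Sub d X) (hP : PField X r P) (hC : Co X P R₁ τ') (hR : 0 ≤ R)
    (hT : Th1 μ X P τ' R c₀ τ) (so : Sm (Tot X P) om) (co : Cl (Tot X P) om)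
    (ko : Cs X P R om) (h : Coh X (pu μ P τ' R om) 0) :
    ∃ R', 0 ≤ R' ∧ ∃ L : E × H → Ext (E × H), Sm (Tot X P) L ∧ (∀ z, R' < ‖z.2‖ → L z = 0) ∧
      Eqv (Tot X P) om (F.d L) := by
  obtain ⟨R₂, hR₂, L, sL, vL, eL⟩ := thom_cs_odd μ hX hP hC hR hT so co ko
  obtain ⟨κ, sκ, eκ⟩ := h
  rw [sub_zero] at eκ
  have h1 := (pu_iv μ hR hP hC so).trans (iv_exact ((-1 : ℝ) ^ finrank ℝ H) sκ eκ)
  have sκ1 : Sm X ((-((-1 : ℝ) ^ finrank ℝ H)) • iv κ) := (VE.Sm.iv sκ).smul _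
  have h2 := (Eqv.pull (smap_fst' (X := X) (P := P)) h1).trans
    (d_pull_eqv smap_fst' sκ1).symm
  have hY := hP.sub_tot hX
  have eτ : Eqv (Tot X P) (cutH R τ) τ := Cs.cut hR hT.cs
  have sτc : Sm (Tot X P) (cutH R τ) := hT.sm.cutH
  have cτc : Cl (Tot X P) (cutH R τ) := Cl.of_eqv hY sτc hT.sm eτ hT.cl
  have h3 := fin2_aux sL (sκ1.pull smap_fst') (sτc.pull smap_ngg) (cτc.pull smap_ngg sτc) eL h2
    hT.ne
  refine ⟨max R₂ (R + 1), le_max_of_le_left hR₂, _, ?_, fun z hz => ?_, h3⟩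
  · exact (sL.add ((sκ1.pull smap_fst').mul (sτc.pull smap_ngg))).smul _
  · refine zero_aux (vL z (lt_of_le_of_lt (le_max_left _ _) hz)) ?_
    refine pull_of_zero (f := ngg) (Vt.cutH hR (ngg z) ?_)
    change R + 1 < ‖-z.2‖
    rw [norm_neg]
    exact lt_of_le_of_lt (le_max_right _ _) hz

end Crest.Agent.R208.VE
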