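import Crest.Agent.R208.EX10
import Crest.Agent.R208.FL5
import Crest.Agent.R208.VE7
import Crest.Agent.R208.CM6b

/-!
R208, block EX (helper530), part EX11: **the instance** of the data `ED` at the level one family
`f1` over `Tot (US G) PN` (helper613), with (LAM) from the quotient (helper812's odd Thom lemma).
-/

set_option autoImplicit false
set_option linter.unusedSectionVars false
set_option linter.unusedVariables false

open MeasureTheory Set Filter Topology Module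
open scoped ContDiff RealInnerProductSpace Real
open Crest.GeometryTopology.Submanifold
open Crest.Agent.R241.DDefs Crest.Agent.R241.D Crest.Agent.R241.D2
open Crest.Agent.R208.F Crest.Agent.R208.FI Crest.Agent.R208.CW Crest.Agent.R208.T
open Crest.Agent.R208.CM (Cir gen Rep Triv Qd phR Th gf)
open Crest.Agent.R208.TP (QM)
open Crest.Agent.R208.VC hiding Wt
open Crest.Agent.R208.MS (Fam oc En Loop loop_oc)
open Crest.Agent.R208.FL (D0 D1 Ph)
open Crest.Agent.R208.NN (Wt Rt nuP)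

noncomputable section

namespace Crest.Agent.R208.EX

variable {n N K k : ℕ} {κ : ℝ} {S : Set (Euc N)} {G : Geo n N κ S}
  {lg : Euc N → Euc N → Euc N} {ρ : Euc N → Euc N} {r C r' Kr B w δ : ℝ}
  {PN : Euc N × Euc N → Wt N K →L[ℝ] Wt N K} {ε E₀ η₀ : ℝ} {J : ℕ}

/-- the canonical connection -/
theorem cn_of_conn {E : Type} [NormedAddCommGroup E] [NormedSpace ℝ E] [FiniteDimensional ℝ E]
    {X : Set E} {φ : ℝ → E → E} {al : E → Ext E} (h : CM.Conn X φ al) : Cn X φ al :=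
  ⟨h.sm, h.hom, h.unit, h.inv⟩

/-- the data of the natural primitive for the level one family -/
def mkED (S : Set (Euc N)) (G : Geo n N κ S) (lg : Euc N → Euc N → Euc N) (ρ : Euc N → Euc N)
    (w : ℝ) (J : ℕ) (ε : ℝ) (PN : Euc N × Euc N → Wt N K →L[ℝ] Wt N K)
    (om : Euc N → Ext (Euc N)) (θ0 : Euc N × Euc N → Ext (Euc N × Euc N)) (p q : ℕ) (rr ss B' : ℝ)
    (lam : (Euc N × Euc N) × Wt N K → Ext ((Euc N × Euc N) × Wt N K))
    (HL : ℝ → (ℝ → Euc N) → Euc N) (mu : (ℝ → Euc N) → ℝ)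
    (Gm : (ℝ → Euc N) → (Euc N × Euc N) × Wt N K) : ED N where
  P := (Euc N × Euc N) × Wt N K
  S := S
  om := om
  Y := Tot (L.US G) PN
  φY := Ph G K
  θ1 := F.pull (fun y : (Euc N × Euc N) × Wt N K => y.1) θ0
  f1 := FL.f1 G lg ρ w J ε
  lam := lam
  far := fun y => 64 / 25 ≤ ‖y.2‖ ^ 2
  p := p
  q := q
  r := rr
  s := ss
  B := B'
  HL := HL
  mu := mu
  Gm := Gm

section lam
variable {E' : Type} [NormedAddCommGroup E'] [NormedSpace ℝ E'] [FiniteDimensional ℝ E']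
  {V : Type} [NormedAddCommGroup V] [InnerProductSpace ℝ V] [FiniteDimensional ℝ V]
  {Y : Set E'} {m : ℕ} {jq : Euc N × Euc N → E'} {T : Euc N × Euc N → Wt N K →L[ℝ] V}
  {P' : E' → V →L[ℝ] V} {om : Euc N → Ext (Euc N)} {θ0 : Euc N × Euc N → Ext (Euc N × Euc N)}
  {p pq : ℕ} {rr ss : ℝ}

theorem pfield_PN (h : FL.D0 G k K lg ρ r C r' Kr B w δ PN) : PField (L.US G) (k - 1) PN :=
  ⟨h.neg.smooth, fun x _ => h.neg.idem x, h.neg.rank⟩

/-- **(LAM)** for the level one family -/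
theorem exists_lam_f1 (h : FL.D1 G k K lg ρ r C r' Kr B w δ PN ε J E₀ η₀)
    (hX : Sub m (L.US G)) (hθ0 : Cn (L.US G) (gf G) θ0) (hdat : Dat S om)
    (hq : QM (L.US G) (gf G) Y jq) (hT : Triv (L.US G) (gf G) (Rt (nuP K)) T)
    (hs : ContinuousOn P' Y) (hd : ∀ x ∈ L.US G, P' (jq x) = Qd T PN x)
    (hcls : ∀ V' : E' × V → Ext (E' × V), ContDiff ℝ ∞ V' → Cl (Tot Y P') V' →
      VE.Cs Y P' (3 / 2) V' → Eqv (Tot (L.US G) PN) (F.pull (Th jq T) V')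
        (vv (Ph G K) (F.d (F.pull (fun y : (Euc N × Euc N) × Wt N K => y.1) θ0)) p pq rr ss
          (F.pull (FL.f1 G lg ρ w J ε) om)) →
      ∃ (R' : ℝ) (L : E' × V → Ext (E' × V)), Sm (Tot Y P') L ∧ (∀ z, R' < ‖z.2‖ → L z = 0) ∧
        Eqv (Tot Y P') V' (F.d L)) :
    ∃ lam : (Euc N × Euc N) × Wt N K → Ext ((Euc N × Euc N) × Wt N K),
      Mod S om (Tot (L.US G) PN) (Ph G K)
        (F.pull (fun y : (Euc N × Euc N) × Wt N K => y.1) θ0) (FL.f1 G lg ρ w J ε) lam p pq rr ss ∧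
      ∀ y ∈ Tot (L.US G) PN, 64 / 25 ≤ ‖y.2‖ ^ 2 → lam y = 0 := by
  have hcir := CM.cir_US h.bla.bl h.bla.ty.per
  have hA := Act.of_cir hcir
  have hP := pfield_PN h.toD0
  have hQ : QM (Tot (L.US G) PN) (phR (gf G) (Rt (nuP K))) (Tot Y P') (Th jq T) :=
    hq.tot hcir FL.rep_Rt hT hP (fun x hx t w => h.neg.equi x hx t w) hs hd
  have hC : Cir (Tot (L.US G) PN) (Ph G K) := h.toD0.cir
  have hCA := Act.of_cir hC
  have hXT := hP.sub_tot hX
  have hf : SMap (Tot (L.US G) PN) S (FL.f1 G lg ρ w J ε) := ⟨h.fam.smooth, h.fam.maps⟩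
  have hconst : ∀ y ∈ Tot (L.US G) PN, 9 / 4 ≤ ‖y.2‖ ^ 2 → ∀ t,
      FL.f1 G lg ρ w J ε (Ph G K t y) = FL.f1 G lg ρ w J ε y := fun y hy h1 t =>
    h.f1_const hy (by linarith) t
  have hcnY : Cn (Tot (L.US G) PN) (Ph G K)
      (F.pull (fun y : (Euc N × Euc N) × Wt N K => y.1) θ0) :=
    hθ0.pull hA hCA ⟨fun _ _ => contDiffAt_fst, fun _ hy => hy.1⟩ fun t y hy => rfl
  have he := hcnY.bas hCA hXT
  have hb : Dat (Tot (L.US G) PN) (F.pull (FL.f1 G lg ρ w J ε) om) := hdat.pull hf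
  obtain ⟨V', v1, v2, -, v3, v4⟩ := exists_desc hQ hC hXT hT (ρ := 3 / 2) (by norm_num)
    (sm_vv (p := p) (q := pq) (r := rr) (s := ss) hCA he hb) (cl_vv hCA hXT he hb)
    (inv_vv hCA he hb) (hz_vv hCA he hb) fun z hz h1 => zero_vv hCA hf hdat hconst hz h1
  obtain ⟨R', L, l1, l2, l3⟩ := hcls V' v1 v2 v3 v4
  exact exists_mod_of_prim hQ hC hXT hT hA (fun t w => FL.rep_Rt.iso t w) hθ0 hf hdat hconst v4 l1
    l3 l2

/-- the class hypothesis from the vanishing of the fibre integral (helper812) -/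
theorem cls_of_pu [MeasurableSpace V] [BorelSpace V] (μ : Measure V) [μ.IsAddHaarMeasure]
    {d r₁ : ℕ} {R₁ c₀ : ℝ} {τ' τ : E' × V → Ext (E' × V)} {Z : Set ((Euc N × Euc N) × Wt N K)}
    {v : (Euc N × Euc N) × Wt N K → Ext ((Euc N × Euc N) × Wt N K)}
    (hY : Sub d Y) (hP' : PField Y r₁ P') (hC : VE.Co Y P' R₁ τ')
    (hT1 : VE.Th1 μ Y P' τ' (3 / 2) c₀ τ)
    (hpu : ∀ V' : E' × V → Ext (E' × V), ContDiff ℝ ∞ V' → Cl (Tot Y P') V' →
      VE.Cs Y P' (3 / 2) V' → Eqv Z (F.pull (Th jq T) V') v →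
      Coh Y (VE.pu μ P' τ' (3 / 2) V') 0) :
    ∀ V' : E' × V → Ext (E' × V), ContDiff ℝ ∞ V' → Cl (Tot Y P') V' →
      VE.Cs Y P' (3 / 2) V' → Eqv Z (F.pull (Th jq T) V') v →
      ∃ (R' : ℝ) (L : E' × V → Ext (E' × V)), Sm (Tot Y P') L ∧ (∀ z, R' < ‖z.2‖ → L z = 0) ∧
        Eqv (Tot Y P') V' (F.d L) := fun V' v1 v2 v3 v4 => by
  obtain ⟨R', -, L, l1, l2, l3⟩ := VE.thom_inj_odd μ hY hP' hC (by norm_num) hT1
    (fun z _ => v1.contDiffAt) v2 v3 (hpu V' v1 v2 v3 v4)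
  exact ⟨R', L, l1, l2, l3⟩

/-- the data are good -/
theorem mkED_ok {B' : ℝ} {HL : ℝ → (ℝ → Euc N) → Euc N} {mu : (ℝ → Euc N) → ℝ}
    {Gm : (ℝ → Euc N) → (Euc N × Euc N) × Wt N K}
    {lam : (Euc N × Euc N) × Wt N K → Ext ((Euc N × Euc N) × Wt N K)}
    (hmod : Mod S om (Tot (L.US G) PN) (Ph G K)
      (F.pull (fun y : (Euc N × Euc N) × Wt N K => y.1) θ0) (FL.f1 G lg ρ w J ε) lam p pq rr ss)
    (hfar : ∀ y ∈ Tot (L.US G) PN, 64 / 25 ≤ ‖y.2‖ ^ 2 → lam y = 0)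
    (hnat : NatOp S (Tot (L.US G) PN) (Ph G K) (FL.f1 G lg ρ w J ε)
      (fun y => 64 / 25 ≤ ‖y.2‖ ^ 2) B' HL mu Gm) :
    (mkED S G lg ρ w J ε PN om θ0 p pq rr ss B' lam HL mu Gm).OK :=
  ⟨hmod, hfar, hnat⟩

end lam

end Crest.Agent.R208.EX
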