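import Crest.Agent.R208.T3c
import Crest.Agent.R208.T2d

/-! Row 208, block RI (helper545), part RI1: retraction of a closed form onto the cut locus along the
tube, naturality of the real Euler form, smooth images of lower dimension are proper. -/

set_option autoImplicit false
set_option linter.unusedSectionVars false

open MeasureTheory Set Filter Topology Module
open scoped ContDiff
open Crest.Agent.R208.F Crest.Agent.R208.FI Crest.Agent.R208.CW

noncomputable section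

namespace Crest.Agent.R208.RI

open Crest.Agent.R208.T

universe u w

section tube
variable {E : Type u} {H : Type w} [NormedAddCommGroup E] [NormedSpace ℝ E] [FiniteDimensional ℝ E]
  [NormedAddCommGroup H] [InnerProductSpace ℝ H] [FiniteDimensional ℝ H]
  {S C : Set E} {p : E} {ρ : ℝ} {Ψ : E × H → E} {Gt : E → E × H} {P : E → H →L[ℝ] H}

/-- the retraction of the tube -/
theorem smap_retract (h : Tube S C p P ρ Ψ Gt) : SMap (S \ {p}) C (fun y : E => (Gt y).1) :=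
  ⟨fun y hy => contDiffAt_fst.comp _ (h.sG.smooth y hy), fun y hy => (h.sG.maps hy).1.1⟩

/-- a closed form on `S \ {p}` is cohomologous to its retraction. -/
theorem coh_retract (h : Tube S C p P ρ Ψ Gt) {b : E → Ext E} (hb : Sm (S \ {p}) b)
    (hc : Cl (S \ {p}) b) : Coh (S \ {p}) b (F.pull (fun y : E => (Gt y).1) b) := by
  have hm : ∀ q ∈ S \ {p}, ∀ t ∈ Icc (0 : ℝ) 1, (((Gt q).1, t • (Gt q).2) : E × H) ∈
      Tot C P ∩ {z | ‖z.2‖ < ρ} := by
    intro q hq t ht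
    obtain ⟨⟨h1, h2⟩, h3⟩ := h.sG.maps hq
    refine ⟨⟨h1, ?_⟩, ?_⟩
    · change P (Gt q).1 (t • (Gt q).2) = t • (Gt q).2
      rw [map_smul, h2]
    · change ‖t • (Gt q).2‖ < ρ
      rw [norm_smul, Real.norm_of_nonneg ht.1]
      have h4 : ‖(Gt q).2‖ < ρ := h3
      have := mul_le_mul_of_nonneg_right ht.2 (norm_nonneg (Gt q).2)
      linarith
  have hsm : ∀ q ∈ S \ {p}, ∀ t ∈ Icc (0 : ℝ) 1, ContDiffAt ℝ ∞
      (fun z : E × ℝ => Ψ ((Gt z.1).1, z.2 • (Gt z.1).2)) (q, t) := by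
    intro y hy t ht
    have a1 : ContDiffAt ℝ ∞ (fun q : E × ℝ => Gt q.1) (y, t) :=
      ContDiffAt.comp (g := Gt) (f := fun q : E × ℝ => q.1) (y, t) (h.sG.smooth y hy) (by fun_prop)
    have a2 : ContDiffAt ℝ ∞ (fun q : E × ℝ => (((Gt q.1).1, q.2 • (Gt q.1).2) : E × H)) (y, t) :=
      (contDiffAt_fst.comp _ a1).prodMk (contDiffAt_snd.smul (contDiffAt_snd.comp _ a1))
    exact ContDiffAt.comp (g := Ψ) (y, t) (h.sΨ.smooth _ (hm y hy t ht)) a2
  have h1 := coh_homotopy (X := S \ {p}) (Y := S \ {p})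
    (Fh := fun z : E × ℝ => Ψ ((Gt z.1).1, z.2 • (Gt z.1).2)) (w := b) hsm
    (fun y hy t ht => h.sΨ.maps (hm y hy t ht)) hb hc
  have k1 : ∀ t ∈ Icc (0 : ℝ) 1, SMap (S \ {p}) (S \ {p}) (fun y : E => Ψ ((Gt y).1, t • (Gt y).2)) :=
    fun t ht => ⟨fun y hy => ContDiffAt.comp
      (g := fun z : E × ℝ => Ψ ((Gt z.1).1, z.2 • (Gt z.1).2)) (f := fun y : E => (y, t)) y
      (hsm y hy t ht) (contDiffAt_id.prodMk contDiffAt_const),
      fun y hy => h.sΨ.maps (hm y hy t ht)⟩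
  have kC := smap_retract h
  have e1 : Eqv (S \ {p}) (F.pull (fun y : E => Ψ ((Gt y).1, (1 : ℝ) • (Gt y).2)) b) b := by
    refine (eqv_pull_of_eq b (fun y hy => (k1 1 (by simp)).diff hy) (fun y _ => differentiableAt_id)
      (fun y hy => ?_)).trans (Eqv.of_eq fun z _ => F.pull_id b z)
    change Ψ ((Gt y).1, (1 : ℝ) • (Gt y).2) = y
    rw [one_smul]; exact h.ΨG y hy
  have e2 : Eqv (S \ {p}) (F.pull (fun y : E => Ψ ((Gt y).1, (0 : ℝ) • (Gt y).2)) b)
      (F.pull (fun y : E => (Gt y).1) b) := by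
    refine eqv_pull_of_eq b (fun y hy => (k1 0 (by simp)).diff hy) (fun y hy => kC.diff hy)
      (fun y hy => ?_)
    change Ψ ((Gt y).1, (0 : ℝ) • (Gt y).2) = (Gt y).1
    rw [zero_smul]; exact h.Ψ0 _ (kC.maps hy)
  exact (Coh.of_eqv e1.symm).trans (h1.trans (Coh.of_eqv e2))

/-- if `ξ` restricts to `e` on `C`, then its pull-back under a map avoiding `p` is the pull-back of `e`
under the retracted map. -/
theorem coh_pull_retract {E' : Type u} [NormedAddCommGroup E'] [NormedSpace ℝ E']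
    [FiniteDimensional ℝ E'] {X : Set E'} (h : Tube S C p P ρ Ψ Gt) {ξ e : E → Ext E}
    (hb : Sm S ξ) (hc : Cl S ξ) (h0 : Coh C ξ e) {g : E' → E} (hg : SMap X S g)
    (hp : ∀ x ∈ X, g x ≠ p) :
    Coh X (F.pull g ξ) (F.pull (fun x => (Gt (g x)).1) e) := by
  have hg' : SMap X (S \ {p}) g := ⟨hg.smooth, fun x hx => ⟨hg.maps hx, hp x hx⟩⟩
  have kC := smap_retract h
  have h1 := (coh_retract h (hb.mono sdiff_subset) (hc.mono sdiff_subset)).trans (h0.pull kC)
  refine (h1.pull hg').trans (Coh.of_eqv (Eqv.of_eq fun x hx => ?_))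
  exact F.pull_comp (hg'.diff hx) (kC.diff (hg'.maps hx))

end tube

section natural
variable {E E' : Type*} [NormedAddCommGroup E] [NormedSpace ℝ E] [FiniteDimensional ℝ E]
  [NormedAddCommGroup E'] [NormedSpace ℝ E'] [FiniteDimensional ℝ E']
  {ι n : Type*} [Fintype ι] [DecidableEq ι] [Fintype n] [DecidableEq n]
  {X : Set E'} {Y : Set E} {P : E → EuclideanSpace ℝ n →L[ℝ] EuclideanSpace ℝ n}
  {W : E → (ι × Fin 2 → n) → ℝ}

theorem or_comp (h : OR Y P W) {f : E' → E} (hf : SMap X Y f) :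
    OR X (fun x => P (f x)) (fun x => W (f x)) where
  sP := fun x hx => (h.sP _ (hf.maps hx)).comp x (hf.smooth x hx)
  sW := fun x hx I => (h.sW _ (hf.maps hx) I).comp x (hf.smooth x hx)
  fr := fun x hx => h.fr _ (hf.maps hx)

/-- naturality of the real Euler form (pointwise equality) -/
theorem pull_eR (h : OR Y P W) {f : E' → E} (hf : SMap X Y f) {x : E'} (hx : x ∈ X) :
    F.pull f (eR P W) x = eR (fun y => P (f y)) (fun y => W (f y)) x := by
  have h1 := pullC_ef (f := f) (P := fun y => mtx (P y)) (W := wC W) (hf.c2 hx)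
    (((OR.of h).sP _ (hf.maps hx)).of_le one_le_inf)
  exact congrArg Cx.re h1

end natural

/-! ### images of lower dimension -/

section dim
variable {E E' : Type*} [NormedAddCommGroup E] [NormedSpace ℝ E] [FiniteDimensional ℝ E]
  [NormedAddCommGroup E'] [NormedSpace ℝ E'] [FiniteDimensional ℝ E']
  {X : Set E'} {Y : Set E} {d m : ℕ}

theorem dimH_le_of_contDiffAt {F₁ F₂ : Type*} [NormedAddCommGroup F₁] [NormedSpace ℝ F₁]
    [FiniteDimensional ℝ F₁] [NormedAddCommGroup F₂] [NormedSpace ℝ F₂] {f : F₁ → F₂} {s : Set F₁}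
    (hf : ∀ x ∈ s, ContDiffAt ℝ 1 f x) : dimH (f '' s) ≤ finrank ℝ F₁ := by
  refine (dimH_image_le_of_locally_lipschitzOn fun x hx => ?_).trans ?_
  · obtain ⟨K, t, ht, hL⟩ := (hf x hx).exists_lipschitzOnWith
    exact ⟨K, t, mem_nhdsWithin_of_mem_nhds ht, hL⟩
  · exact (dimH_mono (subset_univ s)).trans (Real.dimH_univ_eq_finrank F₁).le

/-- **a smooth map from a closed manifold to a manifold of larger dimension is not onto.** -/
theorem exists_notMem_image (hX : Clo d X) (hY : Sub m Y) (hne : Y.Nonempty) (hdm : d < m)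
    {g : E' → E} (hg : ∀ x ∈ X, ContDiffAt ℝ ∞ g x) : ∃ p ∈ Y, ∀ x ∈ X, g x ≠ p := by
  by_contra hcon
  push Not at hcon
  obtain ⟨y0, hy0⟩ := hne
  obtain ⟨f, V, hf, u0, hu0, rfl⟩ := hY y0 hy0
  obtain ⟨O, l, hO, hu0O, hl, hlV, hl0, hfl⟩ := exists_coord hf hu0
  -- finite cover of `X`
  choose! c Vc hc hxc using hX.chart
  have hcov : ∀ x ∈ X, ∃ U : Set E', IsOpen U ∧ x ∈ U ∧ X ∩ U = c x '' Vc x := by
    intro x hx
    obtain ⟨U, hU, hUe⟩ := (hc x hx).image_open (Vc x) le_rfl (hc x hx).isOpen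
    refine ⟨U, hU, ?_, hUe.symm⟩
    have h1 : x ∈ X ∩ U := hUe ▸ hxc x hx
    exact h1.2
  choose! U hU hxU hUe using hcov
  obtain ⟨t, ht⟩ := hX.compact.elim_nhds_subcover' (fun x _ => U x)
    (fun x hx => (hU x hx).mem_nhds (hxU x hx))
  -- the open set in the target chart
  set W : Set (Eu m) := V ∩ f ⁻¹' O with hW
  have hfV : ContinuousOn f V := hf.contDiffOn.continuousOn
  have hWo : IsOpen W := hfV.isOpen_inter_preimage hf.isOpen hO
  have hWn : W ∈ 𝓝 u0 := hWo.mem_nhds ⟨hu0, hu0O⟩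
  have hsub : W ⊆ ⋃ x ∈ t, (fun v => l (g (c x.1 v))) '' (Vc x.1 ∩ (fun v => g (c x.1 v)) ⁻¹' O) := by
    intro w hw
    obtain ⟨z, hz, hzw⟩ := hcon (f w) (hf.mem hw.1)
    have h1 := ht hz
    simp only [mem_iUnion, exists_prop] at h1
    obtain ⟨x, hxt, hzU⟩ := h1
    have h2 : z ∈ c x.1 '' Vc x.1 := by
      rw [← hUe x.1 x.2]; exact ⟨hz, hzU⟩
    obtain ⟨v, hv, hvz⟩ := h2
    simp only [mem_iUnion, exists_prop]
    refine ⟨x, hxt, v, ⟨hv, ?_⟩, ?_⟩
    · change g (c x.1 v) ∈ O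
      rw [hvz, hzw]; exact hw.2
    · change l (g (c x.1 v)) = w
      rw [hvz, hzw]
      refine hf.injOn (hlV _ hw.2) hw.1 (hfl _ hw.2 (hf.mem hw.1))
  have h3 : dimH W = (m : ENNReal) := by
    rw [Real.dimH_of_mem_nhds hWn]; simp
  have h4 : dimH W ≤ (d : ENNReal) := by
    refine (dimH_mono hsub).trans ?_
    refine (dimH_bUnion (s := (t : Set X)) t.countable_toSet _).le.trans ?_
    refine iSup₂_le fun x hx => ?_
    refine (dimH_le_of_contDiffAt fun v hv => ?_).trans (by simp)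
    have h5 : ContDiffAt ℝ ∞ (c x.1) v := (hc x.1 x.2).contDiffAt hv.1
    have h6 : ContDiffAt ℝ ∞ g (c x.1 v) := hg _ ((hc x.1 x.2).mem hv.1)
    have h7 : ContDiffAt ℝ ∞ l (g (c x.1 v)) := hl.contDiffAt (hO.mem_nhds hv.2)
    have h8 : ContDiffAt ℝ ∞ (fun v => l (g (c x.1 v))) v :=
      ContDiffAt.comp (g := l) v h7 (ContDiffAt.comp (g := g) v h6 h5)
    exact h8.of_le (by simp)
  rw [h3] at h4
  have h5 : m ≤ d := by exact_mod_cast h4
  omega

end dim

end Crest.Agent.R208.RI
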