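import Crest.Agent.R208.THD2
import Crest.Agent.R208.T2c

/-! Row 208, block TH-D (helper595).  THD3: `THDstmt` holds. -/

set_option autoImplicit false

open MeasureTheory

namespace Crest.Agent.R208.T

/-- **TH-D** in the form used by T2c -/
theorem thdStmt : THDstmt := by
  intro n _ _ E _ _ _ ι ι' _ _ _ _ _ _ X P W W' h h' x hx
  exact thom_unit_pt (volume : Measure (EuclideanSpace ℝ n)) h h' hx

end Crest.Agent.R208.T
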