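import Crest.Agent.R208.TP3

/-! Row 208, block TP (helper382).  TP4: quotient maps on total spaces; descent of basic forms with
compact vertical support on `P₂ ⊕ P₁`. -/

set_option autoImplicit false
set_option linter.unusedSectionVars false
set_option linter.unusedVariables false
set_option maxHeartbeats 1000000

open MeasureTheory Set Filter Topology Module
open scoped ContDiff RealInnerProductSpace
open Crest.Agent.R208.F Crest.Agent.R208.FI Crest.Agent.R208.CW Crest.Agent.R208.T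
open Crest.Agent.R208.CM

noncomputable section

namespace Crest.Agent.R208.TP

section tot
variable {E E' : Type*} [NormedAddCommGroup E] [NormedSpace ℝ E] [FiniteDimensional ℝ E]
  [NormedAddCommGroup E'] [NormedSpace ℝ E'] [FiniteDimensional ℝ E']
  {W V : Type*} [NormedAddCommGroup W] [InnerProductSpace ℝ W] [FiniteDimensional ℝ W]
  [NormedAddCommGroup V] [InnerProductSpace ℝ V] [FiniteDimensional ℝ V]
  {X : Set E} {Y : Set E'} {φ : ℝ → E → E} {q : E → E'} {R : ℝ → W →L[ℝ] W}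
  {T : E → W →L[ℝ] V} {P : E → W →L[ℝ] W} {P' : E' → V →L[ℝ] V} {r : ℕ}

theorem hasFDerivAt_Th {x : E} {w : W} (hq : DifferentiableAt ℝ q x)
    (hT : DifferentiableAt ℝ T x) :
    HasFDerivAt (Th q T) (((fderiv ℝ q x).comp (ContinuousLinearMap.fst ℝ E W)).prod
      ((T x).comp (ContinuousLinearMap.snd ℝ E W) +
        ((fderiv ℝ T x).comp (ContinuousLinearMap.fst ℝ E W)).flip w)) (x, w) := by
  have h1 : HasFDerivAt (fun z : E × W => q z.1)
      ((fderiv ℝ q x).comp (ContinuousLinearMap.fst ℝ E W)) (x, w) :=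
    HasFDerivAt.comp (g := q) (f := fun z : E × W => z.1) (x, w) hq.hasFDerivAt hasFDerivAt_fst
  have h2 : HasFDerivAt (fun z : E × W => T z.1)
      ((fderiv ℝ T x).comp (ContinuousLinearMap.fst ℝ E W)) (x, w) :=
    HasFDerivAt.comp (g := T) (f := fun z : E × W => z.1) (x, w) hT.hasFDerivAt hasFDerivAt_fst
  have h3 := h2.clm_apply (hasFDerivAt_snd (𝕜 := ℝ) (E := E) (F := W) (p := (x, w)))
  exact h1.prodMk h3

theorem smap_Th (hq : QM X φ Y q) (hT : Triv X φ R T) (hP' : ∀ x ∈ X, P' (q x) = Qd T P x) :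
    SMap (Tot X P) (Tot Y P') (Th q T) := by
  refine ⟨fun z hz => ?_, fun z hz => ⟨hq.smap.maps hz.1, ?_⟩⟩
  · exact ((hq.smap.smooth z.1 hz.1).comp z contDiffAt_fst).prodMk
      (((hT.smooth z.1 hz.1).comp z contDiffAt_fst).clm_apply contDiffAt_snd)
  · change P' (q z.1) (T z.1 z.2) = T z.1 z.2
    rw [hP' _ hz.1, hT.Qd_T hz.1, hz.2]

/-- **total spaces**: `(x,w) ↦ (q x, T x w)` is the quotient map of `(φ t, R t)` -/
theorem QM.tot (hq : QM X φ Y q) (h : Cir X φ) (hR : Rep R) (hT : Triv X φ R T)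
    (hP : PField X r P) (he : ∀ x ∈ X, ∀ t w, P (φ t x) (R t w) = R t (P x w))
    (hsP' : ContinuousOn P' Y) (hP' : ∀ x ∈ X, P' (q x) = Qd T P x) :
    QM (Tot X P) (phR φ R) (Tot Y P') (Th q T) where
  smap := smap_Th hq hT hP'
  act := fun z hz t => Prod.ext (hq.act _ hz.1 t) (hT.equi _ hz.1 t z.2)
  sep := by
    intro z hz z' hz' hzz
    have h1 : q z.1 = q z'.1 := congrArg Prod.fst hzz
    have h2 : T z.1 z.2 = T z'.1 z'.2 := congrArg Prod.snd hzz
    obtain ⟨t, ht⟩ := hq.sep _ hz.1 _ hz'.1 h1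
    refine ⟨t, Prod.ext ht ?_⟩
    rw [ht, hT.equi' hR hz.1] at h2
    have h3 := hT.inj hz.1 h2
    change z'.2 = R t z.2
    rw [h3, hR.add_neg]
  ker := by
    rintro ⟨x, w⟩ ⟨hx, hw⟩ ⟨v1, v2⟩ hv h0
    change x ∈ X at hx
    have hqd := hq.smap.diff hx
    have hTd : DifferentiableAt ℝ T x := (hT.smooth x hx).differentiableAt (by simp)
    have hTh := hasFDerivAt_Th (w := w) hqd hTd
    have hv1 : v1 ∈ Tan X x := by
      have := fderiv_mapsTo_Tan (X := Tot X P) (Y := X) (h := (Prod.fst : E × W → E))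
        (x := (x, w)) differentiableAt_fst (fun z hz => hz.1) hv
      rwa [fderiv_fst] at this
    have e1 : fderiv ℝ q x v1 = 0 := by
      have := congrArg Prod.fst h0
      rw [hTh.fderiv] at this
      exact this
    obtain ⟨c, hc⟩ := hq.ker x hx v1 hv1 e1
    -- the generator
    have htot := Cir.tot h hR he
    have hd1 : HasDerivAt (fun t => phR φ R t (x, w)) (gen (phR φ R) (x, w)) 0 := by
      have := (htot.smooth_left 0 (x := (x, w)) ⟨hx, hw⟩).differentiableAt (by simp)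
      exact this.hasDerivAt
    have hg1 : (gen (phR φ R) (x, w)).1 = gen φ x := by
      have h2 : HasDerivAt (fun t => φ t x) (gen (phR φ R) (x, w)).1 0 :=
        (ContinuousLinearMap.fst ℝ E W).hasFDerivAt.comp_hasDerivAt (0 : ℝ) hd1
      exact h2.deriv.symm
    have hz0 : phR φ R 0 (x, w) = (x, w) := htot.zero (x, w) ⟨hx, hw⟩
    have hg2 : fderiv ℝ (Th q T) (x, w) (gen (phR φ R) (x, w)) = 0 := by
      have h3 : HasFDerivAt (Th q T) (fderiv ℝ (Th q T) (x, w)) (phR φ R 0 (x, w)) := by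
        rw [hz0]; exact hTh.differentiableAt.hasFDerivAt
      have h4 := h3.comp_hasDerivAt (0 : ℝ) hd1
      have h5 : (Th q T) ∘ (fun t => phR φ R t (x, w)) = fun _ => Th q T (x, w) := by
        funext t
        exact Prod.ext (hq.act _ hx t) (hT.equi _ hx t w)
      rw [h5] at h4
      exact h4.unique (hasDerivAt_const (0 : ℝ) (Th q T (x, w)))
    refine ⟨c, ?_⟩
    have h6 : fderiv ℝ (Th q T) (x, w) ((v1, v2) - c • gen (phR φ R) (x, w)) = 0 := by
      rw [map_sub, map_smul, hg2, h0, smul_zero, sub_zero]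
    have h7 : ((v1, v2) - c • gen (phR φ R) (x, w)).1 = 0 := by
      change v1 - c • (gen (phR φ R) (x, w)).1 = 0
      rw [hg1, hc, sub_self]
    set k := ((v1, v2) - c • gen (phR φ R) (x, w)) with hk
    have h8 : T x k.2 = 0 := by
      have := congrArg Prod.snd h6
      rw [hTh.fderiv] at this
      change T x k.2 + (fderiv ℝ T x k.1) w = 0 at this
      rwa [h7, map_zero, _root_.zero_apply, add_zero] at this
    have h9 : k.2 = 0 := hT.inj hx (by rw [h8, map_zero])
    have h10 : k = 0 := Prod.ext h7 h9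
    exact sub_eq_zero.1 h10
  sec := by
    rintro ⟨x, w⟩ ⟨hx, hw⟩
    change x ∈ X at hx
    change P x w = w at hw
    obtain ⟨σ, O', a1, a2, a3, a5, a6, a4⟩ := hq.sec x hx
    have hadj : ContDiff ℝ ∞ (fun A : W →L[ℝ] V => ContinuousLinearMap.adjoint A) :=
      (ContinuousLinearMap.adjoint (𝕜 := ℝ) (E := W) (F := V)).toLinearIsometry.contDiff
    refine ⟨fun z => (σ z.1, P (σ z.1) (ContinuousLinearMap.adjoint (T (σ z.1)) z.2)),
      O' ×ˢ univ, a1.prod isOpen_univ, ⟨a2, mem_univ _⟩, ?_, ?_, ?_, ?_⟩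
    · rintro ⟨b, v⟩ ⟨hb, -⟩
      have hσ : ContDiffAt ℝ ∞ (fun z : E' × V => σ z.1) (b, v) :=
        (a3.contDiffAt (a1.mem_nhds hb)).comp (b, v) contDiffAt_fst
      have hPσ : ContDiffAt ℝ ∞ (fun z : E' × V => P (σ z.1)) (b, v) :=
        (hP.smooth _ (a5 b hb)).comp (b, v) hσ
      have hTσ : ContDiffAt ℝ ∞ (fun z : E' × V => ContinuousLinearMap.adjoint (T (σ z.1)))
          (b, v) :=
        hadj.contDiffAt.comp (b, v) ((hT.smooth _ (a5 b hb)).comp (b, v) hσ)
      exact (hσ.prodMk (hPσ.clm_apply (hTσ.clm_apply contDiffAt_snd))).contDiffWithinAt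
    · rintro ⟨b, v⟩ ⟨hb, -⟩
      exact ⟨a5 b hb, hP.idem _ (a5 b hb) _⟩
    · rintro ⟨b, v⟩ ⟨⟨hbY, hv⟩, hb, -⟩
      change b ∈ Y at hbY
      change P' b v = v at hv
      have hq1 : q (σ b) = b := a6 b ⟨hbY, hb⟩
      refine Prod.ext hq1 ?_
      change T (σ b) (P (σ b) (ContinuousLinearMap.adjoint (T (σ b)) v)) = v
      rw [← Qd_apply, ← hP' _ (a5 b hb), hq1, hv]
    · refine Prod.ext a4 ?_
      change P (σ (q x)) (ContinuousLinearMap.adjoint (T (σ (q x))) (T x w)) = w
      rw [a4, hT.adj hx, hw]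
  surj := by
    rintro ⟨b, v⟩ ⟨hb, hv⟩
    obtain ⟨x, hx, rfl⟩ := hq.surj b hb
    change P' (q x) v = v at hv
    rw [hP' x hx] at hv
    obtain ⟨h3, h4⟩ := hT.mem_range hx hv
    exact ⟨(x, ContinuousLinearMap.adjoint (T x) v), ⟨hx, h4⟩, Prod.ext rfl h3⟩
  clos := by
    have h1 : Tot Y P' = (Y ×ˢ (univ : Set V)) ∩ (fun z : E' × V => P' z.1 z.2 - z.2) ⁻¹' {0} := by
      ext z
      simp only [Tot, mem_inter_iff, mem_prod, mem_univ, and_true, mem_preimage,
        mem_singleton_iff, sub_eq_zero]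
      rfl
    rw [h1]
    refine ContinuousOn.preimage_isClosed_of_isClosed ?_ (hq.clos.prod isClosed_univ)
      isClosed_singleton
    exact ((hsP'.comp continuousOn_fst fun z hz => hz.1).clm_apply continuousOn_snd).sub
      continuousOn_snd

end tot

end Crest.Agent.R208.TP
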