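import Crest.Agent.R208.T2

/-! Row 208, block VE (helper812).  VE1: the fibre integral `pu` of forms on the total space of a
field of projections (any rank), by the Thom form of the complement. -/

set_option autoImplicit false
set_option linter.unusedSectionVars false
set_option linter.unusedVariables false

open MeasureTheory Set Filter Topology Module
open scoped ContDiff
open Crest.Agent.R208.F Crest.Agent.R208.FI Crest.Agent.R208.CW Crest.Agent.R208.T

noncomputable section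

namespace Crest.Agent.R208.VE

universe u w

variable {E : Type u} {H : Type w} [NormedAddCommGroup E] [NormedSpace ℝ E] [FiniteDimensional ℝ E]
  [NormedAddCommGroup H] [InnerProductSpace ℝ H] [FiniteDimensional ℝ H]
  {X : Set E} {P : E → H →L[ℝ] H} {r d : ℕ} {R R' R₁ : ℝ}
  {τ' om om' a b : E × H → Ext (E × H)}

/-- compact vertical support, up to restriction -/
def Cs (X : Set E) (P : E → H →L[ℝ] H) (R : ℝ) (om : E × H → Ext (E × H)) : Prop :=
  Eqv (Tot X P ∩ {z | R < ‖z.2‖}) om 0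

theorem Cs.mono (h : Cs X P R om) (hR : R ≤ R') : Cs X P R' om :=
  Eqv.mono_tan (X := Tot X P ∩ {z | R < ‖z.2‖}) (fun z hz => ⟨hz.1, hR.trans_lt hz.2⟩) h

theorem Cs.add (h : Cs X P R a) (h' : Cs X P R b) : Cs X P R (a + b) := by
  have := Eqv.add h h'; rwa [add_zero] at this

theorem Cs.sub (h : Cs X P R a) (h' : Cs X P R b) : Cs X P R (a - b) := by
  have := Eqv.sub h h'; rwa [sub_zero] at this

theorem Cs.smul (c : ℝ) (h : Cs X P R a) : Cs X P R (c • a) := by
  have := Eqv.smul c h; rwa [smul_zero] at this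

theorem Cs.neg (h : Cs X P R a) : Cs X P R (-a) := by
  have := Eqv.neg h; rwa [neg_zero] at this

theorem Cs.mul_right (h : Cs X P R a) (b : E × H → Ext (E × H)) : Cs X P R (a * b) := by
  have := Eqv.mul h (Eqv.refl b); rwa [zero_mul] at this

theorem Cs.mul_left (h : Cs X P R b) (a : E × H → Ext (E × H)) : Cs X P R (a * b) := by
  have := Eqv.mul (Eqv.refl a) h; rwa [mul_zero] at this

theorem Cs.of_eqv (h : Eqv (Tot X P) a b) (h' : Cs X P R b) : Cs X P R a :=
  (h.mono_tan inter_subset_left).trans h'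

theorem sub_out (hX : Sub d X) (hP : PField X r P) (R : ℝ) :
    Sub (d + r) (Tot X P ∩ {z | R < ‖z.2‖}) := Sub.inter_open' (hP.sub_tot hX) (isOpen_out R)

theorem Cs.dd (hX : Sub d X) (hP : PField X r P) (hs : Sm (Tot X P) a) (h : Cs X P R a) :
    Cs X P R (F.d a) := by
  have := T.Eqv.d (sub_out hX hP R) (hs.mono inter_subset_left) Sm.zero h
  rwa [d_zero'] at this

theorem Cs.cut (hR : 0 ≤ R) (h : Cs X P R a) : Eqv (Tot X P) (cutH R a) a := eqv_cutH' hR h

theorem eqv_cut (h : Eqv (Tot X P) a b) : Eqv (Tot X P) (cutH R a) (cutH R b) := by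
  refine eqv_iff.2 fun z hz => ?_
  rw [T.cutH, T.cutH, map_smul, map_smul, eqv_iff.1 h z hz]

theorem Cs.iff (hR : 0 ≤ R) (h : Vt R a) : Cs X P R a :=
  Eqv.of_eq fun z hz => h z hz.2

variable [MeasurableSpace H] [BorelSpace H]

/-- **fibre integral** of forms on the total space of `P` -/
def pu (μ : Measure H) (P : E → H →L[ℝ] H) (τ' : E × H → Ext (E × H)) (R : ℝ)
    (om : E × H → Ext (E × H)) : E → Ext E := pI μ (thE' P τ' (cutH R om))

variable (μ : Measure H) [μ.IsAddHaarMeasure]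

/-- the hypotheses on the form `τ'` on the complement -/
structure Co (X : Set E) (P : E → H →L[ℝ] H) (R₁ : ℝ) (τ' : E × H → Ext (E × H)) : Prop where
  csf : CSF X (fun x => 1 - P x) R₁ τ'
  even : ∀ z, F.inv (τ' z) = τ' z

section
variable (hR : 0 ≤ R) (hP : PField X r P) (hC : Co X P R₁ τ')
include hR hP hC

theorem vt_th (om : E × H → Ext (E × H)) :
    Vt (2 * max R₁ (R + 1)) (thE' P τ' (cutH R om)) := by
  refine vt_eta' (fun z hz => hC.csf.supp z (lt_of_le_of_lt (le_max_left _ _) hz)) fun z hz => ?_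
  exact Vt.cutH hR z (lt_of_le_of_lt (le_max_right _ _) hz)

theorem sm_th (hs : Sm (Tot X P) om) : Sm (X ×ˢ (univ : Set H)) (thE' P τ' (cutH R om)) :=
  sm_eta' hP hC.csf.smooth hs.cutH

theorem pu_sm (hs : Sm (Tot X P) om) : Sm X (pu μ P τ' R om) :=
  sm_pI μ (vt_th hR hP hC om) (sm_th hR hP hC hs)

theorem pu_sub (hs : Sm (Tot X P) a) (hs' : Sm (Tot X P) b) :
    Eqv X (pu μ P τ' R (a - b)) (pu μ P τ' R a - pu μ P τ' R b) := by
  refine Eqv.of_eq fun x hx => ?_
  have h1 : thE' P τ' (cutH R (a - b)) = thE' P τ' (cutH R a) - thE' P τ' (cutH R b) := by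
    have h2 : cutH R (a - b) = cutH R a - cutH R b := funext fun z => by
      simp only [cutH, Pi.sub_apply, smul_sub]
    rw [thE', thE', thE', h2, pull_sub', mul_sub]
  rw [pu, h1]
  exact pI_sub μ (vt_th hR hP hC a) (sm_th hR hP hC hs) (vt_th hR hP hC b) (sm_th hR hP hC hs') hx

theorem pu_smul (c : ℝ) (a : E × H → Ext (E × H)) :
    pu μ P τ' R (c • a) = c • pu μ P τ' R a := by
  funext x
  have h1 : thE' P τ' (cutH R (c • a)) = c • thE' P τ' (cutH R a) := by
    have h2 : cutH R (c • a) = c • cutH R a := funext fun z => by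
      simp only [cutH, Pi.smul_apply]; rw [smul_comm]
    rw [thE', thE', h2, pull_smul', mul_smul_comm]
  rw [pu, h1, Pi.smul_apply, pu, pI_eq, pI_eq]
  simp only [Pi.smul_apply, map_smul]
  exact integral_smul c _

theorem pu_neg (a : E × H → Ext (E × H)) : pu μ P τ' R (-a) = - pu μ P τ' R a := by
  have := pu_smul μ hR hP hC (-1) a
  simpa using this

theorem pu_add (hs : Sm (Tot X P) a) (hs' : Sm (Tot X P) b) :
    Eqv X (pu μ P τ' R (a + b)) (pu μ P τ' R a + pu μ P τ' R b) := by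
  have h1 := pu_sub μ hR hP hC hs hs'.neg
  rw [sub_neg_eq_add, pu_neg μ hR hP hC, sub_neg_eq_add] at h1
  exact h1

theorem pu_eqv (hs : Sm (Tot X P) a) (hs' : Sm (Tot X P) b) (h : Eqv (Tot X P) a b) :
    Eqv X (pu μ P τ' R a) (pu μ P τ' R b) := by
  refine eqv_pI μ (vt_th hR hP hC a) (sm_th hR hP hC hs) (vt_th hR hP hC b)
    (sm_th hR hP hC hs') ?_
  exact (Eqv.refl _).mul (Eqv.pull (smap_nbet hP) (eqv_cut h))

/-- projection formula -/
theorem pu_mul (hs : Sm (Tot X P) a) (β : E → Ext E) :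
    Eqv X (pu μ P τ' R (a * F.pull Prod.fst β)) (pu μ P τ' R a * β) := by
  refine Eqv.of_eq fun x hx => ?_
  have h1 : cutH R (a * F.pull (Prod.fst : E × H → E) β) = cutH R a * F.pull Prod.fst β :=
    funext fun z => by simp only [cutH, Pi.mul_apply, smul_mul_assoc]
  have h2 : ∀ z ∈ X ×ˢ (univ : Set H),
      F.pull (nbet P) (F.pull (Prod.fst : E × H → E) β) z = F.pull Prod.fst β z := by
    intro z hz
    have hd := (smap_nbet hP).diff hz
    rw [F.pull_comp hd differentiableAt_fst]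
    rfl
  have h3 : pI μ (thE' P τ' (cutH R a) * F.pull (Prod.fst : E × H → E) β) x
      = pI μ (thE' P τ' (cutH R a)) x * β x :=
    pI_mul_fst μ (vt_th hR hP hC a) (sm_th hR hP hC hs) hx β
  rw [pu, Pi.mul_apply, pu, ← h3, pI_eq, pI_eq]
  refine integral_congr_ae (Eventually.of_forall fun h => ?_)
  change cH _ _ (thE' P τ' (cutH R (a * F.pull (Prod.fst : E × H → E) β)) (x, h)) =
    cH _ _ ((thE' P τ' (cutH R a) * F.pull (Prod.fst : E × H → E) β) (x, h))
  rw [h1, thE', thE', pull_mul', Pi.mul_apply, Pi.mul_apply, Pi.mul_apply, Pi.mul_apply,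
    h2 (x, h) ⟨hx, mem_univ _⟩, mul_assoc]

/-- the fibre integral and `d` -/
theorem pu_d (hX : Sub d X) (hs : Sm (Tot X P) a) (hc : Cs X P R a) :
    Eqv X (pu μ P τ' R (F.d a)) ((-1 : ℝ) ^ finrank ℝ H • F.d (pu μ P τ' R a)) := by
  have hT := hP.sub_tot hX
  have h0 : Eqv (Tot X P) (F.d (cutH R a)) (F.d a) := T.Eqv.d hT hs.cutH hs (Cs.cut hR hc)
  have h1 : Eqv (Tot X P) (cutH R (F.d a)) (F.d (cutH R a)) :=
    (Cs.cut hR (Cs.dd hX hP hs hc)).trans h0.symm
  have v1 : Vt (2 * max R₁ (R + 1)) (F.d (thE' P τ' (cutH R a))) := (vt_th hR hP hC a).d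
  have hsub : Sub (d + finrank ℝ H) (X ×ˢ (univ : Set H)) :=
    hX.prod (sub_open rfl isOpen_univ)
  have s1 := sm_th hR hP hC hs
  have e1 : Eqv (X ×ˢ (univ : Set H)) (thE' P τ' (cutH R (F.d a))) (F.d (thE' P τ' (cutH R a))) := by
    have sg : Sm (X ×ˢ (univ : Set H)) (F.pull (gam P) τ') := hC.csf.smooth.pull (smap_gam hP)
    have cg : Cl (X ×ˢ (univ : Set H)) (F.pull (gam P) τ') :=
      hC.csf.closed.pull (smap_gam hP) hC.csf.smooth
    have sn : Sm (X ×ˢ (univ : Set H)) (F.pull (nbet P) (cutH R a)) := hs.cutH.pull (smap_nbet hP)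
    refine Eqv.trans ?_ (d_mul_eqv sg sn).symm
    have i1 : (fun z => F.inv (F.pull (gam P) τ' z)) = F.pull (gam P) τ' := funext fun z => by
      rw [F.pull, ← pb_inv, hC.even]
    rw [i1]
    have e2 : Eqv (X ×ˢ (univ : Set H)) (F.d (F.pull (gam P) τ') * F.pull (nbet P) (cutH R a)) 0 := by
      have := (resZero_iff.1 cg).mul (Eqv.refl (F.pull (nbet P) (cutH R a)))
      rwa [zero_mul] at this
    have e3 : Eqv (X ×ˢ (univ : Set H)) (F.pull (nbet P) (cutH R (F.d a)))
        (F.d (F.pull (nbet P) (cutH R a))) :=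
      (Eqv.pull (smap_nbet hP) h1).trans (d_pull_eqv (smap_nbet hP) hs.cutH).symm
    have := e2.symm.add ((Eqv.refl (F.pull (gam P) τ')).mul e3)
    rwa [zero_add] at this
  have e4 := eqv_pI μ (vt_th hR hP hC (F.d a)) (sm_th hR hP hC hs.d) v1 s1.d e1
  refine e4.trans (Eqv.of_eq fun x hx => ?_)
  exact d_pI μ (vt_th hR hP hC a) s1 hx

theorem pu_coh (hX : Sub d X) (hs : Sm (Tot X P) a) (hc : Cs X P R a) :
    Coh X (pu μ P τ' R (F.d a)) 0 := by
  refine ⟨(-1 : ℝ) ^ finrank ℝ H • pu μ P τ' R a, (pu_sm μ hR hP hC hs).smul _, ?_⟩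
  rw [sub_zero]
  exact (pu_d μ hR hP hC hX hs hc).trans (d_smul_eqv _ (pu_sm μ hR hP hC hs)).symm

theorem pu_cl (hX : Sub d X) (hs : Sm (Tot X P) a) (hc : Cs X P R a) (hcl : Cl (Tot X P) a) :
    Cl X (pu μ P τ' R a) := by
  have h1 := pu_d μ hR hP hC hX hs hc
  have h2 : Eqv X (pu μ P τ' R (F.d a)) 0 := by
    have := pu_eqv μ hR hP hC hs.d Sm.zero (resZero_iff.1 hcl)
    have h0 : pu μ P τ' R (0 : E × H → Ext (E × H)) = 0 := by
      have := pu_smul μ hR hP hC 0 a
      simpa using this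
    rwa [h0] at this
  have h3 := (h1.symm.trans h2).smul ((-1 : ℝ) ^ finrank ℝ H)
  rw [smul_smul, ← mul_pow, neg_one_mul, neg_neg, one_pow, one_smul, smul_zero] at h3
  exact resZero_iff.2 h3

/-- the fibre integral does not depend on the radius -/
theorem pu_radius (hRR : R ≤ R') (hs : Sm (Tot X P) a) (hc : Cs X P R a) :
    Eqv X (pu μ P τ' R a) (pu μ P τ' R' a) := by
  have hR' : 0 ≤ R' := hR.trans hRR
  refine eqv_pI μ (R := max (2 * max R₁ (R + 1)) (2 * max R₁ (R' + 1)))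
    ((vt_th hR hP hC a).mono (le_max_left _ _)) (sm_th hR hP hC hs)
    ((vt_th hR' hP hC a).mono (le_max_right _ _)) (sm_th hR' hP hC hs) ?_
  exact (Eqv.refl _).mul (Eqv.pull (smap_nbet hP)
    ((Cs.cut hR hc).trans (Cs.cut hR' (hc.mono hRR)).symm))

end

end Crest.Agent.R208.VE
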