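import Crest.Agent.R208.EX6
import Crest.Agent.R208.TP4
import Crest.Agent.R208.VE1

/-!
R208, block EX (helper530), part EX7: **(LAM)**: basic forms on a total space come from the
quotient; a primitive on the quotient gives a basic primitive; the model `Mod`.
-/

set_option autoImplicit false
set_option linter.unusedSectionVars false
set_option linter.unusedVariables false

open MeasureTheory Set Filter Topology Module
open scoped ContDiff
open Crest.Agent.R208.F Crest.Agent.R208.FI Crest.Agent.R208.CW Crest.Agent.R208.T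
open Crest.Agent.R208.CM
open Crest.Agent.R208.TP (QM)
open Crest.Agent.R208.VC

noncomputable section

namespace Crest.Agent.R208.EX

section qm
variable {E E' : Type*} [NormedAddCommGroup E] [NormedSpace ℝ E] [FiniteDimensional ℝ E]
  [NormedAddCommGroup E'] [NormedSpace ℝ E'] [FiniteDimensional ℝ E']
  {X : Set E} {Y : Set E'} {φ : ℝ → E → E} {q : E → E'} {a : E' → Ext E'} {b : E → Ext E} {m : ℕ}

/-- a form pulled back from the quotient is invariant -/
theorem QM.inv_pull (hq : QM X φ Y q) (h : Act X φ) (ha : Sm Y a) : Inv X φ (F.pull q a) := by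
  intro t
  refine Eqv.trans (b := F.pull (fun x => q (φ t x)) a) (Eqv.of_eq fun x hx =>
    F.pull_comp ((smap h t).diff hx) (hq.smap.diff (h.maps t hx))) ?_
  refine eqv_pull_of_eq a (fun x hx => ?_) (fun x hx => hq.smap.diff hx)
    fun x hx => hq.act x hx t
  exact (hq.smap.comp (smap h t)).diff hx

/-- a form pulled back from the quotient is horizontal -/
theorem QM.hz_pull (hq : QM X φ Y q) (h : Act X φ) : Hz X φ (F.pull q a) := by
  refine Eqv.of_eq fun x hx => ?_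
  have h1 : fderiv ℝ q x (gen φ x) = 0 := by
    have h2 : HasDerivAt (fun t => φ t x) (gen φ x) 0 := by
      have := (h.smooth 0 x hx).comp (0 : ℝ) (contDiffAt_id.prodMk contDiffAt_const)
      exact (this.differentiableAt (by simp)).hasDerivAt
    have h3 : HasFDerivAt q (fderiv ℝ q x) (φ 0 x) := by
      rw [h.zero x hx]; exact (hq.smap.diff hx).hasFDerivAt
    have h4 := h3.comp_hasDerivAt (0 : ℝ) h2
    have h5 : q ∘ (fun t => φ t x) = fun _ => q x := funext fun t => hq.act x hx t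
    rw [h5] at h4
    exact h4.unique (hasDerivAt_const (0 : ℝ) (q x))
  change ii (gen φ x) (pb (fderiv ℝ q x : E →ₗ[ℝ] E') (a (q x))) = 0
  rw [ii_pb]
  change pb _ (ii (fderiv ℝ q x (gen φ x)) (a (q x))) = 0
  rw [h1, map_zero, LinearMap.zero_apply, map_zero]

/-- a primitive on the quotient gives a basic primitive -/
theorem QM.prim (hq : QM X φ Y q) (h : Act X φ) (ha : Sm Y a) {v : E' → Ext E'}
    (hv : Eqv Y v (F.d a)) (hb : Eqv X (F.pull q v) b) :
    Sm X (F.pull q a) ∧ Inv X φ (F.pull q a) ∧ Hz X φ (F.pull q a) ∧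
      Eqv X b (F.d (F.pull q a)) :=
  ⟨ha.pull hq.smap, QM.inv_pull hq h ha, QM.hz_pull hq h,
    hb.symm.trans ((hv.pull hq.smap).trans (d_pull_eqv hq.smap ha).symm)⟩

end qm

section tot
variable {E E' : Type*} [NormedAddCommGroup E] [NormedSpace ℝ E] [FiniteDimensional ℝ E]
  [NormedAddCommGroup E'] [NormedSpace ℝ E'] [FiniteDimensional ℝ E']
  {W V : Type*} [NormedAddCommGroup W] [InnerProductSpace ℝ W] [FiniteDimensional ℝ W]
  [NormedAddCommGroup V] [InnerProductSpace ℝ V] [FiniteDimensional ℝ V]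
  {X : Set E} {Y : Set E'} {φ : ℝ → E → E} {q : E → E'} {R : ℝ → W →L[ℝ] W}
  {T : E → W →L[ℝ] V} {P : E → W →L[ℝ] W} {P' : E' → V →L[ℝ] V} {r d : ℕ} {ρ : ℝ}
  {V₀ : E × W → Ext (E × W)}

/-- **descent** of a closed basic form with bounded vertical support -/
theorem exists_desc (hQ : QM (Tot X P) (phR φ R) (Tot Y P') (Th q T))
    (hC : Cir (Tot X P) (phR φ R)) (hX : Sub d (Tot X P)) (hT : Triv X φ R T) (hρ : 0 ≤ ρ)
    (sV : Sm (Tot X P) V₀) (cV : Cl (Tot X P) V₀) (iV : Inv (Tot X P) (phR φ R) V₀)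
    (bV : Hz (Tot X P) (phR φ R) V₀)
    (zV : ∀ z ∈ Tot X P, ρ < ‖z.2‖ → rsL (Tot X P) z (V₀ z) = 0) :
    ∃ V' : E' × V → Ext (E' × V), ContDiff ℝ ∞ V' ∧ Cl (Tot Y P') V' ∧
      (∀ y, ρ + 1 < ‖y.2‖ → V' y = 0) ∧ VE.Cs Y P' ρ V' ∧
      Eqv (Tot X P) (F.pull (Th q T) V') V₀ := by
  obtain ⟨V₁, s₁, e₁⟩ := hQ.exists_basic hC sV iV bV
  set Q := Th q T with hQd
  have hn : ∀ z ∈ Tot X P, ‖(Q z).2‖ = ‖z.2‖ := fun z hz => hT.iso _ hz.1 _
  have z₁ : ∀ y ∈ Tot Y P', ρ < ‖y.2‖ → pb (Tan (Tot Y P') y).subtype (V₁ y) = 0 := by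
    intro y hy hy2
    obtain ⟨z, hz, rfl⟩ := hQ.surj y hy
    rw [hn z hz] at hy2
    have h1 := hQ.pt_of_pull hz (c := V₁ (Q z)) (c' := 0) (by
      have := eqv_iff.1 e₁ z hz
      have h0 := zV z hz hy2
      rw [rsL_apply] at h0
      rw [h0] at this
      rw [map_zero, map_zero]
      exact this)
    rwa [map_zero] at h1
  have e2 : Eqv (Tot Y P') (cutH ρ V₁) V₁ := by
    refine eqv_iff.2 fun z hz => ?_
    by_cases h1 : ρ < ‖z.2‖
    · rw [cutH, map_smul, z₁ z hz h1, smul_zero]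
    · rw [cutH, chi_one hρ (not_lt.1 h1), one_smul]
  have s2 : ContDiff ℝ ∞ (cutH ρ V₁) := ((contDiff_chi ρ).comp contDiff_snd).smul s₁
  have s2' : ∀ Z : Set (E' × V), Sm Z (cutH ρ V₁) := fun Z y _ => s2.contDiffAt
  have e3 : Eqv (Tot X P) (F.pull Q (cutH ρ V₁)) V₀ := (e2.pull hQ.smap).trans e₁
  refine ⟨cutH ρ V₁, s2, ?_, fun y hy => ?_, ?_, e3⟩
  · exact hQ.cl_of_pull (s2' _) (Cl.of_eqv hX ((s2' _).pull hQ.smap) sV e3 cV)
  · rw [cutH, chi_zero hρ hy.le, zero_smul]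
  · refine eqv_iff.2 fun z hz => ?_
    have h3 : rsL (Tot Y P') z (cutH ρ V₁ z) = rsL (Tot Y P') z 0 := by
      rw [map_zero, rsL_apply, eqv_iff.1 e2 z hz.1]
      exact z₁ z hz.1 hz.2
    exact rs_sub (X' := Tot Y P' ∩ {z | ρ < ‖z.2‖}) inter_subset_left h3

variable {S' : Type*} [NormedAddCommGroup S'] [NormedSpace ℝ S'] [FiniteDimensional ℝ S']
  {S : Set S'} {om : S' → Ext S'} {θ0 : E → Ext E} {f1 : E × W → S'} {p p' : ℕ} {s t : ℝ}

/-- the form of a family with constant loops far out has bounded vertical support -/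
theorem zero_vv (hA : Act (Tot X P) (phR φ R)) (hf : SMap (Tot X P) S f1) (hdat : Dat S om)
    {e : E × W → Ext (E × W)}
    (hconst : ∀ y ∈ Tot X P, 9 / 4 ≤ ‖y.2‖ ^ 2 → ∀ t, f1 (phR φ R t y) = f1 y)
    {z : E × W} (hz : z ∈ Tot X P) (h : 3 / 2 < ‖z.2‖) :
    rsL (Tot X P) z (vv (phR φ R) e p p' s t (F.pull f1 om) z) = 0 := by
  refine rs_vv_eq_zero hA (hdat.pull hf).sm hz (ii_cv_pull hA hz
    (fun t => hf.diff (hA.maps t hz)) (hconst z hz ?_))
  nlinarith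

/-- **(LAM)**: from a primitive with bounded vertical support on the quotient -/
theorem exists_mod_of_prim (hQ : QM (Tot X P) (phR φ R) (Tot Y P') (Th q T))
    (hC : Cir (Tot X P) (phR φ R)) (hX : Sub d (Tot X P)) (hT : Triv X φ R T)
    (hact : Act X φ) (hR : ∀ t w, ‖R t w‖ = ‖w‖) (hcn : Cn X φ θ0)
    (hf : SMap (Tot X P) S f1) (hdat : Dat S om)
    (hconst : ∀ y ∈ Tot X P, 9 / 4 ≤ ‖y.2‖ ^ 2 → ∀ t, f1 (phR φ R t y) = f1 y)
    {V' : E' × V → Ext (E' × V)} {η' : E' × V → Ext (E' × V)} {ρ' : ℝ}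
    (hV : Eqv (Tot X P) (F.pull (Th q T) V')
      (vv (phR φ R) (F.d (F.pull (fun y : E × W => y.1) θ0)) p p' s t (F.pull f1 om)))
    (hη : Sm (Tot Y P') η') (hd : Eqv (Tot Y P') V' (F.d η')) (h0 : ∀ y, ρ' < ‖y.2‖ → η' y = 0) :
    ∃ lam : E × W → Ext (E × W),
      Mod S om (Tot X P) (phR φ R) (F.pull (fun y : E × W => y.1) θ0) f1 lam p p' s t ∧
      ∀ y ∈ Tot X P, 64 / 25 ≤ ‖y.2‖ ^ 2 → lam y = 0 := by
  obtain ⟨h1, h2, h3, h4⟩ := QM.prim hQ (Act.of_cir hC) hη hd hV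
  refine exists_mod (ρ := ρ') ⟨d, hX⟩ hact (Act.of_cir hC) hR hcn hf hdat hconst h1 h2 h3 h4
    fun y hy hy2 => ?_
  have h5 : ‖(Th q T y).2‖ = ‖y.2‖ := hT.iso _ hy.1 _
  rw [F.pull, h0 _ (by rw [h5]; exact hy2), map_zero]

end tot

end Crest.Agent.R208.EX
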