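import Crest.Agent.R208.TP5
import Crest.Agent.R208.EX7

/-! Row 208, block TP (helper382).  TP6: **(TH)** of the blueprint, assembled with the relative form
`D.rel` of EX6: `c₀ (push₁ v₀') ~ (pu₂ V') e(P₂')` on the quotient. -/

set_option autoImplicit false
set_option linter.unusedSectionVars false
set_option linter.unusedVariables false
set_option maxHeartbeats 2000000

open MeasureTheory Set Filter Topology Module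
open scoped ContDiff RealInnerProductSpace
open Crest.Agent.R208.F Crest.Agent.R208.FI Crest.Agent.R208.CW Crest.Agent.R208.T
open Crest.Agent.R208.CM
open Crest.GeometryTopology.Submanifold
open Crest.Agent.R241.DDefs Crest.Agent.R241.D Crest.Agent.R241.D2
open Crest.Agent.R208.VC
open Crest.Agent.R208.EX
open Crest.Agent.R208.MS (Fam oc En)

noncomputable section

namespace Crest.Agent.R208.TP

section gen
variable {E E' : Type*} [NormedAddCommGroup E] [NormedSpace ℝ E] [FiniteDimensional ℝ E]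
  [NormedAddCommGroup E'] [NormedSpace ℝ E'] [FiniteDimensional ℝ E']
  {H₁ V₁ : Type*} [NormedAddCommGroup H₁] [InnerProductSpace ℝ H₁] [FiniteDimensional ℝ H₁]
  [NormedAddCommGroup V₁] [InnerProductSpace ℝ V₁] [FiniteDimensional ℝ V₁]
  {H₂ V₂ : Type*} [NormedAddCommGroup H₂] [InnerProductSpace ℝ H₂] [FiniteDimensional ℝ H₂]
  [NormedAddCommGroup V₂] [InnerProductSpace ℝ V₂] [FiniteDimensional ℝ V₂]
  {X : Set E} {Y : Set E'} {φ : ℝ → E → E} {q : E → E'} {R₁ : ℝ → H₁ →L[ℝ] H₁}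
  {R₂ : ℝ → H₂ →L[ℝ] H₂}
  {T₁ : E → H₁ →L[ℝ] V₁} {P₁ : E → H₁ →L[ℝ] H₁} {P₁' : E' → V₁ →L[ℝ] V₁} {r₁ r₂ d : ℕ}
  {T₂ : E → H₂ →L[ℝ] V₂} {P₂ : E → H₂ →L[ℝ] H₂} {P₂' : E' → V₂ →L[ℝ] V₂}

/-- homogeneous components of forms of type `CV` -/
theorem CV.dp {R : ℝ} {V : (E × H₂) × H₁ → Ext ((E × H₂) × H₁)} (j : ℕ) (h : CV X P₂ P₁ R V) :
    CV X P₂ P₁ R (T.dp j V) :=
  ⟨h.smooth.dp j, fun z hz => by rw [T.dp, h.supp₁ z hz, map_zero],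
    fun z hz => by rw [T.dp, h.supp₂ z hz, map_zero], Cl.dp j h.smooth h.closed⟩

theorem contDiff_dp {a : E → Ext E} (j : ℕ) (h : ContDiff ℝ ∞ a) : ContDiff ℝ ∞ (T.dp j a) :=
  (dplL (E := E) j).contDiff.comp h

theorem cont_field (h : PField X r₁ P₁) : ContinuousOn P₁ X := fun x hx =>
  (h.smooth x hx).continuousAt.continuousWithinAt

theorem rs_of_open {U : Set E} (hU : IsOpen U) {x : E} (hx : x ∈ U) {w : Ext E}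
    (h : rsL (X ∩ U) x w = 0) : rsL X x w = 0 := by
  have h3 : ∀ (K K' : Submodule ℝ E), K = K' → pb K.subtype w = 0 → pb K'.subtype w = 0 := by
    rintro K K' rfl h; exact h
  exact h3 _ _ (Tan_inter_open hU hx) h

theorem rs_of_up {c : E → ℝ} (hc : ∀ x ∈ X, ContDiffAt ℝ ∞ c x) {x : E} (hx : x ∈ Up X c)
    {w : Ext E} (h : rsL (Up X c) x w = 0) : rsL X x w = 0 := by
  rw [up_eq hc] at h hx
  exact rs_of_open isOpen_interior hx.2 h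

/-- the circle action on `P₂ ⊕ P₁` -/
theorem Cir.tot₂ (h : Cir X φ) (hR₁ : Rep R₁) (hR₂ : Rep R₂)
    (he₁ : ∀ x ∈ X, ∀ t w, P₁ (φ t x) (R₁ t w) = R₁ t (P₁ x w))
    (he₂ : ∀ x ∈ X, ∀ t w, P₂ (φ t x) (R₂ t w) = R₂ t (P₂ x w)) :
    Cir (TT X P₂ P₁) (phR (phR φ R₂) R₁) :=
  Cir.tot (Cir.tot h hR₂ he₂) hR₁ (P := fun z : E × H₂ => P₁ z.1)
    (fun z hz t w => he₁ z.1 hz.1 t w)

theorem sub_TT (hX : Sub d X) (hP₁ : PField X r₁ P₁) (hP₂ : PField X r₂ P₂) :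
    Sub (d + r₂ + r₁) (TT X P₂ P₁) :=
  (pfield_fst' (P₂ := P₂) hP₁).sub_tot (hP₂.sub_tot hX)

theorem smap_i0 : SMap (Tot X P₁) (TT X P₂ P₁) (up (zs (E := E) (H := H₂))) :=
  ⟨fun z hz => (contDiffAt_fst.prodMk contDiffAt_const).prodMk contDiffAt_snd,
    fun z hz => ⟨⟨hz.1, map_zero _⟩, hz.2⟩⟩

theorem i0_equi (t : ℝ) (y : E × H₁) :
    up (zs (E := E) (H := H₂)) (phR φ R₁ t y) =
      phR (phR φ R₂) R₁ t (up (zs (E := E) (H := H₂)) y) := by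
  refine Prod.ext (Prod.ext rfl ?_) rfl
  change (0 : H₂) = R₂ t 0
  rw [map_zero]

theorem i0_Th (y : E × H₁) :
    up (zs (E := E') (H := V₂)) (Th q T₁ y) =
      Th (Th q T₂) (fun z : E × H₂ => T₁ z.1) (up (zs (E := E) (H := H₂)) y) := by
  refine Prod.ext (Prod.ext rfl ?_) rfl
  change (0 : V₂) = T₂ y.1 0
  rw [map_zero]

end gen

section main
variable {N : ℕ}
  {E E' : Type} [NormedAddCommGroup E] [NormedSpace ℝ E] [FiniteDimensional ℝ E]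
  [NormedAddCommGroup E'] [NormedSpace ℝ E'] [FiniteDimensional ℝ E']
  {H₁ V₁ : Type} [NormedAddCommGroup H₁] [InnerProductSpace ℝ H₁] [FiniteDimensional ℝ H₁]
  [NormedAddCommGroup V₁] [InnerProductSpace ℝ V₁] [FiniteDimensional ℝ V₁]
  [MeasurableSpace V₁] [BorelSpace V₁] (μ₁ : Measure V₁) [μ₁.IsAddHaarMeasure]
  {H₂ V₂ : Type} [NormedAddCommGroup H₂] [InnerProductSpace ℝ H₂] [FiniteDimensional ℝ H₂]
  [NormedAddCommGroup V₂] [InnerProductSpace ℝ V₂] [FiniteDimensional ℝ V₂]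
  [MeasurableSpace V₂] [BorelSpace V₂] (μ₂ : Measure V₂) [μ₂.IsAddHaarMeasure]
  {X : Set E} {Y : Set E'} {φ : ℝ → E → E} {q : E → E'} {R₁ : ℝ → H₁ →L[ℝ] H₁}
  {R₂ : ℝ → H₂ →L[ℝ] H₂}
  {T₁ : E → H₁ →L[ℝ] V₁} {P₁ : E → H₁ →L[ℝ] H₁} {P₁' : E' → V₁ →L[ℝ] V₁} {r₁ r₂ d d' : ℕ}
  {T₂ : E → H₂ →L[ℝ] V₂} {P₂ : E → H₂ →L[ℝ] H₂} {P₂' : E' → V₂ →L[ℝ] V₂}
  {R c₀ : ℝ} {τ₁' : E' × V₁ → Ext (E' × V₁)} {τ₂ τ₂' : E' × V₂ → Ext (E' × V₂)} {e₂ : E' → Ext E'}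
  {D : ED N} {Θ : (E × H₂) × H₁ → Ext ((E × H₂) × H₁)} {f : (E × H₂) × H₁ → Euc N}
  {c : (E × H₂) × H₁ → ℝ}

/-- **(TH)**, assembled -/
theorem TH (hD : D.OK) (hq : QM X φ Y q) (h : Cir X φ) (hX : Sub d X) (hY : Sub d' Y)
    (hR₁ : Rep R₁) (hR₂ : Rep R₂) (hT₁ : Triv X φ R₁ T₁) (hT₂ : Triv X φ R₂ T₂)
    (hP₁ : PField X r₁ P₁) (hP₂ : PField X r₂ P₂)
    (he₁ : ∀ x ∈ X, ∀ t w, P₁ (φ t x) (R₁ t w) = R₁ t (P₁ x w))
    (he₂ : ∀ x ∈ X, ∀ t w, P₂ (φ t x) (R₂ t w) = R₂ t (P₂ x w))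
    (hP₁' : PField Y r₁ P₁') (hP₂' : PField Y r₂ P₂')
    (hd₁ : ∀ x ∈ X, P₁' (q x) = Qd T₁ P₁ x) (hd₂ : ∀ x ∈ X, P₂' (q x) = Qd T₂ P₂ x)
    (hR : 0 ≤ R)
    (hτ₁ : CSF Y (fun y => 1 - P₁' y) (R + 1) τ₁') (hev : ∀ z, F.inv (τ₁' z) = τ₁' z)
    (hTh : ThomPair μ₂ Y P₂' r₂ (R + 1) c₀ e₂ τ₂ τ₂')
    (hΘ : Cn (TT X P₂ P₁) (phR (phR φ R₂) R₁) Θ) (hf : Fam D.S (TT X P₂ P₁) f)
    (hc : ∀ z ∈ TT X P₂ P₁, ContDiffAt ℝ ∞ c z)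
    (hci : ∀ z ∈ TT X P₂ P₁, ∀ t, c (phR (phR φ R₂) R₁ t z) = c z)
    (hE : ∀ z ∈ TT X P₂ P₁, 0 < c z → En (oc (phR (phR φ R₂) R₁) f z) ≤ D.B)
    (hc1 : ∀ z ∈ TT X P₂ P₁, (R < ‖z.2‖ ∨ R < ‖z.1.2‖) → 3 / 4 < c z)
    (hconst : ∀ z ∈ TT X P₂ P₁, R < ‖z.2‖ → ∀ t, f (phR (phR φ R₂) R₁ t z) = f z) (j : ℕ) :
    ∃ η, D.IsEta (Up (TT X P₂ P₁) c) (phR (phR φ R₂) R₁) Θ f η ∧
      ∃ V' : (E' × V₂) × V₁ → Ext ((E' × V₂) × V₁), ContDiff ℝ ∞ V' ∧ CV Y P₂' P₁' (R + 1) V' ∧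
        Hom j V' ∧
        Eqv (TT X P₂ P₁) (F.pull (Th (Th q T₂) (fun z : E × H₂ => T₁ z.1)) V')
          (T.dp j (D.rel (phR (phR φ R₂) R₁) Θ f c η)) ∧
        ∀ v₀' : E' × V₁ → Ext (E' × V₁), Sm (Tot Y P₁') v₀' → Vt (R + 1) v₀' →
          Eqv (Tot X P₁) (F.pull (Th q T₁) v₀')
            (T.dp j (D.vf (phR φ R₁) (F.pull (up (zs (E := E) (H := H₂))) Θ)
              (fun z => f (up (zs (E := E) (H := H₂)) z)))) →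
          Coh Y (c₀ • push μ₁ P₁' τ₁' v₀') (pu₂ μ₁ μ₂ P₂' τ₂' P₁' τ₁' V' * e₂) := by
  have hC₁ : Cir (Tot X P₁) (phR φ R₁) := Cir.tot h hR₁ he₁
  have hC₂ := Cir.tot₂ h hR₁ hR₂ he₁ he₂
  have hA₁ := Act.of_cir hC₁
  have hA₂ := Act.of_cir hC₂
  have hS₁ : Sub (d + r₁) (Tot X P₁) := hP₁.sub_tot hX
  have hS₂ : Sub (d + r₂ + r₁) (TT X P₂ P₁) := sub_TT hX hP₁ hP₂
  obtain ⟨η, hη⟩ := ED.exists_eta hD (cir_up hC₂ hci) (sub_up hc hS₂)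
    (hΘ.mono inter_subset_left) (fam_up hf) (fun z hz => hE z hz.1 hz.2)
  refine ⟨η, hη, ?_⟩
  set φ₁ := phR φ R₁ with hφ₁
  set φ₂ := phR (phR φ R₂) R₁ with hφ₂
  set V := D.rel φ₂ Θ f c η with hV
  set i₀ : E × H₁ → (E × H₂) × H₁ := up (zs (E := E) (H := H₂)) with hi₀
  have sV : Sm (TT X P₂ P₁) V := ED.sm_rel hD hA₂ hS₂ hΘ hf hc hη
  have cV : Cl (TT X P₂ P₁) V := ED.cl_rel hD hA₂ hS₂ hΘ hf hc hη
  have iV : Inv (TT X P₂ P₁) φ₂ V := ED.inv_rel hD hA₂ hS₂ hΘ hf hc hci hη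
  have bV : Hz (TT X P₂ P₁) φ₂ V := ED.hz_rel hD hA₂ hS₂ hΘ hf hc hci hη
  have zV : ∀ z ∈ TT X P₂ P₁, (R < ‖z.2‖ ∨ R < ‖z.1.2‖) →
      pb (Tan (TT X P₂ P₁) z).subtype (V z) = 0 := fun z hz hz2 => by
    have := ED.rel_zero hD hA₂ hS₂ hΘ hf hc hci hη hz (hc1 z hz hz2)
    rwa [rsL_apply] at this
  obtain ⟨V₀, s₀, hV₀, e₀⟩ := exists_CV' hq h hX hR₁ hR₂ hT₁ hT₂ hP₁ hP₂ he₁ he₂
    (cont_field hP₁') (cont_field hP₂') hd₁ hd₂ hR sV cV iV bV zV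
  refine ⟨T.dp j V₀, contDiff_dp j s₀, hV₀.dp j, hom_dp j V₀, ?_, ?_⟩
  · rw [← dp_pull]
    exact e₀.dp j
  intro v₀' sv zv ev
  -- the primitive on `P₁`
  have hi : SMap (Tot X P₁) (TT X P₂ P₁) i₀ := smap_i0
  have hΘ₀ : Cn (Tot X P₁) φ₁ (F.pull i₀ Θ) :=
    Cn.pull hA₂ hA₁ hi (fun t y _ => i0_equi t y) hΘ
  set Θ₀ := F.pull i₀ Θ with hΘ₀d
  set f₀ : E × H₁ → Euc N := fun z => f (i₀ z) with hf₀d
  set c₁ : E × H₁ → ℝ := fun z => c (i₀ z) with hc₁d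
  have hf₀ : Fam D.S (Tot X P₁) f₀ := ⟨fun z hz => (hf.smooth _ (hi.maps hz)).comp z
    (hi.smooth z hz), fun z hz => hf.maps _ (hi.maps hz)⟩
  have hc₁ : ∀ z ∈ Tot X P₁, ContDiffAt ℝ ∞ c₁ z := fun z hz =>
    (hc _ (hi.maps hz)).comp z (hi.smooth z hz)
  have heq : ∀ t, ∀ z : E × H₁, i₀ (φ₁ t z) = φ₂ t (i₀ z) := fun t z => i0_equi t z
  have hci₁ : ∀ z ∈ Tot X P₁, ∀ t, c₁ (φ₁ t z) = c₁ z := fun z hz t => by
    change c (i₀ (φ₁ t z)) = c (i₀ z)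
    rw [heq, hci _ (hi.maps hz)]
  have hoc : ∀ z, oc φ₁ f₀ z = oc φ₂ f (i₀ z) := fun z => by
    funext t
    change f (i₀ (φ₁ t z)) = f (φ₂ t (i₀ z))
    rw [heq]
  have hΘu : Cn (Up (Tot X P₁) c₁) φ₁ Θ₀ := hΘ₀.mono inter_subset_left
  obtain ⟨η₀, hη₀⟩ := ED.exists_eta hD (cir_up hC₁ hci₁) (sub_up hc₁ hS₁) hΘu (fam_up hf₀)
    (fun z hz => by rw [hoc]; exact hE _ (hi.maps hz.1) hz.2)
  have hnat : Eqv (Tot X P₁) (F.pull i₀ V) (D.rel φ₁ Θ₀ f₀ c₁ η₀) :=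
    ED.rel_nat hD hA₂ hS₂ hΘ hf hc hci hη hA₁ hS₁ hΘ₀ hf₀ hc₁ hci₁ hη₀ hi
      (fun t y _ => heq t y) (fun y _ => rfl) (Eqv.refl _) (fun y _ => rfl)
  have hau := act_up hA₁ hci₁
  have hsu := sub_up hc₁ hS₁
  set L : E × H₁ → Ext (E × H₁) := fun z => kx (c₁ z) • η₀ z with hLd
  have sL : Sm (Tot X P₁) L := sm_cut hc₁ hη₀.sm
  have iL : Inv (Tot X P₁) φ₁ L := inv_cut hA₁ hc₁ hci₁ (hη₀.inv hD hau hsu hΘu)
  have bL : Hz (Tot X P₁) φ₁ L := hz_cut hc₁ (hη₀.hz hD hau hsu hΘu)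
  have zL : ∀ z ∈ Tot X P₁, R < ‖z.2‖ → pb (Tan (Tot X P₁) z).subtype (L z) = 0 := by
    intro z hz hz2
    have h1 : 3 / 4 < c₁ z := hc1 _ (hi.maps hz) (Or.inl hz2)
    have hzu : z ∈ Up (Tot X P₁) c₁ := ⟨hz, by change 0 < c₁ z; linarith⟩
    have h2 := hη₀.zero hD hau hsu hΘu hzu (fun t => by
      change f (i₀ (φ₁ t z)) = f (i₀ z)
      rw [heq]
      exact hconst _ (hi.maps hz) hz2 t)
    have h3 := rs_of_up hc₁ hzu h2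
    rw [rsL_apply] at h3
    change pb (Tan (Tot X P₁) z).subtype (kx (c₁ z) • η₀ z) = 0
    rw [map_smul, h3, smul_zero]
  -- descent of the primitive
  have hQ₁ : QM (Tot X P₁) φ₁ (Tot Y P₁') (Th q T₁) :=
    hq.tot h hR₁ hT₁ hP₁ he₁ (cont_field hP₁') hd₁
  obtain ⟨L₁, s₁, e₁⟩ := hQ₁.exists_basic hC₁ sL iL bL
  have z₁ : ∀ y ∈ Tot Y P₁', R < ‖y.2‖ → pb (Tan (Tot Y P₁') y).subtype (L₁ y) = 0 := by
    intro y hy hy2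
    obtain ⟨z, hz, rfl⟩ := hQ₁.surj y hy
    have hn : ‖(Th q T₁ z).2‖ = ‖z.2‖ := hT₁.iso _ hz.1 _
    rw [hn] at hy2
    have h1 := hQ₁.pt_of_pull hz (c := L₁ (Th q T₁ z)) (c' := 0) (by
      have := eqv_iff.1 e₁ z hz
      rw [zL z hz hy2] at this
      rw [map_zero, map_zero]
      exact this)
    rwa [map_zero] at h1
  set L' : E' × V₁ → Ext (E' × V₁) := cutH R L₁ with hL'
  have e2 : Eqv (Tot Y P₁') L' L₁ := by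
    refine eqv_iff.2 fun z hz => ?_
    by_cases h1 : R < ‖z.2‖
    · rw [hL', cutH, map_smul, z₁ z hz h1, smul_zero]
    · rw [hL', cutH, chi_one hR (not_lt.1 h1), one_smul]
  have sL' : Sm (Tot Y P₁') L' := fun y _ =>
    (((contDiff_chi R).comp contDiff_snd).smul s₁).contDiffAt
  have vL' : Vt (R + 1) L' := fun z hz => by
    rw [hL', cutH, chi_zero hR hz.le, zero_smul]
  have e3 : Eqv (Tot X P₁) (F.pull (Th q T₁) L') L := (e2.pull hQ₁.smap).trans e₁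
  -- the key relation, full degrees
  have hQQ : ∀ y : E × H₁, up (zs (E := E') (H := V₂)) (Th q T₁ y) =
      Th (Th q T₂) (fun z : E × H₂ => T₁ z.1) (i₀ y) := fun y => i0_Th y
  have hi' : SMap (Tot Y P₁') (TT Y P₂' P₁') (up (zs (E := E') (H := V₂))) := smap_i0
  have k1 : Eqv (Tot X P₁) (F.pull (Th q T₁) (F.pull (up (zs (E := E') (H := V₂))) V₀))
      (F.pull i₀ V) := by
    have hQ₂ := hq.tot₂ h hR₁ hR₂ hT₁ hT₂ hP₁ hP₂ he₁ he₂ (cont_field hP₁') (cont_field hP₂')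
      hd₁ hd₂
    have a1 : Eqv (Tot X P₁) (F.pull (Th q T₁) (F.pull (up (zs (E := E') (H := V₂))) V₀))
        (F.pull i₀ (F.pull (Th (Th q T₂) (fun z : E × H₂ => T₁ z.1)) V₀)) := by
      refine Eqv.of_eq fun y hy => ?_
      rw [F.pull_comp (hQ₁.smap.diff hy) (hi'.diff (hQ₁.smap.maps hy)),
        F.pull_comp (hi.diff hy) (hQ₂.smap.diff (hi.maps hy))]
      rw [show (up (zs (E := E') (H := V₂)) ∘ Th q T₁) =
        (Th (Th q T₂) (fun z : E × H₂ => T₁ z.1)) ∘ i₀ from funext hQQ]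
    exact a1.trans (e₀.pull hi)
  have k2 : Eqv (Tot X P₁) (F.pull i₀ V) (D.vf φ₁ Θ₀ f₀ - F.d L) := hnat
  have hev' := ev
  -- homogeneous parts
  have key : Eqv (Tot Y P₁') (v₀' - F.pull (up (zs (E := E') (H := V₂))) (T.dp j V₀))
      (T.dp j (F.d L')) := by
    refine hQ₁.eqv_of_pull ?_
    rw [pull_sub', ← dp_pull, ← dp_pull, ← dp_pull]
    have b1 : Eqv (Tot X P₁) (F.pull (Th q T₁) (F.d L')) (F.d L) :=
      (d_pull_eqv hQ₁.smap sL').symm.trans (Eqv.d hS₁ (sL'.pull hQ₁.smap) sL e3)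
    have b2 : Eqv (Tot X P₁) (D.vf φ₁ Θ₀ f₀ - F.pull (Th q T₁)
        (F.pull (up (zs (E := E') (H := V₂))) V₀)) (F.pull (Th q T₁) (F.d L')) := by
      refine ((Eqv.refl _).sub (k1.trans k2)).trans ?_
      rw [sub_sub_cancel]
      exact b1.symm
    have b3 := b2.dp j
    rw [dp_sub] at b3
    exact (ev.sub (Eqv.refl _)).trans b3
  obtain ⟨L₂, sL₂, vL₂, eL₂⟩ : ∃ L₂ : E' × V₁ → Ext (E' × V₁), Sm (Tot Y P₁') L₂ ∧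
      Vt (R + 1) L₂ ∧ Eqv (Tot Y P₁') (T.dp j (F.d L')) (F.d L₂) := by
    cases j with
    | zero =>
      refine ⟨0, Sm.zero, fun z _ => rfl, ?_⟩
      rw [show T.dp 0 (F.d L') = 0 from funext fun x => dp_zero_d L' x, d_zero']
      exact Eqv.refl _
    | succ j =>
      exact ⟨T.dp j L', sL'.dp j, fun z hz => by rw [T.dp, vL' z hz, map_zero],
        Eqv.of_eq fun x hx => dp_d j (sL'.diff hx)⟩
  exact main' μ₁ μ₂ hY hP₁' hP₂' hτ₁ hev hTh (by linarith) (hV₀.dp j) sv zv sL₂ vL₂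
    (key.trans eL₂)

end main

end Crest.Agent.R208.TP
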