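import Crest.Agent.R208.TP7
import Crest.Agent.R208.TP6
import Crest.Agent.R208.EA1
import Crest.Agent.R208.FT4
import Crest.Agent.R208.DD3
import Crest.Agent.R208.THD3

/-! Row 208, block TP (helper382).  TP8: the (8,2) instance: helper595's `Frm`, `Fam2` over
`X' = XX X k`, with helper336's family `f2x`, helper683's doubled field and a Thom pair. -/

set_option autoImplicit false
set_option linter.unusedSectionVars false
set_option linter.unusedVariables false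

open MeasureTheory Set Filter Topology Module
open scoped ContDiff Matrix RealInnerProductSpace Real
open Crest.GeometryTopology.Submanifold
open Crest.Agent.R241.DDefs Crest.Agent.R241.D Crest.Agent.R241.D2
open Crest.Agent.R208.F Crest.Agent.R208.FI Crest.Agent.R208.CW Crest.Agent.R208.T
open Crest.Agent.R208.CM
open Crest.Agent.R208.DD
open Crest.Agent.R208.EX (ED Cn)
open Crest.Agent.R208.MS (Fam oc En)

noncomputable section

namespace Crest.Agent.R208.TP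

/-! ### even targets -/
section even
variable {E : Type} [NormedAddCommGroup E] [NormedSpace ℝ E] [FiniteDimensional ℝ E]
  {a b q ι : Type} [Fintype a] [DecidableEq a] [Fintype b] [DecidableEq b] [Fintype q]
  [DecidableEq q] [Fintype ι] [DecidableEq ι]
  {m : ℕ} {X : Set E} {g : E → Fin m → ℂ} {φ : ℝ → E → E} {w : ℝ}
  {R : ℝ → EuclideanSpace ℝ a →L[ℝ] EuclideanSpace ℝ a}
  {N : E → EuclideanSpace ℝ a →L[ℝ] EuclideanSpace ℝ a}
  {T₂ : E → EuclideanSpace ℝ (a ⊕ a) →L[ℝ] EuclideanSpace ℝ b}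
  {P₂ : MM m → EuclideanSpace ℝ b →L[ℝ] EuclideanSpace ℝ b} {W₂ : MM m → (ι × Fin 2 → b) → ℝ}
  {S : Matrix q b ℝ}

theorem pushR_pushR (M : Matrix b a ℝ) (S : Matrix q b ℝ) (W : (ι × Fin 2 → a) → ℝ) :
    pushR S (pushR M W) = pushR (S * M) W := by
  funext J
  simp only [pushR, Matrix.mul_apply, Finset.prod_univ_sum, Fintype.piFinset_univ,
    Finset.mul_sum, Finset.sum_mul, Finset.prod_mul_distrib]
  rw [Finset.sum_comm]
  exact Finset.sum_congr rfl fun I _ => Finset.sum_congr rfl fun K _ => by ring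

theorem MT_mE_comp (A : EuclideanSpace ℝ a →L[ℝ] EuclideanSpace ℝ b) :
    MT ((mE S).comp A) = S * MT A := by
  refine mE_ext fun v => ?_
  rw [mE_MT, ← mE_mE, mE_MT]
  rfl

/-- constant isometry applied to the descended doubled objects -/
theorem Dsc2.push (hS : Sᵀ * S = 1) (h : Dsc2 ι X g φ R w N T₂ P₂ W₂) :
    Dsc2 ι X g φ R w N (fun x => (mE S).comp (T₂ x)) (pushE S P₂) (fun y => pushR S (W₂ y)) where
  triv := triv_mE hS h.triv
  smP := contDiff_const.clm_comp (h.smP.clm_comp contDiff_const)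
  smW := contDiff_pi.2 fun J => ContDiff.sum fun I _ =>
    contDiff_const.mul ((contDiff_apply ℝ ℝ I).comp h.smW)
  or := h.or.push hS
  eqP := fun x hx => by
    rw [Qd_mE]
    change (mE S).comp ((P₂ (jj g x)).comp (mE Sᵀ)) = (mE S).comp ((Qd T₂ (NN N) x).comp (mE Sᵀ))
    rw [h.eqP x hx]
  eqW := fun x hx => by
    rw [h.eqW x hx, Wd, Wd, MT_mE_comp, pushR_pushR]

/-- an isometry into a Euclidean space of large even dimension -/
theorem exists_mat_even (p r : ℕ) : ∃ (c : ℕ) (S : Matrix (Fin (2 * c)) (Fin p) ℝ),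
    Sᵀ * S = 1 ∧ r + 2 ≤ 2 * c := by
  obtain ⟨k, hk⟩ : ∃ k, p + k = 2 * (p + r + 2) := ⟨p + 2 * r + 4, by ring⟩
  let e : Fin p ⊕ Fin k ≃ Fin (2 * (p + r + 2)) := finSumFinEquiv.trans (finCongr hk)
  refine ⟨p + r + 2, (iM (Fin p) (Fin k)).submatrix e.symm id, ?_, by omega⟩
  rw [Matrix.transpose_submatrix]
  have := Matrix.submatrix_mul (iM (Fin p) (Fin k))ᵀ (iM (Fin p) (Fin k)) (id : Fin p → Fin p)
    (e.symm : _ → Fin p ⊕ Fin k) (id : Fin p → Fin p) e.symm.bijective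
  rw [← this, iM_iso]
  exact Matrix.submatrix_one_equiv (Equiv.refl _)

/-- the doubled objects with an even dimensional target -/
theorem exists_dsc2_even {r d : ℕ} (h : EqF X φ R r N) (hι : Fintype.card ι = r) (hg : Emb X φ g)
    (hC : Cir X φ) (hX : Clo (d + 1) X) (hw : ∃ k : ℤ, w = k) :
    ∃ (c : ℕ) (T₂ : E → EuclideanSpace ℝ (a ⊕ a) →L[ℝ] EuclideanSpace ℝ (Fin (2 * c)))
      (P₂ : MM m → EuclideanSpace ℝ (Fin (2 * c)) →L[ℝ] EuclideanSpace ℝ (Fin (2 * c)))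
      (W₂ : MM m → (ι × Fin 2 → Fin (2 * c)) → ℝ), Dsc2 ι X g φ R w N T₂ P₂ W₂ ∧
        2 * r + 2 ≤ 2 * c := by
  subst hι
  obtain ⟨q, T₂, P₂, W₂, h1⟩ := h.exists_dsc2 hg hC hX hw
  obtain ⟨c, S, hS, hc⟩ := exists_mat_even q (2 * Fintype.card ι)
  exact ⟨c, _, _, _, Dsc2.push hS h1, hc⟩

/-- **Thom pair** of the descended doubled field -/
theorem Dsc2.exists_thomPair {d c : ℕ} [Nonempty ι]
    {T₂ : E → EuclideanSpace ℝ (a ⊕ a) →L[ℝ] EuclideanSpace ℝ (Fin (2 * c))}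
    {P₂ : MM m → EuclideanSpace ℝ (Fin (2 * c)) →L[ℝ] EuclideanSpace ℝ (Fin (2 * c))}
    {W₂ : MM m → (ι × Fin 2 → Fin (2 * c)) → ℝ} (h : Dsc2 ι X g φ R w N T₂ P₂ W₂)
    (hc : 2 * Fintype.card ι + 2 ≤ 2 * c) (hY : Sub d (Quo X g)) (hYc : IsPreconnected (Quo X g))
    (hYn : (Quo X g).Nonempty) :
    ∃ (s : ℕ) (W' : MM m → (Fin (s + 1) × Fin 2 → Fin (2 * c)) → ℝ) (c₀ : ℝ),
      OR (Quo X g) (fun y => 1 - P₂ y) W' ∧
      ThomPair (volume : Measure (EuclideanSpace ℝ (Fin (2 * c)))) (Quo X g) P₂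
        (2 * Fintype.card ι) 3 c₀ ((2 : ℝ) • eR P₂ W₂) (thomF P₂ W₂)
        (thomF (fun x => 1 - P₂ x) W') := by
  obtain ⟨s, hs⟩ : ∃ s, c = Fintype.card ι + (s + 1) := ⟨c - Fintype.card ι - 1, by omega⟩
  let eq : (ι × Fin 2) ⊕ (Fin (s + 1) × Fin 2) ≃ Fin (2 * c) :=
    Fintype.equivOfCardEq (by simp; omega)
  obtain ⟨W', h'⟩ := OR.compl eq h.or
  obtain ⟨c₀, h0, h1⟩ := unit_of_pointwise
    (μ := (volume : Measure (EuclideanSpace ℝ (Fin (2 * c))))) hY hYc hYn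
    h.or.pfield (csf_thomF hY h.or) (csf_thomF hY h') (fun x hx => thdStmt h.or h' x hx)
  refine ⟨s, W', c₀, h', csf_thomF hY h.or, csf_thomF hY h', fun z => thomF_even z,
    fun z => thomF_deg z, fun z => ?_, h1, h0, thomF_zero h.or⟩
  have h2 : finrank ℝ (EuclideanSpace ℝ (Fin (2 * c))) - 2 * Fintype.card ι =
      2 * Fintype.card (Fin (s + 1)) := by
    rw [finrank_euclideanSpace, Fintype.card_fin, Fintype.card_fin]
    omega
  rw [h2]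
  exact thomF_deg z

end even

/-! ### the geometric frame over `XX X k` -/
section frame
variable {E : Type} [NormedAddCommGroup E] [NormedSpace ℝ E] [FiniteDimensional ℝ E]
  {a q ι : Type} [Fintype a] [DecidableEq a] [Fintype q] [DecidableEq q]
  [Fintype ι] [DecidableEq ι]
  {n k m m' s c s' : ℕ} {X : Set E} {g : E → Fin m → ℂ} {φ : ℝ → E → E} {w : ℝ}
  {g' : E × HW.U k → Fin m' → ℂ} {p : MM m' → MM m}
  {R : ℝ → EuclideanSpace ℝ a →L[ℝ] EuclideanSpace ℝ a}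
  {N : E → EuclideanSpace ℝ a →L[ℝ] EuclideanSpace ℝ a}
  {T : E → EuclideanSpace ℝ a →L[ℝ] EuclideanSpace ℝ (Fin (2 * c + 1))}
  {P' : MM m → EuclideanSpace ℝ (Fin (2 * c + 1)) →L[ℝ] EuclideanSpace ℝ (Fin (2 * c + 1))}
  {o' : MM m → Ext (EuclideanSpace ℝ (Fin (2 * c + 1)))}
  {W' : MM m → (Fin (s' + 1) × Fin 2 → Fin (2 * c + 1)) → ℝ}
  {T₂ : E × HW.U k → EuclideanSpace ℝ (a ⊕ a) →L[ℝ] EuclideanSpace ℝ q}
  {P₂ : MM m' → EuclideanSpace ℝ q →L[ℝ] EuclideanSpace ℝ q}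
  {W₂ : MM m' → (ι × Fin 2 → q) → ℝ}

/-- **the frame of level 2** -/
theorem frm_xx (H : HW.HD n k X φ g g' p) (hN : EqF X φ R (2 * s + 1) N)
    (h : DscO X φ g R s N c s' T P' o' W') (hι : Fintype.card ι = 2 * s + 1)
    (hw : ∃ j : ℤ, w = j)
    (D₂ : Dsc2 ι (HW.XX X k) g' (HW.ph k φ) (fun t => R (2 * t)) w (fun z => N z.1) T₂ P₂ W₂) :
    EA.Frm (n + (2 * k + 1) + 1) (n + (2 * k + 1)) (2 * s + 1) (2 * s + 1 + (2 * s + 1))
      (HW.XX X k) (HW.ph k φ) (Quo (HW.XX X k) g') (jj g')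
      (fun t => R (2 * t)) (fun z => T z.1) (fun z => N z.1) (fun y => P' (p y))
      (R2 (fun t => R (2 * t)) w) T₂ (NN (fun z : E × HW.U k => N z.1)) P₂ := by
  have hxx := hN.xx k
  have hx := h.xx H
  have hD2 : PField (Quo (HW.XX X k) g') (Fintype.card ι + Fintype.card ι) P₂ :=
    D₂.pfield (hι ▸ hxx)
  rw [hι] at hD2
  exact
  { qm := qm_jj H.emb' H.cir' H.clo'
    h := H.cir'
    hX := H.clo'.sub
    hY := H.cloB'.sub
    R1 := hxx.rep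
    R2 := rep_R2 hxx.rep hw
    T1 := hx.triv
    T2 := D₂.triv
    p1 := hxx.pf
    p2 := pfield_NN hxx.pf
    e1 := hxx.eq
    e2 := hxx.eq₂ w
    p1' := hx.pf
    p2' := hD2
    d1 := hx.eqP
    d2 := D₂.eqP }

end frame

/-! ### the family -/
section fam
open Crest.Agent.R208.NN (Wt Rt nuP)

variable {n N K k : ℕ} {κ : ℝ} {S : Set (Euc N)} {G : Geo n N κ S} {lg : Euc N → Euc N → Euc N}
  {ρ : Euc N → Euc N} {r C r' Kr B w δ : ℝ} {PN : Euc N × Euc N → Wt N K →L[ℝ] Wt N K}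
  {H₂ : Type} [NormedAddCommGroup H₂] [InnerProductSpace ℝ H₂] [FiniteDimensional ℝ H₂]
  {P₂ : Euc N × Euc N → H₂ →L[ℝ] H₂} {Rr : ℝ → H₂ →L[ℝ] H₂}
  {xi0 : Euc N × Euc N → H₂ →L[ℝ] Euc N} {δ₂ : ℝ} {ε ε₂ E₀ η : ℝ} {J : ℕ}
  {E : Type} [NormedAddCommGroup E] [NormedSpace ℝ E] [FiniteDimensional ℝ E]
  {X : Set E} {φ : ℝ → E → E} {pi0 : E → Euc N × Euc N} {D : ED N}

/-- **helper336's family in helper595's format** (`R = 2`) -/
theorem fam2_of_D2 (h : FT.D2 G k K lg ρ r C r' Kr B w δ PN ε J E₀ η P₂ Rr xi0 δ₂ ε₂)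
    (hm : FT.Eqm G X φ pi0) (hDS : D.S = S)
    (hB : ∀ p ∈ FT.TX X pi0 P₂ PN, 0 < FT.c2 p →
      En (oc (FT.P2x φ N K Rr) (FT.f2x G lg ρ w J xi0 ε ε₂ pi0) p) ≤ D.B) :
    EA.Fam2 D X φ (fun t => Rt (nuP K) (2 * t)) (fun x => PN (pi0 x)) (fun t => Rr (2 * t))
      (fun x => P₂ (pi0 x)) 2 (FT.f2x G lg ρ w J xi0 ε ε₂ pi0) FT.c2 where
  fam := by
    rw [hDS]
    exact h.fam_f2x hm
  cs := fun z _ => FT.contDiff_c2.contDiffAt
  ci := fun z _ t => h.c2_inv t z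
  en := hB
  out := fun z _ ho => by
    have h1 : FT.c2 z = 1 := FT.c2_one (by
      rcases ho with ho | ho
      · exact Or.inl (by linarith)
      · exact Or.inr (by linarith))
    rw [h1]
    norm_num
  con := fun z hz hn t => by
    have h1 : EA.z₂ (H₂ := H₂) z ∈ FT.TX X pi0 P₂ PN := ⟨⟨hz.1, map_zero _⟩, hz.2⟩
    rw [EA.Frm.z₂_act (R₂ := fun t => Rr (2 * t))]
    refine h.f2x_const hm h1 ?_ t
    change 5 / 4 ≤ ‖z.2‖ ^ 2
    nlinarith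

/-- restricted to the zero section of `P₂`: helper613's `f1` along `pi0` -/
theorem f2x_zero (h : FT.D2 G k K lg ρ r C r' Kr B w δ PN ε J E₀ η P₂ Rr xi0 δ₂ ε₂)
    (hm : FT.Eqm G X φ pi0) {z : E × Wt N K} (hz : z ∈ Tot X fun x => PN (pi0 x)) :
    FT.f2x G lg ρ w J xi0 ε ε₂ pi0 (EA.z₂ (H₂ := H₂) z) = FL.f1 G lg ρ w J ε (pi0 z.1, z.2) := by
  exact h.f2_zero (hm.maps _ hz.1) hz.2

end fam

/-! ### the negative bundle -/
section neg
open Crest.Agent.R208.NN (Wt Rt nuP)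
open Crest.Agent.R208.NB (NegB)

variable {n N K m s : ℕ} {κ : ℝ} {S : Set (Euc N)} {G : Geo n N κ S} {δ : ℝ}
  {PN : Euc N × Euc N → Wt N K →L[ℝ] Wt N K} {g : Euc N × Euc N → Fin m → ℂ}

/-- the descended negative bundle over `B`, target of odd dimension -/
theorem exists_dscO_N (h : GT.Bla G (2 * s + 2)) (hkn : 2 * s + 2 < n) (hper : HS.Per G)
    (H : NegB G (2 * s + 1) (nuP K) δ PN) (hg : Emb (L.US G) (gf G) g) :
    ∃ (c s' : ℕ) (T : Euc N × Euc N → Wt N K →L[ℝ] EuclideanSpace ℝ (Fin (2 * c + 1)))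
      (P' : MM m → EuclideanSpace ℝ (Fin (2 * c + 1)) →L[ℝ] EuclideanSpace ℝ (Fin (2 * c + 1)))
      (o' : MM m → Ext (EuclideanSpace ℝ (Fin (2 * c + 1))))
      (W' : MM m → (Fin (s' + 1) × Fin 2 → Fin (2 * c + 1)) → ℝ)
      (oN : Euc N × Euc N → Ext (Wt N K)),
      DscO (L.US G) (gf G) g (fun t => Rt (nuP K) t) s PN c s' T P' o' W' ∧
        UP.UPr (L.US G) (2 * s + 1) PN oN ∧ SB.OPr (L.US G) (2 * s + 1) PN oN ∧
        ∀ z ∈ L.US G, o' (jj g z) = UP.od T oN z := by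
  obtain ⟨oP, hoP⟩ := SB.exists_opr_N h (by omega) hkn H
  obtain ⟨d, hd⟩ : ∃ d, 2 * (n - 1) = d := ⟨_, rfl⟩
  obtain ⟨c, s', T, P', o', W', h1, h2⟩ := exists_dscO hg (CM.cir_US h.bl hper)
    (CM.clo_US' h.bl) (NB.rep_per N K) (UP.pfield_N H) (UP.syOn_N H) (UP.equi_N H) hoP
  have hu := UP.UPr.of_opr hoP (UP.pfield_N H) (UP.syOn_N H)
  exact ⟨c, s', T, P', o', W', _, h1, hu, hu.opr (UP.pfield_N H), h2⟩

end neg

/-- the form of a family only depends on its values on `X` -/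
theorem vf_congr {N : ℕ} {D : ED N} {E : Type} [NormedAddCommGroup E] [NormedSpace ℝ E]
    [FiniteDimensional ℝ E] {X : Set E} {φ : ℝ → E → E} {θ : E → Ext E} {f f' : E → Euc N}
    (hD : D.OK) (h : VC.Act X φ) (hf : Fam D.S X f) (hf' : Fam D.S X f')
    (he : ∀ x ∈ X, f x = f' x) : Eqv X (D.vf φ θ f) (D.vf φ θ f') :=
  VC.eqv_vv h (hD.dat hf).sm (hD.dat hf').sm
    (eqv_pull_of_eq D.om (fun y hy => (hf.smooth y hy).differentiableAt (by simp))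
      (fun y hy => (hf'.smooth y hy).differentiableAt (by simp)) he) (Eqv.refl _)

/-! ### (TH) for (8,2) -/
section th
open Crest.Agent.R208.NN (Wt Rt nuP)

variable {n N K k : ℕ} {κ : ℝ} {S : Set (Euc N)} {G : Geo n N κ S} {lg : Euc N → Euc N → Euc N}
  {ρ : Euc N → Euc N} {r C r' Kr B w δ : ℝ} {PN : Euc N × Euc N → Wt N K →L[ℝ] Wt N K}
  {Rr : ℝ → EuclideanSpace ℝ (((Fin K × Fin 2) × Fin N) ⊕ ((Fin K × Fin 2) × Fin N)) →L[ℝ]
    EuclideanSpace ℝ (((Fin K × Fin 2) × Fin N) ⊕ ((Fin K × Fin 2) × Fin N))}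
  {xi0 : Euc N × Euc N →
    EuclideanSpace ℝ (((Fin K × Fin 2) × Fin N) ⊕ ((Fin K × Fin 2) × Fin N)) →L[ℝ] Euc N}
  {δ₂ : ℝ} {ε ε₂ E₀ η₀ : ℝ} {J : ℕ} {D : ED N}
  {nB l m m' s c s' c₂ : ℕ} {g : Euc N × Euc N → Fin m → ℂ}
  {g' : (Euc N × Euc N) × HW.U l → Fin m' → ℂ} {p : MM m' → MM m}
  {T : Euc N × Euc N → Wt N K →L[ℝ] EuclideanSpace ℝ (Fin (2 * c + 1))}
  {P' : MM m → EuclideanSpace ℝ (Fin (2 * c + 1)) →L[ℝ] EuclideanSpace ℝ (Fin (2 * c + 1))}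
  {o' : MM m → Ext (EuclideanSpace ℝ (Fin (2 * c + 1)))}
  {W' : MM m → (Fin (s' + 1) × Fin 2 → Fin (2 * c + 1)) → ℝ} {w₀ : ℝ}
  {T₂ : (Euc N × Euc N) × HW.U l →
    EuclideanSpace ℝ (((Fin K × Fin 2) × Fin N) ⊕ ((Fin K × Fin 2) × Fin N)) →L[ℝ]
      EuclideanSpace ℝ (Fin (2 * c₂))}
  {P₂' : MM m' → EuclideanSpace ℝ (Fin (2 * c₂)) →L[ℝ] EuclideanSpace ℝ (Fin (2 * c₂))}
  {W₂' : MM m' → (Fin (2 * s + 1) × Fin 2 → Fin (2 * c₂)) → ℝ}
  {θ : (Euc N × Euc N) × HW.U l → Ext ((Euc N × Euc N) × HW.U l)}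

/-- **(TH) for (8,2)** -/
theorem th82 (hD : D.OK) (hDS : D.S = S) (H : HW.HD nB l (L.US G) (gf G) g g' p)
    (hUc : IsPreconnected (L.US G)) (hUn : (L.US G).Nonempty)
    (hN : EqF (L.US G) (gf G) (fun t => Rt (nuP K) t) (2 * s + 1) PN)
    (hO : DscO (L.US G) (gf G) g (fun t => Rt (nuP K) t) s PN c s' T P' o' W')
    (hRr : (fun t => Rr (2 * t)) = R2 (fun t => Rt (nuP K) (2 * t)) w₀) (hw : ∃ j : ℤ, w₀ = j)
    (D₂ : Dsc2 (Fin (2 * s + 1)) (HW.XX (L.US G) l) g' (HW.ph l (gf G))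
      (fun t => Rt (nuP K) (2 * t)) w₀ (fun z => PN z.1) T₂ P₂' W₂')
    (hc₂ : 2 * (2 * s + 1) + 2 ≤ 2 * c₂)
    (h : FT.D2 G k K lg ρ r C r' Kr B w δ PN ε J E₀ η₀ (NN PN) Rr xi0 δ₂ ε₂)
    (hB : ∀ z ∈ FT.TX (HW.XX (L.US G) l) Prod.fst (NN PN) PN, 0 < FT.c2 z →
      En (oc (FT.P2x (HW.ph l (gf G)) N K Rr) (FT.f2x G lg ρ w J xi0 ε ε₂ Prod.fst) z) ≤ D.B)
    (hθ : Cn (HW.XX (L.US G) l) (HW.ph l (gf G)) θ) (j : ℕ) :
    ∃ (s₂ : ℕ) (W₂'' : MM m' → (Fin (s₂ + 1) × Fin 2 → Fin (2 * c₂)) → ℝ) (c₀ : ℝ)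
      (η : _) (V' : (MM m' × EuclideanSpace ℝ (Fin (2 * c₂))) × EuclideanSpace ℝ (Fin (2 * c + 1)) →
        Ext ((MM m' × EuclideanSpace ℝ (Fin (2 * c₂))) × EuclideanSpace ℝ (Fin (2 * c + 1)))),
      OR (Quo (HW.XX (L.US G) l) g') (fun y => 1 - P₂' y) W₂'' ∧
      ThomPair (volume : Measure (EuclideanSpace ℝ (Fin (2 * c₂)))) (Quo (HW.XX (L.US G) l) g') P₂'
        (2 * (2 * s + 1)) 3 c₀ ((2 : ℝ) • eR P₂' W₂') (thomF P₂' W₂')
        (thomF (fun x => 1 - P₂' x) W₂'') ∧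
      D.IsEta (EX.Up (FT.TX (HW.XX (L.US G) l) Prod.fst (NN PN) PN) FT.c2)
        (FT.P2x (HW.ph l (gf G)) N K Rr) (F.pull EA.b₂ θ) (FT.f2x G lg ρ w J xi0 ε ε₂ Prod.fst) η ∧
      ContDiff ℝ ∞ V' ∧ CV (Quo (HW.XX (L.US G) l) g') P₂' (fun y => P' (p y)) 3 V' ∧ Hom j V' ∧
      Eqv (FT.TX (HW.XX (L.US G) l) Prod.fst (NN PN) PN)
        (F.pull (EA.Q₂ (jj g') T₂ fun z => T z.1) V')
        (dp j (D.rel (FT.P2x (HW.ph l (gf G)) N K Rr) (F.pull EA.b₂ θ)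
          (FT.f2x G lg ρ w J xi0 ε ε₂ Prod.fst) FT.c2 η)) ∧
      ∀ v₀' : MM m' × EuclideanSpace ℝ (Fin (2 * c + 1)) →
          Ext (MM m' × EuclideanSpace ℝ (Fin (2 * c + 1))),
        Sm (Tot (Quo (HW.XX (L.US G) l) g') fun y => P' (p y)) v₀' → Vt 3 v₀' →
        Eqv (Tot (HW.XX (L.US G) l) fun z => PN z.1) (F.pull (Th (jj g') fun z => T z.1) v₀')
          (dp j (D.vf (phR (HW.ph l (gf G)) fun t => Rt (nuP K) (2 * t)) (F.pull Prod.fst θ)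
            (fun z => FL.f1 G lg ρ w J ε (z.1.1, z.2)))) →
        Coh (Quo (HW.XX (L.US G) l) g')
          (c₀ • push (volume : Measure (EuclideanSpace ℝ (Fin (2 * c + 1)))) (fun y => P' (p y))
            (thomF (fun y => 1 - P' (p y)) fun y => W' (p y)) v₀')
          (pu₂ (volume : Measure (EuclideanSpace ℝ (Fin (2 * c + 1))))
            (volume : Measure (EuclideanSpace ℝ (Fin (2 * c₂)))) P₂'
            (thomF (fun x => 1 - P₂' x) W₂'') (fun y => P' (p y))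
            (thomF (fun y => 1 - P' (p y)) fun y => W' (p y)) V' * ((2 : ℝ) • eR P₂' W₂')) := by
  have hm : FT.Eqm G (HW.XX (L.US G) l) (HW.ph l (gf G)) Prod.fst := FT.eqm_XX l
  have hF := frm_xx (k := l) H hN hO (Fintype.card_fin _) hw D₂
  have hf2 := fam2_of_D2 (D := D) h hm hDS hB
  have hYc : IsPreconnected (Quo (HW.XX (L.US G) l) g') :=
    (HW.isPreconnected_XX hUc).image _ fun z hz => (H.emb'.contDiffAt_jj hz).continuousAt.continuousWithinAt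
  have hYn : (Quo (HW.XX (L.US G) l) g').Nonempty := by
    obtain ⟨z, hz⟩ := hUn
    obtain ⟨u, hu⟩ := HW.SU_nonempty (k := l)
    exact ⟨jj g' (z, u), (z, u), HW.mem_XX.2 ⟨hz, hu⟩, rfl⟩
  obtain ⟨s₂, W₂'', c₀, hor, hTh⟩ := Dsc2.exists_thomPair D₂
    (by rw [Fintype.card_fin]; exact hc₂) hF.hY hYc hYn
  rw [Fintype.card_fin] at hTh
  have hco := (hO.xx H).co hF.hY
  have hR2 : Rep (fun t => Rr (2 * t)) := by rw [hRr]; exact hF.R2
  have hT2 : Triv (HW.XX (L.US G) l) (HW.ph l (gf G)) (fun t => Rr (2 * t)) T₂ := by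
    rw [hRr]; exact hF.T2
  have he2 : ∀ x ∈ HW.XX (L.US G) l, ∀ t v, NN (fun z : (Euc N × Euc N) × HW.U l => PN z.1)
      (HW.ph l (gf G) t x) (Rr (2 * t) v) = Rr (2 * t) (NN (fun z => PN z.1) x v) := by
    intro x hx t v
    have := congrFun hRr t
    rw [this]
    exact hF.e2 x hx t v
  have hp2 : PField (HW.XX (L.US G) l) (2 * (2 * s + 1))
      (NN (fun z : (Euc N × Euc N) × HW.U l => PN z.1)) := by
    rw [two_mul (2 * s + 1)]; exact hF.p2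
  have hp2' : PField (Quo (HW.XX (L.US G) l) g') (2 * (2 * s + 1)) P₂' := by
    rw [two_mul (2 * s + 1)]; exact hF.p2'
  have hcir : Cir (TT (HW.XX (L.US G) l) (NN (fun z : (Euc N × Euc N) × HW.U l => PN z.1))
      (fun z => PN z.1)) (phR (phR (HW.ph l (gf G)) (fun t => Rr (2 * t)))
        (fun t => Rt (nuP K) (2 * t))) := Cir.tot₂ hF.h hF.R1 hR2 hF.e1 he2
  have hsb : SMap (TT (HW.XX (L.US G) l) (NN (fun z : (Euc N × Euc N) × HW.U l => PN z.1))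
      (fun z => PN z.1)) (HW.XX (L.US G) l) EA.b₂ :=
    ⟨fun z _ => contDiffAt_fst.comp z contDiffAt_fst, fun z hz => hz.1.1⟩
  have hΘ : Cn (TT (HW.XX (L.US G) l) (NN (fun z : (Euc N × Euc N) × HW.U l => PN z.1))
      (fun z => PN z.1)) (phR (phR (HW.ph l (gf G)) (fun t => Rr (2 * t)))
        (fun t => Rt (nuP K) (2 * t))) (F.pull EA.b₂ θ) :=
    hθ.pull (VC.Act.of_cir hF.h) (VC.Act.of_cir hcir) hsb (fun t z _ => rfl)
  have hTh' : ThomPair (volume : Measure (EuclideanSpace ℝ (Fin (2 * c₂))))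
      (Quo (HW.XX (L.US G) l) g') P₂' (2 * (2 * s + 1)) (2 + 1) c₀ ((2 : ℝ) • eR P₂' W₂')
      (thomF P₂' W₂') (thomF (fun x => 1 - P₂' x) W₂'') := by
    norm_num only; exact hTh
  obtain ⟨η, hη, V', a1, a2, a3, a4, a5⟩ := TH
    (volume : Measure (EuclideanSpace ℝ (Fin (2 * c + 1))))
    (volume : Measure (EuclideanSpace ℝ (Fin (2 * c₂)))) hD hF.qm hF.h hF.hX hF.hY hF.R1 hR2
    hF.T1 hT2 hF.p1 hp2 hF.e1 he2 hF.p1' hp2' hF.d1 hF.d2 (by norm_num : (0:ℝ) ≤ 2)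
    (by norm_num only; exact hco.csf) hco.even hTh' hΘ hf2.fam hf2.cs hf2.ci hf2.en hf2.out
    (fun z hz hz2 t => h.f2x_const hm hz (by nlinarith) t) j
  refine ⟨s₂, W₂'', c₀, η, V', hor, hTh, hη, a1, ?_, a3, a4, fun v₀' b1 b2 b3 => ?_⟩
  · have h21 : (2 : ℝ) + 1 = 3 := by norm_num
    rw [h21] at a2
    exact a2
  · refine a5 v₀' b1 (by norm_num only; exact b2) (b3.trans (Eqv.dp j ?_))
    have e1 : F.pull (up (zs (E := (Euc N × Euc N) × HW.U l)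
        (H := EuclideanSpace ℝ (((Fin K × Fin 2) × Fin N) ⊕ ((Fin K × Fin 2) × Fin N)))))
        (F.pull EA.b₂ θ) = F.pull (Prod.fst : ((Euc N × Euc N) × HW.U l) × Wt N K → _) θ := by
      funext y
      exact F.pull_comp (by unfold up zs; fun_prop) (by unfold EA.b₂; fun_prop)
    rw [e1]
    have hfz : ∀ z ∈ Tot (HW.XX (L.US G) l) (fun z => PN z.1),
        FL.f1 G lg ρ w J ε (z.1.1, z.2) = FT.f2x G lg ρ w J xi0 ε ε₂ Prod.fst
          (up (zs (E := (Euc N × Euc N) × HW.U l)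
            (H := EuclideanSpace ℝ (((Fin K × Fin 2) × Fin N) ⊕ ((Fin K × Fin 2) × Fin N)))) z) :=
      fun z hz => (f2x_zero h hm hz).symm
    have hfam := EA.fam1 (d := nB + (2 * l + 1) + 1) (dY := nB + (2 * l + 1)) (r₁ := 2 * s + 1)
      (r₂ := 2 * s + 1 + (2 * s + 1)) (R₂ := fun t => Rr (2 * t)) (R₁ := fun t => Rt (nuP K) (2 * t))
      (hF := hRr ▸ hF) hf2
    refine vf_congr hD (VC.Act.of_cir (Cir.tot hF.h hF.R1 hF.e1)) ?_ hfam hfz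
    refine ⟨fun z hz => ?_, fun z hz => ?_⟩
    · have h1 := h.toD1.fam.smooth (z.1.1, z.2) ⟨(HW.mem_XX.1 hz.1).1, hz.2⟩
      exact ContDiffAt.comp (g := FL.f1 G lg ρ w J ε)
        (f := fun z : ((Euc N × Euc N) × HW.U l) × Wt N K => (z.1.1, z.2)) z h1 (by fun_prop)
    · rw [hfz z hz]; exact hfam.maps z hz

end th

end Crest.Agent.R208.TP
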