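import Crest.Agent.R208.EA4
import Crest.Agent.R208.TP8
import Crest.Agent.R208.RI1
import Crest.Agent.R208.EX11

/-! Row 208, (8,2), block EA (helper595).  EA5: naturality of the Thom form; **(E)** for (8,2):
helper382's `TP.th82` and the form of the doubled level-one family. -/

set_option autoImplicit false
set_option linter.unusedSectionVars false
set_option linter.unusedVariables false
set_option maxHeartbeats 1000000

open MeasureTheory Set Filter Topology Module Matrix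
open scoped ContDiff RealInnerProductSpace
open Crest.GeometryTopology.Submanifold
open Crest.Agent.R241.DDefs Crest.Agent.R241.D Crest.Agent.R241.D2
open Crest.Agent.R208.F Crest.Agent.R208.FI Crest.Agent.R208.CW Crest.Agent.R208.T
open Crest.Agent.R208.CM
open Crest.Agent.R208.VC
open Crest.Agent.R208.EX
open Crest.Agent.R208.TP (QM TT CV pu₁ pu₂ push up)
open Crest.Agent.R208.MS (Fam oc En)

noncomputable section

namespace Crest.Agent.R208.EA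

section nat
variable {E E' : Type*} [NormedAddCommGroup E] [NormedSpace ℝ E] [FiniteDimensional ℝ E]
  [NormedAddCommGroup E'] [NormedSpace ℝ E'] [FiniteDimensional ℝ E']
  {n ι : Type*} [Fintype n] [DecidableEq n] [Fintype ι] [DecidableEq ι]
  {P : E → EuclideanSpace ℝ n →L[ℝ] EuclideanSpace ℝ n} {W : E → (ι × Fin 2 → n) → ℝ}
  {f : E' → E} {y : E'}

theorem two_le_inf : (2 : WithTop ℕ∞) ≤ ∞ :=
  (WithTop.coe_le_coe.2 le_top : ((2 : ℕ∞) : WithTop ℕ∞) ≤ ((⊤ : ℕ∞) : WithTop ℕ∞))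

/-- **naturality of the Thom form** (pointwise equality) -/
theorem thomF_up (hf : ContDiffAt ℝ ∞ f y) (hP : ContDiffAt ℝ ∞ P (f y))
    (v : EuclideanSpace ℝ n) :
    F.pull (up f) (thomF P W) (y, v) = thomF (fun y => P (f y)) (fun y => W (f y)) (y, v) := by
  have hu : ContDiffAt ℝ ∞ (up (H := EuclideanSpace ℝ n) f) (y, v) :=
    (ContDiffAt.comp (g := f) (y, v) hf contDiffAt_fst).prodMk contDiffAt_snd
  have hM : SM ∞ (fun z : E × EuclideanSpace ℝ n => mtx (P z.1)) (f y, v) := fun i j =>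
    ContDiffAt.comp (g := fun x => mtx (P x) i j) (f := fun z : E × EuclideanSpace ℝ n => z.1)
      (f y, v) (contDiffAt_mtx hP i j) contDiffAt_fst
  have hS : SM ∞ (fun z : E × EuclideanSpace ℝ n => SS z.2) (f y, v) := fun i j =>
    ContDiffAt.comp (g := fun v => SS v i j) (f := fun z : E × EuclideanSpace ℝ n => z.2)
      (f y, v) (contDiff_SS i j).contDiffAt contDiffAt_snd
  have h1 := pullC_ef (f := up (H := EuclideanSpace ℝ n) f) (x := (y, v))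
    (P := fun z : E × EuclideanSpace ℝ n => SS z.2 * mtx (P z.1) * (SS z.2)ᵀ)
    (W := fun z : E × EuclideanSpace ℝ n => pushW (SS z.2) (wC W z.1))
    (hu.of_le two_le_inf) (((hS.mul hM).mul hS.transpose).of_le (by simp))
  have h2 := pullC_ef (f := f) (x := y) (P := fun y => mtx (P y)) (W := wC W)
    (hf.of_le two_le_inf) (SM.of_le (k := ∞) (contDiffAt_mtx hP) (by simp))
  have k1 : pb (fderiv ℝ (up (H := EuclideanSpace ℝ n) f) (y, v) :
      E' × EuclideanSpace ℝ n →ₗ[ℝ] E × EuclideanSpace ℝ n) ((ue P W (f y, v)).re) =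
      (ue (fun y => P (f y)) (fun y => W (f y)) (y, v)).re := congrArg Cx.re h1
  have k2 : F.pull f (eR P W) y = eR (fun y => P (f y)) (fun y => W (f y)) y :=
    congrArg Cx.re h2
  have dA : HasFDerivAt (up (H := EuclideanSpace ℝ n) f)
      (((fderiv ℝ f y).comp (ContinuousLinearMap.fst ℝ E' (EuclideanSpace ℝ n))).prod
        (ContinuousLinearMap.snd ℝ E' (EuclideanSpace ℝ n))) (y, v) := by
    have h3 : HasFDerivAt (fun z : E' × EuclideanSpace ℝ n => f z.1)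
        ((fderiv ℝ f y).comp (ContinuousLinearMap.fst ℝ E' (EuclideanSpace ℝ n))) (y, v) :=
      HasFDerivAt.comp (g := f) (f := fun z : E' × EuclideanSpace ℝ n => z.1) (y, v)
        (hf.differentiableAt (by simp)).hasFDerivAt hasFDerivAt_fst
    exact h3.prodMk hasFDerivAt_snd
  have k3 : pb (fderiv ℝ (up (H := EuclideanSpace ℝ n) f) (y, v) :
      E' × EuclideanSpace ℝ n →ₗ[ℝ] E × EuclideanSpace ℝ n)
      (F.pull (fun z : E × EuclideanSpace ℝ n => z.1) (eR P W) (f y, v)) =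
      F.pull (fun z : E' × EuclideanSpace ℝ n => z.1)
        (eR (fun y => P (f y)) (fun y => W (f y))) (y, v) := by
    have e1 : fderiv ℝ (fun z : E × EuclideanSpace ℝ n => z.1) (f y, v) =
      ContinuousLinearMap.fst ℝ E (EuclideanSpace ℝ n) := fderiv_fst
    have e2 : fderiv ℝ (fun z : E' × EuclideanSpace ℝ n => z.1) (y, v) =
      ContinuousLinearMap.fst ℝ E' (EuclideanSpace ℝ n) := fderiv_fst
    rw [F.pull, F.pull, e1, e2, dA.fderiv, pb_comp, ← k2, F.pull, pb_comp]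
    rfl
  show pb _ (cut v • ((ue P W (f y, v)).re +
    F.pull (fun z : E × EuclideanSpace ℝ n => z.1) (eR P W) (f y, v))) = _
  rw [map_smul, map_add, k1, k3]
  rfl

end nat

section E82
open Crest.Agent.R208.NN (Wt Rt nuP)
open Crest.Agent.R208.DD

variable {n N K k : ℕ} {κ : ℝ} {S : Set (Euc N)} {G : Geo n N κ S} {lg : Euc N → Euc N → Euc N}
  {ρ : Euc N → Euc N} {r C r' Kr B w δ : ℝ} {PN : Euc N × Euc N → Wt N K →L[ℝ] Wt N K}
  {Rr : ℝ → EuclideanSpace ℝ (((Fin K × Fin 2) × Fin N) ⊕ ((Fin K × Fin 2) × Fin N)) →L[ℝ]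
    EuclideanSpace ℝ (((Fin K × Fin 2) × Fin N) ⊕ ((Fin K × Fin 2) × Fin N))}
  {xi0 : Euc N × Euc N →
    EuclideanSpace ℝ (((Fin K × Fin 2) × Fin N) ⊕ ((Fin K × Fin 2) × Fin N)) →L[ℝ] Euc N}
  {δ₂ : ℝ} {ε ε₂ E₀ η₀ : ℝ} {J : ℕ} {D : ED N}
  {nB l m m' s c s' c₂ : ℕ} {g : Euc N × Euc N → Fin m → ℂ}
  {g' : (Euc N × Euc N) × HW.U l → Fin m' → ℂ} {p : MM m' → MM m}
  {T : Euc N × Euc N → Wt N K →L[ℝ] EuclideanSpace ℝ (Fin (2 * c + 1))}
  {P' : MM m → EuclideanSpace ℝ (Fin (2 * c + 1)) →L[ℝ] EuclideanSpace ℝ (Fin (2 * c + 1))}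
  {o' : MM m → Ext (EuclideanSpace ℝ (Fin (2 * c + 1)))}
  {W' : MM m → (Fin (s' + 1) × Fin 2 → Fin (2 * c + 1)) → ℝ} {w₀ : ℝ}
  {T₂ : (Euc N × Euc N) × HW.U l →
    EuclideanSpace ℝ (((Fin K × Fin 2) × Fin N) ⊕ ((Fin K × Fin 2) × Fin N)) →L[ℝ]
      EuclideanSpace ℝ (Fin (2 * c₂))}
  {P₂' : MM m' → EuclideanSpace ℝ (Fin (2 * c₂)) →L[ℝ] EuclideanSpace ℝ (Fin (2 * c₂))}
  {W₂' : MM m' → (Fin (2 * s + 1) × Fin 2 → Fin (2 * c₂)) → ℝ}
  {θ₀ : Euc N × Euc N → Ext (Euc N × Euc N)} {w₁ : MM m → Ext (MM m)}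

/-- the cover `US × S^(2l+1) → US` -/
theorem dbl_HD {E : Type} [NormedAddCommGroup E] [NormedSpace ℝ E] [FiniteDimensional ℝ E]
    {X : Set E} {φ : ℝ → E → E} {g : E → Fin m → ℂ} {g' : E × HW.U l → Fin m' → ℂ}
    (H : HW.HD nB l X φ g g' p) :
    Dbl X φ (Quo X g) (jj g) (HW.XX X l) (HW.ph l φ) (Quo (HW.XX X l) g') (jj g') Prod.fst p where
  sX := HW.smap_fst
  sB := H.smap
  act := fun z hz t => rfl
  comm := fun z hz => (H.eq z hz).symm

/-- **(E) for (8,2)** -/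
theorem E82 (hD : D.OK) (hDS : D.S = S) (H : HW.HD nB l (L.US G) (gf G) g g' p)
    (hUc : IsPreconnected (L.US G)) (hUn : (L.US G).Nonempty)
    (hN : EqF (L.US G) (gf G) (fun t => Rt (nuP K) t) (2 * s + 1) PN)
    (hO : TP.DscO (L.US G) (gf G) g (fun t => Rt (nuP K) t) s PN c s' T P' o' W')
    (hRr : (fun t => Rr (2 * t)) = R2 (fun t => Rt (nuP K) (2 * t)) w₀) (hw : ∃ j : ℤ, w₀ = j)
    (D₂ : Dsc2 (Fin (2 * s + 1)) (HW.XX (L.US G) l) g' (HW.ph l (gf G))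
      (fun t => Rt (nuP K) (2 * t)) w₀ (fun z => PN z.1) T₂ P₂' W₂')
    (hc₂ : 2 * (2 * s + 1) + 2 ≤ 2 * c₂)
    (h : FT.D2 G k K lg ρ r C r' Kr B w δ PN ε J E₀ η₀ (NN PN) Rr xi0 δ₂ ε₂)
    (hB : ∀ z ∈ FT.TX (HW.XX (L.US G) l) Prod.fst (NN PN) PN, 0 < FT.c2 z →
      En (oc (FT.P2x (HW.ph l (gf G)) N K Rr) (FT.f2x G lg ρ w J xi0 ε ε₂ Prod.fst) z) ≤ D.B)
    (hθ₀ : Conn (L.US G) (gf G) θ₀) {a : ℕ} (hdeg : Hom (a + 1) D.om)
    (hp : 2 * D.p = 3 * a + 1) (hq : 2 * D.q = 2 * a)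
    (hpu : ∀ V'' : MM m × EuclideanSpace ℝ (Fin (2 * c + 1)) →
        Ext (MM m × EuclideanSpace ℝ (Fin (2 * c + 1))),
      Sm (Tot (Quo (L.US G) g) P') V'' → Cl (Tot (Quo (L.US G) g) P') V'' →
      VE.Cs (Quo (L.US G) g) P' 2 V'' → Eqv (Tot (L.US G) PN) (F.pull (Th (jj g) T) V'')
        (vv (VC.dbl (phR (gf G) fun t => Rt (nuP K) t))
          ((1 / 2 : ℝ) • F.d (F.pull Prod.fst θ₀)) D.p D.q D.r D.s
          (F.pull (FL.f1 G lg ρ w J ε) D.om)) →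
      Coh (Quo (L.US G) g) (VE.pu (volume : Measure (EuclideanSpace ℝ (Fin (2 * c + 1)))) P'
        (thomF (fun y => 1 - P' y) W') 2 V'') w₁) :
    ∃ (s₂ : ℕ) (W₂'' : MM m' → (Fin (s₂ + 1) × Fin 2 → Fin (2 * c₂)) → ℝ) (c₀ : ℝ)
      (η : _) (V' : (MM m' × EuclideanSpace ℝ (Fin (2 * c₂))) × EuclideanSpace ℝ (Fin (2 * c + 1)) →
        Ext ((MM m' × EuclideanSpace ℝ (Fin (2 * c₂))) × EuclideanSpace ℝ (Fin (2 * c + 1)))),
      OR (Quo (HW.XX (L.US G) l) g') (fun y => 1 - P₂' y) W₂'' ∧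
      ThomPair (volume : Measure (EuclideanSpace ℝ (Fin (2 * c₂)))) (Quo (HW.XX (L.US G) l) g') P₂'
        (2 * (2 * s + 1)) 3 c₀ ((2 : ℝ) • eR P₂' W₂') (thomF P₂' W₂')
        (thomF (fun x => 1 - P₂' x) W₂'') ∧
      D.IsEta (EX.Up (FT.TX (HW.XX (L.US G) l) Prod.fst (NN PN) PN) FT.c2)
        (FT.P2x (HW.ph l (gf G)) N K Rr) (F.pull EA.b₂ (HW.th l θ₀))
        (FT.f2x G lg ρ w J xi0 ε ε₂ Prod.fst) η ∧
      ContDiff ℝ ∞ V' ∧ CV (Quo (HW.XX (L.US G) l) g') P₂' (fun y => P' (p y)) 3 V' ∧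
      Hom (4 * a + 1) V' ∧
      Eqv (FT.TX (HW.XX (L.US G) l) Prod.fst (NN PN) PN)
        (F.pull (EA.Q₂ (jj g') T₂ fun z => T z.1) V')
        (dp (4 * a + 1) (D.rel (FT.P2x (HW.ph l (gf G)) N K Rr) (F.pull EA.b₂ (HW.th l θ₀))
          (FT.f2x G lg ρ w J xi0 ε ε₂ Prod.fst) FT.c2 η)) ∧
      Coh (Quo (HW.XX (L.US G) l) g') (c₀ • F.pull p w₁)
        (pu₂ (volume : Measure (EuclideanSpace ℝ (Fin (2 * c + 1))))
          (volume : Measure (EuclideanSpace ℝ (Fin (2 * c₂)))) P₂'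
          (thomF (fun x => 1 - P₂' x) W₂'') (fun y => P' (p y))
          (thomF (fun y => 1 - P' (p y)) fun y => W' (p y)) V' * ((2 : ℝ) • eR P₂' W₂')) := by
  have hc1 := cn_of_conn hθ₀
  have hc2 := cn_of_conn (HW.conn_th (k := l) H.cir hθ₀)
  obtain ⟨s₂, W₂'', c₀, η, V', a1, a2, a3, a4, a5, a6, a7, a8⟩ :=
    TP.th82 hD hDS H hUc hUn hN hO hRr hw D₂ hc₂ h hB hc2 (4 * a + 1)
  have hdb := dbl_HD H
  have hco : VE.Co (Quo (L.US G) g) P' 3 (thomF (fun y => 1 - P' y) W') := hO.co H.cloB.sub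
  have hdat : Dat D.S D.om := hD.mod.dat
  obtain ⟨v₀, b1, b2, b3, b4⟩ := E_left (D := D) (P := PN) (k := a) (f1 := FL.f1 G lg ρ w J ε)
    (ρ := 2) (volume : Measure (EuclideanSpace ℝ (Fin (2 * c + 1)))) hdb H.clo.sub H.clo'.sub
    H.cir H.cir' hN.pf hO.pf hN.rep hO.triv hN.eq hO.eqP (TP.qm_jj H.emb H.cir H.clo)
    (TP.qm_jj H.emb' H.cir' H.clo') (by norm_num) hco
    (by rw [hDS]; exact h.fam) hdat hdeg hp hq hc1 hc2 (Eqv.refl _)
    (fun z hz hn t => h.f1_const hz (by nlinarith) t) hpu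
  refine ⟨s₂, W₂'', c₀, η, V', a1, a2, a3, a4, a5, a6, a7, ?_⟩
  have h1 := a8 v₀ b1 (by
    have h21 : (2 : ℝ) + 1 = 3 := by norm_num
    rwa [h21] at b2) b3
  have e1 : Eqv (Quo (HW.XX (L.US G) l) g')
      (push (volume : Measure (EuclideanSpace ℝ (Fin (2 * c + 1)))) (fun y => P' (p y))
        (F.pull (up p) (thomF (fun y => 1 - P' y) W')) v₀)
      (push (volume : Measure (EuclideanSpace ℝ (Fin (2 * c + 1)))) (fun y => P' (p y))
        (thomF (fun y => 1 - P' (p y)) fun y => W' (p y)) v₀) := Eqv.of_eq fun y hy => by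
    refine TP.push_congr_pt _ (fun v => hO.pf.idem _ (H.smap.maps hy) v) (fun v _ => ?_)
      (fun v _ => rfl)
    exact thomF_up (P := fun y => 1 - P' y) (W := W') (H.smooth.contDiffAt)
      (contDiffAt_const.sub hO.smP.contDiffAt) v
  exact (((Coh.of_eqv e1).symm.trans b4).symm.smul c₀).trans h1

end E82

end Crest.Agent.R208.EA
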