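import Crest.Agent.R208.EW8

/-! Row 208, block EW (helper607).  EW9: **the Euler form of the level-2 bundle over `B'`** is the
pull-back of `± 2^7 7! c_7(N_ℂ ⊗ L^{1/2})` from `B`. -/

set_option autoImplicit false
set_option linter.unusedSectionVars false
set_option linter.unusedVariables false
set_option linter.unusedSimpArgs false

open Set Filter Topology Module MeasureTheory Matrix
open scoped ContDiff RealInnerProductSpace ComplexConjugate Kronecker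
open Crest.Agent.R208.F Crest.Agent.R208.FI Crest.Agent.R208.CW
open Crest.Agent.R208.CM
open Crest.Agent.R208.T
open Crest.Agent.R208.EP
open Crest.Agent.R208.HW (U XX ph HD th conn_th smap_fst)

noncomputable section

namespace Crest.Agent.R208.EW

section a
variable {E : Type} [NormedAddCommGroup E] [NormedSpace ℝ E] [FiniteDimensional ℝ E]
  {p : Type} [Fintype p] [DecidableEq p] {m d : ℕ} {B : Set (MM m)}
  {P : MM m → EuclideanSpace ℝ p →L[ℝ] EuclideanSpace ℝ p} {Fc : MM m → Ext (MM m)}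

theorem coh_top7 (hB : Sub d B) (hP : PField B 7 P) (hE : EC B Fc) (w : ℝ) :
    Coh B (top7 w P Fc) (topr 7 w P Fc) := by
  have e2 := ec_cR hB hP 2
  have e4 := ec_cR hB hP 4
  have e6 := ec_cR hB hP 6
  have t1 := (hE.pow 7).smul (w ^ 7)
  have t2 := (e2.mul (hE.pow 5)).smul (-(w ^ 5))
  have t3 := (e4.mul (hE.pow 3)).smul (w ^ 3)
  have t4 := (e6.mul hE).smul (-w)
  have ht : EC B (top7 w P Fc) := ((t1.add t2).add t3).add t4
  have ht' := ec_topr (r := 7) (w := w) hB hP hE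
  refine (rcl_eq_iff ht ht').1 ?_
  have hI := idF_of_pfield hP
  have b1 : rcl ht = rcl t1 + rcl t2 + rcl t3 + rcl t4 := by
    rw [← rcl_add t1 t2, ← rcl_add (t1.add t2) t3, ← rcl_add ((t1.add t2).add t3) t4]
    rfl
  have r2 : rcl e2 = cc hB hI 2 := rcl_cfr hB hI (fun y i j => Complex.ofReal_im _) 2
  have r4 : rcl e4 = cc hB hI 4 := rcl_cfr hB hI (fun y i j => Complex.ofReal_im _) 4
  have r6 : rcl e6 = cc hB hI 6 := rcl_cfr hB hI (fun y i j => Complex.ofReal_im _) 6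
  rw [b1, rcl_topr hB hP hE, rcl_smul _ (hE.pow 7), rcl_smul _ (e2.mul (hE.pow 5)),
    rcl_smul _ (e4.mul (hE.pow 3)), rcl_smul _ (e6.mul hE), rcl_mul e2 (hE.pow 5),
    rcl_mul e4 (hE.pow 3), rcl_mul e6 hE, rcl_pow hE, rcl_pow hE, rcl_pow hE, r2, r4, r6]
  simp only [show (7 / 2 + 1 : ℕ) = 4 from rfl, Finset.sum_range_succ, Finset.sum_range_zero,
    zero_add, Nat.mul_zero, Nat.mul_one, Nat.sub_zero, cc_zero hB hI, show 2 * 1 = 2 from rfl,
    show 2 * 2 = 4 from rfl, show 2 * 3 = 6 from rfl, show 7 - 2 = 5 from rfl,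
    show 7 - 4 = 3 from rfl, show 7 - 6 = 1 from rfl, pow_one, one_mul]
  push_cast
  module

end a

section lvl2
variable {E : Type} [NormedAddCommGroup E] [NormedSpace ℝ E] [FiniteDimensional ℝ E]
  {a b p p' q ι : Type} [Fintype a] [DecidableEq a] [Fintype b] [DecidableEq b] [Fintype p]
  [DecidableEq p] [Fintype p'] [DecidableEq p'] [Fintype q] [DecidableEq q] [Fintype ι]
  [DecidableEq ι]
  {X : Set E} {φ : ℝ → E → E} {m m' n k : ℕ} {g : E → Fin m → ℂ} {g' : E × U k → Fin m' → ℂ}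
  {pi' : MM m' → MM m}
  {R R' : ℝ → EuclideanSpace ℝ a →L[ℝ] EuclideanSpace ℝ a}
  {R₂ : ℝ → EuclideanSpace ℝ b →L[ℝ] EuclideanSpace ℝ b}
  {Tr : E → EuclideanSpace ℝ a →L[ℝ] EuclideanSpace ℝ p}
  {Tr' : E × U k → EuclideanSpace ℝ a →L[ℝ] EuclideanSpace ℝ p'}
  {T₂ : E × U k → EuclideanSpace ℝ b →L[ℝ] EuclideanSpace ℝ q}
  {N : E → EuclideanSpace ℝ a →L[ℝ] EuclideanSpace ℝ a}
  {NN : E × U k → EuclideanSpace ℝ b →L[ℝ] EuclideanSpace ℝ b}
  {i₁ i₂ : EuclideanSpace ℝ a →L[ℝ] EuclideanSpace ℝ b}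
  {P : MM m → EuclideanSpace ℝ p →L[ℝ] EuclideanSpace ℝ p}
  {P' : MM m' → EuclideanSpace ℝ p' →L[ℝ] EuclideanSpace ℝ p'}
  {P₂ : MM m' → EuclideanSpace ℝ q →L[ℝ] EuclideanSpace ℝ q} {W₂ : MM m' → (ι × Fin 2 → q) → ℝ}
  {θ : E → Ext E} {Fc : MM m → Ext (MM m)} {r : ℕ}

/-- the Chern forms of the field descended to `B'` are pulled back from `B` -/
theorem coh_cR_level2 (H : HD n k X φ g g' pi') (hR : Rep R) (hR' : Rep R')
    (hRR : ∀ t, R' t = R (2 * t)) (hT : Triv X φ R Tr) (hT' : Triv (XX X k) (ph k φ) R' Tr')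
    (hN : PField X r N) (eqN : ∀ x ∈ X, ∀ t v, N (φ t x) (R t v) = R t (N x v))
    (hP : PField (Quo X g) r P) (hPe : ∀ x ∈ X, P (jj g x) = Qd Tr N x)
    (hP' : PField (Quo (XX X k) g') r P')
    (hPe' : ∀ z ∈ XX X k, P' (jj g' z) = Qd Tr' (fun z => N z.1) z) (j : ℕ) :
    Coh (Quo (XX X k) g') (cR j P') (F.pull pi' (cR j P)) :=
  coh_cR_desc (f := (Prod.fst : E × U k → E)) (ρ := 2) H.emb H.cir H.clo H.emb' H.cir' H.clo'
    smap_fst H.smap H.eq (fun z _ t => rfl) hR hR' hRR hT hT' hN eqN hP hPe hP' hPe' j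

/-- **the Euler form of the level-2 bundle** -/
theorem coh_WW (H : HD n k X φ g g' pi') (hXc : IsPreconnected X)
    (h : DD2 (XX X k) (ph k φ) R' R₂ Tr' T₂ (fun z => N z.1) NN i₁ i₂ 1 g')
    (hR : Rep R) (hRR : ∀ t, R' t = R (2 * t)) (hT : Triv X φ R Tr)
    (hN : PField X 7 N) (eqN : ∀ x ∈ X, ∀ t v, N (φ t x) (R t v) = R t (N x v))
    (hP : PField (Quo X g) 7 P) (hPe : ∀ x ∈ X, P (jj g x) = Qd Tr N x)
    (hP' : PField (Quo (XX X k) g') 7 P')
    (hPe' : ∀ z ∈ XX X k, P' (jj g' z) = Qd Tr' (fun z => N z.1) z)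
    (hO : OR (ι := ι) (Quo (XX X k) g') P₂ W₂) (hι : Fintype.card ι = 7)
    (hP₂ : ∀ z ∈ XX X k, P₂ (jj g' z) = Qd T₂ NN z)
    (hθ : Conn X φ θ) (hF : Curv X g θ Fc) :
    ∃ ε : ℝ, (ε = 1 ∨ ε = -1) ∧ Coh (Quo (XX X k) g') (eR P₂ W₂)
      ((ε * (2 ^ 7 * (Nat.factorial 7))) • F.pull pi' (topr 7 (1 / 2) P Fc)) := by
  obtain ⟨eB', h2⟩ := (conn_th (k := k) H.cir hθ).exists_curv H.emb' H.cir' H.clo'
  have hpe := H.pull_e hθ.sm hF.pull h2.pull
  have hXXc : IsPreconnected (XX X k) := HW.isPreconnected_XX hXc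
  obtain ⟨ε, hε, h3⟩ := h.coh_eR_one H.emb' H.cir' H.clo' hXXc hP' hPe' hO hι hP₂
    (conn_th (k := k) H.cir hθ) h2
  have hB' := H.cloB'.sub
  have hB := H.cloB.sub
  have hE' : EC (Quo (XX X k) g') eB' := curvEC h2
  have hE : EC (Quo X g) Fc := curvEC hF
  have h4 := coh_top7 hB' hP' hE' 1
  have h5 : Coh (Quo (XX X k) g') eB' ((1 / 2 : ℝ) • F.pull pi' Fc) := by
    have h6 := (hpe.smul (1 / 2)).symm
    rw [smul_smul] at h6
    norm_num at h6
    exact Coh.of_eqv (by simpa using h6)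
  have h6 := coh_topr_pull (r := 7) (w := 1) hB' hB H.smap hP hP' hE hE'
    (fun j => coh_cR_level2 H hR h.rep hRR hT h.triv hN eqN hP hPe hP' hPe' j) h5
  rw [one_mul] at h6
  exact ⟨ε, hε, h3.trans ((h4.trans h6).smul _)⟩

end lvl2

end Crest.Agent.R208.EW
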