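import Crest.Agent.R208.T3d
import Crest.Agent.R208.TSph
import Crest.Agent.R208.FV6
import Crest.Agent.R208.GP2e
import Crest.Agent.R208.DEG2
import Crest.Agent.R208.CW6

/-! Row 208, block (X0) (helper595).  TI3: instances of block T over the cut locus `C_p`. -/

set_option autoImplicit false
set_option linter.unusedSectionVars false

open MeasureTheory Set Filter Topology Module
open scoped ContDiff RealInnerProductSpace
open Crest.GeometryTopology.Submanifold
open Crest.Agent.R241.DDefs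
open Crest.Agent.R241.D2
open Crest.Agent.R208.F Crest.Agent.R208.FI Crest.Agent.R208.CW

noncomputable section

namespace Crest.Agent.R208.T

/-! ### the Euler form as a real class -/
section euler
variable {E : Type} [NormedAddCommGroup E] [NormedSpace ℝ E] [FiniteDimensional ℝ E]
  {n : Type} [Fintype n] [DecidableEq n] {ι : Type} [Fintype ι] [DecidableEq ι]
  {X : Set E} {P : E → EuclideanSpace ℝ n →L[ℝ] EuclideanSpace ℝ n}
  {W : E → (ι × Fin 2 → n) → ℝ} {d : ℕ}

theorem isRe_efR (x : E) : IsRe (ef (fun y => mtx (P y)) (wC W) x) :=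
  IsRe_ef (fun _ _ _ => Complex.ofReal_im _) (fun _ => Complex.ofReal_im _)

theorem mkF_eR : mkF (eR P W) 0 = ef (fun y => mtx (P y)) (wC W) :=
  funext fun x => Cx.ext rfl (isRe_efR x).symm

/-- the Euler form is a closed even form -/
theorem OR.ec_eR (h : OR X P W) : EC X (eR P W) := by
  obtain ⟨⟨h1, h2, h3⟩, -⟩ := mem_Z_iff.1 (ef_mem_Z (OR.of h))
  exact ⟨h1, h2, h3⟩

theorem hom_eR : Hom (2 * Fintype.card ι) (eR P W) := fun x => (degC_ef _ _ x).1

/-- the class of the real Euler form is the Euler class -/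
theorem OR.rcl_eR (h : OR X P W) : rcl h.ec_eR = ec (OR.of h) :=
  cls_of_eq _ _ mkF_eR

/-- (B1) as a property -/
theorem pb1_of_OR [Nonempty ι] (hX : Sub d X) (hc : IsPreconnected X) (h : OR X P W) :
    PB1 X P (2 * Fintype.card ι) := fun _ _ hj hb hcl hd => sph_low_all hX hc h hj hb hcl hd

/-- (B2) as a property -/
theorem pb2_of_OR [Nonempty ι] (hX : Sub d X) (hc : IsPreconnected X) (h : OR X P W) :
    PB2 X P (2 * Fintype.card ι) (eR P W) where
  high := fun _ _ hb hcl hd h0 => gysin_all hX hc h hb hcl hd h0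
  low := fun _ _ hb hcl hd hj h0 => gysin_low_all hX hc h hb hcl hd hj h0

/-- forms of degree larger than the dimension vanish -/
theorem eqv_zero_of_gt {j : ℕ} {b : E → Ext E} (hX : Sub d X) (hj : d < j) (hb : Hom j b) :
    Eqv X b 0 := by
  refine eqv_iff.2 fun x hx => ?_
  have h1 : IsDeg j (pb (Tan X x).subtype (b x)) := (hb x).pb _
  have h2 : finrank ℝ (Tan X x) = d := hX.finrank_Tan hx
  rw [h1.eq_zero (by omega)]
  simp

end euler

/-! ### the cut locus -/
section cut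
variable {n N k : ℕ} {κ : ℝ} {S : Set (Euc N)} {G : Geo n N κ S} {p : Euc N}
  {ι : Type} [Fintype ι] [DecidableEq ι] {W : Euc N → (ι × Fin 2 → Fin N) → ℝ}

theorem finrank_range_P (G : Geo n N κ S) (hp : p ∈ S) :
    finrank ℝ (LinearMap.range (G.P p : Euc N →ₗ[ℝ] Euc N)) = n :=
  (LB.pfield G).rank p hp

/-- the sphere bundle of `V_{·p}` over `C_p` is a sphere of dimension `n - 1` -/
theorem exactIn_Sph_Cut (h : GT.Bla G k) (hp : p ∈ S) {j : ℕ} (hj : 1 ≤ j) (hjn : j + 1 < n) :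
    ExactIn (Sph (GP.Cut S p) (FV.PC h p)) j :=
  ExactIn.transport (FV.smap_Sph_Cut h hp) (FV.smap_Sph_pt h hp)
    (fun _ hx => FV.arr_arr_Cut h hp hx)
    (exactIn_sphere_all ((LB.pfield G).idem p hp) (finrank_range_P G hp) hj hjn)

theorem pb2_Cut (h : GT.Bla G k) (hk : 2 ≤ k) (hn : 2 ≤ n) (hp : p ∈ S)
    (hι : 2 * Fintype.card ι = k) (hW : OR (GP.Cut S p) (FV.PC h p) W) :
    PB2 (GP.Cut S p) (FV.PC h p) k (eR (FV.PC h p) W) := by
  have : Nonempty ι := Fintype.card_pos_iff.1 (by omega)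
  have := pb2_of_OR (FV.sub_Cut h hp) (FV.preconn_Cut h.bl h.ty hn hp) hW
  rwa [hι] at this

/-- **(I3)** closed forms on `C_p` are multiples of powers of the Euler form of `V_{·p}` -/
theorem Cut_classes (h : GT.Bla G k) (hk : 2 ≤ k) (hkn : k < n) (hp : p ∈ S)
    (hι : 2 * Fintype.card ι = k) (hW : OR (GP.Cut S p) (FV.PC h p) W) (j : ℕ)
    {b : Euc N → Ext (Euc N)} (hb : Sm (GP.Cut S p) b) (hc : Cl (GP.Cut S p) b) (hd : Hom j b) :
    ∃ c : ℝ, (¬ k ∣ j → c = 0) ∧ Coh (GP.Cut S p) b (c • eR (FV.PC h p) W ^ (j / k)) := by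
  rcases lt_or_ge j (n - 1) with hj | hj
  · exact base_classes (FV.sub_Cut h hp) (FV.preconn_Cut h.bl h.ty (by omega) hp) (by omega)
      (pb2_Cut h hk (by omega) hp hι hW) hW.ec_eR.sm hW.ec_eR.cl
      (D := n - 1) (fun i h1 h2 => exactIn_Sph_Cut h hp h1 (by omega)) j b hj hb hc hd
  · refine ⟨0, fun _ => rfl, ?_⟩
    rw [zero_smul]
    exact Coh.of_eqv (eqv_zero_of_gt (FV.sub_Cut h hp) (by omega) hd)

end cut

end Crest.Agent.R208.T
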