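import Crest.Agent.R208.EA5
import Crest.Agent.R208.EW9
import Crest.Agent.R208.TI3

/-! Row 208, (8,2), block EA (helper595).  EA6: the forms `u`, `e₂` over `B'` of helper221's
`ZA.bound`: (E), degree of `u`, class of `e₂`. -/

set_option autoImplicit false
set_option linter.unusedSectionVars false
set_option linter.unusedVariables false
set_option maxHeartbeats 1000000

open MeasureTheory Set Filter Topology Module Matrix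
open scoped ContDiff RealInnerProductSpace
open Crest.GeometryTopology.Submanifold
open Crest.Agent.R241.DDefs Crest.Agent.R241.D Crest.Agent.R241.D2
open Crest.Agent.R208.F Crest.Agent.R208.FI Crest.Agent.R208.CW Crest.Agent.R208.T
open Crest.Agent.R208.CM
open Crest.Agent.R208.VC
open Crest.Agent.R208.EX
open Crest.Agent.R208.TP (QM TT CV pu₁ pu₂ push up)
open Crest.Agent.R208.MS (Fam oc En)

noncomputable section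

namespace Crest.Agent.R208.EA

open Crest.Agent.R208.NN (Wt Rt nuP)
open Crest.Agent.R208.DD
open Crest.Agent.R208.EP (topr)

section u
variable {E H₁ H₂ : Type} [NormedAddCommGroup E] [NormedSpace ℝ E] [FiniteDimensional ℝ E]
  [NormedAddCommGroup H₁] [InnerProductSpace ℝ H₁] [FiniteDimensional ℝ H₁]
  [MeasurableSpace H₁] [BorelSpace H₁] (μ₁ : Measure H₁) [μ₁.IsAddHaarMeasure]
  [NormedAddCommGroup H₂] [InnerProductSpace ℝ H₂] [FiniteDimensional ℝ H₂]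
  [MeasurableSpace H₂] [BorelSpace H₂] (μ₂ : Measure H₂) [μ₂.IsAddHaarMeasure]
  {X : Set E} {P₁ : E → H₁ →L[ℝ] H₁} {P₂ : E → H₂ →L[ℝ] H₂} {r₁ r₂ j q₁ q₂ : ℕ} {R : ℝ}
  {τ₁' : E × H₁ → Ext (E × H₁)} {τ₂' : E × H₂ → Ext (E × H₂)}
  {V : (E × H₂) × H₁ → Ext ((E × H₂) × H₁)}

/-- `pu₂ V` is closed, smooth, homogeneous -/
theorem u_spec (hP₁ : PField X r₁ P₁) (hP₂ : PField X r₂ P₂)
    (hτ₁ : CSF X (fun x => 1 - P₁ x) R τ₁') (hτ₂ : CSF X (fun x => 1 - P₂ x) R τ₂')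
    (hV : CV X P₂ P₁ R V) (d₁ : Hom q₁ τ₁') (d₂ : Hom q₂ τ₂') (dV : Hom (j + r₂ + r₁) V)
    (hq₁ : q₁ + r₁ = finrank ℝ H₁) (hq₂ : q₂ + r₂ = finrank ℝ H₂) :
    Sm X (pu₂ μ₁ μ₂ P₂ τ₂' P₁ τ₁' V) ∧ Cl X (pu₂ μ₁ μ₂ P₂ τ₂' P₁ τ₁' V) ∧
      Hom j (pu₂ μ₁ μ₂ P₂ τ₂' P₁ τ₁' V) :=
  ⟨TP.sm_pu₂ μ₁ μ₂ hP₁ hP₂ hτ₁ hτ₂ hV, TP.cl_pu₂ μ₁ μ₂ hP₁ hP₂ hτ₁ hτ₂ hV,
    TP.hom_pu₂ μ₁ μ₂ d₁ d₂ dV hq₁ hq₂⟩

end u

variable {n N K k : ℕ} {κ : ℝ} {S : Set (Euc N)} {G : Geo n N κ S} {lg : Euc N → Euc N → Euc N}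
  {ρ : Euc N → Euc N} {r C r' Kr B w δ : ℝ} {PN : Euc N × Euc N → Wt N K →L[ℝ] Wt N K}
  {Rr : ℝ → EuclideanSpace ℝ (((Fin K × Fin 2) × Fin N) ⊕ ((Fin K × Fin 2) × Fin N)) →L[ℝ]
    EuclideanSpace ℝ (((Fin K × Fin 2) × Fin N) ⊕ ((Fin K × Fin 2) × Fin N))}
  {xi0 : Euc N × Euc N →
    EuclideanSpace ℝ (((Fin K × Fin 2) × Fin N) ⊕ ((Fin K × Fin 2) × Fin N)) →L[ℝ] Euc N}
  {δ₂ : ℝ} {ε ε₂ E₀ η₀ : ℝ} {J : ℕ} {D : ED N}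
  {nB l m m' c s' c₂ : ℕ} {g : Euc N × Euc N → Fin m → ℂ}
  {g' : (Euc N × Euc N) × HW.U l → Fin m' → ℂ} {p : MM m' → MM m}
  {T : Euc N × Euc N → Wt N K →L[ℝ] EuclideanSpace ℝ (Fin (2 * c + 1))}
  {P' : MM m → EuclideanSpace ℝ (Fin (2 * c + 1)) →L[ℝ] EuclideanSpace ℝ (Fin (2 * c + 1))}
  {o' : MM m → Ext (EuclideanSpace ℝ (Fin (2 * c + 1)))}
  {W' : MM m → (Fin (s' + 1) × Fin 2 → Fin (2 * c + 1)) → ℝ} {w₀ : ℝ}
  {T₂ : (Euc N × Euc N) × HW.U l →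
    EuclideanSpace ℝ (((Fin K × Fin 2) × Fin N) ⊕ ((Fin K × Fin 2) × Fin N)) →L[ℝ]
      EuclideanSpace ℝ (Fin (2 * c₂))}
  {P₂' : MM m' → EuclideanSpace ℝ (Fin (2 * c₂)) →L[ℝ] EuclideanSpace ℝ (Fin (2 * c₂))}
  {W₂' : MM m' → (Fin (2 * 3 + 1) × Fin 2 → Fin (2 * c₂)) → ℝ}
  {θ₀ : Euc N × Euc N → Ext (Euc N × Euc N)} {w₁ Fc : MM m → Ext (MM m)}

/-- **class of `e₂`** (helper607's `coh_WW` for the field of helper382's `th82`) -/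
theorem e2_class (H : HW.HD nB l (L.US G) (gf G) g g' p)
    (hUc : IsPreconnected (L.US G))
    (hN : EqF (L.US G) (gf G) (fun t => Rt (nuP K) t) (2 * 3 + 1) PN)
    (hO : TP.DscO (L.US G) (gf G) g (fun t => Rt (nuP K) t) 3 PN c s' T P' o' W')
    (D₂ : Dsc2 (Fin (2 * 3 + 1)) (HW.XX (L.US G) l) g' (HW.ph l (gf G))
      (fun t => Rt (nuP K) (2 * t)) (-1) (fun z => PN z.1) T₂ P₂' W₂')
    (hθ₀ : Conn (L.US G) (gf G) θ₀) (hF : Curv (L.US G) g θ₀ Fc) :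
    ∃ ε : ℝ, (ε = 1 ∨ ε = -1) ∧ Coh (Quo (HW.XX (L.US G) l) g') ((2 : ℝ) • eR P₂' W₂')
      ((2 * (ε * (2 ^ 7 * (Nat.factorial 7)))) • F.pull p (topr 7 (1 / 2) P' Fc)) := by
  have hxx := hO.xx H
  have hDD := (hN.xx l).dd2' (wgt_one H.emb') hxx.triv D₂.triv
  obtain ⟨ε, hε, h1⟩ := EW.coh_WW H hUc hDD hN.rep (fun t => rfl) hO.triv hN.pf hN.eq hO.pf
    hO.eqP hxx.pf hxx.eqP D₂.or (Fintype.card_fin _) D₂.eqP hθ₀ hF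
  refine ⟨ε, hε, ?_⟩
  have h2 := h1.smul 2
  rwa [smul_smul] at h2

/-- **Level two of (8,2), everything on `B'`**: the forms `u`, `e₂` with (E). -/
theorem level2 (hD : D.OK) (hDS : D.S = S) (H : HW.HD nB l (L.US G) (gf G) g g' p)
    (hUc : IsPreconnected (L.US G)) (hUn : (L.US G).Nonempty)
    (hN : EqF (L.US G) (gf G) (fun t => Rt (nuP K) t) (2 * 3 + 1) PN)
    (hO : TP.DscO (L.US G) (gf G) g (fun t => Rt (nuP K) t) 3 PN c s' T P' o' W')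
    (hRr : (fun t => Rr (2 * t)) = R2 (fun t => Rt (nuP K) (2 * t)) (-1))
    (D₂ : Dsc2 (Fin (2 * 3 + 1)) (HW.XX (L.US G) l) g' (HW.ph l (gf G))
      (fun t => Rt (nuP K) (2 * t)) (-1) (fun z => PN z.1) T₂ P₂' W₂')
    (hc₂ : 2 * (2 * 3 + 1) + 2 ≤ 2 * c₂)
    (h : FT.D2 G k K lg ρ r C r' Kr B w δ PN ε J E₀ η₀ (NN PN) Rr xi0 δ₂ ε₂)
    (hB : ∀ z ∈ FT.TX (HW.XX (L.US G) l) Prod.fst (NN PN) PN, 0 < FT.c2 z →
      En (oc (FT.P2x (HW.ph l (gf G)) N K Rr) (FT.f2x G lg ρ w J xi0 ε ε₂ Prod.fst) z) ≤ D.B)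
    (hθ₀ : Conn (L.US G) (gf G) θ₀) (hF : Curv (L.US G) g θ₀ Fc)
    (hdeg : Hom 8 D.om) (hp : D.p = 11) (hq : D.q = 7)
    (hpu : ∀ V'' : MM m × EuclideanSpace ℝ (Fin (2 * c + 1)) →
        Ext (MM m × EuclideanSpace ℝ (Fin (2 * c + 1))),
      Sm (Tot (Quo (L.US G) g) P') V'' → Cl (Tot (Quo (L.US G) g) P') V'' →
      VE.Cs (Quo (L.US G) g) P' 2 V'' → Eqv (Tot (L.US G) PN) (F.pull (Th (jj g) T) V'')
        (vv (VC.dbl (phR (gf G) fun t => Rt (nuP K) t))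
          ((1 / 2 : ℝ) • F.d (F.pull Prod.fst θ₀)) D.p D.q D.r D.s
          (F.pull (FL.f1 G lg ρ w J ε) D.om)) →
      Coh (Quo (L.US G) g) (VE.pu (volume : Measure (EuclideanSpace ℝ (Fin (2 * c + 1)))) P'
        (thomF (fun y => 1 - P' y) W') 2 V'') w₁) :
    ∃ (s₂ : ℕ) (W₂'' : MM m' → (Fin (s₂ + 1) × Fin 2 → Fin (2 * c₂)) → ℝ) (c₀ : ℝ)
      (η : _) (V' : (MM m' × EuclideanSpace ℝ (Fin (2 * c₂))) × EuclideanSpace ℝ (Fin (2 * c + 1)) →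
        Ext ((MM m' × EuclideanSpace ℝ (Fin (2 * c₂))) × EuclideanSpace ℝ (Fin (2 * c + 1)))),
      OR (Quo (HW.XX (L.US G) l) g') (fun y => 1 - P₂' y) W₂'' ∧
      ThomPair (volume : Measure (EuclideanSpace ℝ (Fin (2 * c₂)))) (Quo (HW.XX (L.US G) l) g') P₂'
        (2 * (2 * 3 + 1)) 3 c₀ ((2 : ℝ) • eR P₂' W₂') (thomF P₂' W₂')
        (thomF (fun x => 1 - P₂' x) W₂'') ∧
      D.IsEta (EX.Up (FT.TX (HW.XX (L.US G) l) Prod.fst (NN PN) PN) FT.c2)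
        (FT.P2x (HW.ph l (gf G)) N K Rr) (F.pull EA.b₂ (HW.th l θ₀))
        (FT.f2x G lg ρ w J xi0 ε ε₂ Prod.fst) η ∧
      ContDiff ℝ ∞ V' ∧ CV (Quo (HW.XX (L.US G) l) g') P₂' (fun y => P' (p y)) 3 V' ∧
      Hom 29 V' ∧
      Eqv (FT.TX (HW.XX (L.US G) l) Prod.fst (NN PN) PN)
        (F.pull (EA.Q₂ (jj g') T₂ fun z => T z.1) V')
        (dp 29 (D.rel (FT.P2x (HW.ph l (gf G)) N K Rr) (F.pull EA.b₂ (HW.th l θ₀))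
          (FT.f2x G lg ρ w J xi0 ε ε₂ Prod.fst) FT.c2 η)) ∧
      ∀ u : MM m' → Ext (MM m'), u = (pu₂ (volume : Measure (EuclideanSpace ℝ (Fin (2 * c + 1))))
          (volume : Measure (EuclideanSpace ℝ (Fin (2 * c₂)))) P₂'
          (thomF (fun x => 1 - P₂' x) W₂'') (fun y => P' (p y))
          (thomF (fun y => 1 - P' (p y)) fun y => W' (p y)) V') →
        Sm (Quo (HW.XX (L.US G) l) g') u ∧ Cl (Quo (HW.XX (L.US G) l) g') u ∧ Hom 8 u ∧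
        EC (Quo (HW.XX (L.US G) l) g') u ∧
        EC (Quo (HW.XX (L.US G) l) g') ((2 : ℝ) • eR P₂' W₂') ∧
        (∃ ε : ℝ, (ε = 1 ∨ ε = -1) ∧ Coh (Quo (HW.XX (L.US G) l) g') ((2 : ℝ) • eR P₂' W₂')
          ((2 * (ε * (2 ^ 7 * (Nat.factorial 7)))) • F.pull p (topr 7 (1 / 2) P' Fc))) ∧
        Coh (Quo (HW.XX (L.US G) l) g') (c₀ • F.pull p w₁) (u * ((2 : ℝ) • eR P₂' W₂')) := by
  obtain ⟨s₂, W₂'', c₀, η, V', a1, a2, a3, a4, a5, a6, a7, a8⟩ :=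
    E82 (a := 7) (s := 3) hD hDS H hUc hUn hN hO hRr ⟨-1, by norm_num⟩ D₂ hc₂ h hB hθ₀ hdeg
      (by rw [hp]) (by rw [hq]) hpu
  refine ⟨s₂, W₂'', c₀, η, V', a1, a2, a3, a4, a5, a6, a7, ?_⟩
  rintro u rfl
  have hxx := hO.xx H
  have hF2 := TP.frm_xx (k := l) H hN hO (Fintype.card_fin _) ⟨-1, by norm_num⟩ D₂
  have hp2' : PField (Quo (HW.XX (L.US G) l) g') (2 * (2 * 3 + 1)) P₂' := by
    rw [two_mul (2 * 3 + 1)]; exact hF2.p2'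
  have hco := hxx.co H.cloB'.sub
  obtain ⟨u1, u2, u3⟩ := u_spec (j := 8) (q₁ := 2 * Fintype.card (Fin (s' + 1)))
    (q₂ := finrank ℝ (EuclideanSpace ℝ (Fin (2 * c₂))) - 2 * (2 * 3 + 1))
    (volume : Measure (EuclideanSpace ℝ (Fin (2 * c + 1))))
    (volume : Measure (EuclideanSpace ℝ (Fin (2 * c₂)))) hxx.pf hp2' hco.csf a2.csf' a5
    (fun z => thomF_deg z) (fun z => a2.deg' z) a6
    (by rw [Fintype.card_fin, finrank_euclideanSpace, Fintype.card_fin]; have := hO.dim; omega)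
    (by rw [finrank_euclideanSpace, Fintype.card_fin]; omega)
  have k1 : EC (Quo (HW.XX (L.US G) l) g') (eR P₂' W₂') := D₂.or.ec_eR
  exact ⟨u1, u2, u3, EC.of_hom (j := 4) u1 u2 u3, k1.smul 2, e2_class H hUc hN hO D₂ hθ₀ hF, a8⟩

end Crest.Agent.R208.EA
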