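import Crest.Agent.R208.EA6
import Crest.Agent.R208.EX14

/-! Row 208, (8,2), block EA (helper595).  EA7: level two over helper530's geometric package
`Gm82` (`s = 3`). -/

set_option autoImplicit false
set_option linter.unusedSectionVars false
set_option linter.unusedVariables false
set_option maxHeartbeats 1000000

open MeasureTheory Set Filter Topology Module Matrix
open scoped ContDiff RealInnerProductSpace Real
open Crest.GeometryTopology.Submanifold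
open Crest.Agent.R241.DDefs Crest.Agent.R241.D Crest.Agent.R241.D2
open Crest.Agent.R208.F Crest.Agent.R208.FI Crest.Agent.R208.CW Crest.Agent.R208.T
open Crest.Agent.R208.CM (Cir gen Rep Triv Qd phR Th gf Emb Quo MM jj Curv)
open Crest.Agent.R208.LB (al)
open Crest.Agent.R208.VC hiding Wt
open Crest.Agent.R208.EX
open Crest.Agent.R208.FT (D2 XI RN xiN gp lev)
open Crest.Agent.R208.NN (Wt Rt nuP)
open Crest.Agent.R208.TP (QM TT CV pu₁ pu₂ push up)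
open Crest.Agent.R208.MS (Fam oc En)
open Crest.Agent.R208.EP (topr)

noncomputable section

namespace Crest.Agent.R208.EA

variable {n N K m m' l c s' c₂ : ℕ} {κ : ℝ} {S : Set (Euc N)} {G : Geo n N κ S}
  {lg : Euc N → Euc N → Euc N} {ρ : Euc N → Euc N} {r C r' Kr B w δ δ₂ : ℝ}
  {PN : Euc N × Euc N → Wt N K →L[ℝ] Wt N K}
  {h : GT.Bla G (2 * 3 + 2)} {g : Euc N × Euc N → Fin m → ℂ} {Fc : MM m → Ext (MM m)}
  {g' : (Euc N × Euc N) × HW.U l → Fin m' → ℂ} {p : MM m' → MM m}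
  {T : Euc N × Euc N → Wt N K →L[ℝ] EuclideanSpace ℝ (Fin (2 * c + 1))}
  {P' : MM m → EuclideanSpace ℝ (Fin (2 * c + 1)) →L[ℝ] EuclideanSpace ℝ (Fin (2 * c + 1))}
  {o' : MM m → Ext (EuclideanSpace ℝ (Fin (2 * c + 1)))}
  {W' : MM m → (Fin (s' + 1) × Fin 2 → Fin (2 * c + 1)) → ℝ}
  {oN : Euc N × Euc N → Ext (Wt N K)}
  {T₂ : (Euc N × Euc N) × HW.U l →
    EuclideanSpace ℝ (((Fin K × Fin 2) × Fin N) ⊕ ((Fin K × Fin 2) × Fin N)) →L[ℝ]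
      EuclideanSpace ℝ (Fin (2 * c₂))}
  {P₂' : MM m' → EuclideanSpace ℝ (Fin (2 * c₂)) →L[ℝ] EuclideanSpace ℝ (Fin (2 * c₂))}
  {W₂' : MM m' → (Fin (2 * 3 + 1) × Fin 2 → Fin (2 * c₂)) → ℝ}
  {D : ED N} {ε ε₂ E₀ η₀ : ℝ} {J : ℕ} {w₁ : MM m → Ext (MM m)}

/-- helper812's number: the class on `B` of the doubled level-one family is `w₁` -/
def Cls2 (G : Geo n N κ S) (K : ℕ) (lg : Euc N → Euc N → Euc N) (ρ : Euc N → Euc N) (w : ℝ) (J : ℕ)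
    (ε : ℝ) (PN : Euc N × Euc N → Wt N K →L[ℝ] Wt N K) (g : Euc N × Euc N → Fin m → ℂ)
    (T : Euc N × Euc N → Wt N K →L[ℝ] EuclideanSpace ℝ (Fin (2 * c + 1)))
    (P' : MM m → EuclideanSpace ℝ (Fin (2 * c + 1)) →L[ℝ] EuclideanSpace ℝ (Fin (2 * c + 1)))
    (W' : MM m → (Fin (s' + 1) × Fin 2 → Fin (2 * c + 1)) → ℝ) (D : ED N)
    (w₁ : MM m → Ext (MM m)) : Prop :=
  ∀ V'' : MM m × EuclideanSpace ℝ (Fin (2 * c + 1)) →
      Ext (MM m × EuclideanSpace ℝ (Fin (2 * c + 1))),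
    Sm (Tot (Quo (L.US G) g) P') V'' → Cl (Tot (Quo (L.US G) g) P') V'' →
    VE.Cs (Quo (L.US G) g) P' 2 V'' → Eqv (Tot (L.US G) PN) (F.pull (Th (jj g) T) V'')
      (vv (VC.dbl (phR (gf G) fun t => Rt (nuP K) t))
        ((1 / 2 : ℝ) • F.d (F.pull Prod.fst (al (N := N)))) D.p D.q D.r D.s
        (F.pull (FL.f1 G lg ρ w J ε) D.om)) →
    Coh (Quo (L.US G) g) (VE.pu (volume : Measure (EuclideanSpace ℝ (Fin (2 * c + 1)))) P'
      (thomF (fun y => 1 - P' y) W') 2 V'') w₁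

/-- **Level two of (8,2) over the geometric package** -/
theorem level2_Gm (Q : Gm82 h K l lg ρ r C r' Kr B w δ δ₂ PN g Fc g' p T P' o' W' oN T₂ P₂' W₂')
    (hD : D.OK) (hDS : D.S = S)
    (h2 : D2 G (2 * 3 + 2) K lg ρ r C r' Kr B w δ PN ε J E₀ η₀ (DD.NN PN) (RN N K) (xiN h PN)
      δ₂ ε₂) (hη : 2 * η₀ ≤ π - (δ / 4) * ε ^ 2) (hlev : lev δ δ₂ ε ε₂ ≤ D.B)
    (hdeg : Hom 8 D.om) (hp : D.p = 11) (hq : D.q = 7)
    (hpu : Cls2 G K lg ρ w J ε PN g T P' W' D w₁) :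
    ∃ (s₂ : ℕ) (W₂'' : MM m' → (Fin (s₂ + 1) × Fin 2 → Fin (2 * c₂)) → ℝ) (c₀ : ℝ)
      (η : _) (V' : (MM m' × EuclideanSpace ℝ (Fin (2 * c₂))) × EuclideanSpace ℝ (Fin (2 * c + 1)) →
        Ext ((MM m' × EuclideanSpace ℝ (Fin (2 * c₂))) × EuclideanSpace ℝ (Fin (2 * c + 1)))),
      OR (Quo (HW.XX (L.US G) l) g') (fun y => 1 - P₂' y) W₂'' ∧
      ThomPair (volume : Measure (EuclideanSpace ℝ (Fin (2 * c₂)))) (Quo (HW.XX (L.US G) l) g') P₂'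
        (2 * (2 * 3 + 1)) 3 c₀ ((2 : ℝ) • eR P₂' W₂') (thomF P₂' W₂')
        (thomF (fun x => 1 - P₂' x) W₂'') ∧
      D.IsEta (EX.Up (FT.TX (HW.XX (L.US G) l) Prod.fst (DD.NN PN) PN) FT.c2)
        (FT.P2x (HW.ph l (gf G)) N K (RN N K)) (F.pull EA.b₂ (HW.th l (al (N := N))))
        (FT.f2x G lg ρ w J (xiN h PN) ε ε₂ Prod.fst) η ∧
      ContDiff ℝ ∞ V' ∧ CV (Quo (HW.XX (L.US G) l) g') P₂' (fun y => P' (p y)) 3 V' ∧
      Hom 29 V' ∧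
      Eqv (FT.TX (HW.XX (L.US G) l) Prod.fst (DD.NN PN) PN)
        (F.pull (EA.Q₂ (jj g') T₂ fun z => T z.1) V')
        (dp 29 (D.rel (FT.P2x (HW.ph l (gf G)) N K (RN N K)) (F.pull EA.b₂ (HW.th l (al (N := N))))
          (FT.f2x G lg ρ w J (xiN h PN) ε ε₂ Prod.fst) FT.c2 η)) ∧
      ∀ u : MM m' → Ext (MM m'), u = (pu₂ (volume : Measure (EuclideanSpace ℝ (Fin (2 * c + 1))))
          (volume : Measure (EuclideanSpace ℝ (Fin (2 * c₂)))) P₂'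
          (thomF (fun x => 1 - P₂' x) W₂'') (fun y => P' (p y))
          (thomF (fun y => 1 - P' (p y)) fun y => W' (p y)) V') →
        Sm (Quo (HW.XX (L.US G) l) g') u ∧ Cl (Quo (HW.XX (L.US G) l) g') u ∧ Hom 8 u ∧
        EC (Quo (HW.XX (L.US G) l) g') u ∧
        EC (Quo (HW.XX (L.US G) l) g') ((2 : ℝ) • eR P₂' W₂') ∧
        (∃ ε : ℝ, (ε = 1 ∨ ε = -1) ∧ Coh (Quo (HW.XX (L.US G) l) g') ((2 : ℝ) • eR P₂' W₂')
          ((2 * (ε * (2 ^ 7 * (Nat.factorial 7)))) • F.pull p (topr 7 (1 / 2) P' Fc))) ∧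
        Coh (Quo (HW.XX (L.US G) l) g') (c₀ • F.pull p w₁) (u * ((2 : ℝ) • eR P₂' W₂')) :=
  level2 hD hDS Q.hd (FV.preconn_US h.bl (by have := Q.hkn; omega))
    (Crest.Agent.R208.T.nonempty_UST h h.bl.conn.nonempty.some_mem) Q.eqF Q.dsc (funext FT.RN_two)
    Q.dsc2 Q.hc₂ h2 (fun z hz hc => (h2.level_unif hη (FT.eqm_XX l) hz hc).trans hlev)
    (CM.conn_al (FV.sub_S h.bl)) Q.curv hdeg hp hq hpu

end Crest.Agent.R208.EA
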