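import Crest.Agent.R208.HY6

/-! Row 208, (8,2), E-ASM, piece (hua) (helper969 for helper595): closed `k`-forms on
`B' = (US × S^(2l+1)) / S¹` and their restriction to a slice `US × {u₀}`. -/

set_option autoImplicit false
set_option linter.unusedSectionVars false

open MeasureTheory Set Filter Topology Module
open scoped ContDiff RealInnerProductSpace
open Crest.GeometryTopology.Submanifold
open Crest.Agent.R241.DDefs
open Crest.Agent.R241.D2
open Crest.Agent.R208.F Crest.Agent.R208.FI Crest.Agent.R208.CW Crest.Agent.R208.T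
open Crest.Agent.R208.CM Crest.Agent.R208.HW
open Crest.Agent.R208.L (US)
open Crest.Agent.R208.LB (al)

noncomputable section

namespace Crest.Agent.R208.EA

section gen
variable {E : Type} [NormedAddCommGroup E] [NormedSpace ℝ E] [FiniteDimensional ℝ E]
  {X : Set E} {φ : ℝ → E → E} {n l m m' r J : ℕ} {g : E → Fin m → ℂ}
  {g' : E × U l → Fin m' → ℂ} {pr : MM m' → MM m} {θ : E → Ext E} {x : E → Ext E}
  {Fc x0 : MM m → Ext (MM m)} {Fc' u : MM m' → Ext (MM m')}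

/-- the slice `z ↦ [z, u₀]` -/
theorem smap_slice (H : HD n l X φ g g' pr) {u₀ : U l} (hu : ‖u₀‖ = 1) :
    SMap X (Quo (XX X l) g') (fun z => jj g' (z, u₀)) :=
  H.smap_jj'.comp (HY.smap_sec hu)

/-- `s^* pr^* w = jj^* w` for the slice `s` -/
theorem slice_pull (H : HD n l X φ g g' pr) {u₀ : U l} (hu : ‖u₀‖ = 1)
    (w : MM m → Ext (MM m)) :
    Eqv X (F.pull (fun z => jj g' (z, u₀)) (F.pull pr w)) (F.pull (jj g) w) := by
  have h1 : Eqv X (F.pull (fun z => jj g' (z, u₀)) (F.pull pr w))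
      (F.pull (pr ∘ fun z => jj g' (z, u₀)) w) :=
    Eqv.of_eq fun z hz => pull_comp ((smap_slice H hu).diff hz)
      ((H.smooth.differentiable (by simp)) _)
  exact h1.trans (eqv_pull_of_eq w
    (fun z hz => ((H.smooth.differentiable (by simp)) _).comp z ((smap_slice H hu).diff hz))
    (fun z hz => H.smap_jj.diff hz) fun z hz => H.eq _ (mem_XX.2 ⟨hz, hu⟩))

/-- `e' = (1/2) p^* e` -/
theorem curv_half (H : HD n l X φ g g' pr) (hθ : Conn X φ θ) (hF : Curv X g θ Fc)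
    (hF' : Curv (XX X l) g' (th l θ) Fc') :
    Eqv (Quo (XX X l) g') Fc' ((1 / 2 : ℝ) • F.pull pr Fc) := by
  have h := (H.pull_e hθ.sm hF.pull hF'.pull).smul (1 / 2)
  rw [smul_smul] at h
  norm_num at h
  exact h.symm

theorem curv_exact (hθ : Conn X φ θ) (hF : Curv X g θ Fc) :
    Coh X (F.pull (jj g) Fc) 0 :=
  ⟨θ, hθ.sm, by rw [sub_zero]; exact hF.pull⟩

/-- **(hua), generic** -/
theorem hua_gen (H : HD n l X φ g g' pr) (hc : IsPreconnected X) (hθ : Conn X φ θ)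
    (hF : Curv X g θ Fc) (hF' : Curv (XX X l) g' (th l θ) Fc') (hr : Even r) (hr0 : 0 < r)
    (hrJ : r < J) (hJ : J ≤ 2 * l + 1) (hL : HY.Low X x r J) (sx : Sm X x) (cx : Cl X x)
    (s0 : Sm (Quo X g) x0) (c0 : Cl (Quo X g) x0) (d0 : Hom r x0)
    (h0 : Coh X x (F.pull (jj g) x0))
    (su : Sm (Quo (XX X l) g') u) (cu : Cl (Quo (XX X l) g') u) (du : Hom r u) :
    ∃ a1 a2 : ℝ, Coh (Quo (XX X l) g') u (F.pull pr (a1 • Fc ^ (r / 2) + a2 • x0)) ∧
      ∀ u₀ : U l, ‖u₀‖ = 1 →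
        Coh X (F.pull (fun z => jj g' (z, u₀)) u) (a2 • x) := by
  have hG' := HG.gys H.emb' H.cir' H.clo' (conn_th (k := l) H.cir hθ) hF'
  have e1 : Coh (XX X l) (F.pull Prod.fst x) (F.pull (jj g') (F.pull pr x0)) :=
    (h0.pull HY.smap_fstXX).trans (Coh.of_eqv (H.pull_pull x0).symm)
  have hB' := hG'.lowB H.cloB'.sub (HY.preconn_Quo H.emb' (isPreconnected_XX hc)) hr hr0
    (HY.low_XX H.clo.sub hc hL hJ) (sx.pull HY.smap_fstXX) (cx.pull HY.smap_fstXX sx)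
    (s0.pull H.smap) (c0.pull H.smap s0) d0.pull e1
  obtain ⟨f, hf⟩ := hB'.even r u hr hrJ su cu du
  rw [Nat.div_self hr0, Finset.sum_range_succ, Finset.sum_range_succ, Finset.sum_range_zero,
    zero_add, pow_zero, one_mul, mul_zero, Nat.sub_zero, pow_one, mul_one, Nat.sub_self,
    Nat.zero_div, pow_zero, mul_one] at hf
  have h2 : Eqv (Quo (XX X l) g') (f 0 • Fc' ^ (r / 2) + f 1 • F.pull pr x0)
      (F.pull pr ((f 0 * (1 / 2) ^ (r / 2)) • Fc ^ (r / 2) + f 1 • x0)) := by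
    rw [pull_add', pull_smul', pull_smul', pull_pow', mul_smul]
    refine Eqv.add ((Eqv.pow (curv_half H hθ hF hF') (r / 2)).smul (f 0) |>.trans
      (Eqv.of_eq fun z _ => ?_)) (Eqv.refl _)
    rw [smul_pow]
  have h3 : Coh (Quo (XX X l) g') u
      (F.pull pr ((f 0 * (1 / 2) ^ (r / 2)) • Fc ^ (r / 2) + f 1 • x0)) :=
    hf.trans (Coh.of_eqv h2)
  refine ⟨_, _, h3, fun u₀ hu => ?_⟩
  refine ((h3.pull (smap_slice H hu)).trans (Coh.of_eqv (slice_pull H hu _))).trans ?_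
  rw [pull_add', pull_smul', pull_smul', pull_pow']
  obtain ⟨i, hi⟩ := Nat.exists_eq_add_of_lt (show 0 < r / 2 by
    obtain ⟨a, ha⟩ := hr; omega)
  have sF : Sm X (F.pull (jj g) Fc) := hF.sm.pull H.smap_jj
  have cF : Cl X (F.pull (jj g) Fc) := hF.cl.pull H.smap_jj hF.sm
  have h4 : Coh X (F.pull (jj g) Fc ^ (r / 2)) 0 := by
    rw [hi, zero_add, pow_succ']
    exact HY.coh_mul_zero (sF.pow i) (Cl.pow sF cF i) (curv_exact hθ hF)
  have h5 := (h4.smul (f 0 * (1 / 2) ^ (r / 2))).add (h0.symm.smul (f 1))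
  rwa [smul_zero, zero_add] at h5

end gen

variable {n N k m m₁ m₂ l : ℕ} {κ : ℝ} {S : Set (Euc N)} {G : Geo n N κ S} {p₀ : Euc N}
  {ι : Type} [Fintype ι] [DecidableEq ι] {W₀ : Euc N × Euc N → (ι × Fin 2 → Fin N) → ℝ}
  {x : Euc N → Ext (Euc N)} {g : Euc N × Euc N → Fin m₁ → ℂ}
  {g' : (Euc N × Euc N) × U l → Fin m₂ → ℂ} {pr : MM m₂ → MM m₁}
  {Fc x0 : MM m₁ → Ext (MM m₁)} {Fc' u : MM m₂ → Ext (MM m₂)}

/-- **(hua)** -/
theorem hua {h : GT.Bla G k} (D : T.XM h m W₀ p₀ x)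
    (H : HD (2 * (n - 1)) l (US G) (gf G) g g' pr) (hFc : Curv (US G) g al Fc)
    (hFc' : Curv (XX (US G) l) g' (th l al) Fc') (hl : k ≤ 2 * l)
    (s0 : Sm (Quo (US G) g) x0) (c0 : Cl (Quo (US G) g) x0) (d0 : Hom k x0)
    (h0 : Coh (US G) (F.pull Prod.fst x) (F.pull (jj g) x0))
    (su : Sm (Quo (XX (US G) l) g') u) (cu : Cl (Quo (XX (US G) l) g') u) (du : Hom k u) :
    ∃ a1 a2 : ℝ, Coh (Quo (XX (US G) l) g') u (F.pull pr (a1 • Fc ^ (k / 2) + a2 • x0)) ∧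
      ∀ u₀ : U l, ‖u₀‖ = 1 →
        Coh (US G) (F.pull (fun z => jj g' (z, u₀)) u) (a2 • F.pull Prod.fst x) := by
  have h2 := D.two_k
  have hkp := D.hk
  have hL : HY.Low (US G) (F.pull Prod.fst x) k (k + 1) := fun j b h1 h2 h3 h4 h5 =>
    HY.low_US D j b h1 (by omega) h3 h4 h5
  exact hua_gen H (FV.preconn_US h.bl (by omega)) (conn_al (FV.sub_S h.bl)) hFc hFc' D.hke
    (by omega) (by omega) (by omega) hL (D.sx.pull HY.smap_fst_US)
    (D.cx.pull HY.smap_fst_US D.sx) s0 c0 d0 h0 su cu du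

end Crest.Agent.R208.EA
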