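import Crest.Agent.R208.TP9
import Crest.Agent.R208.EX14

/-! Row 208, block TP (helper382).  TP10: the slice of the level-two data over the geometric
package `Gm82` of helper530. -/

set_option autoImplicit false
set_option linter.unusedSectionVars false
set_option linter.unusedVariables false

open MeasureTheory Set Filter Topology Module
open scoped ContDiff RealInnerProductSpace Real
open Crest.GeometryTopology.Submanifold
open Crest.Agent.R241.DDefs Crest.Agent.R241.D Crest.Agent.R241.D2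
open Crest.Agent.R208.F Crest.Agent.R208.FI Crest.Agent.R208.CW Crest.Agent.R208.T
open Crest.Agent.R208.CM (Cir gen Rep Triv Qd phR Th gf Emb Quo MM jj Curv)
open Crest.Agent.R208.LB (al)
open Crest.Agent.R208.VC hiding Wt
open Crest.Agent.R208.MS (Fam oc En)
open Crest.Agent.R208.FL (D0 D1 Ph)
open Crest.Agent.R208.FT (D2 XI RN xiN gp lev)
open Crest.Agent.R208.NN (Wt Rt nuP)
open Crest.Agent.R208.TP (CV push pu₂ up Slc sj)
open Crest.Agent.R208.EX (ED Up Cn)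

noncomputable section

namespace Crest.Agent.R208.TP

/-- the half connection on a slice -/
theorem pull_sj_th {E : Type} [NormedAddCommGroup E] [NormedSpace ℝ E] [FiniteDimensional ℝ E]
    {l : ℕ} (u₀ : HW.U l) (θ : E → Ext E) :
    F.pull (sj u₀) (HW.th l θ) = (1 / 2 : ℝ) • θ := by
  funext z
  have h1 : F.pull (sj u₀) (F.pull (Prod.fst : E × HW.U l → E) θ) z = F.pull (fun z => z) θ z :=
    F.pull_comp (f := sj (E := E) u₀) (g := (Prod.fst : E × HW.U l → E)) (om := θ) (x := z)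
      (by unfold sj; fun_prop) differentiableAt_fst
  rw [F.pull_id] at h1
  have h2 : F.pull (sj u₀) (HW.th l θ) z =
      (1 / 2 : ℝ) • F.pull (sj u₀) (F.pull (Prod.fst : E × HW.U l → E) θ) z := by
    unfold F.pull
    exact map_smul (pb ((fderiv ℝ (sj (E := E) u₀) z : E →L[ℝ] E × HW.U l) :
      E →ₗ[ℝ] E × HW.U l)) _ _
  rw [h2, h1]
  rfl

end Crest.Agent.R208.TP

namespace Crest.Agent.R208.EX

section geo
variable {n N K s m m' l c s' s₂ c₂ : ℕ} {κ : ℝ} {S : Set (Euc N)} {G : Geo n N κ S}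
  {lg : Euc N → Euc N → Euc N} {ρ : Euc N → Euc N} {r C r' Kr B w δ δ₂ : ℝ}
  {PN : Euc N × Euc N → Wt N K →L[ℝ] Wt N K}
  {h : GT.Bla G (2 * s + 2)} {g : Euc N × Euc N → Fin m → ℂ} {Fc : MM m → Ext (MM m)}
  {g' : (Euc N × Euc N) × HW.U l → Fin m' → ℂ} {p : MM m' → MM m}
  {T : Euc N × Euc N → Wt N K →L[ℝ] EuclideanSpace ℝ (Fin (2 * c + 1))}
  {P' : MM m → EuclideanSpace ℝ (Fin (2 * c + 1)) →L[ℝ] EuclideanSpace ℝ (Fin (2 * c + 1))}
  {o' : MM m → Ext (EuclideanSpace ℝ (Fin (2 * c + 1)))}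
  {W' : MM m → (Fin (s' + 1) × Fin 2 → Fin (2 * c + 1)) → ℝ}
  {oN : Euc N × Euc N → Ext (Wt N K)}
  {T₂ : (Euc N × Euc N) × HW.U l →
    EuclideanSpace ℝ (((Fin K × Fin 2) × Fin N) ⊕ ((Fin K × Fin 2) × Fin N)) →L[ℝ]
      EuclideanSpace ℝ (Fin (2 * c₂))}
  {P₂' : MM m' → EuclideanSpace ℝ (Fin (2 * c₂)) →L[ℝ] EuclideanSpace ℝ (Fin (2 * c₂))}
  {W₂' : MM m' → (Fin (2 * s + 1) × Fin 2 → Fin (2 * c₂)) → ℝ}
  {W₂'' : MM m' → (Fin (s₂ + 1) × Fin 2 → Fin (2 * c₂)) → ℝ}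
  {V' : (MM m' × EuclideanSpace ℝ (Fin (2 * c₂))) × EuclideanSpace ℝ (Fin (2 * c + 1)) →
    Ext ((MM m' × EuclideanSpace ℝ (Fin (2 * c₂))) × EuclideanSpace ℝ (Fin (2 * c + 1)))}
  {η : (((Euc N × Euc N) × HW.U l) ×
    EuclideanSpace ℝ (((Fin K × Fin 2) × Fin N) ⊕ ((Fin K × Fin 2) × Fin N))) × Wt N K →
      Ext ((((Euc N × Euc N) × HW.U l) ×
        EuclideanSpace ℝ (((Fin K × Fin 2) × Fin N) ⊕ ((Fin K × Fin 2) × Fin N))) × Wt N K)}

/-- **the slice over the package**: `TP.slc82`, all geometric hypotheses filled -/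
theorem Gm82.slc (Q : Gm82 h K l lg ρ r C r' Kr B w δ δ₂ PN g Fc g' p T P' o' W' oN T₂ P₂' W₂')
    {D : ED N} {ε ε₂ E₀ η₀ : ℝ} {J : ℕ} (hD : D.OK) (hDS : D.S = S)
    (h2 : D2 G (2 * s + 2) K lg ρ r C r' Kr B w δ PN ε J E₀ η₀ (DD.NN PN) (RN N K) (xiN h PN)
      δ₂ ε₂) (hη₀ : 2 * η₀ ≤ π - (δ / 4) * ε ^ 2) (hlev : lev δ δ₂ ε ε₂ ≤ D.B) (j : ℕ)
    (hor : OR (Quo (HW.XX (L.US G) l) g') (fun y => 1 - P₂' y) W₂'')
    (hη : D.IsEta (Up (FT.TX (HW.XX (L.US G) l) Prod.fst (DD.NN PN) PN) FT.c2)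
      (FT.P2x (HW.ph l (gf G)) N K (RN N K)) (F.pull EA.b₂ (HW.th l (al (N := N))))
      (FT.f2x G lg ρ w J (xiN h PN) ε ε₂ Prod.fst) η)
    (hV : CV (Quo (HW.XX (L.US G) l) g') P₂' (fun y => P' (p y)) 3 V') (hVj : Hom j V')
    (hQ : Eqv (FT.TX (HW.XX (L.US G) l) Prod.fst (DD.NN PN) PN)
      (F.pull (EA.Q₂ (jj g') T₂ fun z => T z.1) V')
      (dp j (D.rel (FT.P2x (HW.ph l (gf G)) N K (RN N K)) (F.pull EA.b₂ (HW.th l (al (N := N))))
        (FT.f2x G lg ρ w J (xiN h PN) ε ε₂ Prod.fst) FT.c2 η)))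
    {u₀ : HW.U l} (hu : ‖u₀‖ = 1) :
    Slc G PN s (Quo (HW.XX (L.US G) l) g') (fun z => jj g' (z, u₀)) T (fun z => T₂ (z, u₀))
      (fun y => P' (p y)) P₂' (fun y => W' (p y)) W₂'' V' D j ((1 / 2 : ℝ) • al (N := N))
      (fun x t => FT.f2 G lg ρ w J (xiN h PN) ε ε₂ (FT.Ph2 G K (RN N K) t x))
      (F.pull (up (up (sj u₀))) (D.rel (FT.P2x (HW.ph l (gf G)) N K (RN N K))
        (F.pull EA.b₂ (HW.th l (al (N := N))))
        (FT.f2x G lg ρ w J (xiN h PN) ε ε₂ Prod.fst) FT.c2 η)) := by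
  have key := TP.slc82 hD hDS Q.hd Q.eqF Q.dsc (funext FT.RN_two) ⟨-1, by norm_num⟩ Q.dsc2 h2
    (fun z hz hc => (h2.level_unif hη₀ (FT.eqm_XX l) hz hc).trans hlev) Q.cn' j hor hη hV hVj hQ
    (HW.mem_SU.2 hu)
  rwa [TP.pull_sj_th] at key

end geo

end Crest.Agent.R208.EX
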