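import Crest.Agent.R208.TU7

/-!
Row 208, block TU (helper10), part TU8: the relative form on `N4 h` and its pull back along the
tube, in the format of helper125's localisation; comparison with the flat family.
-/

set_option autoImplicit false
set_option linter.unusedSectionVars false
set_option linter.unusedVariables false

open Set Filter Topology MeasureTheory Module
open scoped ContDiff RealInnerProductSpace Interval
open Crest.GeometryTopology.Submanifold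
open Crest.Agent.R241.DDefs
open Crest.Agent.R241.D2
open Crest.Agent.R241.D3c
open Crest.Agent.R208.F Crest.Agent.R208.FI Crest.Agent.R208.CW Crest.Agent.R208.T
open Crest.Agent.R208.MS (En)
open Crest.Agent.R208.KG (OK N2 N3 N4 nest4 nest2 idx)
open Crest.Agent.R208.EX
open Crest.Agent.R208.VC (rsL rsL_apply)

noncomputable section

namespace Crest.Agent.R208.TU

/-! ### trimming -/

section trim
variable {E : Type} [NormedAddCommGroup E] [NormedSpace ℝ E] [FiniteDimensional ℝ E]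
  {X : Set E} {c : E → ℝ} {om : E → Ext E}

/-- make a form vanish literally where `c ≥ 15/16` -/
def trim (c : E → ℝ) (om : E → Ext E) (x : E) : Ext E :=
  (1 - Real.smoothTransition (16 * c x - 14)) • om x

theorem trim_zero {x : E} (hc : 15 / 16 ≤ c x) : trim c om x = 0 := by
  rw [trim, Real.smoothTransition.one_of_one_le (by linarith), sub_self, zero_smul]

theorem trim_eq {x : E} (hc : c x ≤ 7 / 8) : trim c om x = om x := by
  rw [trim, Real.smoothTransition.zero_of_nonpos (by linarith), sub_zero, one_smul]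

theorem trim_eqv (h : ∀ x ∈ X, 3 / 4 < c x → rsL X x (om x) = 0) : Eqv X (trim c om) om := by
  refine eqv_iff.2 fun x hx => ?_
  rcases le_or_gt (c x) (3 / 4) with h0 | h0
  · rw [trim_eq (by linarith)]
  · have h1 := h x hx h0
    rw [rsL_apply] at h1
    rw [trim, map_smul, h1, smul_zero]

theorem sm_trim (hc : ∀ x ∈ X, ContDiffAt ℝ ∞ c x) (hs : Sm X om) : Sm X (trim c om) := by
  intro x hx
  have h1 : ContDiffAt ℝ ∞ (fun x => 1 - Real.smoothTransition (16 * c x - 14)) x := by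
    refine contDiffAt_const.sub ?_
    exact ContDiffAt.comp (g := Real.smoothTransition) x
      Real.smoothTransition.contDiff.contDiffAt
      ((contDiffAt_const.mul (hc x hx)).sub contDiffAt_const)
  exact h1.smul (hs x hx)

end trim

/-! ### comparison of the forms of homotopic loops -/

section vs
variable {N m : ℕ} {E : Type} [NormedAddCommGroup E] [NormedSpace ℝ E] [FiniteDimensional ℝ E]
  {X : Set E} {D : ED N} {α : E → Ext E} {fh : E × ℝ → ℝ → Euc N}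

/-- homotopic families have cohomologous forms -/
theorem vs_homotopy (hD : D.OK) (hX : Sub m X) (hα : Sm X α) (hα1 : Hom 1 α)
    (hf : LF D.S (X ×ˢ (univ : Set ℝ)) fh) :
    Coh X (D.vs α fun y => fh (y, 1)) (D.vs α fun y => fh (y, 0)) := by
  have hg : ∀ t : ℝ, LF D.S X (fun y => fh (y, t)) := fun t =>
    hf.comp (g := fun y : E => ((y, t) : E × ℝ))
      (fun y _ => contDiffAt_id.prodMk contDiffAt_const) fun y hy => ⟨hy, mem_univ _⟩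
  have hc0 : ∀ y ∈ X, ContDiffAt ℝ ∞ (fun _ : E => (0 : ℝ)) y := fun _ _ => contDiffAt_const
  obtain ⟨Om0, h0⟩ := ED.exists_rel hD hX hα hα1 (hg 0) hc0 fun _ _ h => absurd h (lt_irrefl _)
  obtain ⟨Om1, h1⟩ := ED.exists_rel hD hX hα hα1 (hg 1) hc0 fun _ _ h => absurd h (lt_irrefl _)
  have h2 : Coh X Om1 Om0 := ED.IsRel.coh (I := univ) (ch := fun _ => 0) hD hX hα hα1 isOpen_univ
    (subset_univ _) hf (fun _ _ => contDiffAt_const) (fun _ _ h => absurd h (lt_irrefl _)) h0 h1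
  exact (h1.coh_vs hc0).symm.trans (h2.trans (h0.coh_vs hc0))

end vs

/-! ### the forms on `N4 h` and on the total space -/

variable {n N k d r : ℕ} {κ : ℝ} {S : Set (Euc N)} {G : Geo n N κ S} {ε : ℝ}
  {H₁ H₂ : Type} [NormedAddCommGroup H₁] [InnerProductSpace ℝ H₁] [FiniteDimensional ℝ H₁]
  [NormedAddCommGroup H₂] [InnerProductSpace ℝ H₂] [FiniteDimensional ℝ H₂]
  {P₁ : Euc N × Euc N → H₁ →L[ℝ] H₁} {P₂ : Euc N × Euc N → H₂ →L[ℝ] H₂}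
  {h : GT.Bla G k} {Lz : Euc N × Euc N → (H₂ × H₁) →L[ℝ] (Fin 4 → Euc N)} {r₁ r₂ : ℕ}

/-- base point on `N4` -/
def bN (z : (((Euc N × Euc N) × Euc N) × Euc N) × Euc N) : Euc N × Euc N := z.1.1.1

/-- base point on the total space -/
def bT (x : ((Euc N × Euc N) × H₂) × H₁) : Euc N × Euc N := x.1.1

theorem smap_bN : SMap (N4 h) (L.US G) bN :=
  ⟨fun z _ => (contDiffAt_fst.comp z (contDiffAt_fst.comp z contDiffAt_fst)),
    fun _ hz => hz.1.1.1.1.1.1⟩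

theorem smap_bT : SMap (TP.TT (L.US G) P₂ P₁) (L.US G) bT :=
  ⟨fun x _ => contDiffAt_fst.comp x contDiffAt_fst, fun _ hx => (mem_TT.1 hx).1⟩

/-- **the form of the rounded loops is cohomologous to the form of the flat loops** -/
theorem vs_flat {D : ED N} (hD : D.OK) (hDS : D.S = S) (hO : OK G 4 ε) (h : GT.Bla G k) {m : ℕ}
    (hX : Sub m (N4 h)) {α : _ → Ext ((((Euc N × Euc N) × Euc N) × Euc N) × Euc N)}
    (hα : Sm (N4 h) α) (hα1 : Hom 1 α) :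
    Coh (N4 h) (D.vs α (FK G ε 1)) (D.vs α (FK G ε 0)) := by
  have hf : LF D.S (N4 h ×ˢ (univ : Set ℝ))
      (fun q => FK G ε (Real.smoothTransition q.2) q.1) := by
    rw [hDS]; exact lf_N4_hom hO h
  have h1 := vs_homotopy hD hX hα hα1 hf
  simp only [Real.smoothTransition.zero, Real.smoothTransition.one] at h1
  exact h1

/-- the pair of forms of helper125's localisation -/
structure Pair (D : ED N) (h : GT.Bla G k) (P₂ : Euc N × Euc N → H₂ →L[ℝ] H₂)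
    (P₁ : Euc N × Euc N → H₁ →L[ℝ] H₁) (Lz : Euc N × Euc N → (H₂ × H₁) →L[ℝ] (Fin 4 → Euc N))
    (ε : ℝ) (c : (((Euc N × Euc N) × Euc N) × Euc N) × Euc N → ℝ) (ρ ρ₁ : ℝ)
    (α : Euc N × Euc N → Ext (Euc N × Euc N))
    (om : (((Euc N × Euc N) × Euc N) × Euc N) × Euc N →
      Ext ((((Euc N × Euc N) × Euc N) × Euc N) × Euc N))
    (V : ((Euc N × Euc N) × H₂) × H₁ → Ext (((Euc N × Euc N) × H₂) × H₁)) : Prop where
  rel : D.IsRel (N4 h) (F.pull bN α) (FK G ε 0) c om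
  off : ∀ z ∈ N4 h, z ∉ Psi Lz '' {x | x ∈ TP.TT (L.US G) P₂ P₁ ∧ ‖x.1.2‖ < ρ ∧ ‖x.2‖ < ρ} →
    om z = 0
  relV : D.IsRel (TP.TT (L.US G) P₂ P₁) (F.pull bT α) (fun x => FK G ε 0 (Psi Lz x))
    (fun x => c (Psi Lz x)) V
  eqV : ∀ x ∈ TP.TT (L.US G) P₂ P₁, V x = F.pull (Psi Lz) om x
  offV : ∀ x ∈ TP.TT (L.US G) P₂ P₁, ¬ (‖x.1.2‖ < ρ ∧ ‖x.2‖ < ρ) → V x = 0
  cv : TP.CV (L.US G) P₂ P₁ ρ₁ V
  flat : Coh (N4 h) om (D.vs (F.pull bN α) (FK G ε 1))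

/-- cut off in the fibre directions -/
def bmp (ρ ρ₁ : ℝ) (x : ((Euc N × Euc N) × H₂) × H₁) : ℝ :=
  (1 - Real.smoothTransition ((‖x.1.2‖ ^ 2 - ρ ^ 2) / (ρ₁ ^ 2 - ρ ^ 2))) *
    (1 - Real.smoothTransition ((‖x.2‖ ^ 2 - ρ ^ 2) / (ρ₁ ^ 2 - ρ ^ 2)))

theorem contDiff_bmp (ρ ρ₁ : ℝ) : ContDiff ℝ ∞
    (bmp ρ ρ₁ : ((Euc N × Euc N) × H₂) × H₁ → ℝ) := by
  have a1 : ContDiff ℝ ∞ (fun x : ((Euc N × Euc N) × H₂) × H₁ => ‖x.1.2‖ ^ 2) :=
    (contDiff_norm_sq ℝ).comp (contDiff_snd.comp contDiff_fst)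
  have a2 : ContDiff ℝ ∞ (fun x : ((Euc N × Euc N) × H₂) × H₁ => ‖x.2‖ ^ 2) :=
    (contDiff_norm_sq ℝ).comp contDiff_snd
  unfold bmp
  exact (contDiff_const.sub (Real.smoothTransition.contDiff.comp
    ((a1.sub contDiff_const).div_const _))).mul
    (contDiff_const.sub (Real.smoothTransition.contDiff.comp
    ((a2.sub contDiff_const).div_const _)))

variable {ρ ρ₁ : ℝ}

theorem bmp_one (hρ : 0 < ρ) (h1 : ρ < ρ₁) {x : ((Euc N × Euc N) × H₂) × H₁}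
    (h2 : ‖x.1.2‖ ≤ ρ) (h3 : ‖x.2‖ ≤ ρ) : bmp ρ ρ₁ x = 1 := by
  have e : 0 < ρ₁ ^ 2 - ρ ^ 2 := by nlinarith
  have k : ∀ s : ℝ, 0 ≤ s → s ≤ ρ → (s ^ 2 - ρ ^ 2) / (ρ₁ ^ 2 - ρ ^ 2) ≤ 0 := by
    intro s hs hs'
    refine div_nonpos_of_nonpos_of_nonneg ?_ e.le
    nlinarith
  rw [bmp, Real.smoothTransition.zero_of_nonpos (k _ (norm_nonneg _) h2),
    Real.smoothTransition.zero_of_nonpos (k _ (norm_nonneg _) h3)]
  norm_num

theorem bmp_zero (hρ : 0 < ρ) (h1 : ρ < ρ₁) {x : ((Euc N × Euc N) × H₂) × H₁}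
    (h2 : ρ₁ ≤ ‖x.1.2‖ ∨ ρ₁ ≤ ‖x.2‖) : bmp ρ ρ₁ x = 0 := by
  have e : 0 < ρ₁ ^ 2 - ρ ^ 2 := by nlinarith
  have k : ∀ s : ℝ, ρ₁ ≤ s → 1 ≤ (s ^ 2 - ρ ^ 2) / (ρ₁ ^ 2 - ρ ^ 2) := by
    intro s hs
    rw [le_div_iff₀ e]
    nlinarith
  rcases h2 with h2 | h2
  · rw [bmp, Real.smoothTransition.one_of_one_le (k _ h2), sub_self, zero_mul]
  · rw [bmp, Real.smoothTransition.one_of_one_le (k _ h2), sub_self, mul_zero]

/-- **the pair of forms** for a cut off function as in `exists_cut` -/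
theorem LinK.exists_pair (hL : LinK h P₂ P₁ Lz) (hd : d + 1 = 2 * n) (hr : r + 1 = k)
    (hP₂ : PField (L.US G) r₂ P₂) (hP₁ : PField (L.US G) r₁ P₁) (hO : OK G 4 ε)
    {D : ED N} (hD : D.OK) (hDS : D.S = S)
    {c : (((Euc N × Euc N) × Euc N) × Euc N) × Euc N → ℝ} (hρ : 0 < ρ) (hρ₁ : ρ < ρ₁)
    (hc : ContDiff ℝ ∞ c) (hc1 : ∀ z, c z ≤ 1)
    (hct : ∀ z ∈ N4 h, c z < 1 → ∃ x ∈ TP.TT (L.US G) P₂ P₁, ‖x.1.2‖ < ρ ∧ ‖x.2‖ < ρ ∧
      Psi Lz x = z)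
    (hcE : ∀ z ∈ N4 h, 0 < c z → En (FK G ε 0 z) ≤ D.B)
    {α : Euc N × Euc N → Ext (Euc N × Euc N)} (hα : Sm (L.US G) α) (hα1 : Hom 1 α) :
    ∃ om V, Pair D h P₂ P₁ Lz ε c ρ ρ₁ α om V := by
  have hX : Sub _ (N4 h) := (clo_N4 h hr hd).sub
  have hZ := sub_TT h hd hP₂ hP₁
  have hb : SMap (N4 h) (L.US G) bN := smap_bN
  have hbT : SMap (TP.TT (L.US G) P₂ P₁) (L.US G) bT := smap_bT
  have hαN := hα.pull hb
  have hαN1 : Hom 1 (F.pull bN α) := hα1.pull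
  have hαT := hα.pull hbT
  have hαT1 : Hom 1 (F.pull (bT (H₁ := H₁) (H₂ := H₂)) α) := hα1.pull
  have h01 : (0 : ℝ) ∈ Icc (0 : ℝ) 1 := ⟨le_rfl, zero_le_one⟩
  have hf : LF D.S (N4 h) (FK G ε 0) := by rw [hDS]; exact lf_N4 hO h h01
  have hcN : ∀ z ∈ N4 h, ContDiffAt ℝ ∞ c z := fun z _ => hc.contDiffAt
  obtain ⟨Om, hOm⟩ := ED.exists_rel hD hX hαN hαN1 hf hcN hcE
  set om := trim c Om with hom
  have e1 : Eqv (N4 h) om Om := trim_eqv fun z hz hcz =>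
    ED.IsRel.zero hD hX hαN hαN1 hf hcN hOm hz hcz
  have s1 : Sm (N4 h) om := sm_trim hcN hOm.1
  have hom' : D.IsRel (N4 h) (F.pull bN α) (FK G ε 0) c om := hOm.of_eqv s1 e1
  have hPs := hL.smap_Psi
  -- on the total space
  have hfT : LF D.S (TP.TT (L.US G) P₂ P₁) (fun x => FK G ε 0 (Psi Lz x)) :=
    hf.comp hPs.smooth hPs.maps
  have hcT : ∀ x ∈ TP.TT (L.US G) P₂ P₁, ContDiffAt ℝ ∞ (fun x => c (Psi Lz x)) x :=
    fun x hx => ContDiffAt.comp (g := c) x hc.contDiffAt (hPs.smooth x hx)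
  obtain ⟨V₀, hV₀⟩ := ED.exists_rel hD hZ hαT hαT1 hfT hcT
    fun x hx h0 => hcE _ (hPs.maps hx) h0
  have e2 : Eqv (TP.TT (L.US G) P₂ P₁) (F.pull (Psi Lz) om) V₀ := by
    refine ED.IsRel.nat hD hX hαN hαN1 hf hcN hom' hZ hαT hαT1 hfT hcT hV₀ hPs
      (fun _ _ _ => rfl) (fun _ _ => rfl) (Eqv.of_eq fun x hx => ?_)
    rw [F.pull_comp (hPs.diff hx) (hb.diff (hPs.maps hx))]
    rfl
  -- literal vanishing
  have off1 : ∀ z ∈ N4 h,
      z ∉ Psi Lz '' {x | x ∈ TP.TT (L.US G) P₂ P₁ ∧ ‖x.1.2‖ < ρ ∧ ‖x.2‖ < ρ} → om z = 0 := by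
    intro z hz hzn
    refine trim_zero ?_
    by_contra hcon
    push Not at hcon
    obtain ⟨x, hx, h2, h3, h4⟩ := hct z hz (by linarith)
    exact hzn ⟨x, ⟨hx, h2, h3⟩, h4⟩
  have off2 : ∀ x ∈ TP.TT (L.US G) P₂ P₁, ¬ (‖x.1.2‖ < ρ ∧ ‖x.2‖ < ρ) → om (Psi Lz x) = 0 := by
    intro x hx hxn
    refine off1 _ (hPs.maps hx) ?_
    rintro ⟨y, ⟨hy, h2, h3⟩, h4⟩
    have : y = x := hL.injOn hy hx h4
    exact hxn (this ▸ ⟨h2, h3⟩)
  set V : ((Euc N × Euc N) × H₂) × H₁ → Ext (((Euc N × Euc N) × H₂) × H₁) :=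
    fun x => bmp ρ ρ₁ x • F.pull (Psi Lz) om x with hV
  have pz : ∀ x ∈ TP.TT (L.US G) P₂ P₁, ¬ (‖x.1.2‖ < ρ ∧ ‖x.2‖ < ρ) →
      F.pull (Psi Lz) om x = 0 := by
    intro x hx hxn
    rw [F.pull, off2 x hx hxn, map_zero]
  have eV : ∀ x ∈ TP.TT (L.US G) P₂ P₁, V x = F.pull (Psi Lz) om x := by
    intro x hx
    by_cases hxn : ‖x.1.2‖ < ρ ∧ ‖x.2‖ < ρ
    · change bmp ρ ρ₁ x • _ = _
      rw [bmp_one hρ hρ₁ hxn.1.le hxn.2.le, one_smul]
    · change bmp ρ ρ₁ x • _ = _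
      rw [pz x hx hxn, smul_zero]
  have sV : Sm (TP.TT (L.US G) P₂ P₁) V := fun x hx =>
    (contDiff_bmp ρ ρ₁).contDiffAt.smul (s1.pull hPs x hx)
  have rV : D.IsRel (TP.TT (L.US G) P₂ P₁) (F.pull bT α) (fun x => FK G ε 0 (Psi Lz x))
      (fun x => c (Psi Lz x)) V := hV₀.of_eqv sV ((Eqv.of_eq eV).trans e2)
  refine ⟨om, V, hom', off1, rV, eV, fun x hx hxn => by rw [eV x hx, pz x hx hxn], ?_, ?_⟩
  · refine ⟨sV, fun z hz => ?_, fun z hz => ?_, ED.IsRel.cl hD hZ hαT hαT1 hfT hcT rV⟩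
    · change bmp ρ ρ₁ z • _ = _
      rw [bmp_zero hρ hρ₁ (Or.inr hz.le), zero_smul]
    · change bmp ρ ρ₁ z • _ = _
      rw [bmp_zero hρ hρ₁ (Or.inl hz.le), zero_smul]
  · exact (hom'.coh_vs hcN).trans (vs_flat hD hDS hO h hX hαN hαN1).symm

end Crest.Agent.R208.TU
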