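import Crest.Agent.R208.EA7
import Crest.Agent.R208.EAh969
import Crest.Agent.R208.EAd286
import Crest.Agent.R208.AN5
import Crest.Agent.R208.TP10
import Crest.Agent.R208.LC6
import Crest.Agent.R208.ZA2
import Crest.Agent.R208.TU8

/-! Row 208, (8,2), block EA (helper595).  EA8: **the half of the hypotheses of `ZA.bound` which
lives on `B' = (US × S^(2l+1)) / S¹`**, from level two and the value of the localised integral. -/

set_option autoImplicit false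
set_option linter.unusedSectionVars false
set_option linter.unusedVariables false
set_option maxHeartbeats 1000000

open MeasureTheory Set Filter Topology Module
open scoped ContDiff RealInnerProductSpace Real
open Crest.GeometryTopology.Submanifold
open Crest.Agent.R241.DDefs Crest.Agent.R241.D Crest.Agent.R241.D2
open Crest.Agent.R208.F Crest.Agent.R208.FI Crest.Agent.R208.CW Crest.Agent.R208.T
open Crest.Agent.R208.CM (Cir gen Rep Triv Qd phR Th gf Emb Quo MM jj Curv)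
open Crest.Agent.R208.LB (al)
open Crest.Agent.R208.VC hiding Wt
open Crest.Agent.R208.EX
open Crest.Agent.R208.FT (D2 XI RN xiN gp lev)
open Crest.Agent.R208.NN (Wt Rt nuP)
open Crest.Agent.R208.TP (QM TT CV pu₁ pu₂ push up)
open Crest.Agent.R208.MS (Fam oc En)
open Crest.Agent.R208.EP (topr)
open Crest.Agent.R208.SN

noncomputable section

namespace Crest.Agent.R208.EA

/-! ### the literal list -/
section lst
variable {EB EB' : Type*} [NormedAddCommGroup EB] [NormedSpace ℝ EB] [FiniteDimensional ℝ EB]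
  [NormedAddCommGroup EB'] [NormedSpace ℝ EB'] [FiniteDimensional ℝ EB']

/-- the hypotheses of `ZA.bound` on `B'` -/
structure PHalf (B' : Set EB') (p : EB' → EB) (e x Th w₁ : EB → Ext EB) (u e2 : EB' → Ext EB')
    (a1 a2 ε7 c₀ n₁ ν : ℝ) : Prop where
  hu : EC B' u
  he2 : EC B' e2
  hua : Coh B' u (F.pull p (a1 • e ^ 4 + a2 • x))
  he2T : Coh B' e2 (ε7 • F.pull p Th)
  hκ : |ε7 * a2 * ν ^ 2| = 432 * |c₀ * n₁|
  hc : c₀ * n₁ ≠ 0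
  hE : Coh B' (c₀ • F.pull p w₁) (u * e2)

end lst

variable {n N K m m' l c s' c₂ : ℕ} {κ : ℝ} {S : Set (Euc N)} {G : Geo n N κ S}
  {lg : Euc N → Euc N → Euc N} {ρ : Euc N → Euc N} {r C r' Kr B w δ δ₂ : ℝ}
  {PN : Euc N × Euc N → Wt N K →L[ℝ] Wt N K}
  {h : GT.Bla G (2 * 3 + 2)} {g : Euc N × Euc N → Fin m → ℂ} {Fc : MM m → Ext (MM m)}
  {g' : (Euc N × Euc N) × HW.U l → Fin m' → ℂ} {p : MM m' → MM m}
  {T : Euc N × Euc N → Wt N K →L[ℝ] EuclideanSpace ℝ (Fin (2 * c + 1))}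
  {P' : MM m → EuclideanSpace ℝ (Fin (2 * c + 1)) →L[ℝ] EuclideanSpace ℝ (Fin (2 * c + 1))}
  {o' : MM m → Ext (EuclideanSpace ℝ (Fin (2 * c + 1)))}
  {W' : MM m → (Fin (s' + 1) × Fin 2 → Fin (2 * c + 1)) → ℝ}
  {oN : Euc N × Euc N → Ext (Wt N K)}
  {T₂ : (Euc N × Euc N) × HW.U l →
    EuclideanSpace ℝ (((Fin K × Fin 2) × Fin N) ⊕ ((Fin K × Fin 2) × Fin N)) →L[ℝ]
      EuclideanSpace ℝ (Fin (2 * c₂))}
  {P₂' : MM m' → EuclideanSpace ℝ (Fin (2 * c₂)) →L[ℝ] EuclideanSpace ℝ (Fin (2 * c₂))}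
  {W₂' : MM m' → (Fin (2 * 3 + 1) × Fin 2 → Fin (2 * c₂)) → ℝ}
  {D : ED N} {ε ε₂ E₀ η₀ : ℝ} {J₀ : ℕ} {w₁ : MM m → Ext (MM m)}
  {p₀ : Euc N} {ι : Type} [Fintype ι] [DecidableEq ι] {mx d : ℕ}
  {W₀ : Euc N × Euc N → (ι × Fin 2 → Fin N) → ℝ} {x : Euc N → Ext (Euc N)}
  {x0 : MM m → Ext (MM m)}

/-- **the localisation (A2)** over the slice `u₀`, for every output of level two -/
def A2S (h : GT.Bla G (2 * 3 + 2)) (g' : (Euc N × Euc N) × HW.U l → Fin m' → ℂ) (p : MM m' → MM m)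
    (PN : Euc N × Euc N → Wt N K →L[ℝ] Wt N K)
    (T : Euc N × Euc N → Wt N K →L[ℝ] EuclideanSpace ℝ (Fin (2 * c + 1)))
    (P' : MM m → EuclideanSpace ℝ (Fin (2 * c + 1)) →L[ℝ] EuclideanSpace ℝ (Fin (2 * c + 1)))
    (W' : MM m → (Fin (s' + 1) × Fin 2 → Fin (2 * c + 1)) → ℝ)
    (T₂ : (Euc N × Euc N) × HW.U l →
      EuclideanSpace ℝ (((Fin K × Fin 2) × Fin N) ⊕ ((Fin K × Fin 2) × Fin N)) →L[ℝ]
        EuclideanSpace ℝ (Fin (2 * c₂)))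
    (P₂' : MM m' → EuclideanSpace ℝ (Fin (2 * c₂)) →L[ℝ] EuclideanSpace ℝ (Fin (2 * c₂)))
    (D : ED N) (d : ℕ) (u₀ : HW.U l) (α : Euc N × Euc N → Ext (Euc N × Euc N))
    (lp : ((Euc N × Euc N) ×
      EuclideanSpace ℝ (((Fin K × Fin 2) × Fin N) ⊕ ((Fin K × Fin 2) × Fin N))) × Wt N K →
        ℝ → Euc N) (εg : ℝ) (oU : Euc N × Euc N → Ext (Euc N × Euc N)) : Prop :=
  ∀ (s₂ : ℕ) (W₂'' : MM m' → (Fin (s₂ + 1) × Fin 2 → Fin (2 * c₂)) → ℝ)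
    (V' : (MM m' × EuclideanSpace ℝ (Fin (2 * c₂))) × EuclideanSpace ℝ (Fin (2 * c + 1)) →
      Ext ((MM m' × EuclideanSpace ℝ (Fin (2 * c₂))) × EuclideanSpace ℝ (Fin (2 * c + 1))))
    (V : ((Euc N × Euc N) ×
      EuclideanSpace ℝ (((Fin K × Fin 2) × Fin N) ⊕ ((Fin K × Fin 2) × Fin N))) × Wt N K →
        Ext (((Euc N × Euc N) ×
          EuclideanSpace ℝ (((Fin K × Fin 2) × Fin N) ⊕ ((Fin K × Fin 2) × Fin N))) × Wt N K)),
    TP.Slc G PN 3 (Quo (HW.XX (L.US G) l) g') (fun z => jj g' (z, u₀)) T (fun z => T₂ (z, u₀))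
      (fun y => P' (p y)) P₂' (fun y => W' (p y)) W₂'' V' D 29 α lp V →
    ∃ oK, Ori (3 * 7 + d) (KG.N4 h) oK ∧
    ∀ y : Euc N × Euc N → Ext (Euc N × Euc N), Sm (L.US G) y → Cl (L.US G) y →
      Hom (d - 8) y → |J d (L.US G) oU
        (F.pull (fun z => jj g' (z, u₀)) (pu₂ (volume : Measure (EuclideanSpace ℝ (Fin (2 * c + 1))))
          (volume : Measure (EuclideanSpace ℝ (Fin (2 * c₂)))) P₂'
          (thomF (fun x => 1 - P₂' x) W₂'') (fun y => P' (p y))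
          (thomF (fun y => 1 - P' (p y)) fun y => W' (p y)) V') * y)| =
      ((LC.del (EuclideanSpace ℝ (Fin (2 * c + 1))) * kGG (Fin (s' + 1))) *
        (LC.del (EuclideanSpace ℝ (Fin (2 * c₂))) * kGG (Fin (s₂ + 1)))) *
        |J (3 * 7 + d) (KG.N4 h) oK
          (D.vs (F.pull TU.bN α) (AN.Ff G εg) * F.pull (fun z => z.1.1.1) y)|

/-- **the half of the hypotheses of `ZA.bound` which lives on `B'`** -/
theorem primeHalf
    (Q : Gm82 h K l lg ρ r C r' Kr B w δ δ₂ PN g Fc g' p T P' o' W' oN T₂ P₂' W₂')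
    (M : Crest.Agent.R208.T.XM h mx W₀ p₀ x) (hl : 8 ≤ 2 * l)
    (s0 : Sm (Quo (L.US G) g) x0) (c0 : Cl (Quo (L.US G) g) x0) (d0 : Hom 8 x0)
    (h0 : Coh (L.US G) (F.pull Prod.fst x) (F.pull (jj g) x0))
    (hD : D.OK) (hDS : D.S = S) (hom : D.om = x)
    (h2 : D2 G (2 * 3 + 2) K lg ρ r C r' Kr B w δ PN ε J₀ E₀ η₀ (DD.NN PN) (RN N K) (xiN h PN)
      δ₂ ε₂) (hη : 2 * η₀ ≤ π - (δ / 4) * ε ^ 2) (hlev : lev δ δ₂ ε ε₂ ≤ D.B)
    (hp : D.p = 11) (hq : D.q = 7)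
    (hpu : Cls2 G K lg ρ w J₀ ε PN g T P' W' D w₁) {u₀ : HW.U l} (hu₀ : ‖u₀‖ = 1)
    {ν n₁ εg : ℝ} (hO : KG.OK G 4 εg) {oU : Euc N × Euc N → Ext (Euc N × Euc N)}
    (hd : d + 1 = 2 * n) (ho : Ori d (L.US G) oU)
    (hA : A2S h g' p PN T P' W' T₂ P₂' D d u₀ ((1 / 2 : ℝ) • al)
      (fun x t => FT.f2 G lg ρ w J₀ (xiN h PN) ε ε₂ (FT.Ph2 G K (RN N K) t x)) εg oU)
    (hν : |XF.tau ι * ν| = 12 * (2 * Real.pi) ^ 4)
    (hn : 2 * Real.pi * |n₁| =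
      LC.del (EuclideanSpace ℝ (Fin (2 * c + 1))) * kGG (Fin (s' + 1)) * XF.tau ι) :
    ∃ (u e2 : MM m' → Ext (MM m')) (a1 a2 ε7 c₀ : ℝ),
      PHalf (Quo (HW.XX (L.US G) l) g') p Fc x0 (topr 7 (1 / 2) P' Fc) w₁ u e2 a1 a2 ε7 c₀ n₁ ν := by
  have hDd : Hom 8 D.om := hom ▸ M.dx
  obtain ⟨s₂, W₂'', c₀, η, V', hor, hT, hη', hV1, hV2, hV3, hV4, hall⟩ :=
    level2_Gm Q hD hDS h2 hη hlev hDd hp hq hpu
  set u := (pu₂ (volume : Measure (EuclideanSpace ℝ (Fin (2 * c + 1))))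
          (volume : Measure (EuclideanSpace ℝ (Fin (2 * c₂)))) P₂'
          (thomF (fun x => 1 - P₂' x) W₂'') (fun y => P' (p y))
          (thomF (fun y => 1 - P' (p y)) fun y => W' (p y)) V') with hu
  obtain ⟨su, cu, du, eu, ee, ⟨sg, hsg, he2T⟩, hE⟩ := hall u rfl
  obtain ⟨Fc', hFc'⟩ := (HW.conn_th (k := l) Q.cir (CM.conn_al (FV.sub_S h.bl))).exists_curv
    Q.hd.emb' Q.hd.cir' Q.hd.clo'
  obtain ⟨a1, a2, hua, hsl⟩ := hua M Q.hd Q.curv hFc' hl s0 c0 d0 h0 su cu du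
  have hS := Q.slc hD hDS h2 hη hlev 29 hor hη' hV2 hV3 hV4 hu₀
  obtain ⟨oK, hoK, hloc⟩ := hA s₂ W₂'' V' _ hS
  have hal : CM.Conn (L.US G) (gf G) (al (N := N)) := CM.conn_al (FV.sub_S h.bl)
  have sα : Sm (KG.N4 h) (F.pull TU.bN ((1 / 2 : ℝ) • al (N := N))) :=
    (hal.sm.smul (1 / 2)).pull TU.smap_bN
  have ssl : SMap (L.US G) (Quo (HW.XX (L.US G) l) g') (fun z => jj g' (z, u₀)) :=
    smap_slice Q.hd hu₀
  have ha := AN.abs_a2_XM M hO hD hDS hom sα (Hom.pull (hal.hom.smul (1 / 2)))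
    (by rw [hp]; norm_num)
    (by rw [hq]; norm_num) hd (mK := 3 * 7 + d) rfl ho hoK (su.pull ssl) (hsl u₀ hu₀) hloc
  obtain ⟨z₀, hz₀⟩ : (L.US G).Nonempty := Crest.Agent.R208.T.nonempty_UST h M.hp
  have hc0 := LC.thomPair_c0 Q.dsc2.or hor hT ⟨_, ssl.maps hz₀⟩
  have h7 : |2 * (sg * (2 ^ 7 * (Nat.factorial 7 : ℝ)))| = 2 * (2 ^ 7 * (Nat.factorial 7 : ℝ)) := by
    have e1 : (0 : ℝ) ≤ 2 ^ 7 * (Nat.factorial 7 : ℝ) := by positivity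
    rw [abs_mul, abs_mul, abs_of_nonneg e1, abs_of_nonneg (by norm_num : (0 : ℝ) ≤ 2)]
    rcases hsg with rfl | rfl <;> simp
  have hN := AN.N_of' (ι := ι) (ι₂ := Fin 7) (by simp) h7 ha hν hc0 hn
  exact ⟨u, (2 : ℝ) • eR P₂' W₂', a1, a2, _, c₀, eu, ee, hua, he2T, hN.1, hN.2, hE⟩

end Crest.Agent.R208.EA
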