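import Crest.Agent.R208.EA8
import Crest.Agent.R208.AK21

/-! Row 208, (8,2), block EA (helper595).  EA9: (A2) (helper952) filled into the half of the
hypotheses of `ZA.bound` which lives on `B'`; the bound `B₀` of the energies is chosen before the
constants of the families. -/

set_option autoImplicit false
set_option linter.unusedSectionVars false
set_option linter.unusedVariables false
set_option maxHeartbeats 1000000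

open MeasureTheory Set Filter Topology Module
open scoped ContDiff RealInnerProductSpace Real
open Crest.GeometryTopology.Submanifold
open Crest.Agent.R241.DDefs Crest.Agent.R241.D Crest.Agent.R241.D2
open Crest.Agent.R208.F Crest.Agent.R208.FI Crest.Agent.R208.CW Crest.Agent.R208.T
open Crest.Agent.R208.CM (Cir gen Rep Triv Qd phR Th gf Emb Quo MM jj Curv)
open Crest.Agent.R208.LB (al)
open Crest.Agent.R208.VC hiding Wt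
open Crest.Agent.R208.EX
open Crest.Agent.R208.FT (D2 XI RN xiN gp lev)
open Crest.Agent.R208.NN (Wt Rt nuP)
open Crest.Agent.R208.TP (QM TT CV pu₁ pu₂ push up)
open Crest.Agent.R208.MS (Fam oc En)
open Crest.Agent.R208.EP (topr)
open Crest.Agent.R208.SN

noncomputable section

namespace Crest.Agent.R208.EA

variable {n N K m m' l c s' c₂ : ℕ} {κ : ℝ} {S : Set (Euc N)} {G : Geo n N κ S}
  {lg : Euc N → Euc N → Euc N} {ρ : Euc N → Euc N} {r C r' Kr B w δ δ₂ : ℝ}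
  {PN : Euc N × Euc N → Wt N K →L[ℝ] Wt N K}
  {h : GT.Bla G (2 * 3 + 2)} {g : Euc N × Euc N → Fin m → ℂ} {Fc : MM m → Ext (MM m)}
  {g' : (Euc N × Euc N) × HW.U l → Fin m' → ℂ} {p : MM m' → MM m}
  {T : Euc N × Euc N → Wt N K →L[ℝ] EuclideanSpace ℝ (Fin (2 * c + 1))}
  {P' : MM m → EuclideanSpace ℝ (Fin (2 * c + 1)) →L[ℝ] EuclideanSpace ℝ (Fin (2 * c + 1))}
  {o' : MM m → Ext (EuclideanSpace ℝ (Fin (2 * c + 1)))}
  {W' : MM m → (Fin (s' + 1) × Fin 2 → Fin (2 * c + 1)) → ℝ}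
  {oN : Euc N × Euc N → Ext (Wt N K)}
  {T₂ : (Euc N × Euc N) × HW.U l →
    EuclideanSpace ℝ (((Fin K × Fin 2) × Fin N) ⊕ ((Fin K × Fin 2) × Fin N)) →L[ℝ]
      EuclideanSpace ℝ (Fin (2 * c₂))}
  {P₂' : MM m' → EuclideanSpace ℝ (Fin (2 * c₂)) →L[ℝ] EuclideanSpace ℝ (Fin (2 * c₂))}
  {W₂' : MM m' → (Fin (2 * 3 + 1) × Fin 2 → Fin (2 * c₂)) → ℝ}
  {ε ε₂ : ℝ} {d : ℕ}

/-- **(A2) over the package** -/
theorem exists_A2S
    (Q : Gm82 h K l lg ρ r C r' Kr B w δ δ₂ PN g Fc g' p T P' o' W' oN T₂ P₂' W₂')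
    (he : 0 < ε) (he2 : 0 < ε₂) (hd : d + 1 = 2 * n) :
    ∃ εg B₀ : ℝ, KG.OK G 4 εg ∧ B₀ < 4 * π ∧ ∀ {D : ED N} {E₀ η₀ : ℝ} {J₀ : ℕ}, D.OK → D.S = S →
      B₀ ≤ D.B →
      D2 G (2 * 3 + 2) K lg ρ r C r' Kr B w δ PN ε J₀ E₀ η₀ (DD.NN PN) (RN N K) (xiN h PN) δ₂ ε₂ →
      2 * η₀ ≤ π - (δ / 4) * ε ^ 2 → ∀ u₀ : HW.U l, ‖u₀‖ = 1 →
      ∀ oU : Euc N × Euc N → Ext (Euc N × Euc N), Ori d (L.US G) oU →
      A2S h g' p PN T P' W' T₂ P₂' D d u₀ ((1 / 2 : ℝ) • al)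
        (fun x t => FT.f2 G lg ρ w J₀ (xiN h PN) ε ε₂ (FT.Ph2 G K (RN N K) t x)) εg oU := by
  have hkn := Q.hkn
  have hal : CM.Conn (L.US G) (gf G) (al (N := N)) := CM.conn_al (FV.sub_S h.bl)
  obtain ⟨εg, B₀, oK, h1, h2, h3, h4⟩ := AK.a2_slc h Q.hkn Q.d0.neg Q.d0.rt he he2 Q.xi.pos hd
    (mK := 3 * 7 + d) rfl
  refine ⟨εg, B₀, h1, h2, fun {D E₀ η₀ J₀} hD hDS hB hD2 hη u₀ hu oU hoU s₂ W₂'' V' V hS =>
    ⟨oK, h3, fun y sy cy dy => ?_⟩⟩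
  exact h4 hD hDS hB hD2 hη hS (hal.sm.smul (1 / 2)) (hal.hom.smul (1 / 2)) hoU y sy cy dy
    (by omega)

/-- **the half of the hypotheses of `ZA.bound` which lives on `B'`**, with (A2) filled -/
theorem exists_primeHalf
    (Q : Gm82 h K l lg ρ r C r' Kr B w δ δ₂ PN g Fc g' p T P' o' W' oN T₂ P₂' W₂')
    (hl : 8 ≤ 2 * l) (he : 0 < ε) (he2 : 0 < ε₂) :
    ∃ B₀ : ℝ, B₀ < 4 * π ∧ ∀ {D : ED N} {E₀ η₀ : ℝ} {J₀ : ℕ} {ι : Type} [Fintype ι]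
      [DecidableEq ι] {mx : ℕ} {W₀ : Euc N × Euc N → (ι × Fin 2 → Fin N) → ℝ} {p₀ : Euc N}
      {x : Euc N → Ext (Euc N)} {x0 w₁ : MM m → Ext (MM m)} {ν n₁ : ℝ},
      Crest.Agent.R208.T.XM h mx W₀ p₀ x →
      Sm (Quo (L.US G) g) x0 → Cl (Quo (L.US G) g) x0 → Hom 8 x0 →
      Coh (L.US G) (F.pull Prod.fst x) (F.pull (jj g) x0) →
      D.OK → D.S = S → D.om = x → B₀ ≤ D.B → lev δ δ₂ ε ε₂ ≤ D.B → D.p = 11 → D.q = 7 →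
      D2 G (2 * 3 + 2) K lg ρ r C r' Kr B w δ PN ε J₀ E₀ η₀ (DD.NN PN) (RN N K) (xiN h PN) δ₂ ε₂ →
      2 * η₀ ≤ π - (δ / 4) * ε ^ 2 →
      Cls2 G K lg ρ w J₀ ε PN g T P' W' D w₁ →
      |XF.tau ι * ν| = 12 * (2 * Real.pi) ^ 4 →
      2 * Real.pi * |n₁| =
        LC.del (EuclideanSpace ℝ (Fin (2 * c + 1))) * kGG (Fin (s' + 1)) * XF.tau ι →
      ∃ (u e2 : MM m' → Ext (MM m')) (a1 a2 ε7 c₀ : ℝ),
        PHalf (Quo (HW.XX (L.US G) l) g') p Fc x0 (topr 7 (1 / 2) P' Fc) w₁ u e2 a1 a2 ε7 c₀ n₁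
          ν := by
  have hkn := Q.hkn
  have hd : 2 * n - 1 + 1 = 2 * n := by omega
  obtain ⟨εg, B₀, hO, hB₀, hA⟩ := exists_A2S Q he he2 hd
  refine ⟨B₀, hB₀, ?_⟩
  intro D E₀ η₀ J₀ ι _ _ mx W₀ p₀ x x0 w₁ ν n₁ M s0 c0 d0 h0 hD hDS hom hB hlev hp hq hD2 hη hpu
    hν hn
  have hoU : Ori (2 * n - 1) (L.US G) (LB.oUS n N) :=
    LB.ori_US (FV.sub_S h.bl) h.bl.cpt (by omega) hd
  obtain ⟨u₀, hu₀⟩ : ∃ u₀ : HW.U l, ‖u₀‖ = 1 := HW.SU_nonempty (k := l)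
  exact primeHalf Q M hl s0 c0 d0 h0 hD hDS hom hD2 hη hlev hp hq hpu hu₀ hO hd hoU
    (hA hD hDS hB hD2 hη u₀ hu₀ _ hoU) hν hn

end Crest.Agent.R208.EA
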