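import Crest.Agent.R208.EW6

/-! Row 208, block Q, (Q-p3) (helper607).  EP1: the real tensor product of a real projection field
with the realification of a complex line; orientation and pointwise algebra. -/

set_option autoImplicit false
set_option linter.unusedSectionVars false
set_option linter.unusedVariables false
set_option linter.unusedSimpArgs false

open Set Filter Topology Module MeasureTheory Matrix
open scoped ContDiff RealInnerProductSpace ComplexConjugate Kronecker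
open Crest.Agent.R208.F Crest.Agent.R208.FI Crest.Agent.R208.CW
open Crest.Agent.R208.CM
open Crest.Agent.R208.T
open Crest.Agent.R208.EW

noncomputable section

namespace Crest.Agent.R208.EP

section pt
variable {p κ ι : Type} [Fintype p] [DecidableEq p] [Fintype κ] [DecidableEq κ]
  [Fintype ι] [DecidableEq ι]

/-- the entries of the realification of a complex matrix -/
def CEm (L : Matrix κ κ ℂ) : Matrix (κ × Fin 2) (κ × Fin 2) ℂ :=
  Matrix.of fun a b => L a.1 b.1 * (wz a.2 * conj (wz b.2))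

/-- the realification of a complex line -/
def PLr (L : Matrix κ κ ℂ) : Matrix (κ × Fin 2) (κ × Fin 2) ℝ := Matrix.of fun a b => (CEm L a b).re

/-- its complex structure -/
def JLr (L : Matrix κ κ ℂ) : Matrix (κ × Fin 2) (κ × Fin 2) ℝ :=
  Matrix.of fun a b => -(CEm L a b).im

/-- an oriented frame of the realification of `lin z` -/
def fz (z : κ → ℂ) : Matrix (κ × Fin 2) (Fin 2) ℝ :=
  Matrix.of fun a s => if s = 0 then (z a.1 * wz a.2).re else -(z a.1 * wz a.2).im

theorem fz0 (z : κ → ℂ) (a : κ × Fin 2) : fz z a 0 = (z a.1 * wz a.2).re := rfl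
theorem fz1 (z : κ → ℂ) (a : κ × Fin 2) : fz z a 1 = -(z a.1 * wz a.2).im := rfl

theorem fz_tr_mul {z : κ → ℂ} (hz : ∑ i, z i * conj (z i) = 1) : (fz z)ᵀ * fz z = 1 := by
  have h1 : ∑ i, ((z i).re ^ 2 + (z i).im ^ 2) = 1 := by
    have := congrArg Complex.re hz
    rw [Complex.re_sum, Complex.one_re] at this
    rw [← this]
    refine Finset.sum_congr rfl fun i _ => ?_
    rw [Complex.mul_conj, Complex.ofReal_re, Complex.normSq_apply]
    ring
  refine Matrix.ext fun s t => ?_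
  rw [Matrix.mul_apply, Fintype.sum_prod_type]
  simp only [Fin.sum_univ_two, Matrix.transpose_apply]
  fin_cases s <;> fin_cases t
  · simp only [Fin.zero_eta, fz0, wz_zero, wz_one, mul_one, Complex.mul_re, Complex.neg_re,
      Complex.neg_im, Complex.I_re, Complex.I_im, Matrix.one_apply_eq]
    refine Eq.trans (Finset.sum_congr rfl fun i _ => ?_) h1
    ring
  · simp only [Fin.zero_eta, Fin.mk_one, fz0, fz1, wz_zero, wz_one, mul_one, Complex.mul_re,
      Complex.mul_im, Complex.neg_re, Complex.neg_im, Complex.I_re, Complex.I_im]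
    rw [Matrix.one_apply_ne (by decide)]
    exact Finset.sum_eq_zero fun i _ => by ring
  · simp only [Fin.zero_eta, Fin.mk_one, fz0, fz1, wz_zero, wz_one, mul_one, Complex.mul_re,
      Complex.mul_im, Complex.neg_re, Complex.neg_im, Complex.I_re, Complex.I_im]
    rw [Matrix.one_apply_ne (by decide)]
    exact Finset.sum_eq_zero fun i _ => by ring
  · simp only [Fin.mk_one, fz1, wz_zero, wz_one, mul_one, Complex.mul_re,
      Complex.mul_im, Complex.neg_re, Complex.neg_im, Complex.I_re, Complex.I_im,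
      Matrix.one_apply_eq]
    refine Eq.trans (Finset.sum_congr rfl fun i _ => ?_) h1
    ring

theorem CEm_lin (z : κ → ℂ) (a b : κ × Fin 2) :
    CEm (lin z) a b = (z a.1 * wz a.2) * conj (z b.1 * wz b.2) := by
  change z a.1 * conj (z b.1) * (wz a.2 * conj (wz b.2)) = _
  rw [map_mul]
  ring

/-- the rotation by `π / 2` of the plane -/
def J2 : Matrix (Fin 2) (Fin 2) ℝ := Matrix.of fun s t => if s = t then 0 else if s = 0 then -1 else 1

theorem PLr_lin (z : κ → ℂ) : PLr (lin z) = fz z * (fz z)ᵀ := by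
  refine Matrix.ext fun a b => ?_
  rw [Matrix.mul_apply, Fin.sum_univ_two]
  change (CEm (lin z) a b).re = fz z a 0 * fz z b 0 + fz z a 1 * fz z b 1
  rw [CEm_lin, fz0, fz0, fz1, fz1, Complex.mul_re, Complex.conj_re, Complex.conj_im]
  ring

theorem JLr_lin (z : κ → ℂ) : JLr (lin z) = fz z * J2 * (fz z)ᵀ := by
  refine Matrix.ext fun a b => ?_
  rw [Matrix.mul_apply, Fin.sum_univ_two, Matrix.mul_apply, Matrix.mul_apply, Fin.sum_univ_two,
    Fin.sum_univ_two]
  change -(CEm (lin z) a b).im = (fz z a 0 * J2 0 0 + fz z a 1 * J2 1 0) * fz z b 0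
    + (fz z a 0 * J2 0 1 + fz z a 1 * J2 1 1) * fz z b 1
  rw [CEm_lin, fz0, fz0, fz1, fz1, Complex.mul_im, Complex.conj_re, Complex.conj_im]
  have e1 : J2 0 0 = 0 := rfl
  have e2 : J2 1 0 = 1 := rfl
  have e3 : J2 0 1 = -1 := rfl
  have e4 : J2 1 1 = 0 := rfl
  rw [e1, e2, e3, e4]
  ring

theorem J2_sq : J2 * J2 = -1 := by
  refine Matrix.ext fun s t => ?_
  rw [Matrix.mul_apply, Fin.sum_univ_two]
  fin_cases s <;> fin_cases t <;> simp [J2]

theorem J2_t : J2ᵀ = -J2 := by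
  refine Matrix.ext fun s t => ?_
  fin_cases s <;> fin_cases t <;> simp [J2]

/-- algebra of the realification -/
structure RL (P J : Matrix κ κ ℝ) : Prop where
  Pt : Pᵀ = P
  PP : P * P = P
  JJ : J * J = -P
  JP : J * P = J
  PJ : P * J = J
  Jt : Jᵀ = -J

theorem rl_lin {z : κ → ℂ} (hz : ∑ i, z i * conj (z i) = 1) : RL (PLr (lin z)) (JLr (lin z)) := by
  have h := fz_tr_mul hz
  rw [PLr_lin, JLr_lin]
  set F := fz z with hF
  have k : ∀ A B : Matrix (Fin 2) (Fin 2) ℝ, (F * A * Fᵀ) * (F * B * Fᵀ) = F * (A * B) * Fᵀ :=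
    fun A B => by
      calc (F * A * Fᵀ) * (F * B * Fᵀ) = F * A * (Fᵀ * F) * B * Fᵀ := by
            simp only [Matrix.mul_assoc]
        _ = _ := by rw [h, Matrix.mul_one, Matrix.mul_assoc F A B]
  have e : F * Fᵀ = F * (1 : Matrix (Fin 2) (Fin 2) ℝ) * Fᵀ := by rw [Matrix.mul_one]
  refine ⟨?_, ?_, ?_, ?_, ?_, ?_⟩
  · rw [Matrix.transpose_mul, Matrix.transpose_transpose]
  · rw [e, k, Matrix.one_mul]
  · rw [e, k, J2_sq, Matrix.mul_neg, Matrix.neg_mul]
  · rw [e, k, Matrix.mul_one]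
  · rw [e, k, Matrix.one_mul]
  · rw [Matrix.transpose_mul, Matrix.transpose_mul, Matrix.transpose_transpose, J2_t,
      ← Matrix.mul_assoc, Matrix.mul_neg, Matrix.neg_mul]

/-- tensor product with a symmetric idempotent -/
theorem RL.kron {N : Matrix p p ℝ} {P J : Matrix κ κ ℝ} (h : RL P J) (ht : Nᵀ = N)
    (hN : N * N = N) : RL (N ⊗ₖ P) (N ⊗ₖ J) := by
  refine ⟨?_, ?_, ?_, ?_, ?_, ?_⟩
  · rw [← Matrix.kroneckerMap_transpose, ht, h.Pt]
  · rw [← Matrix.mul_kronecker_mul, hN, h.PP]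
  · rw [← Matrix.mul_kronecker_mul, hN, h.JJ]
    refine Matrix.ext fun a b => ?_
    simp [Matrix.kroneckerMap_apply]
  · rw [← Matrix.mul_kronecker_mul, hN, h.JP]
  · rw [← Matrix.mul_kronecker_mul, hN, h.PJ]
  · rw [← Matrix.kroneckerMap_transpose, ht, h.Jt]
    refine Matrix.ext fun a b => ?_
    simp [Matrix.kroneckerMap_apply]

/-- complexification -/
abbrev mC {a b : Type} (M : Matrix a b ℝ) : Matrix a b ℂ := M.map (algebraMap ℝ ℂ)

theorem mC_mul {a b c : Type} [Fintype b] (M : Matrix a b ℝ) (M' : Matrix b c ℝ) :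
    mC (M * M') = mC M * mC M' := Matrix.map_mul

theorem mC_kron {a b : Type} (M : Matrix a a ℝ) (M' : Matrix b b ℝ) :
    mC (M ⊗ₖ M') = mC M ⊗ₖ mC M' := by
  refine Matrix.ext fun i j => ?_
  simp [Matrix.kroneckerMap_apply]

theorem RL.rj {P J : Matrix κ κ ℝ} (h : RL P J) : RJ (mC P) (mC J) := by
  refine ⟨?_, ?_, ?_, ?_, ?_, ?_, ?_⟩
  · rw [cj_map]
    exact Matrix.ext fun i j => Complex.conj_ofReal _
  · rw [cj_map]
    exact Matrix.ext fun i j => Complex.conj_ofReal _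
  · rw [← Matrix.transpose_map, h.Pt]
  · rw [← mC_mul, h.PP]
  · rw [← mC_mul, h.JJ]
    refine Matrix.ext fun i j => ?_
    simp
  · rw [← mC_mul, h.JP]
  · rw [← mC_mul, h.PJ]

/-- the eigenprojection of the realification -/
theorem qJ_real (L : Matrix κ κ ℂ) :
    qJ (mC (PLr L)) (mC (JLr L)) = ((1 : ℂ) / 2) • CEm L := by
  refine Matrix.ext fun a b => ?_
  rw [qJ, Matrix.add_apply, Matrix.smul_apply, Matrix.smul_apply, Matrix.smul_apply,
    Matrix.neg_apply, Matrix.smul_apply, smul_eq_mul, smul_eq_mul, smul_eq_mul, smul_eq_mul]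
  change (1 : ℂ) / 2 * ((CEm L a b).re : ℂ)
    + Complex.I * (1 / 2 * -(((-(CEm L a b).im : ℝ)) : ℂ)) = 1 / 2 * CEm L a b
  conv_rhs => rw [← Complex.re_add_im (CEm L a b)]
  push_cast
  ring

/-- intertwiners -/
def SLm (L : Matrix κ κ ℂ) : Matrix κ (κ × Fin 2) ℂ :=
  Matrix.of fun a b => ((Real.sqrt 2 : ℝ) : ℂ)⁻¹ * (L a b.1 * conj (wz b.2))

def TLm (L : Matrix κ κ ℂ) : Matrix (κ × Fin 2) κ ℂ :=
  Matrix.of fun b a => ((Real.sqrt 2 : ℝ) : ℂ)⁻¹ * (L b.1 a * wz b.2)

theorem pIso_real {L : Matrix κ κ ℂ} (hL : L * L = L) :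
    SP.PIso (qJ (mC (PLr L)) (mC (JLr L))) L (SLm L) (TLm L) := by
  rw [qJ_real]
  have yy : ∀ a b, ∑ c, L a c * L c b = L a b := fun a b => by
    have := congrFun (congrFun hL a) b
    rwa [Matrix.mul_apply] at this
  have ww : ∑ s : Fin 2, wz s * conj (wz s) = 2 := by
    rw [Fin.sum_univ_two, wz_zero, wz_one, map_one, map_neg, Complex.conj_I, neg_neg, neg_mul,
      Complex.I_mul_I]
    norm_num
  set r2 : ℂ := ((Real.sqrt 2 : ℝ) : ℂ)⁻¹ with hr2
  have r22 : r2 * r2 = 1 / 2 := sqrt2_sq'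
  refine ⟨Matrix.ext fun a b => ?_, Matrix.ext fun a b => ?_, Matrix.ext fun a b => ?_,
    Matrix.ext fun a b => ?_, Matrix.ext fun a b => ?_, Matrix.ext fun a b => ?_⟩
  · rw [Matrix.mul_apply, Fintype.sum_prod_type]
    have h1 : ∀ (c : κ) (s : Fin 2), SLm L a (c, s) * (((1 : ℂ) / 2) • CEm L) (c, s) b
        = (r2 * (1 / 2) * conj (wz b.2)) * (L a c * L c b.1) * (wz s * conj (wz s)) := by
      intro c s
      rw [Matrix.smul_apply, smul_eq_mul]
      change r2 * (L a c * conj (wz s)) * (1 / 2 * (L c b.1 * (wz s * conj (wz b.2)))) = _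
      ring
    simp only [h1]
    simp only [← Finset.mul_sum, ww, ← Finset.sum_mul]
    rw [yy]
    change _ = r2 * (L a b.1 * conj (wz b.2))
    ring
  · rw [Matrix.mul_apply]
    have h1 : ∀ c, L a c * SLm L c b = (r2 * conj (wz b.2)) * (L a c * L c b.1) := fun c => by
      change L a c * (r2 * (L c b.1 * conj (wz b.2))) = _
      ring
    simp only [h1]
    rw [← Finset.mul_sum, yy]
    change _ = r2 * (L a b.1 * conj (wz b.2))
    ring
  · rw [Matrix.mul_apply]
    have h1 : ∀ c, TLm L a c * L c b = (r2 * wz a.2) * (L a.1 c * L c b) := fun c => by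
      change (r2 * (L a.1 c * wz a.2)) * L c b = _
      ring
    simp only [h1]
    rw [← Finset.mul_sum, yy]
    change _ = r2 * (L a.1 b * wz a.2)
    ring
  · rw [Matrix.mul_apply, Fintype.sum_prod_type]
    have h1 : ∀ (c : κ) (s : Fin 2), (((1 : ℂ) / 2) • CEm L) a (c, s) * TLm L (c, s) b
        = (r2 * (1 / 2) * wz a.2) * (L a.1 c * L c b) * (wz s * conj (wz s)) := by
      intro c s
      rw [Matrix.smul_apply, smul_eq_mul]
      change (1 / 2 * (L a.1 c * (wz a.2 * conj (wz s)))) * (r2 * (L c b * wz s)) = _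
      ring
    simp only [h1]
    simp only [← Finset.mul_sum, ww, ← Finset.sum_mul]
    rw [yy]
    change _ = r2 * (L a.1 b * wz a.2)
    ring
  · rw [Matrix.mul_apply, Matrix.smul_apply, smul_eq_mul]
    have h1 : ∀ c, TLm L a c * SLm L c b = (r2 * r2 * (wz a.2 * conj (wz b.2))) * (L a.1 c * L c b.1) :=
      fun c => by
        change (r2 * (L a.1 c * wz a.2)) * (r2 * (L c b.1 * conj (wz b.2))) = _
        ring
    simp only [h1]
    rw [← Finset.mul_sum, yy, r22]
    change _ = 1 / 2 * (L a.1 b.1 * (wz a.2 * conj (wz b.2)))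
    ring
  · rw [Matrix.mul_apply, Fintype.sum_prod_type]
    have h1 : ∀ (c : κ) (s : Fin 2), SLm L a (c, s) * TLm L (c, s) b
        = (r2 * r2) * (L a c * L c b) * (wz s * conj (wz s)) := by
      intro c s
      change r2 * (L a c * conj (wz s)) * (r2 * (L c b * wz s)) = _
      ring
    simp only [h1]
    simp only [← Finset.mul_sum, ww, ← Finset.sum_mul]
    rw [yy, r22]
    ring

/-- tensor product of a partial isometry with an idempotent -/
theorem pIso_kron {a b c : Type} [Fintype a] [DecidableEq a] [Fintype b] [DecidableEq b]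
    [Fintype c] [DecidableEq c] {A : Matrix a a ℂ} (hA : A * A = A) {P : Matrix b b ℂ}
    {P' : Matrix c c ℂ} {S : Matrix c b ℂ} {W : Matrix b c ℂ} (h : SP.PIso P P' S W) :
    SP.PIso (A ⊗ₖ P) (A ⊗ₖ P') (A ⊗ₖ S) (A ⊗ₖ W) :=
  ⟨by rw [← Matrix.mul_kronecker_mul, hA, h.sp], by rw [← Matrix.mul_kronecker_mul, hA, h.ps],
    by rw [← Matrix.mul_kronecker_mul, hA, h.wp], by rw [← Matrix.mul_kronecker_mul, hA, h.pw],
    by rw [← Matrix.mul_kronecker_mul, hA, h.ws], by rw [← Matrix.mul_kronecker_mul, hA, h.sw]⟩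

theorem qJ_kron {a b : Type} [Fintype a] [DecidableEq a] [Fintype b] [DecidableEq b]
    (A : Matrix a a ℂ) (P J : Matrix b b ℂ) : qJ (A ⊗ₖ P) (A ⊗ₖ J) = A ⊗ₖ qJ P J := by
  refine Matrix.ext fun i j => ?_
  simp only [qJ, Matrix.add_apply, Matrix.smul_apply, Matrix.neg_apply, Matrix.kroneckerMap_apply,
    smul_eq_mul]
  ring

/-- **the real oriented frame of `N ⊗ L`** -/
theorem exists_fr {N : Matrix p p ℝ} {n : Matrix p ι ℝ} (h1 : nᵀ * n = 1) (h2 : n * nᵀ = N)
    {z : κ → ℂ} (hz : ∑ i, z i * conj (z i) = 1) :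
    ∃ f : Matrix (p × (κ × Fin 2)) (ι × Fin 2) ℝ, fᵀ * f = 1 ∧ f * fᵀ = N ⊗ₖ PLr (lin z) ∧
      ∀ I, wJ ι (mC (N ⊗ₖ JLr (lin z))) I = (((f.submatrix I id).det : ℝ) : ℂ) := by
  have hN : N * N = N := by
    rw [← h2, Matrix.mul_assoc, ← Matrix.mul_assoc nᵀ, h1, Matrix.one_mul]
  have ht : Nᵀ = N := by rw [← h2, Matrix.transpose_mul, Matrix.transpose_transpose]
  have hF := fz_tr_mul hz
  have hrl := (rl_lin hz).kron ht hN
  set f : Matrix (p × (κ × Fin 2)) (ι × Fin 2) ℝ := n ⊗ₖ fz z with hf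
  have e1 : fᵀ * f = 1 := by
    rw [hf, ← Matrix.kroneckerMap_transpose, ← Matrix.mul_kronecker_mul, h1, hF,
      Matrix.one_kronecker_one]
  have e2 : f * fᵀ = N ⊗ₖ PLr (lin z) := by
    rw [hf, ← Matrix.kroneckerMap_transpose, ← Matrix.mul_kronecker_mul, h2, PLr_lin]
  refine ⟨f, e1, e2, fun I => ?_⟩
  -- the adapted frame
  have e3 : (N ⊗ₖ JLr (lin z)) * f = n ⊗ₖ (fz z * J2) := by
    rw [hf, ← Matrix.mul_kronecker_mul, JLr_lin]
    congr 1
    · rw [← h2, Matrix.mul_assoc, h1, Matrix.mul_one]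
    · rw [Matrix.mul_assoc, hF, Matrix.mul_one]
  have hfr : FrJ (ι := ι) (mC (N ⊗ₖ PLr (lin z))) (mC (N ⊗ₖ JLr (lin z)))
      (fun I => (((f.submatrix I id).det : ℝ) : ℂ)) := by
    refine ⟨Matrix.of fun a j => ((f a (j, 0) : ℝ) : ℂ), mC f, fun a j => rfl, fun a j => ?_,
      ?_, ?_, fun I => ?_⟩
    · have e4 : (mC (N ⊗ₖ JLr (lin z)) * Matrix.of fun a (j : ι) => ((f a (j, 0) : ℝ) : ℂ)) a j
          = ((((N ⊗ₖ JLr (lin z)) * f) a (j, 0) : ℝ) : ℂ) := by
        rw [Matrix.mul_apply, Matrix.mul_apply]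
        push_cast
        rfl
      rw [e4, e3]
      change ((n a.1 j * fz z a.2 1 : ℝ) : ℂ) = ((n a.1 j * (fz z * J2) a.2 0 : ℝ) : ℂ)
      congr 2
      rw [Matrix.mul_apply, Fin.sum_univ_two]
      have q1 : J2 0 0 = 0 := rfl
      have q2 : J2 1 0 = 1 := rfl
      rw [q1, q2]
      ring
    · rw [← Matrix.transpose_map, ← mC_mul, e1]
      exact Matrix.map_one _ (map_zero _) (map_one _)
    · rw [← Matrix.transpose_map, ← mC_mul, e2]
    · exact RingHom.map_det (algebraMap ℝ ℂ) (f.submatrix I id)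
  have hJt : (mC (N ⊗ₖ JLr (lin z)))ᵀ = -mC (N ⊗ₖ JLr (lin z)) := by
    rw [← Matrix.transpose_map, hrl.Jt]
    refine Matrix.ext fun i j => ?_
    simp
  have := hfr.eq_wJ hJt hrl.rj.JJ hrl.rj.JP
  exact (congrFun this I).symm

end pt

end Crest.Agent.R208.EP
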