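import Crest.Agent.R208.EP1

/-! Row 208, block Q, (Q-p3) (helper607).  EP2: the oriented real bundle `N ⊗ L` (`N` real of rank
`r`, `L` a complex line) and its Euler form. -/

set_option autoImplicit false
set_option linter.unusedSectionVars false
set_option linter.unusedVariables false
set_option linter.unusedSimpArgs false

open Set Filter Topology Module MeasureTheory Matrix
open scoped ContDiff RealInnerProductSpace ComplexConjugate Kronecker
open Crest.Agent.R208.F Crest.Agent.R208.FI Crest.Agent.R208.CW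
open Crest.Agent.R208.CM
open Crest.Agent.R208.T
open Crest.Agent.R208.EW

noncomputable section

namespace Crest.Agent.R208.EP

section me
variable {E : Type*} [NormedAddCommGroup E] [NormedSpace ℝ E] [FiniteDimensional ℝ E]
  {a b : Type} [Fintype a] [DecidableEq a] [Fintype b] [DecidableEq b]

theorem mE_eq_sum (S : Matrix a b ℝ) :
    T.mE S = ∑ i, ∑ j, S i j • T.mE (Matrix.single i j (1 : ℝ)) := by
  ext v k
  simp only [FunLike.coe_sum, Finset.sum_apply, FunLike.coe_smul,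
    Pi.smul_apply, WithLp.ofLp_sum, PiLp.smul_apply, mE_apply, smul_eq_mul]
  rw [Finset.sum_eq_single k]
  · refine Finset.sum_congr rfl fun j _ => ?_
    rw [Finset.sum_eq_single j]
    · rw [Matrix.single_apply_same, one_mul]
    · intro l _ hl
      simp [Matrix.single_apply, Ne.symm hl]
    · intro h; exact absurd (Finset.mem_univ _) h
  · intro i _ hi
    refine Finset.sum_eq_zero fun j _ => ?_
    rw [Finset.sum_eq_zero fun l _ => ?_, mul_zero]
    simp [Matrix.single_apply, hi]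
  · intro h; exact absurd (Finset.mem_univ _) h

theorem contDiffAt_mE {S : E → Matrix a b ℝ} {x : E} {k : WithTop ℕ∞}
    (h : ∀ i j, ContDiffAt ℝ k (fun y => S y i j) x) : ContDiffAt ℝ k (fun y => T.mE (S y)) x := by
  have : (fun y => T.mE (S y))
      = fun y => ∑ i, ∑ j, S y i j • T.mE (Matrix.single i j (1 : ℝ)) :=
    funext fun y => mE_eq_sum (S y)
  rw [this]
  exact ContDiffAt.sum fun i _ => ContDiffAt.sum fun j _ => (h i j).smul contDiffAt_const

end me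

section glob
variable {E : Type*} [NormedAddCommGroup E] [NormedSpace ℝ E] [FiniteDimensional ℝ E]
  {p κ ι : Type} [Fintype p] [DecidableEq p] [Fintype κ] [DecidableEq κ]
  [Fintype ι] [DecidableEq ι] {Y : Set E} {N : E → EuclideanSpace ℝ p →L[ℝ] EuclideanSpace ℝ p}
  {L : E → Matrix κ κ ℂ} {r d : ℕ}

/-- a smooth field of complex lines -/
structure LineF (Y : Set E) (L : E → Matrix κ κ ℂ) : Prop where
  sm : ∀ x ∈ Y, SM ∞ L x
  ex : ∀ x ∈ Y, ∃ z : κ → ℂ, ∑ i, z i * conj (z i) = 1 ∧ L x = lin z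

theorem LineF.idF (h : LineF Y L) : IdF Y L :=
  ⟨h.sm, fun x hx => by
    obtain ⟨z, hz, e⟩ := h.ex x hx
    rw [e]
    exact lin_idem hz⟩

theorem LineF.rank (h : LineF Y L) : ∀ x ∈ Y, (L x).rank = 1 := fun x hx => by
  obtain ⟨z, hz, e⟩ := h.ex x hx
  rw [e]
  exact lin_rank hz

/-- real matrix of `N` -/
def Nr (N : E → EuclideanSpace ℝ p →L[ℝ] EuclideanSpace ℝ p) (x : E) : Matrix p p ℝ :=
  Matrix.of fun i j => N x (EuclideanSpace.single j 1) i

theorem mC_Nr (x : E) : mC (Nr N x) = mtx (N x) := rfl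

/-- **the real bundle `N ⊗ L`** -/
def NL (N : E → EuclideanSpace ℝ p →L[ℝ] EuclideanSpace ℝ p) (L : E → Matrix κ κ ℂ) (x : E) :
    EuclideanSpace ℝ (p × (κ × Fin 2)) →L[ℝ] EuclideanSpace ℝ (p × (κ × Fin 2)) :=
  T.mE (Nr N x ⊗ₖ PLr (L x))

/-- its orientation tensor -/
def WN (ι : Type) [Fintype ι] [DecidableEq ι]
    (N : E → EuclideanSpace ℝ p →L[ℝ] EuclideanSpace ℝ p) (L : E → Matrix κ κ ℂ)
    (x : E) (I : ι × Fin 2 → p × (κ × Fin 2)) : ℝ := (wJ ι (mC (Nr N x ⊗ₖ JLr (L x))) I).re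

theorem mtx_NL (x : E) : mtx (NL N L x) = mC (Nr N x ⊗ₖ PLr (L x)) := by
  refine Matrix.ext fun i j => ?_
  rw [NL, T.mtx_mE, T.mE_single]
  rfl

theorem contDiffAt_Nr {x : E} {k : WithTop ℕ∞} (h : ContDiffAt ℝ k N x) (i j : p) :
    ContDiffAt ℝ k (fun y => Nr N y i j) x := by
  have h1 : ContDiffAt ℝ k (fun y => N y (EuclideanSpace.single j (1 : ℝ))) x :=
    h.clm_apply contDiffAt_const
  exact ((EuclideanSpace.proj i : EuclideanSpace ℝ p →L[ℝ] ℝ).contDiff.contDiffAt).comp x h1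

theorem contDiffAt_PLr {x : E} {k : WithTop ℕ∞} (h : SM k L x) (a b : κ × Fin 2) :
    ContDiffAt ℝ k (fun y => PLr (L y) a b) x :=
  (Complex.reCLM.contDiff.contDiffAt).comp x ((h a.1 b.1).mul contDiffAt_const)

theorem contDiffAt_JLr {x : E} {k : WithTop ℕ∞} (h : SM k L x) (a b : κ × Fin 2) :
    ContDiffAt ℝ k (fun y => JLr (L y) a b) x :=
  ((Complex.imCLM.contDiff.contDiffAt).comp x ((h a.1 b.1).mul contDiffAt_const)).neg

theorem SM_J {x : E} {k : WithTop ℕ∞} (hN : ContDiffAt ℝ k N x) (hL : SM k L x) :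
    SM k (fun y => mC (Nr N y ⊗ₖ JLr (L y))) x := fun i j => by
  have h1 : ContDiffAt ℝ k (fun y => Nr N y i.1 j.1 * JLr (L y) i.2 j.2) x :=
    (contDiffAt_Nr hN i.1 j.1).mul (contDiffAt_JLr hL i.2 j.2)
  exact Complex.ofRealCLM.contDiff.contDiffAt.comp x h1

/-- real orthonormal frames of symmetric idempotents -/
theorem exists_n (hN : PField Y r N) (hs : ∀ x ∈ Y, ∀ u v, ⟪N x u, v⟫ = ⟪u, N x v⟫)
    (hι : Fintype.card ι = r) {x : E} (hx : x ∈ Y) :
    ∃ n : Matrix p ι ℝ, nᵀ * n = 1 ∧ n * nᵀ = Nr N x := by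
  set V : Submodule ℝ (EuclideanSpace ℝ p) :=
    LinearMap.range (N x : EuclideanSpace ℝ p →ₗ[ℝ] EuclideanSpace ℝ p) with hV
  have hr : finrank ℝ V = Fintype.card ι := by rw [hι]; exact hN.rank x hx
  let b : OrthonormalBasis ι ℝ V :=
    (stdOrthonormalBasis ℝ V).reindex ((finCongr hr).trans (Fintype.equivFin ι).symm)
  have hNb : ∀ j, N x (b j : EuclideanSpace ℝ p) = b j := fun j => by
    obtain ⟨w, hw⟩ := (b j).2
    rw [← hw]
    exact hN.idem x hx w
  refine ⟨Matrix.of fun a j => (b j : EuclideanSpace ℝ p) a, ?_, ?_⟩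
  · refine Matrix.ext fun i j => ?_
    rw [Matrix.mul_apply, Matrix.one_apply]
    have h1 := (orthonormal_iff_ite.1 b.orthonormal) j i
    have h2 : ⟪(b j : EuclideanSpace ℝ p), (b i : EuclideanSpace ℝ p)⟫
        = ∑ a, (b i : EuclideanSpace ℝ p) a * (b j : EuclideanSpace ℝ p) a := by
      rw [PiLp.inner_apply]
      exact Finset.sum_congr rfl fun a _ => rfl
    change ∑ a, (b i : EuclideanSpace ℝ p) a * (b j : EuclideanSpace ℝ p) a = _
    rw [← h2, ← Submodule.coe_inner, h1]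
    simp only [eq_comm]
  · refine Matrix.ext fun a c => ?_
    rw [Matrix.mul_apply]
    change ∑ j, (b j : EuclideanSpace ℝ p) a * (b j : EuclideanSpace ℝ p) c
      = N x (EuclideanSpace.single c 1) a
    have hm : N x (EuclideanSpace.single c 1) ∈ V := ⟨_, rfl⟩
    have h1 := b.sum_repr ⟨_, hm⟩
    have h2 := congrArg (fun v : V => (v : EuclideanSpace ℝ p) a) h1
    simp only [Submodule.coe_sum, Submodule.coe_smul] at h2
    rw [← h2]
    rw [WithLp.ofLp_sum, Finset.sum_apply]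
    refine Finset.sum_congr rfl fun j _ => ?_
    rw [PiLp.smul_apply, smul_eq_mul, mul_comm]
    congr 1
    rw [b.repr_apply_apply, Submodule.coe_inner]
    change _ = ⟪(b j : EuclideanSpace ℝ p), N x (EuclideanSpace.single c 1)⟫
    rw [← hs x hx, hNb]
    simp [EuclideanSpace.inner_single_right]

/-- **`N ⊗ L` is an oriented real bundle of rank `2 r`** -/
theorem or_NL (hN : PField Y r N) (hs : ∀ x ∈ Y, ∀ u v, ⟪N x u, v⟫ = ⟪u, N x v⟫)
    (hL : LineF Y L) (hι : Fintype.card ι = r) : OR (ι := ι) Y (NL N L) (WN ι N L) := by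
  refine ⟨fun x hx => ?_, fun x hx I => ?_, fun x hx => ?_⟩
  · refine contDiffAt_mE fun i j => ?_
    exact (contDiffAt_Nr (hN.smooth x hx) i.1 j.1).mul (contDiffAt_PLr (hL.sm x hx) i.2 j.2)
  · have h1 : ContDiffAt ℝ ∞ (fun y => wJ ι (mC (Nr N y ⊗ₖ JLr (L y))) I) x :=
      contDiffAt_wJ (SM_J (hN.smooth x hx) (hL.sm x hx)) I
    exact (Complex.reCLM.contDiff.contDiffAt).comp x h1
  · obtain ⟨z, hz, e⟩ := hL.ex x hx
    obtain ⟨n, n1, n2⟩ := exists_n hN hs hι hx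
    obtain ⟨f, f1, f2, f3⟩ := exists_fr n1 n2 hz
    refine ⟨f, f1, fun v i => ?_, fun I => ?_⟩
    · rw [NL, mE_apply, e, ← f2]
    · rw [WN, e, f3, Complex.ofReal_re]

/-- **the Euler class of `N ⊗ L`** -/
theorem ec_NL (hY : Sub d Y) (hYc : IsPreconnected Y) (hN : PField Y r N)
    (hs : ∀ x ∈ Y, ∀ u v, ⟪N x u, v⟫ = ⟪u, N x v⟫)
    (hL : LineF Y L) (hι : Fintype.card ι = r) :
    ∃ ε : ℂ, (ε = 1 ∨ ε = -1) ∧ ec (OR.of (or_NL (ι := ι) hN hs hL hι))
      = (ε * ((2 : ℂ) ^ r * (r.factorial) * Complex.I ^ r))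
        • ∑ i ∈ Finset.range (r + 1), cc hY (idF_of_pfield hN) i * sc hY hL.idF 1 ^ (r - i) := by
  subst hι
  have hNt : ∀ x ∈ Y, (Nr N x)ᵀ = Nr N x ∧ Nr N x * Nr N x = Nr N x := fun x hx => by
    obtain ⟨n, n1, n2⟩ := exists_n (ι := ι) hN hs rfl hx
    refine ⟨by rw [← n2, Matrix.transpose_mul, Matrix.transpose_transpose], ?_⟩
    rw [← n2, Matrix.mul_assoc, ← Matrix.mul_assoc nᵀ, n1, Matrix.one_mul]
  let J : E → Matrix (p × (κ × Fin 2)) (p × (κ × Fin 2)) ℂ := fun x => mC (Nr N x ⊗ₖ JLr (L x))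
  have hJ : ∀ x ∈ Y, SM ∞ J x := fun x hx => SM_J (hN.smooth x hx) (hL.sm x hx)
  have hr : ∀ x ∈ Y, RJ (mtx (NL N L x)) (J x) := fun x hx => by
    obtain ⟨z, hz, e⟩ := hL.ex x hx
    rw [mtx_NL]
    change RJ _ (mC (Nr N x ⊗ₖ JLr (L x)))
    rw [e]
    exact ((rl_lin hz).kron (hNt x hx).1 (hNt x hx).2).rj
  have hO := or_NL (ι := ι) hN hs hL rfl
  have hQ : IdF Y (fun x => qJ (mtx (NL N L x)) (J x)) :=
    ⟨fun x hx => SM.qJ ((OR.of hO).sP x hx) (hJ x hx), fun x hx => (hr x hx).qJ_idem⟩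
  obtain ⟨ε, hε, he⟩ := ec_complex hY hYc (OR.of hO) hJ hr hQ
  refine ⟨ε, hε, ?_⟩
  have hP := idF_of_pfield hN
  have hiso : cs hY hQ = cs hY (hP.kron hL.idF) := by
    refine cs_iso _ hQ (hP.kron hL.idF) (S := fun x => mtx (N x) ⊗ₖ SLm (L x)) (fun x hx => ?_)
      fun x hx => ⟨mtx (N x) ⊗ₖ TLm (L x), ?_⟩
    · intro i j
      exact (hP.smooth x hx i.1 j.1).mul (contDiffAt_const.mul
        ((hL.sm x hx i.2 j.2.1).mul contDiffAt_const))
    · have h1 : mtx (N x) * mtx (N x) = mtx (N x) := hP.idem x hx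
      have h2 := pIso_kron h1 (pIso_real (hL.idF.idem x hx))
      rw [← qJ_kron, ← mC_Nr, ← mC_kron, ← mC_kron, ← mtx_NL] at h2
      rw [mC_Nr] at h2
      exact h2
  have hcc : cc hY hQ (Fintype.card ι) = cc hY (hP.kron hL.idF) (Fintype.card ι) := by
    rw [← coeff_cs, ← coeff_cs, hiso]
  rw [he, hcc, cc_kron_line _ hP hL.idF (rank_of_pfield hN) hL.rank]

end glob

end Crest.Agent.R208.EP
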