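import Crest.Agent.R208.EP2

/-! Row 208, block Q, (Q-p3) (helper607).  EP3: the Euler form of `N ⊗ L`, real form. -/

set_option autoImplicit false
set_option linter.unusedSectionVars false
set_option linter.unusedVariables false
set_option linter.unusedSimpArgs false

open Set Filter Topology Module MeasureTheory Matrix
open scoped ContDiff RealInnerProductSpace ComplexConjugate Kronecker
open Crest.Agent.R208.F Crest.Agent.R208.FI Crest.Agent.R208.CW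
open Crest.Agent.R208.CM
open Crest.Agent.R208.T
open Crest.Agent.R208.EW

noncomputable section

namespace Crest.Agent.R208.EP

section alg
variable {A : Type*} [CommRing A]

theorem sum_even_part (f : ℕ → A) (h : ∀ i, Odd i → f i = 0) (r : ℕ) :
    ∑ i ∈ Finset.range (r + 1), f i = ∑ j ∈ Finset.range (r / 2 + 1), f (2 * j) := by
  have h1 : ∑ j ∈ Finset.range (r / 2 + 1), f (2 * j)
      = ∑ i ∈ (Finset.range (r / 2 + 1)).image (fun j => 2 * j), f i := by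
    rw [Finset.sum_image]
    intro a _ b _ hab
    exact Nat.eq_of_mul_eq_mul_left two_pos hab
  rw [h1]
  symm
  refine Finset.sum_subset (fun i hi => ?_) fun i hi hni => ?_
  · rw [Finset.mem_image] at hi
    obtain ⟨j, hj, rfl⟩ := hi
    rw [Finset.mem_range] at hj ⊢
    omega
  · refine h i ?_
    rw [← Nat.not_even_iff_odd]
    rintro ⟨j, rfl⟩
    refine hni (Finset.mem_image.2 ⟨j, ?_, by ring⟩)
    rw [Finset.mem_range] at hi ⊢
    omega

variable [Algebra ℂ A]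

theorem scal_id {σ : ℂ} {w : ℝ} {r j : ℕ} (hσ : σ = 1 ∨ σ = -1) (hj : 2 * j ≤ r) :
    Complex.I ^ r * ((w : ℂ) * (σ * Complex.I)) ^ (r - 2 * j)
      = (-σ) ^ r * (((-1) ^ j * w ^ (r - 2 * j) : ℝ) : ℂ) := by
  obtain ⟨k, rfl⟩ := Nat.exists_eq_add_of_le hj
  have e : 2 * j + k - 2 * j = k := by omega
  have hs2 : σ ^ 2 = 1 := by rcases hσ with rfl | rfl <;> norm_num
  rw [e]
  push_cast
  have e1 : Complex.I ^ (2 * j + k) * ((w : ℂ) * (σ * Complex.I)) ^ k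
      = (Complex.I ^ 2) ^ j * (Complex.I ^ 2) ^ k * σ ^ k * (w : ℂ) ^ k := by ring
  have e2 : (-σ) ^ (2 * j + k) = (σ ^ 2) ^ j * ((-1) ^ k * σ ^ k) := by
    have : -σ = (-1) * σ := by ring
    rw [this, mul_pow, pow_add, pow_mul, pow_add, pow_mul]
    norm_num
    ring
  rw [e1, e2, hs2, Complex.I_sq, one_pow]
  ring

theorem sum_gen {c : ℕ → A} (hodd : ∀ j, Odd j → c j = 0) {E z : A} {σ : ℂ} {w : ℝ}
    (hσ : σ = 1 ∨ σ = -1) (hz : z = (w : ℂ) • ((σ * Complex.I) • E)) (r : ℕ) :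
    (Complex.I ^ r) • ∑ i ∈ Finset.range (r + 1), c i * z ^ (r - i)
      = ((-σ) ^ r) • ∑ j ∈ Finset.range (r / 2 + 1),
        (((-1) ^ j * w ^ (r - 2 * j) : ℝ) : ℂ) • (c (2 * j) * E ^ (r - 2 * j)) := by
  rw [sum_even_part (fun i => c i * z ^ (r - i)) (fun i hi => by
    rw [hodd i hi, zero_mul]), Finset.smul_sum, Finset.smul_sum]
  refine Finset.sum_congr rfl fun j hj => ?_
  rw [Finset.mem_range] at hj
  have hz' : z = ((w : ℂ) * (σ * Complex.I)) • E := by rw [hz, smul_smul]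
  rw [hz', smul_pow, mul_smul_comm, smul_smul, smul_smul, scal_id hσ (by omega)]

end alg

section glob
variable {E : Type} [NormedAddCommGroup E] [NormedSpace ℝ E] [FiniteDimensional ℝ E]
  {p κ ι : Type} [Fintype p] [DecidableEq p] [Fintype κ] [DecidableEq κ]
  [Fintype ι] [DecidableEq ι] {Y : Set E} {N : E → EuclideanSpace ℝ p →L[ℝ] EuclideanSpace ℝ p}
  {L : E → Matrix κ κ ℂ} {F : E → Ext E} {r d : ℕ} {w : ℝ}

/-- the real form of the top Chern class of `N_ℂ ⊗ L^w` -/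
def topr (r : ℕ) (w : ℝ) (N : E → EuclideanSpace ℝ p →L[ℝ] EuclideanSpace ℝ p)
    (F : E → Ext E) : E → Ext E :=
  ∑ j ∈ Finset.range (r / 2 + 1),
    ((-1) ^ j * w ^ (r - 2 * j)) • (cR (2 * j) N * F ^ (r - 2 * j))

theorem ec_cR (hY : Sub d Y) (hN : PField Y r N) (j : ℕ) : EC Y (cR j N) :=
  ec_cfr hY (idF_of_pfield hN) j

theorem ec_topr {s : ℕ} (hY : Sub d Y) (hN : PField Y s N) (hE : EC Y F) :
    EC Y (topr r w N F) :=
  EC.sum fun j _ => ((ec_cR hY hN (2 * j)).mul (hE.pow (r - 2 * j))).smul _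

theorem rcl_topr {s : ℕ} (hY : Sub d Y) (hN : PField Y s N) (hE : EC Y F) :
    rcl (ec_topr (r := r) (w := w) hY hN hE) = ∑ j ∈ Finset.range (r / 2 + 1),
      (((-1) ^ j * w ^ (r - 2 * j) : ℝ) : ℂ)
        • (cc hY (idF_of_pfield hN) (2 * j) * rcl hE ^ (r - 2 * j)) := by
  have h1 := rcl_sum (Finset.range (r / 2 + 1))
    (w := fun j => ((-1) ^ j * w ^ (r - 2 * j)) • (cR (2 * j) N * F ^ (r - 2 * j)))
    (fun j => ((ec_cR hY hN (2 * j)).mul (hE.pow (r - 2 * j))).smul _)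
  refine Eq.trans ?_ (h1.trans (Finset.sum_congr rfl fun j _ => ?_))
  · rfl
  · rw [rcl_smul _ ((ec_cR hY hN (2 * j)).mul (hE.pow (r - 2 * j))),
      rcl_mul (ec_cR hY hN (2 * j)) (hE.pow (r - 2 * j)), rcl_pow hE]
    congr 2
    exact rcl_cfr hY (idF_of_pfield hN) (fun y i j => Complex.ofReal_im _) (2 * j)

/-- **the Euler form of `N ⊗ L`** -/
theorem coh_NL (hY : Sub d Y) (hYc : IsPreconnected Y) (hN : PField Y r N)
    (hs : ∀ x ∈ Y, ∀ u v, ⟪N x u, v⟫ = ⟪u, N x v⟫)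
    (hL : LineF Y L) (hι : Fintype.card ι = r) (hE : EC Y F) {σ : ℂ} (hσ : σ = 1 ∨ σ = -1)
    (hz : sc hY hL.idF 1 = (w : ℂ) • ((σ * Complex.I) • rcl hE)) :
    ∃ ε : ℝ, (ε = 1 ∨ ε = -1) ∧
      Coh Y (eR (NL N L) (WN ι N L)) ((ε * (2 ^ r * (Nat.factorial r))) • topr r w N F) := by
  obtain ⟨ε, hε, he⟩ := ec_NL (ι := ι) hY hYc hN hs hL hι
  have hO := or_NL (ι := ι) hN hs hL hι
  have ht := ec_topr (r := r) (w := w) hY hN hE
  have hI := idF_of_pfield hN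
  have hsum := sum_gen (c := fun i => cc hY hI i)
    (fun j hj => cc_real_odd hY hI (fun x hx => conj_mtx _) hj) (E := rcl hE) (σ := σ) (w := w)
    (z := sc hY hL.idF 1) hσ hz r
  rw [← rcl_topr hY hN hE] at hsum
  have hfin : rcl (orEC hO) = ((ε * (-σ) ^ r) * (2 ^ r * (Nat.factorial r) : ℂ)) • rcl ht := by
    rw [orRcl hO, he]
    have e0 : (ε * ((2 : ℂ) ^ r * ((Nat.factorial r : ℕ) : ℂ) * Complex.I ^ r))
        • ∑ i ∈ Finset.range (r + 1), cc hY hI i * sc hY hL.idF 1 ^ (r - i)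
        = (ε * ((2 : ℂ) ^ r * ((Nat.factorial r : ℕ) : ℂ))) • ((Complex.I ^ r)
          • ∑ i ∈ Finset.range (r + 1), cc hY hI i * sc hY hL.idF 1 ^ (r - i)) := by
      rw [smul_smul]; congr 1; ring
    rw [e0, hsum, smul_smul]
    congr 1
    ring
  have hre : ∃ δ : ℝ, (δ = 1 ∨ δ = -1) ∧ ε * (-σ) ^ r = (δ : ℂ) := by
    have h1 : ∃ τ : ℝ, (τ = 1 ∨ τ = -1) ∧ (-σ) ^ r = (τ : ℂ) := by
      rcases hσ with rfl | rfl
      · rcases Nat.even_or_odd r with hr | hr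
        · exact ⟨1, Or.inl rfl, by rw [hr.neg_one_pow]; norm_num⟩
        · exact ⟨-1, Or.inr rfl, by rw [hr.neg_one_pow]; norm_num⟩
      · exact ⟨1, Or.inl rfl, by norm_num⟩
    obtain ⟨τ, hτ, e1⟩ := h1
    rw [e1]
    rcases hε with rfl | rfl
    · exact ⟨τ, hτ, by rw [one_mul]⟩
    · refine ⟨-τ, ?_, by push_cast; ring⟩
      rcases hτ with rfl | rfl
      · exact Or.inr rfl
      · exact Or.inl (by norm_num)
  obtain ⟨δ, hδ, hδ'⟩ := hre
  refine ⟨δ, hδ, ?_⟩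
  have hlast : rcl (orEC hO) = rcl (ht.smul (δ * (2 ^ r * (Nat.factorial r)))) := by
    rw [hfin, rcl_smul _ ht, hδ']
    congr 1
    push_cast
    ring
  exact (rcl_eq_iff _ _).1 hlast

end glob

section quo
variable {E : Type} [NormedAddCommGroup E] [NormedSpace ℝ E] [FiniteDimensional ℝ E]
  {p ι : Type} [Fintype p] [DecidableEq p] [Fintype ι] [DecidableEq ι]
  {X : Set E} {φ : ℝ → E → E} {m d r : ℕ} {g : E → Fin m → ℂ} {al : E → Ext E}
  {Fc : MM m → Ext (MM m)} {N : MM m → EuclideanSpace ℝ p →L[ℝ] EuclideanSpace ℝ p}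

theorem lineF_Lt (hg : Emb X φ g) : LineF (Quo X g) (Lt (m := m)) :=
  ⟨fun y _ => SM_Lt y, by
    rintro _ ⟨x, hx, rfl⟩
    exact ⟨g x, sum_g hg hx, rfl⟩⟩

/-- over the quotient of a free circle action, weight `1` -/
theorem coh_NLt (hg : Emb X φ g) (hC : Cir X φ) (hX : Clo (d + 1) X) (hXc : IsPreconnected X)
    (hN : PField (Quo X g) r N) (hs : ∀ y ∈ Quo X g, ∀ u v, ⟪N y u, v⟫ = ⟪u, N y v⟫)
    (hι : Fintype.card ι = r) (ha : Conn X φ al) (hF : Curv X g al Fc) :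
    ∃ ε : ℝ, (ε = 1 ∨ ε = -1) ∧ Coh (Quo X g) (eR (NL N (Lt (m := m))) (WN ι N (Lt (m := m))))
      ((ε * (2 ^ r * (Nat.factorial r))) • topr r 1 N Fc) := by
  have hE : EC (Quo X g) Fc := curvEC hF
  obtain ⟨σ, hσ, h1⟩ := sc_Lt hg hC hX hXc ha hF hE
  have hXq : IsPreconnected (Quo X g) := hXc.image _ fun x hx =>
    (hg.contDiffAt_jj hx).continuousAt.continuousWithinAt
  exact coh_NL (hg.sub_Quo hC hX) hXq hN hs (lineF_Lt hg) hι hE hσ
    (by rw [Complex.ofReal_one, one_smul]; exact h1)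

theorem lineF_Lt2 (hg : Emb X φ g) : LineF (Quo X g) (Lt2 (m := m)) :=
  ⟨(idF_Lt2 hg).smooth, by
    rintro _ ⟨x, hx, rfl⟩
    exact ⟨g2 g x, sum_g2 hg hx, Lt2_jj x⟩⟩

/-- weight `2` -/
theorem coh_NLt2 (hg : Emb X φ g) (hC : Cir X φ) (hX : Clo (d + 1) X) (hXc : IsPreconnected X)
    (hN : PField (Quo X g) r N) (hs : ∀ y ∈ Quo X g, ∀ u v, ⟪N y u, v⟫ = ⟪u, N y v⟫)
    (hι : Fintype.card ι = r) (ha : Conn X φ al) (hF : Curv X g al Fc) :
    ∃ ε : ℝ, (ε = 1 ∨ ε = -1) ∧ Coh (Quo X g) (eR (NL N (Lt2 (m := m))) (WN ι N (Lt2 (m := m))))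
      ((ε * (2 ^ r * (Nat.factorial r))) • topr r 2 N Fc) := by
  have hE : EC (Quo X g) Fc := curvEC hF
  obtain ⟨σ, hσ, h1⟩ := sc_Lt hg hC hX hXc ha hF hE
  have hXq : IsPreconnected (Quo X g) := hXc.image _ fun x hx =>
    (hg.contDiffAt_jj hx).continuousAt.continuousWithinAt
  exact coh_NL (hg.sub_Quo hC hX) hXq hN hs (lineF_Lt2 hg) hι hE hσ
    (by rw [sc_Lt2 hg hC hX, h1]; norm_num)

end quo

end Crest.Agent.R208.EP
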