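import Crest.Agent.R208.L5

/-!
R208, block G4b, part 6 (helper971): polar coordinates, the Liouville measure `nu` on the unit tangent
bundle, its disintegration and its invariance under the geodesic flow.
-/

set_option autoImplicit false
set_option linter.unusedSectionVars false

open MeasureTheory Measure Set Filter Topology Module Metric
open scoped ContDiff RealInnerProductSpace ENNReal
open Crest.GeometryTopology.Submanifold
open Crest.Agent.R241.DDefs
open Crest.Agent.R241.D2
open Crest.Agent.R241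
open Crest.Agent.R241.AF (jac jac_nonneg jac_sq_gram finrank_Euc)

noncomputable section

namespace Crest.Agent.R208.L

section polar

variable {V : Type*} [NormedAddCommGroup V] [InnerProductSpace ℝ V] [FiniteDimensional ℝ V]
  [MeasurableSpace V] [BorelSpace V]

/-- **polar coordinates** -/
theorem lintegral_polar {F : V → ℝ≥0∞} (hF : Measurable F) (hV : Nontrivial V) :
    ∫⁻ v, F v = ∫⁻ u, ∫⁻ r in Ioi (0 : ℝ), ENNReal.ofReal (r ^ (finrank ℝ V - 1)) *
      F (r • (u : V)) ∂volume ∂(volume : Measure V).toSphere := by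
  have hm : Measurable fun x : sphere (0 : V) 1 × Ioi (0 : ℝ) => F (x.2.1 • x.1.1) := by
    refine hF.comp ?_
    exact (measurable_subtype_coe.comp measurable_snd).smul
      (measurable_subtype_coe.comp measurable_fst)
  calc ∫⁻ v, F v = ∫⁻ v in ({0}ᶜ : Set V), F v := by rw [restrict_compl_singleton]
    _ = ∫⁻ v : ({0}ᶜ : Set V), F v ∂(Measure.comap (↑) (volume : Measure V)) :=
      (lintegral_subtype_comap (measurableSet_singleton _).compl F).symm
    _ = ∫⁻ v : ({0}ᶜ : Set V), (fun x : sphere (0 : V) 1 × Ioi (0 : ℝ) => F (x.2.1 • x.1.1))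
          (homeomorphUnitSphereProd V v) ∂(Measure.comap (↑) (volume : Measure V)) := by
      refine lintegral_congr fun v => ?_
      have h1 : (((homeomorphUnitSphereProd V).symm (homeomorphUnitSphereProd V v) :
          ({0}ᶜ : Set V)) : V) = v := by rw [Homeomorph.symm_apply_apply]
      have h2 : ∀ x : sphere (0 : V) 1 × Ioi (0 : ℝ),
          (((homeomorphUnitSphereProd V).symm x : ({0}ᶜ : Set V)) : V) = x.2.1 • x.1.1 :=
        fun x => by simp
      simp only
      rw [← h2, h1]
    _ = ∫⁻ x, F (x.2.1 • x.1.1) ∂((volume : Measure V).toSphere.prod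
          (volumeIoiPow (finrank ℝ V - 1))) :=
      (volume : Measure V).measurePreserving_homeomorphUnitSphereProd.lintegral_comp hm
    _ = ∫⁻ u, ∫⁻ r : Ioi (0 : ℝ), F (r.1 • (u : V)) ∂(volumeIoiPow (finrank ℝ V - 1))
          ∂(volume : Measure V).toSphere := lintegral_prod _ hm.aemeasurable
    _ = _ := by
      refine lintegral_congr fun u => ?_
      have hu : Measurable fun r : Ioi (0 : ℝ) => F (r.1 • (u : V)) :=
        hF.comp (measurable_subtype_coe.smul_const _)
      have hp : Measurable fun r : Ioi (0 : ℝ) => ENNReal.ofReal (r.1 ^ (finrank ℝ V - 1)) :=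
        ENNReal.measurable_ofReal.comp (measurable_subtype_coe.pow_const _)
      rw [volumeIoiPow, lintegral_withDensity_eq_lintegral_mul _ hp hu]
      exact lintegral_subtype_comap measurableSet_Ioi
        (fun r : ℝ => ENNReal.ofReal (r ^ (finrank ℝ V - 1)) * F (r • (u : V)))

/-- normalisation of vectors -/
def nrm (v : V) : V := ‖v‖⁻¹ • v

lemma measurable_nrm : Measurable (nrm : V → V) := by
  unfold nrm
  exact measurable_norm.inv.smul measurable_id

lemma nrm_smul {r : ℝ} (hr : 0 < r) {u : V} (hu : ‖u‖ = 1) : nrm (r • u) = u := by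
  unfold nrm
  rw [norm_smul, hu, mul_one, Real.norm_of_nonneg hr.le, smul_smul, inv_mul_cancel₀ hr.ne', one_smul]

lemma norm_nrm {v : V} (hv : v ≠ 0) : ‖nrm v‖ = 1 := by
  unfold nrm
  rw [norm_smul, norm_inv, norm_norm, inv_mul_cancel₀ (norm_ne_zero_iff.2 hv)]

/-- directions of a Gaussian vector are uniformly distributed on the sphere -/
theorem map_nrm_gam (hV : Nontrivial V) :
    (volume : Measure V).toSphere univ • Measure.map nrm (gam V) =
      Measure.map (↑) (volume : Measure V).toSphere := by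
  set K : ℝ≥0∞ := ∫⁻ r in Ioi (0 : ℝ), ENNReal.ofReal (r ^ (finrank ℝ V - 1)) *
    ENNReal.ofReal (Real.exp (-Real.pi * r ^ 2)) with hK
  have h1 : ∀ B : Set V, MeasurableSet B →
      Measure.map nrm (gam V) B = Measure.map (↑) (volume : Measure V).toSphere B * K := by
    intro B hB
    have hBi : Measurable (B.indicator 1 : V → ℝ≥0∞) := measurable_one.indicator hB
    have hBu : Measurable fun u : sphere (0 : V) 1 => (B.indicator 1 (u : V) : ℝ≥0∞) :=
      hBi.comp measurable_subtype_coe
    have hm : Measurable fun v : V => gd v * (B.indicator 1 (nrm v) : ℝ≥0∞) :=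
      (measurable_gd V).mul (hBi.comp measurable_nrm)
    have e1 : Measure.map nrm (gam V) B =
        ∫⁻ v : V, gd v * (B.indicator 1 (nrm v) : ℝ≥0∞) := by
      rw [← lintegral_indicator_one hB, lintegral_map hBi measurable_nrm]
      exact lintegral_withDensity_eq_lintegral_mul _ (measurable_gd V) (hBi.comp measurable_nrm)
    have e2 : Measure.map (↑) (volume : Measure V).toSphere B =
        ∫⁻ u : sphere (0 : V) 1, (B.indicator 1 (u : V) : ℝ≥0∞)
          ∂(volume : Measure V).toSphere := by
      rw [← lintegral_indicator_one hB, lintegral_map hBi measurable_subtype_coe]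
    have e3 : (∫⁻ u : sphere (0 : V) 1, (B.indicator 1 (u : V) : ℝ≥0∞) * K
          ∂(volume : Measure V).toSphere) = (∫⁻ u : sphere (0 : V) 1,
          (B.indicator 1 (u : V) : ℝ≥0∞) ∂(volume : Measure V).toSphere) * K :=
      lintegral_mul_const K hBu
    rw [e1, e2, lintegral_polar hm hV, ← e3]
    refine lintegral_congr fun u => ?_
    have hu : ‖(u : V)‖ = 1 := mem_sphere_zero_iff_norm.1 u.2
    rw [hK, ← lintegral_const_mul' _ _ (by
      by_cases h : (u : V) ∈ B
      · rw [indicator_of_mem h]; exact ENNReal.one_ne_top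
      · rw [indicator_of_notMem h]; exact ENNReal.zero_ne_top)]
    refine setLIntegral_congr_fun measurableSet_Ioi fun r hr => ?_
    have hr' : (0 : ℝ) < r := hr
    rw [nrm_smul hr' hu, gd, norm_smul, hu, mul_one, Real.norm_of_nonneg hr'.le]
    ring
  have h2 : (volume : Measure V).toSphere univ * K = 1 := by
    have h3 := h1 univ MeasurableSet.univ
    rw [map_apply measurable_nrm MeasurableSet.univ, preimage_univ, measure_univ,
      map_apply measurable_subtype_coe MeasurableSet.univ, preimage_univ] at h3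
    exact h3.symm
  ext B hB
  rw [Measure.smul_apply, smul_eq_mul, h1 B hB, mul_comm, mul_assoc, mul_comm K, h2, mul_one]

end polar

variable {n N : ℕ} {κ : ℝ} {S : Set (Euc N)} (G : Geo n N κ S)

/-- the area of the unit sphere of `ℝ^n` -/
def cst (n : ℕ) : ℝ≥0∞ := (volume : Measure (Euc n)).toSphere univ

lemma cst_ne_top (n : ℕ) : cst n ≠ ⊤ := measure_ne_top _ _

lemma nontrivial_Euc (hn : 1 ≤ n) : Nontrivial (Euc n) := by
  have : Nonempty (Fin n) := ⟨⟨0, hn⟩⟩
  infer_instance

lemma cst_ne_zero (hn : 1 ≤ n) : cst n ≠ 0 := by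
  have := nontrivial_Euc hn
  unfold cst
  rw [Ne, Measure.measure_univ_eq_zero]
  exact toSphere_ne_zero _

/-- the measure on the unit sphere of the tangent space `T_p` (total mass `cst n`), as a measure on
`ℝ^N` -/
def nuF (p : Euc N) : Measure (Euc N) :=
  cst n • Measure.map (fun z => nrm (G.P p z)) (gam (Euc N))

/-- **the Liouville measure** on the unit tangent bundle, as a measure on `ℝ^N × ℝ^N` -/
def nu : Measure (Euc N × Euc N) :=
  cst n • Measure.map (fun z => (z.1, nrm (G.P z.1 z.2))) ((volS n N S).prod (gam (Euc N)))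

/-- the unit tangent bundle -/
def US : Set (Euc N × Euc N) := {q | q ∈ TS G ∧ ‖q.2‖ = 1}

lemma isClosed_US : IsClosed (US G) :=
  (isClosed_TS G).inter (isClosed_eq continuous_snd.norm continuous_const)

lemma US_subset_TS0 : US G ⊆ TS0 G := fun q hq =>
  ⟨hq.1, fun h => by have := hq.2; rw [h, norm_zero] at this; exact zero_ne_one this⟩

lemma measurable_nP : Measurable fun z : Euc N × Euc N => nrm (G.P z.1 z.2) :=
  measurable_nrm.comp (measurable_snd.comp (measurable_prj G))

lemma measurable_nP' (p : Euc N) : Measurable fun z : Euc N => nrm (G.P p z) :=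
  measurable_nrm.comp (G.P p).continuous.measurable

instance (p : Euc N) : IsFiniteMeasure (nuF G p) := by
  unfold nuF
  have : IsFiniteMeasure (Measure.map (fun z => nrm (G.P p z)) (gam (Euc N))) :=
    isFiniteMeasure_map _ _
  exact Measure.smul_finite _ (cst_ne_top n)

lemma nuF_univ (p : Euc N) : nuF G p univ = cst n := by
  unfold nuF
  rw [Measure.smul_apply, map_apply (measurable_nP' G p) MeasurableSet.univ, preimage_univ,
    measure_univ, smul_eq_mul, mul_one]

lemma lintegral_nuF (p : Euc N) {F : Euc N → ℝ≥0∞} (hF : Measurable F) :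
    ∫⁻ u, F u ∂(nuF G p) = cst n * ∫⁻ z, F (nrm (G.P p z)) ∂(gam (Euc N)) := by
  unfold nuF
  rw [lintegral_smul_measure, lintegral_map hF (measurable_nP' G p), smul_eq_mul]

/-- **disintegration of the Liouville measure** -/
theorem lintegral_nu {F : Euc N × Euc N → ℝ≥0∞} (hF : Measurable F) :
    ∫⁻ q, F q ∂(nu G) = ∫⁻ p in S, ∫⁻ u, F (p, u) ∂(nuF G p) ∂μHE[n] := by
  have h1 : ∀ p, ∫⁻ u, F (p, u) ∂(nuF G p) =
      cst n * ∫⁻ z, F (p, nrm (G.P p z)) ∂(gam (Euc N)) := fun p =>
    lintegral_nuF G p (hF.comp measurable_prodMk_left)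
  simp only [h1]
  rw [lintegral_const_mul' _ _ (cst_ne_top n)]
  unfold nu
  rw [lintegral_smul_measure, lintegral_map hF (measurable_fst.prodMk (measurable_nP G)),
    smul_eq_mul]
  congr 1
  exact lintegral_prod _ (hF.comp (measurable_fst.prodMk (measurable_nP G))).aemeasurable

/-- the Liouville measure through an isometric frame -/
theorem nuF_eq (hn : 1 ≤ n) {p : Euc N} (hp : p ∈ S) (A : Euc n →L[ℝ] Euc N)
    (hA : ∀ v w, ⟪A v, A w⟫ = ⟪v, w⟫) (hAT : range A = (G.T p : Set (Euc N))) :
    nuF G p = Measure.map (fun u : sphere (0 : Euc n) 1 => A u)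
      (volume : Measure (Euc n)).toSphere := by
  have h1 := map_starProjection_gam (G.T p) A hAT A hA hAT
  have hnA : ∀ y, ‖A y‖ = ‖y‖ := by
    intro y
    have h3 : ‖A y‖ ^ 2 = ‖y‖ ^ 2 := by
      rw [← real_inner_self_eq_norm_sq, ← real_inner_self_eq_norm_sq, hA]
    exact (sq_eq_sq₀ (norm_nonneg _) (norm_nonneg _)).1 h3
  have h4 : (volume : Measure (Euc n)).withDensity (fun y =>
        ENNReal.ofReal (jac A) * gd (A y)) = gam (Euc n) := by
    unfold gam
    congr 1
    funext y
    unfold gd
    rw [jac_isometry A hA, ENNReal.ofReal_one, one_mul, hnA]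
  rw [h4, ← G.P_eq p hp] at h1
  have h5 := map_nrm_gam (V := Euc n) (nontrivial_Euc hn)
  unfold nuF
  have h6 : Measure.map (fun z => nrm (G.P p z)) (gam (Euc N)) =
      Measure.map nrm (Measure.map (G.P p) (gam (Euc N))) :=
    (Measure.map_map measurable_nrm (G.P p).continuous.measurable).symm
  have h7 : Measure.map nrm (Measure.map A (gam (Euc n))) =
      Measure.map A (Measure.map nrm (gam (Euc n))) := by
    rw [Measure.map_map measurable_nrm A.continuous.measurable,
      Measure.map_map A.continuous.measurable measurable_nrm]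
    congr 1
    funext y
    simp only [Function.comp_apply, nrm, map_smul, hnA]
  rw [h6, h1, h7, ← Measure.map_smul]
  have h8 : cst n • Measure.map nrm (gam (Euc n)) = _ := h5
  rw [h8, Measure.map_map A.continuous.measurable measurable_subtype_coe]
  rfl

/-! ### relation with the Gaussian Liouville measure -/

/-- normalisation of tangent vectors -/
def dir (q : Euc N × Euc N) : Euc N × Euc N := (q.1, nrm q.2)

lemma measurable_dir : Measurable (dir : Euc N × Euc N → Euc N × Euc N) :=
  measurable_fst.prodMk (measurable_nrm.comp measurable_snd)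

lemma nu_eq : nu G = cst n • Measure.map dir (Lg G) := by
  unfold nu Lg
  rw [Measure.map_map measurable_dir (measurable_prj G)]
  rfl

variable {G}

lemma dir_mem {q : Euc N × Euc N} (hq : q ∈ TS0 G) : dir q ∈ US G :=
  ⟨⟨hq.1.1, (G.T q.1).smul_mem _ hq.1.2⟩, norm_nrm hq.2⟩

lemma fl_dir {q : Euc N × Euc N} (hq : q ∈ TS0 G) (t : ℝ) :
    fl G (dir q, t) = dir (ufl G t q) := by
  have hr : ‖q.2‖ ≠ 0 := norm_ne_zero_iff.2 hq.2
  have h1 := fl_scale G (x := q.1) (v := nrm q.2) (dir_mem hq).1 ‖q.2‖ (t / ‖q.2‖)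
  have h2 : ‖q.2‖ • nrm q.2 = q.2 := by
    unfold nrm
    rw [smul_smul, mul_inv_cancel₀ hr, one_smul]
  rw [h2, mul_div_cancel₀ t hr] at h1
  have h3 : ufl G t q = ((fl G (dir q, t)).1, ‖q.2‖ • (fl G (dir q, t)).2) := h1
  have h4 : ‖(fl G (dir q, t)).2‖ = 1 := by
    rw [norm_fl G (dir_mem hq).1 t]
    exact (dir_mem hq).2
  have h5 : dir (ufl G t q) =
      ((fl G (dir q, t)).1, nrm (‖q.2‖ • (fl G (dir q, t)).2)) := by rw [h3]; rfl
  rw [h5, nrm_smul (lt_of_le_of_ne (norm_nonneg _) hr.symm) h4]

variable (G)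

/-- `nu` is carried by the unit tangent bundle -/
theorem nu_compl_US (hn : 1 ≤ n) : nu G (US G)ᶜ = 0 := by
  rw [nu_eq, Measure.smul_apply, map_apply measurable_dir (isClosed_US G).measurableSet.compl]
  have h1 : Lg G (dir ⁻¹' (US G)ᶜ) = 0 := by
    refine measure_mono_null ?_ (Lg_compl_TS0 hn G)
    intro q hq hq'
    exact hq (dir_mem hq')
  rw [h1, smul_zero]

lemma ae_nu (hn : 1 ≤ n) : ∀ᵐ q ∂(nu G), q ∈ US G := by
  rw [ae_iff]
  exact nu_compl_US G hn

/-- **the geodesic flow preserves the Liouville measure** -/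
theorem map_fl_nu (hn : 1 ≤ n) (hS : IsSubmanifold n N S) (t : ℝ) :
    Measure.map (fun q => fl G (q, t)) (nu G) = nu G := by
  rw [nu_eq, Measure.map_smul, Measure.map_map (measurable_fl_left G t) measurable_dir,
    ← Lg_restrict_TS0 hn G]
  congr 1
  have h1 : Measure.map ((fun q => fl G (q, t)) ∘ dir) ((Lg G).restrict (TS0 G)) =
      Measure.map (dir ∘ ufl G t) ((Lg G).restrict (TS0 G)) := by
    apply Measure.map_congr
    filter_upwards [ae_restrict_mem (measurableSet_TS0 G)] with q hq
    exact fl_dir hq t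
  rw [h1, ← Measure.map_map measurable_dir (measurable_ufl G t), map_ufl_Lg hS G t]

theorem measurePreserving_fl (hn : 1 ≤ n) (hS : IsSubmanifold n N S) (t : ℝ) :
    MeasurePreserving (fun q => fl G (q, t)) (nu G) (nu G) :=
  ⟨measurable_fl_left G t, map_fl_nu G hn hS t⟩

/-! ### finiteness -/

/-- compact submanifolds have finite volume -/
theorem muHE_lt_top (hS : IsSubmanifold n N S) (hc : IsCompact S) : μHE[n] S < ⊤ := by
  apply hc.measure_lt_top_of_nhdsWithin
  intro p hp
  obtain ⟨f, V, hf⟩ := hS p hp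
  obtain ⟨r, hr, hrV⟩ := Metric.isOpen_iff.1 hf.isOpen 0 hf.zero_mem
  have hB : closedBall (0 : Euc n) (r / 2) ⊆ V :=
    (closedBall_subset_ball (by linarith)).trans hrV
  obtain ⟨U, hU, hUS⟩ := hf.image_open (ball 0 (r / 2)) (ball_subset_closedBall.trans hB)
    isOpen_ball
  refine ⟨S ∩ U, ?_, ?_⟩
  · refine inter_mem self_mem_nhdsWithin (mem_nhdsWithin_of_mem_nhds (hU.mem_nhds ?_))
    have h1 : p ∈ f '' ball 0 (r / 2) := ⟨0, mem_ball_self (by linarith), hf.map_zero⟩
    rw [hUS] at h1
    exact h1.2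
  · rw [← hUS]
    refine lt_of_le_of_lt (measure_mono (image_mono ball_subset_closedBall)) ?_
    have hder : ∀ x ∈ closedBall (0 : Euc n) (r / 2),
        HasFDerivWithinAt f (fderiv ℝ f x) (closedBall (0 : Euc n) (r / 2)) x := fun x hx =>
      ((hf.contDiffOn.contDiffAt (hf.isOpen.mem_nhds (hB hx))).differentiableAt
        (by simp)).hasFDerivAt.hasFDerivWithinAt
    have h1 := AF.muHE_image_le_lintegral (f := f) measurableSet_closedBall hder
    rw [finrank_Euc] at h1
    refine lt_of_le_of_lt h1 ?_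
    have hcont : ContinuousOn (fun x => jac (fderiv ℝ f x)) (closedBall (0 : Euc n) (r / 2)) := by
      have h2 : ContinuousOn (fderiv ℝ f) V :=
        hf.contDiffOn.continuousOn_fderiv_of_isOpen hf.isOpen (by simp)
      exact AF.continuous_jac.comp_continuousOn (h2.mono hB)
    obtain ⟨C, hC⟩ := (isCompact_closedBall (0 : Euc n) (r / 2)).bddAbove_image hcont
    calc ∫⁻ x in closedBall (0 : Euc n) (r / 2), ENNReal.ofReal (jac (fderiv ℝ f x))
        ≤ ∫⁻ x in closedBall (0 : Euc n) (r / 2), ENNReal.ofReal C :=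
          setLIntegral_mono' measurableSet_closedBall fun x hx =>
            ENNReal.ofReal_le_ofReal (hC ⟨x, hx, rfl⟩)
      _ = ENNReal.ofReal C * volume (closedBall (0 : Euc n) (r / 2)) := setLIntegral_const _ _
      _ < ⊤ := ENNReal.mul_lt_top ENNReal.ofReal_lt_top
          (isCompact_closedBall (0 : Euc n) (r / 2)).measure_lt_top

theorem nu_univ : nu G univ = cst n * μHE[n] S := by
  have h1 := lintegral_nu G (F := fun _ => 1) measurable_const
  simp only [lintegral_const, one_mul, nuF_univ, Measure.restrict_apply MeasurableSet.univ,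
    univ_inter] at h1
  exact h1

theorem isFiniteMeasure_nu (hS : IsSubmanifold n N S) (hc : IsCompact S) :
    IsFiniteMeasure (nu G) := ⟨by
  rw [nu_univ]
  exact ENNReal.mul_lt_top (cst_ne_top n).lt_top (muHE_lt_top hS hc)⟩

end Crest.Agent.R208.L
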