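import Crest.Agent.R208.FI2c
import Crest.Agent.R208.L6

/-!
R208, block LB (helper971), part 1: the contact form `al` on `ℝ^N × ℝ^N`, its differential, and powers of
a constant 2-form evaluated on symplectic bases.
-/

set_option autoImplicit false
set_option linter.unusedSectionVars false

open Set Filter Topology Module
open scoped ContDiff RealInnerProductSpace
open Crest.GeometryTopology.Submanifold
open Crest.Agent.R208.F
open Crest.Agent.R208.FI (Clo Sub Chart Tan J Ori dens frame)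

noncomputable section

namespace Crest.Agent.R208.LB

/-! ### 2-forms and their powers -/
section two
variable {E : Type*} [AddCommGroup E] [Module ℝ E]

/-- `c` is a 2-form with contraction `v ↦ β v`. -/
structure Two (c : Ext E) (β : E →ₗ[ℝ] Module.Dual ℝ E) : Prop where
  inv_eq : inv c = c
  ii_eq : ∀ v, ii v c = io (β v)

variable {c : Ext E} {β : E →ₗ[ℝ] Module.Dual ℝ E}

theorem Two.inv_pow (h : Two c β) (m : ℕ) : inv (c ^ m) = c ^ m := by
  rw [map_pow, h.inv_eq]

theorem Two.comm (h : Two c β) (l : Module.Dual ℝ E) (m : ℕ) : io l * c ^ m = c ^ m * io l := by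
  rw [io_mul, h.inv_pow]

theorem Two.ii_pow (h : Two c β) (v : E) (m : ℕ) :
    ii v (c ^ (m + 1)) = ((m : ℝ) + 1) • (io (β v) * c ^ m) := by
  induction m with
  | zero => simp [h.ii_eq]
  | succ m ih =>
    rw [pow_succ, ii_mul, ih, h.inv_pow, h.ii_eq, ← h.comm, smul_mul_assoc, mul_assoc, ← pow_succ]
    rw [show (((m + 1 : ℕ) : ℝ) + 1) = ((m : ℝ) + 1) + 1 by push_cast; ring, add_smul ((m : ℝ) + 1),
      one_smul]

/-- `β v w` for a 2-form -/
theorem evA_io_mul_zero (q : ℕ) (l : Module.Dual ℝ E) (b : Ext E) (w : Fin q → E)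
    (h : ∀ i, l (w i) = 0) : evA E q (io l * b) w = 0 := by
  cases q with
  | zero =>
    let f : Ext E →ₗ[ℝ] ℝ :=
      { toFun := fun c => evA E 0 (io l * c) w
        map_add' := fun a b => by simp [mul_add]
        map_smul' := fun r a => by simp }
    refine ext_lin (f := f) (g := 0) (fun p m => ?_) b
    change evA E 0 (io l * _) w = 0
    rw [io_mul_iMulti, evA_iMulti_ne (by omega)]; rfl
  | succ q =>
    rw [evA_io_mul]
    refine Finset.sum_eq_zero fun i _ => ?_
    rw [h i]; ring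

/-- the standard symplectic matrix, in interleaved order -/
def Jm (i j : ℕ) : ℝ :=
  if i / 2 = j / 2 then
    (if i % 2 = 0 ∧ j % 2 = 1 then 1 else if i % 2 = 1 ∧ j % 2 = 0 then -1 else 0)
  else 0

theorem Jm_add (i j : ℕ) : Jm (i + 2) (j + 2) = Jm i j := by
  unfold Jm
  have h1 : (i + 2) / 2 = i / 2 + 1 := by omega
  have h2 : (j + 2) / 2 = j / 2 + 1 := by omega
  have h3 : (i + 2) % 2 = i % 2 := by omega
  have h4 : (j + 2) % 2 = j % 2 := by omega
  rw [h1, h2, h3, h4]
  simp

/-- the top power of a 2-form on a symplectic basis -/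
theorem Two.evA_pow (h : Two c β) (m : ℕ) (w : Fin (2 * m) → E)
    (hw : ∀ i j, β (w i) (w j) = Jm i j) : evA E (2 * m) (c ^ m) w = (m.factorial : ℝ) := by
  induction m with
  | zero =>
    rw [pow_zero]
    have := evA_zero_algebraMap (E := E) 1 (fun i : Fin 0 => (0 : E))
    rw [map_one] at this
    rw [Nat.factorial_zero, Nat.cast_one, ← this]
    congr 1
    funext i
    exact Fin.elim0 i
  | succ m ih =>
    change Fin (2 * m + 1 + 1) → E at w
    change evA E (2 * m + 1 + 1) (c ^ (m + 1)) w = _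
    have hsplit : w = Matrix.vecCons (w 0) (Matrix.vecCons (w 1) fun i => w i.succ.succ) := by
      funext i
      refine Fin.cases ?_ (fun i => ?_) i
      · rfl
      · refine Fin.cases ?_ (fun i => ?_) i
        · rfl
        · rfl
    have hβ : ∀ (i j : Fin (2 * m + 1 + 1)), β (w i) (w j) = Jm i j := hw
    rw [hsplit, evA_ii, evA_ii, h.ii_pow, map_smul, ii_io_mul]
    have h01 : β (w 0) (w 1) = 1 := by rw [hβ]; simp [Jm]
    have hrest : ∀ i : Fin (2 * m), β (w 0) (w i.succ.succ) = 0 := by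
      intro i
      rw [hβ]
      simp only [Fin.val_succ, Fin.val_zero, Jm]
      rw [if_neg (by omega)]
    rw [h01, one_smul, map_smul, AlternatingMap.smul_apply, map_sub, AlternatingMap.sub_apply,
      evA_io_mul_zero _ _ _ _ hrest, sub_zero, ih, Nat.factorial_succ, smul_eq_mul]
    · push_cast; ring
    · intro i j
      rw [hβ]
      simp only [Fin.val_succ]
      exact Jm_add _ _

theorem Two.evA_pow' (h : Two c β) {m q : ℕ} (hq : q = 2 * m) (w : Fin q → E)
    (hw : ∀ i j, β (w i) (w j) = Jm i j) : evA E q (c ^ m) w = (m.factorial : ℝ) := by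
  subst hq
  exact h.evA_pow m w hw

theorem Two.pb {F : Type*} [AddCommGroup F] [Module ℝ F] (h : Two c β) (A : F →ₗ[ℝ] E) :
    Two (pb A c) ((β.compl₁₂ A A)) := by
  refine ⟨by rw [← pb_inv, h.inv_eq], fun v => ?_⟩
  rw [ii_pb, h.ii_eq, pb_io]
  congr 1

end two

/-- change of basis by an endomorphism -/
theorem evA_det {E : Type*} [NormedAddCommGroup E] [NormedSpace ℝ E] {q : ℕ}
    (b : Basis (Fin q) ℝ E) (L : E →L[ℝ] E) (c : Ext E) :
    evA E q c (fun i => L (b i)) = L.det * evA E q c b := by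
  have e := AlternatingMap.eq_smul_basis_det b (evA E q c)
  rw [e, AlternatingMap.smul_apply, AlternatingMap.smul_apply, smul_eq_mul, smul_eq_mul,
    b.det_self, mul_one, mul_comm]
  congr 1
  have h1 := b.det_comp (L : E →ₗ[ℝ] E) b
  rw [b.det_self, mul_one] at h1
  exact h1

/-! ### the contact form -/
section al
variable {N : ℕ}

/-- the covector `ξ ↦ ⟪v, ξ.1⟫` -/
def alL : Euc N × Euc N →ₗ[ℝ] Module.Dual ℝ (Euc N × Euc N) where
  toFun z := ((innerSL ℝ z.2).comp (ContinuousLinearMap.fst ℝ (Euc N) (Euc N)) :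
    Euc N × Euc N →L[ℝ] ℝ)
  map_add' x y := by ext ξ <;> simp
  map_smul' r x := by ext ξ <;> simp

theorem alL_apply (z ξ : Euc N × Euc N) : alL z ξ = ⟪z.2, ξ.1⟫ := rfl

/-- **the contact form** on `ℝ^N × ℝ^N` -/
def al (z : Euc N × Euc N) : Ext (Euc N × Euc N) := io (alL z)

/-- `om` as a bilinear map -/
def omB : (Euc N × Euc N) →ₗ[ℝ] Module.Dual ℝ (Euc N × Euc N) :=
  LinearMap.mk₂ ℝ (fun ξ η => L.om ξ η) L.om_add_left (fun a ξ η => by
    rw [L.om_smul_left, smul_eq_mul]) L.om_add_right (fun a ξ η => by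
    rw [L.om_smul_right, smul_eq_mul])

theorem omB_apply (ξ η : Euc N × Euc N) : omB ξ η = L.om ξ η := rfl

/-- the covector `ξ ↦ ⟪b, ξ.2⟫` -/
def sL (b : Euc N) : Module.Dual ℝ (Euc N × Euc N) :=
  ((innerSL ℝ b).comp (ContinuousLinearMap.snd ℝ (Euc N) (Euc N)) : Euc N × Euc N →L[ℝ] ℝ)

theorem sL_apply (b : Euc N) (ξ : Euc N × Euc N) : sL b ξ = ⟪b, ξ.2⟫ := rfl

/-- the differential of the contact form (a constant form) -/
def dal (N : ℕ) : Ext (Euc N × Euc N) :=
  ∑ i : Fin N, io (sL (EuclideanSpace.basisFun (Fin N) ℝ i)) *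
    io (alL ((0 : Euc N), EuclideanSpace.basisFun (Fin N) ℝ i))

theorem contDiff_al {k : WithTop ℕ∞} : ContDiff ℝ k (al (N := N)) :=
  (LinearMap.toContinuousLinearMap (io ∘ₗ (alL (N := N)))).contDiff

theorem d_al (z : Euc N × Euc N) : F.d al z = dal N := by
  have h1 : HasFDerivAt (al (N := N)) (LinearMap.toContinuousLinearMap (io ∘ₗ (alL (N := N)))) z :=
    (LinearMap.toContinuousLinearMap (io ∘ₗ (alL (N := N)))).hasFDerivAt
  rw [d_of_hasFDerivAt h1]
  set e := (EuclideanSpace.basisFun (Fin N) ℝ).toBasis with he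
  rw [wd_basis (e.prod e), Fintype.sum_sum_type]
  have h2 : ∀ i : Fin N, io ((e.prod e).coord (Sum.inl i)) *
      (LinearMap.toContinuousLinearMap (io ∘ₗ (alL (N := N)))) ((e.prod e) (Sum.inl i)) = 0 := by
    intro i
    have h3 : (alL (N := N)) ((e.prod e) (Sum.inl i)) = 0 := by
      ext ξ <;> simp [alL_apply]
    have h4 : (LinearMap.toContinuousLinearMap (io ∘ₗ (alL (N := N)))) ((e.prod e) (Sum.inl i)) =
      io ((alL (N := N)) ((e.prod e) (Sum.inl i))) := rfl
    rw [h4, h3, map_zero, mul_zero]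
  simp only [h2, Finset.sum_const_zero, zero_add]
  unfold dal
  refine Finset.sum_congr rfl fun i _ => ?_
  have h5 : (LinearMap.toContinuousLinearMap (io ∘ₗ (alL (N := N)))) ((e.prod e) (Sum.inr i)) =
      io ((alL (N := N)) ((e.prod e) (Sum.inr i))) := rfl
  rw [h5]
  congr 2
  · ext ξ
    · simp [sL_apply]
    · simp [sL_apply, he, EuclideanSpace.inner_single_left]
  · congr 1
    ext1 <;> simp [he]

theorem two_dal : Two (dal N) omB := by
  constructor
  · unfold dal
    rw [map_sum]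
    refine Finset.sum_congr rfl fun i _ => ?_
    rw [map_mul, inv_io, inv_io, neg_mul_neg]
  · intro v
    unfold dal
    rw [map_sum]
    have h1 : ∀ i : Fin N, ii v (io (sL (EuclideanSpace.basisFun (Fin N) ℝ i)) *
        io (alL ((0 : Euc N), EuclideanSpace.basisFun (Fin N) ℝ i))) =
        io (⟪EuclideanSpace.basisFun (Fin N) ℝ i, v.2⟫ •
          alL ((0 : Euc N), EuclideanSpace.basisFun (Fin N) ℝ i) -
          ⟪EuclideanSpace.basisFun (Fin N) ℝ i, v.1⟫ •
            sL (EuclideanSpace.basisFun (Fin N) ℝ i)) := by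
      intro i
      rw [ii_io_mul, ii_io, map_sub, map_smul, map_smul]
      congr 1
      rw [← Algebra.commutes, ← Algebra.smul_def]
      rfl
    simp only [h1]
    rw [← map_sum]
    congr 1
    have hs : ∀ a b : Euc N, ∑ i, ⟪EuclideanSpace.basisFun (Fin N) ℝ i, a⟫ *
        ⟪EuclideanSpace.basisFun (Fin N) ℝ i, b⟫ = ⟪a, b⟫ := by
      intro a b
      rw [← (EuclideanSpace.basisFun (Fin N) ℝ).sum_inner_mul_inner a b]
      refine Finset.sum_congr rfl fun i _ => ?_
      rw [real_inner_comm a]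
    refine LinearMap.ext fun η => ?_
    rw [LinearMap.sum_apply]
    change ∑ i, (⟪EuclideanSpace.basisFun (Fin N) ℝ i, v.2⟫ *
        ⟪EuclideanSpace.basisFun (Fin N) ℝ i, η.1⟫ -
        ⟪EuclideanSpace.basisFun (Fin N) ℝ i, v.1⟫ *
        ⟪EuclideanSpace.basisFun (Fin N) ℝ i, η.2⟫) = ⟪v.2, η.1⟫ - ⟪η.2, v.1⟫
    rw [Finset.sum_sub_distrib, hs, hs, real_inner_comm v.1]

end al

end Crest.Agent.R208.LB
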