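import Crest.Agent.R208.HW2
import Crest.Agent.R208.LB1

/-!
R208, block HW (helper664), part 3: the volume form `b0 * kp2^k` of `S^{2k+1}`.
-/

set_option autoImplicit false
set_option linter.unusedSectionVars false
set_option linter.unusedVariables false

open Set Filter Topology Module
open scoped ContDiff RealInnerProductSpace ComplexConjugate
open Crest.Agent.R208.F Crest.Agent.R208.FI Crest.Agent.R208.T Crest.Agent.R208.CM
open Crest.Agent.R208.CW (SMap)

noncomputable section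

namespace Crest.Agent.R208.HW

variable {k : ℕ}

/-- `ℂ^{k+1}` -/
abbrev C (k : ℕ) : Type := EuclideanSpace ℂ (Fin (k + 1))

/-- real coordinates -/
def rr (z : C k) : U k := WithLp.toLp 2 fun p => if p.2 = 0 then (z p.1).re else (z p.1).im

/-- complex coordinates -/
def cc (u : U k) : C k := WithLp.toLp 2 fun a => ⟨u (a, 0), u (a, 1)⟩

theorem rr_zero (z : C k) (a : Fin (k + 1)) : rr z (a, 0) = (z a).re := rfl
theorem rr_one (z : C k) (a : Fin (k + 1)) : rr z (a, 1) = (z a).im := rfl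

theorem rr_cc (u : U k) : rr (cc u) = u := by
  ext ⟨a, b⟩
  fin_cases b
  · rfl
  · rfl

theorem inner_rr (x y : C k) : ⟪rr x, rr y⟫ = (inner ℂ x y).re := by
  rw [inner_eq, PiLp.inner_apply, Complex.re_sum]
  refine Finset.sum_congr rfl fun a _ => ?_
  simp only [rr_zero, rr_one]
  rw [RCLike.inner_apply]
  simp [mul_comm]

theorem rr_I (z : C k) : rr (Complex.I • z) = JJ k (rr z) := by
  ext ⟨a, b⟩
  fin_cases b
  · show rr (Complex.I • z) (a, 0) = JJ k (rr z) (a, 0)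
    rw [JJ_zero', rr_zero, rr_one]
    simp
  · show rr (Complex.I • z) (a, 1) = JJ k (rr z) (a, 1)
    rw [JJ_one', rr_zero, rr_one]
    simp

/-- unitary frames -/
theorem exists_unitary {u : U k} (hu : ‖u‖ = 1) : ∃ b : Fin k → U k,
    (∀ i j, ⟪b i, b j⟫ = if i = j then 1 else 0) ∧ (∀ i j, ⟪b i, JJ k (b j)⟫ = 0) ∧
      (∀ i, ⟪u, b i⟫ = 0) ∧ ∀ i, ⟪JJ k u, b i⟫ = 0 := by
  have hfr : Fact (finrank ℂ (C k) = k + 1) := ⟨by simp⟩
  have hne : cc u ≠ 0 := by
    intro h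
    have h2 := rr_cc u
    rw [h] at h2
    have h3 : rr (0 : C k) = 0 := by
      ext ⟨a, b⟩
      fin_cases b <;> rfl
    rw [h3] at h2
    rw [← h2] at hu
    simp at hu
  have h1 : finrank ℂ (ℂ ∙ cc u)ᗮ = k := Submodule.finrank_orthogonal_span_singleton hne
  set e : OrthonormalBasis (Fin k) ℂ (ℂ ∙ cc u)ᗮ :=
    (stdOrthonormalBasis ℂ (ℂ ∙ cc u)ᗮ).reindex (finCongr h1) with he
  have hee : ∀ i j, inner ℂ (e i : C k) (e j : C k) = if i = j then 1 else 0 := fun i j =>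
    orthonormal_iff_ite.1 e.orthonormal i j
  have heu : ∀ i, inner ℂ (cc u) (e i : C k) = 0 := fun i =>
    (Submodule.mem_orthogonal_singleton_iff_inner_right.1 (e i).2)
  refine ⟨fun i => rr (e i : C k), fun i j => ?_, fun i j => ?_, fun i => ?_, fun i => ?_⟩
  · rw [inner_rr, hee]
    split_ifs <;> simp
  · rw [← rr_I, inner_rr, inner_smul_right, hee]
    split_ifs <;> simp
  · have h5 : ⟪rr (cc u), rr (e i : C k)⟫ = 0 := by rw [inner_rr, heu]; simp
    rwa [rr_cc] at h5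
  · have h5 : ⟪JJ k (rr (cc u)), rr (e i : C k)⟫ = 0 := by
      rw [← rr_I, inner_rr, inner_smul_left, heu]; simp
    rwa [rr_cc] at h5

theorem two_kp2 : LB.Two ((1 / 2 : ℝ) • kp2 k) (b0L k) := by
  refine ⟨by rw [map_smul, inv_kp2], fun v => ?_⟩
  rw [map_smul, ii_kp2, map_smul, smul_smul]
  norm_num

/-- the volume form of the sphere -/
def v0 (k : ℕ) (u : U k) : Ext (U k) := b0 k u * kp2 k ^ k

theorem kp2_pow (j : ℕ) : kp2 k ^ j = (2 : ℝ) ^ j • ((1 / 2 : ℝ) • kp2 k) ^ j := by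
  rw [← smul_pow, smul_smul]
  norm_num

theorem exists_frame_SU {u : U k} (hu : u ∈ SU k) : ∃ w : Fin (2 * k + 1) → U k,
    (∀ i, w i ∈ Tan (SU k) u) ∧ evA (U k) (2 * k + 1) (v0 k u) w = 2 ^ k * (k.factorial : ℝ) := by
  obtain ⟨b, h1, h2, h3, h4⟩ := exists_unitary (mem_SU.1 hu)
  let w' : Fin (2 * k) → U k := fun i =>
    if (i : ℕ) % 2 = 0 then b ⟨(i : ℕ) / 2, by omega⟩ else JJ k (b ⟨(i : ℕ) / 2, by omega⟩)
  have hJ : ⟪JJ k u, JJ k u⟫ = 1 := by
    rw [inner_JJ_JJ, real_inner_self_eq_norm_sq, mem_SU.1 hu]; norm_num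
  refine ⟨Matrix.vecCons (JJ k u) w', fun i => ?_, ?_⟩
  · rw [mem_Tan_SU hu]
    refine Fin.cases ?_ (fun i => ?_) i
    · exact inner_self_JJ u
    · show ⟪u, w' i⟫ = 0
      by_cases h : (i : ℕ) % 2 = 0
      · simp only [w', h, if_true]; exact h3 _
      · simp only [w', h, if_false]
        have h5 := h4 ⟨(i : ℕ) / 2, by omega⟩
        rw [inner_JJ_left] at h5
        linarith
  · have hz : ∀ i, b0L k u (w' i) = 0 := by
      intro i
      rw [b0L_apply]
      by_cases h : (i : ℕ) % 2 = 0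
      · simp only [w', h, if_true]; exact h4 _
      · simp only [w', h, if_false]
        rw [inner_JJ_JJ]; exact h3 _
    have h01 : b0L k u (JJ k u) = 1 := hJ
    rw [evA_ii, v0, b0, ii_io_mul, h01, one_smul, map_sub, AlternatingMap.sub_apply,
      LB.evA_io_mul_zero _ _ _ _ hz, sub_zero, kp2_pow, map_smul, AlternatingMap.smul_apply,
      smul_eq_mul, two_kp2.evA_pow]
    intro i j
    rw [b0L_apply]
    have hi : (i : ℕ) % 2 = 0 ∨ (i : ℕ) % 2 = 1 := Nat.mod_two_eq_zero_or_one _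
    have hj : (j : ℕ) % 2 = 0 ∨ (j : ℕ) % 2 = 1 := Nat.mod_two_eq_zero_or_one _
    unfold LB.Jm
    have h2' : ∀ i j, ⟪JJ k (b i), b j⟫ = 0 := fun i j => by rw [inner_JJ_left, h2, neg_zero]
    rcases hi with hi | hi <;> rcases hj with hj | hj <;>
      simp only [w', hi, hj, JJ_JJ, inner_JJ_JJ, inner_neg_left, h1, h2, h2', Fin.ext_iff, if_true,
        if_false, one_ne_zero, zero_ne_one, and_true, and_false, neg_zero] <;>
      by_cases hij : (i : ℕ) / 2 = (j : ℕ) / 2 <;> simp [hij]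

theorem contDiff_v0 {j : WithTop ℕ∞} : ContDiff ℝ j (v0 k) := contDiff_mul contDiff_b0 contDiff_const

theorem isDeg_kp2_pow (j : ℕ) : IsDeg (2 * j) (kp2 k ^ j) :=
  Hom.pow (a := fun _ : U k => kp2 k) (r := 2) (fun _ => isDeg_kp2) j 0

theorem hom_v0 : Hom (2 * k + 1) (v0 k) := by
  have e : 2 * k + 1 = 1 + 2 * k := by omega
  rw [e]
  exact hom_b0.mul (b := fun _ => kp2 k ^ k) (fun _ => isDeg_kp2_pow k)

theorem ori_SU : Ori (2 * k + 1) (SU k) (v0 k) :=
  ori_of clo_SU (contDiff_v0 (j := 0)).continuous.continuousOn fun u hu => by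
    obtain ⟨w, h1, h2⟩ := exists_frame_SU hu
    exact ⟨w, h1, by rw [h2]; positivity⟩

/-- the volume form is closed on the sphere -/
theorem cl_v0 : Cl (SU k) (v0 k) := by
  intro u hu
  have h1 : IsDeg (2 * k + 1 + 1) (F.d (v0 k) u) := hom_v0.d u
  have h2 : IsDeg (2 * k + 1 + 1) (pb (Tan (SU k) u).subtype (F.d (v0 k) u)) := h1.pb _
  exact h2.eq_zero (by rw [clo_SU.finrank_Tan hu]; omega)

/-- powers of the curvature of the sphere -/
theorem resZero_kp2_pow : ResZero (SU k) (fun _ => kp2 k ^ (k + 1)) := by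
  intro u hu
  exact ((isDeg_kp2_pow (k := k) (k + 1)).pb _).eq_zero (by rw [clo_SU.finrank_Tan hu]; omega)

end Crest.Agent.R208.HW
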