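import Crest.Agent.R208.EP3
import Crest.Agent.R208.HW3
import Crest.Agent.R208.CM6a

/-! Row 208, block Q, (Q-p3) (helper607).  EP4: the odd sphere with the Hopf action, its embedding,
its connection; complex projective space as `Quo`. -/

set_option autoImplicit false
set_option linter.unusedSectionVars false
set_option linter.unusedVariables false
set_option linter.unusedSimpArgs false

open Set Filter Topology Module MeasureTheory
open scoped ContDiff RealInnerProductSpace ComplexConjugate
open Crest.Agent.R208.F Crest.Agent.R208.FI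
open Crest.Agent.R208.CW (SMap)
open Crest.Agent.R208.CM
open Crest.Agent.R208.T
open Crest.Agent.R208.HW (U JJ rt SU b0 kp2 v0 mem_SU rt_zero rt_add rt_two_pi norm_rt
  inner_rt_self contDiff_rt hasDerivAt_rt JJ_zero' JJ_one' clo_SU ori_SU sm_b0 hom_b0 rot_b0
  mem_Tan_SU isPreconnected_SU norm_JJ d_b0 b0L b0L_apply rt_apply)

noncomputable section

namespace Crest.Agent.R208.EP

variable {k : ℕ}

/-- the Hopf action -/
def hp (k : ℕ) (t : ℝ) (u : U k) : U k := rt k t u

/-- complex coordinates -/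
def gS (k : ℕ) : U k →L[ℝ] (Fin (k + 1) → ℂ) := LinearMap.toContinuousLinearMap
  { toFun := fun u a => ⟨u (a, 0), u (a, 1)⟩
    map_add' := fun u v => rfl
    map_smul' := fun r u => by
      funext a
      refine Complex.ext ?_ ?_ <;> simp }

theorem gS_apply (u : U k) (a : Fin (k + 1)) : gS k u a = ⟨u (a, 0), u (a, 1)⟩ := rfl

theorem gS_JJ (u : U k) : gS k (JJ k u) = Complex.I • gS k u := by
  funext a
  rw [Pi.smul_apply, gS_apply, gS_apply, JJ_zero', JJ_one', smul_eq_mul]
  refine Complex.ext ?_ ?_ <;> simp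

theorem gS_rt (t : ℝ) (u : U k) : gS k (rt k t u) = Complex.exp (t * Complex.I) • gS k u := by
  rw [rt_apply, map_add, map_smul, map_smul, gS_JJ, Complex.exp_mul_I, ← Complex.ofReal_cos,
    ← Complex.ofReal_sin]
  funext a
  simp only [Pi.add_apply, Pi.smul_apply, smul_eq_mul, Complex.real_smul]
  ring

theorem gS_inj {u v : U k} (h : gS k u = gS k v) : u = v := by
  ext ⟨a, s⟩
  have h1 := congrFun h a
  rw [gS_apply, gS_apply, Complex.mk.injEq] at h1
  fin_cases s
  · exact h1.1
  · exact h1.2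

theorem sum_gS (u : U k) : ∑ a, ‖gS k u a‖ ^ 2 = ‖u‖ ^ 2 := by
  rw [EuclideanSpace.norm_sq_eq, Fintype.sum_prod_type]
  refine Finset.sum_congr rfl fun a _ => ?_
  rw [Fin.sum_univ_two, ← Complex.normSq_eq_norm_sq, Complex.normSq_apply, gS_apply,
    Real.norm_eq_abs, Real.norm_eq_abs, sq_abs, sq_abs]
  ring

theorem gS_smul_I (y : ℝ) (u : U k) : gS k (y • JJ k u) = ((y : ℂ) * Complex.I) • gS k u := by
  rw [map_smul, gS_JJ]
  funext a
  simp only [Pi.smul_apply, smul_eq_mul, Complex.real_smul]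
  ring

theorem exists_U_of_smul (z : ℂ) (u : U k) : gS k (z.re • u + z.im • JJ k u) = z • gS k u := by
  rw [map_add, map_smul, map_smul, gS_JJ]
  funext a
  simp only [Pi.add_apply, Pi.smul_apply, smul_eq_mul, Complex.real_smul]
  conv_rhs => rw [← Complex.re_add_im z]
  ring

theorem cir_SU : Cir (SU k) (hp k) where
  smooth := fun t x _ => contDiff_rt.contDiffAt
  maps := fun t u hu => by
    rw [mem_SU] at hu ⊢
    change ‖rt k t u‖ = 1
    rw [norm_rt, hu]
  zero := fun u _ => by
    change rt k 0 u = u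
    rw [rt_zero]; rfl
  add := fun s t u _ => rt_add s t u
  per := fun u _ => by
    change rt k (2 * Real.pi) u = u
    rw [rt_two_pi]; rfl
  free := fun t u hu ht => by
    have h1 : rt k t u = u := ht
    have h2 := inner_rt_self t u
    rw [h1, real_inner_self_eq_norm_sq, mem_SU.1 hu] at h2
    have h3 : Real.cos t = 1 := by linarith
    obtain ⟨j, hj⟩ := (Real.cos_eq_one_iff t).1 h3
    exact ⟨j, by rw [← hj]; ring⟩

theorem gen_hp (u : U k) : gen (hp k) u = JJ k u := by
  have h := hasDerivAt_rt (k := k) 0 u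
  have e : rt k 0 (JJ k u) = JJ k u := by rw [rt_zero]; rfl
  rw [e] at h
  exact h.deriv

theorem emb_SU : Emb (SU k) (hp k) (gS k) where
  smooth := fun x _ => (gS k).contDiff.contDiffAt
  unit := fun x hx => by rw [sum_gS, mem_SU.1 hx, one_pow]
  equi := fun x _ t => gS_rt t x
  sep := by
    rintro x hx y hy ⟨z, hz⟩
    have h1 : ‖z‖ = 1 := by
      have h2 := sum_gS y
      rw [hz, mem_SU.1 hy, one_pow] at h2
      have h3 : ∑ a, ‖(z • gS k x) a‖ ^ 2 = ‖z‖ ^ 2 * ∑ a, ‖gS k x a‖ ^ 2 := by
        rw [Finset.mul_sum]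
        refine Finset.sum_congr rfl fun a _ => ?_
        rw [Pi.smul_apply, smul_eq_mul, norm_mul, mul_pow]
      rw [h3, sum_gS, mem_SU.1 hx, one_pow, mul_one] at h2
      have h4 : 0 ≤ ‖z‖ := norm_nonneg z
      nlinarith
    refine ⟨Complex.arg z, gS_inj ?_⟩
    change gS k y = gS k (rt k (Complex.arg z) x)
    rw [gS_rt, hz]
    congr 1
    have := Complex.norm_mul_exp_arg_mul_I z
    rw [h1, Complex.ofReal_one, one_mul] at this
    exact this.symm
  imm := by
    rintro x hx v hv ⟨z, hz⟩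
    have h1 : fderiv ℝ (gS k) x = gS k := (gS k).fderiv
    rw [h1, ← exists_U_of_smul] at hz
    have h2 := gS_inj hz
    have h3 := (mem_Tan_SU hx).1 hv
    rw [h2, inner_add_right, inner_smul_right, inner_smul_right, real_inner_self_eq_norm_sq,
      mem_SU.1 hx, HW.inner_self_JJ, mul_zero, add_zero, one_pow, mul_one] at h3
    refine ⟨z.im, ?_⟩
    rw [h2, h3, zero_smul, zero_add, gen_hp]

theorem conn_SU : Conn (SU k) (hp k) (b0 k) where
  sm := sm_b0
  hom := hom_b0
  unit := fun u hu => by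
    rw [gen_hp]
    change ii (JJ k u) (io (b0L k u)) = 1
    rw [ii_io, b0L_apply, real_inner_self_eq_norm_sq, norm_JJ, mem_SU.1 hu]
    simp
  inv := fun t => by
    have := rot_b0 (k := k) t
    change Eqv (SU k) (F.pull (fun u => rt k t u) (b0 k)) (b0 k)
    rw [this]
    exact Eqv.refl _

/-- complex projective space -/
def CPk (k : ℕ) : Set (MM (k + 1)) := Quo (SU k) (gS k)

theorem clo_CPk : Clo (2 * k) (CPk k) := emb_SU.clo_Quo cir_SU clo_SU

theorem isPreconnected_CPk : IsPreconnected (CPk k) :=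
  isPreconnected_SU.image _ fun x hx =>
    (emb_SU.contDiffAt_jj hx).continuousAt.continuousWithinAt

theorem nonempty_CPk : (CPk k).Nonempty := by
  obtain ⟨u, hu⟩ := HW.SU_nonempty (k := k)
  exact ⟨jj (gS k) u, jj_mem hu⟩

theorem exists_curv_SU (k : ℕ) : ∃ Fc : MM (k + 1) → Ext (MM (k + 1)), Curv (SU k) (gS k) (b0 k) Fc :=
  conn_SU.exists_curv emb_SU cir_SU clo_SU

/-- the curvature form of projective space -/
def Fk (k : ℕ) : MM (k + 1) → Ext (MM (k + 1)) := (exists_curv_SU k).choose

theorem curv_SU : Curv (SU k) (gS k) (b0 k) (Fk k) := (exists_curv_SU k).choose_spec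

theorem ori_CPk : Ori (2 * k) (CPk k) (fun y => Fk k y ^ k) := by
  have ho : Ori (2 * k + 1) (SU k) (fun x => b0 k x * F.d (b0 k) x ^ k) := by
    have := ori_SU (k := k)
    rw [d_b0]
    exact this
  exact (conn_SU.J_eq emb_SU cir_SU clo_SU curv_SU ho).1

theorem ori_CP1 : Ori 2 (CPk 1) (Fk 1) := by
  have h := ori_CPk (k := 1)
  simp only [pow_one, mul_one] at h
  exact h

theorem lineF_CPk : LineF (CPk k) (EW.Lt (m := k + 1)) := lineF_Lt emb_SU

end Crest.Agent.R208.EP
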