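import Crest.Agent.R208.SO1

/-! Row 208, block SO (helper638).  SO2: integrals `∫_Z α ∧ q^*η` over a circle bundle `q : Z → Y`
with connection form `α`: they only depend on the class of `η` on `Y`; the Hopf invariant of
`q^*(a²)` when `a² ~ F k` on `Y`. -/

set_option autoImplicit false
set_option linter.unusedSectionVars false

open MeasureTheory Set Filter Topology Module
open scoped ContDiff
open Crest.Agent.R208.F Crest.Agent.R208.FI Crest.Agent.R208.CW Crest.Agent.R208.T

noncomputable section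

namespace Crest.Agent.R208.SO

universe u

variable {E : Type u} [NormedAddCommGroup E] [NormedSpace ℝ E] [FiniteDimensional ℝ E]
  {E₁ : Type*} [NormedAddCommGroup E₁] [NormedSpace ℝ E₁] [FiniteDimensional ℝ E₁]
  {n m : ℕ} {Z : Set E} {Y : Set E₁} {o : E → Ext E} {q : E → E₁}

/-- forms of degree larger than the dimension restrict to zero -/
theorem resZero_of_gt (hY : Sub m Y) {a : E₁ → Ext E₁} {p : ℕ} (h : Hom p a) (hp : m < p) :
    ResZero Y a := fun x hx =>
  ((h x).pb _).eq_zero (by rw [hY.finrank_Tan hx]; exact hp)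

theorem eqv_zero_of_gt (hY : Sub m Y) {a : E₁ → Ext E₁} {p : ℕ} (h : Hom p a) (hp : m < p) :
    Eqv Y a 0 := resZero_iff.1 (resZero_of_gt hY h hp)

theorem inv_of_hom_even {a : E₁ → Ext E₁} {p : ℕ} (h : Hom p a) (hp : Even p) (x : E₁) :
    F.inv (a x) = a x := by
  refine ext_evA fun r => ?_
  rw [evA_inv]
  by_cases hr : r = p
  · subst hr; rw [hp.neg_one_pow, one_smul]
  · rw [h x r hr, smul_zero]

theorem inv_of_hom_odd {a : E₁ → Ext E₁} {p : ℕ} (h : Hom p a) (hp : Odd p) (x : E₁) :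
    F.inv (a x) = - a x := by
  refine ext_evA fun r => ?_
  rw [evA_inv]
  by_cases hr : r = p
  · subst hr; rw [hp.neg_one_pow]; ext v; simp
  · rw [h x r hr, smul_zero, map_neg, h x r hr, neg_zero]

/-- even forms commute with everything -/
theorem ev_comm {a : E₁ → Ext E₁} {p : ℕ} (h : Hom p a) (hp : Even p) (b : E₁ → Ext E₁) :
    a * b = b * a := by
  funext x
  exact even_mul_comm (inv_of_hom_even h hp x) (b x)

/-- the hypotheses on the circle bundle: a map `q : Z → Y`, `dim Y + 1 = dim Z`, a one form `α` on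
`Z` with `dα = q^*Fc`. -/
structure Conn (n : ℕ) (Z : Set E) (o : E → Ext E) (Y : Set E₁) (q : E → E₁) (α : E → Ext E)
    (Fc : E₁ → Ext E₁) : Prop where
  clo : Clo (n + 1) Z
  ori : Ori (n + 1) Z o
  sub : Sub n Y
  map : SMap Z Y q
  sα : Sm Z α
  hα : Hom 1 α
  sF : Sm Y Fc
  cF : Cl Y Fc
  hF : Hom 2 Fc
  dα : Eqv Z (F.d α) (F.pull q Fc)

variable {α : E → Ext E} {Fc : E₁ → Ext E₁}

theorem Conn.exact (h : Conn n Z o Y q α Fc) {μ : E₁ → Ext E₁} (hμ : Sm Y μ) (dμ : Hom (n - 1) μ)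
    (hn : 1 ≤ n) : J (n + 1) Z o (α * F.pull q (F.d μ)) = 0 := by
  have sq : Sm Z (F.pull q μ) := hμ.pull h.map
  have sdq : Sm Z (F.pull q (F.d μ)) := hμ.d.pull h.map
  refine J_coh_zero h.clo h.ori (h.sα.mul sdq) ?_
  -- `α q^*dμ = dα q^*μ - d(α q^*μ)`
  refine ⟨-(α * F.pull q μ), (h.sα.mul sq).neg, ?_⟩
  rw [sub_zero, d_neg']
  have h1 : Eqv Z (F.d (α * F.pull q μ)) (F.d α * F.pull q μ +
      (fun x => F.inv (α x)) * F.d (F.pull q μ)) := d_mul_eqv h.sα sq
  have h2 : (fun x => F.inv (α x)) = -α := by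
    funext x; exact inv_of_hom_odd h.hα odd_one x
  rw [h2] at h1
  have h3 : Eqv Z (F.d α * F.pull q μ) 0 := by
    have h4 : Eqv Z (F.d α * F.pull q μ) (F.pull q Fc * F.pull q μ) := h.dα.mul (Eqv.refl _)
    have h5 : Eqv Z (F.pull q Fc * F.pull q μ) 0 := by
      rw [← pull_mul']
      exact resZero_iff.1 (T.ResZero.pull h.map (resZero_of_gt h.sub (h.hF.mul dμ) (by omega)))
    exact h4.trans h5
  have h6 : Eqv Z (-α * F.d (F.pull q μ)) (-α * F.pull q (F.d μ)) :=
    (Eqv.refl _).mul (d_pull_eqv h.map hμ)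
  have h7 : Eqv Z (F.d (α * F.pull q μ)) (0 + -α * F.pull q (F.d μ)) := h1.trans (h3.add h6)
  have h8 := h7.neg
  rw [zero_add, neg_mul, neg_neg] at h8
  exact h8.symm

/-- `∫_Z α q^*η` only depends on the class of `η` -/
theorem Conn.coh (h : Conn n Z o Y q α Fc) {η η' : E₁ → Ext E₁} (hη : Sm Y η) (hη' : Sm Y η')
    (dη : Hom n η) (dη' : Hom n η') (hn : 1 ≤ n) (hc : Coh Y η η') :
    J (n + 1) Z o (α * F.pull q η) = J (n + 1) Z o (α * F.pull q η') := by
  obtain ⟨ξ, h1, h2⟩ := Coh.dp n hc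
  rw [dη.dp_eq, dη'.dp_eq] at h2
  -- only the component of degree `n - 1` of the primitive matters
  obtain ⟨ξ', g1, g2⟩ := hc
  have h3 : Eqv Y (η - η') (F.d (dp (n - 1) ξ')) := by
    have h4 := Eqv.dp n g2
    rw [dp_sub, dη.dp_eq, dη'.dp_eq] at h4
    refine h4.trans (Eqv.of_eq fun x hx => ?_)
    obtain ⟨k, rfl⟩ : ∃ k, n = k + 1 := ⟨n - 1, by omega⟩
    exact dp_d k (g1.diff hx)
  have s3 : Sm Y (dp (n - 1) ξ') := g1.dp _
  have h5 : Eqv Z (α * F.pull q η - α * F.pull q η') (α * F.pull q (F.d (dp (n - 1) ξ'))) := by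
    rw [← mul_sub, ← pull_sub']
    exact (Eqv.refl _).mul (h3.pull h.map)
  have h6 := J_eqv (o := o) h.clo h5
  rw [h.exact s3 (hom_dp _ _) hn] at h6
  have h7 : J (n + 1) Z o (fun x => (α * F.pull q η) x - (α * F.pull q η') x) =
      J (n + 1) Z o (α * F.pull q η) - J (n + 1) Z o (α * F.pull q η') :=
    J_sub h.clo h.ori (Sm.cont (h.sα.mul (hη.pull h.map))) (Sm.cont (h.sα.mul (hη'.pull h.map)))
  have h8 : J (n + 1) Z o (fun x => (α * F.pull q η) x - (α * F.pull q η') x) = 0 := h6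
  rw [h8] at h7
  linarith

/-- **circle step**: if `a² ~ F k` on `Y`, then `q^*(a²)` has the primitive `α q^*k + q^*λ`, and
its Hopf invariant with weight `w` is `∫_Z α q^*(F k² w)`. -/
theorem Conn.hopf (h : Conn n Z o Y q α Fc) {b k w : E₁ → Ext E₁} {i j : ℕ} (hi : Even i)
    (sb : Sm Y b) (sk : Sm Y k) (ck : Cl Y k) (sw : Sm Y w) (cw : Cl Y w)
    (db : Hom (i + 2) b) (dk : Hom i k) (dw : Hom j w) (hn : (i + 2) + i + j = n) (hn1 : 1 ≤ n)
    (hbk : Coh Y b (Fc * k)) :
    ∃ κ : E → Ext E, Sm Z κ ∧ Eqv Z (F.d κ) (F.pull q b) ∧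
      J (n + 1) Z o (F.pull q b * κ * F.pull q w) =
        J (n + 1) Z o (α * F.pull q (Fc * k * k * w)) := by
  obtain ⟨ξ, g1, g2⟩ := hbk
  have g3 : Eqv Y (b - Fc * k) (F.d (dp (i + 1) ξ)) := by
    have h4 := Eqv.dp (i + 2) g2
    have h5 : Hom (i + 2) (Fc * k) := by
      have := h.hF.mul dk
      rwa [add_comm 2 i] at this
    rw [dp_sub, db.dp_eq, h5.dp_eq] at h4
    exact h4.trans (Eqv.of_eq fun x hx => dp_d (i + 1) (g1.diff hx))
  set l := dp (i + 1) ξ with hl
  have sl : Sm Y l := g1.dp _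
  have dl : Hom (i + 1) l := hom_dp _ _
  have sqk : Sm Z (F.pull q k) := sk.pull h.map
  have sql : Sm Z (F.pull q l) := sl.pull h.map
  have sκ : Sm Z (α * F.pull q k + F.pull q l) := (h.sα.mul sqk).add sql
  refine ⟨α * F.pull q k + F.pull q l, sκ, ?_, ?_⟩
  · have e1 : Eqv Z (F.d (α * F.pull q k + F.pull q l))
        (F.d (α * F.pull q k) + F.d (F.pull q l)) := d_add_eqv (h.sα.mul sqk) sql
    have e2 : Eqv Z (F.d (α * F.pull q k)) (F.d α * F.pull q k +
        (fun x => F.inv (α x)) * F.d (F.pull q k)) := d_mul_eqv h.sα sqk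
    have e3 : Eqv Z ((fun x => F.inv (α x)) * F.d (F.pull q k)) 0 := by
      have := (Eqv.refl (X := Z) (fun x => F.inv (α x))).mul (resZero_iff.1 (ck.pull h.map sk))
      rwa [mul_zero] at this
    have e4 : Eqv Z (F.d α * F.pull q k) (F.pull q (Fc * k)) := by
      rw [pull_mul']
      exact h.dα.mul (Eqv.refl _)
    have e5 : Eqv Z (F.d (α * F.pull q k)) (F.pull q (Fc * k)) := by
      have := e2.trans (e4.add e3)
      rwa [add_zero] at this
    have e6 : Eqv Z (F.d (F.pull q l)) (F.pull q (b - Fc * k)) :=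
      (d_pull_eqv h.map sl).trans (g3.symm.pull h.map)
    have e7 := e1.trans (e5.add e6)
    rw [← pull_add', add_sub_cancel] at e7
    exact e7
  · -- the integral
    have hb2 : Even (i + 2) := hi.add even_two
    have c1 : b * k = k * b := ev_comm db hb2 k
    have e1 : Eqv Z (F.pull q b * (α * F.pull q k + F.pull q l) * F.pull q w)
        (α * F.pull q (b * k * w)) := by
      have e2 : F.pull q b * (α * F.pull q k + F.pull q l) * F.pull q w =
          F.pull q b * α * F.pull q k * F.pull q w + F.pull q (b * l * w) := by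
        rw [pull_mul', pull_mul']
        noncomm_ring
      have e3 : F.pull q b * α = α * F.pull q b := by
        funext x
        refine even_mul_comm ?_ _
        exact inv_of_hom_even (E₁ := E) db.pull hb2 x
      have e4 : Eqv Z (F.pull q (b * l * w)) 0 :=
        resZero_iff.1 (T.ResZero.pull h.map (resZero_of_gt h.sub ((db.mul dl).mul dw) (by omega)))
      have e5 : F.pull q b * α * F.pull q k * F.pull q w = α * F.pull q (b * k * w) := by
        rw [e3, pull_mul', pull_mul', mul_assoc, mul_assoc, mul_assoc]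
      rw [e2, e5]
      have := (Eqv.refl (X := Z) (α * F.pull q (b * k * w))).add e4
      rwa [add_zero] at this
    rw [J_eqv h.clo e1]
    have dkw : Hom (i + j) (k * w) := dk.mul dw
    have d1 : Hom n (b * k * w) := by
      have := (db.mul dk).mul dw
      rwa [hn] at this
    have d2 : Hom n (Fc * k * k * w) := by
      have := ((h.hF.mul dk).mul dk).mul dw
      rwa [show 2 + i + i + j = n by omega] at this
    refine h.coh ((sb.mul sk).mul sw) (((h.sF.mul sk).mul sk).mul sw) d1 d2 hn1 ?_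
    have h1 : Coh Y (b * (k * w)) (Fc * k * (k * w)) :=
      Coh.mul_right (sk.mul sw) (Cl.mul sk sw ck cw) ⟨l, sl, g3⟩
    rwa [← mul_assoc, ← mul_assoc] at h1

end Crest.Agent.R208.SO
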