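import Crest.Agent.R208.EP4
import Crest.Agent.R208.SO2

/-! Row 208, block Q, (Q-p3) (helper607).  EP5: the Euler form of `N ⊗ L` on `Y × P^1` is
`± 2^r r! c_{r-1}(N_ℂ) × [F]` for `N` of odd rank `r`. -/

set_option autoImplicit false
set_option linter.unusedSectionVars false
set_option linter.unusedVariables false
set_option linter.unusedSimpArgs false

open Set Filter Topology Module MeasureTheory
open scoped ContDiff RealInnerProductSpace ComplexConjugate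
open Crest.Agent.R208.F Crest.Agent.R208.FI
open Crest.Agent.R208.CW
open Crest.Agent.R208.CM
open Crest.Agent.R208.T
open Crest.Agent.R208.EW

noncomputable section

namespace Crest.Agent.R208.EP

section gen
variable {E E' : Type} [NormedAddCommGroup E] [NormedSpace ℝ E] [FiniteDimensional ℝ E]
  [NormedAddCommGroup E'] [NormedSpace ℝ E'] [FiniteDimensional ℝ E']
  {p κ ι : Type} [Fintype p] [DecidableEq p] [Fintype κ] [DecidableEq κ]
  [Fintype ι] [DecidableEq ι] {X : Set E} {Y : Set E'}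
  {N : E' → EuclideanSpace ℝ p →L[ℝ] EuclideanSpace ℝ p}
  {L : E' → Matrix κ κ ℂ} {r d d' : ℕ} {w : ℝ} {f : E → E'}

theorem pfield_comp (hN : PField Y r N) (hf : SMap X Y f) : PField X r (fun x => N (f x)) :=
  ⟨fun x hx => (hN.smooth _ (hf.maps hx)).comp x (hf.smooth x hx),
    fun x hx => hN.idem _ (hf.maps hx), fun x hx => hN.rank _ (hf.maps hx)⟩

theorem LineF.comp (hL : LineF Y L) (hf : SMap X Y f) : LineF X (fun x => L (f x)) :=
  ⟨fun x hx => (hL.sm _ (hf.maps hx)).comp (hf.smooth x hx), fun x hx => hL.ex _ (hf.maps hx)⟩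

/-- naturality of the real Chern forms, in cohomology -/
theorem coh_cR_comp (hX : Sub d X) (hY : Sub d' Y) (hf : SMap X Y f) (hN : PField Y r N) (j : ℕ) :
    Coh X (cR j (fun x => N (f x))) (F.pull f (cR j N)) := by
  have hI := idF_of_pfield hN
  have hI' := idF_of_pfield (pfield_comp hN hf)
  have h1 := cc_map hX hY hf hI j
  have h3 := rcl_cfr hY hI (fun y i j => Complex.ofReal_im _) j
  have h4 := rcl_cfr hX hI' (fun y i j => Complex.ofReal_im _) j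
  have h5 : rcl (ec_cfr hX hI' j) = rcl ((ec_cfr hY hI j).pull hf) := by
    rw [rcl_pull hf (ec_cfr hY hI j), h3, h1, h4]
  exact (rcl_eq_iff _ _).1 h5

end gen

section prod
variable {E : Type} [NormedAddCommGroup E] [NormedSpace ℝ E] [FiniteDimensional ℝ E]
  {p ι : Type} [Fintype p] [DecidableEq p]
  [Fintype ι] [DecidableEq ι] {Y : Set E} {N : E → EuclideanSpace ℝ p →L[ℝ] EuclideanSpace ℝ p}
  {r d s : ℕ}

/-- the real bundle `N ⊗ L` on `Y × P^1` -/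
def NLp (N : E → EuclideanSpace ℝ p →L[ℝ] EuclideanSpace ℝ p) (z : E × MM (1 + 1)) :
    EuclideanSpace ℝ (p × (Fin (1 + 1) × Fin 2)) →L[ℝ] EuclideanSpace ℝ (p × (Fin (1 + 1) × Fin 2)) :=
  NL (fun z : E × MM (1 + 1) => N z.1) (fun z => Lt (m := 1 + 1) z.2) z

/-- its orientation tensor -/
def WNp (ι : Type) [Fintype ι] [DecidableEq ι]
    (N : E → EuclideanSpace ℝ p →L[ℝ] EuclideanSpace ℝ p) (z : E × MM (1 + 1))
    (I : ι × Fin 2 → p × (Fin (1 + 1) × Fin 2)) : ℝ :=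
  WN ι (fun z : E × MM (1 + 1) => N z.1) (fun z => Lt (m := 1 + 1) z.2) z I

theorem smap_fst' {k : ℕ} : SMap (Y ×ˢ CPk k) Y (Prod.fst : E × MM (k + 1) → E) :=
  ⟨fun z _ => contDiffAt_fst, fun z hz => hz.1⟩

theorem smap_snd' {k : ℕ} : SMap (Y ×ˢ CPk k) (CPk k) (Prod.snd : E × MM (k + 1) → MM (k + 1)) :=
  ⟨fun z _ => contDiffAt_snd, fun z hz => hz.2⟩

theorem or_NLp (hN : PField Y r N) (hs : ∀ x ∈ Y, ∀ u v, ⟪N x u, v⟫ = ⟪u, N x v⟫)
    (hι : Fintype.card ι = r) : OR (ι := ι) (Y ×ˢ CPk 1) (NLp N) (WNp ι N) :=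
  or_NL (pfield_comp hN smap_fst') (fun z hz => hs z.1 hz.1) (lineF_CPk.comp smap_snd') hι

theorem ecF : EC (CPk 1) (Fk 1) := curvEC curv_SU

theorem Fk_sq : Eqv (CPk 1) (Fk 1 ^ 2) 0 :=
  SO.eqv_zero_of_gt (clo_CPk (k := 1)).sub (curv_SU.hom.pow 2) (by norm_num)

/-- **the Euler form of `N ⊗ L` on `Y × P^1`**, `N` of odd rank `2 s + 1` -/
theorem coh_NLp (hY : Sub d Y) (hYc : IsPreconnected Y) (hN : PField Y (2 * s + 1) N)
    (hs : ∀ x ∈ Y, ∀ u v, ⟪N x u, v⟫ = ⟪u, N x v⟫) (hι : Fintype.card ι = 2 * s + 1) :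
    ∃ ε : ℝ, (ε = 1 ∨ ε = -1) ∧ Coh (Y ×ˢ CPk 1) (eR (NLp N) (WNp ι N))
      ((ε * (2 ^ (2 * s + 1) * (Nat.factorial (2 * s + 1))))
        • (F.pull Prod.fst (cR (2 * s) N) * F.pull Prod.snd (Fk 1))) := by
  have hZ : Sub (d + 2) (Y ×ˢ CPk 1) := hY.prod (clo_CPk (k := 1)).sub
  have hZc : IsPreconnected (Y ×ˢ CPk 1) := hYc.prod isPreconnected_CPk
  have hC : Sub 2 (CPk 1) := (clo_CPk (k := 1)).sub
  have hL := (lineF_CPk (k := 1)).comp (X := Y ×ˢ CPk 1) (f := (Prod.snd : E × MM (1 + 1) → MM (1 + 1)))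
    smap_snd'
  obtain ⟨σ, hσ, h1⟩ := sc_Lt (emb_SU (k := 1)) cir_SU HW.clo_SU
    HW.isPreconnected_SU conn_SU curv_SU ecF
  have hEs : EC (Y ×ˢ CPk 1) (F.pull (Prod.snd : E × MM (1 + 1) → MM (1 + 1)) (Fk 1)) :=
    ecF.pull smap_snd'
  have h2 : sc hZ hL.idF 1 = ((1 : ℝ) : ℂ) • ((σ * Complex.I) • rcl hEs) := by
    have h3 := map_sc hZ hC (smap_snd' (Y := Y) (k := 1)) (idF_Lt (emb_SU (k := 1))) 1
    have h4 : sc hC (idF_Lt (emb_SU (k := 1))) 1 = (σ * Complex.I) • rcl ecF := h1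
    rw [h4, map_smul, ← rcl_pull smap_snd' ecF] at h3
    rw [Complex.ofReal_one, one_smul]
    exact h3.symm
  have hN' := pfield_comp hN (smap_fst' (Y := Y) (k := 1))
  obtain ⟨ε, hε, h5⟩ := coh_NL (ι := ι) hZ hZc hN' (fun z hz => hs z.1 hz.1) hL hι hEs hσ h2
  -- the polynomial
  have hsq : Eqv (Y ×ˢ CPk 1) (F.pull (Prod.snd : E × MM (1 + 1) → MM (1 + 1)) (Fk 1) ^ 2) 0 := by
    have := (Fk_sq).pull (smap_snd' (Y := Y) (k := 1))
    rwa [pull_pow', pull_zero'] at this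
  have hdiv : (2 * s + 1) / 2 = s := by omega
  have hz : ∀ c : ℝ, ∀ a : E × MM (1 + 1) → Ext (E × MM (1 + 1)), ∀ q, 2 ≤ q →
      Eqv (Y ×ˢ CPk 1) (c • (a * F.pull (Prod.snd : E × MM (1 + 1) → MM (1 + 1)) (Fk 1) ^ q)) 0 := by
    intro c a q hq
    obtain ⟨q', rfl⟩ := Nat.exists_eq_add_of_le hq
    have h6 := ((Eqv.refl a).mul (hsq.mul (Eqv.refl
      (F.pull (Prod.snd : E × MM (1 + 1) → MM (1 + 1)) (Fk 1) ^ q')))).smul c
    rwa [← pow_add, zero_mul, mul_zero, smul_zero] at h6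
  have h6 : Coh (Y ×ˢ CPk 1) (topr (2 * s + 1) 1 (fun z : E × MM (1 + 1) => N z.1)
      (F.pull Prod.snd (Fk 1)))
      ((-1 : ℝ) ^ s • (F.pull Prod.fst (cR (2 * s) N) * F.pull Prod.snd (Fk 1))) := by
    rw [topr, hdiv, Finset.sum_range_succ]
    have h7 : Eqv (Y ×ˢ CPk 1) (∑ j ∈ Finset.range s, ((-1 : ℝ) ^ j * 1 ^ (2 * s + 1 - 2 * j))
        • (cR (2 * j) (fun z : E × MM (1 + 1) => N z.1)
          * F.pull (Prod.snd : E × MM (1 + 1) → MM (1 + 1)) (Fk 1) ^ (2 * s + 1 - 2 * j))) 0 := by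
      have h8 : ∀ t : Finset ℕ, (∀ j ∈ t, j < s) → Eqv (Y ×ˢ CPk 1)
          (∑ j ∈ t, ((-1 : ℝ) ^ j * 1 ^ (2 * s + 1 - 2 * j))
          • (cR (2 * j) (fun z : E × MM (1 + 1) => N z.1)
            * F.pull (Prod.snd : E × MM (1 + 1) → MM (1 + 1)) (Fk 1) ^ (2 * s + 1 - 2 * j))) 0 := by
        intro t
        induction t using Finset.induction_on with
        | empty => intro _; rw [Finset.sum_empty]; exact Eqv.refl _
        | insert j t hj ih =>
          intro hh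
          rw [Finset.sum_insert hj]
          have h9 := (hz ((-1 : ℝ) ^ j * 1 ^ (2 * s + 1 - 2 * j))
            (cR (2 * j) (fun z : E × MM (1 + 1) => N z.1)) (2 * s + 1 - 2 * j)
            (by have := hh j (Finset.mem_insert_self _ _); omega)).add
            (ih fun i hi => hh i (Finset.mem_insert_of_mem hi))
          rwa [add_zero] at h9
      exact h8 _ fun j hj => Finset.mem_range.1 hj
    have e1 : 2 * s + 1 - 2 * s = 1 := by omega
    rw [e1, one_pow, mul_one, pow_one]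
    have h9 := coh_cR_comp hZ hY (smap_fst' (Y := Y) (k := 1)) hN (2 * s)
    have h10 := ((h9.mul_right hEs.sm hEs.cl).smul ((-1 : ℝ) ^ s))
    have h11 := (Coh.of_eqv h7).add h10
    rwa [zero_add] at h11
  have h12 := h5.trans (h6.smul (ε * (2 ^ (2 * s + 1) * (Nat.factorial (2 * s + 1)))))
  rw [smul_smul] at h12
  refine ⟨ε * (-1) ^ s, ?_, ?_⟩
  · rcases hε with rfl | rfl <;> rcases Nat.even_or_odd s with h | h <;>
      rw [h.neg_one_pow] <;> norm_num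
  · have e2 : ε * (2 ^ (2 * s + 1) * (Nat.factorial (2 * s + 1))) * (-1) ^ s
        = ε * (-1) ^ s * (2 ^ (2 * s + 1) * (Nat.factorial (2 * s + 1) : ℝ)) := by ring
    rwa [e2] at h12

end prod

end Crest.Agent.R208.EP
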