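import Crest.Agent.R208.XF1a
import Crest.Agent.R208.THD2

/-! Row 208, block XF (helper885).  XF1b: the value of the local limit: `± ∫ GG (‖z‖²)`. -/

set_option autoImplicit false
set_option linter.unusedSectionVars false

open MeasureTheory MeasureTheory.Measure Set Filter Topology Module Matrix
open scoped ContDiff
open Crest.Agent.R208.F Crest.Agent.R208.FI Crest.Agent.R208.CW Crest.Agent.R208.T

noncomputable section

namespace Crest.Agent.R208.XF

variable {E : Type*} [NormedAddCommGroup E] [NormedSpace ℝ E] [FiniteDimensional ℝ E]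
  {n ι : Type*} [Fintype n] [DecidableEq n] [Fintype ι] [DecidableEq ι]

variable (ι) in
/-- the fibre integral of the Thom form -/
def tau0 : ℝ := ∫ z : Eu (Fintype.card ι * 2), GG ι (‖z‖ ^ 2)

/-- coordinates with respect to the frame -/
def Mf (f : Matrix n (ι × Fin 2) ℝ) (L : Eu (Fintype.card ι * 2) →L[ℝ] EuclideanSpace ℝ n) :
    Eu (Fintype.card ι * 2) →ₗ[ℝ] Eu (Fintype.card ι * 2) :=
  (WithLp.linearEquiv 2 ℝ (Fin (Fintype.card ι * 2) → ℝ)).symm.toLinearMap ∘ₗ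
    LinearMap.pi fun k => (eta f ((kFin ι).symm k)) ∘ₗ
      (L : Eu (Fintype.card ι * 2) →ₗ[ℝ] EuclideanSpace ℝ n)

theorem Mf_apply (f : Matrix n (ι × Fin 2) ℝ)
    (L : Eu (Fintype.card ι * 2) →L[ℝ] EuclideanSpace ℝ n) (y : Eu (Fintype.card ι * 2))
    (k : Fin (Fintype.card ι * 2)) : Mf f L y k = eta f ((kFin ι).symm k) (L y) := rfl

theorem pb_Xi (f : Matrix n (ι × Fin 2) ℝ)
    (L : Eu (Fintype.card ι * 2) →L[ℝ] EuclideanSpace ℝ n) :
    pb (L : Eu (Fintype.card ι * 2) →ₗ[ℝ] EuclideanSpace ℝ n) (Xi f) =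
      pb (Mf f L) (vol (Fintype.card ι * 2)) := by
  rw [Xi, vol, pb_iMulti, pb_iMulti]
  congr 1

theorem top_pb_Xi (f : Matrix n (ι × Fin 2) ℝ)
    (L : Eu (Fintype.card ι * 2) →L[ℝ] EuclideanSpace ℝ n) :
    top (Fintype.card ι * 2) (pb (L : Eu (Fintype.card ι * 2) →ₗ[ℝ] EuclideanSpace ℝ n) (Xi f)) =
      LinearMap.det (Mf f L) := by
  rw [pb_Xi, top_pb_det, top_vol, mul_one]

variable {f : Matrix n (ι × Fin 2) ℝ} {A : EuclideanSpace ℝ n →L[ℝ] EuclideanSpace ℝ n}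
  {L : Eu (Fintype.card ι * 2) →L[ℝ] EuclideanSpace ℝ n}

theorem norm_Mf (hf : fᵀ * f = 1) (hA : ∀ v i, A v i = ∑ j, (f * fᵀ) i j * v j)
    (hL : ∀ y, A (L y) = L y) (y : Eu (Fintype.card ι * 2)) : ‖Mf f L y‖ ^ 2 = ‖L y‖ ^ 2 := by
  rw [← hL y, norm_A hf hA, EuclideanSpace.norm_sq_eq, ← (kFin ι).sum_comp]
  refine Finset.sum_congr rfl fun p _ => ?_
  rw [Mf_apply, Equiv.symm_apply_apply, eta_apply, Real.norm_eq_abs, sq_abs, sq]
  rfl

theorem det_Mf_ne (hf : fᵀ * f = 1) (hA : ∀ v i, A v i = ∑ j, (f * fᵀ) i j * v j)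
    (hL : ∀ y, A (L y) = L y) (hi : Function.Injective L) : LinearMap.det (Mf f L) ≠ 0 := by
  have h1 : Function.Injective (Mf f L) := by
    rw [injective_iff_map_eq_zero]
    intro y hy
    have h2 := norm_Mf hf hA hL y
    rw [hy, norm_zero] at h2
    have h3 : L y = 0 := by
      rw [← norm_eq_zero]
      nlinarith [norm_nonneg (L y)]
    exact (injective_iff_map_eq_zero L).1 hi y h3
  have h2 : LinearMap.ker (Mf f L) = ⊥ := LinearMap.ker_eq_bot.2 h1
  exact fun h => (LinearMap.bot_lt_ker_of_det_eq_zero h).ne' h2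

theorem integral_comp_linear {d : ℕ} {M : Eu d →ₗ[ℝ] Eu d} (hM : LinearMap.det M ≠ 0)
    (φ : Eu d → ℝ) : ∫ y, φ (M y) = |LinearMap.det M|⁻¹ * ∫ z, φ z := by
  have h1 := Measure.map_linearMap_addHaar_eq_smul_addHaar (volume : Measure (Eu d)) hM
  have h2 : MeasurableEmbedding M := by
    have : (LinearMap.toContinuousLinearMap M : Eu d → Eu d) = M := rfl
    have h3 : Function.Injective M := LinearMap.ker_eq_bot.1
      ((LinearMap.isUnit_iff_ker_eq_bot M).1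
        ((LinearMap.isUnit_iff_isUnit_det M).2 (isUnit_iff_ne_zero.2 hM)))
    exact (M.continuous_of_finiteDimensional).measurableEmbedding h3
  have h3 := h2.integral_map (μ := volume) φ
  rw [h1] at h3
  rw [← h3, integral_smul_measure, abs_inv, ENNReal.toReal_ofReal (inv_nonneg.2 (abs_nonneg _)),
    smul_eq_mul]

theorem local_value [Nonempty ι] {P : E → EuclideanSpace ℝ n →L[ℝ] EuclideanSpace ℝ n}
    {W : E → (ι × Fin 2 → n) → ℝ} {x : E} (hP : ContDiffAt ℝ ∞ P x)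
    (hf : fᵀ * f = 1) (hPf : ∀ v i, P x v i = ∑ j, (f * fᵀ) i j * v j)
    (hWf : ∀ I, W x I = (f.submatrix I id).det) (hL : ∀ y, P x (L y) = L y)
    (hi : Function.Injective L) :
    ∃ ε : ℝ, (ε = 1 ∨ ε = -1) ∧
      ∫ y : Eu (Fintype.card ι * 2), top (Fintype.card ι * 2)
        (pb (((0 : Eu (Fintype.card ι * 2) →L[ℝ] E).prod L :
          Eu (Fintype.card ι * 2) →L[ℝ] E × EuclideanSpace ℝ n) :
          Eu (Fintype.card ι * 2) →ₗ[ℝ] E × EuclideanSpace ℝ n) (thomF P W (x, L y))) =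
        ε * tau0 ι := by
  have hdet := det_Mf_ne hf hPf hL hi
  have key : ∀ y : Eu (Fintype.card ι * 2), top (Fintype.card ι * 2)
        (pb (((0 : Eu (Fintype.card ι * 2) →L[ℝ] E).prod L :
          Eu (Fintype.card ι * 2) →L[ℝ] E × EuclideanSpace ℝ n) :
          Eu (Fintype.card ι * 2) →ₗ[ℝ] E × EuclideanSpace ℝ n) (thomF P W (x, L y))) =
        GG ι (‖Mf f L y‖ ^ 2) * LinearMap.det (Mf f L) := by
    intro y
    have h1 := pb_thomF (W := W) hP hf hPf hWf (L y)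
    rw [hL y] at h1
    have h2 : (((0 : Eu (Fintype.card ι * 2) →L[ℝ] E).prod L :
          Eu (Fintype.card ι * 2) →L[ℝ] E × EuclideanSpace ℝ n) :
          Eu (Fintype.card ι * 2) →ₗ[ℝ] E × EuclideanSpace ℝ n) =
        (((ContinuousLinearMap.inr ℝ E (EuclideanSpace ℝ n)).comp (P x) :
          EuclideanSpace ℝ n →L[ℝ] E × EuclideanSpace ℝ n) :
          EuclideanSpace ℝ n →ₗ[ℝ] E × EuclideanSpace ℝ n) ∘ₗ
        (L : Eu (Fintype.card ι * 2) →ₗ[ℝ] EuclideanSpace ℝ n) := by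
      refine LinearMap.ext fun v => ?_
      change ((0 : E), L v) = ((0 : E), P x (L v))
      rw [hL v]
    rw [h2, ← pb_comp, h1, map_smul, map_smul, top_pb_Xi, norm_Mf hf hPf hL y, smul_eq_mul]
  simp only [key]
  rw [integral_mul_const, integral_comp_linear hdet (fun z => GG ι (‖z‖ ^ 2))]
  change ∃ ε : ℝ, (ε = 1 ∨ ε = -1) ∧ |LinearMap.det (Mf f L)|⁻¹ * tau0 ι *
    LinearMap.det (Mf f L) = ε * tau0 ι
  rcases lt_or_gt_of_ne hdet with h | h
  · refine ⟨-1, Or.inr rfl, ?_⟩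
    rw [abs_of_neg h]
    field_simp
  · refine ⟨1, Or.inl rfl, ?_⟩
    rw [abs_of_pos h]
    field_simp

end Crest.Agent.R208.XF
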