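import Crest.Agent.R208.XF0
import Crest.Agent.R208.XF1b
import Crest.Agent.R208.THB4

/-! Row 208, block XF (helper885).  XF1c: **the zero locus formula**
`∫_X e(P) = (4π)^r r! Σ_{s x = 0} ± 1` for a section with non degenerate zeros. -/

set_option autoImplicit false
set_option linter.unusedSectionVars false

open MeasureTheory MeasureTheory.Measure Set Filter Topology Module Matrix
open scoped ContDiff
open Crest.Agent.R208.F Crest.Agent.R208.FI Crest.Agent.R208.CW Crest.Agent.R208.T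

noncomputable section

namespace Crest.Agent.R208.XF

variable {E : Type*} [NormedAddCommGroup E] [NormedSpace ℝ E] [FiniteDimensional ℝ E]
  {H : Type*} [NormedAddCommGroup H] [NormedSpace ℝ H] [FiniteDimensional ℝ H] {d : ℕ}
  {X : Set E} {s : E → H}

/-- lower bound near a nondegenerate zero -/
theorem exists_lower {g : Eu d → H} {u0 : Eu d} {L : Eu d →L[ℝ] H} (hg : HasFDerivAt g L u0)
    (hg0 : g u0 = 0) (hL : Function.Injective L) :
    ∃ c : ℝ, 0 < c ∧ ∀ᶠ u in 𝓝 u0, c * ‖u - u0‖ ≤ ‖g u‖ := by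
  obtain ⟨K, hK, hK'⟩ := (L : Eu d →ₗ[ℝ] H).exists_antilipschitzWith (LinearMap.ker_eq_bot.2 hL)
  have h1 : ∀ w, ‖w‖ ≤ K * ‖L w‖ := fun w => by
    have := hK'.le_mul_dist w 0
    simpa [dist_eq_norm] using this
  have hK0 : (0:ℝ) < K := hK
  refine ⟨(2 * (K:ℝ))⁻¹, by positivity, ?_⟩
  have h2 := (hg.isLittleO.def (c := (2 * (K:ℝ))⁻¹) (by positivity))
  filter_upwards [h2] with u hu
  rw [hg0, sub_zero] at hu
  have h3 := h1 (u - u0)
  have h4 : ‖L (u - u0)‖ ≤ ‖g u‖ + ‖g u - L (u - u0)‖ := by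
    have := norm_sub_norm_le (L (u - u0)) (g u)
    rw [norm_sub_rev] at this
    linarith
  have h5 : (K:ℝ)⁻¹ * ‖u - u0‖ ≤ ‖L (u - u0)‖ := by
    rw [inv_mul_le_iff₀ hK0]; exact h3
  have h6 : (2 * (K:ℝ))⁻¹ = (K:ℝ)⁻¹ / 2 := by
    rw [mul_inv]; ring
  rw [h6] at hu ⊢
  linarith

/-- local data at a nondegenerate zero -/
theorem exists_local (hX : Clo d X) {z : E} (hz : z ∈ X) (hs : ContDiffAt ℝ ∞ s z)
    (hz0 : s z = 0) (hnd : ∀ v ∈ Tan X z, fderiv ℝ s z v = 0 → v = 0) {U : Set E} (hU : U ∈ 𝓝 z) :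
    ∃ (f : Eu d → E) (V : Set (Eu d)) (u0 : Eu d) (ρ c : ℝ), 0 < ρ ∧ 0 < c ∧ Chart d X f V ∧
      Metric.closedBall u0 ρ ⊆ V ∧ f u0 = z ∧ (∀ u ∈ Metric.closedBall u0 ρ, f u ∈ U) ∧
      (∀ u ∈ Metric.closedBall u0 ρ, c * ‖u - u0‖ ≤ ‖s (f u)‖) ∧
      Function.Injective (fderiv ℝ (fun u => s (f u)) u0) := by
  obtain ⟨f, V, hf, u0, hu0, rfl⟩ := hX.chart z hz
  have hsd : DifferentiableAt ℝ s (f u0) := hs.differentiableAt (by simp)
  have hd : HasFDerivAt (fun u => s (f u)) ((fderiv ℝ s (f u0)).comp (fderiv ℝ f u0)) u0 :=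
    hsd.hasFDerivAt.comp u0 (hf.differentiableAt hu0).hasFDerivAt
  have hinj : Function.Injective ((fderiv ℝ s (f u0)).comp (fderiv ℝ f u0)) := by
    rw [injective_iff_map_eq_zero]
    intro w hw
    have h1 := hnd _ (hf.fderiv_mem hu0 w) hw
    exact (injective_iff_map_eq_zero (fderiv ℝ f u0)).1 (hf.inj u0 hu0) w h1
  obtain ⟨c, hc, hev⟩ := exists_lower hd hz0 hinj
  have h2 : ∀ᶠ u in 𝓝 u0, f u ∈ U := (hf.differentiableAt hu0).continuousAt.eventually hU
  have h3 : ∀ᶠ u in 𝓝 u0, u ∈ V := hf.isOpen.mem_nhds hu0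
  obtain ⟨ρ, hρ, hball⟩ := Metric.nhds_basis_closedBall.mem_iff.1 ((hev.and (h2.and h3)))
  exact ⟨f, V, u0, ρ, c, hρ, hc, hf, fun u hu => (hball hu).2.2, rfl, fun u hu => (hball hu).2.1,
    fun u hu => (hball hu).1, by rw [hd.fderiv]; exact hinj⟩

/-- the derivative of a section at a zero has values in the fibre -/
theorem fderiv_section {P : E → H →L[ℝ] H} {f : Eu d → E} {u0 : Eu d} {V : Set (Eu d)}
    (hf : Chart d X f V) (hu0 : u0 ∈ V) (hP : ContDiffAt ℝ ∞ P (f u0))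
    (hs : ContDiffAt ℝ ∞ s (f u0)) (hPs : ∀ x ∈ X, P x (s x) = s x) (h0 : s (f u0) = 0)
    (y : Eu d) : P (f u0) (fderiv ℝ (fun u => s (f u)) u0 y) =
      fderiv ℝ (fun u => s (f u)) u0 y := by
  have hfd := hf.differentiableAt hu0
  have hPd : DifferentiableAt ℝ (fun u => P (f u)) u0 :=
    (hP.differentiableAt (by simp)).comp u0 hfd
  have hsd : DifferentiableAt ℝ (fun u => s (f u)) u0 :=
    (hs.differentiableAt (by simp)).comp u0 hfd
  have h1 := (hPd.hasFDerivAt.clm_apply hsd.hasFDerivAt).fderiv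
  have h2 : (fun u => P (f u) (s (f u))) =ᶠ[𝓝 u0] fun u => s (f u) := by
    filter_upwards [hf.isOpen.mem_nhds hu0] with u hu using hPs _ (hf.mem hu)
  rw [h2.fderiv_eq] at h1
  have h3 := congrArg (fun L : Eu d →L[ℝ] H => L y) h1
  simp only [ContinuousLinearMap.comp_apply, h0, map_zero, add_zero] at h3
  exact h3.symm

end Crest.Agent.R208.XF

namespace Crest.Agent.R208.XF

variable {E : Type*} [NormedAddCommGroup E] [NormedSpace ℝ E] [FiniteDimensional ℝ E]
  {n ι : Type*} [Fintype n] [DecidableEq n] [Fintype ι] [DecidableEq ι]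
  {X : Set E} {oX : E → Ext E} {P : E → EuclideanSpace ℝ n →L[ℝ] EuclideanSpace ℝ n}
  {W : E → (ι × Fin 2 → n) → ℝ} {s : E → EuclideanSpace ℝ n}

theorem J_eqv' {d : ℕ} (hX : Clo d X) {a b : E → Ext E} (h : Eqv X a b) :
    J d X oX a = J d X oX b := by
  refine J_congr hX fun x hx w hw => ?_
  have h1 := ResZero.evA h hx hw
  rw [Pi.sub_apply, map_sub, AlternatingMap.sub_apply, sub_eq_zero] at h1
  exact h1

/-- scaling the section -/
theorem J_scale [Nonempty ι] (hX : Clo (Fintype.card ι * 2) X)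
    (hoX : Ori (Fintype.card ι * 2) X oX) (h : OR X P W) (hs : ∀ x ∈ X, ContDiffAt ℝ ∞ s x)
    (hPs : ∀ x ∈ X, P x (s x) = s x) (lam : ℝ) :
    J (Fintype.card ι * 2) X oX (F.pull (fun x => (x, lam • s x)) (thomF P W)) =
      2 * J (Fintype.card ι * 2) X oX (eR P W) := by
  have hcsf := csf_thomF hX.sub h
  have h1 := J_homotopy (Fh := fun p : E × ℝ => (p.1, (p.2 * lam) • s p.1)) (om := thomF P W)
    (Y := Tot X P) hX hoX
    (fun x hx t _ => by
      have h2 : ContDiffAt ℝ ∞ (fun p : E × ℝ => s p.1) (x, t) :=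
        (hs x hx).comp (x, t) contDiffAt_fst
      exact (contDiffAt_fst.prodMk
        ((contDiffAt_snd.mul contDiffAt_const).smul (h2.of_le two_le_infty))))
    (fun x hx t _ => ⟨hx, by change P x ((t * lam) • s x) = _; rw [map_smul, hPs x hx]⟩)
    (fun y hy => (hcsf.smooth y hy).of_le one_le_inf) hcsf.closed
  simp only [one_mul, zero_mul, zero_smul] at h1
  rw [h1, J_eqv' hX (thomF_zero h)]
  exact J_smul 2

/-- the integral over a chart ball -/
theorem piece_eq {d : ℕ} {τ : E × EuclideanSpace ℝ n → Ext (E × EuclideanSpace ℝ n)}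
    (hoX : Ori d X oX) {f : Eu d → E} {V : Set (Eu d)} (hf : Chart d X f V) {u0 : Eu d} {ρ : ℝ}
    (hρ : 0 < ρ) (hV : Metric.closedBall u0 ρ ⊆ V) (hs : ∀ x ∈ X, ContDiffAt ℝ ∞ s x) :
    ∃ ε : ℝ, (ε = 1 ∨ ε = -1) ∧ ∀ lam : ℝ,
      ∫ y in (toEuclidean : E ≃L[ℝ] _) '' (f '' Metric.ball u0 ρ),
        dens d X oX (F.pull (fun x => (x, lam • s x)) τ) (toEuclidean.symm y) ∂μHE[d] =
      ε * ∫ u in Metric.ball u0 ρ, top d (F.pull (fun u => (f u, lam • s (f u))) τ u) := by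
  have hbV : Metric.ball u0 ρ ⊆ V := Metric.ball_subset_closedBall.trans hV
  have hfb := hf.mono hbV Metric.isOpen_ball
  obtain ⟨ε, hε⟩ := hfb.exists_sign hoX (convex_ball u0 ρ).isPreconnected
  have hu0 : u0 ∈ Metric.ball u0 ρ := Metric.mem_ball_self hρ
  refine ⟨ε, ?_, fun lam => ?_⟩
  · rw [← hε u0 hu0]
    have h0 := hfb.top_ne_zero hoX hu0
    rcases lt_or_gt_of_ne h0 with h | h
    · exact Or.inr (Real.sign_of_neg h)
    · exact Or.inl (Real.sign_of_pos h)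
  · rw [integral_chart hf Metric.isOpen_ball.measurableSet hbV, ← integral_const_mul]
    refine setIntegral_congr_fun Metric.isOpen_ball.measurableSet fun u hu => ?_
    rw [hε u hu, mul_comm]
    congr 2
    have hx : f u ∈ X := hf.mem (hbV hu)
    have h1 : DifferentiableAt ℝ (fun x => (x, lam • s x)) (f u) :=
      differentiableAt_id.prodMk (((hs _ hx).differentiableAt (by simp)).const_smul lam)
    have h2 := pull_comp (om := τ) (hf.differentiableAt (hbV hu)) h1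
    exact h2

/-- **(XF1) THE ZERO LOCUS FORMULA.** -/
theorem zero_locus [Nonempty ι] (hX : Clo (Fintype.card ι * 2) X)
    (hoX : Ori (Fintype.card ι * 2) X oX) (h : OR X P W) (hs : ∀ x ∈ X, ContDiffAt ℝ ∞ s x)
    (hPs : ∀ x ∈ X, P x (s x) = s x) {Z : Finset E} (hZX : ∀ z ∈ Z, z ∈ X)
    (hZ : ∀ z ∈ Z, s z = 0) (hZ' : ∀ x ∈ X, s x = 0 → x ∈ Z)
    (hnd : ∀ z ∈ Z, ∀ v ∈ Tan X z, fderiv ℝ s z v = 0 → v = 0) :
    ∃ ε : E → ℝ, (∀ z ∈ Z, ε z = 1 ∨ ε z = -1) ∧
      J (Fintype.card ι * 2) X oX (eR P W) = tau ι * ∑ z ∈ Z, ε z := by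
  classical
  set d := Fintype.card ι * 2 with hd
  have hcsf := csf_thomF hX.sub h
  set τ := thomF P W with hτ
  obtain ⟨U, hU, hUd⟩ := (Z.finite_toSet).t2_separation
  have key : ∀ z : E, z ∈ Z → ∃ (f : Eu d → E) (V : Set (Eu d)) (u0 : Eu d) (ρ c : ℝ),
      0 < ρ ∧ 0 < c ∧ Chart d X f V ∧
      Metric.closedBall u0 ρ ⊆ V ∧ f u0 = z ∧ (∀ u ∈ Metric.closedBall u0 ρ, f u ∈ U z) ∧
      (∀ u ∈ Metric.closedBall u0 ρ, c * ‖u - u0‖ ≤ ‖s (f u)‖) ∧
      Function.Injective (fderiv ℝ (fun u => s (f u)) u0) := fun z hz =>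
    exists_local hX (hZX z hz) (hs z (hZX z hz)) (hZ z hz) (hnd z hz)
      ((hU z).2.mem_nhds (hU z).1)
  choose! f V u0 ρ c hρ hc hf hV hfu hfU hlow hinj using key
  -- the signs
  have hsg : ∀ z : E, z ∈ Z → ∃ ε : ℝ, (ε = 1 ∨ ε = -1) ∧ ∀ lam : ℝ,
      ∫ y in (toEuclidean : E ≃L[ℝ] _) '' (f z '' Metric.ball (u0 z) (ρ z)),
        dens d X oX (F.pull (fun x => (x, lam • s x)) τ) (toEuclidean.symm y) ∂μHE[d] =
      ε * ∫ u in Metric.ball (u0 z) (ρ z),
        top d (F.pull (fun u => (f z u, lam • s (f z u))) τ u) := fun z hz =>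
    piece_eq hoX (hf z hz) (hρ z hz) (hV z hz) hs
  choose! ε1 hε1 hpc using hsg
  have hlim : ∀ z : E, z ∈ Z → ∃ ε : ℝ, (ε = 1 ∨ ε = -1) ∧
      Tendsto (fun lam : ℝ => ∫ u in Metric.ball (u0 z) (ρ z),
        top d (F.pull (fun u => (f z u, lam • s (f z u))) τ u)) atTop (𝓝 (ε * (2 * tau ι))) := by
    intro z hz
    have hmem : ∀ u ∈ Metric.closedBall (u0 z) (ρ z), f z u ∈ X := fun u hu =>
      (hf z hz).mem (hV z hz hu)
    have hu0 : u0 z ∈ Metric.closedBall (u0 z) (ρ z) := Metric.mem_closedBall_self (hρ z hz).le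
    have hz0 : s (f z (u0 z)) = 0 := by rw [hfu z hz]; exact hZ z hz
    have h1 := local_limit (f := f z) (g := fun u => s (f z u)) (u0 := u0 z) (ρ := ρ z)
      (c := c z) (R := 3) (P := P) (τ := τ) (hρ z hz) (hc z hz)
      (fun u hu => ((hf z hz).contDiffAt (hV z hz hu)).of_le one_le_inf)
      (fun u hu => ((hs _ (hmem u hu)).comp u ((hf z hz).contDiffAt (hV z hz hu))).of_le
        one_le_inf)
      hz0 (hlow z hz)
      (fun u hu => (h.sP _ (hmem u hu)).continuousAt)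
      (fun u hu => hPs _ (hmem u hu))
      (fun u hu v hv => (hcsf.smooth (f z u, v) ⟨hmem u hu, hv⟩).continuousAt)
      (fun w hw => hcsf.supp w hw)
    obtain ⟨fr, hfr, hPfr, hWfr⟩ := h.fr _ (hmem _ hu0)
    obtain ⟨ε, hε, hval⟩ := local_value (W := W) (L := fderiv ℝ (fun u => s (f z u)) (u0 z))
      (h.sP _ (hmem _ hu0)) hfr hPfr hWfr
      (fun y => fderiv_section (hf z hz) (hV z hz hu0) (h.sP _ (hmem _ hu0))
        (hs _ (hmem _ hu0)) hPs hz0 y) (hinj z hz)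
    refine ⟨ε, hε, ?_⟩
    rw [hval, tau0, integral_GG] at h1
    exact h1
  choose! ε2 hε2 hlim using hlim
  refine ⟨fun z => ε1 z * ε2 z, fun z hz => ?_, ?_⟩
  · rcases hε1 z hz with h1 | h1 <;> rcases hε2 z hz with h2 | h2 <;> simp [h1, h2]
  -- away from the zeros
  set S : E → Set E := fun z => f z '' Metric.ball (u0 z) (ρ z) with hS
  have hSX : ∀ z ∈ Z, S z ⊆ X := by
    rintro z hz _ ⟨u, hu, rfl⟩
    exact (hf z hz).mem (hV z hz (Metric.ball_subset_closedBall hu))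
  have hopen : ∀ z : E, z ∈ Z → ∃ O : Set E, IsOpen O ∧ S z = X ∩ O := fun z hz =>
    (hf z hz).image_open _ (Metric.ball_subset_closedBall.trans (hV z hz)) Metric.isOpen_ball
  choose! O hO hSO using hopen
  obtain ⟨R0, hR0, hfar⟩ : ∃ R0 : ℝ, 0 < R0 ∧ ∀ x ∈ X, (∀ z ∈ Z, x ∉ S z) → R0 ≤ ‖s x‖ := by
    have hK : IsCompact (X \ ⋃ z ∈ Z, O z) :=
      hX.compact.diff (isOpen_biUnion fun z hz => hO z hz)
    rcases (X \ ⋃ z ∈ Z, O z).eq_empty_or_nonempty with he | hne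
    · refine ⟨1, one_pos, fun x hx hxS => ?_⟩
      have : x ∈ X \ ⋃ z ∈ Z, O z := ⟨hx, fun hxO => by
        obtain ⟨z, hz, hxz⟩ := mem_iUnion₂.1 hxO
        exact hxS z hz (by rw [hSO z hz]; exact ⟨hx, hxz⟩)⟩
      rw [he] at this
      exact absurd this (notMem_empty x)
    · obtain ⟨x0, hx0, hmin⟩ := hK.exists_isMinOn hne
        (f := fun x => ‖s x‖) (fun x hx => (hs x hx.1).continuousAt.norm.continuousWithinAt)
      refine ⟨‖s x0‖, ?_, fun x hx hxS => ?_⟩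
      · rw [norm_pos_iff]
        intro h0
        have hz := hZ' x0 hx0.1 h0
        refine hx0.2 (mem_iUnion₂.2 ⟨x0, hz, ?_⟩)
        have h1 : x0 ∈ S x0 := ⟨u0 x0, Metric.mem_ball_self (hρ x0 hz), hfu x0 hz⟩
        rw [hSO x0 hz] at h1
        exact h1.2
      · refine hmin (show x ∈ X \ ⋃ z ∈ Z, O z from ⟨hx, fun hxO => ?_⟩)
        obtain ⟨z, hz, hxz⟩ := mem_iUnion₂.1 hxO
        exact hxS z hz (by rw [hSO z hz]; exact ⟨hx, hxz⟩)
  have hsum : ∀ lam : ℝ, 3 / R0 < lam → 2 * J d X oX (eR P W) =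
      ∑ z ∈ Z, ε1 z * ∫ u in Metric.ball (u0 z) (ρ z),
        top d (F.pull (fun u => (f z u, lam • s (f z u))) τ u) := by
    intro lam hlam
    have hlam0 : 0 < lam := (by positivity : (0:ℝ) < 3 / R0).trans hlam
    rw [← J_scale hX hoX h hs hPs lam, FI.J]
    have hsm : ∀ x ∈ X, ContDiffAt ℝ ∞ (fun x => (x, lam • s x)) x := fun x hx =>
      contDiffAt_id.prodMk ((hs x hx).const_smul lam)
    have hcont : ContinuousOn (F.pull (fun x => (x, lam • s x)) τ) X := fun x hx =>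
      (contDiffAt_pull (m := ∞) (hsm x hx) (by simp)
        (hcsf.smooth (x, lam • s x) ⟨hx, by
          change P x (lam • s x) = _; rw [map_smul, hPs x hx]⟩)).continuousAt.continuousWithinAt
    have hint := integrableOn_dens hX hoX hcont
    have hsub : ⋃ z ∈ Z, (toEuclidean : E ≃L[ℝ] _) '' S z ⊆ (toEuclidean : E ≃L[ℝ] _) '' X :=
      iUnion₂_subset fun z hz => image_mono (hSX z hz)
    rw [setIntegral_eq_of_subset_of_forall_sdiff_eq_zero hX.measurableSet hsub]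
    · rw [integral_biUnion_finset]
      · exact Finset.sum_congr rfl fun z hz => hpc z hz lam
      · exact fun z hz => Chart.measurableSet_image (hf z hz) Metric.isOpen_ball.measurableSet
          (Metric.ball_subset_closedBall.trans (hV z hz))
      · intro z hz z' hz' hne
        refine disjoint_image_of_injective (toEuclidean : E ≃L[ℝ] _).injective ?_
        refine (hUd hz hz' hne).mono ?_ ?_
        · rintro _ ⟨u, hu, rfl⟩
          exact hfU z hz u (Metric.ball_subset_closedBall hu)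
        · rintro _ ⟨u, hu, rfl⟩
          exact hfU z' hz' u (Metric.ball_subset_closedBall hu)
      · exact fun z hz => hint.mono_set (image_mono (hSX z hz))
    · rintro y ⟨⟨x, hx, rfl⟩, hy⟩
      have hxS : ∀ z ∈ Z, x ∉ S z := fun z hz hxz =>
        hy (mem_iUnion₂.2 ⟨z, hz, x, hxz, rfl⟩)
      have h1 := hfar x hx hxS
      have h2 : F.pull (fun x => (x, lam • s x)) τ x = 0 := by
        have h3 : τ (x, lam • s x) = 0 := hcsf.supp _ (by
          change 3 < ‖lam • s x‖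
          rw [norm_smul, Real.norm_eq_abs, abs_of_pos hlam0]
          rw [div_lt_iff₀ hR0] at hlam
          exact hlam.trans_le (mul_le_mul_of_nonneg_left h1 hlam0.le))
        rw [F.pull, h3, map_zero]
      simp only [ContinuousLinearEquiv.symm_apply_apply]
      rw [dens, h2, map_zero, AlternatingMap.zero_apply, zero_mul]
  have hT : Tendsto (fun lam : ℝ => ∑ z ∈ Z, ε1 z * ∫ u in Metric.ball (u0 z) (ρ z),
        top d (F.pull (fun u => (f z u, lam • s (f z u))) τ u)) atTop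
      (𝓝 (∑ z ∈ Z, ε1 z * (ε2 z * (2 * tau ι)))) :=
    tendsto_finsetSum _ fun z hz => (hlim z hz).const_mul _
  have hT' : Tendsto (fun lam : ℝ => ∑ z ∈ Z, ε1 z * ∫ u in Metric.ball (u0 z) (ρ z),
        top d (F.pull (fun u => (f z u, lam • s (f z u))) τ u)) atTop
      (𝓝 (2 * J d X oX (eR P W))) := by
    refine tendsto_const_nhds.congr' ?_
    filter_upwards [eventually_gt_atTop (3 / R0)] with lam hlam using hsum lam hlam
  have h3 := tendsto_nhds_unique hT' hT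
  have h4 : ∑ z ∈ Z, ε1 z * (ε2 z * (2 * tau ι)) = 2 * (tau ι * ∑ z ∈ Z, ε1 z * ε2 z) := by
    rw [Finset.mul_sum, Finset.mul_sum]
    exact Finset.sum_congr rfl fun z _ => by ring
  rw [h4] at h3
  linarith

end Crest.Agent.R208.XF
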