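import Crest.Agent.R208.EP5
import Crest.Agent.R208.XF1c
import Crest.Agent.R208.SO1

/-! Row 208, block Q, (Q-p3) (helper607).  EP6: the area of the projective line:
`∫ Fk = 2 π` (from the Poincaré-Hopf theorem, XF1, with one zero). -/

set_option autoImplicit false
set_option linter.unusedSectionVars false
set_option linter.unusedVariables false
set_option linter.unusedSimpArgs false

open Set Filter Topology Module MeasureTheory
open scoped ContDiff RealInnerProductSpace ComplexConjugate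
open Crest.Agent.R208.F Crest.Agent.R208.FI
open Crest.Agent.R208.CW (SMap)
open Crest.Agent.R208.CM
open Crest.Agent.R208.T
open Crest.Agent.R208.EW
open Crest.Agent.R208.HW (U SU mem_SU mem_Tan_SU clo_SU)

noncomputable section

namespace Crest.Agent.R208.EP

/-- the section `y ↦ P_y e_0` of the tautological line, as a linear map -/
def sL : MM (1 + 1) →L[ℝ] EuclideanSpace ℝ (RI (1 + 1)) := LinearMap.toContinuousLinearMap
  { toFun := fun y => WithLp.toLp 2 fun p => (y p.1 0 * wz p.2).re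
    map_add' := fun u v => by
      ext p
      simp [add_mul]
    map_smul' := fun r u => by
      ext p
      simp [mul_assoc] }

theorem sL_apply (y : MM (1 + 1)) (p : RI (1 + 1)) : sL y p = (y p.1 0 * wz p.2).re := rfl

theorem sL_eq (y : MM (1 + 1)) : sL y = PL y (EuclideanSpace.single ((0 : Fin (1 + 1)), (0 : Fin 2)) 1) := by
  ext p
  rw [PL, T.mE_single, sL_apply, Pm, Matrix.of_apply, ce, wz_zero, map_one, mul_one]

/-- zeros of the section -/
theorem sL_zero {y : MM (1 + 1)} (h : sL y = 0) (a : Fin (1 + 1)) : y a 0 = 0 := by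
  have h1 : sL y (a, 0) = 0 := by rw [h]; rfl
  have h2 : sL y (a, 1) = 0 := by rw [h]; rfl
  rw [sL_apply] at h1 h2
  change (y a 0 * wz 0).re = 0 at h1
  change (y a 0 * wz 1).re = 0 at h2
  rw [wz_zero, mul_one] at h1
  rw [wz_one] at h2
  refine Complex.ext h1 ?_
  have h3 : (y a 0 * -Complex.I).re = (y a 0).im := by simp
  rw [h3] at h2
  exact h2

/-- the point `[0 : 1]` -/
def y1 : MM (1 + 1) := fun a b => if a = 1 ∧ b = 1 then 1 else 0

theorem gS_zero_of {x : U 1} (hx : x ∈ SU 1) (h : sL (jj (gS 1) x) = 0) :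
    gS 1 x 0 = 0 ∧ ‖gS 1 x 1‖ ^ 2 = 1 := by
  have h1 : gS 1 x 0 = 0 := by
    have h2 := sL_zero h 0
    change gS 1 x 0 * conj (gS 1 x 0) = 0 at h2
    rw [Complex.mul_conj] at h2
    have h3 : Complex.normSq (gS 1 x 0) = 0 := by exact_mod_cast h2
    exact Complex.normSq_eq_zero.1 h3
  refine ⟨h1, ?_⟩
  have h4 := sum_gS (k := 1) x
  rw [Fin.sum_univ_two, mem_SU.1 hx, h1, norm_zero] at h4
  simpa using h4

theorem jj_eq_y1 {x : U 1} (hx : x ∈ SU 1) (h : sL (jj (gS 1) x) = 0) : jj (gS 1) x = y1 := by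
  obtain ⟨h1, h2⟩ := gS_zero_of hx h
  funext a b
  change gS 1 x a * conj (gS 1 x b) = y1 a b
  fin_cases a <;> fin_cases b
  · change gS 1 x 0 * conj (gS 1 x 0) = y1 0 0
    rw [h1, zero_mul]; rfl
  · change gS 1 x 0 * conj (gS 1 x 1) = y1 0 1
    rw [h1, zero_mul]; rfl
  · change gS 1 x 1 * conj (gS 1 x 0) = y1 1 0
    rw [h1, map_zero, mul_zero]; rfl
  · change gS 1 x 1 * conj (gS 1 x 1) = y1 1 1
    rw [Complex.mul_conj, Complex.normSq_eq_norm_sq, h2, Complex.ofReal_one]; rfl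

theorem exists_x1 : ∃ x ∈ SU 1, jj (gS 1) x = y1 := by
  let x : U 1 := EuclideanSpace.single ((1 : Fin 2), (0 : Fin 2)) 1
  have hx : x ∈ SU 1 := by rw [mem_SU]; simp [x]
  refine ⟨x, hx, jj_eq_y1 hx ?_⟩
  ext p
  have h0 : gS 1 x 0 = 0 := by
    rw [gS_apply]
    refine Complex.ext ?_ ?_ <;> simp [x]
  rw [sL_apply]
  change (gS 1 x p.1 * conj (gS 1 x 0) * wz p.2).re = 0
  rw [h0, map_zero, mul_zero, zero_mul, Complex.zero_re]

theorem y1_mem : y1 ∈ CPk 1 := by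
  obtain ⟨x, hx, h⟩ := exists_x1
  rw [← h]
  exact jj_mem hx

theorem sL_y1 : sL y1 = 0 := by
  ext p
  rw [sL_apply]
  have : y1 p.1 0 = 0 := by
    rw [y1, if_neg]
    rintro ⟨-, h⟩
    exact absurd h (by decide)
  rw [this, zero_mul]; rfl

theorem zero_iff {y : MM (1 + 1)} (hy : y ∈ CPk 1) (h : sL y = 0) : y = y1 := by
  obtain ⟨x, hx, rfl⟩ := hy
  exact jj_eq_y1 hx h

theorem fderiv_jj_gS (x v : U 1) (a b : Fin (1 + 1)) :
    fderiv ℝ (jj (gS 1)) x v a b = gS 1 v a * conj (gS 1 x b) + gS 1 x a * conj (gS 1 v b) := by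
  have hga : ∀ a : Fin (1 + 1), HasFDerivAt (fun y : U 1 => gS 1 y a)
      ((ContinuousLinearMap.proj (R := ℝ) (φ := fun _ : Fin (1 + 1) => ℂ) a).comp (gS 1)) x :=
    fun a => ((ContinuousLinearMap.proj (R := ℝ) (φ := fun _ : Fin (1 + 1) => ℂ) a).comp
      (gS 1)).hasFDerivAt
  have hb : HasFDerivAt (fun y : U 1 => conj (gS 1 y b))
      ((Complex.conjCLE : ℂ →L[ℝ] ℂ).comp
        ((ContinuousLinearMap.proj (R := ℝ) (φ := fun _ : Fin (1 + 1) => ℂ) b).comp (gS 1))) x :=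
    Complex.conjCLE.hasFDerivAt.comp x (hga b)
  have h2 := (hga a).mul hb
  have hd : DifferentiableAt ℝ (jj (gS 1)) x :=
    (contDiffAt_jj_of (k := 1) (gS 1).contDiff.contDiffAt).differentiableAt (by simp)
  have h3 : HasFDerivAt (fun y => jj (gS 1) y a b)
      (((ContinuousLinearMap.proj (R := ℝ) (φ := fun _ : Fin (1 + 1) => ℂ) b).comp
        (ContinuousLinearMap.proj (R := ℝ) (φ := fun _ : Fin (1 + 1) => (Fin (1 + 1) → ℂ)) a)).comp
          (fderiv ℝ (jj (gS 1)) x)) x :=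
    ((ContinuousLinearMap.proj (R := ℝ) (φ := fun _ : Fin (1 + 1) => ℂ) b).comp
      (ContinuousLinearMap.proj (R := ℝ) (φ := fun _ : Fin (1 + 1) => (Fin (1 + 1) → ℂ))
        a)).hasFDerivAt.comp x hd.hasFDerivAt
  have h4 := congrArg (fun L : U 1 →L[ℝ] ℂ => L v) (h2.unique h3)
  have h5 : gS 1 x a * conj (gS 1 v b) + conj (gS 1 x b) * gS 1 v a =
      fderiv ℝ (jj (gS 1)) x v a b := h4
  rw [← h5]; ring

theorem nondeg {v : MM (1 + 1)} (hv : v ∈ Tan (CPk 1) y1) (h0 : sL v = 0) : v = 0 := by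
  obtain ⟨x, hx, hxy⟩ := exists_x1
  have hs : sL (jj (gS 1) x) = 0 := by rw [hxy]; exact sL_y1
  obtain ⟨g0, g1⟩ := gS_zero_of hx hs
  have hT := (emb_SU (k := 1)).Tan_Quo cir_SU clo_SU hx
  rw [hxy] at hT
  change v ∈ Tan (Quo (SU 1) (gS 1)) y1 at hv
  rw [hT] at hv
  obtain ⟨w, hw, rfl⟩ := hv
  have hwT := (mem_Tan_SU hx).1 hw
  have e : ∀ a b, (fderiv ℝ (jj (gS 1)) x : U 1 →ₗ[ℝ] MM (1 + 1)) w a b
      = gS 1 w a * conj (gS 1 x b) + gS 1 x a * conj (gS 1 w b) := fun a b => fderiv_jj_gS x w a b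
  have hne : gS 1 x 1 ≠ 0 := by
    intro h
    rw [h, norm_zero] at g1
    norm_num at g1
  have k1 := sL_zero h0 1
  rw [e, g0, map_zero, mul_zero, zero_add] at k1
  have k2 : gS 1 w 0 = 0 := by
    have := (mul_eq_zero.1 k1).resolve_left hne
    exact (map_eq_zero (starRingEnd ℂ)).1 this
  have k3 : gS 1 w 1 * conj (gS 1 x 1) + gS 1 x 1 * conj (gS 1 w 1) = 0 := by
    have h1 : ⟪x, w⟫ = (gS 1 w 1 * conj (gS 1 x 1)).re := by
      rw [HW.inner_eq, Fin.sum_univ_two]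
      have a1 : x (0, 0) = 0 := congrArg Complex.re g0
      have a2 : x (0, 1) = 0 := congrArg Complex.im g0
      rw [a1, a2, gS_apply, gS_apply, Complex.mul_re, Complex.conj_re, Complex.conj_im]
      change 0 * w (0, 0) + 0 * w (0, 1) + (x (1, 0) * w (1, 0) + x (1, 1) * w (1, 1))
        = w (1, 0) * x (1, 0) - w (1, 1) * -x (1, 1)
      ring
    rw [hwT] at h1
    have h2 : gS 1 x 1 * conj (gS 1 w 1) = conj (gS 1 w 1 * conj (gS 1 x 1)) := by
      rw [map_mul, Complex.conj_conj, mul_comm]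
    rw [h2, Complex.add_conj, ← h1]
    simp
  funext a b
  change (fderiv ℝ (jj (gS 1)) x : U 1 →ₗ[ℝ] MM (1 + 1)) w a b = 0
  rw [e]
  fin_cases a <;> fin_cases b
  · change gS 1 w 0 * conj (gS 1 x 0) + gS 1 x 0 * conj (gS 1 w 0) = 0
    simp [k2, g0]
  · change gS 1 w 0 * conj (gS 1 x 1) + gS 1 x 0 * conj (gS 1 w 1) = 0
    rw [k2, g0, zero_mul, zero_mul, add_zero]
  · change gS 1 w 1 * conj (gS 1 x 0) + gS 1 x 1 * conj (gS 1 w 0) = 0
    rw [k2, g0, map_zero, mul_zero, mul_zero, add_zero]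
  · exact k3

/-- **the area of the projective line** -/
theorem J_CP1 : J 2 (CPk 1) (Fk 1) (Fk 1) = 2 * Real.pi := by
  have hX : Clo 2 (CPk 1) := clo_CPk (k := 1)
  have ho : Ori 2 (CPk 1) (Fk 1) := ori_CP1
  have hO := (emb_SU (k := 1)).or_L
  have hs : ∀ y ∈ CPk 1, ContDiffAt ℝ ∞ sL y := fun y _ => sL.contDiff.contDiffAt
  have hPs : ∀ y ∈ CPk 1, PL (m := 1 + 1) y (sL y) = sL y := by
    intro y hy
    rw [sL_eq]
    exact hO.pfield.idem y hy _
  obtain ⟨ε, h1, h2⟩ := XF.zero_locus (ι := Unit) (X := CPk 1) (oX := Fk 1) (P := PL (m := 1 + 1))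
    (W := WL) (s := sL) (by simpa using hX) (by simpa using ho) hO hs hPs (Z := {y1})
    (fun z hz => by rw [Finset.mem_singleton] at hz; rw [hz]; exact y1_mem)
    (fun z hz => by rw [Finset.mem_singleton] at hz; rw [hz]; exact sL_y1)
    (fun y hy h => Finset.mem_singleton.2 (zero_iff hy h))
    (fun z hz v hv h => by
      rw [Finset.mem_singleton] at hz
      subst hz
      rw [sL.fderiv] at h
      exact nondeg hv h)
  rw [Finset.sum_singleton] at h2
  have htau : XF.tau Unit = 4 * Real.pi := by simp [XF.tau]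
  have h3 : J 2 (CPk 1) (Fk 1) (eR (PL (m := 1 + 1)) WL) = 4 * Real.pi * ε y1 := by
    rw [← htau]
    simpa using h2
  have hsm : Sm (CPk 1) (eR (PL (m := 1 + 1)) WL) := (orEC hO).sm
  have h4 := SO.J_coh hX ho curv_SU.sm (hsm.smul (-(1 / 2)))
    (curv_SU.coh_eR (emb_SU (k := 1)) cir_SU clo_SU conn_SU)
  have h5 : J 2 (CPk 1) (Fk 1) ((-(1 / 2) : ℝ) • eR (PL (m := 1 + 1)) WL)
      = (-(1 / 2)) * J 2 (CPk 1) (Fk 1) (eR (PL (m := 1 + 1)) WL) := J_smul _
  rw [h5, h3] at h4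
  have h6 : 0 < J 2 (CPk 1) (Fk 1) (Fk 1) := J_pos hX ho nonempty_CPk
  rcases h1 y1 (Finset.mem_singleton_self _) with e | e
  · rw [e] at h4
    rw [h4] at h6
    have := Real.pi_pos
    exfalso
    linarith
  · rw [h4, e]; ring

end Crest.Agent.R208.EP
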