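import Crest.Agent.R208.CW5c

/-! Row 208, block EW (helper607).  EW1: the top Chern class of the tensor product of a bundle with
a line bundle. -/

set_option autoImplicit false
set_option linter.unusedSectionVars false
set_option linter.unusedVariables false

open scoped BigOperators ContDiff Topology Kronecker
open Module Set Matrix

noncomputable section

namespace Crest.Agent.R208.EW

open Crest.Agent.R208.F Crest.Agent.R208.FI Crest.Agent.R208.CW

universe u

section alg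
variable {A : Type*} [CommRing A]

/-- `det (z + L) = ∑ e_i(L) z^{r-i}` -/
theorem det_smul_one_add {r : ℕ} (L : Matrix (Fin r) (Fin r) A) (z : A) :
    (z • (1 : Matrix (Fin r) (Fin r) A) + L).det
      = ∑ i ∈ Finset.range (r + 1), (cpoly L).coeff i * z ^ (r - i) := by
  nontriviality A
  have h1 : (Matrix.charpoly (-L)).eval z = (z • (1 : Matrix (Fin r) (Fin r) A) + L).det := by
    rw [Matrix.eval_charpoly]
    congr 1
    rw [Matrix.scalar_apply, ← Matrix.smul_one_eq_diagonal, sub_neg_eq_add]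
  have h2 : (Matrix.charpoly (-L)).reverse = cpoly L := by
    rw [Matrix.reverse_charpoly, Matrix.charpolyRev, cpoly]
    congr 1
    rw [sub_eq_add_neg, ← smul_neg]
    congr 2
    refine Matrix.ext fun i j => ?_
    simp
  have hd : (Matrix.charpoly (-L)).natDegree = r := by
    rw [Matrix.charpoly_natDegree_eq_dim, Fintype.card_fin]
  have h3 : ∀ i ≤ r, (cpoly L).coeff i = (Matrix.charpoly (-L)).coeff (r - i) := by
    intro i hi
    rw [← h2, Polynomial.coeff_reverse, hd, Polynomial.revAt_le hi]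
  rw [← h1, Polynomial.eval_eq_sum_range, hd, ← Finset.sum_range_reflect]
  refine Finset.sum_congr rfl fun i hi => ?_
  have hi' : i ≤ r := by simpa [Nat.lt_succ_iff] using hi
  rw [h3 i hi', show r + 1 - 1 - i = r - i by omega]

end alg

section factor
variable {n : Type*} [Fintype n] [DecidableEq n]

/-- an idempotent of rank `r` factors through `ℂ^r` -/
theorem exists_idem_factor {q : Matrix n n ℂ} (hq : q * q = q) {r : ℕ} (hr : q.rank = r) :
    ∃ (S : Matrix n (Fin r) ℂ) (T : Matrix (Fin r) n ℂ), S * T = q ∧ T * S = 1 := by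
  classical
  let V := LinearMap.range q.mulVecLin
  have hV : finrank ℂ V = r := hr
  let e : V ≃ₗ[ℂ] (Fin r → ℂ) := LinearEquiv.ofFinrankEq _ _ (by rw [hV]; simp)
  let f : (Fin r → ℂ) →ₗ[ℂ] (n → ℂ) := V.subtype ∘ₗ e.symm.toLinearMap
  let g : (n → ℂ) →ₗ[ℂ] (Fin r → ℂ) := e.toLinearMap ∘ₗ q.mulVecLin.rangeRestrict
  refine ⟨LinearMap.toMatrix' f, LinearMap.toMatrix' g, ?_, ?_⟩
  · rw [← LinearMap.toMatrix'_comp]
    have : f ∘ₗ g = q.mulVecLin := by
      refine LinearMap.ext fun v => ?_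
      simp [f, g]
    rw [this, ← Matrix.toLin'_apply', LinearMap.toMatrix'_toLin']
  · rw [← LinearMap.toMatrix'_comp]
    have : g ∘ₗ f = LinearMap.id := by
      refine LinearMap.ext fun v => ?_
      have h1 : q.mulVecLin.rangeRestrict ((e.symm v : V) : n → ℂ) = e.symm v := by
        refine Subtype.ext ?_
        obtain ⟨w, hw⟩ := (e.symm v).2
        change q.mulVecLin ((e.symm v : V) : n → ℂ) = _
        rw [← hw, Matrix.mulVecLin_apply, Matrix.mulVecLin_apply, Matrix.mulVec_mulVec, hq]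
      change e (q.mulVecLin.rangeRestrict ((e.symm v : V) : n → ℂ)) = v
      rw [h1, LinearEquiv.apply_symm_apply]
    rw [this, LinearMap.toMatrix'_id]

end factor

section curv
variable {T₀ : Type*} [AddCommGroup T₀] [Module ℝ T₀] {n n' : Type*} [Fintype n] [Fintype n']
  [DecidableEq n] [DecidableEq n']

/-- top coefficient of the curvature of `q ⊗ (line)` -/
theorem cpoly_kron_line {q : Matrix n n ℂ} {q' : Matrix n' n' ℂ} (hq : q * q = q)
    (hq' : q' * q' = q') {r : ℕ} (hr : q.rank = r) (hr' : q'.rank = 1)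
    {w : Matrix n n (EvC T₀)} {w' : Matrix n' n' (EvC T₀)} (h1 : hv T₀ q * w = w)
    (h2 : w * hv T₀ q = w) (h1' : hv T₀ q' * w' = w') (h2' : w' * hv T₀ q' = w') :
    (cpoly (w ⊗ₖ hv T₀ q' + hv T₀ q ⊗ₖ w')).coeff r
      = ∑ i ∈ Finset.range (r + 1), (cpoly w).coeff i * w'.trace ^ (r - i) := by
  obtain ⟨S, T, hST, hTS⟩ := exists_idem_factor hq hr
  obtain ⟨s, t, hst, hts⟩ := exists_idem_factor hq' hr'
  set z : EvC T₀ := (hv T₀ t * w' * hv T₀ s) 0 0 with hz
  set L : Matrix (Fin r) (Fin r) (EvC T₀) := hv T₀ T * w * hv T₀ S with hL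
  have e1 : hv T₀ S * hv T₀ T = hv T₀ q := by rw [← hv_mul, hST]
  have e2 : hv T₀ T * hv T₀ S = 1 := by
    rw [← hv_mul, hTS]
    exact Matrix.map_one _ (map_zero _) (map_one _)
  have e3 : hv T₀ s * hv T₀ t = hv T₀ q' := by rw [← hv_mul, hst]
  have hw : w = hv T₀ S * L * hv T₀ T := by
    rw [hL]
    calc w = hv T₀ q * w * hv T₀ q := by rw [h1, h2]
      _ = _ := by rw [← e1]; simp only [Matrix.mul_assoc]
  have hw'1 : w' = hv T₀ s * (hv T₀ t * w' * hv T₀ s) * hv T₀ t := by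
    calc w' = hv T₀ q' * w' * hv T₀ q' := by rw [h1', h2']
      _ = _ := by rw [← e3]; simp only [Matrix.mul_assoc]
  have hm : hv T₀ t * w' * hv T₀ s = z • (1 : Matrix (Fin 1) (Fin 1) (EvC T₀)) := by
    refine Matrix.ext fun i j => ?_
    rw [Subsingleton.elim i 0, Subsingleton.elim j 0, Matrix.smul_apply, Matrix.one_apply_eq,
      smul_eq_mul, mul_one]
  have hw' : w' = z • hv T₀ q' := by
    rw [hw'1, hm, Matrix.mul_smul, Matrix.mul_one, Matrix.smul_mul, e3]
  have htr : w'.trace = z := by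
    have e4 : hv T₀ t * hv T₀ s = 1 := by
      rw [← hv_mul, hts]
      exact Matrix.map_one _ (map_zero _) (map_one _)
    rw [hw', Matrix.trace_smul, ← e3, Matrix.trace_mul_comm, e4, Matrix.trace_one, Fintype.card_fin,
      Nat.cast_one, smul_eq_mul, mul_one]
  -- the factorisation
  let S2 : Matrix (n × n') (Fin r) (EvC T₀) := Matrix.of fun p a => hv T₀ S p.1 a * hv T₀ s p.2 0
  let T2 : Matrix (Fin r) (n × n') (EvC T₀) := Matrix.of fun a p => hv T₀ T a p.1 * hv T₀ t 0 p.2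
  have hts' : ∑ i, hv T₀ t 0 i * hv T₀ s i 0 = 1 := by
    have e4 : hv T₀ t * hv T₀ s = 1 := by
      rw [← hv_mul, hts]
      exact Matrix.map_one _ (map_zero _) (map_one _)
    have := congrFun (congrFun e4 0) 0
    rwa [Matrix.mul_apply, Matrix.one_apply_eq] at this
  have e5 : T2 * S2 = 1 := by
    refine Matrix.ext fun a b => ?_
    have h0 : ∀ p : n × n', T2 a p * S2 p b = (hv T₀ T a p.1 * hv T₀ S p.1 b)
        * (hv T₀ t 0 p.2 * hv T₀ s p.2 0) := fun p => by
      change (hv T₀ T a p.1 * hv T₀ t 0 p.2) * (hv T₀ S p.1 b * hv T₀ s p.2 0) = _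
      ring
    rw [Matrix.mul_apply]
    simp only [h0]
    rw [Fintype.sum_prod_type]
    simp only [← Finset.mul_sum]
    rw [hts']
    simp only [mul_one]
    rw [← Matrix.mul_apply, e2]
  have hK : w ⊗ₖ hv T₀ q' + hv T₀ q ⊗ₖ w' = S2 * ((z • 1 + L) * T2) := by
    refine Matrix.ext ?_
    rintro ⟨i, i'⟩ ⟨j, j'⟩
    have a1 : (w + z • hv T₀ q) = hv T₀ S * ((z • 1 + L) * hv T₀ T) := by
      rw [Matrix.add_mul, Matrix.mul_add, Matrix.smul_mul, Matrix.one_mul, Matrix.mul_smul, e1,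
        ← Matrix.mul_assoc, ← hw, add_comm]
    have a2 : hv T₀ q' i' j' = hv T₀ s i' 0 * hv T₀ t 0 j' := by
      rw [← e3, Matrix.mul_apply]
      simp
    have a3 : (S2 * ((z • (1 : Matrix (Fin r) (Fin r) (EvC T₀)) + L) * T2)) (i, i') (j, j')
        = (hv T₀ S * ((z • (1 : Matrix (Fin r) (Fin r) (EvC T₀)) + L) * hv T₀ T)) i j
          * (hv T₀ s i' 0 * hv T₀ t 0 j') := by
      rw [Matrix.mul_apply, Matrix.mul_apply, Finset.sum_mul]
      refine Finset.sum_congr rfl fun a _ => ?_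
      rw [Matrix.mul_apply, Matrix.mul_apply, Finset.mul_sum, Finset.mul_sum, Finset.sum_mul]
      refine Finset.sum_congr rfl fun b _ => ?_
      change hv T₀ S i a * hv T₀ s i' 0 * ((z • (1 : Matrix (Fin r) (Fin r) (EvC T₀)) + L) a b
        * (hv T₀ T b j * hv T₀ t 0 j')) = _
      ring
    rw [a3, ← a1, ← a2, hw']
    simp only [Matrix.add_apply, Matrix.kroneckerMap_apply, Matrix.smul_apply, smul_eq_mul]
    ring
  have hc1 : cpoly (w ⊗ₖ hv T₀ q' + hv T₀ q ⊗ₖ w') = cpoly (z • 1 + L) := by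
    rw [hK, cpoly_mul_comm, Matrix.mul_assoc, e5, Matrix.mul_one]
  have hc2 : cpoly w = cpoly L := by
    rw [hw, Matrix.mul_assoc, cpoly_mul_comm, Matrix.mul_assoc, e2, Matrix.mul_one]
  rw [hc1, hc2, htr, ← det_smul_one_add]
  have := cpoly_coeff_card (z • 1 + L)
  rwa [Fintype.card_fin] at this

end curv

section kron
variable {E : Type u} [NormedAddCommGroup E] [NormedSpace ℝ E] [FiniteDimensional ℝ E]
  {n n' : Type*} [Fintype n] [Fintype n'] [DecidableEq n] [DecidableEq n']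
  {x : E} {X : Set E} {dX : ℕ}

/-- **top Chern class of `E ⊗ line`** -/
theorem cc_kron_line (hX : Sub dX X) {Q : E → Matrix n n ℂ} {Q' : E → Matrix n' n' ℂ}
    (hQ : IdF X Q) (hQ' : IdF X Q') {r : ℕ} (hr : ∀ x ∈ X, (Q x).rank = r)
    (hr' : ∀ x ∈ X, (Q' x).rank = 1) :
    cc hX (hQ.kron hQ') r
      = ∑ i ∈ Finset.range (r + 1), cc hX hQ i * sc hX hQ' 1 ^ (r - i) := by
  rw [sc_eq' hX hQ' le_rfl]
  have key : cc hX (hQ.kron hQ') r = H.mk X (∑ i ∈ Finset.range (r + 1),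
      (⟨cf i Q, cf_mem_Z hX hQ i⟩ : Z X) * (⟨sf' 1 Q', sf'_mem_Z hX hQ' 1⟩ : Z X) ^ (r - i)) := by
    refine H.mk_congr (a := ⟨_, cf_mem_Z hX (hQ.kron hQ') r⟩) fun x hx => ?_
    rw [map_sum]
    simp only [map_mul, map_pow]
    change rs X x (cf r (fun y => Q y ⊗ₖ Q' y) x)
      = ∑ i ∈ Finset.range (r + 1), rs X x (cf i Q x) * rs X x (sf' 1 Q' x) ^ (r - i)
    have e0 := kron_wv (hQ.idem x hx) (hQ'.idem x hx) (invM_dl Q x) (invM_dl Q' x)
      (hQ.dl_eq hX hx) (hQ'.dl_eq hX hx) (invM_dl (X := X) (fun y => Q y ⊗ₖ Q' y) x)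
      (dl_kron (hQ.s1 hx) (hQ'.s1 hx))
    rw [rs_cf, e0, cpoly_kron_line (hQ.idem x hx) (hQ'.idem x hx) (hr x hx) (hr' x hx)
      (hv_wv (hQ.idem x hx) _ _) (wv_hv (hQ.idem x hx) _ _) (hv_wv (hQ'.idem x hx) _ _)
      (wv_hv (hQ'.idem x hx) _ _)]
    have e2 : rs X x (sf' 1 Q' x)
        = (((wv (Q' x) (dl X Q' x) (invM_dl Q' x)).trace : EvC (Tan X x)) : CF (Tan X x)) := by
      rw [sf', pow_one, ← rsE_coe, ← rsE_Om]
      rw [show (rsE X x) (Om Q' x).trace = ((Om Q' x).map (rsE X x)).trace from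
        map_sum (rsE X x) _ _]
    rw [e2]
    have e1 : ∀ (s : Finset ℕ) (f : ℕ → EvC (Tan X x)),
        ((∑ i ∈ s, f i : EvC (Tan X x)) : CF (Tan X x)) = ∑ i ∈ s, (f i : CF (Tan X x)) :=
      fun s f => map_sum (EvC (Tan X x)).val f s
    rw [e1]
    refine Finset.sum_congr rfl fun i hi => ?_
    rw [rs_cf]
    push_cast
    rfl
  rw [key, map_sum]
  simp only [map_mul, map_pow]
  rfl

end kron

end Crest.Agent.R208.EW
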