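import Crest.Agent.R208.EW1
import Crest.Agent.R208.CW7b
import Crest.Agent.R208.CM4c

/-! Row 208, block EW (helper607).  EW2: the real bundle `N ⊕ N` with the circle acting by
`R t ∘ e^{i w t}`, descended to the quotient, is `N_ℂ ⊗ (line)`. -/

set_option autoImplicit false
set_option linter.unusedSectionVars false
set_option linter.unusedVariables false
set_option linter.unusedSimpArgs false

open Set Filter Topology Module MeasureTheory Matrix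
open scoped ContDiff RealInnerProductSpace ComplexConjugate Kronecker
open Crest.Agent.R208.F Crest.Agent.R208.FI Crest.Agent.R208.CW Crest.Agent.R208.T
open Crest.Agent.R208.CM

noncomputable section

namespace Crest.Agent.R208.EW

/-! ### complex matrices of real linear maps -/
section mc
variable {a b c : Type} [Fintype a] [DecidableEq a] [Fintype b] [DecidableEq b] [Fintype c]
  [DecidableEq c]

/-- the complexified matrix of a linear map of Euclidean spaces -/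
def mc (A : EuclideanSpace ℝ a →L[ℝ] EuclideanSpace ℝ b) : Matrix b a ℂ :=
  (MT A).map (algebraMap ℝ ℂ)

theorem mc_apply (A : EuclideanSpace ℝ a →L[ℝ] EuclideanSpace ℝ b) (i : b) (j : a) :
    mc A i j = ((A (EuclideanSpace.single j 1) i : ℝ) : ℂ) := rfl

theorem mc_eq_mtx (A : EuclideanSpace ℝ a →L[ℝ] EuclideanSpace ℝ a) : mc A = mtx A := rfl

theorem MT_comp (A : EuclideanSpace ℝ b →L[ℝ] EuclideanSpace ℝ c)
    (B : EuclideanSpace ℝ a →L[ℝ] EuclideanSpace ℝ b) : MT (A.comp B) = MT A * MT B := by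
  refine mE_injective ?_
  ext1 v
  rw [mE_MT, ← mE_mE, mE_MT, mE_MT]
  rfl

theorem mc_comp (A : EuclideanSpace ℝ b →L[ℝ] EuclideanSpace ℝ c)
    (B : EuclideanSpace ℝ a →L[ℝ] EuclideanSpace ℝ b) : mc (A.comp B) = mc A * mc B := by
  rw [mc, MT_comp, Matrix.map_mul]; rfl

theorem mc_adj (A : EuclideanSpace ℝ a →L[ℝ] EuclideanSpace ℝ b) :
    mc (ContinuousLinearMap.adjoint A) = (mc A)ᵀ := by
  have h : MT (ContinuousLinearMap.adjoint A) = (MT A)ᵀ := by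
    refine mE_injective ?_
    ext1 v
    have e : A = mE (MT A) := by ext1 v; rw [mE_MT]
    rw [mE_MT]
    conv_lhs => rw [e]
    rw [adjoint_mE]
  rw [mc, h]; rfl

theorem mc_add (A B : EuclideanSpace ℝ a →L[ℝ] EuclideanSpace ℝ b) : mc (A + B) = mc A + mc B := by
  ext i j
  rw [Matrix.add_apply, mc_apply, mc_apply, mc_apply]
  change ((A (EuclideanSpace.single j 1) i + B (EuclideanSpace.single j 1) i : ℝ) : ℂ) = _
  push_cast
  rfl

theorem mc_sub (A B : EuclideanSpace ℝ a →L[ℝ] EuclideanSpace ℝ b) : mc (A - B) = mc A - mc B := by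
  ext i j
  rw [Matrix.sub_apply, mc_apply, mc_apply, mc_apply]
  change ((A (EuclideanSpace.single j 1) i - B (EuclideanSpace.single j 1) i : ℝ) : ℂ) = _
  push_cast
  rfl

theorem mc_neg (A : EuclideanSpace ℝ a →L[ℝ] EuclideanSpace ℝ b) : mc (-A) = - mc A := by
  ext i j
  rw [Matrix.neg_apply, mc_apply, mc_apply]
  change ((-(A (EuclideanSpace.single j 1) i) : ℝ) : ℂ) = _
  push_cast
  rfl

theorem mc_smul (r : ℝ) (A : EuclideanSpace ℝ a →L[ℝ] EuclideanSpace ℝ b) :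
    mc (r • A) = (r : ℂ) • mc A := by
  ext i j
  rw [Matrix.smul_apply, mc_apply, mc_apply, smul_eq_mul]
  change ((r * (A (EuclideanSpace.single j 1) i) : ℝ) : ℂ) = _
  push_cast
  rfl

theorem mc_zero : mc (0 : EuclideanSpace ℝ a →L[ℝ] EuclideanSpace ℝ b) = 0 := by
  ext i j
  rw [mc_apply]
  rfl

theorem mc_id : mc (ContinuousLinearMap.id ℝ (EuclideanSpace ℝ a)) = 1 := by
  have h : MT (ContinuousLinearMap.id ℝ (EuclideanSpace ℝ a)) = 1 := by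
    refine mE_injective ?_
    ext1 v
    rw [mE_MT, mE_one]; rfl
  rw [mc, h]
  exact Matrix.map_one _ (map_zero _) (map_one _)

theorem mc_conj (A : EuclideanSpace ℝ a →L[ℝ] EuclideanSpace ℝ b) :
    (mc A).map (starRingEnd ℂ) = mc A := by
  ext i j
  rw [Matrix.map_apply, mc_apply]
  exact Complex.conj_ofReal _

theorem mc_H (A : EuclideanSpace ℝ a →L[ℝ] EuclideanSpace ℝ b) : (mc A)ᴴ = (mc A)ᵀ := by
  rw [Matrix.conjTranspose]
  ext i j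
  rw [Matrix.map_apply, Matrix.transpose_apply, mc_apply]
  exact Complex.conj_ofReal _

theorem contDiffAt_mc {G : Type*} [NormedAddCommGroup G] [NormedSpace ℝ G] {x : G}
    {k : WithTop ℕ∞} {A : G → EuclideanSpace ℝ a →L[ℝ] EuclideanSpace ℝ b}
    (hA : ContDiffAt ℝ k A x) (i : b) (j : a) : ContDiffAt ℝ k (fun y => mc (A y) i j) x := by
  have h1 : ContDiffAt ℝ k (fun y => A y (EuclideanSpace.single j 1)) x :=
    hA.clm_apply contDiffAt_const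
  have h2 : ContDiffAt ℝ k (fun y => A y (EuclideanSpace.single j 1) i) x :=
    (EuclideanSpace.proj i : EuclideanSpace ℝ b →L[ℝ] ℝ).contDiff.contDiffAt.comp x h1
  exact Complex.ofRealCLM.contDiff.contDiffAt.comp x h2

end mc

/-! ### doubling -/
section dbl
variable {a b : Type} [Fintype a] [DecidableEq a] [Fintype b] [DecidableEq b]

/-- `i₁, i₂` identify `ℝ^b` with the orthogonal sum of two copies of `ℝ^a` -/
structure Dbl (i₁ i₂ : EuclideanSpace ℝ a →L[ℝ] EuclideanSpace ℝ b) : Prop where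
  iso : ∀ u v, ‖i₁ u + i₂ v‖ ^ 2 = ‖u‖ ^ 2 + ‖v‖ ^ 2
  surj : ∀ w, ∃ u v, w = i₁ u + i₂ v

variable {i₁ i₂ : EuclideanSpace ℝ a →L[ℝ] EuclideanSpace ℝ b}

theorem Dbl.inner (h : Dbl i₁ i₂) (u v u' v' : EuclideanSpace ℝ a) :
    ⟪i₁ u + i₂ v, i₁ u' + i₂ v'⟫ = ⟪u, u'⟫ + ⟪v, v'⟫ := by
  have h1 := h.iso (u + u') (v + v')
  have h2 := h.iso u v
  have h3 := h.iso u' v'
  have e : i₁ (u + u') + i₂ (v + v') = (i₁ u + i₂ v) + (i₁ u' + i₂ v') := by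
    rw [map_add, map_add]; abel
  rw [e, norm_add_sq_real (i₁ u + i₂ v) (i₁ u' + i₂ v'), norm_add_sq_real u u',
    norm_add_sq_real v v'] at h1
  linarith

theorem Dbl.i11 (h : Dbl i₁ i₂) : (mc i₁)ᵀ * mc i₁ = 1 := by
  rw [← mc_adj, ← mc_comp, ← mc_id]
  congr 1
  ext1 u
  refine ext_inner_right ℝ fun v => ?_
  rw [ContinuousLinearMap.comp_apply, ContinuousLinearMap.adjoint_inner_left]
  have := h.inner u 0 v 0
  simpa using this

theorem Dbl.i22 (h : Dbl i₁ i₂) : (mc i₂)ᵀ * mc i₂ = 1 := by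
  rw [← mc_adj, ← mc_comp, ← mc_id]
  congr 1
  ext1 u
  refine ext_inner_right ℝ fun v => ?_
  rw [ContinuousLinearMap.comp_apply, ContinuousLinearMap.adjoint_inner_left]
  have := h.inner 0 u 0 v
  simpa using this

theorem Dbl.i12 (h : Dbl i₁ i₂) : (mc i₁)ᵀ * mc i₂ = 0 := by
  rw [← mc_adj, ← mc_comp, ← mc_zero]
  congr 1
  ext1 u
  refine ext_inner_right ℝ fun v => ?_
  rw [ContinuousLinearMap.comp_apply, ContinuousLinearMap.adjoint_inner_left]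
  have := h.inner 0 u v 0
  simpa using this

theorem Dbl.i21 (h : Dbl i₁ i₂) : (mc i₂)ᵀ * mc i₁ = 0 := by
  have := congrArg Matrix.transpose h.i12
  rwa [Matrix.transpose_mul, Matrix.transpose_transpose, Matrix.transpose_zero] at this

/-- an operator which commutes with the doubling -/
theorem Dbl.mc_eq (h : Dbl i₁ i₂) {A B : EuclideanSpace ℝ b →L[ℝ] EuclideanSpace ℝ b}
    (hA : ∀ u v, A (i₁ u + i₂ v) = B (i₁ u + i₂ v)) : mc A = mc B := by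
  congr 1
  ext1 w
  obtain ⟨u, v, rfl⟩ := h.surj w
  exact hA u v

end dbl

/-! ### the intertwiner at a point -/
section pt
variable {a b p q κ : Type} [Fintype a] [DecidableEq a] [Fintype b] [DecidableEq b] [Fintype p]
  [DecidableEq p] [Fintype q] [DecidableEq q] [Fintype κ] [DecidableEq κ]

/-- real matrices (as complex ones) describing a point -/
structure PD (M₁ M₂ : Matrix b a ℂ) (n : Matrix a a ℂ) (t₁ : Matrix p a ℂ) (t₂ : Matrix q b ℂ) :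
    Prop where
  i11 : M₁ᵀ * M₁ = 1
  i22 : M₂ᵀ * M₂ = 1
  i12 : M₁ᵀ * M₂ = 0
  i21 : M₂ᵀ * M₁ = 0
  t11 : t₁ᵀ * t₁ = 1
  t22 : t₂ᵀ * t₂ = 1
  nn : n * n = n
  nt : nᵀ = n
  c1 : M₁ᴴ = M₁ᵀ
  c2 : M₂ᴴ = M₂ᵀ
  cn : nᴴ = nᵀ
  ct1 : t₁ᴴ = t₁ᵀ
  ct2 : t₂ᴴ = t₂ᵀ

/-- the intertwiner -/
def UU (M₁ M₂ : Matrix b a ℂ) (n : Matrix a a ℂ) (t₁ : Matrix p a ℂ) (t₂ : Matrix q b ℂ) :
    Matrix q p ℂ :=
  ((Real.sqrt 2 : ℝ) : ℂ)⁻¹ • (t₂ * (M₁ * (n * t₁ᵀ)) + Complex.I • (t₂ * (M₂ * (n * t₁ᵀ))))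

/-- the doubled projection -/
def NNm (M₁ M₂ : Matrix b a ℂ) (n : Matrix a a ℂ) : Matrix b b ℂ := M₁ * n * M₁ᵀ + M₂ * n * M₂ᵀ

/-- the complex structure (minus the doubling rotation) -/
def JNm (M₁ M₂ : Matrix b a ℂ) (n : Matrix a a ℂ) : Matrix b b ℂ := M₁ * n * M₂ᵀ - M₂ * n * M₁ᵀ

variable {M₁ M₂ : Matrix b a ℂ} {n : Matrix a a ℂ} {t₁ : Matrix p a ℂ} {t₂ : Matrix q b ℂ}

theorem sqrt2_conj : (starRingEnd ℂ) (((Real.sqrt 2 : ℝ) : ℂ)⁻¹) = ((Real.sqrt 2 : ℝ) : ℂ)⁻¹ := by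
  rw [map_inv₀, Complex.conj_ofReal]

theorem PD.UH (h : PD M₁ M₂ n t₁ t₂) : (UU M₁ M₂ n t₁ t₂)ᴴ
    = ((Real.sqrt 2 : ℝ) : ℂ)⁻¹ • (t₁ * (n * (M₁ᵀ * t₂ᵀ)) - Complex.I • (t₁ * (n * (M₂ᵀ * t₂ᵀ)))) := by
  have e1 : (t₁ᵀ)ᴴ = t₁ := by rw [← h.ct1, Matrix.conjTranspose_conjTranspose]
  have e2 : nᴴ = n := by rw [h.cn, h.nt]
  rw [UU, Matrix.conjTranspose_smul, Matrix.conjTranspose_add, Matrix.conjTranspose_smul]
  simp only [Matrix.conjTranspose_mul, e1, e2, h.c1, h.c2, h.ct2, Matrix.mul_assoc]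
  have e3 : star (((Real.sqrt 2 : ℝ) : ℂ)⁻¹) = ((Real.sqrt 2 : ℝ) : ℂ)⁻¹ := sqrt2_conj
  have e4 : star Complex.I = -Complex.I := Complex.conj_I
  rw [e3, e4, neg_smul, sub_eq_add_neg]

theorem PD.UHU (h : PD M₁ M₂ n t₁ t₂) :
    (UU M₁ M₂ n t₁ t₂)ᴴ * UU M₁ M₂ n t₁ t₂ = t₁ * n * t₁ᵀ := by
  have k1 : ∀ Y : Matrix a p ℂ, M₁ᵀ * (t₂ᵀ * (t₂ * (M₁ * Y))) = Y := fun Y => by
    rw [← Matrix.mul_assoc t₂ᵀ, h.t22, Matrix.one_mul, ← Matrix.mul_assoc, h.i11, Matrix.one_mul]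
  have k2 : ∀ Y : Matrix a p ℂ, M₂ᵀ * (t₂ᵀ * (t₂ * (M₂ * Y))) = Y := fun Y => by
    rw [← Matrix.mul_assoc t₂ᵀ, h.t22, Matrix.one_mul, ← Matrix.mul_assoc, h.i22, Matrix.one_mul]
  have k3 : ∀ Y : Matrix a p ℂ, M₁ᵀ * (t₂ᵀ * (t₂ * (M₂ * Y))) = 0 := fun Y => by
    rw [← Matrix.mul_assoc t₂ᵀ, h.t22, Matrix.one_mul, ← Matrix.mul_assoc, h.i12, Matrix.zero_mul]
  have k4 : ∀ Y : Matrix a p ℂ, M₂ᵀ * (t₂ᵀ * (t₂ * (M₁ * Y))) = 0 := fun Y => by
    rw [← Matrix.mul_assoc t₂ᵀ, h.t22, Matrix.one_mul, ← Matrix.mul_assoc, h.i21, Matrix.zero_mul]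
  have k5 : n * (n * t₁ᵀ) = n * t₁ᵀ := by rw [← Matrix.mul_assoc, h.nn]
  rw [h.UH, UU, Matrix.smul_mul, Matrix.mul_smul, smul_smul, sqrt2_sq]
  simp only [Matrix.sub_mul, Matrix.mul_add, Matrix.smul_mul, Matrix.mul_smul, Matrix.mul_assoc,
    k1, k2, k3, k4, k5, Matrix.mul_zero, smul_zero, add_zero, zero_add, smul_smul, Complex.I_mul_I]
  match_scalars
  linear_combination (-1 / 2 : ℂ) * Complex.I_sq

theorem PD.UUH (h : PD M₁ M₂ n t₁ t₂) :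
    UU M₁ M₂ n t₁ t₂ * (UU M₁ M₂ n t₁ t₂)ᴴ
      = qJ (t₂ * NNm M₁ M₂ n * t₂ᵀ) (t₂ * JNm M₁ M₂ n * t₂ᵀ) := by
  have k1 : ∀ Y : Matrix a q ℂ, t₁ᵀ * (t₁ * Y) = Y := fun Y => by
    rw [← Matrix.mul_assoc, h.t11, Matrix.one_mul]
  have k5 : ∀ Y : Matrix a q ℂ, n * (n * Y) = n * Y := fun Y => by rw [← Matrix.mul_assoc, h.nn]
  rw [h.UH, UU, Matrix.smul_mul, Matrix.mul_smul, smul_smul, sqrt2_sq, qJ, NNm, JNm]
  simp only [Matrix.mul_sub, Matrix.sub_mul, Matrix.mul_add, Matrix.add_mul, Matrix.smul_mul,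
    Matrix.mul_smul, Matrix.mul_assoc, k1, k5, smul_smul, Complex.I_mul_I]
  match_scalars <;> first | ring1 | linear_combination (-1 / 2 : ℂ) * Complex.I_sq

theorem PD.nn' (h : PD M₁ M₂ n t₁ t₂) : NNm M₁ M₂ n * NNm M₁ M₂ n = NNm M₁ M₂ n := by
  have k1 : ∀ Y : Matrix a b ℂ, M₁ᵀ * (M₁ * Y) = Y := fun Y => by
    rw [← Matrix.mul_assoc, h.i11, Matrix.one_mul]
  have k2 : ∀ Y : Matrix a b ℂ, M₂ᵀ * (M₂ * Y) = Y := fun Y => by
    rw [← Matrix.mul_assoc, h.i22, Matrix.one_mul]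
  have k3 : ∀ Y : Matrix a b ℂ, M₁ᵀ * (M₂ * Y) = 0 := fun Y => by
    rw [← Matrix.mul_assoc, h.i12, Matrix.zero_mul]
  have k4 : ∀ Y : Matrix a b ℂ, M₂ᵀ * (M₁ * Y) = 0 := fun Y => by
    rw [← Matrix.mul_assoc, h.i21, Matrix.zero_mul]
  have k5 : ∀ Y : Matrix a b ℂ, n * (n * Y) = n * Y := fun Y => by rw [← Matrix.mul_assoc, h.nn]
  simp only [NNm, Matrix.mul_add, Matrix.add_mul, Matrix.mul_assoc, k1, k2, k3, k4, k5,
    Matrix.mul_zero, add_zero, zero_add]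

theorem PD.jj' (h : PD M₁ M₂ n t₁ t₂) : JNm M₁ M₂ n * JNm M₁ M₂ n = - NNm M₁ M₂ n := by
  have k1 : ∀ Y : Matrix a b ℂ, M₁ᵀ * (M₁ * Y) = Y := fun Y => by
    rw [← Matrix.mul_assoc, h.i11, Matrix.one_mul]
  have k2 : ∀ Y : Matrix a b ℂ, M₂ᵀ * (M₂ * Y) = Y := fun Y => by
    rw [← Matrix.mul_assoc, h.i22, Matrix.one_mul]
  have k3 : ∀ Y : Matrix a b ℂ, M₁ᵀ * (M₂ * Y) = 0 := fun Y => by
    rw [← Matrix.mul_assoc, h.i12, Matrix.zero_mul]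
  have k4 : ∀ Y : Matrix a b ℂ, M₂ᵀ * (M₁ * Y) = 0 := fun Y => by
    rw [← Matrix.mul_assoc, h.i21, Matrix.zero_mul]
  have k5 : ∀ Y : Matrix a b ℂ, n * (n * Y) = n * Y := fun Y => by rw [← Matrix.mul_assoc, h.nn]
  simp only [NNm, JNm, Matrix.mul_sub, Matrix.sub_mul, Matrix.mul_assoc, k1, k2, k3, k4, k5,
    Matrix.mul_zero, add_zero, zero_add, sub_zero, zero_sub]
  try abel

theorem PD.nj' (h : PD M₁ M₂ n t₁ t₂) : NNm M₁ M₂ n * JNm M₁ M₂ n = JNm M₁ M₂ n := by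
  have k1 : ∀ Y : Matrix a b ℂ, M₁ᵀ * (M₁ * Y) = Y := fun Y => by
    rw [← Matrix.mul_assoc, h.i11, Matrix.one_mul]
  have k2 : ∀ Y : Matrix a b ℂ, M₂ᵀ * (M₂ * Y) = Y := fun Y => by
    rw [← Matrix.mul_assoc, h.i22, Matrix.one_mul]
  have k3 : ∀ Y : Matrix a b ℂ, M₁ᵀ * (M₂ * Y) = 0 := fun Y => by
    rw [← Matrix.mul_assoc, h.i12, Matrix.zero_mul]
  have k4 : ∀ Y : Matrix a b ℂ, M₂ᵀ * (M₁ * Y) = 0 := fun Y => by
    rw [← Matrix.mul_assoc, h.i21, Matrix.zero_mul]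
  have k5 : ∀ Y : Matrix a b ℂ, n * (n * Y) = n * Y := fun Y => by rw [← Matrix.mul_assoc, h.nn]
  simp only [NNm, JNm, Matrix.mul_sub, Matrix.add_mul, Matrix.mul_assoc, k1, k2, k3, k4, k5,
    Matrix.mul_zero, add_zero, zero_add, sub_zero, zero_sub]
  try abel

theorem PD.jn' (h : PD M₁ M₂ n t₁ t₂) : JNm M₁ M₂ n * NNm M₁ M₂ n = JNm M₁ M₂ n := by
  have k1 : ∀ Y : Matrix a b ℂ, M₁ᵀ * (M₁ * Y) = Y := fun Y => by
    rw [← Matrix.mul_assoc, h.i11, Matrix.one_mul]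
  have k2 : ∀ Y : Matrix a b ℂ, M₂ᵀ * (M₂ * Y) = Y := fun Y => by
    rw [← Matrix.mul_assoc, h.i22, Matrix.one_mul]
  have k3 : ∀ Y : Matrix a b ℂ, M₁ᵀ * (M₂ * Y) = 0 := fun Y => by
    rw [← Matrix.mul_assoc, h.i12, Matrix.zero_mul]
  have k4 : ∀ Y : Matrix a b ℂ, M₂ᵀ * (M₁ * Y) = 0 := fun Y => by
    rw [← Matrix.mul_assoc, h.i21, Matrix.zero_mul]
  have k5 : ∀ Y : Matrix a b ℂ, n * (n * Y) = n * Y := fun Y => by rw [← Matrix.mul_assoc, h.nn]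
  simp only [NNm, JNm, Matrix.sub_mul, Matrix.mul_add, Matrix.mul_assoc, k1, k2, k3, k4, k5,
    Matrix.mul_zero, add_zero, zero_add, sub_zero, zero_sub]
  try abel

theorem cj_eq_of_H {m l : Type} {A : Matrix m l ℂ} (h : Aᴴ = Aᵀ) : A.map (starRingEnd ℂ) = A := by
  refine Matrix.ext fun i j => ?_
  exact congrFun (congrFun h j) i

theorem PD.rj (h : PD M₁ M₂ n t₁ t₂) :
    RJ (t₂ * NNm M₁ M₂ n * t₂ᵀ) (t₂ * JNm M₁ M₂ n * t₂ᵀ) := by
  have k0 : ∀ A B : Matrix b b ℂ, (t₂ * A * t₂ᵀ) * (t₂ * B * t₂ᵀ) = t₂ * (A * B) * t₂ᵀ :=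
    fun A B => by
      calc (t₂ * A * t₂ᵀ) * (t₂ * B * t₂ᵀ) = t₂ * A * (t₂ᵀ * t₂) * B * t₂ᵀ := by
            simp only [Matrix.mul_assoc]
        _ = _ := by rw [h.t22, Matrix.mul_one, Matrix.mul_assoc t₂ A B]
  have c1 := cj_eq_of_H h.c1
  have c2 := cj_eq_of_H h.c2
  have cn := cj_eq_of_H h.cn
  have ct := cj_eq_of_H h.ct2
  have ctr : ∀ {m l : Type} (A : Matrix m l ℂ), (Aᵀ).map (starRingEnd ℂ) = (A.map (starRingEnd ℂ))ᵀ :=
    fun A => rfl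
  have hN : (NNm M₁ M₂ n).map (starRingEnd ℂ) = NNm M₁ M₂ n := by
    rw [NNm, Matrix.map_add _ (map_add _)]
    simp only [Matrix.map_mul, ctr, c1, c2, cn]
  have hJ : (JNm M₁ M₂ n).map (starRingEnd ℂ) = JNm M₁ M₂ n := by
    rw [JNm, Matrix.map_sub _ (map_sub _)]
    simp only [Matrix.map_mul, ctr, c1, c2, cn]
  refine ⟨?_, ?_, ?_, ?_, ?_, ?_, ?_⟩
  · rw [cj_map, Matrix.map_mul, Matrix.map_mul, ctr, ct, hN]
  · rw [cj_map, Matrix.map_mul, Matrix.map_mul, ctr, ct, hJ]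
  · simp only [NNm, Matrix.transpose_mul, Matrix.transpose_transpose, Matrix.transpose_add, h.nt,
      Matrix.mul_assoc]
  · rw [k0, h.nn']
  · rw [k0, h.jj', Matrix.mul_neg, Matrix.neg_mul]
  · rw [k0, h.jn']
  · rw [k0, h.nj']

/-- the intertwiner with the line spanned by `z` -/
def TT (U : Matrix q p ℂ) (z : κ → ℂ) : Matrix q (p × κ) ℂ :=
  Matrix.of fun j i => U j i.1 * conj (z i.2)

/-- the projection onto the line -/
def lin (z : κ → ℂ) : Matrix κ κ ℂ := Matrix.of fun i j => z i * conj (z j)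

theorem TT_mul (U : Matrix q p ℂ) {z : κ → ℂ} (hz : ∑ i, z i * conj (z i) = 1) :
    TT U z * (TT U z)ᴴ = U * Uᴴ := by
  refine Matrix.ext fun i j => ?_
  rw [Matrix.mul_apply, Fintype.sum_prod_type, Matrix.mul_apply]
  refine Finset.sum_congr rfl fun k _ => ?_
  have : ∀ l, TT U z i (k, l) * (TT U z)ᴴ (k, l) j = (U i k * Uᴴ k j) * (z l * conj (z l)) := by
    intro l
    rw [Matrix.conjTranspose_apply, Matrix.conjTranspose_apply]
    change U i k * conj (z l) * conj (U j k * conj (z l)) = (U i k * conj (U j k)) * (z l * conj (z l))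
    rw [map_mul, Complex.conj_conj]
    ring
  simp only [this]
  rw [← Finset.mul_sum, hz, mul_one]

theorem TT_mul' (U : Matrix q p ℂ) (z : κ → ℂ) :
    (TT U z)ᴴ * TT U z = (Uᴴ * U) ⊗ₖ lin z := by
  refine Matrix.ext ?_
  rintro ⟨i, i'⟩ ⟨j, j'⟩
  rw [Matrix.mul_apply, Matrix.kroneckerMap_apply, Matrix.mul_apply, Finset.sum_mul]
  refine Finset.sum_congr rfl fun k _ => ?_
  rw [Matrix.conjTranspose_apply, Matrix.conjTranspose_apply]
  change conj (U k i * conj (z i')) * (U k j * conj (z j')) = conj (U k i) * U k j * (z i' * conj (z j'))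
  rw [map_mul, Complex.conj_conj]
  ring

theorem lin_idem {z : κ → ℂ} (hz : ∑ i, z i * conj (z i) = 1) : lin z * lin z = lin z := by
  refine Matrix.ext fun i j => ?_
  rw [Matrix.mul_apply]
  have : ∀ l, lin z i l * lin z l j = (z i * conj (z j)) * (z l * conj (z l)) := fun l => by
    change z i * conj (z l) * (z l * conj (z j)) = _
    ring
  simp only [this]
  rw [← Finset.mul_sum, hz, mul_one]
  rfl

theorem lin_trace {z : κ → ℂ} (hz : ∑ i, z i * conj (z i) = 1) : (lin z).trace = 1 := hz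

theorem lin_rank {z : κ → ℂ} (hz : ∑ i, z i * conj (z i) = 1) : (lin z).rank = 1 := by
  have h := rank_eq_trace (lin_idem hz)
  rw [lin_trace hz] at h
  exact_mod_cast h

/-- the partial isometry -/
theorem PD.pIso (h : PD M₁ M₂ n t₁ t₂) {z : κ → ℂ} (hz : ∑ i, z i * conj (z i) = 1) :
    SP.PIso (qJ (t₂ * NNm M₁ M₂ n * t₂ᵀ) (t₂ * JNm M₁ M₂ n * t₂ᵀ)) ((t₁ * n * t₁ᵀ) ⊗ₖ lin z)
      (TT (UU M₁ M₂ n t₁ t₂) z)ᴴ (TT (UU M₁ M₂ n t₁ t₂) z) := by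
  set U := UU M₁ M₂ n t₁ t₂ with hU
  have e1 := TT_mul U hz
  have e2 := TT_mul' U z
  rw [h.UUH] at e1
  rw [h.UHU] at e2
  set P := qJ (t₂ * NNm M₁ M₂ n * t₂ᵀ) (t₂ * JNm M₁ M₂ n * t₂ᵀ) with hP
  set Q := (t₁ * n * t₁ᵀ) ⊗ₖ lin z with hQ
  set V := TT U z with hV
  have hPP : P * P = P := h.rj.qJ_idem
  have hPH : Pᴴ = P := by rw [← e1, Matrix.conjTranspose_mul, Matrix.conjTranspose_conjTranspose]
  -- `P V = V`
  have h0 : (P * V - V) * (P * V - V)ᴴ = 0 := by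
    rw [Matrix.conjTranspose_sub, Matrix.conjTranspose_mul, hPH, Matrix.sub_mul, Matrix.mul_sub,
      Matrix.mul_sub]
    have a1 : P * V * (Vᴴ * P) = P := by
      rw [Matrix.mul_assoc, ← Matrix.mul_assoc V, e1, hPP, hPP]
    have a2 : P * V * Vᴴ = P := by rw [Matrix.mul_assoc, e1, hPP]
    have a3 : V * (Vᴴ * P) = P := by rw [← Matrix.mul_assoc, e1, hPP]
    rw [a1, a2, a3, e1, sub_self]
  have h1 : P * V = V := by
    open scoped ComplexOrder in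
    have := Matrix.self_mul_conjTranspose_eq_zero.1 h0
    exact sub_eq_zero.1 this
  have h2 : Vᴴ * P = Vᴴ := by
    have := congrArg Matrix.conjTranspose h1
    rwa [Matrix.conjTranspose_mul, hPH] at this
  refine ⟨h2, ?_, ?_, h1, e1, e2⟩
  · rw [← e2, Matrix.mul_assoc, e1, h2]
  · rw [← e2, ← Matrix.mul_assoc, e1, h1]

end pt

end Crest.Agent.R208.EW
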