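import Crest.Agent.R208.EW2

/-! Row 208, block EW (helper607).  EW3: the Euler class of the descended doubled bundle. -/

set_option autoImplicit false
set_option linter.unusedSectionVars false
set_option linter.unusedVariables false
set_option linter.unusedSimpArgs false

open Set Filter Topology Module MeasureTheory Matrix
open scoped ContDiff RealInnerProductSpace ComplexConjugate Kronecker
open Crest.Agent.R208.F Crest.Agent.R208.FI Crest.Agent.R208.CW Crest.Agent.R208.T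
open Crest.Agent.R208.CM

noncomputable section

namespace Crest.Agent.R208.EW

section rk
variable {a : Type} [Fintype a] [DecidableEq a]

/-- complexification preserves the rank of projections -/
theorem rank_mtx {A : EuclideanSpace ℝ a →L[ℝ] EuclideanSpace ℝ a} (hA : ∀ v, A (A v) = A v) :
    (mtx A).rank = finrank ℝ (LinearMap.range (A : EuclideanSpace ℝ a →ₗ[ℝ] EuclideanSpace ℝ a)) := by
  have h1 : mtx A * mtx A = mtx A := by
    rw [← mc_eq_mtx, ← mc_comp]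
    congr 1
    ext1 v
    exact hA v
  have h2 := rank_eq_trace h1
  have h3 : IsIdempotentElem (A : EuclideanSpace ℝ a →ₗ[ℝ] EuclideanSpace ℝ a) :=
    LinearMap.ext fun v => hA v
  have h4 := (LinearMap.IsIdempotentElem.isProj_range _ h3).trace
  have h5 : LinearMap.trace ℝ _ (A : EuclideanSpace ℝ a →ₗ[ℝ] EuclideanSpace ℝ a)
      = ∑ i, A (EuclideanSpace.single i 1) i := by
    rw [LinearMap.trace_eq_matrix_trace ℝ (EuclideanSpace.basisFun a ℝ).toBasis, Matrix.trace]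
    refine Finset.sum_congr rfl fun i _ => ?_
    rw [Matrix.diag_apply, LinearMap.toMatrix_apply]
    simp
  rw [h5] at h4
  have h6 : (mtx A).trace = ((∑ i, A (EuclideanSpace.single i 1) i : ℝ) : ℂ) := by
    rw [Matrix.trace]
    push_cast
    rfl
  rw [h6, h4] at h2
  have h7 : ((mtx A).rank : ℝ) = (finrank ℝ
    (LinearMap.range (A : EuclideanSpace ℝ a →ₗ[ℝ] EuclideanSpace ℝ a)) : ℝ) := by exact_mod_cast h2
  exact_mod_cast h7

end rk

section glob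
variable {E : Type} [NormedAddCommGroup E] [NormedSpace ℝ E] [FiniteDimensional ℝ E]
  {a b p q κ : Type} [Fintype a] [DecidableEq a] [Fintype b] [DecidableEq b] [Fintype p]
  [DecidableEq p] [Fintype q] [DecidableEq q] [Fintype κ] [DecidableEq κ]
  {X : Set E} {φ : ℝ → E → E} {m d r : ℕ} {g : E → Fin m → ℂ}
  {R : ℝ → EuclideanSpace ℝ a →L[ℝ] EuclideanSpace ℝ a}
  {R₂ : ℝ → EuclideanSpace ℝ b →L[ℝ] EuclideanSpace ℝ b}
  {T : E → EuclideanSpace ℝ a →L[ℝ] EuclideanSpace ℝ p}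
  {T₂ : E → EuclideanSpace ℝ b →L[ℝ] EuclideanSpace ℝ q}
  {N : E → EuclideanSpace ℝ a →L[ℝ] EuclideanSpace ℝ a}
  {NN : E → EuclideanSpace ℝ b →L[ℝ] EuclideanSpace ℝ b}
  {i₁ i₂ : EuclideanSpace ℝ a →L[ℝ] EuclideanSpace ℝ b} {w : ℝ} {z : E → κ → ℂ}

/-- all the data: the doubled bundle with the twisted rotation, and a line of weight `w` -/
structure DD2 (X : Set E) (φ : ℝ → E → E) (R : ℝ → EuclideanSpace ℝ a →L[ℝ] EuclideanSpace ℝ a)
    (R₂ : ℝ → EuclideanSpace ℝ b →L[ℝ] EuclideanSpace ℝ b)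
    (T : E → EuclideanSpace ℝ a →L[ℝ] EuclideanSpace ℝ p)
    (T₂ : E → EuclideanSpace ℝ b →L[ℝ] EuclideanSpace ℝ q)
    (N : E → EuclideanSpace ℝ a →L[ℝ] EuclideanSpace ℝ a)
    (NN : E → EuclideanSpace ℝ b →L[ℝ] EuclideanSpace ℝ b)
    (i₁ i₂ : EuclideanSpace ℝ a →L[ℝ] EuclideanSpace ℝ b) (w : ℝ) (z : E → κ → ℂ) : Prop where
  dbl : Dbl i₁ i₂
  rep : Rep R
  rep₂ : Rep R₂
  triv : Triv X φ R T
  triv₂ : Triv X φ R₂ T₂
  rot : ∀ t u v, R₂ t (i₁ u + i₂ v) = i₁ (Real.cos (w * t) • R t u - Real.sin (w * t) • R t v)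
    + i₂ (Real.sin (w * t) • R t u + Real.cos (w * t) • R t v)
  smN : ∀ x ∈ X, ContDiffAt ℝ ∞ N x
  idN : ∀ x ∈ X, ∀ v, N x (N x v) = N x v
  syN : ∀ x ∈ X, ∀ u v, ⟪N x u, v⟫ = ⟪u, N x v⟫
  eqN : ∀ x ∈ X, ∀ t v, N (φ t x) (R t v) = R t (N x v)
  nn : ∀ x ∈ X, ∀ u v, NN x (i₁ u + i₂ v) = i₁ (N x u) + i₂ (N x v)
  smz : ∀ x ∈ X, ContDiffAt ℝ ∞ z x
  unit : ∀ x ∈ X, ∑ i, z x i * conj (z x i) = 1
  eqz : ∀ x ∈ X, ∀ t : ℝ, z (φ t x) = Complex.exp ((w * t : ℝ) * Complex.I) • z x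

theorem adj_eq_of_sym {A : EuclideanSpace ℝ a →L[ℝ] EuclideanSpace ℝ a}
    (h : ∀ u v, ⟪A u, v⟫ = ⟪u, A v⟫) : ContinuousLinearMap.adjoint A = A := by
  ext1 u
  refine ext_inner_right ℝ fun v => ?_
  rw [ContinuousLinearMap.adjoint_inner_left, h]

theorem mc_iso {c e : Type} [Fintype c] [DecidableEq c] [Fintype e] [DecidableEq e]
    {A : EuclideanSpace ℝ c →L[ℝ] EuclideanSpace ℝ e} (h : ∀ v, ‖A v‖ = ‖v‖) :
    (mc A)ᵀ * mc A = 1 := by
  have h1 := MT_iso h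
  have h2 := congrArg (fun M : Matrix c c ℝ => M.map (algebraMap ℝ ℂ)) h1
  rw [Matrix.map_mul, Matrix.map_one _ (map_zero _) (map_one _)] at h2
  exact h2

theorem DD2.pd (h : DD2 X φ R R₂ T T₂ N NN i₁ i₂ w z) {x : E} (hx : x ∈ X) :
    PD (mc i₁) (mc i₂) (mc (N x)) (mc (T x)) (mc (T₂ x)) := by
  refine ⟨h.dbl.i11, h.dbl.i22, h.dbl.i12, h.dbl.i21, mc_iso (h.triv.iso x hx),
    mc_iso (h.triv₂.iso x hx), ?_, ?_, mc_H _, mc_H _, mc_H _, mc_H _, mc_H _⟩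
  · rw [← mc_comp]
    congr 1
    ext1 v
    exact h.idN x hx v
  · rw [← mc_adj, adj_eq_of_sym (h.syN x hx)]

/-- the intertwiner field on `X` -/
def Ux (T : E → EuclideanSpace ℝ a →L[ℝ] EuclideanSpace ℝ p)
    (T₂ : E → EuclideanSpace ℝ b →L[ℝ] EuclideanSpace ℝ q)
    (N : E → EuclideanSpace ℝ a →L[ℝ] EuclideanSpace ℝ a)
    (i₁ i₂ : EuclideanSpace ℝ a →L[ℝ] EuclideanSpace ℝ b) (x : E) : Matrix q p ℂ :=
  UU (mc i₁) (mc i₂) (mc (N x)) (mc (T x)) (mc (T₂ x))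

theorem DD2.equi (h : DD2 X φ R R₂ T T₂ N NN i₁ i₂ w z) {x : E} (hx : x ∈ X) (t : ℝ) :
    Ux T T₂ N i₁ i₂ (φ t x) = Complex.exp ((w * t : ℝ) * Complex.I) • Ux T T₂ N i₁ i₂ x := by
  have e1 : (mc (T (φ t x)))ᵀ = mc (R t) * (mc (T x))ᵀ := by
    rw [← mc_adj, ← mc_adj, ← mc_comp]
    congr 1
    ext1 v
    exact h.triv.adj_equi h.rep hx t v
  have e2 : mc (N (φ t x)) * mc (R t) = mc (R t) * mc (N x) := by
    rw [← mc_comp, ← mc_comp]
    congr 1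
    ext1 v
    exact h.eqN x hx t v
  have e3 : mc (T₂ (φ t x)) = mc (T₂ x) * mc (R₂ (-t)) := by
    rw [← mc_comp]
    congr 1
    ext1 v
    exact h.triv₂.equi' h.rep₂ hx t v
  have e4 : mc (R₂ (-t)) * (mc i₁ * mc (R t))
      = (Real.cos (w * t) : ℂ) • mc i₁ - (Real.sin (w * t) : ℂ) • mc i₂ := by
    rw [← mc_comp, ← mc_comp, ← mc_smul, ← mc_smul, ← mc_sub]
    congr 1
    ext1 v
    have := h.rot (-t) (R t v) 0
    rw [map_zero, add_zero] at this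
    change R₂ (-t) (i₁ (R t v)) = Real.cos (w * t) • i₁ v - Real.sin (w * t) • i₂ v
    rw [this, h.rep.neg_add, map_zero, smul_zero, smul_zero, sub_zero, add_zero, mul_neg,
      Real.cos_neg, Real.sin_neg, map_smul, map_smul, neg_smul, sub_eq_add_neg]
  have e5 : mc (R₂ (-t)) * (mc i₂ * mc (R t))
      = (Real.sin (w * t) : ℂ) • mc i₁ + (Real.cos (w * t) : ℂ) • mc i₂ := by
    rw [← mc_comp, ← mc_comp, ← mc_smul, ← mc_smul, ← mc_add]
    congr 1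
    ext1 v
    have := h.rot (-t) 0 (R t v)
    rw [map_zero, zero_add] at this
    change R₂ (-t) (i₂ (R t v)) = Real.sin (w * t) • i₁ v + Real.cos (w * t) • i₂ v
    rw [this, h.rep.neg_add, map_zero, smul_zero, smul_zero, zero_sub, zero_add, mul_neg,
      Real.cos_neg, Real.sin_neg, map_neg, map_smul, map_smul, neg_smul, neg_neg]
  have e6 : ∀ Y : Matrix b a ℂ, mc (T₂ (φ t x)) * (Y * (mc (N (φ t x)) * (mc (T (φ t x)))ᵀ))
      = mc (T₂ x) * ((mc (R₂ (-t)) * (Y * mc (R t))) * (mc (N x) * (mc (T x))ᵀ)) := fun Y => by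
    rw [e1, e3, ← Matrix.mul_assoc (mc (N (φ t x))), e2]
    simp only [Matrix.mul_assoc]
  rw [Ux, Ux, UU, UU, e6, e6, e4, e5, Complex.exp_mul_I, ← Complex.ofReal_cos, ← Complex.ofReal_sin]
  generalize ((Real.sin (w * t) : ℝ) : ℂ) = s
  generalize ((Real.cos (w * t) : ℝ) : ℂ) = c
  generalize (((Real.sqrt 2 : ℝ) : ℂ)⁻¹) = r2
  simp only [Matrix.sub_mul, Matrix.add_mul, Matrix.mul_sub, Matrix.mul_add, Matrix.smul_mul,
    Matrix.mul_smul]
  match_scalars <;> first | ring1 | linear_combination (-(r2 * s)) * Complex.I_sq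

/-- the invariant matrix field on `X` -/
def Vx (T : E → EuclideanSpace ℝ a →L[ℝ] EuclideanSpace ℝ p)
    (T₂ : E → EuclideanSpace ℝ b →L[ℝ] EuclideanSpace ℝ q)
    (N : E → EuclideanSpace ℝ a →L[ℝ] EuclideanSpace ℝ a)
    (i₁ i₂ : EuclideanSpace ℝ a →L[ℝ] EuclideanSpace ℝ b) (z : E → κ → ℂ) (x : E) :
    q → (p × κ) → ℂ := TT (Ux T T₂ N i₁ i₂ x) (z x)

theorem DD2.Vx_inv (h : DD2 X φ R R₂ T T₂ N NN i₁ i₂ w z) {x : E} (hx : x ∈ X) (t : ℝ) :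
    Vx T T₂ N i₁ i₂ z (φ t x) = Vx T T₂ N i₁ i₂ z x := by
  have h1 : Complex.exp ((w * t : ℝ) * Complex.I) * conj (Complex.exp ((w * t : ℝ) * Complex.I)) = 1 := by
    rw [Complex.mul_conj, Complex.normSq_eq_norm_sq, Complex.norm_exp_ofReal_mul_I]
    simp
  funext j i
  change Ux T T₂ N i₁ i₂ (φ t x) j i.1 * conj (z (φ t x) i.2) = Ux T T₂ N i₁ i₂ x j i.1 * conj (z x i.2)
  rw [h.equi hx, h.eqz x hx, Matrix.smul_apply, Pi.smul_apply, smul_eq_mul, smul_eq_mul, map_mul]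
  linear_combination (Ux T T₂ N i₁ i₂ x j i.1 * conj (z x i.2)) * h1

theorem DD2.contDiffAt_Vx (h : DD2 X φ R R₂ T T₂ N NN i₁ i₂ w z) {x : E} (hx : x ∈ X) :
    ContDiffAt ℝ ∞ (Vx T T₂ N i₁ i₂ z) x := by
  rw [contDiffAt_pi]
  intro j
  rw [contDiffAt_pi]
  rintro ⟨i, k⟩
  have h1 : SM ∞ (fun y => mc (T y)) x := contDiffAt_mc (h.triv.smooth x hx)
  have h2 : SM ∞ (fun y => mc (T₂ y)) x := contDiffAt_mc (h.triv₂.smooth x hx)
  have h3 : SM ∞ (fun y => mc (N y)) x := contDiffAt_mc (h.smN x hx)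
  have h4 : SM ∞ (fun y => Ux T T₂ N i₁ i₂ y) x :=
    SM.csmul _ ((h2.mul ((SM.const _).mul (h3.mul h1.transpose))).add
      (SM.csmul _ (h2.mul ((SM.const _).mul (h3.mul h1.transpose)))))
  exact (h4 j i).mul (Complex.conjCLE.contDiff.contDiffAt.comp x (contDiffAt_pi.1 (h.smz x hx) k))

/-- `NN` in terms of `N` -/
theorem DD2.mc_NN (h : DD2 X φ R R₂ T T₂ N NN i₁ i₂ w z) {x : E} (hx : x ∈ X) :
    mc (NN x) = NNm (mc i₁) (mc i₂) (mc (N x)) := by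
  have e : NNm (mc i₁) (mc i₂) (mc (N x))
      = mc ((i₁.comp ((N x).comp (ContinuousLinearMap.adjoint i₁)))
        + (i₂.comp ((N x).comp (ContinuousLinearMap.adjoint i₂)))) := by
    rw [mc_add, mc_comp, mc_comp, mc_comp, mc_comp, mc_adj, mc_adj, NNm, Matrix.mul_assoc,
      Matrix.mul_assoc]
  rw [e]
  refine h.dbl.mc_eq fun u v => ?_
  have a1 : ContinuousLinearMap.adjoint i₁ (i₁ u + i₂ v) = u := by
    refine ext_inner_right ℝ fun y => ?_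
    rw [ContinuousLinearMap.adjoint_inner_left]
    have := h.dbl.inner u v y 0
    simpa using this
  have a2 : ContinuousLinearMap.adjoint i₂ (i₁ u + i₂ v) = v := by
    refine ext_inner_right ℝ fun y => ?_
    rw [ContinuousLinearMap.adjoint_inner_left]
    have := h.dbl.inner u v 0 y
    simpa using this
  change NN x (i₁ u + i₂ v) = i₁ (N x (ContinuousLinearMap.adjoint i₁ (i₁ u + i₂ v)))
    + i₂ (N x (ContinuousLinearMap.adjoint i₂ (i₁ u + i₂ v)))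
  rw [a1, a2, h.nn x hx]

variable {ι : Type} [Fintype ι] [DecidableEq ι]
  {P' : MM m → EuclideanSpace ℝ p →L[ℝ] EuclideanSpace ℝ p}
  {P₂ : MM m → EuclideanSpace ℝ q →L[ℝ] EuclideanSpace ℝ q} {W₂ : MM m → (ι × Fin 2 → q) → ℝ}
  {L : MM m → Matrix κ κ ℂ}

theorem mc_Qd {c e : Type} [Fintype c] [DecidableEq c] [Fintype e] [DecidableEq e]
    (T : E → EuclideanSpace ℝ c →L[ℝ] EuclideanSpace ℝ e)
    (N : E → EuclideanSpace ℝ c →L[ℝ] EuclideanSpace ℝ c) (x : E) :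
    mtx (Qd T N x) = mc (T x) * mc (N x) * (mc (T x))ᵀ := by
  rw [← mc_eq_mtx, Qd, mc_comp, mc_comp, mc_adj, Matrix.mul_assoc]

/-- **the Euler class of the descended doubled bundle**: top Chern class of `N_ℂ ⊗ (line)` -/
theorem DD2.ec_eq (h : DD2 X φ R R₂ T T₂ N NN i₁ i₂ w z) (hg : Emb X φ g) (hC : Cir X φ)
    (hX : Clo (d + 1) X) (hXc : IsPreconnected X)
    (hP : IdF (Quo X g) fun y => mtx (P' y)) (hPr : ∀ y ∈ Quo X g, (mtx (P' y)).rank = r)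
    (hP' : ∀ x ∈ X, P' (jj g x) = Qd T N x)
    (hO : OR (ι := ι) (Quo X g) P₂ W₂) (hι : Fintype.card ι = r)
    (hP₂ : ∀ x ∈ X, P₂ (jj g x) = Qd T₂ NN x)
    (hL : IdF (Quo X g) L) (hLz : ∀ x ∈ X, L (jj g x) = lin (z x)) :
    ∃ ε : ℂ, (ε = 1 ∨ ε = -1) ∧ ec (OR.of hO)
      = (ε * ((2 : ℂ) ^ r * (r.factorial) * Complex.I ^ r))
        • ∑ i ∈ Finset.range (r + 1), cc (hg.sub_Quo hC hX) hP i
          * sc (hg.sub_Quo hC hX) hL 1 ^ (r - i) := by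
  subst hι
  obtain ⟨V, hVs, hV⟩ := hg.exists_desc hC hX (f := Vx T T₂ N i₁ i₂ z)
    (fun x hx => h.contDiffAt_Vx hx) (fun x hx t => h.Vx_inv hx t)
  -- matrices on the quotient
  let V' : MM m → Matrix q (p × κ) ℂ := fun y => Matrix.of (V y)
  have hVsm : ∀ y, SM ∞ V' y := fun y i j =>
    (contDiffAt_pi.1 (contDiffAt_pi.1 hVs.contDiffAt i) j)
  have hVH : ∀ y, SM ∞ (fun y => (V' y)ᴴ) y := fun y i j =>
    Complex.conjCLE.contDiff.contDiffAt.comp y (hVsm y j i)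
  let K : MM m → Matrix q q ℂ := fun y => V' y * (V' y)ᴴ
  have hKs : ∀ y, SM ∞ K y := fun y => (hVsm y).mul (hVH y)
  let J : MM m → Matrix q q ℂ := fun y => Complex.I • (K y - (K y).map (starRingEnd ℂ))
  have hJs : ∀ y, SM ∞ J y := fun y => SM.csmul _ ((hKs y).sub (hKs y).conj)
  have hVx : ∀ x ∈ X, V' (jj g x) = TT (Ux T T₂ N i₁ i₂ x) (z x) := fun x hx => by
    change Matrix.of (V (jj g x)) = _
    rw [hV x hx]; rfl
  have hK : ∀ x ∈ X, K (jj g x) = qJ (mc (T₂ x) * NNm (mc i₁) (mc i₂) (mc (N x)) * (mc (T₂ x))ᵀ)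
      (mc (T₂ x) * JNm (mc i₁) (mc i₂) (mc (N x)) * (mc (T₂ x))ᵀ) := fun x hx => by
    change V' (jj g x) * (V' (jj g x))ᴴ = _
    rw [hVx x hx, TT_mul _ (h.unit x hx), Ux, (h.pd hx).UUH]
  have hPm : ∀ x ∈ X, mtx (P₂ (jj g x))
      = mc (T₂ x) * NNm (mc i₁) (mc i₂) (mc (N x)) * (mc (T₂ x))ᵀ := fun x hx => by
    rw [hP₂ x hx, mc_Qd, h.mc_NN hx]
  have hJ : ∀ x ∈ X, J (jj g x)
      = mc (T₂ x) * JNm (mc i₁) (mc i₂) (mc (N x)) * (mc (T₂ x))ᵀ := fun x hx => by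
    change Complex.I • (K (jj g x) - (K (jj g x)).map (starRingEnd ℂ)) = _
    rw [hK x hx, (h.pd hx).rj.conj_qJ, qJ]
    simp only [smul_neg, smul_sub, smul_add, smul_smul]
    match_scalars <;> first | ring1 | linear_combination (-1 : ℂ) * Complex.I_sq
  have hr : ∀ y ∈ Quo X g, RJ (mtx (P₂ y)) (J y) := by
    rintro _ ⟨x, hx, rfl⟩
    rw [hPm x hx, hJ x hx]
    exact (h.pd hx).rj
  have hQ : IdF (Quo X g) (fun y => qJ (mtx (P₂ y)) (J y)) :=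
    ⟨fun y hy => SM.qJ ((OR.of hO).sP y hy) (hJs y), fun y hy => (hr y hy).qJ_idem⟩
  have hXq : IsPreconnected (Quo X g) := hXc.image _ fun x hx =>
    (hg.contDiffAt_jj hx).continuousAt.continuousWithinAt
  obtain ⟨ε, hε, he⟩ := ec_complex (hg.sub_Quo hC hX) hXq (OR.of hO) (fun y _ => hJs y) hr hQ
  refine ⟨ε, hε, ?_⟩
  have hiso : cs (hg.sub_Quo hC hX) hQ = cs (hg.sub_Quo hC hX) (hP.kron hL) := by
    refine cs_iso _ hQ (hP.kron hL) (S := fun y => (V' y)ᴴ) (fun y _ => hVH y) ?_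
    rintro _ ⟨x, hx, rfl⟩
    refine ⟨V' (jj g x), ?_⟩
    have := (h.pd hx).pIso (κ := κ) (h.unit x hx)
    rw [hPm x hx, hJ x hx, hLz x hx, hP' x hx, hVx x hx, mc_Qd]
    exact this
  have hcc : cc (hg.sub_Quo hC hX) hQ (Fintype.card ι)
      = cc (hg.sub_Quo hC hX) (hP.kron hL) (Fintype.card ι) := by
    rw [← coeff_cs, ← coeff_cs, hiso]
  rw [he, hcc, cc_kron_line _ hP hL hPr]
  rintro _ ⟨x, hx, rfl⟩
  rw [hLz x hx]
  exact lin_rank (h.unit x hx)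

end glob

end Crest.Agent.R208.EW
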