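import Crest.Agent.R208.EW3
import Crest.Agent.R208.CM3e
import Crest.Agent.R208.DEG2

/-! Row 208, block EW (helper607).  EW4: the first Chern class of the tautological line is
`± i [curvature]`; powers of the line. -/

set_option autoImplicit false
set_option linter.unusedSectionVars false
set_option linter.unusedVariables false
set_option linter.unusedSimpArgs false

open Set Filter Topology Module MeasureTheory Matrix
open scoped ContDiff RealInnerProductSpace ComplexConjugate Kronecker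
open Crest.Agent.R208.F Crest.Agent.R208.FI Crest.Agent.R208.CW
open Crest.Agent.R208.CM
open Crest.Agent.R208.T (Sm Cl Eqv Coh Hom mtx wC EC rcl OR)

noncomputable section

namespace Crest.Agent.R208.EW

variable {m : ℕ}

/-- the tautological complex line -/
def Lt (y : MM m) : Matrix (Fin m) (Fin m) ℂ := Matrix.of y

theorem Lt_jj {E : Type} {g : E → Fin m → ℂ} (x : E) : Lt (jj g x) = lin (g x) := rfl

theorem SM_Lt (y : MM m) {k : WithTop ℕ∞} : SM k (Lt (m := m)) y := fun i j =>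
  contDiffAt_pi.1 (contDiffAt_pi.1 contDiffAt_id i) j

section line
variable {E : Type} [NormedAddCommGroup E] [NormedSpace ℝ E] [FiniteDimensional ℝ E]
  {X : Set E} {φ : ℝ → E → E} {g : E → Fin m → ℂ} {n : ℕ} {al : E → Ext E}
  {Fc : MM m → Ext (MM m)}

theorem sum_g (hg : Emb X φ g) {x : E} (hx : x ∈ X) : ∑ i, g x i * conj (g x i) = 1 := by
  rw [← hg.sum_eq hx]
  exact Finset.sum_congr rfl fun i _ => mul_comm _ _

theorem idF_Lt (hg : Emb X φ g) : IdF (Quo X g) (Lt (m := m)) := by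
  refine ⟨fun y _ => SM_Lt y, ?_⟩
  rintro _ ⟨x, hx, rfl⟩
  exact lin_idem (sum_g hg hx)

theorem rank_Lt (hg : Emb X φ g) : ∀ y ∈ Quo X g, (Lt (m := m) y).rank = 1 := by
  rintro _ ⟨x, hx, rfl⟩
  exact lin_rank (sum_g hg hx)

/-- the entries `ce` as a matrix -/
def CE (y : MM m) : Matrix (RI m) (RI m) ℂ := Matrix.of fun p q => ce y p q

theorem mtx_PL (y : MM m) : mtx (PL y) = ((1 : ℂ) / 2) • (CE y + (CE y).map (starRingEnd ℂ)) := by
  refine Matrix.ext fun p q => ?_
  have h1 : mtx (PL y) p q = ((Pm y p q : ℝ) : ℂ) := by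
    rw [PL, T.mtx_mE, T.mE_single]
  rw [h1, Matrix.smul_apply, Matrix.add_apply, Matrix.map_apply]
  change ((ce y p q).re : ℂ) = (1 / 2) • (ce y p q + conj (ce y p q))
  rw [Complex.add_conj, smul_eq_mul]
  push_cast
  ring

theorem CE_mul {x : E} (hg : Emb X φ g) (hx : x ∈ X) :
    CE (jj g x) * CE (jj g x) = (2 : ℂ) • CE (jj g x) := by
  refine Matrix.ext fun p q => ?_
  rw [Matrix.mul_apply, Fintype.sum_prod_type, Matrix.smul_apply, smul_eq_mul]
  have h1 : ∀ (b : Fin m) (s : Fin 2), CE (jj g x) p (b, s) * CE (jj g x) (b, s) q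
      = ce (jj g x) p q * (g x b * conj (g x b)) * (wz s * conj (wz s)) := by
    intro b s
    change ce (jj g x) p (b, s) * ce (jj g x) (b, s) q = _
    rw [ce_jj, ce_jj, ce_jj]
    simp only [map_mul]
    ring
  simp only [h1, Fin.sum_univ_two, wz_zero, wz_one, map_one, map_neg, Complex.conj_I, mul_one,
    neg_neg]
  have h2 : -Complex.I * Complex.I = 1 := by rw [neg_mul, Complex.I_mul_I, neg_neg]
  simp only [h2, mul_one]
  rw [Finset.sum_add_distrib, ← Finset.mul_sum, sum_g hg hx, mul_one, two_mul]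
  rfl

theorem CE_mul_conj {x : E} : CE (jj g x) * (CE (jj g x)).map (starRingEnd ℂ) = 0 := by
  refine Matrix.ext fun p q => ?_
  rw [Matrix.mul_apply, Fintype.sum_prod_type]
  refine Finset.sum_eq_zero fun b _ => ?_
  have h1 : ∀ (s : Fin 2), CE (jj g x) p (b, s) * (CE (jj g x)).map (starRingEnd ℂ) (b, s) q
      = (g x p.1 * wz p.2) * (g x q.1 * wz q.2) * (conj (g x b) * conj (g x b)) * (conj (wz s) * conj (wz s)) := by
    intro s
    change ce (jj g x) p (b, s) * conj (ce (jj g x) (b, s) q) = _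
    rw [ce_jj, ce_jj]
    simp only [map_mul, Complex.conj_conj]
    ring
  simp only [h1, Fin.sum_univ_two, wz_zero, wz_one, map_one, map_neg, Complex.conj_I, mul_one,
    neg_neg, Complex.I_mul_I]
  ring

/-- the complex structure of the real tautological line -/
def JL (y : MM m) : Matrix (RI m) (RI m) ℂ :=
  (Complex.I / 2) • (CE y - (CE y).map (starRingEnd ℂ))

theorem SM_CE (y : MM m) {k : WithTop ℕ∞} : SM k (CE (m := m)) y := fun p q => by
  have h1 : ContDiffAt ℝ k (fun y : MM m => y p.1 q.1) y :=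
    contDiffAt_pi.1 (contDiffAt_pi.1 contDiffAt_id p.1) q.1
  exact h1.mul contDiffAt_const

theorem SM_JL (y : MM m) {k : WithTop ℕ∞} : SM k (JL (m := m)) y :=
  SM.csmul _ ((SM_CE y).sub (SM_CE y).conj)

theorem CE_T {x : E} : (CE (jj g x))ᵀ = (CE (jj g x)).map (starRingEnd ℂ) := by
  refine Matrix.ext fun p q => ?_
  change ce (jj g x) q p = conj (ce (jj g x) p q)
  rw [ce_jj, ce_jj]
  simp only [map_mul, Complex.conj_conj]
  ring

theorem rj_L (hg : Emb X φ g) : ∀ y ∈ Quo X g, RJ (mtx (PL (m := m) y)) (JL y) := by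
  rintro _ ⟨x, hx, rfl⟩
  set C := CE (jj g x) with hC
  set D := C.map (starRingEnd ℂ) with hD
  have cc : C * C = (2 : ℂ) • C := CE_mul hg hx
  have cd : C * D = 0 := CE_mul_conj
  have dd : D * D = (2 : ℂ) • D := by
    have := congrArg (fun M : Matrix (RI m) (RI m) ℂ => M.map (starRingEnd ℂ)) cc
    rw [Matrix.map_mul] at this
    rw [hD, this]
    refine Matrix.ext fun i j => ?_
    change conj ((2 : ℂ) * C i j) = 2 * conj (C i j)
    rw [map_mul, Complex.conj_ofNat]
  have dc : D * C = 0 := by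
    have := congrArg (fun M : Matrix (RI m) (RI m) ℂ => M.map (starRingEnd ℂ)) cd
    rw [Matrix.map_mul] at this
    have e : D.map (starRingEnd ℂ) = C := by
      refine Matrix.ext fun i j => ?_
      change conj (conj (C i j)) = C i j
      rw [Complex.conj_conj]
    rw [e] at this
    rw [this]
    exact Matrix.ext fun i j => map_zero (starRingEnd ℂ)
  have ct : Cᵀ = D := CE_T
  have dt : Dᵀ = C := by rw [← ct, Matrix.transpose_transpose]
  have cjP : ∀ c : ℂ, ∀ s : ℂ, (c • (C + s • D)).map (starRingEnd ℂ)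
      = conj c • (D + conj s • C) := fun c s => by
    refine Matrix.ext fun i j => ?_
    change conj (c * (C i j + s * D i j)) = conj c * (D i j + conj s * C i j)
    have : D i j = conj (C i j) := rfl
    rw [this, map_mul, map_add, map_mul, Complex.conj_conj]
  refine ⟨?_, ?_, ?_, ?_, ?_, ?_, ?_⟩
  · rw [mtx_PL, cj_map]
    have := cjP (1 / 2) 1
    rw [one_smul, map_one, one_smul] at this
    rw [← hC, ← hD, this, map_div₀, map_one, map_ofNat, add_comm]
  · rw [JL, cj_map]
    have := cjP (Complex.I / 2) (-1)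
    rw [neg_smul, one_smul, map_neg, map_one, neg_smul, one_smul, ← sub_eq_add_neg,
      ← sub_eq_add_neg] at this
    rw [← hC, ← hD, this, map_div₀, map_ofNat, Complex.conj_I]
    module
  · rw [mtx_PL, Matrix.transpose_smul, Matrix.transpose_add, ← hC, ← hD, ct, dt, add_comm]
  · rw [mtx_PL, ← hC, ← hD]
    simp only [Matrix.smul_mul, Matrix.mul_smul, Matrix.add_mul, Matrix.mul_add, cc, cd, dc, dd]
    module
  · rw [mtx_PL, JL, ← hC, ← hD]
    simp only [Matrix.smul_mul, Matrix.mul_smul, Matrix.sub_mul, Matrix.mul_sub, cc, cd, dc, dd]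
    match_scalars <;> first | ring1 | linear_combination (1 / 2 : ℂ) * Complex.I_sq
  · rw [mtx_PL, JL, ← hC, ← hD]
    simp only [Matrix.smul_mul, Matrix.mul_smul, Matrix.sub_mul, Matrix.mul_add, cc, cd, dc, dd]
    module
  · rw [mtx_PL, JL, ← hC, ← hD]
    simp only [Matrix.smul_mul, Matrix.mul_smul, Matrix.add_mul, Matrix.mul_sub, cc, cd, dc, dd]
    module

theorem qJ_L (y : MM m) : qJ (mtx (PL y)) (JL y) = ((1 : ℂ) / 2) • CE y := by
  rw [qJ, mtx_PL, JL]
  match_scalars <;> first | ring1 | linear_combination (-1 / 4 : ℂ) * Complex.I_sq | linear_combination (1 / 4 : ℂ) * Complex.I_sq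

/-- intertwiner between the two descriptions of the line -/
def SL (y : MM m) : Matrix (Fin m) (RI m) ℂ :=
  Matrix.of fun a p => ((Real.sqrt 2 : ℝ) : ℂ)⁻¹ * (y a p.1 * conj (wz p.2))

def TL (y : MM m) : Matrix (RI m) (Fin m) ℂ :=
  Matrix.of fun p a => ((Real.sqrt 2 : ℝ) : ℂ)⁻¹ * (y p.1 a * wz p.2)

theorem sqrt2_sq' : ((Real.sqrt 2 : ℝ) : ℂ)⁻¹ * ((Real.sqrt 2 : ℝ) : ℂ)⁻¹ = 1 / 2 := sqrt2_sq

theorem pIso_L (hg : Emb X φ g) : ∀ y ∈ Quo X g,
    SP.PIso (qJ (mtx (PL y)) (JL y)) (Lt y) (SL y) (TL y) := by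
  rintro _ ⟨x, hx, rfl⟩
  set y := jj g x with hy
  rw [qJ_L]
  have yy : ∀ a b, ∑ c, y a c * y c b = y a b := fun a b => by
    have := congrFun (congrFun (lin_idem (sum_g hg hx)) a) b
    rwa [Matrix.mul_apply] at this
  have ww : ∑ s : Fin 2, wz s * conj (wz s) = 2 := by
    rw [Fin.sum_univ_two, wz_zero, wz_one, map_one, map_neg, Complex.conj_I, neg_neg, neg_mul,
      Complex.I_mul_I]
    norm_num
  set r2 : ℂ := ((Real.sqrt 2 : ℝ) : ℂ)⁻¹ with hr2
  have r22 : r2 * r2 = 1 / 2 := sqrt2_sq'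
  have key1 : ∀ a p, (SL y * (((1 : ℂ) / 2) • CE y)) a p = SL y a p := by
    intro a p
    rw [Matrix.mul_apply, Fintype.sum_prod_type]
    have h1 : ∀ (b : Fin m) (s : Fin 2), SL y a (b, s) * (((1 : ℂ) / 2) • CE y) (b, s) p
        = (r2 * (1 / 2) * conj (wz p.2)) * (y a b * y b p.1) * (wz s * conj (wz s)) := by
      intro b s
      rw [Matrix.smul_apply, smul_eq_mul]
      change r2 * (y a b * conj (wz s)) * (1 / 2 * (y b p.1 * (wz s * conj (wz p.2)))) = _
      ring
    simp only [h1]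
    simp only [← Finset.mul_sum, ww, ← Finset.sum_mul]
    rw [yy]
    change _ = r2 * (y a p.1 * conj (wz p.2))
    ring
  have key2 : ∀ p a, ((((1 : ℂ) / 2) • CE y) * TL y) p a = TL y p a := by
    intro p a
    rw [Matrix.mul_apply, Fintype.sum_prod_type]
    have h1 : ∀ (b : Fin m) (s : Fin 2), (((1 : ℂ) / 2) • CE y) p (b, s) * TL y (b, s) a
        = (r2 * (1 / 2) * wz p.2) * (y p.1 b * y b a) * (wz s * conj (wz s)) := by
      intro b s
      rw [Matrix.smul_apply, smul_eq_mul]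
      change (1 / 2 * (y p.1 b * (wz p.2 * conj (wz s)))) * (r2 * (y b a * wz s)) = _
      ring
    simp only [h1]
    simp only [← Finset.mul_sum, ww, ← Finset.sum_mul]
    rw [yy]
    change _ = r2 * (y p.1 a * wz p.2)
    ring
  refine ⟨Matrix.ext key1, ?_, ?_, Matrix.ext key2, ?_, ?_⟩
  · refine Matrix.ext fun a p => ?_
    rw [Matrix.mul_apply]
    have h1 : ∀ c, Lt y a c * SL y c p = (r2 * conj (wz p.2)) * (y a c * y c p.1) := fun c => by
      change y a c * (r2 * (y c p.1 * conj (wz p.2))) = _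
      ring
    simp only [h1]
    rw [← Finset.mul_sum, yy]
    change _ = r2 * (y a p.1 * conj (wz p.2))
    ring
  · refine Matrix.ext fun p a => ?_
    rw [Matrix.mul_apply]
    have h1 : ∀ c, TL y p c * Lt y c a = (r2 * wz p.2) * (y p.1 c * y c a) := fun c => by
      change (r2 * (y p.1 c * wz p.2)) * y c a = _
      ring
    simp only [h1]
    rw [← Finset.mul_sum, yy]
    change _ = r2 * (y p.1 a * wz p.2)
    ring
  · refine Matrix.ext fun p q => ?_
    rw [Matrix.mul_apply, Matrix.smul_apply, smul_eq_mul]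
    have h1 : ∀ c, TL y p c * SL y c q = (r2 * r2 * (wz p.2 * conj (wz q.2))) * (y p.1 c * y c q.1) :=
      fun c => by
        change (r2 * (y p.1 c * wz p.2)) * (r2 * (y c q.1 * conj (wz q.2))) = _
        ring
    simp only [h1]
    rw [← Finset.mul_sum, yy, r22]
    change _ = 1 / 2 * (y p.1 q.1 * (wz p.2 * conj (wz q.2)))
    ring
  · refine Matrix.ext fun a b => ?_
    rw [Matrix.mul_apply, Fintype.sum_prod_type]
    have h1 : ∀ (c : Fin m) (s : Fin 2), SL y a (c, s) * TL y (c, s) b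
        = (r2 * r2) * (y a c * y c b) * (wz s * conj (wz s)) := by
      intro c s
      change r2 * (y a c * conj (wz s)) * (r2 * (y c b * wz s)) = _
      ring
    simp only [h1]
    simp only [← Finset.mul_sum, ww, ← Finset.sum_mul]
    rw [yy, r22]
    change _ = y a b
    ring

theorem SM_SL (y : MM m) {k : WithTop ℕ∞} : SM k (SL (m := m)) y := fun a p =>
  contDiffAt_const.mul
    ((contDiffAt_pi.1 (contDiffAt_pi.1 contDiffAt_id a) p.1).mul contDiffAt_const)

/-- Euler class of the real tautological line in terms of the first Chern class -/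
theorem ec_L (hg : Emb X φ g) (hC : Cir X φ) (hX : Clo (n + 1) X) (hXc : IsPreconnected X) :
    ∃ ε : ℂ, (ε = 1 ∨ ε = -1) ∧ ec (T.OR.of hg.or_L)
      = (ε * (2 * Complex.I)) • sc (hg.sub_Quo hC hX) (idF_Lt hg) 1 := by
  have hXq : IsPreconnected (Quo X g) := hXc.image _ fun x hx =>
    (hg.contDiffAt_jj hx).continuousAt.continuousWithinAt
  have hQ : IdF (Quo X g) (fun y => qJ (mtx (PL (m := m) y)) (JL y)) :=
    ⟨fun y hy => SM.qJ ((T.OR.of hg.or_L).sP y hy) (SM_JL y), fun y hy => (rj_L hg y hy).qJ_idem⟩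
  obtain ⟨ε, hε, he⟩ := ec_complex (hg.sub_Quo hC hX) hXq (T.OR.of hg.or_L)
    (fun y _ => SM_JL y) (rj_L hg) hQ
  refine ⟨ε, hε, ?_⟩
  have hiso : cs (hg.sub_Quo hC hX) hQ = cs (hg.sub_Quo hC hX) (idF_Lt hg) :=
    cs_iso _ hQ (idF_Lt hg) (S := SL) (fun y _ => SM_SL y) fun y hy => ⟨TL y, pIso_L hg y hy⟩
  have hcc : cc (hg.sub_Quo hC hX) hQ 1 = sc (hg.sub_Quo hC hX) (idF_Lt hg) 1 := by
    rw [← coeff_cs, hiso, coeff_cs, cc_eq_el]
    have := el_succ (sc (hg.sub_Quo hC hX) (idF_Lt hg)) 0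
    simpa [el_zero] using this
  rw [he, ← hcc]
  congr 1
  simp

/-- **the first Chern class of the tautological line is `± i [F]`** -/
theorem sc_Lt (hg : Emb X φ g) (hC : Cir X φ) (hX : Clo (n + 1) X) (hXc : IsPreconnected X)
    (ha : Conn X φ al) (hF : Curv X g al Fc) (hE : EC (Quo X g) Fc) :
    ∃ σ : ℂ, (σ = 1 ∨ σ = -1) ∧
      sc (hg.sub_Quo hC hX) (idF_Lt hg) 1 = (σ * Complex.I) • rcl hE := by
  obtain ⟨ε, hε, he⟩ := ec_L hg hC hX hXc
  have h1 := hF.coh_eR hg hC hX ha
  obtain ⟨⟨a1, a2, a3⟩, -⟩ := T.mem_Z_iff.1 (ef_mem_Z (T.OR.of hg.or_L))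
  have hEe : EC (Quo X g) (T.eR (PL (m := m)) WL) := ⟨a1, a2, a3⟩
  have h2 : rcl hEe = ec (T.OR.of hg.or_L) := by
    refine T.cls_of_eq _ _ (funext fun x => Cx.ext rfl ?_)
    exact (IsRe_ef (fun _ _ _ => Complex.ofReal_im _) (fun _ => Complex.ofReal_im _)).symm
  have h3 : rcl hE = ((-(1 / 2) : ℝ) : ℂ) • rcl hEe := by
    rw [← T.rcl_smul]
    exact T.rcl_congr _ _ h1
  refine ⟨ε, hε, ?_⟩
  rw [h3, h2, he, smul_smul, smul_smul]
  have hε2 : ε * ε = 1 := by rcases hε with rfl | rfl <;> norm_num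
  have : ε * Complex.I * (((-(1 / 2) : ℝ) : ℂ) * (ε * (2 * Complex.I))) = 1 := by
    push_cast
    linear_combination (-(Complex.I * Complex.I)) * hε2 - Complex.I_mul_I
  rw [← mul_assoc] at this
  rw [this, one_smul]

end line

end Crest.Agent.R208.EW
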