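import Crest.Agent.R208.T3a

/-! Row 208, (8,2), block H2 (helper969).  HY1: cohomology of the base of a circle bundle in low
degrees, from the cohomology of the total space (abstract form).  `Gys X B j F` collects the
Gysin properties of `j : X → B` with curvature form `F`. -/

set_option autoImplicit false
set_option linter.unusedSectionVars false

open MeasureTheory Set Filter Topology Module
open scoped ContDiff
open Crest.Agent.R208.F Crest.Agent.R208.FI Crest.Agent.R208.CW Crest.Agent.R208.T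

noncomputable section

namespace Crest.Agent.R208.HY

variable {E E' : Type*} [NormedAddCommGroup E] [NormedSpace ℝ E] [FiniteDimensional ℝ E]
  [NormedAddCommGroup E'] [NormedSpace ℝ E'] [FiniteDimensional ℝ E']
  {X : Set E} {B : Set E'} {q : E → E'} {F₀ : E' → Ext E'} {d r J : ℕ}

/-- Gysin properties of a circle bundle `q : X → B` with curvature `F₀`. -/
structure Gys (X : Set E) (B : Set E') (q : E → E') (F₀ : E' → Ext E') : Prop where
  smap : SMap X B q
  sm : Sm B F₀
  cl : Cl B F₀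
  hom : Hom 2 F₀
  zero : Coh X (pull q F₀) 0
  high : ∀ (i : ℕ) (b : E' → Ext E'), Sm B b → Cl B b → Hom (i + 2) b → Coh X (pull q b) 0 →
    ∃ c : E' → Ext E', Sm B c ∧ Cl B c ∧ Hom i c ∧ Coh B b (c * F₀)
  low : ∀ (i : ℕ) (b : E' → Ext E'), i < 2 → Sm B b → Cl B b → Hom i b → Coh X (pull q b) 0 →
    Coh B b 0
  push : ∀ (i : ℕ) (b : E → Ext E), Sm X b → Cl X b → Hom (i + 1) b →
    ∃ c : E' → Ext E', Sm B c ∧ Cl B c ∧ Hom i c ∧ (Coh B c 0 →
      ∃ a : E' → Ext E', Sm B a ∧ Cl B a ∧ Hom (i + 1) a ∧ Coh X b (pull q a))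

/-- closed forms of degree `0 < j < J` on `X` are multiples of `x ^ (j / r)`, and exact if
`r` does not divide `j`. -/
def Low (X : Set E) (x : E → Ext E) (r J : ℕ) : Prop :=
  ∀ (j : ℕ) (b : E → Ext E), 0 < j → j < J → Sm X b → Cl X b → Hom j b →
    ∃ c : ℝ, (¬ r ∣ j → c = 0) ∧ Coh X b (c • x ^ (j / r))

theorem coh_mul_zero {a b : E' → Ext E'} (hb : Sm B b) (hbc : Cl B b) (h : Coh B a 0) :
    Coh B (a * b) 0 := by
  have := Coh.mul_right hb hbc h
  rwa [zero_mul] at this

/-- **odd degrees**: closed forms of odd degree `< J` on the base are exact. -/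
theorem Gys.odd (hG : Gys X B q F₀) (hr : Even r) {x : E → Ext E} (hX : Low X x r J) :
    ∀ (j : ℕ) (b : E' → Ext E'), Odd j → j < J → Sm B b → Cl B b → Hom j b → Coh B b 0 := by
  intro j
  induction j using Nat.strong_induction_on with
  | _ j ih =>
  intro b hj hJ hs hc hd
  have hj0 : 0 < j := hj.pos
  obtain ⟨c, h0, h1⟩ := hX j _ hj0 hJ (hs.pull hG.smap) (hc.pull hG.smap hs) hd.pull
  have hnd : ¬ r ∣ j := by
    intro h
    have h2 : Even j := by
      obtain ⟨k, rfl⟩ := h
      exact hr.mul_right k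
    exact (Nat.not_even_iff_odd.2 hj) h2
  rw [h0 hnd, zero_smul] at h1
  rcases lt_or_ge j 2 with h2 | h2
  · exact hG.low j b h2 hs hc hd h1
  · obtain ⟨i, rfl⟩ := Nat.exists_eq_add_of_le' h2
    obtain ⟨c', k1, k2, k3, k4⟩ := hG.high i b hs hc hd h1
    have hi : Odd i := by
      obtain ⟨a, ha⟩ := hj
      exact ⟨a - 1, by omega⟩
    exact k4.trans (coh_mul_zero hG.sm hG.cl (ih i (by omega) c' hi (by omega) k1 k2 k3))

/-- **the class `x` comes from the base** -/
theorem Gys.exists_x0 (hG : Gys X B q F₀) (hr : Even r) (hr0 : 0 < r) (hrJ : r ≤ J)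
    {x : E → Ext E} (hX : Low X x r J) (sx : Sm X x) (cx : Cl X x) (dx : Hom r x) :
    ∃ x0 : E' → Ext E', Sm B x0 ∧ Cl B x0 ∧ Hom r x0 ∧ Coh X x (pull q x0) := by
  obtain ⟨i, rfl⟩ := Nat.exists_eq_add_of_le' hr0
  obtain ⟨c, k1, k2, k3, k4⟩ := hG.push i x sx cx dx
  have hi : Odd i := by
    obtain ⟨a, ha⟩ := hr
    exact ⟨a - 1, by omega⟩
  exact k4 (hG.odd hr hX i c hi (by omega) k1 k2 k3)

/-- **even degrees**: closed forms of even degree `j < J` on the base are combinations of the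
`x0 ^ a * F₀ ^ ((j - r a) / 2)`. -/
theorem Gys.even (hG : Gys X B q F₀) (hB : Sub d B) (hBc : IsPreconnected B)
    (hr : Even r) (hr0 : 0 < r)
    {x : E → Ext E} (hX : Low X x r J) (sx : Sm X x) (cx : Cl X x)
    {x0 : E' → Ext E'} (s0 : Sm B x0) (c0 : Cl B x0) (d0 : Hom r x0) (h0 : Coh X x (pull q x0)) :
    ∀ (j : ℕ) (b : E' → Ext E'), Even j → j < J → Sm B b → Cl B b → Hom j b →
      ∃ f : ℕ → ℝ, Coh B b (∑ a ∈ Finset.range (j / r + 1),
        f a • (x0 ^ a * F₀ ^ ((j - r * a) / 2))) := by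
  intro j
  induction j using Nat.strong_induction_on with
  | _ j ih =>
  intro b hj hJ hs hc hd
  rcases Nat.eq_zero_or_pos j with rfl | hj0
  · obtain ⟨c, hcc⟩ := const_of_closed hB hBc hs hc hd
    refine ⟨fun _ => c, Coh.of_eqv (Eqv.of_eq fun y hy => ?_)⟩
    rw [hcc y hy]
    simp [Algebra.algebraMap_eq_smul_one]
  have hj2 : 2 ≤ j := by obtain ⟨a, ha⟩ := hj; omega
  obtain ⟨l, hl0, hl⟩ := hX j _ hj0 hJ (hs.pull hG.smap) (hc.pull hG.smap hs) hd.pull
  set t : E' → Ext E' := l • x0 ^ (j / r) with ht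
  have st : Sm B t := (s0.pow _).smul l
  have ct : Cl B t := Cl.smul _ (s0.pow _) (Cl.pow s0 c0 _)
  have hpow : ∀ n : ℕ, Coh X (x ^ n) (pull q (x0 ^ n)) := by
    intro n
    rw [pull_pow']
    induction n with
    | zero => rw [pow_zero, pow_zero]; exact Coh.refl _
    | succ n ihn =>
      rw [pow_succ, pow_succ]
      exact Coh.mul (sx.pow n) (Cl.pow sx cx n) (s0.pull hG.smap) (c0.pull hG.smap s0) ihn h0
  have k5 : Coh X (pull q b) (pull q t) := by
    rw [ht, pull_smul']
    exact hl.trans ((hpow _).smul l)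
  have k6 : Coh X (pull q (b - t)) 0 := by
    have := k5.sub (Coh.refl (pull q t))
    rwa [sub_self, ← pull_sub'] at this
  have dt : Hom j t := by
    by_cases hkj : r ∣ j
    · have := (d0.pow (j / r)).smul l
      rwa [Nat.mul_div_cancel' hkj] at this
    · rw [ht, hl0 hkj, zero_smul]; exact Hom.zero
  obtain ⟨i, rfl⟩ := Nat.exists_eq_add_of_le' hj2
  obtain ⟨c', m1, m2, m3, m4⟩ := hG.high i _ (hs.sub st) (Cl.sub hs st hc ct) (hd.sub dt) k6
  have hie : Even i := by obtain ⟨a, ha⟩ := hj; exact ⟨a - 1, by omega⟩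
  obtain ⟨f, hfc⟩ := ih i (by omega) c' hie (by omega) m1 m2 m3
  have h3 := Coh.mul_right hG.sm hG.cl hfc
  have h5 := (m4.trans h3).add (Coh.refl t)
  rw [sub_add_cancel] at h5
  -- extend `f` by zero beyond `i / r`
  have hle : i / r ≤ (i + 2) / r := Nat.div_le_div_right (by omega)
  refine ⟨fun a => (if a ≤ i / r then f a else 0) + (if a = (i + 2) / r then l else 0),
    h5.trans (Coh.of_eqv ?_)⟩
  have h6 : (∑ a ∈ Finset.range (i / r + 1), f a • (x0 ^ a * F₀ ^ ((i - r * a) / 2))) * F₀ =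
      ∑ a ∈ Finset.range ((i + 2) / r + 1),
        (if a ≤ i / r then f a else 0) • (x0 ^ a * F₀ ^ ((i + 2 - r * a) / 2)) := by
    rw [Finset.sum_mul]
    symm
    rw [← Finset.sum_subset (Finset.range_subset_range.2 (by omega : i / r + 1 ≤ (i + 2) / r + 1))]
    · refine Finset.sum_congr rfl fun a ha => ?_
      rw [Finset.mem_range] at ha
      have ha' : a ≤ i / r := by omega
      have h7 : r * a ≤ i := by
        have := Nat.mul_le_mul_left r ha'
        exact this.trans (Nat.mul_div_le i r)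
      have h8 : Even (r * a) := hr.mul_right a
      obtain ⟨u, hu⟩ := h8
      obtain ⟨v, hv⟩ := hie
      rw [if_pos ha', smul_mul_assoc, mul_assoc, ← pow_succ]
      congr 3
      omega
    · intro a _ ha
      rw [Finset.mem_range] at ha
      rw [if_neg (by omega), zero_smul]
  have h9 : (∑ a ∈ Finset.range ((i + 2) / r + 1),
      (if a = (i + 2) / r then l else 0) • (x0 ^ a * F₀ ^ ((i + 2 - r * a) / 2))) = t := by
    rw [Finset.sum_eq_single ((i + 2) / r)]
    · rw [if_pos rfl, ht]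
      by_cases hkj : r ∣ (i + 2)
      · rw [Nat.mul_div_cancel' hkj, Nat.sub_self, Nat.zero_div, pow_zero, mul_one]
      · rw [hl0 hkj, zero_smul, zero_smul]
    · intro a _ ha
      rw [if_neg ha, zero_smul]
    · intro h
      exact absurd (Finset.mem_range.2 (by omega)) h
  have h10 : (∑ a ∈ Finset.range ((i + 2) / r + 1),
      ((if a ≤ i / r then f a else 0) + (if a = (i + 2) / r then l else 0)) •
        (x0 ^ a * F₀ ^ ((i + 2 - r * a) / 2))) =
      (∑ a ∈ Finset.range (i / r + 1), f a • (x0 ^ a * F₀ ^ ((i - r * a) / 2))) * F₀ + t := by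
    rw [h6]
    simp only [add_smul, Finset.sum_add_distrib]
    rw [h9]
  rw [h10]
  exact Eqv.refl _

end Crest.Agent.R208.HY
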