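import Crest.Agent.R208.EW4
import Crest.Agent.R208.HY1

/-! Row 208, block EW (helper607).  EW5: real Chern forms of real projection fields; the Euler form of
the rank 14 bundle `N_ℂ ⊗ L^w`, `w = 1, 2`. -/

set_option autoImplicit false
set_option linter.unusedSectionVars false
set_option linter.unusedVariables false
set_option linter.unusedSimpArgs false

open Set Filter Topology Module MeasureTheory Matrix
open scoped ContDiff RealInnerProductSpace ComplexConjugate Kronecker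
open Crest.Agent.R208.F Crest.Agent.R208.FI Crest.Agent.R208.CW
open Crest.Agent.R208.CM
open Crest.Agent.R208.T (Sm Cl Eqv Coh Hom mtx wC EC rcl OR eR)

noncomputable section

namespace Crest.Agent.R208.EW

/-! ### Chern forms of real fields are real -/
section re
variable {E : Type*} [NormedAddCommGroup E] [NormedSpace ℝ E] [FiniteDimensional ℝ E]
  {n : Type*} [Fintype n] [DecidableEq n] {X : Set E} {x : E} {dX : ℕ}

theorem IsRe.pow {T : Type*} [AddCommGroup T] [Module ℝ T] {c : CF T} (h : IsRe c) (j : ℕ) :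
    IsRe (c ^ j) := by
  induction j with
  | zero => rw [pow_zero]; exact IsRe.one
  | succ j ih => rw [pow_succ]; exact ih.mul h

theorem isRe_Om_pow {P : E → Matrix n n ℂ} (h : ∀ y i j, (P y i j).im = 0) (k : ℕ) (i j : n) :
    IsRe ((Om P x ^ k) i j : CF E) := by
  induction k generalizing i j with
  | zero =>
    rw [pow_zero]
    by_cases hij : i = j
    · subst hij
      rw [Matrix.one_apply_eq]
      exact IsRe.one
    · rw [Matrix.one_apply_ne hij]
      rfl
  | succ k ih =>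
    rw [pow_succ, Matrix.mul_apply]
    have e : ((∑ l, (Om P x ^ k) i l * Om P x l j : EvC E) : CF E)
        = ∑ l, ((Om P x ^ k) i l : CF E) * (Om P x l j : CF E) := by
      push_cast
      rfl
    rw [e]
    exact IsRe.sum _ fun l _ => (ih i l).mul (IsRe_Om h l j)

theorem isRe_trace_pow {P : E → Matrix n n ℂ} (h : ∀ y i j, (P y i j).im = 0) (k : ℕ) :
    IsRe ((Om P x ^ k).trace : CF E) := by
  have e : (((Om P x ^ k).trace : EvC E) : CF E) = ∑ i, ((Om P x ^ k) i i : CF E) := by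
    rw [Matrix.trace]
    push_cast
    rfl
  rw [e]
  exact IsRe.sum _ fun i _ => isRe_Om_pow h k i i

theorem IsRe.csmul {T : Type*} [AddCommGroup T] [Module ℝ T] {c : CF T} (h : IsRe c) {z : ℂ}
    (hz : z.im = 0) : IsRe (z • c) := by
  have h' : c.im = 0 := h
  change (z • c).im = 0
  rw [Cx.csmul_im, hz, h', smul_zero, zero_smul, add_zero]

theorem isRe_el {s : ℕ → EvC E} (h : ∀ i, IsRe (s i : CF E)) (j : ℕ) :
    IsRe ((el s j : EvC E) : CF E) := by
  induction j using Nat.strong_induction_on with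
  | _ j ih =>
    cases j with
    | zero => rw [el_zero]; exact IsRe.one
    | succ j =>
      rw [el]
      have e1 : (((((j : ℂ) + 1)⁻¹ • ∑ i : Fin (j + 1), (-1) ^ (i : ℕ) * el s (j - i) * s (i + 1) :
          EvC E)) : CF E) = ((j : ℂ) + 1)⁻¹ • ∑ i : Fin (j + 1),
            (((-1) ^ (i : ℕ) * el s (j - i) * s (i + 1) : EvC E) : CF E) := by
        have e4 := map_sum (EvC E).val
          (fun i : Fin (j + 1) => ((-1) ^ (i : ℕ) * el s (j - i) * s (i + 1) : EvC E)) Finset.univ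
        change _ • (EvC E).val _ = _
        rw [e4]
        rfl
      rw [e1]
      refine IsRe.csmul (IsRe.sum _ fun i _ => ?_) ?_
      · have h1 := (ih (j - i) (by omega)).mul (h (i + 1))
        have e3 : (((-1) ^ (i : ℕ) * el s (j - i) * s (i + 1) : EvC E) : CF E)
            = ((-1 : ℂ) ^ (i : ℕ)) • (((el s (j - i) : EvC E) : CF E) * ((s (i + 1) : EvC E) : CF E)) := by
          rw [Algebra.smul_def, map_pow, map_neg, map_one, ← mul_assoc]; rfl
        rw [e3]
        refine IsRe.csmul h1 ?_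
        rcases Nat.even_or_odd (i : ℕ) with hi | hi
        · rw [hi.neg_one_pow]; rfl
        · rw [hi.neg_one_pow]; simp
      · have : (((j : ℂ) + 1)⁻¹) = ((((j : ℝ) + 1)⁻¹ : ℝ) : ℂ) := by push_cast; rfl
        rw [this, Complex.ofReal_im]

/-- Chern forms of a real field are real -/
theorem isRe_cf {P : E → Matrix n n ℂ} (h : ∀ y i j, (P y i j).im = 0) (j : ℕ) :
    IsRe (cf j P x) := by
  rw [cf, cpoly_coeff_eq_el]
  exact isRe_el (fun i => isRe_trace_pow h i) j

/-- the real Chern form of a real field -/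
def cfr (j : ℕ) (P : E → Matrix n n ℂ) (x : E) : Ext E := (cf j P x).re

theorem mkF_cfr {P : E → Matrix n n ℂ} (h : ∀ y i j, (P y i j).im = 0) (j : ℕ) :
    T.mkF (cfr j P) 0 = cf j P := funext fun x => Cx.ext rfl (isRe_cf h j).symm

theorem hom_cfr {P : E → Matrix n n ℂ} (j : ℕ) : Hom (2 * j) (cfr j P) := fun x =>
  (T.degC_cf j P x).1

theorem ec_cfr (hX : Sub dX X) {P : E → Matrix n n ℂ} (hP : IdF X P) (j : ℕ) : EC X (cfr j P) := by
  obtain ⟨⟨h1, h2, h3⟩, -⟩ := T.mem_Z_iff.1 (cf_mem_Z hX hP j)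
  exact ⟨h1, h2, h3⟩

theorem rcl_cfr (hX : Sub dX X) {P : E → Matrix n n ℂ} (hP : IdF X P)
    (h : ∀ y i j, (P y i j).im = 0) (j : ℕ) : rcl (ec_cfr hX hP j) = cc hX hP j :=
  T.cls_of_eq _ _ (mkF_cfr h j)

/-- odd Chern classes of a real field vanish -/
theorem cc_real_odd (hX : Sub dX X) {Q : E → Matrix n n ℂ} (hQ : IdF X Q)
    (hr : ∀ x ∈ X, (Q x).map (starRingEnd ℂ) = Q x) {j : ℕ} (hj : Odd j) : cc hX hQ j = 0 := by
  have h1 := cc_conj hX hQ j
  have h0 : cc hX hQ.conj j = cc hX hQ j := by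
    rw [cc_eq_el, cc_eq_el]
    exact el_congr fun i _ _ => sc_congr hX hQ.conj hQ hr i
  rw [h0, hj.neg_one_pow, neg_one_mul] at h1
  have h2 : (2 : ℂ) • cc hX hQ j = 0 := by
    rw [two_smul]; nth_rewrite 1 [h1]; exact neg_add_cancel _
  have h3 := congrArg (fun a => (2 : ℂ)⁻¹ • a) h2
  simpa only [smul_smul, smul_zero, inv_mul_cancel₀ (two_ne_zero' ℂ), one_smul] using h3

theorem im_mtx {a : Type*} [Fintype a] [DecidableEq a]
    (P : E → EuclideanSpace ℝ a →L[ℝ] EuclideanSpace ℝ a) (y : E) (i j : a) :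
    (mtx (P y) i j).im = 0 := Complex.ofReal_im _

theorem conj_mtx {a : Type*} [Fintype a] [DecidableEq a]
    (A : EuclideanSpace ℝ a →L[ℝ] EuclideanSpace ℝ a) :
    (mtx A).map (starRingEnd ℂ) = mtx A := Matrix.ext fun i j => Complex.conj_ofReal _

end re

/-! ### algebra of the top class of rank `7` -/
section seven
variable {A : Type*} [CommRing A] [Algebra ℂ A]

theorem sum_seven {c : ℕ → A} (h0 : c 0 = 1) (hodd : ∀ j, Odd j → c j = 0) {E z : A} {σ : ℂ} {w : ℝ}
    (hσ : σ = 1 ∨ σ = -1) (hz : z = (w : ℂ) • ((σ * Complex.I) • E)) :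
    (Complex.I ^ 7) • ∑ i ∈ Finset.range (7 + 1), c i * z ^ (7 - i)
      = (-σ) • (((w ^ 7 : ℝ) : ℂ) • E ^ 7 - ((w ^ 5 : ℝ) : ℂ) • (c 2 * E ^ 5)
        + ((w ^ 3 : ℝ) : ℂ) • (c 4 * E ^ 3) - (w : ℂ) • (c 6 * E)) := by
  have h1 := hodd 1 (by decide)
  have h3 := hodd 3 (by decide)
  have h5 := hodd 5 (by decide)
  have h7 := hodd 7 (by decide)
  have hs2 : σ ^ 2 = 1 := by rcases hσ with rfl | rfl <;> norm_num
  have hz' : z = ((w : ℂ) * (σ * Complex.I)) • E := by rw [hz, smul_smul]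
  have p1 : ∀ k : ℕ, z ^ k = (((w : ℂ) * (σ * Complex.I)) ^ k) • E ^ k := fun k => by
    rw [hz', smul_pow]
  have e7 : Complex.I ^ 7 * ((w : ℂ) * (σ * Complex.I)) ^ 7 = -σ * (w : ℂ) ^ 7 := by
    have : Complex.I ^ 7 * ((w : ℂ) * (σ * Complex.I)) ^ 7
        = (Complex.I ^ 2) ^ 7 * (σ ^ 2) ^ 3 * σ * (w : ℂ) ^ 7 := by ring
    rw [this, Complex.I_sq, hs2]; ring
  have e5 : Complex.I ^ 7 * ((w : ℂ) * (σ * Complex.I)) ^ 5 = σ * (w : ℂ) ^ 5 := by
    have : Complex.I ^ 7 * ((w : ℂ) * (σ * Complex.I)) ^ 5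
        = (Complex.I ^ 2) ^ 6 * (σ ^ 2) ^ 2 * σ * (w : ℂ) ^ 5 := by ring
    rw [this, Complex.I_sq, hs2]; ring
  have e3 : Complex.I ^ 7 * ((w : ℂ) * (σ * Complex.I)) ^ 3 = -σ * (w : ℂ) ^ 3 := by
    have : Complex.I ^ 7 * ((w : ℂ) * (σ * Complex.I)) ^ 3
        = (Complex.I ^ 2) ^ 5 * (σ ^ 2) * σ * (w : ℂ) ^ 3 := by ring
    rw [this, Complex.I_sq, hs2]; ring
  have e1 : Complex.I ^ 7 * ((w : ℂ) * (σ * Complex.I)) ^ 1 = σ * (w : ℂ) := by
    have : Complex.I ^ 7 * ((w : ℂ) * (σ * Complex.I)) ^ 1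
        = (Complex.I ^ 2) ^ 4 * σ * (w : ℂ) := by ring
    rw [this, Complex.I_sq]; ring
  simp only [Finset.sum_range_succ, Finset.sum_range_zero, zero_add, h0, h1, h3, h5, h7, zero_mul,
    add_zero, one_mul, Nat.sub_zero, Nat.reduceSub, Nat.sub_self, smul_add, p1, mul_smul_comm,
    smul_smul, e7, e5, e3]
  rw [e1]
  push_cast
  rw [pow_one]
  module

end seven

/-! ### the square of the tautological line -/
section pow2
variable {m : ℕ} {E : Type} [NormedAddCommGroup E] [NormedSpace ℝ E] [FiniteDimensional ℝ E]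
  {X : Set E} {φ : ℝ → E → E} {g : E → Fin m → ℂ} {n : ℕ}

/-- `g ⊗ g` -/
def g2 (g : E → Fin m → ℂ) (x : E) (i : Fin m × Fin m) : ℂ := g x i.1 * g x i.2

theorem lin_g2 (x : E) : lin (g2 g x) = lin (g x) ⊗ₖ lin (g x) := by
  refine Matrix.ext ?_
  rintro ⟨i, i'⟩ ⟨j, j'⟩
  change (g x i * g x i') * conj (g x j * g x j') = (g x i * conj (g x j)) * (g x i' * conj (g x j'))
  rw [map_mul]
  ring

theorem sum_g2 (hg : Emb X φ g) {x : E} (hx : x ∈ X) :
    ∑ i, g2 g x i * conj (g2 g x i) = 1 := by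
  rw [Fintype.sum_prod_type]
  have h : ∀ i j, g2 g x (i, j) * conj (g2 g x (i, j))
      = (g x i * conj (g x i)) * (g x j * conj (g x j)) := fun i j => by
    change (g x i * g x j) * conj (g x i * g x j) = _
    rw [map_mul]; ring
  simp only [h, ← Finset.mul_sum, sum_g hg hx, mul_one]

/-- the square of the tautological line -/
def Lt2 (y : MM m) : Matrix (Fin m × Fin m) (Fin m × Fin m) ℂ := Lt y ⊗ₖ Lt y

theorem idF_Lt2 (hg : Emb X φ g) : IdF (Quo X g) (Lt2 (m := m)) := (idF_Lt hg).kron (idF_Lt hg)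

theorem Lt2_jj (x : E) : Lt2 (jj g x) = lin (g2 g x) := by rw [lin_g2]; rfl

theorem sc_Lt2 (hg : Emb X φ g) (hC : Cir X φ) (hX : Clo (n + 1) X) :
    sc (hg.sub_Quo hC hX) (idF_Lt2 hg) 1 = (2 : ℂ) • sc (hg.sub_Quo hC hX) (idF_Lt hg) 1 := by
  have h := sc_kron (hg.sub_Quo hC hX) (idF_Lt hg) (idF_Lt hg) 1
  have h0 := sc_zero_of_rank (hg.sub_Quo hC hX) (idF_Lt hg) (rank_Lt hg)
  rw [Finset.sum_range_succ, Finset.sum_range_one] at h
  simp only [Nat.choose_zero_right, Nat.choose_self, Nat.cast_one, one_mul, Nat.sub_zero,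
    Nat.sub_self, h0, mul_one] at h
  rw [two_smul]
  exact h

end pow2

end Crest.Agent.R208.EW
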