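import Crest.Agent.R208.EW5

/-! Row 208, block EW (helper607).  EW6: **the Euler form of `N_ℂ ⊗ L^w`, rank `14`** and the Chern
forms of the descended `N` in low degrees. -/

set_option autoImplicit false
set_option linter.unusedSectionVars false
set_option linter.unusedVariables false
set_option linter.unusedSimpArgs false

open Set Filter Topology Module MeasureTheory Matrix
open scoped ContDiff RealInnerProductSpace ComplexConjugate Kronecker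
open Crest.Agent.R208.F Crest.Agent.R208.FI Crest.Agent.R208.CW
open Crest.Agent.R208.CM
open Crest.Agent.R208.T

noncomputable section

namespace Crest.Agent.R208.EW

section idf
variable {E : Type*} [NormedAddCommGroup E] [NormedSpace ℝ E] [FiniteDimensional ℝ E]
  {a : Type} [Fintype a] [DecidableEq a] {X : Set E}
  {P : E → EuclideanSpace ℝ a →L[ℝ] EuclideanSpace ℝ a} {r : ℕ}

theorem idF_mtx (hs : ∀ x ∈ X, ContDiffAt ℝ ∞ P x) (hi : ∀ x ∈ X, ∀ v, P x (P x v) = P x v) :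
    IdF X fun y => mtx (P y) :=
  ⟨fun x hx => contDiffAt_mc (hs x hx), fun x hx => by
    rw [← mc_eq_mtx, ← mc_comp]
    congr 1
    ext1 v
    exact hi x hx v⟩

theorem idF_of_pfield (hP : PField X r P) : IdF X fun y => mtx (P y) :=
  idF_mtx hP.smooth hP.idem

theorem rank_of_pfield (hP : PField X r P) : ∀ x ∈ X, (mtx (P x)).rank = r := fun x hx => by
  rw [rank_mtx (hP.idem x hx), hP.rank x hx]

end idf

section glob
variable {E : Type} [NormedAddCommGroup E] [NormedSpace ℝ E] [FiniteDimensional ℝ E]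
  {a b p q κ : Type} [Fintype a] [DecidableEq a] [Fintype b] [DecidableEq b] [Fintype p]
  [DecidableEq p] [Fintype q] [DecidableEq q] [Fintype κ] [DecidableEq κ]
  {X : Set E} {φ : ℝ → E → E} {m d r : ℕ} {g : E → Fin m → ℂ}
  {R : ℝ → EuclideanSpace ℝ a →L[ℝ] EuclideanSpace ℝ a}
  {R₂ : ℝ → EuclideanSpace ℝ b →L[ℝ] EuclideanSpace ℝ b}
  {Tr : E → EuclideanSpace ℝ a →L[ℝ] EuclideanSpace ℝ p}
  {T₂ : E → EuclideanSpace ℝ b →L[ℝ] EuclideanSpace ℝ q}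
  {N : E → EuclideanSpace ℝ a →L[ℝ] EuclideanSpace ℝ a}
  {NN : E → EuclideanSpace ℝ b →L[ℝ] EuclideanSpace ℝ b}
  {i₁ i₂ : EuclideanSpace ℝ a →L[ℝ] EuclideanSpace ℝ b} {w : ℝ} {z : E → κ → ℂ}
  {ι : Type} [Fintype ι] [DecidableEq ι]
  {P' : MM m → EuclideanSpace ℝ p →L[ℝ] EuclideanSpace ℝ p}
  {P₂ : MM m → EuclideanSpace ℝ q →L[ℝ] EuclideanSpace ℝ q} {W₂ : MM m → (ι × Fin 2 → q) → ℝ}
  {L : MM m → Matrix κ κ ℂ} {al : E → Ext E} {Fc : MM m → Ext (MM m)}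

/-- the `j`-th real Chern form of a real projection field -/
def cR {G : Type*} [NormedAddCommGroup G] [NormedSpace ℝ G] [FiniteDimensional ℝ G]
    (j : ℕ) (P : G → EuclideanSpace ℝ p →L[ℝ] EuclideanSpace ℝ p) : G → Ext G :=
  cfr j fun y => mtx (P y)

/-- the polynomial giving the top class of `N_ℂ ⊗ L^w` -/
def top7 (w : ℝ) (P' : MM m → EuclideanSpace ℝ p →L[ℝ] EuclideanSpace ℝ p)
    (Fc : MM m → Ext (MM m)) : MM m → Ext (MM m) :=
  w ^ 7 • Fc ^ 7 + (-(w ^ 5)) • (cR 2 P' * Fc ^ 5) + w ^ 3 • (cR 4 P' * Fc ^ 3)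
    + (-w) • (cR 6 P' * Fc)

theorem curvEC (hF : Curv X g al Fc) : EC (Quo X g) Fc :=
  EC.of_hom (j := 1) hF.sm hF.cl hF.hom

theorem orEC {G : Type} [NormedAddCommGroup G] [NormedSpace ℝ G] [FiniteDimensional ℝ G]
    {Y : Set G} {P : G → EuclideanSpace ℝ q →L[ℝ] EuclideanSpace ℝ q} {W : G → (ι × Fin 2 → q) → ℝ}
    (h : OR Y P W) : EC Y (eR P W) := by
  obtain ⟨⟨h1, h2, h3⟩, -⟩ := mem_Z_iff.1 (ef_mem_Z (OR.of h))
  exact ⟨h1, h2, h3⟩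

theorem orRcl {G : Type} [NormedAddCommGroup G] [NormedSpace ℝ G] [FiniteDimensional ℝ G]
    {Y : Set G} {P : G → EuclideanSpace ℝ q →L[ℝ] EuclideanSpace ℝ q} {W : G → (ι × Fin 2 → q) → ℝ}
    (h : OR Y P W) : rcl (orEC h) = ec (OR.of h) :=
  cls_of_eq _ _ (funext fun x => Cx.ext rfl
    (IsRe_ef (fun _ _ _ => Complex.ofReal_im _) (fun _ => Complex.ofReal_im _)).symm)

/-- **the Euler form of the real rank `14` bundle `N_ℂ ⊗ L^w`** -/
theorem DD2.coh_eR (h : DD2 X φ R R₂ Tr T₂ N NN i₁ i₂ w z) (hg : Emb X φ g) (hC : Cir X φ)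
    (hX : Clo (d + 1) X) (hXc : IsPreconnected X)
    (hP : PField (Quo X g) 7 P') (hP' : ∀ x ∈ X, P' (jj g x) = Qd Tr N x)
    (hO : OR (ι := ι) (Quo X g) P₂ W₂) (hι : Fintype.card ι = 7)
    (hP₂ : ∀ x ∈ X, P₂ (jj g x) = Qd T₂ NN x)
    (hL : IdF (Quo X g) L) (hLz : ∀ x ∈ X, L (jj g x) = lin (z x))
    (hLw : sc (hg.sub_Quo hC hX) hL 1 = (w : ℂ) • sc (hg.sub_Quo hC hX) (idF_Lt hg) 1)
    (ha : Conn X φ al) (hF : Curv X g al Fc) :
    ∃ ε : ℝ, (ε = 1 ∨ ε = -1) ∧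
      Coh (Quo X g) (eR P₂ W₂) ((ε * (2 ^ 7 * (Nat.factorial 7))) • top7 w P' Fc) := by
  have hB := hg.sub_Quo hC hX
  have hI := idF_of_pfield hP
  have hE : EC (Quo X g) Fc := curvEC hF
  obtain ⟨ε, hε, he⟩ := h.ec_eq hg hC hX hXc hI (rank_of_pfield hP) hP' hO hι hP₂ hL hLz
  obtain ⟨σ, hσ, hs⟩ := sc_Lt hg hC hX hXc ha hF hE
  have e2 := ec_cfr hB hI 2
  have e4 := ec_cfr hB hI 4
  have e6 := ec_cfr hB hI 6
  have r2 := rcl_cfr hB hI (fun y i j => Complex.ofReal_im _) 2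
  have r4 := rcl_cfr hB hI (fun y i j => Complex.ofReal_im _) 4
  have r6 := rcl_cfr hB hI (fun y i j => Complex.ofReal_im _) 6
  have t1 := (hE.pow 7).smul (w ^ 7)
  have t2 := (e2.mul (hE.pow 5)).smul (-(w ^ 5))
  have t3 := (e4.mul (hE.pow 3)).smul (w ^ 3)
  have t4 := (e6.mul hE).smul (-w)
  have ht : EC (Quo X g) (top7 w P' Fc) := ((t1.add t2).add t3).add t4
  have hsum := sum_seven (c := fun i => cc hB hI i) (cc_zero hB hI)
    (fun j hj => cc_real_odd hB hI (fun x hx => conj_mtx _) hj) (E := rcl hE) (σ := σ) (w := w)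
    (z := sc hB hL 1) hσ (by rw [hLw, hs])
  have hcl : rcl ht = ((w ^ 7 : ℝ) : ℂ) • rcl hE ^ 7 - ((w ^ 5 : ℝ) : ℂ) • (cc hB hI 2 * rcl hE ^ 5)
      + ((w ^ 3 : ℝ) : ℂ) • (cc hB hI 4 * rcl hE ^ 3) - (w : ℂ) • (cc hB hI 6 * rcl hE) := by
    have b1 : rcl ht = rcl t1 + rcl t2 + rcl t3 + rcl t4 := by
      rw [← rcl_add t1 t2, ← rcl_add (t1.add t2) t3, ← rcl_add ((t1.add t2).add t3) t4]
      rfl
    have b2 : rcl t1 = ((w ^ 7 : ℝ) : ℂ) • rcl hE ^ 7 := by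
      rw [rcl_smul _ (hE.pow 7), rcl_pow hE]
    have b3 : rcl t2 = ((-(w ^ 5) : ℝ) : ℂ) • (cc hB hI 2 * rcl hE ^ 5) := by
      rw [rcl_smul _ (e2.mul (hE.pow 5)), rcl_mul e2 (hE.pow 5), rcl_pow hE, r2]
    have b4 : rcl t3 = ((w ^ 3 : ℝ) : ℂ) • (cc hB hI 4 * rcl hE ^ 3) := by
      rw [rcl_smul _ (e4.mul (hE.pow 3)), rcl_mul e4 (hE.pow 3), rcl_pow hE, r4]
    have b5 : rcl t4 = ((-w : ℝ) : ℂ) • (cc hB hI 6 * rcl hE) := by
      rw [rcl_smul _ (e6.mul hE), rcl_mul e6 hE, r6]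
    rw [b1, b2, b3, b4, b5]
    push_cast
    module
  -- the sign
  have hfin : rcl (orEC hO) = ((-(ε * σ)) * (2 ^ 7 * (Nat.factorial 7) : ℂ)) • rcl ht := by
    rw [orRcl hO, he]
    have e0 : (ε * ((2 : ℂ) ^ 7 * ((Nat.factorial 7 : ℕ) : ℂ) * Complex.I ^ 7))
        • ∑ i ∈ Finset.range (7 + 1), cc hB hI i * sc hB hL 1 ^ (7 - i)
        = (ε * ((2 : ℂ) ^ 7 * ((Nat.factorial 7 : ℕ) : ℂ))) • ((Complex.I ^ 7)
          • ∑ i ∈ Finset.range (7 + 1), cc hB hI i * sc hB hL 1 ^ (7 - i)) := by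
      rw [smul_smul]; congr 1; ring
    rw [e0, hsum, ← hcl, smul_smul]
    congr 1
    ring
  have hre : ∃ δ : ℝ, (δ = 1 ∨ δ = -1) ∧ -(ε * σ) = (δ : ℂ) := by
    rcases hε with rfl | rfl <;> rcases hσ with rfl | rfl
    · exact ⟨-1, Or.inr rfl, by push_cast; norm_num⟩
    · exact ⟨1, Or.inl rfl, by push_cast; norm_num⟩
    · exact ⟨1, Or.inl rfl, by push_cast; norm_num⟩
    · exact ⟨-1, Or.inr rfl, by push_cast; norm_num⟩
  obtain ⟨δ, hδ, hδ'⟩ := hre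
  refine ⟨δ, hδ, ?_⟩
  have hlast : rcl (orEC hO) = rcl (ht.smul (δ * (2 ^ 7 * (Nat.factorial 7)))) := by
    rw [hfin, rcl_smul _ ht, hδ']
    congr 1
    push_cast
    ring
  exact (rcl_eq_iff _ _).1 hlast

/-- weight `1` -/
theorem DD2.coh_eR_one (h : DD2 X φ R R₂ Tr T₂ N NN i₁ i₂ 1 g) (hg : Emb X φ g) (hC : Cir X φ)
    (hX : Clo (d + 1) X) (hXc : IsPreconnected X)
    (hP : PField (Quo X g) 7 P') (hP' : ∀ x ∈ X, P' (jj g x) = Qd Tr N x)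
    (hO : OR (ι := ι) (Quo X g) P₂ W₂) (hι : Fintype.card ι = 7)
    (hP₂ : ∀ x ∈ X, P₂ (jj g x) = Qd T₂ NN x) (ha : Conn X φ al) (hF : Curv X g al Fc) :
    ∃ ε : ℝ, (ε = 1 ∨ ε = -1) ∧
      Coh (Quo X g) (eR P₂ W₂) ((ε * (2 ^ 7 * (Nat.factorial 7))) • top7 1 P' Fc) :=
  h.coh_eR hg hC hX hXc hP hP' hO hι hP₂ (idF_Lt hg) (fun x hx => Lt_jj x)
    (by rw [Complex.ofReal_one, one_smul]) ha hF

/-- weight `2` -/
theorem DD2.coh_eR_two (h : DD2 X φ R R₂ Tr T₂ N NN i₁ i₂ 2 (g2 g)) (hg : Emb X φ g)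
    (hC : Cir X φ) (hX : Clo (d + 1) X) (hXc : IsPreconnected X)
    (hP : PField (Quo X g) 7 P') (hP' : ∀ x ∈ X, P' (jj g x) = Qd Tr N x)
    (hO : OR (ι := ι) (Quo X g) P₂ W₂) (hι : Fintype.card ι = 7)
    (hP₂ : ∀ x ∈ X, P₂ (jj g x) = Qd T₂ NN x) (ha : Conn X φ al) (hF : Curv X g al Fc) :
    ∃ ε : ℝ, (ε = 1 ∨ ε = -1) ∧
      Coh (Quo X g) (eR P₂ W₂) ((ε * (2 ^ 7 * (Nat.factorial 7))) • top7 2 P' Fc) :=
  h.coh_eR hg hC hX hXc hP hP' hO hι hP₂ (idF_Lt2 hg) (fun x hx => Lt2_jj x)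
    (by rw [sc_Lt2 hg hC hX]; norm_num) ha hF

/-! ### restriction of the Chern classes of the descended field -/

/-- pull-back of the Chern forms of the descended field: those of `N` -/
theorem pull_cR (hg : Emb X φ g) (hC : Cir X φ) (hX : Clo (d + 1) X) (hR : Rep R)
    (hT : Triv X φ R Tr) (hN : PField X r N)
    (hP : PField (Quo X g) r P') (hP' : ∀ x ∈ X, P' (jj g x) = Qd Tr N x) (j : ℕ) :
    Coh X (F.pull (jj g) (cR j P')) (cR j N) := by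
  have hB := hg.sub_Quo hC hX
  have hI := idF_of_pfield hP
  have hIN := idF_of_pfield hN
  have h1 := cc_map hX.sub hB hg.smap_jj hI j
  have h2 : cc hX.sub (hI.comp hg.smap_jj) j = cc hX.sub hIN j := by
    rw [← coeff_cs, ← coeff_cs]
    congr 1
    symm
    refine cs_iso hX.sub hIN _ (S := fun x => mc (Tr x) * mtx (N x)) (fun x hx =>
      SM.mul (contDiffAt_mc (hT.smooth x hx)) (hIN.smooth x hx)) fun x hx => ?_
    have t1 : (mc (Tr x))ᵀ * mc (Tr x) = 1 := mc_iso (hT.iso x hx)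
    have nn : mtx (N x) * mtx (N x) = mtx (N x) := hIN.idem x hx
    refine ⟨mtx (N x) * (mc (Tr x))ᵀ, ?_⟩
    have e : mtx (P' (jj g x)) = mc (Tr x) * mtx (N x) * (mc (Tr x))ᵀ := by
      rw [hP' x hx, mc_Qd, mc_eq_mtx]
    rw [e]
    refine ⟨?_, ?_, ?_, ?_, ?_, ?_⟩
    · rw [Matrix.mul_assoc, nn]
    · calc mc (Tr x) * mtx (N x) * (mc (Tr x))ᵀ * (mc (Tr x) * mtx (N x))
          = mc (Tr x) * mtx (N x) * ((mc (Tr x))ᵀ * mc (Tr x)) * mtx (N x) := by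
            simp only [Matrix.mul_assoc]
        _ = _ := by rw [t1, Matrix.mul_one, Matrix.mul_assoc, nn]
    · calc mtx (N x) * (mc (Tr x))ᵀ * (mc (Tr x) * mtx (N x) * (mc (Tr x))ᵀ)
          = mtx (N x) * ((mc (Tr x))ᵀ * mc (Tr x)) * mtx (N x) * (mc (Tr x))ᵀ := by
            simp only [Matrix.mul_assoc]
        _ = _ := by rw [t1, Matrix.mul_one, nn]
    · rw [← Matrix.mul_assoc, nn]
    · calc mtx (N x) * (mc (Tr x))ᵀ * (mc (Tr x) * mtx (N x))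
          = mtx (N x) * ((mc (Tr x))ᵀ * mc (Tr x)) * mtx (N x) := by simp only [Matrix.mul_assoc]
        _ = _ := by rw [t1, Matrix.mul_one, nn]
    · calc mc (Tr x) * mtx (N x) * (mtx (N x) * (mc (Tr x))ᵀ)
          = mc (Tr x) * (mtx (N x) * mtx (N x)) * (mc (Tr x))ᵀ := by simp only [Matrix.mul_assoc]
        _ = _ := by rw [nn]
  have h3 := rcl_cfr hB hI (fun y i j => Complex.ofReal_im _) j
  have h4 := rcl_cfr hX.sub hIN (fun y i j => Complex.ofReal_im _) j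
  have h5 : rcl ((ec_cfr hB hI j).pull hg.smap_jj) = rcl (ec_cfr hX.sub hIN j) := by
    rw [rcl_pull hg.smap_jj (ec_cfr hB hI j), h3, h1, h2, h4]
  exact (rcl_eq_iff _ _).1 h5

end glob

end Crest.Agent.R208.EW
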