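import Crest.Agent.R208.CM3e
import Crest.Agent.R208.VC6
import Crest.Agent.R208.DEG2
import Crest.Agent.R208.HY1

/-! Row 208, block (H2) (helper125).  HG1: the Gysin sequence of the quotient map of a smooth free
circle action, by averaging: the kernel of the pull-back, and closed forms on the total space. -/

set_option autoImplicit false
set_option linter.unusedSectionVars false
set_option linter.unusedVariables false

open Set Filter Topology Module
open scoped ContDiff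
open Crest.Agent.R208.F Crest.Agent.R208.FI
open Crest.Agent.R208.CW (SMap)
open Crest.Agent.R208.CM
open Crest.Agent.R208.VC
open Crest.Agent.R208.T

noncomputable section

namespace Crest.Agent.R208.HG

/-! ### homogeneity and averages -/

section gen
universe u v
variable {E : Type u} [NormedAddCommGroup E] [NormedSpace ℝ E] [FiniteDimensional ℝ E]
  {F' : Type v} [NormedAddCommGroup F'] [NormedSpace ℝ F'] [FiniteDimensional ℝ F']
  {m j : ℕ} {X : Set E} {B : Set F'} {φ : ℝ → E → E} {π : E → F'} {a b w : E → Ext E}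
  {c : F' → Ext F'}

/-- homogeneous primitives -/
theorem hom_prim (h : Coh X w 0) (hw : Hom (j + 1) w) :
    ∃ ξ : E → Ext E, Sm X ξ ∧ Hom j ξ ∧ Eqv X w (F.d ξ) := by
  obtain ⟨ξ, h1, h2⟩ := h
  rw [sub_zero] at h2
  refine ⟨T.dp j ξ, h1.dp j, T.hom_dp j ξ, ?_⟩
  have h3 := (h2.dp (j + 1)).trans (Eqv.of_eq fun x hx => T.dp_d j (h1.diff hx))
  rwa [hw.dp_eq] at h3

/-- exact forms of degree `0` vanish -/
theorem eqv_of_coh_zero (h : Coh X w 0) (hw : Hom 0 w) : Eqv X w 0 := by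
  obtain ⟨ξ, h1, h2⟩ := h
  rw [sub_zero] at h2
  have h3 := h2.dp 0
  rw [hw.dp_eq, show T.dp 0 (F.d ξ) = 0 from funext fun x => dp_zero_d ξ x] at h3
  exact h3

theorem Inv.dp' (j : ℕ) (h : Inv X φ a) : Inv X φ (dp j a) := fun t => by
  rw [← dp_pull]
  exact (h t).dp j

theorem Inv.of_eqv' (h : Act X φ) (hab : Eqv X a b) (hb : Inv X φ b) : Inv X φ a := fun t =>
  ((hab.pull (smap h t)).trans (hb t)).trans hab.symm

/-- pull-backs along invariant maps are invariant -/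
theorem inv_pull (h : Act X φ) (hπ : SMap X B π) (hi : ∀ t, ∀ x ∈ X, π (φ t x) = π x)
    (c : F' → Ext F') : Inv X φ (F.pull π c) := fun t =>
  eqv_pull_pull (smap h t) hπ hπ (hi t) c

/-- the differential of an invariant map kills the generator -/
theorem fderiv_gen_zero (h : Act X φ) (hπ : SMap X B π) (hi : ∀ t, ∀ x ∈ X, π (φ t x) = π x)
    {x : E} (hx : x ∈ X) : fderiv ℝ π x (gen φ x) = 0 := by
  have h1 := h.hasDerivAt hx 0
  rw [h.zero x hx] at h1
  have h2 : HasFDerivAt π (fderiv ℝ π x) (φ 0 x) := by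
    rw [h.zero x hx]; exact (hπ.diff hx).hasFDerivAt
  have h3 : HasDerivAt (fun t => π (φ t x)) (fderiv ℝ π x (gen φ x)) 0 :=
    HasFDerivAt.comp_hasDerivAt (l := π) (f := fun t => φ t x) (0 : ℝ) h2 h1
  have h4 : (fun t => π (φ t x)) = fun _ => π x := funext fun t => hi t x hx
  rw [h4] at h3
  exact h3.unique (hasDerivAt_const _ _)

theorem ii_pull (h : Act X φ) (hπ : SMap X B π) (hi : ∀ t, ∀ x ∈ X, π (φ t x) = π x)
    (c : F' → Ext F') {x : E} (hx : x ∈ X) : ii (gen φ x) (F.pull π c x) = 0 := by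
  rw [F.pull, ii_pb]
  have h1 : ((fderiv ℝ π x : E →L[ℝ] F') : E →ₗ[ℝ] F') (gen φ x) = 0 :=
    fderiv_gen_zero h hπ hi hx
  rw [h1, map_zero, LinearMap.zero_apply, map_zero]

theorem hz_pull (h : Act X φ) (hπ : SMap X B π) (hi : ∀ t, ∀ x ∈ X, π (φ t x) = π x)
    (c : F' → Ext F') : Hz X φ (F.pull π c) :=
  Eqv.of_eq fun x hx => ii_pull h hπ hi c hx

theorem Inv.d' (h : Act X φ) (hX : Sub m X) (ha : Sm X a) (hi : Inv X φ a) :
    Inv X φ (F.d a) := fun t =>
  (d_pull_eqv (smap h t) ha).symm.trans (Eqv.d hX (ha.pull (smap h t)) ha (hi t))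

theorem hom_iV (h : Hom (j + 1) a) : Hom j (iV φ a) := fun x => (h x).ii _

theorem iV_hom_zero (h : Hom 0 a) : iV φ a = 0 := funext fun x => ii_of_isDeg_zero (h x) _

/-- homogeneous invariant primitives of pull-backs -/
theorem exists_inv_prim (h : Act X φ) (hX : Sub m X) (hπ : SMap X B π)
    (hi : ∀ t, ∀ x ∈ X, π (φ t x) = π x) (hc : Sm B c) (hd : Hom (j + 1) c)
    (h0 : Coh X (F.pull π c) 0) :
    ∃ η : E → Ext E, Sm X η ∧ Hom j η ∧ Inv X φ η ∧ Eqv X (F.d η) (F.pull π c) := by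
  obtain ⟨ξ, h1, h2, h3⟩ := hom_prim h0 hd.pull
  refine ⟨dp j (Av φ ξ), (sm_Av h h1).dp j, hom_dp _ _, Inv.dp' j (inv_Av h h1), ?_⟩
  have e1 : Eqv X (F.d (dp j (Av φ ξ))) (dp (j + 1) (F.d (Av φ ξ))) :=
    Eqv.of_eq fun x hx => (dp_d j ((sm_Av h h1).diff hx)).symm
  have e2 : Eqv X (F.d (Av φ ξ)) (F.pull π c) :=
    ((d_Av h hX h1).trans (eqv_Av h h1.d (hc.pull hπ) h3.symm)).trans
      (Av_of_inv h (hc.pull hπ) (inv_pull h hπ hi c))
  have e3 := e2.dp (j + 1)
  rw [dp_pull, hd.dp_eq] at e3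
  exact e1.trans e3

end gen

/-! ### the Gysin sequence -/

variable {m : ℕ} {E : Type} [NormedAddCommGroup E] [NormedSpace ℝ E] [FiniteDimensional ℝ E]
  {X : Set E} {φ : ℝ → E → E} {g : E → Fin m → ℂ} {n i : ℕ} {al : E → Ext E}
  {Fc b c : MM m → Ext (MM m)} {η : E → Ext E}

/-- **descent with degree and closedness** -/
theorem exists_basic_hom (hg : Emb X φ g) (h : Cir X φ) (hX : Clo (n + 1) X)
    (hs : Sm X η) (hi : Inv X φ η) (hz : Hz X φ η) (hd : Hom i η) :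
    ∃ c : MM m → Ext (MM m), ContDiff ℝ ∞ c ∧ Hom i c ∧ Eqv X (F.pull (jj g) c) η ∧
      (Cl X η → Cl (Quo X g) c) := by
  obtain ⟨c, h1, h2⟩ := hg.exists_basic h hX hs hi hz
  have hs1 : ContDiff ℝ ∞ (dp i c) := (dplL (E := MM m) i).contDiff.comp h1
  have h3 : Eqv X (F.pull (jj g) (dp i c)) η := by
    have := h2.dp i
    rwa [dp_pull, hd.dp_eq] at this
  refine ⟨dp i c, hs1, hom_dp _ _, h3, fun hc => ?_⟩
  exact hg.cl_of_pull h hX (fun x _ => hs1.contDiffAt)
    (Cl.of_eqv hX.sub (Sm.pull hg.smap_jj (fun x _ => hs1.contDiffAt)) hs h3 hc)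

/-- the decomposition `η = η₀ + α ι_V η` of an invariant form -/
theorem inv_split (h : Act X φ) (ha : Conn X φ al) (hi : Inv X φ η) :
    Inv X φ (η - al * iV φ η) ∧ Hz X φ (η - al * iV φ η) := by
  refine ⟨hi.sub (Inv.mul ha.inv (hi.iV h)), Eqv.of_eq fun x hx => ?_⟩
  have e1 : ii (gen φ x) (iV φ η x) = 0 := ii_ii _ _
  change ii (gen φ x) (η x - al x * iV φ η x) = 0
  rw [map_sub, ii_mul, ha.unit x hx, e1, one_mul, mul_zero, add_zero]
  exact sub_self _

/-- **kernel of the pull-back**: a closed form on the quotient with exact pull-back is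
cohomologous to `c * Fc`. -/
theorem gysin_high (hg : Emb X φ g) (h : Cir X φ) (hX : Clo (n + 1) X) (ha : Conn X φ al)
    (hF : Curv X g al Fc) (hb : Sm (Quo X g) b) (hd : Hom (i + 2) b)
    (h0 : Coh X (F.pull (jj g) b) 0) :
    ∃ c : MM m → Ext (MM m), Sm (Quo X g) c ∧ Cl (Quo X g) c ∧ Hom i c ∧
      Coh (Quo X g) b (c * Fc) := by
  have hA : Act X φ := Act.of_cir h
  have hjj : ∀ t, ∀ x ∈ X, jj g (φ t x) = jj g x := fun t x hx => hg.jj_act hx t
  obtain ⟨η, h1, h2, h3, h4⟩ := exists_inv_prim (j := i + 1) hA hX.sub hg.smap_jj hjj hb hd h0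
  -- the contraction
  have b1 : Sm X (iV φ η) := Sm.iV hA h1
  have b2 : Hom i (iV φ η) := hom_iV h2
  have b3 : Inv X φ (iV φ η) := h3.iV hA
  have b4 : Eqv X (F.d (iV φ η)) 0 := by
    have e1 := Inv.d_iV hA hX.sub h1 h3
    have e2 : Eqv X (iV φ (F.d η)) 0 := (Eqv.iV hA h4).trans (hz_pull hA hg.smap_jj hjj b)
    have e3 := e2.neg
    rw [neg_zero] at e3
    exact e1.trans e3
  obtain ⟨c, c1, c2, c3, c4⟩ := exists_basic_hom hg h hX b1 b3 (hz_iV φ η) b2
  have hcs : Sm (Quo X g) c := fun x _ => c1.contDiffAt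
  have hcc : Cl (Quo X g) c := c4 (resZero_iff.2 b4)
  -- the basic part
  have hs0 : Sm X (η - al * iV φ η) := h1.sub (ha.sm.mul b1)
  obtain ⟨hi0, hz0⟩ := inv_split hA ha h3
  obtain ⟨η', e1, e2⟩ := hg.exists_basic h hX hs0 hi0 hz0
  have hs' : Sm (Quo X g) η' := fun x _ => e1.contDiffAt
  refine ⟨c, hcs, hcc, c2, η', hs', ?_⟩
  refine hg.eqv_of_pull h hX ?_
  rw [pull_sub', pull_mul']
  -- the pull-back of `d η'`
  have k1 : Eqv X (F.pull (jj g) (F.d η')) (F.d (η - al * iV φ η)) :=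
    (d_pull_eqv hg.smap_jj hs').symm.trans (Eqv.d hX.sub (hs'.pull hg.smap_jj) hs0 e2)
  have k2 : Eqv X (F.d (al * iV φ η)) (F.d al * iV φ η) := by
    have k3 := (d_mul_eqv ha.sm b1).trans
      ((Eqv.refl (F.d al * iV φ η)).add ((Eqv.refl (fun x => F.inv (al x))).mul b4))
    rwa [mul_zero, add_zero] at k3
  have k4 : Eqv X (F.d (η - al * iV φ η)) (F.pull (jj g) b - F.pull (jj g) Fc * F.pull (jj g) c) :=
    (d_sub_eqv h1 (ha.sm.mul b1)).trans (h4.sub (k2.trans (hF.pull.symm.mul c3.symm)))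
  have k5 : F.pull (jj g) Fc * F.pull (jj g) c = F.pull (jj g) c * F.pull (jj g) Fc := by
    funext x
    refine even_mul_comm ?_ _
    exact inv_of_isDeg (j := 1) ((hF.hom (jj g x)).pb _)
  rw [k5] at k4
  exact (k1.trans k4).symm

/-- **low degrees** -/
theorem gysin_low (hg : Emb X φ g) (h : Cir X φ) (hX : Clo (n + 1) X)
    (hb : Sm (Quo X g) b) (hd : Hom i b) (hi : i < 2)
    (h0 : Coh X (F.pull (jj g) b) 0) : Coh (Quo X g) b 0 := by
  have hA : Act X φ := Act.of_cir h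
  have hjj : ∀ t, ∀ x ∈ X, jj g (φ t x) = jj g x := fun t x hx => hg.jj_act hx t
  interval_cases i
  · refine Coh.of_eqv (hg.eqv_of_pull h hX ?_)
    rw [pull_zero']
    exact eqv_of_coh_zero h0 hd.pull
  · obtain ⟨η, h1, h2, h3, h4⟩ := exists_inv_prim (j := 0) hA hX.sub hg.smap_jj hjj hb hd h0
    obtain ⟨η', e1, e2⟩ := hg.exists_basic h hX h1 h3 (by
      change Eqv X (iV φ η) 0
      rw [iV_hom_zero h2]
      exact Eqv.refl _)
    have hs' : Sm (Quo X g) η' := fun x _ => e1.contDiffAt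
    refine ⟨η', hs', hg.eqv_of_pull h hX ?_⟩
    rw [sub_zero]
    have k1 : Eqv X (F.pull (jj g) (F.d η')) (F.d η) :=
      (d_pull_eqv hg.smap_jj hs').symm.trans (Eqv.d hX.sub (hs'.pull hg.smap_jj) h1 e2)
    exact (k1.trans h4).symm

/-- invariant closed homogeneous representative -/
theorem exists_inv_rep (h : Act X φ) (hX : Sub n X) (hb : Sm X η) (hc : Cl X η) (hd : Hom i η) :
    ∃ η' : E → Ext E, Sm X η' ∧ Cl X η' ∧ Hom i η' ∧ Inv X φ η' ∧ Coh X η η' := by
  have h1 := (coh_Av h hX hb hc).symm.dp i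
  rw [hd.dp_eq] at h1
  refine ⟨dp i (Av φ η), (sm_Av h hb).dp i, ?_, hom_dp _ _, Inv.dp' i (inv_Av h hb), h1⟩
  exact Coh.cl hX ((sm_Av h hb).dp i) hb h1.symm hc

/-- **fibre integration** of a closed form on the total space; if the fibre integral is exact then
the form comes from the quotient. -/
theorem gysin_push (hg : Emb X φ g) (h : Cir X φ) (hX : Clo (n + 1) X) (ha : Conn X φ al)
    (hF : Curv X g al Fc) (hb : Sm X η) (hc : Cl X η) (hd : Hom (i + 1) η) :
    ∃ c : MM m → Ext (MM m), Sm (Quo X g) c ∧ Cl (Quo X g) c ∧ Hom i c ∧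
      Eqv X (F.pull (jj g) c) (dp i (iV φ (Av φ η))) ∧
      (Coh (Quo X g) c 0 → ∃ a : MM m → Ext (MM m), Sm (Quo X g) a ∧ Cl (Quo X g) a ∧
        Hom (i + 1) a ∧ Coh X η (F.pull (jj g) a)) := by
  have hA : Act X φ := Act.of_cir h
  have hjj : ∀ t, ∀ x ∈ X, jj g (φ t x) = jj g x := fun t x hx => hg.jj_act hx t
  set η' := dp (i + 1) (Av φ η) with hη'
  have h1 : Sm X η' := (sm_Av hA hb).dp _
  have h3 : Hom (i + 1) η' := hom_dp _ _
  have h4 : Inv X φ η' := Inv.dp' _ (inv_Av hA hb)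
  have h5 : Coh X η η' := by
    have := (coh_Av hA hX.sub hb hc).symm.dp (i + 1)
    rwa [hd.dp_eq] at this
  have h2 : Cl X η' := Coh.cl hX.sub h1 hb h5.symm hc
  have b1 : Sm X (iV φ η') := Sm.iV hA h1
  have b2 : Hom i (iV φ η') := hom_iV h3
  have b3 : Inv X φ (iV φ η') := h4.iV hA
  have b4 : Cl X (iV φ η') := by
    refine resZero_iff.2 ?_
    have e1 := Inv.d_iV hA hX.sub h1 h4
    have e2 : Eqv X (iV φ (F.d η')) (iV φ 0) := Eqv.iV hA (resZero_iff.1 h2)
    have e0 : iV φ (0 : E → Ext E) = 0 := funext fun x => map_zero (ii (gen φ x))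
    rw [e0] at e2
    have e3 := e2.neg
    rw [neg_zero] at e3
    exact e1.trans e3
  obtain ⟨c, c1, c2, c3, c4⟩ := exists_basic_hom hg h hX b1 b3 (hz_iV φ η') b2
  have hcs : Sm (Quo X g) c := fun x _ => c1.contDiffAt
  have hdi : iV φ η' = dp i (iV φ (Av φ η)) := by
    funext x
    refine ext_evA fun q => ?_
    rw [hη']
    change evA E q (ii (gen φ x) (dpl (i + 1) (Av φ η x))) =
      evA E q (dpl i (ii (gen φ x) (Av φ η x)))
    ext v
    rw [evA_dpl, ← evA_ii, evA_dpl]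
    by_cases hq : q = i
    · subst hq
      rw [if_pos rfl, if_pos rfl, evA_ii]
    · rw [if_neg (by omega), if_neg hq]
      rfl
  refine ⟨c, hcs, c4 b4, c2, by rw [← hdi]; exact c3, fun hcz => ?_⟩
  obtain ⟨γ, g1, g2⟩ := hcz
  rw [sub_zero] at g2
  -- the basic representative
  have p1 : Sm X (F.pull (jj g) γ) := g1.pull hg.smap_jj
  have p2 : Sm X (al * F.pull (jj g) γ) := ha.sm.mul p1
  have p3 : Sm X (η' + F.d (al * F.pull (jj g) γ)) := h1.add p2.d
  have p4 : Inv X φ (η' + F.d (al * F.pull (jj g) γ)) :=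
    h4.add (Inv.d' hA hX.sub p2 (Inv.mul ha.inv (inv_pull hA hg.smap_jj hjj γ)))
  have p5 : Hz X φ (η' + F.d (al * F.pull (jj g) γ)) := by
    have q1 : Eqv X (F.d (al * F.pull (jj g) γ))
        (F.pull (jj g) Fc * F.pull (jj g) γ + (fun x => F.inv (al x)) * F.pull (jj g) (F.d γ)) :=
      (d_mul_eqv ha.sm p1).trans ((hF.pull.symm.mul (Eqv.refl _)).add
        ((Eqv.refl _).mul (d_pull_eqv hg.smap_jj g1)))
    have q2 : Eqv X (iV φ (F.d (al * F.pull (jj g) γ))) (-(F.pull (jj g) (F.d γ))) := by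
      refine (Eqv.iV hA q1).trans (Eqv.of_eq fun x hx => ?_)
      change ii (gen φ x) (F.pull (jj g) Fc x * F.pull (jj g) γ x +
        F.inv (al x) * F.pull (jj g) (F.d γ) x) = - F.pull (jj g) (F.d γ) x
      have r1 : ii (gen φ x) (F.inv (al x)) = -1 := by
        have := inv_ii (gen φ x) (al x)
        rw [ha.unit x hx, map_one] at this
        rw [this, neg_neg]
      rw [map_add, ii_mul, ii_mul, ii_pull hA hg.smap_jj hjj Fc hx,
        ii_pull hA hg.smap_jj hjj γ hx, ii_pull hA hg.smap_jj hjj (F.d γ) hx, r1]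
      simp
    have q3 : Eqv X (F.pull (jj g) (F.d γ)) (iV φ η') := (g2.pull hg.smap_jj).symm.trans c3
    have q4 := (Eqv.refl (iV φ η')).add (q2.trans q3.neg)
    rw [add_neg_cancel] at q4
    have q5 : iV φ (η' + F.d (al * F.pull (jj g) γ)) =
        iV φ η' + iV φ (F.d (al * F.pull (jj g) γ)) := funext fun x => map_add _ _ _
    rw [Hz, q5]
    exact q4
  have p6 : Cl X (η' + F.d (al * F.pull (jj g) γ)) := Cl.add h1 p2.d h2 (d_d' p2)
  obtain ⟨a, a1, a2⟩ := hg.exists_basic h hX p3 p4 p5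
  have s1 : ContDiff ℝ ∞ (dp (i + 1) a) := (dplL (E := MM m) (i + 1)).contDiff.comp a1
  have sa : Sm (Quo X g) a := fun x _ => a1.contDiffAt
  have ca : Cl (Quo X g) a := hg.cl_of_pull h hX sa
    (Cl.of_eqv hX.sub (sa.pull hg.smap_jj) p3 a2 p6)
  refine ⟨dp (i + 1) a, sa.dp _, Cl.dp _ sa ca, hom_dp _ _, ?_⟩
  have r1 : Coh X η' (F.pull (jj g) a) := by
    refine Coh.trans ?_ (Coh.of_eqv a2.symm)
    refine ⟨-(al * F.pull (jj g) γ), p2.neg, ?_⟩
    rw [sub_add_cancel_left, d_neg']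
    exact Eqv.refl _
  have r2 := r1.dp (i + 1)
  rw [h3.dp_eq, dp_pull] at r2
  exact h5.trans r2

/-- **cokernel**: a closed form `c` on the quotient with `Fc * c` exact is a fibre integral. -/
theorem exists_of_mul_exact (hg : Emb X φ g) (h : Cir X φ) (hX : Clo (n + 1) X)
    (ha : Conn X φ al) (hF : Curv X g al Fc) (hc : Sm (Quo X g) c) (hcc : Cl (Quo X g) c)
    (hd : Hom i c) (h0 : Coh (Quo X g) (Fc * c) 0) :
    ∃ η : E → Ext E, Sm X η ∧ Cl X η ∧ Hom (i + 1) η ∧ Inv X φ η ∧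
      Eqv X (iV φ η) (F.pull (jj g) c) := by
  have hA : Act X φ := Act.of_cir h
  have hjj : ∀ t, ∀ x ∈ X, jj g (φ t x) = jj g x := fun t x hx => hg.jj_act hx t
  have hd2 : Hom (i + 1 + 1) (Fc * c) := by
    have := hF.hom.mul hd
    rwa [show 2 + i = i + 1 + 1 by ring] at this
  obtain ⟨γ, g1, g2, g3⟩ := hom_prim h0 hd2
  have p1 : Sm X (F.pull (jj g) γ) := g1.pull hg.smap_jj
  have p2 : Sm X (F.pull (jj g) c) := hc.pull hg.smap_jj
  have hom1 : Hom (i + 1) (al * F.pull (jj g) c) := by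
    have := ha.hom.mul (hd.pull (f := jj g))
    rwa [add_comm 1 i] at this
  refine ⟨al * F.pull (jj g) c - F.pull (jj g) γ, (ha.sm.mul p2).sub p1, ?_,
    hom1.sub g2.pull, (Inv.mul ha.inv (inv_pull hA hg.smap_jj hjj c)).sub
      (inv_pull hA hg.smap_jj hjj γ), Eqv.of_eq fun x hx => ?_⟩
  · refine resZero_iff.2 ?_
    have e0 : Eqv X (F.d (F.pull (jj g) c)) 0 := resZero_iff.1 (hcc.pull hg.smap_jj hc)
    have e1 : Eqv X (F.d (al * F.pull (jj g) c)) (F.pull (jj g) (Fc * c)) := by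
      have e2 := (d_mul_eqv ha.sm p2).trans ((hF.pull.symm.mul (Eqv.refl (F.pull (jj g) c))).add
        ((Eqv.refl (fun x => F.inv (al x))).mul e0))
      rw [mul_zero, add_zero, ← pull_mul'] at e2
      exact e2
    have e3 : Eqv X (F.d (F.pull (jj g) γ)) (F.pull (jj g) (Fc * c)) :=
      (d_pull_eqv hg.smap_jj g1).trans (g3.pull hg.smap_jj).symm
    have e4 := (d_sub_eqv (ha.sm.mul p2) p1).trans (e1.sub e3)
    rwa [sub_self] at e4
  · change ii (gen φ x) (al x * F.pull (jj g) c x - F.pull (jj g) γ x) = F.pull (jj g) c x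
    rw [map_sub, ii_mul, ha.unit x hx, ii_pull hA hg.smap_jj hjj c hx,
      ii_pull hA hg.smap_jj hjj γ hx, one_mul, mul_zero, add_zero, sub_zero]

/-- **the Gysin properties of the quotient map of a free circle action.** -/
theorem gys (hg : Emb X φ g) (h : Cir X φ) (hX : Clo (n + 1) X) (ha : Conn X φ al)
    (hF : Curv X g al Fc) : HY.Gys X (Quo X g) (jj g) Fc where
  smap := hg.smap_jj
  sm := hF.sm
  cl := hF.cl
  hom := hF.hom
  zero := ⟨al, ha.sm, by rw [sub_zero]; exact hF.pull⟩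
  high := fun i b h1 h2 h3 h4 => gysin_high hg h hX ha hF h1 h3 h4
  low := fun i b h1 h2 h3 h4 h5 => gysin_low hg h hX h2 h4 h1 h5
  push := fun i b h1 h2 h3 => by
    obtain ⟨c, c1, c2, c3, -, c5⟩ := gysin_push hg h hX ha hF h1 h2 h3
    exact ⟨c, c1, c2, c3, c5⟩

end Crest.Agent.R208.HG
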