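import Crest.Agent.R208.EP5
import Crest.Agent.R208.HG1
import Crest.Agent.R208.HW2

/-! Row 208, block EW (helper607).  EW7: Chern forms of descended fields under maps of quotients
(`B' → B`), and the polynomial `topr`. -/

set_option autoImplicit false
set_option linter.unusedSectionVars false
set_option linter.unusedVariables false
set_option linter.unusedSimpArgs false

open Set Filter Topology Module MeasureTheory Matrix
open scoped ContDiff RealInnerProductSpace ComplexConjugate Kronecker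
open Crest.Agent.R208.F Crest.Agent.R208.FI Crest.Agent.R208.CW
open Crest.Agent.R208.CM
open Crest.Agent.R208.T
open Crest.Agent.R208.EP

noncomputable section

namespace Crest.Agent.R208.EW

section desc
variable {E E' : Type} [NormedAddCommGroup E] [NormedSpace ℝ E] [FiniteDimensional ℝ E]
  [NormedAddCommGroup E'] [NormedSpace ℝ E'] [FiniteDimensional ℝ E']
  {a p p' : Type} [Fintype a] [DecidableEq a] [Fintype p] [DecidableEq p] [Fintype p']
  [DecidableEq p'] {X : Set E} {X' : Set E'} {φ : ℝ → E → E} {φ' : ℝ → E' → E'}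
  {m m' d d' r : ℕ} {g : E → Fin m → ℂ} {g' : E' → Fin m' → ℂ}
  {R R' : ℝ → EuclideanSpace ℝ a →L[ℝ] EuclideanSpace ℝ a}
  {Tr : E → EuclideanSpace ℝ a →L[ℝ] EuclideanSpace ℝ p}
  {Tr' : E' → EuclideanSpace ℝ a →L[ℝ] EuclideanSpace ℝ p'}
  {N : E → EuclideanSpace ℝ a →L[ℝ] EuclideanSpace ℝ a}
  {P : MM m → EuclideanSpace ℝ p →L[ℝ] EuclideanSpace ℝ p}
  {P' : MM m' → EuclideanSpace ℝ p' →L[ℝ] EuclideanSpace ℝ p'}
  {f : E' → E} {q : MM m' → MM m} {ρ : ℝ}

/-- the intertwiner -/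
def Sx (Tr : E → EuclideanSpace ℝ a →L[ℝ] EuclideanSpace ℝ p)
    (Tr' : E' → EuclideanSpace ℝ a →L[ℝ] EuclideanSpace ℝ p')
    (N : E → EuclideanSpace ℝ a →L[ℝ] EuclideanSpace ℝ a) (f : E' → E) (z : E') :
    Matrix p' p ℂ := mc (Tr' z) * (mc (N (f z)) * (mc (Tr (f z)))ᵀ)

theorem Sx_inv (hfe : ∀ z ∈ X', ∀ t, f (φ' t z) = φ (ρ * t) (f z)) (hf : MapsTo f X' X)
    (hR : Rep R) (hR' : Rep R') (hRR : ∀ t, R' t = R (ρ * t)) (hT : Triv X φ R Tr)
    (hT' : Triv X' φ' R' Tr') (eqN : ∀ x ∈ X, ∀ t v, N (φ t x) (R t v) = R t (N x v))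
    {z : E'} (hz : z ∈ X') (t : ℝ) : Sx Tr Tr' N f (φ' t z) = Sx Tr Tr' N f z := by
  have hx := hf hz
  have e1 : (mc (Tr (φ (ρ * t) (f z))))ᵀ = mc (R (ρ * t)) * (mc (Tr (f z)))ᵀ := by
    rw [← mc_adj, ← mc_adj, ← mc_comp]
    congr 1
    ext1 v
    exact hT.adj_equi hR hx (ρ * t) v
  have e2 : mc (N (φ (ρ * t) (f z))) * mc (R (ρ * t)) = mc (R (ρ * t)) * mc (N (f z)) := by
    rw [← mc_comp, ← mc_comp]
    congr 1
    ext1 v
    exact eqN _ hx (ρ * t) v
  have e3 : mc (Tr' (φ' t z)) = mc (Tr' z) * mc (R' (-t)) := by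
    rw [← mc_comp]
    congr 1
    ext1 v
    exact hT'.equi' hR' hz t v
  have e4 : mc (R' (-t)) * mc (R (ρ * t)) = (1 : Matrix a a ℂ) := by
    rw [← mc_comp, hRR, mul_neg]
    have : (R (-(ρ * t))).comp (R (ρ * t)) = ContinuousLinearMap.id ℝ _ := by
      ext1 v
      exact hR.neg_add (ρ * t) v
    rw [this]
    exact mc_id
  rw [Sx, hfe z hz, e1, e3, ← Matrix.mul_assoc (mc (N (φ (ρ * t) (f z)))), e2, Matrix.mul_assoc,
    Matrix.mul_assoc, ← Matrix.mul_assoc (mc (R' (-t))), e4, Matrix.one_mul, Sx]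

/-- **Chern forms of descended fields are natural** -/
theorem coh_cR_desc (hg : Emb X φ g) (hC : Cir X φ) (hX : Clo (d + 1) X)
    (hg' : Emb X' φ' g') (hC' : Cir X' φ') (hX' : Clo (d' + 1) X')
    (hf : SMap X' X f) (hq : SMap (Quo X' g') (Quo X g) q)
    (hqf : ∀ z ∈ X', q (jj g' z) = jj g (f z))
    (hfe : ∀ z ∈ X', ∀ t, f (φ' t z) = φ (ρ * t) (f z))
    (hR : Rep R) (hR' : Rep R') (hRR : ∀ t, R' t = R (ρ * t))
    (hT : Triv X φ R Tr) (hT' : Triv X' φ' R' Tr') (hN : PField X r N)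
    (eqN : ∀ x ∈ X, ∀ t v, N (φ t x) (R t v) = R t (N x v))
    (hP : PField (Quo X g) r P) (hPe : ∀ x ∈ X, P (jj g x) = Qd Tr N x)
    (hP' : PField (Quo X' g') r P') (hPe' : ∀ z ∈ X', P' (jj g' z) = Qd Tr' (fun z => N (f z)) z)
    (j : ℕ) : Coh (Quo X' g') (cR j P') (F.pull q (cR j P)) := by
  have hB := hg.sub_Quo hC hX
  have hB' := hg'.sub_Quo hC' hX'
  have hI := idF_of_pfield hP
  have hI' := idF_of_pfield hP'
  let S0 : E' → (p' → p → ℂ) := fun z => Sx Tr Tr' N f z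
  have hS0 : ∀ z ∈ X', ContDiffAt ℝ ∞ S0 z := by
    intro z hz
    rw [contDiffAt_pi]
    intro i
    rw [contDiffAt_pi]
    intro k
    have h1 : SM ∞ (fun y => mc (Tr (f y))) z :=
      contDiffAt_mc ((hT.smooth _ (hf.maps hz)).comp z (hf.smooth z hz))
    have h2 : SM ∞ (fun y => mc (Tr' y)) z := contDiffAt_mc (hT'.smooth z hz)
    have h3 : SM ∞ (fun y => mc (N (f y))) z :=
      contDiffAt_mc ((hN.smooth _ (hf.maps hz)).comp z (hf.smooth z hz))
    exact (h2.mul (h3.mul h1.transpose)) i k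
  obtain ⟨V, hVs, hV⟩ := hg'.exists_desc hC' hX' (f := S0) hS0
    (fun z hz t => Sx_inv hfe hf.maps hR hR' hRR hT hT' eqN hz t)
  let S : MM m' → Matrix p' p ℂ := fun y => Matrix.of (V y)
  have hSs : ∀ y ∈ Quo X' g', SM ∞ S y := fun y _ i k =>
    contDiffAt_pi.1 (contDiffAt_pi.1 hVs.contDiffAt i) k
  have h1 := cc_map hB' hB hq hI j
  have h2 : cc hB' (hI.comp hq) j = cc hB' hI' j := by
    rw [← coeff_cs, ← coeff_cs]
    congr 1
    refine cs_iso hB' _ hI' (S := S) hSs ?_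
    rintro _ ⟨z, hz, rfl⟩
    have hx := hf.maps hz
    have hSz : S (jj g' z) = Sx Tr Tr' N f z := by
      change Matrix.of (V (jj g' z)) = _
      rw [hV z hz]; rfl
    have t1 : (mc (Tr (f z)))ᵀ * mc (Tr (f z)) = 1 := mc_iso (hT.iso _ hx)
    have t2 : (mc (Tr' z))ᵀ * mc (Tr' z) = 1 := mc_iso (hT'.iso z hz)
    have nn : mc (N (f z)) * mc (N (f z)) = mc (N (f z)) := by
      rw [← mc_comp]
      congr 1
      ext1 v
      exact hN.idem _ hx v
    have e1 : mtx (P (q (jj g' z))) = mc (Tr (f z)) * mc (N (f z)) * (mc (Tr (f z)))ᵀ := by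
      rw [hqf z hz, hPe _ hx, mc_Qd]
    have e2 : mtx (P' (jj g' z)) = mc (Tr' z) * mc (N (f z)) * (mc (Tr' z))ᵀ := by
      rw [hPe' z hz, mc_Qd]
    refine ⟨mc (Tr (f z)) * mc (N (f z)) * (mc (Tr' z))ᵀ, ?_⟩
    rw [e1, e2, hSz, Sx]
    set A := mc (Tr (f z))
    set A' := mc (Tr' z)
    set n := mc (N (f z))
    have kA : ∀ {l : Type} (M : Matrix a l ℂ), Aᵀ * (A * M) = M := fun M => by
      rw [← Matrix.mul_assoc, t1, Matrix.one_mul]
    have kA' : ∀ {l : Type} (M : Matrix a l ℂ), A'ᵀ * (A' * M) = M := fun M => by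
      rw [← Matrix.mul_assoc, t2, Matrix.one_mul]
    have kn : ∀ {l : Type} (M : Matrix a l ℂ), n * (n * M) = n * M := fun M => by
      rw [← Matrix.mul_assoc, nn]
    refine ⟨?_, ?_, ?_, ?_, ?_, ?_⟩ <;>
      simp only [Matrix.mul_assoc, kA, kA', kn]
  have h3 := rcl_cfr hB hI (fun y i j => Complex.ofReal_im _) j
  have h4 := rcl_cfr hB' hI' (fun y i j => Complex.ofReal_im _) j
  have h5 : rcl (ec_cfr hB' hI' j) = rcl ((ec_cfr hB hI j).pull hq) := by
    rw [rcl_pull hq (ec_cfr hB hI j), h3, h1, h2, h4]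
  exact (rcl_eq_iff _ _).1 h5

end desc

section topr
variable {E E' : Type} [NormedAddCommGroup E] [NormedSpace ℝ E] [FiniteDimensional ℝ E]
  [NormedAddCommGroup E'] [NormedSpace ℝ E'] [FiniteDimensional ℝ E']
  {p p' : Type} [Fintype p] [DecidableEq p] [Fintype p'] [DecidableEq p']
  {Y : Set E} {Y' : Set E'} {N : E → EuclideanSpace ℝ p →L[ℝ] EuclideanSpace ℝ p}
  {N' : E' → EuclideanSpace ℝ p' →L[ℝ] EuclideanSpace ℝ p'} {F₀ : E → Ext E} {F₁ : E' → Ext E'}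
  {r s s' d d' : ℕ} {w c : ℝ} {q : E' → E}

theorem topr_smul (r : ℕ) (w c : ℝ) : topr r w N (c • F₀) = topr r (w * c) N F₀ := by
  unfold topr
  refine Finset.sum_congr rfl fun j _ => ?_
  rw [smul_pow, mul_smul_comm, smul_smul, mul_pow]
  congr 1
  ring

/-- `topr` is natural -/
theorem coh_topr_pull (hY' : Sub d' Y') (hY : Sub d Y) (hq : SMap Y' Y q) (hN : PField Y s N)
    (hN' : PField Y' s' N') (hE : EC Y F₀) (hE' : EC Y' F₁)
    (hc : ∀ j, Coh Y' (cR j N') (F.pull q (cR j N))) (hF : Coh Y' F₁ (c • F.pull q F₀)) :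
    Coh Y' (topr r w N' F₁) (F.pull q (topr r (w * c) N F₀)) := by
  have h1 := ec_topr (r := r) (w := w) hY' hN' hE'
  have h2 := ec_topr (r := r) (w := w * c) hY hN hE
  refine (rcl_eq_iff h1 (h2.pull hq)).1 ?_
  rw [rcl_topr hY' hN' hE', rcl_pull hq h2, rcl_topr hY hN hE, map_sum]
  have e1 : rcl hE' = (c : ℂ) • H.map hq (rcl hE) := by
    rw [← rcl_pull hq hE, ← rcl_smul c (hE.pull hq)]
    exact rcl_congr _ _ hF
  refine Finset.sum_congr rfl fun j _ => ?_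
  have e2 : cc hY' (idF_of_pfield hN') (2 * j) = H.map hq (cc hY (idF_of_pfield hN) (2 * j)) := by
    rw [← rcl_cfr hY (idF_of_pfield hN) (fun y i j => Complex.ofReal_im _) (2 * j),
      ← rcl_cfr hY' (idF_of_pfield hN') (fun y i j => Complex.ofReal_im _) (2 * j),
      ← rcl_pull hq (ec_cfr hY (idF_of_pfield hN) (2 * j))]
    exact rcl_congr _ _ (hc (2 * j))
  rw [e1, e2, map_smul, map_mul, map_pow, smul_pow, mul_smul_comm, smul_smul]
  congr 1
  push_cast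
  ring

end topr

end Crest.Agent.R208.EW
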