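import Crest.Agent.R208.EW7

/-! Row 208, block EW (helper607).  EW8: coefficients of the Chern forms of the descended field in
low degrees (type `(8, 2)`), and the final formula for `topr 7`. -/

set_option autoImplicit false
set_option linter.unusedSectionVars false
set_option linter.unusedVariables false
set_option linter.unusedSimpArgs false

open Set Filter Topology Module MeasureTheory Matrix
open scoped ContDiff RealInnerProductSpace ComplexConjugate Kronecker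
open Crest.Agent.R208.F Crest.Agent.R208.FI Crest.Agent.R208.CW
open Crest.Agent.R208.CM
open Crest.Agent.R208.T
open Crest.Agent.R208.EP

noncomputable section

namespace Crest.Agent.R208.EW

section low
variable {E E' : Type*} [NormedAddCommGroup E] [NormedSpace ℝ E] [FiniteDimensional ℝ E]
  [NormedAddCommGroup E'] [NormedSpace ℝ E'] [FiniteDimensional ℝ E']
  {X : Set E} {B : Set E'} {q : E → E'} {F₀ : E' → Ext E'} {d J : ℕ}
  {x : E → Ext E} {x0 b : E' → Ext E'}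

theorem low_four (hG : HY.Gys X B q F₀) (hB : Sub d B) (hBc : IsPreconnected B)
    (hL : HY.Low X x 8 J) (hJ : 12 < J) (sx : Sm X x) (cx : Cl X x)
    (s0 : Sm B x0) (c0 : Cl B x0) (d0 : Hom 8 x0) (h0 : Coh X x (F.pull q x0))
    (sb : Sm B b) (cb : Cl B b) (db : Hom 4 b) : ∃ t : ℝ, Coh B b (t • F₀ ^ 2) := by
  obtain ⟨f, hf⟩ := hG.even hB hBc (by decide) (by norm_num) hL sx cx s0 c0 d0 h0 4 b (by decide)
    (by omega) sb cb db
  refine ⟨f 0, ?_⟩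
  simpa using hf

theorem low_eight (hG : HY.Gys X B q F₀) (hB : Sub d B) (hBc : IsPreconnected B)
    (hL : HY.Low X x 8 J) (hJ : 12 < J) (sx : Sm X x) (cx : Cl X x)
    (s0 : Sm B x0) (c0 : Cl B x0) (d0 : Hom 8 x0) (h0 : Coh X x (F.pull q x0))
    (sb : Sm B b) (cb : Cl B b) (db : Hom 8 b) :
    ∃ t c : ℝ, Coh B b (t • F₀ ^ 4 + c • x0) := by
  obtain ⟨f, hf⟩ := hG.even hB hBc (by decide) (by norm_num) hL sx cx s0 c0 d0 h0 8 b (by decide)
    (by omega) sb cb db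
  refine ⟨f 0, f 1, ?_⟩
  rw [show (8 / 8 + 1 : ℕ) = 2 from rfl, Finset.sum_range_succ, Finset.sum_range_one] at hf
  simpa using hf

theorem low_twelve (hG : HY.Gys X B q F₀) (hB : Sub d B) (hBc : IsPreconnected B)
    (hL : HY.Low X x 8 J) (hJ : 12 < J) (sx : Sm X x) (cx : Cl X x)
    (s0 : Sm B x0) (c0 : Cl B x0) (d0 : Hom 8 x0) (h0 : Coh X x (F.pull q x0))
    (sb : Sm B b) (cb : Cl B b) (db : Hom 12 b) :
    ∃ t c : ℝ, Coh B b (t • F₀ ^ 6 + c • (x0 * F₀ ^ 2)) := by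
  obtain ⟨f, hf⟩ := hG.even hB hBc (by decide) (by norm_num) hL sx cx s0 c0 d0 h0 12 b (by decide)
    (by omega) sb cb db
  refine ⟨f 0, f 1, ?_⟩
  rw [show (12 / 8 + 1 : ℕ) = 2 from rfl, Finset.sum_range_succ, Finset.sum_range_one] at hf
  simpa using hf

/-- the `x0`-coefficient in degree `8` is seen on `X` -/
theorem coef_unique (hG : HY.Gys X B q F₀) (s0 : Sm B x0) (h0 : Coh X x (F.pull q x0))
    (sx : Sm X x) (hx : ¬ Coh X x 0) {t c c' : ℝ} {k : ℕ} (hk : 1 ≤ k)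
    (hb : Coh B b (t • F₀ ^ k + c • x0)) (hb' : Coh X (F.pull q b) (c' • x)) : c = c' := by
  by_contra hne
  have h1 : Coh X (F.pull q b) (F.pull q (t • F₀ ^ k + c • x0)) := hb.pull hG.smap
  have h2 : Coh X (F.pull q F₀ ^ k) 0 := by
    obtain ⟨k', rfl⟩ := Nat.exists_eq_add_of_le' hk
    rw [pow_succ']
    exact HY.coh_mul_zero ((hG.sm.pull hG.smap).pow k')
      (Cl.pow (hG.sm.pull hG.smap) (hG.cl.pull hG.smap hG.sm) k') hG.zero
  have h3 : Coh X (F.pull q (t • F₀ ^ k + c • x0)) (c • x) := by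
    rw [pull_add', pull_smul', pull_smul', pull_pow']
    have h4 := (h2.smul t).add (h0.symm.smul c)
    rwa [smul_zero, zero_add] at h4
  have h5 : Coh X (c • x) (c' • x) := (h1.trans h3).symm.trans hb'
  have h6 := h5.sub (Coh.refl (c' • x))
  rw [sub_self, ← sub_smul] at h6
  have h7 := h6.smul (c - c')⁻¹
  rw [smul_smul, inv_mul_cancel₀ (sub_ne_zero.2 hne), one_smul, smul_zero] at h7
  exact hx h7

end low

section fin
variable {E E' : Type} [NormedAddCommGroup E] [NormedSpace ℝ E] [FiniteDimensional ℝ E]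
  [NormedAddCommGroup E'] [NormedSpace ℝ E'] [FiniteDimensional ℝ E']
  {p : Type} [Fintype p] [DecidableEq p]
  {X : Set E} {B : Set E'} {q : E → E'} {F₀ : E' → Ext E'} {d J : ℕ}
  {x : E → Ext E} {x0 : E' → Ext E'} {P : E' → EuclideanSpace ℝ p →L[ℝ] EuclideanSpace ℝ p}

theorem hom_cR (j : ℕ) : Hom (2 * j) (cR j P) := fun y => hom_cfr j y

/-- **the coefficients**: `p_1, p_2, p_3` of the descended rank `7` field -/
theorem exists_coeffs (hG : HY.Gys X B q F₀) (hB : Sub d B) (hBc : IsPreconnected B)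
    (hP : PField B 7 P) (hL : HY.Low X x 8 J) (hJ : 12 < J) (sx : Sm X x) (cx : Cl X x)
    (s0 : Sm B x0) (c0 : Cl B x0) (d0 : Hom 8 x0) (h0 : Coh X x (F.pull q x0))
    (hx : ¬ Coh X x 0) {c : ℝ} (hc : Coh X (F.pull q (cR 4 P)) (c • x)) :
    ∃ q1 q2 α β : ℝ, Coh B (cR 2 P) (q1 • F₀ ^ 2) ∧ Coh B (cR 4 P) (q2 • F₀ ^ 4 + c • x0) ∧
      Coh B (cR 6 P) (α • F₀ ^ 6 + β • (x0 * F₀ ^ 2)) := by
  have e2 := ec_cR hB hP 2
  have e4 := ec_cR hB hP 4
  have e6 := ec_cR hB hP 6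
  obtain ⟨q1, h1⟩ := low_four hG hB hBc hL hJ sx cx s0 c0 d0 h0 e2.sm e2.cl (hom_cR 2)
  obtain ⟨q2, c', h2⟩ := low_eight hG hB hBc hL hJ sx cx s0 c0 d0 h0 e4.sm e4.cl (hom_cR 4)
  obtain ⟨α, β, h3⟩ := low_twelve hG hB hBc hL hJ sx cx s0 c0 d0 h0 e6.sm e6.cl (hom_cR 6)
  have e := coef_unique hG s0 h0 sx hx (by norm_num) h2 hc
  rw [e] at h2
  exact ⟨q1, q2, α, β, h1, h2, h3⟩

theorem coh_cR_zero (hB : Sub d B) (hP : PField B 7 P) : Coh B (cR 0 P) 1 := by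
  have hI := idF_of_pfield hP
  have e0 := ec_cR hB hP 0
  refine (rcl_eq_iff e0 EC.one).1 ?_
  rw [rcl_one]
  exact (rcl_cfr hB hI (fun y i j => Complex.ofReal_im _) 0).trans (cc_zero hB hI)

/-- **the top class of `N_ℂ ⊗ L^a`** -/
theorem coh_topr_seven (hB : Sub d B) (hP : PField B 7 P) (hE : EC B F₀) (s0 : EC B x0)
    {q1 q2 c α β : ℝ} (h2 : Coh B (cR 2 P) (q1 • F₀ ^ 2))
    (h4 : Coh B (cR 4 P) (q2 • F₀ ^ 4 + c • x0))
    (h6 : Coh B (cR 6 P) (α • F₀ ^ 6 + β • (x0 * F₀ ^ 2))) (a : ℝ) :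
    Coh B (topr 7 a P F₀) ((a ^ 7 - q1 * a ^ 5 + q2 * a ^ 3 - α * a) • F₀ ^ 7
      + (c * a ^ 3 - β * a) • (x0 * F₀ ^ 3)) := by
  have t := ec_topr (r := 7) (w := a) hB hP hE
  have u2 : EC B (q1 • F₀ ^ 2) := (hE.pow 2).smul q1
  have u4a : EC B (q2 • F₀ ^ 4) := (hE.pow 4).smul q2
  have u4b : EC B (c • x0) := s0.smul c
  have u6a : EC B (α • F₀ ^ 6) := (hE.pow 6).smul α
  have u6b : EC B (β • (x0 * F₀ ^ 2)) := (s0.mul (hE.pow 2)).smul β
  have v1 := (hE.pow 7).smul (a ^ 7 - q1 * a ^ 5 + q2 * a ^ 3 - α * a)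
  have v2 := (s0.mul (hE.pow 3)).smul (c * a ^ 3 - β * a)
  refine (rcl_eq_iff t (v1.add v2)).1 ?_
  have hI := idF_of_pfield hP
  have k0 : cc hB hI 0 = 1 := cc_zero hB hI
  have k2 : cc hB hI 2 = (q1 : ℂ) • rcl hE ^ 2 := by
    rw [← rcl_cfr hB hI (fun y i j => Complex.ofReal_im _) 2, ← rcl_pow hE, ← rcl_smul q1 (hE.pow 2)]
    exact rcl_congr _ _ h2
  have k4 : cc hB hI 4 = (q2 : ℂ) • rcl hE ^ 4 + (c : ℂ) • rcl s0 := by
    rw [← rcl_cfr hB hI (fun y i j => Complex.ofReal_im _) 4, ← rcl_pow hE,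
      ← rcl_smul q2 (hE.pow 4), ← rcl_smul c s0, ← rcl_add u4a u4b]
    exact rcl_congr _ _ h4
  have k6 : cc hB hI 6 = (α : ℂ) • rcl hE ^ 6 + (β : ℂ) • (rcl s0 * rcl hE ^ 2) := by
    rw [← rcl_cfr hB hI (fun y i j => Complex.ofReal_im _) 6, ← rcl_pow hE, ← rcl_pow hE,
      ← rcl_mul s0 (hE.pow 2),
      ← rcl_smul α (hE.pow 6), ← rcl_smul β (s0.mul (hE.pow 2)), ← rcl_add u6a u6b]
    exact rcl_congr _ _ h6
  rw [rcl_topr hB hP hE, rcl_add v1 v2, rcl_smul _ (hE.pow 7), rcl_smul _ (s0.mul (hE.pow 3)),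
    rcl_mul s0 (hE.pow 3), rcl_pow hE, rcl_pow hE]
  simp only [show (7 / 2 + 1 : ℕ) = 4 from rfl, Finset.sum_range_succ, Finset.sum_range_zero,
    zero_add, Nat.mul_zero, Nat.mul_one, Nat.sub_zero, k0, show 2 * 1 = 2 from rfl,
    show 2 * 2 = 4 from rfl, show 2 * 3 = 6 from rfl, k2, k4, k6, show 7 - 2 = 5 from rfl,
    show 7 - 4 = 3 from rfl, show 7 - 6 = 1 from rfl, pow_one]
  generalize rcl hE = e
  generalize rcl s0 = y
  have m2 : (q1 : ℂ) • e ^ 2 * e ^ 5 = (q1 : ℂ) • e ^ 7 := by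
    rw [smul_mul_assoc, ← pow_add]
  have m4 : ((q2 : ℂ) • e ^ 4 + (c : ℂ) • y) * e ^ 3 = (q2 : ℂ) • e ^ 7 + (c : ℂ) • (y * e ^ 3) := by
    rw [add_mul, smul_mul_assoc, smul_mul_assoc, ← pow_add]
  have m6 : ((α : ℂ) • e ^ 6 + (β : ℂ) • (y * e ^ 2)) * e
      = (α : ℂ) • e ^ 7 + (β : ℂ) • (y * e ^ 3) := by
    rw [add_mul, smul_mul_assoc, smul_mul_assoc, ← pow_succ, mul_assoc, ← pow_succ]
  rw [m2, m4, m6, one_mul]
  push_cast
  module

end fin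

end Crest.Agent.R208.EW
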