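import Crest.Agent.R208.T2b
import Crest.Agent.R208.T3a

/-! Row 208, block T (helper316).  TX1: push forward of compactly supported forms on `Tot X P` and
of closed forms on `Sph X P`; Thom injectivity. -/

set_option autoImplicit false
set_option linter.unusedSectionVars false

open MeasureTheory Set Filter Topology Module
open scoped ContDiff
open Crest.Agent.R208.F Crest.Agent.R208.FI Crest.Agent.R208.CW

noncomputable section

namespace Crest.Agent.R208.T

universe u w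

theorem inv_deg {E : Type*} [NormedAddCommGroup E] [NormedSpace ℝ E] [FiniteDimensional ℝ E]
    {c : Ext E} {p : ℕ} (h : IsDeg p c) : F.inv c = (-1 : ℝ) ^ p • c := by
  rw [← sub_eq_zero]
  refine eq_zero_of_evA fun q => ?_
  rw [map_sub, evA_inv, map_smul]
  by_cases hq : q = p
  · rw [hq, sub_self]
  · rw [h q hq, smul_zero, smul_zero, sub_zero]

variable {E : Type u} {H : Type w} [NormedAddCommGroup E] [NormedSpace ℝ E] [FiniteDimensional ℝ E]
  [NormedAddCommGroup H] [InnerProductSpace ℝ H] [FiniteDimensional ℝ H]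
  {X : Set E} {P : E → H →L[ℝ] H} {r d : ℕ} {R c₀ : ℝ} {e : E → Ext E}
  {τ τ' om om' a b : E × H → Ext (E × H)}

theorem Hom.inv {E : Type*} [NormedAddCommGroup E] [NormedSpace ℝ E] [FiniteDimensional ℝ E]
    {a : E → Ext E} {j : ℕ} (h : Hom j a) : (fun x => F.inv (a x)) = (-1 : ℝ) ^ j • a :=
  funext fun x => inv_deg (h x)

/-- product of a homogeneous form and an exact form -/
theorem Coh.d_zero {E : Type*} [NormedAddCommGroup E] [NormedSpace ℝ E] [FiniteDimensional ℝ E]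
    {X : Set E} {a : E → Ext E} (h : Sm X a) : Coh X (F.d a) 0 :=
  ⟨a, h, by rw [sub_zero]; exact Eqv.refl _⟩

variable [MeasurableSpace H] [BorelSpace H] (μ : Measure H) [μ.IsAddHaarMeasure]

/-- push forward (fibre integral) of forms with compact support in the fibres -/
def pT (P : E → H →L[ℝ] H) (τ' om : E × H → Ext (E × H)) : E → Ext E := pI μ (thE' P τ' om)

theorem thE'_sub (a b : E × H → Ext (E × H)) :
    thE' P τ' (a - b) = thE' P τ' a - thE' P τ' b := by
  rw [thE', thE', thE', pull_sub', mul_sub]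

theorem thE'_smul (t : ℝ) (a : E × H → Ext (E × H)) : thE' P τ' (t • a) = t • thE' P τ' a := by
  rw [thE', thE', pull_smul', mul_smul_comm]

theorem pI_smul' (t : ℝ) (a : E × H → Ext (E × H)) : pI μ (t • a) = t • pI μ a := by
  funext x
  rw [Pi.smul_apply, pI_eq, pI_eq, ← integral_smul]
  congr 1
  funext h
  exact map_smul _ t (a (x, h))

theorem pT_smul (t : ℝ) (a : E × H → Ext (E × H)) : pT μ P τ' (t • a) = t • pT μ P τ' a := by
  rw [pT, pT, thE'_smul, pI_smul']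

theorem hom_pT {j : ℕ} (hr : r ≤ finrank ℝ H) (hd' : ∀ z, IsDeg (finrank ℝ H - r) (τ' z))
    (h : Hom (j + r) om) : Hom j (pT μ P τ' om) := by
  intro x
  refine isDeg_pI μ (fun z => ?_) x
  have h1 := isDeg_mul ((hd' (gam P z)).pb (fderiv ℝ (gam P) z : E × H →ₗ[ℝ] E × H))
    ((h (nbet P z)).pb (fderiv ℝ (nbet P) z : E × H →ₗ[ℝ] E × H))
  rwa [show finrank ℝ H - r + (j + r) = j + finrank ℝ H by omega] at h1

theorem pT_eq_zero {j : ℕ} (hr : r ≤ finrank ℝ H) (hd' : ∀ z, IsDeg (finrank ℝ H - r) (τ' z))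
    (h : Hom j om) (hj : j < r) : pT μ P τ' om = 0 := by
  funext x
  refine pI_eq_zero μ (p := (finrank ℝ H - r) + j) (fun z => ?_) (by omega) x
  exact isDeg_mul ((hd' _).pb _) ((h _).pb _)

theorem sm_pT (hP : PField X r P) (hc' : CSF X (fun x => 1 - P x) R τ') (hs : Sm (Tot X P) om)
    (hv : Vt R om) : Sm X (pT μ P τ' om) :=
  sm_pI μ (vt_eta' hc'.supp hv) (sm_eta' hP hc'.smooth hs)

theorem pT_sub (hP : PField X r P) (hc' : CSF X (fun x => 1 - P x) R τ') (hs : Sm (Tot X P) om)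
    (hv : Vt R om) (hs' : Sm (Tot X P) om') (hv' : Vt R om') :
    Eqv X (pT μ P τ' (om - om')) (pT μ P τ' om - pT μ P τ' om') := by
  refine Eqv.of_eq fun x hx => ?_
  rw [pT, thE'_sub]
  exact pI_sub μ (vt_eta' hc'.supp hv) (sm_eta' hP hc'.smooth hs) (vt_eta' hc'.supp hv')
    (sm_eta' hP hc'.smooth hs') hx

theorem pT_eqv (hP : PField X r P) (hc' : CSF X (fun x => 1 - P x) R τ') (hs : Sm (Tot X P) om)
    (hv : Vt R om) (hs' : Sm (Tot X P) om') (hv' : Vt R om') (h : Eqv (Tot X P) om om') :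
    Eqv X (pT μ P τ' om) (pT μ P τ' om') :=
  eqv_pI μ (vt_eta' hc'.supp hv) (sm_eta' hP hc'.smooth hs) (vt_eta' hc'.supp hv')
    (sm_eta' hP hc'.smooth hs') ((Eqv.refl _).mul (h.pull (smap_nbet hP)))

/-- projection formula -/
theorem pT_mul (hP : PField X r P) (hc' : CSF X (fun x => 1 - P x) R τ') (hs : Sm (Tot X P) om)
    (hv : Vt R om) (β : E → Ext E) :
    Eqv X (pT μ P τ' (om * F.pull Prod.fst β)) (pT μ P τ' om * β) := by
  refine Eqv.of_eq fun x hx => ?_
  have h1 : ∀ h : H, thE' P τ' (om * F.pull Prod.fst β) (x, h) =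
      (thE' P τ' om * F.pull (Prod.fst : E × H → E) β) (x, h) := fun h => by
    have hz : ((x, h) : E × H) ∈ X ×ˢ (univ : Set H) := ⟨hx, mem_univ _⟩
    have h2 : F.pull (nbet P) (F.pull (Prod.fst : E × H → E) β) (x, h) =
        F.pull (fun z => (nbet P z).1) β (x, h) :=
      F.pull_comp ((smap_nbet hP).diff hz) differentiableAt_fst
    have h3 : (fun z : E × H => (nbet P z).1) = Prod.fst := rfl
    rw [h3] at h2
    rw [thE', thE', pull_mul', Pi.mul_apply, Pi.mul_apply, Pi.mul_apply, Pi.mul_apply, h2, mul_assoc]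
  have h4 : pI μ (thE' P τ' (om * F.pull Prod.fst β)) x =
      pI μ (thE' P τ' om * F.pull (Prod.fst : E × H → E) β) x := by
    rw [pI_eq, pI_eq]
    simp only [h1]
  rw [pT, h4]
  exact pI_mul_fst μ (vt_eta' hc'.supp hv) (sm_eta' hP hc'.smooth hs) hx β

/-- `d` commutes with the push forward up to sign -/
theorem pT_d (hP : PField X r P) (hX : Sub d X) (hc' : CSF X (fun x => 1 - P x) R τ')
    (hd' : ∀ z, IsDeg (finrank ℝ H - r) (τ' z)) (hs : Sm (Tot X P) om) (hv : Vt R om) :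
    Eqv X (pT μ P τ' (F.d om))
      (((-1 : ℝ) ^ (finrank ℝ H - r) * (-1 : ℝ) ^ finrank ℝ H) • F.d (pT μ P τ' om)) := by
  set N := finrank ℝ H with hN
  have hXH : Sub (d + N) (X ×ˢ (univ : Set H)) := hX.prod (sub_open rfl isOpen_univ)
  have s1 := sm_eta' (om := om) hP hc'.smooth hs
  have v1 : Vt (2 * R) (thE' P τ' om) := vt_eta' hc'.supp hv
  have s2 := sm_eta' (om := F.d om) hP hc'.smooth hs.d
  have v2 : Vt (2 * R) (thE' P τ' (F.d om)) := vt_eta' hc'.supp hv.d
  have hg : Hom (N - r) (F.pull (gam P) τ') := Hom.pull (w := τ') hd'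
  have e1 : Eqv (X ×ˢ (univ : Set H)) (F.d (thE' P τ' om))
      ((-1 : ℝ) ^ (N - r) • thE' P τ' (F.d om)) := by
    have a1 := d_mul_eqv (hc'.smooth.pull (smap_gam hP)) (hs.pull (smap_nbet hP))
    have a2 : Eqv (X ×ˢ (univ : Set H)) (F.d (F.pull (gam P) τ')) 0 :=
      resZero_iff.1 (hc'.closed.pull (smap_gam hP) hc'.smooth)
    have a3 := d_pull_eqv (smap_nbet hP) hs
    refine a1.trans ?_
    have a4 := (a2.mul (Eqv.refl (F.pull (nbet P) om))).add
      ((Eqv.refl (fun x => F.inv (F.pull (gam P) τ' x))).mul a3)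
    rw [zero_mul, zero_add] at a4
    refine a4.trans ?_
    rw [hg.inv, smul_mul_assoc]
    exact Eqv.refl _
  have e2 : Eqv (X ×ˢ (univ : Set H)) (thE' P τ' (F.d om))
      ((-1 : ℝ) ^ (N - r) • F.d (thE' P τ' om)) := by
    have := (e1.smul ((-1 : ℝ) ^ (N - r))).symm
    rwa [smul_smul, ← mul_pow, neg_one_mul, neg_neg, one_pow, one_smul] at this
  have e3 := eqv_pI μ v2 s2 (v1.d.smul _) (s1.d.smul _) e2
  refine e3.trans (Eqv.of_eq fun x hx => ?_)
  rw [pI_smul', Pi.smul_apply, d_pI μ v1 s1 hx, smul_smul]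
  rfl

/-- the push forward of an exact form is exact -/
theorem pT_exact (hP : PField X r P) (hX : Sub d X) (hc' : CSF X (fun x => 1 - P x) R τ')
    (hd' : ∀ z, IsDeg (finrank ℝ H - r) (τ' z)) (hs : Sm (Tot X P) om) (hv : Vt R om)
    (hs' : Sm (Tot X P) om') (hv' : Vt R om') (h : Eqv (Tot X P) om' (F.d om)) :
    Coh X (pT μ P τ' om') 0 := by
  refine ⟨((-1 : ℝ) ^ (finrank ℝ H - r) * (-1 : ℝ) ^ finrank ℝ H) • pT μ P τ' om,
    (sm_pT μ hP hc' hs hv).smul _, ?_⟩
  rw [sub_zero]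
  exact (pT_eqv μ hP hc' hs' hv' hs.d hv.d h).trans ((pT_d μ hP hX hc' hd' hs hv).trans
    (d_smul_eqv _ (sm_pT μ hP hc' hs hv)).symm)

theorem Eqv.algebraMap_mul {E : Type*} [NormedAddCommGroup E] [NormedSpace ℝ E]
    [FiniteDimensional ℝ E] {X : Set E} {c' : E → Ext E} {c : ℝ}
    (h : ∀ x ∈ X, c' x = algebraMap ℝ (Ext E) c) (a : E → Ext E) : Eqv X (c' * a) (c • a) :=
  Eqv.of_eq fun x hx => by rw [Pi.mul_apply, h x hx, Pi.smul_apply, Algebra.smul_def]

set_option maxHeartbeats 1000000 in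
/-- **Thom injectivity**: `κ` an angular form on the sphere bundle (`dκ = e'`), `h` closed with
`e' h = dη`; if the closed form `κ h - η` is exact on the sphere bundle, then `h` is exact. -/
theorem thom_inj (hX : Sub d X) (hXc : IsPreconnected X) (hP : PField X r P)
    (hrN : r ≤ finrank ℝ H) (hT : ThomPair μ X P r R c₀ e τ τ') {q : ℕ} (hq : q + 1 = r)
    {κ : E × H → Ext (E × H)} {e' h η : E → Ext E} (sκ : Sm (Sph X P) κ) (dκ : Hom q κ)
    (se' : Sm X e') (ce' : Cl X e') (de' : Hom r e')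
    (hκ : Eqv (Sph X P) (F.d κ) (F.pull Prod.fst e')) (hne : ¬ Coh X e' 0)
    (sh : Sm X h) (ch : Cl X h) (sη : Sm X η) (hη : Eqv X (F.d η) (e' * h))
    (hex : Coh (Sph X P) (κ * F.pull Prod.fst h - F.pull Prod.fst η) 0) : Coh X h 0 := by
  obtain ⟨ν, sν, eν⟩ := hex
  rw [sub_zero] at eν
  have hsub : Sub (d + r) (Tot X P) := hP.sub_tot hX
  have se1 : Sm (Tot X P) (F.pull Prod.fst e') := se'.pull smap_fst'
  have sh1 : Sm (Tot X P) (F.pull Prod.fst h) := sh.pull smap_fst'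
  have sη1 : Sm (Tot X P) (F.pull Prod.fst η) := sη.pull smap_fst'
  have ce1 : Cl (Tot X P) (F.pull Prod.fst e') := ce'.pull smap_fst' se'
  have ch1 : Cl (Tot X P) (F.pull Prod.fst h) := ch.pull smap_fst' sh
  -- the Thom form
  set ζ := F.pull (Prod.fst : E × H → E) e' - F.d (rx κ) with hζ
  have sζ : Sm (Tot X P) ζ := se1.sub (sκ.rx).d
  have cζ : Cl (Tot X P) ζ := Cl.sub se1 (sκ.rx).d ce1 (d_d' sκ.rx)
  have hfs : SMap (Tot X P ∩ {z | 1 < ‖z.2‖}) X (Prod.fst : E × H → E) :=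
    ⟨fun _ _ => contDiffAt_fst, fun _ hz => hz.1.1⟩
  have prh : ∀ β : E → Ext E, Eqv (Tot X P ∩ {z | 1 < ‖z.2‖})
      (F.pull rh (F.pull (Prod.fst : E × H → E) β)) (F.pull Prod.fst β) := fun β =>
    eqv_pull_pull smap_rh' smap_fstS hfs (fun _ _ => rfl) β
  have e0 : Eqv (Tot X P ∩ {z | 1 < ‖z.2‖}) ζ 0 := by
    have h1 : Eqv (Tot X P ∩ {z | 1 < ‖z.2‖}) (F.d (rx κ)) (F.pull Prod.fst e') :=
      (d_rx sκ).trans ((Eqv.pull (smap_rh') hκ).trans (prh e'))
    have := (Eqv.refl (X := Tot X P ∩ {z | 1 < ‖z.2‖}) (F.pull (Prod.fst : E × H → E) e')).sub h1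
    rwa [sub_self] at this
  set R' := max R 2 with hR'
  have hR0 : 0 ≤ R' := le_trans (by norm_num) (le_max_right R 2)
  have h2R : (1 : ℝ) + 1 ≤ R' := by rw [hR']; norm_num
  have hT' := hT.mono (le_max_left R 2)
  set om := cutH 1 ζ with hom
  have hom2 : CSF X P R' om := (csf_cutH hX hP zero_le_one sζ cζ e0).mono h2R
  have he : Eqv (Tot X P) om ζ := eqv_cutH' zero_le_one e0
  have hdom : Hom (0 + r) om := by
    refine Hom.cutH (Hom.sub ?_ ?_)
    · rw [zero_add]; exact Hom.pull de'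
    · have := Hom.d (Hom.rx dκ)
      rwa [hq, ← zero_add r] at this
  obtain ⟨sc, cc, L, sL, -, eL⟩ := thom μ hX hP hT' hR0 hom2
  set c' := pI μ (thE' P τ' om) with hc'
  have dc' : Hom 0 c' := hom_pT μ hrN hT.deg' hdom
  obtain ⟨c, hc⟩ := const_of_closed hX hXc sc cc dc'
  -- restriction to the zero section
  have hc0 : c ≠ 0 := by
    intro hcz
    have k1 : Coh (Tot X P) (c₀ • om) (F.pull Prod.fst c' * τ) := ⟨L, sL, eL⟩
    have k2 := k1.pull (smap_zs (X := X) (P := P))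
    rw [pull_smul', pull_mul'] at k2
    have k3 : Eqv X (F.pull zs om) e' := by
      refine (Eqv.pull smap_zs he).trans ?_
      rw [hζ, pull_sub']
      have h1 : Eqv X (F.pull zs (F.d (rx κ))) 0 := Eqv.of_eq fun x _ => by
        refine pull_of_zero ?_
        have : rx κ =ᶠ[𝓝 (zs (E := E) (H := H) x)] fun _ => 0 :=
          rx_near_zero κ (by rw [zs]; simp)
        rw [F.d_congr this, F.d_const]
      have h2 : Eqv X (F.pull zs (F.pull (Prod.fst : E × H → E) e')) e' :=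
        (eqv_pull_pull smap_zs (smap_fst' (X := X) (P := P)) (SMap.id X) (fun _ _ => rfl) e').trans
          (Eqv.of_eq fun x _ => F.pull_id e' x)
      have := h2.sub h1
      rwa [sub_zero] at this
    have k4 : Eqv X (F.pull zs (F.pull (Prod.fst : E × H → E) c')) c' :=
      (eqv_pull_pull smap_zs (smap_fst' (X := X) (P := P)) (SMap.id X) (fun _ _ => rfl) c').trans
        (Eqv.of_eq fun x _ => F.pull_id c' x)
    have k5 : Coh X (c₀ • e') (c' * F.pull zs τ) :=
      (Coh.of_eqv (k3.smul c₀).symm).trans (k2.trans (Coh.of_eqv (k4.mul (Eqv.refl _))))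
    have k6 := (k5.trans (Coh.of_eqv (Eqv.algebraMap_mul hc _))).smul c₀⁻¹
    rw [smul_smul, inv_mul_cancel₀ hT.ne, one_smul, hcz, zero_smul, smul_zero] at k6
    exact hne k6
  -- the primitive
  set L' := rx κ * F.pull (Prod.fst : E × H → E) h - F.pull (Prod.fst : E × H → E) η
    - F.d (rx ν) with hL'
  have sL' : Sm (Tot X P) L' := ((sκ.rx.mul sh1).sub sη1).sub sν.rx.d
  have l0 : Eqv (Tot X P ∩ {z | 1 < ‖z.2‖}) L' 0 := by
    have h1 : Eqv (Tot X P ∩ {z | 1 < ‖z.2‖}) (rx κ) (F.pull rh κ) :=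
      Eqv.of_eq fun z hz => (rx_near_out κ hz.2).eq_of_nhds
    have h2 : Eqv (Tot X P ∩ {z | 1 < ‖z.2‖})
        (rx κ * F.pull (Prod.fst : E × H → E) h - F.pull (Prod.fst : E × H → E) η)
        (F.pull rh (κ * F.pull Prod.fst h - F.pull Prod.fst η)) := by
      rw [pull_sub', pull_mul']
      exact (h1.mul (prh h).symm).sub (prh η).symm
    have h3 : Eqv (Tot X P ∩ {z | 1 < ‖z.2‖})
        (rx κ * F.pull (Prod.fst : E × H → E) h - F.pull (Prod.fst : E × H → E) η)
        (F.d (rx ν)) :=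
      h2.trans ((Eqv.pull smap_rh' eν).trans (d_rx sν).symm)
    have := h3.sub (Eqv.refl (F.d (rx ν)))
    rwa [sub_self] at this
  set L1 := cutH 1 L' with hL1
  have sL1 : Sm (Tot X P) L1 := sL'.cutH
  have eL1 : Eqv (Tot X P) L1 L' := eqv_cutH' zero_le_one l0
  have vL1 : Vt R' L1 := (Vt.cutH zero_le_one).mono h2R
  -- `dL' = - ζ h`
  have e1 : Eqv (Tot X P) (F.d L1) (-(om * F.pull Prod.fst h)) := by
    refine (eL1.d hsub sL1 sL').trans ?_
    have a1 := d_sub_eqv ((sκ.rx.mul sh1).sub sη1) sν.rx.d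
    have a2 := d_sub_eqv (sκ.rx.mul sh1) sη1
    have a3 := d_mul_eqv sκ.rx sh1
    have a4 : Eqv (Tot X P) (F.d (F.pull (Prod.fst : E × H → E) h)) 0 := resZero_iff.1 ch1
    have a5 : Eqv (Tot X P) (F.d (F.d (rx ν))) 0 := resZero_iff.1 (d_d' sν.rx)
    have a6 : Eqv (Tot X P) (F.d (F.pull (Prod.fst : E × H → E) η))
        (F.pull Prod.fst e' * F.pull Prod.fst h) := by
      refine (d_pull_eqv smap_fst' sη).trans ?_
      rw [← pull_mul']
      exact hη.pull smap_fst'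
    have a7 := ((Eqv.refl (F.d (rx κ) * F.pull (Prod.fst : E × H → E) h)).add
      ((Eqv.refl (fun x => F.inv (rx κ x))).mul a4))
    rw [mul_zero, add_zero] at a7
    have a8 := ((a3.trans a7).sub a6)
    have a9 := (a1.trans ((a2.trans a8).sub a5))
    rw [sub_zero] at a9
    refine a9.trans ?_
    have b1 : Eqv (Tot X P) (-(om * F.pull Prod.fst h)) (-(ζ * F.pull Prod.fst h)) :=
      (he.mul (Eqv.refl _)).neg
    refine Eqv.trans ?_ b1.symm
    rw [hζ, sub_mul, neg_sub]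
    exact Eqv.refl _
  have e2 : Eqv (Tot X P) (om * F.pull Prod.fst h) (F.d (-L1)) := by
    rw [d_neg']
    have := e1.neg
    rw [neg_neg] at this
    exact this.symm
  have vL1' : Vt R' (-L1) := fun z hz => by rw [Pi.neg_apply, vL1 z hz, neg_zero]
  have vo : Vt R' om := hom2.supp
  have e3 : Coh X (pT μ P τ' (om * F.pull Prod.fst h)) 0 :=
    pT_exact μ hP hX hT'.csf' hT.deg' sL1.neg vL1' (hom2.smooth.mul sh1) (vo.mul_right _) e2
  have e4 := (Coh.of_eqv (pT_mul μ hP hT'.csf' hom2.smooth vo h)).symm.trans e3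
  have e5 := ((Coh.of_eqv (Eqv.algebraMap_mul hc h)).symm.trans e4).smul c⁻¹
  rwa [smul_smul, inv_mul_cancel₀ hc0, one_smul, smul_zero] at e5

end Crest.Agent.R208.T
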