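import Crest.Agent.R208.VC6
import Crest.Agent.R208.TX1

/-!
R208, block EX (helper530), part EX1: connections, and the explicit basic primitive of the
difference of the forms `vv` for two connections.
-/

set_option autoImplicit false
set_option linter.unusedSectionVars false
set_option linter.unusedVariables false

open MeasureTheory Set Filter Topology Module
open scoped ContDiff
open Crest.Agent.R208.F Crest.Agent.R208.FI Crest.Agent.R208.CW Crest.Agent.R208.T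
open Crest.Agent.R208.CM (Cir gen)
open Crest.Agent.R208.VC

noncomputable section

namespace Crest.Agent.R208.EX

universe u v
variable {E : Type u} [NormedAddCommGroup E] [NormedSpace ℝ E] [FiniteDimensional ℝ E]
  {F' : Type v} [NormedAddCommGroup F'] [NormedSpace ℝ F'] [FiniteDimensional ℝ F']
  {m : ℕ} {X : Set E} {φ : ℝ → E → E} {a b c e e1 β θ θ' : E → Ext E} {x : E}

/-! ### connections -/

/-- connection form (of an action which need not be free) -/
structure Cn (X : Set E) (φ : ℝ → E → E) (θ : E → Ext E) : Prop where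
  sm : Sm X θ
  hom : Hom 1 θ
  unit : ∀ x ∈ X, ii (gen φ x) (θ x) = 1
  inv : Inv X φ θ

theorem Cn.mono {X' : Set E} (h : Cn X φ θ) (hs : X' ⊆ X) : Cn X' φ θ :=
  ⟨h.sm.mono hs, h.hom, fun x hx => h.unit x (hs hx), fun t => (h.inv t).mono_tan hs⟩

theorem inv_of_hom2 (h : Hom 2 a) (x : E) : F.inv (a x) = a x := by
  rw [inv_deg (h x)]; norm_num

theorem inv_of_hom1 (h : Hom 1 a) (x : E) : F.inv (a x) = - a x := by
  rw [inv_deg (h x)]; norm_num

theorem Inv.d' (h : Act X φ) (hX : Sub m X) (ha : Sm X a) (hi : Inv X φ a) : Inv X φ (F.d a) :=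
  fun t => ((d_pull_eqv (smap h t) ha).symm.trans
    (Eqv.d hX (ha.pull (smap h t)) ha (hi t)))

theorem Cn.bas (h : Act X φ) (hX : Sub m X) (hθ : Cn X φ θ) : Bas X φ (F.d θ) where
  sm := hθ.sm.d
  cl := d_d' hθ.sm
  ev := fun x _ => inv_of_hom2 hθ.hom.d x
  inv := Inv.d' h hX hθ.sm hθ.inv
  hz := by
    have h1 := Inv.d_iV h hX hθ.sm hθ.inv
    have h2 : Eqv X (iV φ θ) 1 := Eqv.of_eq fun x hx => hθ.unit x hx
    have h3 := h2.d hX (Sm.iV h hθ.sm) (b := (1 : E → Ext E)) (fun _ _ => contDiffAt_const)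
    have h4 : F.d (1 : E → Ext E) = 0 := funext fun x => F.d_const 1 x
    rw [h4] at h3
    have h5 := h1.symm.trans h3
    have h6 := h5.neg
    rw [neg_neg, neg_zero] at h6
    exact h6

theorem Cn.pull {X' : Set F'} {φ' : ℝ → F' → F'} {g : F' → E} (h : Act X φ) (h' : Act X' φ')
    (hg : SMap X' X g) (heq : ∀ t, ∀ y ∈ X', g (φ' t y) = φ t (g y)) (hθ : Cn X φ θ) :
    Cn X' φ' (F.pull g θ) where
  sm := hθ.sm.pull hg
  hom := hθ.hom.pull
  unit := fun y hy => by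
    rw [F.pull, ii_pb]
    have h1 := fderiv_gen_eq h h' hg heq hy
    have h2 : ((fderiv ℝ g y : F' →L[ℝ] E) : F' →ₗ[ℝ] E) (gen φ' y) = gen φ (g y) := h1
    rw [h2, hθ.unit _ (hg.maps hy), map_one]
  inv := Inv.pull h h' hg heq hθ.inv

/-- the difference of two connections is horizontal and invariant -/
theorem Cn.sub_hz (hθ : Cn X φ θ) (hθ' : Cn X φ θ') : Hz X φ (θ - θ') :=
  Eqv.of_eq fun x hx => by
    change ii (gen φ x) (θ x - θ' x) = 0
    rw [map_sub, hθ.unit x hx, hθ'.unit x hx, sub_self]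

theorem Cn.sub_inv (hθ : Cn X φ θ) (hθ' : Cn X φ θ') : Inv X φ (θ - θ') := hθ.inv.sub hθ'.inv

/-! ### the divided differences -/

theorem Bas.add (h : Bas X φ e) (h' : Bas X φ e1) : Bas X φ (e + e1) where
  sm := h.sm.add h'.sm
  cl := Cl.add h.sm h'.sm h.cl h'.cl
  ev := fun x hx => by rw [Pi.add_apply, map_add, h.ev x hx, h'.ev x hx]
  inv := h.inv.add h'.inv
  hz := h.hz.add h'.hz

theorem Bas.zero : Bas X φ (0 : E → Ext E) where
  sm := Sm.zero
  cl := fun x _ => by rw [d_zero', Pi.zero_apply, map_zero]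
  ev := fun x _ => map_zero _
  inv := fun t => by rw [pull_zero']; exact Eqv.refl _
  hz := Eqv.of_eq fun x _ => map_zero _

/-- `(e^n - e1^n) / (e - e1)` -/
def Qn (e e1 : E → Ext E) : ℕ → E → Ext E
  | 0 => 0
  | n + 1 => e ^ n + Qn e e1 n * e1

theorem bas_Qn (h : Bas X φ e) (h' : Bas X φ e1) (n : ℕ) : Bas X φ (Qn e e1 n) := by
  induction n with
  | zero => exact Bas.zero
  | succ n ih => exact Bas.add (h.pow n) (ih.mul h')

theorem mul_Qn (h : Bas X φ e) (h' : Bas X φ e1) (n : ℕ) :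
    Eqv X ((e - e1) * Qn e e1 n) (e ^ n - e1 ^ n) := by
  refine Eqv.of_eq fun x hx => ?_
  induction n with
  | zero =>
    change (e x - e1 x) * 0 = e x ^ 0 - e1 x ^ 0
    rw [mul_zero, pow_zero, pow_zero, sub_self]
  | succ n ih =>
    change (e x - e1 x) * (e x ^ n + Qn e e1 n x * e1 x) = e x ^ (n + 1) - e1 x ^ (n + 1)
    have ih' : (e x - e1 x) * Qn e e1 n x = e x ^ n - e1 x ^ n := ih
    have h1 : e1 x * e x ^ n = e x ^ n * e1 x := even_comm (h'.ev x hx) _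
    rw [mul_add, ← mul_assoc, ih', sub_mul, sub_mul, h1, pow_succ', pow_succ]
    abel

theorem nat_Qn (g : F' → E) (e e1 : E → Ext E) (n : ℕ) :
    F.pull g (Qn e e1 n) = Qn (F.pull g e) (F.pull g e1) n := by
  induction n with
  | zero => exact pull_zero' g
  | succ n ih =>
    change F.pull g (e ^ n + Qn e e1 n * e1) = F.pull g e ^ n + Qn (F.pull g e) (F.pull g e1) n * _
    rw [pull_add', pull_mul', VC.pull_pow', ih]

theorem eqv_pow (h : Eqv X a b) (n : ℕ) : Eqv X (a ^ n) (b ^ n) := by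
  induction n with
  | zero => rw [pow_zero, pow_zero]; exact Eqv.refl _
  | succ n ih => rw [pow_succ, pow_succ]; exact ih.mul h

theorem eqv_Qn {e' e1' : E → Ext E} (h : Eqv X e e') (h' : Eqv X e1 e1') (n : ℕ) :
    Eqv X (Qn e e1 n) (Qn e' e1' n) := by
  induction n with
  | zero => exact Eqv.refl _
  | succ n ih => exact (eqv_pow h n).add (ih.mul h')

/-- `d (β Q c) = (e^n - e1^n) c` if `dβ = e - e1` and `c` is closed -/
theorem d_prim (h : Bas X φ e) (h' : Bas X φ e1) (hβ : Sm X β) (hdβ : Eqv X (F.d β) (e - e1))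
    (hc : Sm X c) (hcc : Cl X c) (n : ℕ) :
    Eqv X (F.d (β * (Qn e e1 n * c))) (e ^ n * c - e1 ^ n * c) := by
  have hQ := bas_Qn h h' n
  have h1 := d_mul_eqv hβ (hQ.sm.mul hc)
  have h2 : Eqv X (F.d (Qn e e1 n * c)) 0 := resZero_iff.1 (Cl.mul hQ.sm hc hQ.cl hcc)
  refine h1.trans ?_
  have h3 := (hdβ.mul (Eqv.refl (Qn e e1 n * c))).add
    ((Eqv.refl (fun x => F.inv (β x))).mul h2)
  refine h3.trans ?_
  rw [mul_zero, add_zero, ← mul_assoc, ← sub_mul]
  exact (mul_Qn h h' n).mul (Eqv.refl c)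

/-- the primitive of the change of connection -/
def cor (e e1 β : E → Ext E) (p q : ℕ) (r s : ℝ) (A ξ : E → Ext E) : E → Ext E :=
  -(r • (β * (Qn e e1 p * ξ))) - s • (β * (Qn e e1 q * (A * ξ)))

variable {p q : ℕ} {r s : ℝ}

theorem sm_cor (h : Act X φ) (he : Bas X φ e) (he1 : Bas X φ e1) (hβ : Sm X β) (hb : Dat X b) :
    Sm X (cor e e1 β p q r s (Av φ b) (xi φ b)) :=
  ((hβ.mul ((bas_Qn he he1 p).sm.mul (sm_xi h hb.sm))).smul r).neg.sub
    ((hβ.mul ((bas_Qn he he1 q).sm.mul ((sm_Av h hb.sm).mul (sm_xi h hb.sm)))).smul s)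

theorem d_cor (h : Act X φ) (hX : Sub m X) (he : Bas X φ e) (he1 : Bas X φ e1) (hβ : Sm X β)
    (hdβ : Eqv X (F.d β) (e - e1)) (hb : Dat X b) :
    Eqv X (F.d (cor e e1 β p q r s (Av φ b) (xi φ b)))
      (vv φ e p q r s b - vv φ e1 p q r s b) := by
  have s1 := hβ.mul ((bas_Qn he he1 p).sm.mul (sm_xi h hb.sm))
  have s2 := hβ.mul ((bas_Qn he he1 q).sm.mul ((sm_Av h hb.sm).mul (sm_xi h hb.sm)))
  have h1 := d_prim he he1 hβ hdβ (sm_xi h hb.sm) (cl_xi h hX hb.sm hb.cl) p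
  have h2 := d_prim he he1 hβ hdβ ((sm_Av h hb.sm).mul (sm_xi h hb.sm))
    (cl_Av_xi h hX hb.sm hb.cl) q
  have h3 := d_sub_eqv (s1.smul r).neg (s2.smul s)
  have h4 : Eqv X (F.d (-(r • (β * (Qn e e1 p * xi φ b)))))
      (-(r • (e ^ p * xi φ b - e1 ^ p * xi φ b))) := by
    rw [d_neg']
    exact ((d_smul_eqv r s1).trans (h1.smul r)).neg
  have h5 := (d_smul_eqv s s2).trans (h2.smul s)
  refine h3.trans ((h4.sub h5).trans (Eqv.of_eq fun x _ => ?_))
  simp only [vv, Pi.sub_apply, Pi.neg_apply, Pi.smul_apply]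
  module

theorem hz_cor (h : Act X φ) (he : Bas X φ e) (he1 : Bas X φ e1) (hβ : Hz X φ β) (hb : Dat X b) :
    Hz X φ (cor e e1 β p q r s (Av φ b) (xi φ b)) :=
  ((hβ.mul ((bas_Qn he he1 p).hz.mul (hz_xi φ b))).smul r).neg.sub
    ((hβ.mul ((bas_Qn he he1 q).hz.mul (hz_Av_xi h hb.sm hb.ev))).smul s)

theorem Inv.neg {a : E → Ext E} (ha : Inv X φ a) : Inv X φ (-a) := fun t => by
  rw [pull_neg']; exact (ha t).neg

theorem inv_cor (h : Act X φ) (he : Bas X φ e) (he1 : Bas X φ e1) (hβ : Inv X φ β) (hb : Dat X b) :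
    Inv X φ (cor e e1 β p q r s (Av φ b) (xi φ b)) :=
  (Inv.neg ((hβ.mul ((bas_Qn he he1 p).inv.mul (inv_xi h hb.sm))).smul r)).sub
    ((hβ.mul ((bas_Qn he he1 q).inv.mul ((inv_Av h hb.sm).mul (inv_xi h hb.sm)))).smul s)

theorem rs_cor_eq_zero {ξ A : E → Ext E} (h0 : rsL X x (ξ x) = 0) :
    rsL X x (cor e e1 β p q r s A ξ x) = 0 := by
  rw [rsL_apply] at h0 ⊢
  simp only [cor, Pi.sub_apply, Pi.neg_apply, Pi.smul_apply, Pi.mul_apply, map_sub, map_neg,
    map_smul, map_mul, h0, mul_zero, smul_zero, neg_zero, sub_zero]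

theorem nat_cor {X' : Set F'} {φ' : ℝ → F' → F'} {g : F' → E} {e' e1' β' : F' → Ext F'}
    (h : Act X φ) (h' : Act X' φ')
    (hg : SMap X' X g) (heq : ∀ t, ∀ y ∈ X', g (φ' t y) = φ t (g y)) (hb : Sm X b)
    {b' : F' → Ext F'} (hb' : Sm X' b') (hbb : Eqv X' (F.pull g b) b')
    (hee : Eqv X' (F.pull g e) e') (hee1 : Eqv X' (F.pull g e1) e1')
    (hββ : Eqv X' (F.pull g β) β') :
    Eqv X' (F.pull g (cor e e1 β p q r s (Av φ b) (xi φ b)))
      (cor e' e1' β' p q r s (Av φ' b') (xi φ' b')) := by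
  have h1 := (nat_xi h h' hg heq hb).trans (eqv_xi h' (hb.pull hg) hb' hbb)
  have h2 := (nat_Av h h' hg heq hb).trans (eqv_Av h' (hb.pull hg) hb' hbb)
  rw [cor, pull_sub', pull_neg', pull_smul', pull_smul', pull_mul', pull_mul', pull_mul',
    pull_mul', pull_mul', nat_Qn, nat_Qn]
  exact ((hββ.mul ((eqv_Qn hee hee1 p).mul h1)).smul r).neg.sub
    ((hββ.mul ((eqv_Qn hee hee1 q).mul (h2.mul h1))).smul s)

end Crest.Agent.R208.EX
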