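import Crest.Agent.R208.EX12
import Crest.Agent.R208.TP8

/-!
R208, (8,2), block ED (helper530), part EX13: **the data `ED` of the level one family** over the
manifold of geodesics `B = Quo (US G) g`, from helper382's `DscO`, helper812's class side and
helper131's natural operators.
-/

set_option autoImplicit false
set_option linter.unusedSectionVars false
set_option linter.unusedVariables false

open MeasureTheory Set Filter Topology Module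
open scoped ContDiff RealInnerProductSpace Real
open Crest.GeometryTopology.Submanifold
open Crest.Agent.R241.DDefs Crest.Agent.R241.D Crest.Agent.R241.D2
open Crest.Agent.R208.F Crest.Agent.R208.FI Crest.Agent.R208.CW Crest.Agent.R208.T
open Crest.Agent.R208.CM (Cir gen Rep Triv Qd phR Th gf Emb Quo MM jj)
open Crest.Agent.R208.VC hiding Wt
open Crest.Agent.R208.MS (Fam oc En)
open Crest.Agent.R208.FL (D0 D1 Ph)
open Crest.Agent.R208.NN (Wt Rt nuP)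

noncomputable section

namespace Crest.Agent.R208.EX

variable {n N K k m c s s' nB p q : ℕ} {κ : ℝ} {S : Set (Euc N)} {G : Geo n N κ S}
  {lg : Euc N → Euc N → Euc N} {ρ : Euc N → Euc N} {r C r' Kr B w δ : ℝ}
  {PN : Euc N × Euc N → Wt N K →L[ℝ] Wt N K} {ε E₀ η₀ rr ss B' : ℝ} {J : ℕ}
  {om : Euc N → Ext (Euc N)} {θ0 : Euc N × Euc N → Ext (Euc N × Euc N)}
  {g : Euc N × Euc N → Fin m → ℂ}
  {T : Euc N × Euc N → Wt N K →L[ℝ] EuclideanSpace ℝ (Fin (2 * c + 1))}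
  {P' : MM m → EuclideanSpace ℝ (Fin (2 * c + 1)) →L[ℝ] EuclideanSpace ℝ (Fin (2 * c + 1))}
  {o' : MM m → Ext (EuclideanSpace ℝ (Fin (2 * c + 1)))}
  {W' : MM m → (Fin (s' + 1) × Fin 2 → Fin (2 * c + 1)) → ℝ}
  {HL : ℝ → (ℝ → Euc N) → Euc N} {mu : (ℝ → Euc N) → ℝ}
  {Gm : (ℝ → Euc N) → (Euc N × Euc N) × Wt N K}

/-- the form of the level one family on `Tot (US G) PN` -/
def vf1 (G : Geo n N κ S) (K : ℕ) (lg : Euc N → Euc N → Euc N) (ρ : Euc N → Euc N) (w : ℝ)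
    (J : ℕ) (ε : ℝ) (om : Euc N → Ext (Euc N)) (θ0 : Euc N × Euc N → Ext (Euc N × Euc N))
    (p q : ℕ) (rr ss : ℝ) : (Euc N × Euc N) × Wt N K → Ext ((Euc N × Euc N) × Wt N K) :=
  vv (Ph G K) (F.d (F.pull (fun y : (Euc N × Euc N) × Wt N K => y.1) θ0)) p q rr ss
    (F.pull (FL.f1 G lg ρ w J ε) om)

/-- **the class hypothesis of level one**: the fibre integral of the descended form is exact -/
def Cls1 (G : Geo n N κ S) (K : ℕ) (lg : Euc N → Euc N → Euc N) (ρ : Euc N → Euc N) (w : ℝ)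
    (J : ℕ) (ε : ℝ) (om : Euc N → Ext (Euc N)) (θ0 : Euc N × Euc N → Ext (Euc N × Euc N))
    (p q : ℕ) (rr ss : ℝ) (PN : Euc N × Euc N → Wt N K →L[ℝ] Wt N K)
    (g : Euc N × Euc N → Fin m → ℂ)
    (T : Euc N × Euc N → Wt N K →L[ℝ] EuclideanSpace ℝ (Fin (2 * c + 1)))
    (P' : MM m → EuclideanSpace ℝ (Fin (2 * c + 1)) →L[ℝ] EuclideanSpace ℝ (Fin (2 * c + 1)))
    (W' : MM m → (Fin (s' + 1) × Fin 2 → Fin (2 * c + 1)) → ℝ) : Prop :=
  ∀ V' : MM m × EuclideanSpace ℝ (Fin (2 * c + 1)) → Ext (MM m × EuclideanSpace ℝ (Fin (2 * c + 1))),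
    ContDiff ℝ ∞ V' → Cl (Tot (Quo (L.US G) g) P') V' → VE.Cs (Quo (L.US G) g) P' (3 / 2) V' →
    Eqv (Tot (L.US G) PN) (F.pull (Th (jj g) T) V') (vf1 G K lg ρ w J ε om θ0 p q rr ss) →
    Coh (Quo (L.US G) g)
      (VE.pu (volume : Measure (EuclideanSpace ℝ (Fin (2 * c + 1)))) P'
        (thomF (fun y => 1 - P' y) W') (3 / 2) V') 0

/-- **(LAM)** over the manifold of geodesics -/
theorem exists_lam_B (h : D1 G k K lg ρ r C r' Kr B w δ PN ε J E₀ η₀)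
    (hg : Emb (L.US G) (gf G) g) (hθ0 : Cn (L.US G) (gf G) θ0) (hdat : Dat S om)
    (hO : TP.DscO (L.US G) (gf G) g (fun t => Rt (nuP K) t) s PN c s' T P' o' W')
    (hT1 : ∃ (c₀ : ℝ) (τ : _), VE.Th1 (volume : Measure (EuclideanSpace ℝ (Fin (2 * c + 1))))
      (Quo (L.US G) g) P' (thomF (fun y => 1 - P' y) W') (3 / 2) c₀ τ)
    (hcls : Cls1 G K lg ρ w J ε om θ0 p q rr ss PN g T P' W') :
    ∃ lam : (Euc N × Euc N) × Wt N K → Ext ((Euc N × Euc N) × Wt N K),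
      Mod S om (Tot (L.US G) PN) (Ph G K)
        (F.pull (fun y : (Euc N × Euc N) × Wt N K => y.1) θ0) (FL.f1 G lg ρ w J ε) lam p q rr ss ∧
      ∀ y ∈ Tot (L.US G) PN, 64 / 25 ≤ ‖y.2‖ ^ 2 → lam y = 0 := by
  have hcir := CM.cir_US h.bla.bl h.bla.ty.per
  have hclo := CM.clo_US' h.bla.bl
  obtain ⟨c₀, τ, hτ⟩ := hT1
  have hY := hg.clo_Quo hcir hclo
  exact exists_lam_f1 h hclo.sub hθ0 hdat (TP.qm_jj hg hcir hclo) hO.triv
    hO.smP.continuous.continuousOn hO.eqP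
    (cls_of_pu (volume : Measure (EuclideanSpace ℝ (Fin (2 * c + 1)))) hY.sub hO.pf
      (hO.co hY.sub) hτ hcls)

/-- **THE DATA `ED`**, all the fields known -/
theorem exists_ED (h : D1 G k K lg ρ r C r' Kr B w δ PN ε J E₀ η₀)
    (hg : Emb (L.US G) (gf G) g) (hθ0 : Cn (L.US G) (gf G) θ0) (hdat : Dat S om)
    (hO : TP.DscO (L.US G) (gf G) g (fun t => Rt (nuP K) t) s PN c s' T P' o' W')
    (hT1 : ∃ (c₀ : ℝ) (τ : _), VE.Th1 (volume : Measure (EuclideanSpace ℝ (Fin (2 * c + 1))))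
      (Quo (L.US G) g) P' (thomF (fun y => 1 - P' y) W') (3 / 2) c₀ τ)
    (hcls : Cls1 G K lg ρ w J ε om θ0 p q rr ss PN g T P' W')
    (hnat : NatOp S (Tot (L.US G) PN) (Ph G K) (FL.f1 G lg ρ w J ε)
      (fun y => 64 / 25 ≤ ‖y.2‖ ^ 2) B' HL mu Gm) :
    ∃ lam, (mkED S G lg ρ w J ε PN om θ0 p q rr ss B' lam HL mu Gm).OK := by
  obtain ⟨lam, h1, h2⟩ := exists_lam_B h hg hθ0 hdat hO hT1 hcls
  exact ⟨lam, mkED_ok h1 h2 hnat⟩

/-- the short form -/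
theorem exists_ED' (h : D1 G k K lg ρ r C r' Kr B w δ PN ε J E₀ η₀)
    (hg : Emb (L.US G) (gf G) g) (hθ0 : Cn (L.US G) (gf G) θ0) (hdat : Dat S om)
    (hO : TP.DscO (L.US G) (gf G) g (fun t => Rt (nuP K) t) s PN c s' T P' o' W')
    (hT1 : ∃ (c₀ : ℝ) (τ : _), VE.Th1 (volume : Measure (EuclideanSpace ℝ (Fin (2 * c + 1))))
      (Quo (L.US G) g) P' (thomF (fun y => 1 - P' y) W') (3 / 2) c₀ τ)
    (hcls : Cls1 G K lg ρ w J ε om θ0 p q rr ss PN g T P' W')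
    (hnat : NatOp S (Tot (L.US G) PN) (Ph G K) (FL.f1 G lg ρ w J ε)
      (fun y => 64 / 25 ≤ ‖y.2‖ ^ 2) B' HL mu Gm) :
    ∃ D : ED N, D.OK ∧ D.S = S ∧ D.om = om ∧ D.p = p ∧ D.q = q ∧ D.r = rr ∧ D.s = ss ∧
      D.B = B' := by
  obtain ⟨lam, hD⟩ := exists_ED h hg hθ0 hdat hO hT1 hcls hnat
  exact ⟨_, hD, rfl, rfl, rfl, rfl, rfl, rfl, rfl⟩

end Crest.Agent.R208.EX
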