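import Crest.Agent.R208.EX14
import Crest.Agent.R208.EA5

/-!
R208, (8,2), block ED (helper530), part EX15: over the geometric package `Gm82`: the data `ED`
(from the class side of level one) and helper595's identity (E), all geometric hypotheses filled.
-/

set_option autoImplicit false
set_option linter.unusedSectionVars false
set_option linter.unusedVariables false

open MeasureTheory Set Filter Topology Module
open scoped ContDiff RealInnerProductSpace Real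
open Crest.GeometryTopology.Submanifold
open Crest.Agent.R241.DDefs Crest.Agent.R241.D Crest.Agent.R241.D2
open Crest.Agent.R208.F Crest.Agent.R208.FI Crest.Agent.R208.CW Crest.Agent.R208.T
open Crest.Agent.R208.CM (Cir gen Rep Triv Qd phR Th gf Emb Quo MM jj Curv)
open Crest.Agent.R208.LB (al)
open Crest.Agent.R208.VC hiding Wt
open Crest.Agent.R208.MS (Fam oc En)
open Crest.Agent.R208.FL (D0 D1 Ph)
open Crest.Agent.R208.FT (D2 XI RN xiN gp lev)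
open Crest.Agent.R208.NN (Wt Rt nuP)
open Crest.Agent.R208.TP (CV push pu₂)

noncomputable section

namespace Crest.Agent.R208.EX

section geo
variable {n N K s m m' l c s' c₂ : ℕ} {κ : ℝ} {S : Set (Euc N)} {G : Geo n N κ S}
  {lg : Euc N → Euc N → Euc N} {ρ : Euc N → Euc N} {r C r' Kr B w δ δ₂ : ℝ}
  {PN : Euc N × Euc N → Wt N K →L[ℝ] Wt N K}
  {h : GT.Bla G (2 * s + 2)} {g : Euc N × Euc N → Fin m → ℂ} {Fc : MM m → Ext (MM m)}
  {g' : (Euc N × Euc N) × HW.U l → Fin m' → ℂ} {p : MM m' → MM m}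
  {T : Euc N × Euc N → Wt N K →L[ℝ] EuclideanSpace ℝ (Fin (2 * c + 1))}
  {P' : MM m → EuclideanSpace ℝ (Fin (2 * c + 1)) →L[ℝ] EuclideanSpace ℝ (Fin (2 * c + 1))}
  {o' : MM m → Ext (EuclideanSpace ℝ (Fin (2 * c + 1)))}
  {W' : MM m → (Fin (s' + 1) × Fin 2 → Fin (2 * c + 1)) → ℝ}
  {oN : Euc N × Euc N → Ext (Wt N K)}
  {T₂ : (Euc N × Euc N) × HW.U l →
    EuclideanSpace ℝ (((Fin K × Fin 2) × Fin N) ⊕ ((Fin K × Fin 2) × Fin N)) →L[ℝ]
      EuclideanSpace ℝ (Fin (2 * c₂))}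
  {P₂' : MM m' → EuclideanSpace ℝ (Fin (2 * c₂)) →L[ℝ] EuclideanSpace ℝ (Fin (2 * c₂))}
  {W₂' : MM m' → (Fin (2 * s + 1) × Fin 2 → Fin (2 * c₂)) → ℝ}
  {ε ε₂ E₀ η₀ B' rr ss : ℝ} {J pp qq : ℕ} {om : Euc N → Ext (Euc N)}
  {HL : ℝ → (ℝ → Euc N) → Euc N} {mu : (ℝ → Euc N) → ℝ}
  {Gm : (ℝ → Euc N) → (Euc N × Euc N) × Wt N K}

namespace Gm82

variable (Q : Gm82 h K l lg ρ r C r' Kr B w δ δ₂ PN g Fc g' p T P' o' W' oN T₂ P₂' W₂')
include Q

/-- **the data `ED`** over the package, from the class side of level one -/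
theorem exists_ED (h1 : D1 G (2 * s + 2) K lg ρ r C r' Kr B w δ PN ε J E₀ η₀) (hdat : Dat S om)
    (hT1 : ∃ (c₀ : ℝ) (τ : _), VE.Th1 (volume : Measure (EuclideanSpace ℝ (Fin (2 * c + 1))))
      (Quo (L.US G) g) P' (thomF (fun y => 1 - P' y) W') (3 / 2) c₀ τ)
    (hcls : Cls1 G K lg ρ w J ε om (al (N := N)) pp qq rr ss PN g T P' W')
    (hnat : NatOp S (Tot (L.US G) PN) (Ph G K) (FL.f1 G lg ρ w J ε)
      (fun y => 64 / 25 ≤ ‖y.2‖ ^ 2) B' HL mu Gm) :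
    ∃ D : ED N, D.OK ∧ D.S = S ∧ D.om = om ∧ D.p = pp ∧ D.q = qq ∧ D.r = rr ∧ D.s = ss ∧
      D.B = B' :=
  exists_ED' h1 Q.emb Q.cn hdat Q.dsc hT1 hcls hnat

/-- **(E) over the package**: helper595's `EA.E82`, all geometric hypotheses filled -/
theorem E82 {D : ED N} (hD : D.OK) (hDS : D.S = S)
    (h2 : D2 G (2 * s + 2) K lg ρ r C r' Kr B w δ PN ε J E₀ η₀ (DD.NN PN) (RN N K) (xiN h PN)
      δ₂ ε₂) (hη : 2 * η₀ ≤ π - (δ / 4) * ε ^ 2) (hlev : lev δ δ₂ ε ε₂ ≤ D.B)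
    (hdeg : Hom (2 * s + 2) D.om) (hp : D.p = 3 * s + 2) (hq : D.q = 2 * s + 1)
    {w₁ : MM m → Ext (MM m)}
    (hpu : ∀ V'' : MM m × EuclideanSpace ℝ (Fin (2 * c + 1)) →
        Ext (MM m × EuclideanSpace ℝ (Fin (2 * c + 1))),
      Sm (Tot (Quo (L.US G) g) P') V'' → Cl (Tot (Quo (L.US G) g) P') V'' →
      VE.Cs (Quo (L.US G) g) P' 2 V'' → Eqv (Tot (L.US G) PN) (F.pull (Th (jj g) T) V'')
        (vv (VC.dbl (Ph G K)) ((1 / 2 : ℝ) • F.d (F.pull Prod.fst (al (N := N)))) D.p D.q D.r D.s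
          (F.pull (FL.f1 G lg ρ w J ε) D.om)) →
      Coh (Quo (L.US G) g) (VE.pu (volume : Measure (EuclideanSpace ℝ (Fin (2 * c + 1)))) P'
        (thomF (fun y => 1 - P' y) W') 2 V'') w₁) :
    ∃ (s₂ : ℕ) (W₂'' : MM m' → (Fin (s₂ + 1) × Fin 2 → Fin (2 * c₂)) → ℝ) (c₀ : ℝ)
      (η : _) (V' : (MM m' × EuclideanSpace ℝ (Fin (2 * c₂))) × EuclideanSpace ℝ (Fin (2 * c + 1)) →
        Ext ((MM m' × EuclideanSpace ℝ (Fin (2 * c₂))) × EuclideanSpace ℝ (Fin (2 * c + 1)))),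
      OR (Quo (HW.XX (L.US G) l) g') (fun y => 1 - P₂' y) W₂'' ∧
      ThomPair (volume : Measure (EuclideanSpace ℝ (Fin (2 * c₂)))) (Quo (HW.XX (L.US G) l) g') P₂'
        (2 * (2 * s + 1)) 3 c₀ ((2 : ℝ) • eR P₂' W₂') (thomF P₂' W₂')
        (thomF (fun x => 1 - P₂' x) W₂'') ∧
      D.IsEta (Up (FT.TX (HW.XX (L.US G) l) Prod.fst (DD.NN PN) PN) FT.c2)
        (FT.P2x (HW.ph l (gf G)) N K (RN N K)) (F.pull EA.b₂ (HW.th l (al (N := N))))
        (FT.f2x G lg ρ w J (xiN h PN) ε ε₂ Prod.fst) η ∧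
      ContDiff ℝ ∞ V' ∧ CV (Quo (HW.XX (L.US G) l) g') P₂' (fun y => P' (p y)) 3 V' ∧
      Hom (4 * (2 * s + 1) + 1) V' ∧
      Eqv (FT.TX (HW.XX (L.US G) l) Prod.fst (DD.NN PN) PN)
        (F.pull (EA.Q₂ (jj g') T₂ fun z => T z.1) V')
        (dp (4 * (2 * s + 1) + 1) (D.rel (FT.P2x (HW.ph l (gf G)) N K (RN N K))
          (F.pull EA.b₂ (HW.th l (al (N := N))))
          (FT.f2x G lg ρ w J (xiN h PN) ε ε₂ Prod.fst) FT.c2 η)) ∧
      Coh (Quo (HW.XX (L.US G) l) g') (c₀ • F.pull p w₁)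
        (pu₂ (volume : Measure (EuclideanSpace ℝ (Fin (2 * c + 1))))
          (volume : Measure (EuclideanSpace ℝ (Fin (2 * c₂)))) P₂'
          (thomF (fun x => 1 - P₂' x) W₂'') (fun y => P' (p y))
          (thomF (fun y => 1 - P' (p y)) fun y => W' (p y)) V' * ((2 : ℝ) • eR P₂' W₂')) :=
  EA.E82 hD hDS Q.hd (FV.preconn_US h.bl (by have := Q.hkn; omega))
    (Crest.Agent.R208.T.nonempty_UST h h.bl.conn.nonempty.some_mem) Q.eqF Q.dsc
    (funext FT.RN_two) ⟨-1, by norm_num⟩ Q.dsc2 Q.hc₂ h2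
    (fun z hz hc => (h2.level_unif hη (FT.eqm_XX l) hz hc).trans hlev)
    (CM.conn_al (FV.sub_S h.bl)) (a := 2 * s + 1) hdeg (by rw [hp]; ring) (by rw [hq]) hpu

end Gm82

end geo

end Crest.Agent.R208.EX
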