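import Crest.Agent.R208.EX1

/-!
R208, block EX (helper530), part EX2: the natural basic primitive of `vv` for a family which is
joined to a family of standard form (near `UM` the pull-back of the model family, elsewhere
constant loops).
-/

set_option autoImplicit false
set_option linter.unusedSectionVars false
set_option linter.unusedVariables false

open MeasureTheory Set Filter Topology Module
open scoped ContDiff
open Crest.Agent.R208.F Crest.Agent.R208.FI Crest.Agent.R208.CW Crest.Agent.R208.T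
open Crest.Agent.R208.CM (Cir gen)
open Crest.Agent.R208.VC

noncomputable section

namespace Crest.Agent.R208.EX

universe u v w z
variable {E : Type u} [NormedAddCommGroup E] [NormedSpace ℝ E] [FiniteDimensional ℝ E]
  {F' : Type v} [NormedAddCommGroup F'] [NormedSpace ℝ F'] [FiniteDimensional ℝ F']
  {P : Type w} [NormedAddCommGroup P] [NormedSpace ℝ P] [FiniteDimensional ℝ P]
  {V : Type z} [NormedAddCommGroup V] [NormedSpace ℝ V] [FiniteDimensional ℝ V]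
  {m : ℕ} {X : Set E} {φ : ℝ → E → E} {a b θ : E → Ext E} {x : E} {μ : E → ℝ}

/-! ### the region where `μ > 0` -/

/-- the region where `μ > 0` -/
def Up (X : Set E) (μ : E → ℝ) : Set E := X ∩ {x | 0 < μ x}
/-- the region where `μ < 1` -/
def Lo (X : Set E) (μ : E → ℝ) : Set E := X ∩ {x | μ x < 1}

theorem inter_interior {A : Set E} (h : ∀ x ∈ X, x ∈ A → A ∈ 𝓝 x) : X ∩ A = X ∩ interior A := by
  ext x
  constructor
  · rintro ⟨h1, h2⟩
    exact ⟨h1, mem_interior_iff_mem_nhds.2 (h x h1 h2)⟩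
  · rintro ⟨h1, h2⟩
    exact ⟨h1, interior_subset h2⟩

theorem up_eq (hμ : ∀ x ∈ X, ContDiffAt ℝ ∞ μ x) : Up X μ = X ∩ interior {x | 0 < μ x} :=
  inter_interior fun x hx h => (hμ x hx).continuousAt.eventually (lt_mem_nhds h)

theorem lo_eq (hμ : ∀ x ∈ X, ContDiffAt ℝ ∞ μ x) : Lo X μ = X ∩ interior {x | μ x < 1} :=
  inter_interior fun x hx h => (hμ x hx).continuousAt.eventually (gt_mem_nhds h)

theorem sub_up (hμ : ∀ x ∈ X, ContDiffAt ℝ ∞ μ x) (hX : Sub m X) : Sub m (Up X μ) := by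
  rw [up_eq hμ]; exact Sub.inter_open' hX isOpen_interior

theorem sub_lo (hμ : ∀ x ∈ X, ContDiffAt ℝ ∞ μ x) (hX : Sub m X) : Sub m (Lo X μ) := by
  rw [lo_eq hμ]; exact Sub.inter_open' hX isOpen_interior

theorem rs_up (hμ : ∀ x ∈ X, ContDiffAt ℝ ∞ μ x) (h : Eqv (Up X μ) a b) (hx : x ∈ Up X μ) :
    rsL X x (a x) = rsL X x (b x) := by
  rw [up_eq hμ] at h hx
  exact eqv_of_open isOpen_interior h hx.1 hx.2

theorem rs_lo (hμ : ∀ x ∈ X, ContDiffAt ℝ ∞ μ x) (h : Eqv (Lo X μ) a b) (hx : x ∈ Lo X μ) :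
    rsL X x (a x) = rsL X x (b x) := by
  rw [lo_eq hμ] at h hx
  exact eqv_of_open isOpen_interior h hx.1 hx.2

/-- restriction to a subset is determined by the restriction to the whole -/
theorem rs_sub {X' : Set E} (hs : X' ⊆ X) {c c' : Ext E} (h : rsL X x c = rsL X x c') :
    rsL X' x c = rsL X' x c' := by
  rw [rsL_apply, rsL_apply] at h ⊢
  have h3 : (Tan X' x).subtype = (Tan X x).subtype ∘ₗ Submodule.inclusion (Tan_mono_of_subset hs x) :=
    rfl
  rw [h3, ← pb_comp, ← pb_comp, h]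

/-! ### the model -/

/-- the model family `f1` over `Y` with a basic primitive `lam` of its form `vv` -/
structure Mod (S : Set V) (om : V → Ext V) (Y : Set P) (φY : ℝ → P → P) (θ1 : P → Ext P)
    (f1 : P → V) (lam : P → Ext P) (p q : ℕ) (r s : ℝ) : Prop where
  sub : ∃ k, Sub k Y
  act : Act Y φY
  mf : SMap Y S f1
  dat : Dat S om
  cn : Cn Y φY θ1
  sl : Sm Y lam
  il : Inv Y φY lam
  hl : Hz Y φY lam
  dl : Eqv Y (vv φY (F.d θ1) p q r s (F.pull f1 om)) (F.d lam)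

/-- a family `f` with a homotopy `H` to a family of standard form -/
structure ND (X : Set E) (φ : ℝ → E → E) (S : Set V) (Y : Set P) (φY : ℝ → P → P) (f1 : P → V)
    (lam : P → Ext P) (f : E → V) (H : E × ℝ → V) (μ : E → ℝ) (Γ : E → P) : Prop where
  sf : SMap X S f
  sH : SMap (X ×ˢ univ) S H
  H0 : ∀ x ∈ X, H (x, 0) = f x
  cH : ∀ x ∈ X, (∀ t, f (φ t x) = f x) → ∀ s t, H (φ t x, s) = f x
  sμ : ∀ x ∈ X, ContDiffAt ℝ ∞ μ x
  iμ : ∀ x ∈ X, ∀ t, μ (φ t x) = μ x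
  sΓ : SMap (Up X μ) Y Γ
  eΓ : ∀ t, ∀ x ∈ Up X μ, Γ (φ t x) = φY t (Γ x)
  H1 : ∀ x ∈ Up X μ, H (x, 1) = f1 (Γ x)
  H1' : ∀ x ∈ Lo X μ, ∀ t, H (φ t x, 1) = H (x, 1)
  lam0 : ∀ x ∈ Up X μ, μ x < 1 → lam (Γ x) = 0
  cμ : ∀ x ∈ X, (∀ t, f (φ t x) = f x) → μ x < 1

/-- cut-off, `0` for `t ≤ 1/4`, `1` for `t ≥ 3/4` -/
def kx (t : ℝ) : ℝ := Real.smoothTransition (2 * t - 1 / 2)

theorem contDiff_kx : ContDiff ℝ ∞ kx := Real.smoothTransition.contDiff.comp (by fun_prop)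

theorem kx_zero {t : ℝ} (h : t ≤ 1 / 4) : kx t = 0 :=
  Real.smoothTransition.zero_of_nonpos (by linarith)

theorem kx_one {t : ℝ} (h : 3 / 4 ≤ t) : kx t = 1 :=
  Real.smoothTransition.one_of_one_le (by linarith)

/-- the form near `UM` -/
def KK (φ : ℝ → E → E) (θ : E → Ext E) (om : V → Ext V) (θ1 lam : P → Ext P) (p q : ℕ) (r s : ℝ)
    (H : E × ℝ → V) (Γ : E → P) : E → Ext E :=
  F.pull Γ lam + cor (F.d θ) (F.pull Γ (F.d θ1)) (θ - F.pull Γ θ1) p q r s
    (Av φ (F.pull (fun x => H (x, 1)) om)) (xi φ (F.pull (fun x => H (x, 1)) om))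

/-- the primitive for the family `H (·, 1)` -/
def G0 (φ : ℝ → E → E) (θ : E → Ext E) (om : V → Ext V) (θ1 lam : P → Ext P) (p q : ℕ) (r s : ℝ)
    (H : E × ℝ → V) (μ : E → ℝ) (Γ : E → P) (x : E) : Ext E :=
  kx (μ x) • KK φ θ om θ1 lam p q r s H Γ x

/-- **the natural primitive** -/
def Eta (φ : ℝ → E → E) (θ : E → Ext E) (om : V → Ext V) (θ1 lam : P → Ext P) (p q : ℕ) (r s : ℝ)
    (H : E × ℝ → V) (μ : E → ℝ) (Γ : E → P) : E → Ext E :=
  G0 φ θ om θ1 lam p q r s H μ Γ -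
    eta (vv (pr φ) (F.pull (fun p : E × ℝ => p.1) (F.d θ)) p q r s (F.pull H om))

section main
variable {S : Set V} {om : V → Ext V} {Y : Set P} {φY : ℝ → P → P} {θ1 lam : P → Ext P}
  {f1 : P → V} {p q : ℕ} {r s : ℝ} {f : E → V} {H : E × ℝ → V} {Γ : E → P}

theorem ND.act_up (h : Act X φ) (hN : ND X φ S Y φY f1 lam f H μ Γ) : Act (Up X μ) φ :=
  h.mono inter_subset_left fun t x hx => ⟨h.maps t hx.1, by
    change 0 < μ (φ t x)
    rw [hN.iμ x hx.1]
    exact hx.2⟩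

theorem ND.smap_one (hN : ND X φ S Y φY f1 lam f H μ Γ) : SMap X S (fun x => H (x, 1)) :=
  hN.sH.comp (smap_at (mem_univ _))

variable (h : Act X φ) (hX : Sub m X) (hM : Mod S om Y φY θ1 f1 lam p q r s) (hθ : Cn X φ θ)
  (hN : ND X φ S Y φY f1 lam f H μ Γ)

include hM hN in
theorem dat_one : Dat X (F.pull (fun x => H (x, 1)) om) := hM.dat.pull hN.smap_one

include h hM hN in
theorem cn_up : Cn (Up X μ) φ (F.pull Γ θ1) :=
  hM.cn.pull hM.act (hN.act_up h) hN.sΓ hN.eΓ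

include h hM hN in
theorem bas_up : Bas (Up X μ) φ (F.pull Γ (F.d θ1)) := by
  obtain ⟨k, hk⟩ := hM.sub
  exact (hM.cn.bas hM.act hk).pull hM.act (hN.act_up h) hN.sΓ hN.eΓ

include h hX hM hθ hN in
theorem sm_KK : Sm (Up X μ) (KK φ θ om θ1 lam p q r s H Γ) :=
  (hM.sl.pull hN.sΓ).add (sm_cor (hN.act_up h)
    ((hθ.mono inter_subset_left).bas (hN.act_up h) (sub_up hN.sμ hX)) (bas_up h hM hN)
    ((hθ.sm.mono inter_subset_left).sub (cn_up h hM hN).sm)
    ((dat_one hM hN).mono inter_subset_left))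

include h hX hM hθ hN in
theorem inv_KK : Inv (Up X μ) φ (KK φ θ om θ1 lam p q r s H Γ) :=
  (Inv.pull hM.act (hN.act_up h) hN.sΓ hN.eΓ hM.il).add (inv_cor (hN.act_up h)
    ((hθ.mono inter_subset_left).bas (hN.act_up h) (sub_up hN.sμ hX)) (bas_up h hM hN)
    ((hθ.mono inter_subset_left).sub_inv (cn_up h hM hN))
    ((dat_one hM hN).mono inter_subset_left))

include h hX hM hθ hN in
theorem hz_KK : Hz (Up X μ) φ (KK φ θ om θ1 lam p q r s H Γ) :=
  (Hz.pull hM.act (hN.act_up h) hN.sΓ hN.eΓ hM.hl).add (hz_cor (hN.act_up h)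
    ((hθ.mono inter_subset_left).bas (hN.act_up h) (sub_up hN.sμ hX)) (bas_up h hM hN)
    ((hθ.mono inter_subset_left).sub_hz (cn_up h hM hN))
    ((dat_one hM hN).mono inter_subset_left))

include h hM hN in
/-- the form of the model on the region -/
theorem vv_up : Eqv (Up X μ) (F.pull Γ (vv φY (F.d θ1) p q r s (F.pull f1 om)))
    (vv φ (F.pull Γ (F.d θ1)) p q r s (F.pull (fun x => H (x, 1)) om)) := by
  have hd := (hM.dat.pull hM.mf)
  refine (nat_vv hM.act (hN.act_up h) hN.sΓ hN.eΓ hd.sm).trans ?_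
  refine eqv_vv (hN.act_up h) (hd.sm.pull hN.sΓ) ((dat_one hM hN).sm.mono inter_subset_left) ?_
    (Eqv.refl _)
  have h1 : Eqv (Up X μ) (F.pull Γ (F.pull f1 om)) (F.pull (fun x => f1 (Γ x)) om) :=
    Eqv.of_eq fun x hx => F.pull_comp (hN.sΓ.diff hx) (hM.mf.diff (hN.sΓ.maps hx))
  refine h1.trans (eqv_pull_of_eq om (fun x hx => (hM.mf.comp hN.sΓ).diff hx)
    (fun x hx => hN.smap_one.diff hx.1) fun x hx => (hN.H1 x hx).symm)

include h hX hM hθ hN in
theorem d_KK : Eqv (Up X μ) (F.d (KK φ θ om θ1 lam p q r s H Γ))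
    (vv φ (F.d θ) p q r s (F.pull (fun x => H (x, 1)) om)) := by
  have hXu := sub_up hN.sμ hX
  have hau := hN.act_up h
  have hb := (dat_one hM hN).mono (X' := Up X μ) inter_subset_left
  have hθu := hθ.mono (X' := Up X μ) inter_subset_left
  have hβ : Sm (Up X μ) (θ - F.pull Γ θ1) := hθu.sm.sub (cn_up h hM hN).sm
  have hdβ : Eqv (Up X μ) (F.d (θ - F.pull Γ θ1)) (F.d θ - F.pull Γ (F.d θ1)) :=
    (d_sub_eqv hθu.sm (cn_up h hM hN).sm).trans
      ((Eqv.refl _).sub (d_pull_eqv hN.sΓ hM.cn.sm))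
  have e1 := d_cor (p := p) (q := q) (r := r) (s := s) hau hXu (hθu.bas hau hXu) (bas_up h hM hN)
    hβ hdβ hb
  have e2 : Eqv (Up X μ) (F.d (F.pull Γ lam))
      (vv φ (F.pull Γ (F.d θ1)) p q r s (F.pull (fun x => H (x, 1)) om)) :=
    (d_pull_eqv hN.sΓ hM.sl).trans ((hM.dl.symm.pull hN.sΓ).trans (vv_up h hM hN))
  have e3 := (d_add_eqv (hM.sl.pull hN.sΓ) (sm_cor (p := p) (q := q) (r := r) (s := s) hau
    (hθu.bas hau hXu) (bas_up h hM hN) hβ hb)).trans (e2.add e1)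
  rwa [add_sub_cancel] at e3

include h hM hN in
/-- the forms of `H (·, 1)` vanish on the lower region -/
theorem xi_lo (hx : x ∈ Lo X μ) : rsL X x (xi φ (F.pull (fun x => H (x, 1)) om) x) = 0 :=
  rs_xi_eq_zero h (dat_one hM hN).sm hx.1
    (ii_cv_pull h hx.1 (fun r => hN.smap_one.diff (h.maps r hx.1)) fun r => hN.H1' x hx r)

include h hM hN in
theorem vv_lo (e : E → Ext E) (hx : x ∈ Lo X μ) :
    rsL X x (vv φ e p q r s (F.pull (fun x => H (x, 1)) om) x) = 0 :=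
  rs_vv_eq_zero h (dat_one hM hN).sm hx.1
    (ii_cv_pull h hx.1 (fun r => hN.smap_one.diff (h.maps r hx.1)) fun r => hN.H1' x hx r)

include h hM hN in
theorem KK_lo (hx : x ∈ Up X μ) (hx1 : μ x < 1) :
    rsL X x (KK φ θ om θ1 lam p q r s H Γ x) = 0 := by
  have h1 : F.pull Γ lam x = 0 := by rw [F.pull, hN.lam0 x hx hx1, map_zero]
  have h2 := rs_cor_eq_zero (e := F.d θ) (e1 := F.pull Γ (F.d θ1)) (β := θ - F.pull Γ θ1)
    (p := p) (q := q) (r := r) (s := s) (A := Av φ (F.pull (fun x => H (x, 1)) om))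
    (xi_lo h hM hN ⟨hx.1, hx1⟩)
  rw [KK, Pi.add_apply, map_add, h1, map_zero, zero_add, h2]

include h hM hN in
theorem G0_lo (hx : x ∈ Lo X μ) : rsL X x (G0 φ θ om θ1 lam p q r s H μ Γ x) = 0 := by
  rw [G0]
  rcases le_or_gt (μ x) 0 with h0 | h0
  · rw [kx_zero (by linarith), zero_smul, map_zero]
  · rw [map_smul, KK_lo h hM hN ⟨hx.1, h0⟩ hx.2, smul_zero]

include h hM hN in
theorem G0_up (hx : x ∈ Up X μ) : rsL X x (G0 φ θ om θ1 lam p q r s H μ Γ x) =
    rsL X x (KK φ θ om θ1 lam p q r s H Γ x) := by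
  rcases lt_or_ge (μ x) 1 with h0 | h0
  · rw [G0_lo h hM hN ⟨hx.1, h0⟩, KK_lo h hM hN hx h0]
  · rw [G0, kx_one (by linarith), one_smul]

include h hX hM hθ hN in
theorem sm_G0 : Sm X (G0 φ θ om θ1 lam p q r s H μ Γ) := by
  intro x hx
  rcases le_or_gt (μ x) 0 with h0 | h0
  · have h1 : ∀ᶠ y in 𝓝 x, μ y < 1 / 4 :=
      (hN.sμ x hx).continuousAt.eventually (gt_mem_nhds (by linarith))
    refine (contDiffAt_const (c := (0 : Ext E))).congr_of_eventuallyEq (h1.mono fun y hy => ?_)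
    rw [G0, kx_zero hy.le, zero_smul]
  · exact (contDiff_kx.contDiffAt.comp x (hN.sμ x hx)).smul
      (sm_KK h hX hM hθ hN x ⟨hx, h0⟩)

include h hX hM hθ hN in
theorem d_G0 : Eqv X (F.d (G0 φ θ om θ1 lam p q r s H μ Γ))
    (vv φ (F.d θ) p q r s (F.pull (fun x => H (x, 1)) om)) := by
  refine eqv_iff.2 fun x hx => ?_
  rcases le_or_gt (μ x) 0 with h0 | h0
  · have hxl : x ∈ Lo X μ := ⟨hx, by change μ x < 1; linarith⟩
    have h1 : Eqv (Lo X μ) (G0 φ θ om θ1 lam p q r s H μ Γ) 0 := eqv_iff.2 fun y hy => by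
      have h2 := G0_lo (θ := θ) (p := p) (q := q) (r := r) (s := s) h hM hN hy
      have h3 := rs_sub (X' := Lo X μ) (X := X) inter_subset_left
        (h2.trans (map_zero _).symm : rsL X y _ = rsL X y 0)
      exact h3
    have h2 := h1.d (sub_lo hN.sμ hX) ((sm_G0 h hX hM hθ hN).mono inter_subset_left) Sm.zero
    rw [d_zero'] at h2
    have h3 := rs_lo hN.sμ h2 hxl
    have h4 := vv_lo (p := p) (q := q) (r := r) (s := s) h hM hN (F.d θ) hxl
    rw [rsL_apply] at h3 h4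
    rw [h3, h4, Pi.zero_apply, map_zero]
  · have hxu : x ∈ Up X μ := ⟨hx, h0⟩
    have h1 : Eqv (Up X μ) (G0 φ θ om θ1 lam p q r s H μ Γ) (KK φ θ om θ1 lam p q r s H Γ) :=
      eqv_iff.2 fun y hy => rs_sub (X' := Up X μ) (X := X) inter_subset_left (G0_up h hM hN hy)
    have h2 := (h1.d (sub_up hN.sμ hX) ((sm_G0 h hX hM hθ hN).mono inter_subset_left)
      (sm_KK h hX hM hθ hN)).trans (d_KK h hX hM hθ hN)
    exact rs_up hN.sμ h2 hxu

include h hX hM hθ hN in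
theorem inv_G0 : Inv X φ (G0 φ θ om θ1 lam p q r s H μ Γ) := by
  intro t
  refine eqv_iff.2 fun x hx => ?_
  have h1 : F.pull (φ t) (G0 φ θ om θ1 lam p q r s H μ Γ) x =
      kx (μ (φ t x)) • F.pull (φ t) (KK φ θ om θ1 lam p q r s H Γ) x := F.pull_smul _ _ _ _
  rw [h1, hN.iμ x hx, map_smul]
  change _ = pb (Tan X x).subtype (kx (μ x) • _)
  rw [map_smul]
  rcases le_or_gt (μ x) 0 with h0 | h0
  · rw [kx_zero (by linarith), zero_smul, zero_smul]
  · congr 1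
    exact rs_up hN.sμ (inv_KK h hX hM hθ hN t) ⟨hx, h0⟩

include h hX hM hθ hN in
theorem hz_G0 : Hz X φ (G0 φ θ om θ1 lam p q r s H μ Γ) := by
  refine eqv_iff.2 fun x hx => ?_
  have h1 : iV φ (G0 φ θ om θ1 lam p q r s H μ Γ) x =
      kx (μ x) • iV φ (KK φ θ om θ1 lam p q r s H Γ) x := map_smul (ii (gen φ x)) _ _
  rw [h1, map_smul]
  rcases le_or_gt (μ x) 0 with h0 | h0
  · rw [kx_zero (by linarith), zero_smul, Pi.zero_apply, map_zero]
  · have h2 := rs_up hN.sμ (hz_KK h hX hM hθ hN) ⟨hx, h0⟩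
    rw [rsL_apply, rsL_apply] at h2
    rw [h2, Pi.zero_apply, map_zero, smul_zero]

end main

end Crest.Agent.R208.EX
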