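import Crest.Agent.R208.EX2

/-!
R208, block EX (helper530), part EX3: **the natural basic primitive of `vv`**: smooth, invariant,
horizontal, zero where the loops are constant, natural under equivariant maps.
-/

set_option autoImplicit false
set_option linter.unusedSectionVars false
set_option linter.unusedVariables false

open MeasureTheory Set Filter Topology Module
open scoped ContDiff
open Crest.Agent.R208.F Crest.Agent.R208.FI Crest.Agent.R208.CW Crest.Agent.R208.T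
open Crest.Agent.R208.CM (Cir gen)
open Crest.Agent.R208.VC

noncomputable section

namespace Crest.Agent.R208.EX

universe u v w z
variable {E : Type u} [NormedAddCommGroup E] [NormedSpace ℝ E] [FiniteDimensional ℝ E]
  {F' : Type v} [NormedAddCommGroup F'] [NormedSpace ℝ F'] [FiniteDimensional ℝ F']
  {P : Type w} [NormedAddCommGroup P] [NormedSpace ℝ P] [FiniteDimensional ℝ P]
  {V : Type z} [NormedAddCommGroup V] [NormedSpace ℝ V] [FiniteDimensional ℝ V]
  {m : ℕ} {X : Set E} {φ : ℝ → E → E} {a b θ : E → Ext E} {x : E} {μ : E → ℝ}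
  {S : Set V} {om : V → Ext V} {Y : Set P} {φY : ℝ → P → P} {θ1 lam : P → Ext P}
  {f1 : P → V} {p q : ℕ} {r s : ℝ} {f : E → V} {H : E × ℝ → V} {Γ : E → P}

section main
variable (h : Act X φ) (hX : Sub m X) (hM : Mod S om Y φY θ1 f1 lam p q r s) (hθ : Cn X φ θ)
  (hN : ND X φ S Y φY f1 lam f H μ Γ)

include hM hN in
theorem dat_H : Dat (X ×ˢ (univ : Set ℝ)) (F.pull H om) := hM.dat.pull hN.sH

include h hX hM hθ hN in
theorem sm_Eta : Sm X (Eta φ θ om θ1 lam p q r s H μ Γ) :=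
  (sm_G0 h hX hM hθ hN).sub (sm_hom h (subset_univ _) (hθ.bas h hX) (dat_H hM hN))

include h hX hM hθ hN in
theorem inv_Eta : Inv X φ (Eta φ θ om θ1 lam p q r s H μ Γ) :=
  (inv_G0 h hX hM hθ hN).sub
    (inv_hom h isOpen_univ (subset_univ _) (hθ.bas h hX) (dat_H hM hN))

include h hX hM hθ hN in
theorem hz_Eta : Hz X φ (Eta φ θ om θ1 lam p q r s H μ Γ) :=
  (hz_G0 h hX hM hθ hN).sub
    (hz_hom h isOpen_univ (subset_univ _) (hθ.bas h hX) (dat_H hM hN))

include h hX hM hθ hN in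
/-- **`vv` of the family is the differential of the natural primitive** -/
theorem d_Eta : Eqv X (vv φ (F.d θ) p q r s (F.pull f om))
    (F.d (Eta φ θ om θ1 lam p q r s H μ Γ)) := by
  have hB := dat_H hM hN
  have he := hθ.bas h hX
  have h1 := hom_vv (p := p) (q := q) (r := r) (s := s) h hX isOpen_univ (subset_univ _) he hB
  have hb0 : Dat X (F.pull f om) := hM.dat.pull hN.sf
  have hb1 : Dat X (F.pull (fun x => H (x, 1)) om) := dat_one hM hN
  have e1 : Eqv X (F.pull (fun y => (y, (1 : ℝ))) (F.pull H om))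
      (F.pull (fun x => H (x, 1)) om) := Eqv.of_eq fun x hx =>
    F.pull_comp ((smap_at (X := X) (mem_univ (1 : ℝ))).diff hx) (hN.sH.diff ⟨hx, mem_univ _⟩)
  have e0' : Eqv X (F.pull (fun y => (y, (0 : ℝ))) (F.pull H om))
      (F.pull (fun x => H (x, 0)) om) := Eqv.of_eq fun x hx =>
    F.pull_comp ((smap_at (X := X) (mem_univ (0 : ℝ))).diff hx) (hN.sH.diff ⟨hx, mem_univ _⟩)
  have hs0 : SMap X S (fun x => H (x, 0)) := hN.sH.comp (smap_at (mem_univ _))
  have e0 := e0'.trans (eqv_pull_of_eq om (fun x hx => hs0.diff hx) (fun x hx => hN.sf.diff hx)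
    fun x hx => hN.H0 x hx)
  have f1 := eqv_vv (e := F.d θ) (p := p) (q := q) (r := r) (s := s) h
    (hB.sm.pull (smap_at (X := X) (mem_univ (1 : ℝ)))) hb1.sm e1 (Eqv.refl _)
  have f0 := eqv_vv (e := F.d θ) (p := p) (q := q) (r := r) (s := s) h
    (hB.sm.pull (smap_at (X := X) (mem_univ (0 : ℝ)))) hb0.sm e0 (Eqv.refl _)
  have h2 := (f1.sub f0).symm.trans h1
  have h3 := (d_sub_eqv (sm_G0 h hX hM hθ hN)
    (sm_hom (p := p) (q := q) (r := r) (s := s) h (subset_univ _) he hB)).trans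
    ((d_G0 h hX hM hθ hN).sub h2.symm)
  rw [sub_sub_cancel] at h3
  exact h3.symm

include h hX hM hθ hN in
/-- the primitive vanishes where the loops are constant -/
theorem Eta_zero (hx : x ∈ X) (hc : ∀ t, f (φ t x) = f x) :
    rsL X x (Eta φ θ om θ1 lam p q r s H μ Γ x) = 0 := by
  have h1 := G0_lo (θ := θ) (p := p) (q := q) (r := r) (s := s) h hM hN ⟨hx, hN.cμ x hx hc⟩
  have h2 : ∀ t r, H (φ r x, t) = H (x, t) := by
    intro t r
    have e1 := hN.cH x hx hc t 0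
    rw [h.zero x hx] at e1
    rw [hN.cH x hx hc t r, e1]
  have h3 := rs_hom_pull_eq_zero (p := p) (q := q) (r := r) (s := s) h isOpen_univ
    (subset_univ _) (hθ.bas h hX) hN.sH hM.dat hx fun t _ r => h2 t r
  rw [Eta, Pi.sub_apply, map_sub, h1, h3, sub_zero]

end main

section nat
variable {m' : ℕ} {X' : Set F'} {φ' : ℝ → F' → F'} {θ' : F' → Ext F'} {μ' : F' → ℝ}
  {f' : F' → V} {H' : F' × ℝ → V} {Γ' : F' → P} {g : F' → E}
  (h : Act X φ) (hX : Sub m X) (hM : Mod S om Y φY θ1 f1 lam p q r s) (hθ : Cn X φ θ)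
  (hN : ND X φ S Y φY f1 lam f H μ Γ)
  (h' : Act X' φ') (hX' : Sub m' X') (hθ' : Cn X' φ' θ')
  (hN' : ND X' φ' S Y φY f1 lam f' H' μ' Γ')
  (hg : SMap X' X g) (heq : ∀ t, ∀ y ∈ X', g (φ' t y) = φ t (g y))
  (hHH : ∀ y ∈ X', ∀ s, H' (y, s) = H (g y, s)) (hμμ : ∀ y ∈ X', μ' y = μ (g y))
  (hΓΓ : ∀ y ∈ Up X' μ', Γ' y = Γ (g y)) (hθθ : Eqv X' (F.pull g θ) θ')

include hg hμμ in
theorem smap_up : SMap (Up X' μ') (Up X μ) g :=
  ⟨fun y hy => hg.smooth y hy.1, fun y hy => ⟨hg.maps hy.1, by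
    have h2 : 0 < μ' y := hy.2
    change 0 < μ (g y)
    rwa [← hμμ y hy.1]⟩⟩

include h hX hM hθ hN h' hX' hθ' hN' hg heq hHH hμμ hΓΓ hθθ in
theorem nat_KK : Eqv (Up X' μ') (F.pull g (KK φ θ om θ1 lam p q r s H Γ))
    (KK φ' θ' om θ1 lam p q r s H' Γ') := by
  have hgu := smap_up hg hμμ
  have hΓg : ∀ w : P → Ext P, Eqv (Up X' μ') (F.pull g (F.pull Γ w)) (F.pull Γ' w) := fun w => by
    have e1 : Eqv (Up X' μ') (F.pull g (F.pull Γ w)) (F.pull (fun y => Γ (g y)) w) :=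
      Eqv.of_eq fun y hy => F.pull_comp (hgu.diff hy) (hN.sΓ.diff (hgu.maps hy))
    exact e1.trans (eqv_pull_of_eq w (fun y hy => (hN.sΓ.comp hgu).diff hy)
      (fun y hy => hN'.sΓ.diff hy) fun y hy => (hΓΓ y hy).symm)
  have e1 : Eqv (Up X' μ') (F.pull g (F.pull (fun x => H (x, 1)) om))
      (F.pull (fun x => H' (x, 1)) om) := by
    have e1 : Eqv (Up X' μ') (F.pull g (F.pull (fun x => H (x, 1)) om))
        (F.pull (fun y => H (g y, 1)) om) := Eqv.of_eq fun y hy =>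
      F.pull_comp (hgu.diff hy) (hN.smap_one.diff (hg.maps hy.1))
    exact e1.trans (eqv_pull_of_eq om (fun y hy => (hN.smap_one.comp hg).diff hy.1)
      (fun y hy => hN'.smap_one.diff hy.1) fun y hy => (hHH y hy.1 1).symm)
  have e2 : Eqv X' (F.pull g (F.d θ)) (F.d θ') :=
    (d_pull_eqv hg hθ.sm).symm.trans (hθθ.d hX' (hθ.sm.pull hg) hθ'.sm)
  have e3 := nat_cor (e := F.d θ) (e1 := F.pull Γ (F.d θ1)) (β := θ - F.pull Γ θ1)
    (b := F.pull (fun x => H (x, 1)) om) (b' := F.pull (fun x => H' (x, 1)) om)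
    (e' := F.d θ') (e1' := F.pull Γ' (F.d θ1)) (β' := θ' - F.pull Γ' θ1)
    (p := p) (q := q) (r := r) (s := s)
    (hN.act_up h) (hN'.act_up h') hgu (fun t y hy => heq t y hy.1)
    ((dat_one hM hN).sm.mono inter_subset_left) ((dat_one hM hN').sm.mono inter_subset_left) e1
    (e2.mono_tan inter_subset_left) (hΓg _) (by
      rw [pull_sub']
      exact (hθθ.mono_tan inter_subset_left).sub (hΓg θ1))
  rw [KK, pull_add', KK]
  exact (hΓg lam).add e3

include h hX hM hθ hN h' hX' hθ' hN' hg heq hHH hμμ hΓΓ hθθ in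
theorem nat_G0 : Eqv X' (F.pull g (G0 φ θ om θ1 lam p q r s H μ Γ))
    (G0 φ' θ' om θ1 lam p q r s H' μ' Γ') := by
  refine eqv_iff.2 fun y hy => ?_
  have h1 : F.pull g (G0 φ θ om θ1 lam p q r s H μ Γ) y =
      kx (μ (g y)) • F.pull g (KK φ θ om θ1 lam p q r s H Γ) y := F.pull_smul _ _ _ _
  rw [h1, ← hμμ y hy, map_smul]
  change _ = pb (Tan X' y).subtype (kx (μ' y) • _)
  rw [map_smul]
  rcases le_or_gt (μ' y) 0 with h0 | h0
  · rw [kx_zero (by linarith), zero_smul, zero_smul]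
  · congr 1
    exact rs_up hN'.sμ (nat_KK h hX hM hθ hN h' hX' hθ' hN' hg heq hHH hμμ hΓΓ hθθ) ⟨hy, h0⟩

include h hX hM hθ hN h' hX' hθ' hN' hg heq hHH hμμ hΓΓ hθθ in
/-- **naturality of the primitive** -/
theorem nat_Eta : Eqv X' (F.pull g (Eta φ θ om θ1 lam p q r s H μ Γ))
    (Eta φ' θ' om θ1 lam p q r s H' μ' Γ') := by
  have hB := dat_H hM hN
  have hB' := dat_H hM hN'
  have he := hθ.bas h hX
  have he' := hθ'.bas h' hX'
  rw [Eta, pull_sub', Eta]
  refine (nat_G0 h hX hM hθ hN h' hX' hθ' hN' hg heq hHH hμμ hΓΓ hθθ).sub ?_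
  have hg1 : SMap (X' ×ˢ (univ : Set ℝ)) (X ×ˢ (univ : Set ℝ)) (fun p : F' × ℝ => (g p.1, p.2)) :=
    ⟨fun y hy => (ContDiffAt.comp y (hg.smooth _ hy.1) contDiffAt_fst).prodMk contDiffAt_snd,
      fun y hy => ⟨hg.maps hy.1, hy.2⟩⟩
  have hsΨ := sm_vv (p := p) (q := q) (r := r) (s := s) (h.pr univ) (he.pr h univ) hB
  have hsΨ' := sm_vv (p := p) (q := q) (r := r) (s := s) (h'.pr univ) (he'.pr h' univ) hB'
  refine (Eqv.of_eq fun y hy => nat_eta (subset_univ _) hsΨ hg hy).trans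
    (eqv_eta isOpen_univ (subset_univ _) (hsΨ.pull hg1) hsΨ' ?_)
  refine (nat_vv (h.pr univ) (h'.pr univ) hg1 (fun t y hy => Prod.ext (heq t _ hy.1) rfl)
    hB.sm).trans (eqv_vv (h'.pr univ) (hB.sm.pull hg1) hB'.sm ?_ ?_)
  · have e1 : Eqv (X' ×ˢ (univ : Set ℝ)) (F.pull (fun p : F' × ℝ => (g p.1, p.2)) (F.pull H om))
        (F.pull (fun p : F' × ℝ => H (g p.1, p.2)) om) := Eqv.of_eq fun y hy =>
      F.pull_comp (hg1.diff hy) (hN.sH.diff (hg1.maps hy))
    exact e1.trans (eqv_pull_of_eq om (fun y hy => (hN.sH.comp hg1).diff hy)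
      (fun y hy => hN'.sH.diff hy) fun y hy => (hHH y.1 hy.1 y.2).symm)
  · have e2 : Eqv X' (F.pull g (F.d θ)) (F.d θ') :=
      (d_pull_eqv hg hθ.sm).symm.trans (hθθ.d hX' (hθ.sm.pull hg) hθ'.sm)
    have e3 : Eqv (X' ×ˢ (univ : Set ℝ))
        (F.pull (fun p : F' × ℝ => (g p.1, p.2)) (F.pull (fun p : E × ℝ => p.1) (F.d θ)))
        (F.pull (fun p : F' × ℝ => p.1) (F.pull g (F.d θ))) := Eqv.of_eq fun y hy => by
      have d1 : DifferentiableAt ℝ (fun p : E × ℝ => p.1) ((fun p : F' × ℝ => (g p.1, p.2)) y) :=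
        differentiableAt_fst
      rw [F.pull_comp (hg1.diff hy) d1,
        F.pull_comp (differentiableAt_fst : DifferentiableAt ℝ (fun p : F' × ℝ => p.1) y)
          (hg.diff hy.1)]
      rfl
    exact e3.trans (e2.pull (smap_fst X' univ))

end nat

end Crest.Agent.R208.EX
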