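import Crest.Agent.R208.EX3
import Crest.Agent.R208.CM4b

/-!
R208, block EX (helper530), part EX4: shrinking the support of the primitive of the model family by
a radial fibre map; the model `Mod` over a total space.
-/

set_option autoImplicit false
set_option linter.unusedSectionVars false
set_option linter.unusedVariables false

open MeasureTheory Set Filter Topology Module
open scoped ContDiff
open Crest.Agent.R208.F Crest.Agent.R208.FI Crest.Agent.R208.CW Crest.Agent.R208.T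
open Crest.Agent.R208.CM (Cir gen phR Rep)
open Crest.Agent.R208.VC

noncomputable section

namespace Crest.Agent.R208.EX

universe u w z
variable {E : Type u} [NormedAddCommGroup E] [NormedSpace ℝ E] [FiniteDimensional ℝ E]
  {W : Type w} [NormedAddCommGroup W] [InnerProductSpace ℝ W] [FiniteDimensional ℝ W]
  {V : Type z} [NormedAddCommGroup V] [NormedSpace ℝ V] [FiniteDimensional ℝ V]
  {X : Set E} {φ : ℝ → E → E} {R : ℝ → W →L[ℝ] W} {Q : E → W →L[ℝ] W} {ρ : ℝ}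

/-- radial factor: `1` for `t ≤ 9/4`, `≥ 1 + |ρ|` for `t ≥ 64/25` -/
def rk (ρ t : ℝ) : ℝ := 1 + |ρ| * Real.smoothTransition ((t - 9 / 4) * 10)

theorem contDiff_rk (ρ : ℝ) : ContDiff ℝ ∞ (rk ρ) := by
  have h : ContDiff ℝ ∞ fun t : ℝ => Real.smoothTransition ((t - 9 / 4) * 10) :=
    Real.smoothTransition.contDiff.comp (by fun_prop)
  exact contDiff_const.add (contDiff_const.mul h)

theorem one_le_rk (ρ t : ℝ) : 1 ≤ rk ρ t := by
  have := mul_nonneg (abs_nonneg ρ) (Real.smoothTransition.nonneg ((t - 9 / 4) * 10))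
  unfold rk
  linarith

theorem rk_one (ρ : ℝ) {t : ℝ} (h : t ≤ 9 / 4) : rk ρ t = 1 := by
  rw [rk, Real.smoothTransition.zero_of_nonpos (by linarith), mul_zero, add_zero]

theorem rk_big (ρ : ℝ) {t : ℝ} (h : 64 / 25 ≤ t) : rk ρ t = 1 + |ρ| := by
  rw [rk, Real.smoothTransition.one_of_one_le (by linarith), mul_one]

/-- the radial fibre map -/
def rD (ρ : ℝ) (y : E × W) : E × W := (y.1, rk ρ (‖y.2‖ ^ 2) • y.2)

theorem contDiff_rD (ρ : ℝ) : ContDiff ℝ ∞ (rD (E := E) (W := W) ρ) := by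
  have h : ContDiff ℝ ∞ fun y : E × W => rk ρ (‖y.2‖ ^ 2) :=
    (contDiff_rk ρ).comp ((contDiff_norm_sq ℝ).comp contDiff_snd)
  exact contDiff_fst.prodMk (h.smul contDiff_snd)

theorem rD_mem {y : E × W} (hy : y ∈ Tot X Q) : rD ρ y ∈ Tot X Q := by
  refine ⟨hy.1, ?_⟩
  change Q y.1 (rk ρ (‖y.2‖ ^ 2) • y.2) = rk ρ (‖y.2‖ ^ 2) • y.2
  rw [map_smul, hy.2]

theorem smap_rD : SMap (Tot X Q) (Tot X Q) (rD ρ) :=
  ⟨fun _ _ => (contDiff_rD ρ).contDiffAt, fun _ hy => rD_mem hy⟩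

theorem rD_equi (hR : ∀ t w, ‖R t w‖ = ‖w‖) (t : ℝ) (y : E × W) :
    rD ρ (phR φ R t y) = phR φ R t (rD ρ y) := by
  refine Prod.ext rfl ?_
  change rk ρ (‖R t y.2‖ ^ 2) • R t y.2 = R t (rk ρ (‖y.2‖ ^ 2) • y.2)
  rw [hR, map_smul]

theorem norm_rD_le (y : E × W) : ‖y.2‖ ≤ ‖(rD ρ y).2‖ := by
  change ‖y.2‖ ≤ ‖rk ρ (‖y.2‖ ^ 2) • y.2‖
  rw [norm_smul, Real.norm_eq_abs, abs_of_nonneg (by linarith [one_le_rk ρ (‖y.2‖ ^ 2)])]
  exact le_mul_of_one_le_left (norm_nonneg _) (one_le_rk _ _)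

theorem lt_norm_rD {y : E × W} (hy : 64 / 25 ≤ ‖y.2‖ ^ 2) : ρ < ‖(rD ρ y).2‖ := by
  change ρ < ‖rk ρ (‖y.2‖ ^ 2) • y.2‖
  rw [rk_big ρ hy, norm_smul, Real.norm_eq_abs, abs_of_nonneg (by positivity)]
  have h1 : 8 / 5 ≤ ‖y.2‖ := by
    by_contra h
    push Not at h
    nlinarith [norm_nonneg y.2]
  have h2 := le_abs_self ρ
  nlinarith [abs_nonneg ρ]

variable {S : Set V} {om : V → Ext V} {θ0 : E → Ext E} {f1 : E × W → V}
  {lam' : E × W → Ext (E × W)} {p q : ℕ} {r s : ℝ}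

/-- **the model**, from a primitive with large support -/
theorem exists_mod (hsub : ∃ k, Sub k (Tot X Q)) (hact : Act X φ)
    (hT : Act (Tot X Q) (phR φ R)) (hR : ∀ t w, ‖R t w‖ = ‖w‖) (hcn : Cn X φ θ0)
    (hf : SMap (Tot X Q) S f1) (hdat : Dat S om)
    (hconst : ∀ y ∈ Tot X Q, 9 / 4 ≤ ‖y.2‖ ^ 2 → ∀ t, f1 (phR φ R t y) = f1 y)
    (sl : Sm (Tot X Q) lam') (il : Inv (Tot X Q) (phR φ R) lam')
    (hl : Hz (Tot X Q) (phR φ R) lam')
    (dl : Eqv (Tot X Q) (vv (phR φ R) (F.d (F.pull (fun y : E × W => y.1) θ0)) p q r s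
      (F.pull f1 om)) (F.d lam'))
    (supp : ∀ y ∈ Tot X Q, ρ < ‖y.2‖ → lam' y = 0) :
    ∃ lam : E × W → Ext (E × W),
      Mod S om (Tot X Q) (phR φ R) (F.pull (fun y : E × W => y.1) θ0) f1 lam p q r s ∧
      ∀ y ∈ Tot X Q, 64 / 25 ≤ ‖y.2‖ ^ 2 → lam y = 0 := by
  set Y := Tot X Q with hY
  set φY := phR φ R with hφY
  set D : E × W → E × W := rD ρ with hD
  have hDs : SMap Y Y D := smap_rD
  have hDe : ∀ t, ∀ y ∈ Y, D (φY t y) = φY t (D y) := fun t y _ => rD_equi hR t y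
  have hfst : SMap Y X (fun y : E × W => y.1) :=
    ⟨fun _ _ => contDiffAt_fst, fun _ hy => hy.1⟩
  have hcnY : Cn Y φY (F.pull (fun y : E × W => y.1) θ0) :=
    hcn.pull hact hT hfst fun t y hy => rfl
  obtain ⟨k, hk⟩ := hsub
  have he := hcnY.bas hT hk
  have hb : Dat Y (F.pull f1 om) := hdat.pull hf
  -- the pulled back primitive
  have h1 : Eqv Y (F.d (F.pull D lam')) (vv φY (F.d (F.pull (fun y : E × W => y.1) θ0)) p q r s
      (F.pull (fun y => f1 (D y)) om)) := by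
    refine (d_pull_eqv hDs sl).trans ((dl.symm.pull hDs).trans ?_)
    refine (nat_vv hT hT hDs hDe hb.sm).trans (eqv_vv hT (hb.sm.pull hDs)
      ((hdat.pull (hf.comp hDs)).sm) ?_ ?_)
    · exact Eqv.of_eq fun y hy => F.pull_comp (hDs.diff hy) (hf.diff (hDs.maps hy))
    · refine (d_pull_eqv hDs hcnY.sm).symm.trans ?_
      have e1 : Eqv Y (F.pull D (F.pull (fun y : E × W => y.1) θ0))
          (F.pull (fun y : E × W => y.1) θ0) := Eqv.of_eq fun y hy => by
        have d1 : DifferentiableAt ℝ (fun y : E × W => y.1) (D y) := differentiableAt_fst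
        rw [F.pull_comp (hDs.diff hy) d1]
        rfl
      exact e1.d hk (hcnY.sm.pull hDs) hcnY.sm
  -- the two families have the same form
  have h2 : Eqv Y (vv φY (F.d (F.pull (fun y : E × W => y.1) θ0)) p q r s
      (F.pull (fun y => f1 (D y)) om)) (vv φY (F.d (F.pull (fun y : E × W => y.1) θ0)) p q r s
      (F.pull f1 om)) := by
    refine eqv_iff.2 fun y hy => ?_
    have hfD := hf.comp hDs
    rcases lt_or_ge (‖y.2‖ ^ 2) (9 / 4) with h0 | h0
    · set U : Set (E × W) := {y | ‖y.2‖ ^ 2 < 9 / 4} with hU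
      have hUo : IsOpen U :=
        isOpen_lt ((continuous_norm.comp continuous_snd).pow 2) continuous_const
      have hTU : Act (Y ∩ U) φY := hT.mono inter_subset_left fun t x hx =>
        ⟨hT.maps t hx.1, by
          change ‖R t x.2‖ ^ 2 < 9 / 4
          rw [hR]; exact hx.2⟩
      refine eqv_of_open hUo (eqv_vv hTU ((hdat.pull hfD).sm.mono inter_subset_left)
        (hb.sm.mono inter_subset_left) ?_ (Eqv.refl _)) hy h0
      refine eqv_pull_of_eq om (fun x hx => hfD.diff hx.1) (fun x hx => hf.diff hx.1)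
        fun x hx => ?_
      have hx2 : ‖x.2‖ ^ 2 < 9 / 4 := hx.2
      change f1 (x.1, rk ρ (‖x.2‖ ^ 2) • x.2) = f1 x
      rw [rk_one ρ hx2.le, one_smul]
    · have hc1 := hconst y hy h0
      have hc2 : ∀ t, f1 (D (φY t y)) = f1 (D y) := fun t => by
        rw [hDe t y hy]
        refine hconst (D y) (hDs.maps hy) (h0.trans ?_) t
        exact pow_le_pow_left₀ (norm_nonneg _) (norm_rD_le y) 2
      have e1 := rs_vv_eq_zero (e := F.d (F.pull (fun y : E × W => y.1) θ0)) (p := p) (q := q)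
        (r := r) (s := s) hT hb.sm hy (ii_cv_pull hT hy (fun t => hf.diff (hT.maps t hy)) hc1)
      have e2 := rs_vv_eq_zero (e := F.d (F.pull (fun y : E × W => y.1) θ0)) (p := p) (q := q)
        (r := r) (s := s) hT (hdat.pull hfD).sm hy
        (ii_cv_pull hT hy (fun t => hfD.diff (hT.maps t hy)) hc2)
      rw [rsL_apply] at e1 e2
      rw [e1, e2]
  refine ⟨F.pull D lam', ⟨⟨k, hk⟩, hT, hf, hdat, hcnY, sl.pull hDs, Inv.pull hT hT hDs hDe il,
    Hz.pull hT hT hDs hDe hl, (h1.trans h2).symm⟩, fun y hy h0 => ?_⟩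
  rw [F.pull, supp (D y) (hDs.maps hy) (lt_norm_rD h0), map_zero]

end Crest.Agent.R208.EX
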