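import Crest.Agent.R208.MS2c

/-!
R208, block MS4 (helper683): `push` from one energy decreasing step (MS2) and Palais-Smale (MS3).
Finitely many steps bring every loop of energy `≤ B` below the level `π` (the energy of the prime
closed geodesics) or `ε`-close (in `C⁰` and `H¹`) to a prime closed geodesic.
-/

set_option autoImplicit false

open Set Filter Topology MeasureTheory
open scoped ContDiff RealInnerProductSpace Real
open Crest.GeometryTopology.Submanifold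
open Crest.Agent.R241.DDefs Crest.Agent.R241.D Crest.Agent.R241.D2

noncomputable section

namespace Crest.Agent.R208.MS

/-! ### The combinatorial core -/

section core

variable {E g : ℕ → ℝ}

theorem core_tele (h : ∀ j, E (j + 1) ≤ E j - g j / 8) {l j : ℕ} (hlj : l ≤ j) :
    E j ≤ E l - (∑ i ∈ Finset.Ico l j, g i) / 8 := by
  induction j, hlj using Nat.le_induction with
  | base => simp
  | succ j hj ih =>
    rw [Finset.sum_Ico_succ_top hj]
    have := h j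
    linarith

theorem core_mono (hg : ∀ j, 0 ≤ g j) (h : ∀ j, E (j + 1) ≤ E j - g j / 8) {l j : ℕ}
    (hlj : l ≤ j) : E j ≤ E l := by
  have h1 := core_tele h hlj
  have h2 : 0 ≤ ∑ i ∈ Finset.Ico l j, g i := Finset.sum_nonneg fun i _ => hg i
  linarith

/-- the two phase argument: `Nr j r` means "the `j`-th loop is `r`-close to a prime closed
geodesic" -/
theorem core {Nr : ℕ → ℝ → Prop} {K B ε σ' σ₁ η₁ κ : ℝ} (hK : 0 < K) (hε : 0 < ε)
    (hσ' : 0 < σ')
    (hg : ∀ j, 0 ≤ g j) (hE : ∀ j, 0 ≤ E j) (hEB : E 0 ≤ B)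
    (h : ∀ j, E (j + 1) ≤ E j - g j / 8)
    (hmono : ∀ j r r', r ≤ r' → Nr j r → Nr j r')
    (hN : ∀ j r, Nr j r → Nr (j + 1) (r + √(K * g j)))
    (hc : ∀ j, g j ≤ σ' → E j ≤ 1 ∨ Nr j (ε / 2))
    (hd : ∀ j, g j ≤ σ₁ → E j ≤ 1 ∨ Nr j η₁)
    (hη₁ : η₁ ≤ ε / 2)
    (he : ∀ j, Nr j η₁ → E j ≤ π + κ / 2)
    (hκ1 : κ ≤ ε ^ 2 / (128 * K)) (hκ2 : κ ≤ ε * √σ' / (32 * √K)) (hκ3 : κ ≤ 1)
    {J : ℕ} (hJ : 8 * B < J * σ₁) :
    E J ≤ π - κ / 2 ∨ Nr J ε := by
  have hpi : (3 : ℝ) < π := Real.pi_gt_three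
  by_cases hNJ : Nr J ε
  · exact Or.inr hNJ
  left
  -- phase one: some `j₀ < J` with small gradient
  obtain ⟨j₀, hj₀, hj₀'⟩ : ∃ j₀ < J, g j₀ ≤ σ₁ := by
    by_contra hcon
    push Not at hcon
    have h1 := core_tele h (Nat.zero_le J)
    have h2 : (J : ℝ) * σ₁ ≤ ∑ i ∈ Finset.Ico 0 J, g i := by
      have h3 : ∑ i ∈ Finset.Ico 0 J, σ₁ ≤ ∑ i ∈ Finset.Ico 0 J, g i :=
        Finset.sum_le_sum fun i hi => (hcon i (Finset.mem_Ico.1 hi).2).le
      simpa using h3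
    have h4 := hE J
    linarith
  rcases hd j₀ hj₀' with h1 | h1
  · have := core_mono hg h hj₀.le
    linarith
  have hE0 := he j₀ h1
  -- the last index `l` in `[j₀, J)` where the loop is `ε / 2`-close
  have hex : ∃ l, j₀ ≤ l ∧ l < J ∧ Nr l (ε / 2) ∧ ∀ i, l < i → i < J → ¬ Nr i (ε / 2) := by
    classical
    let s := (Finset.Ico j₀ J).filter fun i => Nr i (ε / 2)
    have hs : s.Nonempty := ⟨j₀, by
      simp only [s, Finset.mem_filter, Finset.mem_Ico]
      exact ⟨⟨le_rfl, hj₀⟩, hmono _ _ _ hη₁ h1⟩⟩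
    have h2 := s.max'_mem hs
    simp only [s, Finset.mem_filter, Finset.mem_Ico] at h2
    refine ⟨s.max' hs, h2.1.1, h2.1.2, h2.2, fun i hi hiJ hcon => ?_⟩
    have h3 : i ∈ s := by
      simp only [s, Finset.mem_filter, Finset.mem_Ico]
      exact ⟨⟨h2.1.1.trans hi.le, hiJ⟩, hcon⟩
    exact absurd (s.le_max' i h3) (not_le.2 hi)
  obtain ⟨l, hl1, hl2, hl3, hl4⟩ := hex
  -- all later gradients are large, or the energy is small
  by_cases hsm : ∃ i, l < i ∧ i < J ∧ E i ≤ 1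
  · obtain ⟨i, _, hi2, hi3⟩ := hsm
    have := core_mono hg h hi2.le
    linarith
  push Not at hsm
  have hbig : ∀ i, l < i → i < J → σ' < g i := by
    intro i h2 h3
    by_contra hcon
    rcases hc i (not_lt.1 hcon) with h4 | h4
    · exact absurd h4 (not_le.2 (hsm i h2 h3))
    · exact hl4 i h2 h3 h4
  -- the chain of closeness
  have hchain : ∀ j, l ≤ j → Nr j (ε / 2 + ∑ i ∈ Finset.Ico l j, √(K * g i)) := by
    intro j hj
    induction j, hj using Nat.le_induction with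
    | base => simpa using hl3
    | succ j hj ih =>
      rw [Finset.sum_Ico_succ_top hj, ← add_assoc]
      exact hN _ _ ih
  have hsum : ε / 2 < ∑ i ∈ Finset.Ico l J, √(K * g i) := by
    by_contra hcon
    exact hNJ (hmono _ _ _ (by linarith [not_lt.1 hcon]) (hchain J hl2.le))
  rw [Finset.sum_eq_sum_Ico_succ_bot hl2] at hsum
  have htele := core_tele h hl2.le
  rw [Finset.sum_eq_sum_Ico_succ_bot hl2] at htele
  have hEl := core_mono hg h hl1
  have hrest : 0 ≤ ∑ i ∈ Finset.Ico (l + 1) J, g i := Finset.sum_nonneg fun i _ => hg i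
  have hgl := hg l
  have hsK : 0 < √K := Real.sqrt_pos.2 hK
  have hsσ : 0 < √σ' := Real.sqrt_pos.2 hσ'
  have hdrop : κ ≤ (g l + ∑ i ∈ Finset.Ico (l + 1) J, g i) / 8 := by
    by_cases hcase : ε / 4 < √(K * g l)
    · have h2 : (ε / 4) ^ 2 < K * g l := by
        have h3 : (ε / 4) ^ 2 < √(K * g l) ^ 2 := pow_lt_pow_left₀ hcase (by positivity) two_ne_zero
        rwa [Real.sq_sqrt (by positivity)] at h3
      have h3 : ε ^ 2 / (128 * K) ≤ g l / 8 := by
        rw [div_le_iff₀ (by positivity)]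
        nlinarith
      linarith
    · have h2 : ε / 4 < ∑ i ∈ Finset.Ico (l + 1) J, √(K * g i) := by linarith [not_lt.1 hcase]
      have h3 : ∑ i ∈ Finset.Ico (l + 1) J, √(K * g i) ≤
          ∑ i ∈ Finset.Ico (l + 1) J, √K * (g i / √σ') := by
        refine Finset.sum_le_sum fun i hi => ?_
        rw [Finset.mem_Ico] at hi
        rw [Real.sqrt_mul hK.le]
        refine mul_le_mul_of_nonneg_left ?_ hsK.le
        rw [le_div_iff₀ hsσ]
        have h4 := hbig i (by omega) hi.2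
        calc √(g i) * √σ' ≤ √(g i) * √(g i) :=
              mul_le_mul_of_nonneg_left (Real.sqrt_le_sqrt h4.le) (Real.sqrt_nonneg _)
          _ = g i := Real.mul_self_sqrt (hg i)
      have h4 : ∑ i ∈ Finset.Ico (l + 1) J, √K * (g i / √σ') =
          (√K / √σ') * ∑ i ∈ Finset.Ico (l + 1) J, g i := by
        rw [Finset.mul_sum]
        exact Finset.sum_congr rfl fun i _ => by ring
      rw [h4] at h3
      have h5 : ε / 4 < (√K / √σ') * ∑ i ∈ Finset.Ico (l + 1) J, g i := h2.trans_le h3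
      have h6 : ε * √σ' / (32 * √K) ≤ (∑ i ∈ Finset.Ico (l + 1) J, g i) / 8 := by
        rw [div_le_iff₀ (by positivity)]
        have h7 : ε / 4 * √σ' < √K * ∑ i ∈ Finset.Ico (l + 1) J, g i := by
          have := mul_lt_mul_of_pos_right h5 hsσ
          rwa [show √K / √σ' * (∑ i ∈ Finset.Ico (l + 1) J, g i) * √σ' =
            √K * ∑ i ∈ Finset.Ico (l + 1) J, g i by field_simp] at this
        nlinarith
      linarith
  linarith

end core

/-! ### Minkowski's inequality for continuous functions -/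

theorem mink {F : Type*} [NormedAddCommGroup F] {a b : ℝ → F} (ha : Continuous a)
    (hb : Continuous b) {L A B' : ℝ} (hL : 0 ≤ L) (hA : 0 ≤ A) (hB : 0 ≤ B')
    (h1 : ∫ t in (0:ℝ)..L, ‖a t‖ ^ 2 ≤ A ^ 2) (h2 : ∫ t in (0:ℝ)..L, ‖b t‖ ^ 2 ≤ B' ^ 2) :
    ∫ t in (0:ℝ)..L, ‖a t + b t‖ ^ 2 ≤ (A + B') ^ 2 := by
  -- first with positive bounds
  have key : ∀ A B' : ℝ, 0 < A → 0 < B' → ∫ t in (0:ℝ)..L, ‖a t‖ ^ 2 ≤ A ^ 2 →
      ∫ t in (0:ℝ)..L, ‖b t‖ ^ 2 ≤ B' ^ 2 →
      ∫ t in (0:ℝ)..L, ‖a t + b t‖ ^ 2 ≤ (A + B') ^ 2 := by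
    intro A B' hA hB h1 h2
    have h3 : ∫ t in (0:ℝ)..L, ‖a t + b t‖ ^ 2 ≤
        ∫ t in (0:ℝ)..L, ((1 + B' / A) * ‖a t‖ ^ 2 + (1 + A / B') * ‖b t‖ ^ 2) := by
      refine intervalIntegral.integral_mono_on hL ?_ ?_ fun t _ => ?_
      · exact Continuous.intervalIntegrable (by fun_prop) _ _
      · exact Continuous.intervalIntegrable (by fun_prop) _ _
      · have h4 : ‖a t + b t‖ ≤ ‖a t‖ + ‖b t‖ := norm_add_le _ _
        have h5 : ‖a t + b t‖ ^ 2 ≤ (‖a t‖ + ‖b t‖) ^ 2 :=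
          pow_le_pow_left₀ (norm_nonneg _) h4 2
        have h6 : 2 * ‖a t‖ * ‖b t‖ ≤ B' / A * ‖a t‖ ^ 2 + A / B' * ‖b t‖ ^ 2 := by
          have h7 : B' / A * ‖a t‖ ^ 2 + A / B' * ‖b t‖ ^ 2 - 2 * ‖a t‖ * ‖b t‖ =
              (B' * ‖a t‖ - A * ‖b t‖) ^ 2 / (A * B') := by
            field_simp
            ring
          have h8 : 0 ≤ (B' * ‖a t‖ - A * ‖b t‖) ^ 2 / (A * B') := by positivity
          linarith
        nlinarith
    rw [intervalIntegral.integral_add (Continuous.intervalIntegrable (by fun_prop) _ _)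
      (Continuous.intervalIntegrable (by fun_prop) _ _), intervalIntegral.integral_const_mul,
      intervalIntegral.integral_const_mul] at h3
    refine h3.trans ?_
    have h4 : (1 + B' / A) * ∫ t in (0:ℝ)..L, ‖a t‖ ^ 2 ≤ (1 + B' / A) * A ^ 2 :=
      mul_le_mul_of_nonneg_left h1 (by positivity)
    have h5 : (1 + A / B') * ∫ t in (0:ℝ)..L, ‖b t‖ ^ 2 ≤ (1 + A / B') * B' ^ 2 :=
      mul_le_mul_of_nonneg_left h2 (by positivity)
    have h6 : (1 + B' / A) * A ^ 2 + (1 + A / B') * B' ^ 2 = (A + B') ^ 2 := by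
      field_simp
      ring
    linarith
  have hlim : Tendsto (fun η : ℝ => (A + η + (B' + η)) ^ 2) (𝓝[>] 0) (𝓝 ((A + B') ^ 2)) := by
    have : Tendsto (fun η : ℝ => (A + η + (B' + η)) ^ 2) (𝓝 0) (𝓝 ((A + 0 + (B' + 0)) ^ 2)) := by
      apply Continuous.tendsto
      fun_prop
    simp only [add_zero] at this
    exact this.mono_left nhdsWithin_le_nhds
  refine ge_of_tendsto hlim ?_
  filter_upwards [self_mem_nhdsWithin] with η hη
  have hη' : (0:ℝ) < η := hη
  exact key (A + η) (B' + η) (by positivity) (by positivity)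
    (h1.trans (pow_le_pow_left₀ hA (by linarith) 2)) (h2.trans (pow_le_pow_left₀ hB (by linarith) 2))

variable {n N : ℕ} {κ : ℝ} {S : Set (Euc N)} (G : Geo n N κ S)

/-! ### Closed geodesics -/

theorem hasDerivAt_Exp_smul {x v : Euc N} (hx : x ∈ S) (hv : v ∈ G.T x) (t : ℝ) :
    HasDerivAt (fun s : ℝ => Exp G x (s • v)) (fl G ((x, v), t)).2 t := by
  have h1 : (fun s : ℝ => Exp G x (s • v)) = fun s => (fl G ((x, v), s)).1 := by
    funext s
    exact Exp_smul G hx hv s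
  rw [h1]
  exact hda_fst (hasDerivAt_fl G (complete G (q := (x, v)) ⟨hx, hv⟩ t))

theorem contDiff_Exp_smul {x v : Euc N} (hx : x ∈ S) (hv : v ∈ G.T x) :
    ContDiff ℝ ∞ (fun s : ℝ => Exp G x (s • v)) := by
  have h1 : (fun s : ℝ => Exp G x (s • v)) = fun s => (fl G ((x, v), s)).1 := by
    funext s
    exact Exp_smul G hx hv s
  rw [h1, contDiff_iff_contDiffAt]
  intro t
  have h2 := contDiffAt_fl' G (q := (x, v)) ⟨hx, hv⟩ t
  have h3 : ContDiffAt ℝ ∞ (fun s : ℝ => ((x, v), s)) t := by fun_prop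
  exact (ContDiffAt.comp t h2 h3).fst

theorem norm_deriv_Exp_smul {x v : Euc N} (hx : x ∈ S) (hv : v ∈ G.T x) (t : ℝ) :
    ‖deriv (fun s : ℝ => Exp G x (s • v)) t‖ = ‖v‖ := by
  rw [(hasDerivAt_Exp_smul G hx hv t).deriv]
  exact norm_fl G (q := (x, v)) ⟨hx, hv⟩ t

theorem En_geod {x v : Euc N} (hx : x ∈ S) (hv : v ∈ G.T x) :
    En (fun s : ℝ => Exp G x (s • v)) = π * ‖v‖ ^ 2 := by
  unfold En
  simp only [norm_deriv_Exp_smul G hx hv]
  rw [intervalIntegral.integral_const]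
  simp only [sub_zero, smul_eq_mul]
  ring

theorem gr_nonneg {lg : Euc N → Euc N → Euc N} {w : ℝ} (hw : 0 ≤ w) (c : ℝ → Euc N) :
    0 ≤ gr G lg w c := by
  unfold gr
  refine mul_nonneg (by positivity) ?_
  refine intervalIntegral.integral_nonneg (by positivity) fun s _ => ?_
  exact intervalIntegral.integral_nonneg hw fun t _ => by positivity

/-! ### Closeness -/

theorem Close.mono {η η' : ℝ} {c γ : ℝ → Euc N} (h : Close η c γ) (h0 : 0 ≤ η) (hη : η ≤ η') :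
    Close η' c γ where
  sup t := (h.sup t).trans hη
  h1 := h.h1.trans (pow_le_pow_left₀ h0 hη 2)

theorem Close.nonneg {η : ℝ} {c γ : ℝ → Euc N} (h : Close η c γ) : 0 ≤ η :=
  (norm_nonneg _).trans (h.sup 0)

theorem Close.trans {η η' : ℝ} {c c' γ : ℝ → Euc N} (h : Close η c γ) (h' : Close η' c' c)
    (hc : ContDiff ℝ ∞ c) (hc' : ContDiff ℝ ∞ c') (hγ : ContDiff ℝ ∞ γ) :
    Close (η + η') c' γ where
  sup t := by
    have h1 : c' t - γ t = (c t - γ t) + (c' t - c t) := by abel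
    rw [h1]
    exact (norm_add_le _ _).trans (add_le_add (h.sup t) (h'.sup t))
  h1 := by
    have h2 := mink (a := fun t => deriv c t - deriv γ t) (b := fun t => deriv c' t - deriv c t)
      ((hc.continuous_deriv (by simp)).sub (hγ.continuous_deriv (by simp)))
      ((hc'.continuous_deriv (by simp)).sub (hc.continuous_deriv (by simp)))
      (L := 2 * π) (by positivity) h.nonneg h'.nonneg h.h1 h'.h1
    have h3 : ∀ t, deriv c t - deriv γ t + (deriv c' t - deriv c t) = deriv c' t - deriv γ t :=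
      fun t => by abel
    simpa only [h3] using h2

theorem Close.En_le {η : ℝ} {c γ : ℝ → Euc N} (h : Close η c γ)
    (hc : ContDiff ℝ ∞ c) (hγ : ContDiff ℝ ∞ γ) :
    En c ≤ En γ + η * √(2 * En γ) + η ^ 2 / 2 := by
  have h0 := h.nonneg
  have hE := En_nonneg γ
  have h2 := mink (a := fun t => deriv c t - deriv γ t) (b := fun t => deriv γ t)
    ((hc.continuous_deriv (by simp)).sub (hγ.continuous_deriv (by simp)))
    (hγ.continuous_deriv (by simp))
    (L := 2 * π) (A := η) (B' := √(2 * En γ)) (by positivity) h0 (Real.sqrt_nonneg _) h.h1 (by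
      rw [Real.sq_sqrt (by positivity)]
      unfold En
      linarith)
  simp only [sub_add_cancel] at h2
  have h3 : En c = (1 / 2) * ∫ t in (0:ℝ)..(2 * π), ‖deriv c t‖ ^ 2 := rfl
  have h4 : √(2 * En γ) ^ 2 = 2 * En γ := Real.sq_sqrt (by positivity)
  rw [h3]
  nlinarith

theorem NearUM.mono {η η' : ℝ} {c : ℝ → Euc N} (h : NearUM G η c) (hη : η ≤ η') :
    NearUM G η' c := by
  obtain ⟨x, hx, v, hv, h1, h2⟩ := h
  exact ⟨x, hx, v, hv, h1, h2.mono h2.nonneg hη⟩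

theorem NearUM.En_le {η : ℝ} {c : ℝ → Euc N} (h : NearUM G η c) (hc : ContDiff ℝ ∞ c)
    (hη : η ≤ 1) : En c ≤ π + 4 * η := by
  obtain ⟨x, hx, v, hv, h1, h2⟩ := h
  have h3 := h2.En_le hc (contDiff_Exp_smul G hx hv)
  have h0 := h2.nonneg
  rw [En_geod G hx hv, h1] at h3
  have h4 : √(2 * (π * 1 ^ 2)) ≤ 3 := by
    rw [Real.sqrt_le_left (by norm_num)]
    have := Real.pi_lt_four
    linarith
  have h5 : η * √(2 * (π * 1 ^ 2)) ≤ η * 3 := mul_le_mul_of_nonneg_left h4 h0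
  have h6 : η ^ 2 ≤ η * 1 := by
    rw [sq]
    exact mul_le_mul_of_nonneg_left hη h0
  rw [one_pow, mul_one] at h3 h5
  refine h3.trans ?_
  linarith

theorem NearUM.step {η η' : ℝ} {c c' : ℝ → Euc N} (h : NearUM G η c) (h' : Close η' c' c)
    (hc : ContDiff ℝ ∞ c) (hc' : ContDiff ℝ ∞ c') : NearUM G (η + η') c' := by
  obtain ⟨x, hx, v, hv, h1, h2⟩ := h
  exact ⟨x, hx, v, hv, h1, h2.trans h' hc hc' (contDiff_Exp_smul G hx hv)⟩

/-! ### The theorem -/

variable {G} {lg : Euc N → Euc N → Euc N} {ρ : Euc N → Euc N} {w K B : ℝ}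

/-- the properties of one step used here (MS2) -/
def StepOK (G : Geo n N κ S) (lg : Euc N → Euc N → Euc N) (ρ : Euc N → Euc N) (w K B : ℝ) :
    Prop :=
  ∀ c, Loop S c → En c ≤ B → Loop S (st G lg ρ w 1 c) ∧
    En (st G lg ρ w 1 c) ≤ En c - gr G lg w c / 8 ∧
    (∀ t, ‖st G lg ρ w 1 c t - c t‖ ^ 2 ≤ K * gr G lg w c) ∧
    ∫ t in (0:ℝ)..(2 * π), ‖deriv (st G lg ρ w 1 c) t - deriv c t‖ ^ 2 ≤ K * gr G lg w c

/-- Palais-Smale (MS3) -/
def PSOK (G : Geo n N κ S) (lg : Euc N → Euc N → Euc N) (w B : ℝ) : Prop :=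
  ∀ η > 0, ∃ σ > 0, ∀ c, Loop S c → En c ≤ B → gr G lg w c ≤ σ → En c ≤ η ∨ NearUM G η c

/-- the iterates -/
theorem StepOK.iter (hw : 0 ≤ w) (h : StepOK G lg ρ w K B) {c : ℝ → Euc N} (hc : Loop S c)
    (hB : En c ≤ B) (j : ℕ) : Loop S ((st G lg ρ w 1)^[j] c) ∧ En ((st G lg ρ w 1)^[j] c) ≤ En c := by
  induction j with
  | zero => exact ⟨hc, le_rfl⟩
  | succ j ih =>
    rw [Function.iterate_succ_apply']
    have h1 := h _ ih.1 (ih.2.trans hB)
    have h2 := gr_nonneg G (lg := lg) hw ((st G lg ρ w 1)^[j] c)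
    exact ⟨h1.1, by linarith [h1.2.1, ih.2]⟩

theorem push (hw : 0 ≤ w) (hK : 0 ≤ K) (hstep : StepOK G lg ρ w K B) (hps : PSOK G lg w B)
    {ε : ℝ} (hε : 0 < ε) :
    ∃ J : ℕ, ∃ δ : ℝ, 0 < δ ∧ ∀ c, Loop S c → En c ≤ B → ∀ j, J ≤ j →
      En ((st G lg ρ w 1)^[j] c) ≤ π - δ ∨ NearUM G ε ((st G lg ρ w 1)^[j] c) := by
  -- enlarge `K`
  set K' := K + 1 with hK'
  have hK'0 : 0 < K' := by positivity
  obtain ⟨σ', hσ', hσ'2⟩ := hps (min (ε / 2) 1) (by positivity)
  set κ' := min (min (ε ^ 2 / (128 * K')) (ε * √σ' / (32 * √K'))) 1 with hκ'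
  have hκ'0 : 0 < κ' := by
    have h1 : 0 < √K' := Real.sqrt_pos.2 hK'0
    have h2 : 0 < √σ' := Real.sqrt_pos.2 hσ'
    exact lt_min (lt_min (by positivity) (by positivity)) one_pos
  set η₁ := min (ε / 2) (κ' / 8) with hη₁
  have hη₁0 : 0 < η₁ := lt_min (by positivity) (by positivity)
  have hκ'1 : κ' ≤ 1 := min_le_right _ _
  have hη₁1 : η₁ ≤ κ' / 8 := min_le_right _ _
  obtain ⟨σ₁, hσ₁, hσ₁2⟩ := hps η₁ hη₁0
  obtain ⟨J, hJ⟩ := exists_nat_gt (8 * B / σ₁)
  refine ⟨J, κ' / 2, by positivity, fun c hc hcB j hj => ?_⟩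
  have hit := fun i => hstep.iter hw hc hcB i
  have hst := fun i => hstep _ (hit i).1 ((hit i).2.trans hcB)
  have hgn := fun i => gr_nonneg G (lg := lg) hw ((st G lg ρ w 1)^[i] c)
  refine core (E := fun i => En ((st G lg ρ w 1)^[i] c))
    (g := fun i => gr G lg w ((st G lg ρ w 1)^[i] c))
    (Nr := fun i r => NearUM G r ((st G lg ρ w 1)^[i] c)) (K := K') (B := B) (σ' := σ')
    (σ₁ := σ₁) (η₁ := η₁) hK'0 hε hσ' hgn (fun i => En_nonneg _) hcB ?_ ?_ ?_ ?_ ?_
    (min_le_left _ _) ?_ ((min_le_left _ _).trans (min_le_left _ _))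
    ((min_le_left _ _).trans (min_le_right _ _)) hκ'1 ?_
  · intro i
    have := (hst i).2.1
    rw [Function.iterate_succ_apply']
    exact this
  · intro i r r' hr hN
    exact hN.mono G hr
  · intro i r hN
    have h1 := hst i
    rw [Function.iterate_succ_apply']
    refine hN.step G ?_ (hit i).1.smooth h1.1.smooth
    have h2 : K * gr G lg w ((st G lg ρ w 1)^[i] c) ≤ K' * gr G lg w ((st G lg ρ w 1)^[i] c) :=
      mul_le_mul_of_nonneg_right (by linarith) (hgn i)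
    have h3 : 0 ≤ K' * gr G lg w ((st G lg ρ w 1)^[i] c) := mul_nonneg hK'0.le (hgn i)
    refine ⟨fun t => Real.le_sqrt_of_sq_le ((h1.2.2.1 t).trans h2), ?_⟩
    rw [Real.sq_sqrt h3]
    exact h1.2.2.2.trans h2
  · intro i hi
    rcases hσ'2 _ (hit i).1 ((hit i).2.trans hcB) hi with h1 | h1
    · exact Or.inl (h1.trans (min_le_right _ _))
    · exact Or.inr (h1.mono G (min_le_left _ _))
  · intro i hi
    rcases hσ₁2 _ (hit i).1 ((hit i).2.trans hcB) hi with h1 | h1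
    · exact Or.inl (h1.trans (by linarith))
    · exact Or.inr h1
  · intro i hi
    have := hi.En_le G (hit i).1.smooth (by linarith)
    linarith
  · rw [div_lt_iff₀ hσ₁] at hJ
    have h1 : (J : ℝ) * σ₁ ≤ (j : ℝ) * σ₁ :=
      mul_le_mul_of_nonneg_right (by exact_mod_cast hj) hσ₁.le
    linarith

end Crest.Agent.R208.MS
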