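import Crest.Agent.R208.MS2e
import Crest.Agent.R208.MS4

/-!
R208, block FL (helper613), part FL1: energy facts for the averaged Birkhoff step used by the
choice free contraction below the level `π`: every intermediate step `st σ`, `0 ≤ σ ≤ 1`, does not
increase the energy; finitely many steps bring `En ≤ E₀ < π` to `En ≤ η`.
-/

set_option autoImplicit false

open Set Filter Topology MeasureTheory
open scoped ContDiff RealInnerProductSpace Real
open Crest.GeometryTopology.Submanifold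
open Crest.Agent.R241.DDefs Crest.Agent.R241.D Crest.Agent.R241.D2

noncomputable section

namespace Crest.Agent.R208.FL

open Crest.Agent.R208.MS

variable {n N : ℕ} {κ : ℝ} {S : Set (Euc N)} {G : Geo n N κ S} {lg : Euc N → Euc N → Euc N}
  {ρ : Euc N → Euc N} {r C r' K B : ℝ} {c : ℝ → Euc N} {w : ℝ}

/-- the mixture -/
def mix (G : Geo n N κ S) (lg : Euc N → Euc N → Euc N) (w σ : ℝ) (c : ℝ → Euc N) (t : ℝ) :
    Euc N := (1 - σ) • c t + σ • av G lg w c t

section est

variable (hsg : SG G lg r C) (hR : Retr S ρ r' K) (hc : Loop S c) (hB : En c ≤ B)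
  (hs : Small r C r' K B w)

include hsg hc hB hs in
theorem mix_sub_sq (t : ℝ) {σ : ℝ} (h0 : 0 ≤ σ) (h1 : σ ≤ 1) :
    ‖mix G lg w σ c t - c t‖ ^ 2 ≤ σ * dd G lg w c t := by
  have h2 : mix G lg w σ c t - c t = σ • (av G lg w c t - c t) := by unfold mix; module
  rw [h2, norm_smul, Real.norm_eq_abs, abs_of_nonneg h0, mul_pow]
  have h3 := av_sub_le hsg hc hB hs t
  have h4 : σ ^ 2 ≤ σ := by nlinarith
  have h5 := dd_nonneg (G := G) (lg := lg) (c := c) hs t
  calc σ ^ 2 * ‖av G lg w c t - c t‖ ^ 2 ≤ σ * ‖av G lg w c t - c t‖ ^ 2 :=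
        mul_le_mul_of_nonneg_right h4 (by positivity)
    _ ≤ σ * dd G lg w c t := mul_le_mul_of_nonneg_left h3 h0

include hsg hc hB hs in
theorem mix_sub_Y_sq (t a : ℝ) {σ : ℝ} (h0 : 0 ≤ σ) (h1 : σ ≤ 1) :
    ‖mix G lg w σ c t - PP G lg w c (t - a) a‖ ^ 2 ≤
      2 * dd G lg w c t + 2 * ‖PP G lg w c (t - a) a - c t‖ ^ 2 := by
  have h2 := mix_sub_sq hsg hc hB hs t h0 h1
  have h5 := dd_nonneg (G := G) (lg := lg) (c := c) hs t
  have h2' : ‖mix G lg w σ c t - c t‖ ^ 2 ≤ dd G lg w c t :=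
    h2.trans (mul_le_of_le_one_left h5 h1)
  have h3 : ‖mix G lg w σ c t - PP G lg w c (t - a) a‖ ≤
      ‖mix G lg w σ c t - c t‖ + ‖PP G lg w c (t - a) a - c t‖ := by
    have : mix G lg w σ c t - PP G lg w c (t - a) a =
      (mix G lg w σ c t - c t) - (PP G lg w c (t - a) a - c t) := by abel
    rw [this]
    exact norm_sub_le _ _
  have h4 := pow_le_pow_left₀ (norm_nonneg _) h3 2
  nlinarith [sq_nonneg (‖mix G lg w σ c t - c t‖ - ‖PP G lg w c (t - a) a - c t‖)]

include hsg hc hB hs in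
theorem mix_close_Y (hr' : 0 < r') (t : ℝ) {a : ℝ} (ha : a ∈ Icc 0 w) {σ : ℝ} (h0 : 0 ≤ σ)
    (h1 : σ ≤ 1) : ‖mix G lg w σ c t - PP G lg w c (t - a) a‖ < r' := by
  have h2 := mix_sub_Y_sq hsg hc hB hs t a h0 h1
  have h3 := dd_le hsg hc hB hs t
  have h4 := Y_sub_le hsg hc hB hs t ha
  have h5 := UU_le hsg hc hB hs (t - a)
  have h6 := hs.s3
  have h7 : w * UU G lg w c (t - a) ≤ w * (4 * B) := mul_le_mul_of_nonneg_left h5 hs.pos.le
  refine lt_of_pow_lt_pow_left₀ 2 hr'.le ?_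
  nlinarith

include hsg hR hc hB hs in
/-- the retraction moves the mixture by a second order amount -/
theorem ret_mix_le (t : ℝ) {σ : ℝ} (h0 : 0 ≤ σ) (h1 : σ ≤ 1) :
    ‖ρ (mix G lg w σ c t) - mix G lg w σ c t‖ ≤ 5 * K * (σ * dd G lg w c t) := by
  have hw := hs.pos
  have hcl := hs.close hsg.r_pos hc hB
  set q := mix G lg w σ c t with hq
  set Y : ℝ → Euc N := fun a => PP G lg w c (t - a) a with hY
  have hYc : Continuous Y := cPP hsg hc hB hs t
  have hK : 0 ≤ K := zero_le_one.trans hR.one_le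
  have hd0 := dd_nonneg (G := G) (lg := lg) (c := c) hs t
  set A : Euc N := (1 / w) • ∫ a in (0:ℝ)..w, (ρ q - Y a - fderiv ℝ ρ q (q - Y a)) with hA
  set A0 : Euc N := ρ q - c t - fderiv ℝ ρ q (q - c t) with hA0
  have hmain : ρ q - q = (1 - σ) • A0 + σ • A := by
    have e0 : A = ρ q - av G lg w c t - fderiv ℝ ρ q (q - av G lg w c t) := by
      have hi : IntervalIntegrable (fun a => q - Y a) volume 0 w :=
        (continuous_const.sub hYc).intervalIntegrable _ _
      have hi' : IntervalIntegrable (fun a => ρ q - Y a) volume 0 w :=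
        (continuous_const.sub hYc).intervalIntegrable _ _
      have e1 : ∀ x : Euc N, (1 / w) • ∫ a in (0:ℝ)..w, (x - Y a) = x - av G lg w c t := by
        intro x
        rw [intervalIntegral.integral_sub intervalIntegrable_const (hYc.intervalIntegrable _ _),
          intervalIntegral.integral_const, sub_zero, smul_sub, smul_smul,
          one_div_mul_cancel hw.ne', one_smul, av_eq]
      have hi2 : IntervalIntegrable (fun a => fderiv ℝ ρ q (q - Y a)) volume 0 w :=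
        Continuous.intervalIntegrable
          ((fderiv ℝ ρ q).continuous.comp (continuous_const.sub hYc)) _ _
      rw [hA, intervalIntegral.integral_sub hi' hi2,
        ContinuousLinearMap.intervalIntegral_comp_comm _ hi, smul_sub, ← map_smul, e1, e1]
    have e2 : q = (1 - σ) • c t + σ • av G lg w c t := rfl
    have e3 : (1 - σ) • (q - c t) + σ • (q - av G lg w c t) = 0 := by
      rw [smul_sub, smul_sub]
      have : (1 - σ) • q + σ • q = q := by rw [← add_smul, sub_add_cancel, one_smul]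
      calc (1 - σ) • q - (1 - σ) • c t + (σ • q - σ • av G lg w c t) =
          ((1 - σ) • q + σ • q) - ((1 - σ) • c t + σ • av G lg w c t) := by abel
        _ = 0 := by rw [this, ← e2, sub_self]
    have e4 : (1 - σ) • fderiv ℝ ρ q (q - c t) + σ • fderiv ℝ ρ q (q - av G lg w c t) = 0 := by
      rw [← map_smul, ← map_smul, ← map_add, e3, map_zero]
    rw [e0, hA0]
    have e5 : (1 - σ) • (ρ q - c t - fderiv ℝ ρ q (q - c t)) +
        σ • (ρ q - av G lg w c t - fderiv ℝ ρ q (q - av G lg w c t)) =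
        (((1 - σ) • ρ q + σ • ρ q) - ((1 - σ) • c t + σ • av G lg w c t)) -
          ((1 - σ) • fderiv ℝ ρ q (q - c t) + σ • fderiv ℝ ρ q (q - av G lg w c t)) := by
      simp only [smul_sub]
      abel
    rw [e5, e4, ← add_smul, sub_add_cancel, one_smul, sub_zero, ← e2]
  have hqc : ‖q - c t‖ ^ 2 ≤ σ * dd G lg w c t := mix_sub_sq hsg hc hB hs t h0 h1
  have hA0le : ‖A0‖ ≤ K * (σ * dd G lg w c t) := by
    refine (hR.taylor (c t) (hc.mem t) q (mix_close hsg hc hB hs hR.r_pos h0 h1 t)).trans ?_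
    exact mul_le_mul_of_nonneg_left hqc hK
  have hAle : ‖A‖ ≤ 4 * K * dd G lg w c t := by
    have h2 : ‖∫ a in (0:ℝ)..w, (ρ q - Y a - fderiv ℝ ρ q (q - Y a))‖ ≤
        ∫ a in (0:ℝ)..w, K * (2 * dd G lg w c t + 2 * ‖Y a - c t‖ ^ 2) := by
      refine intervalIntegral.norm_integral_le_of_norm_le hw.le ?_ ?_
      · refine Eventually.of_forall fun a ha => ?_
        have ha' : a ∈ Icc 0 w := ⟨ha.1.le, ha.2⟩
        refine (hR.taylor (Y a) (PP_mem hsg hc hcl _ _) q
          (mix_close_Y hsg hc hB hs hR.r_pos t ha' h0 h1)).trans ?_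
        exact mul_le_mul_of_nonneg_left (mix_sub_Y_sq hsg hc hB hs t a h0 h1) hK
      · exact Continuous.intervalIntegrable (by fun_prop) _ _
    have h3 : ∫ a in (0:ℝ)..w, K * (2 * dd G lg w c t + 2 * ‖Y a - c t‖ ^ 2) =
        K * (2 * dd G lg w c t * w + 2 * ∫ a in (0:ℝ)..w, ‖Y a - c t‖ ^ 2) := by
      rw [intervalIntegral.integral_const_mul, intervalIntegral.integral_add
        intervalIntegrable_const (Continuous.intervalIntegrable (by fun_prop) _ _),
        intervalIntegral.integral_const, intervalIntegral.integral_const_mul, smul_eq_mul,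
        sub_zero]
      ring
    have h4 := avg_Y_le hsg hc hB hs t
    rw [h3] at h2
    rw [hA, norm_smul, Real.norm_eq_abs, abs_of_pos (by positivity)]
    have h5 : (1 / w) * ‖∫ a in (0:ℝ)..w, (ρ q - Y a - fderiv ℝ ρ q (q - Y a))‖ ≤
        (1 / w) * (K * (2 * dd G lg w c t * w + 2 * ∫ a in (0:ℝ)..w, ‖Y a - c t‖ ^ 2)) :=
      mul_le_mul_of_nonneg_left h2 (by positivity)
    refine h5.trans ?_
    have h6 : (1 / w) * (K * (2 * dd G lg w c t * w + 2 * ∫ a in (0:ℝ)..w, ‖Y a - c t‖ ^ 2)) =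
        K * (2 * dd G lg w c t + 2 * ((1 / w) * ∫ a in (0:ℝ)..w, ‖Y a - c t‖ ^ 2)) := by
      field_simp
    rw [h6]
    have h7 : K * (2 * dd G lg w c t + 2 * ((1 / w) * ∫ a in (0:ℝ)..w, ‖Y a - c t‖ ^ 2)) ≤
        K * (2 * dd G lg w c t + 2 * dd G lg w c t) := by
      refine mul_le_mul_of_nonneg_left ?_ hK
      linarith
    linarith
  rw [hmain]
  refine (norm_add_le _ _).trans ?_
  rw [norm_smul, norm_smul, Real.norm_eq_abs, Real.norm_eq_abs, abs_of_nonneg h0,
    abs_of_nonneg (by linarith : 0 ≤ 1 - σ)]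
  have h2 : (1 - σ) * ‖A0‖ ≤ 1 * (K * (σ * dd G lg w c t)) :=
    mul_le_mul (by linarith) hA0le (norm_nonneg _) zero_le_one
  have h3 : σ * ‖A‖ ≤ σ * (4 * K * dd G lg w c t) := mul_le_mul_of_nonneg_left hAle h0
  linarith

include hsg hR hc hB hs in
theorem fd_mix_le (t : ℝ) {σ : ℝ} (h0 : 0 ≤ σ) (h1 : σ ≤ 1) :
    ‖fderiv ℝ ρ (mix G lg w σ c t)‖ ^ 2 ≤ 1 + 35 * K ^ 4 * (σ * dd G lg w c t) := by
  have h2 := hR.fd (c t) (hc.mem t) _ (mix_close hsg hc hB hs hR.r_pos h0 h1 t)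
  have h3 := ret_mix_le hsg hR hc hB hs t h0 h1
  rw [norm_sub_rev] at h3
  have hK := hR.one_le
  have hd0 := dd_nonneg (G := G) (lg := lg) (c := c) hs t
  have hd1 : dd G lg w c t ≤ 1 := (dd_le hsg hc hB hs t).trans hs.s4
  have hd2 : 0 ≤ σ * dd G lg w c t := mul_nonneg h0 hd0
  have hd3 : σ * dd G lg w c t ≤ 1 := by nlinarith
  have h4 : ‖fderiv ℝ ρ (mix G lg w σ c t)‖ ≤ 1 + 5 * K ^ 2 * (σ * dd G lg w c t) := by
    refine h2.trans ?_
    have : K * ‖mix G lg w σ c t - ρ (mix G lg w σ c t)‖ ≤ K * (5 * K * (σ * dd G lg w c t)) :=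
      mul_le_mul_of_nonneg_left h3 (by linarith)
    change 1 + K * ‖mix G lg w σ c t - ρ (mix G lg w σ c t)‖ ≤ _
    nlinarith
  refine (pow_le_pow_left₀ (norm_nonneg _) h4 2).trans ?_
  have hK2 : (1:ℝ) ≤ K ^ 2 := one_le_pow₀ hK
  have hK4 : K ^ 2 ≤ K ^ 4 := by nlinarith
  set d := σ * dd G lg w c t
  have h5 : d ^ 2 ≤ d := by nlinarith
  have h6 : K ^ 4 * d ^ 2 ≤ K ^ 4 * d := mul_le_mul_of_nonneg_left h5 (by positivity)
  have h7 : K ^ 2 * d ≤ K ^ 4 * d := mul_le_mul_of_nonneg_right hK4 hd2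
  nlinarith

include hsg hR hc hB hs in
theorem hda_st' (t : ℝ) {σ : ℝ} (h0 : 0 ≤ σ) (h1 : σ ≤ 1) : HasDerivAt (st G lg ρ w σ c)
    (fderiv ℝ ρ (mix G lg w σ c t) ((1 - σ) • deriv c t + σ • av' G lg w c t)) t := by
  have h2 := hR.smooth (c t) (hc.mem t) _ (mix_close hsg hc hB hs hR.r_pos h0 h1 t)
  have h3 : HasDerivAt (mix G lg w σ c) ((1 - σ) • deriv c t + σ • av' G lg w c t) t :=
    ((hc.hasDerivAt t).const_smul (1 - σ)).add ((hda_av hsg hc hB hs t).const_smul σ)
  have h4 : HasFDerivAt ρ (fderiv ℝ ρ (mix G lg w σ c t)) (mix G lg w σ c t) :=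
    (h2.differentiableAt (by simp)).hasFDerivAt
  have h5 := h4.comp_hasDerivAt t h3
  exact h5

theorem convex_sq {H : Type*} [NormedAddCommGroup H] [InnerProductSpace ℝ H] {σ : ℝ}
    (h0 : 0 ≤ σ) (h1 : σ ≤ 1) (u v : H) :
    ‖(1 - σ) • u + σ • v‖ ^ 2 ≤ (1 - σ) * ‖u‖ ^ 2 + σ * ‖v‖ ^ 2 := by
  have h2 : ‖(1 - σ) • u + σ • v‖ ≤ (1 - σ) * ‖u‖ + σ * ‖v‖ := by
    refine (norm_add_le _ _).trans ?_
    rw [norm_smul, norm_smul, Real.norm_eq_abs, Real.norm_eq_abs, abs_of_nonneg h0,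
      abs_of_nonneg (by linarith : 0 ≤ 1 - σ)]
  refine (pow_le_pow_left₀ (norm_nonneg _) h2 2).trans ?_
  have h3 : 0 ≤ (1 - σ) * σ * (‖u‖ - ‖v‖) ^ 2 :=
    mul_nonneg (mul_nonneg (by linarith) h0) (sq_nonneg _)
  nlinarith

include hsg hR hc hB hs in
/-- **the energy does not increase during the step** -/
theorem En_st_mix_le {σ : ℝ} (h0 : 0 ≤ σ) (h1 : σ ≤ 1) :
    En (st G lg ρ w σ c) ≤ En c - σ * gr G lg w c / 16 := by
  have hw := hs.pos
  have hB0 : 0 ≤ B := (MS.En_nonneg c).trans hB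
  have hgr0 : 0 ≤ gr G lg w c := gr_nonneg' hs
  have hK := hR.one_le
  have hd : ∀ t, deriv (st G lg ρ w σ c) t = fderiv ℝ ρ (mix G lg w σ c t)
      ((1 - σ) • deriv c t + σ • av' G lg w c t) :=
    fun t => (hda_st' hsg hR hc hB hs t h0 h1).deriv
  have hL := loop_st hsg hR hc hB hs h0 h1
  have e1 := continuous_av' hsg hc hB hs
  have e2 := continuous_dd hsg hc hB hs
  have e3 := hc.continuous_deriv
  set a : ℝ := 35 * K ^ 4 * σ with ha
  have ha0 : 0 ≤ a := by positivity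
  set M : ℝ := 2 * B * C ^ 2 / w with hM
  have hM0 : 0 ≤ M := by positivity
  have h2 : ∫ t in (0:ℝ)..(2 * π), ‖deriv (st G lg ρ w σ c) t‖ ^ 2 ≤
      ∫ t in (0:ℝ)..(2 * π), (((1 - σ) * ‖deriv c t‖ ^ 2 + σ * ‖av' G lg w c t‖ ^ 2) +
        ((a * (1 - σ) * (w * gr G lg w c)) * ‖deriv c t‖ ^ 2 + (a * σ * M) * dd G lg w c t)) := by
    refine intervalIntegral.integral_mono_on (by positivity)
      (hL.continuous_sq.intervalIntegrable _ _) ?_ fun t _ => ?_
    · exact Continuous.intervalIntegrable (by fun_prop) _ _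
    · rw [hd]
      have f1 := fd_mix_le hsg hR hc hB hs t h0 h1
      have f2 := av'_sq_le' hsg hc hB hs t
      have f3 := dd_nonneg (G := G) (lg := lg) (c := c) hs t
      have f4 : ‖fderiv ℝ ρ (mix G lg w σ c t) ((1 - σ) • deriv c t + σ • av' G lg w c t)‖ ^ 2 ≤
          ‖fderiv ℝ ρ (mix G lg w σ c t)‖ ^ 2 *
            ‖(1 - σ) • deriv c t + σ • av' G lg w c t‖ ^ 2 := by
        rw [← mul_pow]
        exact pow_le_pow_left₀ (norm_nonneg _) (ContinuousLinearMap.le_opNorm _ _) 2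
      have f5 := convex_sq h0 h1 (deriv c t) (av' G lg w c t)
      have f6 := dd_le_gr hsg hc hB hs t
      have f7 : 1 + 35 * K ^ 4 * (σ * dd G lg w c t) = 1 + a * dd G lg w c t := by
        rw [ha]; ring
      rw [f7] at f1
      refine f4.trans ((mul_le_mul f1 f5 (by positivity) (by positivity)).trans ?_)
      have f8 : a * (1 - σ) * ‖deriv c t‖ ^ 2 * dd G lg w c t ≤
          a * (1 - σ) * ‖deriv c t‖ ^ 2 * (w * gr G lg w c) :=
        mul_le_mul_of_nonneg_left f6 (mul_nonneg (mul_nonneg ha0 (by linarith)) (by positivity))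
      have f9 : a * σ * dd G lg w c t * ‖av' G lg w c t‖ ^ 2 ≤ a * σ * dd G lg w c t * M :=
        mul_le_mul_of_nonneg_left f2 (by positivity)
      linarith
  rw [intervalIntegral.integral_add (Continuous.intervalIntegrable (by fun_prop) _ _)
    (Continuous.intervalIntegrable (by fun_prop) _ _),
    intervalIntegral.integral_add (Continuous.intervalIntegrable (by fun_prop) _ _)
    (Continuous.intervalIntegrable (by fun_prop) _ _),
    intervalIntegral.integral_add (Continuous.intervalIntegrable (by fun_prop) _ _)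
    (Continuous.intervalIntegrable (by fun_prop) _ _),
    intervalIntegral.integral_const_mul, intervalIntegral.integral_const_mul,
    intervalIntegral.integral_const_mul, intervalIntegral.integral_const_mul,
    int_dd hsg hc hB hs, int_eq_En, int_eq_En] at h2
  have h3 := int_av'_le hsg hc hB hs
  set g := gr G lg w c with hg
  have h4 : σ * ∫ t in (0:ℝ)..(2 * π), ‖av' G lg w c t‖ ^ 2 ≤ σ * (2 * En c - (1 / 2) * g) :=
    mul_le_mul_of_nonneg_left h3 h0
  have hC1 : (1:ℝ) ≤ C ^ 2 := one_le_pow₀ hsg.one_le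
  have h5 : a * (1 - σ) * (w * g) * (2 * En c) ≤ a * (1 - σ) * (w * g) * (2 * B * C ^ 2) := by
    refine mul_le_mul_of_nonneg_left ?_
      (mul_nonneg (mul_nonneg ha0 (by linarith)) (by positivity))
    nlinarith
  have h6 : a * σ * M * (w ^ 2 * g) = a * σ * (w * g) * (2 * B * C ^ 2) := by
    rw [hM]
    field_simp
  have h7 : a * (w * g) * (2 * B * C ^ 2) = (192 * K ^ 4 * B * C ^ 2 * w) * (σ * g * (70 / 192)) := by
    rw [ha]; ring
  have h8 : (192 * K ^ 4 * B * C ^ 2 * w) * (σ * g * (70 / 192)) ≤ 1 * (σ * g * (70 / 192)) :=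
    mul_le_mul_of_nonneg_right hs.s5 (by positivity)
  have h9 : 0 ≤ σ * g := mul_nonneg h0 hgr0
  nlinarith

end est

/-! ### The gap below `π` -/

theorem Close.symm {η : ℝ} {c γ : ℝ → Euc N} (h : Close η c γ) : Close η γ c where
  sup t := by rw [norm_sub_rev]; exact h.sup t
  h1 := by
    have := h.h1
    simp_rw [norm_sub_rev (deriv c _)] at this
    exact this

/-- a loop close to a prime closed geodesic has energy near `π` -/
theorem NearUM.le_En {η : ℝ} {c : ℝ → Euc N} (h : NearUM G η c) (hc : ContDiff ℝ ∞ c)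
    (hη : η ≤ 1) (hE : En c ≤ π) : π - 4 * η ≤ En c := by
  obtain ⟨x, hx, v, hv, h1, h2⟩ := h
  have h3 := (Close.symm h2).En_le (contDiff_Exp_smul G hx hv) hc
  have h0 := h2.nonneg
  rw [En_geod G hx hv, h1] at h3
  have h4 : √(2 * En c) ≤ 3 := by
    rw [Real.sqrt_le_left (by norm_num)]
    have := Real.pi_lt_four
    linarith
  have h5 : η * √(2 * En c) ≤ η * 3 := mul_le_mul_of_nonneg_left h4 h0
  have h6 : η ^ 2 ≤ η * 1 := by
    rw [sq]
    exact mul_le_mul_of_nonneg_left hη h0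
  rw [one_pow, mul_one] at h3
  linarith

/-- **finitely many steps bring the energy below any positive level** -/
theorem exists_J (hw : 0 ≤ w) (hstep : StepOK G lg ρ w K B) (hps : PSOK G lg w B)
    {E₀ η : ℝ} (hE₀ : E₀ < π) (hE₀B : E₀ ≤ B) (hη : 0 < η) :
    ∃ J : ℕ, ∀ c, Loop S c → En c ≤ E₀ → ∀ j, J ≤ j → En ((st G lg ρ w 1)^[j] c) ≤ η := by
  set η' := min η (min 1 ((π - E₀) / 8)) with hη'
  have hη'0 : 0 < η' := lt_min hη (lt_min one_pos (by linarith))
  obtain ⟨σ, hσ, hσ'⟩ := hps η' hη'0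
  obtain ⟨J, hJ⟩ := exists_nat_gt (8 * E₀ / σ)
  refine ⟨J, fun c hc hE j hj => ?_⟩
  have hcB : En c ≤ B := hE.trans hE₀B
  have hit := fun i => hstep.iter hw hc hcB i
  have hst := fun i => hstep _ (hit i).1 ((hit i).2.trans hcB)
  have hgn := fun i => gr_nonneg G (lg := lg) hw ((st G lg ρ w 1)^[i] c)
  have hdec : ∀ i, En ((st G lg ρ w 1)^[i + 1] c) ≤
      En ((st G lg ρ w 1)^[i] c) - gr G lg w ((st G lg ρ w 1)^[i] c) / 8 := by
    intro i
    rw [Function.iterate_succ_apply']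
    exact (hst i).2.1
  have hmono : ∀ {l j : ℕ}, l ≤ j → En ((st G lg ρ w 1)^[j] c) ≤ En ((st G lg ρ w 1)^[l] c) :=
    fun hlj => core_mono (E := fun i => En ((st G lg ρ w 1)^[i] c))
      (g := fun i => gr G lg w ((st G lg ρ w 1)^[i] c)) hgn hdec hlj
  by_contra hcon
  push Not at hcon
  have hbig : ∀ i < j, σ < gr G lg w ((st G lg ρ w 1)^[i] c) := by
    intro i hi
    by_contra hle
    have h1 := hmono hi.le
    rcases hσ' _ (hit i).1 ((hit i).2.trans hcB) (not_lt.1 hle) with h2 | h2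
    · have : η' ≤ η := min_le_left _ _
      linarith
    · have h3 : En ((st G lg ρ w 1)^[i] c) ≤ E₀ := (hit i).2.trans hE
      have h4 : η' ≤ 1 := (min_le_right _ _).trans (min_le_left _ _)
      have h5 : η' ≤ (π - E₀) / 8 := (min_le_right _ _).trans (min_le_right _ _)
      have h6 := NearUM.le_En h2 (hit i).1.smooth h4 (by linarith)
      linarith
  have h1 := core_tele (E := fun i => En ((st G lg ρ w 1)^[i] c))
    (g := fun i => gr G lg w ((st G lg ρ w 1)^[i] c)) hdec (Nat.zero_le j)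
  have h2 : (j : ℝ) * σ ≤ ∑ i ∈ Finset.Ico 0 j, gr G lg w ((st G lg ρ w 1)^[i] c) := by
    have h3 : ∑ i ∈ Finset.Ico 0 j, σ ≤
        ∑ i ∈ Finset.Ico 0 j, gr G lg w ((st G lg ρ w 1)^[i] c) :=
      Finset.sum_le_sum fun i hi => (hbig i (Finset.mem_Ico.1 hi).2).le
    simpa using h3
  have h4 := MS.En_nonneg ((st G lg ρ w 1)^[j] c)
  rw [div_lt_iff₀ hσ] at hJ
  have h5 : (J : ℝ) * σ ≤ (j : ℝ) * σ :=
    mul_le_mul_of_nonneg_right (by exact_mod_cast hj) hσ.le
  simp only [Function.iterate_zero, id_eq] at h1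
  linarith

/-- one step is `StepOK` -/
theorem stepOK (hsg : SG G lg r C) (hR : Retr S ρ r' K) (hs : Small r C r' K B w) :
    StepOK G lg ρ w (51 * K ^ 4) B := fun _ hc hB =>
  ⟨loop_st hsg hR hc hB hs zero_le_one le_rfl, En_st_le hsg hR hc hB hs,
    st_sub_le hsg hR hc hB hs, int_st_sub_le hsg hR hc hB hs⟩

end Crest.Agent.R208.FL
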