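import Crest.Agent.R208.MS3b
import Crest.Agent.R208.MS4

/-!
R208, block MS3 (helper378): **Palais-Smale** for the averaged Birkhoff shortening.  A loop of
energy `≤ B < 4π` with small `gr` has small energy or is close to a closed unit speed geodesic.
-/

set_option autoImplicit false

open Set Filter Topology MeasureTheory
open scoped ContDiff RealInnerProductSpace Real
open Crest.GeometryTopology.Submanifold
open Crest.Agent.R241.DDefs Crest.Agent.R241.D Crest.Agent.R241.D2

noncomputable section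

namespace Crest.Agent.R208.PS

open Crest.Agent.R208.MS

variable {n N : ℕ} {κ : ℝ} {S : Set (Euc N)}
variable {G : Geo n N κ S} {lg : Euc N → Euc N → Euc N} {r C : ℝ}

theorem norm_sq_le_two {E : Type*} [NormedAddCommGroup E] (x y : E) :
    ‖x + y‖ ^ 2 ≤ 2 * ‖x‖ ^ 2 + 2 * ‖y‖ ^ 2 := by
  have h1 := norm_add_le x y
  have h2 : ‖x + y‖ ^ 2 ≤ (‖x‖ + ‖y‖) ^ 2 := pow_le_pow_left₀ (norm_nonneg _) h1 2
  nlinarith [sq_nonneg (‖x‖ - ‖y‖)]

theorem norm_sq_le_theta {E : Type*} [NormedAddCommGroup E] (x y : E) {θ : ℝ} (hθ : 0 < θ) :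
    ‖x‖ ^ 2 ≤ (1 + θ) * ‖y‖ ^ 2 + (1 + 1 / θ) * ‖y - x‖ ^ 2 := by
  have h1 : ‖x‖ ≤ ‖y‖ + ‖y - x‖ := by
    have := norm_sub_le y (y - x)
    simpa using this
  have h2 : ‖x‖ ^ 2 ≤ (‖y‖ + ‖y - x‖) ^ 2 := pow_le_pow_left₀ (norm_nonneg _) h1 2
  have h3 : 0 ≤ θ⁻¹ * (θ * ‖y‖ - ‖y - x‖) ^ 2 := by positivity
  have h4 : θ⁻¹ * (θ * ‖y‖ - ‖y - x‖) ^ 2 =
      θ * ‖y‖ ^ 2 - 2 * (‖y‖ * ‖y - x‖) + θ⁻¹ * ‖y - x‖ ^ 2 := by
    field_simp
    ring
  rw [h4] at h3
  rw [one_div]
  nlinarith

section h1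

variable (h : SG G lg r C) {w ρ : ℝ} {c d : ℝ → Euc N} (hw : 0 < w) (hρ : ρ < r ^ 2)
  (hc : Loop S c) (hKc : ∀ s, (c s, c (s + w)) ∈ KK S ρ)
  (hKd : ∀ s, (d s, d (s + w)) ∈ KK S ρ)
  (hg : ∀ s, ∀ a ∈ Icc 0 w, gd G lg (d s) (d (s + w)) (a / w) = d (s + a))
  (hdper : ∀ t, d (t + 2 * π) = d t)

include h hw hρ hc hKc hKd hg hdper in
theorem h1_le {ε : ℝ}
    (hcl : ∀ s, ∀ a ∈ Icc 0 w,
      ‖GM G lg ((c s, c (s + w)), a / w) - GM G lg ((d s, d (s + w)), a / w)‖ ≤ ε) :
    ∫ t in (0:ℝ)..(2 * π), ‖deriv c t - (qq lg w d t).2‖ ^ 2 ≤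
      2 * gr G lg w c + 4 * π * (ε / w) ^ 2 := by
  have hpi := Real.pi_pos
  have hcf : Continuous (fun t => ‖deriv c t - (qq lg w d t).2‖ ^ 2) :=
    ((loop_cont_deriv hc).sub (continuous_c' h hw hρ hKd hg)).norm.pow 2
  have hpf : ∀ t, ‖deriv c (t + 2 * π) - (qq lg w d (t + 2 * π)).2‖ ^ 2 =
      ‖deriv c t - (qq lg w d t).2‖ ^ 2 := by
    intro t
    have : qq lg w d (t + 2 * π) = qq lg w d t := by
      unfold qq
      rw [hdper, show t + 2 * π + w = t + w + 2 * π by ring, hdper]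
    rw [loop_deriv_per hc, this]
  have h1 := avg_window hcf hpf w
  have hcu := continuous_du h hρ hc.smooth.continuous (loop_cont_deriv hc) hKc
  have hpt : ∀ s, ∀ a ∈ Icc 0 w, ‖deriv c (s + a) - (qq lg w d (s + a)).2‖ ^ 2 ≤
      2 * ‖du G lg w c s a‖ ^ 2 + 2 * (ε / w) ^ 2 := by
    intro s a ha
    have e1 : (qq lg w d (s + a)).2 = (1 / w : ℝ) • gv G lg (d s) (d (s + w)) (a / w) := by
      rw [qq_add' h hw hρ hKd hg s ha.1, fl_qq h hρ hKd]
    have e2 : deriv c (s + a) - (qq lg w d (s + a)).2 =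
        -du G lg w c s a + (1 / w : ℝ) • (gv G lg (c s) (c (s + w)) (a / w) -
          gv G lg (d s) (d (s + w)) (a / w)) := by
      rw [e1, du, smul_sub]
      abel
    rw [e2]
    refine (norm_sq_le_two _ _).trans ?_
    rw [norm_neg]
    have e3 : ‖(1 / w : ℝ) • (gv G lg (c s) (c (s + w)) (a / w) -
          gv G lg (d s) (d (s + w)) (a / w))‖ ≤ ε / w := by
      rw [norm_smul, Real.norm_of_nonneg (by positivity), one_div_mul_eq_div]
      gcongr
      exact (norm_snd_le _).trans (hcl s a ha)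
    gcongr
  have h2 : ∫ s in (0:ℝ)..(2 * π), ∫ a in (0:ℝ)..w, ‖deriv c (s + a) - (qq lg w d (s + a)).2‖ ^ 2
      ≤ ∫ s in (0:ℝ)..(2 * π), ∫ a in (0:ℝ)..w,
        (2 * ‖du G lg w c s a‖ ^ 2 + 2 * (ε / w) ^ 2) := by
    have hc1 : Continuous (fun p : ℝ × ℝ => ‖deriv c (p.1 + p.2) - (qq lg w d (p.1 + p.2)).2‖ ^ 2) :=
      hcf.comp (f := fun p : ℝ × ℝ => p.1 + p.2) (by fun_prop)
    have hc2 : Continuous (fun p : ℝ × ℝ => 2 * ‖du G lg w c p.1 p.2‖ ^ 2 + 2 * (ε / w) ^ 2) := by
      have := hcu.norm.pow 2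
      fun_prop
    refine intervalIntegral.integral_mono_on (by positivity) ?_ ?_ (fun s _ => ?_)
    · exact (intervalIntegral.continuous_parametric_intervalIntegral_of_continuous'
        (f := fun s a => ‖deriv c (s + a) - (qq lg w d (s + a)).2‖ ^ 2) hc1 _ _).intervalIntegrable
        _ _
    · exact (intervalIntegral.continuous_parametric_intervalIntegral_of_continuous'
        (f := fun s a => 2 * ‖du G lg w c s a‖ ^ 2 + 2 * (ε / w) ^ 2) hc2 _ _).intervalIntegrable
        _ _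
    · refine intervalIntegral.integral_mono_on hw.le ?_ ?_ (fun a ha => hpt s a ha)
      · exact (hc1.comp (f := fun a : ℝ => (s, a)) (by fun_prop)).intervalIntegrable _ _
      · exact (hc2.comp (f := fun a : ℝ => (s, a)) (by fun_prop)).intervalIntegrable _ _
  have h3 : ∫ s in (0:ℝ)..(2 * π), ∫ a in (0:ℝ)..w,
        (2 * ‖du G lg w c s a‖ ^ 2 + 2 * (ε / w) ^ 2) =
      2 * (w * gr G lg w c) + 2 * (ε / w) ^ 2 * w * (2 * π) := by
    have hcn : Continuous (fun p : ℝ × ℝ => ‖du G lg w c p.1 p.2‖ ^ 2) := hcu.norm.pow 2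
    have e1 : ∀ s : ℝ, ∫ a in (0:ℝ)..w, (2 * ‖du G lg w c s a‖ ^ 2 + 2 * (ε / w) ^ 2) =
        2 * (∫ a in (0:ℝ)..w, ‖du G lg w c s a‖ ^ 2) + 2 * (ε / w) ^ 2 * w := by
      intro s
      have hcs : Continuous (fun a : ℝ => ‖du G lg w c s a‖ ^ 2) :=
        hcn.comp (f := fun a : ℝ => (s, a)) (by fun_prop)
      rw [intervalIntegral.integral_add ((hcs.const_mul 2).intervalIntegrable _ _)
        (continuous_const.intervalIntegrable _ _), intervalIntegral.integral_const_mul,
        intervalIntegral.integral_const, smul_eq_mul, sub_zero, mul_comm w]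
    simp only [e1]
    have hci : Continuous (fun s : ℝ => ∫ a in (0:ℝ)..w, ‖du G lg w c s a‖ ^ 2) :=
      intervalIntegral.continuous_parametric_intervalIntegral_of_continuous'
        (f := fun s a => ‖du G lg w c s a‖ ^ 2) hcn _ _
    rw [intervalIntegral.integral_add ((hci.const_mul 2).intervalIntegrable _ _)
        (continuous_const.intervalIntegrable _ _), intervalIntegral.integral_const_mul,
        intervalIntegral.integral_const, smul_eq_mul, sub_zero, gr_eq]
    field_simp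
  rw [h1, h3] at h2
  have h4 : w * (∫ t in (0:ℝ)..(2 * π), ‖deriv c t - (qq lg w d t).2‖ ^ 2) ≤
      w * (2 * gr G lg w c + 4 * π * (ε / w) ^ 2) := by
    refine h2.trans (le_of_eq ?_)
    ring
  exact le_of_mul_le_mul_left h4 hw

end h1

theorem ps (hB : Bl n N κ S G π) (hper : HS.Per G) (hsg : SG G lg r C) {w B : ℝ} (hw : 0 < w)
    (hw2 : w ≤ 2 * π) (hwB : 2 * B * w < r ^ 2) (hB4 : B < 4 * π) : PSOK G lg w B := by
  intro η hη
  have hpi := Real.pi_pos
  by_contra hcon
  push Not at hcon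
  have hex : ∀ j : ℕ, ∃ c, Loop S c ∧ En c ≤ B ∧ gr G lg w c ≤ 1 / ((j : ℝ) + 1) ∧ η < En c ∧
      ¬ NearUM G η c := fun j => hcon _ (by positivity)
  choose c hcL hcB hcg hcE hcN using hex
  obtain ⟨l, d, hne, hl, hdS, hdper, hunif⟩ := exists_limit hB.cpt c hcL hcB
  have hKc : ∀ j s, (c j s, c j (s + w)) ∈ KK S (2 * B * w) := fun j s =>
    loop_pair hw hw2 (hcL j) (hcB j) s
  have hptw : ∀ t, Tendsto (fun j => c j t) l (𝓝 (d t)) := fun t => by
    rw [Metric.tendsto_nhds]
    intro ε hε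
    filter_upwards [hunif ε hε] with j hj
    rw [dist_eq_norm]
    exact hj t
  have hKd : ∀ s, (d s, d (s + w)) ∈ KK S (2 * B * w) := fun s =>
    (isCompact_KK hB.cpt _).isClosed.mem_of_tendsto ((hptw s).prodMk_nhds (hptw (s + w)))
      (Eventually.of_forall fun j => hKc j s)
  have hdc : Continuous d := by
    have h1 : TendstoUniformly c d l := by
      rw [Metric.tendstoUniformly_iff]
      intro ε hε
      filter_upwards [hunif ε hε] with j hj t
      rw [dist_comm, dist_eq_norm]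
      exact hj t
    exact h1.continuous (Frequently.of_forall fun j => (hcL j).smooth.continuous)
  have hgr : ∀ e > 0, ∀ᶠ j in l, gr G lg w (c j) ≤ e := by
    intro e he
    have h1 : Tendsto (fun j : ℕ => 1 / ((j : ℝ) + 1)) l (𝓝 0) :=
      tendsto_one_div_add_atTop_nhds_zero_nat.mono_left hl
    filter_upwards [h1.eventually (gt_mem_nhds he)] with j hj
    exact (hcg j).trans hj.le
  -- uniform closeness of the geodesic windows
  have hGM : ∀ ε > 0, ∀ᶠ j in l, (∀ s, ∀ a ∈ Icc 0 w,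
      ‖GM G lg ((c j s, c j (s + w)), a / w) - GM G lg ((d s, d (s + w)), a / w)‖ ≤ ε) ∧
      ∀ t, ‖c j t - d t‖ ≤ ε := by
    intro ε hε
    obtain ⟨δ, hδ, hδ'⟩ := uniform_GM hsg hB.cpt hwB hε
    filter_upwards [hunif _ (lt_min hδ hε)] with j hj
    refine ⟨fun s a ha => (hδ' _ (hKc j s) _ (hKd s) _ ⟨div_nonneg ha.1 hw.le,
      (div_le_one hw).2 ha.2⟩ ((hj s).trans_le (min_le_left _ _))
      ((hj (s + w)).trans_le (min_le_left _ _))).le, fun t => ((hj t).le.trans (min_le_right _ _))⟩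
  -- the limit is a geodesic on all windows
  have hg : ∀ s, ∀ a ∈ Icc 0 w, gd G lg (d s) (d (s + w)) (a / w) = d (s + a) := by
    intro s a ha
    have hzero : ∀ s ∈ Icc 0 (2 * π), uu G lg w d s a = 0 := by
      intro s hs
      by_contra hne0
      have hcu : Continuous (fun s => ‖uu G lg w d s a‖ ^ 2) :=
        (((continuous_uu hsg hwB hdc hKd).comp (f := fun s : ℝ => (s, a))
          (by fun_prop)).norm.pow 2)
      have hI : 0 < ∫ s in (0:ℝ)..(2 * π), ‖uu G lg w d s a‖ ^ 2 :=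
        intervalIntegral.integral_pos (by positivity) hcu.continuousOn
          (fun _ _ => by positivity) ⟨s, hs, by positivity⟩
      set I := ∫ s in (0:ℝ)..(2 * π), ‖uu G lg w d s a‖ ^ 2 with hI'
      set ε : ℝ := √(I / (32 * π)) with hε'
      have hε : 0 < ε := Real.sqrt_pos.2 (by positivity)
      have hε2 : ε ^ 2 = I / (32 * π) := Real.sq_sqrt (by positivity)
      obtain ⟨j, ⟨hj1, hj2⟩, hj3⟩ := ((hGM ε hε).and
        (hgr (I / (8 * w ^ 2)) (by positivity))).exists
      have hcj : Continuous (fun s => ‖uu G lg w (c j) s a‖ ^ 2) :=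
        (((continuous_uu hsg hwB (hcL j).smooth.continuous (hKc j)).comp
          (f := fun s : ℝ => (s, a)) (by fun_prop)).norm.pow 2)
      have h1 : I ≤ ∫ s in (0:ℝ)..(2 * π), (2 * ‖uu G lg w (c j) s a‖ ^ 2 + 2 * (2 * ε) ^ 2) := by
        refine intervalIntegral.integral_mono_on (by positivity) (hcu.intervalIntegrable _ _)
          ((by fun_prop : Continuous fun s => 2 * ‖uu G lg w (c j) s a‖ ^ 2 +
            2 * (2 * ε) ^ 2).intervalIntegrable _ _) (fun s _ => ?_)
        have e1 : uu G lg w d s a = uu G lg w (c j) s a +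
            (uu G lg w d s a - uu G lg w (c j) s a) := by abel
        rw [e1]
        refine (norm_sq_le_two _ _).trans ?_
        have e2 : ‖uu G lg w d s a - uu G lg w (c j) s a‖ ≤ 2 * ε := by
          have e3 : uu G lg w d s a - uu G lg w (c j) s a =
              -(GM G lg ((c j s, c j (s + w)), a / w) - GM G lg ((d s, d (s + w)), a / w)).1 +
                (c j (s + a) - d (s + a)) := by
            show (GM G lg ((d s, d (s + w)), a / w)).1 - d (s + a) -
              ((GM G lg ((c j s, c j (s + w)), a / w)).1 - c j (s + a)) = _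
            rw [Prod.fst_sub]
            abel
          rw [e3]
          refine (norm_add_le _ _).trans ?_
          rw [norm_neg]
          have e4 := (norm_fst_le (GM G lg ((c j s, c j (s + w)), a / w) -
            GM G lg ((d s, d (s + w)), a / w))).trans (hj1 s a ha)
          have e5 := hj2 (s + a)
          linarith
        gcongr
      have h2 : ∫ s in (0:ℝ)..(2 * π), (2 * ‖uu G lg w (c j) s a‖ ^ 2 + 2 * (2 * ε) ^ 2) =
          2 * (∫ s in (0:ℝ)..(2 * π), ‖uu G lg w (c j) s a‖ ^ 2) + 2 * (2 * ε) ^ 2 * (2 * π) := by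
        rw [intervalIntegral.integral_add ((hcj.const_mul 2).intervalIntegrable _ _)
          (continuous_const.intervalIntegrable _ _), intervalIntegral.integral_const_mul,
          intervalIntegral.integral_const, smul_eq_mul, sub_zero, mul_comm (2 * π)]
      have h3 := integral_uu_le hsg hwB (hcL j) (hKc j) hw ha
      have h4 : w ^ 2 * gr G lg w (c j) ≤ I / 8 := by
        calc w ^ 2 * gr G lg w (c j) ≤ w ^ 2 * (I / (8 * w ^ 2)) := by gcongr
          _ = I / 8 := by field_simp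
      have h5 : 2 * (2 * ε) ^ 2 * (2 * π) = I / 2 := by
        rw [mul_pow, hε2]
        field_simp
        norm_num
      rw [h2, h5] at h1
      linarith
    -- reduce to `[0, 2π]`
    have hP : Function.Periodic (fun s => uu G lg w d s a) (2 * π) := fun s => uu_per hdper s a
    obtain ⟨s', hs', he⟩ := hP.exists_mem_Ico₀ (by positivity) s
    have h1 : uu G lg w d s a = 0 := he.trans (hzero s' ⟨hs'.1, hs'.2.le⟩)
    exact sub_eq_zero.1 h1
  -- the limit is a closed geodesic
  set q := qq lg w d 0 with hq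
  have hqS : q ∈ TS G := qq_mem hsg hwB hKd 0
  have hfl : ∀ t, 0 ≤ t → qq lg w d t = fl G (q, t) := fun t ht => by
    have := qq_add' hsg hw hwB hKd hg 0 ht
    rwa [zero_add] at this
  have hqper : fl G (q, 2 * π) = q := by
    rw [← hfl _ (by positivity), hq]
    have h1 : d (2 * π) = d 0 := by
      have := hdper 0
      rwa [zero_add] at this
    have h2 : d (2 * π + w) = d (0 + w) := by
      rw [add_comm (2 * π) w, hdper, zero_add]
    unfold qq
    rw [h1, h2]
  have hflper : Function.Periodic (fun t => fl G (q, t)) (2 * π) := fun t => by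
    show fl G (q, t + 2 * π) = fl G (q, t)
    rw [add_comm, fl_add' G hqS, hqper]
  have hdfl : ∀ t, d t = (fl G (q, t)).1 := by
    intro t
    obtain ⟨k, hk⟩ := exists_nat_ge (-t / (2 * π))
    have h1 : 0 ≤ t + k * (2 * π) := by
      rw [div_le_iff₀ (by positivity)] at hk
      linarith
    have h2 : d (t + k * (2 * π)) = d t :=
      (show Function.Periodic d (2 * π) from hdper).nat_mul k t
    have h3 : fl G (q, t + k * (2 * π)) = fl G (q, t) := hflper.nat_mul k t
    rw [← h2, ← h3, ← hfl _ h1]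
    rfl
  have hnorm : ∀ t, 0 ≤ t → ‖(qq lg w d t).2‖ = ‖q.2‖ := fun t ht => by
    rw [hfl t ht, norm_fl G hqS]
  have hint : ∫ t in (0:ℝ)..(2 * π), ‖(qq lg w d t).2‖ ^ 2 = 2 * π * ‖q.2‖ ^ 2 := by
    have h1 : ∫ t in (0:ℝ)..(2 * π), ‖(qq lg w d t).2‖ ^ 2 =
        ∫ t in (0:ℝ)..(2 * π), ‖q.2‖ ^ 2 := by
      refine intervalIntegral.integral_congr (fun t ht => ?_)
      rw [uIcc_of_le (by positivity)] at ht
      simp only [hnorm t ht.1]
    rw [h1, intervalIntegral.integral_const, smul_eq_mul, sub_zero]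
  -- `H¹` convergence
  have hH1 : ∀ e > 0, ∀ᶠ j in l,
      ∫ t in (0:ℝ)..(2 * π), ‖deriv (c j) t - (qq lg w d t).2‖ ^ 2 ≤ e := by
    intro e he
    set ε : ℝ := w * √(e / (8 * π)) with hε'
    have hε : 0 < ε := mul_pos hw (Real.sqrt_pos.2 (by positivity))
    have hε2 : (ε / w) ^ 2 = e / (8 * π) := by
      rw [hε', mul_div_cancel_left₀ _ hw.ne']
      exact Real.sq_sqrt (by positivity)
    filter_upwards [hGM ε hε, hgr (e / 4) (by positivity)] with j hj1 hj2
    have h1 := h1_le hsg hw hwB (hcL j) (hKc j) hKd hg hdper hj1.1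
    rw [hε2] at h1
    have h2 : 4 * π * (e / (8 * π)) = e / 2 := by
      field_simp
      norm_num
    linarith
  have hcd' := continuous_c' hsg hw hwB hKd hg
  -- the speed is less than `2`
  have hB0 : 0 ≤ B := (En_nonneg (c 0)).trans (hcB 0)
  have hlt : ‖q.2‖ < 2 := by
    set θ : ℝ := (4 * π - B) / (8 * π) with hθ'
    have hθ : 0 < θ := div_pos (by linarith) (by positivity)
    have h1 : 2 * π * ‖q.2‖ ^ 2 ≤ (1 + θ) * (2 * B) := by
      refine le_of_forall_pos_le_add fun e he => ?_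
      obtain ⟨j, hj⟩ := (hH1 (e / (1 + 1 / θ)) (by positivity)).exists
      have hcj := (loop_cont_deriv (hcL j))
      have h2 : ∫ t in (0:ℝ)..(2 * π), ‖(qq lg w d t).2‖ ^ 2 ≤ ∫ t in (0:ℝ)..(2 * π),
          ((1 + θ) * ‖deriv (c j) t‖ ^ 2 +
            (1 + 1 / θ) * ‖deriv (c j) t - (qq lg w d t).2‖ ^ 2) := by
        refine intervalIntegral.integral_mono_on (by positivity)
          ((hcd'.norm.pow 2).intervalIntegrable _ _)
          ((((hcj.norm.pow 2).const_mul _).add
            (((hcj.sub hcd').norm.pow 2).const_mul _)).intervalIntegrable _ _)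
          (fun t _ => norm_sq_le_theta _ _ hθ)
      have h2' : ∫ t in (0:ℝ)..(2 * π), ((1 + θ) * ‖deriv (c j) t‖ ^ 2 +
          (1 + 1 / θ) * ‖deriv (c j) t - (qq lg w d t).2‖ ^ 2) =
          (∫ t in (0:ℝ)..(2 * π), (1 + θ) * ‖deriv (c j) t‖ ^ 2) +
          ∫ t in (0:ℝ)..(2 * π), (1 + 1 / θ) * ‖deriv (c j) t - (qq lg w d t).2‖ ^ 2 :=
        intervalIntegral.integral_add
          ((continuous_const.mul (hcj.norm.pow 2)).intervalIntegrable _ _)
          ((continuous_const.mul ((hcj.sub hcd').norm.pow 2)).intervalIntegrable _ _)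
      rw [h2', intervalIntegral.integral_const_mul, intervalIntegral.integral_const_mul,
        loop_energy (hcL j), hint] at h2
      have h3 : (1 + 1 / θ) * ∫ t in (0:ℝ)..(2 * π), ‖deriv (c j) t - (qq lg w d t).2‖ ^ 2 ≤ e := by
        calc _ ≤ (1 + 1 / θ) * (e / (1 + 1 / θ)) := by gcongr
          _ = e := mul_div_cancel₀ e (by positivity)
      have h4 : (1 + θ) * (2 * En (c j)) ≤ (1 + θ) * (2 * B) := by
        gcongr
        exact hcB j
      linarith
    have h5 : (1 + θ) * B < 4 * π := by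
      have h6 : θ * B ≤ θ * (4 * π) := by gcongr
      have h7 : θ * (4 * π) = (4 * π - B) / 2 := by
        rw [hθ']
        field_simp
        ring
      linarith
    have h8 : π * ‖q.2‖ ^ 2 < π * 4 := by linarith
    have h9 : ‖q.2‖ ^ 2 < 4 := lt_of_mul_lt_mul_left h8 hpi.le
    nlinarith [norm_nonneg q.2]
  rcases (norm_nonneg q.2).eq_or_lt with h0 | h0
  · -- constant limit
    obtain ⟨j, hj⟩ := (hH1 η hη).exists
    have h1 : ∫ t in (0:ℝ)..(2 * π), ‖deriv (c j) t - (qq lg w d t).2‖ ^ 2 =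
        ∫ t in (0:ℝ)..(2 * π), ‖deriv (c j) t‖ ^ 2 := by
      refine intervalIntegral.integral_congr (fun t ht => ?_)
      rw [uIcc_of_le (by positivity)] at ht
      have h2 := hnorm t ht.1
      rw [← h0, norm_eq_zero] at h2
      simp only [h2, sub_zero]
    rw [h1, loop_energy (hcL j)] at hj
    have := hcE j
    have := En_nonneg (c j)
    linarith
  · have hone := closed_one hB hper hqS (by rw [hqper]) h0 hlt
    obtain ⟨j, hj1, hj2⟩ := ((hH1 (η ^ 2) (by positivity)).and (hGM η hη)).exists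
    refine hcN j ⟨q.1, hqS.1, q.2, hqS.2, hone, ?_, ?_⟩
    · intro t
      rw [Exp_smul G hqS.1 hqS.2]
      show ‖c j t - (fl G (q, t)).1‖ ≤ η
      rw [← hdfl]
      exact hj2.2 t
    · have e1 : (fun t => Exp G q.1 (t • q.2)) = d := by
        funext t
        rw [Exp_smul G hqS.1 hqS.2, hdfl]
      rw [e1]
      have e2 : ∀ t, deriv d t = (qq lg w d t).2 := fun t =>
        (hasDerivAt_c' hsg hw hwB hKd hg t).deriv
      simp only [e2]
      exact hj1

end Crest.Agent.R208.PS
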