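import Crest.Agent.R208.NL1

/-!
R208, block NL (helper530), part NL2: the natural contraction of loops of energy `< π`:
`J` averaged Birkhoff steps followed by the linear homotopy to the mean, concatenated smoothly.
Everything is a function of the loop, commutes with rotations, and fixes constant loops.
-/

set_option autoImplicit false
set_option linter.unusedSectionVars false

open Set Filter Topology MeasureTheory
open scoped ContDiff RealInnerProductSpace Real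
open Crest.GeometryTopology.Submanifold
open Crest.Agent.R241.DDefs Crest.Agent.R241.D Crest.Agent.R241.D2
open Crest.Agent.R208.MS

noncomputable section

namespace Crest.Agent.R208.NL

variable {n N : ℕ} {κ : ℝ} {S : Set (Euc N)} {G : Geo n N κ S} {lg : Euc N → Euc N → Euc N}
  {ρ : Euc N → Euc N} {w : ℝ} {c : ℝ → Euc N} {J : ℕ}

/-- time function of the `j`-th of the stages `0, …, J` -/
def kj (J j : ℕ) (s : ℝ) : ℝ := Real.smoothTransition ((J + 1) * (2 * s - 1 / 2) - j)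

theorem contDiff_kj (J j : ℕ) : ContDiff ℝ ∞ (kj J j) :=
  Real.smoothTransition.contDiff.comp (by fun_prop)

theorem kj_nonneg (J j : ℕ) (s : ℝ) : 0 ≤ kj J j s := Real.smoothTransition.nonneg _
theorem kj_le_one (J j : ℕ) (s : ℝ) : kj J j s ≤ 1 := Real.smoothTransition.le_one _

theorem kj_zero (J j : ℕ) {s : ℝ} (hs : s ≤ 1 / 4) : kj J j s = 0 := by
  refine Real.smoothTransition.zero_of_nonpos ?_
  have h1 : (0:ℝ) ≤ j := Nat.cast_nonneg j
  have h2 : (0:ℝ) ≤ J := Nat.cast_nonneg J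
  nlinarith

theorem kj_one {J j : ℕ} (hj : j ≤ J) {s : ℝ} (hs : 3 / 4 ≤ s) : kj J j s = 1 := by
  refine Real.smoothTransition.one_of_one_le ?_
  have h1 : (j:ℝ) ≤ J := Nat.cast_le.2 hj
  have h2 : (0:ℝ) ≤ J := Nat.cast_nonneg J
  nlinarith

/-- the stages are successive -/
theorem kj_prev {J i j : ℕ} (hij : i < j) {s : ℝ} (hs : kj J j s ≠ 0) : kj J i s = 1 := by
  have h1 : (0:ℝ) < (J + 1) * (2 * s - 1 / 2) - j := by
    by_contra h
    push Not at h
    exact hs (Real.smoothTransition.zero_of_nonpos h)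
  refine Real.smoothTransition.one_of_one_le ?_
  have h2 : (i:ℝ) + 1 ≤ j := by exact_mod_cast hij
  linarith

/-- the first `j` Birkhoff stages at time `s` -/
def stk (G : Geo n N κ S) (lg : Euc N → Euc N → Euc N) (ρ : Euc N → Euc N) (w : ℝ) (J : ℕ) :
    ℕ → ℝ → (ℝ → Euc N) → ℝ → Euc N
  | 0, _, c => c
  | j + 1, s, c => st G lg ρ w (kj J j s) (stk G lg ρ w J j s c)

/-- **the natural contraction of loops** -/
def Lam (G : Geo n N κ S) (lg : Euc N → Euc N → Euc N) (ρ : Euc N → Euc N) (w : ℝ) (J : ℕ)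
    (s : ℝ) (c : ℝ → Euc N) : ℝ → Euc N := ac ρ (kj J J s) (stk G lg ρ w J J s c)

/-- data for the natural contraction below the energy `E₀` -/
structure LD (G : Geo n N κ S) (lg : Euc N → Euc N → Euc N) (ρ : Euc N → Euc N) (w : ℝ) (J : ℕ)
    (r C r' K B E₀ η : ℝ) : Prop where
  sg : SG G lg r C
  rt : Retr S ρ r' K
  sm : Small r C r' K B w
  s2 : Sm2 r' K η
  le : E₀ ≤ B
  /-- the steps do not increase the energy -/
  st : ∀ c, Loop S c → En c ≤ B → ∀ σ, 0 ≤ σ → σ ≤ 1 → En (st G lg ρ w σ c) ≤ En c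
  /-- after `J` steps the energy is small -/
  it : ∀ c, Loop S c → En c ≤ E₀ → En ((MS.st G lg ρ w 1)^[J] c) ≤ η

section loops
variable {r C r' K B E₀ η : ℝ}

theorem stk_spec (h : LD G lg ρ w J r C r' K B E₀ η) (hc : Loop S c) (hE : En c ≤ B) (s : ℝ)
    (j : ℕ) : Loop S (stk G lg ρ w J j s c) ∧ En (stk G lg ρ w J j s c) ≤ En c := by
  induction j with
  | zero => exact ⟨hc, le_rfl⟩
  | succ j ih =>
    obtain ⟨h1, h2⟩ := ih
    exact ⟨loop_st h.sg h.rt h1 (h2.trans hE) h.sm (kj_nonneg _ _ _) (kj_le_one _ _ _),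
      (h.st _ h1 (h2.trans hE) _ (kj_nonneg _ _ _) (kj_le_one _ _ _)).trans h2⟩

theorem stk_one {s : ℝ} (j : ℕ) (hs : ∀ i < j, kj J i s = 1) :
    stk G lg ρ w J j s c = (MS.st G lg ρ w 1)^[j] c := by
  induction j with
  | zero => rfl
  | succ j ih =>
    rw [Function.iterate_succ_apply', ← ih fun i hi => hs i (by omega)]
    change MS.st G lg ρ w (kj J j s) _ = _
    rw [hs j (by omega)]

theorem stk_zero (h : LD G lg ρ w J r C r' K B E₀ η) (hc : Loop S c) {s : ℝ} (hs : s ≤ 1 / 4)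
    (j : ℕ) : stk G lg ρ w J j s c = c := by
  induction j with
  | zero => rfl
  | succ j ih =>
    change MS.st G lg ρ w (kj J j s) (stk G lg ρ w J j s c) = _
    rw [ih, kj_zero _ _ hs]
    exact funext fun t => st_zero h.rt hc t

theorem stk_shift (s u : ℝ) (c : ℝ → Euc N) (j : ℕ) :
    stk G lg ρ w J j s (fun t => c (t + u)) = fun t => stk G lg ρ w J j s c (t + u) := by
  induction j with
  | zero => rfl
  | succ j ih =>
    change MS.st G lg ρ w (kj J j s) (stk G lg ρ w J j s fun t => c (t + u)) = _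
    rw [ih]
    exact funext fun t => st_shift _ _ _ _

theorem stk_const (h : LD G lg ρ w J r C r' K B E₀ η) {x : Euc N} (hx : x ∈ S) (s : ℝ) (j : ℕ) :
    stk G lg ρ w J j s (fun _ => x) = fun _ => x := by
  induction j with
  | zero => rfl
  | succ j ih =>
    change MS.st G lg ρ w (kj J j s) (stk G lg ρ w J j s fun _ => x) = _
    rw [ih]
    exact funext fun t => st_const h.sg h.rt h.sm.pos hx _ t

theorem last_ok (h : LD G lg ρ w J r C r' K B E₀ η) (hc : Loop S c) (hE : En c ≤ E₀) (s : ℝ) :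
    kj J J s = 0 ∨ En (stk G lg ρ w J J s c) ≤ η := by
  by_cases hs : kj J J s = 0
  · exact Or.inl hs
  · right
    rw [stk_one J fun i hi => kj_prev hi hs]
    exact h.it c hc hE

theorem loop_Lam (h : LD G lg ρ w J r C r' K B E₀ η) (hc : Loop S c) (hE : En c ≤ E₀) (s : ℝ) :
    Loop S (Lam G lg ρ w J s c) :=
  loop_ac h.rt h.s2 (stk_spec h hc (hE.trans h.le) s J).1 (last_ok h hc hE s) (kj_nonneg _ _ _)
    (kj_le_one _ _ _)

theorem En_Lam_le (h : LD G lg ρ w J r C r' K B E₀ η) (hc : Loop S c) (hE : En c ≤ E₀) (s : ℝ) :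
    En (Lam G lg ρ w J s c) ≤ max (En c) (2 * η) := by
  have h1 := stk_spec h hc (hE.trans h.le) s J
  rcases last_ok h hc hE s with h2 | h2
  · have h3 : Lam G lg ρ w J s c = stk G lg ρ w J J s c := by
      unfold Lam
      rw [h2]
      exact funext fun t => ac_zero h.rt h1.1 t
    rw [h3]
    exact h1.2.trans (le_max_left _ _)
  · refine (En_ac_le h.rt h.s2 h1.1 h2 (kj_nonneg _ _ _) (kj_le_one _ _ _)).trans
      (le_trans ?_ (le_max_right _ _))
    linarith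

theorem Lam_start (h : LD G lg ρ w J r C r' K B E₀ η) (hc : Loop S c) {s : ℝ} (hs : s ≤ 1 / 4) :
    Lam G lg ρ w J s c = c := by
  unfold Lam
  rw [stk_zero h hc hs, kj_zero _ _ hs]
  exact funext fun t => ac_zero h.rt hc t

/-- the end point of the contraction -/
def lend (G : Geo n N κ S) (lg : Euc N → Euc N → Euc N) (ρ : Euc N → Euc N) (w : ℝ) (J : ℕ)
    (c : ℝ → Euc N) : Euc N := ρ (mn ((MS.st G lg ρ w 1)^[J] c))

theorem Lam_end {s : ℝ} (hs : 3 / 4 ≤ s) : Lam G lg ρ w J s c = fun _ => lend G lg ρ w J c := by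
  unfold Lam
  rw [stk_one J fun i hi => kj_one hi.le hs, kj_one le_rfl hs]
  exact funext fun t => ac_one t

theorem Lam_shift (h : LD G lg ρ w J r C r' K B E₀ η) (hc : Loop S c) (hE : En c ≤ E₀)
    (s u t : ℝ) : Lam G lg ρ w J s (fun t => c (t + u)) t = Lam G lg ρ w J s c (t + u) := by
  unfold Lam
  rw [stk_shift, ac_shift (stk_spec h hc (hE.trans h.le) s J).1]

theorem Lam_const (h : LD G lg ρ w J r C r' K B E₀ η) {x : Euc N} (hx : x ∈ S) (s : ℝ) :
    Lam G lg ρ w J s (fun _ => x) = fun _ => x := by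
  unfold Lam
  rw [stk_const h hx]
  exact funext fun t => ac_const h.rt hx _ t

end loops

/-! ### families -/
section families
variable {E : Type} [NormedAddCommGroup E] [NormedSpace ℝ E] [FiniteDimensional ℝ E]
variable {X : Set E} {φ : ℝ → E → E} {f : E → Euc N} {r C r' K B E₀ η : ℝ} {σ : E → ℝ}

/-- smooth invariant function -/
structure SI (X : Set E) (φ : ℝ → E → E) (σ : E → ℝ) : Prop where
  smooth : ∀ z ∈ X, ContDiffAt ℝ ∞ σ z
  inv : ∀ z ∈ X, ∀ t, σ (φ t z) = σ z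

theorem SI.cut (h : SI X φ σ) (J j : ℕ) : Cut X φ (fun z => kj J j (σ z)) where
  smooth := fun z hz => (contDiff_kj J j).contDiffAt.comp z (h.smooth z hz)
  nonneg := fun _ _ => kj_nonneg _ _ _
  le_one := fun _ _ => kj_le_one _ _ _
  inv := fun z hz t => by rw [h.inv z hz]

/-- the Birkhoff stages of a family; the time is a function on the parameter space -/
def Fstk (φ : ℝ → E → E) (G : Geo n N κ S) (lg : Euc N → Euc N → Euc N) (ρ : Euc N → Euc N)
    (w : ℝ) (J : ℕ) (σ : E → ℝ) (f : E → Euc N) : ℕ → E → Euc N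
  | 0 => f
  | j + 1 => fsv φ G lg ρ w (fun z => kj J j (σ z)) (Fstk φ G lg ρ w J σ f j)

/-- **the natural contraction of a family** -/
def FLam (φ : ℝ → E → E) (G : Geo n N κ S) (lg : Euc N → Euc N → Euc N) (ρ : Euc N → Euc N)
    (w : ℝ) (J : ℕ) (σ : E → ℝ) (f : E → Euc N) : E → Euc N :=
  fac φ ρ (fun z => kj J J (σ z)) (Fstk φ G lg ρ w J σ f J)

theorem Fstk_spec (h : LD G lg ρ w J r C r' K B E₀ η) (hφ : CM.Cir X φ) (hf : Fam S X f)
    (hσ : SI X φ σ) (hE : ∀ z ∈ X, En (oc φ f z) ≤ B) (j : ℕ) :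
    Fam S X (Fstk φ G lg ρ w J σ f j) ∧ ∀ z ∈ X,
      oc φ (Fstk φ G lg ρ w J σ f j) z = stk G lg ρ w J j (σ z) (oc φ f z) := by
  induction j with
  | zero => exact ⟨hf, fun z _ => rfl⟩
  | succ j ih =>
    obtain ⟨h1, h2⟩ := ih
    have hB : ∀ z ∈ X, En (oc φ (Fstk φ G lg ρ w J σ f j) z) ≤ B := fun z hz => by
      rw [h2 z hz]
      exact (stk_spec h (loop_oc hφ hf hz) (hE z hz) (σ z) j).2.trans (hE z hz)
    refine ⟨fam_fsv h.rt h.sg hφ h1 (hσ.cut J j) h.sm hB, fun z hz => ?_⟩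
    change oc φ (fsv φ G lg ρ w (fun z => kj J j (σ z)) (Fstk φ G lg ρ w J σ f j)) z = _
    rw [oc_fsv hφ (hσ.cut J j) hz, h2 z hz]
    rfl

/-- the orbit loops of the contracted family are the contracted loops -/
theorem oc_FLam (h : LD G lg ρ w J r C r' K B E₀ η) (hφ : CM.Cir X φ) (hf : Fam S X f)
    (hσ : SI X φ σ) (hE : ∀ z ∈ X, En (oc φ f z) ≤ B) {z : E} (hz : z ∈ X) :
    oc φ (FLam φ G lg ρ w J σ f) z = Lam G lg ρ w J (σ z) (oc φ f z) := by
  have h1 := Fstk_spec h hφ hf hσ hE J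
  unfold FLam
  rw [oc_fac hφ h1.1 (hσ.cut J J) hz, h1.2 z hz]
  rfl

theorem FLam_eq (h : LD G lg ρ w J r C r' K B E₀ η) (hφ : CM.Cir X φ) (hf : Fam S X f)
    (hσ : SI X φ σ) (hE : ∀ z ∈ X, En (oc φ f z) ≤ B) {z : E} (hz : z ∈ X) :
    FLam φ G lg ρ w J σ f z = Lam G lg ρ w J (σ z) (oc φ f z) 0 := by
  have h1 := congrFun (oc_FLam h hφ hf hσ hE hz) 0
  unfold oc at h1 ⊢
  rwa [hφ.zero z hz] at h1

/-- the family is contracted only where `σ z > 1/4`; there the energy has to be `≤ E₀` -/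
theorem fam_FLam (h : LD G lg ρ w J r C r' K B E₀ η) (hφ : CM.Cir X φ) (hf : Fam S X f)
    (hσ : SI X φ σ) (hE : ∀ z ∈ X, En (oc φ f z) ≤ B)
    (hE' : ∀ z ∈ X, kj J J (σ z) = 0 ∨ En (oc φ f z) ≤ E₀) :
    Fam S X (FLam φ G lg ρ w J σ f) := by
  have h1 := Fstk_spec h hφ hf hσ hE J
  refine fam_fac h.rt hφ h1.1 (hσ.cut J J) h.s2 fun z hz => ?_
  rcases hE' z hz with h2 | h2
  · exact Or.inl h2
  · rw [h1.2 z hz]
    exact last_ok h (loop_oc hφ hf hz) h2 (σ z)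

/-- naturality -/
theorem FLam_natural (h : LD G lg ρ w J r C r' K B E₀ η) (hφ : CM.Cir X φ) (hf : Fam S X f)
    (hσ : SI X φ σ) (hE : ∀ z ∈ X, En (oc φ f z) ≤ B)
    {E' : Type} [NormedAddCommGroup E'] [NormedSpace ℝ E'] [FiniteDimensional ℝ E']
    {X' : Set E'} {φ' : ℝ → E' → E'} (hφ' : CM.Cir X' φ') {g : E' → E}
    (hg : ∀ z ∈ X', ContDiffAt ℝ ∞ g z) (hm : MapsTo g X' X)
    (he : ∀ z ∈ X', ∀ t, g (φ' t z) = φ t (g z)) {z : E'} (hz : z ∈ X') :
    FLam φ' G lg ρ w J (fun z => σ (g z)) (fun z => f (g z)) z = FLam φ G lg ρ w J σ f (g z) := by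
  have h1 : Fam S X' (fun z => f (g z)) :=
    ⟨fun z hz => (hf.smooth _ (hm hz)).comp z (hg z hz), fun z hz => hf.maps _ (hm hz)⟩
  have h2 : SI X' φ' (fun z => σ (g z)) :=
    ⟨fun z hz => (hσ.smooth _ (hm hz)).comp z (hg z hz), fun z hz t => by
      rw [he z hz, hσ.inv _ (hm hz)]⟩
  have h3 : ∀ z ∈ X', oc φ' (fun z => f (g z)) z = oc φ f (g z) := fun z hz => by
    funext t
    change f (g (φ' t z)) = f (φ t (g z))
    rw [he z hz]
  rw [FLam_eq h hφ' h1 h2 (fun z hz => by rw [h3 z hz]; exact hE _ (hm hz)) hz,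
    FLam_eq h hφ hf hσ hE (hm hz), h3 z hz]

end families

/-! ### homotopies: the parameter space `X × ℝ` -/
section homotopy
variable {E : Type} [NormedAddCommGroup E] [NormedSpace ℝ E] [FiniteDimensional ℝ E]
variable {X : Set E} {φ : ℝ → E → E} {f : E → Euc N} {r C r' K B E₀ η : ℝ} {σ : E → ℝ}

/-- the action on `X × ℝ` -/
def pR (φ : ℝ → E → E) (t : ℝ) (q : E × ℝ) : E × ℝ := (φ t q.1, q.2)

theorem cir_pR (hφ : CM.Cir X φ) : CM.Cir (X ×ˢ (univ : Set ℝ)) (pR φ) where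
  smooth := by
    rintro t ⟨z, s⟩ ⟨hz, -⟩
    have h1 : ContDiffAt ℝ ∞ (fun q : ℝ × (E × ℝ) => (q.1, q.2.1)) (t, (z, s)) := by fun_prop
    have h2 : ContDiffAt ℝ ∞ (fun q : ℝ × (E × ℝ) => φ q.1 q.2.1) (t, (z, s)) :=
      ContDiffAt.comp (t, (z, s)) (g := fun q : ℝ × E => φ q.1 q.2) (hφ.smooth t z hz) h1
    have h3 : ContDiffAt ℝ ∞ (fun q : ℝ × (E × ℝ) => q.2.2) (t, (z, s)) := by fun_prop
    exact h2.prodMk h3
  maps := fun t q hq => ⟨hφ.maps t hq.1, mem_univ _⟩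
  zero := fun q hq => Prod.ext (hφ.zero _ hq.1) rfl
  add := fun s t q hq => Prod.ext (hφ.add s t _ hq.1) rfl
  per := fun q hq => Prod.ext (hφ.per _ hq.1) rfl
  free := fun t q hq he => hφ.free t _ hq.1 (congrArg Prod.fst he)

theorem fam_fst (hf : Fam S X f) : Fam S (X ×ˢ (univ : Set ℝ)) (fun q : E × ℝ => f q.1) :=
  ⟨fun q hq => ContDiffAt.comp q (hf.smooth _ hq.1) contDiffAt_fst, fun q hq => hf.maps _ hq.1⟩

theorem oc_pR (z : E) (s : ℝ) : oc (pR φ) (fun q : E × ℝ => f q.1) (z, s) = oc φ f z := rfl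

/-- the contraction as a homotopy on `X × ℝ` -/
def HLam (φ : ℝ → E → E) (G : Geo n N κ S) (lg : Euc N → Euc N → Euc N) (ρ : Euc N → Euc N)
    (w : ℝ) (J : ℕ) (f : E → Euc N) : E × ℝ → Euc N :=
  FLam (pR φ) G lg ρ w J (fun q => q.2) (fun q => f q.1)

/-- **natural contraction of a family of loops of energy `≤ E₀`** -/
theorem contraction (h : LD G lg ρ w J r C r' K B E₀ η) (hφ : CM.Cir X φ) (hf : Fam S X f)
    (hE : ∀ z ∈ X, En (oc φ f z) ≤ E₀) :
    Fam S (X ×ˢ (univ : Set ℝ)) (HLam φ G lg ρ w J f) ∧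
    (∀ z ∈ X, ∀ s, HLam φ G lg ρ w J f (z, s) = Lam G lg ρ w J s (oc φ f z) 0) ∧
    (∀ z ∈ X, ∀ s t, HLam φ G lg ρ w J f (φ t z, s) = Lam G lg ρ w J s (oc φ f z) t) ∧
    (∀ z ∈ X, ∀ s, En (fun t => HLam φ G lg ρ w J f (φ t z, s)) ≤ max E₀ (2 * η)) ∧
    (∀ z ∈ X, ∀ s ≤ 1 / 4, HLam φ G lg ρ w J f (z, s) = f z) ∧
    (∀ z ∈ X, ∀ s ≥ 3 / 4, ∀ t, HLam φ G lg ρ w J f (φ t z, s) =
      lend G lg ρ w J (oc φ f z)) := by
  have hX := cir_pR hφ
  have hF := fam_fst hf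
  have hS : SI (X ×ˢ (univ : Set ℝ)) (pR φ) (fun q => q.2) :=
    ⟨fun _ _ => contDiffAt_snd, fun _ _ _ => rfl⟩
  have hEE : ∀ q ∈ X ×ˢ (univ : Set ℝ), En (oc (pR φ) (fun q : E × ℝ => f q.1) q) ≤ E₀ :=
    fun q hq => hE _ hq.1
  have hEB : ∀ q ∈ X ×ˢ (univ : Set ℝ), En (oc (pR φ) (fun q : E × ℝ => f q.1) q) ≤ B :=
    fun q hq => (hEE q hq).trans h.le
  have h1 := fam_FLam h hX hF hS hEB fun q hq => Or.inr (hEE q hq)
  have h2 : ∀ z ∈ X, ∀ s, oc (pR φ) (HLam φ G lg ρ w J f) (z, s) =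
      Lam G lg ρ w J s (oc φ f z) := fun z hz s => oc_FLam h hX hF hS hEB (z := (z, s)) ⟨hz, mem_univ _⟩
  have h3 : ∀ z ∈ X, ∀ s t, HLam φ G lg ρ w J f (φ t z, s) = Lam G lg ρ w J s (oc φ f z) t :=
    fun z hz s t => congrFun (h2 z hz s) t
  have h4 : ∀ z ∈ X, ∀ s, HLam φ G lg ρ w J f (z, s) = Lam G lg ρ w J s (oc φ f z) 0 := by
    intro z hz s
    have := h3 z hz s 0
    rwa [hφ.zero z hz] at this
  refine ⟨h1, h4, h3, fun z hz s => ?_, fun z hz s hs => ?_, fun z hz s hs t => ?_⟩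
  · have h5 : (fun t => HLam φ G lg ρ w J f (φ t z, s)) = Lam G lg ρ w J s (oc φ f z) :=
      h2 z hz s
    rw [h5]
    exact (En_Lam_le h (loop_oc hφ hf hz) (hE z hz) s).trans (max_le_max (hE z hz) le_rfl)
  · rw [h4 z hz, Lam_start h (loop_oc hφ hf hz) hs]
    unfold oc
    rw [hφ.zero z hz]
  · rw [h3 z hz, Lam_end hs]

end homotopy

end Crest.Agent.R208.NL
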