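import Crest.Agent.R208.EX4
import Crest.Agent.R208.NL2
import Crest.Agent.R208.FL1
import Crest.Agent.R208.MS3
import Crest.Agent.R208.MS1
import Crest.Agent.R208.MS1b

/-!
R208, block EX (helper530), part EX5: the natural homotopy of a family of loops of energy `≤ B < 4π`
to standard form: `J` averaged Birkhoff steps followed by the operator near `UM`.
-/

set_option autoImplicit false
set_option linter.unusedSectionVars false
set_option linter.unusedVariables false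

open MeasureTheory Set Filter Topology Module
open scoped ContDiff RealInnerProductSpace Real
open Crest.GeometryTopology.Submanifold
open Crest.Agent.R241.DDefs Crest.Agent.R241.D Crest.Agent.R241.D2
open Crest.Agent.R208.MS Crest.Agent.R208.NL
open Crest.Agent.R208.CW (SMap)
open Crest.Agent.R208.F (Ext)

noncomputable section

namespace Crest.Agent.R208.EX

variable {n N : ℕ} {κ : ℝ} {S : Set (Euc N)} {G : Geo n N κ S} {lg : Euc N → Euc N → Euc N}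
  {ρ : Euc N → Euc N} {w : ℝ} {J : ℕ} {r C r' K B : ℝ}
  {P : Type} [NormedAddCommGroup P] [NormedSpace ℝ P] [FiniteDimensional ℝ P]
  {Y : Set P} {φY : ℝ → P → P} {f1 : P → Euc N} {far : P → Prop}

/-- a family `f` with a homotopy `H` to a family of standard form -/
structure NDf {E : Type} [NormedAddCommGroup E] [NormedSpace ℝ E] [FiniteDimensional ℝ E]
    (X : Set E) (φ : ℝ → E → E) (S : Set (Euc N)) (Y : Set P) (φY : ℝ → P → P) (f1 : P → Euc N)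
    (far : P → Prop) (f : E → Euc N) (H : E × ℝ → Euc N) (μ : E → ℝ) (Γ : E → P) : Prop where
  sf : SMap X S f
  sH : SMap (X ×ˢ univ) S H
  H0 : ∀ x ∈ X, H (x, 0) = f x
  cH : ∀ x ∈ X, (∀ t, f (φ t x) = f x) → ∀ s t, H (φ t x, s) = f x
  sμ : ∀ x ∈ X, ContDiffAt ℝ ∞ μ x
  iμ : ∀ x ∈ X, ∀ t, μ (φ t x) = μ x
  sΓ : SMap (Up X μ) Y Γ
  eΓ : ∀ t, ∀ x ∈ Up X μ, Γ (φ t x) = φY t (Γ x)
  H1 : ∀ x ∈ Up X μ, H (x, 1) = f1 (Γ x)
  H1' : ∀ x ∈ Lo X μ, ∀ t, H (φ t x, 1) = H (x, 1)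
  far0 : ∀ x ∈ Up X μ, μ x < 1 → far (Γ x)
  cμ : ∀ x ∈ X, (∀ t, f (φ t x) = f x) → μ x < 1

section fam
variable {E : Type} [NormedAddCommGroup E] [NormedSpace ℝ E] [FiniteDimensional ℝ E]
  {X : Set E} {φ : ℝ → E → E} {f g : E → Euc N} {H : E × ℝ → Euc N} {μ : E → ℝ} {Γ : E → P}

theorem NDf.nd {lam : P → Ext P} (h : NDf X φ S Y φY f1 far f H μ Γ)
    (hl : ∀ y ∈ Y, far y → lam y = 0) : ND X φ S Y φY f1 lam f H μ Γ where
  sf := h.sf
  sH := h.sH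
  H0 := h.H0
  cH := h.cH
  sμ := h.sμ
  iμ := h.iμ
  sΓ := h.sΓ
  eΓ := h.eΓ
  H1 := h.H1
  H1' := h.H1'
  lam0 := fun x hx h1 => hl _ (h.sΓ.maps hx) (h.far0 x hx h1)
  cμ := h.cμ

/-! ### concatenation of homotopies -/

/-- cut-off: `0` for `s ≤ 7/16`, `1` for `s ≥ 9/16` -/
def kc (s : ℝ) : ℝ := Real.smoothTransition (8 * s - 7 / 2)

theorem contDiff_kc : ContDiff ℝ ∞ kc := Real.smoothTransition.contDiff.comp (by fun_prop)
theorem kc_zero {s : ℝ} (h : s ≤ 7 / 16) : kc s = 0 :=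
  Real.smoothTransition.zero_of_nonpos (by linarith)
theorem kc_one {s : ℝ} (h : 9 / 16 ≤ s) : kc s = 1 :=
  Real.smoothTransition.one_of_one_le (by linarith)

/-- concatenation: `H₁` for `s ≤ 7/16`, `H₂ (·, 2 s - 1)` for `s ≥ 9/16` -/
def cat (H₁ H₂ : E × ℝ → Euc N) (q : E × ℝ) : Euc N :=
  (1 - kc q.2) • H₁ q + kc q.2 • H₂ (q.1, 2 * q.2 - 1)

theorem contDiffAt_cat {H₁ H₂ : E × ℝ → Euc N} {x : E} {s : ℝ} (h1 : ContDiffAt ℝ ∞ H₁ (x, s))
    (h2 : ContDiffAt ℝ ∞ H₂ (x, 2 * s - 1)) : ContDiffAt ℝ ∞ (cat H₁ H₂) (x, s) := by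
  have e1 : ContDiffAt ℝ ∞ (fun q : E × ℝ => kc q.2) (x, s) :=
    contDiff_kc.contDiffAt.comp (x, s) contDiffAt_snd
  have e2 : ContDiffAt ℝ ∞ (fun q : E × ℝ => (q.1, 2 * q.2 - 1)) (x, s) := by fun_prop
  have e3 : ContDiffAt ℝ ∞ (fun q : E × ℝ => H₂ (q.1, 2 * q.2 - 1)) (x, s) :=
    ContDiffAt.comp (x, s) (g := H₂) h2 e2
  exact ((contDiffAt_const.sub e1).smul h1).add (e1.smul e3)

/-- the value of the concatenation -/
theorem cat_eq {H₁ H₂ : E × ℝ → Euc N} {x : E} {y : Euc N} (h1 : ∀ s ≥ 3 / 8, H₁ (x, s) = y)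
    (h2 : ∀ s ≤ 1 / 4, H₂ (x, s) = y) (s : ℝ) :
    cat H₁ H₂ (x, s) = if s ≤ 1 / 2 then H₁ (x, s) else H₂ (x, 2 * s - 1) := by
  unfold cat
  change (1 - kc s) • H₁ (x, s) + kc s • H₂ (x, 2 * s - 1) = _
  rcases le_or_gt s (7 / 16) with h | h
  · rw [if_pos (by linarith), kc_zero h, sub_zero, one_smul, zero_smul, add_zero]
  rcases le_or_gt (9 / 16) s with h' | h'
  · rw [if_neg (by linarith), kc_one h', sub_self, zero_smul, one_smul, zero_add]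
  · rw [h1 s (by linarith), h2 _ (by linarith), ← add_smul, sub_add_cancel, one_smul, ite_self]

/-- the Birkhoff stages as a homotopy -/
def HB (φ : ℝ → E → E) (G : Geo n N κ S) (lg : Euc N → Euc N → Euc N) (ρ : Euc N → Euc N)
    (w : ℝ) (J : ℕ) (f : E → Euc N) : E × ℝ → Euc N :=
  Fstk (pR φ) G lg ρ w J (fun q => 2 * q.2) (fun q => f q.1) J

/-- the data of NL2 with trivial last stage -/
theorem exists_ld (hsg : SG G lg r C) (hR : Retr S ρ r' K) (hs : Small r C r' K B w) (hB : 0 ≤ B)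
    (J : ℕ) : LD G lg ρ w J r C r' K B (-1) 0 where
  sg := hsg
  rt := hR
  sm := hs
  s2 := ⟨le_rfl, by rw [mul_zero]; exact pow_pos hR.r_pos 2, by norm_num⟩
  le := by linarith
  st := fun c hc hB σ h0 h1 => by
    have h2 := FL.En_st_mix_le hsg hR hc hB hs h0 h1
    have h3 := gr_nonneg' (G := G) (lg := lg) (c := c) hs
    have : 0 ≤ σ * gr G lg w c / 16 := by positivity
    linarith
  it := fun c hc h => by linarith [En_nonneg c]

theorem HB_spec (hsg : SG G lg r C) (hR : Retr S ρ r' K) (hs : Small r C r' K B w) (hB : 0 ≤ B)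
    (hφ : CM.Cir X φ) (hf : Fam S X f) (hE : ∀ z ∈ X, En (oc φ f z) ≤ B) (J : ℕ) :
    Fam S (X ×ˢ (univ : Set ℝ)) (HB φ G lg ρ w J f) ∧ ∀ x ∈ X, ∀ s t,
      HB φ G lg ρ w J f (φ t x, s) = stk G lg ρ w J J (2 * s) (oc φ f x) t := by
  have hX := cir_pR hφ
  have hF := fam_fst hf
  have hS : SI (X ×ˢ (univ : Set ℝ)) (pR φ) (fun q => 2 * q.2) :=
    ⟨fun _ _ => contDiffAt_const.mul contDiffAt_snd, fun _ _ _ => rfl⟩
  have h1 := Fstk_spec (exists_ld hsg hR hs hB J) hX hF hS (fun q hq => hE _ hq.1) J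
  exact ⟨h1.1, fun x hx s t => congrFun (h1.2 (x, s) ⟨hx, mem_univ _⟩) t⟩

end fam

/-! ### the operator near `UM` -/

/-- the statement on the operator near `UM` (helper131): for families all of whose loops are
`ε`-near `UM` or of energy `≤ π - δ`. -/
def NearOp (G : Geo n N κ S) (Y : Set P) (φY : ℝ → P → P) (f1 : P → Euc N) (far : P → Prop)
    (ε δ : ℝ) (HN : ℝ → (ℝ → Euc N) → Euc N) (mu : (ℝ → Euc N) → ℝ) (Gm : (ℝ → Euc N) → P) :
    Prop :=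
  ∀ (E : Type) [NormedAddCommGroup E] [NormedSpace ℝ E] [FiniteDimensional ℝ E] (X : Set E)
    (φ : ℝ → E → E) (f : E → Euc N), CM.Cir X φ → Fam S X f →
    (∀ z ∈ X, NearUM G ε (oc φ f z) ∨ En (oc φ f z) ≤ π - δ) →
    ∃ (H : E × ℝ → Euc N) (μ : E → ℝ) (Γ : E → P), NDf X φ S Y φY f1 far f H μ Γ ∧
      (∀ z ∈ X, ∀ s, H (z, s) = HN s (oc φ f z)) ∧ (∀ z ∈ X, ∀ s ≤ 1 / 4, H (z, s) = f z) ∧
      (∀ z ∈ X, μ z = mu (oc φ f z)) ∧ (∀ z ∈ Up X μ, Γ z = Gm (oc φ f z))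

/-- **natural operators bringing families of energy `≤ B` to standard form** -/
def NatOp (S : Set (Euc N)) (Y : Set P) (φY : ℝ → P → P) (f1 : P → Euc N)
    (far : P → Prop) (B : ℝ) (HL : ℝ → (ℝ → Euc N) → Euc N) (mu : (ℝ → Euc N) → ℝ)
    (Gm : (ℝ → Euc N) → P) : Prop :=
  ∀ (E : Type) [NormedAddCommGroup E] [NormedSpace ℝ E] [FiniteDimensional ℝ E] (X : Set E)
    (φ : ℝ → E → E) (f : E → Euc N), CM.Cir X φ → Fam S X f → (∀ z ∈ X, En (oc φ f z) ≤ B) →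
    ∃ (H : E × ℝ → Euc N) (μ : E → ℝ) (Γ : E → P), NDf X φ S Y φY f1 far f H μ Γ ∧
      (∀ z ∈ X, ∀ s, H (z, s) = HL s (oc φ f z)) ∧
      (∀ z ∈ X, μ z = mu (oc φ f z)) ∧ (∀ z ∈ Up X μ, Γ z = Gm (oc φ f z))

theorem NatOp.mono {B B' : ℝ} (hBB : B ≤ B') {HL : ℝ → (ℝ → Euc N) → Euc N}
    {mu : (ℝ → Euc N) → ℝ} {Gm : (ℝ → Euc N) → P} (h : NatOp S Y φY f1 far B' HL mu Gm) :
    NatOp S Y φY f1 far B HL mu Gm :=
  fun E _ _ _ X φ f hφ hf hE => h E X φ f hφ hf fun z hz => (hE z hz).trans hBB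

/-- one family -/
theorem nearOp_comp (hsg : SG G lg r C) (hR : Retr S ρ r' K) (hs : Small r C r' K B w)
    (hB : 0 ≤ B) {ε δ : ℝ}
    (hJ : ∀ c, Loop S c → En c ≤ B → NearUM G ε ((st G lg ρ w 1)^[J] c) ∨
      En ((st G lg ρ w 1)^[J] c) ≤ π - δ)
    {HN : ℝ → (ℝ → Euc N) → Euc N} {mu : (ℝ → Euc N) → ℝ} {Gm : (ℝ → Euc N) → P}
    (hN : NearOp G Y φY f1 far ε δ HN mu Gm) :
    NatOp S Y φY f1 far B
      (fun s c => if s ≤ 1 / 2 then stk G lg ρ w J J (2 * s) c 0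
        else HN (2 * s - 1) ((st G lg ρ w 1)^[J] c))
      (fun c => mu ((st G lg ρ w 1)^[J] c)) (fun c => Gm ((st G lg ρ w 1)^[J] c)) := by
  intro E _ _ _ X φ f hφ hf hE
  obtain ⟨b1, b2⟩ := HB_spec hsg hR hs hB hφ hf hE J
  obtain ⟨i1, i2⟩ := itf_spec hsg hR hφ hf hs hE J
  set fJ := itf φ G lg ρ w J f with hfJ
  have i3 : ∀ z ∈ X, oc φ fJ z = (st G lg ρ w 1)^[J] (oc φ f z) := fun z hz => (i2 z hz).2
  obtain ⟨H₂, μ, Γ, hND, c1, c2, c3, c4⟩ := hN E X φ fJ hφ i1 fun z hz => by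
    rw [i3 z hz]
    exact hJ _ (loop_oc hφ hf hz) (hE z hz)
  have hz0 : ∀ z ∈ X, ∀ s, HB φ G lg ρ w J f (z, s) = stk G lg ρ w J J (2 * s) (oc φ f z) 0 := by
    intro z hz s
    have := b2 z hz s 0
    rwa [hφ.zero z hz] at this
  have hJ0 : ∀ z ∈ X, fJ z = ((st G lg ρ w 1)^[J] (oc φ f z)) 0 := by
    intro z hz
    have h1 := congrFun (i3 z hz) 0
    unfold oc at h1
    rwa [hφ.zero z hz] at h1
  have hB1 : ∀ z ∈ X, ∀ s ≥ 3 / 8, HB φ G lg ρ w J f (z, s) = fJ z := by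
    intro z hz s hs'
    rw [hz0 z hz, hJ0 z hz, stk_one J fun i hi => kj_one hi.le (by linarith)]
  have hcat : ∀ z ∈ X, ∀ s, cat (HB φ G lg ρ w J f) H₂ (z, s) =
      if s ≤ 1 / 2 then HB φ G lg ρ w J f (z, s) else H₂ (z, 2 * s - 1) := fun z hz s =>
    cat_eq (hB1 z hz) (c2 z hz) s
  have hconst : ∀ z ∈ X, (∀ t, f (φ t z) = f z) → ∀ t, fJ (φ t z) = f z := by
    intro z hz hc t
    have h1 := congrFun (i3 z hz) t
    have h2 : oc φ f z = fun _ => f z := funext fun t => hc t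
    rw [h2] at h1
    have h3 : (st G lg ρ w 1)^[J] (fun _ => f z) = fun _ => f z := by
      have := stk_const (exists_ld hsg hR hs hB J) (hf.maps z hz) 1 J
      rwa [stk_one J fun i hi => kj_one hi.le (by norm_num)] at this
    rw [h3] at h1
    exact h1
  have hconst' : ∀ z ∈ X, (∀ t, f (φ t z) = f z) → ∀ t, fJ (φ t z) = fJ z := by
    intro z hz hc t
    have h1 := hconst z hz hc 0
    rw [hφ.zero z hz] at h1
    rw [hconst z hz hc t, h1]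
  refine ⟨cat (HB φ G lg ρ w J f) H₂, μ, Γ, ⟨⟨hf.smooth, hf.maps⟩, ⟨fun q hq => ?_, fun q hq => ?_⟩,
    fun x hx => ?_, fun x hx hc s t => ?_, hND.sμ, hND.iμ, hND.sΓ, hND.eΓ, fun x hx => ?_,
    fun x hx t => ?_, hND.far0, fun x hx hc => hND.cμ x hx (hconst' x hx hc)⟩,
    fun z hz s => ?_, fun z hz => ?_, fun z hz => ?_⟩
  · exact contDiffAt_cat (b1.smooth _ ⟨hq.1, mem_univ _⟩) (hND.sH.smooth _ ⟨hq.1, mem_univ _⟩)
  · obtain ⟨x, s⟩ := q
    rw [hcat x hq.1]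
    split_ifs
    · exact b1.maps _ ⟨hq.1, mem_univ _⟩
    · exact hND.sH.maps ⟨hq.1, mem_univ _⟩
  · rw [hcat x hx, if_pos (by norm_num), hz0 x hx, mul_zero,
      stk_zero (exists_ld hsg hR hs hB J) (loop_oc hφ hf hx) (by norm_num)]
    unfold oc
    rw [hφ.zero x hx]
  · rw [hcat _ (hφ.maps t hx)]
    split_ifs
    · rw [b2 x hx]
      have h2 : oc φ f x = fun _ => f x := funext fun t => hc t
      rw [h2, stk_const (exists_ld hsg hR hs hB J) (hf.maps x hx)]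
    · rw [hND.cH x hx (hconst' x hx hc)]
      have h1 := hconst x hx hc 0
      rwa [hφ.zero x hx] at h1
  · rw [hcat x hx.1, if_neg (by norm_num)]
    have : (2 : ℝ) * 1 - 1 = 1 := by norm_num
    rw [this]
    exact hND.H1 x hx
  · rw [hcat _ (hφ.maps t hx.1), hcat x hx.1, if_neg (by norm_num), if_neg (by norm_num)]
    have : (2 : ℝ) * 1 - 1 = 1 := by norm_num
    rw [this]
    exact hND.H1' x hx t
  · rw [hcat z hz]
    beta_reduce
    split_ifs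
    · rw [hz0 z hz]
    · rw [c1 z hz, i3 z hz]
  · rw [c3 z hz, i3 z hz]
  · rw [c4 z hz, i3 z hz.1]

/-- **existence of the natural operators below `4π`** -/
theorem exists_natOp (hBl : Bl n N κ S G π) (hper : HS.Per G) (hB4 : B < 4 * π) {ε : ℝ}
    (hε : 0 < ε)
    (hN : ∀ δ > 0, ∃ (HN : ℝ → (ℝ → Euc N) → Euc N) (mu : (ℝ → Euc N) → ℝ)
      (Gm : (ℝ → Euc N) → P), NearOp G Y φY f1 far ε δ HN mu Gm) :
    ∃ (HL : ℝ → (ℝ → Euc N) → Euc N) (mu : (ℝ → Euc N) → ℝ) (Gm : (ℝ → Euc N) → P),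
      NatOp S Y φY f1 far B HL mu Gm := by
  obtain ⟨lg, r, C, hsg⟩ := exists_SG (G := G) hBl
  obtain ⟨ρ, r', K, hR, -⟩ := exists_Retr (G := G) hBl
  set B' := max B 0 with hB'
  have hB0 : 0 ≤ B' := le_max_right _ _
  have hBB : B ≤ B' := le_max_left _ _
  have hB4' : B' < 4 * π := max_lt hB4 (by positivity)
  obtain ⟨w₀, hw₀, hsm⟩ := exists_small (r := r) (r' := r') hsg.r_pos hR.r_pos C K B'
  have hs := hsm w₀ hw₀ le_rfl
  have hstep := FL.stepOK hsg hR hs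
  have hps := PS.ps hBl hper hsg hs.pos hs.le_two_pi hs.s1 hB4'
  obtain ⟨J, δ, hδ, hJ⟩ := push hs.pos.le (by positivity) hstep hps hε
  obtain ⟨HN, mu, Gm, h1⟩ := hN δ hδ
  have h2 := nearOp_comp (J := J) hsg hR hs hB0 (fun c hc hcB => (hJ c hc hcB J le_rfl).symm) h1
  exact ⟨_, _, _, h2.mono hBB⟩

end Crest.Agent.R208.EX
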