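import Crest.Agent.R208.EX5

/-!
R208, block EX (helper530), part EX6: **the natural primitive as an interface**: the predicate
`IsEta M φ θ f η X`, existence for families of energy `≤ B`, its properties and naturality; the
relative form `vv - d (cut • η)`.
-/

set_option autoImplicit false
set_option linter.unusedSectionVars false
set_option linter.unusedVariables false

open MeasureTheory Set Filter Topology Module
open scoped ContDiff RealInnerProductSpace Real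
open Crest.GeometryTopology.Submanifold
open Crest.Agent.R241.DDefs Crest.Agent.R241.D Crest.Agent.R241.D2
open Crest.Agent.R208.F Crest.Agent.R208.FI Crest.Agent.R208.CW Crest.Agent.R208.T
open Crest.Agent.R208.CM (Cir gen)
open Crest.Agent.R208.VC
open Crest.Agent.R208.MS (Fam oc En)

noncomputable section

namespace Crest.Agent.R208.EX

variable {n N : ℕ} {κ : ℝ} {S : Set (Euc N)}

/-- the data of the natural primitive -/
structure ED (N : ℕ) where
  P : Type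
  [i1 : NormedAddCommGroup P]
  [i2 : NormedSpace ℝ P]
  [i3 : FiniteDimensional ℝ P]
  S : Set (Euc N)
  om : Euc N → Ext (Euc N)
  Y : Set P
  φY : ℝ → P → P
  θ1 : P → Ext P
  f1 : P → Euc N
  lam : P → Ext P
  far : P → Prop
  p : ℕ
  q : ℕ
  r : ℝ
  s : ℝ
  B : ℝ
  HL : ℝ → (ℝ → Euc N) → Euc N
  mu : (ℝ → Euc N) → ℝ
  Gm : (ℝ → Euc N) → P

attribute [instance] ED.i1 ED.i2 ED.i3

/-- the data are good -/
structure ED.OK (D : ED N) : Prop where
  mod : Mod D.S D.om D.Y D.φY D.θ1 D.f1 D.lam D.p D.q D.r D.s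
  far : ∀ y ∈ D.Y, D.far y → D.lam y = 0
  nat : NatOp D.S D.Y D.φY D.f1 D.far D.B D.HL D.mu D.Gm

section def_
variable {E : Type} [NormedAddCommGroup E] [NormedSpace ℝ E] [FiniteDimensional ℝ E]

/-- the closed basic form of a family -/
def ED.vf (D : ED N) (φ : ℝ → E → E) (θ : E → Ext E) (f : E → Euc N) : E → Ext E :=
  vv φ (F.d θ) D.p D.q D.r D.s (F.pull f D.om)

/-- `η` is the natural primitive of `vf` of the family `f` over `X` -/
def ED.IsEta (D : ED N) (X : Set E) (φ : ℝ → E → E) (θ : E → Ext E) (f : E → Euc N)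
    (η : E → Ext E) : Prop :=
  ∃ (H : E × ℝ → Euc N) (μ : E → ℝ) (Γ : E → D.P),
    NDf X φ D.S D.Y D.φY D.f1 D.far f H μ Γ ∧
    (∀ z ∈ X, ∀ s, H (z, s) = D.HL s (oc φ f z)) ∧
    (∀ z ∈ X, μ z = D.mu (oc φ f z)) ∧ (∀ z ∈ Up X μ, Γ z = D.Gm (oc φ f z)) ∧
    Sm X η ∧ Eqv X η (Eta φ θ D.om D.θ1 D.lam D.p D.q D.r D.s H μ Γ)

end def_

section main
variable {E : Type} [NormedAddCommGroup E] [NormedSpace ℝ E] [FiniteDimensional ℝ E]
  {E' : Type} [NormedAddCommGroup E'] [NormedSpace ℝ E'] [FiniteDimensional ℝ E']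
  {D : ED N} {m : ℕ} {X : Set E} {φ : ℝ → E → E} {θ η η' : E → Ext E} {f : E → Euc N} {x : E}

/-- **existence** -/
theorem ED.exists_eta (hD : D.OK) (h : Cir X φ) (hX : Sub m X) (hθ : Cn X φ θ)
    (hf : Fam D.S X f) (hE : ∀ z ∈ X, En (oc φ f z) ≤ D.B) : ∃ η, D.IsEta X φ θ f η := by
  obtain ⟨H, μ, Γ, h1, h2, h3, h4⟩ := hD.nat E X φ f h hf hE
  exact ⟨_, H, μ, Γ, h1, h2, h3, h4, sm_Eta (Act.of_cir h) hX hD.mod hθ (h1.nd hD.far),
    Eqv.refl _⟩

theorem ED.IsEta.sm (hη : D.IsEta X φ θ f η) : Sm X η := by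
  obtain ⟨H, μ, Γ, -, -, -, -, h5, -⟩ := hη
  exact h5

theorem Inv.of_eqv {a b : E → Ext E} (h : Act X φ) (hab : Eqv X a b) (hb : Inv X φ b) :
    Inv X φ a := fun t => (hab.pull (smap h t)).trans ((hb t).trans hab.symm)

theorem ED.IsEta.inv (hη : D.IsEta X φ θ f η) (hD : D.OK) (h : Act X φ) (hX : Sub m X)
    (hθ : Cn X φ θ) : Inv X φ η := by
  obtain ⟨H, μ, Γ, h1, -, -, -, h5, h6⟩ := hη
  exact Inv.of_eqv h h6 (inv_Eta h hX hD.mod hθ (h1.nd hD.far))

theorem ED.IsEta.hz (hη : D.IsEta X φ θ f η) (hD : D.OK) (h : Act X φ) (hX : Sub m X)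
    (hθ : Cn X φ θ) : Hz X φ η := by
  obtain ⟨H, μ, Γ, h1, -, -, -, h5, h6⟩ := hη
  exact Hz.of_eqv h h6 (hz_Eta h hX hD.mod hθ (h1.nd hD.far))

/-- the differential of the natural primitive is the form of the family -/
theorem ED.IsEta.d (hη : D.IsEta X φ θ f η) (hD : D.OK) (h : Act X φ) (hX : Sub m X)
    (hθ : Cn X φ θ) : Eqv X (D.vf φ θ f) (F.d η) := by
  obtain ⟨H, μ, Γ, h1, -, -, -, h5, h6⟩ := hη
  have hN := h1.nd hD.far
  exact (d_Eta h hX hD.mod hθ hN).trans (h6.d hX h5 (sm_Eta h hX hD.mod hθ hN)).symm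

/-- it vanishes where the loops are constant -/
theorem ED.IsEta.zero (hη : D.IsEta X φ θ f η) (hD : D.OK) (h : Act X φ) (hX : Sub m X)
    (hθ : Cn X φ θ) (hx : x ∈ X) (hc : ∀ t, f (φ t x) = f x) : rsL X x (η x) = 0 := by
  obtain ⟨H, μ, Γ, h1, -, -, -, h5, h6⟩ := hη
  have e1 := Eta_zero h hX hD.mod hθ (h1.nd hD.far) hx hc
  have e2 := eqv_iff.1 h6 x hx
  rw [rsL_apply] at e1 ⊢
  rw [e2, e1]

/-- **naturality** -/
theorem ED.IsEta.nat {m' : ℕ} {X' : Set E'} {φ' : ℝ → E' → E'} {θ' ζ : E' → Ext E'}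
    {f' : E' → Euc N} {g : E' → E} (hη : D.IsEta X φ θ f η) (hζ : D.IsEta X' φ' θ' f' ζ)
    (hD : D.OK) (h : Act X φ) (hX : Sub m X) (hθ : Cn X φ θ)
    (h' : Act X' φ') (hX' : Sub m' X') (hθ' : Cn X' φ' θ')
    (hg : SMap X' X g) (heq : ∀ t, ∀ y ∈ X', g (φ' t y) = φ t (g y))
    (hff : ∀ y ∈ X', f' y = f (g y)) (hθθ : Eqv X' (F.pull g θ) θ') :
    Eqv X' (F.pull g η) ζ := by
  obtain ⟨H, μ, Γ, h1, h2, h3, h4, h5, h6⟩ := hη
  obtain ⟨H', μ', Γ', h1', h2', h3', h4', h5', h6'⟩ := hζ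
  have hoc : ∀ y ∈ X', oc φ' f' y = oc φ f (g y) := by
    intro y hy
    funext t
    change f' (φ' t y) = f (φ t (g y))
    rw [hff _ (h'.maps t hy), heq t y hy]
  have hμμ : ∀ y ∈ X', μ' y = μ (g y) := fun y hy => by
    rw [h3' y hy, hoc y hy, ← h3 _ (hg.maps hy)]
  have hup := smap_up hg hμμ
  refine (h6.pull hg).trans ((nat_Eta h hX hD.mod hθ (h1.nd hD.far) h' hX' hθ'
    (h1'.nd hD.far) hg heq (fun y hy s => ?_) hμμ (fun y hy => ?_) hθθ).trans h6'.symm)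
  · rw [h2' y hy, hoc y hy, ← h2 _ (hg.maps hy)]
  · rw [h4' y hy, hoc y hy.1, ← h4 _ (hup.maps hy)]

/-- uniqueness up to restriction -/
theorem ED.IsEta.unique (hη : D.IsEta X φ θ f η) (hη' : D.IsEta X φ θ f η')
    (hD : D.OK) (h : Act X φ) (hX : Sub m X) (hθ : Cn X φ θ) : Eqv X η η' := by
  have h1 := hη.nat hη' hD h hX hθ h hX hθ (SMap.id X) (fun t y _ => rfl) (fun y _ => rfl)
    (Eqv.of_eq fun y _ => F.pull_id θ y)
  exact (Eqv.of_eq fun y _ => (F.pull_id η y).symm).trans h1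

/-! ### the relative form -/

/-- the relative form: `vf` minus the differential of the cut off primitive -/
def ED.rel (D : ED N) (φ : ℝ → E → E) (θ : E → Ext E) (f : E → Euc N) (c : E → ℝ)
    (η : E → Ext E) : E → Ext E := D.vf φ θ f - F.d (fun x => kx (c x) • η x)

variable {c : E → ℝ}

/-- the cut off primitive is smooth on all of `X` -/
theorem sm_cut (hc : ∀ x ∈ X, ContDiffAt ℝ ∞ c x) (hη : Sm (Up X c) η) :
    Sm X (fun x => kx (c x) • η x) := by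
  intro x hx
  rcases le_or_gt (c x) 0 with h0 | h0
  · have h1 : ∀ᶠ y in 𝓝 x, c y < 1 / 4 :=
      (hc x hx).continuousAt.eventually (gt_mem_nhds (by linarith))
    refine (contDiffAt_const (c := (0 : Ext E))).congr_of_eventuallyEq (h1.mono fun y hy => ?_)
    change kx (c y) • η y = 0
    rw [kx_zero hy.le, zero_smul]
  · exact (contDiff_kx.contDiffAt.comp x (hc x hx)).smul (hη x ⟨hx, h0⟩)

theorem inv_cut (h : Act X φ) (hc : ∀ x ∈ X, ContDiffAt ℝ ∞ c x)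
    (hci : ∀ x ∈ X, ∀ t, c (φ t x) = c x) (hη : Inv (Up X c) φ η) :
    Inv X φ (fun x => kx (c x) • η x) := by
  intro t
  refine eqv_iff.2 fun x hx => ?_
  have h1 : F.pull (φ t) (fun x => kx (c x) • η x) x = kx (c (φ t x)) • F.pull (φ t) η x :=
    F.pull_smul _ _ _ _
  rw [h1, hci x hx, map_smul, map_smul]
  rcases le_or_gt (c x) 0 with h0 | h0
  · rw [kx_zero (by linarith), zero_smul, zero_smul]
  · congr 1
    exact rs_up hc (hη t) ⟨hx, h0⟩

theorem hz_cut (hc : ∀ x ∈ X, ContDiffAt ℝ ∞ c x) (hη : Hz (Up X c) φ η) :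
    Hz X φ (fun x => kx (c x) • η x) := by
  refine eqv_iff.2 fun x hx => ?_
  have h1 : iV φ (fun x => kx (c x) • η x) x = kx (c x) • iV φ η x :=
    map_smul (ii (gen φ x)) _ _
  rw [h1, map_smul]
  rcases le_or_gt (c x) 0 with h0 | h0
  · rw [kx_zero (by linarith), zero_smul, Pi.zero_apply, map_zero]
  · have h2 := rs_up hc hη ⟨hx, h0⟩
    rw [rsL_apply, rsL_apply] at h2
    rw [h2, Pi.zero_apply, map_zero, smul_zero]

theorem act_up (h : Act X φ) (hci : ∀ x ∈ X, ∀ t, c (φ t x) = c x) : Act (Up X c) φ :=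
  h.mono inter_subset_left fun t x hx => ⟨h.maps t hx.1, by
    change 0 < c (φ t x)
    rw [hci x hx.1]; exact hx.2⟩

theorem cir_up (h : Cir X φ) (hci : ∀ x ∈ X, ∀ t, c (φ t x) = c x) : Cir (Up X c) φ :=
  h.mono inter_subset_left fun t x hx => ⟨h.maps t hx.1, by
    change 0 < c (φ t x)
    rw [hci x hx.1]; exact hx.2⟩

theorem fam_up (hf : Fam S X f) : Fam S (Up X c) f :=
  ⟨fun z hz => hf.smooth z hz.1, fun z hz => hf.maps z hz.1⟩

theorem ED.OK.dat (hD : D.OK) (hf : Fam D.S X f) : Dat X (F.pull f D.om) :=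
  hD.mod.dat.pull ⟨hf.smooth, hf.maps⟩

section rel
variable (hD : D.OK) (h : Act X φ) (hX : Sub m X) (hθ : Cn X φ θ) (hf : Fam D.S X f)
  (hc : ∀ x ∈ X, ContDiffAt ℝ ∞ c x) (hci : ∀ x ∈ X, ∀ t, c (φ t x) = c x)
  (hη : D.IsEta (Up X c) φ θ f η)

include hD h hX hθ hf

theorem ED.sm_vf : Sm X (D.vf φ θ f) := sm_vv h (hθ.bas h hX) (hD.dat hf)
theorem ED.cl_vf : Cl X (D.vf φ θ f) := cl_vv h hX (hθ.bas h hX) (hD.dat hf)
theorem ED.inv_vf : Inv X φ (D.vf φ θ f) := inv_vv h (hθ.bas h hX) (hD.dat hf)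
theorem ED.hz_vf : Hz X φ (D.vf φ θ f) := hz_vv h (hθ.bas h hX) (hD.dat hf)

include hc hη

theorem ED.sm_rel : Sm X (D.rel φ θ f c η) :=
  (ED.sm_vf hD h hX hθ hf).sub (sm_cut hc hη.sm).d

theorem ED.cl_rel : Cl X (D.rel φ θ f c η) :=
  Cl.sub (ED.sm_vf hD h hX hθ hf) (sm_cut hc hη.sm).d (ED.cl_vf hD h hX hθ hf)
    (d_d' (sm_cut hc hη.sm))

include hci

theorem ED.inv_rel : Inv X φ (D.rel φ θ f c η) :=
  (ED.inv_vf hD h hX hθ hf).sub (Inv.d' h hX (sm_cut hc hη.sm)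
    (inv_cut h hc hci (hη.inv hD (act_up h hci) (sub_up hc hX) (hθ.mono inter_subset_left))))

theorem ED.hz_rel : Hz X φ (D.rel φ θ f c η) := by
  have hs := sm_cut hc hη.sm
  have hau := act_up h hci
  have hXu := sub_up hc hX
  have hθu := hθ.mono (X' := Up X c) inter_subset_left
  have hi := inv_cut h hc hci (hη.inv hD hau hXu hθu)
  have hz := hz_cut hc (hη.hz hD hau hXu hθu)
  refine (ED.hz_vf hD h hX hθ hf).sub ?_
  have h1 := Inv.d_iV h hX hs hi
  have h2 : Eqv X (F.d (iV φ fun x => kx (c x) • η x)) (F.d (0 : E → Ext E)) :=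
    Eqv.d hX (Sm.iV h hs) Sm.zero hz
  rw [d_zero'] at h2
  have h3 := h1.symm.trans h2
  have h4 := h3.neg
  rw [neg_neg, neg_zero] at h4
  exact h4

/-- the relative form vanishes where `c > 3/4` -/
theorem ED.rel_zero (hx : x ∈ X) (hcx : 3 / 4 < c x) : rsL X x (D.rel φ θ f c η x) = 0 := by
  have hxu : x ∈ Up X c := ⟨hx, by change 0 < c x; linarith⟩
  have hXu := sub_up hc hX
  have h1 : (fun x => kx (c x) • η x) =ᶠ[𝓝 x] η := by
    have h2 : ∀ᶠ y in 𝓝 x, 3 / 4 < c y :=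
      (hc x hx).continuousAt.eventually (lt_mem_nhds hcx)
    filter_upwards [h2] with y hy
    rw [kx_one hy.le, one_smul]
  have h2 : F.d (fun x => kx (c x) • η x) x = F.d η x := F.d_congr h1
  have h3 := rs_up hc (hη.d hD (act_up h hci) hXu (hθ.mono inter_subset_left)) hxu
  have h4 : D.rel φ θ f c η x = D.vf φ θ f x - F.d η x := by
    rw [← h2]; rfl
  rw [h4, map_sub, h3, sub_self]

end rel

/-- the relative form is `vf` where `c < 1/4` -/
theorem ED.rel_eq (hc : ∀ x ∈ X, ContDiffAt ℝ ∞ c x) (hx : x ∈ X) (hcx : c x < 1 / 4) :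
    D.rel φ θ f c η x = D.vf φ θ f x := by
  have h1 : (fun x => kx (c x) • η x) =ᶠ[𝓝 x] fun _ => 0 := by
    have h2 : ∀ᶠ y in 𝓝 x, c y < 1 / 4 :=
      (hc x hx).continuousAt.eventually (gt_mem_nhds hcx)
    filter_upwards [h2] with y hy
    rw [kx_zero hy.le, zero_smul]
  have h2 : F.d (fun x => kx (c x) • η x) x = 0 := by rw [F.d_congr h1, F.d_const]
  change D.vf φ θ f x - F.d (fun x => kx (c x) • η x) x = _
  rw [h2, sub_zero]

/-- **naturality of the relative form** -/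
theorem ED.rel_nat {m' : ℕ} {X' : Set E'} {φ' : ℝ → E' → E'} {θ' ζ : E' → Ext E'}
    {f' : E' → Euc N} {g : E' → E} {c' : E' → ℝ} (hD : D.OK) (h : Act X φ) (hX : Sub m X)
    (hθ : Cn X φ θ) (hf : Fam D.S X f) (hc : ∀ x ∈ X, ContDiffAt ℝ ∞ c x)
    (hci : ∀ x ∈ X, ∀ t, c (φ t x) = c x) (hη : D.IsEta (Up X c) φ θ f η)
    (h' : Act X' φ') (hX' : Sub m' X') (hθ' : Cn X' φ' θ') (hf' : Fam D.S X' f')
    (hc' : ∀ x ∈ X', ContDiffAt ℝ ∞ c' x)
    (hci' : ∀ x ∈ X', ∀ t, c' (φ' t x) = c' x) (hζ : D.IsEta (Up X' c') φ' θ' f' ζ)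
    (hg : SMap X' X g) (heq : ∀ t, ∀ y ∈ X', g (φ' t y) = φ t (g y))
    (hff : ∀ y ∈ X', f' y = f (g y)) (hθθ : Eqv X' (F.pull g θ) θ')
    (hcc : ∀ y ∈ X', c' y = c (g y)) :
    Eqv X' (F.pull g (D.rel φ θ f c η)) (D.rel φ' θ' f' c' ζ) := by
  have hup := smap_up hg hcc
  have e1 := hη.nat hζ hD (act_up h hci) (sub_up hc hX) (hθ.mono inter_subset_left)
    (act_up h' hci') (sub_up hc' hX') (hθ'.mono inter_subset_left) hup
    (fun t y hy => heq t y hy.1) (fun y hy => hff y hy.1) (hθθ.mono_tan inter_subset_left)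
  have hs := sm_cut hc hη.sm
  have hs' := sm_cut hc' hζ.sm
  have e2 : Eqv X' (F.pull g (fun x => kx (c x) • η x)) (fun x => kx (c' x) • ζ x) := by
    refine eqv_iff.2 fun y hy => ?_
    have h1 : F.pull g (fun x => kx (c x) • η x) y = kx (c (g y)) • F.pull g η y :=
      F.pull_smul _ _ _ _
    rw [h1, ← hcc y hy, map_smul, map_smul]
    rcases le_or_gt (c' y) 0 with h0 | h0
    · rw [kx_zero (by linarith), zero_smul, zero_smul]
    · congr 1
      exact rs_up hc' e1 ⟨hy, h0⟩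
  have e3 : Eqv X' (F.pull g (D.vf φ θ f)) (D.vf φ' θ' f') := by
    refine (nat_vv h h' hg heq (hD.dat hf).sm).trans (eqv_vv h' ((hD.dat hf).sm.pull hg)
      (hD.dat hf').sm ?_ ?_)
    · have d1 : Eqv X' (F.pull g (F.pull f D.om)) (F.pull (fun y => f (g y)) D.om) :=
        Eqv.of_eq fun y hy => F.pull_comp (hg.diff hy)
          ((hf.smooth _ (hg.maps hy)).differentiableAt (by simp))
      refine d1.trans (eqv_pull_of_eq D.om (fun y hy => ?_) (fun y hy =>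
        (hf'.smooth y hy).differentiableAt (by simp)) fun y hy => (hff y hy).symm)
      exact (((hf.smooth _ (hg.maps hy)).comp y (hg.smooth y hy))).differentiableAt (by simp)
    · exact (d_pull_eqv hg hθ.sm).symm.trans (hθθ.d hX' (hθ.sm.pull hg) hθ'.sm)
  rw [ED.rel, pull_sub']
  exact e3.sub ((d_pull_eqv hg hs).symm.trans (e2.d hX' (hs.pull hg) hs'))

end main

end Crest.Agent.R208.EX
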