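import Crest.Agent.R208.FI2a

/-! Row 208, block F2 (helper349), part FI2b: regular level sets. -/

set_option autoImplicit false
set_option linter.unusedSectionVars false
set_option linter.unusedVariables false

open Set Filter Topology Module
open scoped ContDiff
open Crest.Agent.R208.F

noncomputable section

namespace Crest.Agent.R208.FI

variable {E : Type*} [NormedAddCommGroup E] [NormedSpace ℝ E] [FiniteDimensional ℝ E]
  {G : Type*} [NormedAddCommGroup G] [NormedSpace ℝ G] [FiniteDimensional ℝ G]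

/-- local form of the regular level set theorem -/
theorem Loc.level {n : ℕ} {X : Set E} {f : Eu n → E} {W : Set (Eu n)} {O : Set E} {ℓ : E → Eu n}
    (h : Loc X f W O ℓ) {g : E → G} (hg : ∀ x ∈ X, ContDiffAt ℝ ∞ g x) {x : E} (hx : x ∈ X)
    (hxO : x ∈ O) (hgx : g x = 0) (hs : ∀ y : G, ∃ v ∈ Tan X x, fderiv ℝ g x v = y) :
    ∃ (f' : Eu (n - finrank ℝ G) → E) (W' : Set (Eu (n - finrank ℝ G))) (O' : Set E)
      (ℓ' : E → Eu (n - finrank ℝ G)), Loc {x ∈ X | g x = 0} f' W' O' ℓ' ∧ x ∈ O' := by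
  classical
  set u0 : Eu n := ℓ x with hu0
  have hu0W : u0 ∈ W := h.maps x hxO
  have hfu0 : f u0 = x := h.right_inv hx hxO
  set k : Eu n → G := fun u => g (f u) with hk
  have hkC : ∀ u ∈ W, ContDiffAt ℝ ∞ k u := fun u hu => (hg _ (h.mem hu).1).comp u (h.fC' hu)
  set D : Eu n →L[ℝ] G := fderiv ℝ k u0 with hD
  have hDd : D = (fderiv ℝ g x) ∘L (fderiv ℝ f u0) := by
    have h1 : HasFDerivAt g (fderiv ℝ g x) (f u0) := by
      rw [hfu0]; exact ((hg x hx).differentiableAt (by simp)).hasFDerivAt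
    exact (h1.comp u0 ((h.fC' hu0W).differentiableAt (by simp)).hasFDerivAt).fderiv
  have hDs : Function.Surjective D := by
    intro y
    obtain ⟨v, hv, hvy⟩ := hs y
    rw [← hfu0, ← h.range_eq_Tan hu0W] at hv
    obtain ⟨w, hw⟩ := hv
    refine ⟨w, ?_⟩
    rw [hDd, ContinuousLinearMap.comp_apply]
    rw [show fderiv ℝ f u0 w = v from hw, hvy]
  set N : Submodule ℝ (Eu n) := LinearMap.ker (D : Eu n →ₗ[ℝ] G) with hN
  have hNdim : finrank ℝ N = n - finrank ℝ G := by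
    have h1 := LinearMap.finrank_range_add_finrank_ker (D : Eu n →ₗ[ℝ] G)
    rw [LinearMap.range_eq_top.2 hDs, finrank_top] at h1
    have h2 : finrank ℝ (Eu n) = n := finrank_euclideanSpace_fin
    rw [h2] at h1
    have h3 : finrank ℝ N = finrank ℝ (LinearMap.ker (D : Eu n →ₗ[ℝ] G)) := rfl
    omega
  set π : Eu n →L[ℝ] N := N.orthogonalProjectionOnto with hπ
  have hπN : ∀ v : N, π (v : Eu n) = v := fun v => Submodule.orthogonalProjectionOnto_mem_subspace_eq_self v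
  set Φ : Eu n → G × N := fun u => (k u, π u) with hΦ
  have hΦC : ∀ u ∈ W, ContDiffAt ℝ ∞ Φ u := fun u hu => (hkC u hu).prodMk π.contDiff.contDiffAt
  have hΦd : ∀ u ∈ W, HasFDerivAt Φ ((fderiv ℝ k u).prod π) u := fun u hu =>
    (((hkC u hu).differentiableAt (by simp)).hasFDerivAt).prodMk π.hasFDerivAt
  -- the derivative at `u0` is an isomorphism
  have hinj : Function.Injective (D.prod π) := by
    rw [injective_iff_map_eq_zero]
    intro v hv
    have h1 : D v = 0 := congrArg Prod.fst hv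
    have h2 : π v = 0 := congrArg Prod.snd hv
    have h3 : v ∈ N := h1
    have h4 := hπN ⟨v, h3⟩
    rw [h2] at h4
    have := congrArg Subtype.val h4
    simpa using this.symm
  have hdim : finrank ℝ (Eu n) = finrank ℝ (G × N) := by
    have h1 := LinearMap.finrank_range_add_finrank_ker (D : Eu n →ₗ[ℝ] G)
    rw [LinearMap.range_eq_top.2 hDs, finrank_top] at h1
    rw [Module.finrank_prod, ← h1]
  let eL : Eu n ≃ₗ[ℝ] G × N := LinearEquiv.ofBijective (D.prod π : Eu n →ₗ[ℝ] G × N)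
    ⟨hinj, (LinearMap.injective_iff_surjective_of_finrank_eq_finrank hdim).1 hinj⟩
  let e' : Eu n ≃L[ℝ] G × N := eL.toContinuousLinearEquiv
  have he' : (e' : Eu n →L[ℝ] G × N) = D.prod π := by ext v <;> rfl
  have hΦ0 : HasFDerivAt Φ (e' : Eu n →L[ℝ] G × N) u0 := by rw [he']; exact hΦd u0 hu0W
  set e := (hΦC u0 hu0W).toOpenPartialHomeomorph Φ hΦ0 (by simp) with he
  have hu0e : u0 ∈ e.source := ContDiffAt.mem_toOpenPartialHomeomorph_source _ _ _
  have hecoe : (e : Eu n → G × N) = Φ := rfl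
  have hcont : ContinuousOn (fun u => (fderiv ℝ k u).prod π) W := by
    have h1 : ContinuousOn (fderiv ℝ k) W := by
      have : ContDiffOn ℝ ∞ k W := fun u hu => (hkC u hu).contDiffWithinAt
      exact this.continuousOn_fderiv_of_isOpen h.oW (by simp)
    have h2 : (fun u => (fderiv ℝ k u).prod π) = fun u =>
        (ContinuousLinearMap.inl ℝ G N) ∘L (fderiv ℝ k u) + (ContinuousLinearMap.inr ℝ G N) ∘L π := by
      funext u; ext v <;> simp
    rw [h2]
    exact (continuousOn_const.clm_comp h1).add continuousOn_const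
  have hinvopen : IsOpen (W ∩ (fun u => (fderiv ℝ k u).prod π) ⁻¹'
      {L | ∃ M : Eu n ≃L[ℝ] G × N, (M : Eu n →L[ℝ] G × N) = L}) :=
    hcont.isOpen_inter_preimage h.oW ContinuousLinearEquiv.isOpen
  set W1 : Set (Eu n) := (W ∩ (fun u => (fderiv ℝ k u).prod π) ⁻¹'
      {L | ∃ M : Eu n ≃L[ℝ] G × N, (M : Eu n →L[ℝ] G × N) = L}) ∩ e.source with hW1
  have hW1o : IsOpen W1 := hinvopen.inter e.open_source
  have hW1W : W1 ⊆ W := fun u hu => hu.1.1
  have hu0W1 : u0 ∈ W1 := ⟨⟨hu0W, e', he'⟩, hu0e⟩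
  have hΩo : IsOpen (e '' W1) := e.isOpen_image_of_subset_source hW1o fun u hu => hu.2
  set Ω : Set (G × N) := e '' W1 with hΩ
  have hsymC : ContDiffOn ℝ ∞ e.symm Ω := by
    rintro _ ⟨u, hu, rfl⟩
    have hsu : e.symm (e u) = u := e.left_inv hu.2
    obtain ⟨M, hM⟩ := hu.1.2
    have hM' : HasFDerivAt e (M : Eu n →L[ℝ] G × N) (e.symm (e u)) := by
      rw [hsu, hM]; exact hΦd u (hW1W hu)
    exact (e.contDiffAt_symm (e.map_source hu.2) hM'
      (by rw [hsu]; exact hΦC u (hW1W hu))).contDiffWithinAt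
  -- the parametrisation
  set W2 : Set N := {w | ((0 : G), w) ∈ Ω} with hW2
  have hW2o : IsOpen W2 := hΩo.preimage (by fun_prop)
  set ψ : N → E := fun w => f (e.symm (0, w)) with hψ
  have hsym : ∀ w ∈ W2, e.symm (0, w) ∈ W1 ∧ k (e.symm (0, w)) = 0 ∧ π (e.symm (0, w)) = w := by
    rintro w ⟨u, hu, huw⟩
    have hsu : e.symm (0, w) = u := by rw [← huw]; exact e.left_inv hu.2
    rw [hsu]
    have h1 : Φ u = (0, w) := huw
    exact ⟨hu, congrArg Prod.fst h1, congrArg Prod.snd h1⟩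
  have hO2 : IsOpen (O ∩ ℓ ⁻¹' W1) := h.lC.continuousOn.isOpen_inter_preimage h.oO hW1o
  have h2 := Loc.mk' (X := {x ∈ X | g x = 0}) (f := ψ) (W := W2) (O := O ∩ ℓ ⁻¹' W1)
    (ℓ := fun q => π (ℓ q)) hW2o hO2 ?_ ?_ ?_ ?_
  · have hx2 : x ∈ (O ∩ ℓ ⁻¹' W1) ∩ (fun q => π (ℓ q)) ⁻¹' W2 := by
      refine ⟨⟨hxO, hu0W1⟩, ?_⟩
      refine ⟨u0, hu0W1, ?_⟩
      change Φ u0 = _
      refine Prod.ext ?_ rfl
      change g (f u0) = 0
      rw [hfu0, hgx]
    have ee : Eu (n - finrank ℝ G) ≃L[ℝ] N :=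
      ContinuousLinearEquiv.ofFinrankEq (by rw [hNdim]; simp)
    exact ⟨_, _, _, _, h2.comp_equiv ee, hx2⟩
  · refine h.fC.comp (hsymC.comp (by fun_prop : ContDiff ℝ ∞ fun w : N => ((0 : G), w)).contDiffOn
      fun w hw => hw) fun w hw => hW1W (hsym w hw).1
  · exact π.contDiff.comp_contDiffOn (h.lC.mono inter_subset_left)
  · apply Subset.antisymm
    · rintro _ ⟨w, hw, rfl⟩
      obtain ⟨h3, h4, h5⟩ := hsym w hw
      have h6 := h.mem (hW1W h3)
      exact ⟨⟨h6.1, h4⟩, h6.2, by rw [mem_preimage, h.inv _ (hW1W h3)]; exact h3⟩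
    · rintro q ⟨⟨hq, hgq⟩, hqO, hq1⟩
      have hfq := h.right_inv hq hqO
      have hsu : e.symm (e (ℓ q)) = ℓ q := e.left_inv hq1.2
      have h7 : e (ℓ q) = (0, π (ℓ q)) := by
        refine Prod.ext ?_ rfl
        change g (f (ℓ q)) = 0
        rw [hfq, hgq]
      refine ⟨π (ℓ q), ⟨ℓ q, hq1, h7⟩, ?_⟩
      change f (e.symm (0, π (ℓ q))) = q
      rw [← h7, hsu, hfq]
  · intro w hw
    obtain ⟨h3, h4, h5⟩ := hsym w hw
    change π (ℓ (f (e.symm (0, w)))) = w
    rw [h.inv _ (hW1W h3), h5]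

/-- **regular level sets** are submanifolds. -/
theorem Sub.level {n : ℕ} {X : Set E} (hX : Sub n X) {g : E → G}
    (hg : ∀ x ∈ X, ContDiffAt ℝ ∞ g x)
    (hs : ∀ x ∈ X, g x = 0 → ∀ y : G, ∃ v ∈ Tan X x, fderiv ℝ g x v = y) :
    Sub (n - finrank ℝ G) {x ∈ X | g x = 0} := by
  refine Sub.of_loc' fun x hx => ?_
  obtain ⟨f, W, O, ℓ, h1, h2⟩ := hX.exists_loc hx.1
  exact h1.level hg hx.1 h2 hx.2 (hs x hx.1 hx.2)

/-- the tangent space of a regular level set -/
theorem Sub.Tan_level {n : ℕ} {X : Set E} (hX : Sub n X) {g : E → G}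
    (hg : ∀ x ∈ X, ContDiffAt ℝ ∞ g x)
    (hs : ∀ x ∈ X, g x = 0 → ∀ y : G, ∃ v ∈ Tan X x, fderiv ℝ g x v = y) {x : E}
    (hx : x ∈ X) (hgx : g x = 0) :
    Tan {x ∈ X | g x = 0} x = Tan X x ⊓ LinearMap.ker (fderiv ℝ g x : E →ₗ[ℝ] G) := by
  apply Submodule.eq_of_le_of_finrank_eq
  · refine le_inf (Tan_mono_of_subset (fun y hy => hy.1) x) ?_
    rw [Tan, Submodule.span_le]
    rintro v ⟨γ, rfl, hγ, hS⟩
    have h1 : HasDerivAt (fun t => g (γ t)) (fderiv ℝ g (γ 0) v) 0 :=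
      ((hg _ hx).differentiableAt (by simp)).hasFDerivAt.comp_hasDerivAt 0 hγ
    have h2 : HasDerivAt (fun t => g (γ t)) 0 0 := by
      refine (hasDerivAt_const (0 : ℝ) (0 : G)).congr_of_eventuallyEq ?_
      filter_upwards [hS] with t ht using ht.2
    exact h1.unique h2
  · rw [(hX.level hg hs).finrank_Tan ⟨hx, hgx⟩]
    -- rank-nullity for `Dg` restricted to `Tan X x`
    set A : Tan X x →ₗ[ℝ] G := (fderiv ℝ g x : E →ₗ[ℝ] G).domRestrict (Tan X x) with hA
    have hAs : Function.Surjective A := by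
      intro y
      obtain ⟨v, hv, hvy⟩ := hs x hx hgx y
      exact ⟨⟨v, hv⟩, hvy⟩
    have h1 := LinearMap.finrank_range_add_finrank_ker A
    rw [LinearMap.range_eq_top.2 hAs, finrank_top, hX.finrank_Tan hx] at h1
    have h2 : finrank ℝ (LinearMap.ker A) =
        finrank ℝ (Tan X x ⊓ LinearMap.ker (fderiv ℝ g x : E →ₗ[ℝ] G) : Submodule ℝ E) := by
      have h3 : (LinearMap.ker A).map (Tan X x).subtype =
          Tan X x ⊓ LinearMap.ker (fderiv ℝ g x : E →ₗ[ℝ] G) := by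
        ext v
        constructor
        · rintro ⟨⟨w, hw⟩, hw2, rfl⟩
          exact ⟨hw, hw2⟩
        · rintro ⟨hv, hv2⟩
          exact ⟨⟨v, hv⟩, hv2, rfl⟩
      rw [← h3]
      exact (LinearEquiv.finrank_eq (Submodule.equivMapOfInjective _
        (Submodule.subtype_injective _) _))
    omega

theorem Clo.level {n : ℕ} {X : Set E} (hX : Clo n X) {g : E → G}
    (hg : ∀ x ∈ X, ContDiffAt ℝ ∞ g x)
    (hs : ∀ x ∈ X, g x = 0 → ∀ y : G, ∃ v ∈ Tan X x, fderiv ℝ g x v = y) :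
    Clo (n - finrank ℝ G) {x ∈ X | g x = 0} := by
  refine (hX.sub.level hg hs).clo ?_
  have hc : ContinuousOn g X := fun x hx => (hg x hx).continuousAt.continuousWithinAt
  obtain ⟨u, hu, hu2⟩ := continuousOn_iff_isClosed.1 hc {0} isClosed_singleton
  have : {x ∈ X | g x = 0} = X ∩ u := by
    ext x
    constructor
    · rintro ⟨hx, hx2⟩
      have : x ∈ g ⁻¹' {0} ∩ X := ⟨hx2, hx⟩
      rw [hu2] at this; exact ⟨this.2, this.1⟩
    · rintro ⟨hx, hx2⟩
      have : x ∈ g ⁻¹' {0} ∩ X := by rw [hu2]; exact ⟨hx2, hx⟩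
      exact ⟨hx, this.1⟩
  rw [this]
  exact hX.compact.inter_right hu

end Crest.Agent.R208.FI
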