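import Crest.Agent.R208.EX7
import Crest.Agent.R208.CM2b
import Crest.Agent.R208.CM3d
import Crest.Agent.R208.FI2b

/-!
R208, block EX (helper530), part EX8: the order of the constants for the natural operators
(`exists_delta`); circle families: `X ×ˢ circle` with rotation, the connection `dt + α`, the circle
form of a periodic family.
-/

set_option autoImplicit false
set_option linter.unusedSectionVars false
set_option linter.unusedVariables false

open MeasureTheory Set Filter Topology Module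
open scoped ContDiff RealInnerProductSpace Real
open Crest.GeometryTopology.Submanifold
open Crest.Agent.R241.DDefs Crest.Agent.R241.D Crest.Agent.R241.D2
open Crest.Agent.R208.F Crest.Agent.R208.FI Crest.Agent.R208.CW Crest.Agent.R208.T
open Crest.Agent.R208.CM (Cir gen)
open Crest.Agent.R208.VC
open Crest.Agent.R208.MS Crest.Agent.R208.NL

noncomputable section

namespace Crest.Agent.R208.EX

section delta
variable {n N : ℕ} {κ : ℝ} {S : Set (Euc N)} {G : Geo n N κ S}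

theorem NearOp.mono {P : Type} [NormedAddCommGroup P] [NormedSpace ℝ P] [FiniteDimensional ℝ P]
    {Y : Set P} {φY : ℝ → P → P} {f1 : P → Euc N} {far : P → Prop} {ε δ δ' : ℝ}
    {HN : ℝ → (ℝ → Euc N) → Euc N} {mu : (ℝ → Euc N) → ℝ} {Gm : (ℝ → Euc N) → P}
    (hδ : δ ≤ δ') (h : NearOp G Y φY f1 far ε δ HN mu Gm) :
    NearOp G Y φY f1 far ε δ' HN mu Gm :=
  fun E _ _ _ X φ f hφ hf hE => h E X φ f hφ hf fun z hz =>
    (hE z hz).imp_right fun h1 => h1.trans (by linarith)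

/-- the constants in the order of helper131: `δ` depends only on `ε` and `B` -/
theorem exists_delta {B : ℝ} (hBl : Bl n N κ S G π) (hper : HS.Per G) (hB4 : B < 4 * π) {ε : ℝ}
    (hε : 0 < ε) :
    ∃ δ > 0, ∀ (P : Type) [NormedAddCommGroup P] [NormedSpace ℝ P] [FiniteDimensional ℝ P]
      (Y : Set P) (φY : ℝ → P → P) (f1 : P → Euc N) (far : P → Prop)
      (HN : ℝ → (ℝ → Euc N) → Euc N) (mu : (ℝ → Euc N) → ℝ) (Gm : (ℝ → Euc N) → P),
      NearOp G Y φY f1 far ε δ HN mu Gm →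
      ∃ (HL : ℝ → (ℝ → Euc N) → Euc N) (mu : (ℝ → Euc N) → ℝ) (Gm : (ℝ → Euc N) → P),
        NatOp S Y φY f1 far B HL mu Gm := by
  obtain ⟨lg, r, C, hsg⟩ := exists_SG (G := G) hBl
  obtain ⟨ρ, r', K, hR, -⟩ := exists_Retr (G := G) hBl
  set B' := max B 0 with hB'
  have hB0 : 0 ≤ B' := le_max_right _ _
  have hBB : B ≤ B' := le_max_left _ _
  have hB4' : B' < 4 * π := max_lt hB4 (by positivity)
  obtain ⟨w₀, hw₀, hsm⟩ := exists_small (r := r) (r' := r') hsg.r_pos hR.r_pos C K B'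
  have hs := hsm w₀ hw₀ le_rfl
  have hstep := FL.stepOK hsg hR hs
  have hps := PS.ps hBl hper hsg hs.pos hs.le_two_pi hs.s1 hB4'
  obtain ⟨J, δ, hδ, hJ⟩ := push hs.pos.le (by positivity) hstep hps hε
  refine ⟨δ, hδ, fun P _ _ _ Y φY f1 far HN mu Gm h1 => ?_⟩
  have h2 := nearOp_comp (J := J) hsg hR hs hB0 (fun c hc hcB => (hJ c hc hcB J le_rfl).symm) h1
  exact ⟨_, _, _, h2.mono hBB⟩

end delta

/-! ### the circle -/

/-- the unit circle -/
def Cc : Set ℂ := {u | ‖u‖ = 1}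

/-- `e^{it}` -/
def ex (t : ℝ) : ℂ := Complex.exp (t * Complex.I)

theorem norm_ex (t : ℝ) : ‖ex t‖ = 1 := Complex.norm_exp_ofReal_mul_I t
theorem ex_mem (t : ℝ) : ex t ∈ Cc := norm_ex t
theorem ex_zero : ex 0 = 1 := by simp [ex]
theorem ex_add (s t : ℝ) : ex (s + t) = ex s * ex t := by
  rw [ex, ex, ex, ← Complex.exp_add]; push_cast; ring_nf
theorem ex_two_pi : ex (2 * π) = 1 := by
  rw [ex]; push_cast; exact Complex.exp_two_pi_mul_I
theorem ex_add_per (t : ℝ) : ex (t + 2 * π) = ex t := by rw [ex_add, ex_two_pi, mul_one]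
theorem ex_eq_one {t : ℝ} (h : ex t = 1) : ∃ k : ℤ, t = 2 * π * k := by
  obtain ⟨k, hk⟩ := Complex.exp_eq_one_iff.1 h
  refine ⟨k, ?_⟩
  have h1 : (t : ℂ) = 2 * π * k := by
    have h2 : (t : ℂ) * Complex.I = (2 * π * k) * Complex.I := by rw [hk]; ring
    exact mul_right_cancel₀ Complex.I_ne_zero h2
  exact_mod_cast h1
theorem contDiff_ex : ContDiff ℝ ∞ ex := by
  have h1 : ContDiff ℝ ∞ (fun t : ℝ => (t : ℂ) * Complex.I) :=
    Complex.ofRealCLM.contDiff.mul contDiff_const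
  exact h1.cexp
theorem exists_ex {u : ℂ} (hu : u ∈ Cc) : ∃ t : ℝ, u = ex t := by
  refine ⟨u.arg, ?_⟩
  have h := Complex.norm_mul_exp_arg_mul_I u
  rw [show ‖u‖ = 1 from hu, Complex.ofReal_one, one_mul] at h
  exact h.symm

theorem isCompact_Cc : IsCompact Cc := by
  have : Cc = Metric.sphere (0 : ℂ) 1 := by ext u; rw [mem_sphere_zero_iff_norm]; rfl
  rw [this]
  exact isCompact_sphere _ _

theorem clo_Cc : Clo 1 Cc := by
  have h1 : Sub (1 + 1) (univ : Set ℂ) := sub_open (by rw [Complex.finrank_real_complex]) isOpen_univ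
  have hd : ∀ x v : ℂ, fderiv ℝ (fun z : ℂ => ‖z‖ ^ 2 - 1) x v = 2 * ⟪x, v⟫ := by
    intro x v
    have h2 : HasFDerivAt (fun z : ℂ => ‖z‖ ^ 2 - 1) (2 • innerSL ℝ x) x :=
      (hasStrictFDerivAt_norm_sq x).hasFDerivAt.sub_const 1
    rw [h2.fderiv, two_smul, two_mul]
    rfl
  have h2 := h1.level (g := fun z : ℂ => ‖z‖ ^ 2 - 1)
    (fun x _ => ((contDiff_norm_sq ℝ).sub contDiff_const).contDiffAt)
    (fun x _ hx y => ⟨(y / 2) • x, by
      have h3 : HasDerivAt (fun t : ℝ => x + t • ((y / 2) • x)) ((y / 2) • x) 0 := by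
        simpa using ((hasDerivAt_id (0 : ℝ)).smul_const ((y / 2) • x)).const_add x
      have h4 := mem_Tan_of_curve (X := univ) h3 (Eventually.of_forall fun _ => mem_univ _)
      simpa using h4, by
      rw [hd, inner_smul_right, real_inner_self_eq_norm_sq, sub_eq_zero.1 hx]
      ring⟩)
  have h3 : {u ∈ (univ : Set ℂ) | ‖u‖ ^ 2 - 1 = 0} = Cc := by
    ext u
    simp only [Cc, mem_univ, true_and, mem_ofPred_eq, sub_eq_zero]
    constructor
    · intro h; exact (pow_eq_one_iff_of_nonneg (norm_nonneg _) two_ne_zero).1 h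
    · intro h; rw [h]; norm_num
  rw [h3, finrank_self] at h2
  exact h2.clo isCompact_Cc

/-! ### the circle product -/

section prod
variable {E : Type*} [NormedAddCommGroup E] [NormedSpace ℝ E] [FiniteDimensional ℝ E]
  {X : Set E} {m : ℕ}

/-- rotation of the circle factor -/
def rot (t : ℝ) (y : E × ℂ) : E × ℂ := (y.1, ex t * y.2)

theorem contDiff_rot : ContDiff ℝ ∞ (fun q : ℝ × (E × ℂ) => rot q.1 q.2) :=
  (contDiff_fst.comp contDiff_snd).prodMk
    ((contDiff_ex.comp contDiff_fst).mul (contDiff_snd.comp contDiff_snd))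

theorem cir_rot (X : Set E) : Cir (X ×ˢ Cc) rot where
  smooth := fun t x _ => contDiff_rot.contDiffAt
  maps := fun t x hx => ⟨hx.1, by
    change ‖ex t * x.2‖ = 1
    rw [norm_mul, norm_ex, one_mul]; exact hx.2⟩
  zero := fun x _ => by simp [rot, ex_zero]
  add := fun s t x _ => by simp [rot, ex_add, mul_assoc]
  per := fun x _ => by simp [rot, ex_two_pi]
  free := fun t x hx h => by
    have h1 : ex t * x.2 = x.2 := congrArg Prod.snd h
    have h2 : x.2 ≠ 0 := fun h0 => by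
      have := hx.2
      rw [h0] at this
      simp [Cc] at this
    exact ex_eq_one (mul_right_cancel₀ h2 (by rw [h1, one_mul]))

theorem sub_prodC (hX : Sub m X) : Sub (m + 1) (X ×ˢ Cc) := hX.prod clo_Cc.sub
theorem clo_prodC (hX : Clo m X) : Clo (m + 1) (X ×ˢ Cc) := hX.prod clo_Cc

theorem hasDerivAt_ex_zero : HasDerivAt ex Complex.I 0 := by
  have h1 : HasDerivAt (fun t : ℝ => (t : ℂ) * Complex.I) Complex.I 0 := by
    simpa using (Complex.ofRealCLM.hasDerivAt (x := (0 : ℝ))).mul_const Complex.I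
  have h2 := h1.cexp
  simp only [Complex.ofReal_zero, zero_mul, Complex.exp_zero, one_mul] at h2
  exact h2

theorem gen_rot (y : E × ℂ) : gen rot y = (0, Complex.I * y.2) := by
  have h1 : HasDerivAt (fun t => rot t y) (0, Complex.I * y.2) 0 :=
    (hasDerivAt_const (0 : ℝ) y.1).prodMk (hasDerivAt_ex_zero.mul_const y.2)
  exact h1.deriv

/-- `y ↦ ⟨i u, y⟩` as a covector -/
def dtc : ℂ →ₗ[ℝ] Dual ℝ ℂ := innerₗ ℂ ∘ₗ LinearMap.mulLeft ℝ Complex.I

theorem dtc_apply (u v : ℂ) : dtc u v = ⟪Complex.I * u, v⟫ := rfl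

/-- the form `dt` on the circle -/
def dtC (u : ℂ) : Ext ℂ := io (dtc u)

theorem contDiff_dtC : ContDiff ℝ ∞ dtC := by
  have h := (LinearMap.toContinuousLinearMap ((io : Dual ℝ ℂ →ₗ[ℝ] Ext ℂ) ∘ₗ dtc)).contDiff
    (n := ∞)
  exact h

theorem hom_dtC : Hom 1 dtC := fun u => CM.isDeg_io _

theorem inner_rot (t : ℝ) (u v : ℂ) : ⟪ex t * u, ex t * v⟫ = ⟪u, v⟫ := by
  have h : ‖ex t‖ ^ 2 = 1 := by rw [norm_ex]; norm_num
  have h1 : ⟪ex t * u, ex t * v⟫ = ‖ex t‖ ^ 2 * ⟪u, v⟫ := by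
    rw [← Complex.normSq_eq_norm_sq, Complex.normSq_apply]
    simp only [Complex.inner, map_mul, Complex.mul_re, Complex.mul_im, Complex.conj_re,
      Complex.conj_im]
    ring
  rw [h1, h, one_mul]

/-- the connection `dt + α` -/
def th (α : E → Ext E) : E × ℂ → Ext (E × ℂ) :=
  F.pull (fun y : E × ℂ => y.2) dtC + F.pull (fun y : E × ℂ => y.1) α

theorem smap_pr (X : Set E) : SMap (X ×ˢ Cc) X (fun y : E × ℂ => y.1) :=
  ⟨fun _ _ => contDiffAt_fst, fun _ hy => hy.1⟩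

theorem smap_pr2 (X : Set E) : SMap (X ×ˢ Cc) Cc (fun y : E × ℂ => y.2) :=
  ⟨fun _ _ => contDiffAt_snd, fun _ hy => hy.2⟩

variable {α α' : E → Ext E}

theorem cn_th (hα : Sm X α) (hα1 : Hom 1 α) : Cn (X ×ˢ Cc) rot (th α) where
  sm := (Sm.pull (smap_pr2 X) (fun u _ => contDiff_dtC.contDiffAt)).add (hα.pull (smap_pr X))
  hom := hom_dtC.pull.add hα1.pull
  unit := fun y hy => by
    rw [gen_rot]
    change ii _ (F.pull (fun y : E × ℂ => y.2) dtC y + F.pull (fun y : E × ℂ => y.1) α y) = 1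
    have d1 : fderiv ℝ (fun y : E × ℂ => y.2) y = ContinuousLinearMap.snd ℝ E ℂ := fderiv_snd
    have d2 : fderiv ℝ (fun y : E × ℂ => y.1) y = ContinuousLinearMap.fst ℝ E ℂ := fderiv_fst
    rw [map_add, F.pull, F.pull, ii_pb, ii_pb, d1, d2]
    have e1 : ((ContinuousLinearMap.snd ℝ E ℂ : E × ℂ →L[ℝ] ℂ) : E × ℂ →ₗ[ℝ] ℂ)
        (0, Complex.I * y.2) = Complex.I * y.2 := rfl
    have e2 : ((ContinuousLinearMap.fst ℝ E ℂ : E × ℂ →L[ℝ] E) : E × ℂ →ₗ[ℝ] E)
        (0, Complex.I * y.2) = 0 := rfl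
    rw [e1, e2, map_zero, LinearMap.zero_apply, map_zero, add_zero, dtC, ii_io, dtc_apply,
      real_inner_self_eq_norm_sq, norm_mul, Complex.norm_I, one_mul, show ‖y.2‖ = 1 from hy.2,
      one_pow, map_one, map_one]
  inv := fun t => by
    have hr : ∀ y : E × ℂ, DifferentiableAt ℝ (rot t) y := fun y =>
      (contDiff_rot (E := E)).comp (contDiff_const (c := t) |>.prodMk contDiff_id)
        |>.differentiable (by simp) y
    have hm : ∀ u : ℂ, DifferentiableAt ℝ (fun u : ℂ => ex t * u) u := fun u =>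
      (differentiableAt_id).const_mul (ex t)
    refine Eqv.of_eq fun y hy => ?_
    rw [th, pull_add', Pi.add_apply, Pi.add_apply, F.pull_comp (hr y) differentiableAt_snd,
      F.pull_comp (hr y) differentiableAt_fst]
    congr 1
    have e1 : (fun y : E × ℂ => y.2) ∘ (rot t) =
        (fun u : ℂ => ex t * u) ∘ (fun y : E × ℂ => y.2) := rfl
    rw [e1, ← F.pull_comp differentiableAt_snd (hm _)]
    congr 1
    funext u
    have e2 : fderiv ℝ (fun u : ℂ => ex t * u) u = ContinuousLinearMap.mul ℝ ℂ (ex t) :=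
      (ContinuousLinearMap.mul ℝ ℂ (ex t)).hasFDerivAt.fderiv
    rw [F.pull, dtC, pb_io, e2, dtC]
    congr 1
    refine LinearMap.ext fun v => ?_
    change ⟪Complex.I * (ex t * u), ex t * v⟫ = ⟪Complex.I * u, v⟫
    rw [show Complex.I * (ex t * u) = ex t * (Complex.I * u) by ring, inner_rot]

/-- the slice -/
def sl (y : E) : E × ℂ := (y, 1)

theorem one_mem_Cc : (1 : ℂ) ∈ Cc := by
  change ‖(1 : ℂ)‖ = 1
  exact norm_one

theorem smap_sl (X : Set E) : SMap X (X ×ˢ Cc) (sl (E := E)) :=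
  ⟨fun _ _ => contDiffAt_id.prodMk contDiffAt_const, fun _ hy => ⟨hy, one_mem_Cc⟩⟩

theorem fderiv_sl (y : E) : fderiv ℝ (sl (E := E)) y = ContinuousLinearMap.inl ℝ E ℂ := by
  have h : HasFDerivAt (sl (E := E)) ((ContinuousLinearMap.id ℝ E).prod 0) y :=
    (hasFDerivAt_id y).prodMk (hasFDerivAt_const (1 : ℂ) y)
  rw [h.fderiv]; rfl

/-- horizontal forms which vanish on the slice vanish at the slice -/
theorem rs_slice {a : E × ℂ → Ext (E × ℂ)} {y : E} (hy : y ∈ X)
    (hz : Hz (X ×ˢ Cc) rot a) (h0 : rsL X y (F.pull sl a y) = 0) :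
    rsL (X ×ˢ Cc) (y, 1) (a (y, 1)) = 0 := by
  have hA : Act (X ×ˢ Cc) rot := Act.of_cir (cir_rot X)
  have hm : ((y, 1) : E × ℂ) ∈ X ×ˢ Cc := ⟨hy, one_mem_Cc⟩
  set TV := Tan (X ×ˢ Cc) ((y, 1) : E × ℂ) with hTV
  have hc := (hz_iff hA).1 hz _ hm
  -- the two components of a tangent vector
  have h1 : ∀ v ∈ TV, v.1 ∈ Tan X y := fun v hv => by
    have := fderiv_mapsTo_Tan (X := X ×ˢ Cc) (Y := X) (h := (Prod.fst : E × ℂ → E))
      (x := ((y, 1) : E × ℂ)) differentiableAt_fst (fun z hz => hz.1) hv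
    rwa [fderiv_fst] at this
  have h2 : ∀ v ∈ TV, v.2 = v.2.im • Complex.I := fun v hv => by
    have h3 := fderiv_mapsTo_Tan (X := X ×ˢ Cc) (Y := Cc) (h := (Prod.snd : E × ℂ → ℂ))
      (x := ((y, 1) : E × ℂ)) differentiableAt_snd (fun z hz => hz.2) hv
    rw [fderiv_snd] at h3
    change v.2 ∈ Tan Cc (1 : ℂ) at h3
    have h4 : HasFDerivAt (fun z : ℂ => ‖z‖ ^ 2) (2 • innerSL ℝ (1 : ℂ)) 1 :=
      (hasStrictFDerivAt_norm_sq (1 : ℂ)).hasFDerivAt
    have h5 := CM.fderiv_eq_of_eqOn (X := Cc) (f := fun z : ℂ => ‖z‖ ^ 2) (g := fun _ => (1 : ℝ))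
      h4.differentiableAt (differentiableAt_const _)
      (eventually_nhdsWithin_of_forall fun z hz => by
        rw [show ‖z‖ = 1 from hz, one_pow]) h3
    rw [h4.fderiv, fderiv_fun_const] at h5
    have h6 : (2 : ℝ) * ⟪(1 : ℂ), v.2⟫ = 0 := by
      rw [two_mul]
      have : (2 • innerSL ℝ (1 : ℂ)) v.2 = ⟪(1 : ℂ), v.2⟫ + ⟪(1 : ℂ), v.2⟫ := by
        rw [two_smul]; rfl
      rw [← this, h5]; rfl
    have h7 : v.2.re = 0 := by
      have h8 : ⟪(1 : ℂ), v.2⟫ = v.2.re := by simp [Complex.inner]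
      rw [h8] at h6
      linarith
    apply Complex.ext <;> simp [h7]
  have h3 : ∀ v ∈ Tan X y, ((v, 0) : E × ℂ) ∈ TV := fun v hv => by
    have := fderiv_mapsTo_Tan (X := X) (Y := X ×ˢ Cc) (h := sl (E := E)) (x := y)
      ((smap_sl X).diff hy) (fun z hz => (smap_sl X).maps hz) hv
    rw [fderiv_sl] at this
    exact this
  let pr : TV →ₗ[ℝ] Tan X y :=
    ((LinearMap.fst ℝ E ℂ) ∘ₗ TV.subtype).codRestrict _ fun v => h1 v v.2
  let inc : Tan X y →ₗ[ℝ] TV :=
    ((LinearMap.inl ℝ E ℂ) ∘ₗ (Tan X y).subtype).codRestrict _ fun v => h3 v v.2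
  have key := CM.pb_eq_of_sub_mem (LinearMap.id : TV →ₗ[ℝ] TV) (inc ∘ₗ pr) (tg hA hm)
    (rsL (X ×ˢ Cc) (y, 1) (a (y, 1))) hc fun v => by
      refine ⟨(v : E × ℂ).2.im, Subtype.ext ?_⟩
      have e1 : ((tg hA hm : TV) : E × ℂ) = (0, Complex.I) := by
        change gen rot ((y, 1) : E × ℂ) = _
        rw [gen_rot, mul_one]
      change (v : E × ℂ) - ((v : E × ℂ).1, 0) = (v : E × ℂ).2.im • ((tg hA hm : TV) : E × ℂ)
      rw [e1]
      refine Prod.ext ?_ ?_
      · simp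
      · change (v : E × ℂ).2 - 0 = _
        rw [sub_zero]
        exact h2 v v.2
  have e2 : pb (LinearMap.id : TV →ₗ[ℝ] TV) (rsL (X ×ˢ Cc) (y, 1) (a (y, 1))) =
      rsL (X ×ˢ Cc) (y, 1) (a (y, 1)) := F.pb_id _
  rw [← e2, key, ← pb_comp]
  have e3 : pb inc (rsL (X ×ˢ Cc) (y, 1) (a (y, 1))) = rsL X y (F.pull sl a y) := by
    rw [rsL_apply, rsL_apply, F.pull, pb_comp, pb_comp, fderiv_sl]
    rfl
  rw [e3, h0, map_zero]

/-- a form which vanishes at `f x` on `Y` pulls back to a form vanishing at `x` on `X` -/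
theorem rs_pull_zero {F₁ : Type*} [NormedAddCommGroup F₁] [NormedSpace ℝ F₁]
    [FiniteDimensional ℝ F₁] {Y : Set F₁} {f : E → F₁} (hf : SMap X Y f) {x : E} (hx : x ∈ X)
    {w : F₁ → Ext F₁} (h : rsL Y (f x) (w (f x)) = 0) : rsL X x (F.pull f w x) = 0 := by
  let A : Tan X x →ₗ[ℝ] Tan Y (f x) :=
    (((fderiv ℝ f x : E →L[ℝ] F₁) : E →ₗ[ℝ] F₁) ∘ₗ (Tan X x).subtype).codRestrict _
      fun v => fderiv_mapsTo_Tan (hf.diff hx) (fun z hz => hf.maps hz) v.2
  have h1 : rsL X x (F.pull f w x) = pb A (rsL Y (f x) (w (f x))) := by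
    rw [rsL_apply, rsL_apply, F.pull, pb_comp, pb_comp]
    rfl
  rw [h1, h, map_zero]

variable {a b : E × ℂ → Ext (E × ℂ)}

theorem rot_neg (t : ℝ) (y : E) : rot (-t) (y, ex t) = (y, 1) := by
  change (y, ex (-t) * ex t) = _
  rw [← ex_add, neg_add_cancel, ex_zero]

/-- **basic forms are determined by the slice** -/
theorem basic_zero (hi : Inv (X ×ˢ Cc) rot a) (hz : Hz (X ×ˢ Cc) rot a)
    (h0 : Eqv X (F.pull sl a) 0) : Eqv (X ×ˢ Cc) a 0 := by
  have hA : Act (X ×ˢ Cc) rot := Act.of_cir (cir_rot X)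
  refine eqv_iff.2 fun y hy => ?_
  obtain ⟨y, u⟩ := y
  obtain ⟨t, rfl⟩ := exists_ex hy.2
  have h1 := rs_slice hy.1 hz (by
    have := eqv_iff.1 h0 y hy.1
    rw [rsL_apply, this]; exact map_zero _)
  rw [← eqv_iff.1 (hi (-t)) _ hy]
  have h2 : rot (-t) ((y, ex t) : E × ℂ) = (y, 1) := rot_neg t y
  have h3 := rs_pull_zero (smap hA (-t)) hy (w := a) (by rw [h2]; exact h1)
  rw [rsL_apply] at h3
  rw [h3]; exact (map_zero _).symm

theorem basic_ext (hi : Inv (X ×ˢ Cc) rot a) (hz : Hz (X ×ˢ Cc) rot a)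
    (hi' : Inv (X ×ˢ Cc) rot b) (hz' : Hz (X ×ˢ Cc) rot b)
    (h0 : Eqv X (F.pull sl a) (F.pull sl b)) : Eqv (X ×ˢ Cc) a b := by
  have h1 : Eqv (X ×ˢ Cc) (a - b) 0 := basic_zero (hi.sub hi') (hz.sub hz') (by
    rw [pull_sub']
    have := h0.sub (Eqv.refl (F.pull sl b))
    rwa [sub_self] at this)
  have := h1.add (Eqv.refl b)
  rwa [sub_add_cancel, zero_add] at this

/-- the pull back of a form on `X` -/
theorem inv_pr (h : E → Ext E) : Inv (X ×ˢ Cc) rot (F.pull (fun y : E × ℂ => y.1) h) := fun t => by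
  have hr : ∀ y : E × ℂ, DifferentiableAt ℝ (rot t) y := fun y =>
    (contDiff_rot (E := E)).comp (contDiff_const (c := t) |>.prodMk contDiff_id)
      |>.differentiable (by simp) y
  refine Eqv.of_eq fun y hy => ?_
  rw [F.pull_comp (hr y) differentiableAt_fst]
  rfl

theorem hz_pr (h : E → Ext E) : Hz (X ×ˢ Cc) rot (F.pull (fun y : E × ℂ => y.1) h) :=
  Eqv.of_eq fun y hy => by
    change ii (gen rot y) (F.pull (fun y : E × ℂ => y.1) h y) = 0
    have d2 : fderiv ℝ (fun y : E × ℂ => y.1) y = ContinuousLinearMap.fst ℝ E ℂ := fderiv_fst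
    rw [F.pull, ii_pb, d2, gen_rot]
    have e2 : ((ContinuousLinearMap.fst ℝ E ℂ : E × ℂ →L[ℝ] E) : E × ℂ →ₗ[ℝ] E)
        (0, Complex.I * y.2) = 0 := rfl
    rw [e2, map_zero, LinearMap.zero_apply, map_zero]

theorem pull_sl_pr (h : E → Ext E) : F.pull sl (F.pull (fun y : E × ℂ => y.1) h) = h := by
  funext y
  have d1 : DifferentiableAt ℝ (sl (E := E)) y :=
    (hasFDerivAt_id y |>.prodMk (hasFDerivAt_const (1 : ℂ) y)).differentiableAt
  rw [F.pull_comp d1 differentiableAt_fst]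
  exact F.pull_id h y

/-- a basic form is the pull back of its slice -/
theorem basic_eq (hi : Inv (X ×ˢ Cc) rot a) (hz : Hz (X ×ˢ Cc) rot a) :
    Eqv (X ×ˢ Cc) a (F.pull (fun y : E × ℂ => y.1) (F.pull sl a)) :=
  basic_ext hi hz (inv_pr _) (hz_pr _) (by rw [pull_sl_pr]; exact Eqv.refl _)

end prod

/-! ### circle forms of periodic families -/

section circ
variable {E : Type*} [NormedAddCommGroup E] [NormedSpace ℝ E]
  {V : Type*} [NormedAddCommGroup V] [NormedSpace ℝ V] {H : E → ℝ → V} {y : E}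

/-- the cut-off -/
def kcc (u : ℂ) : ℝ := Real.smoothTransition (1 / 2 + u.re)

theorem contDiff_kcc : ContDiff ℝ ∞ kcc :=
  Real.smoothTransition.contDiff.comp (contDiff_const.add Complex.reCLM.contDiff)

/-- the circle form of a family of loops -/
def circ (H : E → ℝ → V) (q : E × ℂ) : V :=
  kcc q.2 • H q.1 q.2.arg + (1 - kcc q.2) • H q.1 ((-q.2).arg + π)

theorem contDiffAt_arg' {u : ℂ} (hu : u ∈ Complex.slitPlane) : ContDiffAt ℝ ∞ Complex.arg u := by
  have h1 : ContDiffAt ℝ ∞ Complex.log u := (Complex.contDiffAt_log hu).restrict_scalars ℝ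
  have h2 := Complex.imCLM.contDiff.contDiffAt.comp (n := ∞) u h1
  have h3 : (Complex.imCLM ∘ Complex.log) = Complex.arg := funext fun z => Complex.log_im z
  rwa [h3] at h2

theorem contDiffAt_circ {u : ℂ} (hu : u ∈ Cc)
    (hs : ∀ t, ContDiffAt ℝ ∞ (fun q : E × ℝ => H q.1 q.2) (y, t)) :
    ContDiffAt ℝ ∞ (circ H) (y, u) := by
  have hk : ContDiffAt ℝ ∞ (fun q : E × ℂ => kcc q.2) (y, u) :=
    (contDiff_kcc.comp contDiff_snd).contDiffAt
  have h0 : u ≠ 0 := fun h => by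
    have : ‖u‖ = 1 := hu
    rw [h, norm_zero] at this
    exact zero_ne_one this
  refine ContDiffAt.add ?_ ?_
  · by_cases h1 : u ∈ Complex.slitPlane
    · have h2 : ContDiffAt ℝ ∞ (fun q : E × ℂ => (q.1, q.2.arg)) (y, u) :=
        contDiffAt_fst.prodMk ((contDiffAt_arg' h1).comp (y, u) contDiffAt_snd)
      exact hk.smul (ContDiffAt.comp (g := fun q : E × ℝ => H q.1 q.2) (y, u) (hs _) h2)
    · have h2 : u.re < -1 / 2 := by
        rw [Complex.mem_slitPlane_iff, not_or, not_lt, not_not] at h1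
        have h3 : ‖u‖ ^ 2 = 1 := by rw [show ‖u‖ = 1 from hu, one_pow]
        rw [← Complex.normSq_eq_norm_sq, Complex.normSq_apply, h1.2] at h3
        nlinarith [h1.1]
      have h3 : ∀ᶠ q : E × ℂ in 𝓝 (y, u), q.2.re < -1 / 2 :=
        (Complex.continuous_re.comp continuous_snd).continuousAt.eventually (gt_mem_nhds h2)
      refine (contDiffAt_const (c := (0 : V))).congr_of_eventuallyEq (h3.mono fun q hq => ?_)
      change kcc q.2 • _ = 0
      rw [kcc, Real.smoothTransition.zero_of_nonpos (by linarith), zero_smul]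
  · by_cases h1 : -u ∈ Complex.slitPlane
    · have h2 : ContDiffAt ℝ ∞ (fun q : E × ℂ => (q.1, (-q.2).arg + π)) (y, u) :=
        contDiffAt_fst.prodMk (((contDiffAt_arg' h1).comp (y, u)
          (f := fun q : E × ℂ => -q.2) contDiffAt_snd.neg).add contDiffAt_const)
      exact (contDiffAt_const.sub hk).smul
        (ContDiffAt.comp (g := fun q : E × ℝ => H q.1 q.2) (y, u) (hs _) h2)
    · have h2 : 1 / 2 < u.re := by
        rw [Complex.mem_slitPlane_iff, not_or, not_lt, not_not, Complex.neg_re,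
          Complex.neg_im, neg_eq_zero] at h1
        have h3 : ‖u‖ ^ 2 = 1 := by rw [show ‖u‖ = 1 from hu, one_pow]
        rw [← Complex.normSq_eq_norm_sq, Complex.normSq_apply, h1.2] at h3
        nlinarith [h1.1]
      have h3 : ∀ᶠ q : E × ℂ in 𝓝 (y, u), 1 / 2 < q.2.re :=
        (Complex.continuous_re.comp continuous_snd).continuousAt.eventually (lt_mem_nhds h2)
      refine (contDiffAt_const (c := (0 : V))).congr_of_eventuallyEq (h3.mono fun q hq => ?_)
      change (1 - kcc q.2) • _ = 0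
      rw [kcc, Real.smoothTransition.one_of_one_le (by linarith), sub_self, zero_smul]

theorem per_eq {h : ℝ → V} (hp : ∀ t, h (t + 2 * π) = h t) {s t : ℝ} (he : ex s = ex t) :
    h s = h t := by
  have h1 : ex (s - t) = 1 := by
    have h2 : ex (s - t) * ex t = 1 * ex t := by rw [← ex_add, sub_add_cancel, he, one_mul]
    have h3 : ex t ≠ 0 := fun h0 => by
      have := norm_ex t
      rw [h0, norm_zero] at this
      exact zero_ne_one this
    exact mul_right_cancel₀ h3 h2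
  obtain ⟨k, hk⟩ := ex_eq_one h1
  have h4 : Function.Periodic h (2 * π) := hp
  have h5 : s = t + k * (2 * π) := by linarith
  rw [h5, h4.int_mul k t]

theorem ex_arg {u : ℂ} (hu : u ∈ Cc) : ex u.arg = u := by
  have h := Complex.norm_mul_exp_arg_mul_I u
  rwa [show ‖u‖ = 1 from hu, Complex.ofReal_one, one_mul] at h

theorem ex_pi : ex π = -1 := Complex.exp_pi_mul_I

/-- the value of the circle form -/
theorem circ_ex (hp : ∀ t, H y (t + 2 * π) = H y t) (t : ℝ) : circ H (y, ex t) = H y t := by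
  have h1 : H y (ex t).arg = H y t := per_eq hp (ex_arg (ex_mem t))
  have h2 : H y ((-ex t).arg + π) = H y t := per_eq hp (by
    have h3 : -ex t ∈ Cc := by
      change ‖-ex t‖ = 1
      rw [norm_neg, norm_ex]
    rw [ex_add, ex_arg h3, ex_pi, mul_neg_one, neg_neg])
  change kcc (ex t) • H y (ex t).arg + (1 - kcc (ex t)) • H y ((-ex t).arg + π) = H y t
  rw [h1, h2, ← add_smul, add_sub_cancel, one_smul]

theorem circ_one (hp : ∀ t, H y (t + 2 * π) = H y t) : circ H (y, 1) = H y 0 := by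
  rw [← ex_zero, circ_ex hp]

end circ

end Crest.Agent.R208.EX
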