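import Crest.Agent.R208.XF1c

/-! Row 208, (8,2), block (EZ) (helper664).  EZ1: **the Euler number of an oriented real bundle is
an integer**: Sard's theorem for the sections `x ↦ P_x v` and the zero locus formula (885, XF1). -/

set_option autoImplicit false
set_option linter.unusedSectionVars false

open MeasureTheory MeasureTheory.Measure Set Filter Topology Module
open scoped ContDiff RealInnerProductSpace
open Crest.Agent.R208.F Crest.Agent.R208.FI Crest.Agent.R208.CW Crest.Agent.R208.T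

noncomputable section

namespace Crest.Agent.R208.EZ

/-! ### Sard's theorem for a family of projections over an open set -/
section sard
variable {A H : Type*} [NormedAddCommGroup A] [NormedSpace ℝ A] [FiniteDimensional ℝ A]
  [NormedAddCommGroup H] [NormedSpace ℝ H] [FiniteDimensional ℝ H] [MeasurableSpace H]
  [BorelSpace H] (μ : Measure H) [μ.IsAddHaarMeasure]

/-- the image of the points with a degenerate derivative, equal dimensions -/
theorem null_image (e : H ≃L[ℝ] A) {Ψ : A → H} {S : Set A} (hd : ∀ z ∈ S, DifferentiableAt ℝ Ψ z)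
    (h : ∀ z ∈ S, ¬ Function.Injective (fderiv ℝ Ψ z)) : μ (Ψ '' S) = 0 := by
  have himg : Ψ '' S ⊆ (Ψ ∘ e) '' (e ⁻¹' S) := by
    rintro _ ⟨z, hz, rfl⟩
    exact ⟨e.symm z, by simpa using hz, by simp⟩
  refine measure_mono_null himg ?_
  refine addHaar_image_eq_zero_of_det_fderivWithin_eq_zero μ
    (f' := fun y => (fderiv ℝ Ψ (e y)).comp (e : H →L[ℝ] A)) (fun y hy => ?_) fun y hy => ?_
  · exact ((hd _ hy).hasFDerivAt.comp y e.hasFDerivAt).hasFDerivWithinAt
  · by_contra hne
    apply h _ hy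
    have hu : IsUnit ((((fderiv ℝ Ψ (e y)).comp (e : H →L[ℝ] A) : H →L[ℝ] H)) : H →ₗ[ℝ] H) := by
      rw [LinearMap.isUnit_iff_isUnit_det]
      exact isUnit_iff_ne_zero.mpr hne
    rw [LinearMap.isUnit_iff_ker_eq_bot, LinearMap.ker_eq_bot] at hu
    intro a b hab
    have h1 := @hu (e.symm a) (e.symm b) (by
      change fderiv ℝ Ψ (e y) (e (e.symm a)) = fderiv ℝ Ψ (e y) (e (e.symm b))
      simpa using hab)
    simpa using h1

variable {B : Type*} [NormedAddCommGroup B] [NormedSpace ℝ B] [FiniteDimensional ℝ B]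

/-- **Sard for sections**, local: outside a null set of vectors `v` the section `u ↦ p u v` has only
non degenerate zeros near `u₀`. -/
theorem sard_local {p : B → H →L[ℝ] H} {V : Set B} (hV : IsOpen V)
    (hp : ∀ u ∈ V, DifferentiableAt ℝ p u) (hi : ∀ u ∈ V, ∀ v, p u (p u v) = p u v)
    (hr : ∀ u ∈ V, finrank ℝ (LinearMap.range (p u : H →ₗ[ℝ] H)) = finrank ℝ B)
    {u₀ : B} (hu₀ : u₀ ∈ V) :
    ∃ U : Set B, IsOpen U ∧ u₀ ∈ U ∧ U ⊆ V ∧
      μ {v | ∃ u ∈ U, p u v = 0 ∧ ¬ Function.Injective (fderiv ℝ (fun u => p u v) u)} = 0 := by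
  classical
  set K : Submodule ℝ H := LinearMap.ker (p u₀ : H →ₗ[ℝ] H) with hK
  have hker : ∀ u ∈ V, finrank ℝ (LinearMap.ker (p u : H →ₗ[ℝ] H)) + finrank ℝ B = finrank ℝ H :=
    fun u hu => by
      have := LinearMap.finrank_range_add_finrank_ker (p u : H →ₗ[ℝ] H)
      rw [hr u hu] at this
      omega
  have hdim : finrank ℝ H = finrank ℝ (B × K) := by
    rw [Module.finrank_prod]
    have : finrank ℝ K + finrank ℝ B = finrank ℝ H := hker u₀ hu₀
    omega
  let e : H ≃L[ℝ] B × K := ContinuousLinearEquiv.ofFinrankEq hdim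
  let Ψ : B × K → H := fun z => (z.2 : H) - p z.1 (z.2 : H)
  have hΨ : ∀ z : B × K, z.1 ∈ V → HasFDerivAt Ψ
      ((K.subtypeL.comp (ContinuousLinearMap.snd ℝ B K)) -
        ((p z.1).comp (K.subtypeL.comp (ContinuousLinearMap.snd ℝ B K)) +
          (((fderiv ℝ p z.1).comp (ContinuousLinearMap.fst ℝ B K)).flip (z.2 : H)))) z := by
    intro z hz
    have h1 : HasFDerivAt (fun z : B × K => (z.2 : H))
        (K.subtypeL.comp (ContinuousLinearMap.snd ℝ B K)) z :=
      (K.subtypeL.comp (ContinuousLinearMap.snd ℝ B K)).hasFDerivAt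
    have h2 : HasFDerivAt (fun z : B × K => p z.1)
        ((fderiv ℝ p z.1).comp (ContinuousLinearMap.fst ℝ B K)) z :=
      (hp _ hz).hasFDerivAt.comp z hasFDerivAt_fst
    exact h1.sub (h2.clm_apply h1)
  have hcont : ContinuousAt p u₀ := (hp u₀ hu₀).continuousAt
  obtain ⟨U, hUs, hUo, hu₀U⟩ : ∃ U ⊆ V ∩ {u | ‖p u - p u₀‖ < 1}, IsOpen U ∧ u₀ ∈ U := by
    refine mem_nhds_iff.1 (inter_mem (hV.mem_nhds hu₀) ?_)
    have h1 : ContinuousAt (fun u => ‖p u - p u₀‖) u₀ := (hcont.sub continuousAt_const).norm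
    exact h1.eventually_lt continuousAt_const (by simp)
  have hUV : U ⊆ V := fun u hu => (hUs hu).1
  -- the complementary projection `K → ker p u` is onto
  have hsurj : ∀ u ∈ U, ∀ v, p u v = 0 → ∃ w : K, (w : H) - p u w = v := by
    intro u hu v hv
    let T : K →ₗ[ℝ] LinearMap.ker (p u : H →ₗ[ℝ] H) :=
      LinearMap.codRestrict _ ((LinearMap.id - (p u : H →ₗ[ℝ] H)).comp K.subtype) fun w => by
        rw [LinearMap.mem_ker]
        change p u ((w : H) - p u w) = 0
        rw [map_sub, hi u (hUV hu), sub_self]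
    have hT : Function.Injective T := by
      rw [injective_iff_map_eq_zero]
      intro w hw
      have h1 : (w : H) - p u w = 0 := congrArg Subtype.val hw
      have h2 : p u₀ (w : H) = 0 := w.2
      have h3 : (w : H) = (p u - p u₀) (w : H) := by
        rw [_root_.sub_apply, h2, sub_zero]
        exact sub_eq_zero.1 h1
      have h4 : ‖(w : H)‖ ≤ ‖p u - p u₀‖ * ‖(w : H)‖ := by
        conv_lhs => rw [h3]
        exact (p u - p u₀).le_opNorm _
      have h5 : ‖p u - p u₀‖ < 1 := (hUs hu).2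
      have h6 : ‖(w : H)‖ = 0 := by
        by_contra h0
        have h7 : 0 < ‖(w : H)‖ := lt_of_le_of_ne (norm_nonneg _) (Ne.symm h0)
        nlinarith
      exact Subtype.ext (norm_eq_zero.1 h6)
    have hfr : finrank ℝ K = finrank ℝ (LinearMap.ker (p u : H →ₗ[ℝ] H)) := by
      have h1 := hker u (hUV hu)
      have h2 : finrank ℝ K + finrank ℝ B = finrank ℝ H := hker u₀ hu₀
      omega
    have hTs : Function.Surjective T :=
      (LinearMap.injective_iff_surjective_of_finrank_eq_finrank hfr).1 hT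
    obtain ⟨w, hw⟩ := hTs ⟨v, hv⟩
    exact ⟨w, congrArg Subtype.val hw⟩
  refine ⟨U, hUo, hu₀U, hUV, ?_⟩
  refine measure_mono_null ?_ (null_image μ e (Ψ := Ψ)
    (S := {z | z.1 ∈ U ∧ ¬ Function.Injective (fderiv ℝ Ψ z)})
    (fun z hz => (hΨ z (hUV hz.1)).differentiableAt) fun z hz => hz.2)
  rintro v ⟨u, hu, hv, hninj⟩
  obtain ⟨w, hw⟩ := hsurj u hu v hv
  refine ⟨(u, w), ⟨hu, fun hinj => hninj ?_⟩, hw⟩
  have huV := hUV hu
  rw [injective_iff_map_eq_zero]
  intro ξ hξ
  have hpv : fderiv ℝ (fun u => p u v) u ξ = fderiv ℝ p u ξ v := by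
    have h1 : HasFDerivAt (fun u => p u v) ((fderiv ℝ p u).flip v) u :=
      (hp u huV).hasFDerivAt.clm_apply (hasFDerivAt_const v u) |>.congr_fderiv (by
        ext η; simp)
    rw [h1.fderiv]; rfl
  rw [hpv] at hξ
  -- `p u (D_ξ p w) = 0`
  have h0 : p u (fderiv ℝ p u ξ (w : H)) = 0 := by
    have h1 : HasFDerivAt (fun y => p y (p y (w : H)))
        ((p u).comp ((fderiv ℝ p u).flip (w : H)) + (fderiv ℝ p u).flip (p u (w : H))) u := by
      have h2 : HasFDerivAt (fun y => p y (w : H)) ((fderiv ℝ p u).flip (w : H)) u :=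
        (hp u huV).hasFDerivAt.clm_apply (hasFDerivAt_const (w : H) u) |>.congr_fderiv (by
          ext η; simp)
      exact (hp u huV).hasFDerivAt.clm_apply h2
    have h3 : HasFDerivAt (fun y => p y (w : H)) ((fderiv ℝ p u).flip (w : H)) u :=
      (hp u huV).hasFDerivAt.clm_apply (hasFDerivAt_const (w : H) u) |>.congr_fderiv (by
        ext η; simp)
    have h4 : (fun y => p y (p y (w : H))) =ᶠ[𝓝 u] fun y => p y (w : H) := by
      filter_upwards [hV.mem_nhds huV] with y hy using hi y hy _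
    have h5 := h1.unique (h3.congr_of_eventuallyEq h4)
    have h6 := congrArg (fun L : B →L[ℝ] H => L ξ) h5
    simp only [_root_.add_apply, ContinuousLinearMap.comp_apply,
      ContinuousLinearMap.flip_apply] at h6
    have h7 : fderiv ℝ p u ξ (w : H) - fderiv ℝ p u ξ (p u (w : H)) = 0 := by
      rw [← map_sub, hw, hξ]
    rw [← h6] at h7
    simpa using h7
  obtain ⟨η, hη⟩ := hsurj u hu _ h0
  have h1 : fderiv ℝ Ψ (u, w) (ξ, η) = 0 := by
    rw [(hΨ (u, w) huV).fderiv]
    change (η : H) - (p u (η : H) + fderiv ℝ p u ξ (w : H)) = 0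
    rw [← hη]
    abel
  have h2 := (injective_iff_map_eq_zero _).1 hinj _ h1
  exact congrArg Prod.fst h2

end sard

/-! ### the Euler number -/
section euler
variable {E : Type*} [NormedAddCommGroup E] [NormedSpace ℝ E] [FiniteDimensional ℝ E]
  {n ι : Type*} [Fintype n] [DecidableEq n] [Fintype ι] [DecidableEq ι]
  {X : Set E} {oX : E → Ext E} {P : E → EuclideanSpace ℝ n →L[ℝ] EuclideanSpace ℝ n}
  {W : E → (ι × Fin 2 → n) → ℝ} {d k : ℕ}

/-- **a generic constant vector gives a section with non degenerate zeros** -/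
theorem exists_generic (hX : Clo k X) (hP : PField X k P) :
    ∃ v : EuclideanSpace ℝ n, ∀ x ∈ X, P x v = 0 →
      ∀ w ∈ Tan X x, fderiv ℝ (fun y => P y v) x w = 0 → w = 0 := by
  classical
  have hloc : ∀ x ∈ X, ∃ (f : Eu k → E) (U : Set (Eu k)), Chart k X f U ∧ x ∈ f '' U ∧
      (volume : Measure (EuclideanSpace ℝ n)) {v | ∃ u ∈ U, P (f u) v = 0 ∧
        ¬ Function.Injective (fderiv ℝ (fun u => P (f u) v) u)} = 0 := by
    intro x hx
    obtain ⟨f, V, hf, u₀, hu₀, rfl⟩ := hX.chart x hx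
    obtain ⟨U, hUo, hu₀U, hUV, hμ⟩ := sard_local (volume : Measure (EuclideanSpace ℝ n))
      (p := fun u => P (f u)) hf.isOpen
      (fun u hu => ((hP.smooth _ (hf.mem hu)).differentiableAt (by simp)).comp u
        (hf.differentiableAt hu))
      (fun u hu v => hP.idem _ (hf.mem hu) v)
      (fun u hu => by rw [hP.rank _ (hf.mem hu)]; simp) hu₀
    exact ⟨f, U, hf.mono hUV hUo, ⟨u₀, hu₀U, rfl⟩, hμ⟩
  choose! f U hf hfU hμ using hloc
  have himg : ∀ x ∈ X, ∃ O : Set E, IsOpen O ∧ f x '' U x = X ∩ O := fun x hx =>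
    (hf x hx).image_open _ subset_rfl (hf x hx).isOpen
  choose! O hO hO' using himg
  obtain ⟨t, ht, hcov⟩ := hX.compact.elim_nhds_subcover O fun x hx => (hO x hx).mem_nhds (by
    have := hfU x hx
    rw [hO' x hx] at this
    exact this.2)
  have hnull : (volume : Measure (EuclideanSpace ℝ n)) (⋃ x ∈ t, {v | ∃ u ∈ U x,
      P (f x u) v = 0 ∧ ¬ Function.Injective (fderiv ℝ (fun u => P (f x u) v) u)}) = 0 :=
    (measure_biUnion_null_iff t.countable_toSet).2 fun x hx => hμ x (ht x hx)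
  obtain ⟨v, hv⟩ : ∃ v, v ∉ ⋃ x ∈ t, {v | ∃ u ∈ U x,
      P (f x u) v = 0 ∧ ¬ Function.Injective (fderiv ℝ (fun u => P (f x u) v) u)} := by
    rw [← ne_univ_iff_exists_notMem]
    intro h
    rw [h] at hnull
    exact (NeZero.ne (volume : Measure (EuclideanSpace ℝ n)))
      (Measure.measure_univ_eq_zero.1 hnull)
  refine ⟨v, fun y hy hy0 w hw hdw => ?_⟩
  obtain ⟨x, hxt, hyO⟩ := mem_iUnion₂.1 (hcov hy)
  have hxX := ht x hxt
  have hyf : y ∈ f x '' U x := by rw [hO' x hxX]; exact ⟨hy, hyO⟩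
  obtain ⟨u, hu, rfl⟩ := hyf
  have hinj : Function.Injective (fderiv ℝ (fun u => P (f x u) v) u) := by
    by_contra h
    exact hv (mem_iUnion₂.2 ⟨x, hxt, u, hu, hy0, h⟩)
  rw [← range_fderiv_eq_Tan (hf x hxX) hu] at hw
  obtain ⟨ξ, rfl⟩ := hw
  have hc : HasFDerivAt (fun u => P (f x u) v)
      ((fderiv ℝ (fun y => P y v) (f x u)).comp (fderiv ℝ (f x) u)) u := by
    have h1 : DifferentiableAt ℝ (fun y => P y v) (f x u) :=
      ((hP.smooth _ hy).differentiableAt (by simp)).clm_apply (differentiableAt_const v)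
    exact h1.hasFDerivAt.comp u ((hf x hxX).differentiableAt hu).hasFDerivAt
  have h2 : fderiv ℝ (fun u => P (f x u) v) u ξ = 0 := by
    rw [hc.fderiv]; exact hdw
  have h3 := (injective_iff_map_eq_zero _).1 hinj ξ h2
  rw [h3]; exact map_zero _

/-- non degenerate zeros on a closed manifold are finite in number -/
theorem finite_zeros {H : Type*} [NormedAddCommGroup H] [NormedSpace ℝ H] [FiniteDimensional ℝ H]
    {s : E → H} (hX : Clo d X) (hs : ∀ x ∈ X, ContDiffAt ℝ ∞ s x)
    (hnd : ∀ x ∈ X, s x = 0 → ∀ w ∈ Tan X x, fderiv ℝ s x w = 0 → w = 0) :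
    {x | x ∈ X ∧ s x = 0}.Finite := by
  have hloc : ∀ x ∈ X, ∃ O ∈ 𝓝 x, (O ∩ {x | x ∈ X ∧ s x = 0}).Finite := by
    intro x hx
    by_cases h0 : s x = 0
    · obtain ⟨f, V, u0, ρ, c, hρ, hc, hf, hbV, rfl, -, hlow, -⟩ :=
        XF.exists_local hX hx (hs x hx) h0 (hnd x hx h0) univ_mem
      obtain ⟨O, hO, hO'⟩ := hf.image_open _ (Metric.ball_subset_closedBall.trans hbV)
        (Metric.isOpen_ball (x := u0) (ε := ρ))
      have hmem : f u0 ∈ O := by
        have : f u0 ∈ f '' Metric.ball u0 ρ := ⟨u0, Metric.mem_ball_self hρ, rfl⟩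
        rw [hO'] at this
        exact this.2
      refine ⟨O, hO.mem_nhds hmem, (finite_singleton (f u0)).subset ?_⟩
      rintro y ⟨hyO, hyX, hy0⟩
      have hyf : y ∈ f '' Metric.ball u0 ρ := by rw [hO']; exact ⟨hyX, hyO⟩
      obtain ⟨u, hu, rfl⟩ := hyf
      have h1 := hlow u (Metric.ball_subset_closedBall hu)
      rw [hy0, norm_zero] at h1
      have h2 : ‖u - u0‖ = 0 := by
        have := norm_nonneg (u - u0)
        nlinarith
      rw [mem_singleton_iff, sub_eq_zero.1 (norm_eq_zero.1 h2)]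
    · have h1 : ContinuousAt s x := (hs x hx).continuousAt
      refine ⟨{y | s y ≠ 0}, h1.eventually_ne h0, ?_⟩
      have : {y | s y ≠ 0} ∩ {x | x ∈ X ∧ s x = 0} = ∅ := by
        ext y
        simp only [mem_inter_iff, mem_ofPred_eq, mem_empty_iff_false, iff_false]
        exact fun h => h.1 h.2.2
      rw [this]
      exact finite_empty
  choose! O hO hO' using hloc
  obtain ⟨t, ht, hcov⟩ := hX.compact.elim_nhds_subcover O hO
  refine ((t.finite_toSet.biUnion fun x hx => hO' x (ht x hx))).subset ?_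
  rintro y ⟨hyX, hy0⟩
  obtain ⟨x, hxt, hyO⟩ := mem_iUnion₂.1 (hcov hyX)
  exact mem_iUnion₂.2 ⟨x, hxt, hyO, hyX, hy0⟩

/-- **THE EULER NUMBER IS AN INTEGER** -/
theorem euler_int [Nonempty ι] (hX : Clo (Fintype.card ι * 2) X)
    (hoX : Ori (Fintype.card ι * 2) X oX) (h : OR X P W) :
    ∃ z : ℤ, J (Fintype.card ι * 2) X oX (eR P W) = XF.tau ι * z := by
  classical
  have hP := OR.pfield h
  rw [mul_comm] at hP
  obtain ⟨v, hv⟩ := exists_generic hX hP
  have hs : ∀ x ∈ X, ContDiffAt ℝ ∞ (fun y => P y v) x := fun x hx =>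
    (h.sP x hx).clm_apply contDiffAt_const
  have hfin := finite_zeros hX hs hv
  obtain ⟨ε, hε, hJ⟩ := XF.zero_locus (s := fun y => P y v) (Z := hfin.toFinset) hX hoX h hs
    (fun x hx => hP.idem x hx v) (fun z hz => ((Finite.mem_toFinset hfin).1 hz).1)
    (fun z hz => ((Finite.mem_toFinset hfin).1 hz).2)
    (fun x hx h0 => (Finite.mem_toFinset hfin).2 ⟨hx, h0⟩)
    (fun z hz w hw hd => by
      have := (Finite.mem_toFinset hfin).1 hz
      exact hv z this.1 this.2 w hw hd)
  have hsum : ∃ z : ℤ, ∑ z ∈ hfin.toFinset, ε z = z := by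
    have : ∀ t : Finset E, (∀ z ∈ t, ε z = 1 ∨ ε z = -1) → ∃ z : ℤ, ∑ z ∈ t, ε z = z := by
      intro t
      induction t using Finset.induction_on with
      | empty => intro _; exact ⟨0, by simp⟩
      | insert a t ha ih =>
        intro ht
        obtain ⟨z, hz⟩ := ih fun y hy => ht y (Finset.mem_insert_of_mem hy)
        rw [Finset.sum_insert ha, hz]
        rcases ht a (Finset.mem_insert_self _ _) with h1 | h1
        · exact ⟨1 + z, by rw [h1]; push_cast; ring⟩
        · exact ⟨-1 + z, by rw [h1]; push_cast; ring⟩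
    exact this _ hε
  obtain ⟨z, hz⟩ := hsum
  exact ⟨z, by rw [hJ, hz]⟩

end euler

end Crest.Agent.R208.EZ
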