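import Crest.Agent.R208.EZ1
import Crest.Agent.R208.CW8b
import Crest.Agent.R208.EP6
import Crest.Agent.R208.T3a

/-! Row 208, (8,2), block (EZ) (helper664).  EZ2: Euler classes of direct sums and their
integrality: `EuC X r β` says that `± 2^r r! β` is the Euler form of an oriented real bundle of
rank `2 r`; it is stable under products, and `∫ β ∈ (2π)^r ℤ`. -/

set_option autoImplicit false
set_option linter.unusedSectionVars false

open MeasureTheory Set Filter Topology Module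
open scoped ContDiff RealInnerProductSpace Nat
open Crest.Agent.R208.F Crest.Agent.R208.FI Crest.Agent.R208.CW Crest.Agent.R208.T
open Crest.Agent.R208.CM Crest.Agent.R208.EW Crest.Agent.R208.EP

noncomputable section

namespace Crest.Agent.R208.EZ

/-! ### external direct sums of oriented fields -/
section dsum
variable {E : Type} [NormedAddCommGroup E] [NormedSpace ℝ E] [FiniteDimensional ℝ E]
  {n m ι κ : Type} [Fintype n] [DecidableEq n] [Fintype m] [DecidableEq m]
  [Fintype ι] [DecidableEq ι] [Fintype κ] [DecidableEq κ] {X : Set E}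
  {P : E → EuclideanSpace ℝ n →L[ℝ] EuclideanSpace ℝ n} {W : E → (ι × Fin 2 → n) → ℝ}
  {Q : E → EuclideanSpace ℝ m →L[ℝ] EuclideanSpace ℝ m} {V : E → (κ × Fin 2 → m) → ℝ}

/-- the second inclusion -/
def jM (n m : Type) [DecidableEq m] : Matrix (n ⊕ m) m ℝ := Matrix.fromRows 0 1

theorem jM_iso : (jM n m).transpose * jM n m = 1 := by
  rw [jM, Matrix.transpose_fromRows, Matrix.fromCols_mul_fromRows]
  simp

theorem iM_jM : (iM n m).transpose * jM n m = 0 := by
  rw [jM, iM, Matrix.transpose_fromRows, Matrix.fromCols_mul_fromRows]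
  simp

theorem push_orth (x : E) (v : EuclideanSpace ℝ (n ⊕ m)) :
    pushE (iM n m) P x (pushE (jM n m) Q x v) = 0 := by
  change mE (iM n m) (P x (mE (iM n m).transpose (mE (jM n m) (Q x (mE (jM n m).transpose v))))) = 0
  rw [mE_mE, iM_jM]
  have h : mE (0 : Matrix n m ℝ) (Q x (mE (jM n m).transpose v)) = 0 := by
    ext i
    rw [mE_apply]
    simp
  rw [h, map_zero, map_zero]

/-- the external direct sum of two oriented fields: the field -/
def dsP (P : E → EuclideanSpace ℝ n →L[ℝ] EuclideanSpace ℝ n)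
    (Q : E → EuclideanSpace ℝ m →L[ℝ] EuclideanSpace ℝ m) (x : E) :
    EuclideanSpace ℝ (n ⊕ m) →L[ℝ] EuclideanSpace ℝ (n ⊕ m) :=
  pushE (iM n m) P x + pushE (jM n m) Q x

/-- the external direct sum of two oriented fields: the orientation -/
def dsW (W : E → (ι × Fin 2 → n) → ℝ) (V : E → (κ × Fin 2 → m) → ℝ) (x : E) :
    ((ι ⊕ κ) × Fin 2 → n ⊕ m) → ℝ :=
  sumT (pushR (iM n m) (W x)) (pushR (jM n m) (V x))

theorem or_ds (h : OR X P W) (h' : OR X Q V) : OR X (dsP P Q) (dsW W V) :=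
  (OR.push (iM_iso m) h).add (OR.push jM_iso h') fun x _ v => push_orth x v

/-- **the Euler form of an external direct sum** -/
theorem coh_ds (h : OR X P W) (h' : OR X Q V) :
    Coh X (eR (dsP P Q) (dsW W V))
      (((Fintype.card ι + Fintype.card κ).choose (Fintype.card ι) : ℝ) • (eR P W * eR Q V)) := by
  have h1 := OR.coh_add (OR.push (iM_iso m) h) (OR.push jM_iso h') fun x _ v => push_orth x v
  exact h1.trans (Coh.of_eqv (((eqv_eR_push (iM_iso m) h).mul (eqv_eR_push jM_iso h')).smul _))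

end dsum

/-! ### Euler classes -/
section EuC
variable {E : Type} [NormedAddCommGroup E] [NormedSpace ℝ E] [FiniteDimensional ℝ E]
  {X : Set E} {r s : ℕ} {β γ : E → Ext E} {oX : E → Ext E}

/-- `β` is (up to the sign and the factor `2^r r!`, and up to cohomology) the Euler form of an
oriented real bundle of rank `2 r` -/
structure EuC (X : Set E) (r : ℕ) (β : E → Ext E) : Prop where
  ec : EC X β
  ex : ∃ (n ι : Type) (_ : Fintype n) (_ : DecidableEq n) (_ : Fintype ι) (_ : DecidableEq ι)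
    (P : E → EuclideanSpace ℝ n →L[ℝ] EuclideanSpace ℝ n) (W : E → (ι × Fin 2 → n) → ℝ) (ε : ℝ),
    OR X P W ∧ Fintype.card ι = r ∧ (ε = 1 ∨ ε = -1) ∧
      Coh X (eR P W) ((ε * (2 ^ r * (r ! : ℝ))) • β)

theorem EuC.of {n ι : Type} [Fintype n] [DecidableEq n] [Fintype ι] [DecidableEq ι]
    {P : E → EuclideanSpace ℝ n →L[ℝ] EuclideanSpace ℝ n} {W : E → (ι × Fin 2 → n) → ℝ}
    (hβ : EC X β) (h : OR X P W) (hι : Fintype.card ι = r)
    (hc : ∃ ε : ℝ, (ε = 1 ∨ ε = -1) ∧ Coh X (eR P W) ((ε * (2 ^ r * (r ! : ℝ))) • β)) :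
    EuC X r β := by
  obtain ⟨ε, h1, h2⟩ := hc
  exact ⟨hβ, n, ι, inferInstance, inferInstance, inferInstance, inferInstance, P, W, ε, h, hι, h1,
    h2⟩

theorem EuC.mul (h : EuC X r β) (h' : EuC X s γ) : EuC X (r + s) (β * γ) := by
  obtain ⟨hβ, n, ι, _, _, _, _, P, W, ε, hP, rfl, hε, hc⟩ := h
  obtain ⟨hγ, m, κ, _, _, _, _, Q, V, δ, hQ, rfl, hδ, hc'⟩ := h'
  refine EuC.of (hβ.mul hγ) (or_ds hP hQ) (by rw [Fintype.card_sum]) ⟨ε * δ, ?_, ?_⟩
  · rcases hε with rfl | rfl <;> rcases hδ with rfl | rfl <;> norm_num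
  · have e1 : EC X (eR P W) := orEC hP
    have e2 : EC X (eR Q V) := orEC hQ
    have h1 : Coh X (eR P W * eR Q V)
        (((ε * (2 ^ Fintype.card ι * ((Fintype.card ι)! : ℝ))) • β)
          * ((δ * (2 ^ Fintype.card κ * ((Fintype.card κ)! : ℝ))) • γ)) :=
      Coh.mul e1.sm e1.cl (hγ.smul _).sm (hγ.smul _).cl hc hc'
    have h2 := (coh_ds hP hQ).trans (h1.smul _)
    convert h2 using 1
    rw [smul_mul_smul_comm, smul_smul]
    congr 1
    have h3 := Nat.add_choose_mul_factorial_mul_factorial (Fintype.card ι) (Fintype.card κ)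
    have h4 : (((Fintype.card ι + Fintype.card κ).choose (Fintype.card ι) : ℕ) : ℝ)
        * ((Fintype.card ι)! : ℝ) * ((Fintype.card κ)! : ℝ)
        = ((Fintype.card ι + Fintype.card κ)! : ℝ) := by
      rw [Nat.choose_symm_add]
      exact_mod_cast h3
    rw [← h4, pow_add]
    ring

theorem EuC.congr (h : EuC X r β) (hγ : EC X γ) (hc : Coh X β γ) : EuC X r γ := by
  obtain ⟨hβ, n, ι, _, _, _, _, P, W, ε, hP, rfl, hε, hc'⟩ := h
  exact EuC.of hγ hP rfl ⟨ε, hε, hc'.trans (hc.smul _)⟩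

theorem EuC.pow (h : EuC X 1 β) : ∀ k : ℕ, EuC X (k + 1) (β ^ (k + 1))
  | 0 => by rw [zero_add, pow_one]; exact h
  | k + 1 => by
    rw [pow_succ]
    exact (EuC.pow h k).mul h

/-- **integrality** -/
theorem EuC.int (h : EuC X r β) (hr : 1 ≤ r) (hX : Clo (2 * r) X) (hoX : Ori (2 * r) X oX) :
    ∃ z : ℤ, J (2 * r) X oX β = (2 * Real.pi) ^ r * z := by
  obtain ⟨hβ, n, ι, _, _, _, _, P, W, ε, hP, rfl, hε, hc⟩ := h
  have : Nonempty ι := Fintype.card_pos_iff.1 hr
  have hX' : Clo (Fintype.card ι * 2) X := by rwa [mul_comm]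
  have hoX' : Ori (Fintype.card ι * 2) X oX := by rwa [mul_comm]
  obtain ⟨z, hz⟩ := euler_int hX' hoX' hP
  have h1 := SO.J_coh hX' hoX' (orEC hP).sm (hβ.smul _).sm hc
  rw [hz, show J (Fintype.card ι * 2) X oX
      ((ε * (2 ^ Fintype.card ι * ((Fintype.card ι)! : ℝ))) • β)
      = (ε * (2 ^ Fintype.card ι * ((Fintype.card ι)! : ℝ))) * J (Fintype.card ι * 2) X oX β
      from J_smul _] at h1
  rw [mul_comm 2 (Fintype.card ι)]
  have h2 : (0 : ℝ) < 2 ^ Fintype.card ι * ((Fintype.card ι)! : ℝ) := by positivity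
  have h3 : (2 ^ Fintype.card ι * ((Fintype.card ι)! : ℝ)) * J (Fintype.card ι * 2) X oX β
      = (2 ^ Fintype.card ι * ((Fintype.card ι)! : ℝ)) * ((2 * Real.pi) ^ Fintype.card ι * (ε * z)) := by
    have h4 : (4 * Real.pi) ^ Fintype.card ι
        = 2 ^ Fintype.card ι * (2 * Real.pi) ^ Fintype.card ι := by
      rw [← mul_pow]; congr 1; ring
    rw [XF.tau, h4] at h1
    have h5 : ε * ε = 1 := by rcases hε with rfl | rfl <;> norm_num
    linear_combination (-ε) * h1 - (2 ^ Fintype.card ι * ((Fintype.card ι)! : ℝ)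
      * J (Fintype.card ι * 2) X oX β) * h5
  have h6 := mul_left_cancel₀ h2.ne' h3
  rcases hε with rfl | rfl
  · exact ⟨z, by rw [h6]; ring⟩
  · exact ⟨-z, by rw [h6]; push_cast; ring⟩

end EuC

end Crest.Agent.R208.EZ
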