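import Crest.Agent.R208.EZ2

/-! Row 208, (8,2), block (EZ) (helper664).  EZ3: **the Euler numbers over `B = X / S^1`**:
`∫ e^15`, `∫ e^8 c_7(N_ℂ ⊗ L^a)` (`a = 1, 2`), `∫ e c_7(N_ℂ ⊗ L)^2` are integers. -/

set_option autoImplicit false
set_option linter.unusedSectionVars false

open MeasureTheory Set Filter Topology Module
open scoped ContDiff RealInnerProductSpace
open Crest.Agent.R208.F Crest.Agent.R208.FI Crest.Agent.R208.CW Crest.Agent.R208.T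
open Crest.Agent.R208.CM Crest.Agent.R208.EW Crest.Agent.R208.EP

noncomputable section

namespace Crest.Agent.R208.EZ

variable {E : Type} [NormedAddCommGroup E] [NormedSpace ℝ E] [FiniteDimensional ℝ E]
  {p : Type} [Fintype p] [DecidableEq p]
  {X : Set E} {φ : ℝ → E → E} {m d r s k : ℕ} {g : E → Fin m → ℂ} {al : E → Ext E}
  {Fc oB : MM m → Ext (MM m)} {N N' : MM m → EuclideanSpace ℝ p →L[ℝ] EuclideanSpace ℝ p}

/-- the tautological line -/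
theorem euC_line (hg : Emb X φ g) (hC : Cir X φ) (hX : Clo (d + 1) X) (ha : Conn X φ al)
    (hF : Curv X g al Fc) : EuC (Quo X g) 1 Fc := by
  refine EuC.of (curvEC hF) hg.or_L (by simp) ⟨-1, Or.inr rfl, ?_⟩
  have h1 := (hF.coh_eR hg hC hX ha).symm.smul (-2)
  rw [smul_smul] at h1
  norm_num at h1 ⊢
  exact h1

/-- `N_ℂ ⊗ L` -/
theorem euC_top1 (hg : Emb X φ g) (hC : Cir X φ) (hX : Clo (d + 1) X) (hXc : IsPreconnected X)
    (ha : Conn X φ al) (hF : Curv X g al Fc) (hN : PField (Quo X g) r N)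
    (hs : ∀ y ∈ Quo X g, ∀ u v, ⟪N y u, v⟫ = ⟪u, N y v⟫) :
    EuC (Quo X g) r (topr r 1 N Fc) :=
  EuC.of (ec_topr (hg.sub_Quo hC hX) hN (curvEC hF))
    (or_NL (ι := Fin r) hN hs (lineF_Lt hg) (Fintype.card_fin r)) (Fintype.card_fin r)
    (coh_NLt hg hC hX hXc hN hs (Fintype.card_fin r) ha hF)

/-- `N_ℂ ⊗ L^2` -/
theorem euC_top2 (hg : Emb X φ g) (hC : Cir X φ) (hX : Clo (d + 1) X) (hXc : IsPreconnected X)
    (ha : Conn X φ al) (hF : Curv X g al Fc) (hN : PField (Quo X g) r N)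
    (hs : ∀ y ∈ Quo X g, ∀ u v, ⟪N y u, v⟫ = ⟪u, N y v⟫) :
    EuC (Quo X g) r (topr r 2 N Fc) :=
  EuC.of (ec_topr (hg.sub_Quo hC hX) hN (curvEC hF))
    (or_NL (ι := Fin r) hN hs (lineF_Lt2 hg) (Fintype.card_fin r)) (Fintype.card_fin r)
    (coh_NLt2 hg hC hX hXc hN hs (Fintype.card_fin r) ha hF)

/-- **(z0)**, any rank -/
theorem int_line (hg : Emb X φ g) (hC : Cir X φ) (hX : Clo (2 * (k + 1) + 1) X)
    (ha : Conn X φ al) (hF : Curv X g al Fc) (hoB : Ori (2 * (k + 1)) (Quo X g) oB) :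
    ∃ z : ℤ, J (2 * (k + 1)) (Quo X g) oB (Fc ^ (k + 1)) = (2 * Real.pi) ^ (k + 1) * z :=
  ((euC_line hg hC hX ha hF).pow k).int (by omega) (hg.clo_Quo hC hX) hoB

/-- **(z0)**: `∫ e^15 ∈ ℤ` -/
theorem z0 (hg : Emb X φ g) (hC : Cir X φ) (hX : Clo (30 + 1) X)
    (ha : Conn X φ al) (hF : Curv X g al Fc) (hoB : Ori 30 (Quo X g) oB) :
    ∃ z : ℤ, J 30 (Quo X g) oB (Fc ^ 15) = (2 * Real.pi) ^ 15 * z :=
  int_line (k := 14) hg hC hX ha hF hoB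

/-- **(z1)**: `∫ e^8 c_7(N_ℂ ⊗ L) ∈ ℤ` -/
theorem z1 (hg : Emb X φ g) (hC : Cir X φ) (hX : Clo (30 + 1) X) (hXc : IsPreconnected X)
    (ha : Conn X φ al) (hF : Curv X g al Fc) (hoB : Ori 30 (Quo X g) oB)
    (hN : PField (Quo X g) 7 N) (hs : ∀ y ∈ Quo X g, ∀ u v, ⟪N y u, v⟫ = ⟪u, N y v⟫) :
    ∃ z : ℤ, J 30 (Quo X g) oB (Fc ^ 8 * topr 7 1 N Fc) = (2 * Real.pi) ^ 15 * z :=
  (((euC_line hg hC hX ha hF).pow 7).mul (euC_top1 hg hC hX hXc ha hF hN hs)).int (by omega)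
    (hg.clo_Quo hC hX) hoB

/-- **(z2)**: `∫ e^8 c_7(N_ℂ ⊗ L^2) ∈ ℤ` -/
theorem z2 (hg : Emb X φ g) (hC : Cir X φ) (hX : Clo (30 + 1) X) (hXc : IsPreconnected X)
    (ha : Conn X φ al) (hF : Curv X g al Fc) (hoB : Ori 30 (Quo X g) oB)
    (hN : PField (Quo X g) 7 N) (hs : ∀ y ∈ Quo X g, ∀ u v, ⟪N y u, v⟫ = ⟪u, N y v⟫) :
    ∃ z : ℤ, J 30 (Quo X g) oB (Fc ^ 8 * topr 7 2 N Fc) = (2 * Real.pi) ^ 15 * z :=
  (((euC_line hg hC hX ha hF).pow 7).mul (euC_top2 hg hC hX hXc ha hF hN hs)).int (by omega)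
    (hg.clo_Quo hC hX) hoB

/-- **(z3)**: `∫ e c_7(N_ℂ ⊗ L)^2 ∈ ℤ` -/
theorem z3 (hg : Emb X φ g) (hC : Cir X φ) (hX : Clo (30 + 1) X) (hXc : IsPreconnected X)
    (ha : Conn X φ al) (hF : Curv X g al Fc) (hoB : Ori 30 (Quo X g) oB)
    (hN : PField (Quo X g) 7 N) (hs : ∀ y ∈ Quo X g, ∀ u v, ⟪N y u, v⟫ = ⟪u, N y v⟫) :
    ∃ z : ℤ, J 30 (Quo X g) oB (Fc * (topr 7 1 N Fc * topr 7 1 N Fc))
      = (2 * Real.pi) ^ 15 * z :=
  ((euC_line hg hC hX ha hF).mul ((euC_top1 hg hC hX hXc ha hF hN hs).mul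
    (euC_top1 hg hC hX hXc ha hF hN hs))).int (by omega) (hg.clo_Quo hC hX) hoB

end Crest.Agent.R208.EZ
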