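import Crest.Agent.R208.QB646

/-!
R208, type (8,2), block (Q2) (helper646): class algebra for general `α`: the doubling identity
`(E)` in degree 22, rationality of `G` from two Euler numbers, and the composition
`|∫ e¹⁵| ≤ 78`.
-/

set_option autoImplicit false

namespace Crest.Agent.R208.QA

open BZ (K mem_K int_mem nat_mem)

section Classes

variable {A : Type*} [CommRing A] [Algebra ℝ A]

/-- (Q2b): 243's `eqs_of_class` for `p₃(N) = α e⁶ + β e² x₀`. -/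
theorem eqs_of_class (e x : A) (α b g η κ : ℝ) (hκ : κ = 1 ∨ κ = -1)
    (hlin : ∀ u v : ℝ, u • e ^ 11 + v • (e ^ 7 * x) = 0 → u = 0 ∧ v = 0)
    (hrel : (12 : ℝ) • (e ^ 3 * x ^ 2) = -(α • e ^ 11) - b • (e ^ 7 * x))
    (hP : κ • (((1 / 2 : ℝ) • (g • e ^ 7 + (3 - b) • (e ^ 3 * x))) * (η • e ^ 4 + (3 : ℝ) • x))
      = ((4 - 1 / 1024) * (α * b / 24)) • e ^ 11
        + ((4 - 1 / 64) * ((b ^ 2 - 12 * α) / 24)) • (e ^ 7 * x)) :
    g * η - (3 - b) * α / 4 = κ * (1365 / 4096) * α * b ∧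
    3 * g + (3 - b) * η - (3 - b) * b / 4 = κ * (85 / 256) * (b ^ 2 - 12 * α) := by
  have hκ2 : κ * κ = 1 := by rcases hκ with rfl | rfl <;> norm_num
  have h3 : e ^ 3 * x ^ 2 = (-(α / 12)) • e ^ 11 - (b / 12) • (e ^ 7 * x) := by
    have := congrArg (fun z => (1 / 12 : ℝ) • z) hrel
    simp only [smul_smul, smul_sub, smul_neg] at this
    norm_num at this
    rw [this, neg_smul]
    congr 1
    · congr 2
      ring_nf
    · ring_nf
  have hexp : ((1 / 2 : ℝ) • (g • e ^ 7 + (3 - b) • (e ^ 3 * x))) * (η • e ^ 4 + (3 : ℝ) • x)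
      = ((g * η - (3 - b) * α / 4) / 2) • e ^ 11
        + ((3 * g + (3 - b) * η - (3 - b) * b / 4) / 2) • (e ^ 7 * x) := by
    have : ((1 / 2 : ℝ) • (g • e ^ 7 + (3 - b) • (e ^ 3 * x))) * (η • e ^ 4 + (3 : ℝ) • x)
        = ((g * η) / 2) • e ^ 11 + ((3 * g + (3 - b) * η) / 2) • (e ^ 7 * x)
          + (3 * (3 - b) / 2) • (e ^ 3 * x ^ 2) := by
      have t1 : e ^ 7 * e ^ 4 = e ^ 11 := by ring
      have t2 : e ^ 3 * x * e ^ 4 = e ^ 7 * x := by ring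
      have t3 : e ^ 3 * x * x = e ^ 3 * x ^ 2 := by ring
      simp only [mul_add, add_mul, smul_add, smul_mul_assoc, mul_smul_comm, smul_smul, t1, t2, t3]
      module
    rw [this, h3]
    module
  rw [hexp] at hP
  have h0 := hlin (κ * ((g * η - (3 - b) * α / 4) / 2) - (4 - 1 / 1024) * (α * b / 24))
    (κ * ((3 * g + (3 - b) * η - (3 - b) * b / 4) / 2)
      - (4 - 1 / 64) * ((b ^ 2 - 12 * α) / 24)) (by
      rw [smul_add, smul_smul, smul_smul] at hP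
      rw [sub_smul, sub_smul]
      have := sub_eq_zero.2 hP
      rw [← this]
      module)
  obtain ⟨h1, h2⟩ := h0
  constructor
  · have : κ * (κ * ((g * η - (3 - b) * α / 4) / 2) - (4 - 1 / 1024) * (α * b / 24)) = 0 := by
      rw [h1]; ring
    linear_combination 2 * this - (g * η - (3 - b) * α / 4) * hκ2
  · have : κ * (κ * ((3 * g + (3 - b) * η - (3 - b) * b / 4) / 2)
        - (4 - 1 / 64) * ((b ^ 2 - 12 * α) / 24)) = 0 := by
      rw [h2]; ring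
    linear_combination 2 * this - (3 * g + (3 - b) * η - (3 - b) * b / 4) * hκ2

/-- `c₇(N_C ⊗ L^a)` with `p₁ = q₁ e²`, `p₂ = q₂ e⁴ + 12 x`, `p₃ = α e⁶ + b e² x`. -/
def c7 (e x : A) (q1 q2 α b a : ℝ) : A :=
  (a ^ 7 - q1 * a ^ 5 + q2 * a ^ 3 - α * a) • e ^ 7 + (12 * a ^ 3 - b * a) • (e ^ 3 * x)

/-- `c₇(N_C ⊗ L^a) = Σ_j (-1)^j p_j (a e)^(7-2j)` -/
theorem c7_eq (e x p1 p2 p3 : A) (q1 q2 α b a : ℝ)
    (h1 : p1 = q1 • e ^ 2) (h2 : p2 = q2 • e ^ 4 + (12 : ℝ) • x)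
    (h3 : p3 = α • e ^ 6 + b • (e ^ 2 * x)) :
    (a • e) ^ 7 - p1 * (a • e) ^ 5 + p2 * (a • e) ^ 3 - p3 * (a • e) = c7 e x q1 q2 α b a := by
  subst h1 h2 h3
  simp only [c7, Algebra.smul_def, map_sub, map_add, map_mul, map_pow, map_ofNat]
  ring

/-- `c₇(N_C ⊗ L^{1/2}) = (1/2) (G e⁷ + (3 - b) e³ x)` -/
theorem c7_half (e x : A) (q1 q2 α b : ℝ) :
    c7 e x q1 q2 α b (1 / 2)
      = (1 / 2 : ℝ) • ((1 / 64 - q1 / 16 + q2 / 4 - α) • e ^ 7 + (3 - b) • (e ^ 3 * x)) := by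
  unfold c7
  rw [smul_add, smul_smul, smul_smul]
  congr 2
  · ring
  · ring

end Classes

/-- rationality of `q₁`, `q₂`, `G`, scalar form. -/
theorem rat_G {α h0 h1 q1 q2 : ℝ} {b : ℤ} (h00 : h0 ≠ 0) (kα : α ∈ K) (k0 : h0 ∈ K)
    (k1 : h1 ∈ K)
    (z1 : ∃ n : ℤ, (1 - q1 + q2 - α) * h0 + (12 - (b : ℝ)) * h1 = n)
    (z2 : ∃ n : ℤ, (128 - 32 * q1 + 8 * q2 - 2 * α) * h0 + (96 - 2 * (b : ℝ)) * h1 = n) :
    (∃ q : ℚ, q1 = q) ∧ (∃ q : ℚ, q2 = q) ∧ ∃ q : ℚ, 1 / 64 - q1 / 16 + q2 / 4 - α = q := by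
  obtain ⟨n1, z1⟩ := z1
  obtain ⟨n2, z2⟩ := z2
  have kn : ∀ n : ℕ, ((n : ℕ) : ℝ) ∈ K := nat_mem
  have kX : q1 ∈ K := by
    have h : q1 = ((8 * (n1 : ℝ) - n2 + 6 * b * h1) / h0 + 120 + 6 * α) / 24 := by
      field_simp
      linarith
    rw [h]
    refine K.div_mem (K.add_mem (K.add_mem (K.div_mem (K.add_mem (K.sub_mem
      (K.mul_mem ?_ (int_mem _)) (int_mem _)) (K.mul_mem (K.mul_mem ?_ (int_mem _)) k1)) k0) ?_)
      (K.mul_mem ?_ kα)) ?_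
    · exact_mod_cast kn 8
    · exact_mod_cast kn 6
    · exact_mod_cast kn 120
    · exact_mod_cast kn 6
    · exact_mod_cast kn 24
  have kY : q2 ∈ K := by
    have h : q2 = ((n1 : ℝ) - (12 - b) * h1) / h0 - 1 + q1 + α := by
      field_simp
      linarith
    rw [h]
    refine K.add_mem (K.add_mem (K.sub_mem (K.div_mem (K.sub_mem (int_mem _)
      (K.mul_mem (K.sub_mem ?_ (int_mem _)) k1)) k0) K.one_mem) kX) kα
    exact_mod_cast kn 12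
  refine ⟨mem_K.1 kX, mem_K.1 kY, mem_K.1 ?_⟩
  refine K.sub_mem (K.add_mem (K.sub_mem (K.div_mem K.one_mem ?_) (K.div_mem kX ?_))
    (K.div_mem kY ?_)) kα
  · exact_mod_cast kn 64
  · exact_mod_cast kn 16
  · exact_mod_cast kn 4

/-- `β² = 12 α` has no solution in the cases at hand. -/
theorem h0_ne {α h0 k : ℝ} {b : ℤ} (hk : k = 1 ∨ k = -1)
    (hh : 2 * α ^ 3 * h0 = k * ((b : ℝ) ^ 2 - 12 * α))
    (hcase : ((α = 1 ∨ α = -1) ∧ Even b) ∨ ((α = 1 / 2 ∨ α = -1 / 2) ∧ Odd b)) : h0 ≠ 0 := by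
  intro h0z
  rw [h0z, mul_zero] at hh
  have h1 : (b : ℝ) ^ 2 = 12 * α := by
    rcases hk with rfl | rfl <;> linarith
  rcases hcase with ⟨hα, c, hc⟩ | ⟨hα, c, hc⟩
  · rcases hα with rfl | rfl
    · have : b ^ 2 = 12 := by exact_mod_cast (by rw [h1]; norm_num : (b : ℝ) ^ 2 = 12)
      rw [hc] at this
      have h2 : c ^ 2 = 3 := by nlinarith
      have h3 : c < 2 := by nlinarith
      have h4 : -2 < c := by nlinarith
      have h5 : c = -1 ∨ c = 0 ∨ c = 1 := by omega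
      rcases h5 with h5 | h5 | h5 <;> rw [h5] at h2 <;> norm_num at h2
    · nlinarith [sq_nonneg (b : ℝ)]
  · rcases hα with rfl | rfl
    · have : b ^ 2 = 6 := by exact_mod_cast (by rw [h1]; norm_num : (b : ℝ) ^ 2 = 6)
      have h3 : b < 3 := by nlinarith
      have h4 : -3 < b := by nlinarith
      have h5 : b = -2 ∨ b = -1 ∨ b = 0 ∨ b = 1 ∨ b = 2 := by omega
      rcases h5 with h5 | h5 | h5 | h5 | h5 <;> rw [h5] at this <;> norm_num at this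
    · nlinarith [sq_nonneg (b : ℝ)]

/-- **(Q2), final form.**  `A = H(B)` (or its even part), `I = ∫_B`, `A' = H(B')` (any algebra
in which the doubling identity is written), `e, x` normalised integral classes.
Inputs: VE (`hrel`, `hx3`), (S1') (`hS`), block Q (`hβ`, `hn`, `hα`, `hr`), Euler numbers
`z0, z1, z2` over `B`, the doubling identity `(E)` (`hP`). -/
theorem class_main {A A' : Type*} [CommRing A] [Algebra ℝ A] [CommRing A'] [Algebra ℝ A']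
    (I : A →ₗ[ℝ] ℝ) {e x : A} {e' x' : A'} {α β n₀ q1 q2 g η κ : ℝ}
    (hrel : (12 : ℝ) • (e ^ 3 * x ^ 2) = -(α • e ^ 11) - β • (e ^ 7 * x))
    (hx3 : I (e ^ 3 * x ^ 3) = 0)
    (hS : |2 * α * I (e ^ 7 * x ^ 2)| = 1)
    (hβ : ∃ n : ℤ, β = n) (hn : ∃ n : ℤ, 2 * n₀ = n) (hα : ∃ n : ℤ, α + β * n₀ = n)
    (hr : ∃ n : ℤ, 4 * I (e ^ 7 * x ^ 2) = n)
    (z0 : ∃ n : ℤ, I (e ^ 15) = n)
    (z1 : ∃ n : ℤ, I (e ^ 8 * c7 e x q1 q2 α β 1) = n)
    (z2 : ∃ n : ℤ, I (e ^ 8 * c7 e x q1 q2 α β 2) = n)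
    (hg : g = 1 / 64 - q1 / 16 + q2 / 4 - α) (hκ : κ = 1 ∨ κ = -1)
    (hlin : ∀ u v : ℝ, u • e' ^ 11 + v • (e' ^ 7 * x') = 0 → u = 0 ∧ v = 0)
    (hrel' : (12 : ℝ) • (e' ^ 3 * x' ^ 2) = -(α • e' ^ 11) - β • (e' ^ 7 * x'))
    (hP : κ • (((1 / 2 : ℝ) • (g • e' ^ 7 + (3 - β) • (e' ^ 3 * x')))
        * (η • e' ^ 4 + (3 : ℝ) • x'))
      = ((4 - 1 / 1024) * (α * β / 24)) • e' ^ 11
        + ((4 - 1 / 64) * ((β ^ 2 - 12 * α) / 24)) • (e' ^ 7 * x')) :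
    |I (e ^ 15)| ≤ 78 := by
  obtain ⟨b, rfl⟩ := hβ
  obtain ⟨m, hm⟩ := hn
  obtain ⟨z, hz⟩ := hα
  obtain ⟨r, hr⟩ := hr
  -- the pairings
  have p1 : 12 * I (e ^ 7 * x ^ 2) = -(α * I (e ^ 15)) - b * I (e ^ 11 * x) := by
    have h := congrArg (fun y => I (e ^ 4 * y)) hrel
    simp only [mul_sub, mul_neg, mul_smul_comm, map_sub, map_neg, map_smul, smul_eq_mul] at h
    rw [show e ^ 4 * (e ^ 3 * x ^ 2) = e ^ 7 * x ^ 2 by ring,
      show e ^ 4 * e ^ 11 = e ^ 15 by ring,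
      show e ^ 4 * (e ^ 7 * x) = e ^ 11 * x by ring] at h
    exact h
  have p2 : α * I (e ^ 11 * x) + b * I (e ^ 7 * x ^ 2) = 0 := by
    have h := congrArg (fun y => I (x * y)) hrel
    simp only [mul_sub, mul_neg, mul_smul_comm, map_sub, map_neg, map_smul, smul_eq_mul] at h
    rw [show x * (e ^ 3 * x ^ 2) = e ^ 3 * x ^ 3 by ring,
      show x * e ^ 11 = e ^ 11 * x by ring,
      show x * (e ^ 7 * x) = e ^ 7 * x ^ 2 by ring, hx3] at h
    linarith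
  set h0 := I (e ^ 15) with hh0
  set h1 := I (e ^ 11 * x) with hh1
  set h2 := I (e ^ 7 * x ^ 2) with hh2
  set k : ℝ := 2 * α * h2 with hk0
  have hk : k = 1 ∨ k = -1 := by
    rcases abs_cases k with ⟨h, _⟩ | ⟨h, _⟩
    · left; linarith
    · right; linarith
  have hα0 : α ≠ 0 := by
    intro h
    rw [h] at hk0
    rcases hk with h' | h' <;> rw [h'] at hk0 <;> norm_num at hk0
  have hh : 2 * α ^ 3 * h0 = k * ((b : ℝ) ^ 2 - 12 * α) := by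
    rw [hk0]
    linear_combination (2 * α ^ 2) * p1 - 2 * α * (b : ℝ) * p2
  have zr : ∃ s : ℤ, (s : ℝ) * α = 2 := by
    rcases hk with h | h
    · exact ⟨r, by rw [← hr]; linarith⟩
    · exact ⟨-r, by push_cast; rw [← hr]; linarith⟩
  have hcase := alpha_cases hk hh z0 zr ⟨m, z, by rw [← hz, ← hm]; ring⟩
  have h00 := h0_ne hk hh hcase
  -- rationality
  have kα : α ∈ K := by
    rw [mem_K]
    rcases hcase with ⟨rfl | rfl, _⟩ | ⟨rfl | rfl, _⟩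
    · exact ⟨1, by norm_num⟩
    · exact ⟨-1, by norm_num⟩
    · exact ⟨1 / 2, by norm_num⟩
    · exact ⟨-1 / 2, by norm_num⟩
  have k4 : (4 : ℝ) ∈ K := by exact_mod_cast nat_mem 4
  have kh2 : h2 ∈ K := by
    have : h2 = (r : ℝ) / 4 := by linarith
    rw [this]
    exact K.div_mem (int_mem _) k4
  have kh1 : h1 ∈ K := by
    have : h1 = -((b : ℝ) * h2) / α := by
      field_simp
      linarith
    rw [this]
    exact K.div_mem (K.neg_mem (K.mul_mem (int_mem _) kh2)) kα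
  have kh0 : h0 ∈ K := by
    obtain ⟨n, hn⟩ := z0
    rw [hn]
    exact int_mem _
  have key : ∀ a : ℝ, I (e ^ 8 * c7 e x q1 q2 α b a)
      = (a ^ 7 - q1 * a ^ 5 + q2 * a ^ 3 - α * a) * h0 + (12 * a ^ 3 - b * a) * h1 := by
    intro a
    have : e ^ 8 * c7 e x q1 q2 α b a
        = (a ^ 7 - q1 * a ^ 5 + q2 * a ^ 3 - α * a) • e ^ 15
          + (12 * a ^ 3 - b * a) • (e ^ 11 * x) := by
      simp only [c7, Algebra.smul_def]
      ring
    rw [this, map_add, map_smul, map_smul, smul_eq_mul, smul_eq_mul]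
  obtain ⟨n1, z1⟩ := z1
  obtain ⟨n2, z2⟩ := z2
  rw [key] at z1 z2
  obtain ⟨-, -, hG⟩ := rat_G (q1 := q1) (q2 := q2) (b := b) h00 kα kh0 kh1
    ⟨n1, by rw [← z1]; ring⟩
    ⟨n2, by rw [← z2]; ring⟩
  rw [← hg] at hG
  obtain ⟨e1, e2⟩ := eqs_of_class e' x' α b g η κ hκ hlin hrel' hP
  exact scalar_main hk hκ hh hcase hG e1 e2

end Crest.Agent.R208.QA
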