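import Crest.Agent.R208.SO5
import Crest.Agent.R208.DEG2

/-! Row 208, case (k, n) = (8, 16), block (R) (helper638).  SR1: from the relations between closed
forms on the manifold of geodesics to relations between numbers. -/

set_option autoImplicit false
set_option linter.unusedSectionVars false

open MeasureTheory Set Filter Topology Module
open scoped ContDiff
open Crest.Agent.R208.F Crest.Agent.R208.FI Crest.Agent.R208.CW Crest.Agent.R208.T
open Crest.Agent.R208.SO (CF2)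

noncomputable section

namespace Crest.Agent.R208.SR

/-! ### the ring level -/

/-- **the pairings** `∫ e^(15-4j) x^j` from the relations; `s = 2 ∫ e x² p`. -/
theorem rels {A : Type*} [CommRing A] [Algebra ℝ A] (I : A →ₗ[ℝ] ℝ) {e x p : A} {a b s : ℝ}
    (h12 : (12 : ℝ) • x ^ 2 + e ^ 2 * p = 0) (h3 : I (e ^ 3 * x ^ 3) = 0)
    (hp : p = a • e ^ 6 + b • (e ^ 2 * x)) (hs : 2 * I (e * x ^ 2 * p) = s) (hs0 : s ≠ 0) :
    a ≠ 0 ∧ I (e ^ 7 * x ^ 2) = s / (2 * a) ∧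
      I (e ^ 11 * x) = -(b * s) / (2 * a ^ 2) ∧ I (e ^ 15) = s * (b ^ 2 - 12 * a) / (2 * a ^ 3) := by
  have e1 : e * x ^ 2 * p = a • (e ^ 7 * x ^ 2) + b • (e ^ 3 * x ^ 3) := by
    rw [hp]; simp only [Algebra.smul_def]; ring
  have e2 : a * I (e ^ 7 * x ^ 2) = s / 2 := by
    have := hs
    rw [e1, map_add, map_smul, map_smul, h3, smul_zero, add_zero, smul_eq_mul] at this
    linarith
  have ha : a ≠ 0 := by
    rintro rfl
    rw [zero_mul] at e2
    exact hs0 (by linarith)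
  have e3 : I (e ^ 7 * x ^ 2) = s / (2 * a) := by
    field_simp
    linarith
  have e4 : (12 : ℝ) • x ^ 2 + a • e ^ 8 + b • (e ^ 4 * x) = 0 := by
    rw [← h12, hp]; simp only [Algebra.smul_def]; ring
  have e5 : (12 : ℝ) * I (e ^ 3 * x ^ 3) + a * I (e ^ 11 * x) + b * I (e ^ 7 * x ^ 2) = 0 := by
    have := congrArg (fun z => I (e ^ 3 * x * z)) e4
    simp only [mul_zero, map_zero] at this
    rw [← this]
    have : e ^ 3 * x * ((12 : ℝ) • x ^ 2 + a • e ^ 8 + b • (e ^ 4 * x)) =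
        (12 : ℝ) • (e ^ 3 * x ^ 3) + a • (e ^ 11 * x) + b • (e ^ 7 * x ^ 2) := by
      simp only [Algebra.smul_def]; ring
    rw [this, map_add, map_add, map_smul, map_smul, map_smul]
    simp only [smul_eq_mul]
  have e6 : (12 : ℝ) * I (e ^ 7 * x ^ 2) + a * I (e ^ 15) + b * I (e ^ 11 * x) = 0 := by
    have := congrArg (fun z => I (e ^ 7 * z)) e4
    simp only [mul_zero, map_zero] at this
    rw [← this]
    have : e ^ 7 * ((12 : ℝ) • x ^ 2 + a • e ^ 8 + b • (e ^ 4 * x)) =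
        (12 : ℝ) • (e ^ 7 * x ^ 2) + a • e ^ 15 + b • (e ^ 11 * x) := by
      simp only [Algebra.smul_def]; ring
    rw [this, map_add, map_add, map_smul, map_smul, map_smul]
    simp only [smul_eq_mul]
  rw [h3, mul_zero, zero_add, e3] at e5
  have e7 : I (e ^ 11 * x) = -(b * s) / (2 * a ^ 2) := by
    have h : a * I (e ^ 11 * x) = -(b * (s / (2 * a))) := by linarith
    rw [eq_div_iff (by positivity)]
    have h' : 2 * a * (b * (s / (2 * a))) = b * s := by field_simp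
    have h2 : I (e ^ 11 * x) * (2 * a ^ 2) = 2 * a * (a * I (e ^ 11 * x)) := by ring
    rw [h2, h, mul_neg, h']
  refine ⟨ha, e3, e7, ?_⟩
  rw [e3, e7] at e6
  have h : a * I (e ^ 15) = -(12 * (s / (2 * a))) - b * (-(b * s) / (2 * a ^ 2)) := by linarith
  rw [eq_div_iff (by positivity)]
  have h' : 2 * a ^ 2 * (-(12 * (s / (2 * a))) - b * (-(b * s) / (2 * a ^ 2))) =
      s * (b ^ 2 - 12 * a) := by
    field_simp
    ring
  rw [← h', ← h]; ring

/-! ### integration as a real functional on classes -/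

section cls
variable {E : Type*} [NormedAddCommGroup E] [NormedSpace ℝ E] [FiniteDimensional ℝ E]
  {X : Set E} {o : E → Ext E} {n : ℕ}

/-- the real part of the integral -/
def RI (hX : Clo n X) (ho : Ori n X o) : CW.H X →ₗ[ℝ] ℝ :=
  Complex.reLm ∘ₗ (integ hX ho).restrictScalars ℝ

theorem RI_rcl (hX : Clo n X) (ho : Ori n X o) {a : E → Ext E} (h : EC X a) :
    RI hX ho (rcl h) = J n X o a := by
  rw [RI, LinearMap.comp_apply, LinearMap.restrictScalars_apply, rcl, integ_cls]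
  rfl

theorem CF2.ec {p : ℕ} {a : E → Ext E} (h : CF2 X p a) : EC X a := by
  obtain ⟨j, hj⟩ := h.even
  have hd : Hom (2 * j) a := by have := h.hom; rwa [hj, ← two_mul] at this
  exact EC.of_hom h.sm h.cl hd

theorem rcl_smulR (r : ℝ) {a : E → Ext E} (ha : EC X a) : rcl (ha.smul r) = r • rcl ha := by
  rw [rcl_smul]; rfl

/-- the class of a closed homogeneous form of even degree -/
def cl {p : ℕ} {a : E → Ext E} (h : CF2 X p a) : CW.H X := rcl (CF2.ec h)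

theorem cl_mul {p q : ℕ} {a b : E → Ext E} (ha : CF2 X p a) (hb : CF2 X q b)
    (hab : CF2 X (p + q) (a * b)) : cl hab = cl ha * cl hb := rcl_mul _ _

theorem cl_add {p : ℕ} {a b : E → Ext E} (ha : CF2 X p a) (hb : CF2 X p b)
    (hab : CF2 X p (a + b)) : cl hab = cl ha + cl hb := rcl_add _ _

theorem cl_smul {p : ℕ} (r : ℝ) {a : E → Ext E} (ha : CF2 X p a) (hra : CF2 X p (r • a)) :
    cl hra = r • cl ha := rcl_smulR r _

theorem cl_eq {p q : ℕ} {a b : E → Ext E} (ha : CF2 X p a) (hb : CF2 X q b) :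
    cl ha = cl hb ↔ Coh X a b := rcl_eq_iff _ _

theorem cl_eq_zero {p : ℕ} {a : E → Ext E} (ha : CF2 X p a) : cl ha = 0 ↔ Coh X a 0 :=
  rcl_eq_zero_iff _

theorem RI_cl (hX : Clo n X) (ho : Ori n X o) {p : ℕ} {a : E → Ext E} (h : CF2 X p a) :
    RI hX ho (cl h) = J n X o a := RI_rcl hX ho _

/-- **(R)**: the numbers of the case `(8, 2)` from closed forms on `B`. -/
theorem out {oB : E → Ext E} (hB : Clo 30 X) (ho : Ori 30 X oB) {e x p : E → Ext E}
    (he : CF2 X 2 e) (hx : CF2 X 8 x) (hp : CF2 X 12 p) {l cx cw a b s : ℝ} (hcx : cx ≠ 0)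
    (hcw : cw ≠ 0) (hl : (4 * Real.pi * l * cw) ^ 2 = cx ^ 2)
    (h1 : Coh X ((3 : ℝ) • (x * x) + (l ^ 2) • (e * e * p)) 0)
    (h2 : J 30 X oB (e * e * e * x * x * x) = 0)
    (hab : ((cw ^ 2)⁻¹ : ℝ) • cl hp = a • ((2 * Real.pi)⁻¹ • cl he) ^ 6 +
      b • (((2 * Real.pi)⁻¹ • cl he) ^ 2 * (cx⁻¹ • cl hx)))
    (hS : 8 * l ^ 2 * (2 * Real.pi * J 30 X oB (e * x * x * p)) = s * cx ^ 4) (hs : s ≠ 0)
    {e' x' p' : CW.H X} (ee : e' = (2 * Real.pi)⁻¹ • cl he) (ex : x' = cx⁻¹ • cl hx)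
    (ep : p' = (cw ^ 2)⁻¹ • cl hp) :
    (12 : ℝ) • x' ^ 2 + e' ^ 2 * p' = 0 ∧ p' = a • e' ^ 6 + b • (e' ^ 2 * x') ∧
      2 * RI hB ho (e' * x' ^ 2 * p') = s ∧ RI hB ho (e' ^ 3 * x' ^ 3) = 0 ∧ a ≠ 0 ∧
      RI hB ho (e' ^ 7 * x' ^ 2) = s / (2 * a) ∧
      RI hB ho (e' ^ 11 * x') = -(b * s) / (2 * a ^ 2) ∧
      RI hB ho (e' ^ 15) = s * (b ^ 2 - 12 * a) / (2 * a ^ 3) := by
  have hπ : (2 * Real.pi) ≠ 0 := by positivity
  have e1 : cl he = (2 * Real.pi) • e' := by rw [ee, smul_smul, mul_inv_cancel₀ hπ, one_smul]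
  have x1 : cl hx = cx • x' := by rw [ex, smul_smul, mul_inv_cancel₀ hcx, one_smul]
  have p1 : cl hp = (cw ^ 2) • p' := by
    rw [ep, smul_smul, mul_inv_cancel₀ (pow_ne_zero 2 hcw), one_smul]
  have hxx : CF2 X 16 (x * x) := hx.mul hx
  have hee : CF2 X 4 (e * e) := he.mul he
  have heep : CF2 X 16 (e * e * p) := hee.mul hp
  have b1 : CF2 X 6 (e * e * e) := hee.mul he
  have b2 : CF2 X 14 (e * e * e * x) := b1.mul hx
  have b3 : CF2 X 22 (e * e * e * x * x) := b2.mul hx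
  have b4 : CF2 X 30 (e * e * e * x * x * x) := b3.mul hx
  have hex : CF2 X 10 (e * x) := he.mul hx
  have hexx : CF2 X 18 (e * x * x) := hex.mul hx
  have hexxp : CF2 X 30 (e * x * x * p) := hexx.mul hp
  have q1 : (12 : ℝ) • x' ^ 2 + e' ^ 2 * p' = 0 := by
    have h3 : CF2 X 16 ((3 : ℝ) • (x * x) + (l ^ 2) • (e * e * p)) :=
      (hxx.smul 3).add (heep.smul (l ^ 2))
    have h4 := (cl_eq_zero h3).2 h1
    rw [cl_add (hxx.smul 3) (heep.smul (l ^ 2)) h3, cl_smul _ hxx (hxx.smul 3),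
      cl_smul _ heep (heep.smul (l ^ 2)), cl_mul hx hx hxx, cl_mul hee hp heep,
      cl_mul he he hee, e1, x1, p1] at h4
    have h5 : (4 * (cx ^ 2)⁻¹ : ℝ) • ((3 : ℝ) • (cx • x' * cx • x') + (l ^ 2) •
        ((2 * Real.pi) • e' * (2 * Real.pi) • e' * (cw ^ 2) • p')) =
        (12 * (cx ^ 2 * (cx ^ 2)⁻¹) : ℝ) • x' ^ 2 +
          ((4 * Real.pi * l * cw) ^ 2 * (cx ^ 2)⁻¹) • (e' ^ 2 * p') := by
      simp only [smul_add, smul_mul_assoc, mul_smul_comm, smul_smul]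
      rw [pow_two x', pow_two e']
      congr 2 <;> ring
    rw [h4, smul_zero, hl, mul_inv_cancel₀ (pow_ne_zero 2 hcx), mul_one, one_smul] at h5
    exact h5.symm
  have q2 : RI hB ho (e' ^ 3 * x' ^ 3) = 0 := by
    rw [← RI_cl hB ho b4, cl_mul b3 hx b4, cl_mul b2 hx b3, cl_mul b1 hx b2, cl_mul hee he b1,
      cl_mul he he hee, e1, x1] at h2
    have h5 : (2 * Real.pi) • e' * (2 * Real.pi) • e' * (2 * Real.pi) • e' * cx • x' * cx • x' *
        cx • x' = ((2 * Real.pi) ^ 3 * cx ^ 3) • (e' ^ 3 * x' ^ 3) := by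
      simp only [smul_mul_assoc, mul_smul_comm, smul_smul]
      rw [show e' * e' * e' * x' * x' * x' = e' ^ 3 * x' ^ 3 by ring]
      congr 1; ring
    rw [h5, map_smul, smul_eq_mul] at h2
    exact (mul_eq_zero.1 h2).resolve_left
      (mul_ne_zero (pow_ne_zero 3 hπ) (pow_ne_zero 3 hcx))
  have q3 : p' = a • e' ^ 6 + b • (e' ^ 2 * x') := by rw [ep, ee, ex]; exact hab
  have q4 : 2 * RI hB ho (e' * x' ^ 2 * p') = s := by
    have h4 : J 30 X oB (e * x * x * p) = (2 * Real.pi * cx ^ 2 * cw ^ 2) *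
        RI hB ho (e' * x' ^ 2 * p') := by
      rw [← RI_cl hB ho hexxp, cl_mul hexx hp hexxp, cl_mul hex hx hexx, cl_mul he hx hex, e1, x1,
        p1]
      have h5 : (2 * Real.pi) • e' * cx • x' * cx • x' * (cw ^ 2) • p' =
          (2 * Real.pi * cx ^ 2 * cw ^ 2) • (e' * x' ^ 2 * p') := by
        simp only [smul_mul_assoc, mul_smul_comm, smul_smul]
        rw [show e' * x' * x' * p' = e' * x' ^ 2 * p' by ring]
        congr 1; ring
      rw [h5, map_smul, smul_eq_mul]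
    rw [h4] at hS
    have h6 : 8 * l ^ 2 * (2 * Real.pi * (2 * Real.pi * cx ^ 2 * cw ^ 2 *
        RI hB ho (e' * x' ^ 2 * p'))) = (4 * Real.pi * l * cw) ^ 2 * cx ^ 2 *
        (2 * RI hB ho (e' * x' ^ 2 * p')) := by ring
    rw [h6, hl] at hS
    have h7 : cx ^ 2 * cx ^ 2 ≠ 0 := mul_ne_zero (pow_ne_zero 2 hcx) (pow_ne_zero 2 hcx)
    refine mul_left_cancel₀ h7 ?_
    rw [hS]; ring
  exact ⟨q1, q3, q4, q2, rels (RI hB ho) q1 q2 q3 q4 hs⟩

end cls

end Crest.Agent.R208.SR
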