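import Crest.Agent.R208.EZ3
import Crest.Agent.R208.EW8
import Crest.Agent.R208.SR1
import Crest.Agent.R208.QC646

/-! Row 208, (8,2), block (EZ) (helper664).  EZ4: the Euler numbers `z0`, `z1`, `z2` of
`QA.class_main` in the algebra `CW.H B` with 638's functional `RI` (integration). -/

set_option autoImplicit false
set_option linter.unusedSectionVars false
set_option linter.unusedVariables false

open MeasureTheory Set Filter Topology Module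
open scoped ContDiff RealInnerProductSpace
open Crest.Agent.R208.F Crest.Agent.R208.FI Crest.Agent.R208.CW Crest.Agent.R208.T
open Crest.Agent.R208.CM Crest.Agent.R208.EW Crest.Agent.R208.EP
open Crest.Agent.R208.SO (CF2)
open Crest.Agent.R208.SR (RI RI_rcl cl rcl_smulR)

noncomputable section

namespace Crest.Agent.R208.EZ

/-! ### the ring level -/
section ring
variable {A : Type*} [CommRing A] [Algebra ℝ A]

/-- scaling of the polynomial: `f^8 (A7 f^7 + C x f^3)` with `f = u e`, `x = c x'` -/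
theorem scale (I : A →ₗ[ℝ] ℝ) {f x e' x' t : A} {u cx q1 q2 c α β β' a : ℝ} (hu : u ≠ 0)
    (hf : f = u • e') (hx : x = cx • x') (hc : c * cx = 12 * u ^ 4) (hβ : β' * u ^ 4 = β * cx)
    (ht : t = (a ^ 7 - q1 * a ^ 5 + q2 * a ^ 3 - α * a) • f ^ 7
      + (c * a ^ 3 - β * a) • (x * f ^ 3)) :
    I (f ^ 8 * t) = u ^ 15 * I (e' ^ 8 * QA.c7 e' x' q1 q2 α β' a) := by
  have h1 : f ^ 8 * t = (u ^ 15) • (e' ^ 8 * QA.c7 e' x' q1 q2 α β' a) := by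
    have h2 : (c * a ^ 3 - β * a) * cx = u ^ 4 * (12 * a ^ 3 - β' * a) := by
      linear_combination (a ^ 3) * hc + a * hβ
    have h3 : (c * a ^ 3 - β * a) • (x * f ^ 3)
        = ((c * a ^ 3 - β * a) * cx) • (x' * (u • e') ^ 3) := by
      rw [hx, hf, smul_mul_assoc, smul_smul]
    rw [ht, h3, h2, hf, QA.c7]
    simp only [Algebra.smul_def, map_mul, map_pow, map_sub, map_add]
    ring
  rw [h1, map_smul, smul_eq_mul]

end ring

/-! ### the class level -/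
section cls
variable {E : Type} [NormedAddCommGroup E] [NormedSpace ℝ E] [FiniteDimensional ℝ E]
  {p : Type} [Fintype p] [DecidableEq p]
  {X : Set E} {φ : ℝ → E → E} {m : ℕ} {g : E → Fin m → ℂ} {al : E → Ext E}
  {Fc oB x0 : MM m → Ext (MM m)} {N : MM m → EuclideanSpace ℝ p →L[ℝ] EuclideanSpace ℝ p}

/-- **(z0)**, class form -/
theorem z0_class (hg : Emb X φ g) (hC : Cir X φ) (hX : Clo (30 + 1) X)
    (ha : Conn X φ al) (hF : Curv X g al Fc) (hB : Clo 30 (Quo X g)) (hoB : Ori 30 (Quo X g) oB)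
    (he : CF2 (Quo X g) 2 Fc) :
    ∃ n : ℤ, RI hB hoB (((2 * Real.pi)⁻¹ • cl he) ^ 15) = n := by
  obtain ⟨z, hz⟩ := z0 hg hC hX ha hF hoB
  have hπ : (2 * Real.pi) ≠ 0 := by positivity
  refine ⟨z, ?_⟩
  have hE : EC (Quo X g) Fc := SR.CF2.ec he
  have h1 : RI hB hoB (cl he ^ 15) = J 30 (Quo X g) oB (Fc ^ 15) := by
    rw [← RI_rcl hB hoB (hE.pow 15), rcl_pow hE]; rfl
  rw [smul_pow, map_smul, h1, hz, smul_eq_mul, inv_pow, inv_mul_cancel_left₀ (pow_ne_zero _ hπ)]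

/-- the common part of `z1`, `z2` -/
theorem class_aux (hB : Clo 30 (Quo X g)) (hoB : Ori 30 (Quo X g) oB)
    (hN : PField (Quo X g) 7 N)
    (he : CF2 (Quo X g) 2 Fc) (hx : CF2 (Quo X g) 8 x0) {q1 q2 c α β β' cx a : ℝ}
    (hcx : cx ≠ 0) (hc : c * cx = 12 * (2 * Real.pi) ^ 4)
    (hβ : β' * (2 * Real.pi) ^ 4 = β * cx)
    (h2 : Coh (Quo X g) (cR 2 N) (q1 • Fc ^ 2))
    (h4 : Coh (Quo X g) (cR 4 N) (q2 • Fc ^ 4 + c • x0))
    (h6 : Coh (Quo X g) (cR 6 N) (α • Fc ^ 6 + β • (x0 * Fc ^ 2)))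
    (hz : ∃ z : ℤ, J 30 (Quo X g) oB (Fc ^ 8 * topr 7 a N Fc) = (2 * Real.pi) ^ 15 * z)
    {e' x' : CW.H (Quo X g)} (ee : e' = (2 * Real.pi)⁻¹ • cl he) (ex : x' = cx⁻¹ • cl hx) :
    ∃ n : ℤ, RI hB hoB (e' ^ 8 * QA.c7 e' x' q1 q2 α β' a) = n := by
  obtain ⟨z, hz⟩ := hz
  refine ⟨z, ?_⟩
  have hπ : (2 * Real.pi) ≠ 0 := by positivity
  have hE : EC (Quo X g) Fc := SR.CF2.ec he
  have hx0 : EC (Quo X g) x0 := SR.CF2.ec hx
  have hBs := hB.sub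
  have t := ec_topr (r := 7) (w := a) hBs hN hE
  have v1 := (hE.pow 7).smul (a ^ 7 - q1 * a ^ 5 + q2 * a ^ 3 - α * a)
  have v2 := (hx0.mul (hE.pow 3)).smul (c * a ^ 3 - β * a)
  have ht : rcl t = (a ^ 7 - q1 * a ^ 5 + q2 * a ^ 3 - α * a) • cl he ^ 7
      + (c * a ^ 3 - β * a) • (cl hx * cl he ^ 3) := by
    have h5 := (rcl_eq_iff t (v1.add v2)).2 (coh_topr_seven hBs hN hE hx0 h2 h4 h6 a)
    rw [h5, rcl_add v1 v2, rcl_smulR _ (hE.pow 7), rcl_smulR _ (hx0.mul (hE.pow 3)),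
      rcl_mul hx0 (hE.pow 3), rcl_pow hE, rcl_pow hE]
    rfl
  have hJ : RI hB hoB (cl he ^ 8 * rcl t) = (2 * Real.pi) ^ 15 * z := by
    rw [← hz, ← RI_rcl hB hoB ((hE.pow 8).mul t), rcl_mul (hE.pow 8) t, rcl_pow hE]
    rfl
  have h7 := scale (RI hB hoB) (f := cl he) (x := cl hx) (e' := e') (x' := x') (t := rcl t)
    (u := 2 * Real.pi) (cx := cx) (β := β) (β' := β') (c := c) hπ
    (by rw [ee, smul_smul, mul_inv_cancel₀ hπ, one_smul])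
    (by rw [ex, smul_smul, mul_inv_cancel₀ hcx, one_smul]) hc hβ ht
  rw [hJ] at h7
  exact (mul_left_cancel₀ (pow_ne_zero 15 hπ) h7).symm

/-- **the third Pontryagin class**: `(2π)^{-6} [cR 6] = α e^6 + β' e^2 x` -/
theorem p3_class (hBs : Sub 30 (Quo X g)) (hN : PField (Quo X g) 7 N)
    (he : CF2 (Quo X g) 2 Fc) (hx : CF2 (Quo X g) 8 x0) {α β β' cx : ℝ}
    (hcx : cx ≠ 0) (hβ : β' * (2 * Real.pi) ^ 4 = β * cx)
    (h6 : Coh (Quo X g) (cR 6 N) (α • Fc ^ 6 + β • (x0 * Fc ^ 2)))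
    {e' x' : CW.H (Quo X g)} (ee : e' = (2 * Real.pi)⁻¹ • cl he) (ex : x' = cx⁻¹ • cl hx) :
    ((2 * Real.pi) ^ 6)⁻¹ • rcl (ec_cR hBs hN 6) = α • e' ^ 6 + β' • (e' ^ 2 * x') := by
  have hπ : (2 * Real.pi) ≠ 0 := by positivity
  have hE : EC (Quo X g) Fc := SR.CF2.ec he
  have hx0 : EC (Quo X g) x0 := SR.CF2.ec hx
  have v1 := (hE.pow 6).smul α
  have v2 := (hx0.mul (hE.pow 2)).smul β
  have ht : rcl (ec_cR hBs hN 6) = α • cl he ^ 6 + β • (cl hx * cl he ^ 2) := by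
    have h5 := (rcl_eq_iff (ec_cR hBs hN 6) (v1.add v2)).2 h6
    rw [h5, rcl_add v1 v2, rcl_smulR _ (hE.pow 6), rcl_smulR _ (hx0.mul (hE.pow 2)),
      rcl_mul hx0 (hE.pow 2), rcl_pow hE, rcl_pow hE]
    rfl
  have k1 : cl he = (2 * Real.pi) • e' := by rw [ee, smul_smul, mul_inv_cancel₀ hπ, one_smul]
  have k2 : cl hx = cx • x' := by rw [ex, smul_smul, mul_inv_cancel₀ hcx, one_smul]
  have k3 : β * cx = β' * (2 * Real.pi) ^ 4 := hβ.symm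
  have k4 : β • (cl hx * cl he ^ 2) = ((2 * Real.pi) ^ 6 * β') • (e' ^ 2 * x') := by
    have : (2 * Real.pi) ^ 6 * β' = β * cx * (2 * Real.pi) ^ 2 := by rw [k3]; ring
    rw [k1, k2, this]
    simp only [Algebra.smul_def, map_mul, map_pow]
    ring
  have k5 : α • cl he ^ 6 = ((2 * Real.pi) ^ 6 * α) • e' ^ 6 := by
    rw [k1]
    simp only [Algebra.smul_def, map_mul, map_pow]
    ring
  rw [ht, k4, k5, smul_add, smul_smul, smul_smul, inv_mul_cancel_left₀ (pow_ne_zero 6 hπ),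
    inv_mul_cancel_left₀ (pow_ne_zero 6 hπ)]

variable (hg : Emb X φ g) (hC : Cir X φ) (hX : Clo (30 + 1) X) (hXc : IsPreconnected X)
  (ha : Conn X φ al) (hF : Curv X g al Fc) (hB : Clo 30 (Quo X g)) (hoB : Ori 30 (Quo X g) oB)
  (hN : PField (Quo X g) 7 N) (hs : ∀ y ∈ Quo X g, ∀ u v, ⟪N y u, v⟫ = ⟪u, N y v⟫)
  (he : CF2 (Quo X g) 2 Fc) (hx : CF2 (Quo X g) 8 x0) {q1 q2 c α β β' cx : ℝ}
  (hcx : cx ≠ 0) (hc : c * cx = 12 * (2 * Real.pi) ^ 4) (hβ : β' * (2 * Real.pi) ^ 4 = β * cx)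
  (h2 : Coh (Quo X g) (cR 2 N) (q1 • Fc ^ 2))
  (h4 : Coh (Quo X g) (cR 4 N) (q2 • Fc ^ 4 + c • x0))
  (h6 : Coh (Quo X g) (cR 6 N) (α • Fc ^ 6 + β • (x0 * Fc ^ 2)))
  {e' x' : CW.H (Quo X g)} (ee : e' = (2 * Real.pi)⁻¹ • cl he) (ex : x' = cx⁻¹ • cl hx)

include hg hC hX hXc ha hF hN hs hcx hc hβ h2 h4 h6 ee ex

/-- **(z1)**, class form -/
theorem z1_class : ∃ n : ℤ, RI hB hoB (e' ^ 8 * QA.c7 e' x' q1 q2 α β' 1) = n :=
  class_aux hB hoB hN he hx hcx hc hβ h2 h4 h6 (z1 hg hC hX hXc ha hF hoB hN hs) ee ex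

/-- **(z2)**, class form -/
theorem z2_class : ∃ n : ℤ, RI hB hoB (e' ^ 8 * QA.c7 e' x' q1 q2 α β' 2) = n :=
  class_aux hB hoB hN he hx hcx hc hβ h2 h4 h6 (z2 hg hC hX hXc ha hF hoB hN hs) ee ex

end cls

end Crest.Agent.R208.EZ
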