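import Mathlib

/-! Row 208, block F (helper150).  F1a: the normed exterior algebra of the dual of a
finite-dimensional space, contraction-free wedge with a differential, linear pull-back. -/

set_option autoImplicit false

open scoped BigOperators ContDiff Topology
open Module

noncomputable section

namespace Crest.Agent.R208.F

/-- exterior algebra of the dual space -/
abbrev Ext (E : Type*) [AddCommGroup E] [Module ℝ E] := ExteriorAlgebra ℝ (Module.Dual ℝ E)

/-- a covector as an element of the exterior algebra -/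
abbrev io {E : Type*} [AddCommGroup E] [Module ℝ E] : Module.Dual ℝ E →ₗ[ℝ] Ext E :=
  ExteriorAlgebra.ι ℝ

section basic
variable {E : Type*} [AddCommGroup E] [Module ℝ E]

theorem io_sq (l : Module.Dual ℝ E) : io l * io l = 0 := ExteriorAlgebra.ι_sq_zero l

theorem io_anti (l m : Module.Dual ℝ E) : io l * io m = - (io m * io l) := by
  have := ExteriorAlgebra.ι_add_mul_swap (R := ℝ) l m
  exact eq_neg_of_add_eq_zero_left this

/-- grade involution -/
abbrev inv : Ext E →ₐ[ℝ] Ext E := CliffordAlgebra.involute

theorem inv_io (l : Module.Dual ℝ E) : inv (io l) = - io l := CliffordAlgebra.involute_ι _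

theorem inv_inv (c : Ext E) : inv (inv c) = c := CliffordAlgebra.involute_involute _

/-- a covector commutes with `c` up to the grade involution -/
theorem io_mul (l : Module.Dual ℝ E) (c : Ext E) : io l * c = inv c * io l := by
  induction c using ExteriorAlgebra.induction with
  | algebraMap r => rw [AlgHom.commutes, Algebra.commutes]
  | ι m => rw [inv_io, io_anti, neg_mul]
  | mul a b ha hb => rw [← mul_assoc, ha, mul_assoc, hb, ← mul_assoc, map_mul]
  | add a b ha hb => rw [mul_add, ha, hb, map_add, add_mul]

end basic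

section pb
variable {E F G : Type*} [AddCommGroup E] [Module ℝ E] [AddCommGroup F] [Module ℝ F]
  [AddCommGroup G] [Module ℝ G]

/-- linear pull-back -/
def pb (A : E →ₗ[ℝ] F) : Ext F →ₐ[ℝ] Ext E := ExteriorAlgebra.map A.dualMap

@[simp] theorem pb_io (A : E →ₗ[ℝ] F) (l : Module.Dual ℝ F) : pb A (io l) = io (l ∘ₗ A) := by
  simp only [pb, ExteriorAlgebra.map_apply_ι]; rfl

theorem pb_comp (A : E →ₗ[ℝ] F) (B : F →ₗ[ℝ] G) (c : Ext G) : pb A (pb B c) = pb (B ∘ₗ A) c := by
  induction c using ExteriorAlgebra.induction with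
  | algebraMap r => simp only [AlgHom.commutes]
  | ι m => simp only [pb_io, LinearMap.comp_assoc]
  | mul a b ha hb => simp only [map_mul, ha, hb]
  | add a b ha hb => simp only [map_add, ha, hb]

@[simp] theorem pb_id (c : Ext E) : pb (LinearMap.id) c = c := by
  induction c using ExteriorAlgebra.induction with
  | algebraMap r => simp only [AlgHom.commutes]
  | ι m => simp only [pb_io, LinearMap.comp_id]
  | mul a b ha hb => simp only [map_mul, ha, hb]
  | add a b ha hb => simp only [map_add, ha, hb]

theorem pb_inv (A : E →ₗ[ℝ] F) (c : Ext F) : pb A (inv c) = inv (pb A c) := by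
  induction c using ExteriorAlgebra.induction with
  | algebraMap r => simp only [AlgHom.commutes]
  | ι m => simp only [pb_io, inv_io, map_neg]
  | mul a b ha hb => simp only [map_mul, ha, hb]
  | add a b ha hb => simp only [map_add, ha, hb]

end pb

section norm
variable (E : Type*) [AddCommGroup E] [Module ℝ E] [FiniteDimensional ℝ E]

/-- a basis of the exterior algebra of the dual -/
def extBasis : Basis (Finset (Fin (finrank ℝ (Module.Dual ℝ E)))) ℝ (Ext E) :=
  (Module.finBasis ℝ (Module.Dual ℝ E)).ExteriorAlgebra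

instance : NormedAddCommGroup (Ext E) :=
  NormedAddCommGroup.induced (Ext E) (Finset (Fin (finrank ℝ (Module.Dual ℝ E))) → ℝ)
    (extBasis E).equivFun.toLinearMap (extBasis E).equivFun.injective

instance : NormedSpace ℝ (Ext E) :=
  NormedSpace.induced ℝ (Ext E) (Finset (Fin (finrank ℝ (Module.Dual ℝ E))) → ℝ)
    (extBasis E).equivFun.toLinearMap

instance : FiniteDimensional ℝ (Ext E) := (extBasis E).finiteDimensional_of_finite

end norm

section cont
variable {E F : Type*} [NormedAddCommGroup E] [NormedSpace ℝ E] [FiniteDimensional ℝ E]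
  [NormedAddCommGroup F] [NormedSpace ℝ F] [FiniteDimensional ℝ F]

variable (E) in
/-- continuous bilinear multiplication -/
def mulL : Ext E →L[ℝ] Ext E →L[ℝ] Ext E :=
  LinearMap.toContinuousLinearMap
    ((LinearMap.toContinuousLinearMap :
      (Ext E →ₗ[ℝ] Ext E) ≃ₗ[ℝ] (Ext E →L[ℝ] Ext E)).toLinearMap ∘ₗ LinearMap.mul ℝ (Ext E))

@[simp] theorem mulL_apply (a b : Ext E) : mulL E a b = a * b := rfl

/-- continuous version of the grade involution -/
def invL : Ext E →L[ℝ] Ext E := LinearMap.toContinuousLinearMap (inv : Ext E →ₐ[ℝ] Ext E).toLinearMap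

@[simp] theorem invL_apply (a : Ext E) : invL a = inv a := rfl

/-- continuous version of pull-back for fixed `A` -/
def pbL (A : E →L[ℝ] F) : Ext F →L[ℝ] Ext E :=
  LinearMap.toContinuousLinearMap (pb (A : E →ₗ[ℝ] F)).toLinearMap

@[simp] theorem pbL_apply (A : E →L[ℝ] F) (c : Ext F) : pbL A c = pb (A : E →ₗ[ℝ] F) c := rfl

theorem contDiff_mul {G : Type*} [NormedAddCommGroup G] [NormedSpace ℝ G] {n : WithTop ℕ∞}
    {f g : G → Ext E} (hf : ContDiff ℝ n f) (hg : ContDiff ℝ n g) :
    ContDiff ℝ n fun x => f x * g x :=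
  (mulL E).isBoundedBilinearMap.contDiff.comp₂ hf hg

theorem contDiffAt_mul {G : Type*} [NormedAddCommGroup G] [NormedSpace ℝ G] {n : WithTop ℕ∞}
    {f g : G → Ext E} {x : G} (hf : ContDiffAt ℝ n f x) (hg : ContDiffAt ℝ n g x) :
    ContDiffAt ℝ n (fun x => f x * g x) x :=
  (mulL E).isBoundedBilinearMap.contDiff.contDiffAt.comp₂ hf hg

theorem hasFDerivAt_mul {G : Type*} [NormedAddCommGroup G] [NormedSpace ℝ G]
    {f g : G → Ext E} {x : G} {f' g' : G →L[ℝ] Ext E} (hf : HasFDerivAt f f' x)
    (hg : HasFDerivAt g g' x) :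
    HasFDerivAt (fun x => f x * g x)
      ((mulL E).precompR G (f x) g' + (mulL E).precompL G f' (g x)) x :=
  (mulL E).hasFDerivAt_of_bilinear hf hg

theorem contDiff_pb_apply (c : Ext F) {n : WithTop ℕ∞} :
    ContDiff ℝ n fun A : E →L[ℝ] F => pb (A : E →ₗ[ℝ] F) c := by
  induction c using ExteriorAlgebra.induction with
  | algebraMap r => simp only [AlgHom.commutes]; exact contDiff_const
  | ι m =>
    simp only [pb_io]
    let L : (E →L[ℝ] F) →ₗ[ℝ] Ext E :=
      { toFun := fun A => io (m ∘ₗ (A : E →ₗ[ℝ] F))
        map_add' := fun A B => by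
          rw [← map_add]; congr 1; ext x; simp
        map_smul' := fun r A => by
          simp only [RingHom.id_apply]; rw [← map_smul]; congr 1; ext x; simp }
    exact (LinearMap.toContinuousLinearMap L).contDiff
  | mul a b ha hb => simp only [map_mul]; exact contDiff_mul ha hb
  | add a b ha hb => simp only [map_add]; exact ha.add hb

end cont

end Crest.Agent.R208.F
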