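import Crest.Agent.R208.F1b

/-! Row 208, block F (helper150).  F1c: evaluation of forms on vectors, contraction, top forms. -/

set_option autoImplicit false
set_option linter.unusedSectionVars false
set_option linter.unusedSimpArgs false

open scoped BigOperators ContDiff Topology
open Module ExteriorAlgebra

noncomputable section

namespace Crest.Agent.R208.F

section ev
variable {E F : Type*} [AddCommGroup E] [Module ℝ E] [AddCommGroup F] [Module ℝ F]

variable (E) in
/-- evaluation of an element of the exterior algebra of the dual on `q` vectors -/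
def evA (q : ℕ) : Ext E →ₗ[ℝ] (E [⋀^Fin q]→ₗ[ℝ] ℝ) :=
  exteriorPower.alternatingMapLinearEquiv.symm.toLinearMap ∘ₗ
    ExteriorAlgebra.liftAlternating
      (Function.update (0 : ∀ i, Module.Dual ℝ E [⋀^Fin i]→ₗ[ℝ] (Module.Dual ℝ (⋀[ℝ]^q E))) q
        (exteriorPower.alternatingMapToDual ℝ E q))

theorem evA_iMulti (q : ℕ) (l : Fin q → Module.Dual ℝ E) (v : Fin q → E) :
    evA E q (ιMulti ℝ q l) v = Matrix.det (Matrix.of fun i j => l j (v i)) := by
  simp only [evA, LinearMap.comp_apply, liftAlternating_apply_ιMulti, Function.update_self]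
  exact exteriorPower.alternatingMapToDual_apply_ιMulti l v

theorem evA_iMulti_ne {q p : ℕ} (h : p ≠ q) (l : Fin p → Module.Dual ℝ E) :
    evA E q (ιMulti ℝ p l) = 0 := by
  simp only [evA, LinearMap.comp_apply, liftAlternating_apply_ιMulti, Function.update_of_ne h,
    Pi.zero_apply, AlternatingMap.zero_apply, map_zero]

/-- two elements agreeing on all decomposable ones -/
theorem ext_lin {N : Type*} [AddCommGroup N] [Module ℝ N] {f g : Ext E →ₗ[ℝ] N}
    (h : ∀ (p : ℕ) (l : Fin p → Module.Dual ℝ E), f (ιMulti ℝ p l) = g (ιMulti ℝ p l)) (c : Ext E) :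
    f c = g c := by
  have : f = g := ExteriorAlgebra.lhom_ext fun i => AlternatingMap.ext fun l => h i l
  rw [this]

theorem pb_iMulti (A : E →ₗ[ℝ] F) (p : ℕ) (l : Fin p → Module.Dual ℝ F) :
    pb A (ιMulti ℝ p l) = ιMulti ℝ p fun i => l i ∘ₗ A := by
  simp only [pb, map_apply_ιMulti]; rfl

theorem evA_pb (q : ℕ) (A : E →ₗ[ℝ] F) (c : Ext F) (v : Fin q → E) :
    evA E q (pb A c) v = evA F q c fun i => A (v i) := by
  let f : Ext F →ₗ[ℝ] ℝ :=
    { toFun := fun c => evA E q (pb A c) v
      map_add' := fun a b => by simp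
      map_smul' := fun r a => by simp }
  let g : Ext F →ₗ[ℝ] ℝ :=
    { toFun := fun c => evA F q c fun i => A (v i)
      map_add' := fun a b => by simp
      map_smul' := fun r a => by simp }
  refine ext_lin (f := f) (g := g) (fun p l => ?_) c
  change evA E q (pb A _) v = evA F q _ _
  rw [pb_iMulti]
  by_cases h : p = q
  · subst h
    rw [evA_iMulti, evA_iMulti]; rfl
  · rw [evA_iMulti_ne h, evA_iMulti_ne h]; rfl

theorem io_mul_iMulti (l : Module.Dual ℝ E) (p : ℕ) (m : Fin p → Module.Dual ℝ E) :
    io l * ιMulti ℝ p m = ιMulti ℝ (p + 1) (Matrix.vecCons l m) := by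
  rw [ιMulti_succ_apply]; simp

theorem evA_io_mul (q : ℕ) (l : Module.Dual ℝ E) (c : Ext E) (v : Fin (q + 1) → E) :
    evA E (q + 1) (io l * c) v
      = ∑ i : Fin (q + 1), (-1) ^ (i : ℕ) * l (v i) * evA E q c fun j => v (i.succAbove j) := by
  let f : Ext E →ₗ[ℝ] ℝ :=
    { toFun := fun c => evA E (q + 1) (io l * c) v
      map_add' := fun a b => by simp [mul_add]
      map_smul' := fun r a => by simp }
  let g : Ext E →ₗ[ℝ] ℝ :=
    { toFun := fun c => ∑ i : Fin (q + 1), (-1) ^ (i : ℕ) * l (v i) * evA E q c fun j =>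
        v (i.succAbove j)
      map_add' := fun a b => by simp [mul_add, Finset.sum_add_distrib]
      map_smul' := fun r a => by
        simp only [map_smul, AlternatingMap.smul_apply, smul_eq_mul, RingHom.id_apply,
          Finset.mul_sum]
        refine Finset.sum_congr rfl fun i _ => ?_
        ring }
  refine ext_lin (f := f) (g := g) (fun p m => ?_) c
  change evA E (q + 1) (io l * _) v = ∑ i : Fin (q + 1), _
  rw [io_mul_iMulti]
  by_cases h : p = q
  · subst h
    rw [evA_iMulti, Matrix.det_succ_column_zero]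
    refine Finset.sum_congr rfl fun i _ => ?_
    rw [evA_iMulti]
    simp only [Matrix.of_apply, Matrix.cons_val_zero]
    congr 2
  · rw [evA_iMulti_ne (by omega)]
    symm
    refine Finset.sum_eq_zero fun i _ => ?_
    rw [evA_iMulti_ne h, AlternatingMap.zero_apply, mul_zero]

theorem evA_zero_algebraMap (r : ℝ) (v : Fin 0 → E) :
    evA E 0 (algebraMap ℝ (Ext E) r) v = r := by
  have : algebraMap ℝ (Ext E) r = r • ιMulti ℝ 0 (fun i : Fin 0 => (0 : Module.Dual ℝ E)) := by
    rw [ιMulti_zero_apply, Algebra.algebraMap_eq_smul_one]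
  rw [this, map_smul, AlternatingMap.smul_apply, evA_iMulti]
  simp

theorem evA_succ_algebraMap (q : ℕ) (r : ℝ) : evA E (q + 1) (algebraMap ℝ (Ext E) r) = 0 := by
  have : algebraMap ℝ (Ext E) r = r • ιMulti ℝ 0 (fun i : Fin 0 => (0 : Module.Dual ℝ E)) := by
    rw [ιMulti_zero_apply, Algebra.algebraMap_eq_smul_one]
  rw [this, map_smul, evA_iMulti_ne (by omega), smul_zero]

theorem evA_io (l : Module.Dual ℝ E) (v : Fin 1 → E) : evA E 1 (io l) v = l (v 0) := by
  have h := evA_io_mul 0 l (1 : Ext E) v
  rw [mul_one] at h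
  rw [h]
  have h1 : ∀ w : Fin 0 → E, evA E 0 (1 : Ext E) w = 1 := fun w => by
    have := evA_zero_algebraMap (E := E) 1 w
    rwa [map_one] at this
  simp [h1]

/-- change of frame: `w i = ∑ j, M i j • v j` -/
theorem evA_comb (q : ℕ) (c : Ext E) (v w : Fin q → E) (M : Matrix (Fin q) (Fin q) ℝ)
    (h : ∀ i, w i = ∑ j, M i j • v j) : evA E q c w = M.det * evA E q c v := by
  let L : (Fin q → ℝ) →ₗ[ℝ] E := Fintype.linearCombination ℝ v
  let Mf : Fin q → Fin q → ℝ := fun i j => M i j
  have hL : ∀ i, w i = L (Mf i) := fun i => by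
    rw [h i]; simp [L, Fintype.linearCombination_apply, Mf]
  have hv : ∀ i, v i = L (Pi.basisFun ℝ (Fin q) i) := fun i => by
    simp [L, Fintype.linearCombination_apply, Pi.single_apply]
  have e := AlternatingMap.eq_smul_basis_det (Pi.basisFun ℝ (Fin q))
    ((evA E q c).compLinearMap L)
  have h1 : evA E q c w = ((evA E q c).compLinearMap L) Mf := by
    simp only [AlternatingMap.compLinearMap_apply]; congr 1; funext i; exact hL i
  have h2 : evA E q c v = ((evA E q c).compLinearMap L) (Pi.basisFun ℝ (Fin q)) := by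
    simp only [AlternatingMap.compLinearMap_apply]; congr 1; funext i; exact hv i
  rw [h1, e, AlternatingMap.smul_apply, ← h2, Basis.det_apply, smul_eq_mul, mul_comm]
  congr 1
  have : (Pi.basisFun ℝ (Fin q)).toMatrix Mf = M.transpose := by
    ext i j; simp [Basis.toMatrix_apply, Mf]
  rw [this, Matrix.det_transpose]

/-! ### contraction -/

/-- contraction with a vector -/
def ii : E →ₗ[ℝ] Ext E →ₗ[ℝ] Ext E :=
  (CliffordAlgebra.contractLeft (Q := (0 : QuadraticForm ℝ (Module.Dual ℝ E)))) ∘ₗ
    (Module.Dual.eval ℝ E)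

theorem ii_io_mul (v : E) (l : Module.Dual ℝ E) (c : Ext E) :
    ii v (io l * c) = l v • c - io l * ii v c :=
  CliffordAlgebra.contractLeft_ι_mul _ _ _

@[simp] theorem ii_algebraMap (v : E) (r : ℝ) : ii v (algebraMap ℝ (Ext E) r) = 0 :=
  CliffordAlgebra.contractLeft_algebraMap _ _ _

@[simp] theorem ii_one (v : E) : ii v (1 : Ext E) = 0 :=
  CliffordAlgebra.contractLeft_one _ _

@[simp] theorem ii_io (v : E) (l : Module.Dual ℝ E) : ii v (io l) = algebraMap ℝ (Ext E) (l v) :=
  CliffordAlgebra.contractLeft_ι _ _ _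

theorem ii_ii (v : E) (c : Ext E) : ii v (ii v c) = 0 := CliffordAlgebra.contractLeft_contractLeft _ _

theorem ii_comm (v w : E) (c : Ext E) : ii v (ii w c) = - ii w (ii v c) :=
  CliffordAlgebra.contractLeft_comm _ _ _

/-- left induction principle -/
theorem ind {P : Ext E → Prop} (h0 : ∀ r : ℝ, P (algebraMap ℝ (Ext E) r))
    (hadd : ∀ x y, P x → P y → P (x + y)) (hmul : ∀ x l, P x → P (io l * x)) (c : Ext E) : P c :=
  CliffordAlgebra.left_induction _ h0 hadd hmul c

theorem inv_ii (v : E) (c : Ext E) : inv (ii v c) = - ii v (inv c) := by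
  induction c using ind with
  | h0 r => simp [AlgHom.commutes]
  | hadd x y hx hy => simp [map_add, hx, hy, add_comm]
  | hmul x l hx =>
    rw [ii_io_mul, map_sub, map_smul, map_mul, map_mul, inv_io, hx, neg_mul, neg_mul, map_neg,
      ii_io_mul]
    simp only [mul_neg, neg_neg, neg_sub]

theorem ii_mul (v : E) (a b : Ext E) : ii v (a * b) = ii v a * b + inv a * ii v b := by
  induction a using ind with
  | h0 r =>
    rw [ii_algebraMap, zero_mul, zero_add, AlgHom.commutes, ← Algebra.smul_def, map_smul,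
      Algebra.smul_def]
  | hadd x y hx hy => simp only [add_mul, map_add, hx, hy]; abel
  | hmul x l hx =>
    rw [mul_assoc, ii_io_mul, hx, ii_io_mul, map_mul, inv_io, sub_mul, smul_mul_assoc, mul_add,
      ← mul_assoc, ← mul_assoc, neg_mul, neg_mul]
    abel

theorem ii_pb (A : E →ₗ[ℝ] F) (v : E) (c : Ext F) : ii v (pb A c) = pb A (ii (A v) c) := by
  induction c using ind with
  | h0 r => rw [AlgHom.commutes, ii_algebraMap, ii_algebraMap, map_zero]
  | hadd x y hx hy => simp only [map_add, hx, hy]
  | hmul x l hx =>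
    rw [map_mul, pb_io, ii_io_mul, hx, ii_io_mul, map_sub, map_smul, map_mul, pb_io]
    rfl

/-- evaluation and contraction -/
theorem evA_ii (q : ℕ) (c : Ext E) (v : E) (w : Fin q → E) :
    evA E (q + 1) c (Matrix.vecCons v w) = evA E q (ii v c) w := by
  induction c using ind generalizing q v w with
  | h0 r => rw [evA_succ_algebraMap, ii_algebraMap, map_zero]; rfl
  | hadd x y hx hy => simp only [map_add, AlternatingMap.add_apply, hx, hy]
  | hmul x l hx =>
    rw [evA_io_mul, Fin.sum_univ_succ, ii_io_mul, map_sub, map_smul, AlternatingMap.sub_apply,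
      AlternatingMap.smul_apply]
    simp only [Fin.val_zero, pow_zero, one_mul, Matrix.cons_val_zero, Fin.succAbove_zero,
      Matrix.cons_val_succ, smul_eq_mul]
    rw [sub_eq_add_neg]
    congr 1
    cases q with
    | zero =>
      simp only [Finset.univ_eq_empty, Finset.sum_empty]
      have : evA E 0 (io l * ii v x) w = 0 := by
        let f : Ext E →ₗ[ℝ] ℝ :=
          { toFun := fun c => evA E 0 (io l * c) w
            map_add' := fun a b => by simp [mul_add]
            map_smul' := fun r a => by simp }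
        refine ext_lin (f := f) (g := 0) (fun p m => ?_) (ii v x)
        change evA E 0 (io l * _) w = 0
        rw [io_mul_iMulti, evA_iMulti_ne (by omega)]; rfl
      rw [this, neg_zero]
    | succ q =>
      rw [evA_io_mul, ← Finset.sum_neg_distrib]
      refine Finset.sum_congr rfl fun i _ => ?_
      have : (fun j => Matrix.vecCons v w (i.succ.succAbove j))
          = Matrix.vecCons v fun j => w (i.succAbove j) := by
        funext j
        refine Fin.cases ?_ (fun j => ?_) j
        · simp [Fin.succ_succAbove_zero]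
        · simp [Fin.succ_succAbove_succ]
      rw [this, hx, Fin.val_succ, pow_succ]
      ring

end ev

section top
variable {E : Type*} [AddCommGroup E] [Module ℝ E]

/-- Euclidean space -/
abbrev Eu (k : ℕ) := EuclideanSpace ℝ (Fin k)

/-- the standard basis of Euclidean space -/
abbrev sb (k : ℕ) : Basis (Fin k) ℝ (Eu k) := (EuclideanSpace.basisFun (Fin k) ℝ).toBasis

/-- coefficient of the top form -/
def top (k : ℕ) : Ext (Eu k) →ₗ[ℝ] ℝ where
  toFun c := evA (Eu k) k c (sb k)
  map_add' a b := by simp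
  map_smul' r a := by simp

theorem top_apply (k : ℕ) (c : Ext (Eu k)) : top k c = evA (Eu k) k c (sb k) := rfl

theorem top_pb (k : ℕ) (A : Eu k →ₗ[ℝ] E) (c : Ext E) :
    top k (pb A c) = evA E k c fun i => A (sb k i) := by
  rw [top_apply, evA_pb]

theorem top_pb_det (k : ℕ) (A : Eu k →ₗ[ℝ] Eu k) (c : Ext (Eu k)) :
    top k (pb A c) = LinearMap.det A * top k c := by
  rw [top_pb]
  have e := AlternatingMap.eq_smul_basis_det (sb k) (evA (Eu k) k c)
  rw [e, AlternatingMap.smul_apply, smul_eq_mul, mul_comm]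
  congr 1
  have h1 := (sb k).det_comp A (sb k)
  rw [(sb k).det_self, mul_one] at h1
  exact h1

end top

end Crest.Agent.R208.F
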