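import Crest.Agent.R208.FG1b

/-! Row 208, block FG (helper586), part FG1c: base change of oriented submersions on classes. -/

set_option autoImplicit false
set_option linter.unusedSectionVars false

open Set Filter Topology Module
open scoped ContDiff
open Crest.Agent.R208.F Crest.Agent.R208.FI
open Crest.Agent.R208.CW (SMap integ cls)

noncomputable section

namespace Crest.Agent.R208.FG

variable {E : Type*} [NormedAddCommGroup E] [NormedSpace ℝ E] [FiniteDimensional ℝ E]
  {E' : Type*} [NormedAddCommGroup E'] [NormedSpace ℝ E'] [FiniteDimensional ℝ E']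
  {B : Type*} [NormedAddCommGroup B] [NormedSpace ℝ B] [FiniteDimensional ℝ B]
  {r b a' : ℕ} {X : Set E} {Y : Set B} {X' : Set E'} {f : E → B} {f' : E' → B}
  {oV : E → Ext E} {oY : B → Ext B} {oX' : E' → Ext E'}

theorem smap_FP_fst : SMap (FP X X' f f') X (Prod.fst : E × E' → E) :=
  ⟨fun _ _ => contDiffAt_fst, fun _ hz => hz.1⟩

theorem smap_FP_snd : SMap (FP X X' f f') X' (Prod.snd : E × E' → E') :=
  ⟨fun _ _ => contDiffAt_snd, fun _ hz => hz.2.1⟩

theorem smap_incl {X₁ X₂ : Set E} (h : X₁ ⊆ X₂) : SMap X₁ X₂ (fun x => x) :=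
  ⟨fun _ _ => contDiffAt_id, fun _ hz => h hz⟩

theorem resZero_re {η : E → CW.CF E} (h : η ∈ CW.Z X) : ResZero X (F.d fun y => (η y).re) :=
  fun x hx => congrArg CW.Cx.re (h.2.2 x hx)

theorem resZero_im {η : E → CW.CF E} (h : η ∈ CW.Z X) : ResZero X (F.d fun y => (η y).im) :=
  fun x hx => congrArg CW.Cx.im (h.2.2 x hx)

theorem smap_fibre (y : B) : SMap (X ∩ f ⁻¹' {y}) X (fun x => x) := smap_incl inter_subset_left

/-- **integration over the base change** -/
theorem bc_integ (h : OSubm r b X Y f oV oY) (h' : BC a' X' Y f') (ho : Ori a' X' oX')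
    (hd : ∀ x, IsDeg a' (oX' x)) (hYc : IsPreconnected Y) (hXc : IsPreconnected X')
    (hne : X'.Nonempty) {y : B} (hy : y ∈ Y) (a : CW.H X) {β : CW.H X'}
    (hβ : β ∈ T.HD X' a') :
    integ (bc_clo h.subm h') (bc_ori h h' ho hd).tot
      (CW.H.map smap_FP_fst a * CW.H.map smap_FP_snd β) =
      integ (h.subm.clo_fibre y) (h.fib y) (CW.H.map (smap_fibre y) a) * integ h'.clo ho β := by
  obtain ⟨η, hη, rfl⟩ := a.exists_rep
  obtain ⟨om, hom, hdeg, rfl⟩ := hβ
  rw [CW.H.map_cls, CW.H.map_cls, CW.H.map_cls, ← CW.cls_mul, CW.integ_cls, CW.integ_cls,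
    CW.integ_cls]
  have hre : ∀ z ∈ X, ContDiffAt ℝ 1 (fun y => (η y).re) z := fun z hz =>
    (hη.2.1 z hz).re.of_le (by exact_mod_cast le_top)
  have him : ∀ z ∈ X, ContDiffAt ℝ 1 (fun y => (η y).im) z := fun z hz =>
    (hη.2.1 z hz).im.of_le (by exact_mod_cast le_top)
  have cre : ContinuousOn (fun x => (om x).re) X' := hom.2.1.cont_re
  have cim : ContinuousOn (fun x => (om x).im) X' := hom.2.1.cont_im
  have key : ∀ (e : E → Ext E) (g : E' → Ext E'), (∀ z ∈ X, ContDiffAt ℝ 1 e z) →
      ResZero X (F.d e) → ContinuousOn g X' → (∀ x ∈ X', ∀ q < a', evA E' q (g x) = 0) →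
      J (r + a') (FP X X' f f') (fun z => pull Prod.fst oV z * pull Prod.snd oX' z)
        (fun z => pull Prod.fst e z * pull Prod.snd g z) =
      J r (X ∩ f ⁻¹' {y}) oV e * J a' X' oX' g := fun e g h1 h2 h3 h4 =>
    bc_integral h h' ho hd hYc hXc h1 h2 h3 h4 hy hne
  have ccont : ∀ (e : E → Ext E) (g : E' → Ext E'), (∀ z ∈ X, ContDiffAt ℝ 1 e z) →
      ContinuousOn g X' → ContinuousOn
        (fun z : E × E' => pull Prod.fst e z * pull Prod.snd g z) (FP X X' f f') :=
    fun e g h1 h3 => continuousOn_mul (cont_pull_fst (fun z hz => hz.1)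
      (fun z hz => (h1 z hz).continuousAt.continuousWithinAt))
      (cont_pull_snd (fun z hz => hz.2.1) h3)
  have l1 := key _ _ hre (resZero_re hη) cre fun x _ q hq => (hdeg x).1 q (by omega)
  have l2 := key _ _ him (resZero_im hη) cim fun x _ q hq => (hdeg x).2 q (by omega)
  have l3 := key _ _ hre (resZero_re hη) cim fun x _ q hq => (hdeg x).2 q (by omega)
  have l4 := key _ _ him (resZero_im hη) cre fun x _ q hq => (hdeg x).1 q (by omega)
  have hC := bc_clo h.subm h'
  have hO := (bc_ori h h' ho hd).tot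
  have r1 : ∀ e : E → CW.CF E, ∀ x : E, CW.pullC (fun x => x) e x = e x := by
    intro e x
    rw [CW.pullC, fderiv_fun_id, ContinuousLinearMap.coe_id]
    exact CW.pbC_id _
  refine Complex.ext ?_ ?_
  · have e1 := J_sub hC hO (ccont _ _ hre cre) (ccont _ _ him cim)
    rw [l1, l2] at e1
    rw [Complex.mul_re]
    have e2 : ∀ z : E × E', ((CW.pullC (Prod.fst : E × E' → E) η *
        CW.pullC (Prod.snd : E × E' → E') om) z).re =
        pull Prod.fst (fun y => (η y).re) z * pull Prod.snd (fun y => (om y).re) z -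
        pull Prod.fst (fun y => (η y).im) z * pull Prod.snd (fun y => (om y).im) z := fun z => rfl
    change J _ _ _ (fun z => ((CW.pullC (Prod.fst : E × E' → E) η *
        CW.pullC (Prod.snd : E × E' → E') om) z).re) = _
    simp only [e2]
    rw [e1]
    change _ = J _ _ _ (fun z => (CW.pullC (fun x => x) η z).re) * _ -
      J _ _ _ (fun z => (CW.pullC (fun x => x) η z).im) * _
    simp only [r1]
    rfl
  · have e1 := J_add hC hO (ccont _ _ hre cim) (ccont _ _ him cre)
    rw [l3, l4] at e1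
    rw [Complex.mul_im]
    have e2 : ∀ z : E × E', ((CW.pullC (Prod.fst : E × E' → E) η *
        CW.pullC (Prod.snd : E × E' → E') om) z).im =
        pull Prod.fst (fun y => (η y).re) z * pull Prod.snd (fun y => (om y).im) z +
        pull Prod.fst (fun y => (η y).im) z * pull Prod.snd (fun y => (om y).re) z := fun z => rfl
    change J _ _ _ (fun z => ((CW.pullC (Prod.fst : E × E' → E) η *
        CW.pullC (Prod.snd : E × E' → E') om) z).im) = _
    simp only [e2]
    rw [e1]
    change _ = J _ _ _ (fun z => (CW.pullC (fun x => x) η z).re) * _ +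
      J _ _ _ (fun z => (CW.pullC (fun x => x) η z).im) * _
    simp only [r1]
    rfl

/-- the same for an oriented submersion itself -/
theorem osubm_integ (h : OSubm r b X Y f oV oY) (hs : SMap X Y f) (hYc : IsPreconnected Y)
    {y : B} (hy : y ∈ Y) (a : CW.H X) {β : CW.H Y} (hβ : β ∈ T.HD Y b) :
    integ h.subm.cloZ h.tot (a * CW.H.map hs β) =
      integ (h.subm.clo_fibre y) (h.fib y) (CW.H.map (smap_fibre y) a) *
        integ h.subm.cloX h.base β := by
  obtain ⟨η, hη, rfl⟩ := a.exists_rep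
  obtain ⟨om, hom, hdeg, rfl⟩ := hβ
  rw [CW.H.map_cls, CW.H.map_cls, ← CW.cls_mul, CW.integ_cls, CW.integ_cls, CW.integ_cls]
  have hre : ∀ z ∈ X, ContDiffAt ℝ 1 (fun y => (η y).re) z := fun z hz =>
    (hη.2.1 z hz).re.of_le (by exact_mod_cast le_top)
  have him : ∀ z ∈ X, ContDiffAt ℝ 1 (fun y => (η y).im) z := fun z hz =>
    (hη.2.1 z hz).im.of_le (by exact_mod_cast le_top)
  have cre : ContinuousOn (fun x => (om x).re) Y := hom.2.1.cont_re
  have cim : ContinuousOn (fun x => (om x).im) Y := hom.2.1.cont_im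
  have key : ∀ (e : E → Ext E) (g : B → Ext B), (∀ z ∈ X, ContDiffAt ℝ 1 e z) →
      ResZero X (F.d e) → ContinuousOn g Y → (∀ x ∈ Y, ∀ q < b, evA B q (g x) = 0) →
      J (r + b) X (fun z => oV z * pull f oY z) (fun z => e z * pull f g z) =
      J r (X ∩ f ⁻¹' {y}) oV e * J b Y oY g := fun e g h1 h2 h3 h4 =>
    fibre_integration_const h.subm hYc h.base h.cV h.tot h.low h1 h2 h3 h4 hy
  have ccont : ∀ (e : E → Ext E) (g : B → Ext B), (∀ z ∈ X, ContDiffAt ℝ 1 e z) →
      ContinuousOn g Y → ContinuousOn (fun z : E => e z * pull f g z) X :=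
    fun e g h1 h3 => continuousOn_mul
      (fun z hz => (h1 z hz).continuousAt.continuousWithinAt) (h.subm.continuousOn_pull h3)
  have l1 := key _ _ hre (resZero_re hη) cre fun x _ q hq => (hdeg x).1 q (by omega)
  have l2 := key _ _ him (resZero_im hη) cim fun x _ q hq => (hdeg x).2 q (by omega)
  have l3 := key _ _ hre (resZero_re hη) cim fun x _ q hq => (hdeg x).2 q (by omega)
  have l4 := key _ _ him (resZero_im hη) cre fun x _ q hq => (hdeg x).1 q (by omega)
  have r1 : ∀ e : E → CW.CF E, ∀ x : E, CW.pullC (fun x => x) e x = e x := by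
    intro e x
    rw [CW.pullC, fderiv_fun_id, ContinuousLinearMap.coe_id]
    exact CW.pbC_id _
  refine Complex.ext ?_ ?_
  · have e1 := J_sub h.subm.cloZ h.tot (ccont _ _ hre cre) (ccont _ _ him cim)
    rw [l1, l2] at e1
    rw [Complex.mul_re]
    have e2 : ∀ z : E, ((η * CW.pullC f om) z).re =
        (η z).re * pull f (fun y => (om y).re) z -
        (η z).im * pull f (fun y => (om y).im) z := fun z => rfl
    change J _ _ _ (fun z => ((η * CW.pullC f om) z).re) = _
    simp only [e2]
    rw [e1]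
    change _ = J _ _ _ (fun z => (CW.pullC (fun x => x) η z).re) * _ -
      J _ _ _ (fun z => (CW.pullC (fun x => x) η z).im) * _
    simp only [r1]
    rfl
  · have e1 := J_add h.subm.cloZ h.tot (ccont _ _ hre cim) (ccont _ _ him cre)
    rw [l3, l4] at e1
    rw [Complex.mul_im]
    have e2 : ∀ z : E, ((η * CW.pullC f om) z).im =
        (η z).re * pull f (fun y => (om y).im) z +
        (η z).im * pull f (fun y => (om y).re) z := fun z => rfl
    change J _ _ _ (fun z => ((η * CW.pullC f om) z).im) = _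
    simp only [e2]
    rw [e1]
    change _ = J _ _ _ (fun z => (CW.pullC (fun x => x) η z).re) * _ +
      J _ _ _ (fun z => (CW.pullC (fun x => x) η z).im) * _
    simp only [r1]
    rfl

end Crest.Agent.R208.FG
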