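import Crest.Agent.R208.CW2
import Crest.Agent.R208.FG1
import Mathlib.Geometry.Manifold.PartitionOfUnity

/-! Row 208, block FG (helper586), part FG2: **cover lemma**: classes `a`, `b` on `X` which vanish
on open sets `U`, `U'` with `X ⊆ U ∪ U'` have product `0`. -/

set_option autoImplicit false
set_option linter.unusedSectionVars false

open Set Filter Topology Module
open scoped ContDiff Manifold
open Crest.Agent.R208.F Crest.Agent.R208.FI Crest.Agent.R208.CW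

noncomputable section

namespace Crest.Agent.R208.FG

variable {E : Type*} [NormedAddCommGroup E] [NormedSpace ℝ E] [FiniteDimensional ℝ E]
  {X U : Set E} {d : ℕ}

theorem smap_incl' {X₁ X₂ : Set E} (h : X₁ ⊆ X₂) : SMap X₁ X₂ (fun x => x) :=
  ⟨fun _ _ => contDiffAt_id, fun _ hz => h hz⟩

theorem pullC_id' (e : E → CF E) (x : E) : pullC (fun x => x) e x = e x := by
  rw [pullC, fderiv_fun_id, ContinuousLinearMap.coe_id]
  exact pbC_id _

/-- smooth cut-off functions -/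
theorem exists_cut {U K : Set E} (hU : IsOpen U) (hK : IsClosed K) (h : K ⊆ U) :
    ∃ φ : E → ℝ, ContDiff ℝ ∞ φ ∧ (∀ x ∈ K, ∀ᶠ y in 𝓝 x, φ y = 1) ∧
      ∀ x ∉ U, ∀ᶠ y in 𝓝 x, φ y = 0 := by
  obtain ⟨χ, h0, h1, -⟩ := exists_contMDiffMap_zero_one_nhds_of_isClosed (n := (⊤ : ℕ∞)) 𝓘(ℝ, E)
    (s := Uᶜ) (t := K) hU.isClosed_compl hK
    (by rw [Set.disjoint_compl_left_iff_subset]; exact h)
  exact ⟨χ, χ.contMDiff.contDiff, fun x hx => (eventually_nhdsSet_iff_forall.1 h1) x hx,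
    fun x hx => (eventually_nhdsSet_iff_forall.1 h0) x hx⟩

/-- cut-off of a form -/
def cut (φ : E → ℝ) (ξ : E → CF E) (y : E) : CF E := algebraMap ℂ (CF E) (φ y : ℂ) * ξ y

theorem smo_cut {φ : E → ℝ} (hφ : ContDiff ℝ ∞ φ) (h0 : ∀ x ∉ U, ∀ᶠ y in 𝓝 x, φ y = 0)
    {ξ : E → CF E} (hξ : Smo (X ∩ U) ξ) : Smo X (cut φ ξ) := by
  intro x hx
  by_cases hU : x ∈ U
  · exact (CD.of_fun (Complex.ofRealCLM.contDiff.contDiffAt.comp x hφ.contDiffAt)).mul
      (hξ x ⟨hx, hU⟩)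
  · refine (CD.const (k := ∞) (x := x) (0 : CF E)).congr ?_
    filter_upwards [h0 x hU] with y hy
    rw [cut, hy, Complex.ofReal_zero, map_zero, zero_mul]

theorem cut_one {φ : E → ℝ} {ξ : E → CF E} {x : E} (h1 : ∀ᶠ y in 𝓝 x, φ y = 1) :
    cut φ ξ =ᶠ[𝓝 x] ξ := by
  filter_upwards [h1] with y hy
  rw [cut, hy, Complex.ofReal_one, map_one, one_mul]

theorem rs_of_inter (hU : IsOpen U) {x : E} (hx : x ∈ U) {c c' : CF E}
    (h : rs (X ∩ U) x c = rs (X ∩ U) x c') : rs X x c = rs X x c' := by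
  have h3 : ∀ (K K' : Submodule ℝ E), K = K' → pbC K.subtype c = pbC K.subtype c' →
      pbC K'.subtype c = pbC K'.subtype c' := by
    rintro K K' rfl h; exact h
  exact h3 _ _ (tan_inter hU hx) h

/-- vanishing on an open subset, in terms of forms -/
theorem exists_prim {om : E → CF E} (hom : om ∈ Z X)
    (ha : H.map (smap_incl' (X₁ := X ∩ U) inter_subset_left) (cls om hom) = 0) :
    ∃ ξ : E → CF E, Smo (X ∩ U) ξ ∧ ∀ x ∈ X ∩ U, rs (X ∩ U) x (om x) = rs (X ∩ U) x (dC ξ x) := by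
  rw [H.map_cls] at ha
  obtain ⟨ξ, h1, h2⟩ := cls_eq_zero_iff.1 ha
  refine ⟨ξ, h1, fun x hx => ?_⟩
  rw [← h2 x hx, pullC_id']

/-- **cover lemma** -/
theorem mul_eq_zero_of_cover (hXc : IsClosed X) {U U' : Set E} (hU : IsOpen U)
    (hU' : IsOpen U') (hcov : X ⊆ U ∪ U') {a b : H X}
    (ha : H.map (smap_incl' (X₁ := X ∩ U) inter_subset_left) a = 0)
    (hb : H.map (smap_incl' (X₁ := X ∩ U') inter_subset_left) b = 0) : a * b = 0 := by
  obtain ⟨om, hom, rfl⟩ := a.exists_rep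
  obtain ⟨η, hη, rfl⟩ := b.exists_rep
  obtain ⟨ξ, hξ, hξ2⟩ := exists_prim hom ha
  obtain ⟨ζ, hζ, hζ2⟩ := exists_prim hη hb
  -- the cut-off functions
  obtain ⟨φ, hφ, hφ1, hφ0⟩ := exists_cut hU (hXc.inter hU'.isClosed_compl) (by
    rintro x ⟨hx, hx'⟩
    exact (hcov hx).resolve_right hx')
  set V : Set E := interior {x | φ x = 1} with hV
  have hVo : IsOpen V := isOpen_interior
  obtain ⟨ψ, hψ, hψ1, hψ0⟩ := exists_cut hU' (hXc.inter hVo.isClosed_compl) (by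
    rintro x ⟨hx, hx'⟩
    by_contra hxU
    exact hx' (mem_interior_iff_mem_nhds.2 (hφ1 x ⟨hx, hxU⟩)))
  have hξs : Smo X (cut φ ξ) := smo_cut hφ hφ0 hξ
  have hζs : Smo X (cut ψ ζ) := smo_cut hψ hψ0 hζ
  rw [← cls_mul, cls_eq_zero_iff]
  refine ⟨cut φ ξ * η + om * cut ψ ζ - cut φ ξ * dC (cut ψ ζ),
    ((hξs.mul hη.2.1).add (hom.2.1.mul hζs)).sub (hξs.mul hζs.dC), fun x hx => ?_⟩
  have c1 : CD 1 (cut φ ξ) x := hξs.cd1 hx
  have c2 : CD 1 (cut ψ ζ) x := hζs.cd1 hx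
  have c3 : CD 1 om x := hom.2.1.cd1 hx
  have c4 : CD 1 η x := hη.2.1.cd1 hx
  have c5 : CD 1 (dC (cut ψ ζ)) x := hζs.dC.cd1 hx
  have e1 : dC (cut φ ξ * η + om * cut ψ ζ - cut φ ξ * dC (cut ψ ζ)) x =
      (dC (cut φ ξ) x * η x + invC (cut φ ξ x) * dC η x) +
      (dC om x * cut ψ ζ x + invC (om x) * dC (cut ψ ζ) x) -
      (dC (cut φ ξ) x * dC (cut ψ ζ) x + invC (cut φ ξ x) * dC (dC (cut ψ ζ)) x) := by
    have f1 : dC (cut φ ξ * η + om * cut ψ ζ - cut φ ξ * dC (cut ψ ζ)) x =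
        dC (cut φ ξ * η + om * cut ψ ζ) x - dC (cut φ ξ * dC (cut ψ ζ)) x :=
      dC_sub ((c1.mul c4).add (c3.mul c2)) (c1.mul c5)
    have f2 : dC (cut φ ξ * η + om * cut ψ ζ) x = dC (cut φ ξ * η) x + dC (om * cut ψ ζ) x :=
      dC_add (c1.mul c4) (c3.mul c2)
    have f3 : dC (cut φ ξ * η) x = dC (cut φ ξ) x * η x + invC (cut φ ξ x) * dC η x :=
      dC_mul c1 c4
    have f4 : dC (om * cut ψ ζ) x = dC om x * cut ψ ζ x + invC (om x) * dC (cut ψ ζ) x :=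
      dC_mul c3 c2
    have f5 : dC (cut φ ξ * dC (cut ψ ζ)) x =
        dC (cut φ ξ) x * dC (cut ψ ζ) x + invC (cut φ ξ x) * dC (dC (cut ψ ζ)) x :=
      dC_mul c1 c5
    rw [f1, f2, f3, f4, f5]
  rw [e1, dC_dC ((hζs x hx).of_le two_le)]
  simp only [map_sub, map_add, map_mul, mul_zero, add_zero, hη.2.2 x hx,
    hom.2.2 x hx, zero_mul, zero_add, hom.1 x]
  change rs X x (om x * η x) = _
  rw [map_mul]
  rcases Classical.em (x ∈ V) with hxV | hxV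
  · -- `φ = 1` near `x`
    have h1 : ∀ᶠ y in 𝓝 x, φ y = 1 := mem_interior_iff_mem_nhds.1 hxV
    have hxU : x ∈ U := by
      by_contra hxU
      obtain ⟨y, hy⟩ := (h1.and (hφ0 x hxU)).exists
      rw [hy.1] at hy
      exact one_ne_zero hy.2
    have h2 : rs X x (om x) = rs X x (dC (cut φ ξ) x) := by
      rw [dC_congr (cut_one h1)]
      exact rs_of_inter hU hxU (hξ2 x ⟨hx, hxU⟩)
    rw [h2]
    abel
  · have h1 : ∀ᶠ y in 𝓝 x, ψ y = 1 := hψ1 x ⟨hx, hxV⟩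
    have hxU : x ∈ U' := by
      by_contra hxU
      obtain ⟨y, hy⟩ := (h1.and (hψ0 x hxU)).exists
      rw [hy.1] at hy
      exact one_ne_zero hy.2
    have h2 : rs X x (η x) = rs X x (dC (cut ψ ζ) x) := by
      rw [dC_congr (cut_one h1)]
      exact rs_of_inter hU' hxU (hζ2 x ⟨hx, hxU⟩)
    rw [h2]
    abel

end Crest.Agent.R208.FG
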