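import Crest.Agent.R208.FG2
import Crest.Agent.R208.E4a

/-! Row 208, block FG (helper586), part FG2b: close maps into a closed manifold induce the same map
on classes. -/

set_option autoImplicit false
set_option linter.unusedSectionVars false

open Set Filter Topology Module
open scoped ContDiff Manifold
open Crest.Agent.R208.F Crest.Agent.R208.FI Crest.Agent.R208.CW

noncomputable section

namespace Crest.Agent.R208.FG

universe u

variable {E : Type u} [NormedAddCommGroup E] [NormedSpace ℝ E] [FiniteDimensional ℝ E]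
  {F : Type*} [NormedAddCommGroup F] [InnerProductSpace ℝ F] [FiniteDimensional ℝ F]

/-- **close maps are homotopic**, on classes -/
theorem exists_close {n : ℕ} {Y : Set F} (hY : Clo n Y) :
    ∃ δ : ℝ, 0 < δ ∧ ∀ {d : ℕ} {X : Set E} (_ : Sub d X) {f g : E → F} (hf : SMap X Y f)
      (hg : SMap X Y g), (∀ x ∈ X, ‖f x - g x‖ < δ) → ∀ a : H Y, H.map hf a = H.map hg a := by
  obtain ⟨r, O, hO, hYO, hr, hrm, hr1⟩ := Crest.Agent.R208.E.exists_retract hY
  obtain ⟨δ, hδ, hδO⟩ := hY.compact.exists_thickening_subset_open hO hYO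
  refine ⟨δ, hδ, fun {d X} hX {f g} hf hg hfg a => ?_⟩
  have hmem : ∀ x ∈ X, ∀ t ∈ Icc (0 : ℝ) 1, f x + t • (g x - f x) ∈ O := by
    intro x hx t ht
    refine hδO (Metric.mem_thickening_iff.2 ⟨f x, hf.maps hx, ?_⟩)
    rw [dist_eq_norm, add_sub_cancel_left, norm_smul, Real.norm_of_nonneg ht.1]
    have h1 : ‖g x - f x‖ < δ := by rw [norm_sub_rev]; exact hfg x hx
    calc t * ‖g x - f x‖ ≤ 1 * ‖g x - f x‖ :=
          mul_le_mul_of_nonneg_right ht.2 (norm_nonneg _)
      _ < δ := by rw [one_mul]; exact h1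
  let Fh : E × ℝ → F := fun z => r (f z.1 + z.2 • (g z.1 - f z.1))
  have hFh : ∀ x ∈ X, ∀ t ∈ Icc (0 : ℝ) 1, ContDiffAt ℝ ∞ Fh (x, t) := by
    intro x hx t ht
    have h1 : ContDiffAt ℝ ∞ (fun z : E × ℝ => f z.1 + z.2 • (g z.1 - f z.1)) (x, t) := by
      have e1 : ContDiffAt ℝ ∞ (fun z : E × ℝ => f z.1) (x, t) :=
        ContDiffAt.comp (x, t) (hf.smooth x hx) contDiffAt_fst
      have e2 : ContDiffAt ℝ ∞ (fun z : E × ℝ => g z.1) (x, t) :=
        ContDiffAt.comp (x, t) (hg.smooth x hx) contDiffAt_fst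
      exact e1.add (contDiffAt_snd.smul (e2.sub e1))
    exact ContDiffAt.comp (x, t) (hr.contDiffAt (hO.mem_nhds (hmem x hx t ht))) h1
  have hm : ∀ x ∈ X, ∀ t ∈ Icc (0 : ℝ) 1, Fh (x, t) ∈ Y := fun x hx t ht => hrm (hmem x hx t ht)
  have hs : ∀ t ∈ Icc (0 : ℝ) 1, SMap X Y (fun y => Fh (y, t)) := fun t ht =>
    ⟨fun x hx => ContDiffAt.comp (g := Fh) (f := fun y => (y, t)) x (hFh x hx t ht)
      (contDiffAt_id.prodMk contDiffAt_const),
      fun x hx => hm x hx t ht⟩
  have h0 := hs 0 ⟨le_rfl, zero_le_one⟩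
  have h1 := hs 1 ⟨zero_le_one, le_rfl⟩
  have k0 : H.map hf a = H.map h0 a := H.map_congr' hX hf h0 (fun x hx => by
    change f x = r (f x + (0 : ℝ) • (g x - f x))
    rw [zero_smul, add_zero, hr1 _ (hf.maps hx)]) a
  have k1 : H.map hg a = H.map h1 a := H.map_congr' hX hg h1 (fun x hx => by
    change g x = r (f x + (1 : ℝ) • (g x - f x))
    rw [one_smul, add_sub_cancel, hr1 _ (hg.maps hx)]) a
  rw [k0, k1]
  exact (H.map_homotopy hFh hm h0 h1 a).symm

end Crest.Agent.R208.FG
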