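import Crest.Agent.R208.CW4
import Crest.Agent.R208.SP9

/-! Row 208, block FG (helper586), part FG3: if `P₁`, `P₂` are subfields of `T` with
`range P₁ ∩ range P₂ = 0`, then `c(T) = c(P₁) c(P₂) c(W)` with `W` of the complementary rank. -/

set_option autoImplicit false
set_option linter.unusedSectionVars false

open Set Filter Topology Module Matrix
open scoped ContDiff BigOperators
open Crest.Agent.R208.F Crest.Agent.R208.FI Crest.Agent.R208.CW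

noncomputable section

namespace Crest.Agent.R208.FG

section alg
variable {m : Type*} [Fintype m] [DecidableEq m]

/-- `(1 - P₁) P₂` -/
def tA (P₁ P₂ : Matrix m m ℂ) : Matrix m m ℂ := (1 - P₁) * P₂

/-- left inverse of `tA` on the range of `P₂` -/
def tB (P₁ P₂ : Matrix m m ℂ) : Matrix m m ℂ :=
  Ring.inverse (SP.gram P₂ (tA P₁ P₂)) * (tA P₁ P₂)ᴴ

/-- projection onto `(1 - P₁) (range P₂)` -/
def tQ (P₁ P₂ : Matrix m m ℂ) : Matrix m m ℂ := tA P₁ P₂ * tB P₁ P₂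

variable {T P₁ P₂ : Matrix m m ℂ}

theorem tA_inj (_h2 : P₂ * P₂ = P₂)
    (hinj : ∀ v, P₁.mulVec v = v → P₂.mulVec v = v → v = 0) :
    ∀ v, P₂.mulVec v = v → (tA P₁ P₂).mulVec v = 0 → v = 0 := by
  intro v hv h0
  refine hinj v ?_ hv
  rw [tA, ← Matrix.mulVec_mulVec, hv, Matrix.sub_mulVec, Matrix.one_mulVec, sub_eq_zero] at h0
  exact h0.symm

theorem tA_P2 (h2 : P₂ * P₂ = P₂) : tA P₁ P₂ * P₂ = tA P₁ P₂ := by
  rw [tA, Matrix.mul_assoc, h2]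

theorem tB_tA (h2 : P₂ * P₂ = P₂)
    (hinj : ∀ v, P₁.mulVec v = v → P₂.mulVec v = v → v = 0) : tB P₁ P₂ * tA P₁ P₂ = P₂ := by
  have hu := SP.isUnit_gram (P := P₂) (S := tA P₁ P₂) (tA_inj h2 hinj)
  have hgP : SP.gram P₂ (tA P₁ P₂) * P₂ = (tA P₁ P₂)ᴴ * tA P₁ P₂ := by
    rw [SP.gram, Matrix.add_mul, Matrix.mul_assoc, tA_P2 h2, Matrix.mul_assoc, Matrix.sub_mul,
      Matrix.one_mul, h2, sub_self, Matrix.mul_zero, add_zero]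
  rw [tB, Matrix.mul_assoc, ← hgP, ← Matrix.mul_assoc, Ring.inverse_mul_cancel _ hu, Matrix.one_mul]

theorem tQ_tA (h2 : P₂ * P₂ = P₂)
    (hinj : ∀ v, P₁.mulVec v = v → P₂.mulVec v = v → v = 0) :
    tQ P₁ P₂ * tA P₁ P₂ = tA P₁ P₂ := by
  rw [tQ, Matrix.mul_assoc, tB_tA h2 hinj, tA_P2 h2]

theorem tQ_idem (h2 : P₂ * P₂ = P₂)
    (hinj : ∀ v, P₁.mulVec v = v → P₂.mulVec v = v → v = 0) :
    tQ P₁ P₂ * tQ P₁ P₂ = tQ P₁ P₂ := by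
  conv_lhs => rw [tQ, ← Matrix.mul_assoc]
  have := tQ_tA h2 hinj
  rw [tQ] at this
  rw [this, tQ]

/-- `P₂ ≅ Q` -/
theorem pIso_tQ (h2 : P₂ * P₂ = P₂)
    (hinj : ∀ v, P₁.mulVec v = v → P₂.mulVec v = v → v = 0) :
    SP.PIso P₂ (tQ P₁ P₂) (tA P₁ P₂) (P₂ * tB P₁ P₂) where
  sp := tA_P2 h2
  ps := tQ_tA h2 hinj
  wp := by
    rw [tQ, Matrix.mul_assoc, ← Matrix.mul_assoc (tB P₁ P₂), tB_tA h2 hinj, ← Matrix.mul_assoc, h2]
  pw := by rw [← Matrix.mul_assoc, h2]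
  ws := by rw [Matrix.mul_assoc, tB_tA h2 hinj, h2]
  sw := by rw [← Matrix.mul_assoc, tA_P2 h2, tQ]

theorem P1_tQ (h1 : P₁ * P₁ = P₁) : P₁ * tQ P₁ P₂ = 0 := by
  rw [tQ, tA, ← Matrix.mul_assoc, ← Matrix.mul_assoc, Matrix.mul_sub, Matrix.mul_one, h1, sub_self,
    Matrix.zero_mul, Matrix.zero_mul]

theorem tQ_P1 (h1 : P₁ * P₁ = P₁) (hh : P₁ᴴ = P₁) : tQ P₁ P₂ * P₁ = 0 := by
  have h0 : (tA P₁ P₂)ᴴ * P₁ = 0 := by
    have e : P₁ * tA P₁ P₂ = 0 := by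
      rw [tA, ← Matrix.mul_assoc, Matrix.mul_sub, Matrix.mul_one, h1, sub_self, Matrix.zero_mul]
    have e2 := congrArg Matrix.conjTranspose e
    rwa [conjTranspose_mul, hh, conjTranspose_zero] at e2
  rw [tQ, tB, Matrix.mul_assoc, Matrix.mul_assoc, h0, Matrix.mul_zero, Matrix.mul_zero]

theorem T_tA (a1 : T * P₁ = P₁) (a2 : T * P₂ = P₂) : T * tA P₁ P₂ = tA P₁ P₂ := by
  rw [tA, ← Matrix.mul_assoc, Matrix.mul_sub, Matrix.mul_one, a1, Matrix.sub_mul, a2,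
    Matrix.sub_mul, Matrix.one_mul]

theorem T_tQ (a1 : T * P₁ = P₁) (a2 : T * P₂ = P₂) : T * tQ P₁ P₂ = tQ P₁ P₂ := by
  rw [tQ, ← Matrix.mul_assoc, T_tA a1 a2]

theorem tQ_T (a1 : T * P₁ = P₁) (a2 : T * P₂ = P₂) (hT : Tᴴ = T) :
    tQ P₁ P₂ * T = tQ P₁ P₂ := by
  have h0 : (tA P₁ P₂)ᴴ * T = (tA P₁ P₂)ᴴ := by
    have e2 := congrArg Matrix.conjTranspose (T_tA a1 a2)
    rwa [conjTranspose_mul, hT] at e2
  rw [tQ, tB, Matrix.mul_assoc, Matrix.mul_assoc, h0]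

/-- the complement -/
def tW (T P₁ P₂ : Matrix m m ℂ) : Matrix m m ℂ := T - (P₁ + tQ P₁ P₂)

theorem sum_idem (h1 : P₁ * P₁ = P₁) (hh : P₁ᴴ = P₁) (h2 : P₂ * P₂ = P₂)
    (hinj : ∀ v, P₁.mulVec v = v → P₂.mulVec v = v → v = 0) :
    (P₁ + tQ P₁ P₂) * (P₁ + tQ P₁ P₂) = P₁ + tQ P₁ P₂ := by
  rw [Matrix.add_mul, Matrix.mul_add, Matrix.mul_add, h1, P1_tQ h1, tQ_P1 h1 hh, tQ_idem h2 hinj,
    add_zero, zero_add]

theorem sum_T (a1' : P₁ * T = P₁) (a1 : T * P₁ = P₁) (a2 : T * P₂ = P₂) (hT : Tᴴ = T) :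
    (P₁ + tQ P₁ P₂) * T = P₁ + tQ P₁ P₂ := by
  rw [Matrix.add_mul, a1', tQ_T a1 a2 hT]

theorem T_sum (a1 : T * P₁ = P₁) (a2 : T * P₂ = P₂) :
    T * (P₁ + tQ P₁ P₂) = P₁ + tQ P₁ P₂ := by
  rw [Matrix.mul_add, a1, T_tQ a1 a2]

end alg

section field
variable {E : Type*} [NormedAddCommGroup E] [NormedSpace ℝ E] [FiniteDimensional ℝ E]
  {m : Type*} [Fintype m] [DecidableEq m] {X : Set E} {d : ℕ}

/-- **Whitney formula for two transversal subfields** -/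
theorem cs_three (hX : Sub d X) {T P₁ P₂ : E → Matrix m m ℂ} (hT : IdF X T) (h₁ : IdF X P₁)
    (h₂ : IdF X P₂) (a1 : ∀ x ∈ X, T x * P₁ x = P₁ x) (a1' : ∀ x ∈ X, P₁ x * T x = P₁ x)
    (a2 : ∀ x ∈ X, T x * P₂ x = P₂ x) (hTh : ∀ x ∈ X, (T x)ᴴ = T x)
    (h1h : ∀ x ∈ X, (P₁ x)ᴴ = P₁ x)
    (hinj : ∀ x ∈ X, ∀ v, (P₁ x).mulVec v = v → (P₂ x).mulVec v = v → v = 0) {n r₁ r₂ : ℕ}
    (rT : ∀ x ∈ X, (T x).rank = n) (r1 : ∀ x ∈ X, (P₁ x).rank = r₁)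
    (r2 : ∀ x ∈ X, (P₂ x).rank = r₂) :
    ∃ c : PowerSeries (CW.H X), cs hX hT = cs hX h₁ * cs hX h₂ * c ∧
      ∀ j, n < j + (r₁ + r₂) → PowerSeries.coeff j c = 0 := by
  have sA : ∀ x ∈ X, SM ∞ (fun x => tA (P₁ x) (P₂ x)) x := fun x hx =>
    SP.MSm.mul ((SP.MSm.const 1).sub (h₁.smooth x hx)) (h₂.smooth x hx)
  have sB : ∀ x ∈ X, SM ∞ (fun x => tB (P₁ x) (P₂ x)) x := fun x hx => by
    have hg : SP.MSm ∞ (fun y => SP.gram (P₂ y) (tA (P₁ y) (P₂ y))) x :=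
      (SP.MSm.mul (SP.MSm.conjTranspose (sA x hx)) (sA x hx)).add
        (SP.MSm.mul (SP.MSm.conjTranspose ((SP.MSm.const 1).sub (h₂.smooth x hx)))
          ((SP.MSm.const 1).sub (h₂.smooth x hx)))
    exact SP.MSm.mul (hg.ringInverse (SP.isUnit_gram (tA_inj (h₂.idem x hx) (hinj x hx))))
      (SP.MSm.conjTranspose (sA x hx))
  have sQ : ∀ x ∈ X, SM ∞ (fun x => tQ (P₁ x) (P₂ x)) x := fun x hx =>
    SP.MSm.mul (sA x hx) (sB x hx)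
  have iQ : IdF X (fun x => tQ (P₁ x) (P₂ x)) :=
    ⟨sQ, fun x hx => tQ_idem (h₂.idem x hx) (hinj x hx)⟩
  have iS : IdF X (fun x => P₁ x + tQ (P₁ x) (P₂ x)) :=
    ⟨fun x hx => (h₁.smooth x hx).add (sQ x hx), fun x hx =>
      sum_idem (h₁.idem x hx) (h1h x hx) (h₂.idem x hx) (hinj x hx)⟩
  have eT1 : ∀ x ∈ X, (P₁ x + tQ (P₁ x) (P₂ x)) * T x = P₁ x + tQ (P₁ x) (P₂ x) := fun x hx =>
    sum_T (a1' x hx) (a1 x hx) (a2 x hx) (hTh x hx)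
  have eT2 : ∀ x ∈ X, T x * (P₁ x + tQ (P₁ x) (P₂ x)) = P₁ x + tQ (P₁ x) (P₂ x) := fun x hx =>
    T_sum (a1 x hx) (a2 x hx)
  have iW : IdF X (fun x => tW (T x) (P₁ x) (P₂ x)) := by
    refine ⟨fun x hx => SP.MSm.sub (hT.smooth x hx) ((h₁.smooth x hx).add (sQ x hx)), fun x hx => ?_⟩
    simp only [tW]
    rw [Matrix.sub_mul, Matrix.mul_sub, Matrix.mul_sub, hT.idem x hx, eT1 x hx, eT2 x hx,
      iS.idem x hx, sub_self, sub_zero]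
  refine ⟨cs hX iW, ?_, fun j hj => ?_⟩
  · have e1 := cs_orth hX hT iS iW (fun x hx => by simp only [tW]; rw [add_sub_cancel])
      (fun x hx => by simp only [tW]; rw [Matrix.mul_sub, eT1 x hx, iS.idem x hx, sub_self])
      (fun x hx => by simp only [tW]; rw [Matrix.sub_mul, eT2 x hx, iS.idem x hx, sub_self])
    have e2 := cs_orth hX iS h₁ iQ (fun x _ => rfl) (fun x hx => P1_tQ (h₁.idem x hx))
      (fun x hx => tQ_P1 (h₁.idem x hx) (h1h x hx))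
    have e3 := cs_iso hX h₂ iQ sA fun x hx => ⟨_, pIso_tQ (h₂.idem x hx) (hinj x hx)⟩
    rw [e1, e2, ← e3]
  · rw [coeff_cs]
    refine cc_eq_zero hX iW fun x hx => ?_
    have t1 := rank_eq_trace (iW.idem x hx)
    have t2 := rank_eq_trace (hT.idem x hx)
    have t3 := rank_eq_trace (h₁.idem x hx)
    have t4 := rank_eq_trace (h₂.idem x hx)
    have t5 : (tQ (P₁ x) (P₂ x)).trace = (P₂ x).trace := by
      rw [tQ, Matrix.trace_mul_comm, tB_tA (h₂.idem x hx) (hinj x hx)]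
    have t6 : ((tW (T x) (P₁ x) (P₂ x)).rank : ℂ) + r₁ + r₂ = n := by
      rw [t1, ← rT x hx, ← r1 x hx, ← r2 x hx, t2, t3, t4, tW, Matrix.trace_sub, Matrix.trace_add,
        t5]
      ring
    have t7 : (tW (T x) (P₁ x) (P₂ x)).rank + r₁ + r₂ = n := by exact_mod_cast t6
    change (tW (T x) (P₁ x) (P₂ x)).rank < j
    omega

end field

end Crest.Agent.R208.FG
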