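import Crest.Agent.R208.FG3
import Crest.Agent.R208.FG2b
import Crest.Agent.R208.FG1e
import Crest.Agent.R208.GT5

/-! Row 208, block FG (helper586), part FG3b: on `F ×_M F` off the diagonal `q = q'` the bundle
`T_pM` contains `V_pq ⊕ V_pq'`. -/

set_option autoImplicit false
set_option linter.unusedSectionVars false

open Set Filter Topology Module Matrix
open scoped ContDiff BigOperators RealInnerProductSpace
open Crest.GeometryTopology.Submanifold
open Crest.Agent.R241.DDefs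
open Crest.Agent.R241.D2
open Crest.Agent.R208.F Crest.Agent.R208.FI
open Crest.Agent.R208.CW (SMap IdF SM cs cc integ cls)
open Crest.Agent.R208.GT (bas mM mV)

noncomputable section

namespace Crest.Agent.R208.FG

/-! ### linear algebra -/

theorem cr_mulVec {m : Type*} [Fintype m] {M : Matrix m m ℝ} {v : m → ℂ}
    (h : (SP.cr M).mulVec v = v) :
    (M.mulVec (fun i => (v i).re) = fun i => (v i).re) ∧
      (M.mulVec (fun i => (v i).im) = fun i => (v i).im) := by
  have h1 : ∀ i, ∑ j, (M i j : ℂ) * v j = v i := fun i => congrFun h i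
  constructor
  · funext i
    have := congrArg Complex.re (h1 i)
    rw [Complex.re_sum] at this
    simp only [Complex.re_ofReal_mul] at this
    exact this
  · funext i
    have := congrArg Complex.im (h1 i)
    rw [Complex.im_sum] at this
    simp only [Complex.im_ofReal_mul] at this
    exact this

theorem fix_of_mulVec {N : ℕ} {T : Euc N →L[ℝ] Euc N} {w : Fin N → ℝ}
    (h : (SP.mt (bas N) (bas N) T).mulVec w = w) :
    T ((bas N).equivFun.symm w) = (bas N).equivFun.symm w := by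
  have h1 := SP.mt_mulVec (bas N) (bas N) T ((bas N).equivFun.symm w)
  have h2 : (⇑((bas N).repr ((bas N).equivFun.symm w)) : Fin N → ℝ) = w :=
    (bas N).equivFun.apply_symm_apply w
  rw [h2, h] at h1
  apply (bas N).equivFun.injective
  rw [LinearEquiv.apply_symm_apply]
  exact h1.symm

theorem rank_cr {N : ℕ} {T : Euc N →L[ℝ] Euc N} (hT : ∀ v, T (T v) = T v) :
    (SP.cr (SP.mt (bas N) (bas N) T)).rank = finrank ℝ (LinearMap.range (T : Euc N →ₗ[ℝ] Euc N)) := by
  have hid : T.comp T = T := by ext1 v; exact hT v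
  have h1 : SP.cr (SP.mt (bas N) (bas N) T) * SP.cr (SP.mt (bas N) (bas N) T)
      = SP.cr (SP.mt (bas N) (bas N) T) := by
    rw [← SP.cr_mul, ← SP.mt_comp, hid]
  have h2 := CW.rank_eq_trace h1
  have hp : LinearMap.IsProj (LinearMap.range (T : Euc N →ₗ[ℝ] Euc N))
      (T : Euc N →ₗ[ℝ] Euc N) := by
    refine ⟨fun x => ⟨x, rfl⟩, ?_⟩
    rintro _ ⟨x, rfl⟩
    exact hT x
  have h3 := hp.trace
  have h4 : (SP.cr (SP.mt (bas N) (bas N) T)).trace
      = ((LinearMap.trace ℝ (Euc N) (T : Euc N →ₗ[ℝ] Euc N) : ℝ) : ℂ) := by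
    rw [LinearMap.trace_eq_matrix_trace ℝ (bas N), Matrix.trace, Matrix.trace, Complex.ofReal_sum]
    rfl
  rw [h4, h3] at h2
  exact_mod_cast h2

theorem cr_hermitian {N : ℕ} {T : Euc N →L[ℝ] Euc N} (hT : ∀ v w, ⟪T v, w⟫ = ⟪v, T w⟫) :
    (SP.cr (SP.mt (bas N) (bas N) T))ᴴ = SP.cr (SP.mt (bas N) (bas N) T) := by
  refine Matrix.ext fun i j => ?_
  rw [conjTranspose_apply, SP.cr_apply, SP.cr_apply, GT.mt_bas, GT.mt_bas, ← hT,
    real_inner_comm (bas N i)]
  exact Complex.conj_ofReal _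

theorem cr_mul_of {N : ℕ} {T P : Euc N →L[ℝ] Euc N} (h : ∀ v, T (P v) = P v) :
    SP.cr (SP.mt (bas N) (bas N) T) * SP.cr (SP.mt (bas N) (bas N) P)
      = SP.cr (SP.mt (bas N) (bas N) P) := by
  have hid : T.comp P = P := by ext1 v; exact h v
  rw [← SP.cr_mul, ← SP.mt_comp, hid]

theorem cr_mul_of' {N : ℕ} {T P : Euc N →L[ℝ] Euc N} (h : ∀ v, P (T v) = P v) :
    SP.cr (SP.mt (bas N) (bas N) P) * SP.cr (SP.mt (bas N) (bas N) T)
      = SP.cr (SP.mt (bas N) (bas N) P) := by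
  have hid : P.comp T = P := by ext1 v; exact h v
  rw [← SP.cr_mul, ← SP.mt_comp, hid]

/-! ### geometry -/

variable {n N k : ℕ} {κ : ℝ} {S : Set (Euc N)} {G : Geo n N κ S}
  {PV : Euc N × Euc N → Euc N →L[ℝ] Euc N}

theorem inner_P {x : Euc N} (hx : x ∈ S) (v w : Euc N) : ⟪G.P x v, w⟫ = ⟪v, G.P x w⟫ := by
  rw [G.P_eq x hx]
  exact Submodule.inner_starProjection_left_eq_right _ _ _

theorem range_P {x : Euc N} (hx : x ∈ S) :
    LinearMap.range (G.P x : Euc N →ₗ[ℝ] Euc N) = G.T x := by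
  apply le_antisymm
  · rintro _ ⟨v, rfl⟩; exact P_mem G hx
  · intro v hv; exact ⟨v, (P_eq_self G hx).1 hv⟩

theorem range_PV (hV : GT.VField G PV) {z : Euc N × Euc N} (hz : z ∈ GT.FF S) :
    LinearMap.range (PV z : Euc N →ₗ[ℝ] Euc N) = GT.Vs G z.1 z.2 := by
  apply le_antisymm
  · rintro _ ⟨v, rfl⟩; exact hV.PV_mem (p := z.1) (q := z.2) hz v
  · intro v hv; exact ⟨v, hV.PV_eq_self (p := z.1) (q := z.2) hz hv⟩

/-- `V_pq ∩ V_pq' = 0` for `q ≠ q'` -/
theorem Vs_inter (h : GT.Bla G k) {p q q' v : Euc N} (hz : (p, q) ∈ GT.FF S)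
    (hz' : (p, q') ∈ GT.FF S) (hne : q ≠ q') (hv : v ∈ GT.Vs G p q) (hv' : v ∈ GT.Vs G p q') :
    v = 0 := by
  by_contra h0
  have h1 := h.Exp_pi hz ((GT.Vs G p q).smul_mem (‖v‖⁻¹ : ℝ) hv) (GT.unit_of h0)
  have h2 := h.Exp_pi hz' ((GT.Vs G p q').smul_mem (‖v‖⁻¹ : ℝ) hv') (GT.unit_of h0)
  exact hne (h1.symm.trans h2)

/-- off the diagonal -/
def offD (N : ℕ) : Set ((Euc N × Euc N) × (Euc N × Euc N)) := {z | z.1.2 ≠ z.2.2}

theorem isOpen_offD : IsOpen (offD N) := by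
  have h1 : Continuous fun z : (Euc N × Euc N) × (Euc N × Euc N) => z.1.2 :=
    continuous_snd.comp continuous_fst
  have h2 : Continuous fun z : (Euc N × Euc N) × (Euc N × Euc N) => z.2.2 :=
    continuous_snd.comp continuous_snd
  exact isOpen_ne_fun h1 h2

/-- `T_pM` on `FFF` -/
theorem idf_TMM : IdF (FFF S) (fun z => mM G z.1.1) :=
  ((GT.idf_mM (G := G)).comp smap_fst).comp smap_1

theorem idf_V1 (hV : GT.VField G PV) : IdF (FFF S) (fun z => mV PV z.1) :=
  (GT.idf_mV hV).comp smap_1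

theorem idf_V2 (hV : GT.VField G PV) : IdF (FFF S) (fun z => mV PV z.2) :=
  (GT.idf_mV hV).comp smap_2

/-- **the Whitney formula off the diagonal** -/
theorem cs_off (h : GT.Bla G k) (hV : GT.VField G PV) {d : ℕ} {U : Set _}
    (hUo : U ⊆ offD N) (hX : Sub d (FFF S ∩ U)) :
    ∃ c : PowerSeries (CW.H (FFF S ∩ U)),
      cs hX ((idf_TMM (G := G)).comp (smap_incl' (X₁ := FFF S ∩ U) inter_subset_left))
        = cs hX ((idf_V1 hV).comp (smap_incl' (X₁ := FFF S ∩ U) inter_subset_left))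
          * cs hX ((idf_V2 hV).comp (smap_incl' (X₁ := FFF S ∩ U) inter_subset_left)) * c ∧
      ∀ j, n < j + (k + k) → PowerSeries.coeff j c = 0 := by
  have hp : ∀ z ∈ FFF S ∩ U, z.1.1 ∈ S := fun z hz => hz.1.1.1
  have e0 : ∀ z ∈ FFF S ∩ U, z.1.1 = z.2.1 := fun z hz => hz.1.2.2
  have f1 : ∀ z ∈ FFF S ∩ U, (z.1.1, z.1.2) ∈ GT.FF S := fun z hz => hz.1.1
  have f2 : ∀ z ∈ FFF S ∩ U, (z.2.1, z.2.2) ∈ GT.FF S := fun z hz => hz.1.2.1
  have f2' : ∀ z ∈ FFF S ∩ U, (z.1.1, z.2.2) ∈ GT.FF S := fun z hz => by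
    rw [e0 z hz]; exact f2 z hz
  refine cs_three hX _ _ _ ?_ ?_ ?_ ?_ ?_ ?_ ?_ ?_ ?_
  · intro z hz
    refine cr_mul_of (T := G.P z.1.1) (P := PV z.1) fun v => ?_
    exact (P_eq_self G (hp z hz)).1 (h.Vs_le (f1 z hz) (hV.PV_mem (f1 z hz) v))
  · intro z hz
    refine cr_mul_of' (T := G.P z.1.1) (P := PV z.1) fun v => ?_
    have h1 : PV z.1 (v - G.P z.1.1 v) = 0 := by
      refine hV.PV_eq_zero (p := z.1.1) (q := z.1.2) (f1 z hz) ?_
      rw [Submodule.mem_orthogonal]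
      intro u hu
      have h2 : G.P z.1.1 u = u := (P_eq_self G (hp z hz)).1 (h.Vs_le (f1 z hz) hu)
      rw [inner_sub_right, ← inner_P (hp z hz), h2, sub_self]
    rw [map_sub, sub_eq_zero] at h1
    exact h1.symm
  · intro z hz
    refine cr_mul_of (T := G.P z.1.1) (P := PV z.2) fun v => ?_
    have h1 : PV z.2 v ∈ G.T z.2.1 := h.Vs_le (f2 z hz) (hV.PV_mem (f2 z hz) v)
    rw [← e0 z hz] at h1
    exact (P_eq_self G (hp z hz)).1 h1
  · intro z hz
    exact cr_hermitian (T := G.P z.1.1) fun v w => inner_P (hp z hz) v w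
  · intro z hz
    exact cr_hermitian (T := PV z.1) fun v w => hV.inner_PV (p := z.1.1) (q := z.1.2) (f1 z hz) v w
  · intro z hz v h1 h2
    obtain ⟨r1, i1⟩ := cr_mulVec (M := SP.mt (bas N) (bas N) (PV z.1)) h1
    obtain ⟨r2, i2⟩ := cr_mulVec (M := SP.mt (bas N) (bas N) (PV z.2)) h2
    have key : ∀ w : Fin N → ℝ, (SP.mt (bas N) (bas N) (PV z.1)).mulVec w = w →
        (SP.mt (bas N) (bas N) (PV z.2)).mulVec w = w → w = 0 := by
      intro w g1 g2
      have g3 := fix_of_mulVec g1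
      have g4 := fix_of_mulVec g2
      have g5 : (bas N).equivFun.symm w = 0 := by
        refine Vs_inter h (f1 z hz) (f2' z hz) (hUo hz.2) ?_ ?_
        · rw [← g3]; exact hV.PV_mem (f1 z hz) _
        · rw [← g4, e0 z hz]; exact hV.PV_mem (f2 z hz) _
      have g6 := congrArg (bas N).equivFun g5
      rwa [LinearEquiv.apply_symm_apply, map_zero] at g6
    have k1 := key _ r1 r2
    have k2 := key _ i1 i2
    funext i
    exact Complex.ext (congrFun k1 i) (congrFun k2 i)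
  · intro z hz
    refine (rank_cr (T := G.P z.1.1) fun v => P_idem G (hp z hz) v).trans ?_
    rw [range_P (hp z hz)]
    exact G.finrank_T _ (hp z hz)
  · intro z hz
    refine (rank_cr (T := PV z.1) fun v => hV.PV_idem (p := z.1.1) (q := z.1.2) (f1 z hz) v).trans ?_
    rw [range_PV hV (f1 z hz)]
    exact h.finrank_Vs (f1 z hz)
  · intro z hz
    refine (rank_cr (T := PV z.2) fun v => hV.PV_idem (p := z.2.1) (q := z.2.2) (f2 z hz) v).trans ?_
    rw [range_PV hV (f2 z hz)]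
    exact h.finrank_Vs (f2 z hz)

/-- classes which vanish off the diagonal are killed by `q^*x - q'^*x` -/
theorem sub_mul_eq_zero (h : GT.Bla G k) {s : CW.H (FFF S)}
    (hs : CW.H.map (smap_incl' (X₁ := FFF S ∩ offD N) inter_subset_left) s = 0) (x : CW.H S) :
    (CW.H.map smap_1 (xq x) - CW.H.map smap_2 (xq x)) * s = 0 := by
  obtain ⟨δ, hδ, hclose⟩ := exists_close.{0} (E := (Euc N × Euc N) × (Euc N × Euc N))
    (GP.clo_S h.bl)
  have hk := h.ty.le
  have hF := clo_FFF h (d := 2 * n - k) (by omega)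
  set U : Set ((Euc N × Euc N) × (Euc N × Euc N)) := {z | ‖z.1.2 - z.2.2‖ < δ} with hU
  have hUo : IsOpen U := by
    have h1 : Continuous fun z : (Euc N × Euc N) × (Euc N × Euc N) => ‖z.1.2 - z.2.2‖ :=
      ((continuous_snd.comp continuous_fst).sub (continuous_snd.comp continuous_snd)).norm
    exact isOpen_lt h1 continuous_const
  have hsub : Sub _ (FFF S ∩ U) := hF.sub.inter_open hUo
  refine mul_eq_zero_of_cover hF.compact.isClosed hUo (isOpen_offD (N := N)) ?_ ?_ hs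
  · intro z _
    by_cases h1 : z.1.2 = z.2.2
    · left
      change ‖z.1.2 - z.2.2‖ < δ
      rw [h1, sub_self, norm_zero]; exact hδ
    · right; exact h1
  · rw [map_sub, sub_eq_zero, xq, CW.H.map_map, CW.H.map_map, CW.H.map_map, CW.H.map_map]
    exact hclose hsub _ _ (fun z hz => hz.2) x

end Crest.Agent.R208.FG
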