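import Crest.Agent.R208.FG3b

/-! Row 208, block FG (helper586), part FG3c: `(x₂ - x₂') · c_j(TM - V - V') = 0` for
`j > n - 2k`. -/

set_option autoImplicit false
set_option linter.unusedSectionVars false

open Set Filter Topology Module Matrix
open scoped ContDiff BigOperators RealInnerProductSpace
open Crest.GeometryTopology.Submanifold
open Crest.Agent.R241.DDefs
open Crest.Agent.R241.D2
open Crest.Agent.R208.F Crest.Agent.R208.FI
open Crest.Agent.R208.CW (SMap IdF SM cs cc integ cls)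
open Crest.Agent.R208.GT (bas mM mV)

noncomputable section

namespace Crest.Agent.R208.FG

variable {n N k : ℕ} {κ : ℝ} {S : Set (Euc N)} {G : Geo n N κ S}
  {PV : Euc N × Euc N → Euc N →L[ℝ] Euc N}

theorem isUnit_cs {E : Type*} [NormedAddCommGroup E] [NormedSpace ℝ E] [FiniteDimensional ℝ E]
    {m : Type*} [Fintype m] [DecidableEq m] {X : Set E} {d : ℕ} (hX : Sub d X)
    {Q : E → Matrix m m ℂ} (hQ : IdF X Q) : IsUnit (cs hX hQ) := by
  rw [PowerSeries.isUnit_iff_constantCoeff, ← PowerSeries.coeff_zero_eq_constantCoeff_apply,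
    CW.coeff_cs, CW.cc_zero]
  exact isUnit_one

/-- the pull-back `H S → H (FFF S)` along `p` -/
def mp (S : Set (Euc N)) : CW.H S →ₐ[ℂ] CW.H (FFF S) :=
  (CW.H.map smap_1).comp (CW.H.map smap_fst)

/-- **vanishing of the high Chern classes of `TM - V - V'` times `x₂ - x₂'`** -/
theorem mul_coeff_eq_zero (h : GT.Bla G k) (hV : GT.VField G PV) (hS : Sub n S) {dF : ℕ}
    (hF : Sub dF (GT.FF S)) {σ : PowerSeries (CW.H (FFF S))}
    (hσ : σ * (cs hF (GT.idf_mV hV)).map (CW.H.map (smap_1 (S := S)) : CW.H (GT.FF S) →+* CW.H (FFF S))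
        * (cs hF (GT.idf_mV hV)).map (CW.H.map (smap_2 (S := S)) : CW.H (GT.FF S) →+* CW.H (FFF S))
      = (cs hS (GT.idf_mM (G := G))).map (mp S : CW.H S →+* CW.H (FFF S)))
    {j : ℕ} (hj : n < j + (k + k)) (x : CW.H S) :
    (CW.H.map smap_1 (xq x) - CW.H.map smap_2 (xq x)) * PowerSeries.coeff j σ = 0 := by
  refine sub_mul_eq_zero h ?_ x
  have hk := h.ty.le
  have hFF := (clo_FFF h (d := 2 * n - k) (by omega)).sub
  have hX : Sub _ (FFF S ∩ offD N) := hFF.inter_open isOpen_offD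
  obtain ⟨c, hc, hc0⟩ := cs_off h hV (U := offD N) (le_refl _) hX
  set i := CW.H.map (smap_incl' (X₁ := FFF S ∩ offD N) (X₂ := FFF S) inter_subset_left) with hi
  have e1 : ((cs hF (GT.idf_mV hV)).map
      (CW.H.map (smap_1 (S := S)) : CW.H (GT.FF S) →+* CW.H (FFF S))).map (i : CW.H (FFF S) →+* CW.H (FFF S ∩ offD N))
      = cs hX ((idf_V1 hV).comp (smap_incl' (X₁ := FFF S ∩ offD N) inter_subset_left)) := by
    rw [CW.cs_map hFF hF smap_1 (GT.idf_mV hV)]
    exact CW.cs_map hX hFF _ (idf_V1 hV)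
  have e2 : ((cs hF (GT.idf_mV hV)).map
      (CW.H.map (smap_2 (S := S)) : CW.H (GT.FF S) →+* CW.H (FFF S))).map (i : CW.H (FFF S) →+* CW.H (FFF S ∩ offD N))
      = cs hX ((idf_V2 hV).comp (smap_incl' (X₁ := FFF S ∩ offD N) inter_subset_left)) := by
    rw [CW.cs_map hFF hF smap_2 (GT.idf_mV hV)]
    exact CW.cs_map hX hFF _ (idf_V2 hV)
  have e3 : ((cs hS (GT.idf_mM (G := G))).map (mp S : CW.H S →+* CW.H (FFF S))).map (i : CW.H (FFF S) →+* CW.H (FFF S ∩ offD N))
      = cs hX ((idf_TMM (G := G)).comp (smap_incl' (X₁ := FFF S ∩ offD N) inter_subset_left)) := by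
    have e4 : (cs hS (GT.idf_mM (G := G))).map (mp S : CW.H S →+* CW.H (FFF S))
        = cs hFF (idf_TMM (G := G)) := by
      have e5 := CW.cs_map hF hS smap_fst (GT.idf_mM (G := G))
      have e6 := CW.cs_map hFF hF smap_1 ((GT.idf_mM (G := G)).comp smap_fst)
      rw [← e5] at e6
      refine Eq.trans ?_ e6
      refine PowerSeries.ext fun a => ?_
      rw [PowerSeries.coeff_map, PowerSeries.coeff_map, PowerSeries.coeff_map]
      rfl
    rw [e4]
    exact CW.cs_map hX hFF _ (idf_TMM (G := G))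
  have e7 := congrArg (PowerSeries.map (i : CW.H (FFF S) →+* CW.H (FFF S ∩ offD N))) hσ
  rw [map_mul, map_mul, e1, e2, e3, hc] at e7
  have hu := (isUnit_cs hX ((idf_V1 hV).comp (smap_incl' (X₁ := FFF S ∩ offD N)
    inter_subset_left))).mul (isUnit_cs hX ((idf_V2 hV).comp (smap_incl' (X₁ := FFF S ∩ offD N)
    inter_subset_left)))
  have e8 : PowerSeries.map (i : CW.H (FFF S) →+* CW.H (FFF S ∩ offD N)) σ = c := by
    refine hu.mul_left_cancel ?_
    rw [← e7]; ring
  have e9 := congrArg (PowerSeries.coeff j) e8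
  rw [hc0 j hj, PowerSeries.coeff_map] at e9
  exact e9

end Crest.Agent.R208.FG
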