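import Crest.Agent.R208.ClosedForm365K
import Mathlib.RingTheory.PowerSeries.Expand
import Mathlib.Analysis.Complex.Polynomial.Basic

/-! Row 208, block FG (helper586), part FG4: the closed form of `c(TM ⊗ ℂ)`: algebra. -/

set_option autoImplicit false
set_option linter.unusedSectionVars false

open PowerSeries
open scoped BigOperators

noncomputable section

namespace Crest.Agent.R208.FG

open Crest.Agent.R208.CFK (rho chi closed_form)

section num
variable {H : Type*} [CommRing H] [Algebra ℂ H] {m : ℕ} {x y z : H} {I : H →ₗ[ℂ] ℂ}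

theorem rho_top {m : ℕ} : rho ℂ m m = -1 := by simp [rho]

theorem rho_pred {m : ℕ} (hm : 1 ≤ m) : rho ℂ m (m - 1) = 1 := by
  simp [rho, Nat.sub_add_cancel hm]

theorem rho_ne {m b : ℕ} (h1 : b ≠ m) (h2 : b + 1 ≠ m) : rho ℂ m b = 0 := by
  simp [rho, h1, h2]

/-- `y^m = - ∑_{i ≥ 1} x^i y^(m-i)` -/
theorem top_pow (_hm : 1 ≤ m) (hxy : ∑ i ∈ Finset.range (m + 1), x ^ i * y ^ (m - i) = 0) :
    y ^ m = - ∑ i ∈ Finset.range m, x ^ (i + 1) * y ^ (m - (i + 1)) := by
  rw [Finset.sum_range_succ'] at hxy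
  rw [pow_zero, one_mul, Nat.sub_zero] at hxy
  rw [← sub_eq_zero, sub_neg_eq_add, add_comm, hxy]

/-- all numbers from one -/
theorem numbers (hm : 2 ≤ m) (hx : x ^ (m + 1) = 0) (hy : y ^ (m + 1) = 0) (hz : z ^ (m + 1) = 0)
    (hxy : ∑ i ∈ Finset.range (m + 1), x ^ i * y ^ (m - i) = 0)
    (hxz : ∑ i ∈ Finset.range (m + 1), x ^ i * z ^ (m - i) = 0) {a b c : ℕ}
    (habc : a + b + c = 3 * m - 2) :
    I (x ^ a * y ^ b * z ^ c) = I (x ^ m * y ^ (m - 1) * z ^ (m - 1)) * rho ℂ m b * rho ℂ m c := by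
  set N := I (x ^ m * y ^ (m - 1) * z ^ (m - 1)) with hN
  have pz : ∀ {w : H}, w ^ (m + 1) = 0 → ∀ j, m < j → w ^ j = 0 := fun {w} hw j hj => by
    have : j = (m + 1) + (j - (m + 1)) := by omega
    rw [this, pow_add, hw, zero_mul]
  -- case `b, c ≤ m - 1`
  have h1 : ∀ a b c : ℕ, a + b + c = 3 * m - 2 → b < m → c < m →
      I (x ^ a * y ^ b * z ^ c) = N * rho ℂ m b * rho ℂ m c := by
    intro a b c habc hb hc
    rcases lt_or_ge m a with ha | ha
    · rw [pz hx a ha, zero_mul, zero_mul, map_zero]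
      by_cases hb' : b + 1 = m
      · have hc' : c + 1 ≠ m := by omega
        rw [rho_ne (by omega) hc', mul_zero]
      · rw [rho_ne (by omega) hb', mul_zero, zero_mul]
    · have hb' : b = m - 1 := by omega
      have hc' : c = m - 1 := by omega
      have ha' : a = m := by omega
      subst hb' hc'
      rw [ha', rho_pred (by omega), mul_one, mul_one]
  -- case `c ≤ m - 1`
  have h2 : ∀ a b c : ℕ, a + b + c = 3 * m - 2 → c < m →
      I (x ^ a * y ^ b * z ^ c) = N * rho ℂ m b * rho ℂ m c := by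
    intro a b c habc hc
    rcases lt_trichotomy b m with hb | hb | hb
    · exact h1 a b c habc hb hc
    · subst hb
      have e1 : x ^ a * y ^ b * z ^ c
          = - ∑ i ∈ Finset.range b, x ^ (a + (i + 1)) * y ^ (b - (i + 1)) * z ^ c := by
        rw [top_pow (by omega) hxy, mul_neg, neg_mul, Finset.mul_sum, Finset.sum_mul]
        congr 1
        exact Finset.sum_congr rfl fun i _ => by rw [pow_add]; ring
      rw [e1, map_neg, map_sum, Finset.sum_congr rfl fun i hi => h1 (a + (i + 1)) (b - (i + 1)) c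
        (by have := Finset.mem_range.1 hi; omega) (by omega) hc]
      rw [Finset.sum_eq_single 0]
      · rw [zero_add, rho_pred (by omega), rho_top]; ring
      · intro i hi hi0
        have := Finset.mem_range.1 hi
        rw [rho_ne (by omega) (by omega), mul_zero, zero_mul]
      · intro h0
        exact absurd (Finset.mem_range.2 (by omega)) h0
    · rw [pz hy b hb, mul_zero, zero_mul, map_zero, rho_ne (by omega) (by omega), mul_zero, zero_mul]
  rcases lt_trichotomy c m with hc | hc | hc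
  · exact h2 a b c habc hc
  · subst hc
    have e1 : x ^ a * y ^ b * z ^ c
        = - ∑ i ∈ Finset.range c, x ^ (a + (i + 1)) * y ^ b * z ^ (c - (i + 1)) := by
      rw [top_pow (by omega) hxz, mul_neg, Finset.mul_sum]
      congr 1
      exact Finset.sum_congr rfl fun i _ => by rw [pow_add]; ring
    rw [e1, map_neg, map_sum, Finset.sum_congr rfl fun i hi => h2 (a + (i + 1)) b (c - (i + 1))
      (by have := Finset.mem_range.1 hi; omega) (by omega)]
    rw [Finset.sum_eq_single 0]
    · rw [zero_add, rho_pred (by omega), rho_top]; ring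
    · intro i hi hi0
      have := Finset.mem_range.1 hi
      rw [rho_ne (b := c - (i + 1)) (by omega) (by omega), mul_zero]
    · intro h0
      exact absurd (Finset.mem_range.2 (by omega)) h0
  · rw [pz hz c hc, mul_zero, map_zero, rho_ne (b := c) (by omega) (by omega), mul_zero]

/-- the total class of `V`, graded by `t = X`, with a sign or scale `e` -/
def chiE (l : ℕ) (L e : ℂ) (x y : H) : H⟦X⟧ :=
  1 + C (L • (x + y)) * X ^ l + C (e • (x - y) ^ 2) * X ^ (2 * l)

theorem chiE_expand {l : ℕ} (hl : l ≠ 0) (L e : ℂ) (x y : H) :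
    chiE l L e x y = expand l hl (chiE 1 L e x y) := by
  rw [chiE, chiE]
  simp only [map_add, map_mul, map_one, map_pow, expand_C, expand_X, pow_one, mul_one]
  rw [← pow_mul, mul_comm 2 l]

theorem chiE_eq_chi {L e s : ℂ} (hs : s ≠ 0) (hse : s ^ 2 = e) (x y : H) :
    chiE 1 L e x y = chi (L / s) (s • x) (s • y) := by
  rw [chiE, chi, pow_one, mul_one]
  have e1 : (L / s) • (s • x + s • y) = L • (x + y) := by
    rw [← smul_add, smul_smul, div_mul_cancel₀ L hs]
  have e2 : (s • x - s • y) ^ 2 = e • (x - y) ^ 2 := by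
    rw [← smul_sub, smul_pow, hse]
  rw [e1, e2]

/-- **the closed form, algebra** -/
theorem closed_alg {l : ℕ} (hl : l ≠ 0) (hm : 2 ≤ m) {L e : ℂ} (he : e ≠ 0)
    (hx : x ^ (m + 1) = 0) (hy : y ^ (m + 1) = 0) (hz : z ^ (m + 1) = 0)
    (hxy : ∑ i ∈ Finset.range (m + 1), x ^ i * y ^ (m - i) = 0)
    (hxz : ∑ i ∈ Finset.range (m + 1), x ^ i * z ^ (m - i) = 0)
    (hN : I (x ^ m * y ^ (m - 1) * z ^ (m - 1)) ≠ 0) {p : ℕ → ℂ} (hp0 : p 0 = 1)
    {P : H⟦X⟧} (hP : ∀ j, coeff j P = if l ∣ j then p (j / l) • x ^ (j / l) else 0)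
    (hσ : ∀ σ : H⟦X⟧, σ * chiE l L e x y * chiE l L e x z = P →
      ∀ j, 2 * l * m < j + (2 * l + 2 * l) → (y - z) * coeff j σ = 0) :
    ∀ i ≤ m, coeff i (PowerSeries.mk p * (1 + C (2 * L) * X))
      = coeff i ((1 + C L * X + C e * X ^ 2) ^ (m + 1)) := by
  obtain ⟨s, hs2⟩ := IsAlgClosed.exists_pow_nat_eq e (n := 2) (by norm_num)
  have hs : s ≠ 0 := by
    rintro rfl
    apply he
    rw [← hs2]; ring
  set x' := s • x with hx'
  set y' := s • y with hy'
  set z' := s • z with hz'
  -- the series in `E = t^l`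
  have hu : ∀ w : H, IsUnit (chiE 1 L e x w) := fun w => by
    rw [PowerSeries.isUnit_iff_constantCoeff, chiE]
    simp
  obtain ⟨u, hu1⟩ := (hu y).mul (hu z)
  set PE : H⟦X⟧ := PowerSeries.mk fun i => p i • x ^ i with hPE
  set σE : H⟦X⟧ := PE * ↑(u⁻¹) with hσE
  have hσE1 : σE * chiE 1 L e x y * chiE 1 L e x z = PE := by
    rw [mul_assoc, ← hu1, hσE, mul_assoc, Units.inv_mul, mul_one]
  have hPt : expand l hl PE = P := by
    refine PowerSeries.ext fun j => ?_
    rw [coeff_expand, hP, hPE]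
    split_ifs
    · rw [coeff_mk]
    · rfl
  have hvan : ∀ i, 2 * m - 4 < i → (y - z) * coeff i σE = 0 := by
    intro i hi
    have h1 := hσ (expand l hl σE) (by
      rw [chiE_expand hl, chiE_expand hl, ← map_mul, ← map_mul, hσE1, hPt]) (l * i) (by
      have h2 : 2 * m < i + 4 := by omega
      have h3 : l * (2 * m) < l * (i + 4) := Nat.mul_lt_mul_of_pos_left h2 (Nat.pos_of_ne_zero hl)
      nlinarith)
    rwa [coeff_expand_mul] at h1
  have hpow : ∀ {w : H}, w ^ (m + 1) = 0 → (s • w) ^ (m + 1) = 0 := fun {w} hw => by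
    rw [smul_pow, hw, smul_zero]
  have hI : ∀ a b c, a + b + c = 3 * m - 2 → I (x' ^ a * y' ^ b * z' ^ c)
      = (s ^ (3 * m - 2) * I (x ^ m * y ^ (m - 1) * z ^ (m - 1))) * rho ℂ m b * rho ℂ m c := by
    intro a b c habc
    have e1 : x' ^ a * y' ^ b * z' ^ c = s ^ (3 * m - 2) • (x ^ a * y ^ b * z ^ c) := by
      rw [hx', hy', hz', smul_pow, smul_pow, smul_pow, ← habc, pow_add, pow_add]
      simp only [smul_mul_assoc, mul_smul_comm, smul_smul]
      congr 1
      ring
    rw [e1, map_smul, numbers hm hx hy hz hxy hxz habc, smul_eq_mul]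
    ring
  have key := closed_form (K := ℂ) hm (L / s) (s ^ (3 * m - 2) * I (x ^ m * y ^ (m - 1) * z ^ (m - 1)))
    (mul_ne_zero (pow_ne_zero _ hs) hN) (x := x') (y := y') (z := z') (I := I) (hpow hx) (hpow hy)
    (hpow hz) hI (fun i => p i / s ^ i) (by simp [hp0]) σE
    (by
      rw [← chiE_eq_chi hs hs2, ← chiE_eq_chi hs hs2, hσE1, hPE]
      congr 1
      funext i
      rw [hx', smul_pow, smul_smul, div_mul_cancel₀ _ (pow_ne_zero _ hs)])
    (fun i h1 hi => by
      have h2 : (y' - z') * z' * coeff (2 * m - 4 + i) σE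
          = s • (z' * ((y - z) * coeff (2 * m - 4 + i) σE)) := by
        rw [hy', hz', ← smul_sub, smul_mul_assoc, smul_mul_assoc]
        congr 1
        ring
      rw [h2, hvan _ (by omega), mul_zero, smul_zero, mul_zero, map_zero])
  intro i hi
  have h1 := key i hi
  have h2 := congrArg (fun c => s ^ i * c) h1
  simp only [← coeff_rescale] at h2
  have r1 : rescale s (PowerSeries.mk (fun i => p i / s ^ i) * (1 + C (2 * (L / s)) * X))
      = PowerSeries.mk p * (1 + C (2 * L) * X) := by
    rw [map_mul, rescale_mk]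
    congr 1
    · congr 1
      funext i
      rw [mul_comm, div_mul_cancel₀ _ (pow_ne_zero _ hs)]
    · rw [map_add, map_one, map_mul, rescale_X]
      congr 1
      have : rescale s (C (2 * (L / s))) = C (2 * (L / s)) := by
        refine PowerSeries.ext fun n => ?_
        rw [coeff_rescale, coeff_C]
        split_ifs with h
        · rw [h, pow_zero, one_mul]
        · rw [mul_zero]
      rw [this, ← mul_assoc, ← map_mul]
      congr 2
      field_simp
  have r2 : rescale s ((1 + C (L / s) * X + X ^ 2) ^ (m + 1))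
      = (1 + C L * X + C e * X ^ 2) ^ (m + 1) := by
    rw [map_pow]
    congr 1
    have : rescale s (C (L / s)) = C (L / s) := by
      refine PowerSeries.ext fun n => ?_
      rw [coeff_rescale, coeff_C]
      split_ifs with h
      · rw [h, pow_zero, one_mul]
      · rw [mul_zero]
    rw [map_add, map_add, map_one, map_mul, map_pow, rescale_X, this, ← mul_assoc, ← map_mul,
      div_mul_cancel₀ _ hs, mul_pow, ← map_pow, hs2]
  rwa [r1, r2] at h2

end num

end Crest.Agent.R208.FG
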