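import Crest.Agent.R208.T3b
import Crest.Agent.R208.T2c

/-! Row 208, block T (helper316).  T3c: the dual class `xM` of the cut locus and (B4). -/

set_option autoImplicit false
set_option linter.unusedSectionVars false

open MeasureTheory Set Filter Topology Module
open scoped ContDiff
open Crest.Agent.R208.F Crest.Agent.R208.FI Crest.Agent.R208.CW

noncomputable section

namespace Crest.Agent.R208.T

universe u w

section tube
variable {E : Type u} {H : Type w} [NormedAddCommGroup E] [NormedSpace ℝ E] [FiniteDimensional ℝ E]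
  [NormedAddCommGroup H] [InnerProductSpace ℝ H] [FiniteDimensional ℝ H]
  {S C U : Set E} {p : E} {P₀ : H →L[ℝ] H} {r ρ : ℝ} {Φ Ψ : E × H → E} {Λ Gt : E → E × H} {j n : ℕ}
  {P : E → H →L[ℝ] H} {k : ℕ} {m : ℕ} {e : E → Ext E} {τ : E × H → Ext (E × H)}

/-- the tube around `C = C_p`: `S \ {p}` is the open disc bundle of radius `ρ` of `P` over `C`. -/
structure Tube (S C : Set E) (p : E) (P : E → H →L[ℝ] H) (ρ : ℝ) (Ψ : E × H → E)
    (Gt : E → E × H) : Prop where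
  CS : C ⊆ S \ {p}
  sΨ : SMap (Tot C P ∩ {z | ‖z.2‖ < ρ}) (S \ {p}) Ψ
  sG : SMap (S \ {p}) (Tot C P ∩ {z | ‖z.2‖ < ρ}) Gt
  ΨG : ∀ q ∈ S \ {p}, Ψ (Gt q) = q
  Ψ0 : ∀ q ∈ C, Ψ (q, 0) = q
  G0 : ∀ q ∈ C, Gt q = (q, 0)
  far : ∃ V, IsOpen V ∧ p ∈ V ∧ ∀ q ∈ S ∩ V, q ≠ p → 3 < ‖(Gt q).2‖

theorem Tube.coh_zero (h : Tube S C p P ρ Ψ Gt) {b : E → Ext E} (hb : Sm S b) (hc : Cl S b)
    (h0 : Coh C b 0) : Coh (S \ {p}) b 0 := by
  have hm : ∀ q ∈ S \ {p}, ∀ t ∈ Icc (0 : ℝ) 1, (((Gt q).1, t • (Gt q).2) : E × H) ∈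
      Tot C P ∩ {z | ‖z.2‖ < ρ} := by
    intro q hq t ht
    obtain ⟨⟨h1, h2⟩, h3⟩ := h.sG.maps hq
    refine ⟨⟨h1, ?_⟩, ?_⟩
    · change P (Gt q).1 (t • (Gt q).2) = t • (Gt q).2
      rw [map_smul, h2]
    · change ‖t • (Gt q).2‖ < ρ
      rw [norm_smul, Real.norm_of_nonneg ht.1]
      have h4 : ‖(Gt q).2‖ < ρ := h3
      have := mul_le_mul_of_nonneg_right ht.2 (norm_nonneg (Gt q).2)
      linarith
  have hsm : ∀ q ∈ S \ {p}, ∀ t ∈ Icc (0 : ℝ) 1, ContDiffAt ℝ ∞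
      (fun z : E × ℝ => Ψ ((Gt z.1).1, z.2 • (Gt z.1).2)) (q, t) := by
    intro y hy t ht
    have a1 : ContDiffAt ℝ ∞ (fun q : E × ℝ => Gt q.1) (y, t) :=
      ContDiffAt.comp (g := Gt) (f := fun q : E × ℝ => q.1) (y, t) (h.sG.smooth y hy) (by fun_prop)
    have a2 : ContDiffAt ℝ ∞ (fun q : E × ℝ => (((Gt q.1).1, q.2 • (Gt q.1).2) : E × H)) (y, t) :=
      (contDiffAt_fst.comp _ a1).prodMk (contDiffAt_snd.smul (contDiffAt_snd.comp _ a1))
    exact ContDiffAt.comp (g := Ψ) (y, t) (h.sΨ.smooth _ (hm y hy t ht)) a2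
  have h1 := coh_homotopy (X := S \ {p}) (Y := S \ {p})
    (Fh := fun z : E × ℝ => Ψ ((Gt z.1).1, z.2 • (Gt z.1).2)) (w := b) hsm
    (fun y hy t ht => h.sΨ.maps (hm y hy t ht)) (hb.mono sdiff_subset) (hc.mono sdiff_subset)
  have k1 : ∀ t ∈ Icc (0 : ℝ) 1, SMap (S \ {p}) (S \ {p}) (fun y : E => Ψ ((Gt y).1, t • (Gt y).2)) :=
    fun t ht => ⟨fun y hy => ContDiffAt.comp
      (g := fun z : E × ℝ => Ψ ((Gt z.1).1, z.2 • (Gt z.1).2)) (f := fun y : E => (y, t)) y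
      (hsm y hy t ht) (contDiffAt_id.prodMk contDiffAt_const),
      fun y hy => h.sΨ.maps (hm y hy t ht)⟩
  have kC : SMap (S \ {p}) C (fun y : E => (Gt y).1) :=
    ⟨fun y hy => contDiffAt_fst.comp _ (h.sG.smooth y hy), fun y hy => (h.sG.maps hy).1.1⟩
  have kC' : SMap (S \ {p}) (S \ {p}) (fun y : E => (Gt y).1) :=
    ⟨kC.smooth, fun y hy => h.CS (kC.maps hy)⟩
  have e1 : Eqv (S \ {p}) (F.pull (fun y : E => Ψ ((Gt y).1, (1 : ℝ) • (Gt y).2)) b) b := by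
    refine (eqv_pull_of_eq b (fun y hy => (k1 1 (by simp)).diff hy) (fun y _ => differentiableAt_id)
      (fun y hy => ?_)).trans (Eqv.of_eq fun z _ => F.pull_id b z)
    change Ψ ((Gt y).1, (1 : ℝ) • (Gt y).2) = y
    rw [one_smul]; exact h.ΨG y hy
  have e2 : Eqv (S \ {p}) (F.pull (fun y : E => Ψ ((Gt y).1, (0 : ℝ) • (Gt y).2)) b)
      (F.pull (fun y : E => (Gt y).1) b) := by
    refine eqv_pull_of_eq b (fun y hy => (k1 0 (by simp)).diff hy) (fun y hy => kC.diff hy)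
      (fun y hy => ?_)
    change Ψ ((Gt y).1, (0 : ℝ) • (Gt y).2) = (Gt y).1
    rw [zero_smul]; exact h.Ψ0 _ (kC.maps hy)
  have h2 := h0.pull kC
  rw [pull_zero'] at h2
  exact (Coh.of_eqv e1.symm).trans (h1.trans ((Coh.of_eqv e2).trans h2))

/-- **the dual form of `C`**: the Thom form of the tube, extended by zero -/
theorem Tube.exists_dual (h : Tube S C p P ρ Ψ Gt) (hS : Sub m S) (hk : 1 ≤ k)
    (hτ : CSF C P 3 τ) (hd : Hom k τ) (h0 : Eqv C (F.pull zs τ) e) :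
    ∃ x : E → Ext E, Sm S x ∧ Cl S x ∧ Hom k x ∧ Eqv C x e := by
  obtain ⟨V, hV, hpV, hfar⟩ := h.far
  obtain ⟨ε, hε, hB⟩ := Metric.isOpen_iff.1 hV p hpV
  obtain ⟨ψ, hψ, hψ0, hψ1⟩ := exists_bump p hε
  have hGt : SMap (S \ {p}) (Tot C P) Gt := ⟨h.sG.smooth, fun y hy => (h.sG.maps hy).1⟩
  set x : E → Ext E := fun y => ψ y • F.pull Gt τ y with hx
  have s1 : Sm (S \ {p}) (F.pull Gt τ) := hτ.smooth.pull hGt
  have c1 : Cl (S \ {p}) (F.pull Gt τ) := hτ.closed.pull hGt hτ.smooth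
  have n0 : x =ᶠ[𝓝 p] fun _ => 0 := by
    filter_upwards [hψ0] with y hy
    simp [hx, hy]
  have sx : Sm S x := by
    intro y hy
    by_cases h1 : y = p
    · subst h1; exact contDiffAt_const.congr_of_eventuallyEq n0
    · exact hψ.contDiffAt.smul (s1 y ⟨hy, h1⟩)
  have e1 : Eqv (S \ {p}) x (F.pull Gt τ) := by
    refine Eqv.of_eq fun y hy => ?_
    rcases lt_or_ge (dist y p) ε with h2 | h2
    · have h3 : F.pull Gt τ y = 0 := pull_of_zero (hτ.supp _ (hfar y ⟨hy.1, hB h2⟩ hy.2))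
      rw [hx]
      change ψ y • F.pull Gt τ y = F.pull Gt τ y
      rw [h3, smul_zero]
    · have h3 := (hψ1 y h2).self_of_nhds
      change ψ y • F.pull Gt τ y = F.pull Gt τ y
      rw [h3, one_smul]
  have hpc : IsOpen ({p}ᶜ : Set E) := isOpen_compl_singleton
  have hSp : S \ {p} = S ∩ {p}ᶜ := rfl
  refine ⟨x, sx, ?_, fun y => ((hd _).pb _).smul _, ?_⟩
  · have c2 : Cl (S \ {p}) x :=
      Cl.of_eqv (hSp ▸ hS.inter_open hpc) (sx.mono sdiff_subset) s1 e1 c1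
    intro y hy
    by_cases h1 : y = p
    · subst h1; rw [F.d_congr n0, F.d_const, map_zero]
    · have h2 := eqv_of_open (b := 0) hpc (hSp ▸ resZero_iff.1 c2) hy h1
      rw [h2]; simp
  · have e2 : Eqv C x (F.pull Gt τ) := e1.mono_tan h.CS
    refine e2.trans ((eqv_pull_of_eq τ (fun y hy => hGt.diff (h.CS hy))
      (fun y hy => (smap_zs (P := P)).diff hy) (fun y hy => ?_)).trans h0)
    exact h.G0 y hy

/-- **(B4)** every closed form of degree `2 ≤ j < n` on `S` is cohomologous to a multiple of a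
power of the dual form of `C`. -/
theorem Tube.classes (h : Tube S C p P ρ Ψ Gt) (hpol : Polar S p U P₀ r Φ Λ)
    (hSph : ∀ i, 1 ≤ i → i + 1 < n → ExactIn (Sph ({p} : Set E) (fun _ => P₀)) i)
    {x : E → Ext E} (sx : Sm S x) (cx : Cl S x) (dx : Hom k x) (ex : Eqv C x e) (hk : 1 ≤ k)
    (hC : ∀ (j : ℕ) (b : E → Ext E), j < n → Sm C b → Cl C b → Hom j b →
      ∃ c : ℝ, (¬ k ∣ j → c = 0) ∧ Coh C b (c • e ^ (j / k)))
    {b : E → Ext E} (hj : 2 ≤ j) (hjn : j < n) (hb : Sm S b) (hc : Cl S b) (hd : Hom j b) :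
    ∃ c : ℝ, (¬ k ∣ j → c = 0) ∧ Coh S b (c • x ^ (j / k)) := by
  have hCS : C ⊆ S := fun y hy => (h.CS hy).1
  obtain ⟨c, hc0, hcC⟩ := hC j b hjn (hb.mono hCS) (hc.mono hCS) hd
  refine ⟨c, hc0, ?_⟩
  set b' := b - c • x ^ (j / k) with hb'
  have sx' : Sm S (c • x ^ (j / k)) := (sx.pow _).smul c
  have cx' : Cl S (c • x ^ (j / k)) := Cl.smul _ (sx.pow _) (Cl.pow sx cx _)
  have dx' : Hom j (c • x ^ (j / k)) := by
    by_cases hkj : k ∣ j
    · have := (dx.pow (j / k)).smul c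
      rwa [Nat.mul_div_cancel' hkj] at this
    · rw [hc0 hkj, zero_smul]; exact Hom.zero
  have sb' : Sm S b' := hb.sub sx'
  have cb' : Cl S b' := Cl.sub hb sx' hc cx'
  have db' : Hom j b' := hd.sub dx'
  have z1 : Coh C b' 0 := by
    have h1 : Eqv C (c • x ^ (j / k)) (c • e ^ (j / k)) := (ex.pow _).smul c
    have h2 := hcC.sub (Coh.of_eqv h1)
    rwa [sub_self] at h2
  obtain ⟨ζ, sζ, eζ⟩ := (h.coh_zero sb' cb' z1).dp j
  obtain ⟨η, sη, eη⟩ := (hpol.exactIn_ball (by omega) sb' cb' db').dp j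
  have hz : dp j (0 : E → Ext E) = 0 := funext fun x => map_zero (dpl j)
  rw [hz, sub_zero, db'.dp_eq] at eζ eη
  obtain ⟨i, rfl⟩ := Nat.exists_eq_add_of_le' (by omega : 1 ≤ j)
  -- homogeneous primitives
  have eζ' : Eqv (S \ {p}) b' (F.d (dp i ζ)) := by
    have := eζ.dp (i + 1)
    rw [db'.dp_eq] at this
    exact this.trans (Eqv.of_eq fun y hy => dp_d i (sζ.diff hy))
  have eη' : Eqv (S ∩ U) b' (F.d (dp i η)) := by
    have := eη.dp (i + 1)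
    rw [db'.dp_eq] at this
    exact this.trans (Eqv.of_eq fun y hy => dp_d i (sη.diff hy))
  have hA1 : (S ∩ U) \ {p} ⊆ S \ {p} := fun y hy => ⟨hy.1.1, hy.2⟩
  have hA2 : (S ∩ U) \ {p} ⊆ S ∩ U := sdiff_subset
  have sθ : Sm ((S ∩ U) \ {p}) (dp i ζ - dp i η) :=
    ((sζ.dp i).mono hA1).sub ((sη.dp i).mono hA2)
  have cθ : Cl ((S ∩ U) \ {p}) (dp i ζ - dp i η) := by
    rw [Cl, resZero_iff]
    refine (d_sub_eqv ((sζ.dp i).mono hA1) ((sη.dp i).mono hA2)).trans ?_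
    have := (eζ'.mono_tan hA1).symm.sub (eη'.mono_tan hA2).symm
    rwa [sub_self] at this
  obtain ⟨κ, sκ, eκ⟩ := hpol.exactIn (hSph i (by omega) (by omega)) _ sθ cθ
    ((hom_dp i ζ).sub (hom_dp i η))
  rw [sub_zero] at eκ
  have h1 : Coh S b' 0 := glue_prim hpol.oU hpol.pU (sζ.dp i) eζ' (sη.dp i) eη' sκ eκ
  have h2 := h1.add (Coh.refl (c • x ^ ((i + 1) / k)))
  rwa [sub_add_cancel, zero_add] at h2

end tube

end Crest.Agent.R208.T
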