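import Crest.Agent.R208.FG4
import Crest.Agent.R208.FG3c
import Crest.Agent.R208.TX2
import Crest.Agent.R208.DEG2

/-! Row 208, block FG (helper586), part FG4b: **(X5)**, the closed form of `c(TM ⊗ ℂ)`. -/

set_option autoImplicit false
set_option linter.unusedSectionVars false

open Set Filter Topology Module Matrix
open scoped ContDiff BigOperators RealInnerProductSpace
open Crest.GeometryTopology.Submanifold
open Crest.Agent.R241.DDefs
open Crest.Agent.R241.D2
open Crest.Agent.R208.F Crest.Agent.R208.FI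
open Crest.Agent.R208.CW (SMap IdF SM cs cc integ cls)
open Crest.Agent.R208.GT (bas mM mV)
open Crest.Agent.R208.T (HD EC rcl Dim1 Coh Hom)

noncomputable section

namespace Crest.Agent.R208.FG

variable {n N k : ℕ} {κ : ℝ} {S : Set (Euc N)} {G : Geo n N κ S}
  {PV : Euc N × Euc N → Euc N →L[ℝ] Euc N}

theorem xp_pow (x : CW.H S) (i : ℕ) : xp (x ^ i) = xp x ^ i := map_pow _ _ _
theorem xq_pow (x : CW.H S) (i : ℕ) : xq (x ^ i) = xq x ^ i := map_pow _ _ _

theorem smul_pow_top {E : Type*} [NormedAddCommGroup E] [NormedSpace ℝ E] [FiniteDimensional ℝ E]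
    {X : Set E} {d k m : ℕ} (hX : Sub d X) {x : CW.H X} (hx : x ∈ HD X k) (hd : d < k * m) :
    x ^ m = 0 := by
  have h1 := T.HD_pow hx m
  rw [T.HD_eq_bot_of_gt hX hd] at h1
  exact (Submodule.mem_bot ℂ).1 h1

/-- **(X5)**: the closed form -/
theorem closed (h : GT.Bla G k) (hk : 2 ≤ k) (hkn : k < n) (hV : GT.VField G PV) (hS : Sub n S)
    {dF : ℕ} (hF : Sub dF (GT.FF S)) {l m : ℕ} (hl : 2 * l = k) (hnm : n = k * m) {x : CW.H S}
    (hx : x ∈ HD S k) {L e : ℂ} (he : e ≠ 0)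
    (hcs : cs hF (GT.idf_mV hV) = 1 + PowerSeries.C (L • (xp x + xq x)) * PowerSeries.X ^ l
      + PowerSeries.C (e • (xp x - xq x) ^ 2) * PowerSeries.X ^ k)
    (hrel : ∑ i ∈ Finset.range (m + 1), xp x ^ i * xq x ^ (m - i) = 0)
    {p : ℕ → ℂ} (hp0 : p 0 = 1)
    (hp : ∀ j, cc hS (GT.idf_mM (G := G)) j = if l ∣ j then p (j / l) • x ^ (j / l) else 0)
    {oS : Euc N → Ext (Euc N)} (hoS : Ori n S oS) (hdS : ∀ y, IsDeg n (oS y))
    {p₀ : Euc N} (hp₀ : p₀ ∈ S) {oC : Euc N → Ext (Euc N)} (hoC : Ori (n - k) (GP.Cut S p₀) oC)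
    (hne : integ (GP.clo_S h.bl) hoS (x ^ m) ≠ 0)
    (hne' : integ (FV.clo_Cut h hp₀) hoC (CW.H.map (smap_cut p₀) (x ^ (m - 1))) ≠ 0) :
    ∀ i ≤ m, PowerSeries.coeff i (PowerSeries.mk p * (1 + PowerSeries.C (2 * L) * PowerSeries.X))
      = PowerSeries.coeff i ((1 + PowerSeries.C L * PowerSeries.X
        + PowerSeries.C e * PowerSeries.X ^ 2) ^ (m + 1)) := by
  have hm : 2 ≤ m := by
    by_contra hlt
    have : m = 0 ∨ m = 1 := by omega
    rcases this with rfl | rfl <;> omega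
  have hx0 : x ^ (m + 1) = 0 := smul_pow_top hS hx (by rw [hnm]; nlinarith)
  -- the three classes on `FFF`
  set X := CW.H.map smap_2 (xp x) with hX
  set Y := CW.H.map smap_1 (xq x) with hY
  set Z := CW.H.map smap_2 (xq x) with hZ
  have hXX : CW.H.map smap_1 (xp x) = X := map_xp (clo_FFF h (d := 2 * n - k) (by
    have := h.ty.le; omega)).sub x
  have ex : X ^ (m + 1) = 0 := by rw [hX, ← map_pow, xp, ← map_pow, hx0, map_zero, map_zero]
  have ey : Y ^ (m + 1) = 0 := by rw [hY, ← map_pow, xq, ← map_pow, hx0, map_zero, map_zero]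
  have ez : Z ^ (m + 1) = 0 := by rw [hZ, ← map_pow, xq, ← map_pow, hx0, map_zero, map_zero]
  have hxy : ∑ i ∈ Finset.range (m + 1), X ^ i * Y ^ (m - i) = 0 := by
    have h1 := congrArg (CW.H.map (smap_1 (S := S))) hrel
    rw [map_sum, map_zero] at h1
    rw [← h1]
    refine Finset.sum_congr rfl fun i _ => ?_
    rw [map_mul, map_pow, map_pow, hXX]
  have hxz : ∑ i ∈ Finset.range (m + 1), X ^ i * Z ^ (m - i) = 0 := by
    have h1 := congrArg (CW.H.map (smap_2 (S := S))) hrel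
    rw [map_sum, map_zero] at h1
    rw [← h1]
    refine Finset.sum_congr rfl fun i _ => ?_
    rw [map_mul, map_pow, map_pow]
  -- the functional
  have ha : x ^ m ∈ HD S n := by rw [hnm]; exact T.HD_pow hx m
  have hb : x ^ (m - 1) ∈ HD S (n - k) := by
    have e1 : n - k = k * (m - 1) := by rw [hnm, Nat.mul_sub, mul_one]
    rw [e1]; exact T.HD_pow hx (m - 1)
  obtain ⟨I, hI⟩ := exists_functional h hk hkn hoS hdS hp₀ hoC ha hb hne hne'
  have hN : I (X ^ m * Y ^ (m - 1) * Z ^ (m - 1)) ≠ 0 := by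
    have e1 : X ^ m * Y ^ (m - 1) * Z ^ (m - 1)
        = CW.H.map smap_1 (xq (x ^ (m - 1))) * (CW.H.map smap_2 (xq (x ^ (m - 1)))
          * CW.H.map smap_2 (xp (x ^ m))) := by
      rw [xq_pow, xp_pow, map_pow, map_pow, map_pow]; ring
    rw [e1]; exact hI
  refine closed_alg (I := I) (l := l) (by omega) hm he ex ey ez hxy hxz hN hp0
    (P := (cs hS (GT.idf_mM (G := G))).map (mp S : CW.H S →+* CW.H (FFF S))) (fun j => ?_)
    (fun σ hσ j hj => ?_)
  · rw [PowerSeries.coeff_map, CW.coeff_cs, hp]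
    split_ifs with hj
    · change mp S (p (j / l) • x ^ (j / l)) = _
      rw [map_smul, map_pow]
      congr 2
    · exact map_zero (mp S)
  · have h1 : (cs hF (GT.idf_mV hV)).map
        (CW.H.map (smap_1 (S := S)) : CW.H (GT.FF S) →+* CW.H (FFF S)) = chiE l L e X Y := by
      rw [hcs, chiE]
      simp only [map_add, map_mul, map_one, map_pow, PowerSeries.map_C, PowerSeries.map_X]
      have e1 : (CW.H.map (smap_1 (S := S)) : CW.H (GT.FF S) →+* CW.H (FFF S))
          (L • (xp x + xq x)) = L • (X + Y) := by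
        change CW.H.map smap_1 (L • (xp x + xq x)) = _
        rw [map_smul, map_add, hXX]
      have e2 : (CW.H.map (smap_1 (S := S)) : CW.H (GT.FF S) →+* CW.H (FFF S))
          (e • (xp x - xq x) ^ 2) = e • (X - Y) ^ 2 := by
        change CW.H.map smap_1 (e • (xp x - xq x) ^ 2) = _
        rw [map_smul, map_pow, map_sub, hXX]
      rw [e1, e2, hl]
    have h2 : (cs hF (GT.idf_mV hV)).map
        (CW.H.map (smap_2 (S := S)) : CW.H (GT.FF S) →+* CW.H (FFF S)) = chiE l L e X Z := by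
      rw [hcs, chiE]
      simp only [map_add, map_mul, map_one, map_pow, PowerSeries.map_C, PowerSeries.map_X]
      have e1 : (CW.H.map (smap_2 (S := S)) : CW.H (GT.FF S) →+* CW.H (FFF S))
          (L • (xp x + xq x)) = L • (X + Z) := by
        change CW.H.map smap_2 (L • (xp x + xq x)) = _
        rw [map_smul, map_add]
      have e2 : (CW.H.map (smap_2 (S := S)) : CW.H (GT.FF S) →+* CW.H (FFF S))
          (e • (xp x - xq x) ^ 2) = e • (X - Z) ^ 2 := by
        change CW.H.map smap_2 (e • (xp x - xq x) ^ 2) = _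
        rw [map_smul, map_pow, map_sub]
      rw [e1, e2, hl]
    refine mul_coeff_eq_zero h hV hS hF (σ := σ) ?_ ?_ x
    · rw [h1, h2]; exact hσ
    · rw [hnm, ← hl]; exact hj

/-! ### the classes of `TM` -/

/-- classes of top degree -/
theorem top_class {x : Euc N → Ext (Euc N)} (hx : EC S x) {m : ℕ} (hdx : Hom n (x ^ m))
    (hD : Dim1 S n) (hxm : ¬ Coh S (x ^ m) 0) {j : ℕ} (hj : 2 * j = n) {c : CW.H S}
    (hc : c ∈ HD S (2 * j)) : ∃ z : ℂ, c = z • rcl hx ^ m := by
  obtain ⟨C, hC⟩ := T.HD_span (Finset.univ : Finset (Fin 1))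
    (w := fun _ => x ^ m) (fun _ => hx.pow _)
    (fun b sb cb db => by
      obtain ⟨s, t, hst, h0⟩ := hD b (x ^ m) sb cb (hj ▸ db) (hx.pow m).sm (hx.pow m).cl hdx
      have hs : s ≠ 0 := by
        rintro rfl
        have ht : t ≠ 0 := by
          rcases hst with h1 | h1
          · exact absurd rfl h1
          · exact h1
        apply hxm
        have h1 := h0.smul (-t⁻¹)
        rw [smul_zero, zero_smul, zero_sub, smul_neg, neg_smul, neg_neg, smul_smul,
          inv_mul_cancel₀ ht, one_smul] at h1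
        exact h1
      refine ⟨fun _ => t / s, ?_⟩
      rw [Fin.sum_univ_one]
      have h1 := h0.smul s⁻¹
      rw [smul_zero, smul_sub, smul_smul, inv_mul_cancel₀ hs, one_smul, smul_smul] at h1
      have h2 := h1.add (T.Coh.refl ((t / s) • x ^ m))
      rw [zero_add, div_eq_inv_mul, sub_add_cancel] at h2
      rw [div_eq_inv_mul]
      exact h2) hc
  refine ⟨C 0, ?_⟩
  rw [hC, Fin.sum_univ_one, T.rcl_pow]

/-- **the Chern classes of `TM ⊗ ℂ` are multiples of powers of `x`** -/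
theorem exists_p (hS : Sub n S) {l : ℕ} (hl0 : 0 < l) (hl : 2 * l = k)
    {x : CW.H S}
    (hcl : ∀ j, 2 * j ≤ n → ∀ c ∈ HD S (2 * j), (∃ z : ℂ, c = z • x ^ (2 * j / k)) ∧
      (¬ k ∣ 2 * j → c = 0)) :
    ∃ p : ℕ → ℂ, p 0 = 1 ∧
      ∀ j, cc hS (GT.idf_mM (G := G)) j = if l ∣ j then p (j / l) • x ^ (j / l) else 0 := by
  have hmem := fun j => T.cc_mem_HD hS (GT.idf_mM (G := G)) j
  have h1 : ∀ i, ∃ z : ℂ, (i = 0 → z = 1) ∧
      cc hS (GT.idf_mM (G := G)) (l * i) = z • x ^ i := by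
    intro i
    rcases Nat.eq_zero_or_pos i with rfl | hi
    · exact ⟨1, fun _ => rfl, by rw [mul_zero, CW.cc_zero, pow_zero, one_smul]⟩
    · by_cases hi2 : 2 * (l * i) ≤ n
      · obtain ⟨⟨z, hz⟩, -⟩ := hcl (l * i) hi2 _ (hmem (l * i))
        refine ⟨z, fun h => by omega, ?_⟩
        rw [hz]
        congr 2
        rw [← mul_assoc, hl]
        exact Nat.mul_div_cancel_left i (by omega)
      · refine ⟨0, fun h => by omega, ?_⟩
        have h2 := hmem (l * i)
        rw [T.HD_eq_bot_of_gt hS (not_le.1 hi2)] at h2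
        rw [(Submodule.mem_bot ℂ).1 h2, zero_smul]
  choose p hp using h1
  refine ⟨p, (hp 0).1 rfl, fun j => ?_⟩
  split_ifs with hj
  · obtain ⟨i, rfl⟩ := hj
    rw [(hp i).2, Nat.mul_div_cancel_left i hl0]
  · by_cases hj2 : 2 * j ≤ n
    · refine (hcl j hj2 _ (hmem j)).2 fun hd => hj ?_
      obtain ⟨c, hc⟩ := hd
      refine ⟨c, ?_⟩
      rw [← hl, mul_assoc] at hc
      omega
    · have h2 := hmem j
      rw [T.HD_eq_bot_of_gt hS (not_le.1 hj2)] at h2
      exact (Submodule.mem_bot ℂ).1 h2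

end Crest.Agent.R208.FG
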