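import Crest.Agent.R208.TG3a
import Crest.Agent.R208.HY1

/-! Row 208, block T (helper88).  TG3: `H¹(S) = 0`, top degree of `S`, the classes of the unit
tangent bundle in degrees `< n + k - 1`. -/

set_option autoImplicit false
set_option linter.unusedSectionVars false

open MeasureTheory Set Filter Topology Module
open scoped ContDiff RealInnerProductSpace Matrix
open Crest.GeometryTopology.Submanifold
open Crest.Agent.R241.DDefs
open Crest.Agent.R241.D2
open Crest.Agent.R208.F Crest.Agent.R208.FI Crest.Agent.R208.CW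

noncomputable section

namespace Crest.Agent.R208.T

section gen
variable {n : Type} [Fintype n] [DecidableEq n]
  {E : Type} [NormedAddCommGroup E] [NormedSpace ℝ E] [FiniteDimensional ℝ E]
  {ι : Type} [Fintype ι] [DecidableEq ι]
  {X : Set E} {P : E → EuclideanSpace ℝ n →L[ℝ] EuclideanSpace ℝ n}
  {W : E → (ι × Fin 2 → n) → ℝ} {d q : ℕ}

/-- top degree of a sphere bundle, any codimension -/
theorem dim1_sph_all [Nonempty ι] (hX : Sub d X) (hc : IsPreconnected X) (hne : X.Nonempty)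
    (h : OR X P W) (hq : q + 1 = 2 * Fintype.card ι) (h0 : ExactIn X q) : Dim1 (Sph X P) q := by
  obtain ⟨q', r, eq, -⟩ := exists_par h hne
  have hS := iM_iso (n := n) (Fin q')
  have h' := h.push hS
  obtain ⟨W', c₀, hT⟩ := exists_thomPair thd_holds eq hX hc hne h'
  have h1 := dim1_sph volume hX hc h'.pfield (T.card_le eq) hT hq h0
  refine (HRet.of_inv (smap_in hS) (smap_out hS) fun z _ => ?_).dim1 h1
  change (z.1, mE (iM n (Fin q'))ᵀ (mE (iM n (Fin q')) z.2)) = z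
  rw [mE_mE, hS, mE_one]

/-- closed functions on a sphere bundle are constant -/
theorem conn0_sph_all [Nonempty ι] (hX : Sub d X) (hc : IsPreconnected X) (h : OR X P W) :
    Conn0 (Sph X P) := by
  intro b hb hcl hd
  have hi := Fintype.card_pos (α := ι)
  obtain ⟨c, sc, cc, dc, hc'⟩ := sph_low_all hX hc h (by omega) hb hcl hd
  obtain ⟨t, ht⟩ := const_of_closed hX hc sc cc dc
  refine ⟨t, (hc'.eqv_zero hd dc.pull).trans ?_⟩
  have h1 : Eqv X c (fun _ => algebraMap ℝ (Ext E) t) := Eqv.of_eq ht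
  have h2 := h1.pull (smap_fstS (X := X) (P := P))
  rwa [pull_const'] at h2

end gen

variable {n N k : ℕ} {κ : ℝ} {S : Set (Euc N)} {G : Geo n N κ S} {p : Euc N}
  {ι : Type} [Fintype ι] [DecidableEq ι] {W : Euc N → (ι × Fin 2 → Fin N) → ℝ}
  {ι' : Type} [Fintype ι'] [DecidableEq ι'] {W' : Euc N → (ι' × Fin 2 → Fin N) → ℝ}
  {x : Euc N → Ext (Euc N)}

theorem OR_pt (hp : p ∈ S) (hS : OR S G.P W') :
    OR ({p} : Set (Euc N)) (fun _ => G.P p) (fun _ => W' p) :=
  GP.OR.comp hS (f := fun _ => p) (fun _ _ => contDiffAt_const) fun _ _ => hp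

/-- closed `1`-forms on `S` are exact -/
theorem exactIn_one_S (h : GT.Bla G k) (hk : 2 ≤ k) (hkn : k < n) (hp : p ∈ S)
    (hι : 2 * Fintype.card ι = k) (hW : OR (GP.Cut S p) (FV.PC h p) W)
    (hι' : 2 * Fintype.card ι' = n) (hS : OR S G.P W') : ExactIn S 1 := by
  have : Nonempty ι' := Fintype.card_pos_iff.1 (by omega)
  obtain ⟨Gt, hG, -⟩ := exists_Tube' h hp
  obtain ⟨U, Λ, hpol, -, -⟩ := GP.exists_polar (G := G) h.bl hp one_pos
    (by linarith [Real.pi_gt_three])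
  refine hG.exactIn_one hpol (conn0_sph_all (sub_point p)
    isPreconnected_singleton (OR_pt hp hS)) ?_
  intro a sa ca da
  obtain ⟨c, hc, ha⟩ := Cut_classes h hk hkn hp hι hW 1 sa ca da
  have h1 : ¬ k ∣ 1 := fun hd => by
    have := Nat.le_of_dvd one_pos hd
    omega
  rwa [hc h1, zero_smul] at ha

/-- closed `n`-forms on `S` are proportional modulo exact ones -/
theorem dim1_S (h : GT.Bla G k) (hk : 2 ≤ k) (hkn : k < n) (hp : p ∈ S)
    (hι' : 2 * Fintype.card ι' = n) (hS : OR S G.P W') : Dim1 S n := by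
  have : Nonempty ι' := Fintype.card_pos_iff.1 (by omega)
  obtain ⟨Gt, hG, -⟩ := exists_Tube' h hp
  obtain ⟨U, Λ, hpol, -, -⟩ := GP.exists_polar (G := G) h.bl hp one_pos
    (by linarith [Real.pi_gt_three])
  obtain ⟨i, hi⟩ : ∃ i, n = i + 1 := ⟨n - 1, by omega⟩
  have h1 : Dim1 (Sph ({p} : Set (Euc N)) (fun _ => G.P p)) i :=
    dim1_sph_all (sub_point p) isPreconnected_singleton (singleton_nonempty p) (OR_pt hp hS)
      (by omega) (exactIn_of_gt (sub_point p) (by omega))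
  have h2 : ExactIn (GP.Cut S p) (i + 1) := exactIn_of_gt (FV.sub_Cut h hp) (by omega)
  have := hG.dim1 hpol h1 h2
  rwa [← hi] at this

theorem mid_S (h : GT.Bla G k) (hk : 2 ≤ k) (hkn : k < n) (hp : p ∈ S)
    (hι : 2 * Fintype.card ι = k) (hW : OR (GP.Cut S p) (FV.PC h p) W)
    (sx : Sm S x) (cx : Cl S x) (dx : Hom k x) (ex : Eqv (GP.Cut S p) x (eR (FV.PC h p) W)) :
    Mid S x k n := fun j b hj hjn hb hc hd =>
  S_classes h hk hkn hp hι hW sx cx dx ex j b hj hjn hb hc hd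

/-- **`H^j(US) = 0` for `n - 1 ≤ j < n + k - 1`** -/
theorem US_exact (h : GT.Bla G k) (hk : 2 ≤ k) (hkn : k < n) (hdv : k ∣ n) (hp : p ∈ S)
    (hι : 2 * Fintype.card ι = k) (hW : OR (GP.Cut S p) (FV.PC h p) W)
    (sx : Sm S x) (cx : Cl S x) (dx : Hom k x) (ex : Eqv (GP.Cut S p) x (eR (FV.PC h p) W))
    (hι' : 2 * Fintype.card ι' = n) (hS : OR S G.P W') (he : ¬ Coh S (eR G.P W') 0)
    {j : ℕ} (hj : n ≤ j + 1) (hj' : j + 1 < n + k) : ExactIn (Sph S G.P) j := by
  have : Nonempty ι' := Fintype.card_pos_iff.1 (by omega)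
  exact sph_mid_exact hι' (FV.sub_S h.bl) h.bl.conn.isPreconnected hS (by omega) hk hdv
    (exactIn_one_S h hk hkn hp hι hW hι' hS) (mid_S h hk hkn hp hι hW sx cx dx ex)
    (dim1_S h hk hkn hp hι' hS) he hj hj'

/-- **the classes of the unit tangent bundle** in degrees `< n + k - 1` -/
theorem US_low (h : GT.Bla G k) (hk : 2 ≤ k) (hkn : k < n) (hdv : k ∣ n) (hp : p ∈ S)
    (hι : 2 * Fintype.card ι = k) (hW : OR (GP.Cut S p) (FV.PC h p) W)
    (sx : Sm S x) (cx : Cl S x) (dx : Hom k x) (ex : Eqv (GP.Cut S p) x (eR (FV.PC h p) W))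
    (hι' : 2 * Fintype.card ι' = n) (hS : OR S G.P W') (he : ¬ Coh S (eR G.P W') 0) :
    HY.Low (Sph S G.P) (F.pull Prod.fst x) k (n + k - 1) := by
  have : Nonempty ι' := Fintype.card_pos_iff.1 (by omega)
  intro j b hj hj' hb hcl hd
  exact sph_classes hι' (FV.sub_S h.bl) h.bl.conn.isPreconnected hS (by omega) hk hdv
    (exactIn_one_S h hk hkn hp hι hW hι' hS) (mid_S h hk hkn hp hι hW sx cx dx ex)
    (dim1_S h hk hkn hp hι' hS) he j b hj hj' hb hcl hd

/-- the same for `US G` -/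
theorem US_low' (h : GT.Bla G k) (hk : 2 ≤ k) (hkn : k < n) (hdv : k ∣ n) (hp : p ∈ S)
    (hι : 2 * Fintype.card ι = k) (hW : OR (GP.Cut S p) (FV.PC h p) W)
    (sx : Sm S x) (cx : Cl S x) (dx : Hom k x) (ex : Eqv (GP.Cut S p) x (eR (FV.PC h p) W))
    (hι' : 2 * Fintype.card ι' = n) (hS : OR S G.P W') (he : ¬ Coh S (eR G.P W') 0) :
    HY.Low (L.US G) (F.pull Prod.fst x) k (n + k - 1) := by
  rw [← FV.Sph_S (G := G)]
  exact US_low h hk hkn hdv hp hι hW sx cx dx ex hι' hS he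

end Crest.Agent.R208.T
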