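import Crest.Agent.R208.FG4b
import Crest.Agent.R208.TX6b
import Crest.Agent.R208.VX2
import Crest.Agent.R208.TG3

/-! R208, FG5 (helper586): the Chern classes of `V ⊗ ℂ` and of `TM ⊗ ℂ` in the situation `T.XM`. -/

set_option autoImplicit false
set_option linter.unusedSectionVars false

open MeasureTheory Set Filter Topology Module
open scoped ContDiff RealInnerProductSpace
open Crest.GeometryTopology.Submanifold
open Crest.Agent.R241.DDefs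
open Crest.Agent.R241.D2
open Crest.Agent.R208.F Crest.Agent.R208.FI Crest.Agent.R208.CW
open Crest.Agent.R208.T (HD EC rcl Sm Cl Hom Coh Eqv eR OR pull_smul' Dim1)
open Crest.Agent.R208.VX (nE nE_pos)

noncomputable section

namespace Crest.Agent.R208.FG

section gen
variable {E : Type*} [NormedAddCommGroup E] [NormedSpace ℝ E] [FiniteDimensional ℝ E]
  {X : Set E} {d : ℕ} {o a : E → Ext E}

theorem integ_rcl (hX : Clo d X) (ho : Ori d X o) (ha : EC X a) :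
    integ hX ho (rcl ha) = ((J d X o a : ℝ) : ℂ) := by
  rw [rcl, integ_cls]
  refine Complex.ext rfl ?_
  change J d X o (fun _ => (0 : Ext E)) = 0
  have := T.J_smulT (dU := d) (U := X) (oU := o) (a := fun _ => (0 : Ext E)) (0 : ℝ)
  rw [zero_mul] at this
  rw [← this]
  congr 1
  funext x
  exact (smul_zero (0 : ℝ)).symm

end gen

variable {n N k m dF : ℕ} {κ : ℝ} {S : Set (Euc N)} {G : Geo n N κ S} {p : Euc N}
  {ι : Type} [Fintype ι] [DecidableEq ι] {W : Euc N × Euc N → (ι × Fin 2 → Fin N) → ℝ}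
  {x : Euc N → Ext (Euc N)} {h : GT.Bla G k}

/-- **(X3)** in the situation `XM` -/
theorem cs_V (M : T.XM h m W p x) (hF : Sub dF (GT.FF S)) (hx : EC S x) :
    ∃ μ : ℝ, (Odd (k / 2) → μ = 0) ∧
      cc hF (GT.idf_mV (FV.vfield_PVB h)) (k / 2) =
        (μ : ℂ) • (xp (((nE ι : ℝ) : ℂ)⁻¹ • rcl hx) + xq (((nE ι : ℝ) : ℂ)⁻¹ • rcl hx)) ∧
      cs hF (GT.idf_mV (FV.vfield_PVB h)) = 1 +
        PowerSeries.C ((μ : ℂ) •
          (xp (((nE ι : ℝ) : ℂ)⁻¹ • rcl hx) + xq (((nE ι : ℝ) : ℂ)⁻¹ • rcl hx))) *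
            PowerSeries.X ^ (k / 2) +
        PowerSeries.C ((xp (((nE ι : ℝ) : ℂ)⁻¹ • rcl hx) -
          xq (((nE ι : ℝ) : ℂ)⁻¹ • rcl hx)) ^ 2) * PowerSeries.X ^ k := by
  have hrel : Coh (GT.FF S) (F.pull Prod.snd ((-1 : ℝ) • x))
      (F.pull Prod.fst ((-1 : ℝ) • x) + eR (FV.PVB h) W) := by
    have h1 := M.snd_class.smul (-1)
    rw [pull_smul', pull_smul']
    rw [smul_sub, neg_one_smul ℝ (eR _ _), sub_neg_eq_add] at h1
    exact h1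
  obtain ⟨μ, h1, h2, h3⟩ := VX.cs_V h M.hke M.hk M.two_k hF M.hW M.hι (hx.smul (-1)) hrel
    (fun j b hj hjn sb cb db => by
      obtain ⟨f, hf, h1⟩ := T.FF_classes h M.hk M.hkn M.hke M.hne M.hp M.hι M.hW M.sx M.cx M.dx
        M.ex j b hj hjn sb cb db
      refine ⟨fun a => (-1) ^ a * f a, fun hd a => by simp only [hf hd, mul_zero], ?_⟩
      convert h1 using 2 with a
      rw [pull_smul', smul_pow, smul_mul_assoc, smul_smul]
      congr 1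
      rw [mul_right_comm, ← mul_pow]
      norm_num)
  have e1 : ((nE ι : ℝ) : ℂ)⁻¹ • rcl (hx.smul (-1)) = -(((nE ι : ℝ) : ℂ)⁻¹ • rcl hx) := by
    rw [T.rcl_smul, Complex.ofReal_neg, Complex.ofReal_one, neg_one_smul, smul_neg]
  have e2 : xp (-(((nE ι : ℝ) : ℂ)⁻¹ • rcl hx)) = -xp (((nE ι : ℝ) : ℂ)⁻¹ • rcl hx) :=
    map_neg _ _
  have e3 : xq (-(((nE ι : ℝ) : ℂ)⁻¹ • rcl hx)) = -xq (((nE ι : ℝ) : ℂ)⁻¹ • rcl hx) :=
    map_neg _ _
  rw [e1, e2, e3] at h2 h3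
  have e4 : ∀ a b : CW.H (GT.FF S), (μ : ℂ) • (-a + -b) = ((-μ : ℝ) : ℂ) • (a + b) := by
    intro a b
    rw [Complex.ofReal_neg]
    module
  have e5 : ∀ a b : CW.H (GT.FF S), (-a - -b) ^ 2 = (a - b) ^ 2 := by
    intro a b; ring
  rw [e4] at h2 h3
  rw [e5] at h3
  exact ⟨-μ, fun ho => by rw [h1 ho, neg_zero], h2, h3⟩

/-- the classes of degree `≤ n` on `S` are multiples of powers of `x` -/
theorem S_classes_le (M : T.XM h m W p x) (hx : EC S x) (hD : Dim1 S n)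
    (hxm : ¬ Coh S (x ^ m) 0) {c₀ : ℂ} (hc₀ : c₀ ≠ 0) (j : ℕ) (hj : 2 * j ≤ n) (c : CW.H S)
    (hc : c ∈ HD S (2 * j)) :
    (∃ z : ℂ, c = z • (c₀ • rcl hx) ^ (2 * j / k)) ∧ (¬ k ∣ 2 * j → c = 0) := by
  have hfix : ∀ (z : ℂ) (i : ℕ), z • rcl hx ^ i = (z * (c₀ ^ i)⁻¹) • (c₀ • rcl hx) ^ i := by
    intro z i
    rw [smul_pow, smul_smul, mul_assoc, inv_mul_cancel₀ (pow_ne_zero _ hc₀), mul_one]
  rcases hj.lt_or_eq with hj' | hj'
  · obtain ⟨⟨z, hz⟩, h2⟩ := T.S_HD h M.hk M.hkn M.hp M.hι (T.OR_Cut h M.hp M.hW) hx M.dx M.ex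
      hj' hc
    exact ⟨⟨_, hz.trans (hfix z _)⟩, h2⟩
  · have hkm : 2 * j / k = m := by
      rw [hj', M.hn]; exact Nat.mul_div_cancel_left m (by have := M.hk; omega)
    obtain ⟨z, hz⟩ := top_class hx (m := m) (by rw [M.hn]; exact M.dx.pow m) hD hxm hj' hc
    refine ⟨⟨_, by rw [hkm]; exact hz.trans (hfix z _)⟩, fun hd => absurd ?_ hd⟩
    rw [hj', M.hn]
    exact dvd_mul_right k m

/-- **(X3) + (X5)** in the situation `XM`. -/
theorem closed_XM (M : T.XM h m W p x) (hS : Sub n S) (hF : Sub dF (GT.FF S)) (hx : EC S x)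
    {oS : Euc N → Ext (Euc N)} (hoS : Ori n S oS) (hdS : ∀ y, IsDeg n (oS y))
    (hJ : J n S oS (x ^ m) ≠ 0)
    (hrel : Coh (GT.FF S)
      (∑ i ∈ Finset.range (m + 1), F.pull Prod.fst x ^ i * F.pull Prod.snd x ^ (m - i)) 0)
    (hD : Dim1 S n) :
    ∃ μ : ℝ, (Odd (k / 2) → μ = 0) ∧
      cc hF (GT.idf_mV (FV.vfield_PVB h)) (k / 2) =
        (μ : ℂ) • (xp (((nE ι : ℝ) : ℂ)⁻¹ • rcl hx) + xq (((nE ι : ℝ) : ℂ)⁻¹ • rcl hx)) ∧
      cs hF (GT.idf_mV (FV.vfield_PVB h)) = 1 +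
        PowerSeries.C ((μ : ℂ) •
          (xp (((nE ι : ℝ) : ℂ)⁻¹ • rcl hx) + xq (((nE ι : ℝ) : ℂ)⁻¹ • rcl hx))) *
            PowerSeries.X ^ (k / 2) +
        PowerSeries.C ((xp (((nE ι : ℝ) : ℂ)⁻¹ • rcl hx) -
          xq (((nE ι : ℝ) : ℂ)⁻¹ • rcl hx)) ^ 2) * PowerSeries.X ^ k ∧
      ∃ q : ℕ → ℂ, q 0 = 1 ∧
        (∀ j, cc hS (GT.idf_mM (G := G)) j =
          if k / 2 ∣ j then q (j / (k / 2)) • (((nE ι : ℝ) : ℂ)⁻¹ • rcl hx) ^ (j / (k / 2))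
          else 0) ∧
        ∀ i ≤ m, PowerSeries.coeff i
            (PowerSeries.mk q * (1 + PowerSeries.C (2 * (μ : ℂ)) * PowerSeries.X))
          = PowerSeries.coeff i ((1 + PowerSeries.C (μ : ℂ) * PowerSeries.X
            + PowerSeries.X ^ 2) ^ (m + 1)) := by
  obtain ⟨μ, h1, h2, h3⟩ := cs_V M hF hx
  refine ⟨μ, h1, h2, h3, ?_⟩
  have hk := M.hk
  have hn := M.hn
  have hm := M.hm
  have hc0 : ((nE ι : ℝ) : ℂ)⁻¹ ≠ 0 := inv_ne_zero (by exact_mod_cast (nE_pos ι).ne')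
  have hkk : 2 * (k / 2) = k := by obtain ⟨r, hr⟩ := M.hke; omega
  have hclo := GP.clo_S (G := G) h.bl
  have hxm : ¬ Coh S (x ^ m) 0 := fun h0 => hJ (T.J_exact hclo hoS h0)
  obtain ⟨q, hq0, hq⟩ := exists_p (G := G) hS (l := k / 2) (by omega) hkk
    (S_classes_le M hx hD hxm hc0)
  refine ⟨q, hq0, hq, ?_⟩
  obtain ⟨oC, hoC, -, -⟩ := T.exists_ori_Cut h hk M.hkn M.hp
  obtain ⟨m', -, hm', hJ'⟩ := T.X1a h hk M.hkn M.hp M.hι (T.OR_Cut h M.hp M.hW) hoC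
  have hmm : m' = m - 1 := by
    have : k * (m' + 1) = k * m := by rw [← hm', ← hn]
    have := Nat.eq_of_mul_eq_mul_left (by omega) this
    omega
  subst hmm
  have hsm : SMap (GP.Cut S p) S (fun q => q) := smap_cut p
  have hEC : EC (GP.Cut S p) (F.pull (fun q => q) x) := hx.pull hsm
  have hpid : F.pull (fun q => q) x = x := funext fun y => F.pull_id x y
  have hxf : EC (GT.FF S) (F.pull Prod.fst x) := hx.pull smap_fst
  have hxs : EC (GT.FF S) (F.pull Prod.snd x) := hx.pull smap_snd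
  have hc := closed h hk M.hkn (FV.vfield_PVB h) hS hF hkk hn (x := ((nE ι : ℝ) : ℂ)⁻¹ • rcl hx)
    (Submodule.smul_mem _ _ (T.rcl_mem_HD hx M.dx)) (L := (μ : ℂ)) (e := 1) one_ne_zero
    (by rw [h3, one_smul]) ?_ hq0 hq hoS hdS M.hp hoC ?_ ?_
  · intro i hi
    have := hc i hi
    rwa [map_one, one_mul] at this
  · have e1 : ∀ i, xp (((nE ι : ℝ) : ℂ)⁻¹ • rcl hx) ^ i * xq (((nE ι : ℝ) : ℂ)⁻¹ • rcl hx) ^ (m - i)
        = (((nE ι : ℝ) : ℂ)⁻¹ ^ i * ((nE ι : ℝ) : ℂ)⁻¹ ^ (m - i)) •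
          rcl ((hxf.pow i).mul (hxs.pow (m - i))) := by
      intro i
      rw [T.rcl_mul (hxf.pow i) (hxs.pow (m - i)), T.rcl_pow hxf, T.rcl_pow hxs, xp, xq, map_smul,
        map_smul, smul_pow, smul_pow, ← T.rcl_pull smap_fst hx, ← T.rcl_pull smap_snd hx,
        smul_mul_smul_comm]
    have e2 : ∀ i ∈ Finset.range (m + 1),
        xp (((nE ι : ℝ) : ℂ)⁻¹ • rcl hx) ^ i * xq (((nE ι : ℝ) : ℂ)⁻¹ • rcl hx) ^ (m - i)
        = ((nE ι : ℝ) : ℂ)⁻¹ ^ m • rcl ((hxf.pow i).mul (hxs.pow (m - i))) := by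
      intro i hi
      rw [e1, ← pow_add, Nat.add_sub_cancel' (by have := Finset.mem_range.1 hi; omega)]
    rw [Finset.sum_congr rfl e2, ← Finset.smul_sum,
      ← T.rcl_sum (Finset.range (m + 1)) (fun i => (hxf.pow i).mul (hxs.pow (m - i))),
      (T.rcl_eq_zero_iff _).2 hrel, smul_zero]
  · rw [smul_pow, map_smul, ← T.rcl_pow hx, integ_rcl]
    exact smul_ne_zero (pow_ne_zero _ hc0) (by exact_mod_cast hJ)
  · rw [map_pow, map_smul, ← T.rcl_pull hsm hx, smul_pow, map_smul, ← T.rcl_pow hEC, integ_rcl]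
    refine smul_ne_zero (pow_ne_zero _ hc0) ?_
    have hCC := FV.clo_Cut h M.hp
    have hOR := T.OR_Cut h M.hp M.hW
    rw [hpid, T.J_coh hCC hoC (Sm.pow (fun y hy => hx.sm y hy.1) _) (hOR.ec_eR.sm.pow _)
      (Coh.of_eqv (M.ex.pow (m - 1)))]
    exact_mod_cast hJ'

end Crest.Agent.R208.FG
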