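import Crest.Agent.R208.F1b

/-! Row 208, block F2 (helper198), part FH1: Stokes for compactly supported forms on a vector space:
`∫ d β = 0` in `Ext E`. -/

set_option autoImplicit false
set_option linter.unusedSectionVars false

open MeasureTheory Set Filter Topology
open scoped ContDiff
open Crest.Agent.R208.F

noncomputable section

namespace Crest.Agent.R208.FI

section Stokes

variable {E : Type*} [NormedAddCommGroup E] [NormedSpace ℝ E] [FiniteDimensional ℝ E]
  [MeasurableSpace E] [BorelSpace E] (μ : Measure E) [μ.IsAddHaarMeasure]
  {G : Type*} [NormedAddCommGroup G] [NormedSpace ℝ G] [CompleteSpace G]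

omit [CompleteSpace G] in
/-- the integral of a directional derivative of a `C^1` function with compact support vanishes. -/
theorem integral_fderiv_apply_eq_zero {g : E → G} (hg : ContDiff ℝ 1 g)
    (hc : HasCompactSupport g) (v : E) : ∫ x, fderiv ℝ g x v ∂μ = 0 := by
  have hcont : Continuous fun x => fderiv ℝ g x v :=
    (hg.continuous_fderiv one_ne_zero).clm_apply continuous_const
  have hcs : HasCompactSupport fun x => fderiv ℝ g x v := hc.fderiv_apply ℝ v
  have h := integral_smul_fderiv_eq_neg_fderiv_smul_of_integrable (μ := μ) (𝕜 := ℝ)
    (f := fun _ : E => (1 : ℝ))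
    (g := g) (v := v) (by simp) (by simpa using hcont.integrable_of_hasCompactSupport hcs)
    (by simpa using hg.continuous.integrable_of_hasCompactSupport hc)
    (fun x _ => differentiableAt_const _)
    (fun x _ => (hg.differentiable one_ne_zero).differentiableAt)
  simpa using h

/-- the integral of the derivative of a `C^1` function with compact support vanishes. -/
theorem integral_fderiv_eq_zero {g : E → G} (hg : ContDiff ℝ 1 g)
    (hc : HasCompactSupport g) : ∫ x, fderiv ℝ g x ∂μ = 0 := by
  have hcont : Continuous fun x => fderiv ℝ g x := hg.continuous_fderiv one_ne_zero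
  have hint : Integrable (fun x => fderiv ℝ g x) μ :=
    hcont.integrable_of_hasCompactSupport (hc.fderiv ℝ)
  ext v
  rw [ContinuousLinearMap.integral_apply hint v]
  simpa using integral_fderiv_apply_eq_zero μ hg hc v

/-- **Stokes** for compactly supported `C^1` forms on a vector space. -/
theorem integral_d_eq_zero {β : E → Ext E} (hβ : ContDiff ℝ 1 β)
    (hc : HasCompactSupport β) : ∫ x, d β x ∂μ = 0 := by
  have hcont : Continuous fun x => fderiv ℝ β x := hβ.continuous_fderiv one_ne_zero
  have hint : Integrable (fun x => fderiv ℝ β x) μ :=
    hcont.integrable_of_hasCompactSupport (hc.fderiv ℝ)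
  have : (fun x => d β x) = fun x => wd E (fderiv ℝ β x) := rfl
  rw [this, ContinuousLinearMap.integral_comp_comm _ hint, integral_fderiv_eq_zero μ hβ hc, map_zero]

theorem hasCompactSupport_d {β : E → Ext E} (hc : HasCompactSupport β) :
    HasCompactSupport (d β) := by
  have : d β = fun x => wd E (fderiv ℝ β x) := rfl
  rw [this]
  exact (hc.fderiv ℝ).comp_left (g := fun T => wd E T) (map_zero _)

/-- **Stokes** followed by a linear functional, e.g. `top`. -/
theorem integral_functional_d_eq_zero {β : E → Ext E} (hβ : ContDiff ℝ 1 β)
    (hc : HasCompactSupport β) (τ : Ext E →ₗ[ℝ] ℝ) : ∫ x, τ (d β x) ∂μ = 0 := by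
  have hcont : Continuous fun x => fderiv ℝ β x := hβ.continuous_fderiv one_ne_zero
  have hd : Continuous (d β) := (wd E).continuous.comp hcont
  have hint : Integrable (fun x => d β x) μ :=
    hd.integrable_of_hasCompactSupport (hasCompactSupport_d hc)
  have := ContinuousLinearMap.integral_comp_comm (LinearMap.toContinuousLinearMap τ) hint
  rw [integral_d_eq_zero μ hβ hc, map_zero] at this
  simpa using this

end Stokes

end Crest.Agent.R208.FI
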