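import Crest.Agent.R208.FH11b
import Crest.Agent.R208.FH9
import Crest.Agent.R208.FH10

/-! Row 208, block F2 (helper198), part FH11: the **mapping degree**. -/

set_option autoImplicit false
set_option linter.unusedSectionVars false

open MeasureTheory MeasureTheory.Measure Set Filter Topology Module
open scoped ContDiff
open Crest.Agent.R208.F

noncomputable section

namespace Crest.Agent.R208.FI

variable {E E' : Type*} [NormedAddCommGroup E] [NormedSpace ℝ E] [FiniteDimensional ℝ E]
  [NormedAddCommGroup E'] [NormedSpace ℝ E'] [FiniteDimensional ℝ E']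

/-- images of null sets in charts are null. -/
theorem Chart.null_image {n : ℕ} {X : Set E} {g : Eu n → E} {V A : Set (Eu n)}
    (hg : Chart n X g V) (hA : (volume : Measure (Eu n)) A = 0) (hAV : A ⊆ V) :
    μHE[n] (TE E '' (g '' A)) = 0 := by
  set A' := toMeasurable volume A ∩ V with hA'
  have h1 : MeasurableSet A' := (measurableSet_toMeasurable _ _).inter hg.isOpen.measurableSet
  have h2 : A ⊆ A' := subset_inter (subset_toMeasurable _ _) hAV
  have h3 : (volume : Measure (Eu n)) A' = 0 :=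
    measure_mono_null inter_subset_left (by rw [measure_toMeasurable, hA])
  have h4 : μHE[n] (TE E '' (g '' A')) = 0 := by
    rw [measure_image_chart hg h1 inter_subset_right]
    rw [Measure.restrict_eq_zero.2 h3, lintegral_zero_measure]
  exact measure_mono_null (image_mono (image_mono h2)) h4

section degree
variable {n : ℕ} {X : Set E} {Y : Set E'} {f : E → E'} {oX : E → Ext E} {oY : E' → Ext E'}

theorem integrable_mul_dens (hY : Clo n Y) (hoY : Ori n Y oY) {om : E' → Ext E'}
    (hom : ContinuousOn om Y) {M : EuclideanSpace ℝ (Fin (finrank ℝ E')) → ℝ}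
    (hM : Integrable M (mY n Y)) :
    Integrable (fun y => M y * dens n Y oY om ((TE E').symm y)) (mY n Y) := by
  have hcY := hY.compact.image (TE E').continuous
  have hcont : ContinuousOn (fun y => dens n Y oY om ((TE E').symm y)) (TE E' '' Y) := by
    refine (continuousOn_dens hY hoY hom).comp (TE E').symm.continuous.continuousOn ?_
    rintro _ ⟨x, hx, rfl⟩
    rw [ContinuousLinearEquiv.symm_apply_apply]; exact hx
  obtain ⟨C, hC'⟩ := hcY.exists_bound_of_continuousOn hcont
  refine hM.mul_bdd (c := C) (hcont.aestronglyMeasurable hY.measurableSet) ?_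
  filter_upwards [ae_restrict_mem hY.measurableSet] with y hy using hC' y hy

theorem J_fun_smul {om : E' → Ext E'} (N : EuclideanSpace ℝ (Fin (finrank ℝ E')) → ℝ) :
    J n Y oY (fun x => N (TE E' x) • om x) =
      ∫ y, N y * dens n Y oY om ((TE E').symm y) ∂(mY n Y) := by
  rw [J]
  refine integral_congr_ae (Eventually.of_forall fun y => ?_)
  show dens n Y oY (fun x => N (TE E' x) • om x) ((TE E').symm y) = _
  rw [dens_fun_smul, ContinuousLinearEquiv.apply_symm_apply]

/-- an integrable function on `Y` whose weak derivatives vanish is locally a.e. constant. -/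
theorem local_ae_const (hY : Clo n Y) (hoY : Ori n Y oY)
    {N : EuclideanSpace ℝ (Fin (finrank ℝ E')) → ℝ} (hN : Integrable N (mY n Y))
    (hw : ∀ β : E' → Ext E', (∀ x ∈ Y, ContDiffAt ℝ 1 β x) →
      J n Y oY (fun x => N (TE E' x) • F.d β x) = 0) {x₀ : E'} (hx₀ : x₀ ∈ Y) :
    ∃ U : Set E', IsOpen U ∧ x₀ ∈ U ∧ ∃ κ : ℝ,
      ∀ᵐ y ∂(μHE[n].restrict (TE E' '' (Y ∩ U))), N y = κ := by
  obtain ⟨g, u₀, ρ, ε, hρ, hε, hg, rfl, htest⟩ := exists_test hY hoY hx₀
  set ρ' := ρ / 2 with hρ'
  have hρ'0 : 0 < ρ' := by positivity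
  have hsub : Metric.closedBall u₀ ρ' ⊆ Metric.ball u₀ ρ :=
    Metric.closedBall_subset_ball (by rw [hρ']; linarith)
  -- integrability
  have hint : IntegrableOn (fun u => N (TE E' (g u))) (Metric.closedBall u₀ ρ') := by
    have h1 : IntegrableOn (fun y => dens n Y oY (fun x => N (TE E' x) • oY x) ((TE E').symm y))
        (TE E' '' Y) μHE[n] := by
      refine (integrable_mul_dens hY hoY hoY.cont hN).congr (Eventually.of_forall fun y => ?_)
      show _ = dens n Y oY (fun x => N (TE E' x) • oY x) ((TE E').symm y)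
      rw [dens_fun_smul, ContinuousLinearEquiv.apply_symm_apply]
    have h2 := (integrableOn_chart hg Metric.isClosed_closedBall.measurableSet hsub).1
      (h1.mono_set (image_mono ((image_mono hsub).trans hg.image_subset)))
    have h3 : ContinuousOn (fun u => |top n (pull g oY u)|⁻¹) (Metric.closedBall u₀ ρ') := by
      refine ContinuousOn.inv₀ ?_ ?_
      · exact (continuous_abs.comp_continuousOn
          (continuous_top.comp_continuousOn (hg.continuousOn_pull hoY.cont))).mono hsub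
      · intro u hu
        exact abs_ne_zero.2 (hg.top_ne_zero hoY (hsub hu))
    have h4 := h2.mul_continuousOn h3 (isCompact_closedBall _ _)
    refine h4.congr_fun ?_ Metric.isClosed_closedBall.measurableSet
    intro u hu
    have h5 : pull g (fun x => N (TE E' x) • oY x) u = N (TE E' (g u)) • pull g oY u :=
      pull_smul _ _ _ _
    have h6 := abs_ne_zero.2 (hg.top_ne_zero hoY (hsub hu))
    show top n (pull g (fun x => N (TE E' x) • oY x) u) * Real.sign (top n (pull g oY u)) *
      |top n (pull g oY u)|⁻¹ = N (TE E' (g u))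
    rw [h5, map_smul, smul_eq_mul, mul_assoc (N (TE E' (g u))), mul_sign, mul_assoc,
      mul_inv_cancel₀ h6, mul_one]
  obtain ⟨κ, hκ⟩ := ae_const_of_weak hρ'0 hint (fun φ w hφ hφc hφt => by
    obtain ⟨β, h1, -, h3⟩ := htest φ w hφ hφc
      (hφt.trans (Metric.ball_subset_ball (by rw [hρ']; linarith)))
    have h4 := hw β h1
    rw [h3] at h4
    have h5 := (mul_eq_zero.1 h4).resolve_left hε
    rw [← h5]
    symm
    refine setIntegral_eq_of_subset_of_forall_sdiff_eq_zero Metric.isOpen_ball.measurableSet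
      (Metric.ball_subset_ball (by rw [hρ']; linarith)) ?_
    rintro u ⟨-, hu⟩
    have h6 : u ∉ tsupport φ := fun h => hu (hφt h)
    have h7 : fderiv ℝ φ u = 0 := by
      rw [(notMem_tsupport_iff_eventuallyEq.1 h6).fderiv_eq]
      exact fderiv_const_apply _
    rw [h7]; simp)
  set W := Metric.ball u₀ (ρ' / 2) with hW
  have hWV : W ⊆ Metric.ball u₀ ρ := Metric.ball_subset_ball (by rw [hρ']; linarith)
  obtain ⟨U, hU, hUe⟩ := hg.image_open W hWV Metric.isOpen_ball
  refine ⟨U, hU, ?_, κ, ?_⟩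
  · have : g u₀ ∈ g '' W := ⟨u₀, Metric.mem_ball_self (by positivity), rfl⟩
    rw [hUe] at this; exact this.2
  · rw [← hUe, ae_restrict_iff' (hg.measurableSet_image Metric.isOpen_ball.measurableSet hWV)]
    rw [ae_restrict_iff' Metric.isOpen_ball.measurableSet] at hκ
    set A : Set (Eu n) := {u | u ∈ W ∧ N (TE E' (g u)) ≠ κ} with hA
    have hA0 : (volume : Measure (Eu n)) A = 0 := by
      rw [ae_iff] at hκ
      refine measure_mono_null (fun u hu => ?_) hκ
      exact fun h => hu.2 (h hu.1)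
    have h1 := hg.null_image hA0 (fun u hu => hWV hu.1)
    rw [ae_iff]
    refine measure_mono_null ?_ h1
    intro y hy
    have hy' : ¬ (y ∈ TE E' '' (g '' W) → N y = κ) := hy
    rw [Classical.not_imp] at hy'
    obtain ⟨⟨_, ⟨u, hu, rfl⟩, rfl⟩, hy2⟩ := hy'
    exact ⟨g u, ⟨u, ⟨hu, hy2⟩, rfl⟩, rfl⟩

theorem Clo.neBot (hY : Clo n Y) {U : Set E'} (hU : IsOpen U) {x : E'} (hx : x ∈ Y)
    (hxU : x ∈ U) : NeBot (ae (μHE[n].restrict (TE E' '' (Y ∩ U)))) := by
  rw [ae_neBot]
  intro h
  have h1 := hY.measure_pos hU ⟨x, hx, hxU⟩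
  rw [← Measure.restrict_apply_self, h] at h1
  simp at h1

/-- **constancy of integer valued functions with vanishing weak derivative** -/
theorem ae_const_int (hY : Clo n Y) (hoY : Ori n Y oY) (hYc : IsPreconnected Y)
    {N : EuclideanSpace ℝ (Fin (finrank ℝ E')) → ℝ} (hN : Integrable N (mY n Y))
    (hNi : ∀ᵐ y ∂(mY n Y), ∃ m : ℤ, N y = m)
    (hw : ∀ β : E' → Ext E', (∀ x ∈ Y, ContDiffAt ℝ 1 β x) →
      J n Y oY (fun x => N (TE E' x) • F.d β x) = 0) :
    ∃ d : ℤ, ∀ᵐ y ∂(mY n Y), N y = d := by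
  classical
  rcases Y.eq_empty_or_nonempty with hYe | ⟨x₁, hx₁⟩
  · refine ⟨0, ?_⟩
    have : mY n Y = 0 := by rw [mY, hYe, image_empty, Measure.restrict_empty]
    rw [this]; simp
  have hex : ∀ x : Y, ∃ U : Set E', IsOpen U ∧ (x : E') ∈ U ∧ ∃ κ : ℝ,
      ∀ᵐ y ∂(μHE[n].restrict (TE E' '' (Y ∩ U))), N y = κ := fun x =>
    local_ae_const hY hoY hN hw x.2
  choose U hU hxU κ hκ using hex
  have hlc : IsLocallyConstant κ := by
    rw [IsLocallyConstant.iff_eventually_eq]
    intro x
    have h1 : ∀ᶠ y in 𝓝[Y] (x : E'), y ∈ U x := by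
      filter_upwards [mem_nhdsWithin_of_mem_nhds ((hU x).mem_nhds (hxU x))] with y hy using hy
    have h2 : ∀ᶠ y : Y in 𝓝 x, (y : E') ∈ U x := (eventually_nhds_subtype_iff Y x _).2 h1
    filter_upwards [h2] with y hy
    have hne := hY.neBot ((hU x).inter (hU y)) y.2 ⟨hy, hxU y⟩
    have h3 : ∀ᵐ z ∂(μHE[n].restrict (TE E' '' (Y ∩ (U x ∩ U y)))), N z = κ x :=
      ae_mono (Measure.restrict_mono (image_mono (inter_subset_inter_right _ inter_subset_left))
        le_rfl) (hκ x)
    have h4 : ∀ᵐ z ∂(μHE[n].restrict (TE E' '' (Y ∩ (U x ∩ U y)))), N z = κ y :=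
      ae_mono (Measure.restrict_mono (image_mono (inter_subset_inter_right _ inter_subset_right))
        le_rfl) (hκ y)
    obtain ⟨z, hz1, hz2⟩ := (h3.and h4).exists
    rw [← hz1, ← hz2]
  have hpc : PreconnectedSpace Y := isPreconnected_iff_preconnectedSpace.1 hYc
  have hconst : ∀ x : Y, κ x = κ ⟨x₁, hx₁⟩ := fun x => hlc.apply_eq_of_preconnectedSpace _ _
  have hall : ∀ᵐ y ∂(mY n Y), N y = κ ⟨x₁, hx₁⟩ := by
    have : ∀ᵐ y ∂(μHE[n].restrict (TE E' '' Y)), N y = κ ⟨x₁, hx₁⟩ := by
      refine hY.compact.induction_on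
        (p := fun s => ∀ᵐ y ∂(μHE[n].restrict (TE E' '' s)), N y = κ ⟨x₁, hx₁⟩) ?_ ?_ ?_ ?_
      · simp
      · intro s t hst ht
        exact ae_mono (Measure.restrict_mono (image_mono hst) le_rfl) ht
      · intro s t hs ht
        rw [image_union, ae_restrict_union_iff]
        exact ⟨hs, ht⟩
      · intro x hx
        refine ⟨Y ∩ U ⟨x, hx⟩, inter_mem_nhdsWithin Y ((hU ⟨x, hx⟩).mem_nhds (hxU ⟨x, hx⟩)), ?_⟩
        rw [← hconst ⟨x, hx⟩]
        exact hκ ⟨x, hx⟩
    exact this
  have hne := hY.neBot isOpen_univ hx₁ (mem_univ _)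
  rw [inter_univ] at hne
  obtain ⟨z, hz1, m, hz2⟩ := (hall.and hNi).exists
  exact ⟨m, by rw [hz1] at hz2; rw [← hz2]; exact hall⟩

/-- **MAPPING DEGREE** of `f : X → Y`, `Y` connected. -/
theorem exists_degree (hX : Clo n X) (hoX : Ori n X oX) (hY : Clo n Y) (hoY : Ori n Y oY)
    (hYc : IsPreconnected Y) (hf : ∀ x ∈ X, ContDiffAt ℝ 2 f x) (hm : MapsTo f X Y) :
    ∃ d : ℤ, ∀ om : E' → Ext E', ContinuousOn om Y →
      J n X oX (pull f om) = d * J n Y oY om := by
  obtain ⟨N, hN1, hN2, hN3⟩ := exists_mult hX hoX hY hoY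
    (fun x hx => (hf x hx).of_le (by norm_num)) hm
  obtain ⟨d, hd⟩ := ae_const_int hY hoY hYc hN1 hN2 (fun β hβ => by
    rw [J_fun_smul, ← hN3 _ (continuousOn_d hβ)]
    have h1 : J n X oX (pull f (F.d β)) = J n X oX (F.d (pull f β)) :=
      J_congr' hX fun x hx => (d_pull (hf x hx) ((hβ _ (hm hx)).differentiableAt (by norm_num))).symm
    rw [h1]
    exact J_d hX hoX fun x hx => contDiffAt_pull (hf x hx) (by norm_num [one_add_one_eq_two])
      (hβ _ (hm hx)))
  refine ⟨d, fun om hom => ?_⟩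
  rw [hN3 om hom]
  have h2 : ∫ y, N y * dens n Y oY om ((TE E').symm y) ∂(mY n Y) =
      ∫ y, (d : ℝ) * dens n Y oY om ((TE E').symm y) ∂(mY n Y) := by
    refine integral_congr_ae ?_
    filter_upwards [hd] with y hy
    rw [hy]
  rw [h2, integral_const_mul]
  rfl

end degree

end Crest.Agent.R208.FI
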