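import Crest.Agent.R208.FH9a

/-! Row 208, block F2 (helper198), part FH11a: multiplicity functions of countable families of
sets; integrable functions with vanishing weak derivatives. -/

set_option autoImplicit false
set_option linter.unusedSectionVars false

open MeasureTheory MeasureTheory.Measure Set Filter Topology Module
open Crest.Agent.R208.F
open scoped ENNReal

noncomputable section

namespace Crest.Agent.R208.FI

/-- **multiplicity function** of a countable family of sets with summable measures. -/
theorem mult_spec {α : Type*} [MeasurableSpace α] {μ : Measure α} {ι : Type*} [Countable ι]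
    {B : ι → Set α} (hB : ∀ i, MeasurableSet (B i)) (hs : ∑' i, μ (B i) ≠ ∞) :
    ∃ N : α → ℝ, Integrable N μ ∧ (∀ᵐ y ∂μ, ∃ m : ℕ, N y = m) ∧
      ∀ D : α → ℝ, (∀ i, IntegrableOn D (B i) μ) → (Summable fun i => ∫ y in B i, ‖D y‖ ∂μ) →
        HasSum (fun i => ∫ y in B i, D y ∂μ) (∫ y, N y * D y ∂μ) := by
  classical
  set M : α → ℝ≥0∞ := fun y => ∑' i, (B i).indicator (fun _ => (1 : ℝ≥0∞)) y with hM
  have hMm : Measurable M := Measurable.tsum fun i => measurable_const.indicator (hB i)
  have hMi : ∫⁻ y, M y ∂μ = ∑' i, μ (B i) := by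
    rw [hM, lintegral_tsum fun i => (measurable_const.indicator (hB i)).aemeasurable]
    refine tsum_congr fun i => ?_
    rw [lintegral_indicator (hB i)]; simp
  have hfin := ae_finite_setOfPred_mem (μ := μ) hs
  have key : ∀ y, {i | y ∈ B i}.Finite → ∃ m : ℕ, M y = m ∧
      ∀ D : α → ℝ, ∑' i, (B i).indicator D y = m * D y := by
    intro y hy
    refine ⟨hy.toFinset.card, ?_, fun D => ?_⟩
    · show ∑' i, (B i).indicator (fun _ => (1 : ℝ≥0∞)) y = _
      rw [tsum_eq_sum (s := hy.toFinset) (fun i hi => by
        rw [indicator_of_notMem]; simpa using hi)]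
      rw [Finset.sum_congr rfl (g := fun _ => (1 : ℝ≥0∞)) (fun i hi => by
        rw [indicator_of_mem]; simpa using hi)]
      simp
    · rw [tsum_eq_sum (s := hy.toFinset) (fun i hi => by
        rw [indicator_of_notMem]; simpa using hi)]
      rw [Finset.sum_congr rfl (g := fun _ => D y) (fun i hi => by
        rw [indicator_of_mem]; simpa using hi)]
      simp
  refine ⟨fun y => (M y).toReal, integrable_toReal_of_lintegral_ne_top hMm.aemeasurable
    (by rw [hMi]; exact hs), ?_, ?_⟩
  · filter_upwards [hfin] with y hy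
    obtain ⟨m, hm, -⟩ := key y hy
    exact ⟨m, by rw [hm]; simp⟩
  · intro D hD hsum
    have h1 := hasSum_integral_of_summable_integral_norm (μ := μ)
      (F := fun i => (B i).indicator D) (fun i => (integrable_indicator_iff (hB i)).2 (hD i)) (by
        refine hsum.congr fun i => ?_
        rw [← integral_indicator (hB i)]
        refine integral_congr_ae (Eventually.of_forall fun y => ?_)
        by_cases hy : y ∈ B i
        · simp [indicator_of_mem hy]
        · simp [indicator_of_notMem hy])
    have h2 : (fun i => ∫ y in B i, D y ∂μ) = fun i => ∫ y, (B i).indicator D y ∂μ := by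
      funext i; rw [integral_indicator (hB i)]
    rw [h2]
    have h3 : ∫ y, (M y).toReal * D y ∂μ = ∫ y, ∑' i, (B i).indicator D y ∂μ := by
      refine integral_congr_ae ?_
      filter_upwards [hfin] with y hy
      obtain ⟨m, hm, hD'⟩ := key y hy
      simp only [hm, hD', ENNReal.toReal_natCast]
    rw [h3]
    exact h1

open scoped Convolution ContDiff in
/-- an integrable function on a ball with vanishing weak derivatives is a.e. constant. -/
theorem ae_const_of_weak {d : ℕ} {g : Eu d → ℝ} {u₀ : Eu d} {ρ : ℝ} (hρ : 0 < ρ)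
    (hg : IntegrableOn g (Metric.closedBall u₀ ρ))
    (hw : ∀ (φ : Eu d → ℝ) (w : Eu d), ContDiff ℝ ∞ φ → HasCompactSupport φ →
      tsupport φ ⊆ Metric.ball u₀ ρ → ∫ u in Metric.ball u₀ ρ, g u * fderiv ℝ φ u w = 0) :
    ∃ κ : ℝ, ∀ᵐ u ∂((volume : Measure (Eu d)).restrict (Metric.ball u₀ (ρ / 2))), g u = κ := by
  set C := Metric.closedBall u₀ ρ with hC
  set gt : Eu d → ℝ := C.indicator g with hgt
  have hgtC : ∀ x ∈ C, gt x = g x := fun x hx => indicator_of_mem hx g
  have hCm : MeasurableSet C := Metric.isClosed_closedBall.measurableSet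
  have hgtI : Integrable gt := (integrable_indicator_iff hCm).2 hg
  set S := Metric.ball u₀ (ρ / 2) with hS
  -- convolutions with small bumps are constant on `S`
  have hconst : ∀ φ : ContDiffBump (0 : Eu d), φ.rOut ≤ ρ / 4 → ∀ x ∈ S, ∀ y ∈ S,
      (φ.normed volume ⋆[ContinuousLinearMap.lsmul ℝ ℝ, volume] gt : Eu d → ℝ) x =
      (φ.normed volume ⋆[ContinuousLinearMap.lsmul ℝ ℝ, volume] gt : Eu d → ℝ) y := by
    intro φ hφ
    set ψ : Eu d → ℝ := φ.normed volume with hψ
    have hψC : ContDiff ℝ ∞ ψ := φ.contDiff_normed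
    have hψs : HasCompactSupport ψ := φ.hasCompactSupport_normed
    have hψt : tsupport ψ = Metric.closedBall 0 φ.rOut := φ.tsupport_normed_eq
    set G : Eu d → ℝ := ψ ⋆[ContinuousLinearMap.lsmul ℝ ℝ, volume] gt with hG
    have hG2 : G = gt ⋆[(ContinuousLinearMap.lsmul ℝ ℝ : ℝ →L[ℝ] ℝ →L[ℝ] ℝ).flip, volume] ψ := by
      rw [hG, ← convolution_flip]
    have hderiv : ∀ x ∈ S, HasFDerivAt G (0 : Eu d →L[ℝ] ℝ) x := by
      intro x hx
      have h1 := hψs.hasFDerivAt_convolution_right
        (ContinuousLinearMap.lsmul ℝ ℝ : ℝ →L[ℝ] ℝ →L[ℝ] ℝ).flip (μ := volume)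
        hgtI.locallyIntegrable (hψC.of_le (by simp)) x
      rw [← hG2] at h1
      have h2 : ((gt ⋆[((ContinuousLinearMap.lsmul ℝ ℝ : ℝ →L[ℝ] ℝ →L[ℝ] ℝ).flip).precompR
          (Eu d), volume] fderiv ℝ ψ) x : Eu d →L[ℝ] ℝ) = 0 := by
        ext w
        rw [convolution_precompR_apply _ hgtI.locallyIntegrable (hψs.fderiv ℝ)
          (hψC.continuous_fderiv (by simp))]
        rw [convolution_def]
        set φx : Eu d → ℝ := fun t => ψ (x - t) with hφx
        have hφxC : ContDiff ℝ ∞ φx := hψC.comp (contDiff_const.sub contDiff_id)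
        have hsub : tsupport φx ⊆ Metric.closedBall x φ.rOut := by
          refine closure_minimal ?_ Metric.isClosed_closedBall
          intro t ht
          have : x - t ∈ tsupport ψ := subset_tsupport _ ht
          rw [hψt, Metric.mem_closedBall, dist_zero_right] at this
          rw [Metric.mem_closedBall, dist_comm, dist_eq_norm]
          exact this
        have hsubB : Metric.closedBall x φ.rOut ⊆ Metric.ball u₀ ρ := by
          refine Metric.closedBall_subset_ball' ?_
          have : dist x u₀ < ρ / 2 := hx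
          linarith
        have hφxs : HasCompactSupport φx :=
          HasCompactSupport.of_support_subset_isCompact (isCompact_closedBall x φ.rOut)
            ((subset_tsupport _).trans hsub)
        have h3 := hw φx w hφxC hφxs (hsub.trans hsubB)
        have h4 : ∀ t, fderiv ℝ φx t w = - fderiv ℝ ψ (x - t) w := by
          intro t
          have h5 : HasFDerivAt φx ((fderiv ℝ ψ (x - t)).comp
              (-(ContinuousLinearMap.id ℝ (Eu d)))) t := by
            have h6 : HasFDerivAt (fun t : Eu d => x - t) (-(ContinuousLinearMap.id ℝ (Eu d))) t :=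
              (hasFDerivAt_id t).const_sub x
            exact ((hψC.differentiable (by simp)) (x - t)).hasFDerivAt.comp t h6
          rw [h5.fderiv]
          simp
        rw [← integral_indicator Metric.isOpen_ball.measurableSet] at h3
        have h7 : ∀ t, ((ContinuousLinearMap.lsmul ℝ ℝ : ℝ →L[ℝ] ℝ →L[ℝ] ℝ).flip (gt t))
            (fderiv ℝ ψ (x - t) w) =
            - (Metric.ball u₀ ρ).indicator (fun u => g u * fderiv ℝ φx u w) t := by
          intro t
          have h8 : ((ContinuousLinearMap.lsmul ℝ ℝ : ℝ →L[ℝ] ℝ →L[ℝ] ℝ).flip (gt t))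
            (fderiv ℝ ψ (x - t) w) = fderiv ℝ ψ (x - t) w * gt t := rfl
          rw [h8]
          by_cases ht2 : t ∈ Metric.ball u₀ ρ
          · rw [hgtC t (Metric.ball_subset_closedBall ht2), indicator_of_mem ht2, h4]; ring
          · have h9 : fderiv ℝ φx t = 0 := by
              have : t ∉ tsupport φx := fun h => ht2 (hsubB (hsub h))
              rw [(notMem_tsupport_iff_eventuallyEq.1 this).fderiv_eq]
              exact fderiv_const_apply _
            have h10 : fderiv ℝ ψ (x - t) w = 0 := by
              have := h4 t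
              rw [h9] at this
              simpa using this.symm
            rw [indicator_of_notMem ht2, h10]; simp
        simp only [h7]
        rw [integral_neg, h3, neg_zero]
        rfl
      rw [h2] at h1
      exact h1
    intro x hx y hy
    exact Metric.isOpen_ball.is_const_of_fderiv_eq_zero (s := S) (𝕜 := ℝ)
      (convex_ball _ _).isPreconnected
      (fun x hx => (hderiv x hx).differentiableAt.differentiableWithinAt)
      (fun x hx => (hderiv x hx).fderiv) hx hy
  -- a sequence of bumps
  let φ : ℕ → ContDiffBump (0 : Eu d) := fun i =>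
    ⟨ρ / (8 * (i + 1)), ρ / (4 * (i + 1)), by positivity, by
      apply div_lt_div_of_pos_left hρ (by positivity)
      have : (0 : ℝ) ≤ i := Nat.cast_nonneg i
      linarith⟩
  have hφr : ∀ i, (φ i).rOut = ρ / (4 * (i + 1)) := fun i => rfl
  have hφ0 : Tendsto (fun i => (φ i).rOut) atTop (𝓝 0) := by
    have h1 : Tendsto (fun i : ℕ => (ρ / 4) * (1 / ((i : ℝ) + 1))) atTop (𝓝 ((ρ / 4) * 0)) :=
      tendsto_one_div_add_atTop_nhds_zero_nat.const_mul _
    rw [mul_zero] at h1
    refine h1.congr fun i => ?_
    rw [hφr]; field_simp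
  have hφle : ∀ i, (φ i).rOut ≤ ρ / 4 := fun i => by
    rw [hφr]
    apply div_le_div_of_nonneg_left hρ.le (by norm_num)
    have : (0 : ℝ) ≤ i := Nat.cast_nonneg i
    linarith
  have hae := ContDiffBump.ae_convolution_tendsto_right_of_locallyIntegrable (μ := volume)
    (φ := φ) (K := 2) hφ0 (Eventually.of_forall fun i => by
      show ρ / (4 * (i + 1)) ≤ 2 * (ρ / (8 * (i + 1)))
      apply le_of_eq; field_simp; ring) hgtI.locallyIntegrable
  have hSpos : (volume : Measure (Eu d)) S ≠ 0 := (Metric.measure_ball_pos _ _ (by positivity)).ne'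
  have haeS := ae_restrict_of_ae (s := S) hae
  have : NeBot (ae ((volume : Measure (Eu d)).restrict S)) := by
    rw [ae_neBot]
    intro h
    apply hSpos
    rw [← Measure.restrict_apply_self, h]; rfl
  obtain ⟨x₀, hx₀, hx₀S⟩ := (haeS.and (ae_restrict_mem Metric.isOpen_ball.measurableSet)).exists
  refine ⟨gt x₀, ?_⟩
  filter_upwards [haeS, ae_restrict_mem Metric.isOpen_ball.measurableSet] with x hx hxS
  have h1 : x ∈ C := Metric.ball_subset_closedBall (Metric.ball_subset_ball (by linarith) hxS)
  rw [← hgtC x h1]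
  refine tendsto_nhds_unique hx (hx₀.congr fun i => ?_)
  exact hconst (φ i) (hφle i) x₀ hx₀S x hxS

end Crest.Agent.R208.FI
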