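import Crest.Agent.R208.FH6

/-! Row 208, block F2 (helper198), part FH7: **invariance of the integral under bijections**
`h : X → Y` (differentiable at the points of `X`): `∫_X h^* om = ∫_Y om`. -/

set_option autoImplicit false
set_option linter.unusedSectionVars false

open MeasureTheory MeasureTheory.Measure Set Filter Topology Module
open scoped ContDiff
open Crest.Agent.R208.F

noncomputable section

namespace Crest.Agent.R208.FI

variable {E E' : Type*} [NormedAddCommGroup E] [NormedSpace ℝ E] [FiniteDimensional ℝ E]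
  [NormedAddCommGroup E'] [NormedSpace ℝ E'] [FiniteDimensional ℝ E']

variable {n : ℕ} {X : Set E} {Y : Set E'} {h : E → E'} {o om : E' → Ext E'}

/-- one piece of `X` -/
theorem piece_pull (hY : Clo n Y) (hh : ∀ x ∈ X, DifferentiableAt ℝ h x)
    (hm : MapsTo h X Y) (hinj : InjOn h X) {f : Eu n → E} {V P : Set (Eu n)} (hf : Chart n X f V)
    (hP : MeasurableSet P) (hPV : P ⊆ V) :
    (IntegrableOn (fun y => dens n X (pull h o) (pull h om) ((TE E).symm y))
      (TE E '' (f '' P)) μHE[n] ↔
      IntegrableOn (fun y => dens n Y o om ((TE E').symm y))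
        (TE E' '' (h '' (f '' P))) μHE[n]) ∧
    JS n X (pull h o) (pull h om) (f '' P) = JS n Y o om (h '' (f '' P)) := by
  have hd : ∀ u ∈ P, DifferentiableAt ℝ (h ∘ f) u := fun u hu =>
    (hh _ (hf.mem (hPV hu))).comp u (hf.differentiableAt (hPV hu))
  have hi : InjOn (h ∘ f) P := fun u hu v hv huv =>
    hf.injOn (hPV hu) (hPV hv) (hinj (hf.mem (hPV hu)) (hf.mem (hPV hv)) huv)
  have hT : ∀ u ∈ P, finrank ℝ (Tan Y ((h ∘ f) u)) = n := fun u hu =>
    hY.finrank_Tan (hm (hf.mem (hPV hu)))
  have hmem : ∀ u ∈ P, ∀ w, fderiv ℝ (h ∘ f) u w ∈ Tan Y ((h ∘ f) u) := fun u hu w =>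
    fderiv_mem_Tan (hd u hu)
      (by filter_upwards [hf.isOpen.mem_nhds (hPV hu)] with z hz using hm (hf.mem hz)) w
  have hc : ∀ (c : E' → Ext E'), ∀ u ∈ P, pull f (pull h c) u = pull (h ∘ f) c u :=
    fun c u hu => pull_comp (hf.differentiableAt (hPV hu)) (hh _ (hf.mem (hPV hu)))
  have himg : h '' (f '' P) = (h ∘ f) '' P := (image_comp h f P).symm
  have hcongr : EqOn (fun u => top n (pull f (pull h om) u) *
      Real.sign (top n (pull f (pull h o) u))) (fun u => top n (pull (h ∘ f) om u) *
      Real.sign (top n (pull (h ∘ f) o u))) P := fun u hu => by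
    simp only [hc _ u hu]
  constructor
  · rw [himg]
    exact (integrableOn_chart hf hP hPV).trans
      ((integrableOn_congr_fun hcongr hP).trans (integrableOn_param hP hd hi hT hmem).symm)
  · rw [himg]
    refine (integral_chart hf hP hPV).trans ?_
    rw [setIntegral_congr_fun hP hcongr]
    exact (integral_param hP hd hi hT hmem).symm

/-- **change of variables** for a bijection `h : X → Y` of closed manifolds, integrable version. -/
theorem J_pull' (hX : Clo n X) (hY : Clo n Y) (hh : ∀ x ∈ X, DifferentiableAt ℝ h x)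
    (hb : BijOn h X Y)
    (hint : IntegrableOn (fun y => dens n Y o om ((TE E').symm y)) (TE E' '' Y) μHE[n]) :
    J n X (pull h o) (pull h om) = J n Y o om ∧
      IntegrableOn (fun y => dens n X (pull h o) (pull h om) ((TE E).symm y)) (TE E '' X)
        μHE[n] := by
  classical
  obtain ⟨N, f, V, P, -, hC, hPV, hPm, hdisj, hU⟩ := exists_decomp hX.compact (fun _ _ => True)
    (fun z hz => by
      obtain ⟨f, V, hf, hz'⟩ := hX.chart z hz
      exact ⟨f, V, trivial, hf, hz'⟩)
  have hsubX : ∀ i, f i '' P i ⊆ X := fun i => by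
    rw [← hU]; exact subset_iUnion (fun i => f i '' P i) i
  have hUY : ⋃ i, h '' (f i '' P i) = Y := by
    rw [← image_iUnion, hU, hb.image_eq]
  have hp := fun i => piece_pull (o := o) (om := om) hY hh hb.mapsTo hb.injOn (hC i) (hPm i)
    (hPV i)
  have hintY : ∀ i, IntegrableOn (fun y => dens n Y o om ((TE E').symm y))
      (TE E' '' (h '' (f i '' P i))) μHE[n] := fun i =>
    hint.mono_set (image_mono (by rw [← hUY]; exact subset_iUnion (fun i => h '' (f i '' P i)) i))
  have hintX : IntegrableOn (fun y => dens n X (pull h o) (pull h om) ((TE E).symm y))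
      (TE E '' X) μHE[n] := by
    have h0 : TE E '' X = ⋃ i, TE E '' (f i '' P i) := by rw [← image_iUnion, hU]
    rw [h0, integrableOn_finite_iUnion]
    exact fun i => (hp i).1.2 (hintY i)
  refine ⟨?_, hintX⟩
  have h1 : J n X (pull h o) (pull h om) = ∑ i, JS n X (pull h o) (pull h om) (f i '' P i) := by
    rw [← JS_iUnion _ (fun i => (hC i).measurableSet_image (hPm i) (hPV i)) hdisj
      (by rw [hU]; exact hintX), hU]; rfl
  have h2 : J n Y o om = ∑ i, JS n Y o om (h '' (f i '' P i)) := by
    rw [← JS_iUnion _ (fun i => ?_) (fun i j hij => ?_) (by rw [hUY]; exact hint), hUY]; rfl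
    · rw [image_image, image_image]
      refine (hPm i).image_of_continuousOn_injOn ?_ ?_
      · intro u hu
        have hu' : f i u ∈ X := (hC i).mem (hPV i hu)
        exact ((TE E').continuous.continuousAt.comp (((hh _ hu').continuousAt).comp
          ((hC i).contDiffAt (hPV i hu)).continuousAt)).continuousWithinAt
      · intro u hu v hv huv
        exact (hC i).injOn (hPV i hu) (hPV i hv) (hb.injOn ((hC i).mem (hPV i hu))
          ((hC i).mem (hPV i hv)) ((TE E').injective huv))
    · refine Set.disjoint_left.2 ?_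
      rintro y ⟨x, hx, rfl⟩ ⟨x', hx', hxx⟩
      have := hb.injOn (hsubX j hx') (hsubX i hx) hxx
      subst this
      exact Set.disjoint_left.1 (hdisj hij) hx hx'
  rw [h1, h2]
  exact Finset.sum_congr rfl fun i _ => (hp i).2

/-- **change of variables** `∫_X h^* om = ∫_Y om` for a bijection `h : X → Y` of closed
manifolds, `X` oriented by the pull-back of the orientation of `Y`. -/
theorem J_pull (hX : Clo n X) (hY : Clo n Y) (hh : ∀ x ∈ X, DifferentiableAt ℝ h x)
    (hb : BijOn h X Y) (ho : Ori n Y o) (hom : ContinuousOn om Y) :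
    J n X (pull h o) (pull h om) = J n Y o om :=
  (J_pull' hX hY hh hb (integrableOn_dens hY ho hom)).1

/-- `pull h o` is an orientation, if `h` is an immersion -/
theorem Ori.pull (hX : Clo n X) (hY : Clo n Y) (hh : ∀ x ∈ X, ContDiffAt ℝ 1 h x)
    (hm : MapsTo h X Y) (hi : ∀ x ∈ X, ∀ v ∈ Tan X x, fderiv ℝ h x v = 0 → v = 0)
    (ho : Ori n Y o) : Ori n X (pull h o) where
  cont := FI.continuousOn_pull (fun x hx => (hh x hx).continuousAt.continuousWithinAt)
    (fun x hx => ((hh x hx).fderiv_right (m := 0) (by norm_num)).continuousAt.continuousWithinAt)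
    hm ho.cont
  ne := by
    intro x hx
    obtain ⟨f, V, hf, u, hu, rfl⟩ := hX.chart x hx
    have hd : DifferentiableAt ℝ h (f u) := (hh _ hx).differentiableAt (by norm_num)
    refine (top_ne_zero (finrank_Tan_chart hf hu) (fun w => hf.fderiv_mem hu w) (hf.inj _ hu)).1 ?_
    have h1 : top n (F.pull f (F.pull h o) u) ≠ 0 := by
      rw [pull_comp (hf.differentiableAt hu) hd]
      have h2 : fderiv ℝ (h ∘ f) u = (fderiv ℝ h (f u)).comp (fderiv ℝ f u) :=
        fderiv_comp u hd (hf.differentiableAt hu)
      refine (top_ne_zero (x := h (f u)) (hY.finrank_Tan (hm hx)) (fun w => ?_) ?_).2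
        (ho.ne _ (hm hx))
      · exact fderiv_mem_Tan (hd.comp u (hf.differentiableAt hu))
          (by filter_upwards [hf.isOpen.mem_nhds hu] with z hz using hm (hf.mem hz)) w
      · rw [h2]
        intro v w hvw
        have h3 : fderiv ℝ h (f u) (fderiv ℝ f u (v - w)) = 0 := by
          rw [map_sub, map_sub]
          exact sub_eq_zero.2 hvw
        have h4 := hi _ hx _ (hf.fderiv_mem hu (v - w)) h3
        have h5 := hf.inj u hu (a₁ := v - w) (a₂ := 0) (by rw [h4, map_zero])
        exact sub_eq_zero.1 h5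
    exact h1

end Crest.Agent.R208.FI
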