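import Crest.Agent.R208.FH11a
import Crest.Agent.R208.FH7
import Crest.Agent.R208.FI1e

/-! Row 208, block F2 (helper198), part FH11b: **area formula with multiplicity** for maps
`f : X → Y` between closed oriented manifolds of the same dimension:
`∫_X f^* om = ∫_Y N om` with an integer valued integrable function `N`. -/

set_option autoImplicit false
set_option linter.unusedSectionVars false

open MeasureTheory MeasureTheory.Measure Set Filter Topology Module
open scoped ContDiff
open Crest.Agent.R208.F

noncomputable section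

namespace Crest.Agent.R208.FI

variable {E E' : Type*} [NormedAddCommGroup E] [NormedSpace ℝ E] [FiniteDimensional ℝ E]
  [NormedAddCommGroup E'] [NormedSpace ℝ E'] [FiniteDimensional ℝ E']

theorem injOn_of_approx {F G : Type*} [NormedAddCommGroup F] [NormedSpace ℝ F]
    [NormedAddCommGroup G] [NormedSpace ℝ G] {h : F → G} {A : F →L[ℝ] G} {Q : Set F} {c K : NNReal}
    (hA : AntilipschitzWith K A) (hK : c * K < 1) (hh : ApproximatesLinearOn h A Q c) :
    InjOn h Q := by
  intro x hx y hy hxy
  by_contra hne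
  have h1 := hh x hx y hy
  rw [hxy, sub_self, zero_sub, norm_neg] at h1
  have h2 := hA.le_mul_dist x y
  rw [dist_eq_norm, dist_eq_norm, ← map_sub] at h2
  have h3 : 0 < ‖x - y‖ := norm_pos_iff.2 (sub_ne_zero.2 hne)
  have h4 : ‖x - y‖ ≤ (c * K : NNReal) * ‖x - y‖ := by
    calc ‖x - y‖ ≤ K * ‖A (x - y)‖ := h2
      _ ≤ K * (c * ‖x - y‖) := mul_le_mul_of_nonneg_left h1 K.2
      _ = _ := by push_cast; ring
  have h5 : ((c * K : NNReal) : ℝ) < 1 := by exact_mod_cast hK
  nlinarith

/-- countable partition of the regular part into pieces of injectivity -/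
theorem exists_inj_partition {n : ℕ} {h : Eu n → E'} {R : Set (Eu n)}
    (hd : ∀ u ∈ R, DifferentiableAt ℝ h u) (hi : ∀ u ∈ R, Function.Injective (fderiv ℝ h u)) :
    ∃ t : ℕ → Set (Eu n), Pairwise (fun i j => Disjoint (t i) (t j)) ∧
      (∀ j, MeasurableSet (t j)) ∧ R ⊆ ⋃ j, t j ∧ ∀ j, InjOn h (R ∩ t j) := by
  classical
  rcases R.eq_empty_or_nonempty with rfl | hne
  · exact ⟨fun _ => ∅, fun i j _ => disjoint_bot_left, fun _ => MeasurableSet.empty, by simp,
      fun j => by simp⟩
  have hex : ∀ A : Eu n →L[ℝ] E', ∃ K : NNReal, 0 < K ∧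
      (Function.Injective A → AntilipschitzWith K A) := by
    intro A
    by_cases hA : Function.Injective A
    · obtain ⟨K, hK, h1⟩ := (A : Eu n →ₗ[ℝ] E').exists_antilipschitzWith
        (LinearMap.ker_eq_bot.2 hA)
      exact ⟨K, hK, fun _ => h1⟩
    · exact ⟨1, one_pos, fun h => absurd h hA⟩
  choose K hK hKA using hex
  obtain ⟨t, A, htd, htm, htR, hta, htA⟩ :=
    exists_partition_approximatesLinearOn_of_hasFDerivWithinAt h R (fderiv ℝ h)
      (fun u hu => (hd u hu).hasFDerivAt.hasFDerivWithinAt) (fun A => (K A)⁻¹ / 2)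
      (fun A => by
        have := hK A
        positivity)
  refine ⟨t, fun i j hij => htd hij, htm, htR, fun j => ?_⟩
  obtain ⟨y, hy, hAy⟩ := htA hne j
  have hinj : Function.Injective (A j) := by rw [hAy]; exact hi y hy
  refine injOn_of_approx (hKA _ hinj) ?_ (hta j)
  have h1 : (K (A j))⁻¹ / 2 * K (A j) = 1 / 2 := by
    have := (hK (A j)).ne'
    field_simp
  rw [h1]
  exact NNReal.half_lt_self one_ne_zero |>.trans_le le_rfl |> fun h => by simpa using h

section sheet
variable {n : ℕ} {X : Set E} {Y : Set E'} {f : E → E'} {oX : E → Ext E} {oY : E' → Ext E'}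

/-- the measure on `Y` -/
abbrev mY (n : ℕ) (Y : Set E') : Measure (EuclideanSpace ℝ (Fin (finrank ℝ E'))) :=
  μHE[n].restrict (TE E' '' Y)

/-- **one sheet**: `R` a measurable subset of a chart domain of `X` on which `h = f ∘ φ` is
immersive with constant orientation character `s = ±1`. -/
theorem sheet (hY : Clo n Y) (hoY : Ori n Y oY) (hX : Clo n X) (hoX : Ori n X oX)
    (hf : ∀ x ∈ X, ContDiffAt ℝ 1 f x) (hm : MapsTo f X Y) {φ : Eu n → E} {V R : Set (Eu n)}
    (hφ : Chart n X φ V) (hR : MeasurableSet R) (hRV : R ⊆ V) (s : ℝ) (hs : s ^ 2 = 1)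
    (hreg : ∀ u ∈ R, top n (pull (f ∘ φ) oY u) ≠ 0)
    (hsgn : ∀ u ∈ R, Real.sign (top n (pull φ oX u)) =
      s * Real.sign (top n (pull (f ∘ φ) oY u))) :
    ∃ N : EuclideanSpace ℝ (Fin (finrank ℝ E')) → ℝ, Integrable N (mY n Y) ∧
      (∀ᵐ y ∂(mY n Y), ∃ m : ℕ, N y = m) ∧
      ∀ om : E' → Ext E', ContinuousOn om Y →
        ∫ u in R, top n (pull φ (pull f om) u) * Real.sign (top n (pull φ oX u)) =
          s * ∫ y, N y * dens n Y oY om ((TE E').symm y) ∂(mY n Y) := by
  classical
  set h := f ∘ φ with hh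
  have hd : ∀ u ∈ V, DifferentiableAt ℝ h u := fun u hu =>
    ((hf _ (hφ.mem hu)).differentiableAt (by norm_num)).comp u (hφ.differentiableAt hu)
  have hT : ∀ u ∈ V, finrank ℝ (Tan Y (h u)) = n := fun u hu => hY.finrank_Tan (hm (hφ.mem hu))
  have hmem : ∀ u ∈ V, ∀ w, fderiv ℝ h u w ∈ Tan Y (h u) := fun u hu w =>
    fderiv_mem_Tan (hd u hu)
      (by filter_upwards [hφ.isOpen.mem_nhds hu] with z hz using hm (hφ.mem hz)) w
  have hpull : ∀ (c : E' → Ext E'), ∀ u ∈ V, pull φ (pull f c) u = pull h c u :=
    fun c u hu => pull_comp (hφ.differentiableAt hu)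
      ((hf _ (hφ.mem hu)).differentiableAt (by norm_num))
  have hinj : ∀ u ∈ R, Function.Injective (fderiv ℝ h u) := by
    intro u hu
    by_contra hni
    apply hreg u hu
    -- the determinant vanishes
    obtain ⟨M, h1, h2, -⟩ := exists_matrix (frame_isFrame (hT u (hRV hu))) (hT u (hRV hu))
      (hmem u (hRV hu))
    have h3 : Crest.Agent.R241.AF.jac (LE E' ∘L fderiv ℝ h u) = 0 := by
      by_contra h4
      apply hni
      have h6 := ((LE E' ∘L fderiv ℝ h u).toLinearMap.normDet_eq_zero_tfae.out 0 5)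
      by_contra h7
      apply h4
      refine h6.2 ?_
      intro h8
      apply h7
      intro a b hab
      apply h8
      show LE E' (fderiv ℝ h u a) = LE E' (fderiv ℝ h u b)
      rw [hab]
    rw [h3] at h1
    have h9 : M.det = 0 := abs_eq_zero.1 h1.symm
    show top n (pb _ (oY (h u))) = 0
    rw [h2, h9, zero_mul]
  obtain ⟨t, htd, htm, htR, hti⟩ := exists_inj_partition (fun u hu => hd u (hRV hu)) hinj
  set Q : ℕ → Set (Eu n) := fun j => R ∩ t j with hQ
  have hQm : ∀ j, MeasurableSet (Q j) := fun j => hR.inter (htm j)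
  have hQd : Pairwise (Function.onFun Disjoint Q) := fun i j hij =>
    (htd hij).mono inter_subset_right inter_subset_right
  have hQU : ⋃ j, Q j = R := by
    rw [← inter_iUnion]; exact inter_eq_left.2 htR
  have hQR : ∀ j, Q j ⊆ R := fun j => inter_subset_left
  set B : ℕ → Set (EuclideanSpace ℝ (Fin (finrank ℝ E'))) := fun j => TE E' '' (h '' Q j) with hB
  have hBm : ∀ j, MeasurableSet (B j) := by
    intro j
    show MeasurableSet (TE E' '' (h '' Q j))
    rw [image_image]
    refine (hQm j).image_of_continuousOn_injOn ?_ ?_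
    · intro u hu
      exact ((TE E').continuous.continuousAt.comp
        (hd u (hRV (hQR j hu))).continuousAt).continuousWithinAt
    · intro u hu v hv huv
      exact hti j hu hv ((TE E').injective huv)
  have hBY : ∀ j, B j ⊆ TE E' '' Y := by
    rintro j _ ⟨_, ⟨u, hu, rfl⟩, rfl⟩
    exact ⟨_, hm (hφ.mem (hRV (hQR j hu))), rfl⟩
  have hrestr : ∀ j, (mY n Y).restrict (B j) = μHE[n].restrict (B j) := fun j => by
    rw [mY, Measure.restrict_restrict (hBm j), inter_eq_left.2 (hBY j)]
  -- integrals over the pieces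
  have hpc : ∀ (om : E' → Ext E') (j : ℕ),
      ∫ u in Q j, top n (pull φ (pull f om) u) * Real.sign (top n (pull φ oX u)) =
      s * ∫ y in B j, dens n Y oY om ((TE E').symm y) ∂(mY n Y) := by
    intro om j
    rw [hrestr j]
    have h1 := integral_param (o := oY) (om := om) (hQm j) (fun u hu => hd u (hRV (hQR j hu)))
      (hti j) (fun u hu => hT u (hRV (hQR j hu))) (fun u hu => hmem u (hRV (hQR j hu)))
    rw [h1, ← integral_const_mul]
    refine setIntegral_congr_fun (hQm j) fun u hu => ?_
    rw [hpull om u (hRV (hQR j hu)), hsgn u (hQR j hu)]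
    ring
  have hcY := hY.compact.image (TE E').continuous
  have hfinY : IsFiniteMeasure (mY n Y) :=
    ⟨by rw [Measure.restrict_apply_univ]; exact hY.measure_lt_top⟩
  have hcont : ∀ {om : E' → Ext E'}, ContinuousOn om Y →
      ContinuousOn (fun y => dens n Y oY om ((TE E').symm y)) (TE E' '' Y) := by
    intro om hom
    refine (continuousOn_dens hY hoY hom).comp (TE E').symm.continuous.continuousOn ?_
    rintro _ ⟨x, hx, rfl⟩
    rw [ContinuousLinearEquiv.symm_apply_apply]; exact hx
  have hintR : ∀ {om : E' → Ext E'}, ContinuousOn om Y →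
      IntegrableOn (fun u => top n (pull φ (pull f om) u) *
        Real.sign (top n (pull φ oX u))) R := by
    intro om hom
    have hc : ContinuousOn (pull f om) X := FI.continuousOn_pull
      (fun x hx => (hf x hx).continuousAt.continuousWithinAt)
      (fun x hx => ((hf x hx).fderiv_right (m := 0) (by norm_num)).continuousAt.continuousWithinAt)
      hm hom
    have h1 : IntegrableOn (fun y => dens n X oX (pull f om) ((TE E).symm y))
        (TE E '' (φ '' R)) μHE[n] :=
      (integrableOn_dens hX hoX hc).mono_set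
        (image_mono ((image_mono hRV).trans hφ.image_subset))
    exact (integrableOn_chart hφ hR hRV).1 h1
  -- the measures of the pieces are summable
  have hsumB : Summable fun j => ((mY n Y) (B j)).toReal := by
    rcases Y.eq_empty_or_nonempty with hYe | hYne
    · have : ∀ j, ((mY n Y) (B j)).toReal = 0 := fun j => by
        have h1 : B j = ∅ := by
          have := hBY j
          rw [hYe, image_empty] at this
          exact subset_empty_iff.1 this
        rw [h1]; simp
      simp only [this]; exact summable_zero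
    obtain ⟨y₁, hy₁, hmin⟩ := hcY.exists_isMinOn (hYne.image _) (hcont hoY.cont)
    set c := dens n Y oY oY ((TE E').symm y₁) with hc
    have hc0 : 0 < c := by
      obtain ⟨x, hx, rfl⟩ := hy₁
      rw [hc, ContinuousLinearEquiv.symm_apply_apply]
      exact dens_self hoY hx
    have h1 := hasSum_integral_iUnion hQm hQd (by rw [hQU]; exact hintR hoY.cont)
    have h2 : Summable fun j => ∫ y in B j, dens n Y oY oY ((TE E').symm y) ∂(mY n Y) := by
      have h3 := h1.summable.mul_left s
      refine h3.congr fun j => ?_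
      rw [hpc oY j, ← mul_assoc]
      have : s * s = 1 := by rw [← sq, hs]
      rw [this, one_mul]
    refine (h2.mul_left c⁻¹).of_nonneg_of_le (fun j => ENNReal.toReal_nonneg) fun j => ?_
    rw [le_inv_mul_iff₀ hc0]
    have h4 : ∫ _y in B j, c ∂(mY n Y) ≤ ∫ y in B j, dens n Y oY oY ((TE E').symm y) ∂(mY n Y) := by
      refine setIntegral_mono_on (integrableOn_const (measure_ne_top _ _)) ?_ (hBm j) ?_
      · exact (integrableOn_dens hY hoY hoY.cont).integrable.integrableOn
      · intro y hy
        exact hmin (hBY j hy)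
    rw [setIntegral_const, smul_eq_mul, mul_comm] at h4
    exact h4
  have hsB : ∑' j, (mY n Y) (B j) ≠ ⊤ := by
    have := hsumB.tsum_ofReal_ne_top
    refine ne_of_eq_of_ne (tsum_congr fun j => ?_) this
    rw [ENNReal.ofReal_toReal (measure_ne_top _ _)]
  obtain ⟨N, hN1, hN2, hN3⟩ := mult_spec hBm hsB
  refine ⟨N, hN1, hN2, fun om hom => ?_⟩
  have h1 := hasSum_integral_iUnion hQm hQd (by rw [hQU]; exact hintR hom)
  rw [hQU] at h1
  obtain ⟨C, hC⟩ := hcY.exists_bound_of_continuousOn (hcont hom)
  have hDint : Integrable (fun y => dens n Y oY om ((TE E').symm y)) (mY n Y) :=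
    integrableOn_dens hY hoY hom
  have h2 := hN3 (fun y => dens n Y oY om ((TE E').symm y)) (fun j => hDint.integrableOn) (by
    refine (hsumB.mul_left C).of_nonneg_of_le (fun j => integral_nonneg fun y => norm_nonneg _)
      fun j => ?_
    have h4 : ∫ y in B j, ‖dens n Y oY om ((TE E').symm y)‖ ∂(mY n Y) ≤
        ∫ _y in B j, C ∂(mY n Y) := by
      refine setIntegral_mono_on hDint.norm.integrableOn
        (integrableOn_const (measure_ne_top _ _)) (hBm j) ?_
      intro y hy
      exact hC y (hBY j hy)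
    rw [setIntegral_const, smul_eq_mul, mul_comm] at h4
    exact h4)
  have h3 := h2.mul_left s
  have h4 : (fun j => s * ∫ y in B j, dens n Y oY om ((TE E').symm y) ∂(mY n Y)) =
      fun j => ∫ u in Q j, top n (pull φ (pull f om) u) * Real.sign (top n (pull φ oX u)) :=
    funext fun j => (hpc om j).symm
  rw [h4] at h3
  exact h1.unique h3

theorem sign_eq_of_pos {a b : ℝ} (h : 0 < a * b) : Real.sign a = 1 * Real.sign b := by
  rcases lt_trichotomy b 0 with hb | rfl | hb
  · have ha : a < 0 := by by_contra ha; nlinarith [mul_nonneg_of_nonpos_of_nonpos hb.le hb.le]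
    rw [Real.sign_of_neg ha, Real.sign_of_neg hb]; norm_num
  · simp at h
  · have ha : 0 < a := by by_contra ha; nlinarith
    rw [Real.sign_of_pos ha, Real.sign_of_pos hb]; norm_num

theorem sign_eq_of_neg {a b : ℝ} (h : a * b < 0) : Real.sign a = -1 * Real.sign b := by
  rcases lt_trichotomy b 0 with hb | rfl | hb
  · have ha : 0 < a := by by_contra ha; nlinarith [mul_nonneg_of_nonpos_of_nonpos (not_lt.1 ha) hb.le]
    rw [Real.sign_of_pos ha, Real.sign_of_neg hb]; norm_num
  · simp at h
  · have ha : a < 0 := by by_contra ha; nlinarith [mul_nonneg (not_lt.1 ha) hb.le]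
    rw [Real.sign_of_neg ha, Real.sign_of_pos hb]; norm_num

/-- at a critical point all forms of top degree are pulled back to `0`. -/
theorem top_pull_eq_zero {x : E'} {A : Eu n →L[ℝ] E'} (hT : finrank ℝ (Tan Y x) = n)
    (hA : ∀ w, A w ∈ Tan Y x) {o c : Ext E'} (ho : evA E' n o (frame n Y x) ≠ 0)
    (h0 : top n (pb (A : Eu n →ₗ[ℝ] E') o) = 0) : top n (pb (A : Eu n →ₗ[ℝ] E') c) = 0 := by
  obtain ⟨M, h1, h2, -⟩ := exists_matrix (frame_isFrame hT) hT hA
  rw [h2] at h0
  rw [h2, (mul_eq_zero.1 h0).resolve_right ho, zero_mul]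

/-- the multiplicity of one piece -/
theorem sheet_piece (hY : Clo n Y) (hoY : Ori n Y oY) (hX : Clo n X) (hoX : Ori n X oX)
    (hf : ∀ x ∈ X, ContDiffAt ℝ 1 f x) (hm : MapsTo f X Y) {φ : Eu n → E} {V P : Set (Eu n)}
    (hφ : Chart n X φ V) (hP : MeasurableSet P) (hPV : P ⊆ V) :
    ∃ N : EuclideanSpace ℝ (Fin (finrank ℝ E')) → ℝ, Integrable N (mY n Y) ∧
      (∀ᵐ y ∂(mY n Y), ∃ m : ℤ, N y = m) ∧
      ∀ om : E' → Ext E', ContinuousOn om Y →
        ∫ u in P, top n (pull φ (pull f om) u) * Real.sign (top n (pull φ oX u)) =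
          ∫ y, N y * dens n Y oY om ((TE E').symm y) ∂(mY n Y) := by
  classical
  have hd : ∀ u ∈ V, DifferentiableAt ℝ (f ∘ φ) u := fun u hu =>
    ((hf _ (hφ.mem hu)).differentiableAt (by norm_num)).comp u (hφ.differentiableAt hu)
  have hmem : ∀ u ∈ V, ∀ w, fderiv ℝ (f ∘ φ) u w ∈ Tan Y ((f ∘ φ) u) := fun u hu w =>
    fderiv_mem_Tan (hd u hu)
      (by filter_upwards [hφ.isOpen.mem_nhds hu] with z hz using hm (hφ.mem hz)) w
  have hpull : ∀ (c : E' → Ext E'), ∀ u ∈ V, pull φ (pull f c) u = pull (f ∘ φ) c u :=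
    fun c u hu => pull_comp (hφ.differentiableAt hu)
      ((hf _ (hφ.mem hu)).differentiableAt (by norm_num))
  set g : Eu n → ℝ := fun u => top n (pull φ oX u) * top n (pull (f ∘ φ) oY u) with hg
  have hgc : ContinuousOn g V := by
    refine ContinuousOn.mul (continuous_top.comp_continuousOn (hφ.continuousOn_pull hoX.cont)) ?_
    have h1 : ContinuousOn (pull f oY) X := FI.continuousOn_pull
      (fun x hx => (hf x hx).continuousAt.continuousWithinAt)
      (fun x hx => ((hf x hx).fderiv_right (m := 0) (by norm_num)).continuousAt.continuousWithinAt)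
      hm hoY.cont
    exact (continuous_top.comp_continuousOn (hφ.continuousOn_pull h1)).congr fun u hu => by
      rw [Function.comp_apply, hpull oY u hu]
  set Rp := P ∩ (V ∩ g ⁻¹' Ioi 0) with hRp
  set Rm := P ∩ (V ∩ g ⁻¹' Iio 0) with hRm
  have hRpm : MeasurableSet Rp :=
    hP.inter (hgc.isOpen_inter_preimage hφ.isOpen isOpen_Ioi).measurableSet
  have hRmm : MeasurableSet Rm :=
    hP.inter (hgc.isOpen_inter_preimage hφ.isOpen isOpen_Iio).measurableSet
  obtain ⟨N₁, h11, h12, h13⟩ := sheet hY hoY hX hoX hf hm hφ hRpm (fun u hu => hPV hu.1) 1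
    (by norm_num) (fun u hu => right_ne_zero_of_mul (ne_of_gt hu.2.2))
    (fun u hu => sign_eq_of_pos hu.2.2)
  obtain ⟨N₂, h21, h22, h23⟩ := sheet hY hoY hX hoX hf hm hφ hRmm (fun u hu => hPV hu.1) (-1)
    (by norm_num) (fun u hu => right_ne_zero_of_mul (ne_of_lt hu.2.2))
    (fun u hu => sign_eq_of_neg hu.2.2)
  refine ⟨fun y => N₁ y - N₂ y, h11.sub h21, ?_, ?_⟩
  · filter_upwards [h12, h22] with y hy1 hy2
    obtain ⟨a, ha⟩ := hy1
    obtain ⟨b, hb⟩ := hy2
    exact ⟨(a : ℤ) - b, by rw [ha, hb]; push_cast; ring⟩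
  · intro om hom
    have hc : ContinuousOn (pull f om) X := FI.continuousOn_pull
      (fun x hx => (hf x hx).continuousAt.continuousWithinAt)
      (fun x hx => ((hf x hx).fderiv_right (m := 0) (by norm_num)).continuousAt.continuousWithinAt)
      hm hom
    have hint : IntegrableOn (fun u => top n (pull φ (pull f om) u) *
        Real.sign (top n (pull φ oX u))) P := by
      have h1 : IntegrableOn (fun y => dens n X oX (pull f om) ((TE E).symm y))
          (TE E '' (φ '' P)) μHE[n] :=
        (integrableOn_dens hX hoX hc).mono_set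
          (image_mono ((image_mono hPV).trans hφ.image_subset))
      exact (integrableOn_chart hφ hP hPV).1 h1
    have hsub : Rp ∪ Rm ⊆ P := union_subset inter_subset_left inter_subset_left
    have hzero : ∀ u ∈ P \ (Rp ∪ Rm), top n (pull φ (pull f om) u) *
        Real.sign (top n (pull φ oX u)) = 0 := by
      rintro u ⟨hu, hu2⟩
      have hgu : g u = 0 := by
        by_contra hne
        rcases lt_or_gt_of_ne hne with h | h
        · exact hu2 (Or.inr ⟨hu, hPV hu, h⟩)
        · exact hu2 (Or.inl ⟨hu, hPV hu, h⟩)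
      have h1 := (mul_eq_zero.1 hgu).resolve_left (hφ.top_ne_zero hoX (hPV hu))
      have h2 : top n (pull φ (pull f om) u) = 0 := by
        rw [hpull om u (hPV hu)]
        exact top_pull_eq_zero (hY.finrank_Tan (hm (hφ.mem (hPV hu)))) (hmem u (hPV hu))
          (hoY.ne _ (hm (hφ.mem (hPV hu)))) h1
      rw [h2, zero_mul]
    have hdisj : Disjoint Rp Rm := by
      rw [Set.disjoint_left]
      rintro u ⟨-, -, h1⟩ ⟨-, -, h2⟩
      exact absurd (lt_trans (show 0 < g u from h1) (show g u < 0 from h2)) (lt_irrefl _)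
    rw [setIntegral_eq_of_subset_of_forall_sdiff_eq_zero hP hsub hzero,
      setIntegral_union hdisj hRmm (hint.mono_set inter_subset_left)
        (hint.mono_set inter_subset_left), h13 om hom, h23 om hom]
    have hcY := hY.compact.image (TE E').continuous
    have hcont : ContinuousOn (fun y => dens n Y oY om ((TE E').symm y)) (TE E' '' Y) := by
      refine (continuousOn_dens hY hoY hom).comp (TE E').symm.continuous.continuousOn ?_
      rintro _ ⟨x, hx, rfl⟩
      rw [ContinuousLinearEquiv.symm_apply_apply]; exact hx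
    obtain ⟨C, hC⟩ := hcY.exists_bound_of_continuousOn hcont
    have hDm : AEStronglyMeasurable (fun y => dens n Y oY om ((TE E').symm y)) (mY n Y) :=
      hcont.aestronglyMeasurable hY.measurableSet
    have hmul : ∀ {M : EuclideanSpace ℝ (Fin (finrank ℝ E')) → ℝ}, Integrable M (mY n Y) →
        Integrable (fun y => M y * dens n Y oY om ((TE E').symm y)) (mY n Y) := by
      intro M hM
      refine hM.mul_bdd (c := C) hDm ?_
      filter_upwards [ae_restrict_mem hY.measurableSet] with y hy using hC y hy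
    rw [one_mul, neg_one_mul, ← sub_eq_add_neg, ← integral_sub (hmul h11) (hmul h21)]
    refine integral_congr_ae (Eventually.of_forall fun y => ?_)
    simp only
    ring

/-- **AREA FORMULA WITH MULTIPLICITY** `∫_X f^* om = ∫_Y N om`, `N` integer valued. -/
theorem exists_mult (hX : Clo n X) (hoX : Ori n X oX) (hY : Clo n Y) (hoY : Ori n Y oY)
    (hf : ∀ x ∈ X, ContDiffAt ℝ 1 f x) (hm : MapsTo f X Y) :
    ∃ N : EuclideanSpace ℝ (Fin (finrank ℝ E')) → ℝ, Integrable N (mY n Y) ∧
      (∀ᵐ y ∂(mY n Y), ∃ m : ℤ, N y = m) ∧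
      ∀ om : E' → Ext E', ContinuousOn om Y →
        J n X oX (pull f om) = ∫ y, N y * dens n Y oY om ((TE E').symm y) ∂(mY n Y) := by
  classical
  obtain ⟨K, φ, V, P, -, hC, hPV, hPm, hdisj, hU⟩ := exists_decomp hX.compact (fun _ _ => True)
    (fun z hz => by
      obtain ⟨f, V, hf, hz'⟩ := hX.chart z hz
      exact ⟨f, V, trivial, hf, hz'⟩)
  have hex := fun i => sheet_piece hY hoY hX hoX hf hm (hC i) (hPm i) (hPV i)
  choose N hN1 hN2 hN3 using hex
  refine ⟨fun y => ∑ i, N i y, integrable_finsetSum _ fun i _ => hN1 i, ?_, ?_⟩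
  · have : ∀ᵐ y ∂(mY n Y), ∀ i, ∃ m : ℤ, N i y = m := ae_all_iff.2 hN2
    filter_upwards [this] with y hy
    choose m hm using hy
    exact ⟨∑ i, m i, by push_cast; exact Finset.sum_congr rfl fun i _ => hm i⟩
  · intro om hom
    have hc : ContinuousOn (pull f om) X := FI.continuousOn_pull
      (fun x hx => (hf x hx).continuousAt.continuousWithinAt)
      (fun x hx => ((hf x hx).fderiv_right (m := 0) (by norm_num)).continuousAt.continuousWithinAt)
      hm hom
    have h1 : J n X oX (pull f om) = ∑ i, JS n X oX (pull f om) (φ i '' P i) := by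
      rw [← JS_iUnion _ (fun i => (hC i).measurableSet_image (hPm i) (hPV i)) hdisj
        (by rw [hU]; exact integrableOn_dens hX hoX hc), hU]; rfl
    have h2 : ∀ i, JS n X oX (pull f om) (φ i '' P i) =
        ∫ y, N i y * dens n Y oY om ((TE E').symm y) ∂(mY n Y) := fun i => by
      rw [← hN3 i om hom]
      exact integral_chart (hC i) (hPm i) (hPV i)
    have hcY := hY.compact.image (TE E').continuous
    have hcont : ContinuousOn (fun y => dens n Y oY om ((TE E').symm y)) (TE E' '' Y) := by
      refine (continuousOn_dens hY hoY hom).comp (TE E').symm.continuous.continuousOn ?_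
      rintro _ ⟨x, hx, rfl⟩
      rw [ContinuousLinearEquiv.symm_apply_apply]; exact hx
    obtain ⟨C, hC'⟩ := hcY.exists_bound_of_continuousOn hcont
    have hDm : AEStronglyMeasurable (fun y => dens n Y oY om ((TE E').symm y)) (mY n Y) :=
      hcont.aestronglyMeasurable hY.measurableSet
    have hmul : ∀ i, Integrable (fun y => N i y * dens n Y oY om ((TE E').symm y)) (mY n Y) := by
      intro i
      refine (hN1 i).mul_bdd (c := C) hDm ?_
      filter_upwards [ae_restrict_mem hY.measurableSet] with y hy using hC' y hy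
    rw [h1, Finset.sum_congr rfl fun i _ => h2 i, ← integral_finsetSum _ fun i _ => hmul i]
    refine integral_congr_ae (Eventually.of_forall fun y => ?_)
    simp only [Finset.sum_mul]

end sheet

end Crest.Agent.R208.FI
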