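import Crest.Agent.R208.FI1

/-! Row 208, block F2 (helper198), part FH5: a closed manifold is a finite disjoint union of
chart images of measurable sets. -/

set_option autoImplicit false
set_option linter.unusedSectionVars false

open MeasureTheory Set Filter Topology Module
open scoped ContDiff
open Crest.Agent.R208.F

noncomputable section

namespace Crest.Agent.R208.FI

variable {E : Type*} [NormedAddCommGroup E] [NormedSpace ℝ E] [FiniteDimensional ℝ E]

/-- **finite measurable decomposition** subordinate to a family `Q` of charts covering `Z`. -/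
theorem exists_decomp {n : ℕ} {Z : Set E} (hZ : IsCompact Z)
    (Q : (Eu n → E) → Set (Eu n) → Prop)
    (hQ : ∀ z ∈ Z, ∃ Φ D, Q Φ D ∧ Chart n Z Φ D ∧ z ∈ Φ '' D) :
    ∃ (N : ℕ) (Φ : Fin N → Eu n → E) (D P : Fin N → Set (Eu n)),
      (∀ i, Q (Φ i) (D i)) ∧ (∀ i, Chart n Z (Φ i) (D i)) ∧ (∀ i, P i ⊆ D i) ∧
      (∀ i, MeasurableSet (P i)) ∧ Pairwise (fun i j => Disjoint (Φ i '' P i) (Φ j '' P j)) ∧
      ⋃ i, Φ i '' P i = Z := by
  classical
  choose! Φ D hΦQ hΦC hΦz using hQ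
  have hU : ∀ z ∈ Z, ∃ U : Set E, IsOpen U ∧ Φ z '' D z = Z ∩ U := fun z hz =>
    (hΦC z hz).image_open (D z) Subset.rfl (hΦC z hz).isOpen
  choose! U hUo hUe using hU
  obtain ⟨t, ht⟩ := hZ.elim_nhds_subcover' (fun z _ => U z) (fun z hz => by
    refine (hUo z hz).mem_nhds ?_
    have := hΦz z hz
    rw [hUe z hz] at this
    exact this.2)
  -- enumerate
  let e := t.equivFin
  let N := t.card
  let zz : Fin N → E := fun i => ((e.symm i : Z) : E)
  have hzz : ∀ i, zz i ∈ Z := fun i => ((e.symm i : Z)).2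
  let P : Fin N → Set (Eu n) := fun i => D (zz i) \ (D (zz i) ∩ Φ (zz i) ⁻¹' ⋃ j ∈ {j | j < i}, U (zz j))
  refine ⟨N, fun i => Φ (zz i), fun i => D (zz i), P, fun i => hΦQ _ (hzz i),
    fun i => hΦC _ (hzz i), fun i => sdiff_subset, fun i => ?_, ?_, ?_⟩
  · refine (hΦC _ (hzz i)).isOpen.measurableSet.diff ?_
    have h1 : IsOpen (⋃ j ∈ {j | j < i}, U (zz j)) := isOpen_biUnion fun j _ => hUo _ (hzz j)
    exact ((hΦC _ (hzz i)).contDiffOn.continuousOn.isOpen_inter_preimage
      (hΦC _ (hzz i)).isOpen h1).measurableSet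
  · have key : ∀ i j, j < i → Disjoint (Φ (zz i) '' P i) (Φ (zz j) '' P j) := by
      intro i j hji
      rw [Set.disjoint_left]
      rintro y ⟨p, hp, rfl⟩ ⟨q, hq, hqp⟩
      refine hp.2 ⟨hp.1, ?_⟩
      rw [mem_preimage, ← hqp]
      refine mem_biUnion (x := j) hji ?_
      have : Φ (zz j) q ∈ Φ (zz j) '' D (zz j) := ⟨q, hq.1, rfl⟩
      rw [hUe _ (hzz j)] at this
      exact this.2
    intro i j hij
    rcases lt_or_gt_of_ne hij with h | h
    · exact (key j i h).symm
    · exact key i j h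
  · apply Subset.antisymm
    · refine iUnion_subset fun i => ?_
      rintro _ ⟨p, hp, rfl⟩
      exact (hΦC _ (hzz i)).mem hp.1
    · intro z hz
      -- the smallest index whose `U` contains `z`
      have hex : ∃ i, z ∈ U (zz i) := by
        have := ht hz
        rw [mem_iUnion₂] at this
        obtain ⟨w, hw, hzw⟩ := this
        refine ⟨e ⟨w, hw⟩, ?_⟩
        show z ∈ U ((e.symm (e ⟨w, hw⟩) : Z) : E)
        rw [Equiv.symm_apply_apply]
        exact hzw
      obtain ⟨i, hi, hmin⟩ : ∃ i, z ∈ U (zz i) ∧ ∀ j < i, z ∉ U (zz j) := by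
        obtain ⟨i, hi⟩ := Finset.exists_minimal (s := Finset.univ.filter fun i => z ∈ U (zz i))
          (by obtain ⟨i, hi⟩ := hex; exact ⟨i, by simpa using hi⟩)
        refine ⟨i, by simpa using hi.1, fun j hj hzj => ?_⟩
        exact absurd (hi.2 (by simpa using hzj) hj.le) (not_le.2 hj)
      have h1 : z ∈ Φ (zz i) '' D (zz i) := by rw [hUe _ (hzz i)]; exact ⟨hz, hi⟩
      obtain ⟨p, hp, rfl⟩ := h1
      refine mem_iUnion.2 ⟨i, p, ⟨hp, ?_⟩, rfl⟩
      rintro ⟨_, hp2⟩
      rw [mem_preimage, mem_iUnion₂] at hp2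
      obtain ⟨j, hj, hj2⟩ := hp2
      exact hmin j hj hj2

end Crest.Agent.R208.FI
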