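import Crest.Agent.R208.FH4
import Crest.Agent.R208.FH5
import Crest.Agent.R208.FI1c

/-! Row 208, block F2 (helper198), part FH6: **fibre integration** for submersions of closed
manifolds:  `∫_Z η ∧ π^*om = ∫_X c • om`, `c x = ∫_{Z_x} η`. -/

set_option autoImplicit false
set_option linter.unusedSectionVars false

open MeasureTheory MeasureTheory.Measure Set Filter Topology Module
open scoped ContDiff
open Crest.Agent.R208.F

noncomputable section

namespace Crest.Agent.R208.FI

variable {E E' : Type*} [NormedAddCommGroup E] [NormedSpace ℝ E] [FiniteDimensional ℝ E]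
  [NormedAddCommGroup E'] [NormedSpace ℝ E'] [FiniteDimensional ℝ E']

variable (E) in
/-- the identification with Euclidean space -/
abbrev TE : E ≃L[ℝ] EuclideanSpace ℝ (Fin (finrank ℝ E)) := toEuclidean

/-- integral over a subset `S` of `X` -/
def JS (d : ℕ) (X : Set E) (o om : E → Ext E) (S : Set E) : ℝ :=
  ∫ y in TE E '' S, dens d X o om ((TE E).symm y) ∂μHE[d]

theorem JS_self (d : ℕ) (X : Set E) (o om : E → Ext E) : JS d X o om X = J d X o om := rfl

theorem dens_fun_smul {d : ℕ} {X : Set E} {o om : E → Ext E} (c : E → ℝ) (x : E) :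
    dens d X o (fun x => c x • om x) x = c x * dens d X o om x := by
  simp only [dens, map_smul, AlternatingMap.smul_apply, smul_eq_mul]; ring

/-- images of measurable sets under charts are measurable. -/
theorem Chart.measurableSet_image {n : ℕ} {Z : Set E} {Φ : Eu n → E} {D P : Set (Eu n)}
    (h : Chart n Z Φ D) (hP : MeasurableSet P) (hPD : P ⊆ D) :
    MeasurableSet (TE E '' (Φ '' P)) := by
  rw [image_image]
  refine hP.image_of_continuousOn_injOn ?_ ?_
  · exact (TE E).continuous.comp_continuousOn (h.contDiffOn.continuousOn.mono hPD)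
  · intro u hu v hv huv
    exact h.injOn (hPD hu) (hPD hv) ((TE E).injective huv)

/-- finite additivity of `JS` over a measurable decomposition. -/
theorem JS_iUnion {d N : ℕ} {X : Set E} {o om : E → Ext E} (S : Fin N → Set E)
    (hm : ∀ i, MeasurableSet (TE E '' S i))
    (hd : Pairwise fun i j => Disjoint (S i) (S j))
    (hint : IntegrableOn (fun y => dens d X o om ((TE E).symm y)) (TE E '' ⋃ i, S i) μHE[d]) :
    JS d X o om (⋃ i, S i) = ∑ i, JS d X o om (S i) := by
  have hint' : ∀ i, IntegrableOn (fun y => dens d X o om ((TE E).symm y)) (TE E '' S i) μHE[d] :=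
    fun i => hint.mono_set (image_mono (subset_iUnion S i))
  have h1 : TE E '' ⋃ i, S i = ⋃ i, TE E '' S i := image_iUnion
  rw [JS, h1, integral_iUnion_fintype hm ?_ hint']
  · rfl
  · intro i j hij
    exact disjoint_image_of_injective (TE E).injective (hd hij)

section piece
open Adapted (inA)
variable {r d : ℕ} {Z : Set E'} {X : Set E} {π : E' → E} {f : Eu d → E} {V : Set (Eu d)}
  {Φ : Eu (r + d) → E'} {A : Set (Eu r)} {B : Set (Eu d)} {P : Set (Eu (r + d))}
  {oX om : E → Ext E} {oV η : E' → Ext E'}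

theorem continuous_inA (b : Eu d) : Continuous (inA r d b) := by
  unfold inA
  exact (kap r d).symm.continuous.comp (Continuous.prodMk_left b)

/-- the part of a piece in a fibre -/
theorem fibre_image (hAd : Adapted r d Z X π f V Φ A B) (hP : P ⊆ kap r d ⁻¹' (A ×ˢ B))
    {b : Eu d} (hb : b ∈ B) :
    (fun a => Φ (inA r d b a)) '' {a | inA r d b a ∈ P} = Φ '' P ∩ π ⁻¹' {f b} := by
  ext z
  constructor
  · rintro ⟨a, ha, rfl⟩
    have ha' : (kap r d (inA r d b a)) ∈ A ×ˢ B := hP ha
    rw [show kap r d (inA r d b a) = (a, b) from ContinuousLinearEquiv.apply_symm_apply _ _] at ha'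
    exact ⟨⟨_, ha, rfl⟩, hAd.comm' ha'.1 hb⟩
  · rintro ⟨⟨p, hp, rfl⟩, hpz⟩
    have h1 := hP hp
    have h2 : π (Φ p) = f (kap r d p).2 := hAd.comm p h1
    have h3 : f (kap r d p).2 = f b := by rw [← h2]; exact hpz
    have h4 : (kap r d p).2 = b := hAd.base.injOn (hAd.sub h1.2) (hAd.sub hb) h3
    have h5 : inA r d b (kap r d p).1 = p := by
      show (kap r d).symm ((kap r d p).1, b) = p
      rw [← h4]
      exact ContinuousLinearEquiv.symm_apply_apply _ _
    exact ⟨(kap r d p).1, by show inA r d b _ ∈ P; rw [h5]; exact hp, by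
      show Φ (inA r d b _) = Φ p; rw [h5]⟩

theorem empty_of_notMem (hAd : Adapted r d Z X π f V Φ A B) (hP : P ⊆ kap r d ⁻¹' (A ×ˢ B))
    {x : E} (hx : x ∉ f '' B) : Φ '' P ∩ π ⁻¹' {x} = ∅ := by
  rw [eq_empty_iff_forall_notMem]
  rintro _ ⟨⟨p, hp, rfl⟩, hpz⟩
  have h1 := hP hp
  have h2 : π (Φ p) = f (kap r d p).2 := hAd.comm p h1
  exact hx ⟨(kap r d p).2, h1.2, by rw [← h2]; exact hpz⟩

/-- fibre integral of one piece -/
def cP (r : ℕ) (Z : Set E') (π : E' → E) (oV η : E' → Ext E') (S : Set E') (x : E) : ℝ :=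
  JS r (Z ∩ π ⁻¹' {x}) oV η (S ∩ π ⁻¹' {x})

theorem cP_eq (hAd : Adapted r d Z X π f V Φ A B) (hP : P ⊆ kap r d ⁻¹' (A ×ˢ B))
    (hPm : MeasurableSet P) {b : Eu d} (hb : b ∈ B) :
    cP r Z π oV η (Φ '' P) (f b) = ∫ a in {a | inA r d b a ∈ P},
      top r (pull (fun a => Φ (inA r d b a)) η a) *
        Real.sign (top r (pull (fun a => Φ (inA r d b a)) oV a)) := by
  rw [cP, ← fibre_image hAd hP hb]
  refine integral_chart (hAd.fibre hb) ((continuous_inA b).measurable hPm) ?_
  intro a ha
  have := hP ha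
  rw [mem_preimage, show kap r d (inA r d b a) = (a, b) from
    ContinuousLinearEquiv.apply_symm_apply _ _] at this
  exact this.1

theorem cP_eq_zero (hAd : Adapted r d Z X π f V Φ A B) (hP : P ⊆ kap r d ⁻¹' (A ×ˢ B))
    {x : E} (hx : x ∉ f '' B) : cP r Z π oV η (Φ '' P) x = 0 := by
  rw [cP, empty_of_notMem hAd hP hx, JS, image_empty, Measure.restrict_empty, integral_zero_measure]

/-- the integrand on `Z` in an adapted chart -/
def gZ (r d : ℕ) (π : E' → E) (Φ : Eu (r + d) → E') (oX om : E → Ext E) (oV η : E' → Ext E')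
    (p : Eu (r + d)) : ℝ :=
  top (r + d) (pull Φ (fun z => η z * pull π om z) p) *
    Real.sign (top (r + d) (pull Φ (fun z => oV z * pull π oX z) p))

theorem gZ_eq (h : Subm r d Z X π) (hAd : Adapted r d Z X π f V Φ A B)
    (hom : ∀ x ∈ X, ∀ q < d, evA E q (om x) = 0) (hoX : ∀ x ∈ X, ∀ q < d, evA E q (oX x) = 0)
    {a : Eu r} (ha : a ∈ A) {b : Eu d} (hb : b ∈ B) :
    gZ r d π Φ oX om oV η (inA r d b a) =
      (top r (pull (fun a => Φ (inA r d b a)) η a) *
        Real.sign (top r (pull (fun a => Φ (inA r d b a)) oV a))) *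
      (top d (pull f om b) * Real.sign (top d (pull f oX b))) := by
  have hz : Φ (inA r d b a) ∈ Z := hAd.chart.mem (Adapted.mem_dom ha hb)
  have hπ : DifferentiableAt ℝ π (Φ (inA r d b a)) := (h.smooth _ hz).differentiableAt (by simp)
  have hfb : f b ∈ X := hAd.base.mem (hAd.sub hb)
  rw [gZ, hAd.top_pull ha hb hπ η om (hom _ hfb), hAd.top_pull ha hb hπ oV oX (hoX _ hfb), sign_mul]
  ring

theorem piece (h : Subm r d Z X π) (hAd : Adapted r d Z X π f V Φ A B)
    (hom : ∀ x ∈ X, ∀ q < d, evA E q (om x) = 0) (hoX : ∀ x ∈ X, ∀ q < d, evA E q (oX x) = 0)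
    (hP : P ⊆ kap r d ⁻¹' (A ×ˢ B)) (hPm : MeasurableSet P)
    (hint : IntegrableOn (gZ r d π Φ oX om oV η) P) :
    IntegrableOn (fun y => dens d X oX (fun x => cP r Z π oV η (Φ '' P) x • om x) ((TE E).symm y))
        (TE E '' X) μHE[d] ∧
      ∫ p in P, gZ r d π Φ oX om oV η p =
        J d X oX (fun x => cP r Z π oV η (Φ '' P) x • om x) := by
  classical
  set g := gZ r d π Φ oX om oV η with hg
  set H : Eu r × Eu d → ℝ := fun q => P.indicator g ((kap r d).symm q) with hH
  have hemb : MeasurableEmbedding (kap r d : Eu (r + d) → Eu r × Eu d) :=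
    (kap r d).toHomeomorph.measurableEmbedding
  have hHk : (fun p => H (kap r d p)) = P.indicator g := by
    funext p; simp only [hH, ContinuousLinearEquiv.symm_apply_apply]
  have hHint : Integrable H (volume : Measure (Eu r × Eu d)) := by
    rw [← (measurePreserving_kap r d).integrable_comp_emb hemb]
    show Integrable (fun p => H (kap r d p)) volume
    rw [hHk]
    exact hint.integrable_indicator hPm
  have hHval : ∫ p in P, g p = ∫ q, H q := by
    rw [← (measurePreserving_kap r d).integral_comp hemb, ← integral_indicator hPm]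
    show _ = ∫ p, H (kap r d p)
    rw [hHk]
  -- inner integral
  set K : Eu d → ℝ := fun b => top d (pull f (fun x => cP r Z π oV η (Φ '' P) x • om x) b) *
    Real.sign (top d (pull f oX b)) with hK
  have hinner : ∀ b ∈ B, ∫ a, H (a, b) = K b := by
    intro b hb
    have h1 : (fun a => H (a, b)) = ({a | inA r d b a ∈ P}).indicator (fun a =>
        (top r (pull (fun a => Φ (inA r d b a)) η a) *
          Real.sign (top r (pull (fun a => Φ (inA r d b a)) oV a))) *
        (top d (pull f om b) * Real.sign (top d (pull f oX b)))) := by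
      funext a
      show P.indicator g (inA r d b a) = _
      by_cases ha : inA r d b a ∈ P
      · rw [indicator_of_mem ha, indicator_of_mem (s := {a | inA r d b a ∈ P}) ha]
        have := hP ha
        rw [mem_preimage, show kap r d (inA r d b a) = (a, b) from
          ContinuousLinearEquiv.apply_symm_apply _ _] at this
        exact gZ_eq h hAd hom hoX this.1 hb
      · rw [indicator_of_notMem ha, indicator_of_notMem (s := {a | inA r d b a ∈ P}) ha]
    have hms : MeasurableSet {a | inA r d b a ∈ P} := (continuous_inA b).measurable hPm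
    rw [h1]
    rw [integral_indicator hms, integral_mul_const, ← cP_eq hAd hP hPm hb]
    show _ = top d (pull f (fun x => cP r Z π oV η (Φ '' P) x • om x) b) * _
    rw [show pull f (fun x => cP r Z π oV η (Φ '' P) x • om x) b =
      cP r Z π oV η (Φ '' P) (f b) • pull f om b from map_smul _ _ _, map_smul, smul_eq_mul]
    ring
  have hinner0 : ∀ b, b ∉ B → ∫ a, H (a, b) = 0 := by
    intro b hb
    have h1 : (fun a => H (a, b)) = fun _ => 0 := by
      funext a
      show P.indicator g (inA r d b a) = 0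
      refine indicator_of_notMem (fun ha => hb ?_) _
      have := hP ha
      rw [mem_preimage, show kap r d (inA r d b a) = (a, b) from
          ContinuousLinearEquiv.apply_symm_apply _ _] at this
      exact this.2
    rw [h1, integral_zero]
  have hKint : IntegrableOn K B := by
    have h1 : Integrable (fun b => ∫ a, H (a, b)) (volume : Measure (Eu d)) := by
      rw [Measure.volume_eq_prod] at hHint
      exact hHint.integral_prod_right
    refine (h1.integrableOn (s := B)).congr_fun (fun b hb => hinner b hb) hAd.hB.measurableSet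
  have hKval : ∫ q, H q = ∫ b in B, K b := by
    rw [Measure.volume_eq_prod, integral_prod_symm _ (by rwa [Measure.volume_eq_prod] at hHint)]
    rw [← setIntegral_eq_integral_of_forall_compl_eq_zero (s := B) hinner0]
    exact setIntegral_congr_fun hAd.hB.measurableSet fun b hb => hinner b hb
  have hchart : Chart d X f B := hAd.base.mono hAd.sub hAd.hB
  have hzero : ∀ y ∈ TE E '' X \ TE E '' (f '' B),
      dens d X oX (fun x => cP r Z π oV η (Φ '' P) x • om x) ((TE E).symm y) = 0 := by
    rintro _ ⟨⟨x, hx, rfl⟩, hx2⟩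
    rw [ContinuousLinearEquiv.symm_apply_apply, dens_fun_smul,
      cP_eq_zero hAd hP (fun h => hx2 ⟨x, h, rfl⟩), zero_mul]
  constructor
  · have h1 := (integrableOn_chart (o := oX) (om := fun x => cP r Z π oV η (Φ '' P) x • om x)
      hchart hAd.hB.measurableSet Subset.rfl).2 hKint
    exact h1.of_forall_sdiff_eq_zero h.cloX.measurableSet hzero
  · rw [hHval, hKval, J]
    have h1 := integral_chart (o := oX) (om := fun x => cP r Z π oV η (Φ '' P) x • om x)
      hchart hAd.hB.measurableSet Subset.rfl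
    rw [← h1]
    exact (setIntegral_eq_of_subset_of_forall_sdiff_eq_zero h.cloX.measurableSet
      (image_mono hchart.image_subset) hzero).symm

end piece

theorem continuousOn_mul {Y : Type*} [TopologicalSpace Y] {S : Set Y} {a b : Y → Ext E}
    (ha : ContinuousOn a S) (hb : ContinuousOn b S) : ContinuousOn (fun y => a y * b y) S :=
  (mulL E).isBoundedBilinearMap.continuous.comp_continuousOn (ha.prodMk hb)

section main
open Adapted (inA)
variable {r d : ℕ} {Z : Set E'} {X : Set E} {π : E' → E} {oX om : E → Ext E} {oV η : E' → Ext E'}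

theorem Subm.continuousOn (h : Subm r d Z X π) : ContinuousOn π Z :=
  fun z hz => (h.smooth z hz).continuousAt.continuousWithinAt

theorem Subm.continuousOn_pull (h : Subm r d Z X π) (hom : ContinuousOn om X) :
    ContinuousOn (pull π om) Z :=
  FI.continuousOn_pull h.continuousOn
    (fun z hz => ((h.smooth z hz).fderiv_right (m := 0) (by simp)).continuousAt.continuousWithinAt)
    h.mapsTo hom

/-- the fibres are oriented by `oV` -/
theorem Subm.fibre_ori (h : Subm r d Z X π) (hoV : ContinuousOn oV Z)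
    (hoZ : Ori (r + d) Z (fun z => oV z * pull π oX z))
    (hoX : ∀ x ∈ X, ∀ q < d, evA E q (oX x) = 0) (x : E) : Ori r (Z ∩ π ⁻¹' {x}) oV where
  cont := hoV.mono inter_subset_left
  ne := by
    rintro z ⟨hz, hzx⟩
    obtain ⟨f, V, Φ, A, B, hAd, p, hp, rfl⟩ := h.exists_adapted hz
    have ha : (kap r d p).1 ∈ A := hp.1
    have hb : (kap r d p).2 ∈ B := hp.2
    have hp' : inA r d (kap r d p).2 (kap r d p).1 = p :=
      ContinuousLinearEquiv.symm_apply_apply _ _
    have h1 : π (Φ p) = f (kap r d p).2 := hAd.comm p hp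
    have h2 : x = f (kap r d p).2 := by rw [← h1]; exact hzx.symm
    have hF := hAd.fibre hb
    have h3 : Φ p = (fun a => Φ (inA r d (kap r d p).2 a)) (kap r d p).1 := by
      show Φ p = Φ (inA r d (kap r d p).2 (kap r d p).1)
      rw [hp']
    rw [h3, h2]
    refine (top_ne_zero (finrank_Tan_chart hF ha) (fun w => hF.fderiv_mem ha w) (hF.inj _ ha)).1 ?_
    have h4 := hAd.chart.top_ne_zero hoZ (Adapted.mem_dom ha hb)
    have hπ : DifferentiableAt ℝ π (Φ (inA r d (kap r d p).2 (kap r d p).1)) := by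
      rw [hp']; exact (h.smooth _ hz).differentiableAt (by simp)
    have hfb : f (kap r d p).2 ∈ X := hAd.base.mem (hAd.sub hb)
    have h5 := hAd.top_pull ha hb hπ oV oX (hoX _ hfb)
    have h6 : top (r + d) (pull Φ (fun z => oV z * pull π oX z)
      (inA r d (kap r d p).2 (kap r d p).1)) ≠ 0 := h4
    rw [h5] at h6
    exact left_ne_zero_of_mul h6

/-- **FIBRE INTEGRATION**: `∫_Z η ∧ π^*om = ∫_X (∫_{Z_x} η) om`. -/
theorem fibre_integration (h : Subm r d Z X π) (hoV : ContinuousOn oV Z)
    (hoZ : Ori (r + d) Z (fun z => oV z * pull π oX z))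
    (hoX : ∀ x ∈ X, ∀ q < d, evA E q (oX x) = 0)
    (hη : ContinuousOn η Z) (hom : ContinuousOn om X)
    (hom0 : ∀ x ∈ X, ∀ q < d, evA E q (om x) = 0) :
    J (r + d) Z (fun z => oV z * pull π oX z) (fun z => η z * pull π om z) =
      J d X oX (fun x => J r (Z ∩ π ⁻¹' {x}) oV η • om x) := by
  classical
  obtain ⟨N, Φ, D, P, hQ, hC, hPD, hPm, hdisj, hU⟩ := exists_decomp h.cloZ.compact
    (fun Φ D => ∃ (f : Eu d → E) (V : Set (Eu d)) (A : Set (Eu r)) (B : Set (Eu d)),
      D = kap r d ⁻¹' (A ×ˢ B) ∧ Adapted r d Z X π f V Φ A B)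
    (fun z hz => by
      obtain ⟨f, V, Φ, A, B, hAd, hz'⟩ := h.exists_adapted hz
      exact ⟨Φ, _, ⟨f, V, A, B, rfl, hAd⟩, hAd.chart, hz'⟩)
  choose f V A B hD hAd using hQ
  obtain rfl : D = fun i => kap r d ⁻¹' (A i ×ˢ B i) := funext hD
  have hmeas : ∀ i, MeasurableSet (TE E' '' (Φ i '' P i)) := fun i =>
    (hC i).measurableSet_image (hPm i) (hPD i)
  have hintZ := integrableOn_dens h.cloZ hoZ
    (continuousOn_mul hη (h.continuousOn_pull hom))
  -- left-hand side
  have hL : J (r + d) Z (fun z => oV z * pull π oX z) (fun z => η z * pull π om z) =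
      ∑ i, JS (r + d) Z (fun z => oV z * pull π oX z) (fun z => η z * pull π om z)
        (Φ i '' P i) := by
    rw [← JS_iUnion _ hmeas hdisj (by rw [hU]; exact hintZ), hU]; rfl
  have hintP : ∀ i, IntegrableOn (gZ r d π (Φ i) oX om oV η) (P i) := fun i => by
    have h1 : IntegrableOn _ (TE E' '' (Φ i '' P i)) μHE[r + d] :=
      hintZ.mono_set (image_mono (by rw [← hU]; exact subset_iUnion (fun i => Φ i '' P i) i))
    exact (integrableOn_chart (hC i) (hPm i) (hPD i)).1 h1
  have hpiece := fun i => piece h (hAd i) hom0 hoX (hPD i) (hPm i) (hintP i)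
  have hL2 : ∀ i, JS (r + d) Z (fun z => oV z * pull π oX z) (fun z => η z * pull π om z)
        (Φ i '' P i) = J d X oX (fun x => cP r Z π oV η (Φ i '' P i) x • om x) := fun i => by
    rw [← (hpiece i).2]
    exact integral_chart (hC i) (hPm i) (hPD i)
  -- right-hand side
  have hc : ∀ x, J r (Z ∩ π ⁻¹' {x}) oV η = ∑ i, cP r Z π oV η (Φ i '' P i) x := fun x => by
    have hF := h.clo_fibre x
    have hS : ⋃ i, (Φ i '' P i ∩ π ⁻¹' {x}) = Z ∩ π ⁻¹' {x} := by
      rw [← iUnion_inter, hU]
    have h1 := JS_iUnion (d := r) (X := Z ∩ π ⁻¹' {x}) (o := oV) (om := η)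
      (fun i => Φ i '' P i ∩ π ⁻¹' {x}) (fun i => ?_) (fun i j hij => ?_) ?_
    · rw [hS] at h1
      exact h1
    · have h2 : TE E' '' (Φ i '' P i ∩ π ⁻¹' {x}) =
          TE E' '' (Φ i '' P i) ∩ TE E' '' (Z ∩ π ⁻¹' {x}) := by
        rw [← image_inter (TE E').injective]
        congr 1
        ext z
        constructor
        · rintro ⟨h3, h4⟩
          exact ⟨h3, (hU ▸ mem_iUnion_of_mem i h3 : z ∈ Z), h4⟩
        · rintro ⟨h3, -, h4⟩
          exact ⟨h3, h4⟩
      rw [h2]
      exact (hmeas i).inter hF.measurableSet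
    · exact (hdisj hij).mono inter_subset_left inter_subset_left
    · rw [hS]
      exact integrableOn_dens hF (h.fibre_ori hoV hoZ hoX x) (hη.mono inter_subset_left)
  rw [hL, Finset.sum_congr rfl fun i _ => hL2 i]
  simp only [J]
  rw [← integral_finsetSum _ fun i _ => (hpiece i).1]
  refine setIntegral_congr_fun h.cloX.measurableSet ?_
  rintro _ ⟨x, hx, rfl⟩
  simp only [ContinuousLinearEquiv.symm_apply_apply, dens_fun_smul, ← Finset.sum_mul]
  congr 1
  exact (hc x).symm

end main

end Crest.Agent.R208.FI
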