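import Crest.Agent.R208.F1c
import Crest.Agent.R241.AF2

/-! Row 208, block F2 (helper349), part FI1: closed submanifolds `X` of a finite-dimensional normed
space `E` by charts, tangent spaces, local smooth coordinates, orthonormal frames, and the
integral `J` of a form over an oriented closed submanifold. -/

set_option autoImplicit false
set_option linter.unusedSectionVars false

open Set Filter Topology Module MeasureTheory MeasureTheory.Measure
open scoped ContDiff
open Crest.Agent.R208.F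

noncomputable section

namespace Crest.Agent.R208.FI

variable {E : Type*} [NormedAddCommGroup E] [NormedSpace ℝ E]

/-- `f`, defined on the open set `V` of `ℝ^d`, is a chart of `X ⊆ E`. -/
structure Chart (d : ℕ) (X : Set E) (f : Eu d → E) (V : Set (Eu d)) : Prop where
  isOpen : IsOpen V
  contDiffOn : ContDiffOn ℝ ∞ f V
  injOn : InjOn f V
  inj : ∀ u ∈ V, Function.Injective (fderiv ℝ f u)
  image_open : ∀ W ⊆ V, IsOpen W → ∃ U : Set E, IsOpen U ∧ f '' W = X ∩ U

/-- `X` is a closed (= compact, without boundary) `d`-dimensional submanifold of `E`. -/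
structure Clo (d : ℕ) (X : Set E) : Prop where
  compact : IsCompact X
  chart : ∀ x ∈ X, ∃ (f : Eu d → E) (V : Set (Eu d)), Chart d X f V ∧ x ∈ f '' V

/-- The tangent space of `X` at `x`: span of the velocities of curves in `X`. -/
def Tan (X : Set E) (x : E) : Submodule ℝ E :=
  Submodule.span ℝ {v | ∃ γ : ℝ → E, γ 0 = x ∧ HasDerivAt γ v 0 ∧ ∀ᶠ t in 𝓝 0, γ t ∈ X}

theorem mem_Tan_of_curve {X : Set E} {γ : ℝ → E} {v : E} {t : ℝ} (h : HasDerivAt γ v t)
    (hS : ∀ᶠ s in 𝓝 t, γ s ∈ X) : v ∈ Tan X (γ t) := by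
  refine Submodule.subset_span ⟨fun s => γ (t + s), by simp, ?_, ?_⟩
  · have h1 : HasDerivAt (fun s : ℝ => t + s) 1 0 := (hasDerivAt_id (0 : ℝ)).const_add t
    have h' : HasDerivAt γ v (t + 0) := by simpa using h
    have h2 := h'.scomp (0 : ℝ) h1
    rw [one_smul] at h2
    exact h2
  · have : Tendsto (fun s : ℝ => t + s) (𝓝 0) (𝓝 t) := by
      have : Continuous (fun s : ℝ => t + s) := by fun_prop
      simpa using this.tendsto 0
    exact this.eventually hS

section chart
variable {d : ℕ} {X : Set E} {f : Eu d → E} {V : Set (Eu d)}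

theorem Chart.contDiffAt (hf : Chart d X f V) {u : Eu d} (hu : u ∈ V) : ContDiffAt ℝ ∞ f u :=
  hf.contDiffOn.contDiffAt (hf.isOpen.mem_nhds hu)

theorem Chart.differentiableAt (hf : Chart d X f V) {u : Eu d} (hu : u ∈ V) :
    DifferentiableAt ℝ f u := (hf.contDiffAt hu).differentiableAt (by simp)

theorem Chart.mem (hf : Chart d X f V) {u : Eu d} (hu : u ∈ V) : f u ∈ X := by
  obtain ⟨U, -, hU⟩ := hf.image_open V le_rfl hf.isOpen
  have : f u ∈ f '' V := ⟨u, hu, rfl⟩
  rw [hU] at this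
  exact this.1

theorem Chart.image_subset (hf : Chart d X f V) : f '' V ⊆ X := by
  rintro _ ⟨u, hu, rfl⟩; exact hf.mem hu

theorem Chart.mono (hf : Chart d X f V) {W : Set (Eu d)} (hW : W ⊆ V) (hWo : IsOpen W) :
    Chart d X f W :=
  ⟨hWo, hf.contDiffOn.mono hW, hf.injOn.mono hW, fun u hu => hf.inj u (hW hu),
    fun Z hZ hZo => hf.image_open Z (hZ.trans hW) hZo⟩

/-- A smooth local coordinate: an ambient smooth function `ℓ` near `f x` inverting `f` on `X`. -/
theorem exists_coord [FiniteDimensional ℝ E] (hf : Chart d X f V) {x : Eu d} (hx : x ∈ V) :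
    ∃ (O : Set E) (ℓ : E → Eu d), IsOpen O ∧ f x ∈ O ∧ ContDiffOn ℝ ∞ ℓ O ∧
      (∀ q ∈ O, ℓ q ∈ V) ∧ ℓ (f x) = x ∧ (∀ q ∈ O, q ∈ X → f (ℓ q) = q) := by
  classical
  have hcd : ∀ y ∈ V, ContDiffAt ℝ ∞ f y := fun y hy => hf.contDiffAt hy
  set A : Eu d →L[ℝ] E := fderiv ℝ f x with hA
  obtain ⟨B0, hB0⟩ := LinearMap.exists_leftInverse_of_injective (A : Eu d →ₗ[ℝ] E)
    (LinearMap.ker_eq_bot.2 (hf.inj x hx))
  set B : E →L[ℝ] Eu d := LinearMap.toContinuousLinearMap B0 with hB
  have hBA : B ∘L A = ContinuousLinearMap.id ℝ (Eu d) := by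
    ext1 v
    have := congrArg (fun L => L v) hB0
    simpa [hB] using this
  set g : Eu d → Eu d := fun y => B (f y) with hg
  have hgcd : ∀ y ∈ V, ContDiffAt ℝ ∞ g y := fun y hy => B.contDiff.contDiffAt.comp y (hcd y hy)
  have hgd : ∀ y ∈ V, HasFDerivAt g (B ∘L fderiv ℝ f y) y := fun y hy =>
    B.hasFDerivAt.comp y ((hcd y hy).differentiableAt (by simp)).hasFDerivAt
  have hgx : HasFDerivAt g ((ContinuousLinearEquiv.refl ℝ (Eu d) : Eu d ≃L[ℝ] Eu d) : Eu d →L[ℝ] Eu d) x := by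
    have := hgd x hx
    rw [← hA, hBA] at this
    exact this
  set e := (hgcd x hx).toOpenPartialHomeomorph g hgx (by simp) with he
  have hxe : x ∈ e.source := ContDiffAt.mem_toOpenPartialHomeomorph_source _ _ _
  have hecoe : (e : Eu d → Eu d) = g := rfl
  have hcont : ContinuousOn (fun y => B ∘L fderiv ℝ f y) V := by
    have h1 : ContinuousOn (fderiv ℝ f) V :=
      hf.contDiffOn.continuousOn_fderiv_of_isOpen hf.isOpen (by simp)
    exact (continuousOn_const.clm_comp h1)
  have hinvopen : IsOpen (V ∩ (fun y => B ∘L fderiv ℝ f y) ⁻¹' {L | ∃ M : Eu d ≃L[ℝ] Eu d, (M : Eu d →L[ℝ] Eu d) = L}) := by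
    apply hcont.isOpen_inter_preimage hf.isOpen
    exact ContinuousLinearEquiv.isOpen
  set W : Set (Eu d) := (V ∩ (fun y => B ∘L fderiv ℝ f y) ⁻¹' {L | ∃ M : Eu d ≃L[ℝ] Eu d, (M : Eu d →L[ℝ] Eu d) = L}) ∩ e.source with hW
  have hWo : IsOpen W := hinvopen.inter e.open_source
  have hWV : W ⊆ V := fun y hy => hy.1.1
  have hxW : x ∈ W := by
    refine ⟨⟨hx, ContinuousLinearEquiv.refl ℝ _, ?_⟩, hxe⟩
    change _ = B ∘L fderiv ℝ f x
    rw [← hA, hBA]; rfl
  obtain ⟨U, hU, hUS⟩ := hf.image_open W hWV hWo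
  have hT : IsOpen (g '' W) := by
    have := e.isOpen_image_of_subset_source hWo (fun y hy => hy.2)
    exact this
  refine ⟨U ∩ B ⁻¹' (g '' W), fun q => e.symm (B q), hU.inter (hT.preimage B.continuous), ⟨?_, ?_⟩,
    ?_, ?_, ?_, ?_⟩
  · have : f x ∈ f '' W := ⟨x, hxW, rfl⟩
    rw [hUS] at this; exact this.2
  · exact ⟨x, hxW, rfl⟩
  · rintro q ⟨hqU, y, hyW, hyq⟩
    apply ContDiffAt.contDiffWithinAt
    have hBq : B q = e y := hyq.symm
    have hys : e.symm (B q) = y := by rw [hBq]; exact e.left_inv hyW.2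
    obtain ⟨M, hM⟩ := hyW.1.2
    have hM' : HasFDerivAt e (M : Eu d →L[ℝ] Eu d) (e.symm (B q)) := by
      rw [hys, hM]; exact hgd y (hWV hyW)
    have h1 : ContDiffAt ℝ ∞ e.symm (B q) :=
      e.contDiffAt_symm (by rw [hBq]; exact e.map_source hyW.2) hM' (by rw [hys]; exact hgcd y (hWV hyW))
    exact h1.comp q B.contDiff.contDiffAt
  · rintro q ⟨hqU, y, hyW, hyq⟩
    have hBq : B q = e y := hyq.symm
    have hys : e.symm (B q) = y := by rw [hBq]; exact e.left_inv hyW.2
    simp only [hys]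
    exact hWV hyW
  · change e.symm (e x) = x
    exact e.left_inv hxe
  · rintro q ⟨hqU, -⟩ hqS
    have : q ∈ f '' W := by rw [hUS]; exact ⟨hqS, hqU⟩
    obtain ⟨y, hyW, rfl⟩ := this
    have : e.symm (B (f y)) = y := e.left_inv hyW.2
    simp only [this]

/-- velocities of smooth maps into `X` are tangent. -/
theorem fderiv_mem_Tan {F : Type*} [NormedAddCommGroup F] [NormedSpace ℝ F] {h : F → E} {y : F}
    (hh : DifferentiableAt ℝ h y) (hX : ∀ᶠ z in 𝓝 y, h z ∈ X) (v : F) :
    fderiv ℝ h y v ∈ Tan X (h y) := by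
  have h1 : HasDerivAt (fun t : ℝ => h (y + t • v)) (fderiv ℝ h y v) 0 := by
    have h2 : HasDerivAt (fun t : ℝ => y + t • v) v 0 := by
      simpa using ((hasDerivAt_id (0 : ℝ)).smul_const v).const_add y
    have h3 : HasFDerivAt h (fderiv ℝ h y) (y + (0 : ℝ) • v) := by
      simpa using hh.hasFDerivAt
    exact h3.comp_hasDerivAt (0 : ℝ) h2
  have h4 : ∀ᶠ t : ℝ in 𝓝 0, h (y + t • v) ∈ X := by
    have : Tendsto (fun t : ℝ => y + t • v) (𝓝 0) (𝓝 y) := by
      have : Continuous (fun t : ℝ => y + t • v) := by fun_prop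
      simpa using this.tendsto 0
    exact this.eventually hX
  have := mem_Tan_of_curve h1 h4
  simpa using this

theorem range_fderiv_eq_Tan [FiniteDimensional ℝ E] (hf : Chart d X f V) {x : Eu d} (hx : x ∈ V) :
    LinearMap.range (fderiv ℝ f x : Eu d →ₗ[ℝ] E) = Tan X (f x) := by
  apply le_antisymm
  · rintro _ ⟨w, rfl⟩
    exact fderiv_mem_Tan (hf.differentiableAt hx)
      (by filter_upwards [hf.isOpen.mem_nhds hx] with z hz using hf.mem hz) w
  · rw [Tan, Submodule.span_le]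
    rintro v ⟨γ, hγ0, hγ, hS⟩
    obtain ⟨O, ℓ, hO, hxO, hℓ, hℓV, hℓx, hℓS⟩ := exists_coord hf hx
    have hγc : Tendsto γ (𝓝 0) (𝓝 (f x)) := by rw [← hγ0]; exact hγ.continuousAt
    have hev : γ =ᶠ[𝓝 0] fun t => f (ℓ (γ t)) := by
      filter_upwards [hS, hγc.eventually (hO.mem_nhds hxO)] with t h1 h2
      exact (hℓS _ h2 h1).symm
    have hℓd : HasFDerivAt ℓ (fderiv ℝ ℓ (f x)) (γ 0) := by
      rw [hγ0]
      exact ((hℓ.contDiffAt (hO.mem_nhds hxO)).differentiableAt (by simp)).hasFDerivAt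
    have h1 : HasDerivAt (fun t => ℓ (γ t)) (fderiv ℝ ℓ (f x) v) 0 := hℓd.comp_hasDerivAt 0 hγ
    have h2 : HasFDerivAt f (fderiv ℝ f x) (ℓ (γ 0)) := by
      rw [hγ0, hℓx]
      exact (hf.differentiableAt hx).hasFDerivAt
    have h3 : HasDerivAt (fun t => f (ℓ (γ t))) (fderiv ℝ f x (fderiv ℝ ℓ (f x) v)) 0 :=
      h2.comp_hasDerivAt 0 h1
    have h4 := (h3.congr_of_eventuallyEq hev).unique hγ
    exact ⟨_, h4⟩

theorem finrank_Tan_chart [FiniteDimensional ℝ E] (hf : Chart d X f V) {x : Eu d} (hx : x ∈ V) :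
    finrank ℝ (Tan X (f x)) = d := by
  rw [← range_fderiv_eq_Tan hf hx, LinearMap.finrank_range_of_inj (hf.inj x hx)]
  simp

theorem Clo.finrank_Tan [FiniteDimensional ℝ E] (hX : Clo d X) {x : E} (hx : x ∈ X) :
    finrank ℝ (Tan X x) = d := by
  obtain ⟨f, V, hf, u, hu, rfl⟩ := hX.chart x hx
  exact finrank_Tan_chart hf hu

/-- the derivative of a map from `X` to `Y` maps tangent vectors to tangent vectors. -/
theorem fderiv_mapsTo_Tan {F : Type*} [NormedAddCommGroup F] [NormedSpace ℝ F]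
    {Y : Set F} {h : E → F} {x : E} (hh : DifferentiableAt ℝ h x) (hXY : ∀ z ∈ X, h z ∈ Y) {v : E}
    (hv : v ∈ Tan X x) : fderiv ℝ h x v ∈ Tan Y (h x) := by
  have : Tan X x ≤ (Tan Y (h x)).comap (fderiv ℝ h x : E →ₗ[ℝ] F) := by
    rw [Tan, Submodule.span_le]
    rintro v ⟨γ, rfl, hγ, hS⟩
    have h1 : HasDerivAt (fun t => h (γ t)) (fderiv ℝ h (γ 0) v) 0 :=
      hh.hasFDerivAt.comp_hasDerivAt 0 hγ
    exact mem_Tan_of_curve h1 (by filter_upwards [hS] with t ht using hXY _ ht)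
  exact this hv

end chart

/-! ### frames and the integral -/

/-- `w` is a basis of the tangent space, orthonormal for the Euclidean structure `toEuclidean`. -/
def IsFrame [FiniteDimensional ℝ E] {d : ℕ} (X : Set E) (x : E) (w : Fin d → E) : Prop :=
  Orthonormal ℝ (fun i => toEuclidean (w i)) ∧ ∀ i, w i ∈ Tan X x

open Classical in
/-- a chosen orthonormal frame of the tangent space -/
def frame [FiniteDimensional ℝ E] (d : ℕ) (X : Set E) (x : E) : Fin d → E :=
  if h : ∃ w : Fin d → E, IsFrame X x w then h.choose else 0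

/-- density of the form `om` with respect to the volume of `X` oriented by the form `o` -/
def dens [FiniteDimensional ℝ E] (d : ℕ) (X : Set E) (o om : E → Ext E) (x : E) : ℝ :=
  evA E d (om x) (frame d X x) * Real.sign (evA E d (o x) (frame d X x))

/-- the integral of `om` over `X` oriented by the form `o` -/
def J [FiniteDimensional ℝ E] (d : ℕ) (X : Set E) (o om : E → Ext E) : ℝ :=
  ∫ y in (toEuclidean : E ≃L[ℝ] _) '' X, dens d X o om (toEuclidean.symm y) ∂μHE[d]

/-- `o` is an orientation of `X`: continuous on `X`, non zero on the tangent spaces. -/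
structure Ori [FiniteDimensional ℝ E] (d : ℕ) (X : Set E) (o : E → Ext E) : Prop where
  cont : ContinuousOn o X
  ne : ∀ x ∈ X, evA E d (o x) (frame d X x) ≠ 0

theorem exists_isFrame [FiniteDimensional ℝ E] {d : ℕ} {X : Set E} {x : E}
    (h : finrank ℝ (Tan X x) = d) : ∃ w : Fin d → E, IsFrame X x w := by
  set T : Submodule ℝ (EuclideanSpace ℝ (Fin (finrank ℝ E))) :=
    (Tan X x).map (toEuclidean : E ≃L[ℝ] _).toLinearEquiv.toLinearMap with hT
  have hfin : finrank ℝ T = d := by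
    rw [hT, ← h]
    exact LinearEquiv.finrank_map_eq _ _
  let b := (stdOrthonormalBasis ℝ T).reindex (finCongr hfin)
  refine ⟨fun i => toEuclidean.symm (b i : EuclideanSpace ℝ (Fin (finrank ℝ E))), ?_, ?_⟩
  · have h1 : (fun i => (toEuclidean : E ≃L[ℝ] _) (toEuclidean.symm
        (b i : EuclideanSpace ℝ (Fin (finrank ℝ E))))) = fun i => (b i : EuclideanSpace ℝ (Fin (finrank ℝ E))) := by
      funext i; simp
    rw [h1]
    have := b.orthonormal
    exact this.comp_linearIsometry T.subtypeₗᵢ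
  · intro i
    obtain ⟨v, hv, hv2⟩ := Submodule.mem_map.1 (b i).2
    have : toEuclidean.symm (b i : EuclideanSpace ℝ (Fin (finrank ℝ E))) = v := by
      rw [← hv2]; exact toEuclidean.symm_apply_apply v
    simp only [this]
    exact hv

theorem frame_isFrame [FiniteDimensional ℝ E] {d : ℕ} {X : Set E} {x : E}
    (h : finrank ℝ (Tan X x) = d) : IsFrame X x (frame d X x) := by
  have := exists_isFrame h
  rw [frame, dif_pos this]
  exact this.choose_spec

end Crest.Agent.R208.FI
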