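import Crest.Agent.R208.FI1

/-! Row 208, block F2 (helper349), part FI1b: area formula for Bochner integrals, frame
independence of `dens`, the parametrisation formula for `J`. -/

set_option autoImplicit false
set_option linter.unusedSectionVars false

open Set Filter Topology Module MeasureTheory MeasureTheory.Measure
open scoped ContDiff
open Crest.Agent.R208.F

noncomputable section

namespace Crest.Agent.R208.FI

/-! ### area formula, Bochner version -/
section area
open Crest.Agent.R241.AF
variable {U V : Type*} [NormedAddCommGroup U] [InnerProductSpace ℝ U] [FiniteDimensional ℝ U]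
  [NormedAddCommGroup V] [InnerProductSpace ℝ V] [FiniteDimensional ℝ V]
variable [MeasurableSpace U] [BorelSpace U] [MeasurableSpace V] [BorelSpace V]
variable {s : Set U} {f : U → V} {f' : U → U →L[ℝ] V}
variable {G : Type*} [NormedAddCommGroup G] [NormedSpace ℝ G]

theorem aemeasurable_toNNReal_jac (hs : MeasurableSet s)
    (hf' : ∀ x ∈ s, HasFDerivWithinAt f (f' x) s x) :
    AEMeasurable (fun x => (jac (f' x)).toNNReal) (volume.restrict s) := by
  have h := aemeasurable_jac hs hf'
  have := h.ennreal_toNNReal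
  refine this.congr (Eventually.of_forall fun x => ?_)
  simp [ENNReal.ofReal]

/-- **area formula**, Bochner integrals. -/
theorem integral_image_eq_jac (hs : MeasurableSet s)
    (hf' : ∀ x ∈ s, HasFDerivWithinAt f (f' x) s x) (hf : InjOn f s) (g : V → G) :
    ∫ y in f '' s, g y ∂μHE[finrank ℝ U] = ∫ x in s, jac (f' x) • g (f x) := by
  rw [← restrict_map_withDensity_jac hs hf' hf,
    (measurableEmbedding_of_deriv hs hf' hf).integral_map]
  simp only [Set.domRestrict_apply, ← Function.comp_apply (f := g), ENNReal.ofReal]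
  rw [← (MeasurableEmbedding.subtype_coe hs).integral_map, map_comap_subtype_coe hs,
    setIntegral_withDensity_eq_setIntegral_smul₀ (aemeasurable_toNNReal_jac hs hf') _ hs]
  congr with x
  rw [NNReal.smul_def, Real.coe_toNNReal _ (jac_nonneg _)]

theorem integrableOn_image_iff_jac (hs : MeasurableSet s)
    (hf' : ∀ x ∈ s, HasFDerivWithinAt f (f' x) s x) (hf : InjOn f s) (g : V → G) :
    IntegrableOn g (f '' s) μHE[finrank ℝ U] ↔ IntegrableOn (fun x => jac (f' x) • g (f x)) s := by
  rw [IntegrableOn, ← restrict_map_withDensity_jac hs hf' hf,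
    (measurableEmbedding_of_deriv hs hf' hf).integrable_map_iff]
  simp only [Set.domRestrict_eq, ← Function.comp_assoc, ENNReal.ofReal]
  rw [← (MeasurableEmbedding.subtype_coe hs).integrable_map_iff, map_comap_subtype_coe hs,
    restrict_withDensity hs, integrable_withDensity_iff_integrable_coe_smul₀]
  · simp_rw [IntegrableOn, Real.coe_toNNReal _ (jac_nonneg _), Function.comp_apply]
  · exact aemeasurable_toNNReal_jac hs hf'

end area

variable {E : Type*} [NormedAddCommGroup E] [NormedSpace ℝ E] [FiniteDimensional ℝ E]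
  {d : ℕ} {X : Set E} {o om : E → Ext E}

variable (E) in
/-- the Euclidean chart of `E`, as a continuous linear map -/
abbrev LE : E →L[ℝ] EuclideanSpace ℝ (Fin (finrank ℝ E)) :=
  ((toEuclidean : E ≃L[ℝ] EuclideanSpace ℝ (Fin (finrank ℝ E))) :
    E →L[ℝ] EuclideanSpace ℝ (Fin (finrank ℝ E)))

theorem sign_mul (a b : ℝ) : Real.sign (a * b) = Real.sign a * Real.sign b := by
  rcases lt_trichotomy a 0 with ha | rfl | ha <;> rcases lt_trichotomy b 0 with hb | rfl | hb
  · rw [Real.sign_of_pos (mul_pos_of_neg_of_neg ha hb), Real.sign_of_neg ha, Real.sign_of_neg hb]; norm_num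
  · simp
  · rw [Real.sign_of_neg (mul_neg_of_neg_of_pos ha hb), Real.sign_of_neg ha, Real.sign_of_pos hb]; norm_num
  · simp
  · simp
  · simp
  · rw [Real.sign_of_neg (mul_neg_of_pos_of_neg ha hb), Real.sign_of_pos ha, Real.sign_of_neg hb]; norm_num
  · simp
  · rw [Real.sign_of_pos (mul_pos ha hb), Real.sign_of_pos ha, Real.sign_of_pos hb]; norm_num

theorem mul_sign (a : ℝ) : a * Real.sign a = |a| := by
  rcases lt_trichotomy a 0 with ha | rfl | ha
  · rw [Real.sign_of_neg ha, abs_of_neg ha]; ring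
  · simp
  · rw [Real.sign_of_pos ha, abs_of_pos ha]; ring

/-- coordinates with respect to an orthonormal frame of the tangent space -/
theorem IsFrame.sum_eq {x : E} {w : Fin d → E} (hw : IsFrame X x w) (hT : finrank ℝ (Tan X x) = d)
    {v : E} (hv : v ∈ Tan X x) :
    v = ∑ j, (inner ℝ ((toEuclidean : E ≃L[ℝ] _) (w j)) ((toEuclidean : E ≃L[ℝ] _) v) : ℝ) • w j := by
  classical
  -- `w` spans the tangent space
  have hli : LinearIndependent ℝ w := by
    have h1 := hw.1.linearIndependent
    exact LinearIndependent.of_comp (toEuclidean : E ≃L[ℝ] _).toLinearEquiv.toLinearMap h1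
  have hspan : Submodule.span ℝ (Set.range w) = Tan X x := by
    apply Submodule.eq_of_le_of_finrank_eq
    · rw [Submodule.span_le]; rintro _ ⟨i, rfl⟩; exact hw.2 i
    · rw [finrank_span_eq_card hli, hT, Fintype.card_fin]
  rw [← hspan] at hv
  obtain ⟨c, hc⟩ := (Submodule.mem_span_range_iff_exists_fun ℝ).1 hv
  have hcj : ∀ j, (inner ℝ ((toEuclidean : E ≃L[ℝ] _) (w j)) ((toEuclidean : E ≃L[ℝ] _) v) : ℝ) = c j := by
    intro j
    rw [← hc, _root_.map_sum, inner_sum, Finset.sum_eq_single j]
    · rw [map_smul, inner_smul_right, real_inner_self_eq_norm_sq, hw.1.1 j]; norm_num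
    · intro i _ hij
      rw [map_smul, inner_smul_right, hw.1.2 (Ne.symm hij), mul_zero]
    · simp
  simp only [hcj]
  exact hc.symm

open Crest.Agent.R241.AF in
/-- Jacobian and `top` in terms of the matrix of a linear map into the tangent space -/
theorem exists_matrix {x : E} {w : Fin d → E} (hw : IsFrame X x w) (hT : finrank ℝ (Tan X x) = d)
    {A : Eu d →L[ℝ] E} (hA : ∀ u, A u ∈ Tan X x) :
    ∃ M : Matrix (Fin d) (Fin d) ℝ,
      jac (LE E ∘L A) = |M.det| ∧
      (∀ c : Ext E, top d (pb (A : Eu d →ₗ[ℝ] E) c) = M.det * evA E d c w) ∧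
      (∀ i, A (sb d i) = ∑ j, M i j • w j) := by
  classical
  let M : Matrix (Fin d) (Fin d) ℝ := Matrix.of fun i j =>
    (inner ℝ ((toEuclidean : E ≃L[ℝ] _) (w j)) ((toEuclidean : E ≃L[ℝ] _) (A (sb d i))) : ℝ)
  have hM : ∀ i, A (sb d i) = ∑ j, M i j • w j := fun i => hw.sum_eq hT (hA _)
  refine ⟨M, ?_, ?_, hM⟩
  · have h1 := jac_sq_gram (LE E ∘L A)
      (EuclideanSpace.basisFun (Fin d) ℝ)
    have h2 : (Matrix.of fun i j => (inner ℝ
        ((LE E ∘L A) (EuclideanSpace.basisFun (Fin d) ℝ i))
        ((LE E ∘L A) (EuclideanSpace.basisFun (Fin d) ℝ j)) : ℝ))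
        = M * M.transpose := by
      ext i j
      have hs : ∀ k, (LE E ∘L A)
          (EuclideanSpace.basisFun (Fin d) ℝ k) = ∑ l, M k l • (toEuclidean : E ≃L[ℝ] _) (w l) := by
        intro k
        have := hM k
        simp only [sb, OrthonormalBasis.coe_toBasis] at this
        rw [ContinuousLinearMap.comp_apply, this, _root_.map_sum]
        simp only [map_smul]
        rfl
      rw [Matrix.of_apply, hs, hs, sum_inner, Matrix.mul_apply]
      refine Finset.sum_congr rfl fun l _ => ?_
      rw [inner_sum, Finset.sum_eq_single l]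
      · rw [inner_smul_left, inner_smul_right, real_inner_self_eq_norm_sq, hw.1.1 l]
        simp [Matrix.transpose_apply]
      · intro k _ hk
        rw [inner_smul_left, inner_smul_right, hw.1.2 (Ne.symm hk)]; simp
      · simp
    rw [h2, Matrix.det_mul, Matrix.det_transpose] at h1
    have h3 : jac (LE E ∘L A) ^ 2 = |M.det| ^ 2 := by
      rw [h1, sq_abs]; ring
    exact (pow_left_inj₀ (jac_nonneg _) (abs_nonneg _) two_ne_zero).1 h3
  · intro c
    rw [top_pb]
    exact evA_comb d c w _ M hM

open Crest.Agent.R241.AF in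
/-- the density in a linear parametrisation of the tangent space -/
theorem jac_mul_dens {x : E} (hT : finrank ℝ (Tan X x) = d)
    {A : Eu d →L[ℝ] E} (hA : ∀ u, A u ∈ Tan X x) :
    jac (LE E ∘L A) * dens d X o om x =
      top d (pb (A : Eu d →ₗ[ℝ] E) (om x)) * Real.sign (top d (pb (A : Eu d →ₗ[ℝ] E) (o x))) := by
  obtain ⟨M, h1, h2, -⟩ := exists_matrix (frame_isFrame hT) hT hA
  rw [h1, h2, h2, dens, sign_mul, ← mul_sign]
  ring

open Crest.Agent.R241.AF in
/-- `top` does not vanish on the orientation -/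
theorem top_ne_zero {x : E} (hT : finrank ℝ (Tan X x) = d)
    {A : Eu d →L[ℝ] E} (hA : ∀ u, A u ∈ Tan X x) (hinj : Function.Injective A) {c : Ext E} :
    top d (pb (A : Eu d →ₗ[ℝ] E) c) ≠ 0 ↔ evA E d c (frame d X x) ≠ 0 := by
  obtain ⟨M, h1, h2, h3⟩ := exists_matrix (frame_isFrame hT) hT hA
  have hM : M.det ≠ 0 := by
    have h4 : jac (LE E ∘L A) ≠ 0 := by
      intro h5
      have h6 := ((LE E ∘L A).toLinearMap.normDet_eq_zero_tfae.out 0 5).1 h5
      apply h6
      intro u v huv
      apply hinj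
      exact (toEuclidean : E ≃L[ℝ] _).injective huv
    rw [h1] at h4
    exact abs_ne_zero.1 h4
  rw [h2]
  constructor
  · intro h h'; exact h (by rw [h', mul_zero])
  · intro h; exact mul_ne_zero hM h

/-- **parametrisation formula**: integral over the image of an injective immersion. -/
theorem integral_param {f : Eu d → E} {A : Set (Eu d)}
    (hAm : MeasurableSet A) (hf : ∀ u ∈ A, DifferentiableAt ℝ f u) (hinj : InjOn f A)
    (hT : ∀ u ∈ A, finrank ℝ (Tan X (f u)) = d)
    (hmem : ∀ u ∈ A, ∀ w, fderiv ℝ f u w ∈ Tan X (f u)) :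
    ∫ y in (toEuclidean : E ≃L[ℝ] _) '' (f '' A), dens d X o om (toEuclidean.symm y) ∂μHE[d] =
      ∫ u in A, top d (pull f om u) * Real.sign (top d (pull f o u)) := by
  have h1 : ∀ u ∈ A, HasFDerivWithinAt (fun u => (toEuclidean : E ≃L[ℝ] _) (f u))
      (LE E ∘L fderiv ℝ f u) A u := fun u hu =>
    ((toEuclidean : E ≃L[ℝ] _).hasFDerivAt.comp u (hf u hu).hasFDerivAt).hasFDerivWithinAt
  have h2 : InjOn (fun u => (toEuclidean : E ≃L[ℝ] _) (f u)) A := fun u hu v hv huv =>
    hinj hu hv ((toEuclidean : E ≃L[ℝ] _).injective huv)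
  have h3 := integral_image_eq_jac hAm h1 h2 (fun y => dens d X o om (toEuclidean.symm y))
  have hd : finrank ℝ (Eu d) = d := finrank_euclideanSpace_fin
  rw [hd] at h3
  rw [image_image, h3]
  refine setIntegral_congr_fun hAm fun u hu => ?_
  simp only [smul_eq_mul, ContinuousLinearEquiv.symm_apply_apply]
  exact jac_mul_dens (hT u hu) (hmem u hu)

theorem integrableOn_param {f : Eu d → E} {A : Set (Eu d)}
    (hAm : MeasurableSet A) (hf : ∀ u ∈ A, DifferentiableAt ℝ f u) (hinj : InjOn f A)
    (hT : ∀ u ∈ A, finrank ℝ (Tan X (f u)) = d)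
    (hmem : ∀ u ∈ A, ∀ w, fderiv ℝ f u w ∈ Tan X (f u)) :
    IntegrableOn (fun y => dens d X o om (toEuclidean.symm y))
      ((toEuclidean : E ≃L[ℝ] _) '' (f '' A)) μHE[d] ↔
      IntegrableOn (fun u => top d (pull f om u) * Real.sign (top d (pull f o u))) A := by
  have h1 : ∀ u ∈ A, HasFDerivWithinAt (fun u => (toEuclidean : E ≃L[ℝ] _) (f u))
      (LE E ∘L fderiv ℝ f u) A u := fun u hu =>
    ((toEuclidean : E ≃L[ℝ] _).hasFDerivAt.comp u (hf u hu).hasFDerivAt).hasFDerivWithinAt
  have h2 : InjOn (fun u => (toEuclidean : E ≃L[ℝ] _) (f u)) A := fun u hu v hv huv =>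
    hinj hu hv ((toEuclidean : E ≃L[ℝ] _).injective huv)
  have h3 := integrableOn_image_iff_jac hAm h1 h2 (fun y => dens d X o om (toEuclidean.symm y))
  have hd : finrank ℝ (Eu d) = d := finrank_euclideanSpace_fin
  rw [hd] at h3
  rw [image_image, h3]
  refine integrableOn_congr_fun (fun u hu => ?_) hAm
  simp only [smul_eq_mul, ContinuousLinearEquiv.symm_apply_apply]
  exact jac_mul_dens (hT u hu) (hmem u hu)

section chart
variable {f : Eu d → E} {V : Set (Eu d)}

theorem Chart.fderiv_mem (hf : Chart d X f V) {u : Eu d} (hu : u ∈ V) (w : Eu d) :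
    fderiv ℝ f u w ∈ Tan X (f u) :=
  fderiv_mem_Tan (hf.differentiableAt hu)
    (by filter_upwards [hf.isOpen.mem_nhds hu] with z hz using hf.mem hz) w

/-- **chart formula** -/
theorem integral_chart (hf : Chart d X f V) {A : Set (Eu d)} (hA : MeasurableSet A) (hAV : A ⊆ V) :
    ∫ y in (toEuclidean : E ≃L[ℝ] _) '' (f '' A), dens d X o om (toEuclidean.symm y) ∂μHE[d] =
      ∫ u in A, top d (pull f om u) * Real.sign (top d (pull f o u)) :=
  integral_param hA (fun u hu => hf.differentiableAt (hAV hu)) (hf.injOn.mono hAV)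
    (fun u hu => finrank_Tan_chart hf (hAV hu)) (fun u hu w => hf.fderiv_mem (hAV hu) w)

theorem integrableOn_chart (hf : Chart d X f V) {A : Set (Eu d)} (hA : MeasurableSet A)
    (hAV : A ⊆ V) :
    IntegrableOn (fun y => dens d X o om (toEuclidean.symm y))
      ((toEuclidean : E ≃L[ℝ] _) '' (f '' A)) μHE[d] ↔
      IntegrableOn (fun u => top d (pull f om u) * Real.sign (top d (pull f o u))) A :=
  integrableOn_param hA (fun u hu => hf.differentiableAt (hAV hu)) (hf.injOn.mono hAV)
    (fun u hu => finrank_Tan_chart hf (hAV hu)) (fun u hu w => hf.fderiv_mem (hAV hu) w)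

end chart

end Crest.Agent.R208.FI
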