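import Crest.Agent.R208.FI2b

/-! Row 208, block F2 (helper349), part FI2c: total spaces of smooth fields of projections. -/

set_option autoImplicit false
set_option linter.unusedSectionVars false
set_option linter.unusedVariables false

open Set Filter Topology Module
open scoped ContDiff
open Crest.Agent.R208.F

noncomputable section

namespace Crest.Agent.R208.FI

variable {E : Type*} [NormedAddCommGroup E] [NormedSpace ℝ E] [FiniteDimensional ℝ E]
  {H : Type*} [NormedAddCommGroup H] [NormedSpace ℝ H] [FiniteDimensional ℝ H]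
  {n k : ℕ} {X : Set E} {P : E → H →L[ℝ] H}

/-- `P` is a smooth field of projections of rank `k` along `X`. -/
structure PField (X : Set E) (k : ℕ) (P : E → H →L[ℝ] H) : Prop where
  smooth : ∀ x ∈ X, ContDiffAt ℝ ∞ P x
  idem : ∀ x ∈ X, ∀ v, P x (P x v) = P x v
  rank : ∀ x ∈ X, finrank ℝ (LinearMap.range (P x : H →ₗ[ℝ] H)) = k

/-- total space of a field of projections -/
def Tot (X : Set E) (P : E → H →L[ℝ] H) : Set (E × H) := {z | z.1 ∈ X ∧ P z.1 z.2 = z.2}

theorem PField.exists_loc (hP : PField X k P) {f : Eu n → E} {W : Set (Eu n)} {O : Set E}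
    {ℓ : E → Eu n} (h : Loc X f W O ℓ) {x : E} (hx : x ∈ X) (hxO : x ∈ O) :
    ∃ (W' : Set (Eu n)) (O' : Set E) (T : Eu n → H →L[ℝ] H),
      Loc X f W' O' ℓ ∧ x ∈ O' ∧ W' ⊆ W ∧ O' ⊆ O ∧ ContDiffOn ℝ ∞ T W' ∧ (∀ u ∈ W', IsUnit (T u)) ∧
      (∀ u ∈ W', ∀ v, P (f u) (T u v) = T u (P x v)) ∧ (∀ u ∈ W', ∀ v, P x v = v → T u v = P (f u) v)
      := by
  classical
  set T : Eu n → H →L[ℝ] H := fun u => P (f u) ∘L P x + (1 - P (f u)) ∘L (1 - P x) with hT
  have hPC : ContDiffOn ℝ ∞ (fun u => P (f u)) W := fun u hu =>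
    ((hP.smooth _ (h.mem hu).1).comp u (h.fC' hu)).contDiffWithinAt
  have hTC : ContDiffOn ℝ ∞ T W :=
    (hPC.clm_comp contDiffOn_const).add ((contDiffOn_const.sub hPC).clm_comp contDiffOn_const)
  have hT0 : T (ℓ x) = 1 := by
    ext v
    have := hP.idem x hx
    simp [hT, h.right_inv hx hxO, this]
  have hopen : IsOpen (W ∩ T ⁻¹' {A | IsUnit A}) :=
    hTC.continuousOn.isOpen_inter_preimage h.oW Units.isOpen
  refine ⟨W ∩ T ⁻¹' {A | IsUnit A}, O ∩ ℓ ⁻¹' (W ∩ T ⁻¹' {A | IsUnit A}), T,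
    h.restrict inter_subset_left hopen, ⟨hxO, h.maps x hxO, ?_⟩, inter_subset_left,
    inter_subset_left, hTC.mono inter_subset_left, fun u hu => hu.2, ?_, ?_⟩
  · change IsUnit (T (ℓ x)); rw [hT0]; exact isUnit_one
  · intro u hu v
    have h1 := hP.idem _ (h.mem hu.1).1
    have h2 := hP.idem x hx
    simp [hT, h1, h2]
  · intro u hu v hv
    simp [hT, hv]

theorem ringInverse_apply_apply {T : H →L[ℝ] H} (hT : IsUnit T) (v : H) :
    Ring.inverse T (T v) = v := by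
  have := Ring.inverse_mul_cancel T hT
  exact congrArg (fun L => L v) this

theorem apply_ringInverse_apply {T : H →L[ℝ] H} (hT : IsUnit T) (v : H) :
    T (Ring.inverse T v) = v := by
  have := Ring.mul_inverse_cancel T hT
  exact congrArg (fun L => L v) this

/-- local trivialisation of the total space -/
theorem PField.loc_tot (hP : PField X k P) {f : Eu n → E} {W : Set (Eu n)} {O : Set E}
    {ℓ : E → Eu n} (h : Loc X f W O ℓ) {x : E} (hx : x ∈ X) (hxO : x ∈ O) :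
    ∃ (ψ : Eu n × (LinearMap.range (P x : H →ₗ[ℝ] H)) → E × H) (W' : Set (Eu n × _))
      (O' : Set (E × H)) (ℓ' : E × H → Eu n × _),
      Loc (Tot X P) ψ W' O' ℓ' ∧ ∀ v, (x, v) ∈ O' := by
  classical
  obtain ⟨W1, O1, T, h1, hxO1, hW1, hO1, hTC, hTu, hPT, hTP⟩ := hP.exists_loc h hx hxO
  set K := LinearMap.range (P x : H →ₗ[ℝ] H) with hK
  have hKP : ∀ w : K, P x (w : H) = w := by
    rintro ⟨_, v, rfl⟩
    exact hP.idem x hx v
  let q : H →L[ℝ] K := (P x).codRestrict K (fun v => ⟨v, rfl⟩)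
  have hq : ∀ v, ((q v : K) : H) = P x v := fun v => rfl
  have hTinv : ContDiffOn ℝ ∞ (fun u => Ring.inverse (T u)) W1 := by
    intro u hu
    obtain ⟨y, hy⟩ := hTu u hu
    have h2 : ContDiffAt ℝ ∞ Ring.inverse (T u) := by
      rw [← hy]; exact contDiffAt_ringInverse ℝ y
    exact h2.comp_contDiffWithinAt u (hTC u hu)
  have hO1o := h1.oO
  have hres : ∀ z : E × H, z ∈ O1 ×ˢ (univ : Set H) → ℓ z.1 ∈ W1 := fun z hz => h1.maps _ hz.1
  refine ⟨fun z => (f z.1, T z.1 z.2), W1 ×ˢ univ, O1 ×ˢ univ,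
    fun z => (ℓ z.1, q (Ring.inverse (T (ℓ z.1)) z.2)), ⟨h1.oW.prod isOpen_univ,
      h1.oO.prod isOpen_univ, ?_, ?_, ?_, ?_, ?_⟩, fun v => ⟨hxO1, mem_univ _⟩⟩
  · refine (h1.fC.comp contDiffOn_fst fun z hz => hz.1).prodMk ?_
    refine (hTC.comp contDiffOn_fst fun z hz => hz.1).clm_apply ?_
    exact (K.subtypeL.contDiff.comp contDiff_snd).contDiffOn
  · refine (h1.lC.comp contDiffOn_fst fun z hz => hz.1).prodMk ?_
    refine q.contDiff.comp_contDiffOn ?_
    refine ContDiffOn.clm_apply ?_ contDiffOn_snd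
    exact hTinv.comp (h1.lC.comp contDiffOn_fst fun z hz => hz.1) fun z hz => hres z hz
  · apply Subset.antisymm
    · rintro _ ⟨⟨u, w⟩, ⟨hu, -⟩, rfl⟩
      have h3 := h1.mem hu
      refine ⟨⟨h3.1, ?_⟩, h3.2, mem_univ _⟩
      change P (f u) (T u (w : H)) = T u (w : H)
      rw [hPT u hu, hKP]
    · rintro ⟨y, v⟩ ⟨⟨hy, hyv⟩, hyO, -⟩
      have hyv' : P y v = v := hyv
      have hu : ℓ y ∈ W1 := h1.maps y hyO
      have hfy : f (ℓ y) = y := h1.right_inv hy hyO
      set b := Ring.inverse (T (ℓ y)) v with hb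
      have hTb : T (ℓ y) b = v := apply_ringInverse_apply (hTu _ hu) v
      have hPb : P x b = b := by
        have h4 := hPT _ hu b
        rw [hfy, hTb, hyv'] at h4
        have h5 : Ring.inverse (T (ℓ y)) (T (ℓ y) (P x b)) = b := by rw [← h4]
        rwa [ringInverse_apply_apply (hTu _ hu)] at h5
      refine ⟨(ℓ y, ⟨b, ⟨b, hPb⟩⟩), ⟨hu, mem_univ _⟩, ?_⟩
      exact Prod.ext hfy hTb
  · rintro ⟨u, w⟩ ⟨hu, -⟩
    refine Prod.ext (h1.inv u hu) ?_
    apply Subtype.ext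
    change P x (Ring.inverse (T (ℓ (f u))) (T u (w : H))) = w
    rw [h1.inv u hu, ringInverse_apply_apply (hTu u hu), hKP]
  · intro z hz
    exact ⟨hres z hz, mem_univ _⟩

/-- the **total space** of a field of projections of rank `k` over an `n`-dimensional submanifold
is an `(n+k)`-dimensional submanifold. -/
theorem PField.sub_tot (hX : Sub n X) (hP : PField X k P) : Sub (n + k) (Tot X P) := by
  refine Sub.of_loc' ?_
  rintro ⟨x, v⟩ ⟨hx, -⟩
  obtain ⟨f, W, O, ℓ, h1, h2⟩ := hX.exists_loc hx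
  obtain ⟨ψ, W', O', ℓ', h3, h4⟩ := hP.loc_tot h1 hx h2
  have hdim : finrank ℝ (Eu n × (LinearMap.range (P x : H →ₗ[ℝ] H))) = n + k := by
    rw [Module.finrank_prod, hP.rank x hx]; simp
  obtain ⟨f', W'', ℓ'', h5⟩ := h3.toEu hdim
  exact ⟨_, _, _, _, h5, h4 v⟩

/-- derivative of the identity `P v = v` along curves in the total space -/
theorem PField.deriv_mem (hP : PField X k P) {x : E} (hx : x ∈ X) {v : H}
    {a : E} {b : H} (h : (a, b) ∈ Tan (Tot X P) (x, v)) :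
    a ∈ Tan X x ∧ b - P x b = fderiv ℝ P x a v := by
  have key : Tan (Tot X P) (x, v) ≤ (Tan X x).comap (LinearMap.fst ℝ E H) ⊓
      LinearMap.ker ((LinearMap.id - (P x : H →ₗ[ℝ] H)) ∘ₗ LinearMap.snd ℝ E H -
        ((ContinuousLinearMap.apply ℝ H v : (H →L[ℝ] H) →L[ℝ] H) : (H →L[ℝ] H) →ₗ[ℝ] H) ∘ₗ
          (fderiv ℝ P x : E →ₗ[ℝ] (H →L[ℝ] H)) ∘ₗ LinearMap.fst ℝ E H) := by
    rw [Tan, Submodule.span_le]
    rintro ⟨a, b⟩ ⟨γ, hγ0, hγ, hS⟩
    have h0 : (γ 0).1 = x ∧ (γ 0).2 = v := by rw [hγ0]; exact ⟨rfl, rfl⟩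
    have h1 : HasDerivAt (fun t => (γ t).1) a 0 := hγ.fst
    have h2 : HasDerivAt (fun t => (γ t).2) b 0 := hγ.snd
    have h3 : a ∈ Tan X x := by
      have := mem_Tan_of_curve (X := X) h1 (by filter_upwards [hS] with t ht using ht.1)
      rwa [h0.1] at this
    refine ⟨h3, ?_⟩
    have h4 : HasDerivAt (fun t => P (γ t).1) (fderiv ℝ P x a) 0 := by
      have : HasFDerivAt P (fderiv ℝ P x) ((γ 0).1) := by
        rw [h0.1]; exact ((hP.smooth x hx).differentiableAt (by simp)).hasFDerivAt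
      exact this.comp_hasDerivAt 0 h1
    have h5 : HasDerivAt (fun t => P (γ t).1 (γ t).2)
        (fderiv ℝ P x a (γ 0).2 + P (γ 0).1 b) 0 := h4.clm_apply h2
    have h6 : HasDerivAt (fun t => P (γ t).1 (γ t).2) b 0 := by
      refine h2.congr_of_eventuallyEq ?_
      filter_upwards [hS] with t ht using ht.2
    have h7 := h5.unique h6
    rw [h0.1, h0.2] at h7
    have h8 : b - P x b - fderiv ℝ P x a v = 0 := by
      rw [sub_sub, add_comm, h7, sub_self]
    simpa using h8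
  have h1 := key h
  refine ⟨h1.1, ?_⟩
  have h2 : b - P x b - fderiv ℝ P x a v = 0 := by simpa using h1.2
  exact sub_eq_zero.1 h2

/-- **tangent space of the total space** -/
theorem PField.mem_Tan_tot (hX : Sub n X) (hP : PField X k P) {x : E} (hx : x ∈ X) {v : H}
    (hv : P x v = v) {a : E} {b : H} :
    (a, b) ∈ Tan (Tot X P) (x, v) ↔ a ∈ Tan X x ∧ b - P x b = fderiv ℝ P x a v := by
  refine ⟨hP.deriv_mem hx, ?_⟩
  set S : Submodule ℝ (E × H) := (Tan X x).comap (LinearMap.fst ℝ E H) ⊓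
      LinearMap.ker ((LinearMap.id - (P x : H →ₗ[ℝ] H)) ∘ₗ LinearMap.snd ℝ E H -
        ((ContinuousLinearMap.apply ℝ H v : (H →L[ℝ] H) →L[ℝ] H) : (H →L[ℝ] H) →ₗ[ℝ] H) ∘ₗ
          (fderiv ℝ P x : E →ₗ[ℝ] (H →L[ℝ] H)) ∘ₗ LinearMap.fst ℝ E H) with hSdef
  have hmem : ∀ a b, (a, b) ∈ S ↔ a ∈ Tan X x ∧ b - P x b = fderiv ℝ P x a v := by
    intro a b
    constructor
    · intro h1
      refine ⟨h1.1, ?_⟩
      have h2 : b - P x b - fderiv ℝ P x a v = 0 := by simpa using h1.2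
      exact sub_eq_zero.1 h2
    · rintro ⟨h1, h2⟩
      refine ⟨h1, ?_⟩
      have : b - P x b - fderiv ℝ P x a v = 0 := sub_eq_zero.2 h2
      simpa using this
  have hle : Tan (Tot X P) (x, v) ≤ S := by
    rintro ⟨a, b⟩ h
    exact (hmem a b).2 (hP.deriv_mem hx h)
  have hT : finrank ℝ (Tan (Tot X P) (x, v)) = n + k := (hP.sub_tot hX).finrank_Tan ⟨hx, hv⟩
  have hSdim : finrank ℝ S ≤ n + k := by
    -- map to the first component
    let A : S →ₗ[ℝ] Tan X x :=
      ((LinearMap.fst ℝ E H).domRestrict S).codRestrict (Tan X x) (fun z => z.2.1)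
    have h1 := LinearMap.finrank_range_add_finrank_ker A
    have h2 : finrank ℝ (LinearMap.range A) ≤ n := by
      rw [← hX.finrank_Tan hx]; exact Submodule.finrank_le _
    have h3 : finrank ℝ (LinearMap.ker A) ≤ k := by
      rw [← hP.rank x hx]
      let B : LinearMap.ker A →ₗ[ℝ] LinearMap.range (P x : H →ₗ[ℝ] H) :=
        ((LinearMap.snd ℝ E H ∘ₗ S.subtype).domRestrict (LinearMap.ker A)).codRestrict _ (by
          rintro ⟨⟨⟨a, b⟩, hab⟩, hA⟩
          have h4 : a = 0 := congrArg Subtype.val hA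
          have h5 := ((hmem a b).1 hab).2
          rw [h4] at h5
          simp only [map_zero, zero_apply] at h5
          exact ⟨b, (sub_eq_zero.1 h5).symm⟩)
      refine LinearMap.finrank_le_finrank_of_injective (f := B) ?_
      rintro ⟨⟨⟨a, b⟩, hab⟩, hA⟩ ⟨⟨⟨a', b'⟩, hab'⟩, hA'⟩ hBB
      have h4 : a = 0 := congrArg Subtype.val hA
      have h4' : a' = 0 := congrArg Subtype.val hA'
      have h5 : b = b' := congrArg Subtype.val hBB
      subst h4 h4' h5
      rfl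
    omega
  have heq : Tan (Tot X P) (x, v) = S :=
    Submodule.eq_of_le_of_finrank_le hle (by rw [hT]; exact hSdim)
  intro h
  rw [heq]
  exact (hmem a b).2 h

end Crest.Agent.R208.FI
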