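import Crest.Agent.R208.G3s

/-!
R208, block MS (helper286): the finite dimensional, flow free Morse step for circle families of
loops of length `< 4π`.  Definitions and the statements of the pieces.
-/

set_option autoImplicit false

open Set Filter Topology MeasureTheory
open scoped ContDiff RealInnerProductSpace Real
open Crest.GeometryTopology.Submanifold
open Crest.Agent.R241.DDefs Crest.Agent.R241.D Crest.Agent.R241.D2

noncomputable section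

namespace Crest.Agent.R208.MS

variable {n N : ℕ} {κ : ℝ} {S : Set (Euc N)}

/-- smooth `2π`-periodic loops in `S` -/
structure Loop (S : Set (Euc N)) (c : ℝ → Euc N) : Prop where
  smooth : ContDiff ℝ ∞ c
  per : ∀ t, c (t + 2 * π) = c t
  mem : ∀ t, c t ∈ S

/-- energy -/
def En (c : ℝ → Euc N) : ℝ := (1 / 2) * ∫ t in (0:ℝ)..(2 * π), ‖deriv c t‖ ^ 2

/-- short geodesics: `lg x y` is the initial velocity of the short geodesic from `x` to `y`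
(time 1) -/
structure SG (G : Geo n N κ S) (lg : Euc N → Euc N → Euc N) (r C : ℝ) : Prop where
  r_pos : 0 < r
  one_le : 1 ≤ C
  mem : ∀ x ∈ S, ∀ y ∈ S, ‖x - y‖ < r → lg x y ∈ G.T x
  smooth : ∀ x ∈ S, ∀ y ∈ S, ‖x - y‖ < r →
    ContDiffAt ℝ ∞ (fun q : Euc N × Euc N => lg q.1 q.2) (x, y)
  exp : ∀ x ∈ S, ∀ y ∈ S, ‖x - y‖ < r → Exp G x (lg x y) = y
  norm_le : ∀ x ∈ S, ∀ y ∈ S, ‖x - y‖ < r → ‖lg x y‖ ≤ C * ‖x - y‖
  /-- uniform Taylor estimate for `S` at a point `x`: `z - x` is tangent up to second order -/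
  normal : ∀ x ∈ S, ∀ z ∈ S, ∀ v ∈ G.T x,
    |⟪fderiv ℝ G.P x v v, z - x⟫| ≤ C * ‖v‖ ^ 2 * ‖z - x‖ ^ 2

/-- smooth retraction with orthogonal derivative along `S` -/
structure Retr (S : Set (Euc N)) (ρ : Euc N → Euc N) (r C : ℝ) : Prop where
  r_pos : 0 < r
  one_le : 1 ≤ C
  smooth : ∀ x ∈ S, ∀ q, ‖q - x‖ < r → ContDiffAt ℝ ∞ ρ q
  mem : ∀ x ∈ S, ∀ q, ‖q - x‖ < r → ρ q ∈ S
  eq : ∀ x ∈ S, ρ x = x
  fd : ∀ x ∈ S, ∀ q, ‖q - x‖ < r → ‖fderiv ℝ ρ q‖ ≤ 1 + C * ‖q - ρ q‖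
  lip : ∀ x ∈ S, ∀ q, ‖q - x‖ < r → ‖fderiv ℝ ρ q - fderiv ℝ ρ x‖ ≤ C * ‖q - x‖
  taylor : ∀ x ∈ S, ∀ q, ‖q - x‖ < r → ‖ρ q - x - fderiv ℝ ρ q (q - x)‖ ≤ C * ‖q - x‖ ^ 2

/-- the short geodesic (`= Exp G x (τ • lg x y)`) -/
def gd (G : Geo n N κ S) (lg : Euc N → Euc N → Euc N) (x y : Euc N) (τ : ℝ) : Euc N :=
  (fl G ((x, lg x y), τ)).1

/-- its velocity -/
def gv (G : Geo n N κ S) (lg : Euc N → Euc N → Euc N) (x y : Euc N) (τ : ℝ) : Euc N :=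
  (fl G ((x, lg x y), τ)).2

/-- the average over the base point of the inscribed geodesic polygon of mesh `w` -/
def av (G : Geo n N κ S) (lg : Euc N → Euc N → Euc N) (w : ℝ) (c : ℝ → Euc N) (t : ℝ) : Euc N :=
  (1 / w) • ∫ a in (0:ℝ)..w, gd G lg (c (t - a)) (c (t + w - a)) (a / w)

/-- one shortening step (`σ = 1`), and the homotopy to it (`0 ≤ σ ≤ 1`) -/
def st (G : Geo n N κ S) (lg : Euc N → Euc N → Euc N) (ρ : Euc N → Euc N) (w σ : ℝ)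
    (c : ℝ → Euc N) (t : ℝ) : Euc N :=
  ρ ((1 - σ) • c t + σ • av G lg w c t)

/-- squared size of the gradient -/
def gr (G : Geo n N κ S) (lg : Euc N → Euc N → Euc N) (w : ℝ) (c : ℝ → Euc N) : ℝ :=
  (1 / w) * ∫ s in (0:ℝ)..(2 * π), ∫ a in (0:ℝ)..w,
    ‖(1 / w) • gv G lg (c s) (c (s + w)) (a / w) - deriv c (s + a)‖ ^ 2

/-- closeness of loops, `C^0` and `H^1` -/
structure Close (η : ℝ) (c γ : ℝ → Euc N) : Prop where
  sup : ∀ t, ‖c t - γ t‖ ≤ η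
  h1 : ∫ t in (0:ℝ)..(2 * π), ‖deriv c t - deriv γ t‖ ^ 2 ≤ η ^ 2

/-- `c` is `η`-close to a closed unit speed geodesic -/
def NearUM (G : Geo n N κ S) (η : ℝ) (c : ℝ → Euc N) : Prop :=
  ∃ x ∈ S, ∃ v ∈ G.T x, ‖v‖ = 1 ∧ Close η c (fun t => Exp G x (t • v))

end Crest.Agent.R208.MS
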