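import Crest.Agent.R208.SV5
import Crest.Agent.R208.MSDefs

/-!
R208, block FL (helper613), part FL2: (1) smooth scalar cut-offs; (2) the energy of the loops
`t ↦ Exp (γ t) (ε A t)` with `A` a periodic tangent field along a unit speed closed geodesic
(uniform upper bound by the index form).
-/

set_option autoImplicit false

open Set Filter Topology MeasureTheory
open scoped ContDiff RealInnerProductSpace Real
open Crest.GeometryTopology.Submanifold
open Crest.Agent.R241.DDefs Crest.Agent.R241.D Crest.Agent.R241.D2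

noncomputable section

namespace Crest.Agent.R208.FL

/-! ### scalars -/

/-- `0` for `q ≤ a`, `1` for `q ≥ a + 1/4` -/
def ct (a q : ℝ) : ℝ := Real.smoothTransition (4 * (q - a))

theorem contDiff_ct (a : ℝ) : ContDiff ℝ ∞ (ct a) := by
  unfold ct
  exact Real.smoothTransition.contDiff.comp (by fun_prop)

theorem ct_zero {a q : ℝ} (h : q ≤ a) : ct a q = 0 :=
  Real.smoothTransition.zero_of_nonpos (by linarith)

theorem ct_one {a q : ℝ} (h : a + 1 / 4 ≤ q) : ct a q = 1 :=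
  Real.smoothTransition.one_of_one_le (by linarith)

theorem ct_nonneg (a q : ℝ) : 0 ≤ ct a q := Real.smoothTransition.nonneg _

theorem ct_le_one (a q : ℝ) : ct a q ≤ 1 := Real.smoothTransition.le_one _

/-- `1` for `q ≤ 1`, `1 / √q` for `q ≥ 5/4` -/
def lam (q : ℝ) : ℝ := 1 + ct 1 q * ((√q)⁻¹ - 1)

theorem lam_one {q : ℝ} (h : q ≤ 1) : lam q = 1 := by rw [lam, ct_zero h, zero_mul, add_zero]

theorem lam_inv {q : ℝ} (h : 5 / 4 ≤ q) : lam q = (√q)⁻¹ := by
  rw [lam, ct_one (by linarith), one_mul]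
  ring

theorem contDiff_lam : ContDiff ℝ ∞ lam := by
  rw [contDiff_iff_contDiffAt]
  intro q
  rcases lt_or_ge q 1 with h | h
  · have h1 : lam =ᶠ[𝓝 q] fun _ => (1:ℝ) := by
      filter_upwards [Iio_mem_nhds h] with x hx
      exact lam_one (le_of_lt hx)
    exact contDiffAt_const.congr_of_eventuallyEq h1
  · have h2 : ContDiffAt ℝ ∞ (fun q : ℝ => (√q)⁻¹) q := by
      have h3 : √q ≠ 0 := by positivity
      exact (Real.contDiffAt_sqrt (by positivity)).inv h3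
    exact contDiffAt_const.add ((contDiff_ct 1).contDiffAt.mul (h2.sub contDiffAt_const))

theorem lam_pos (q : ℝ) : 0 < lam q := by
  rcases le_or_gt q 1 with h | h
  · rw [lam_one h]; exact one_pos
  · have h1 := ct_nonneg 1 q
    have h2 := ct_le_one 1 q
    have h3 : 0 < (√q)⁻¹ := by positivity
    have h4 : lam q = (1 - ct 1 q) + ct 1 q * (√q)⁻¹ := by rw [lam]; ring
    rw [h4]
    rcases h2.eq_or_lt with h5 | h5
    · rw [h5]; simpa using by positivity
    · have h6 : 0 ≤ ct 1 q * (√q)⁻¹ := by positivity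
      linarith

/-- `min 1 q ≤ lam q ^ 2 * q ≤ 5 / 4` -/
theorem lam_sq_le {q : ℝ} (hq : 0 ≤ q) : lam q ^ 2 * q ≤ 5 / 4 := by
  rcases le_or_gt q 1 with h | h
  · rw [lam_one h]; linarith
  · rcases le_or_gt (5 / 4) q with h' | h'
    · rw [lam_inv h', inv_pow, Real.sq_sqrt hq, inv_mul_cancel₀ (by linarith)]
      norm_num
    · have h1 := ct_nonneg 1 q
      have h2 := ct_le_one 1 q
      have h3 : (√q)⁻¹ ≤ 1 := inv_le_one_of_one_le₀ (Real.one_le_sqrt.2 h.le)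
      have h4 : lam q ≤ 1 := by
        unfold lam
        nlinarith
      have h5 := lam_pos q
      have h6 : lam q ^ 2 ≤ 1 := pow_le_one₀ h5.le h4
      nlinarith

theorem le_lam_sq {q : ℝ} (hq : 0 ≤ q) : min 1 q ≤ lam q ^ 2 * q := by
  rcases le_or_gt q 1 with h | h
  · rw [lam_one h, one_pow, one_mul]; exact min_le_right _ _
  · refine (min_le_left _ _).trans ?_
    have h1 := ct_nonneg 1 q
    have h2 := ct_le_one 1 q
    have h3 : 1 ≤ √q := Real.one_le_sqrt.2 h.le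
    have h4 : 1 ≤ lam q * √q := by
      have : lam q * √q = (1 - ct 1 q) * √q + ct 1 q := by
        have h5 : √q ≠ 0 := by positivity
        unfold lam
        field_simp
        ring
      rw [this]
      nlinarith
    have h5 : lam q ^ 2 * q = (lam q * √q) ^ 2 := by rw [mul_pow, Real.sq_sqrt hq]
    rw [h5]
    exact one_le_pow₀ h4

/-! ### energy near a closed geodesic -/

variable {n N : ℕ} {κ : ℝ} {S : Set (Euc N)} {G : Geo n N κ S}

open Crest.Agent.R208.SV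

theorem hasDerivAt_cv {z : Euc N × Euc N} (hz : z ∈ TS G) {a b : ℝ} {A A' : ℝ → Euc N}
    (hA : Fld G z a b A A') {t : ℝ} (ht : t ∈ Ioo a b) :
    HasDerivAt (cv G z A) (cv' G z A A' t) t :=
  (hA.hasDerivWithinAt_cv hz ⟨ht.1.le, ht.2.le⟩).hasDerivAt (Icc_mem_nhds ht.1 ht.2)

/-- the uniform bound -/
theorem exists_energy_le (G : Geo n N κ S) (hc : IsCompact S) {M : ℝ} (hM : 1 ≤ M) (L : ℝ) :
    ∃ C > 0, ∀ z ∈ TS G, ‖z.2‖ = 1 → ∀ A A' : ℝ → Euc N, Fld G z (-1) (L + 1) A A' → 0 ≤ L →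
      fl G (z, L) = z → A L = A 0 → (∀ t ∈ Icc 0 L, ‖A t‖ ≤ M) →
      ∀ Q : ℝ, (∀ t ∈ Icc 0 L, ‖A t‖ ^ 2 + ‖A' t‖ ^ 2 ≤ Q) →
      ∀ ε, 0 ≤ ε → ε * M ≤ 1 →
        ∫ t in (0:ℝ)..L, ‖deriv (cv G z (fun t => ε • A t)) t‖ ^ 2 ≤
          L + ε ^ 2 * ix G z 0 L A A' A A' + C * ε ^ 3 * Q := by
  obtain ⟨C, hC0, hC⟩ := energy_expand (G := G) hc
  refine ⟨C * M * |L| + 1, by positivity, ?_⟩
  intro z hz hz1 A A' hA hL hfl hper hM' Q hQ ε hε0 hε
  have hA0 : Fld G z 0 L A A' := by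
    refine ⟨fun t ht => ?_, hA.cont.mono (Icc_subset_Icc (by norm_num) (by linarith)),
      fun t ht => hA.mem t ⟨by linarith [ht.1], by linarith [ht.2]⟩⟩
    exact (hA.der t ⟨by linarith [ht.1], by linarith [ht.2]⟩).mono
      (Icc_subset_Icc (by norm_num) (by linarith))
  have hs := hA0.smul ε
  have h1 := hC z hz hz1.le 0 L hL (ε • A) (ε • A') hs (ε * M) hε (fun t ht => by
    rw [Pi.smul_apply, norm_smul, Real.norm_of_nonneg hε0]
    exact mul_le_mul_of_nonneg_left (hM' t ht) hε0)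
  rw [ix_smul_left, ix_smul_right] at h1
  have hb : ⟪(fl G (z, L)).2, (ε • A) L⟫ - ⟪(fl G (z, 0)).2, (ε • A) 0⟫ = 0 := by
    rw [hfl, fl_zero, Pi.smul_apply, Pi.smul_apply, hper, sub_self]
  rw [hb, mul_zero, sub_zero, sub_zero, hz1, one_pow, mul_one] at h1
  have h2 : ∫ t in (0:ℝ)..L, (‖(ε • A) t‖ ^ 2 + ‖(ε • A') t‖ ^ 2) ≤ ε ^ 2 * (L * Q) := by
    have h3 : ∀ t, ‖(ε • A) t‖ ^ 2 + ‖(ε • A') t‖ ^ 2 = ε ^ 2 * (‖A t‖ ^ 2 + ‖A' t‖ ^ 2) := by
      intro t
      rw [Pi.smul_apply, Pi.smul_apply, norm_smul, norm_smul, Real.norm_of_nonneg hε0]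
      ring
    simp_rw [h3]
    rw [intervalIntegral.integral_const_mul]
    refine mul_le_mul_of_nonneg_left ?_ (by positivity)
    have h4 : ∫ t in (0:ℝ)..L, (‖A t‖ ^ 2 + ‖A' t‖ ^ 2) ≤ ∫ _t in (0:ℝ)..L, Q := by
      refine intervalIntegral.integral_mono_on hL ?_ intervalIntegrable_const hQ
      apply ContinuousOn.intervalIntegrable
      rw [uIcc_of_le hL]
      exact (hA0.contX.norm.pow 2).add (hA0.cont.norm.pow 2)
    rw [intervalIntegral.integral_const, smul_eq_mul, sub_zero] at h4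
    exact h4
  have hQ0 : 0 ≤ Q := le_trans (by positivity) (hQ 0 ⟨le_rfl, hL⟩)
  have h5 : ∫ t in (0:ℝ)..L, ‖deriv (cv G z (fun t => ε • A t)) t‖ ^ 2 =
      ∫ t in (0:ℝ)..L, ‖cv' G z (ε • A) (ε • A') t‖ ^ 2 := by
    refine intervalIntegral.integral_congr fun t ht => ?_
    rw [uIcc_of_le hL] at ht
    have h6 := hasDerivAt_cv hz (hA.smul ε) (t := t) ⟨by linarith [ht.1], by linarith [ht.2]⟩
    have h7 : (fun t => ε • A t) = ε • A := rfl
    simp only [h7]
    rw [h6.deriv]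
  rw [h5]
  have h8 := (abs_le.1 h1).2
  have h9 : C * (ε * M) * ∫ t in (0:ℝ)..L, (‖(ε • A) t‖ ^ 2 + ‖(ε • A') t‖ ^ 2) ≤
      C * (ε * M) * (ε ^ 2 * (L * Q)) := mul_le_mul_of_nonneg_left h2 (by positivity)
  have h10 : C * (ε * M) * (ε ^ 2 * (L * Q)) ≤ (C * M * |L| + 1) * ε ^ 3 * Q := by
    rw [abs_of_nonneg hL]
    have : 0 ≤ ε ^ 3 * Q := by positivity
    nlinarith
  have h11 : ε * (ε * ix G z 0 L A A' A A') = ε ^ 2 * ix G z 0 L A A' A A' := by ring
  linarith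

end Crest.Agent.R208.FL
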