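import Crest.Agent.R208.FL2

/-!
R208, block FL (helper613), part FL3: the energy of the loops `t ↦ ρ (γ t + s A t)` with `A` a
periodic tangent field along a unit speed closed geodesic and `ρ` a retraction with orthogonal
derivative along `S`: uniform upper bound by the index form, up to third order.
-/

set_option autoImplicit false

open Set Filter Topology MeasureTheory
open scoped ContDiff RealInnerProductSpace Real
open Crest.GeometryTopology.Submanifold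
open Crest.Agent.R241.DDefs Crest.Agent.R241.D Crest.Agent.R241.D2

noncomputable section

namespace Crest.Agent.R208.FL

open Crest.Agent.R208.SV Crest.Agent.R208.MS
open Crest.Agent.R208.L (TanTS dfl)

section taylor

variable {H : Type*} [NormedAddCommGroup H] [NormedSpace ℝ H]

theorem mvtH {f f' : ℝ → H} {C s : ℝ} (hs : 0 ≤ s)
    (hf : ∀ r ∈ Icc 0 s, HasDerivAt f (f' r) r) (hb : ∀ r ∈ Icc 0 s, ‖f' r‖ ≤ C) :
    ‖f s - f 0‖ ≤ C * s := by
  have h := norm_image_sub_le_of_norm_deriv_le_segment' (f := f) (f' := f') (C := C) (a := 0)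
    (b := s) (fun x hx => (hf x hx).hasDerivWithinAt)
    (fun x hx => hb x ⟨hx.1, hx.2.le⟩) s ⟨hs, le_rfl⟩
  simpa using h

/-- uniform first order Taylor estimate -/
theorem taylor1 {Z : Type*} [NormedAddCommGroup Z] [NormedSpace ℝ Z] {K : Set Z}
    (hK : IsCompact K) {g0 g1 : Z × ℝ → H}
    (h1 : ∀ z ∈ K, ∀ s ∈ Icc (0 : ℝ) 1, HasDerivAt (fun s => g0 (z, s)) (g1 (z, s)) s)
    (h3 : ∀ z ∈ K, ∀ s ∈ Icc (0 : ℝ) 1, ContDiffAt ℝ 1 g1 (z, s)) :
    ∃ C, 0 ≤ C ∧ ∀ z ∈ K, ∀ s ∈ Icc (0 : ℝ) 1,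
      ‖g0 (z, s) - g0 (z, 0) - s • g1 (z, 0)‖ ≤ C * s ^ 2 := by
  have hcont : ContinuousOn (fun p => fderiv ℝ g1 p (0, 1)) (K ×ˢ Icc (0 : ℝ) 1) := by
    rintro ⟨z, s⟩ ⟨hz, hs⟩
    have h4 : ContDiffAt ℝ 0 (fderiv ℝ g1) (z, s) := (h3 z hz s hs).fderiv_right (by norm_num)
    exact (h4.continuousAt.clm_apply continuousAt_const).continuousWithinAt
  obtain ⟨C, hC⟩ := (hK.prod isCompact_Icc).exists_bound_of_continuousOn hcont
  refine ⟨max C 0, le_max_right _ _, ?_⟩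
  intro z hz s hs
  have hsub : ∀ r ∈ Icc 0 s, r ∈ Icc (0 : ℝ) 1 := fun r hr => ⟨hr.1, hr.2.trans hs.2⟩
  have e2 : ∀ r ∈ Icc (0 : ℝ) 1, HasDerivAt (fun s => g1 (z, s)) (fderiv ℝ g1 (z, r) (0, 1)) r := by
    intro r hr
    have h5 := ((h3 z hz r hr).differentiableAt (by norm_num)).hasFDerivAt
    have h6 : HasDerivAt (fun s : ℝ => ((z, s) : Z × ℝ)) (0, 1) r :=
      (hasDerivAt_const r z).prodMk (hasDerivAt_id r)
    exact HasFDerivAt.comp_hasDerivAt (f := fun s : ℝ => ((z, s) : Z × ℝ)) r h5 h6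
  have b2 : ∀ r ∈ Icc (0 : ℝ) 1, ‖g1 (z, r) - g1 (z, 0)‖ ≤ max C 0 * r := by
    intro r hr
    refine mvtH (f := fun s => g1 (z, s)) hr.1 (fun r' hr' => e2 r' ⟨hr'.1, hr'.2.trans hr.2⟩)
      fun r' hr' => ?_
    exact (hC (z, r') ⟨hz, hr'.1, hr'.2.trans hr.2⟩).trans (le_max_left _ _)
  have b1 := mvtH (f := fun s => g0 (z, s) - s • g1 (z, 0))
      (f' := fun s => g1 (z, s) - g1 (z, 0))
      (C := max C 0 * s) hs.1 (fun r' hr' => ?_) fun r' hr' => ?_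
  · simp only [zero_smul, sub_zero] at b1
    rw [sub_right_comm] at b1
    refine b1.trans (le_of_eq ?_)
    ring
  · have h7 := h1 z hz r' ⟨hr'.1, hr'.2.trans hs.2⟩
    have h8 : HasDerivAt (fun s : ℝ => s • g1 (z, 0)) (g1 (z, 0)) r' := by
      simpa using (hasDerivAt_id r').smul_const (g1 (z, 0))
    exact h7.fun_sub h8
  · refine (b2 r' ⟨hr'.1, hr'.2.trans hs.2⟩).trans ?_
    exact mul_le_mul_of_nonneg_left hr'.2 (le_max_right _ _)

end taylor

variable {n N : ℕ} {κ : ℝ} {S : Set (Euc N)} {G : Geo n N κ S} {ρ : Euc N → Euc N} {r' K : ℝ}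

section rho

variable (hR : Retr S ρ r' K) (hP : ∀ x ∈ S, fderiv ℝ ρ x = G.P x)

include hR in
theorem contDiffAt_fderiv_rho {x a : Euc N} (hx : x ∈ S) (ha : ‖a‖ < r') :
    ContDiffAt ℝ ∞ (fderiv ℝ ρ) (x + a) :=
  (hR.smooth x hx (x + a) (by rwa [add_sub_cancel_left])).fderiv_right (by simp)

include hR hP in
/-- second derivative of `ρ` along `S` in tangent directions -/
theorem fderiv2_rho {x v : Euc N} (hx : x ∈ S) (hv : v ∈ G.T x) :
    fderiv ℝ (fderiv ℝ ρ) x v = fderiv ℝ G.P x v := by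
  obtain ⟨c, c', hc0, hc'0, hev⟩ := G.exists_geod x hx v hv
  have h0 := hev.self_of_nhds
  have hcd : HasDerivAt c v 0 := hc'0 ▸ h0.2.1
  have h1 : HasFDerivAt (fderiv ℝ ρ) (fderiv ℝ (fderiv ℝ ρ) x) (c 0) := by
    rw [hc0]
    have h2 := contDiffAt_fderiv_rho hR hx (a := 0) (by rw [norm_zero]; exact hR.r_pos)
    rw [add_zero] at h2
    exact (h2.differentiableAt (by simp)).hasFDerivAt
  have h3 : HasDerivAt (fun t => fderiv ℝ ρ (c t)) (fderiv ℝ (fderiv ℝ ρ) x v) 0 :=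
    h1.comp_hasDerivAt (0:ℝ) hcd
  have h4 : HasFDerivAt G.P (fderiv ℝ G.P x) (c 0) := by
    rw [hc0]
    exact (differentiable_P G x).hasFDerivAt
  have h5 : HasDerivAt (fun t => G.P (c t)) (fderiv ℝ G.P x v) 0 := h4.comp_hasDerivAt (0:ℝ) hcd
  have h6 : HasDerivAt (fun t => fderiv ℝ ρ (c t)) (fderiv ℝ G.P x v) 0 := by
    refine h5.congr_of_eventuallyEq ?_
    filter_upwards [hev] with t ht
    exact hP _ ht.1
  exact h3.unique h6

/-- the compact set of the estimates -/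
def KR (G : Geo n N κ S) (m : ℝ) : Set ((Euc N × Euc N) × (Euc N × Euc N)) :=
  {p | (p.1 ∈ TS G ∧ ‖p.1.2‖ ≤ m) ∧ ((p.1.1, p.2.1) ∈ TS G ∧ ‖p.2.1‖ ≤ 1) ∧ ‖p.2.2‖ ≤ m}

theorem isCompact_KR (hc : IsCompact S) (m : ℝ) : IsCompact (KR G m) := by
  have h1 : IsCompact ((S ×ˢ Metric.closedBall (0 : Euc N) m) ×ˢ
      (Metric.closedBall (0 : Euc N) 1 ×ˢ Metric.closedBall (0 : Euc N) m)) :=
    (hc.prod (isCompact_closedBall _ _)).prod
      ((isCompact_closedBall _ _).prod (isCompact_closedBall _ _))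
  refine h1.of_isClosed_subset ?_ ?_
  · have h2 := isClosed_TS G
    have h3 : IsClosed {p : (Euc N × Euc N) × (Euc N × Euc N) | p.1 ∈ TS G} :=
      h2.preimage continuous_fst
    have h4 : IsClosed {p : (Euc N × Euc N) × (Euc N × Euc N) | ‖p.1.2‖ ≤ m} :=
      isClosed_le (continuous_fst.snd.norm) continuous_const
    have h5 : IsClosed {p : (Euc N × Euc N) × (Euc N × Euc N) | (p.1.1, p.2.1) ∈ TS G} :=
      h2.preimage (continuous_fst.fst.prodMk continuous_snd.fst)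
    have h6 : IsClosed {p : (Euc N × Euc N) × (Euc N × Euc N) | ‖p.2.1‖ ≤ 1} :=
      isClosed_le (continuous_snd.fst.norm) continuous_const
    have h7 : IsClosed {p : (Euc N × Euc N) × (Euc N × Euc N) | ‖p.2.2‖ ≤ m} :=
      isClosed_le (continuous_snd.snd.norm) continuous_const
    exact (h3.inter h4).inter ((h5.inter h6).inter h7)
  · rintro ⟨⟨x, a⟩, y, b⟩ ⟨⟨h3, h4⟩, ⟨h5, h6⟩, h7⟩
    exact ⟨⟨h3.1, by simpa using h4⟩, by simpa using h6, by simpa using h7⟩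

include hR in
theorem hasDerivAt_rho_line {x a : Euc N} (hx : x ∈ S) (ha : ‖a‖ < r') {s : ℝ}
    (hs : s ∈ Icc (0:ℝ) 1) : HasDerivAt (fun s : ℝ => ρ (x + s • a)) (fderiv ℝ ρ (x + s • a) a) s := by
  have h1 : ‖s • a‖ < r' := by
    rw [norm_smul, Real.norm_of_nonneg hs.1]
    exact (mul_le_of_le_one_left (norm_nonneg _) hs.2).trans_lt ha
  have h2 := (hR.smooth x hx (x + s • a) (by rwa [add_sub_cancel_left])).differentiableAt (by simp)
  have h3 : HasDerivAt (fun s : ℝ => x + s • a) a s := by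
    simpa using ((hasDerivAt_id s).smul_const a).const_add x
  exact h2.hasFDerivAt.comp_hasDerivAt s h3

include hR hP in
/-- second order expansion of `ρ` against the acceleration of a geodesic -/
theorem exists_T1 (hc : IsCompact S) {m : ℝ} (hm : m < r') : ∃ C, 0 ≤ C ∧
    ∀ p ∈ KR G m, ∀ s ∈ Icc (0:ℝ) 1,
      |⟪II G p.1.1 p.2.1 p.2.1, ρ (p.1.1 + s • p.1.2) - p.1.1⟫ -
        s ^ 2 / 2 * ⟪II G p.1.1 p.2.1 p.2.1, II G p.1.1 p.1.2 p.1.2⟫| ≤ C * s ^ 3 := by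
  have hsm : ∀ p ∈ KR G m, ∀ s ∈ Icc (0:ℝ) 1, ‖s • p.1.2‖ < r' := by
    intro p hp s hs
    rw [norm_smul, Real.norm_of_nonneg hs.1]
    exact (mul_le_of_le_one_left (norm_nonneg _) hs.2).trans_lt (hp.1.2.trans_lt hm)
  have hline : ∀ (p : (Euc N × Euc N) × (Euc N × Euc N)) (s : ℝ), ContDiffAt ℝ ∞
      (fun q : ((Euc N × Euc N) × (Euc N × Euc N)) × ℝ => q.1.1.1 + q.2 • q.1.1.2) (p, s) := by
    intro p s
    fun_prop
  have hII : ContDiff ℝ ∞ (fun q : ((Euc N × Euc N) × (Euc N × Euc N)) × ℝ =>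
      II G q.1.1.1 q.1.2.1 q.1.2.1) := by
    have h1 : ContDiff ℝ ∞ (fderiv ℝ G.P) := G.contDiff_P.fderiv_right (by simp)
    exact ((h1.comp (by fun_prop)).clm_apply (by fun_prop)).clm_apply (by fun_prop)
  have key := taylor2 (K := KR G m) (isCompact_KR hc m)
    (g0 := fun q => ⟪II G q.1.1.1 q.1.2.1 q.1.2.1, ρ (q.1.1.1 + q.2 • q.1.1.2)⟫)
    (g1 := fun q => ⟪II G q.1.1.1 q.1.2.1 q.1.2.1,
      fderiv ℝ ρ (q.1.1.1 + q.2 • q.1.1.2) q.1.1.2⟫)
    (g2 := fun q => ⟪II G q.1.1.1 q.1.2.1 q.1.2.1,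
      fderiv ℝ (fderiv ℝ ρ) (q.1.1.1 + q.2 • q.1.1.2) q.1.1.2 q.1.1.2⟫) ?_ ?_ ?_
  · obtain ⟨C, hC0, hC⟩ := key
    refine ⟨C, hC0, fun p hp s hs => ?_⟩
    have h1 := hC p hp s hs
    simp only [zero_smul, add_zero] at h1
    rw [hR.eq _ hp.1.1.1, hP _ hp.1.1.1, (P_eq_self G hp.1.1.1).1 hp.1.1.2,
      fderiv2_rho hR hP hp.1.1.1 hp.1.1.2, inner_II G hp.1.1.1 hp.2.1.1.2 hp.2.1.1.2 hp.1.1.2,
      mul_zero, sub_zero, ← inner_sub_right] at h1
    exact h1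
  · intro p hp s hs
    have h1 := hasDerivAt_rho_line hR hp.1.1.1 (hp.1.2.trans_lt hm) hs
    have h2 := (hasDerivAt_const s (II G p.1.1 p.2.1 p.2.1)).inner ℝ h1
    simpa using h2
  · intro p hp s hs
    have h0 := contDiffAt_fderiv_rho hR hp.1.1.1 (hsm p hp s hs)
    have h1 : HasDerivAt (fun s : ℝ => p.1.1 + s • p.1.2) p.1.2 s := by
      simpa using ((hasDerivAt_id s).smul_const p.1.2).const_add p.1.1
    have h2 : HasDerivAt (fun s : ℝ => fderiv ℝ ρ (p.1.1 + s • p.1.2))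
        (fderiv ℝ (fderiv ℝ ρ) (p.1.1 + s • p.1.2) p.1.2) s :=
      (h0.differentiableAt (by simp)).hasFDerivAt.comp_hasDerivAt s h1
    have h3 := h2.clm_apply (hasDerivAt_const s p.1.2)
    have h4 := (hasDerivAt_const s (II G p.1.1 p.2.1 p.2.1)).inner ℝ h3
    simpa using h4
  · intro p hp s hs
    have h0 := contDiffAt_fderiv_rho hR hp.1.1.1 (hsm p hp s hs)
    have h1 : ContDiffAt ℝ ∞ (fderiv ℝ (fderiv ℝ ρ)) (p.1.1 + s • p.1.2) :=
      h0.fderiv_right (by simp)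
    have h2 : ContDiffAt ℝ ∞ (fun q : ((Euc N × Euc N) × (Euc N × Euc N)) × ℝ =>
        fderiv ℝ (fderiv ℝ ρ) (q.1.1.1 + q.2 • q.1.1.2)) (p, s) :=
      ContDiffAt.comp (p, s) (g := fderiv ℝ (fderiv ℝ ρ)) h1 (hline p s)
    have h3 : ContDiffAt ℝ ∞ (fun q : ((Euc N × Euc N) × (Euc N × Euc N)) × ℝ => q.1.1.2)
      (p, s) := by fun_prop
    exact (hII.contDiffAt.inner ℝ ((h2.clm_apply h3).clm_apply h3)).of_le (by simp)

include hR hP in
/-- first order expansion of the velocity -/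
theorem exists_T2 (hc : IsCompact S) {m : ℝ} (hm : m < r') : ∃ C, 0 ≤ C ∧
    ∀ p ∈ KR G m, TanTS G p.1 p.2 → ∀ s ∈ Icc (0:ℝ) 1,
      ‖fderiv ℝ ρ (p.1.1 + s • p.1.2) (p.2.1 + s • p.2.2) - p.2.1 - s • p.2.2‖ ≤ C * s ^ 2 := by
  have hsm : ∀ p ∈ KR G m, ∀ s ∈ Icc (0:ℝ) 1, ‖s • p.1.2‖ < r' := by
    intro p hp s hs
    rw [norm_smul, Real.norm_of_nonneg hs.1]
    exact (mul_le_of_le_one_left (norm_nonneg _) hs.2).trans_lt (hp.1.2.trans_lt hm)
  have hline : ∀ (p : (Euc N × Euc N) × (Euc N × Euc N)) (s : ℝ), ContDiffAt ℝ ∞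
      (fun q : ((Euc N × Euc N) × (Euc N × Euc N)) × ℝ => q.1.1.1 + q.2 • q.1.1.2) (p, s) := by
    intro p s
    fun_prop
  have key := taylor1 (K := KR G m) (isCompact_KR hc m)
    (g0 := fun q => fderiv ℝ ρ (q.1.1.1 + q.2 • q.1.1.2) (q.1.2.1 + q.2 • q.1.2.2))
    (g1 := fun q => fderiv ℝ (fderiv ℝ ρ) (q.1.1.1 + q.2 • q.1.1.2) q.1.1.2
        (q.1.2.1 + q.2 • q.1.2.2) + fderiv ℝ ρ (q.1.1.1 + q.2 • q.1.1.2) q.1.2.2) ?_ ?_
  · obtain ⟨C, hC0, hC⟩ := key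
    refine ⟨C, hC0, fun p hp ht s hs => ?_⟩
    have h1 := hC p hp s hs
    simp only [zero_smul, add_zero] at h1
    have h2 : fderiv ℝ (fderiv ℝ ρ) p.1.1 p.1.2 p.2.1 + fderiv ℝ ρ p.1.1 p.2.2 = p.2.2 := by
      rw [hP _ hp.1.1.1, fderiv2_rho hR hP hp.1.1.1 hp.1.1.2]
      have h3 := snd_eq ht
      have h4 : II G p.1.1 p.1.2 p.2.1 = fderiv ℝ G.P p.1.1 p.1.2 p.2.1 := rfl
      rw [h4] at h3
      rw [add_comm]
      exact h3.symm
    rw [h2, hP _ hp.1.1.1, (P_eq_self G hp.1.1.1).1 hp.2.1.1.2] at h1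
    exact h1
  · intro p hp s hs
    have h0 := contDiffAt_fderiv_rho hR hp.1.1.1 (hsm p hp s hs)
    have h1 : HasDerivAt (fun s : ℝ => p.1.1 + s • p.1.2) p.1.2 s := by
      simpa using ((hasDerivAt_id s).smul_const p.1.2).const_add p.1.1
    have h1' : HasDerivAt (fun s : ℝ => p.2.1 + s • p.2.2) p.2.2 s := by
      simpa using ((hasDerivAt_id s).smul_const p.2.2).const_add p.2.1
    have h2 : HasDerivAt (fun s : ℝ => fderiv ℝ ρ (p.1.1 + s • p.1.2))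
        (fderiv ℝ (fderiv ℝ ρ) (p.1.1 + s • p.1.2) p.1.2) s :=
      (h0.differentiableAt (by simp)).hasFDerivAt.comp_hasDerivAt s h1
    exact h2.clm_apply h1'
  · intro p hp s hs
    have h0 := contDiffAt_fderiv_rho hR hp.1.1.1 (hsm p hp s hs)
    have h1 : ContDiffAt ℝ ∞ (fderiv ℝ (fderiv ℝ ρ)) (p.1.1 + s • p.1.2) :=
      h0.fderiv_right (by simp)
    have h2 : ContDiffAt ℝ ∞ (fun q : ((Euc N × Euc N) × (Euc N × Euc N)) × ℝ =>
        fderiv ℝ (fderiv ℝ ρ) (q.1.1.1 + q.2 • q.1.1.2)) (p, s) :=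
      ContDiffAt.comp (p, s) (g := fderiv ℝ (fderiv ℝ ρ)) h1 (hline p s)
    have h2' : ContDiffAt ℝ ∞ (fun q : ((Euc N × Euc N) × (Euc N × Euc N)) × ℝ =>
        fderiv ℝ ρ (q.1.1.1 + q.2 • q.1.1.2)) (p, s) :=
      ContDiffAt.comp (p, s) (g := fderiv ℝ ρ) h0 (hline p s)
    have h3 : ContDiffAt ℝ ∞ (fun q : ((Euc N × Euc N) × (Euc N × Euc N)) × ℝ => q.1.1.2)
      (p, s) := by fun_prop
    have h4 : ContDiffAt ℝ ∞ (fun q : ((Euc N × Euc N) × (Euc N × Euc N)) × ℝ =>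
      q.1.2.1 + q.2 • q.1.2.2) (p, s) := by fun_prop
    have h5 : ContDiffAt ℝ ∞ (fun q : ((Euc N × Euc N) × (Euc N × Euc N)) × ℝ => q.1.2.2)
      (p, s) := by fun_prop
    exact (((h2.clm_apply h3).clm_apply h4).add (h2'.clm_apply h5)).of_le (by simp)

include hR in
theorem hasDerivAt_rho_cv {z : Euc N × Euc N} (hz : z ∈ TS G) {a b : ℝ} {A A' : ℝ → Euc N}
    (hA : Fld G z a b A A') {t s : ℝ} (ht : t ∈ Ioo a b) (hs : ‖s • A t‖ < r') :
    HasDerivAt (fun t => ρ ((fl G (z, t)).1 + s • A t))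
      (fderiv ℝ ρ ((fl G (z, t)).1 + s • A t) ((fl G (z, t)).2 + s • A' t)) t := by
  have h1 : HasDerivAt (fun t => (fl G (z, t)).1) (fl G (z, t)).2 t :=
    hda_fst (hasDerivAt_fl G (complete G hz t))
  have h2 := (hA.der t ⟨ht.1.le, ht.2.le⟩).hasDerivAt (Icc_mem_nhds ht.1 ht.2)
  have h3 : HasDerivAt (fun t => (fl G (z, t)).1 + s • A t) ((fl G (z, t)).2 + s • A' t) t :=
    h1.add (h2.const_smul s)
  have h4 := (hR.smooth _ (fl_mem G hz t).1 ((fl G (z, t)).1 + s • A t)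
    (by rwa [add_sub_cancel_left])).differentiableAt (by simp)
  exact h4.hasFDerivAt.comp_hasDerivAt t h3

include hR hP in
/-- **uniform energy bound**, normalised fields -/
theorem exists_rho_core (hc : IsCompact S) {m : ℝ} (hm0 : 0 ≤ m) (hm : m < r') : ∃ C, 0 ≤ C ∧
    ∀ z ∈ TS G, ‖z.2‖ = 1 → ∀ (L : ℝ) (A A' : ℝ → Euc N), Fld G z (-1) (L + 1) A A' → 0 ≤ L →
      fl G (z, L) = z → A L = A 0 → (∀ t ∈ Icc 0 L, ‖A t‖ ≤ m) → (∀ t ∈ Icc 0 L, ‖A' t‖ ≤ m) →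
      ∀ s ∈ Icc (0:ℝ) 1,
        ∫ t in (0:ℝ)..L, ‖deriv (fun t => ρ ((fl G (z, t)).1 + s • A t)) t‖ ^ 2 ≤
          L + s ^ 2 * ix G z 0 L A A' A A' + C * s ^ 3 * L := by
  obtain ⟨C₁, hC₁0, hC₁⟩ := exists_T1 hR hP hc hm
  obtain ⟨C₂, hC₂0, hC₂⟩ := exists_T2 hR hP hc hm
  refine ⟨2 * C₁ + 2 * m * C₂ + C₂ ^ 2, by positivity, ?_⟩
  intro z hz hz1 L A A' hA hL hfl hper hAm hA'm s hs
  have hA0 : Fld G z 0 L A A' := hA.mono (Icc_subset_Icc (by norm_num) (by linarith))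
  have hio : ∀ t ∈ Icc 0 L, t ∈ Ioo (-1) (L + 1) := fun t ht => ⟨by linarith [ht.1], by linarith [ht.2]⟩
  have hsA : ∀ t ∈ Icc 0 L, ‖s • A t‖ < r' := by
    intro t ht
    rw [norm_smul, Real.norm_of_nonneg hs.1]
    exact (mul_le_of_le_one_left (norm_nonneg _) hs.2).trans_lt ((hAm t ht).trans_lt hm)
  set F : ℝ → Euc N := fun t => ρ ((fl G (z, t)).1 + s • A t) with hF
  set F' : ℝ → Euc N := fun t =>
    fderiv ℝ ρ ((fl G (z, t)).1 + s • A t) ((fl G (z, t)).2 + s • A' t) with hF'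
  have hFd : ∀ t ∈ Icc 0 L, HasDerivAt F (F' t) t := fun t ht =>
    hasDerivAt_rho_cv hR hz hA (hio t ht) (hsA t ht)
  have hγc : Continuous (fun t => fl G (z, t)) := continuous_fl hz
  have hγd : ∀ t, HasDerivAt (fun t => (fl G (z, t)).1) (fl G (z, t)).2 t := fun t =>
    hda_fst (hasDerivAt_fl G (complete G hz t))
  have hγd2 : ∀ t, HasDerivAt (fun t => (fl G (z, t)).2) (X G (fl G (z, t))).2 t := fun t =>
    hda_snd (hasDerivAt_fl G (complete G hz t))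
  have hFc : ContinuousOn F (Icc 0 L) := fun t ht => (hFd t ht).continuousAt.continuousWithinAt
  have hF'c : ContinuousOn F' (Icc 0 L) := by
    intro t ht
    have h1 := contDiffAt_fderiv_rho hR (fl_mem G hz t).1 (hsA t ht)
    have h2 : ContinuousWithinAt (fun t => (fl G (z, t)).1 + s • A t) (Icc 0 L) t :=
      (hγc.fst.continuousWithinAt).add ((hA0.contX t ht).const_smul s)
    have h3 : ContinuousWithinAt (fun t => (fl G (z, t)).2 + s • A' t) (Icc 0 L) t :=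
      (hγc.snd.continuousWithinAt).add ((hA0.cont t ht).const_smul s)
    have h4 : ContinuousWithinAt (fun t => fderiv ℝ ρ ((fl G (z, t)).1 + s • A t)) (Icc 0 L) t :=
      ContinuousAt.comp_continuousWithinAt (g := fderiv ℝ ρ)
        (f := fun t => (fl G (z, t)).1 + s • A t) h1.continuousAt h2
    exact h4.clm_apply h3
  have hXc : Continuous (fun t => (X G (fl G (z, t))).2) :=
    ((contDiff_X G).continuous.comp hγc).snd
  -- the derivative in the statement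
  have e0 : ∫ t in (0:ℝ)..L, ‖deriv F t‖ ^ 2 = ∫ t in (0:ℝ)..L, ‖F' t‖ ^ 2 := by
    refine intervalIntegral.integral_congr fun t ht => ?_
    rw [uIcc_of_le hL] at ht
    simp only [(hFd t ht).deriv]
  rw [e0]
  -- integration by parts
  have hparts : ∫ t in (0:ℝ)..L, (⟪(fl G (z, t)).2, F' t - (fl G (z, t)).2⟫ +
      ⟪(X G (fl G (z, t))).2, F t - (fl G (z, t)).1⟫) = 0 := by
    have h1 : ∀ t ∈ Ioo 0 L, HasDerivAt (fun t => ⟪(fl G (z, t)).2, F t - (fl G (z, t)).1⟫)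
        (⟪(fl G (z, t)).2, F' t - (fl G (z, t)).2⟫ +
          ⟪(X G (fl G (z, t))).2, F t - (fl G (z, t)).1⟫) t := by
      intro t ht
      exact (hγd2 t).inner ℝ ((hFd t ⟨ht.1.le, ht.2.le⟩).sub (hγd t))
    have h2 : ContinuousOn (fun t => ⟪(fl G (z, t)).2, F t - (fl G (z, t)).1⟫) (Icc 0 L) :=
      hγc.snd.continuousOn.inner (hFc.sub hγc.fst.continuousOn)
    rw [intervalIntegral.integral_eq_sub_of_hasDerivAt_of_le hL h2 h1 ?_]
    · have h3 : F L = F 0 := by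
        simp only [hF]
        rw [hfl, hper, fl_zero]
      rw [h3, hfl, fl_zero, sub_self]
    · apply ContinuousOn.intervalIntegrable
      rw [uIcc_of_le hL]
      exact (hγc.snd.continuousOn.inner (hF'c.sub hγc.snd.continuousOn)).add
        (hXc.continuousOn.inner (hFc.sub hγc.fst.continuousOn))
  -- pointwise
  have hpt : ∀ t ∈ Icc 0 L, ‖F' t‖ ^ 2 ≤ (1 + s ^ 2 * ixd G z A A' A A' t +
      (2 * C₁ + 2 * m * C₂ + C₂ ^ 2) * s ^ 3) +
        2 * (⟪(fl G (z, t)).2, F' t - (fl G (z, t)).2⟫ +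
          ⟪(X G (fl G (z, t))).2, F t - (fl G (z, t)).1⟫) := by
    intro t ht
    have hft := fl_mem G hz t
    have htan : TanTS G ((fl G (z, t)).1, A t) ((fl G (z, t)).2, A' t) :=
      hA.tanTS hz (by linarith) ⟨(hio t ht).1.le, (hio t ht).2.le⟩
    have hy1 : ‖(fl G (z, t)).2‖ = 1 := by rw [norm_fl G hz, hz1]
    have hp : (((fl G (z, t)).1, A t), ((fl G (z, t)).2, A' t)) ∈ KR G m :=
      ⟨⟨⟨hft.1, hA0.mem t ht⟩, hAm t ht⟩, ⟨hft, hy1.le⟩, hA'm t ht⟩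
    have h1 := hC₁ _ hp s hs
    have h2 := hC₂ _ hp htan s hs
    simp only at h1 h2
    have hX : II G (fl G (z, t)).1 (fl G (z, t)).2 (fl G (z, t)).2 = (X G (fl G (z, t))).2 := rfl
    rw [hX] at h1
    have h3 : ‖F' t - (fl G (z, t)).2‖ ≤ s * ‖A' t‖ + C₂ * s ^ 2 := by
      have h4 : F' t - (fl G (z, t)).2 = s • A' t + (F' t - (fl G (z, t)).2 - s • A' t) := by abel
      rw [h4]
      refine (norm_add_le _ _).trans ?_
      rw [norm_smul, Real.norm_of_nonneg hs.1]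
      exact add_le_add le_rfl h2
    have h5 : ‖F' t - (fl G (z, t)).2‖ ^ 2 ≤ (s * ‖A' t‖ + C₂ * s ^ 2) ^ 2 :=
      pow_le_pow_left₀ (norm_nonneg _) h3 2
    have h6 : ‖F' t‖ ^ 2 = 1 + 2 * ⟪(fl G (z, t)).2, F' t - (fl G (z, t)).2⟫ +
        ‖F' t - (fl G (z, t)).2‖ ^ 2 := by
      have h7 : F' t = (fl G (z, t)).2 + (F' t - (fl G (z, t)).2) := by abel
      conv_lhs => rw [h7, norm_add_sq_real, hy1]
      ring
    have h8 : (s * ‖A' t‖ + C₂ * s ^ 2) ^ 2 ≤ s ^ 2 * ‖A' t‖ ^ 2 +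
        (2 * m * C₂ + C₂ ^ 2) * s ^ 3 := by
      have h9 := hA'm t ht
      have h10 : s ^ 3 * ‖A' t‖ ≤ s ^ 3 * m := mul_le_mul_of_nonneg_left h9 (pow_nonneg hs.1 3)
      have h11 : s ^ 4 ≤ s ^ 3 := by
        have : s ^ 4 = s ^ 3 * s := by ring
        rw [this]
        exact mul_le_of_le_one_right (pow_nonneg hs.1 3) hs.2
      have h12 : C₂ ^ 2 * s ^ 4 ≤ C₂ ^ 2 * s ^ 3 := mul_le_mul_of_nonneg_left h11 (by positivity)
      nlinarith
    have h13 := (abs_le.1 h1).1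
    have h14 : ixd G z A A' A A' t = ‖A' t‖ ^ 2 -
        ⟪(X G (fl G (z, t))).2, II G (fl G (z, t)).1 (A t) (A t)⟫ := by
      unfold ixd
      rw [real_inner_self_eq_norm_sq]
    rw [h6, h14]
    have h15 : ⟪(X G (fl G (z, t))).2, F t - (fl G (z, t)).1⟫ =
      ⟪(X G (fl G (z, t))).2, ρ ((fl G (z, t)).1 + s • A t) - (fl G (z, t)).1⟫ := rfl
    rw [h15]
    nlinarith
  have i1 : IntervalIntegrable (fun t => ‖F' t‖ ^ 2) volume 0 L := by
    apply ContinuousOn.intervalIntegrable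
    rw [uIcc_of_le hL]
    exact hF'c.norm.pow 2
  have i2 := hA0.intble hz hL hA0
  have i3 : IntervalIntegrable (fun t => ⟪(fl G (z, t)).2, F' t - (fl G (z, t)).2⟫ +
      ⟪(X G (fl G (z, t))).2, F t - (fl G (z, t)).1⟫) volume 0 L := by
    apply ContinuousOn.intervalIntegrable
    rw [uIcc_of_le hL]
    exact (hγc.snd.continuousOn.inner (hF'c.sub hγc.snd.continuousOn)).add
      (hXc.continuousOn.inner (hFc.sub hγc.fst.continuousOn))
  have i4 : IntervalIntegrable (fun t => 1 + s ^ 2 * ixd G z A A' A A' t +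
      (2 * C₁ + 2 * m * C₂ + C₂ ^ 2) * s ^ 3) volume 0 L :=
    (intervalIntegrable_const.add (i2.const_mul _)).add intervalIntegrable_const
  have hint := intervalIntegral.integral_mono_on hL i1 (i4.add (i3.const_mul 2)) hpt
  rw [intervalIntegral.integral_add i4 (i3.const_mul 2), intervalIntegral.integral_const_mul 2,
    hparts, mul_zero, add_zero,
    intervalIntegral.integral_add (intervalIntegrable_const.add (i2.const_mul _))
      intervalIntegrable_const,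
    intervalIntegral.integral_add intervalIntegrable_const (i2.const_mul _),
    intervalIntegral.integral_const_mul, intervalIntegral.integral_const,
    intervalIntegral.integral_const] at hint
  simp only [sub_zero, smul_eq_mul, mul_one] at hint
  refine hint.trans (le_of_eq ?_)
  unfold ix
  ring

end rho

end Crest.Agent.R208.FL
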