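import Crest.Agent.R208.FL1
import Crest.Agent.R208.FL3
import Crest.Agent.R208.NL2
import Crest.Agent.R208.MS3
import Crest.Agent.R208.NB8
import Crest.Agent.R208.CM4b
import Crest.Agent.R208.CM6b

/-!
R208, block FL (helper613), part FL4: `exists_LD` (data of the natural contraction below `π`), the
representation `Rt (nuP K)`, scalars, and the energies of the level one family near the zero
section.
-/

set_option autoImplicit false

open Set Filter Topology MeasureTheory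
open scoped ContDiff RealInnerProductSpace Real
open Crest.GeometryTopology.Submanifold
open Crest.Agent.R241.DDefs Crest.Agent.R241.D Crest.Agent.R241.D2

noncomputable section

namespace Crest.Agent.R208.FL

open Crest.Agent.R208.SV Crest.Agent.R208.MS Crest.Agent.R208.NN

variable {n N K k : ℕ} {κ : ℝ} {S : Set (Euc N)} {G : Geo n N κ S} {lg : Euc N → Euc N → Euc N}
  {ρ : Euc N → Euc N} {r C r' Kr B w : ℝ}

/-- **the data of the natural contraction exist** for every level `E₀ < π` -/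
theorem exists_LD (hB : Bl n N κ S G π) (hper : HS.Per G) (hsg : SG G lg r C)
    (hR : Retr S ρ r' Kr) (hB4 : B < 4 * π) (hs : Small r C r' Kr B w) {E₀ η : ℝ} (h0 : E₀ < π)
    (hE₀B : E₀ ≤ B) (hη : 0 < η) (h2 : NL.Sm2 r' Kr η) :
    ∃ J, ∀ J', J ≤ J' → NL.LD G lg ρ w J' r C r' Kr B E₀ η := by
  have hps : PSOK G lg w B := PS.ps hB hper hsg hs.pos hs.le_two_pi hs.s1 hB4
  obtain ⟨J, hJ⟩ := exists_J hs.pos.le (stepOK hsg hR hs) hps h0 hE₀B hη
  refine ⟨J, fun J' hJ' => ⟨hsg, hR, hs, h2, hE₀B, ?_, fun c hc hE => hJ c hc hE J' hJ'⟩⟩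
  intro c hc hcB σ hσ0 hσ1
  have h3 := En_st_mix_le hsg hR hc hcB hs hσ0 hσ1
  have h4 : 0 ≤ gr G lg w c := gr_nonneg' hs
  have h5 : 0 ≤ σ * gr G lg w c / 16 := by positivity
  linarith

/-! ### the representation -/

theorem contDiff_Rt (ν : Fin K → ℝ) : ContDiff ℝ ∞ (Rt (N := N) ν) := by
  rw [contDiff_clm_apply_iff]
  intro w
  rw [contDiff_euclidean]
  intro x
  have h0 : ContDiff ℝ ∞ (fun s : ℝ => ν x.1.1 * s) := contDiff_const.mul contDiff_id
  have h1 : ContDiff ℝ ∞ (fun s : ℝ => Real.cos (ν x.1.1 * s)) := Real.contDiff_cos.comp h0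
  have h2 : ContDiff ℝ ∞ (fun s : ℝ => Real.sin (ν x.1.1 * s)) := Real.contDiff_sin.comp h0
  by_cases hx : x.1.2 = 0
  · have h3 : (fun s => Rt ν s w x) = fun s => Real.cos (ν x.1.1 * s) * w ((x.1.1, 0), x.2) +
        Real.sin (ν x.1.1 * s) * w ((x.1.1, 1), x.2) := by
      funext s
      simp [Rt, hx]
    rw [h3]
    exact (h1.mul contDiff_const).add (h2.mul contDiff_const)
  · have h3 : (fun s => Rt ν s w x) = fun s => -(Real.sin (ν x.1.1 * s) * w ((x.1.1, 0), x.2)) +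
        Real.cos (ν x.1.1 * s) * w ((x.1.1, 1), x.2) := by
      funext s
      simp [Rt, hx]
    rw [h3]
    exact (h2.mul contDiff_const).neg.add (h1.mul contDiff_const)

theorem rep_Rt : CM.Rep (Rt (N := N) (nuP K)) where
  smooth := contDiff_Rt _
  zero := Rt_zero _
  add := Rt_add _
  per := Rt_per
  iso := norm_Rt _

/-! ### scalars -/

/-- time of the contraction: `0` for `q ≤ 1`, `1` for `q ≥ 5/4` (`q = ‖w‖²`) -/
def bt (q : ℝ) : ℝ := ct 1 q

/-- `1` for `q ≤ 4`, `1 / √q` for `q ≥ 17/4` -/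
def th (q : ℝ) : ℝ := 1 + ct 4 q * ((√q)⁻¹ - 1)

theorem th_one {q : ℝ} (h : q ≤ 4) : th q = 1 := by rw [th, ct_zero h, zero_mul, add_zero]

theorem contDiff_th : ContDiff ℝ ∞ th := by
  rw [contDiff_iff_contDiffAt]
  intro q
  rcases lt_or_ge q 1 with h | h
  · have h1 : th =ᶠ[𝓝 q] fun _ => (1:ℝ) := by
      filter_upwards [Iio_mem_nhds h] with x hx
      have : x < 1 := hx
      exact th_one (by linarith)
    exact contDiffAt_const.congr_of_eventuallyEq h1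
  · have h2 : ContDiffAt ℝ ∞ (fun q : ℝ => (√q)⁻¹) q := by
      have h3 : √q ≠ 0 := by positivity
      exact (Real.contDiffAt_sqrt (by positivity)).inv h3
    exact contDiffAt_const.add ((contDiff_ct 4).contDiffAt.mul (h2.sub contDiffAt_const))

theorem th_nonneg (q : ℝ) : 0 ≤ th q := by
  rcases le_or_gt q 4 with h | h
  · rw [th_one h]; exact zero_le_one
  · have h1 := ct_nonneg 4 q
    have h2 := ct_le_one 4 q
    have h3 : 0 < (√q)⁻¹ := by positivity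
    have h4 : th q = (1 - ct 4 q) + ct 4 q * (√q)⁻¹ := by rw [th]; ring
    rw [h4]
    have : 0 ≤ ct 4 q * (√q)⁻¹ := by positivity
    linarith

theorem th_sqrt {q : ℝ} (hq : 0 < q) : th q * √q = (1 - ct 4 q) * √q + ct 4 q := by
  have h5 : √q ≠ 0 := by positivity
  unfold th
  field_simp
  ring

theorem th_sq_le {q : ℝ} (hq : 0 ≤ q) : th q ^ 2 * q ≤ 9 := by
  rcases le_or_gt q 4 with h | h
  · rw [th_one h]; linarith
  · have h5 : th q ^ 2 * q = (th q * √q) ^ 2 := by rw [mul_pow, Real.sq_sqrt hq]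
    rw [h5, th_sqrt (by linarith)]
    have h1 := ct_nonneg 4 q
    have h2 := ct_le_one 4 q
    rcases le_or_gt (17 / 4) q with h' | h'
    · rw [ct_one (by linarith)]; norm_num
    · have h3 : √q ≤ 3 := by
        rw [Real.sqrt_le_left (by norm_num)]
        linarith
      have h4 : 0 ≤ √q := Real.sqrt_nonneg q
      have h6 : (1 - ct 4 q) * √q + ct 4 q ≤ 3 := by nlinarith
      have h7 : 0 ≤ (1 - ct 4 q) * √q + ct 4 q := by
        have : 0 ≤ (1 - ct 4 q) * √q := mul_nonneg (by linarith) h4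
        linarith
      nlinarith

theorem le_th_sq {q : ℝ} (hq : 0 ≤ q) : min 1 q ≤ th q ^ 2 * q := by
  rcases le_or_gt q 4 with h | h
  · rw [th_one h, one_pow, one_mul]; exact min_le_right _ _
  · refine (min_le_left _ _).trans ?_
    have h5 : th q ^ 2 * q = (th q * √q) ^ 2 := by rw [mul_pow, Real.sq_sqrt hq]
    rw [h5, th_sqrt (by linarith)]
    have h1 := ct_nonneg 4 q
    have h2 := ct_le_one 4 q
    have h3 : 1 ≤ √q := Real.one_le_sqrt.2 (by linarith)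
    refine one_le_pow₀ ?_
    nlinarith

/-! ### the family near the zero section -/

/-- `sg0 (z, w) = ρ (z.1 + ε th(‖w‖²) P (w(0)))` -/
def sg0 (G : Geo n N κ S) (ρ : Euc N → Euc N) (ε : ℝ) (q : (Euc N × Euc N) × Wt N K) : Euc N :=
  ρ (q.1.1 + (ε * th (‖q.2‖ ^ 2)) • G.P q.1.1 (ev (nuP K) 0 q.2))

/-- the flow on the total space -/
abbrev Ph (G : Geo n N κ S) (K : ℕ) : ℝ → (Euc N × Euc N) × Wt N K → (Euc N × Euc N) × Wt N K :=
  CM.phR (CM.gf G) (Rt (nuP K))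

theorem oc_sg0 (ε : ℝ) (q : (Euc N × Euc N) × Wt N K) :
    oc (Ph G K) (sg0 G ρ ε) q = fun t =>
      ρ ((fl G (q.1, t)).1 + (ε * th (‖q.2‖ ^ 2)) • fd G q.1 (nuP K) q.2 t) := by
  funext t
  change ρ ((fl G (q.1, t)).1 + (ε * th (‖Rt (nuP K) t q.2‖ ^ 2)) •
    G.P (fl G (q.1, t)).1 (ev (nuP K) 0 (Rt (nuP K) t q.2))) = _
  rw [norm_Rt, ev_Rt, zero_add]
  rfl

/-- constants for the level one family -/
theorem exists_eps_one (h : GT.Bla G k) (hR : Retr S ρ r' Kr) (hP : ∀ x ∈ S, fderiv ℝ ρ x = G.P x)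
    {δ : ℝ} {PN : Euc N × Euc N → Wt N K →L[ℝ] Wt N K}
    (hN : NB.NegB G (k - 1) (nuP K) δ PN) :
    ∃ ε₀ > 0, ∀ ε, 0 < ε → ε ≤ ε₀ → ∀ q ∈ FI.Tot (L.US G) PN,
      (∀ t, ‖(ε * th (‖q.2‖ ^ 2)) • fd G q.1 (nuP K) q.2 t‖ < r') ∧
      En (oc (Ph G K) (sg0 G ρ ε) q) ≤ π - (δ / 4) * ε ^ 2 * (th (‖q.2‖ ^ 2) ^ 2 * ‖q.2‖ ^ 2) := by
  have hc := h.bl.cpt
  obtain ⟨Cf, hCf0, hCf⟩ := NB.exists_bound_fd hc G (nuP K)
  set m : ℝ := r' / 2 with hm
  have hr' := hR.r_pos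
  obtain ⟨C₀, hC₀0, hC₀⟩ := exists_rho_core hR hP hc (m := m) (by positivity) (by linarith)
  have hδ := hN.pos_δ
  set M : ℝ := Cf + 1 with hM
  have hM0 : 0 < M := by positivity
  -- `ε * 3 * M ≤ m` and `C₀ (3 ε M / m)^3 ..`
  set ε₀ : ℝ := min (m / (3 * M)) (δ * m ^ 3 / (12 * π * (C₀ + 1) * M ^ 3)) with hε₀
  have hε₀0 : 0 < ε₀ := by
    have := Real.pi_pos
    exact lt_min (by positivity) (by positivity)
  refine ⟨ε₀, hε₀0, fun ε hε hεε₀ q hq => ?_⟩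
  obtain ⟨z, w⟩ := q
  have hz : z ∈ L.US G := hq.1
  have hPw : PN z w = w := hq.2
  have hz1 : ‖z.2‖ = 1 := hz.2
  simp only
  have h3M : ε * (3 * M) ≤ m := by
    have := hεε₀.trans (min_le_left _ _)
    rwa [le_div_iff₀ (by positivity)] at this
  have hth3 : th (‖w‖ ^ 2) * ‖w‖ ≤ 3 := by
    have h1 := th_sq_le (q := ‖w‖ ^ 2) (by positivity)
    have h2 : (th (‖w‖ ^ 2) * ‖w‖) ^ 2 ≤ 3 ^ 2 := by rw [mul_pow]; linarith
    exact (abs_le_of_sq_le_sq' h2 (by norm_num)).2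
  have hth0 := th_nonneg (‖w‖ ^ 2)
  -- the scaled parameter
  set a : ℝ := ε * th (‖w‖ ^ 2) * ‖w‖ with ha
  have ha0 : 0 ≤ a := by positivity
  have ha3 : a ≤ 3 * ε := by
    rw [ha, mul_assoc]
    nlinarith
  have hfd : ∀ t, ‖(ε * th (‖w‖ ^ 2)) • fd G z (nuP K) w t‖ ≤ a * M := by
    intro t
    rw [norm_smul, Real.norm_of_nonneg (by positivity)]
    have h1 := (hCf z hz w t).1
    calc ε * th (‖w‖ ^ 2) * ‖fd G z (nuP K) w t‖ ≤ ε * th (‖w‖ ^ 2) * (Cf * ‖w‖) :=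
          mul_le_mul_of_nonneg_left h1 (by positivity)
      _ ≤ ε * th (‖w‖ ^ 2) * (M * ‖w‖) := by gcongr; linarith
      _ = a * M := by rw [ha]; ring
  have haM : a * M ≤ m := by nlinarith
  refine ⟨fun t => (hfd t).trans_lt (haM.trans_lt (by linarith)), ?_⟩
  rw [oc_sg0]
  simp only
  have hL2 : fl G (z, 2 * π) = z := NN.fl_two_pi h hz
  by_cases hw : w = 0
  · -- the geodesic itself
    subst hw
    have h1 : (fun t => ρ ((fl G (z, t)).1 + (ε * th (‖(0 : Wt N K)‖ ^ 2)) •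
        fd G z (nuP K) 0 t)) = fun t => Exp G z.1 (t • z.2) := by
      funext t
      have h2 : NN.fd G z (nuP K) (0 : Wt N K) t = 0 := by unfold NN.fd; simp
      rw [h2, smul_zero, add_zero, hR.eq _ (fl_mem G hz.1 t).1]
      exact (Exp_smul G hz.1.1 hz.1.2 t).symm
    rw [h1, En_geod G hz.1.1 hz.1.2, hz1]
    simp
  have hw0 : 0 < ‖w‖ := norm_pos_iff.2 hw
  -- unit field, scaled to size `m`
  set c : ℝ := m / (M * ‖w‖) with hcdef
  have hc0 : 0 < c := by positivity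
  have hcM : c * (M * ‖w‖) = m := by rw [hcdef]; field_simp
  have hFld : ∀ a b : ℝ, Fld G z a b (c • fd G z (nuP K) w) (c • fd' G z (nuP K) w) :=
    fun a b => (fld_fd hz.1 (nuP K) w a b).smul c
  set s : ℝ := a * M / m with hs
  have hm0 : 0 < m := by positivity
  have hs0 : 0 ≤ s := by positivity
  have hs1 : s ≤ 1 := by rw [hs, div_le_one hm0]; exact haM
  have hsc : s * c = ε * th (‖w‖ ^ 2) := by
    rw [hs, hcdef, ha]
    field_simp
  have hbound : ∀ t, ‖(c • fd G z (nuP K) w) t‖ ≤ m ∧ ‖(c • fd' G z (nuP K) w) t‖ ≤ m := by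
    intro t
    have h1 := hCf z hz w t
    rw [Pi.smul_apply, Pi.smul_apply, norm_smul, norm_smul, Real.norm_of_nonneg hc0.le]
    have h2 : Cf * ‖w‖ ≤ M * ‖w‖ := by gcongr; linarith
    rw [← hcM]
    exact ⟨mul_le_mul_of_nonneg_left (h1.1.trans h2) hc0.le,
      mul_le_mul_of_nonneg_left (h1.2.1.trans h2) hc0.le⟩
  have hper2 : (c • fd G z (nuP K) w) (2 * π) = (c • fd G z (nuP K) w) 0 := by
    rw [Pi.smul_apply, Pi.smul_apply, NN.fd_two_pi h hz w]
  have key := hC₀ z hz.1 hz1 (2 * π) (c • fd G z (nuP K) w) (c • fd' G z (nuP K) w)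
    (hFld _ _) (by positivity) hL2 hper2 (fun t _ => (hbound t).1) (fun t _ => (hbound t).2)
    s ⟨hs0, hs1⟩
  have hfun : (fun t => ρ ((fl G (z, t)).1 + s • (c • fd G z (nuP K) w) t)) =
      fun t => ρ ((fl G (z, t)).1 + (ε * th (‖w‖ ^ 2)) • fd G z (nuP K) w t) := by
    funext t
    rw [Pi.smul_apply, smul_smul, hsc]
  rw [hfun, ix_smul_left, ix_smul_right] at key
  have hneg := (NN.qf_ge G z (nuP K) w).trans (hN.neg z hz w hPw)
  set I := ix G z 0 (2 * π) (fd G z (nuP K) w) (fd' G z (nuP K) w) (fd G z (nuP K) w)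
    (fd' G z (nuP K) w) with hI
  have h1 : s ^ 2 * (c * (c * I)) ≤ -(δ * a ^ 2) := by
    have h2 : s ^ 2 * (c * (c * I)) = (s * c) ^ 2 * I := by ring
    rw [h2, hsc]
    have h3 : (ε * th (‖w‖ ^ 2)) ^ 2 * I ≤ (ε * th (‖w‖ ^ 2)) ^ 2 * -(δ * ‖w‖ ^ 2) :=
      mul_le_mul_of_nonneg_left hneg (by positivity)
    refine h3.trans (le_of_eq ?_)
    rw [ha]; ring
  have h4 : C₀ * s ^ 3 * (2 * π) ≤ (δ / 2) * a ^ 2 := by
    have h5 : s ^ 3 = a ^ 2 * (a * M ^ 3 / m ^ 3) := by rw [hs]; field_simp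
    have h6 : a ≤ 3 * ε₀ := ha3.trans (by linarith)
    have h7 : ε₀ ≤ δ * m ^ 3 / (12 * π * (C₀ + 1) * M ^ 3) := min_le_right _ _
    have hpi := Real.pi_pos
    have h8 : a * (12 * π * (C₀ + 1) * M ^ 3) ≤ 3 * (δ * m ^ 3) := by
      rw [le_div_iff₀ (by positivity)] at h7
      calc a * (12 * π * (C₀ + 1) * M ^ 3) ≤ 3 * ε₀ * (12 * π * (C₀ + 1) * M ^ 3) :=
            mul_le_mul_of_nonneg_right h6 (by positivity)
        _ = 3 * (ε₀ * (12 * π * (C₀ + 1) * M ^ 3)) := by ring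
        _ ≤ 3 * (δ * m ^ 3) := mul_le_mul_of_nonneg_left h7 (by norm_num)
    have h9 : C₀ * (a * M ^ 3 / m ^ 3) * (2 * π) ≤ δ / 2 := by
      have h10 : C₀ * (a * M ^ 3 / m ^ 3) * (2 * π) =
          (a * (2 * π * C₀ * M ^ 3)) / m ^ 3 := by field_simp
      rw [h10, div_le_iff₀ (by positivity)]
      have h11 : a * (2 * π * C₀ * M ^ 3) ≤ a * (2 * π * (C₀ + 1) * M ^ 3) := by
        gcongr
        linarith
      have h13 : a * (2 * π * (C₀ + 1) * M ^ 3) = (a * (12 * π * (C₀ + 1) * M ^ 3)) / 6 := by ring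
      linarith
    calc C₀ * s ^ 3 * (2 * π) = a ^ 2 * (C₀ * (a * M ^ 3 / m ^ 3) * (2 * π)) := by rw [h5]; ring
      _ ≤ a ^ 2 * (δ / 2) := mul_le_mul_of_nonneg_left h9 (by positivity)
      _ = (δ / 2) * a ^ 2 := by ring
  have h12 : a ^ 2 = ε ^ 2 * (th (‖w‖ ^ 2) ^ 2 * ‖w‖ ^ 2) := by rw [ha]; ring
  unfold En
  rw [mul_assoc (δ / 4), ← h12]
  linarith

end Crest.Agent.R208.FL
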