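import Crest.Agent.R208.FL4
import Crest.Agent.R208.AK4

/-!
R208, (8,2), block F2 (helper336), part FT1: the structure `XI` of a smooth equivariant family of
antiperiodic fields with negative index form, its fields `xf`, uniform bounds.
-/

set_option autoImplicit false
set_option linter.unusedSectionVars false

open Set Filter Topology MeasureTheory
open scoped ContDiff RealInnerProductSpace Real
open Crest.GeometryTopology.Submanifold
open Crest.Agent.R241.DDefs Crest.Agent.R241.D Crest.Agent.R241.D2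

noncomputable section

namespace Crest.Agent.R208.FT

open Crest.Agent.R208.SV Crest.Agent.R208.MS Crest.Agent.R208.NN Crest.Agent.R208.FL

variable {n N K k : ℕ} {κ : ℝ} {S : Set (Euc N)} {G : Geo n N κ S}
  {H₂ : Type*} [NormedAddCommGroup H₂] [InnerProductSpace ℝ H₂]

/-- the field `t ↦ ξ(z, ν)(t)` (geodesic time) -/
def xf (G : Geo n N κ S) (Rr : ℝ → H₂ →L[ℝ] H₂) (xi0 : Euc N × Euc N → H₂ →L[ℝ] Euc N)
    (z : Euc N × Euc N) (ν : H₂) (t : ℝ) : Euc N := xi0 (fl G (z, t)) (Rr t ν)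

/-- a smooth equivariant bundle `P₂` over `US G` with a smooth equivariant family of antiperiodic
fields of negative index form; `Rr` is the rotation in geodesic time -/
structure XI (G : Geo n N κ S) (P₂ : Euc N × Euc N → H₂ →L[ℝ] H₂) (Rr : ℝ → H₂ →L[ℝ] H₂)
    (xi0 : Euc N × Euc N → H₂ →L[ℝ] Euc N) (δ₂ : ℝ) : Prop where
  pos : 0 < δ₂
  smR : ContDiff ℝ ∞ Rr
  zero : ∀ ν, Rr 0 ν = ν
  add : ∀ s t ν, Rr (s + t) ν = Rr s (Rr t ν)
  iso : ∀ t ν, ‖Rr t ν‖ = ‖ν‖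
  anti : ∀ ν, Rr (2 * π) ν = -ν
  smooth : ∀ z ∈ L.US G, ContDiffAt ℝ ∞ xi0 z
  tan : ∀ z ∈ L.US G, ∀ ν, P₂ z ν = ν → xi0 z ν ∈ G.T z.1
  equi : ∀ z ∈ L.US G, ∀ s ν, P₂ (fl G (z, s)) (Rr s ν) = Rr s (P₂ z ν)
  neg : ∀ z ∈ L.US G, ∀ ν, P₂ z ν = ν →
    ix G z 0 (2 * π) (xf G Rr xi0 z ν) (deriv (xf G Rr xi0 z ν)) (xf G Rr xi0 z ν)
      (deriv (xf G Rr xi0 z ν)) ≤ -(δ₂ * ‖ν‖ ^ 2)

variable {P₂ : Euc N × Euc N → H₂ →L[ℝ] H₂} {Rr : ℝ → H₂ →L[ℝ] H₂}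
  {xi0 : Euc N × Euc N → H₂ →L[ℝ] Euc N} {δ₂ : ℝ} {z : Euc N × Euc N}

/-- the field as an operator on `H₂` -/
def XL (G : Geo n N κ S) (Rr : ℝ → H₂ →L[ℝ] H₂) (xi0 : Euc N × Euc N → H₂ →L[ℝ] Euc N)
    (p : (Euc N × Euc N) × ℝ) : H₂ →L[ℝ] Euc N := (xi0 (fl G p)).comp (Rr p.2)

theorem xf_eq (ν : H₂) (t : ℝ) : xf G Rr xi0 z ν t = XL G Rr xi0 (z, t) ν := rfl

theorem xf_smul (c : ℝ) (ν : H₂) (t : ℝ) :
    xf G Rr xi0 z (c • ν) t = c • xf G Rr xi0 z ν t := by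
  rw [xf_eq, xf_eq, map_smul]

theorem US_TS (hz : z ∈ L.US G) : z ∈ TS G := hz.1

namespace XI

variable (h : XI G P₂ Rr xi0 δ₂)

include h

theorem contDiffAt_XL (hz : z ∈ L.US G) (t : ℝ) : ContDiffAt ℝ ∞ (XL G Rr xi0) (z, t) := by
  have h1 := contDiffAt_fl' G hz.1 t
  have h2 : ContDiffAt ℝ ∞ (fun p : (Euc N × Euc N) × ℝ => xi0 (fl G p)) (z, t) :=
    ContDiffAt.comp (g := xi0) (z, t) (h.smooth _ (NB.fl_mem_US hz t)) h1
  have h3 : ContDiffAt ℝ ∞ (fun p : (Euc N × Euc N) × ℝ => Rr p.2) (z, t) :=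
    (h.smR.contDiffAt).comp (z, t) contDiffAt_snd
  exact h2.clm_comp h3

theorem contDiff_XL_t (hz : z ∈ L.US G) : ContDiff ℝ ∞ fun t => XL G Rr xi0 (z, t) := by
  rw [contDiff_iff_contDiffAt]
  intro t
  exact ContDiffAt.comp (g := XL G Rr xi0) t (h.contDiffAt_XL hz t)
    (contDiffAt_const.prodMk contDiffAt_id)

theorem contDiff_xf (hz : z ∈ L.US G) (ν : H₂) : ContDiff ℝ ∞ (xf G Rr xi0 z ν) :=
  (h.contDiff_XL_t hz).clm_apply contDiff_const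

theorem P_Rr (hz : z ∈ L.US G) {ν : H₂} (hν : P₂ z ν = ν) (t : ℝ) :
    P₂ (fl G (z, t)) (Rr t ν) = Rr t ν := by
  rw [h.equi z hz, hν]

theorem xf_mem (hz : z ∈ L.US G) {ν : H₂} (hν : P₂ z ν = ν) (t : ℝ) :
    xf G Rr xi0 z ν t ∈ G.T (fl G (z, t)).1 :=
  h.tan _ (NB.fl_mem_US hz t) _ (h.P_Rr hz hν t)

theorem xf_anti (hfl : fl G (z, 2 * π) = z) (hz : z ∈ L.US G) (ν : H₂) (t : ℝ) :
    xf G Rr xi0 z ν (t + 2 * π) = -xf G Rr xi0 z ν t := by
  unfold xf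
  rw [AK.fl_add_two_pi hz.1 hfl, h.add, h.anti, map_neg, map_neg]

/-- equivariance of the fields -/
theorem xf_shift (hz : z ∈ L.US G) (ν : H₂) (s t : ℝ) :
    xf G Rr xi0 (fl G (z, s)) (Rr s ν) t = xf G Rr xi0 z ν (t + s) := by
  unfold xf
  rw [← fl_add' G hz.1, add_comm s t, ← h.add]

/-- uniform bounds of the fields -/
theorem exists_bound (hc : IsCompact S) : ∃ C : ℝ, 0 ≤ C ∧ ∀ z ∈ L.US G, ∀ (ν : H₂) (t : ℝ),
    ‖xf G Rr xi0 z ν t‖ ≤ C * ‖ν‖ ∧ ‖deriv (xf G Rr xi0 z ν) t‖ ≤ C * ‖ν‖ := by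
  have hU : IsCompact (L.US G) := by
    refine (hc.prod (isCompact_closedBall (0 : Euc N) 1)).of_isClosed_subset ?_ ?_
    · exact (isClosed_TS G).inter (isClosed_eq continuous_snd.norm continuous_const)
    · intro z hz
      exact ⟨hz.1.1, by simpa using (le_of_eq hz.2 : ‖z.2‖ ≤ 1)⟩
  have c1 : ContinuousOn (fun z => XL G Rr xi0 (z, (0:ℝ))) (L.US G) := by
    intro z hz
    have h0 : ContinuousAt (fun z : Euc N × Euc N => (z, (0:ℝ))) z := by fun_prop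
    exact (ContinuousAt.comp (g := XL G Rr xi0) (f := fun z : Euc N × Euc N => (z, (0:ℝ)))
      (h.contDiffAt_XL hz 0).continuousAt h0).continuousWithinAt
  have c2 : ContinuousOn (fun z => fderiv ℝ (XL G Rr xi0) (z, (0:ℝ))
      ((0 : Euc N × Euc N), (1:ℝ))) (L.US G) := by
    intro z hz
    have h1 : ContDiffAt ℝ 0 (fderiv ℝ (XL G Rr xi0)) (z, 0) :=
      (h.contDiffAt_XL hz 0).fderiv_right (by simp)
    have h2 : ContinuousAt (fun z => fderiv ℝ (XL G Rr xi0) (z, (0:ℝ))) z :=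
      ContinuousAt.comp (g := fderiv ℝ (XL G Rr xi0)) (f := fun z : Euc N × Euc N => (z, (0:ℝ)))
        h1.continuousAt (by fun_prop)
    exact (h2.clm_apply continuousAt_const).continuousWithinAt
  obtain ⟨C1, hC1⟩ := hU.exists_bound_of_continuousOn c1
  obtain ⟨C2, hC2⟩ := hU.exists_bound_of_continuousOn c2
  have key : ∀ z ∈ L.US G, ∀ ν : H₂, ‖xf G Rr xi0 z ν 0‖ ≤ max (max C1 C2) 0 * ‖ν‖ ∧
      ‖deriv (xf G Rr xi0 z ν) 0‖ ≤ max (max C1 C2) 0 * ‖ν‖ := by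
    intro z hz ν
    refine ⟨?_, ?_⟩
    · refine ((XL G Rr xi0 (z, 0)).le_opNorm ν).trans ?_
      exact mul_le_mul_of_nonneg_right
        ((hC1 z hz).trans ((le_max_left _ _).trans (le_max_left _ _))) (norm_nonneg _)
    · have h1 : HasDerivAt (fun t => XL G Rr xi0 (z, t))
          (fderiv ℝ (XL G Rr xi0) (z, 0) ((0 : Euc N × Euc N), (1:ℝ))) 0 := by
        have h2 : HasFDerivAt (XL G Rr xi0) (fderiv ℝ (XL G Rr xi0) (z, 0)) (z, 0) :=
          ((h.contDiffAt_XL hz 0).differentiableAt (by simp)).hasFDerivAt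
        exact h2.comp_hasDerivAt (0:ℝ) ((hasDerivAt_const 0 z).prodMk (hasDerivAt_id 0))
      have h3 : HasDerivAt (xf G Rr xi0 z ν)
          (fderiv ℝ (XL G Rr xi0) (z, 0) ((0 : Euc N × Euc N), (1:ℝ)) ν) 0 := by
        have h4 : HasDerivAt (fun t => XL G Rr xi0 (z, t) ν)
            (fderiv ℝ (XL G Rr xi0) (z, 0) ((0 : Euc N × Euc N), (1:ℝ)) ν) 0 :=
          (h1.clm_apply (hasDerivAt_const 0 ν)).congr_deriv (by simp)
        exact h4
      rw [h3.deriv]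
      refine (ContinuousLinearMap.le_opNorm _ ν).trans ?_
      exact mul_le_mul_of_nonneg_right
        ((hC2 z hz).trans ((le_max_right _ _).trans (le_max_left _ _))) (norm_nonneg _)
  refine ⟨max (max C1 C2) 0, le_max_right _ _, fun z hz ν t => ?_⟩
  have h1 := key _ (NB.fl_mem_US hz t) (Rr t ν)
  rw [h.iso] at h1
  have e : xf G Rr xi0 (fl G (z, t)) (Rr t ν) = fun s => xf G Rr xi0 z ν (s + t) :=
    funext fun s => h.xf_shift hz ν t s
  rw [e] at h1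
  rw [deriv_comp_add_const, zero_add] at h1
  simpa using h1

end XI

end Crest.Agent.R208.FT
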