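import Crest.Agent.R208.FT1

/-!
R208, (8,2), block F2 (helper286 for helper336), part FT2: the uniform energy bound of the level two
loops `ρ(γ + ε fd w + b ξ_ν)` on `[0, 4π]`.
-/

set_option autoImplicit false
set_option linter.unusedSectionVars false

open Set Filter Topology MeasureTheory
open scoped ContDiff RealInnerProductSpace Real
open Crest.GeometryTopology.Submanifold
open Crest.Agent.R241.DDefs Crest.Agent.R241.D Crest.Agent.R241.D2

noncomputable section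

namespace Crest.Agent.R208.FT

open Crest.Agent.R208.SV Crest.Agent.R208.MS Crest.Agent.R208.NN Crest.Agent.R208.FL

variable {n N K k : ℕ} {κ : ℝ} {S : Set (Euc N)} {G : Geo n N κ S} {ρ : Euc N → Euc N}
  {r' Kr δ δ₂ : ℝ} {PN : Euc N × Euc N → Wt N K →L[ℝ] Wt N K}
  {H₂ : Type*} [NormedAddCommGroup H₂] [InnerProductSpace ℝ H₂]
  {P₂ : Euc N × Euc N → H₂ →L[ℝ] H₂} {Rr : ℝ → H₂ →L[ℝ] H₂}
  {xi0 : Euc N × Euc N → H₂ →L[ℝ] Euc N} {z : Euc N × Euc N}

theorem contDiff_fd_t (hz : z ∈ TS G) (ν : Fin K → ℝ) (w : Wt N K) :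
    ContDiff ℝ ∞ (NN.fd G z ν w) := by
  rw [contDiff_iff_contDiffAt]
  intro t
  have h1 := (NB.contDiffAt_fd (ν := ν) hz w t).1
  exact ContDiffAt.comp t (g := fun p : ((Euc N × Euc N) × Wt N K) × ℝ => NN.fd G p.1.1 ν p.1.2 p.2)
    (f := fun t : ℝ => ((z, w), t)) h1 (contDiffAt_const.prodMk contDiffAt_id)

theorem fd_per (h : GT.Bla G k) (hz : z ∈ L.US G) (w : Wt N K) (t : ℝ) :
    NN.fd G z (nuP K) w (t + 2 * π) = NN.fd G z (nuP K) w t := by
  unfold NN.fd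
  rw [AK.fl_add_two_pi hz.1 (NN.fl_two_pi h hz), NN.ev_two_pi]

theorem int_geod (hz : z ∈ L.US G) (hR : Retr S ρ r' Kr) (L : ℝ) :
    ∫ t in (0:ℝ)..L, ‖deriv (fun t => ρ ((fl G (z, t)).1 + (0 : Euc N))) t‖ ^ 2 = L := by
  have h1 : (fun t => ρ ((fl G (z, t)).1 + (0 : Euc N))) = fun t => (fl G (z, t)).1 := by
    funext t
    rw [add_zero, hR.eq _ (fl_mem G hz.1 t).1]
  have h2 : ∀ t, deriv (fun t => (fl G (z, t)).1) t = (fl G (z, t)).2 := fun t =>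
    (hda_fst (hasDerivAt_fl G (complete G hz.1 t))).deriv
  rw [h1]
  simp only [h2, norm_fl G hz.1, hz.2]
  simp

set_option maxHeartbeats 1600000 in
/-- **uniform energy bound at level two** -/
theorem exists_energy (h : GT.Bla G k) (hR : Retr S ρ r' Kr) (hP : ∀ x ∈ S, fderiv ℝ ρ x = G.P x)
    (hN : NB.NegB G (k - 1) (nuP K) δ PN) (hX : XI G P₂ Rr xi0 δ₂) :
    ∃ ε₀ > 0, ∀ ε b : ℝ, 0 < ε → ε ≤ ε₀ → ∀ z ∈ L.US G, ∀ w, PN z w = w → ‖w‖ ≤ 1 →
      ∀ ν, P₂ z ν = ν → 0 ≤ b → b * ‖ν‖ ≤ ε₀ →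
      (∀ t, ‖ε • NN.fd G z (nuP K) w t + b • xf G Rr xi0 z ν t‖ < r' / 2) ∧
      ∫ t in (0:ℝ)..(4 * π), ‖deriv (fun t => ρ ((fl G (z, t)).1 +
        (ε • NN.fd G z (nuP K) w t + b • xf G Rr xi0 z ν t))) t‖ ^ 2 ≤
        4 * π - min δ δ₂ * (ε ^ 2 * ‖w‖ ^ 2 + b ^ 2 * ‖ν‖ ^ 2) := by
  have hpi := Real.pi_pos
  have hc := h.bl.cpt
  obtain ⟨Cf, hCf0, hCf⟩ := NB.exists_bound_fd hc G (nuP K)
  obtain ⟨Cx, hCx0, hCx⟩ := hX.exists_bound hc
  have hr' := hR.r_pos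
  set m : ℝ := r' / 4 with hm
  have hm0 : 0 < m := by positivity
  obtain ⟨C₀, hC₀0, hC₀⟩ := exists_rho_core hR hP hc (m := m) hm0.le (by linarith)
  have hδ := hN.pos_δ
  have hδ₂ := hX.pos
  set μ := min δ δ₂ with hμ
  have hμ0 : 0 < μ := lt_min hδ hδ₂
  set M : ℝ := Cf + Cx + 1 with hM
  have hM0 : 0 < M := by positivity
  set Q₀ : ℝ := C₀ * (4 * π) * M ^ 3 / m ^ 3 with hQ₀
  have hQ₀0 : 0 ≤ Q₀ := by positivity
  set ε₀ : ℝ := min (m / (2 * M)) (μ / (4 * Q₀ + 1)) with hε₀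
  have hε₀0 : 0 < ε₀ := lt_min (by positivity) (by positivity)
  refine ⟨ε₀, hε₀0, fun ε b hε hεε₀ z hz w hw hw1 ν hν hb hbε₀ => ?_⟩
  set a : ℝ := ε * ‖w‖ + b * ‖ν‖ with ha
  have ha0 : 0 ≤ a := by positivity
  have ha2 : a ≤ 2 * ε₀ := by
    have : ε * ‖w‖ ≤ ε₀ := by
      calc ε * ‖w‖ ≤ ε * 1 := mul_le_mul_of_nonneg_left hw1 hε.le
        _ ≤ ε₀ := by linarith
    linarith
  have h2M : 2 * ε₀ * M ≤ m := by
    have := min_le_left (m / (2 * M)) (μ / (4 * Q₀ + 1))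
    rw [← hε₀, le_div_iff₀ (by positivity)] at this
    linarith
  have haM : a * M ≤ m := (mul_le_mul_of_nonneg_right ha2 hM0.le).trans h2M
  -- the two fields
  set A : ℝ → Euc N := fun t => ε • NN.fd G z (nuP K) w t with hA
  set B : ℝ → Euc N := fun t => b • xf G Rr xi0 z ν t with hB
  have hAs : ContDiff ℝ ∞ A := (contDiff_fd_t hz.1 (nuP K) w).const_smul ε
  have hBs : ContDiff ℝ ∞ B := (hX.contDiff_xf hz ν).const_smul b
  have hAm : ∀ t, A t ∈ G.T (fl G (z, t)).1 := fun t =>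
    Submodule.smul_mem _ _ (NN.fd_mem hz.1 _ _ _)
  have hBm : ∀ t, B t ∈ G.T (fl G (z, t)).1 := fun t =>
    Submodule.smul_mem _ _ (hX.xf_mem hz hν t)
  have hAp : ∀ t, A (t + 2 * π) = (1:ℝ) • A t := fun t => by
    simp only [hA, fd_per h hz, one_smul]
  have hfl2 : fl G (z, 2 * π) = z := NN.fl_two_pi h hz
  have hBp : ∀ t, B (t + 2 * π) = (-1:ℝ) • B t := fun t => by
    simp only [hB, hX.xf_anti hfl2 hz, smul_neg, neg_smul, one_smul]
  have dA : ∀ t, HasDerivAt A (ε • NN.fd' G z (nuP K) w t) t := fun t =>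
    (NN.hasDerivAt_fd hz.1 _ _ _).const_smul ε
  have dB : ∀ t, HasDerivAt B (b • deriv (xf G Rr xi0 z ν) t) t := fun t =>
    (((hX.contDiff_xf hz ν).differentiable (by simp)) t).hasDerivAt.const_smul b
  set F : ℝ → Euc N := fun t => B t + A t with hF
  set F' : ℝ → Euc N := fun t => b • deriv (xf G Rr xi0 z ν) t + ε • NN.fd' G z (nuP K) w t with hF'
  have dF : ∀ t, HasDerivAt F (F' t) t := fun t => (dB t).add (dA t)
  have hFm : ∀ t, F t ∈ G.T (fl G (z, t)).1 := fun t => Submodule.add_mem _ (hBm t) (hAm t)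
  have hF'c : Continuous F' :=
    (((hX.contDiff_xf hz ν).continuous_deriv (by simp)).const_smul b).add
      ((NN.continuous_fd' hz.1 (nuP K) w).const_smul ε)
  have hFb : ∀ t, ‖F t‖ ≤ a * M ∧ ‖F' t‖ ≤ a * M := by
    intro t
    have h1 := hCf z hz w t
    have h2 := hCx z hz ν t
    have nw := norm_nonneg w
    have nν := norm_nonneg ν
    have e0 : ε * (Cf * ‖w‖) + b * (Cx * ‖ν‖) ≤ a * M := by
      have e1 : ε * (Cf * ‖w‖) ≤ (ε * ‖w‖) * M := by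
        have : (ε * ‖w‖) * Cf ≤ (ε * ‖w‖) * M :=
          mul_le_mul_of_nonneg_left (by linarith) (by positivity)
        linarith
      have e2 : b * (Cx * ‖ν‖) ≤ (b * ‖ν‖) * M := by
        have : (b * ‖ν‖) * Cx ≤ (b * ‖ν‖) * M :=
          mul_le_mul_of_nonneg_left (by linarith) (by positivity)
        linarith
      have e3 : a * M = (ε * ‖w‖) * M + (b * ‖ν‖) * M := by rw [ha]; ring
      linarith
    constructor
    · refine (norm_add_le _ _).trans ?_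
      simp only [hA, hB, norm_smul, Real.norm_of_nonneg hε.le, Real.norm_of_nonneg hb]
      have e1 := mul_le_mul_of_nonneg_left h1.1 hε.le
      have e2 := mul_le_mul_of_nonneg_left h2.1 hb
      linarith
    · refine (norm_add_le _ _).trans ?_
      simp only [norm_smul, Real.norm_of_nonneg hε.le, Real.norm_of_nonneg hb]
      have e1 := mul_le_mul_of_nonneg_left h1.2.1 hε.le
      have e2 := mul_le_mul_of_nonneg_left h2.2 hb
      linarith
  have hfun : (fun t => ρ ((fl G (z, t)).1 + (ε • NN.fd G z (nuP K) w t +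
      b • xf G Rr xi0 z ν t))) = fun t => ρ ((fl G (z, t)).1 + F t) := by
    funext t
    simp only [hF, hA, hB]
    rw [add_comm (b • xf G Rr xi0 z ν t)]
  constructor
  · intro t
    have e1 := (hFb t).1
    have e2 : ε • NN.fd G z (nuP K) w t + b • xf G Rr xi0 z ν t = F t := by
      simp only [hF, hA, hB]; rw [add_comm]
    rw [e2]
    have : m < r' / 2 := by rw [hm]; linarith
    linarith
  rw [hfun]
  set Q := ε ^ 2 * ‖w‖ ^ 2 + b ^ 2 * ‖ν‖ ^ 2 with hQ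
  have hQ0 : 0 ≤ Q := by positivity
  have haQ : a ^ 2 ≤ 2 * Q := by
    rw [ha, hQ]; nlinarith [sq_nonneg (ε * ‖w‖ - b * ‖ν‖)]
  rcases ha0.eq_or_lt with h0 | h0
  · -- the geodesic
    have hF0 : ∀ t, F t = 0 := fun t => by
      have := (hFb t).1
      rw [← h0, zero_mul] at this
      exact norm_le_zero_iff.1 this
    have hQz : Q = 0 := by
      have e1 : ε * ‖w‖ = 0 := by
        have : 0 ≤ b * ‖ν‖ := by positivity
        have : 0 ≤ ε * ‖w‖ := by positivity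
        linarith
      have e2 : b * ‖ν‖ = 0 := by linarith
      have e3 : Q = (ε * ‖w‖) ^ 2 + (b * ‖ν‖) ^ 2 := by rw [hQ]; ring
      rw [e3, e1, e2]; ring
    simp only [hF0]
    rw [int_geod hz hR, hQz]
    linarith
  -- the general case
  set s : ℝ := a * M / m with hs
  have hs0 : 0 < s := by positivity
  have hs1 : s ≤ 1 := by rw [hs, div_le_one hm0]; exact haM
  have hsinv : s * s⁻¹ = 1 := mul_inv_cancel₀ hs0.ne'
  have hsm : s⁻¹ * (a * M) = m := by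
    rw [hs]; field_simp
  have hfl4 : fl G (z, 4 * π) = z := by
    have : (4:ℝ) * π = 2 * π + 2 * π := by ring
    rw [this, AK.fl_add_two_pi hz.1 hfl2, hfl2]
  have hF4 : F (4 * π) = F 0 := by
    have e1 : (4:ℝ) * π = (0 + 2 * π) + 2 * π := by ring
    have e2 : B (4 * π) = B 0 := by
      rw [e1, hBp, hBp, smul_smul, neg_one_mul, neg_neg, one_smul]
    have e3 : A (4 * π) = A 0 := by rw [e1, hAp, hAp, one_smul, one_smul]
    change B (4 * π) + A (4 * π) = B 0 + A 0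
    rw [e2, e3]
  have hfld : Fld G z (-1) (4 * π + 1) (s⁻¹ • F) (s⁻¹ • F') :=
    ⟨fun t _ => ((dF t).const_smul s⁻¹).hasDerivWithinAt,
      (hF'c.const_smul s⁻¹).continuousOn, fun t _ => Submodule.smul_mem _ _ (hFm t)⟩
  have hbm : ∀ t, ‖(s⁻¹ • F) t‖ ≤ m ∧ ‖(s⁻¹ • F') t‖ ≤ m := by
    intro t
    have hsi : 0 ≤ s⁻¹ := by positivity
    rw [Pi.smul_apply, Pi.smul_apply, norm_smul, norm_smul, Real.norm_of_nonneg hsi, ← hsm]
    exact ⟨mul_le_mul_of_nonneg_left (hFb t).1 hsi, mul_le_mul_of_nonneg_left (hFb t).2 hsi⟩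
  have key := hC₀ z hz.1 hz.2 (4 * π) (s⁻¹ • F) (s⁻¹ • F') hfld (by positivity) hfl4
    (by rw [Pi.smul_apply, Pi.smul_apply, hF4]) (fun t _ => (hbm t).1) (fun t _ => (hbm t).2)
    s ⟨hs0.le, hs1⟩
  have hfun2 : (fun t => ρ ((fl G (z, t)).1 + s • (s⁻¹ • F) t)) =
      fun t => ρ ((fl G (z, t)).1 + F t) := by
    funext t
    rw [Pi.smul_apply, smul_smul, hsinv, one_smul]
  rw [hfun2, ix_smul_left, ix_smul_right] at key
  have hF'eq : F' = deriv fun t => B t + A t := by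
    funext t; exact (dF t).deriv.symm
  have hix : ix G z 0 (4 * π) F F' F F' ≤ -(2 * μ * Q) := by
    rw [hF'eq, hF]
    rw [AK.ix_double hz.1 hfl2 hAs hBs hAm hBm hAp hBp]
    have e1 : A = ε • NN.fd G z (nuP K) w := rfl
    have e2 : B = b • xf G Rr xi0 z ν := rfl
    have e3 : deriv A = ε • NN.fd' G z (nuP K) w := funext fun t => (dA t).deriv
    have e4 : deriv B = b • deriv (xf G Rr xi0 z ν) := funext fun t => (dB t).deriv
    rw [e3, e4, e1, e2, ix_smul_left, ix_smul_right, ix_smul_left, ix_smul_right]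
    have n1 := hX.neg z hz ν hν
    have n2 := (NN.qf_ge G z (nuP K) w).trans (hN.neg z hz w hw)
    have n3 : b * (b * ix G z 0 (2 * π) (xf G Rr xi0 z ν) (deriv (xf G Rr xi0 z ν))
        (xf G Rr xi0 z ν) (deriv (xf G Rr xi0 z ν))) ≤ -(μ * (b ^ 2 * ‖ν‖ ^ 2)) := by
      have k1 : b ^ 2 * ix G z 0 (2 * π) (xf G Rr xi0 z ν) (deriv (xf G Rr xi0 z ν))
        (xf G Rr xi0 z ν) (deriv (xf G Rr xi0 z ν)) ≤ b ^ 2 * -(δ₂ * ‖ν‖ ^ 2) :=
        mul_le_mul_of_nonneg_left n1 (by positivity)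
      have k2 : μ * (b ^ 2 * ‖ν‖ ^ 2) ≤ δ₂ * (b ^ 2 * ‖ν‖ ^ 2) :=
        mul_le_mul_of_nonneg_right (min_le_right _ _) (by positivity)
      linarith
    have n4 : ε * (ε * ix G z 0 (2 * π) (NN.fd G z (nuP K) w) (NN.fd' G z (nuP K) w)
        (NN.fd G z (nuP K) w) (NN.fd' G z (nuP K) w)) ≤ -(μ * (ε ^ 2 * ‖w‖ ^ 2)) := by
      have k1 : ε ^ 2 * ix G z 0 (2 * π) (NN.fd G z (nuP K) w) (NN.fd' G z (nuP K) w)
        (NN.fd G z (nuP K) w) (NN.fd' G z (nuP K) w) ≤ ε ^ 2 * -(δ * ‖w‖ ^ 2) :=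
        mul_le_mul_of_nonneg_left n2 (by positivity)
      have k2 : μ * (ε ^ 2 * ‖w‖ ^ 2) ≤ δ * (ε ^ 2 * ‖w‖ ^ 2) :=
        mul_le_mul_of_nonneg_right (min_le_left _ _) (by positivity)
      linarith
    have n5 : -(2 * μ * Q) = 2 * -(μ * (b ^ 2 * ‖ν‖ ^ 2)) + 2 * -(μ * (ε ^ 2 * ‖w‖ ^ 2)) := by
      rw [hQ]; ring
    rw [n5]
    exact add_le_add (mul_le_mul_of_nonneg_left n3 zero_le_two)
      (mul_le_mul_of_nonneg_left n4 zero_le_two)
  have hs2 : s ^ 2 * (s⁻¹ * (s⁻¹ * ix G z 0 (4 * π) F F' F F')) =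
      ix G z 0 (4 * π) F F' F F' := by
    have : s ^ 2 * (s⁻¹ * (s⁻¹ * ix G z 0 (4 * π) F F' F F')) =
      (s * s⁻¹) ^ 2 * ix G z 0 (4 * π) F F' F F' := by ring
    rw [this, hsinv]; ring
  rw [hs2] at key
  have hcub : C₀ * s ^ 3 * (4 * π) ≤ μ * Q := by
    have h5 : C₀ * s ^ 3 * (4 * π) = Q₀ * a * a ^ 2 := by
      rw [hs, hQ₀]; field_simp
    have h6 : Q₀ * a ≤ μ / 2 := by
      have h7 := min_le_right (m / (2 * M)) (μ / (4 * Q₀ + 1))
      rw [← hε₀, le_div_iff₀ (by positivity)] at h7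
      have h8 : Q₀ * a ≤ Q₀ * (2 * ε₀) := mul_le_mul_of_nonneg_left ha2 hQ₀0
      nlinarith
    rw [h5]
    calc Q₀ * a * a ^ 2 ≤ μ / 2 * (2 * Q) := mul_le_mul h6 haQ (by positivity) (by positivity)
      _ = μ * Q := by ring
  linarith

end Crest.Agent.R208.FT
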