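import Crest.Agent.R208.FT1
import Crest.Agent.R208.FL5
import Crest.Agent.R208.TP2

/-!
R208, (8,2), block F2 (helper336), part FT3: the level two family `f2` over the total space of
`P₂ ⊕ N` over `US G`.
-/

set_option autoImplicit false
set_option linter.unusedSectionVars false

open Set Filter Topology MeasureTheory
open scoped ContDiff RealInnerProductSpace Real
open Crest.GeometryTopology.Submanifold
open Crest.Agent.R241.DDefs Crest.Agent.R241.D Crest.Agent.R241.D2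

noncomputable section

namespace Crest.Agent.R208.FT

open Crest.Agent.R208.SV Crest.Agent.R208.MS Crest.Agent.R208.NN Crest.Agent.R208.FL

/-! ### doubling -/

section double
variable {N : ℕ}

theorem En_double (c : ℝ → Euc N) :
    En (fun t => c (2 * t)) = ∫ t in (0:ℝ)..(4 * π), ‖deriv c t‖ ^ 2 := by
  unfold En
  have h1 : ∀ t, ‖deriv (fun t => c (2 * t)) t‖ ^ 2 = 4 * ‖deriv c (2 * t)‖ ^ 2 := by
    intro t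
    rw [deriv_comp_mul_left (c := (2:ℝ)) (f := c) (x := t), norm_smul, mul_pow]
    norm_num
  rw [intervalIntegral.integral_congr (g := fun t => 4 * ‖deriv c (2 * t)‖ ^ 2)
    (fun t _ => h1 t), intervalIntegral.integral_const_mul,
    intervalIntegral.integral_comp_mul_left (fun t => ‖deriv c t‖ ^ 2) (by norm_num : (2:ℝ) ≠ 0),
    smul_eq_mul, mul_zero, show 2 * (2 * π) = 4 * π by ring]
  ring

theorem En_double_per {c : ℝ → Euc N} (hc : ContDiff ℝ ∞ c) (hp : ∀ t, c (t + 2 * π) = c t) :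
    En (fun t => c (2 * t)) = 4 * En c := by
  rw [En_double]
  unfold En
  have hcont : Continuous (fun t => ‖deriv c t‖ ^ 2) :=
    ((hc.continuous_deriv (by simp)).norm).pow 2
  have hper : ∀ t, ‖deriv c (t + 2 * π)‖ ^ 2 = ‖deriv c t‖ ^ 2 := by
    intro t
    rw [← deriv_comp_add_const]
    simp only [hp]
  have h1 : ∫ t in (2 * π)..(4 * π), ‖deriv c t‖ ^ 2 = ∫ t in (0:ℝ)..(2 * π), ‖deriv c t‖ ^ 2 := by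
    have h2 := intervalIntegral.integral_comp_add_right (a := 0) (b := 2 * π)
      (fun t => ‖deriv c t‖ ^ 2) (2 * π)
    rw [zero_add, show 2 * π + 2 * π = 4 * π by ring] at h2
    rw [← h2]
    exact intervalIntegral.integral_congr fun t _ => hper t
  rw [← intervalIntegral.integral_add_adjacent_intervals (b := 2 * π)
    (hcont.intervalIntegrable _ _) (hcont.intervalIntegrable _ _), h1]
  ring

end double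

variable {n N K k : ℕ} {κ : ℝ} {S : Set (Euc N)} {G : Geo n N κ S} {lg : Euc N → Euc N → Euc N}
  {ρ : Euc N → Euc N} {r C r' Kr B w δ : ℝ} {PN : Euc N × Euc N → Wt N K →L[ℝ] Wt N K}
  {H₂ : Type} [NormedAddCommGroup H₂] [InnerProductSpace ℝ H₂] [FiniteDimensional ℝ H₂]
  {P₂ : Euc N × Euc N → H₂ →L[ℝ] H₂} {Rr : ℝ → H₂ →L[ℝ] H₂}
  {xi0 : Euc N × Euc N → H₂ →L[ℝ] Euc N} {δ₂ : ℝ} {ε ε₂ E₀ η : ℝ} {J : ℕ}

/-- cut-off of the second field: `1` for `q ≤ 1/4`, `0` for `q ≥ 1/2` -/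
def cu (q : ℝ) : ℝ := 1 - ct (1 / 4) q

theorem cu_one {q : ℝ} (h : q ≤ 1 / 4) : cu q = 1 := by rw [cu, ct_zero h, sub_zero]
theorem cu_zero {q : ℝ} (h : 1 / 2 ≤ q) : cu q = 0 := by
  rw [cu, ct_one (by linarith), sub_self]
theorem cu_nonneg (q : ℝ) : 0 ≤ cu q := sub_nonneg.2 (ct_le_one _ _)
theorem cu_le_one (q : ℝ) : cu q ≤ 1 := by
  have := ct_nonneg (1 / 4) q
  unfold cu; linarith
theorem contDiff_cu : ContDiff ℝ ∞ cu := contDiff_const.sub (contDiff_ct _)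

/-- the coefficient of the second field -/
def bb (ε₂ : ℝ) (p : ((Euc N × Euc N) × H₂) × Wt N K) : ℝ :=
  ε₂ * cu (‖p.2‖ ^ 2) * th (‖p.1.2‖ ^ 2)

/-- the family near the zero section -/
def sg2 (G : Geo n N κ S) (ρ : Euc N → Euc N) (xi0 : Euc N × Euc N → H₂ →L[ℝ] Euc N) (ε ε₂ : ℝ)
    (p : ((Euc N × Euc N) × H₂) × Wt N K) : Euc N :=
  ρ (p.1.1.1 + (ε • G.P p.1.1.1 (ev (nuP K) 0 p.2) + bb ε₂ p • xi0 p.1.1 p.1.2))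

/-- **the level two family** -/
def f2 (G : Geo n N κ S) (lg : Euc N → Euc N → Euc N) (ρ : Euc N → Euc N) (w : ℝ) (J : ℕ)
    (xi0 : Euc N × Euc N → H₂ →L[ℝ] Euc N) (ε ε₂ : ℝ) (p : ((Euc N × Euc N) × H₂) × Wt N K) :
    Euc N :=
  ρ ((1 - ct (3 / 4) (‖p.2‖ ^ 2)) • sg2 G ρ xi0 ε ε₂ p +
    ct (3 / 4) (‖p.2‖ ^ 2) • f1 G lg ρ w J ε (p.1.1, p.2))

/-- the action, in phase time (the flow at double speed) -/
def Ph2 (G : Geo n N κ S) (K : ℕ) (Rr : ℝ → H₂ →L[ℝ] H₂) (t : ℝ)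
    (p : ((Euc N × Euc N) × H₂) × Wt N K) : ((Euc N × Euc N) × H₂) × Wt N K :=
  ((fl G (p.1.1, 2 * t), Rr (2 * t) p.1.2), Rt (nuP K) (2 * t) p.2)

/-- the geodesic plus the two fields -/
def A2 (G : Geo n N κ S) (Rr : ℝ → H₂ →L[ℝ] H₂) (xi0 : Euc N × Euc N → H₂ →L[ℝ] Euc N) (ε b : ℝ)
    (z : Euc N × Euc N) (ν : H₂) (w : Wt N K) (t : ℝ) : Euc N :=
  ε • fd G z (nuP K) w t + b • xf G Rr xi0 z ν t

/-- data of the level two family -/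
structure D2 (G : Geo n N κ S) (k K : ℕ) (lg : Euc N → Euc N → Euc N) (ρ : Euc N → Euc N)
    (r C r' Kr B w δ : ℝ) (PN : Euc N × Euc N → Wt N K →L[ℝ] Wt N K) (ε : ℝ) (J : ℕ)
    (E₀ η : ℝ) (P₂ : Euc N × Euc N → H₂ →L[ℝ] H₂) (Rr : ℝ → H₂ →L[ℝ] H₂)
    (xi0 : Euc N × Euc N → H₂ →L[ℝ] Euc N) (δ₂ ε₂ : ℝ) : Prop
    extends D1 G k K lg ρ r C r' Kr B w δ PN ε J E₀ η where
  xi : XI G P₂ Rr xi0 δ₂
  e2_pos : 0 < ε₂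
  small2 : ∀ z ∈ L.US G, ∀ w, PN z w = w → ‖w‖ ≤ 1 → ∀ ν, P₂ z ν = ν → ∀ b, 0 ≤ b →
    b * ‖ν‖ ≤ 3 * ε₂ → ∀ t, ‖ε • fd G z (nuP K) w t + b • xf G Rr xi0 z ν t‖ < r' / 2
  en2 : ∀ z ∈ L.US G, ∀ w, PN z w = w → ‖w‖ ≤ 1 → ∀ ν, P₂ z ν = ν → ∀ b, 0 ≤ b →
    b * ‖ν‖ ≤ 3 * ε₂ →
    ∫ t in (0:ℝ)..(4 * π), ‖deriv (fun t => ρ ((fl G (z, t)).1 +
      (ε • fd G z (nuP K) w t + b • xf G Rr xi0 z ν t))) t‖ ^ 2 ≤
        4 * π - min δ δ₂ * (ε ^ 2 * ‖w‖ ^ 2 + b ^ 2 * ‖ν‖ ^ 2)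

theorem mem_TT {p : ((Euc N × Euc N) × H₂) × Wt N K} : p ∈ TP.TT (L.US G) P₂ PN ↔
    (p.1.1 ∈ L.US G ∧ P₂ p.1.1 p.1.2 = p.1.2) ∧ PN p.1.1 p.2 = p.2 := Iff.rfl

theorem mem_Tot {p : ((Euc N × Euc N) × H₂) × Wt N K} (hp : p ∈ TP.TT (L.US G) P₂ PN) :
    ((p.1.1, p.2) : (Euc N × Euc N) × Wt N K) ∈ FI.Tot (L.US G) PN := ⟨hp.1.1, hp.2⟩

theorem bb_nonneg (hε₂ : 0 ≤ ε₂) (p : ((Euc N × Euc N) × H₂) × Wt N K) : 0 ≤ bb ε₂ p :=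
  mul_nonneg (mul_nonneg hε₂ (cu_nonneg _)) (th_nonneg _)

theorem th_norm_le (ν : H₂) : th (‖ν‖ ^ 2) * ‖ν‖ ≤ 3 := by
  have h1 := th_sq_le (q := ‖ν‖ ^ 2) (by positivity)
  have h2 : (th (‖ν‖ ^ 2) * ‖ν‖) ^ 2 ≤ 3 ^ 2 := by rw [mul_pow]; linarith
  exact (abs_le_of_sq_le_sq' h2 (by norm_num)).2

theorem bb_le (hε₂ : 0 ≤ ε₂) (p : ((Euc N × Euc N) × H₂) × Wt N K) :
    bb ε₂ p * ‖p.1.2‖ ≤ 3 * ε₂ := by
  unfold bb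
  have h1 := th_norm_le p.1.2
  have h2 := cu_le_one (‖p.2‖ ^ 2)
  have h3 := cu_nonneg (‖p.2‖ ^ 2)
  have h4 := th_nonneg (‖p.1.2‖ ^ 2)
  have h5 : 0 ≤ th (‖p.1.2‖ ^ 2) * ‖p.1.2‖ := mul_nonneg h4 (norm_nonneg _)
  calc ε₂ * cu (‖p.2‖ ^ 2) * th (‖p.1.2‖ ^ 2) * ‖p.1.2‖ =
      ε₂ * (cu (‖p.2‖ ^ 2) * (th (‖p.1.2‖ ^ 2) * ‖p.1.2‖)) := by ring
    _ ≤ ε₂ * (1 * 3) := by gcongr
    _ = 3 * ε₂ := by ring

theorem contDiff_bb : ContDiff ℝ ∞ (bb ε₂ : ((Euc N × Euc N) × H₂) × Wt N K → ℝ) := by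
  have h1 : ContDiff ℝ ∞ (fun p : ((Euc N × Euc N) × H₂) × Wt N K => cu (‖p.2‖ ^ 2)) :=
    contDiff_cu.comp ((contDiff_norm_sq ℝ).comp contDiff_snd)
  have h2 : ContDiff ℝ ∞ (fun p : ((Euc N × Euc N) × H₂) × Wt N K => th (‖p.1.2‖ ^ 2)) :=
    contDiff_th.comp ((contDiff_norm_sq ℝ).comp (contDiff_snd.comp contDiff_fst))
  exact (contDiff_const.mul h1).mul h2

namespace D2

variable (h : D2 G k K lg ρ r C r' Kr B w δ PN ε J E₀ η P₂ Rr xi0 δ₂ ε₂)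

include h

theorem Ph2_mem {p : ((Euc N × Euc N) × H₂) × Wt N K} (hp : p ∈ TP.TT (L.US G) P₂ PN) (t : ℝ) :
    Ph2 G K Rr t p ∈ TP.TT (L.US G) P₂ PN := by
  refine ⟨⟨NB.fl_mem_US hp.1.1 _, ?_⟩, ?_⟩
  · change P₂ (fl G (p.1.1, 2 * t)) (Rr (2 * t) p.1.2) = Rr (2 * t) p.1.2
    exact h.xi.P_Rr hp.1.1 hp.1.2 _
  · change PN (fl G (p.1.1, 2 * t)) (Rt (nuP K) (2 * t) p.2) = Rt (nuP K) (2 * t) p.2
    rw [h.neg.equi _ hp.1.1]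
    rw [show PN p.1.1 p.2 = p.2 from hp.2]

theorem norm_Ph2 (t : ℝ) (p : ((Euc N × Euc N) × H₂) × Wt N K) :
    ‖(Ph2 G K Rr t p).2‖ = ‖p.2‖ ∧ ‖(Ph2 G K Rr t p).1.2‖ = ‖p.1.2‖ :=
  ⟨norm_Rt _ _ _, h.xi.iso _ _⟩

theorem bb_Ph2 (t : ℝ) (p : ((Euc N × Euc N) × H₂) × Wt N K) :
    bb ε₂ (Ph2 G K Rr t p) = bb ε₂ p := by
  unfold bb
  rw [(h.norm_Ph2 t p).1, (h.norm_Ph2 t p).2]

/-- the orbit loops near the zero section -/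
theorem sg2_Ph2 (p : ((Euc N × Euc N) × H₂) × Wt N K) (t : ℝ) :
    sg2 G ρ xi0 ε ε₂ (Ph2 G K Rr t p) = ρ ((fl G (p.1.1, 2 * t)).1 +
      (ε • fd G p.1.1 (nuP K) p.2 (2 * t) + bb ε₂ p • xf G Rr xi0 p.1.1 p.1.2 (2 * t))) := by
  unfold sg2
  rw [h.bb_Ph2]
  change ρ ((fl G (p.1.1, 2 * t)).1 + (ε • G.P (fl G (p.1.1, 2 * t)).1
    (ev (nuP K) 0 (Rt (nuP K) (2 * t) p.2)) + _)) = _
  rw [ev_Rt, zero_add]
  rfl

/-- smallness of the inner part -/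
theorem inner_lt {p : ((Euc N × Euc N) × H₂) × Wt N K} (hp : p ∈ TP.TT (L.US G) P₂ PN)
    (h1 : ‖p.2‖ ^ 2 ≤ 1) (t : ℝ) :
    ‖ε • fd G p.1.1 (nuP K) p.2 t + bb ε₂ p • xf G Rr xi0 p.1.1 p.1.2 t‖ < r' / 2 :=
  h.small2 _ hp.1.1 _ hp.2 (by nlinarith [norm_nonneg p.2]) _ hp.1.2 _
    (bb_nonneg h.e2_pos.le p) (bb_le h.e2_pos.le p) t

theorem inner_lt' {p : ((Euc N × Euc N) × H₂) × Wt N K} (hp : p ∈ TP.TT (L.US G) P₂ PN)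
    (h1 : ‖p.2‖ ^ 2 ≤ 1) :
    ‖(p.1.1.1 + (ε • G.P p.1.1.1 (ev (nuP K) 0 p.2) + bb ε₂ p • xi0 p.1.1 p.1.2)) -
      p.1.1.1‖ < r' := by
  have h2 := h.inner_lt hp h1 0
  unfold NN.fd xf at h2
  rw [fl_zero, h.xi.zero] at h2
  have h3 := h.rt.r_pos
  rw [add_sub_cancel_left]
  exact h2.trans (by linarith)

theorem contDiffAt_sg2 {p : ((Euc N × Euc N) × H₂) × Wt N K} (hp : p ∈ TP.TT (L.US G) P₂ PN)
    (h1 : ‖p.2‖ ^ 2 ≤ 1) : ContDiffAt ℝ ∞ (sg2 G ρ xi0 ε ε₂) p := by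
  have h2 := h.rt.smooth _ hp.1.1.1.1 _ (h.inner_lt' hp h1)
  have h3 : ContDiffAt ℝ ∞ (fun p : ((Euc N × Euc N) × H₂) × Wt N K => p.1.1.1) p := by fun_prop
  have h4 : ContDiff ℝ ∞ (fun p : ((Euc N × Euc N) × H₂) × Wt N K => G.P p.1.1.1) :=
    G.contDiff_P.comp (by fun_prop)
  have h5 : ContDiff ℝ ∞ (fun p : ((Euc N × Euc N) × H₂) × Wt N K =>
      (ev (nuP K) 0 p.2 : Euc N)) :=
    (ev (nuP K) 0 : Wt N K →L[ℝ] Euc N).contDiff.comp contDiff_snd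
  have h6 : ContDiffAt ℝ ∞ (fun p : ((Euc N × Euc N) × H₂) × Wt N K => xi0 p.1.1) p :=
    ContDiffAt.comp (g := xi0) p (h.xi.smooth _ hp.1.1) (by fun_prop)
  have h7 : ContDiffAt ℝ ∞ (fun p : ((Euc N × Euc N) × H₂) × Wt N K => xi0 p.1.1 p.1.2) p :=
    h6.clm_apply (by fun_prop)
  have h8 : ContDiffAt ℝ ∞ (fun p : ((Euc N × Euc N) × H₂) × Wt N K =>
      p.1.1.1 + (ε • G.P p.1.1.1 (ev (nuP K) 0 p.2) + bb ε₂ p • xi0 p.1.1 p.1.2)) p :=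
    h3.add (((contDiffAt_const (c := ε)).smul (h4.clm_apply h5).contDiffAt).add
      ((contDiff_bb (ε₂ := ε₂)).contDiffAt.smul h7))
  exact ContDiffAt.comp (g := ρ) p h2 h8

theorem sg2_mem {p : ((Euc N × Euc N) × H₂) × Wt N K} (hp : p ∈ TP.TT (L.US G) P₂ PN)
    (h1 : ‖p.2‖ ^ 2 ≤ 1) : sg2 G ρ xi0 ε ε₂ p ∈ S :=
  h.rt.mem _ hp.1.1.1.1 _ (h.inner_lt' hp h1)

theorem sg2_eq_f1 {p : ((Euc N × Euc N) × H₂) × Wt N K} (hp : p ∈ TP.TT (L.US G) P₂ PN)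
    (h0 : 1 / 2 ≤ ‖p.2‖ ^ 2) (h1 : ‖p.2‖ ^ 2 ≤ 1) :
    sg2 G ρ xi0 ε ε₂ p = f1 G lg ρ w J ε (p.1.1, p.2) := by
  rw [h.toD1.f1_near (mem_Tot hp) h1]
  unfold sg2 bb
  rw [cu_zero h0, mul_zero, zero_mul, zero_smul, add_zero]

/-- `f2 = sg2` for `‖w‖ ≤ 1` -/
theorem f2_near {p : ((Euc N × Euc N) × H₂) × Wt N K} (hp : p ∈ TP.TT (L.US G) P₂ PN)
    (h1 : ‖p.2‖ ^ 2 ≤ 1) : f2 G lg ρ w J xi0 ε ε₂ p = sg2 G ρ xi0 ε ε₂ p := by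
  unfold f2
  have hS := h.sg2_mem hp h1
  rcases le_total (‖p.2‖ ^ 2) (3 / 4) with h2 | h2
  · rw [ct_zero h2, sub_zero, one_smul, zero_smul, add_zero, h.rt.eq _ hS]
  · rw [← h.sg2_eq_f1 hp (by linarith) h1, ← add_smul, sub_add_cancel, one_smul, h.rt.eq _ hS]

/-- `f2 = f1` for `‖w‖² ≥ 1/2` -/
theorem f2_far {p : ((Euc N × Euc N) × H₂) × Wt N K} (hp : p ∈ TP.TT (L.US G) P₂ PN)
    (h1 : 1 / 2 ≤ ‖p.2‖ ^ 2) : f2 G lg ρ w J xi0 ε ε₂ p = f1 G lg ρ w J ε (p.1.1, p.2) := by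
  rcases le_total (‖p.2‖ ^ 2) 1 with h2 | h2
  · rw [h.f2_near hp h2, h.sg2_eq_f1 hp h1 h2]
  · unfold f2
    rw [ct_one (by linarith), sub_self, zero_smul, one_smul, zero_add,
      h.rt.eq _ (h.toD1.fam.maps _ (mem_Tot hp))]

theorem f2_mem {p : ((Euc N × Euc N) × H₂) × Wt N K} (hp : p ∈ TP.TT (L.US G) P₂ PN) :
    f2 G lg ρ w J xi0 ε ε₂ p ∈ S := by
  rcases le_total (‖p.2‖ ^ 2) 1 with h2 | h2
  · rw [h.f2_near hp h2]; exact h.sg2_mem hp h2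
  · rw [h.f2_far hp (by linarith)]; exact h.toD1.fam.maps _ (mem_Tot hp)

theorem contDiffAt_f1' {p : ((Euc N × Euc N) × H₂) × Wt N K} (hp : p ∈ TP.TT (L.US G) P₂ PN) :
    ContDiffAt ℝ ∞ (fun p : ((Euc N × Euc N) × H₂) × Wt N K => f1 G lg ρ w J ε (p.1.1, p.2)) p :=
  ContDiffAt.comp (g := f1 G lg ρ w J ε) p (h.toD1.fam.smooth _ (mem_Tot hp)) (by fun_prop)

/-- **smoothness of the level two family** -/
theorem contDiffAt_f2 {p : ((Euc N × Euc N) × H₂) × Wt N K} (hp : p ∈ TP.TT (L.US G) P₂ PN) :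
    ContDiffAt ℝ ∞ (f2 G lg ρ w J xi0 ε ε₂) p := by
  have hf1 := h.contDiffAt_f1' hp
  have hc : ContDiff ℝ ∞ (fun p : ((Euc N × Euc N) × H₂) × Wt N K => ct (3 / 4) (‖p.2‖ ^ 2)) :=
    (contDiff_ct _).comp ((contDiff_norm_sq ℝ).comp contDiff_snd)
  rcases le_or_gt (‖p.2‖ ^ 2) 1 with h2 | h2
  · have hS := h.sg2_mem hp h2
    have hin : (1 - ct (3 / 4) (‖p.2‖ ^ 2)) • sg2 G ρ xi0 ε ε₂ p +
        ct (3 / 4) (‖p.2‖ ^ 2) • f1 G lg ρ w J ε (p.1.1, p.2) = sg2 G ρ xi0 ε ε₂ p := by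
      rcases le_total (‖p.2‖ ^ 2) (3 / 4) with h3 | h3
      · rw [ct_zero h3, sub_zero, one_smul, zero_smul, add_zero]
      · rw [← h.sg2_eq_f1 hp (by linarith) h2, ← add_smul, sub_add_cancel, one_smul]
    have h4 : ContDiffAt ℝ ∞ (fun p : ((Euc N × Euc N) × H₂) × Wt N K =>
        (1 - ct (3 / 4) (‖p.2‖ ^ 2)) • sg2 G ρ xi0 ε ε₂ p +
        ct (3 / 4) (‖p.2‖ ^ 2) • f1 G lg ρ w J ε (p.1.1, p.2)) p :=
      ((contDiffAt_const.sub hc.contDiffAt).smul (h.contDiffAt_sg2 hp h2)).add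
        (hc.contDiffAt.smul hf1)
    refine ContDiffAt.comp (g := ρ) p ?_ h4
    rw [hin]
    exact h.rt.smooth _ hS _ (by rw [sub_self, norm_zero]; exact h.rt.r_pos)
  · have hy := h.toD1.fam.maps _ (mem_Tot hp)
    have h4 : ContDiffAt ℝ ∞ (fun p : ((Euc N × Euc N) × H₂) × Wt N K =>
        ρ (f1 G lg ρ w J ε (p.1.1, p.2))) p :=
      ContDiffAt.comp (g := ρ) p
        (h.rt.smooth _ hy _ (by rw [sub_self, norm_zero]; exact h.rt.r_pos)) hf1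
    refine h4.congr_of_eventuallyEq ?_
    have ho : ∀ᶠ q : ((Euc N × Euc N) × H₂) × Wt N K in 𝓝 p, 1 < ‖q.2‖ ^ 2 :=
      (isOpen_lt continuous_const (continuous_snd.norm.pow 2)).mem_nhds h2
    filter_upwards [ho] with q hq
    unfold f2
    rw [ct_one (by linarith), sub_self, zero_smul, one_smul, zero_add]

/-- `f2` over the zero section of `P₂` is `f1` -/
theorem f2_zero {z : Euc N × Euc N} {v : Wt N K} (hz : z ∈ L.US G) (hv : PN z v = v) :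
    f2 G lg ρ w J xi0 ε ε₂ ((z, (0 : H₂)), v) = f1 G lg ρ w J ε (z, v) := by
  have hp : (((z, (0 : H₂)), v) : ((Euc N × Euc N) × H₂) × Wt N K) ∈ TP.TT (L.US G) P₂ PN :=
    ⟨⟨hz, map_zero _⟩, hv⟩
  rcases le_total (‖v‖ ^ 2) 1 with h2 | h2
  · rw [h.f2_near hp h2, h.toD1.f1_near (mem_Tot hp) h2]
    unfold sg2
    simp only [map_zero, smul_zero, add_zero]
  · exact h.f2_far hp (by change 1 / 2 ≤ ‖v‖ ^ 2; linarith)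

/-- the formula near the zero section -/
theorem f2_formula {p : ((Euc N × Euc N) × H₂) × Wt N K} (hp : p ∈ TP.TT (L.US G) P₂ PN)
    (h1 : ‖p.2‖ ^ 2 ≤ 1 / 4) (h2 : ‖p.1.2‖ ^ 2 ≤ 4) : f2 G lg ρ w J xi0 ε ε₂ p =
      ρ (p.1.1.1 + (ε • G.P p.1.1.1 (ev (nuP K) 0 p.2) + ε₂ • xi0 p.1.1 p.1.2)) := by
  rw [h.f2_near hp (by linarith)]
  unfold sg2 bb
  rw [cu_one h1, th_one h2, mul_one, mul_one]

/-- orbit loops, near -/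
theorem orb_near {p : ((Euc N × Euc N) × H₂) × Wt N K} (hp : p ∈ TP.TT (L.US G) P₂ PN)
    (h1 : ‖p.2‖ ^ 2 ≤ 1) (t : ℝ) : f2 G lg ρ w J xi0 ε ε₂ (Ph2 G K Rr t p) =
      ρ ((fl G (p.1.1, 2 * t)).1 + (ε • fd G p.1.1 (nuP K) p.2 (2 * t) +
        bb ε₂ p • xf G Rr xi0 p.1.1 p.1.2 (2 * t))) := by
  rw [h.f2_near (h.Ph2_mem hp t) (by rw [(h.norm_Ph2 t p).1]; exact h1), h.sg2_Ph2]

/-- orbit loops, far -/
theorem orb_far {p : ((Euc N × Euc N) × H₂) × Wt N K} (hp : p ∈ TP.TT (L.US G) P₂ PN)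
    (h1 : 1 / 2 ≤ ‖p.2‖ ^ 2) (t : ℝ) : f2 G lg ρ w J xi0 ε ε₂ (Ph2 G K Rr t p) =
      oc (Ph G K) (f1 G lg ρ w J ε) (p.1.1, p.2) (2 * t) := by
  rw [h.f2_far (h.Ph2_mem hp t) (by rw [(h.norm_Ph2 t p).1]; exact h1)]
  rfl

/-- constant loops far away -/
theorem f2_const {p : ((Euc N × Euc N) × H₂) × Wt N K} (hp : p ∈ TP.TT (L.US G) P₂ PN)
    (h1 : 5 / 4 ≤ ‖p.2‖ ^ 2) (t : ℝ) :
    f2 G lg ρ w J xi0 ε ε₂ (Ph2 G K Rr t p) = f2 G lg ρ w J xi0 ε ε₂ p := by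
  rw [h.orb_far hp (by linarith), h.f2_far hp (by linarith)]
  unfold oc
  exact h.toD1.f1_const (mem_Tot hp) h1 _

/-- energies, near -/
theorem En_near {p : ((Euc N × Euc N) × H₂) × Wt N K} (hp : p ∈ TP.TT (L.US G) P₂ PN)
    (h1 : ‖p.2‖ ^ 2 ≤ 1) : En (fun t => f2 G lg ρ w J xi0 ε ε₂ (Ph2 G K Rr t p)) ≤
      4 * π - min δ δ₂ * (ε ^ 2 * ‖p.2‖ ^ 2 + bb ε₂ p ^ 2 * ‖p.1.2‖ ^ 2) := by
  set c : ℝ → Euc N := fun t => ρ ((fl G (p.1.1, t)).1 + (ε • fd G p.1.1 (nuP K) p.2 t +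
        bb ε₂ p • xf G Rr xi0 p.1.1 p.1.2 t)) with hc
  have h2 : (fun t => f2 G lg ρ w J xi0 ε ε₂ (Ph2 G K Rr t p)) = fun t => c (2 * t) :=
    funext fun t => h.orb_near hp h1 t
  rw [h2, En_double]
  exact h.en2 _ hp.1.1 _ hp.2 (by nlinarith [norm_nonneg p.2]) _ hp.1.2 _
    (bb_nonneg h.e2_pos.le p) (bb_le h.e2_pos.le p)

/-- energies, far -/
theorem En_far {p : ((Euc N × Euc N) × H₂) × Wt N K} (hp : p ∈ TP.TT (L.US G) P₂ PN)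
    (h1 : 1 / 2 ≤ ‖p.2‖ ^ 2) : En (fun t => f2 G lg ρ w J xi0 ε ε₂ (Ph2 G K Rr t p)) =
      4 * En (oc (Ph G K) (f1 G lg ρ w J ε) (p.1.1, p.2)) := by
  have h2 : (fun t => f2 G lg ρ w J xi0 ε ε₂ (Ph2 G K Rr t p)) = fun t =>
      oc (Ph G K) (f1 G lg ρ w J ε) (p.1.1, p.2) (2 * t) :=
    funext fun t => h.orb_far hp h1 t
  have hL := loop_oc h.toD1.toD0.cir h.toD1.fam (mem_Tot hp)
  rw [h2, En_double_per hL.smooth hL.per]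

/-- **energies of the level two family** -/
theorem exists_En_le : ∃ δ' > 0, ∀ p ∈ TP.TT (L.US G) P₂ PN,
    En (fun t => f2 G lg ρ w J xi0 ε ε₂ (Ph2 G K Rr t p)) ≤
      4 * π - δ' * min 1 (‖p.2‖ ^ 2 + ‖p.1.2‖ ^ 2) := by
  have hδ := h.neg.pos_δ
  have hδ₂ := h.xi.pos
  have he := h.eps_pos
  have he2 := h.e2_pos
  have hE := h.E_lt
  set μ : ℝ := min δ δ₂ with hμ
  have hμ0 : 0 < μ := lt_min hδ hδ₂
  set δ' : ℝ := min (μ * ε ^ 2 / 4) (min (μ * ε₂ ^ 2) (4 * (π - E₀))) with hδ'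
  have hδ'0 : 0 < δ' := by
    refine lt_min (by positivity) (lt_min (by positivity) (by linarith))
  have hd1 : δ' ≤ μ * ε ^ 2 / 4 := min_le_left _ _
  have hd2 : δ' ≤ μ * ε₂ ^ 2 := (min_le_right _ _).trans (min_le_left _ _)
  have hd3 : δ' ≤ 4 * (π - E₀) := (min_le_right _ _).trans (min_le_right _ _)
  refine ⟨δ', hδ'0, fun p hp => ?_⟩
  have hm1 : min 1 (‖p.2‖ ^ 2 + ‖p.1.2‖ ^ 2) ≤ 1 := min_le_left _ _
  have hm2 : min 1 (‖p.2‖ ^ 2 + ‖p.1.2‖ ^ 2) ≤ ‖p.2‖ ^ 2 + ‖p.1.2‖ ^ 2 := min_le_right _ _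
  have hm0 : 0 ≤ min 1 (‖p.2‖ ^ 2 + ‖p.1.2‖ ^ 2) := le_min zero_le_one (by positivity)
  have hb0 : 0 ≤ bb ε₂ p ^ 2 * ‖p.1.2‖ ^ 2 := by positivity
  rcases le_or_gt (‖p.2‖ ^ 2) (1 / 4) with h1 | h1
  · refine (h.En_near hp (by linarith)).trans ?_
    have h3 := le_th_sq (q := ‖p.1.2‖ ^ 2) (by positivity)
    have h4 : bb ε₂ p ^ 2 * ‖p.1.2‖ ^ 2 = ε₂ ^ 2 * (th (‖p.1.2‖ ^ 2) ^ 2 * ‖p.1.2‖ ^ 2) := by
      unfold bb; rw [cu_one h1]; ring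
    rw [h4]
    have h5 : μ * (ε₂ ^ 2 * min 1 (‖p.1.2‖ ^ 2)) ≤
        μ * (ε₂ ^ 2 * (th (‖p.1.2‖ ^ 2) ^ 2 * ‖p.1.2‖ ^ 2)) := by gcongr
    have h6 : min 1 (‖p.2‖ ^ 2 + ‖p.1.2‖ ^ 2) ≤ ‖p.2‖ ^ 2 + min 1 (‖p.1.2‖ ^ 2) := by
      rcases le_total 1 (‖p.1.2‖ ^ 2) with h7 | h7
      · rw [min_eq_left h7]; exact hm1.trans (by nlinarith [sq_nonneg ‖p.2‖])
      · rw [min_eq_right h7]; exact hm2
    have h7 : 0 ≤ min 1 (‖p.1.2‖ ^ 2) := le_min zero_le_one (by positivity)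
    have h8 : δ' * min 1 (‖p.2‖ ^ 2 + ‖p.1.2‖ ^ 2) ≤
        δ' * ‖p.2‖ ^ 2 + δ' * min 1 (‖p.1.2‖ ^ 2) := by
      rw [← mul_add]; gcongr
    have h9 : δ' * ‖p.2‖ ^ 2 ≤ μ * (ε ^ 2 * ‖p.2‖ ^ 2) := by
      have h10 : δ' ≤ μ * ε ^ 2 := by
        have : 0 ≤ μ * ε ^ 2 := by positivity
        linarith
      calc δ' * ‖p.2‖ ^ 2 ≤ μ * ε ^ 2 * ‖p.2‖ ^ 2 := by gcongr
        _ = _ := by ring
    have h10 : δ' * min 1 (‖p.1.2‖ ^ 2) ≤ μ * (ε₂ ^ 2 * min 1 (‖p.1.2‖ ^ 2)) := by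
      calc δ' * min 1 (‖p.1.2‖ ^ 2) ≤ μ * ε₂ ^ 2 * min 1 (‖p.1.2‖ ^ 2) := by gcongr
        _ = _ := by ring
    linarith
  · have hlow : δ' * min 1 (‖p.2‖ ^ 2 + ‖p.1.2‖ ^ 2) ≤ δ' := by nlinarith
    rcases le_or_gt (‖p.2‖ ^ 2) 1 with h2 | h2
    · refine (h.En_near hp h2).trans ?_
      have h3 : μ * ε ^ 2 / 4 ≤ μ * (ε ^ 2 * ‖p.2‖ ^ 2) := by
        have : μ * ε ^ 2 * (1 / 4) ≤ μ * ε ^ 2 * ‖p.2‖ ^ 2 := by gcongr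
        linarith
      have h4 : 0 ≤ μ * (bb ε₂ p ^ 2 * ‖p.1.2‖ ^ 2) := by positivity
      rw [mul_add]
      linarith
    · rw [h.En_far hp (by linarith)]
      have h3 := (h.toD1.En_f1_le (mem_Tot hp)).2.2 h2.le
      linarith

end D2

end Crest.Agent.R208.FT
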