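import Crest.Agent.R208.FT7
import Crest.Agent.R208.EA2

/-!
R208, (8,2), block F2 (helper336), part FT8: the level two family as `EA.Fam2` (helper595's
E-ASM), and its restriction to the zero section of `P₂`.
-/

set_option autoImplicit false
set_option linter.unusedSectionVars false
set_option linter.unusedVariables false

open Set Filter Topology MeasureTheory
open scoped ContDiff RealInnerProductSpace Real
open Crest.GeometryTopology.Submanifold
open Crest.Agent.R241.DDefs Crest.Agent.R241.D Crest.Agent.R241.D2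

noncomputable section

namespace Crest.Agent.R208.FT

open Crest.Agent.R208.SV Crest.Agent.R208.MS Crest.Agent.R208.NN Crest.Agent.R208.FL
open Crest.Agent.R208.CM (Cir Rep phR gf)
open Crest.Agent.R208.TP (up)

variable {n N K k : ℕ} {κ : ℝ} {S : Set (Euc N)} {G : Geo n N κ S} {lg : Euc N → Euc N → Euc N}
  {ρ : Euc N → Euc N} {r C r' Kr B w δ : ℝ} {PN : Euc N × Euc N → Wt N K →L[ℝ] Wt N K}
  {H₂ : Type} [NormedAddCommGroup H₂] [InnerProductSpace ℝ H₂] [FiniteDimensional ℝ H₂]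
  {P₂ : Euc N × Euc N → H₂ →L[ℝ] H₂} {Rr : ℝ → H₂ →L[ℝ] H₂}
  {xi0 : Euc N × Euc N → H₂ →L[ℝ] Euc N} {δ₂ : ℝ} {ε ε₂ E₀ η : ℝ} {J : ℕ}
  {E : Type} [NormedAddCommGroup E] [NormedSpace ℝ E] [FiniteDimensional ℝ E]
  {X : Set E} {φ : ℝ → E → E} {pi0 : E → Euc N × Euc N}

/-- the rotation of `N` in phase time -/
abbrev RN2 (N K : ℕ) : ℝ → Wt N K →L[ℝ] Wt N K := EA.R2x fun t => Rt (nuP K) t

/-- the rotation of `P₂` in phase time -/
abbrev RP2 (Rr : ℝ → H₂ →L[ℝ] H₂) : ℝ → H₂ →L[ℝ] H₂ := fun t => Rr (2 * t)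

theorem act₂_eq : EA.act₂ φ (RP2 Rr) (RN2 N K) = P2x φ N K Rr := rfl

namespace D2

variable (h : D2 G k K lg ρ r C r' Kr B w δ PN ε J E₀ η P₂ Rr xi0 δ₂ ε₂)

include h

/-- over the zero section of `P₂` the family is `f1` -/
theorem f2x_zero (hm : Eqm G X φ pi0) {z : E × Wt N K}
    (hz : z ∈ FI.Tot X fun x => PN (pi0 x)) :
    f2x G lg ρ w J xi0 ε ε₂ pi0 (EA.z₂ (H₂ := H₂) z) = f1 G lg ρ w J ε (up pi0 z) :=
  h.f2_zero (hm.maps _ hz.1) hz.2

/-- **the level two family as `EA.Fam2`**; `hE` is `level_unif` of EX12 -/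
theorem fam2 (hm : Eqm G X φ pi0) {D : EX.ED N} (hS : D.S = S)
    (hE : ∀ p ∈ TX X pi0 P₂ PN, 0 < c2 p →
      En (oc (P2x φ N K Rr) (f2x G lg ρ w J xi0 ε ε₂ pi0) p) ≤ D.B) :
    EA.Fam2 D X φ (RN2 N K) (fun x => PN (pi0 x)) (RP2 Rr) (fun x => P₂ (pi0 x)) 2
      (f2x G lg ρ w J xi0 ε ε₂ pi0) c2 where
  fam := hS ▸ h.fam_f2x hm
  cs z hz := contDiff_c2.contDiffAt
  ci z hz t := h.c2_inv t z
  en := hE
  out z hz ho := by
    rw [c2_one (ho.imp (fun h => by linarith) fun h => by linarith)]; norm_num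
  con z hz hn t := by
    have hz' : EA.z₂ (H₂ := H₂) z ∈ TX X pi0 P₂ PN := ⟨⟨hz.1, map_zero _⟩, hz.2⟩
    have h1 := h.f2x_const (φ := φ) hm hz' (by
      change 5 / 4 ≤ ‖z.2‖ ^ 2
      nlinarith) t
    rw [← h1, EA.Frm.z₂_act (R₂ := RP2 Rr)]
    rfl

end D2

end Crest.Agent.R208.FT
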