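import Crest.Agent.R208.NW6

/-! Row 208, block NW (helper537), part NW7: helper952's junction without hypotheses on the path of
antiperiodic fields. -/

set_option autoImplicit false
set_option linter.unusedSectionVars false
set_option linter.unusedVariables false

open MeasureTheory Set Filter Topology Module
open scoped ContDiff RealInnerProductSpace Real
open Crest.GeometryTopology.Submanifold
open Crest.Agent.R241.DDefs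
open Crest.Agent.R241.D2
open Crest.Agent.R208.NN (Wt nuP V0 qf Rt fd)
open Crest.Agent.R208.KG (idx gT OK Km)
open Crest.Agent.R208.SV (ix ixd jf jf')

noncomputable section

namespace Crest.Agent.R208.NW

variable {n N k Kn : ℕ} {κ : ℝ} {S : Set (Euc N)} {G : Geo n N κ S} {z : Euc N × Euc N}
  {ε δ : ℝ} {H₂ : Type*} [NormedAddCommGroup H₂] [NormedSpace ℝ H₂]

/-- **the model family near the zero section**: `R (γ + ε₂ ξ(j ν) + ε₁ nf(w))` -/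
def FX (h : GT.Bla G k) (PN : Euc N × Euc N → Wt N Kn →L[ℝ] Wt N Kn)
    (j : H₂ →L[ℝ] Wt N Kn × Wt N Kn) (ε₁ ε₂ : ℝ) (R : Euc N → Euc N)
    (p : ((Euc N × Euc N) × (H₂ × Wt N Kn)) × ℝ) : Euc N :=
  R ((fl G (p.1.1, p.2)).1 + (ε₂ • KR.Xi h PN (fun r => r) (fun _ => 1) p.1.1 p.2 (j p.1.2.1) +
    ε₁ • fd G p.1.1 (nuP Kn) p.1.2.2 p.2))

/-- **the junction** -/
theorem exists_junction {PN : Euc N × Euc N → Wt N Kn →L[ℝ] Wt N Kn}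
    {P₂ : Euc N × Euc N → H₂ →L[ℝ] H₂} {j : H₂ →L[ℝ] Wt N Kn × Wt N Kn} (hS : IsCompact S)
    (hO : OK G 4 ε) (h : GT.Bla G k) (hk : 1 ≤ k)
    (H : NB.NegB G (k - 1) (nuP Kn) δ PN) {c : ℝ} (hc0 : 0 < c) (hc : AK.HC G ε c)
    (hj : ∀ z ∈ L.US G, ∀ ν, P₂ z ν = ν → AK.PP PN PN z (j ν) = j ν) {cj : ℝ} (hcj : 0 < cj)
    (hjc : ∀ z ∈ L.US G, ∀ ν, P₂ z ν = ν → cj * ‖ν‖ ^ 2 ≤ ‖j ν‖ ^ 2)
    {ε₁ ε₂ : ℝ} (hε₁ : 0 < ε₁) (hε₂ : 0 < ε₂)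
    {R : Euc N → Euc N} {O : Set (Euc N)} (hOo : IsOpen O) (hSO : S ⊆ O)
    (hR : ContDiffOn ℝ ∞ R O) (hRS : MapsTo R O S) (hRid : ∀ x ∈ S, R x = x) :
    ∃ (Hm : (((Euc N × Euc N) × ℝ) × (H₂ × Wt N Kn)) × ℝ → Euc N) (r δf : ℝ), 0 < r ∧ 0 < δf ∧
      AK.LFam G (L.US G ×ˢ Icc (0:ℝ) 1) (fun p => AK.PP P₂ PN p.1) (4 * Real.pi) (fun p => p.1)
        Hm r ∧
      (∀ z ∈ L.US G, ∀ ζ, AK.PP P₂ PN z ζ = ζ → ‖ζ‖ < r → ∀ t,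
        Hm (((z, 0), ζ), t) = AK.FT G 4 ε (AK.kap z (AK.rem (AK.Lall h ε δ PN j) z ζ), t)) ∧
      (∀ z ∈ L.US G, ∀ ζ, AK.PP P₂ PN z ζ = ζ → ‖ζ‖ < r → ∀ t,
        Hm (((z, 1), ζ), t) = FX h PN j ε₁ ε₂ R ((z, ζ), t)) ∧
      (∀ z ∈ L.US G, ∀ τ ∈ Icc (0:ℝ) 1, ∀ ζ, AK.PP P₂ PN z ζ = ζ → ‖ζ‖ < r →
        AK.EnT (4 * Real.pi) (fun t => Hm (((z, τ), ζ), t)) ≤ 2 * Real.pi - δf * ‖ζ‖ ^ 2) := by
  obtain ⟨XI, δ₂, hδ₂, hXI, hX, h0⟩ := exists_XI hS h hk H hO hc0 hc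
  obtain ⟨Hm, r, δf, hr, hδf, h1, h2, h3, h4⟩ := AK.exists_junction hS hO h hk H hc0 hc hδ₂ hXI hX
    hj hcj hjc hε₁ hε₂ hOo hSO hR hRS hRid
  refine ⟨Hm, r, δf, hr, hδf, h1, h2, fun z hz ζ hζ hζr t => ?_, h4⟩
  rw [h3 z hz ζ hζ hζr t]
  unfold AK.FM AK.BM FX
  rw [h0 z hz (j ζ.1) (hj z hz ζ.1 (AK.PP_eq.1 hζ).1) t]

/-- the constants exist -/
theorem exists_eps (hS : IsCompact S) (G : Geo n N κ S) (h : GT.Bla G k) :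
    ∃ ε, OK G 4 ε ∧ ∃ c, 0 < c ∧ AK.HC G ε c := by
  obtain ⟨ε₀, h1, h2⟩ := KG.exists_En_le hS G h 4 (by decide)
  obtain ⟨h3, c, hc, h4⟩ := h2 ε₀ h1 le_rfl
  exact ⟨ε₀, h3, c, hc, h4⟩

end Crest.Agent.R208.NW
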