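import Crest.Agent.R208.FT7
import Crest.Agent.R208.FT6
import Crest.Agent.R208.NW7

/-!
R208, (8,2), block F2 (helper336), part FU1: the orbit loops of the level two family near the zero
section are helper537's model family `NW.FX` in phase time (`Hm` at `τ = 1` of the junction).
-/

set_option autoImplicit false
set_option linter.unusedSectionVars false
set_option linter.unusedVariables false

open Set Filter Topology MeasureTheory
open scoped ContDiff RealInnerProductSpace Real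
open Crest.GeometryTopology.Submanifold
open Crest.Agent.R241.DDefs Crest.Agent.R241.D Crest.Agent.R241.D2

noncomputable section

namespace Crest.Agent.R208.FT

open Crest.Agent.R208.SV Crest.Agent.R208.MS Crest.Agent.R208.NN Crest.Agent.R208.FL
open Crest.Agent.R208.DD (pl pr)

variable {n N K k : ℕ} {κ : ℝ} {S : Set (Euc N)} {G : Geo n N κ S} {lg : Euc N → Euc N → Euc N}
  {ρ : Euc N → Euc N} {r C r' Kr B w δ : ℝ} {PN : Euc N × Euc N → Wt N K →L[ℝ] Wt N K}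
  {δ₂ : ℝ} {ε ε₂ E₀ η : ℝ} {J : ℕ}

/-- `(pl, pr)` -/
def jN (N K : ℕ) : W2 N K →L[ℝ] Wt N K × Wt N K := (pl : W2 N K →L[ℝ] Wt N K).prod pr

theorem jN_apply (ν : W2 N K) : jN N K ν = (pl ν, pr ν) := rfl

/-- `jN` maps the doubled bundle into `N ⊕ N` -/
theorem jN_mem {z : Euc N × Euc N} {ν : W2 N K} (h : DD.NN PN z ν = ν) :
    AK.PP PN PN z (jN N K ν) = jN N K ν := by
  obtain ⟨ha, hb⟩ := DD.NN_eq_self_iff.1 h
  rw [AK.PP_eq]
  exact ⟨ha, hb⟩

theorem jN_le (ν : W2 N K) : (1 / 2 : ℝ) * ‖ν‖ ^ 2 ≤ ‖jN N K ν‖ ^ 2 := by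
  rw [DD.norm_sq_eq, jN_apply, Prod.norm_def]
  rcases le_total ‖pl ν‖ ‖pr ν‖ with h | h
  · rw [max_eq_right h]; nlinarith [norm_nonneg (pl ν)]
  · rw [max_eq_left h]; nlinarith [norm_nonneg (pr ν)]

/-- **the orbit loops near the zero section are the model family** -/
theorem D2.orb_FX (hb : GT.Bla G k) (H : NB.NegB G (k - 1) (nuP K) δ PN)
    (h : D2 G k K lg ρ r C r' Kr B w δ PN ε J E₀ η (DD.NN PN) (RN N K) (xiN hb PN) δ₂ ε₂)
    {p : ((Euc N × Euc N) × W2 N K) × Wt N K} (hp : p ∈ TP.TT (L.US G) (DD.NN PN) PN)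
    (h1 : ‖p.2‖ ^ 2 ≤ 1 / 4) (h2 : ‖p.1.2‖ ^ 2 ≤ 4) (t : ℝ) :
    f2 G lg ρ w J (xiN hb PN) ε ε₂ (Ph2 G K (RN N K) t p) =
      NW.FX hb PN (jN N K) ε ε₂ ρ ((p.1.1, (p.1.2, p.2)), 2 * t) := by
  have hP := KR.NegB.of_NB hb H
  rw [h.orb_near hp (by linarith)]
  have hb2 : bb ε₂ p = ε₂ := by
    unfold bb; rw [cu_one h1, th_one h2, mul_one, mul_one]
  rw [hb2, xf_xiN hb H hp.1.1, hP.xi_eq (θ := fun r => r) (θ' := fun _ => 1) hp.1.1
    continuous_id continuous_const]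
  unfold NW.FX
  rw [jN_apply, add_comm (ε • _)]

end Crest.Agent.R208.FT
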