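import Crest.Agent.R208.HO2
import Crest.Agent.R208.TU9

/-!
R208, (8,2), (A2) (helper336, second hands for helper952's AK16), part FU2: a homotopy of loops over
the part `‖ν‖, ‖w‖ < r` of the total space whose relative forms vanish outside the smaller disks
gives a closed form over `Z × ℝ`, hence (helper537's `HO.hom_iso`) cohomologous push forwards.
-/

set_option autoImplicit false
set_option linter.unusedSectionVars false
set_option linter.unusedVariables false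
set_option maxHeartbeats 1600000

open MeasureTheory Set Filter Topology Module
open scoped ContDiff RealInnerProductSpace Real
open Crest.GeometryTopology.Submanifold
open Crest.Agent.R241.DDefs Crest.Agent.R241.D Crest.Agent.R241.D2
open Crest.Agent.R208.F Crest.Agent.R208.FI Crest.Agent.R208.CW Crest.Agent.R208.T
open Crest.Agent.R208.CM (Triv Qd)
open Crest.Agent.R208.VC (rsL rsL_apply)
open Crest.Agent.R208.EX
open Crest.Agent.R208.MS (En)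
open Crest.Agent.R208.TP (TT CV pu₁ pu₂)

noncomputable section

namespace Crest.Agent.R208.FU

variable {N N' m : ℕ}
  {H₁ H₂ : Type} [NormedAddCommGroup H₁] [InnerProductSpace ℝ H₁] [FiniteDimensional ℝ H₁]
  [NormedAddCommGroup H₂] [InnerProductSpace ℝ H₂] [FiniteDimensional ℝ H₂]

/-- the disks of radius `r` -/
def Ud (N : ℕ) (H₂ H₁ : Type) [NormedAddCommGroup H₁] [NormedAddCommGroup H₂] (r : ℝ) :
    Set (((Euc N × Euc N) × H₂) × H₁) := {z | ‖z.1.2‖ < r ∧ ‖z.2‖ < r}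

theorem isOpen_Ud (r : ℝ) : IsOpen (Ud N H₂ H₁ r) :=
  (isOpen_lt (continuous_snd.comp continuous_fst).norm continuous_const).inter
    (isOpen_lt continuous_snd.norm continuous_const)

section form
variable {D : ED N'} {Z : Set (((Euc N × Euc N) × H₂) × H₁)}
  {α : ((Euc N × Euc N) × H₂) × H₁ → Ext (((Euc N × Euc N) × H₂) × H₁)} {R R' r : ℝ}
  {fh : (((Euc N × Euc N) × H₂) × H₁) × ℝ → ℝ → Euc N'}
  {ch : (((Euc N × Euc N) × H₂) × H₁) × ℝ → ℝ}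
  {V0 V1 : ((Euc N × Euc N) × H₂) × H₁ → Ext (((Euc N × Euc N) × H₂) × H₁)}

theorem set_eq (Z : Set (((Euc N × Euc N) × H₂) × H₁)) (r : ℝ) :
    (Z ∩ Ud N H₂ H₁ r) ×ˢ (univ : Set ℝ) =
      (Z ×ˢ (univ : Set ℝ)) ∩ (Prod.fst ⁻¹' Ud N H₂ H₁ r) := by
  ext p
  simp only [mem_prod, mem_inter_iff, mem_univ, and_true, mem_preimage]

/-- **the closed form of a homotopy of relative forms**, extended by zero -/
theorem exists_homform (hD : D.OK) (hZ : Sub m Z) (hα : Sm Z α) (hα1 : Hom 1 α) (hR : 0 < R)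
    (hR' : R < R') (hr : R' < r)
    (hf : LF D.S ((Z ∩ Ud N H₂ H₁ r) ×ˢ (univ : Set ℝ)) fh)
    (hc : ∀ y ∈ (Z ∩ Ud N H₂ H₁ r) ×ˢ (univ : Set ℝ), ContDiffAt ℝ ∞ ch y)
    (hE : ∀ y ∈ (Z ∩ Ud N H₂ H₁ r) ×ˢ (univ : Set ℝ), 0 < ch y → En (fh y) ≤ D.B)
    (hco : ∀ y ∈ (Z ∩ Ud N H₂ H₁ r) ×ˢ (univ : Set ℝ), (R < ‖y.1.2‖ ∨ R < ‖y.1.1.2‖) → 3 / 4 < ch y)
    (h0 : D.IsRel (Z ∩ Ud N H₂ H₁ r) α (fun y => fh (y, 0)) (fun y => ch (y, 0)) V0)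
    (h1 : D.IsRel (Z ∩ Ud N H₂ H₁ r) α (fun y => fh (y, 1)) (fun y => ch (y, 1)) V1)
    (z0 : ∀ z ∈ Z, (R < ‖z.2‖ ∨ R < ‖z.1.2‖) → rsL Z z (V0 z) = 0)
    (z1 : ∀ z ∈ Z, (R < ‖z.2‖ ∨ R < ‖z.1.2‖) → rsL Z z (V1 z) = 0) :
    ∃ Om : (((Euc N × Euc N) × H₂) × H₁) × ℝ → Ext ((((Euc N × Euc N) × H₂) × H₁) × ℝ),
      Sm (Z ×ˢ (univ : Set ℝ)) Om ∧ Cl (Z ×ˢ (univ : Set ℝ)) Om ∧
      (∀ p ∈ Z ×ˢ (univ : Set ℝ), (R < ‖p.1.2‖ ∨ R < ‖p.1.1.2‖) →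
        pb (Tan (Z ×ˢ (univ : Set ℝ)) p).subtype (Om p) = 0) ∧
      Eqv Z (F.pull (fun z : ((Euc N × Euc N) × H₂) × H₁ => (z, (0 : ℝ))) Om) V0 ∧
      Eqv Z (F.pull (fun z : ((Euc N × Euc N) × H₂) × H₁ => (z, (1 : ℝ))) Om) V1 := by
  have hUo : IsOpen (Ud N H₂ H₁ r) := isOpen_Ud r
  have hZU : Sub m (Z ∩ Ud N H₂ H₁ r) := T.Sub.inter_open' hZ hUo
  have hWm : Sub (m + 1) ((Z ∩ Ud N H₂ H₁ r) ×ˢ (univ : Set ℝ)) :=
    hZU.prod (sub_open (by simp) isOpen_univ)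
  have hfst : SMap ((Z ∩ Ud N H₂ H₁ r) ×ˢ (univ : Set ℝ)) (Z ∩ Ud N H₂ H₁ r)
      (fun y : (((Euc N × Euc N) × H₂) × H₁) × ℝ => y.1) :=
    ⟨fun _ _ => contDiffAt_fst, fun _ hy => hy.1⟩
  have hαU : Sm (Z ∩ Ud N H₂ H₁ r) α := hα.mono inter_subset_left
  have hαW := hαU.pull hfst
  have hαW1 : Hom 1 (F.pull (fun y : (((Euc N × Euc N) × H₂) × H₁) × ℝ => y.1) α) := hα1.pull
  obtain ⟨Om₀, hO⟩ := ED.exists_rel hD hWm hαW hαW1 hf hc hE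
  have hcl := ED.IsRel.cl hD hWm hαW hαW1 hf hc hO
  have hz0 : ∀ p ∈ (Z ∩ Ud N H₂ H₁ r) ×ˢ (univ : Set ℝ), (R < ‖p.1.2‖ ∨ R < ‖p.1.1.2‖) →
      rsL ((Z ∩ Ud N H₂ H₁ r) ×ˢ (univ : Set ℝ)) p (Om₀ p) = 0 := fun p hp h =>
    ED.IsRel.zero hD hWm hαW hαW1 hf hc hO hp (hco p hp h)
  set b : ((Euc N × Euc N) × H₂) × H₁ → ℝ := TU.bmp R R' with hb
  have b1 : ∀ z : ((Euc N × Euc N) × H₂) × H₁, ‖z.1.2‖ ≤ R → ‖z.2‖ ≤ R → b z = 1 :=
    fun z h1 h2 => TU.bmp_one hR hR' h1 h2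
  have b0 : ∀ z : ((Euc N × Euc N) × H₂) × H₁, (R' ≤ ‖z.1.2‖ ∨ R' ≤ ‖z.2‖) → b z = 0 :=
    fun z h1 => TU.bmp_zero hR hR' h1
  set Om : (((Euc N × Euc N) × H₂) × H₁) × ℝ → Ext ((((Euc N × Euc N) × H₂) × H₁) × ℝ) :=
    fun p => b p.1 • Om₀ p with hOm
  -- outside `Ud r` the form vanishes near the point
  have hout : ∀ p : (((Euc N × Euc N) × H₂) × H₁) × ℝ, p.1 ∉ Ud N H₂ H₁ r → Om =ᶠ[𝓝 p] 0 := by
    intro p hp
    have h2 : R' < ‖p.1.1.2‖ ∨ R' < ‖p.1.2‖ := by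
      by_contra hcon
      push Not at hcon
      exact hp ⟨by linarith [hcon.1], by linarith [hcon.2]⟩
    have ho : IsOpen {q : (((Euc N × Euc N) × H₂) × H₁) × ℝ | R' < ‖q.1.1.2‖ ∨ R' < ‖q.1.2‖} :=
      (isOpen_lt continuous_const (continuous_snd.comp (continuous_fst.comp continuous_fst)).norm).union
        (isOpen_lt continuous_const (continuous_snd.comp continuous_fst).norm)
    filter_upwards [ho.mem_nhds h2] with q hq
    rw [hOm]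
    show b q.1 • Om₀ q = 0
    rw [b0 q.1 (hq.imp le_of_lt le_of_lt), zero_smul]
  have hbs : ∀ p : (((Euc N × Euc N) × H₂) × H₁) × ℝ, ContDiffAt ℝ ∞ (fun p => b p.1) p :=
    fun p => (TU.contDiff_bmp R R').contDiffAt.comp p contDiffAt_fst
  have sO : Sm (Z ×ˢ (univ : Set ℝ)) Om := by
    intro p hp
    by_cases h : p.1 ∈ Ud N H₂ H₁ r
    · exact (hbs p).smul (hO.1 p ⟨⟨hp.1, h⟩, mem_univ _⟩)
    · exact (contDiffAt_const (c := (0 : Ext ((((Euc N × Euc N) × H₂) × H₁) × ℝ)))).congr_of_eventuallyEq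
        (hout p h)
  have eO : Eqv ((Z ∩ Ud N H₂ H₁ r) ×ˢ (univ : Set ℝ)) Om Om₀ := by
    refine eqv_iff.2 fun p hp => ?_
    change pb _ (b p.1 • Om₀ p) = _
    by_cases h : R < ‖p.1.2‖ ∨ R < ‖p.1.1.2‖
    · have h2 := hz0 p hp h
      rw [rsL_apply] at h2
      rw [map_smul, h2, smul_zero]
    · push Not at h
      rw [b1 p.1 h.2 h.1, one_smul]
  have cO : Cl (Z ×ˢ (univ : Set ℝ)) Om := by
    have h2 : Cl ((Z ∩ Ud N H₂ H₁ r) ×ˢ (univ : Set ℝ)) Om :=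
      Cl.of_eqv hWm (sO.mono (prod_mono inter_subset_left subset_rfl)) hO.1 eO hcl
    rw [Cl, resZero_iff] at h2 ⊢
    rw [set_eq] at h2
    refine eqv_iff.2 fun p hp => ?_
    by_cases h : p.1 ∈ Ud N H₂ H₁ r
    · exact eqv_of_open (hUo.preimage continuous_fst) h2 hp h
    · rw [F.d_congr (hout p h), d_zero']
  have zO : ∀ p ∈ Z ×ˢ (univ : Set ℝ), (R < ‖p.1.2‖ ∨ R < ‖p.1.1.2‖) →
      pb (Tan (Z ×ˢ (univ : Set ℝ)) p).subtype (Om p) = 0 := by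
    intro p hp h2
    by_cases h : p.1 ∈ Ud N H₂ H₁ r
    · have h3 : rsL ((Z ×ˢ (univ : Set ℝ)) ∩ (Prod.fst ⁻¹' Ud N H₂ H₁ r)) p (Om₀ p) = 0 := by
        rw [← set_eq]; exact hz0 p ⟨⟨hp.1, h⟩, mem_univ _⟩ h2
      have h4 : Tan ((Z ×ˢ (univ : Set ℝ)) ∩ (Prod.fst ⁻¹' Ud N H₂ H₁ r)) p =
          Tan (Z ×ˢ (univ : Set ℝ)) p := Tan_inter_open (hUo.preimage continuous_fst) h
      have h5 : ∀ (K K' : Submodule ℝ ((((Euc N × Euc N) × H₂) × H₁) × ℝ)), K = K' →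
          pb K.subtype (Om₀ p) = 0 → pb K'.subtype (Om₀ p) = 0 := by
        rintro K K' rfl h; exact h
      have h6 := h5 _ _ h4 h3
      change pb _ (b p.1 • Om₀ p) = _
      rw [map_smul, h6, smul_zero]
    · rw [(hout p h).self_of_nhds]
      exact map_zero _
  -- the ends
  have key : ∀ (t : ℝ) (V : ((Euc N × Euc N) × H₂) × H₁ → Ext (((Euc N × Euc N) × H₂) × H₁)),
      D.IsRel (Z ∩ Ud N H₂ H₁ r) α (fun y => fh (y, t)) (fun y => ch (y, t)) V →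
      (∀ z ∈ Z, (R < ‖z.2‖ ∨ R < ‖z.1.2‖) → rsL Z z (V z) = 0) →
      Eqv Z (F.pull (fun z : ((Euc N × Euc N) × H₂) × H₁ => (z, t)) Om) V := by
    intro t V hV zV
    have hg : SMap (Z ∩ Ud N H₂ H₁ r) ((Z ∩ Ud N H₂ H₁ r) ×ˢ (univ : Set ℝ))
        (fun z : ((Euc N × Euc N) × H₂) × H₁ => (z, t)) :=
      ⟨fun _ _ => contDiffAt_id.prodMk contDiffAt_const, fun _ hx => ⟨hx, mem_univ _⟩⟩
    have h2 : Eqv (Z ∩ Ud N H₂ H₁ r)
        (F.pull (fun z : ((Euc N × Euc N) × H₂) × H₁ => (z, t)) Om₀) V := by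
      refine hO.nat hD hWm hαW hαW1 hf hc hZU hαU hα1 (hf.comp hg.smooth hg.maps)
        (fun y hy => (hc _ (hg.maps hy)).comp y (hg.smooth y hy)) hV hg (fun _ _ _ => rfl)
        (fun _ _ => rfl) (Eqv.of_eq fun y hy => ?_)
      rw [F.pull_comp (hg.diff hy) differentiableAt_fst]
      exact F.pull_id α y
    refine eqv_iff.2 fun z hz => ?_
    have e1 : F.pull (fun z : ((Euc N × Euc N) × H₂) × H₁ => (z, t)) Om z =
        b z • F.pull (fun z : ((Euc N × Euc N) × H₂) × H₁ => (z, t)) Om₀ z := by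
      change pb _ (b z • Om₀ (z, t)) = b z • pb _ (Om₀ (z, t))
      rw [map_smul]
    rw [e1, map_smul]
    by_cases h : z ∈ Ud N H₂ H₁ r
    · rw [eqv_of_open hUo h2 hz h]
      by_cases h3 : R < ‖z.2‖ ∨ R < ‖z.1.2‖
      · have h4 := zV z hz h3
        rw [rsL_apply] at h4
        rw [h4, smul_zero]
      · push Not at h3
        rw [b1 z h3.2 h3.1, one_smul]
    · have h3 : R' ≤ ‖z.1.2‖ ∨ R' ≤ ‖z.2‖ := by
        by_contra hcon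
        push Not at hcon
        exact h ⟨by linarith [hcon.1], by linarith [hcon.2]⟩
      have h4 := zV z hz (h3.symm.imp (fun h => by linarith) fun h => by linarith)
      rw [rsL_apply] at h4
      rw [b0 z h3, zero_smul, h4]
  exact ⟨Om, sO, cO, zO, key 0 V0 h0 z0, key 1 V1 h1 z1⟩

end form

end Crest.Agent.R208.FU
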