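import Crest.Agent.R208.FU2

/-!
R208, (8,2), (A2) (helper336), part FU3: from the relative form of the level two family over
`Z = TT (US G) P₂ P₁` to the form pulled back from `N4 h` (helper10's `Pair`): cohomologous push
forwards. Two homotopies: change of the cut off, and the junction.
-/

set_option autoImplicit false
set_option linter.unusedSectionVars false
set_option linter.unusedVariables false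
set_option maxHeartbeats 1600000

open MeasureTheory Set Filter Topology Module
open scoped ContDiff RealInnerProductSpace Real
open Crest.GeometryTopology.Submanifold
open Crest.Agent.R241.DDefs Crest.Agent.R241.D Crest.Agent.R241.D2
open Crest.Agent.R208.F Crest.Agent.R208.FI Crest.Agent.R208.CW Crest.Agent.R208.T
open Crest.Agent.R208.CM (Triv Qd)
open Crest.Agent.R208.VC (rsL rsL_apply)
open Crest.Agent.R208.EX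
open Crest.Agent.R208.MS (En)
open Crest.Agent.R208.TP (TT CV pu₁ pu₂)
open Crest.Agent.R208.TU (bT bN FK Psi LinK Cut Pair smap_bT)

noncomputable section

namespace Crest.Agent.R208.FU

section restr
variable {N m m' : ℕ} {E : Type} [NormedAddCommGroup E] [NormedSpace ℝ E] [FiniteDimensional ℝ E]
  {D : ED N} {X X' : Set E} {α : E → Ext E} {f f' : E → ℝ → Euc N} {c c' : E → ℝ}
  {Om : E → Ext E}

/-- restriction of a relative form to a subset, with equal loops and cut off there -/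
theorem isRel_sub (hD : D.OK) (hX : Sub m X) (hα : Sm X α) (hα1 : Hom 1 α) (hf : LF D.S X f)
    (hc : ∀ y ∈ X, ContDiffAt ℝ ∞ c y) (hO : D.IsRel X α f c Om) (hX' : Sub m' X') (hs : X' ⊆ X)
    (hf' : LF D.S X' f') (hff : ∀ y ∈ X', ∀ t, f' y t = f y t)
    (hc' : ∀ y ∈ X', ContDiffAt ℝ ∞ c' y) (hcc : ∀ y ∈ X', c' y = c y)
    (hE : ∀ y ∈ X', 0 < c' y → En (f' y) ≤ D.B) : D.IsRel X' α f' c' Om := by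
  obtain ⟨Om', h'⟩ := ED.exists_rel hD hX' (hα.mono hs) hα1 hf' hc' hE
  refine h'.of_eqv (hO.1.mono hs) ?_
  have hg : SMap X' X (fun y : E => y) := ⟨fun _ _ => contDiffAt_id, fun y hy => hs hy⟩
  have h1 := hO.nat hD hX hα hα1 hf hc hX' (hα.mono hs) hα1 hf' hc' h' hg hff hcc
    (Eqv.of_eq fun y _ => F.pull_id α y)
  exact (Eqv.of_eq fun y _ => (F.pull_id Om y).symm).trans h1

end restr

variable {N N' n k d m r₁ r₂ : ℕ} {κ : ℝ} {S : Set (Euc N)} {G : Geo n N κ S}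
  {H₁ H₂ : Type} [NormedAddCommGroup H₁] [InnerProductSpace ℝ H₁] [FiniteDimensional ℝ H₁]
  [NormedAddCommGroup H₂] [InnerProductSpace ℝ H₂] [FiniteDimensional ℝ H₂]
  {V₁ V₂ : Type} [NormedAddCommGroup V₁] [InnerProductSpace ℝ V₁] [FiniteDimensional ℝ V₁]
  [MeasurableSpace V₁] [BorelSpace V₁] (μ₁ : Measure V₁) [μ₁.IsAddHaarMeasure]
  [NormedAddCommGroup V₂] [InnerProductSpace ℝ V₂] [FiniteDimensional ℝ V₂]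
  [MeasurableSpace V₂] [BorelSpace V₂] (μ₂ : Measure V₂) [μ₂.IsAddHaarMeasure]
  {P₁ : Euc N × Euc N → H₁ →L[ℝ] H₁} {P₂ : Euc N × Euc N → H₂ →L[ℝ] H₂}
  {Q₁ : Euc N × Euc N → V₁ →L[ℝ] V₁} {Q₂ : Euc N × Euc N → V₂ →L[ℝ] V₂}
  {T₁ : Euc N × Euc N → H₁ →L[ℝ] V₁} {T₂ : Euc N × Euc N → H₂ →L[ℝ] V₂}
  {τ₁' : (Euc N × Euc N) × V₁ → Ext ((Euc N × Euc N) × V₁)}
  {τ₂' : (Euc N × Euc N) × V₂ → Ext ((Euc N × Euc N) × V₂)}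
  {X : Set (Euc N × Euc N)} {R R₀ R₁ R₂ R' r : ℝ}

/-- the isometry of total spaces -/
abbrev Phi (T₂ : Euc N × Euc N → H₂ →L[ℝ] V₂) (T₁ : Euc N × Euc N → H₁ →L[ℝ] V₁)
    (z : ((Euc N × Euc N) × H₂) × H₁) : ((Euc N × Euc N) × V₂) × V₁ :=
  ((z.1.1, T₂ z.1.1 z.1.2), T₁ z.1.1 z.2)

/-- the data of the isometries -/
structure Iso (X : Set (Euc N × Euc N)) (r₁ r₂ : ℕ) (P₁ : Euc N × Euc N → H₁ →L[ℝ] H₁)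
    (P₂ : Euc N × Euc N → H₂ →L[ℝ] H₂) (Q₁ : Euc N × Euc N → V₁ →L[ℝ] V₁)
    (Q₂ : Euc N × Euc N → V₂ →L[ℝ] V₂) (T₁ : Euc N × Euc N → H₁ →L[ℝ] V₁)
    (T₂ : Euc N × Euc N → H₂ →L[ℝ] V₂) (R₁ R₂ : ℝ)
    (τ₁' : (Euc N × Euc N) × V₁ → Ext ((Euc N × Euc N) × V₁))
    (τ₂' : (Euc N × Euc N) × V₂ → Ext ((Euc N × Euc N) × V₂)) : Prop where
  s₁ : ∀ x ∈ X, ContDiffAt ℝ ∞ T₁ x
  i₁ : ∀ x ∈ X, ∀ w, ‖T₁ x w‖ = ‖w‖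
  s₂ : ∀ x ∈ X, ContDiffAt ℝ ∞ T₂ x
  i₂ : ∀ x ∈ X, ∀ w, ‖T₂ x w‖ = ‖w‖
  q₁ : ∀ x ∈ X, Q₁ x = Qd T₁ P₁ x
  q₂ : ∀ x ∈ X, Q₂ x = Qd T₂ P₂ x
  hP₁ : PField X r₁ P₁
  hP₂ : PField X r₂ P₂
  hQ₁ : PField X r₁ Q₁
  hQ₂ : PField X r₂ Q₂
  hτ₁ : CSF X (fun x => 1 - Q₁ x) R₁ τ₁'
  hτ₂ : CSF X (fun x => 1 - Q₂ x) R₂ τ₂'

section hom
variable {D : ED N'}
  {α : ((Euc N × Euc N) × H₂) × H₁ → Ext (((Euc N × Euc N) × H₂) × H₁)}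
  {fh : (((Euc N × Euc N) × H₂) × H₁) × ℝ → ℝ → Euc N'}
  {ch : (((Euc N × Euc N) × H₂) × H₁) × ℝ → ℝ}
  {V0 V1 : ((Euc N × Euc N) × H₂) × H₁ → Ext (((Euc N × Euc N) × H₂) × H₁)}
  {W0 W1 : ((Euc N × Euc N) × V₂) × V₁ → Ext (((Euc N × Euc N) × V₂) × V₁)}

/-- two relative forms joined by a homotopy have cohomologous push forwards -/
theorem pu_hom (hX : Sub d X) (I : Iso X r₁ r₂ P₁ P₂ Q₁ Q₂ T₁ T₂ R₁ R₂ τ₁' τ₂') (hD : D.OK)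
    (hZ : Sub m (TT X P₂ P₁)) (hα : Sm (TT X P₂ P₁) α) (hα1 : Hom 1 α) (hR : 0 < R) (hR' : R < R')
    (hr : R' < r)
    (hf : LF D.S ((TT X P₂ P₁ ∩ Ud N H₂ H₁ r) ×ˢ (univ : Set ℝ)) fh)
    (hc : ∀ y ∈ (TT X P₂ P₁ ∩ Ud N H₂ H₁ r) ×ˢ (univ : Set ℝ), ContDiffAt ℝ ∞ ch y)
    (hE : ∀ y ∈ (TT X P₂ P₁ ∩ Ud N H₂ H₁ r) ×ˢ (univ : Set ℝ), 0 < ch y → En (fh y) ≤ D.B)
    (hco : ∀ y ∈ (TT X P₂ P₁ ∩ Ud N H₂ H₁ r) ×ˢ (univ : Set ℝ),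
      (R < ‖y.1.2‖ ∨ R < ‖y.1.1.2‖) → 3 / 4 < ch y)
    (h0 : D.IsRel (TT X P₂ P₁ ∩ Ud N H₂ H₁ r) α (fun y => fh (y, 0)) (fun y => ch (y, 0)) V0)
    (h1 : D.IsRel (TT X P₂ P₁ ∩ Ud N H₂ H₁ r) α (fun y => fh (y, 1)) (fun y => ch (y, 1)) V1)
    (z0 : ∀ z ∈ TT X P₂ P₁, (R < ‖z.2‖ ∨ R < ‖z.1.2‖) → rsL (TT X P₂ P₁) z (V0 z) = 0)
    (z1 : ∀ z ∈ TT X P₂ P₁, (R < ‖z.2‖ ∨ R < ‖z.1.2‖) → rsL (TT X P₂ P₁) z (V1 z) = 0) (j : ℕ)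
    (hW0 : CV X Q₂ Q₁ R₀ W0) (hW1 : CV X Q₂ Q₁ R₀ W1)
    (e0 : Eqv (TT X P₂ P₁) (F.pull (Phi T₂ T₁) W0) (T.dp j V0))
    (e1 : Eqv (TT X P₂ P₁) (F.pull (Phi T₂ T₁) W1) (T.dp j V1)) :
    Coh X (pu₂ μ₁ μ₂ Q₂ τ₂' Q₁ τ₁' W1) (pu₂ μ₁ μ₂ Q₂ τ₂' Q₁ τ₁' W0) := by
  obtain ⟨Om, sO, cO, zO, k0, k1⟩ := exists_homform hD hZ hα hα1 hR hR' hr hf hc hE hco h0 h1 z0 z1
  exact HO.hom_iso μ₁ μ₂ hX I.s₁ I.i₁ I.s₂ I.i₂ I.q₁ I.q₂ I.hQ₁ I.hQ₂ I.hτ₁ I.hτ₂ hR.le sO cO zO j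
    hW0 hW1 (e0.trans (k0.dp j).symm) (e1.trans (k1.dp j).symm)

end hom

end Crest.Agent.R208.FU
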