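import Crest.Agent.R208.FV3

/-! Row 208, block F2 (helper349), part FV4: the tangent spaces of `F`:
`(ξ,η) ∈ T_{(p,q)} F ↔ ξ ∈ T_p, η ∈ T_q, ⟪v,ξ⟫ + ⟪f v,η⟫ = 0` for all `v ∈ V_pq`. -/

set_option autoImplicit false
set_option linter.unusedSectionVars false
set_option linter.unusedVariables false

open Set Filter Topology Module
open scoped ContDiff RealInnerProductSpace
open Crest.GeometryTopology.Submanifold
open Crest.Agent.R241.DDefs
open Crest.Agent.R241.D2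
open Crest.Agent.R241
open Crest.Agent.R208.F Crest.Agent.R208.FI
open Crest.Agent.R208.L (US TanTS)

noncomputable section

namespace Crest.Agent.R208.FV

variable {n N : ℕ} {κ : ℝ} {S : Set (Euc N)} {G : Geo n N κ S} {k : ℕ}

/-- **invariance of the contact form** under the geodesic flow -/
theorem contact {q ξ : Euc N × Euc N} (hq : q ∈ TS G) (hξ : TanTS G q ξ) (h0 : ⟪q.2, ξ.2⟫ = 0)
    (t : ℝ) : ⟪(fl G (q, t)).2, (L.dfl G q t ξ).1⟫ = ⟪q.2, ξ.1⟫ := by
  have hder : ∀ t, HasDerivAt (fun t => ⟪(fl G (q, t)).2, (L.dfl G q t ξ).1⟫) 0 t := by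
    intro t
    have h1 := hda_snd (hasDerivAt_fl G (complete G hq t))
    have h2 := hda_fst (L.hasDerivAt_dfl hq ξ t)
    have hm := fl_mem G hq t
    have hT := L.tanTS_dfl hq hξ t
    have h3 := L.om_X hm hT
    have h4 : L.om (X G (fl G (q, t))) (L.dfl G q t ξ) = 0 := by
      rw [← L.dfl_X hq, L.om_dfl hq (L.tanTS_X hq) hξ t, L.om_X hq hξ, h0, neg_zero]
    rw [h4] at h3
    refine (h1.inner ℝ h2).congr_deriv ?_
    have h5 : ⟪(X G (fl G (q, t))).2, (L.dfl G q t ξ).1⟫ = 0 := inner_II G hm.1 hm.2 hm.2 hT.fst_mem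
    rw [L.fderiv_X_fst, h5]
    linarith
  have h1 := is_const_of_deriv_eq_zero (fun t => (hder t).differentiableAt)
    (fun t => (hder t).deriv) t 0
  simpa only [L.dfl_zero hq, fl_zero] using h1

/-- the derivative of `phi` in terms of the derivative of the flow -/
theorem fderiv_phi_eq {q ξ : Euc N × Euc N} (hq : q ∈ TS G) (hξ : TanTS G q ξ) :
    fderiv ℝ (phi G) q ξ = (ξ.1, (L.dfl G q Real.pi ξ).1) := by
  obtain ⟨c, rfl, hc, hcS⟩ := hξ
  have h1 : HasDerivAt (fun t => phi G (c t)) (fderiv ℝ (phi G) (c 0) ξ) 0 :=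
    ((contDiffAt_phi hq).differentiableAt (by simp)).hasFDerivAt.comp_hasDerivAt 0 hc
  have h2 : HasDerivAt (fun t => fl G (c t, Real.pi)) (L.dfl G (c 0) Real.pi ξ) 0 :=
    (L.hasFDerivAt_fl_left hq Real.pi).comp_hasDerivAt (0 : ℝ) hc
  have h3 : HasDerivAt (fun t => ((c t).1, (fl G (c t, Real.pi)).1))
      (ξ.1, (L.dfl G (c 0) Real.pi ξ).1) 0 := (hda_fst hc).prodMk (hda_fst h2)
  have h4 : (fun t => phi G (c t)) =ᶠ[𝓝 0] fun t => ((c t).1, (fl G (c t, Real.pi)).1) := by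
    filter_upwards [hcS] with t ht
    exact Prod.ext rfl (Exp_smul G ht.1 ht.2 Real.pi)
  exact h1.unique (h3.congr_of_eventuallyEq h4)

/-- the contact form on `F` -/
theorem inner_Tan_FF (hB : Bl n N κ S G Real.pi) (hT : I.Typ G k) {q ξ : Euc N × Euc N}
    (hq : q ∈ US G) (hξ : ξ ∈ Tan (US G) q) :
    ⟪q.2, (fderiv ℝ (phi G) q ξ).1⟫ = -⟪GT.ar G q.1 q.2, (fderiv ℝ (phi G) q ξ).2⟫ := by
  have key : Tan (US G) q ≤ LinearMap.ker
      (((innerSL ℝ q.2) ∘L (ContinuousLinearMap.fst ℝ (Euc N) (Euc N)) ∘L (fderiv ℝ (phi G) q) +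
        (innerSL ℝ (GT.ar G q.1 q.2)) ∘L (ContinuousLinearMap.snd ℝ (Euc N) (Euc N)) ∘L
          (fderiv ℝ (phi G) q) : Euc N × Euc N →L[ℝ] ℝ) : Euc N × Euc N →ₗ[ℝ] ℝ) := by
    have hS := sub_S hB
    rw [Tan, Submodule.span_le]
    rintro v ⟨γ, hγ0, hγ, hγS⟩
    have hv : v ∈ Tan (US G) q := Submodule.subset_span ⟨γ, hγ0, hγ, hγS⟩
    have hTS : TanTS G q v := ⟨γ, hγ0, hγ, by filter_upwards [hγS] with t ht using ht.1⟩
    have h0 : ⟪q.2, v.2⟫ = 0 := ((LB.mem_Tan_US hS hq).1 hv).2.2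
    have h1 := contact hq.1 hTS h0 Real.pi
    change ⟪q.2, (fderiv ℝ (phi G) q v).1⟫ + ⟪GT.ar G q.1 q.2, (fderiv ℝ (phi G) q v).2⟫ = 0
    rw [fderiv_phi_eq hq.1 hTS]
    simp only
    rw [GT.ar, inner_neg_left, ← h1]
    simp
  have := key hξ
  change ⟪q.2, (fderiv ℝ (phi G) q ξ).1⟫ + ⟪GT.ar G q.1 q.2, (fderiv ℝ (phi G) q ξ).2⟫ = 0 at this
  linarith

theorem Tan_FF_le (h : GT.Bla G k) {p q : Euc N} (hz : (p, q) ∈ GT.FF S) {ξ η : Euc N}
    (hξ : (ξ, η) ∈ Tan (GT.FF S) (p, q)) :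
    ξ ∈ G.T p ∧ η ∈ G.T q ∧ ∀ v ∈ GT.Vs G p q, ⟪v, ξ⟫ + ⟪GT.lf G p q v, η⟫ = 0 := by
  have hS := sub_S h.bl
  refine ⟨?_, ?_, ?_⟩
  · have h1 := fderiv_mem_Tan_of_mapsTo (X := GT.FF S) (Y := S) (g := Prod.fst) (fun z hz => hz.1)
      (x := (p, q)) differentiableAt_fst hξ
    rw [← LB.Tan_S (G := G) hS hz.1]
    rw [(hasFDerivAt_fst (p := (p, q))).fderiv] at h1
    exact h1
  · have h1 := fderiv_mem_Tan_of_mapsTo (X := GT.FF S) (Y := S) (g := Prod.snd) (fun z hz => hz.2.1)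
      (x := (p, q)) differentiableAt_snd hξ
    rw [← LB.Tan_S (G := G) hS hz.2.1]
    rw [(hasFDerivAt_snd (p := (p, q))).fderiv] at h1
    exact h1
  · have hunit : ∀ v ∈ GT.Vs G p q, ‖v‖ = 1 → ⟪v, ξ⟫ + ⟪GT.lf G p q v, η⟫ = 0 := by
      intro v hv hv1
      have hvT := (Vl_spec h.ty hz).1 hv
      have hq : (p, v) ∈ US G := ⟨⟨hz.1, hvT⟩, hv1⟩
      have hphi : phi G (p, v) = (p, q) := Prod.ext rfl (h.Exp_pi hz hv hv1)
      have hξ' := hξ
      rw [← hphi] at hξ'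
      have h1 : (ξ, η) ∈ Tan (FF G) (phi G (p, v)) := hξ'
      rw [Tan_FF h.bl h.ty hS hq] at h1
      obtain ⟨a, ha, hab⟩ := h1
      have h2 := inner_Tan_FF h.bl h.ty hq ha
      have hab' : fderiv ℝ (phi G) (p, v) a = (ξ, η) := hab
      rw [hab'] at h2
      simp only at h2
      rw [h.lf_unit hz hv hv1, h2]
      simp
    intro v hv
    by_cases hv0 : v = 0
    · rw [hv0]; simp
    · have h1 := hunit _ ((GT.Vs G p q).smul_mem (‖v‖⁻¹ : ℝ) hv) (GT.unit_of hv0)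
      rw [map_smul, inner_smul_left, inner_smul_left, ← mul_add] at h1
      have h2 : (starRingEnd ℝ) (‖v‖⁻¹ : ℝ) ≠ 0 := by
        simpa using hv0
      exact (mul_eq_zero.1 h1).resolve_left h2

/-- **the tangent spaces of `F`** -/
theorem mem_Tan_FF (h : GT.Bla G k) {p q : Euc N} (hz : (p, q) ∈ GT.FF S) {ξ η : Euc N} :
    (ξ, η) ∈ Tan (GT.FF S) (p, q) ↔
      ξ ∈ G.T p ∧ η ∈ G.T q ∧ ∀ v ∈ GT.Vs G p q, ⟪v, ξ⟫ + ⟪GT.lf G p q v, η⟫ = 0 := by
  refine ⟨fun hξ => Tan_FF_le h hz hξ, ?_⟩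
  set M : Submodule ℝ (Euc N × Euc N) := (G.T p).prod (G.T q) with hM
  set T : Submodule ℝ (Euc N) := GT.Vs G p q with hTdef
  let LL : Euc N × Euc N →ₗ[ℝ] Euc N :=
    (T.starProjection : Euc N →ₗ[ℝ] Euc N) ∘ₗ LinearMap.fst ℝ (Euc N) (Euc N) +
      (GT.lf G q p : Euc N →ₗ[ℝ] Euc N) ∘ₗ LinearMap.snd ℝ (Euc N) (Euc N)
  have hLL : ∀ x : Euc N × Euc N, LL x = T.starProjection x.1 + GT.lf G q p x.2 := fun x => rfl
  have hcond : ∀ x : Euc N × Euc N, (∀ v ∈ T, ⟪v, x.1⟫ + ⟪GT.lf G p q v, x.2⟫ = 0) ↔ LL x = 0 := by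
    intro x
    have h1 : LL x ∈ T := T.add_mem (Submodule.starProjection_apply_mem _ _)
      (h.lf_mem (GT.FF_symm' hz) _)
    have h2 : ∀ v ∈ T, ⟪v, x.1⟫ + ⟪GT.lf G p q v, x.2⟫ = ⟪v, LL x⟫ := by
      intro v hv
      rw [hLL, inner_add_right]
      congr 1
      · rw [← Submodule.inner_starProjection_left_eq_right,
          Submodule.starProjection_eq_self_iff.2 hv]
      · -- `⟪f v, η⟫ = ⟪v, f' η⟫`
        set u := GT.lf G p q v with hu
        have hu' : u ∈ GT.Vs G q p := h.lf_mem hz v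
        have hdec : x.2 = (GT.Vs G q p).starProjection x.2 +
            (x.2 - (GT.Vs G q p).starProjection x.2) := by abel
        have hperp : x.2 - (GT.Vs G q p).starProjection x.2 ∈ (GT.Vs G q p)ᗮ :=
          Submodule.sub_starProjection_mem_orthogonal _
        have h3 : GT.lf G q p x.2 = GT.lf G q p ((GT.Vs G q p).starProjection x.2) := by
          conv_lhs => rw [hdec]
          rw [map_add, GT.lf_perp hperp, add_zero]
        have h4 : v = GT.lf G q p u := (h.lf_lf hz hv).symm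
        rw [h3]
        conv_rhs => rw [h4]
        rw [h.inner_lf (GT.FF_symm' hz) hu' (Submodule.starProjection_apply_mem _ _)]
        conv_lhs => rw [hdec]
        rw [inner_add_right, (Submodule.mem_orthogonal _ _).1 hperp _ hu', add_zero]
    constructor
    · intro h3
      have h4 := h3 _ h1
      rw [h2 _ h1] at h4
      exact inner_self_eq_zero.1 h4
    · intro h3 v hv
      rw [h2 v hv, h3, inner_zero_right]
  have hle : Tan (GT.FF S) (p, q) ≤ M ⊓ LinearMap.ker LL := by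
    rintro ⟨a, b⟩ hab
    have h1 := Tan_FF_le h hz hab
    exact ⟨⟨h1.1, h1.2.1⟩, (hcond (a, b)).1 h1.2.2⟩
  have hkn := h.ty.le
  have hk1 := h.ty.one_le
  have hfin : finrank ℝ (Tan (GT.FF S) (p, q)) = 2 * n - k :=
    (sub_FF' h (d := 2 * n - k) (by omega)).finrank_Tan hz
  have hfin2 : finrank ℝ (M ⊓ LinearMap.ker LL : Submodule ℝ (Euc N × Euc N)) ≤ 2 * n - k := by
    have h1 : finrank ℝ M ≤ 2 * n := by
      let I : (G.T p × G.T q) →ₗ[ℝ] Euc N × Euc N :=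
        (G.T p).subtype.prodMap (G.T q).subtype
      have hr : M ≤ LinearMap.range I := by
        rintro ⟨a, b⟩ hab
        exact ⟨(⟨a, hab.1⟩, ⟨b, hab.2⟩), rfl⟩
      have h5 := (Submodule.finrank_mono hr).trans (LinearMap.finrank_range_le I)
      rw [Module.finrank_prod, G.finrank_T p hz.1, G.finrank_T q hz.2.1] at h5
      omega
    have h2 := LinearMap.finrank_range_add_finrank_ker (LL.domRestrict M)
    have h3 : k ≤ finrank ℝ (LinearMap.range (LL.domRestrict M)) := by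
      rw [← h.finrank_Vs hz]
      refine Submodule.finrank_mono ?_
      intro v hv
      refine ⟨⟨(v, 0), ⟨h.Vs_le hz hv, Submodule.zero_mem _⟩⟩, ?_⟩
      change LL (v, 0) = v
      rw [hLL]
      simp only [map_zero, add_zero]
      exact Submodule.starProjection_eq_self_iff.2 hv
    have h4 : finrank ℝ (LinearMap.ker (LL.domRestrict M)) =
        finrank ℝ (M ⊓ LinearMap.ker LL : Submodule ℝ (Euc N × Euc N)) := by
      rw [LinearMap.ker_domRestrict, ← Submodule.map_comap_subtype,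
        Submodule.finrank_map_subtype_eq]
    omega
  have heq := Submodule.eq_of_le_of_finrank_le hle (by rw [hfin]; exact hfin2)
  rintro ⟨h1, h2, h3⟩
  rw [heq]
  exact ⟨⟨h1, h2⟩, (hcond (ξ, η)).1 h3⟩

end Crest.Agent.R208.FV
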