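import Crest.Agent.R241.D1c
import Crest.Agent.R241.D2
import Crest.Prelude.Def_SubmanifoldMetric

/-!
R208, block G1 (helper882): foundation for a compact submanifold `S ⊆ ℝ^N`.

* `exists_geo`: a compact `n`-dimensional submanifold carries `Geo n N κ S` data (R241/DDefs) for
  some `κ ≥ 0`;
* `Geo.T_eq_Tan`, `span_tangentConeAt`: the three notions of tangent space coincide;
* `isGeodesicIn_iff`: geodesics in the sense of `Def_SubmanifoldMetric` are exactly the flow lines
  of `R241.D2.fl`.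
-/

set_option autoImplicit false

open Set Filter Topology
open scoped ContDiff RealInnerProductSpace
open Crest.GeometryTopology.Submanifold
open Crest.Agent.R241.DDefs Crest.Agent.R241.D Crest.Agent.R241.D2

noncomputable section

namespace Crest.Agent.R208

variable {n N : ℕ} {κ : ℝ} {S : Set (Euc N)}

/-- The tangent space of `Geo` data is the span of velocities of curves in `S`. -/
theorem T_eq_Tan (G : Geo n N κ S) {x : Euc N} (hx : x ∈ S) : G.T x = Tan S x := by
  apply le_antisymm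
  · intro v hv
    obtain ⟨c, h0, hc, hS⟩ := exists_curve G hx hv
    exact Submodule.subset_span ⟨c, h0, hc, hS⟩
  · rw [Tan, Submodule.span_le]
    rintro v ⟨γ, h0, hγ, hS⟩
    have := G.deriv_mem γ v 0 hS hγ
    rwa [h0] at this

/-- curves in `S` have velocity in Mathlib's tangent cone -/
theorem mem_tangentConeAt_of_curve {γ : ℝ → Euc N} {v : Euc N} (h : HasDerivAt γ v 0)
    (hS : ∀ᶠ s in 𝓝 (0 : ℝ), γ s ∈ S) : v ∈ tangentConeAt ℝ S (γ 0) := by
  have h1 := h.tendsto_slope_zero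
  refine mem_tangentConeAt_of_seq (𝓝[≠] (0 : ℝ)) (fun t => t⁻¹) (fun t => γ t - γ 0) ?_ ?_ ?_
  · have h2 : Tendsto (fun t => γ t - γ 0) (𝓝[≠] 0) (𝓝 (γ 0 - γ 0)) :=
      (h.continuousAt.tendsto.mono_left nhdsWithin_le_nhds).sub_const _
    simpa using h2
  · filter_upwards [nhdsWithin_le_nhds hS] with t ht
    simpa using ht
  · simpa using h1

/-- Mathlib's tangent cone of a submanifold spans the tangent space. -/
theorem span_tangentConeAt (hS : IsSubmanifold n N S) {x : Euc N} (hx : x ∈ S) :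
    Submodule.span ℝ (tangentConeAt ℝ S x) = Tan S x := by
  apply le_antisymm
  · rw [Submodule.span_le]
    intro y hy
    obtain ⟨f, V, hf⟩ := hS x hx
    obtain ⟨O, ℓ, hO, hxO, hℓ, hℓV, hℓ0, hinv⟩ := exists_coord hf hf.zero_mem
    rw [hf.map_zero] at hxO hℓ0
    -- `q ↦ f (ℓ q)` and the identity agree on `S` near `x`
    have hcd : ContDiffAt ℝ ∞ f 0 := hf.contDiffOn.contDiffAt (hf.isOpen.mem_nhds hf.zero_mem)
    have hfd : HasFDerivAt f (fderiv ℝ f 0) (ℓ x) := by
      rw [hℓ0]; exact (hcd.differentiableAt (by simp)).hasFDerivAt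
    have hℓd : HasFDerivAt ℓ (fderiv ℝ ℓ x) x :=
      ((hℓ.contDiffAt (hO.mem_nhds hxO)).differentiableAt (by simp)).hasFDerivAt
    have h1 : HasFDerivWithinAt (fun q => f (ℓ q)) ((fderiv ℝ f 0) ∘L (fderiv ℝ ℓ x)) S x :=
      (hfd.comp x hℓd).hasFDerivWithinAt
    have h2 : HasFDerivWithinAt (fun q => f (ℓ q)) (ContinuousLinearMap.id ℝ (Euc N)) S x := by
      refine (hasFDerivWithinAt_id x S).congr_of_eventuallyEq ?_ ?_
      · filter_upwards [self_mem_nhdsWithin, nhdsWithin_le_nhds (hO.mem_nhds hxO)] with q hq hqO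
        exact hinv q hqO hq
      · exact hinv x hxO hx
    have h3 := h1.unique_on h2 hy
    have h4 : fderiv ℝ f 0 (fderiv ℝ ℓ x y) = y := by simpa using h3
    have h5 := range_fderiv_eq_Tan hf hf.zero_mem
    rw [hf.map_zero] at h5
    rw [← h5, ← h4]
    exact ⟨_, rfl⟩
  · rw [Tan, Submodule.span_le]
    rintro v ⟨γ, h0, hγ, hS'⟩
    have := mem_tangentConeAt_of_curve hγ hS'
    rw [h0] at this
    exact Submodule.subset_span this

/-- A compact submanifold carries `Geo` data (for some curvature bound `κ ≥ 0`). -/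
theorem exists_geo (hS : IsSubmanifold n N S) (hc : IsCompact S) :
    ∃ κ : ℝ, 0 ≤ κ ∧ Nonempty (Geo n N κ S) := by
  obtain ⟨P, hP⟩ := exists_isProj hS hc.isClosed
  -- a bound for the derivative of `P` on `S`
  have hcont : Continuous (fderiv ℝ P) := hP.smooth.continuous_fderiv (by simp)
  obtain ⟨C, hC⟩ : ∃ C, ∀ x ∈ S, ‖fderiv ℝ P x‖ ≤ C := by
    have hcn : Continuous (fun x => ‖fderiv ℝ P x‖) :=
      (continuous_norm (E := Euc N →L[ℝ] Euc N →L[ℝ] Euc N)).comp hcont
    obtain ⟨C, hC⟩ := hc.exists_bound_of_continuousOn (f := fun x => ‖fderiv ℝ P x‖)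
      hcn.continuousOn
    exact ⟨C, fun x hx => (le_abs_self _).trans (hC x hx)⟩
  set C' := max C 0 with hC'
  have hC'0 : 0 ≤ C' := le_max_right _ _
  have hb : ∀ x ∈ S, ∀ v w : Euc N, ‖fderiv ℝ P x v w‖ ≤ C' * ‖v‖ * ‖w‖ := by
    intro x hx v w
    calc ‖fderiv ℝ P x v w‖ ≤ ‖fderiv ℝ P x v‖ * ‖w‖ := (fderiv ℝ P x v).le_opNorm w
      _ ≤ ‖fderiv ℝ P x‖ * ‖v‖ * ‖w‖ :=
          mul_le_mul_of_nonneg_right ((fderiv ℝ P x).le_opNorm v) (norm_nonneg _)
      _ ≤ C' * ‖v‖ * ‖w‖ := by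
          gcongr
          exact (hC x hx).trans (le_max_left _ _)
  refine ⟨C' ^ 2, sq_nonneg _, ⟨{ T := Tan S
                                  P := P
                                  isClosed := hc.isClosed
                                  contDiff_P := hP.smooth
                                  P_eq := hP.eq
                                  finrank_T := fun x hx => finrank_Tan hS hx
                                  deriv_mem := fun c c' t h1 h2 => mem_Tan_of_curve h2 h1
                                  exists_surface := fun x hx v hv w hw =>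
                                    exists_surface hS hx hv hw
                                  exists_geod := fun x hx v hv => exists_geod hP hS hx hv
                                  curv := ?_ }⟩⟩
  intro x hx v hv w hw
  rcases eq_or_ne v 0 with rfl | hv0
  · simp
  have hvn : 0 < ‖v‖ ^ 2 := by positivity
  set a : ℝ := ⟪v, w⟫ / ‖v‖ ^ 2 with ha
  set w' : Euc N := w - a • v with hw'
  have hw'T : w' ∈ Tan S x := Submodule.sub_mem _ hw (Submodule.smul_mem _ _ hv)
  have hort : ⟪v, w'⟫ = 0 := by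
    rw [hw', inner_sub_right, real_inner_smul_right, real_inner_self_eq_norm_sq, ha]
    field_simp
    ring
  have hww : w = w' + a • v := by rw [hw']; abel
  have hsymm : fderiv ℝ P x v w' = fderiv ℝ P x w' v := hP.II_symm hS hx hv hw'T
  have hnorm : ‖w‖ ^ 2 = ‖w'‖ ^ 2 + a ^ 2 * ‖v‖ ^ 2 := by
    have h1 : ⟪w', a • v⟫ = 0 := by
      rw [real_inner_smul_right, real_inner_comm, hort, mul_zero]
    rw [hww, norm_add_sq_real, h1, norm_smul, mul_pow, Real.norm_eq_abs, sq_abs]
    ring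
  have hin : ⟪v, w⟫ = a * ‖v‖ ^ 2 := by rw [ha]; field_simp
  have e1 : ⟪fderiv ℝ P x v v, fderiv ℝ P x w w⟫ - ‖fderiv ℝ P x v w‖ ^ 2 =
      ⟪fderiv ℝ P x v v, fderiv ℝ P x w' w'⟫ - ‖fderiv ℝ P x v w'‖ ^ 2 := by
    rw [hww]
    simp only [map_add, map_smul, _root_.add_apply, _root_.smul_apply]
    rw [← hsymm]
    simp only [inner_add_right, real_inner_smul_right, smul_add, smul_smul]
    rw [norm_add_sq_real, norm_smul, mul_pow, Real.norm_eq_abs, sq_abs, real_inner_smul_right,
      real_inner_self_eq_norm_sq, real_inner_comm (fderiv ℝ P x v w') (fderiv ℝ P x v v)]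
    ring
  rw [e1]
  have e2 : ‖v‖ ^ 2 * ‖w‖ ^ 2 - ⟪v, w⟫ ^ 2 = ‖v‖ ^ 2 * ‖w'‖ ^ 2 := by
    rw [hnorm, hin]; ring
  rw [e2]
  have e3 : ⟪fderiv ℝ P x v v, fderiv ℝ P x w' w'⟫ ≤ (C' * ‖v‖ * ‖v‖) * (C' * ‖w'‖ * ‖w'‖) :=
    (real_inner_le_norm _ _).trans (mul_le_mul (hb x hx v v) (hb x hx w' w') (norm_nonneg _)
      (by positivity))
  nlinarith [sq_nonneg ‖fderiv ℝ P x v w'‖]

/-! ### Geodesics -/

theorem hasDerivAt_deriv_of_contDiff {γ : ℝ → Euc N} (h : ContDiff ℝ ∞ γ) (t : ℝ) :
    HasDerivAt γ (deriv γ t) t := (h.differentiable (by simp) t).hasDerivAt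

theorem contDiff_deriv {γ : ℝ → Euc N} (h : ContDiff ℝ ∞ γ) : ContDiff ℝ ∞ (deriv γ) := by
  have h1 : ContDiff ℝ (∞ + 1) γ := h
  exact (contDiff_succ_iff_deriv.1 h1).2.2

/-- velocity of a smooth curve in `S` is tangent -/
theorem IsSmoothCurveIn.deriv_mem {γ : ℝ → Euc N} (G : Geo n N κ S) (h : IsSmoothCurveIn S γ)
    (t : ℝ) : deriv γ t ∈ G.T (γ t) :=
  G.deriv_mem γ (deriv γ t) t (Eventually.of_forall h.2) (hasDerivAt_deriv_of_contDiff h.1 t)

/-- differentiating `P(γ) γ' = γ'` -/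
theorem IsSmoothCurveIn.second {γ : ℝ → Euc N} (G : Geo n N κ S) (h : IsSmoothCurveIn S γ)
    (t : ℝ) : deriv (deriv γ) t =
      fderiv ℝ G.P (γ t) (deriv γ t) (deriv γ t) + G.P (γ t) (deriv (deriv γ) t) := by
  have hd1 := hasDerivAt_deriv_of_contDiff h.1 t
  have hd2 : HasDerivAt (deriv γ) (deriv (deriv γ) t) t :=
    hasDerivAt_deriv_of_contDiff (contDiff_deriv h.1) t
  have hP : HasDerivAt (fun t => G.P (γ t)) (fderiv ℝ G.P (γ t) (deriv γ t)) t :=
    ((differentiable_P G) (γ t)).hasFDerivAt.comp_hasDerivAt t hd1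
  have h1 := hP.clm_apply hd2
  have h2 : (fun t => G.P (γ t) (deriv γ t)) = deriv γ := by
    funext s
    exact (P_eq_self G (h.2 s)).1 (IsSmoothCurveIn.deriv_mem G h s)
  rw [h2] at h1
  exact hd2.unique h1

/-- Geodesics in the sense of the Prelude are the flow lines of the geodesic flow. -/
theorem isGeodesicIn_iff (hS : IsSubmanifold n N S) (G : Geo n N κ S) {γ : ℝ → Euc N} :
    IsGeodesicIn S γ ↔ ∃ q ∈ TS G, ∀ t, γ t = (fl G (q, t)).1 := by
  constructor
  · rintro ⟨h, hacc⟩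
    refine ⟨(γ 0, deriv γ 0), ⟨h.2 0, IsSmoothCurveIn.deriv_mem G h 0⟩, fun t => ?_⟩
    have hsol : ∀ s ∈ uIcc 0 t, HasDerivAt (fun t => (γ t, deriv γ t))
        (X G (γ s, deriv γ s)) s := by
      intro s _
      have hd1 := hasDerivAt_deriv_of_contDiff h.1 s
      have hd2 : HasDerivAt (deriv γ) (deriv (deriv γ) s) s :=
        hasDerivAt_deriv_of_contDiff (contDiff_deriv h.1) s
      have h3 : G.P (γ s) (deriv (deriv γ) s) = 0 := by
        rw [← P_eq_zero G (h.2 s), T_eq_Tan G (h.2 s), ← span_tangentConeAt hS (h.2 s)]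
        have := hacc s
        rwa [iteratedDeriv_succ, iteratedDeriv_one] at this
      have h4 := IsSmoothCurveIn.second G h s
      rw [h3, add_zero] at h4
      rw [h4] at hd2
      exact hd1.prodMk hd2
    have := (fl_of_curve G (c := fun t => (γ t, deriv γ t)) rfl hsol).2
    rw [this]
  · rintro ⟨q, hq, hγ⟩
    obtain rfl : γ = fun t => (fl G (q, t)).1 := funext hγ
    have hsm : ContDiff ℝ ∞ (fun t => fl G (q, t)) := by
      rw [contDiff_iff_contDiffAt]
      intro t
      have h1 := contDiffAt_fl' G hq t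
      exact ContDiffAt.comp t h1 (contDiffAt_const.prodMk contDiffAt_id)
    have hd1 : ∀ t, HasDerivAt (fun t => (fl G (q, t)).1) (fl G (q, t)).2 t := fun t =>
      hda_fst (hasDerivAt_fl G (complete G hq t))
    have hd2 : ∀ t, HasDerivAt (fun t => (fl G (q, t)).2)
        (fderiv ℝ G.P (fl G (q, t)).1 (fl G (q, t)).2 (fl G (q, t)).2) t := fun t =>
      hda_snd (hasDerivAt_fl G (complete G hq t))
    refine ⟨⟨hsm.fst, fun t => (fl_mem G hq t).1⟩, fun t => ?_⟩
    have e1 : deriv (fun t => (fl G (q, t)).1) = fun t => (fl G (q, t)).2 :=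
      funext fun t => (hd1 t).deriv
    have hm := fl_mem G hq t
    rw [iteratedDeriv_succ, iteratedDeriv_one, e1, (hd2 t).deriv,
      span_tangentConeAt hS hm.1, ← T_eq_Tan G hm.1, P_eq_zero G hm.1]
    exact II_normal G hm.1 hm.2 hm.2

/-- the initial velocity of a geodesic, unit speed -/
theorem norm_deriv_fl (G : Geo n N κ S) {q : Euc N × Euc N} (hq : q ∈ TS G) (t : ℝ) :
    deriv (fun t => (fl G (q, t)).1) t = (fl G (q, t)).2 ∧
      ‖deriv (fun t => (fl G (q, t)).1) t‖ = ‖q.2‖ := by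
  have h := (hda_fst (hasDerivAt_fl G (complete G hq t))).deriv
  have h' : deriv (fun t => (fl G (q, t)).1) t = (fl G (q, t)).2 := h
  exact ⟨h', by rw [h', norm_fl G hq t]⟩

theorem contDiff_fl_curve (G : Geo n N κ S) {q : Euc N × Euc N} (hq : q ∈ TS G) :
    ContDiff ℝ ∞ (fun t => fl G (q, t)) := by
  rw [contDiff_iff_contDiffAt]
  intro t
  have h1 := contDiffAt_fl' G hq t
  exact ContDiffAt.comp t h1 (contDiffAt_const.prodMk contDiffAt_id)

theorem isSmoothCurveIn_fl (G : Geo n N κ S) {q : Euc N × Euc N} (hq : q ∈ TS G) :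
    IsSmoothCurveIn S (fun t => (fl G (q, t)).1) :=
  ⟨(contDiff_fl_curve G hq).fst, fun t => (fl_mem G hq t).1⟩

end Crest.Agent.R208
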