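import Crest.Agent.R208.G2

/-!
R208, block G2b (helper882): the intrinsic distance is locally comparable with the chord, on a
compact connected submanifold it is a finite metric inducing the topology; the intrinsic distance
of the end points of any curve is at most its (ambient) length.
-/

set_option autoImplicit false

open Set Filter Topology MeasureTheory
open scoped ContDiff RealInnerProductSpace
open Crest.GeometryTopology.Submanifold
open Crest.Agent.R241.DDefs Crest.Agent.R241.D Crest.Agent.R241.D2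

noncomputable section

namespace Crest.Agent.R208

variable {n N : ℕ} {κ : ℝ} {S : Set (Euc N)}

/-- injective linear maps are bounded below -/
theorem exists_pos_le_norm {A : Euc n →L[ℝ] Euc N} (hA : Function.Injective A) :
    ∃ c : ℝ, 0 < c ∧ ∀ v, c * ‖v‖ ≤ ‖A v‖ := by
  have hker : LinearMap.ker (A : Euc n →ₗ[ℝ] Euc N) = ⊥ := LinearMap.ker_eq_bot.2 hA
  obtain ⟨K, hK, hKA⟩ := A.exists_antilipschitzWith hker
  refine ⟨(K : ℝ)⁻¹, by positivity, fun v => ?_⟩
  have h1 : ‖v‖ ≤ K * ‖A v‖ := hKA.le_mul_norm (map_zero _) v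
  rw [inv_mul_le_iff₀ (by exact_mod_cast hK)]
  exact h1

/-- local comparison of the intrinsic distance with the chord -/
theorem local_joinedLen (hS : IsSubmanifold n N S) {x₀ : Euc N} (hx₀ : x₀ ∈ S) {ε : ℝ}
    (hε : 0 < ε) : ∃ δ > 0, ∀ x ∈ S, ∀ y ∈ S, dist x x₀ < δ → dist y x₀ < δ →
      ∃ ℓ, JoinedLen S x y ℓ ∧ ℓ ≤ (1 + ε) * ‖y - x‖ := by
  obtain ⟨f, V, hf⟩ := hS x₀ hx₀
  obtain ⟨O, ℓc, hO, hxO, hℓ, hℓV, hℓ0, hinv⟩ := exists_coord hf hf.zero_mem
  rw [hf.map_zero] at hxO hℓ0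
  obtain ⟨c, hc, hcA⟩ := exists_pos_le_norm (hf.injective_fderiv 0 hf.zero_mem)
  set A := fderiv ℝ f 0 with hA
  set η : ℝ := min (c / 2) (c * ε / 4) with hη
  have hη0 : 0 < η := lt_min (by positivity) (by positivity)
  have hcd : ∀ z ∈ V, ContDiffAt ℝ ∞ f z := fun z hz =>
    hf.contDiffOn.contDiffAt (hf.isOpen.mem_nhds hz)
  have hstrict : HasStrictFDerivAt f A 0 := (hcd 0 hf.zero_mem).hasStrictFDerivAt (by simp)
  have hsl := hstrict.isLittleO.def hη0
  have hcontd : ContinuousAt (fderiv ℝ f) 0 :=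
    ((hcd 0 hf.zero_mem).fderiv_right (m := ∞) (by simp)).continuousAt
  have hnb : ∀ᶠ z in 𝓝 (0 : Euc n), z ∈ V ∧ ‖fderiv ℝ f z - A‖ < η := by
    have := (Metric.continuousAt_iff'.1 hcontd) η hη0
    filter_upwards [this, hf.isOpen.mem_nhds hf.zero_mem] with z hz hzV
    rw [dist_eq_norm] at hz
    exact ⟨hzV, hz⟩
  rw [nhds_prod_eq] at hsl
  obtain ⟨u, hu, hsl⟩ := Filter.eventually_prod_self_iff'.1 hsl
  obtain ⟨r, hr, hball⟩ := Metric.nhds_basis_ball.mem_iff.1 (Filter.inter_mem hu hnb)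
  -- coordinates close to `0`
  have hℓcont : ContinuousAt ℓc x₀ := (hℓ.contDiffAt (hO.mem_nhds hxO)).continuousAt
  have hev : ∀ᶠ q in 𝓝 x₀, q ∈ O ∧ ℓc q ∈ Metric.ball (0 : Euc n) r := by
    have h1 : Metric.ball (0 : Euc n) r ∈ 𝓝 (ℓc x₀) := by
      rw [hℓ0]
      exact Metric.ball_mem_nhds 0 hr
    filter_upwards [hO.mem_nhds hxO, hℓcont.eventually h1] with q hq1 hq2 using ⟨hq1, hq2⟩
  obtain ⟨δ, hδ, hδb⟩ := Metric.eventually_nhds_iff.1 hev
  refine ⟨δ, hδ, fun x hx y hy hxδ hyδ => ?_⟩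
  obtain ⟨hxO', hxr⟩ := hδb hxδ
  obtain ⟨hyO', hyr⟩ := hδb hyδ
  set a := ℓc x with ha
  set b := ℓc y with hb
  have hfa : f a = x := hinv x hxO' hx
  have hfb : f b = y := hinv y hyO' hy
  have hseg : ∀ t : ℝ, a + stp t • (b - a) ∈ Metric.ball (0 : Euc n) r := by
    intro t
    have := (convex_ball (0 : Euc n) r).add_smul_sub_mem hxr hyr (stp_mem t)
    exact this
  have hγd : ∀ t, HasDerivAt (fun t => f (a + stp t • (b - a)))
      (fderiv ℝ f (a + stp t • (b - a)) (deriv stp t • (b - a))) t := by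
    intro t
    have h1 : HasDerivAt (fun t => a + stp t • (b - a)) (deriv stp t • (b - a)) t :=
      (((stp_contDiff.differentiable (by simp) t).hasDerivAt).smul_const (b - a)).const_add a
    have h2 := ((hcd _ (hball (hseg t)).2.1).differentiableAt (by simp)).hasFDerivAt
    exact h2.comp_hasDerivAt t h1
  have hsm : ContDiff ℝ ∞ (fun t => f (a + stp t • (b - a))) := by
    rw [contDiff_iff_contDiffAt]
    intro t
    refine ContDiffAt.comp t (hcd _ (hball (hseg t)).2.1) ?_
    exact (contDiff_const.add (stp_contDiff.smul contDiff_const)).contDiffAt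
  refine ⟨_, ⟨fun t => f (a + stp t • (b - a)), ⟨hsm, fun t => mem_S hf (hball (hseg t)).2.1⟩,
    ?_, ?_, rfl⟩, ?_⟩
  · simp only [stp_zero (show (0 : ℝ) ≤ 1 / 3 by norm_num), zero_smul, add_zero, hfa]
  · simp only [stp_one (show (2 / 3 : ℝ) ≤ 1 by norm_num), one_smul, add_sub_cancel, hfb]
  · set C : ℝ := ‖A (b - a)‖ + η * ‖b - a‖ with hC
    have hlen : curveLength (fun t => f (a + stp t • (b - a))) ≤ C := by
      have h1 : ∀ t, ‖deriv (fun t => f (a + stp t • (b - a))) t‖ ≤ C * deriv stp t := by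
        intro t
        rw [(hγd t).deriv, map_smul, norm_smul, Real.norm_eq_abs,
          abs_of_nonneg stp_mono.deriv_nonneg, mul_comm]
        refine mul_le_mul_of_nonneg_right ?_ stp_mono.deriv_nonneg
        have h2 := (hball (hseg t)).2.2
        set z := a + stp t • (b - a)
        calc ‖fderiv ℝ f z (b - a)‖ = ‖A (b - a) + (fderiv ℝ f z - A) (b - a)‖ := by
              simp
          _ ≤ ‖A (b - a)‖ + ‖(fderiv ℝ f z - A) (b - a)‖ := norm_add_le _ _
          _ ≤ ‖A (b - a)‖ + η * ‖b - a‖ := by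
              gcongr
              exact ((fderiv ℝ f z - A).le_opNorm _).trans
                (mul_le_mul_of_nonneg_right h2.le (norm_nonneg _))
      have h3 : ∫ t in (0 : ℝ)..1, C * deriv stp t = C := by
        rw [intervalIntegral.integral_const_mul]
        have : ∫ t in (0 : ℝ)..1, deriv stp t = stp 1 - stp 0 :=
          intervalIntegral.integral_eq_sub_of_hasDerivAt
            (fun t _ => (stp_contDiff.differentiable (by simp) t).hasDerivAt)
            ((stp_contDiff.continuous_deriv (by simp)).intervalIntegrable _ _)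
        rw [this, stp_zero (show (0 : ℝ) ≤ 1 / 3 by norm_num),
          stp_one (show (2 / 3 : ℝ) ≤ 1 by norm_num)]
        ring
      rw [← h3]
      exact intervalIntegral.integral_mono_on zero_le_one
        ((continuous_norm_deriv hsm).intervalIntegrable _ _)
        ((continuous_const.mul (stp_contDiff.continuous_deriv (by simp))).intervalIntegrable _ _)
        (fun t _ => h1 t)
    refine hlen.trans ?_
    have h4 : ‖f b - f a - A (b - a)‖ ≤ η * ‖b - a‖ :=
      hsl b (hball hyr).1 a (hball hxr).1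
    rw [hfa, hfb] at h4
    have h5 : ‖A (b - a)‖ ≤ ‖y - x‖ + η * ‖b - a‖ := by
      calc ‖A (b - a)‖ = ‖(y - x) - (y - x - A (b - a))‖ := by congr 1; abel
        _ ≤ ‖y - x‖ + ‖y - x - A (b - a)‖ := norm_sub_le _ _
        _ ≤ _ := by gcongr
    have h6 := hcA (b - a)
    have h7 : η ≤ c / 2 := min_le_left _ _
    have h8 : η ≤ c * ε / 4 := min_le_right _ _
    have hba : c / 2 * ‖b - a‖ ≤ ‖y - x‖ := by
      nlinarith [norm_nonneg (b - a)]
    have h9 : η * ‖b - a‖ ≤ ε / 2 * ‖y - x‖ := by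
      have : η * ‖b - a‖ ≤ c * ε / 4 * ‖b - a‖ := mul_le_mul_of_nonneg_right h8 (norm_nonneg _)
      nlinarith
    rw [hC]
    linarith

/-- in a connected submanifold any two points are joined by a smooth curve -/
theorem joinedS_of_connected (hS : IsSubmanifold n N S) (hc : IsConnected S) {p q : Euc N}
    (hp : p ∈ S) (hq : q ∈ S) : JoinedS S p q := by
  have hloc : ∀ x ∈ S, ∀ᶠ y in 𝓝[S] x, JoinedS S x y := by
    intro x hx
    obtain ⟨δ, hδ, h⟩ := local_joinedLen hS hx zero_lt_one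
    filter_upwards [self_mem_nhdsWithin, nhdsWithin_le_nhds (Metric.ball_mem_nhds x hδ)] with y hy hyδ
    obtain ⟨ℓ, h1, _⟩ := h x hx y hy (by simpa using hδ) hyδ
    exact h1.joined
  have hpre := hc.isPreconnected
  by_contra hcon
  have key := hpre (u := {x | ∃ δ > 0, ∀ y ∈ S, dist y x < δ → JoinedS S p y})
    (v := {x | ∃ δ > 0, ∀ y ∈ S, dist y x < δ → ¬ JoinedS S p y}) ?_ ?_ ?_ ?_ ?_
  · obtain ⟨x, hx, ⟨δ, hδ, h1⟩, ⟨δ', hδ', h2⟩⟩ := key
    exact h2 x hx (by simpa using hδ') (h1 x hx (by simpa using hδ))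
  · rw [Metric.isOpen_iff]
    rintro x ⟨δ, hδ, h⟩
    refine ⟨δ / 2, by positivity, fun z hz => ⟨δ / 2, by positivity, fun y hy hyz => h y hy ?_⟩⟩
    calc dist y x ≤ dist y z + dist z x := dist_triangle _ _ _
      _ < δ / 2 + δ / 2 := add_lt_add hyz hz
      _ = δ := by ring
  · rw [Metric.isOpen_iff]
    rintro x ⟨δ, hδ, h⟩
    refine ⟨δ / 2, by positivity, fun z hz => ⟨δ / 2, by positivity, fun y hy hyz => h y hy ?_⟩⟩
    calc dist y x ≤ dist y z + dist z x := dist_triangle _ _ _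
      _ < δ / 2 + δ / 2 := add_lt_add hyz hz
      _ = δ := by ring
  · intro x hx
    obtain ⟨δ, hδ, h⟩ := Metric.eventually_nhds_iff.1 (eventually_nhdsWithin_iff.1 (hloc x hx))
    by_cases hpx : JoinedS S p x
    · exact Or.inl ⟨δ, hδ, fun y hy hyx => hpx.trans (h hyx hy)⟩
    · exact Or.inr ⟨δ, hδ, fun y hy hyx hpy => hpx (hpy.trans (h hyx hy).symm)⟩
  · obtain ⟨δ, hδ, h⟩ := Metric.eventually_nhds_iff.1 (eventually_nhdsWithin_iff.1 (hloc p hp))
    exact ⟨p, hp, δ, hδ, fun y hy hyp => h hyp hy⟩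
  · obtain ⟨δ, hδ, h⟩ := Metric.eventually_nhds_iff.1 (eventually_nhdsWithin_iff.1 (hloc q hq))
    exact ⟨q, hq, δ, hδ, fun y hy hyq hpy => hcon (hpy.trans (h hyq hy).symm)⟩

/-- uniform local comparison on a compact submanifold -/
theorem uniform_joinedLen (hS : IsSubmanifold n N S) (hcpt : IsCompact S) {ε : ℝ} (hε : 0 < ε) :
    ∃ δ > 0, ∀ x ∈ S, ∀ y ∈ S, dist x y < δ →
      ∃ ℓ, JoinedLen S x y ℓ ∧ ℓ ≤ (1 + ε) * ‖y - x‖ := by
  have h := fun x (hx : x ∈ S) => local_joinedLen hS hx hε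
  choose! δ hδ h using h
  obtain ⟨t, htS, htc⟩ := hcpt.elim_nhds_subcover (fun x => Metric.ball x (δ x / 2))
    (fun x hx => Metric.ball_mem_nhds x (half_pos (hδ x hx)))
  rcases t.eq_empty_or_nonempty with rfl | hne
  · refine ⟨1, one_pos, fun x hx => ?_⟩
    have := htc hx
    simp at this
  · refine ⟨t.inf' hne (fun x => δ x / 2), ?_, fun x hx y hy hxy => ?_⟩
    · rw [gt_iff_lt, Finset.lt_inf'_iff]
      exact fun x hx => half_pos (hδ x (htS x hx))
    · obtain ⟨z, hz, hxz⟩ := mem_iUnion₂.1 (htc hx)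
      have h1 : dist x y < δ z / 2 := hxy.trans_le (Finset.inf'_le _ hz)
      refine h z (htS z hz) x hx y hy ?_ ?_
      · exact (Metric.mem_ball.1 hxz).trans (half_lt_self (hδ z (htS z hz)))
      · calc dist y z ≤ dist y x + dist x z := dist_triangle _ _ _
          _ < δ z / 2 + δ z / 2 := add_lt_add (by rwa [dist_comm]) hxz
          _ = δ z := by ring

/-- Curves: if `c` is continuous on `[a,b]` with values in `S` and its chords are bounded by
increments of `L`, then the intrinsic distance of the end points is at most `L b - L a`. -/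
theorem intrinsicDist_le_of_chords (hS : IsSubmanifold n N S) (hcpt : IsCompact S)
    {c : ℝ → Euc N} {L : ℝ → ℝ} {a b : ℝ} (hab : a ≤ b) (hc : ContinuousOn c (Icc a b))
    (hcS : ∀ t ∈ Icc a b, c t ∈ S)
    (hL : ∀ s ∈ Icc a b, ∀ t ∈ Icc a b, s ≤ t → ‖c t - c s‖ ≤ L t - L s) :
    JoinedS S (c a) (c b) ∧ intrinsicDist S (c a) (c b) ≤ L b - L a := by
  have hLnn : 0 ≤ L b - L a := (norm_nonneg _).trans (hL a ⟨le_rfl, hab⟩ b ⟨hab, le_rfl⟩ hab)
  have key : ∀ ε > 0, JoinedS S (c a) (c b) ∧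
      intrinsicDist S (c a) (c b) ≤ (1 + ε) * (L b - L a) := by
    intro ε hε
    obtain ⟨δ, hδ, h⟩ := uniform_joinedLen hS hcpt hε
    have hunif : UniformContinuousOn c (Icc a b) :=
      isCompact_Icc.uniformContinuousOn_of_continuous hc
    obtain ⟨η, hη, hcη⟩ := Metric.uniformContinuousOn_iff.1 hunif δ hδ
    obtain ⟨m, hm⟩ := exists_nat_gt ((b - a) / η)
    have hm0 : (0 : ℝ) < m := lt_of_le_of_lt (by have := sub_nonneg.2 hab; positivity) hm
    have hstep : (b - a) / m < η := by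
      rw [div_lt_iff₀ hm0]
      rw [div_lt_iff₀ hη] at hm
      linarith
    have hstep0 : 0 ≤ (b - a) / m := div_nonneg (sub_nonneg.2 hab) hm0.le
    -- partition points
    set τ : ℕ → ℝ := fun k => a + k * ((b - a) / m) with hτ
    have hτmem : ∀ k ≤ m, τ k ∈ Icc a b := by
      intro k hk
      have hk' : (k : ℝ) ≤ m := by exact_mod_cast hk
      refine ⟨?_, ?_⟩
      · simp only [hτ]; nlinarith [show (0 : ℝ) ≤ k from Nat.cast_nonneg k]
      · simp only [hτ]
        have : (k : ℝ) * ((b - a) / m) ≤ m * ((b - a) / m) :=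
          mul_le_mul_of_nonneg_right hk' hstep0
        have h2 : (m : ℝ) * ((b - a) / m) = b - a := by field_simp
        linarith
    have hind : ∀ k ≤ m, ∃ ℓ, JoinedLen S (c a) (c (τ k)) ℓ ∧ ℓ ≤ (1 + ε) * (L (τ k) - L a) := by
      intro k
      induction k with
      | zero =>
        intro _
        refine ⟨0, ?_, ?_⟩
        · simp only [hτ, Nat.cast_zero, zero_mul, add_zero]
          exact JoinedLen.refl (hcS a ⟨le_rfl, hab⟩)
        · simp [hτ]
      | succ k ih =>
        intro hk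
        obtain ⟨ℓ, h1, h2⟩ := ih (by omega)
        have hk1 := hτmem k (by omega)
        have hk2 := hτmem (k + 1) hk
        have hle : τ k ≤ τ (k + 1) := by
          simp only [hτ]; push_cast; nlinarith
        have hlt : dist (c (τ k)) (c (τ (k + 1))) < δ := by
          apply hcη _ hk1 _ hk2
          rw [Real.dist_eq, abs_sub_comm, abs_of_nonneg (sub_nonneg.2 hle)]
          simp only [hτ]; push_cast
          calc _ = (b - a) / m := by ring
            _ < η := hstep
        obtain ⟨ℓ', h3, h4⟩ := h _ (hcS _ hk1) _ (hcS _ hk2) hlt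
        refine ⟨ℓ + ℓ', h1.trans h3, ?_⟩
        have h5 := hL _ hk1 _ hk2 hle
        nlinarith
    obtain ⟨ℓ, h1, h2⟩ := hind m le_rfl
    have hτm : τ m = b := by simp only [hτ]; field_simp; ring
    rw [hτm] at h1 h2
    exact ⟨h1.joined, (intrinsicDist_le h1).trans h2⟩
  refine ⟨(key 1 one_pos).1, ?_⟩
  refine le_of_forall_pos_le_add fun η hη => ?_
  have h := (key (η / (L b - L a + 1)) (by positivity)).2
  refine h.trans ?_
  have h1 : η / (L b - L a + 1) * (L b - L a) ≤ η := by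
    rw [div_mul_eq_mul_div, div_le_iff₀ (by positivity)]
    nlinarith
  linarith

/-- `C¹` curves in `S` -/
theorem intrinsicDist_le_integral (hS : IsSubmanifold n N S) (hcpt : IsCompact S)
    {c c' : ℝ → Euc N} {a b : ℝ} (hab : a ≤ b) (hcS : ∀ t ∈ Icc a b, c t ∈ S)
    (hd : ∀ t ∈ Icc a b, HasDerivWithinAt c (c' t) (Icc a b) t) (hc' : ContinuousOn c' (Icc a b)) :
    JoinedS S (c a) (c b) ∧ intrinsicDist S (c a) (c b) ≤ ∫ t in a..b, ‖c' t‖ := by
  have hcont : ContinuousOn c (Icc a b) := fun t ht => (hd t ht).continuousWithinAt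
  have hint : ∀ s ∈ Icc a b, ∀ t ∈ Icc a b, IntervalIntegrable (fun t => ‖c' t‖) volume s t := by
    intro s hs t ht
    exact (hc'.norm.mono (uIcc_subset_Icc hs ht)).intervalIntegrable
  have h := intrinsicDist_le_of_chords hS hcpt (c := c) (L := fun t => ∫ s in a..t, ‖c' s‖) hab
    hcont hcS ?_
  · simpa using h
  · intro s hs t ht hst
    have h1 : (∫ r in a..t, ‖c' r‖) - ∫ r in a..s, ‖c' r‖ = ∫ r in s..t, ‖c' r‖ :=
      intervalIntegral.integral_interval_sub_left (hint a ⟨le_rfl, hab⟩ t ht)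
        (hint a ⟨le_rfl, hab⟩ s hs)
    change _ ≤ (∫ r in a..t, ‖c' r‖) - ∫ r in a..s, ‖c' r‖
    rw [h1]
    have hsub : Icc s t ⊆ Icc a b := Icc_subset_Icc hs.1 ht.2
    have h2 : ∫ r in s..t, c' r = c t - c s := by
      apply intervalIntegral.integral_eq_sub_of_hasDeriv_right_of_le hst
      · exact hcont.mono hsub
      · intro x hx
        have hx' : x ∈ Icc a b := hsub ⟨hx.1.le, hx.2.le⟩
        refine ((hd x hx').mono_of_mem_nhdsWithin ?_)
        have : Icc x t ⊆ Icc a b := Icc_subset_Icc hx'.1 ht.2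
        exact Filter.mem_of_superset
          (Filter.inter_mem self_mem_nhdsWithin (nhdsWithin_le_nhds (Iio_mem_nhds hx.2)))
          (fun y hy => this ⟨(show x < y from hy.1).le, (show y < t from hy.2).le⟩)
      · exact (hc'.mono (uIcc_subset_Icc hs ht)).intervalIntegrable
    rw [← h2]
    exact intervalIntegral.norm_integral_le_integral_norm hst

end Crest.Agent.R208
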