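import Crest.Agent.R208.G2b

/-!
R208, block G3 (helper882): Blaschke data, continuity of the intrinsic distance, the local inverse
theorem on a submanifold.
-/

set_option autoImplicit false

open Set Filter Topology MeasureTheory
open scoped ContDiff RealInnerProductSpace
open Crest.GeometryTopology.Submanifold
open Crest.Agent.R241.DDefs Crest.Agent.R241.D Crest.Agent.R241.D2

noncomputable section

namespace Crest.Agent.R208

variable {n N : ℕ} {κ : ℝ} {S : Set (Euc N)}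

/-! ### Continuity of the intrinsic distance -/

section cont

variable (hS : IsSubmanifold n N S) (hcpt : IsCompact S) (hconn : IsConnected S)

include hS hcpt hconn in
theorem continuousOn_intrinsicDist :
    ContinuousOn (fun z : Euc N × Euc N => intrinsicDist S z.1 z.2) (S ×ˢ S) := by
  obtain ⟨δ, hδ, h⟩ := uniform_joinedLen hS hcpt zero_lt_one
  have hJ : ∀ {x y : Euc N}, x ∈ S → y ∈ S → JoinedS S x y := fun hx hy =>
    joinedS_of_connected hS hconn hx hy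
  have hb : ∀ x ∈ S, ∀ y ∈ S, dist x y < δ → intrinsicDist S x y ≤ 2 * dist x y := by
    intro x hx y hy hxy
    obtain ⟨ℓ, h1, h2⟩ := h x hx y hy hxy
    refine (intrinsicDist_le h1).trans (h2.trans (le_of_eq ?_))
    rw [dist_comm, dist_eq_norm]; ring
  rintro ⟨x, y⟩ ⟨hx, hy⟩
  rw [Metric.continuousWithinAt_iff]
  intro ε hε
  refine ⟨min δ (ε / 4), lt_min hδ (by positivity), ?_⟩
  rintro ⟨x', y'⟩ ⟨hx', hy'⟩ hd
  simp only at hx hy hx' hy'
  rw [Prod.dist_eq, max_lt_iff] at hd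
  obtain ⟨hd1, hd2⟩ := hd
  simp only at hd1 hd2
  have a1 := hb x' hx' x hx (hd1.trans_le (min_le_left _ _))
  have a2 := hb y' hy' y hy (hd2.trans_le (min_le_left _ _))
  have a3 := hd1.trans_le (min_le_right δ (ε / 4))
  have a4 := hd2.trans_le (min_le_right δ (ε / 4))
  have b1 : intrinsicDist S x' y' ≤
      intrinsicDist S x' x + (intrinsicDist S x y + intrinsicDist S y y') :=
    (intrinsicDist_triangle (hJ hx' hx) (hJ hx hy')).trans
      (by gcongr; exact intrinsicDist_triangle (hJ hx hy) (hJ hy hy'))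
  have b2 : intrinsicDist S x y ≤
      intrinsicDist S x x' + (intrinsicDist S x' y' + intrinsicDist S y' y) :=
    (intrinsicDist_triangle (hJ hx hx') (hJ hx' hy)).trans
      (by gcongr; exact intrinsicDist_triangle (hJ hx' hy') (hJ hy' hy))
  rw [intrinsicDist_comm S y y'] at b1
  rw [intrinsicDist_comm S x x'] at b2
  rw [Real.dist_eq, abs_lt]
  constructor <;> simp only <;> linarith

include hS hcpt hconn in
theorem bddAbove_intrinsicDist :
    BddAbove {d : ℝ | ∃ p ∈ S, ∃ q ∈ S, d = intrinsicDist S p q} := by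
  obtain ⟨C, hC⟩ := (hcpt.prod hcpt).bddAbove_image (continuousOn_intrinsicDist hS hcpt hconn)
  refine ⟨C, ?_⟩
  rintro d ⟨p, hp, q, hq, rfl⟩
  exact hC ⟨(p, q), ⟨hp, hq⟩, rfl⟩

include hS hcpt hconn in
theorem intrinsicDist_le_diam {p q : Euc N} (hp : p ∈ S) (hq : q ∈ S) :
    intrinsicDist S p q ≤ intrinsicDiam S :=
  le_csSup (bddAbove_intrinsicDist hS hcpt hconn) ⟨p, hp, q, hq, rfl⟩

end cont

/-- a submanifold of positive dimension through `x` contains a point different from `x` -/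
theorem exists_ne_mem (hS : IsSubmanifold n N S) (hn : 1 ≤ n) {x : Euc N} (hx : x ∈ S) :
    ∃ y ∈ S, y ≠ x := by
  obtain ⟨f, V, hf⟩ := hS x hx
  obtain ⟨r, hr, hrV⟩ := Metric.isOpen_iff.1 hf.isOpen 0 hf.zero_mem
  set v : Euc n := (r / 2) • stdVec n ⟨0, hn⟩ with hv
  have hvn : ‖v‖ = r / 2 := by
    rw [hv, norm_smul, Real.norm_eq_abs, abs_of_pos (by positivity)]
    simp [stdVec]
  have hvV : v ∈ V := hrV (by rw [Metric.mem_ball, dist_zero_right, hvn]; linarith)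
  refine ⟨f v, mem_S hf hvV, fun h => ?_⟩
  rw [← hf.map_zero] at h
  have := hf.injOn hvV hf.zero_mem h
  rw [this, norm_zero] at hvn
  linarith

/-! ### Blaschke data -/

/-- Blaschke data: compact connected `n`-dimensional submanifold (`n ≥ 1`), diameter `≤ D`, every
unit speed geodesic minimises on intervals of length `≤ D`. -/
structure Bl (n N : ℕ) (κ : ℝ) (S : Set (Euc N)) (G : Geo n N κ S) (D : ℝ) : Prop where
  sub : IsSubmanifold n N S
  cpt : IsCompact S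
  conn : IsConnected S
  hn : 1 ≤ n
  D_pos : 0 < D
  dist_le : ∀ p ∈ S, ∀ q ∈ S, intrinsicDist S p q ≤ D
  dist_fl : ∀ q ∈ TS G, ‖q.2‖ = 1 → ∀ a b : ℝ, a ≤ b → b - a ≤ D →
    intrinsicDist S (fl G (q, a)).1 (fl G (q, b)).1 = b - a

/-- The hypotheses of S0321 give Blaschke data with `D = intrinsicDiam S`. -/
theorem exists_bl (hn : 1 ≤ n) (hS : IsSubmanifold n N S) (hcpt : IsCompact S)
    (hconn : IsConnected S)
    (hmin : ∀ γ : ℝ → Euc N, IsGeodesicIn S γ → (∀ t, ‖deriv γ t‖ = 1) →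
      ∀ a b : ℝ, a ≤ b → b - a ≤ intrinsicDiam S → intrinsicDist S (γ a) (γ b) = b - a) :
    ∃ (κ : ℝ) (G : Geo n N κ S), Bl n N κ S G (intrinsicDiam S) := by
  obtain ⟨κ, -, ⟨G⟩⟩ := exists_geo hS hcpt
  refine ⟨κ, G, ⟨hS, hcpt, hconn, hn, ?_, ?_, ?_⟩⟩
  · obtain ⟨x, hx⟩ := hconn.nonempty
    obtain ⟨y, hy, hyx⟩ := exists_ne_mem hS hn hx
    have h1 := chord_le_intrinsicDist (joinedS_of_connected hS hconn hx hy)
    have h2 := intrinsicDist_le_diam hS hcpt hconn hx hy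
    have h3 : 0 < ‖y - x‖ := norm_pos_iff.2 (sub_ne_zero.2 hyx)
    linarith
  · exact fun p hp q hq => intrinsicDist_le_diam hS hcpt hconn hp hq
  · intro q hq hq1 a b hab hbD
    refine hmin (fun t => (fl G (q, t)).1) ?_ ?_ a b hab hbD
    · exact (isGeodesicIn_iff hS G).2 ⟨q, hq, fun _ => rfl⟩
    · intro t
      rw [(norm_deriv_fl G hq t).2, hq1]

/-! ### Local inverse theorem on a submanifold -/

/-- A smooth map `Φ` from `ℝ^n` into the `n`-dimensional submanifold `S` with injective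
differential at `v₀` has a smooth local inverse, defined on a neighbourhood in the ambient space;
in particular `Φ` is open near `v₀`. -/
theorem local_inverse (hS : IsSubmanifold n N S) {Φ : Euc n → Euc N} {v₀ : Euc n}
    (hΦ : ContDiffAt ℝ ∞ Φ v₀) (hmem : ∀ᶠ v in 𝓝 v₀, Φ v ∈ S)
    (hinj : Function.Injective (fderiv ℝ Φ v₀)) :
    ∃ R : Euc N → Euc n, ContDiffAt ℝ ∞ R (Φ v₀) ∧ R (Φ v₀) = v₀ ∧
      (∀ᶠ v in 𝓝 v₀, R (Φ v) = v) ∧ (∀ᶠ y in 𝓝[S] (Φ v₀), Φ (R y) = y) := by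
  have hv₀S : Φ v₀ ∈ S := hmem.self_of_nhds
  obtain ⟨f, V, hf⟩ := hS _ hv₀S
  obtain ⟨O, ℓ, hO, hxO, hℓ, hℓV, hℓ0, hinv⟩ := exists_coord hf hf.zero_mem
  rw [hf.map_zero] at hxO hℓ0
  have hℓd : ContDiffAt ℝ ∞ ℓ (Φ v₀) := hℓ.contDiffAt (hO.mem_nhds hxO)
  have hfd : ContDiffAt ℝ ∞ f 0 := hf.contDiffOn.contDiffAt (hf.isOpen.mem_nhds hf.zero_mem)
  have hg : ContDiffAt ℝ ∞ (ℓ ∘ Φ) v₀ := ContDiffAt.comp v₀ hℓd hΦ
  have hΦO : ∀ᶠ v in 𝓝 v₀, Φ v ∈ O := hΦ.continuousAt.eventually (hO.mem_nhds hxO)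
  have hfac : ∀ᶠ v in 𝓝 v₀, f (ℓ (Φ v)) = Φ v := by
    filter_upwards [hΦO, hmem] with v h1 h2 using hinv _ h1 h2
  have hcomp : fderiv ℝ Φ v₀ = (fderiv ℝ f 0).comp (fderiv ℝ (ℓ ∘ Φ) v₀) := by
    have h1 : Φ =ᶠ[𝓝 v₀] f ∘ (ℓ ∘ Φ) := hfac.mono fun v hv => hv.symm
    rw [h1.fderiv_eq, fderiv_comp]
    · simp only [Function.comp_apply, hℓ0]
    · have : (ℓ ∘ Φ) v₀ = 0 := hℓ0
      rw [this]
      exact hfd.differentiableAt (by simp)
    · exact hg.differentiableAt (by simp)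
  have hinj' : Function.Injective (fderiv ℝ (ℓ ∘ Φ) v₀) := by
    intro a b hab
    apply hinj
    rw [hcomp]
    simp only [ContinuousLinearMap.comp_apply, hab]
  let L : Euc n ≃L[ℝ] Euc n :=
    (LinearEquiv.ofInjectiveEndo (fderiv ℝ (ℓ ∘ Φ) v₀).toLinearMap
      hinj').toContinuousLinearEquiv
  have hL : HasFDerivAt (ℓ ∘ Φ) (L : Euc n →L[ℝ] Euc n) v₀ := by
    have h2 : (L : Euc n →L[ℝ] Euc n) = fderiv ℝ (ℓ ∘ Φ) v₀ := ContinuousLinearMap.ext fun v => rfl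
    rw [h2]
    exact (hg.differentiableAt (by simp)).hasFDerivAt
  have hn0 : (∞ : WithTop ℕ∞) ≠ 0 := by simp
  set g := hg.toOpenPartialHomeomorph (ℓ ∘ Φ) hL hn0 with hgdef
  have hgc : (g : Euc n → Euc n) = ℓ ∘ Φ := rfl
  have h0g : v₀ ∈ g.source := hg.mem_toOpenPartialHomeomorph_source hL hn0
  have hsymm : ContDiffAt ℝ ∞ g.symm ((ℓ ∘ Φ) v₀) := hg.to_localInverse hL hn0
  have hR : ContDiffAt ℝ ∞ (fun y => g.symm (ℓ y)) (Φ v₀) := ContDiffAt.comp (Φ v₀) hsymm hℓd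
  have hR0 : g.symm (ℓ (Φ v₀)) = v₀ := g.left_inv h0g
  refine ⟨fun y => g.symm (ℓ y), hR, hR0, ?_, ?_⟩
  · filter_upwards [g.open_source.mem_nhds h0g] with v hv
    exact g.left_inv hv
  · have h1 : ∀ᶠ y in 𝓝 (Φ v₀), f (ℓ (Φ (g.symm (ℓ y)))) = Φ (g.symm (ℓ y)) := by
      have : Tendsto (fun y => g.symm (ℓ y)) (𝓝 (Φ v₀)) (𝓝 v₀) := by
        have := hR.continuousAt.tendsto
        rwa [hR0] at this
      exact this.eventually hfac
    have h2 : ∀ᶠ y in 𝓝 (Φ v₀), ℓ y ∈ g.target := by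
      refine hℓd.continuousAt.eventually (g.open_target.mem_nhds ?_)
      exact g.map_source h0g
    filter_upwards [nhdsWithin_le_nhds h1, nhdsWithin_le_nhds h2, self_mem_nhdsWithin,
      nhdsWithin_le_nhds (hO.mem_nhds hxO)] with y hy1 hy2 hyS hyO
    have h3 : ℓ (Φ (g.symm (ℓ y))) = ℓ y := g.right_inv hy2
    rw [h3, hinv y hyO hyS] at hy1
    exact hy1.symm

/-- an orthonormal frame of the tangent space: a linear isometry of `ℝ^n` onto `T x` -/
theorem exists_frame (G : Geo n N κ S) {x : Euc N} (hx : x ∈ S) :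
    ∃ b : Euc n →ₗᵢ[ℝ] Euc N, LinearMap.range b.toLinearMap = G.T x := by
  have hfr := G.finrank_T x hx
  let e : Euc n ≃ₗᵢ[ℝ] G.T x :=
    ((stdOrthonormalBasis ℝ (G.T x)).reindex (finCongr hfr)).repr.symm
  refine ⟨(G.T x).subtypeₗᵢ.comp e.toLinearIsometry, ?_⟩
  ext v
  simp only [LinearMap.mem_range]
  constructor
  · rintro ⟨w, rfl⟩
    exact (e w).2
  · intro hv
    exact ⟨e.symm ⟨v, hv⟩, by simp⟩

theorem frame_mem {G : Geo n N κ S} {x : Euc N} {b : Euc n →ₗᵢ[ℝ] Euc N}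
    (hb : LinearMap.range b.toLinearMap = G.T x) (v : Euc n) : b v ∈ G.T x := by
  rw [← hb]; exact ⟨v, rfl⟩

theorem exists_frame_eq {G : Geo n N κ S} {x : Euc N} {b : Euc n →ₗᵢ[ℝ] Euc N}
    (hb : LinearMap.range b.toLinearMap = G.T x) {v : Euc N} (hv : v ∈ G.T x) :
    ∃ w, b w = v := by
  rw [← hb] at hv
  obtain ⟨w, hw⟩ := hv
  exact ⟨w, hw⟩

end Crest.Agent.R208
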