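import Crest.Agent.R208.HHg

/-!
# (H1), (H2): the versions over `ℂ` (with real `μ`, complex `ε`).
-/

namespace Crest.Agent.R208.HH

open Finset PowerSeries V2

noncomputable section

theorem eq_of_sq_eq' {A B : PowerSeries ℂ} (hA : constantCoeff A = 1) (hB : constantCoeff B = 1)
    (h : A ^ 2 = B ^ 2) : A = B := by
  rcases sq_eq_sq_iff_eq_or_eq_neg.1 h with h | h
  · exact h
  · exfalso
    rw [h, map_neg, hB] at hA
    norm_num at hA

theorem ne_zero_of_cc' {f : PowerSeries ℂ} (h : constantCoeff f = 1) : f ≠ 0 := by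
  rintro rfl
  simp at h

/-- real series as complex series. -/
abbrev cx : PowerSeries ℝ →+* PowerSeries ℂ := PowerSeries.map Complex.ofRealHom

theorem coeff_cx (f : PowerSeries ℝ) (n : ℕ) : coeff n (cx f) = ((coeff n f : ℝ) : ℂ) := by
  rw [cx, PowerSeries.coeff_map]
  rfl

theorem cx_C (a : ℝ) : cx (C a) = C (a : ℂ) := by
  rw [cx, PowerSeries.map_C]
  rfl

theorem cx_X : cx X = X := PowerSeries.map_X _

/-- the common part: everything is determined, hence real. -/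
theorem real_data (m n : ℕ) (hm : m + 1 = n + 2) (κ : ℝ) (hκ : 2 < κ) (ε : ℂ) (c P D : PowerSeries ℂ)
    (c' P' : PowerSeries ℝ) (hc : c = cx c') (hP : P = cx P')
    (hD : ∀ i : ℕ, ((κ : ℂ) * (i + 1) - 2) * coeff i D = -coeff (i + 1) P)
    (hε : ε ≠ 0)
    (H1 : coeff (m - 1) c = ε * (m + 1).choose 2)
    (H2 : coeff (m - 2) (c * D) = ε * (m + 1).choose 3) :
    ∃ (ε' : ℝ) (D' : PowerSeries ℝ), ε' ≠ 0 ∧
      (∀ i : ℕ, (κ * (i + 1) - 2) * coeff i D' = -coeff (i + 1) P') ∧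
      coeff (m - 1) c' = ε' * (m + 1).choose 2 ∧
      coeff (m - 2) (c' * D') = ε' * (m + 1).choose 3 := by
  have hch : 0 < (m + 1).choose 2 := Nat.choose_pos (by omega)
  have hch' : (((m + 1).choose 2 : ℕ) : ℝ) ≠ 0 := by positivity
  have hch'' : (((m + 1).choose 2 : ℕ) : ℂ) ≠ 0 := by exact_mod_cast hch.ne'
  have hk : ∀ i : ℕ, κ * ((i : ℝ) + 1) - 2 ≠ 0 := by
    intro i
    have hi : (0 : ℝ) ≤ i := Nat.cast_nonneg i
    have : 0 < κ * ((i : ℝ) + 1) - 2 := by nlinarith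
    exact this.ne'
  set D' : PowerSeries ℝ := PowerSeries.mk fun i => -coeff (i + 1) P' / (κ * (i + 1) - 2) with hD'
  have hDD : D = cx D' := by
    ext i
    have h := hD i
    have hki : ((κ : ℂ) * (i + 1) - 2) ≠ 0 := by
      have := hk i
      exact_mod_cast this
    rw [coeff_cx, hD', coeff_mk]
    apply mul_left_cancel₀ hki
    rw [h, hP, coeff_cx]
    push_cast
    rw [mul_div_cancel₀ _ hki]
  set ε' : ℝ := coeff (m - 1) c' / (m + 1).choose 2 with hε'
  have hεε : ε = (ε' : ℂ) := by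
    rw [hc, coeff_cx] at H1
    rw [hε']
    push_cast
    rw [H1, mul_div_cancel_right₀ _ hch'']
  refine ⟨ε', D', ?_, ?_, ?_, ?_⟩
  · rintro h
    apply hε
    rw [hεε, h, Complex.ofReal_zero]
  · intro i
    rw [hD', coeff_mk, mul_div_cancel₀ _ (hk i)]
  · rw [hε', div_mul_cancel₀ _ hch']
  · rw [hc, hDD, ← map_mul, coeff_cx, hεε] at H2
    exact_mod_cast H2

/-- **complex version of `main`.** -/
theorem main_complex (m : ℕ) (hm : 2 ≤ m) (κ : ℝ) (hκ : 8 ≤ κ) (h82 : ¬ (κ = 8 ∧ m = 2)) (μ : ℝ)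
    (ε : ℂ) (hε : ε ≠ 0) (c P D : PowerSeries ℂ) (hc0 : constantCoeff c = 1)
    (hc : c ^ 2 * (1 + C (2 * (μ : ℂ)) * X) ^ 2 = (1 + C (μ : ℂ) * X + X ^ 2) ^ (m + 1))
    (hP : P * ((1 + C (μ : ℂ) * X + X ^ 2) * (1 + C (2 * (μ : ℂ)) * X))
      = C ((m : ℂ) + 1) * (C (μ : ℂ) * X + 2 * X ^ 2) * (1 + C (2 * (μ : ℂ)) * X)
        - C (2 * (μ : ℂ)) * X * (1 + C (μ : ℂ) * X + X ^ 2))
    (hD : ∀ i : ℕ, ((κ : ℂ) * (i + 1) - 2) * coeff i D = -coeff (i + 1) P)
    (H1 : coeff (m - 1) c = ε * (m + 1).choose 2)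
    (H2 : coeff (m - 2) (c * D) = ε * (m + 1).choose 3) : False := by
  -- the real `c`
  set c' : PowerSeries ℝ := W (-μ) 1 (((m + 1 : ℕ) : ℝ) / 2) with hc'
  have e1 : (C (2 * -μ) : PowerSeries ℝ) = -C (2 * μ) := by
    rw [← map_neg]; congr 1; ring
  have hc'1 : c' ^ 2 * (1 + C (2 * μ) * X) ^ 2 = (1 + C μ * X + X ^ 2) ^ (m + 1) := by
    have h1 := W_u (-μ) 0 (((m + 1 : ℕ) : ℝ) / 2)
    have h2 := W_sq (-μ) (m + 1)
    rw [zero_add] at h1
    rw [← h1, e1] at h2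
    rw [map_neg] at h2
    have e2 : (1 + C μ * X + X ^ 2 : PowerSeries ℝ) = 1 - -C μ * X + X ^ 2 := by ring
    rw [e2, ← h2]
    ring
  have hc'0 : constantCoeff c' = 1 := constantCoeff_W _ _ _
  have hu : constantCoeff (1 + C (2 * (μ : ℂ)) * X : PowerSeries ℂ) = 1 := by simp
  have hcc : c = cx c' := by
    have h1 := congrArg cx hc'1
    simp only [map_mul, map_add, map_pow, map_one, cx_C, cx_X] at h1
    have e3 : (C (2 : ℂ) : PowerSeries ℂ) = 2 := by rw [map_ofNat]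
    have h2 : (c * (1 + C (2 * (μ : ℂ)) * X)) = (cx c' * (1 + C (2 * (μ : ℂ)) * X)) := by
      refine eq_of_sq_eq' ?_ ?_ ?_
      · rw [map_mul, hc0, hu, one_mul]
      · rw [map_mul, hu, mul_one]
        have : constantCoeff (cx c') = ((constantCoeff c' : ℝ) : ℂ) := by
          rw [← coeff_zero_eq_constantCoeff_apply, coeff_cx, coeff_zero_eq_constantCoeff_apply]
        rw [this, hc'0, Complex.ofReal_one]
      · rw [mul_pow, hc, mul_pow, map_mul]
        rw [← h1]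
        simp
    exact mul_right_cancel₀ (ne_zero_of_cc' hu) h2
  -- the real `P`
  have hq0 : constantCoeff ((1 + C μ * X + X ^ 2) * (1 + C (2 * μ) * X) : PowerSeries ℝ) = 1 := by simp
  set P' : PowerSeries ℝ := (C ((m : ℝ) + 1) * (C μ * X + 2 * X ^ 2) * (1 + C (2 * μ) * X)
        - C (2 * μ) * X * (1 + C μ * X + X ^ 2)) * ((1 + C μ * X + X ^ 2) * (1 + C (2 * μ) * X))⁻¹
    with hP'
  have hP'1 : P' * ((1 + C μ * X + X ^ 2) * (1 + C (2 * μ) * X))
      = C ((m : ℝ) + 1) * (C μ * X + 2 * X ^ 2) * (1 + C (2 * μ) * X)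
        - C (2 * μ) * X * (1 + C μ * X + X ^ 2) := by
    rw [hP', mul_assoc, PowerSeries.inv_mul_cancel _ (by rw [hq0]; exact one_ne_zero), mul_one]
  have hPP : P = cx P' := by
    have h1 := congrArg cx hP'1
    have hq : constantCoeff ((1 + C (μ : ℂ) * X + X ^ 2) * (1 + C (2 * (μ : ℂ)) * X) : PowerSeries ℂ)
        = 1 := by simp
    apply mul_right_cancel₀ (ne_zero_of_cc' hq)
    rw [hP]
    simp only [map_mul, map_add, map_sub, map_pow, map_one, cx_C, cx_X, map_ofNat,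
      Complex.ofReal_natCast] at h1 ⊢
    rw [h1]
  obtain ⟨ε', D', h1, h2, h3, h4⟩ := real_data m (m - 1) (by omega) κ (by linarith) ε c P D c' P'
    hcc hPP hD hε H1 H2
  exact main m hm κ hκ h82 μ ε' h1 c' P' D' hc'0 hc'1 hP'1 h2 h3 h4

/-- **complex version of `main_two`** (real `e`, e.g. `e = -1`). -/
theorem main_two_complex (m : ℕ) (hm : 2 ≤ m) (κ : ℝ) (hκ : 2 < κ) (e : ℝ) (he : e ≠ 0) (ε : ℂ)
    (hε : ε ≠ 0) (c P D : PowerSeries ℂ) (hc0 : constantCoeff c = 1)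
    (hc : c ^ 2 = (1 + C (e : ℂ) * X ^ 2) ^ (m + 1))
    (hP : P * (1 + C (e : ℂ) * X ^ 2) = C (2 * (e : ℂ) * ((m : ℂ) + 1)) * X ^ 2)
    (hD : ∀ i : ℕ, ((κ : ℂ) * (i + 1) - 2) * coeff i D = -coeff (i + 1) P)
    (H1 : coeff (m - 1) c = ε * (m + 1).choose 2)
    (H2 : coeff (m - 2) (c * D) = ε * (m + 1).choose 3) : False := by
  -- the real `P`
  have hq0 : constantCoeff (1 + C e * X ^ 2 : PowerSeries ℝ) = 1 := by simp
  set P' : PowerSeries ℝ := (C (2 * e * ((m : ℝ) + 1)) * X ^ 2) * (1 + C e * X ^ 2)⁻¹ with hP'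
  have hP'1 : P' * (1 + C e * X ^ 2) = C (2 * e * ((m : ℝ) + 1)) * X ^ 2 := by
    rw [hP', mul_assoc, PowerSeries.inv_mul_cancel _ (by rw [hq0]; exact one_ne_zero), mul_one]
  have hPP : P = cx P' := by
    have h1 := congrArg cx hP'1
    have hq : constantCoeff (1 + C (e : ℂ) * X ^ 2 : PowerSeries ℂ) = 1 := by simp
    apply mul_right_cancel₀ (ne_zero_of_cc' hq)
    rw [hP]
    simp only [map_mul, map_add, map_pow, map_one, cx_C, cx_X, map_ofNat,
      Complex.ofReal_natCast] at h1 ⊢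
    rw [h1]
  -- the real `c`
  have hcc : ∃ c' : PowerSeries ℝ, constantCoeff c' = 1 ∧ c' ^ 2 = (1 + C e * X ^ 2) ^ (m + 1) ∧
      c = cx c' := by
    set st : PowerSeries ℂ →+* PowerSeries ℂ := PowerSeries.map (starRingEnd ℂ) with hst
    have hstc : st c = c := by
      refine eq_of_sq_eq' ?_ hc0 ?_
      · rw [← coeff_zero_eq_constantCoeff_apply, hst, PowerSeries.coeff_map,
          coeff_zero_eq_constantCoeff_apply, hc0, map_one]
      · rw [← map_pow, hc]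
        simp only [map_pow, map_add, map_mul, map_one, hst, PowerSeries.map_C, PowerSeries.map_X,
          Complex.conj_ofReal]
    have hre : c = cx (PowerSeries.mk fun n => (coeff n c).re) := by
      ext n
      rw [coeff_cx, coeff_mk]
      have h := congrArg (coeff n) hstc
      rw [hst, PowerSeries.coeff_map] at h
      exact (Complex.conj_eq_iff_re.1 h).symm
    have hinj : Function.Injective cx := PowerSeries.map_injective _ Complex.ofReal_injective
    refine ⟨_, ?_, ?_, hre⟩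
    · rw [← coeff_zero_eq_constantCoeff_apply, coeff_mk, coeff_zero_eq_constantCoeff_apply, hc0,
        Complex.one_re]
    · apply hinj
      rw [map_pow, ← hre, hc]
      simp only [map_pow, map_add, map_mul, map_one, cx_C, cx_X]
  obtain ⟨c', hc'0, hc'1, hcc⟩ := hcc
  obtain ⟨ε', D', h1, h2, h3, h4⟩ := real_data m (m - 1) (by omega) κ hκ ε c P D c' P'
    hcc hPP hD hε H1 H2
  exact main_two m hm κ hκ e ε' he h1 c' P' D' hc'0 hc'1 hP'1 h2 h3 h4

end

end Crest.Agent.R208.HH
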