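import Crest.Agent.R208.GA
import Crest.Agent.R208.CW3
import Crest.Agent.R208.HHh

/-!
# From the power sums of `F_J` to the normal form of `HH.main_complex`

`A` is a commutative `ℂ`-algebra, `x` of degree `l`, `w` of degree `l - 1`, `w ^ 2 = 0`,
`k = 2 l`.  `CW.el s` are the Chern classes of the sequence of power sums `s`.
-/

open PowerSeries Finset

namespace Crest.Agent.R208.GA

variable {A : Type*} [CommRing A] [Algebra ℂ A]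

theorem el_newton (s : ℕ → A) (j : ℕ) : ((j : A) + 1) * CW.el s (j + 1) =
    ∑ i ∈ range (j + 1), (-1) ^ i * s (i + 1) * CW.el s (j - i) := by
  rw [CW.el_succ]
  exact Finset.sum_congr rfl fun i _ => by ring

/-- Power sums from Chern classes: `el s (l i) = P_i x ^ i` (`i ≥ 1`), `el s j = 0` for `l ∤ j`. -/
theorem sums_of_el {l r : ℕ} (hl : l ≠ 0) {x : A} {s : ℕ → A} {P Q : ℂ⟦X⟧}
    (hP0 : constantCoeff P = 1) (hQ : th P = Q * P)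
    (h1 : ∀ i, 1 ≤ i → l * i ≤ r → CW.el s (l * i) = coeff i P • x ^ i)
    (h2 : ∀ j, j ≤ r → ¬ l ∣ j → CW.el s j = 0) :
    (∀ i, 1 ≤ i → l * i ≤ r → s (l * i) = ((-1) ^ (l * i + 1) * (l * coeff i Q)) • x ^ i) ∧
    ∀ j, j ≤ r → ¬ l ∣ j → s j = 0 := by
  obtain ⟨h3, h4⟩ := sums_of_classes (algebraMap ℂ A) hl (x := x) (s := s) (c := CW.el s) (r := r)
    (CW.el_zero s) (fun j _ => el_newton s j) hP0 hQ
    (fun i hi hir => by rw [h1 i hi hir, Algebra.smul_def]) h2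
  refine ⟨fun i hi hir => ?_, h4⟩
  rw [h3 i hi hir, Algebra.smul_def]
  simp only [map_mul, map_pow, map_neg, map_one, map_natCast]
  ring

/-- **[GA], `k = 2 l`, `l` even.** -/
theorem main_even (l m r : ℕ) (hl : 2 ≤ l) (hle : Even l) (hm : 2 ≤ m) (hr : r = l * (m - 1))
    (μ : ℂ) {x w : A} (hw : w ^ 2 = 0) {s : ℕ → A} {Q : ℂ⟦X⟧}
    (hQ : Q * ((1 + C μ * X + X ^ 2) * (1 + C (2 * μ) * X)) =
      C ((m : ℂ) + 1) * (C μ * X + 2 * X ^ 2) * (1 + C (2 * μ) * X)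
        - C (2 * μ) * X * (1 + C μ * X + X ^ 2))
    (he1 : ∀ i, 1 ≤ i → l * i ≤ r →
      s (l * i) = (-((l : ℂ) / 2) * (coeff i Q + (-(2 * μ)) ^ i)) • x ^ i)
    (he2 : ∀ j, 1 ≤ j → j ≤ r → Even j → ¬ l ∣ j → s j = 0)
    (ho1 : ∀ i, 1 ≤ i → l * i - 1 ≤ r → s (l * i - 1) = (-(1 / 2) * coeff i Q) • (w * x ^ (i - 1)))
    (ho2 : ∀ j, 1 ≤ j → j ≤ r → Odd j → ¬ l ∣ j + 1 → s j = 0) :
    ∃ c₀ D : ℂ⟦X⟧, constantCoeff c₀ = 1 ∧
      c₀ ^ 2 * (1 + C (2 * μ) * X) ^ 2 = (1 + C μ * X + X ^ 2) ^ (m + 1) ∧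
      (∀ i : ℕ, (2 * (l : ℂ) * ((i : ℂ) + 1) - 2) * coeff i D = - coeff (i + 1) Q) ∧
      CW.el s r = coeff (m - 1) c₀ • x ^ (m - 1) ∧
      CW.el s (r - 1) = coeff (m - 2) (c₀ * D) • (x ^ (m - 2) * w) := by
  obtain ⟨hQ0, c₀, hc1, hc2, hc3⟩ := exists_c₀ m μ hQ
  obtain ⟨D, hD⟩ := exists_D hl Q
  obtain ⟨-, h1, h2⟩ := core (algebraMap ℂ A) l hl hm hr hw (s := s) (CW.el_zero s)
    (fun j _ => el_newton s j) hc1 hQ0 (constantCoeff_Bs μ) hc2 hD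
    (fun i hi hir _ => by
      rw [he1 i hi hir, Algebra.smul_def, coeff_Bs μ hi, sub_neg_eq_add]) he2
    (fun i hi hir _ => by rw [ho1 i hi hir, Algebra.smul_def]) ho2
    (fun hlo => absurd hle (Nat.not_even_iff_odd.2 hlo))
  exact ⟨c₀, D, hc1, hc3, hD, by rw [h1, Algebra.smul_def], by rw [h2, Algebra.smul_def]⟩

/-- the coefficients of `2 e (m + 1) X² / (1 + e X²)` -/
theorem coeff_odd_eq_zero {e a : ℂ} {Q : ℂ⟦X⟧}
    (hQ : Q * (1 + C e * X ^ 2) = C a * X ^ 2) {i : ℕ} (hi : Odd i) : coeff i Q = 0 := by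
  obtain ⟨n, rfl⟩ := hi
  induction n with
  | zero =>
    have h1 := congrArg (coeff 1) hQ
    rw [mul_add, mul_one, map_add, show Q * (C e * X ^ 2) = C e * (Q * X ^ 2) by ring,
      coeff_C_mul, coeff_C_mul, coeff_mul_X_pow', coeff_X_pow] at h1
    simpa using h1
  | succ n ih =>
    have h1 := congrArg (coeff (2 * n + 1 + 2)) hQ
    rw [show Q * (1 + C e * X ^ 2) = Q + C e * (Q * X ^ 2) by ring, map_add,
      coeff_C_mul, coeff_C_mul, coeff_mul_X_pow,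
      ih, coeff_X_pow, if_neg (by omega), mul_zero, mul_zero, add_zero] at h1
    exact h1

/-- **[GA], `k = 2 l`, `l` odd** (`μ = 0`, `P = (1 + e X²) ^ (m + 1)`). -/
theorem main_odd (l m r : ℕ) (hl : 2 ≤ l) (hlo : Odd l) (hm : 2 ≤ m) (hr : r = l * (m - 1))
    (e : ℂ) {x w : A} (hw : w ^ 2 = 0) {s : ℕ → A} {Q : ℂ⟦X⟧}
    (hQ : Q * (1 + C e * X ^ 2) = C (2 * e * ((m : ℂ) + 1)) * X ^ 2)
    (he1 : ∀ i, 1 ≤ i → l * i ≤ r → Even i → s (l * i) = (-((l : ℂ) / 2) * coeff i Q) • x ^ i)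
    (he2 : ∀ j, 1 ≤ j → j ≤ r → Even j → ¬ l ∣ j → s j = 0)
    (ho1 : ∀ i, 1 ≤ i → l * i - 1 ≤ r → Even i →
      s (l * i - 1) = (-(1 / 2) * coeff i Q) • (w * x ^ (i - 1)))
    (ho2 : ∀ j, 1 ≤ j → j ≤ r → Odd j → ¬ l ∣ j + 1 → s j = 0) :
    ∃ c₀ D : ℂ⟦X⟧, constantCoeff c₀ = 1 ∧ c₀ ^ 2 = (1 + C e * X ^ 2) ^ (m + 1) ∧
      (∀ i : ℕ, (2 * (l : ℂ) * ((i : ℂ) + 1) - 2) * coeff i D = - coeff (i + 1) Q) ∧
      CW.el s r = coeff (m - 1) c₀ • x ^ (m - 1) ∧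
      CW.el s (r - 1) = coeff (m - 2) (c₀ * D) • (x ^ (m - 2) * w) := by
  have hQ0 : constantCoeff Q = 0 := by
    have := congrArg constantCoeff hQ
    simpa using this
  have hH0 : constantCoeff (C (1 / 2 : ℂ) * Q) = 0 := by
    rw [map_mul, hQ0, mul_zero]
  obtain ⟨c₀, hc1, h2⟩ := ode_exists (C (1 / 2 : ℂ) * Q) hH0
  have hc2 : 2 * th c₀ = (Q - 0) * c₀ := by
    rw [h2, ← map_ofNat (C : ℂ →+* ℂ⟦X⟧) 2, ← mul_assoc, ← mul_assoc, ← map_mul]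
    simp
  have hc3 : c₀ ^ 2 = (1 + C e * X ^ 2) ^ (m + 1) := by
    set q : ℂ⟦X⟧ := 1 + C e * X ^ 2 with hq
    have hthq : th q = C (2 * e) * X ^ 2 := by
      rw [hq, th_add, th_one, th_C_mul, sq, th_mul, th_X, map_mul, map_ofNat]
      ring
    have hq0 : q ≠ 0 := fun h => by
      have := congrArg constantCoeff h
      simp [hq] at this
    refine ode_unique (H := Q) ?_ ?_ hQ0 ?_
    · rw [show c₀ ^ 2 = c₀ ^ (1 + 1) from rfl, th_pow]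
      push_cast
      linear_combination c₀ * hc2
    · rw [th_pow]
      refine mul_left_cancel₀ hq0 ?_
      rw [hthq]
      have hC : C (2 * e * ((m : ℂ) + 1)) = C (2 * e) * ((m : ℂ⟦X⟧) + 1) := by
        rw [map_mul]
        simp
      rw [hC] at hQ
      linear_combination (-q ^ (m + 1)) * hQ
    · simp [hc1, hq]
  obtain ⟨D, hD⟩ := exists_D hl Q
  have hodd : ∀ n, Odd (l * n) ↔ Odd n := fun n => by
    rw [Nat.odd_mul]
    exact ⟨fun h => h.2, fun h => ⟨hlo, h⟩⟩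
  have heven : ∀ n, Even (l * n) ↔ Even n := fun n => by
    rw [← Nat.not_odd_iff_even, ← Nat.not_odd_iff_even, hodd]
  obtain ⟨-, h1, h2⟩ := core (algebraMap ℂ A) l hl hm hr hw (s := s) (CW.el_zero s)
    (fun j _ => el_newton s j) hc1 hQ0 (map_zero _) hc2 hD
    (fun i hi hir hev => by
      rw [he1 i hi hir ((heven i).1 hev), Algebra.smul_def, map_zero, sub_zero]) he2
    (fun i hi hir hod => by
      have h3 : Even (l * i) := by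
        have h4 : l * i = (l * i - 1) + 1 := by
          have : 1 ≤ l * i := Nat.mul_pos (by omega) hi
          omega
        rw [h4]
        exact hod.add_one
      rw [ho1 i hi hir ((heven i).1 h3), Algebra.smul_def]) ho2
    (fun _ i hi => ⟨coeff_odd_eq_zero hQ hi, map_zero _⟩)
  exact ⟨c₀, D, hc1, hc3, hD, by rw [h1, Algebra.smul_def], by rw [h2, Algebra.smul_def]⟩

/-- **The `F`-level contradiction, `k = 2 l ≥ 8`, `l` even, `(k, m) ≠ (8, 2)`.** -/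
theorem absurd_even (l m r : ℕ) (hl : 4 ≤ l) (hle : Even l) (hm : 2 ≤ m) (h82 : ¬ (l = 4 ∧ m = 2))
    (hr : r = l * (m - 1)) (μ : ℝ) (ε : ℂ) (hε : ε ≠ 0) {x w : A} (hw : w ^ 2 = 0) {s : ℕ → A}
    {Q : ℂ⟦X⟧}
    (hQ : Q * ((1 + C (μ : ℂ) * X + X ^ 2) * (1 + C (2 * (μ : ℂ)) * X)) =
      C ((m : ℂ) + 1) * (C (μ : ℂ) * X + 2 * X ^ 2) * (1 + C (2 * (μ : ℂ)) * X)
        - C (2 * (μ : ℂ)) * X * (1 + C (μ : ℂ) * X + X ^ 2))
    (he1 : ∀ i, 1 ≤ i → l * i ≤ r →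
      s (l * i) = (-((l : ℂ) / 2) * (coeff i Q + (-(2 * (μ : ℂ))) ^ i)) • x ^ i)
    (he2 : ∀ j, 1 ≤ j → j ≤ r → Even j → ¬ l ∣ j → s j = 0)
    (ho1 : ∀ i, 1 ≤ i → l * i - 1 ≤ r → s (l * i - 1) = (-(1 / 2) * coeff i Q) • (w * x ^ (i - 1)))
    (ho2 : ∀ j, 1 ≤ j → j ≤ r → Odd j → ¬ l ∣ j + 1 → s j = 0)
    (hx : x ^ (m - 1) ≠ 0) (hxw : x ^ (m - 2) * w ≠ 0)
    (H1 : CW.el s r = (ε * (m + 1).choose 2) • x ^ (m - 1))
    (H2 : CW.el s (r - 1) = (ε * (m + 1).choose 3) • (x ^ (m - 2) * w)) : False := by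
  obtain ⟨c₀, D, h1, h2, h3, h4, h5⟩ := main_even l m r (by omega) hle hm hr μ hw hQ he1 he2 ho1 ho2
  refine HH.main_complex m hm ((2 * l : ℕ) : ℝ) (by exact_mod_cast (by omega : 8 ≤ 2 * l))
    (fun h => h82 ⟨?_, h.2⟩) μ ε hε c₀ Q D h1 h2 hQ (fun i => ?_) ?_ ?_
  · have : 2 * l = 8 := by exact_mod_cast h.1
    omega
  · have := h3 i
    push_cast
    exact this
  · exact smul_left_injective ℂ hx (h4.symm.trans H1)
  · exact smul_left_injective ℂ hxw (h5.symm.trans H2)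

/-- **The `F`-level contradiction, `k = 2 l ≥ 6`, `l` odd.** -/
theorem absurd_odd (l m r : ℕ) (hl : 2 ≤ l) (hlo : Odd l) (hm : 2 ≤ m)
    (hr : r = l * (m - 1)) (e : ℝ) (he : e ≠ 0) (ε : ℂ) (hε : ε ≠ 0) {x w : A} (hw : w ^ 2 = 0)
    {s : ℕ → A} {Q : ℂ⟦X⟧}
    (hQ : Q * (1 + C (e : ℂ) * X ^ 2) = C (2 * (e : ℂ) * ((m : ℂ) + 1)) * X ^ 2)
    (he1 : ∀ i, 1 ≤ i → l * i ≤ r → Even i → s (l * i) = (-((l : ℂ) / 2) * coeff i Q) • x ^ i)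
    (he2 : ∀ j, 1 ≤ j → j ≤ r → Even j → ¬ l ∣ j → s j = 0)
    (ho1 : ∀ i, 1 ≤ i → l * i - 1 ≤ r → Even i →
      s (l * i - 1) = (-(1 / 2) * coeff i Q) • (w * x ^ (i - 1)))
    (ho2 : ∀ j, 1 ≤ j → j ≤ r → Odd j → ¬ l ∣ j + 1 → s j = 0)
    (hx : x ^ (m - 1) ≠ 0) (hxw : x ^ (m - 2) * w ≠ 0)
    (H1 : CW.el s r = (ε * (m + 1).choose 2) • x ^ (m - 1))
    (H2 : CW.el s (r - 1) = (ε * (m + 1).choose 3) • (x ^ (m - 2) * w)) : False := by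
  obtain ⟨c₀, D, h1, h2, h3, h4, h5⟩ := main_odd l m r hl hlo hm hr e hw hQ he1 he2 ho1 ho2
  refine HH.main_two_complex m hm ((2 * l : ℕ) : ℝ) (by exact_mod_cast (by omega : 2 < 2 * l))
    e he ε hε c₀ Q D h1 h2 hQ (fun i => ?_) ?_ ?_
  · have := h3 i
    push_cast
    exact this
  · exact smul_left_injective ℂ hx (h4.symm.trans H1)
  · exact smul_left_injective ℂ hxw (h5.symm.trans H2)

end Crest.Agent.R208.GA
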