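import Crest.Agent.R208.GT7
import Crest.Agent.R208.CM3e

/-!
Row 208, block GD (helper107), part GD1: fields on an arbitrary manifold `Y` which are pointwise
the fields `T_J, F_J, ℓ` of a point of `Z = V_2(V)`: idempotency and the relations of GT5/GT7.
-/

set_option autoImplicit false

open Set Filter Topology Module Metric
open scoped ContDiff RealInnerProductSpace Kronecker Matrix
open Crest.GeometryTopology.Submanifold
open Crest.Agent.R241.DDefs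
open Crest.Agent.R241.D2
open Crest.Agent.R208.CW (IdF SM)
open Crest.Agent.R208.FI (Sub Clo)

noncomputable section

namespace Crest.Agent.R208.GT

variable {n N k d : ℕ} {κ : ℝ} {S : Set (Euc N)} {G : Geo n N κ S}
  {PV : Euc N × Euc N → Euc N →L[ℝ] Euc N}
  {E' : Type*} [NormedAddCommGroup E'] [NormedSpace ℝ E'] [FiniteDimensional ℝ E'] {Y : Set E'}
  {z : E' → Euc N × Euc N} {T F L : E' → Matrix (Fin N) (Fin N) ℂ}

/-- fields on `Y` which are pointwise `(p,q), T_J, F_J, ℓ` at a point of `ZZ` -/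
structure Des (G : Geo n N κ S) (PV : Euc N × Euc N → Euc N →L[ℝ] Euc N) (Y : Set E')
    (z : E' → Euc N × Euc N) (T F L : E' → Matrix (Fin N) (Fin N) ℂ) : Prop where
  sz : ∀ y ∈ Y, ContDiffAt ℝ ∞ z y
  sT : ∀ y ∈ Y, SM ∞ T y
  sF : ∀ y ∈ Y, SM ∞ F y
  sL : ∀ y ∈ Y, SM ∞ L y
  ex : ∀ y ∈ Y, ∃ ζ ∈ ZZ S PV, z y = ζ.1 ∧ T y = TJ G PV ζ ∧ F y = FJ G PV ζ ∧ L y = LL ζ

/-- `Z` itself -/
theorem des_ZZ (hV : VField G PV) (h : Bla G k) :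
    Des G PV (ZZ S PV) (fun ζ => ζ.1) (TJ G PV) (FJ G PV) LL :=
  ⟨fun ζ _ => smooth_z ζ, fun _ hζ => smooth_TJ hV h hζ, fun _ hζ => smooth_FJ hV h hζ,
    fun ζ _ => smooth_LL ζ, fun ζ hζ => ⟨ζ, hζ, rfl, rfl, rfl, rfl⟩⟩

/-- the isomorphism `T_J ⊗ ℓ ≅ F_J`, pointwise -/
theorem pIso_ZZ (hV : VField G PV) (h : Bla G k) {ζ : (Euc N × Euc N) × (Fin 2 → Euc N)}
    (hζ : ζ ∈ ZZ S PV) : ∃ W, SP.PIso (TJ G PV ζ ⊗ₖ LL ζ) (FJ G PV ζ)
      (SP.sT (fun c => mS G PV ζ.1 (bas N c)) (TJ G PV ζ) (LL ζ)) W := by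
  have h1 := pencil_ZZ hV h hζ
  have e0 := mS_sum (G := G) (PV := PV) ζ.1 (ζ.2 0)
  have e1 := mS_sum (G := G) (PV := PV) ζ.1 (ζ.2 1)
  rw [e0, e1] at h1
  have h2 := SP.Pencil.tensor (dot_self (hζ.2.2.1 0)) (dot_self (hζ.2.2.1 1)) h1
  rw [← e0, ← e1] at h2
  exact ⟨_, h2⟩

namespace Des

theorem smap (hD : Des G PV Y z T F L) : CW.SMap Y (FF S) z :=
  ⟨hD.sz, fun y hy => by obtain ⟨ζ, hζ, e, -⟩ := hD.ex y hy; rw [e]; exact hζ.1⟩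

theorem mem (hD : Des G PV Y z T F L) {y : E'} (hy : y ∈ Y) : z y ∈ FF S := hD.smap.maps hy

variable (hV : VField G PV) (h : Bla G k)

include hV h

theorem idf_T (hD : Des G PV Y z T F L) : IdF Y T := ⟨hD.sT, fun y hy => by
  obtain ⟨ζ, hζ, -, e, -, -⟩ := hD.ex y hy
  rw [e]; exact (idf_TJ hV h).idem ζ hζ⟩

theorem idf_F (hD : Des G PV Y z T F L) : IdF Y F := ⟨hD.sF, fun y hy => by
  obtain ⟨ζ, hζ, -, -, e, -⟩ := hD.ex y hy
  rw [e]; exact (idf_FJ hV h).idem ζ hζ⟩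

omit hV h in
theorem idf_L (hD : Des G PV Y z T F L) : IdF Y L := ⟨hD.sL, fun y hy => by
  obtain ⟨ζ, hζ, -, -, -, e⟩ := hD.ex y hy
  rw [e]; exact (idf_LL (PV := PV)).idem ζ hζ⟩

/-- `T_q C_p ⊗ ℂ` -/
theorem idf_TC (hD : Des G PV Y z T F L) : IdF Y (fun y => SP.cr (mP G PV (z y))) :=
  (idf_TCF hV h).comp hD.smap

/-- `T_p C_q ⊗ ℂ` -/
theorem idf_TC' (hD : Des G PV Y z T F L) : IdF Y (fun y => SP.cr (mP G PV (z y).swap)) :=
  (idf_TCF hV h).comp (smap_swap.comp hD.smap)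

/-- **`F = T ⊗ L`** on classes -/
theorem sc_F (hD : Des G PV Y z T F L) (hY : Sub d Y) (j : ℕ) :
    CW.sc hY (hD.idf_F hV h) j = ∑ i ∈ Finset.range (j + 1), (j.choose i : CW.H Y) *
      CW.sc hY (hD.idf_T hV h) i * CW.sc hY hD.idf_L (j - i) := by
  rw [← CW.sc_kron hY (hD.idf_T hV h) hD.idf_L]
  symm
  refine CW.sc_iso hY ((hD.idf_T hV h).kron hD.idf_L) (hD.idf_F hV h)
    (S := fun y => SP.sT (fun c => mS G PV (z y) (bas N c)) (T y) (L y)) ?_ ?_ j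
  · intro y hy
    exact SP.MSm.sT (fun c => smooth_mS hV (hD.sz y hy) (hD.mem hy) contDiffAt_const)
      (hD.sT y hy) (hD.sL y hy)
  · intro y hy
    obtain ⟨ζ, hζ, e1, e2, e3, e4⟩ := hD.ex y hy
    simp only [e1, e2, e3, e4]
    exact pIso_ZZ hV h hζ

/-- `T_q C_p ⊗ ℂ = T + conj T` -/
theorem sc_TC (hD : Des G PV Y z T F L) (hY : Sub d Y) (j : ℕ) :
    CW.sc hY (hD.idf_TC hV h) j = (1 + (-1) ^ j) * CW.sc hY (hD.idf_T hV h) j := by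
  refine CW.sc_add_conj hY (hD.idf_TC hV h) (hD.idf_T hV h) ?_ ?_ ?_ j
  · intro y hy
    obtain ⟨ζ, hζ, e1, e2, -, -⟩ := hD.ex y hy
    rw [e1, e2]
    exact ((pencil_ZZ hV h hζ).tj_add_cj).symm
  · intro y hy
    obtain ⟨ζ, hζ, -, e2, -, -⟩ := hD.ex y hy
    rw [e2]
    exact (pencil_ZZ hV h hζ).tj_mul_cj
  · intro y hy
    obtain ⟨ζ, hζ, -, e2, -, -⟩ := hD.ex y hy
    rw [e2]
    exact (pencil_ZZ hV h hζ).cj_mul_tj

/-- `T_p C_q ⊗ ℂ = F + conj F` -/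
theorem sc_TC' (hD : Des G PV Y z T F L) (hY : Sub d Y) (j : ℕ) :
    CW.sc hY (hD.idf_TC' hV h) j = (1 + (-1) ^ j) * CW.sc hY (hD.idf_F hV h) j := by
  refine CW.sc_add_conj hY (hD.idf_TC' hV h) (hD.idf_F hV h) ?_ ?_ ?_ j
  · intro y hy
    obtain ⟨ζ, hζ, e1, -, e2, -⟩ := hD.ex y hy
    rw [e1, e2]
    exact ((pencil_ZZ hV h hζ).fj_add_cj).symm
  · intro y hy
    obtain ⟨ζ, hζ, -, -, e2, -⟩ := hD.ex y hy
    rw [e2]
    exact (pencil_ZZ hV h hζ).fj_mul_cj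
  · intro y hy
    obtain ⟨ζ, hζ, -, -, e2, -⟩ := hD.ex y hy
    rw [e2]
    exact (pencil_ZZ hV h hζ).cj_mul_fj

end Des

end Crest.Agent.R208.GT
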