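import Crest.Agent.R208.CM3e
import Crest.Agent.R208.CW7b

/-!
Row 208, block GD (helper107), part GD2: complex lines over the quotient of a free circle action
which come from a field of vectors of weight one: their first class is a multiple of the Euler class
of the tautological plane field of CM3.
-/

set_option autoImplicit false
set_option linter.unusedSectionVars false
set_option linter.unusedVariables false

open Set Filter Topology Module MeasureTheory
open scoped ContDiff RealInnerProductSpace ComplexConjugate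
open Crest.Agent.R208.F Crest.Agent.R208.FI
open Crest.Agent.R208.CW (IdF SM)

noncomputable section

namespace Crest.Agent.R208.CM

variable {m : ℕ} {E : Type} [NormedAddCommGroup E] [NormedSpace ℝ E] [FiniteDimensional ℝ E]
  {X : Set E} {φ : ℝ → E → E} {g : E → Fin m → ℂ} {n d : ℕ}

/-- half the complex matrix: the `+i` eigenprojection of the realification -/
def Hm (Q : MM m) : Matrix (RI m) (RI m) ℂ := Matrix.of fun p q => (1 / 2) * ce Q p q

/-- its conjugate -/
def Hc (Q : MM m) : Matrix (RI m) (RI m) ℂ := Matrix.of fun p q => (1 / 2) * conj (ce Q p q)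

/-- the complex structure -/
def Jc (Q : MM m) : Matrix (RI m) (RI m) ℂ := Matrix.of fun p q => ((-(ce Q p q).im : ℝ) : ℂ)

theorem mtx_PL (Q : MM m) : T.mtx (PL Q) = Hm Q + Hc Q := by
  rw [PL, Emb.mtx_mE']
  ext p q
  rw [Matrix.map_apply, Pm, Matrix.of_apply, Matrix.add_apply, Hm, Hc, Matrix.of_apply,
    Matrix.of_apply]
  refine Complex.ext ?_ ?_ <;> simp <;> ring

theorem Jc_eq (Q : MM m) : Jc Q = Complex.I • (Hm Q - Hc Q) := by
  ext p q
  rw [Matrix.smul_apply, Matrix.sub_apply, Hm, Hc, Jc, Matrix.of_apply, Matrix.of_apply,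
    Matrix.of_apply]
  refine Complex.ext ?_ ?_ <;> simp <;> ring

theorem Hm_eq (Q : MM m) :
    ((1 : ℂ) / 2) • T.mtx (PL Q) + Complex.I • ((1 : ℂ) / 2) • (- Jc Q) = Hm Q := by
  rw [mtx_PL, Jc_eq]
  have h1 : Complex.I • ((1 : ℂ) / 2) • (-(Complex.I • (Hm Q - Hc Q))) =
      (-(Complex.I * Complex.I) * (1 / 2)) • (Hm Q - Hc Q) := by
    rw [← smul_neg, smul_smul, smul_smul]
    rw [smul_neg, ← neg_smul]
    congr 1; ring
  rw [h1, Complex.I_mul_I]
  module

/-- the entries of `g` in real coordinates -/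
def av (z : Fin m → ℂ) (p : RI m) : ℂ := z p.1 * wz p.2

theorem av_sum {z : Fin m → ℂ} (hz : ∑ a, ‖z a‖ ^ 2 = 1) : ∑ p, conj (av z p) * av z p = 2 := by
  have h1 : ∀ a, conj (z a) * z a = ((‖z a‖ ^ 2 : ℝ) : ℂ) := fun a => by
    rw [mul_comm, Complex.mul_conj, Complex.normSq_eq_norm_sq]
  rw [Fintype.sum_prod_type]
  simp only [Fin.sum_univ_two, av, wz_zero, wz_one, mul_one, map_mul, map_neg, map_one,
    Complex.conj_I]
  have h2 : ∀ a, conj (z a) * z a + conj (z a) * - -Complex.I * (z a * -Complex.I) =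
      2 * ((‖z a‖ ^ 2 : ℝ) : ℂ) := by
    intro a
    rw [← h1]
    linear_combination (-(conj (z a) * z a)) * Complex.I_mul_I
  rw [Finset.sum_congr rfl fun a _ => h2 a, ← Finset.mul_sum, ← Complex.ofReal_sum, hz]
  simp

theorem av_sq (z : Fin m → ℂ) : ∑ p, av z p * av z p = 0 := by
  rw [Fintype.sum_prod_type]
  simp only [Fin.sum_univ_two, av, wz_zero, wz_one, mul_one]
  refine Finset.sum_eq_zero fun a _ => ?_
  linear_combination (z a * z a) * Complex.I_mul_I

theorem av_sq' (z : Fin m → ℂ) : ∑ p, conj (av z p) * conj (av z p) = 0 := by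
  have h1 := congrArg conj (av_sq z)
  rw [map_sum, map_zero] at h1
  rw [← h1]
  exact Finset.sum_congr rfl fun p _ => by rw [map_mul]

theorem Hm_jj (x : E) (p q : RI m) : Hm (jj g x) p q = (1 / 2) * (av (g x) p * conj (av (g x) q)) := by
  rw [Hm, Matrix.of_apply, ce_jj]; rfl

theorem Hc_jj (x : E) (p q : RI m) : Hc (jj g x) p q = (1 / 2) * (conj (av (g x) p) * av (g x) q) := by
  rw [Hc, Matrix.of_apply, ce_jj, map_mul, Complex.conj_conj]; rfl

theorem Hm_mul_Hm {x : E} (hx : ∑ a, ‖g x a‖ ^ 2 = 1) :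
    Hm (jj g x) * Hm (jj g x) = Hm (jj g x) := by
  ext p r
  rw [Matrix.mul_apply]
  simp only [Hm_jj]
  have h1 : ∀ q, 1 / 2 * (av (g x) p * conj (av (g x) q)) * (1 / 2 * (av (g x) q * conj (av (g x) r)))
      = (1 / 4 * (av (g x) p * conj (av (g x) r))) * (conj (av (g x) q) * av (g x) q) := by
    intro q; ring
  rw [Finset.sum_congr rfl fun q _ => h1 q, ← Finset.mul_sum, av_sum hx]
  ring

theorem Hc_mul_Hc {x : E} (hx : ∑ a, ‖g x a‖ ^ 2 = 1) :
    Hc (jj g x) * Hc (jj g x) = Hc (jj g x) := by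
  ext p r
  rw [Matrix.mul_apply]
  simp only [Hc_jj]
  have h1 : ∀ q, 1 / 2 * (conj (av (g x) p) * av (g x) q) * (1 / 2 * (conj (av (g x) q) * av (g x) r))
      = (1 / 4 * (conj (av (g x) p) * av (g x) r)) * (conj (av (g x) q) * av (g x) q) := by
    intro q; ring
  rw [Finset.sum_congr rfl fun q _ => h1 q, ← Finset.mul_sum, av_sum hx]
  ring

theorem Hm_mul_Hc (x : E) : Hm (jj g x) * Hc (jj g x) = 0 := by
  ext p r
  rw [Matrix.mul_apply]
  simp only [Hm_jj, Hc_jj]
  have h1 : ∀ q, 1 / 2 * (av (g x) p * conj (av (g x) q)) * (1 / 2 * (conj (av (g x) q) * av (g x) r))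
      = (1 / 4 * (av (g x) p * av (g x) r)) * (conj (av (g x) q) * conj (av (g x) q)) := by
    intro q; ring
  rw [Finset.sum_congr rfl fun q _ => h1 q, ← Finset.mul_sum, av_sq', mul_zero]
  rfl

theorem Hc_mul_Hm (x : E) : Hc (jj g x) * Hm (jj g x) = 0 := by
  ext p r
  rw [Matrix.mul_apply]
  simp only [Hm_jj, Hc_jj]
  have h1 : ∀ q, 1 / 2 * (conj (av (g x) p) * av (g x) q) * (1 / 2 * (av (g x) q * conj (av (g x) r)))
      = (1 / 4 * (conj (av (g x) p) * conj (av (g x) r))) * (av (g x) q * av (g x) q) := by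
    intro q; ring
  rw [Finset.sum_congr rfl fun q _ => h1 q, ← Finset.mul_sum, av_sq, mul_zero]
  rfl

theorem Hm_transpose (x : E) : (Hm (jj g x)).transpose = Hc (jj g x) := by
  ext p q
  rw [Matrix.transpose_apply, Hm_jj, Hc_jj]; ring

theorem Hc_transpose (x : E) : (Hc (jj g x)).transpose = Hm (jj g x) := by
  rw [← Hm_transpose, Matrix.transpose_transpose]

/-- `ce` is linear, hence smooth -/
theorem contDiff_ce {k : WithTop ℕ∞} (p q : RI m) : ContDiff ℝ k (fun Q : MM m => ce Q p q) := by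
  have h1 : ContDiff ℝ k (fun Q : MM m => Q p.1 q.1) :=
    contDiff_pi.1 (contDiff_pi.1 contDiff_id p.1) q.1
  exact h1.mul contDiff_const

theorem smooth_Hm (Q : MM m) : SM ∞ (Hm (m := m)) Q := fun p q =>
  (contDiff_const.mul (contDiff_ce p q)).contDiffAt

theorem smooth_Jc (Q : MM m) : SM ∞ (Jc (m := m)) Q := fun p q => by
  have h1 : ContDiff ℝ ∞ (fun Q : MM m => ((-(ce Q p q).im : ℝ) : ℂ)) :=
    Complex.ofRealCLM.contDiff.comp ((Complex.imCLM.contDiff.comp (contDiff_ce p q)).neg)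
  exact h1.contDiffAt

/-- the isomorphism onto a line of weight one -/
def iS {N : ℕ} (S : MM m → Fin N → Fin m → ℂ) (y : MM m) : Matrix (Fin N) (RI m) ℂ :=
  Matrix.of fun a p => S y a p.1 * conj (wz p.2)

theorem iS_apply {N : ℕ} (S : MM m → Fin N → Fin m → ℂ) (y : MM m) (a : Fin N) (p : RI m) :
    iS S y a p = S y a p.1 * conj (wz p.2) := rfl

/-- the inverse of the isomorphism -/
def iW {N : ℕ} (A : RI m → ℂ) (u : Fin N → ℂ) : Matrix (RI m) (Fin N) ℂ :=
  Matrix.of fun p a => (1 / 4) * (A p * conj (u a))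

theorem iW_apply {N : ℕ} (A : RI m → ℂ) (u : Fin N → ℂ) (p : RI m) (a : Fin N) :
    iW A u p a = (1 / 4) * (A p * conj (u a)) := rfl

/-- the frame, complexified, first column -/
def uR (z : Fin m → ℂ) : Matrix (RI m) Unit ℂ := Matrix.of fun p _ => (((av z p).re : ℝ) : ℂ)

theorem uR_apply (z : Fin m → ℂ) (p : RI m) (j : Unit) : uR z p j = (((av z p).re : ℝ) : ℂ) := rfl

namespace Emb

theorem idf_Hm (hg : Emb X φ g) : IdF (Quo X g) (Hm (m := m)) := ⟨fun Q _ => smooth_Hm Q, by
  rintro _ ⟨x, hx, rfl⟩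
  exact Hm_mul_Hm (hg.unit x hx)⟩

/-- the tautological line is a complex line -/
theorem cs_L (hg : Emb X φ g) : CW.CS (ι := Unit) (Quo X g) (fun Q => T.mtx (PL (m := m) Q))
    Jc (T.wC WL) := by
  refine ⟨T.OR.of hg.or_L, fun Q _ => smooth_Jc Q, ?_, ?_, ?_, ?_⟩
  · rintro _ ⟨x, hx, rfl⟩
    rw [Jc_eq, Matrix.transpose_smul, Matrix.transpose_sub, Hm_transpose, Hc_transpose, ← smul_neg,
      neg_sub]
  · rintro _ ⟨x, hx, rfl⟩
    have h1 := hg.unit x hx
    change Jc (jj g x) * Jc (jj g x) = - T.mtx (PL (jj g x))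
    rw [Jc_eq, mtx_PL, Matrix.smul_mul, Matrix.mul_smul, smul_smul, Complex.I_mul_I, sub_mul,
      mul_sub, mul_sub, Hm_mul_Hm h1, Hc_mul_Hc h1, Hm_mul_Hc, Hc_mul_Hm, neg_one_smul]
    abel
  · rintro _ ⟨x, hx, rfl⟩
    have h1 := hg.unit x hx
    change Jc (jj g x) * T.mtx (PL (jj g x)) = Jc (jj g x)
    rw [Jc_eq, mtx_PL, Matrix.smul_mul, sub_mul, mul_add, mul_add, Hm_mul_Hm h1, Hc_mul_Hc h1,
      Hm_mul_Hc, Hc_mul_Hm, add_zero, zero_add]
  · rintro _ ⟨x, hx, rfl⟩
    have h1 := hg.unit x hx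
    have hA : ∀ p, (((av (g x) p).re : ℝ) : ℂ) = (1 / 2) * (av (g x) p + conj (av (g x) p)) := by
      intro p; rw [Complex.add_conj]; push_cast; ring
    have hB : ∀ p, (((av (g x) p).im : ℝ) : ℂ) =
        -(Complex.I / 2) * (av (g x) p - conj (av (g x) p)) := by
      intro p; rw [Complex.sub_conj]
      push_cast
      linear_combination ((av (g x) p).im : ℂ) * Complex.I_mul_I
    refine ⟨uR (g x), (fm (g x)).map (algebraMap ℝ ℂ), fun p j => rfl, fun p j => ?_, ?_, ?_,
      fun I => ?_⟩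
    · rw [Matrix.mul_apply]
      have e1 : ∀ q, Jc (jj g x) p q * uR (g x) q j = (Complex.I / 4 * av (g x) p) * (conj (av (g x) q) * av (g x) q) +
            (Complex.I / 4 * av (g x) p) * (conj (av (g x) q) * conj (av (g x) q)) -
            (Complex.I / 4 * conj (av (g x) p)) * (av (g x) q * av (g x) q) -
            (Complex.I / 4 * conj (av (g x) p)) * (conj (av (g x) q) * av (g x) q) := by
        intro q
        rw [uR_apply, Jc_eq, Matrix.smul_apply, Matrix.sub_apply, Hm_jj, Hc_jj, hA, smul_eq_mul]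
        ring
      rw [Finset.sum_congr rfl fun q _ => e1 q, Finset.sum_sub_distrib, Finset.sum_sub_distrib,
        Finset.sum_add_distrib, ← Finset.mul_sum, ← Finset.mul_sum, ← Finset.mul_sum,
        ← Finset.mul_sum, av_sum h1, av_sq, av_sq']
      have e2 : (fm (g x)).map (algebraMap ℝ ℂ) p (j, 1) = -(((av (g x) p).im : ℝ) : ℂ) := by
        rw [Matrix.map_apply, fm_one]
        change ((-(g x p.1 * wz p.2).im : ℝ) : ℂ) = _
        rw [Complex.ofReal_neg]; rfl
      rw [e2, hB]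
      ring
    · rw [← Matrix.transpose_map, ← Matrix.map_mul, fm_tr_mul h1, Matrix.map_one _ (map_zero _)
        (map_one _)]
    · change _ = T.mtx (PL (jj g x))
      rw [PL, mtx_mE', Pm_jj, ← Matrix.transpose_map, ← Matrix.map_mul]
    · have e1 := RingHom.map_det (algebraMap ℝ ℂ) ((fm (g x)).submatrix I id)
      rw [← WL_jj] at e1
      exact e1

theorem cc_one {hX : Sub d (Quo X g)} {Q : MM m → Matrix (RI m) (RI m) ℂ} (hQ : IdF (Quo X g) Q) :
    CW.cc hX hQ 1 = CW.sc hX hQ 1 := by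
  rw [CW.cc_eq_el]
  have h1 := CW.el_succ (CW.sc hX hQ) 0
  simpa [CW.el_zero] using h1

/-- **the Euler class of the tautological line is its first Chern class** -/
theorem ec_L (hg : Emb X φ g) (hX : Sub d (Quo X g)) :
    CW.ec (T.OR.of hg.or_L) = (2 * Complex.I) • CW.sc hX hg.idf_Hm 1 := by
  have h1 := hg.cs_L.ec_eq hX
  have h2 : CW.cc hX hg.cs_L.idF 1 = CW.sc hX hg.idf_Hm 1 := by
    rw [cc_one]
    exact CW.sc_congr hX _ _ (fun Q _ => Hm_eq Q) 1
  simp only [Fintype.card_unit, pow_one, Nat.factorial_one, Nat.cast_one, mul_one] at h1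
  rw [h2] at h1
  exact h1

variable {N : ℕ} {u : E → Fin N → ℂ} {L : MM m → Matrix (Fin N) (Fin N) ℂ}

/-- **lines of weight one** -/
theorem sc_line_eq (hg : Emb X φ g) (h : Cir X φ) (hX : Clo (n + 1) X)
    (hu : ∀ x ∈ X, ContDiffAt ℝ ∞ u x)
    (hequi : ∀ x ∈ X, ∀ t : ℝ, u (φ t x) = Complex.exp (t * Complex.I) • u x)
    (hL : IdF (Quo X g) L)
    (hLu : ∀ x ∈ X, ∀ a b, L (jj g x) a b = (1 / 2) * (u x a * conj (u x b)))
    (hn : ∀ x ∈ X, ∑ a, conj (u x a) * u x a = 2) (hQ : Sub d (Quo X g)) (j : ℕ) :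
    CW.sc hQ hg.idf_Hm j = CW.sc hQ hL j := by
  obtain ⟨S, hS, hSx⟩ := hg.exists_desc h hX (f := fun x => fun (a : Fin N) (b : Fin m) =>
      u x a * conj (g x b)) (fun x hx => contDiffAt_pi.2 fun a => contDiffAt_pi.2 fun b =>
        (contDiffAt_pi.1 (hu x hx) a).mul
          (Complex.conjCLE.contDiff.contDiffAt.comp x (contDiffAt_pi.1 (hg.smooth x hx) b)))
      (fun x hx t => by
        funext a b
        rw [hequi x hx, hg.equi x hx]
        simp only [Pi.smul_apply, smul_eq_mul, map_mul]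
        have h1 : Complex.exp (t * Complex.I) * conj (Complex.exp (t * Complex.I)) = 1 := by
          rw [Complex.mul_conj, Complex.normSq_eq_norm_sq, Complex.norm_exp_ofReal_mul_I]
          simp
        linear_combination (u x a * conj (g x b)) * h1)
  refine CW.sc_iso hQ hg.idf_Hm hL (S := iS S) (fun y _ a p => ?_) ?_ j
  · exact ((contDiff_pi.1 (contDiff_pi.1 hS a) p.1).mul contDiff_const).contDiffAt
  · rintro _ ⟨x, hx, rfl⟩
    have hsx : ∀ a (p : RI m), iS S (jj g x) a p = u x a * conj (av (g x) p) := by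
      intro a p
      rw [iS_apply, hSx x hx, av, map_mul]; ring
    have h1 := hg.unit x hx
    have h2 := hn x hx
    refine ⟨iW (av (g x)) (u x), ?_, ?_, ?_, ?_, ?_, ?_⟩
    · ext a q
      rw [Matrix.mul_apply, hsx]
      have e1 : ∀ p, iS S (jj g x) a p * Hm (jj g x) p q =
          (1 / 2 * (u x a * conj (av (g x) q))) * (conj (av (g x) p) * av (g x) p) := by
        intro p; rw [hsx, Hm_jj]; ring
      rw [Finset.sum_congr rfl fun p _ => e1 p, ← Finset.mul_sum, av_sum h1]
      ring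
    · ext a q
      rw [Matrix.mul_apply, hsx]
      have e1 : ∀ b, L (jj g x) a b * iS S (jj g x) b q =
          (1 / 2 * (u x a * conj (av (g x) q))) * (conj (u x b) * u x b) := by
        intro b; rw [hsx, hLu x hx]; ring
      rw [Finset.sum_congr rfl fun p _ => e1 p, ← Finset.mul_sum, h2]
      ring
    · ext p a
      rw [Matrix.mul_apply, iW_apply]
      have e1 : ∀ b, iW (av (g x)) (u x) p b * L (jj g x) b a =
          (1 / 8 * (av (g x) p * conj (u x a))) * (conj (u x b) * u x b) := by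
        intro b; rw [iW_apply, hLu x hx]; ring
      rw [Finset.sum_congr rfl fun p _ => e1 p, ← Finset.mul_sum, h2]
      ring
    · ext p a
      rw [Matrix.mul_apply, iW_apply]
      have e1 : ∀ q, Hm (jj g x) p q * iW (av (g x)) (u x) q a =
          (1 / 8 * (av (g x) p * conj (u x a))) * (conj (av (g x) q) * av (g x) q) := by
        intro q; rw [iW_apply, Hm_jj]; ring
      rw [Finset.sum_congr rfl fun p _ => e1 p, ← Finset.mul_sum, av_sum h1]
      ring
    · ext p q
      rw [Matrix.mul_apply, Hm_jj]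
      have e1 : ∀ a, iW (av (g x)) (u x) p a * iS S (jj g x) a q =
          (1 / 4 * (av (g x) p * conj (av (g x) q))) * (conj (u x a) * u x a) := by
        intro a; rw [iW_apply, hsx]; ring
      rw [Finset.sum_congr rfl fun p _ => e1 p, ← Finset.mul_sum, h2]
      ring
    · ext a b
      rw [Matrix.mul_apply, hLu x hx]
      have e1 : ∀ p, iS S (jj g x) a p * iW (av (g x)) (u x) p b =
          (1 / 4 * (u x a * conj (u x b))) * (conj (av (g x) p) * av (g x) p) := by
        intro p; rw [iW_apply, hsx]; ring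
      rw [Finset.sum_congr rfl fun p _ => e1 p, ← Finset.mul_sum, av_sum h1]
      ring

end Emb

end Crest.Agent.R208.CM
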