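import Crest.Agent.R208.GD1
import Crest.Agent.R208.GD2
import Crest.Agent.R208.GR1

/-!
Row 208, block GD (helper107), part GD3: the descended fields `z, T_J, F_J, ℓ, V₀` on
`D = Z / S¹ = CM.Quo (ZZ S PV) g`.
-/

set_option autoImplicit false

open Set Filter Topology Module Metric
open scoped ContDiff RealInnerProductSpace Kronecker Matrix ComplexConjugate
open Crest.GeometryTopology.Submanifold
open Crest.Agent.R241.DDefs
open Crest.Agent.R241.D2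
open Crest.Agent.R208.CW (IdF SM)
open Crest.Agent.R208.FI (Sub Clo)

noncomputable section

namespace Crest.Agent.R208.GT

variable {n N k d dZ : ℕ} {κ : ℝ} {S : Set (Euc N)} {G : Geo n N κ S}
  {PV : Euc N × Euc N → Euc N →L[ℝ] Euc N}
  {E' : Type*} [NormedAddCommGroup E'] [NormedSpace ℝ E'] [FiniteDimensional ℝ E'] {Y : Set E'}
  {z : E' → Euc N × Euc N} {T F L : E' → Matrix (Fin N) (Fin N) ℂ}

/-! ### the line has rank one -/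

lemma LL_trace {ζ : (Euc N × Euc N) × (Fin 2 → Euc N)} (hζ : ζ ∈ ZZ S PV) : (LL ζ).trace = 1 := by
  have h0 := dot_self (hζ.2.2.1 0)
  have h1 := dot_self (hζ.2.2.1 1)
  rw [dotProduct] at h0 h1
  have h2 : ∀ a, LL ζ a a = (1 / 2) * (((ζ.2 0 a * ζ.2 0 a : ℝ) : ℂ) +
      ((ζ.2 1 a * ζ.2 1 a : ℝ) : ℂ)) := by
    intro a
    rw [LL_apply]
    push_cast
    linear_combination (-(1 / 2) * (ζ.2 1 a : ℂ) * (ζ.2 1 a : ℂ)) * Complex.I_mul_I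
  rw [Matrix.trace]
  simp only [Matrix.diag_apply, h2]
  rw [← Finset.mul_sum, Finset.sum_add_distrib, ← Complex.ofReal_sum, ← Complex.ofReal_sum, h0, h1]
  norm_num

lemma LL_rank {ζ : (Euc N × Euc N) × (Fin 2 → Euc N)} (hζ : ζ ∈ ZZ S PV) : (LL ζ).rank = 1 := by
  have h1 := CW.rank_eq_trace ((idf_LL (PV := PV)).idem ζ hζ)
  rw [LL_trace hζ] at h1
  exact_mod_cast h1

/-- `V₀ = V ⊖ ⟨v₀, v₁⟩` on `Y` -/
def VD0 (PV : Euc N × Euc N → Euc N →L[ℝ] Euc N) (z : E' → Euc N × Euc N)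
    (L : E' → Matrix (Fin N) (Fin N) ℂ) (y : E') : Matrix (Fin N) (Fin N) ℂ :=
  mV PV (z y) - (L y + (L y).map (starRingEnd ℂ))

namespace Des

/-- `ℓ` is a line: `s_j(ℓ) = s_1(ℓ)^j` -/
theorem sc_L (hD : Des G PV Y z T F L) (hY : Sub d Y) (j : ℕ) :
    CW.sc hY hD.idf_L j = CW.sc hY hD.idf_L 1 ^ j :=
  CW.sc_line hY hD.idf_L (fun y hy => by
    obtain ⟨ζ, hζ, -, -, -, e⟩ := hD.ex y hy
    rw [e]; exact LL_rank hζ) j

theorem idf_LLc (hD : Des G PV Y z T F L) :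
    IdF Y (fun y => L y + (L y).map (starRingEnd ℂ)) :=
  ⟨fun y hy => (hD.idf_L.smooth y hy).add (hD.idf_L.conj.smooth y hy), fun y hy => by
    obtain ⟨ζ, hζ, -, -, -, e⟩ := hD.ex y hy
    change (L y + (L y).map (starRingEnd ℂ)) * (L y + (L y).map (starRingEnd ℂ)) =
      L y + (L y).map (starRingEnd ℂ)
    rw [e]; exact (GT.idf_LLc (PV := PV) (S := S)).idem ζ hζ⟩

variable (hV : VField G PV)

include hV

theorem idf_mV (hD : Des G PV Y z T F L) : IdF Y (fun y => mV PV (z y)) :=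
  (GT.idf_mV hV).comp hD.smap

theorem idf_V0 (hD : Des G PV Y z T F L) : IdF Y (VD0 PV z L) :=
  ⟨fun y hy => ((hD.idf_mV hV).smooth y hy).sub (hD.idf_LLc.smooth y hy), fun y hy => by
    obtain ⟨ζ, hζ, e1, -, -, e⟩ := hD.ex y hy
    rw [VD0, e1, e]; exact (GT.idf_V0 hV).idem ζ hζ⟩

/-- **`V ⊗ ℂ = ℓ + conj ℓ + V₀`** on classes -/
theorem sc_V (hD : Des G PV Y z T F L) (hY : Sub d Y) (j : ℕ) :
    CW.sc hY (hD.idf_mV hV) j =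
      (1 + (-1) ^ j) * CW.sc hY hD.idf_L j + CW.sc hY (hD.idf_V0 hV) j := by
  have h1 := CW.sc_add_conj hY hD.idf_LLc hD.idf_L (fun y _ => rfl)
    (fun y hy => by
      obtain ⟨ζ, hζ, -, -, -, e⟩ := hD.ex y hy
      rw [e]; exact LL_mul_conj hζ)
    (fun y hy => by
      obtain ⟨ζ, hζ, -, -, -, e⟩ := hD.ex y hy
      rw [e]; exact conj_mul_LL hζ) j
  rw [← h1]
  refine CW.sc_orth hY _ hD.idf_LLc (hD.idf_V0 hV) ?_ ?_ ?_ j
  · intro y _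
    rw [VD0, add_sub_cancel]
  · intro y hy
    obtain ⟨ζ, hζ, e1, -, -, e⟩ := hD.ex y hy
    rw [VD0, e1, e]
    have h2 : (LL ζ + (LL ζ).map (starRingEnd ℂ)) * (LL ζ + (LL ζ).map (starRingEnd ℂ)) =
      LL ζ + (LL ζ).map (starRingEnd ℂ) := (GT.idf_LLc (PV := PV)).idem ζ hζ
    rw [mul_sub, add_mul, LL_mV hV hζ, conjLL_mV hV hζ, h2, sub_self]
  · intro y hy
    obtain ⟨ζ, hζ, e1, -, -, e⟩ := hD.ex y hy
    rw [VD0, e1, e]
    have h2 : (LL ζ + (LL ζ).map (starRingEnd ℂ)) * (LL ζ + (LL ζ).map (starRingEnd ℂ)) =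
      LL ζ + (LL ζ).map (starRingEnd ℂ) := (GT.idf_LLc (PV := PV)).idem ζ hζ
    rw [sub_mul, mul_add, mV_LL hζ, mV_conjLL hζ, h2, sub_self]

end Des

/-! ### the descended fields -/

variable {m : ℕ} {g : (Euc N × Euc N) × (Fin 2 → Euc N) → Fin m → ℂ}

/-- the descended package on `D = Z / S¹` -/
structure DPk (G : Geo n N κ S) (PV : Euc N × Euc N → Euc N →L[ℝ] Euc N)
    (g : (Euc N × Euc N) × (Fin 2 → Euc N) → Fin m → ℂ) (z : CM.MM m → Euc N × Euc N)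
    (T F L : CM.MM m → Matrix (Fin N) (Fin N) ℂ) : Prop
    extends Des G PV (CM.Quo (ZZ S PV) g) z T F L where
  ez : ∀ ζ ∈ ZZ S PV, z (CM.jj g ζ) = ζ.1
  eT : ∀ ζ ∈ ZZ S PV, T (CM.jj g ζ) = TJ G PV ζ
  eF : ∀ ζ ∈ ZZ S PV, F (CM.jj g ζ) = FJ G PV ζ
  eL : ∀ ζ ∈ ZZ S PV, L (CM.jj g ζ) = LL ζ

/-- descent of matrix fields -/
theorem exists_descM (hg : CM.Emb (ZZ S PV) rt g) (hX : Clo (dZ + 1) (ZZ S PV))
    {M : (Euc N × Euc N) × (Fin 2 → Euc N) → Matrix (Fin N) (Fin N) ℂ}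
    (hM : ∀ ζ ∈ ZZ S PV, SM ∞ M ζ) (hi : ∀ ζ ∈ ZZ S PV, ∀ t, M (rt t ζ) = M ζ) :
    ∃ M' : CM.MM m → Matrix (Fin N) (Fin N) ℂ, (∀ y, SM ∞ M' y) ∧
      ∀ ζ ∈ ZZ S PV, M' (CM.jj g ζ) = M ζ := by
  obtain ⟨f, h1, h2⟩ := hg.exists_desc cir_ZZ hX (f := fun ζ => fun (a b : Fin N) => M ζ a b)
    (fun ζ hζ => contDiffAt_pi.2 fun a => contDiffAt_pi.2 fun b => hM ζ hζ a b)
    (fun ζ hζ t => by funext a b; rw [hi ζ hζ t])
  exact ⟨fun y => Matrix.of (f y), fun y a b =>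
    (contDiff_pi.1 (contDiff_pi.1 h1 a) b).contDiffAt, fun ζ hζ => by
      ext a b; exact congrFun (congrFun (h2 ζ hζ) a) b⟩

theorem exists_dpk (hV : VField G PV) (h : Bla G k) (hg : CM.Emb (ZZ S PV) rt g)
    (hX : Clo (dZ + 1) (ZZ S PV)) :
    ∃ (z : CM.MM m → Euc N × Euc N) (T F L : CM.MM m → Matrix (Fin N) (Fin N) ℂ),
      DPk G PV g z T F L := by
  obtain ⟨z, z1, z2⟩ := hg.exists_desc cir_ZZ hX (f := fun ζ => ζ.1)
    (fun ζ _ => contDiffAt_fst) (fun ζ _ t => rt_fst t ζ)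
  obtain ⟨T, T1, T2⟩ := exists_descM hg hX (M := TJ G PV) (fun ζ hζ => smooth_TJ hV h hζ)
    (fun ζ hζ t => TJ_rt hV h hζ t)
  obtain ⟨F, F1, F2⟩ := exists_descM hg hX (M := FJ G PV) (fun ζ hζ => smooth_FJ hV h hζ)
    (fun ζ hζ t => FJ_rt hV h hζ t)
  obtain ⟨L, L1, L2⟩ := exists_descM hg hX (M := LL) (fun ζ _ => smooth_LL ζ)
    (fun ζ _ t => LL_rt ζ t)
  refine ⟨z, T, F, L, ⟨⟨fun y _ => z1.contDiffAt, fun y _ => T1 y, fun y _ => F1 y,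
    fun y _ => L1 y, ?_⟩, z2, T2, F2, L2⟩⟩
  rintro _ ⟨ζ, hζ, rfl⟩
  exact ⟨ζ, hζ, z2 ζ hζ, T2 ζ hζ, F2 ζ hζ, L2 ζ hζ⟩

namespace DPk

variable {z : CM.MM m → Euc N × Euc N} {TD FD LD : CM.MM m → Matrix (Fin N) (Fin N) ℂ}
  (hD : DPk G PV g z TD FD LD)

include hD

theorem map_T (hV : VField G PV) (h : Bla G k) (hg : CM.Emb (ZZ S PV) rt g)
    (hZ : Sub dZ (ZZ S PV)) (hQ : Sub d (CM.Quo (ZZ S PV) g)) (j : ℕ) :
    CW.H.map hg.smap_jj (CW.sc hQ (hD.idf_T hV h) j) = CW.sc hZ (idf_TJ hV h) j := by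
  rw [CW.map_sc hZ hQ]
  exact CW.sc_congr hZ _ _ (fun ζ hζ => hD.eT ζ hζ) j

theorem map_F (hV : VField G PV) (h : Bla G k) (hg : CM.Emb (ZZ S PV) rt g)
    (hZ : Sub dZ (ZZ S PV)) (hQ : Sub d (CM.Quo (ZZ S PV) g)) (j : ℕ) :
    CW.H.map hg.smap_jj (CW.sc hQ (hD.idf_F hV h) j) = CW.sc hZ (idf_FJ hV h) j := by
  rw [CW.map_sc hZ hQ]
  exact CW.sc_congr hZ _ _ (fun ζ hζ => hD.eF ζ hζ) j

theorem map_L (hg : CM.Emb (ZZ S PV) rt g) (hZ : Sub dZ (ZZ S PV))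
    (hQ : Sub d (CM.Quo (ZZ S PV) g)) (j : ℕ) :
    CW.H.map hg.smap_jj (CW.sc hQ hD.idf_L j) = CW.sc hZ (idf_LL (PV := PV) (S := S)) j := by
  rw [CW.map_sc hZ hQ]
  exact CW.sc_congr hZ _ _ (fun ζ hζ => hD.eL ζ hζ) j

theorem map_V0 (hV : VField G PV) (hg : CM.Emb (ZZ S PV) rt g) (hZ : Sub dZ (ZZ S PV))
    (hQ : Sub d (CM.Quo (ZZ S PV) g)) (j : ℕ) :
    CW.H.map hg.smap_jj (CW.sc hQ (hD.idf_V0 hV) j) = CW.sc hZ (idf_V0 hV) j := by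
  rw [CW.map_sc hZ hQ]
  exact CW.sc_congr hZ _ _ (fun ζ hζ => by rw [VD0, V0, hD.ez ζ hζ, hD.eL ζ hζ]) j

/-- classes pulled back from `FF` -/
theorem map_z (hg : CM.Emb (ZZ S PV) rt g) (hZ : Sub dZ (ZZ S PV)) (a : CW.H (FF S)) :
    CW.H.map hg.smap_jj (CW.H.map hD.smap a) = CW.H.map (smap_fst (S := S) (PV := PV)) a := by
  rw [CW.H.map_map]
  exact CW.H.map_congr' hZ _ _ (fun ζ hζ => hD.ez ζ hζ) a

end DPk

/-! ### the Euler class -/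

/-- `v₀ - i v₁` -/
def uv (ζ : (Euc N × Euc N) × (Fin 2 → Euc N)) (a : Fin N) : ℂ := ζ.2 0 a - Complex.I * ζ.2 1 a

lemma smooth_uv (ζ : (Euc N × Euc N) × (Fin 2 → Euc N)) : ContDiffAt ℝ ∞ uv ζ := by
  have h1 : ∀ i c, ContDiffAt ℝ ∞
      (fun y : (Euc N × Euc N) × (Fin 2 → Euc N) => y.2 i c) ζ := fun i c =>
    ContDiffAt.comp (g := fun u : Euc N => u c) ζ
      (EuclideanSpace.proj c : Euc N →L[ℝ] ℝ).contDiff.contDiffAt (smooth_v ζ i)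
  refine contDiffAt_pi.2 fun a => ?_
  exact (Complex.ofRealCLM.contDiff.contDiffAt.comp ζ (h1 0 a)).sub
    (contDiffAt_const.mul (Complex.ofRealCLM.contDiff.contDiffAt.comp ζ (h1 1 a)))

lemma uv_rt (ζ : (Euc N × Euc N) × (Fin 2 → Euc N)) (t : ℝ) :
    uv (rt t ζ) = Complex.exp (t * Complex.I) • uv ζ := by
  funext a
  have h0 : (rt t ζ).2 0 a = Real.cos t * ζ.2 0 a + Real.sin t * ζ.2 1 a := by
    rw [rt_zero']; rfl
  have h1 : (rt t ζ).2 1 a = (-Real.sin t) * ζ.2 0 a + Real.cos t * ζ.2 1 a := by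
    rw [rt_one']; rfl
  rw [Pi.smul_apply, smul_eq_mul, uv, uv, h0, h1, Complex.exp_mul_I]
  push_cast
  linear_combination (Complex.sin t * (ζ.2 1 a : ℂ)) * Complex.I_mul_I

lemma LL_uv (ζ : (Euc N × Euc N) × (Fin 2 → Euc N)) (a b : Fin N) :
    LL ζ a b = (1 / 2) * (uv ζ a * conj (uv ζ b)) := by
  rw [LL_apply, uv, uv]
  simp only [map_sub, map_mul, Complex.conj_ofReal, Complex.conj_I]
  ring

lemma uv_norm {ζ : (Euc N × Euc N) × (Fin 2 → Euc N)} (hζ : ζ ∈ ZZ S PV) :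
    ∑ a, conj (uv ζ a) * uv ζ a = 2 := by
  have h1 := LL_trace hζ
  rw [Matrix.trace] at h1
  simp only [Matrix.diag_apply, LL_uv] at h1
  rw [← Finset.mul_sum] at h1
  have h2 : ∑ a, conj (uv ζ a) * uv ζ a = ∑ a, uv ζ a * conj (uv ζ a) :=
    Finset.sum_congr rfl fun a _ => mul_comm _ _
  rw [h2]
  linear_combination 2 * h1

namespace DPk

variable {z : CM.MM m → Euc N × Euc N} {TD FD LD : CM.MM m → Matrix (Fin N) (Fin N) ℂ}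
  (hD : DPk G PV g z TD FD LD)

include hD

/-- **`s_j(ℓ) = s_j` of 971's line** -/
theorem sc_L_eq (hg : CM.Emb (ZZ S PV) rt g) (hX : Clo (dZ + 1) (ZZ S PV))
    (hQ : Sub d (CM.Quo (ZZ S PV) g)) (j : ℕ) :
    CW.sc hQ hD.idf_L j = CW.sc hQ hg.idf_Hm j :=
  (hg.sc_line_eq cir_ZZ hX (u := uv) (fun ζ _ => smooth_uv ζ) (fun ζ _ t => uv_rt ζ t) hD.idf_L
    (fun ζ hζ a b => by rw [hD.eL ζ hζ, LL_uv]) (fun ζ hζ => uv_norm hζ) hQ j).symm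

/-- **the Euler class of 971's line is `2 i s_1(ℓ)`** -/
theorem ec_L (hg : CM.Emb (ZZ S PV) rt g) (hX : Clo (dZ + 1) (ZZ S PV))
    (hQ : Sub d (CM.Quo (ZZ S PV) g)) :
    CW.ec (R208.T.OR.of hg.or_L) = (2 * Complex.I) • CW.sc hQ hD.idf_L 1 := by
  rw [hg.ec_L hQ, hD.sc_L_eq hg hX hQ]

theorem xi_eq (hg : CM.Emb (ZZ S PV) rt g) (hX : Clo (dZ + 1) (ZZ S PV))
    (hQ : Sub d (CM.Quo (ZZ S PV) g)) :
    CW.sc hQ hD.idf_L 1 = (-(Complex.I / 2)) • CW.ec (R208.T.OR.of hg.or_L) := by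
  rw [hD.ec_L hg hX hQ, smul_smul]
  have h1 : -(Complex.I / 2) * (2 * Complex.I) = 1 := by
    linear_combination (-1 : ℂ) * Complex.I_mul_I
  rw [h1, one_smul]

end DPk

end Crest.Agent.R208.GT
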