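import Crest.Agent.R208.GD3

/-!
Row 208, block GD (helper107), part GD4: the swap of `D = Z / S¹`.
-/

set_option autoImplicit false

open Set Filter Topology Module Metric
open scoped ContDiff RealInnerProductSpace Kronecker Matrix ComplexConjugate
open Crest.GeometryTopology.Submanifold
open Crest.Agent.R241.DDefs
open Crest.Agent.R241.D2
open Crest.Agent.R208.CW (IdF SM)
open Crest.Agent.R208.FI (Sub Clo)

noncomputable section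

namespace Crest.Agent.R208.GT

variable {n N k d dZ : ℕ} {κ : ℝ} {S : Set (Euc N)} {G : Geo n N κ S}
  {PV : Euc N × Euc N → Euc N →L[ℝ] Euc N} {ζ : (Euc N × Euc N) × (Fin 2 → Euc N)}

lemma vec_add (v w : Fin N → ℝ) : vec (v + w) = vec v + vec w := by
  simp only [vec, Pi.add_apply, add_smul, Finset.sum_add_distrib]

lemma vec_smul (c : ℝ) (v : Fin N → ℝ) : vec (c • v) = c • vec v := by
  simp only [vec, Pi.smul_apply, smul_eq_mul, mul_smul, Finset.smul_sum]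

/-- the swap commutes with the rotations -/
theorem swz_rt (ζ : (Euc N × Euc N) × (Fin 2 → Euc N)) (t : ℝ) :
    swz G PV (rt t ζ) = rt t (swz G PV ζ) := by
  have hl : ∀ (a b : ℝ) (v w : Euc N), vec ((LM G PV ζ.1).mulVec ((bas N).repr (a • v + b • w))) =
      a • vec ((LM G PV ζ.1).mulVec ((bas N).repr v)) +
        b • vec ((LM G PV ζ.1).mulVec ((bas N).repr w)) := by
    intro a b v w
    rw [map_add, map_smul, map_smul, Finsupp.coe_add, Finsupp.coe_smul, Finsupp.coe_smul,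
      Matrix.mulVec_add, Matrix.mulVec_smul, Matrix.mulVec_smul, vec_add, vec_smul, vec_smul]
  refine rt_ext rfl ?_ ?_
  · rw [rt_zero']
    exact hl _ _ _ _
  · rw [rt_one']
    exact hl _ _ _ _

variable (hV : VField G PV) (h : Bla G k)

include hV h

/-- the swap is an involution -/
theorem swz_swz (hkn : k < n) (hζ : ζ ∈ ZZ S PV) : swz G PV (swz G PV ζ) = ζ := by
  have h1 : swz G PV ζ ∈ ZZ S PV := (smap_swz hV h hkn).maps hζ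
  have hm : ∀ i, ζ.2 i ∈ Vs G ζ.1.1 ζ.1.2 := mem_Vs_of_ZZ hV hζ
  have h2 : ∀ i, (swz G PV (swz G PV ζ)).2 i = ζ.2 i := by
    intro i
    rw [swz_snd hV h hkn h1, swz_snd hV h hkn hζ]
    exact h.lf_lf (p := ζ.1.1) (q := ζ.1.2) hζ.1 (hm i)
  exact rt_ext rfl (h2 0) (h2 1)

variable {m : ℕ} {g : (Euc N × Euc N) × (Fin 2 → Euc N) → Fin m → ℂ}

/-- **the swap descends to `D`** -/
theorem exists_sw (hkn : k < n) (hg : CM.Emb (ZZ S PV) rt g) (hX : Clo (dZ + 1) (ZZ S PV)) :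
    ∃ sw : CM.MM m → CM.MM m, CW.SMap (CM.Quo (ZZ S PV) g) (CM.Quo (ZZ S PV) g) sw ∧
      (∀ ζ ∈ ZZ S PV, sw (CM.jj g ζ) = CM.jj g (swz G PV ζ)) ∧
      ∀ y ∈ CM.Quo (ZZ S PV) g, sw (sw y) = y := by
  have hs := smap_swz hV h hkn
  obtain ⟨sw, h1, h2⟩ := hg.exists_desc cir_ZZ hX (f := fun ζ => CM.jj g (swz G PV ζ))
    (fun ζ hζ => (hg.contDiffAt_jj (hs.maps hζ)).comp ζ (hs.smooth ζ hζ))
    (fun ζ hζ t => by rw [swz_rt, hg.jj_act (hs.maps hζ)])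
  refine ⟨sw, ⟨fun y _ => h1.contDiffAt, ?_⟩, h2, ?_⟩
  · rintro _ ⟨ζ, hζ, rfl⟩
    rw [h2 ζ hζ]
    exact CM.jj_mem (hs.maps hζ)
  · rintro _ ⟨ζ, hζ, rfl⟩
    rw [h2 ζ hζ, h2 _ (hs.maps hζ), swz_swz hV h hkn hζ]

omit hV h

namespace DPk

variable {z : CM.MM m → Euc N × Euc N} {TD FD LD : CM.MM m → Matrix (Fin N) (Fin N) ℂ}
  (hD : DPk G PV g z TD FD LD) {sw : CM.MM m → CM.MM m}

include hD

theorem z_sw (hs : CW.SMap (CM.Quo (ZZ S PV) g) (CM.Quo (ZZ S PV) g) sw)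
    (hsw : ∀ ζ ∈ ZZ S PV, sw (CM.jj g ζ) = CM.jj g (swz G PV ζ))
    (hm : CW.SMap (ZZ S PV) (ZZ S PV) (swz G PV)) :
    ∀ y ∈ CM.Quo (ZZ S PV) g, z (sw y) = (z y).swap := by
  rintro _ ⟨ζ, hζ, rfl⟩
  rw [hsw ζ hζ, hD.ez _ (hm.maps hζ), hD.ez ζ hζ]
  rfl

/-- classes of `FF` under the swap -/
theorem map_sw_z (hV : VField G PV) (h : Bla G k) (hkn : k < n)
    (hs : CW.SMap (CM.Quo (ZZ S PV) g) (CM.Quo (ZZ S PV) g) sw)
    (hsw : ∀ ζ ∈ ZZ S PV, sw (CM.jj g ζ) = CM.jj g (swz G PV ζ))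
    (hQ : Sub d (CM.Quo (ZZ S PV) g)) (a : CW.H (FF S)) :
    CW.H.map hs (CW.H.map hD.smap a) = CW.H.map hD.smap (CW.H.map smap_swap a) := by
  rw [CW.H.map_map, CW.H.map_map]
  exact CW.H.map_congr' hQ _ _ (hD.z_sw hs hsw (smap_swz hV h hkn)) a

/-- **`s_j(T)` at the swapped point** -/
theorem map_sw_T (hV : VField G PV) (h : Bla G k) (hkn : k < n)
    (hs : CW.SMap (CM.Quo (ZZ S PV) g) (CM.Quo (ZZ S PV) g) sw)
    (hsw : ∀ ζ ∈ ZZ S PV, sw (CM.jj g ζ) = CM.jj g (swz G PV ζ))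
    (hQ : Sub d (CM.Quo (ZZ S PV) g)) (j : ℕ) :
    CW.H.map hs (CW.sc hQ (hD.idf_T hV h) j) = (-1) ^ j * CW.sc hQ (hD.idf_F hV h) j := by
  rw [CW.map_sc hQ hQ, ← CW.sc_transpose hQ (hD.idf_F hV h) j]
  refine CW.sc_congr hQ _ _ ?_ j
  rintro _ ⟨ζ, hζ, rfl⟩
  have hm := (smap_swz hV h hkn).maps hζ
  rw [hsw ζ hζ, hD.eT _ hm, hD.eF ζ hζ]
  exact TJ_swz hV h hkn hζ

/-- **`s_j(F)` at the swapped point** -/
theorem map_sw_F (hV : VField G PV) (h : Bla G k) (hkn : k < n)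
    (hs : CW.SMap (CM.Quo (ZZ S PV) g) (CM.Quo (ZZ S PV) g) sw)
    (hsw : ∀ ζ ∈ ZZ S PV, sw (CM.jj g ζ) = CM.jj g (swz G PV ζ))
    (hQ : Sub d (CM.Quo (ZZ S PV) g)) (j : ℕ) :
    CW.H.map hs (CW.sc hQ (hD.idf_F hV h) j) = (-1) ^ j * CW.sc hQ (hD.idf_T hV h) j := by
  rw [CW.map_sc hQ hQ, ← CW.sc_transpose hQ (hD.idf_T hV h) j]
  refine CW.sc_congr hQ _ _ ?_ j
  rintro _ ⟨ζ, hζ, rfl⟩
  have hm := (smap_swz hV h hkn).maps hζ
  rw [hsw ζ hζ, hD.eF _ hm, hD.eT ζ hζ]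
  have h1 := TJ_swz hV h hkn hm
  rw [swz_swz hV h hkn hζ] at h1
  rw [h1, Matrix.transpose_transpose]

/-- **the line at the swapped point** -/
theorem map_sw_L (hV : VField G PV) (h : Bla G k) (hkn : k < n)
    (hs : CW.SMap (CM.Quo (ZZ S PV) g) (CM.Quo (ZZ S PV) g) sw)
    (hsw : ∀ ζ ∈ ZZ S PV, sw (CM.jj g ζ) = CM.jj g (swz G PV ζ))
    (hQ : Sub d (CM.Quo (ZZ S PV) g)) (j : ℕ) :
    CW.H.map hs (CW.sc hQ hD.idf_L j) = CW.sc hQ hD.idf_L j := by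
  rw [CW.map_sc hQ hQ]
  symm
  refine CW.sc_iso hQ hD.idf_L _ (S := fun y => SP.cr (LM G PV (z y)) * LD y) ?_ ?_ j
  · intro y hy
    have h1 : SP.MSm ∞ (fun y => LM G PV (z y)) y :=
      fun a b => ContDiffAt.comp (g := fun z => LM G PV z a b) y
        (smooth_LM hV h hkn (hD.mem hy) a b) (hD.sz y hy)
    exact h1.cr.mul (hD.sL y hy)
  · rintro _ ⟨ζ, hζ, rfl⟩
    have hm := (smap_swz hV h hkn).maps hζ
    have h1 := LL_swz hV h hkn hζ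
    rw [hsw ζ hζ, hD.eL _ hm]
    simp only [hD.eL ζ hζ, hD.ez ζ hζ]
    exact ⟨_, h1⟩

end DPk

end Crest.Agent.R208.GT
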