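import Mathlib

/-!
R208, block GH (helper378), file 0: the smooth functions `Cs (s^2) = cos s`, `s * Sn (s^2) = sin s`,
smoothness through local diffeomorphisms, the round polar map.
-/

set_option autoImplicit false

open Filter Topology Set
open scoped ContDiff RealInnerProductSpace

noncomputable section

namespace Crest.Agent.R208.GH

/-! ### The functions `Cs` and `Sn` -/

/-- the sum of a power series with infinite radius of convergence is smooth -/
lemma contDiff_ofScalarsSum {c : ℕ → ℝ} (hc : ∀ n, c n ≠ 0)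
    (h : Tendsto (fun n => ‖c n.succ‖ / ‖c n‖) atTop (𝓝 0)) :
    ContDiff ℝ ∞ (FormalMultilinearSeries.ofScalarsSum (E := ℝ) c) := by
  have hr : (FormalMultilinearSeries.ofScalars ℝ c).radius = ⊤ :=
    FormalMultilinearSeries.ofScalars_radius_eq_top_of_tendsto ℝ c (Eventually.of_forall hc) h
  have h1 : HasFPowerSeriesOnBall (FormalMultilinearSeries.ofScalarsSum (E := ℝ) c)
      (FormalMultilinearSeries.ofScalars ℝ c) 0 (FormalMultilinearSeries.ofScalars ℝ c).radius :=
    (FormalMultilinearSeries.ofScalars ℝ c).hasFPowerSeriesOnBall (by rw [hr]; exact ENNReal.coe_lt_top)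
  rw [contDiff_iff_contDiffAt]
  intro x
  refine (h1.analyticAt_of_mem ?_).contDiffAt
  rw [hr]; simp

/-- `cos √u` -/
def Cs : ℝ → ℝ := FormalMultilinearSeries.ofScalarsSum (E := ℝ)
  (fun k : ℕ => (-1) ^ k / ((2 * k).factorial : ℝ))

/-- `sin √u / √u` -/
def Sn : ℝ → ℝ := FormalMultilinearSeries.ofScalarsSum (E := ℝ)
  (fun k : ℕ => (-1) ^ k / ((2 * k + 1).factorial : ℝ))

lemma contDiff_Cs : ContDiff ℝ ∞ Cs := by
  refine contDiff_ofScalarsSum (fun n => by positivity) ?_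
  have h : ∀ k : ℕ, ‖(-1 : ℝ) ^ k.succ / ((2 * k.succ).factorial : ℝ)‖ /
      ‖(-1 : ℝ) ^ k / ((2 * k).factorial : ℝ)‖ = 1 / ((2 * k + 1) * (2 * k + 2)) := by
    intro k
    have h1 : ((2 * k.succ).factorial : ℝ) = (2 * k + 2) * ((2 * k + 1) * (2 * k).factorial) := by
      rw [show 2 * k.succ = (2 * k + 1) + 1 by omega, Nat.factorial_succ, Nat.factorial_succ]
      push_cast; ring
    rw [h1]
    have h2 : (0 : ℝ) < (2 * k).factorial := by exact_mod_cast Nat.factorial_pos _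
    simp only [norm_div, norm_pow, norm_neg, norm_one, one_pow, norm_mul, Real.norm_eq_abs]
    rw [abs_of_pos h2, abs_of_pos (by positivity : (0 : ℝ) < 2 * k + 2),
      abs_of_pos (by positivity : (0 : ℝ) < 2 * k + 1)]
    field_simp
  simp only [h]
  have h3 : Tendsto (fun k : ℕ => ((k : ℝ) + 1)⁻¹) atTop (𝓝 0) := by
    simpa using tendsto_one_div_add_atTop_nhds_zero_nat (𝕜 := ℝ)
  refine squeeze_zero (fun k => by positivity) (fun k => ?_) h3
  rw [one_div]
  apply inv_anti₀ (by positivity)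
  nlinarith [(Nat.cast_nonneg k : (0 : ℝ) ≤ k)]

lemma contDiff_Sn : ContDiff ℝ ∞ Sn := by
  refine contDiff_ofScalarsSum (fun n => by positivity) ?_
  have h : ∀ k : ℕ, ‖(-1 : ℝ) ^ k.succ / ((2 * k.succ + 1).factorial : ℝ)‖ /
      ‖(-1 : ℝ) ^ k / ((2 * k + 1).factorial : ℝ)‖ = 1 / ((2 * k + 2) * (2 * k + 3)) := by
    intro k
    have h1 : ((2 * k.succ + 1).factorial : ℝ)
        = (2 * k + 3) * ((2 * k + 2) * (2 * k + 1).factorial) := by
      rw [show 2 * k.succ + 1 = ((2 * k + 1) + 1) + 1 by omega, Nat.factorial_succ,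
        Nat.factorial_succ]
      push_cast; ring
    rw [h1]
    have h2 : (0 : ℝ) < (2 * k + 1).factorial := by exact_mod_cast Nat.factorial_pos _
    simp only [norm_div, norm_pow, norm_neg, norm_one, one_pow, norm_mul, Real.norm_eq_abs]
    rw [abs_of_pos h2, abs_of_pos (by positivity : (0 : ℝ) < 2 * k + 2),
      abs_of_pos (by positivity : (0 : ℝ) < 2 * k + 3)]
    field_simp
  simp only [h]
  have h3 : Tendsto (fun k : ℕ => ((k : ℝ) + 1)⁻¹) atTop (𝓝 0) := by
    simpa using tendsto_one_div_add_atTop_nhds_zero_nat (𝕜 := ℝ)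
  refine squeeze_zero (fun k => by positivity) (fun k => ?_) h3
  rw [one_div]
  apply inv_anti₀ (by positivity)
  nlinarith [(Nat.cast_nonneg k : (0 : ℝ) ≤ k)]

lemma Cs_sq (s : ℝ) : Cs (s ^ 2) = Real.cos s := by
  rw [Cs, FormalMultilinearSeries.ofScalars_sum_eq, Real.cos_eq_tsum]
  refine tsum_congr fun k => ?_
  rw [smul_eq_mul, ← pow_mul]
  ring

lemma Sn_sq (s : ℝ) : s * Sn (s ^ 2) = Real.sin s := by
  rw [Sn, FormalMultilinearSeries.ofScalars_sum_eq, Real.sin_eq_tsum, ← tsum_mul_left]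
  refine tsum_congr fun k => ?_
  rw [smul_eq_mul, ← pow_mul, pow_succ]
  ring

lemma Cs_zero : Cs 0 = 1 := by
  have h := Cs_sq 0
  simpa using h

lemma Sn_zero : Sn 0 = 1 := by
  rw [Sn, FormalMultilinearSeries.ofScalarsSum_zero]
  simp


lemma Sn_pos {q : ℝ} (h0 : 0 ≤ q) (h1 : q < Real.pi ^ 2) : 0 < Sn q := by
  have hs : Real.sqrt q ^ 2 = q := Real.sq_sqrt h0
  have h2 := Sn_sq (Real.sqrt q)
  rw [hs] at h2
  rcases (Real.sqrt_nonneg q).eq_or_lt with h | h
  · rw [← h] at hs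
    rw [← hs]; simp [Sn_zero]
  · have h3 : Real.sqrt q < Real.pi := by
      rw [Real.sqrt_lt' Real.pi_pos]; exact h1
    have h4 := Real.sin_pos_of_pos_of_lt_pi h h3
    rw [← h2] at h4
    exact (mul_pos_iff_of_pos_left h).1 h4

lemma Cs_sq_add {q : ℝ} (h0 : 0 ≤ q) : Cs q ^ 2 + q * Sn q ^ 2 = 1 := by
  have hs : Real.sqrt q ^ 2 = q := Real.sq_sqrt h0
  have h1 := Cs_sq (Real.sqrt q)
  have h2 := Sn_sq (Real.sqrt q)
  rw [hs] at h1 h2
  have h3 : q * Sn q ^ 2 = (Real.sqrt q * Sn q) ^ 2 := by rw [mul_pow, hs]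
  rw [h3, h1, h2]
  exact Real.cos_sq_add_sin_sq _

/-- derivative of `Cs` at a nonnegative point, times `√q` -/
lemma deriv_Cs {q : ℝ} (h0 : 0 < q) : deriv Cs q = -(Sn q) / 2 := by
  have hs : Real.sqrt q ^ 2 = q := Real.sq_sqrt h0.le
  have hs0 : 0 < Real.sqrt q := Real.sqrt_pos.2 h0
  have h1 : HasDerivAt Cs (deriv Cs q) q :=
    ((contDiff_Cs.differentiable (by simp)) q).hasDerivAt
  have h2 : HasDerivAt (fun s : ℝ => s ^ 2) (2 * Real.sqrt q) (Real.sqrt q) := by
    simpa using hasDerivAt_pow 2 (Real.sqrt q)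
  have h3 : HasDerivAt (fun s : ℝ => Cs (s ^ 2)) (deriv Cs q * (2 * Real.sqrt q)) (Real.sqrt q) := by
    have h1' : HasDerivAt Cs (deriv Cs q) ((fun s : ℝ => s ^ 2) (Real.sqrt q)) := by
      simp only [hs]; exact h1
    exact HasDerivAt.comp (h := fun s : ℝ => s ^ 2) (Real.sqrt q) h1' h2
  have h4 : HasDerivAt (fun s : ℝ => Cs (s ^ 2)) (-Real.sin (Real.sqrt q)) (Real.sqrt q) := by
    have : (fun s : ℝ => Cs (s ^ 2)) = Real.cos := by ext s; exact Cs_sq s
    rw [this]; exact Real.hasDerivAt_cos _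
  have h5 := h3.unique h4
  have h6 := Sn_sq (Real.sqrt q)
  rw [hs] at h6
  rw [← h6] at h5
  have h7 : Real.sqrt q * (deriv Cs q * 2 + Sn q) = 0 := by linarith
  rcases mul_eq_zero.1 h7 with h8 | h8
  · exact absurd h8 hs0.ne'
  · linarith

/-! ### Smoothness through a local diffeomorphism -/

section Transfer

variable {E F H : Type*} [NormedAddCommGroup E] [NormedSpace ℝ E] [FiniteDimensional ℝ E]
  [NormedAddCommGroup F] [NormedSpace ℝ F] [FiniteDimensional ℝ F]
  [NormedAddCommGroup H] [NormedSpace ℝ H]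

/-- a local inverse of a smooth map with injective derivative between spaces of the same
dimension -/
theorem exists_local_inverse {f : E → F} {x : E} (hf : ContDiffAt ℝ ∞ f x)
    (hinj : ∀ v, fderiv ℝ f x v = 0 → v = 0)
    (hdim : Module.finrank ℝ E = Module.finrank ℝ F) :
    ∃ h : F → E, ContDiffAt ℝ ∞ h (f x) ∧ h (f x) = x ∧ (∀ᶠ y in 𝓝 (f x), f (h y) = y) ∧
      ∀ᶠ y in 𝓝 x, h (f y) = y := by
  have : CompleteSpace E := FiniteDimensional.complete ℝ E
  have hi : Function.Injective (fderiv ℝ f x : E →ₗ[ℝ] F) := by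
    intro a b hab
    have h1 : fderiv ℝ f x (a - b) = 0 := by rw [map_sub]; exact sub_eq_zero.2 hab
    exact sub_eq_zero.1 (hinj _ h1)
  let e : E ≃L[ℝ] F :=
    (LinearEquiv.ofInjectiveOfFinrankEq (fderiv ℝ f x : E →ₗ[ℝ] F) hi hdim).toContinuousLinearEquiv
  have he : HasFDerivAt f (e : E →L[ℝ] F) x := by
    have h1 : (e : E →L[ℝ] F) = fderiv ℝ f x := by ext v; rfl
    rw [h1]
    exact (hf.differentiableAt (by simp)).hasFDerivAt
  have hn : (∞ : WithTop ℕ∞) ≠ 0 := by simp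
  refine ⟨hf.localInverse he hn, hf.to_localInverse he hn, hf.localInverse_apply_image he hn, ?_, ?_⟩
  · exact (hf.hasStrictFDerivAt' he hn).eventually_right_inverse
  · exact (hf.hasStrictFDerivAt' he hn).eventually_left_inverse

/-- **Transfer of smoothness**: if `g ∘ f` is smooth at `x` and `f` is a local diffeomorphism at
`x`, then `g` is smooth at `f x`. -/
theorem contDiffAt_of_comp {f : E → F} {g : F → H} {x : E} (hf : ContDiffAt ℝ ∞ f x)
    (hinj : ∀ v, fderiv ℝ f x v = 0 → v = 0)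
    (hdim : Module.finrank ℝ E = Module.finrank ℝ F)
    (hg : ContDiffAt ℝ ∞ (fun y => g (f y)) x) : ContDiffAt ℝ ∞ g (f x) := by
  obtain ⟨h, h1, h2, h3, -⟩ := exists_local_inverse hf hinj hdim
  have h4 : ContDiffAt ℝ ∞ (fun y => g (f (h y))) (f x) := by
    have h5 : ContDiffAt ℝ ∞ (fun y => g (f y)) (h (f x)) := by rw [h2]; exact hg
    exact h5.comp (f x) h1
  refine h4.congr_of_eventuallyEq ?_
  filter_upwards [h3] with y hy
  rw [hy]

end Transfer

end Crest.Agent.R208.GH
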