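import Crest.Agent.R208.GH0

/-!
R208, block GH (helper378), file 0b: the round polar map
`RP x B (ρ x + w) = ρ (cos |w| x + (sin |w| / |w|) w)`, `|w|^2 = B w w`.
-/

set_option autoImplicit false

open Filter Topology Set
open scoped ContDiff RealInnerProductSpace

noncomputable section

namespace Crest.Agent.R208.GH

variable {V : Type*} [NormedAddCommGroup V] [InnerProductSpace ℝ V]

/-- component orthogonal to `x` -/
def orth (x η : V) : V := η - ⟪x, η⟫ • x

lemma inner_orth {x : V} (hx : ‖x‖ = 1) (η : V) : ⟪x, orth x η⟫ = 0 := by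
  rw [orth, inner_sub_right, inner_smul_right, real_inner_self_eq_norm_sq, hx]; ring

lemma orth_add (x a b : V) : orth x (a + b) = orth x a + orth x b := by
  simp only [orth, inner_add_right, add_smul]; abel

lemma orth_smul (x : V) (r : ℝ) (a : V) : orth x (r • a) = r • orth x a := by
  simp only [orth, inner_smul_right, smul_sub, smul_smul]

lemma orth_of_inner {x w : V} (h : ⟪x, w⟫ = 0) : orth x w = w := by
  rw [orth, h, zero_smul, sub_zero]

lemma decomp (x η : V) : ⟪x, η⟫ • x + orth x η = η := by rw [orth]; abel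

/-- the round polar map at `x` for the metric `B` -/
def RP (x : V) (B : V →L[ℝ] V →L[ℝ] ℝ) (η : V) : V :=
  ⟪x, η⟫ • (Cs (B (orth x η) (orth x η)) • x + Sn (B (orth x η) (orth x η)) • orth x η)

lemma RP_add {x w : V} (B : V →L[ℝ] V →L[ℝ] ℝ) (hx : ‖x‖ = 1) (hw : ⟪x, w⟫ = 0) (ρ : ℝ) :
    RP x B (ρ • x + w) = ρ • (Cs (B w w) • x + Sn (B w w) • w) := by
  have h1 : ⟪x, ρ • x + w⟫ = ρ := by
    rw [inner_add_right, inner_smul_right, real_inner_self_eq_norm_sq, hx, hw]; ring
  have h2 : orth x (ρ • x + w) = w := by rw [orth, h1]; abel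
  rw [RP, h1, h2]

/-- hypotheses on the metric at the unit vector `x` -/
structure Met (x : V) (B : V →L[ℝ] V →L[ℝ] ℝ) : Prop where
  unit : ‖x‖ = 1
  symm : ∀ a b, B a b = B b a
  pos : ∀ a, a ≠ 0 → 0 < B a a
  rad : ∀ a, B x a = ⟪x, a⟫

section

variable {x : V} {B : V →L[ℝ] V →L[ℝ] ℝ} (hB : Met x B)
include hB

lemma Met.nonneg (a : V) : 0 ≤ B a a := by
  by_cases h : a = 0
  · rw [h]; simp
  · exact (hB.pos a h).le

lemma Met.self : B x x = 1 := by
  rw [hB.rad, real_inner_self_eq_norm_sq, hB.unit]; norm_num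

lemma Met.eq_zero {a : V} (h : B a a = 0) : a = 0 := by
  by_contra h0
  exact absurd h (hB.pos a h0).ne'

/-- `|RP (ρ x + w)|² = ρ²` -/
lemma Met.norm_RP (η : V) : B (RP x B η) (RP x B η) = ⟪x, η⟫ ^ 2 := by
  have h0 : ⟪x, orth x η⟫ = 0 := inner_orth hB.unit η
  have h1 : B x (orth x η) = 0 := by rw [hB.rad, h0]
  have h2 : B (orth x η) x = 0 := by rw [hB.symm, h1]
  have h3 := Cs_sq_add (hB.nonneg (orth x η))
  simp only [RP, map_smul, map_add, _root_.add_apply, _root_.smul_apply,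
    smul_eq_mul, h1, h2, hB.self]
  set q := B (orth x η) (orth x η)
  calc _ = ⟪x, η⟫ ^ 2 * (Cs q ^ 2 + q * Sn q ^ 2) := by ring
    _ = _ := by rw [h3, mul_one]

lemma Met.inner_RP (η : V) : ⟪x, RP x B η⟫ = ⟪x, η⟫ * Cs (B (orth x η) (orth x η)) := by
  rw [RP, inner_smul_right, inner_add_right, inner_smul_right, inner_smul_right,
    inner_orth hB.unit, real_inner_self_eq_norm_sq, hB.unit]
  ring

lemma Met.orth_RP (η : V) : orth x (RP x B η)
    = (⟪x, η⟫ * Sn (B (orth x η) (orth x η))) • orth x η := by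
  have h1 : orth x x = 0 := by
    rw [orth, real_inner_self_eq_norm_sq, hB.unit]; simp
  rw [RP, orth_smul, orth_add, orth_smul, orth_smul, h1, smul_zero, zero_add,
    orth_of_inner (inner_orth hB.unit η), smul_smul]

end

lemma contDiff_RP : ContDiff ℝ ∞ (fun z : V × (V →L[ℝ] V →L[ℝ] ℝ) × V => RP z.1 z.2.1 z.2.2) := by
  have h1 : ContDiff ℝ ∞ (fun z : V × (V →L[ℝ] V →L[ℝ] ℝ) × V => ⟪z.1, z.2.2⟫) :=
    contDiff_fst.inner ℝ (contDiff_snd.comp contDiff_snd)
  have h2 : ContDiff ℝ ∞ (fun z : V × (V →L[ℝ] V →L[ℝ] ℝ) × V => orth z.1 z.2.2) :=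
    (contDiff_snd.comp contDiff_snd).sub (h1.smul contDiff_fst)
  have h3 : ContDiff ℝ ∞ (fun z : V × (V →L[ℝ] V →L[ℝ] ℝ) × V => z.2.1) :=
    contDiff_fst.comp contDiff_snd
  have h4 : ContDiff ℝ ∞ (fun z : V × (V →L[ℝ] V →L[ℝ] ℝ) × V =>
      z.2.1 (orth z.1 z.2.2) (orth z.1 z.2.2)) := (h3.clm_apply h2).clm_apply h2
  exact h1.smul (((contDiff_Cs.comp h4).smul contDiff_fst).add ((contDiff_Sn.comp h4).smul h2))

lemma contDiff_RP' (x : V) (B : V →L[ℝ] V →L[ℝ] ℝ) : ContDiff ℝ ∞ (RP x B) :=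
  contDiff_RP.comp (contDiff_const.prodMk (contDiff_const.prodMk contDiff_id))

lemma hasDerivAt_inner_const (x : V) {c : ℝ → V} {c' : V} {t : ℝ} (h : HasDerivAt c c' t) :
    HasDerivAt (fun t => ⟪x, c t⟫) ⟪x, c'⟫ t :=
  ((innerSL ℝ x).hasFDerivAt (x := c t)).comp_hasDerivAt t h

lemma hasDerivAt_quad (B : V →L[ℝ] V →L[ℝ] ℝ) {c : ℝ → V} {c' : V} {t : ℝ}
    (h : HasDerivAt c c' t) : HasDerivAt (fun t => B (c t) (c t)) (B c' (c t) + B (c t) c') t :=
  ((B.hasFDerivAt (x := c t)).comp_hasDerivAt t h).clm_apply h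

/-- the round polar map is a local diffeomorphism for `ρ ≠ 0`, `|w| < π` -/
theorem Met.fderiv_RP_inj {x : V} {B : V →L[ℝ] V →L[ℝ] ℝ} (hB : Met x B) {η v : V}
    (hρ : ⟪x, η⟫ ≠ 0) (hq : B (orth x η) (orth x η) < Real.pi ^ 2)
    (h : fderiv ℝ (RP x B) η v = 0) : v = 0 := by
  have hl : HasDerivAt (fun t : ℝ => η + t • v) v 0 := by
    simpa using ((hasDerivAt_id (0 : ℝ)).smul_const v).const_add η
  have hR : HasDerivAt (fun t : ℝ => RP x B (η + t • v)) 0 0 := by
    have h1 : HasFDerivAt (RP x B) (fderiv ℝ (RP x B) η) (η + (0 : ℝ) • v) := by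
      rw [zero_smul, add_zero]
      exact ((contDiff_RP' x B).differentiable (by simp) η).hasFDerivAt
    have h2 := h1.comp_hasDerivAt (0 : ℝ) hl
    rw [h] at h2
    exact h2
  -- ρ' = 0
  have hρ' : ⟪x, v⟫ = 0 := by
    have h1 : HasDerivAt (fun t : ℝ => B (RP x B (η + t • v)) (RP x B (η + t • v))) 0 0 := by
      have h3 := hasDerivAt_quad B hR
      simpa using h3
    have h2 : (fun t : ℝ => B (RP x B (η + t • v)) (RP x B (η + t • v)))
        = fun t : ℝ => ⟪x, η + t • v⟫ ^ 2 := by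
      ext t; exact hB.norm_RP _
    rw [h2] at h1
    have h3 : HasDerivAt (fun t : ℝ => ⟪x, η + t • v⟫) ⟪x, v⟫ 0 := hasDerivAt_inner_const x hl
    have h4 : HasDerivAt (fun t : ℝ => ⟪x, η + t • v⟫ ^ 2) (2 * ⟪x, η⟫ * ⟪x, v⟫) 0 := by
      have h5 := h3.fun_pow 2
      simp only [zero_smul, add_zero] at h5
      exact h5.congr_deriv (by norm_num)
    have h5 := h1.unique h4
    have h6 : (2 * ⟪x, η⟫) * ⟪x, v⟫ = 0 := h5.symm
    rcases mul_eq_zero.1 h6 with h7 | h7
    · exact absurd h7 (mul_ne_zero two_ne_zero hρ)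
    · exact h7
  set w := orth x η with hw
  have hov : orth x v = v := orth_of_inner hρ'
  have horth : ∀ t : ℝ, orth x (η + t • v) = w + t • v := by
    intro t; rw [orth_add, orth_smul, hov]
  have hinn : ∀ t : ℝ, ⟪x, η + t • v⟫ = ⟪x, η⟫ := by
    intro t; rw [inner_add_right, inner_smul_right, hρ', mul_zero, add_zero]
  -- derivative of q
  have hlw : HasDerivAt (fun t : ℝ => w + t • v) v 0 := by
    simpa using ((hasDerivAt_id (0 : ℝ)).smul_const v).const_add w
  have hqd : HasDerivAt (fun t : ℝ => B (w + t • v) (w + t • v)) (2 * B w v) 0 := by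
    have h3 := hasDerivAt_quad B hlw
    have h4 : B v w = B w v := hB.symm _ _
    simp only [zero_smul, add_zero, h4] at h3
    rw [two_mul]
    exact h3
  have hq' : B w v = 0 := by
    by_cases hw0 : w = 0
    · rw [hw0]; simp
    have hqpos : 0 < B w w := hB.pos w hw0
    have h1 : HasDerivAt (fun t : ℝ => ⟪x, RP x B (η + t • v)⟫) 0 0 := by
      have := hasDerivAt_inner_const x hR
      rwa [inner_zero_right] at this
    have h2 : (fun t : ℝ => ⟪x, RP x B (η + t • v)⟫)
        = fun t : ℝ => ⟪x, η⟫ * Cs (B (w + t • v) (w + t • v)) := by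
      ext t; rw [hB.inner_RP, hinn, horth]
    rw [h2] at h1
    have h3 : HasDerivAt Cs (deriv Cs (B w w)) (B w w) :=
      ((contDiff_Cs.differentiable (by simp)) _).hasDerivAt
    have h4 : HasDerivAt (fun t : ℝ => Cs (B (w + t • v) (w + t • v)))
        (deriv Cs (B w w) * (2 * B w v)) 0 := by
      have h3' : HasDerivAt Cs (deriv Cs (B w w))
          ((fun t : ℝ => B (w + t • v) (w + t • v)) 0) := by
        simpa using h3
      exact HasDerivAt.comp (h := fun t : ℝ => B (w + t • v) (w + t • v)) (0 : ℝ) h3' hqd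
    have h5 := h1.unique (h4.const_mul ⟪x, η⟫)
    rw [deriv_Cs hqpos] at h5
    have hS := Sn_pos hqpos.le hq
    have h6 : (⟪x, η⟫ * Sn (B w w)) * B w v = 0 := by linarith
    rcases mul_eq_zero.1 h6 with h7 | h7
    · exact absurd h7 (mul_ne_zero hρ hS.ne')
    · exact h7
  -- the tangential component
  have h1 : HasDerivAt (fun t : ℝ => orth x (RP x B (η + t • v))) 0 0 := by
    have h2 : HasDerivAt (fun t : ℝ => ⟪x, RP x B (η + t • v)⟫) 0 0 := by
      have := hasDerivAt_inner_const x hR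
      rwa [inner_zero_right] at this
    have h3 := hR.sub (h2.smul_const x)
    simp only [zero_smul, sub_zero] at h3
    exact h3
  have h2 : (fun t : ℝ => orth x (RP x B (η + t • v)))
      = fun t : ℝ => (⟪x, η⟫ * Sn (B (w + t • v) (w + t • v))) • (w + t • v) := by
    ext1 t; rw [hB.orth_RP, hinn, horth]
  rw [h2] at h1
  have h3 : HasDerivAt Sn (deriv Sn (B w w)) (B w w) :=
    ((contDiff_Sn.differentiable (by simp)) _).hasDerivAt
  have h4 : HasDerivAt (fun t : ℝ => Sn (B (w + t • v) (w + t • v))) 0 0 := by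
    have h3' : HasDerivAt Sn (deriv Sn (B w w))
        ((fun t : ℝ => B (w + t • v) (w + t • v)) 0) := by
      simpa using h3
    have h5 := HasDerivAt.comp (h := fun t : ℝ => B (w + t • v) (w + t • v)) (0 : ℝ) h3' hqd
    rw [hq', mul_zero, mul_zero] at h5
    exact h5
  have h5 := (h4.const_mul ⟪x, η⟫).smul hlw
  have h6 := h1.unique h5
  simp only [zero_smul, add_zero, mul_zero] at h6
  have hS := Sn_pos (hB.nonneg w) hq
  rcases smul_eq_zero.1 h6.symm with h7 | h7
  · exact absurd h7 (mul_ne_zero hρ hS.ne')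
  · exact h7

/-- every vector off the negative axis is in the image -/
theorem Met.exists_RP {x : V} {B : V →L[ℝ] V →L[ℝ] ℝ} (hB : Met x B) {ξ : V}
    (hneg : ∀ r : ℝ, 0 ≤ r → ξ ≠ -(r • x)) :
    ∃ (ρ : ℝ) (w : V), 0 < ρ ∧ ⟪x, w⟫ = 0 ∧ B w w < Real.pi ^ 2 ∧
      ρ • (Cs (B w w) • x + Sn (B w w) • w) = ξ := by
  set a := ⟪x, ξ⟫ with ha
  set u := orth x ξ with hu
  have hxu : ⟪x, u⟫ = 0 := inner_orth hB.unit ξ
  have hdec : a • x + u = ξ := decomp x ξ
  by_cases hu0 : u = 0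
  · have ha0 : 0 < a := by
      by_contra hcon
      have h1 : ξ = a • x := by rw [← hdec, hu0, add_zero]
      refine hneg (-a) (by linarith [not_lt.1 hcon]) ?_
      rw [h1, neg_smul, neg_neg]
    refine ⟨a, 0, ha0, by simp, by simp; positivity, ?_⟩
    rw [← hdec, hu0]
    simp [Cs_zero]
  · have hb : 0 < B u u := hB.pos u hu0
    set b := Real.sqrt (B u u) with hbdef
    have hb0 : 0 < b := Real.sqrt_pos.2 hb
    have hb2 : b ^ 2 = B u u := Real.sq_sqrt hb.le
    set ρ := Real.sqrt (a ^ 2 + b ^ 2) with hρdef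
    have hρ2 : ρ ^ 2 = a ^ 2 + b ^ 2 := Real.sq_sqrt (by positivity)
    have hρ0 : 0 < ρ := Real.sqrt_pos.2 (by positivity)
    have habs : |a / ρ| < 1 := by
      rw [abs_div, abs_of_pos hρ0, div_lt_one hρ0]
      rw [← abs_of_pos hρ0]
      exact sq_lt_sq.1 (by rw [hρ2]; nlinarith)
    have h1 : -1 ≤ a / ρ := (abs_lt.1 habs).1.le
    have h2 : a / ρ ≤ 1 := (abs_lt.1 habs).2.le
    set s := Real.arccos (a / ρ) with hs
    have hs0 : 0 < s := Real.arccos_pos.2 (abs_lt.1 habs).2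
    have hsπ : s < Real.pi := by
      refine lt_of_le_of_ne (Real.arccos_le_pi _) ?_
      intro h
      have := Real.arccos_eq_pi.1 h
      linarith [(abs_lt.1 habs).1]
    have hcos : Real.cos s = a / ρ := Real.cos_arccos h1 h2
    have hsin : Real.sin s = b / ρ := by
      rw [hs, Real.sin_arccos]
      have h3 : 1 - (a / ρ) ^ 2 = (b / ρ) ^ 2 := by
        field_simp
        nlinarith
      rw [h3, Real.sqrt_sq (by positivity)]
    refine ⟨ρ, (s / b) • u, hρ0, by rw [inner_smul_right, hxu, mul_zero], ?_, ?_⟩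
    · simp only [map_smul, _root_.smul_apply, smul_eq_mul, ← hb2]
      have : s / b * (s / b * b ^ 2) = s ^ 2 := by field_simp
      rw [this]
      exact pow_lt_pow_left₀ hsπ hs0.le two_ne_zero
    · have h3 : B ((s / b) • u) ((s / b) • u) = s ^ 2 := by
        simp only [map_smul, _root_.smul_apply, smul_eq_mul, ← hb2]
        field_simp
      rw [h3, Cs_sq, hcos, smul_smul]
      have h4 : Sn (s ^ 2) * (s / b) = 1 / ρ := by
        have h5 := Sn_sq s
        rw [hsin] at h5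
        have h6 : Sn (s ^ 2) = b / ρ / s := by
          rw [eq_div_iff hs0.ne', mul_comm]; exact h5
        rw [h6]; field_simp
      rw [h4, smul_add, smul_smul, smul_smul, mul_div_cancel₀ _ hρ0.ne',
        mul_one_div_cancel hρ0.ne', one_smul]
      exact hdec

end Crest.Agent.R208.GH
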