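import Crest.Agent.R208.I7

/-!
R208, block GH (helper378), file 1a: the two types `k = n` (`c = 1`) and `k = 1` (`c = 2`) of a
Blaschke manifold in a uniform form.
-/

set_option autoImplicit false

open Set Filter Topology Module
open scoped ContDiff RealInnerProductSpace
open Crest.GeometryTopology.Submanifold
open Crest.Agent.R241.DDefs
open Crest.Agent.R241.D2
open Crest.Agent.R241.D3c

noncomputable section

namespace Crest.Agent.R208.GH

variable {n N : ℕ} {κ : ℝ} {S : Set (Euc N)} {G : Geo n N κ S}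

/-- sphere type (`c = 1`) or projective type (`c = 2`) -/
structure Hf (G : Geo n N κ S) (c : ℝ) : Prop where
  bl : Bl n N κ S G Real.pi
  per : HS.Per G
  half : ∀ x ∈ S, ∀ v ∈ G.T x, ∀ v' ∈ G.T x, ‖v‖ = 1 → ‖v'‖ = 1 →
    Exp G x ((c * Real.pi) • v) = Exp G x ((c * Real.pi) • v')
  noconj : ∀ x ∈ S, ∀ u ∈ G.T x, ‖u‖ < c * Real.pi → ∀ b ∈ G.T x,
    fderiv ℝ (Exp G x) u b = 0 → b = 0
  cases : c = 1 ∨ (c = 2 ∧ 2 ≤ n ∧ ∀ x ∈ S, ∀ v ∈ G.T x, ∀ v' ∈ G.T x, ‖v‖ = 1 → ‖v'‖ = 1 →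
    Exp G x (Real.pi • v) = Exp G x (Real.pi • v') → v' = v ∨ v' = -v)

/-- no conjugate points before `π` -/
lemma noconj_pi (h : Bl n N κ S G Real.pi) {x : Euc N} (hx : x ∈ S) {u : Euc N} (hu : u ∈ G.T x)
    (hu1 : ‖u‖ < Real.pi) {b : Euc N} (hb : b ∈ G.T x) (h0 : fderiv ℝ (Exp G x) u b = 0) :
    b = 0 := by
  rcases eq_or_ne u 0 with rfl | hu0
  · rwa [fderiv_Exp_zero G hx hb] at h0
  · have hn : 0 < ‖u‖ := norm_pos_iff.2 hu0
    have h1 : ‖(‖u‖⁻¹ • u)‖ = 1 := by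
      rw [norm_smul, norm_inv, norm_norm, inv_mul_cancel₀ hn.ne']
    have h2 : ‖u‖ • (‖u‖⁻¹ • u) = u := by rw [smul_smul, mul_inv_cancel₀ hn.ne', one_smul]
    refine I.no_conj h (z := (x, ‖u‖⁻¹ • u)) ⟨hx, (G.T x).smul_mem _ hu⟩ h1 hn hu1 hb ?_
    rw [h2]; exact h0

lemma Exp_per (hper : HS.Per G) {x v : Euc N} (hx : x ∈ S) (hv : v ∈ G.T x) (hv1 : ‖v‖ = 1)
    (t : ℝ) : Exp G x ((2 * Real.pi + t) • v) = Exp G x (t • v) := by
  have hz : ((x, v) : Euc N × Euc N) ∈ TS G := ⟨hx, hv⟩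
  rw [Exp_smul G hx hv, Exp_smul G hx hv, fl_add' G hz, hper (x, v) hz hv1]

theorem hf_one (h : Bl n N κ S G Real.pi) (hT : I.Typ G n) : Hf G 1 where
  bl := h
  per := hT.per
  half := by
    intro x hx v hv v' hv' h1 h1'
    rw [one_mul]
    set q := Exp G x (Real.pi • v) with hq
    have hpv : Real.pi • v ∈ G.T x := (G.T x).smul_mem _ hv
    have hd : intrinsicDist S x q = Real.pi := by
      have hn : ‖Real.pi • v‖ = Real.pi := by
        rw [norm_smul, h1, mul_one, Real.norm_eq_abs, abs_of_pos Real.pi_pos]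
      rw [hq, h.dist_Exp hx hpv hn.le, hn]
    obtain ⟨V, hV1, hV2, hV3, -⟩ := hT.link x hx q (Exp_mem G hx hpv) hd
    have hVT : V = G.T x := Submodule.eq_of_le_of_finrank_eq hV1 (by rw [hV2, G.finrank_T x hx])
    have h2 := (hV3 v').1 ⟨by rw [hVT]; exact hv', h1'⟩
    exact h2.2.2.symm
  noconj := by
    intro x hx u hu hu1 b hb h0
    rw [one_mul] at hu1
    exact noconj_pi h hx hu hu1 hb h0
  cases := Or.inl rfl

/-- if a Jacobi field vanishes at `0` and at `t ∈ (π, 2π)` it is zero -/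
lemma noconj_two (h : Bl n N κ S G Real.pi) (hper : HS.Per G) {x v : Euc N} (hx : x ∈ S)
    (hv : v ∈ G.T x) (hv1 : ‖v‖ = 1) {t : ℝ} (ht : Real.pi < t) (ht2 : t < 2 * Real.pi)
    {b : Euc N} (hb : b ∈ G.T x) (h0 : fderiv ℝ (Exp G x) (t • v) b = 0) : b = 0 := by
  have hπ := Real.pi_pos
  have ht0 : t ≠ 0 := by linarith
  have hq : ((x, v) : Euc N × Euc N) ∈ TS G := ⟨hx, hv⟩
  have hA : J.At G (x, v) 0 t b = 0 := (J.fderiv_Exp_eq_zero_iff hq ht0 hb).1 h0
  have hbv : ⟪b, v⟫ = 0 := J.inner_eq_zero_of_At hq (by simpa using ht0) hA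
  have hbV : b ∈ J.Vp G (x, v) := J.mem_Vp.2 ⟨hb, hbv⟩
  -- the field at time `2π`
  have hA2 : J.At G (x, v) 0 (2 * Real.pi) b = 0 := by
    have h1 := J.At_periodic hper hq hv1 0 0 hbV
    rw [zero_add, J.At_self hq, map_zero] at h1
    exact h1
  set e := J.At' G (x, v) 0 t b with he
  have heT : e ∈ G.T x := J.At'_mem hq 0 t b
  have huniq := (J.isJac_At hq 0 b).unique (J.contDiff_Rh hq).continuous (J.isJac_At hq t e)
    (t₀ := t) (by rw [hA, J.At_self hq]) (by rw [J.At'_self hq, (P_eq_self G hx).1 heT])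
  have hA3 : J.At G (x, v) t (2 * Real.pi) e = 0 := by rw [← (huniq _).1, hA2]
  -- shift
  have hz := fl_mem G hq t
  have hz1 : ‖(fl G ((x, v), t)).2‖ = 1 := by rw [norm_fl G hq, hv1]
  have hPe : J.PT G (x, v) t e ∈ G.T (fl G ((x, v), t)).1 := J.PT_mem hq t heT
  have h2 := J.At_shift_zero hq t (2 * Real.pi - t) hPe
  rw [J.PTi_PT hq, add_sub_cancel, hA3, map_zero] at h2
  have h3 : (2 * Real.pi - t) ≠ 0 := by linarith
  have h4 := (J.fderiv_Exp_eq_zero_iff hz h3 hPe).2 h2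
  have h5 : J.PT G (x, v) t e = 0 := by
    refine noconj_pi h hz.1 ((G.T _).smul_mem _ hz.2) ?_ hPe h4
    rw [norm_smul, hz1, mul_one, Real.norm_eq_abs, abs_of_pos (by linarith)]
    linarith
  have h6 : e = 0 := by
    have := congrArg (J.PTi G (x, v) t) h5
    rwa [J.PTi_PT hq, map_zero] at this
  have h7 := (huniq 0).2
  rw [J.At'_self hq, (P_eq_self G hx).1 hb, h6] at h7
  rw [h7]
  have h8 := (J.isJac_At hq t (0 : Euc N))
  have h9 := h8.eq_zero (J.contDiff_Rh hq).continuous (t₀ := t) (by rw [J.At_self hq])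
    (by rw [J.At'_self hq, map_zero]) 0
  exact h9.2

theorem hf_two (h : Bl n N κ S G Real.pi) (hT : I.Typ G 1) (hn : 2 ≤ n) : Hf G 2 where
  bl := h
  per := hT.per
  half := by
    intro x hx v hv v' hv' h1 h1'
    have h2 := Exp_per hT.per hx hv h1 0
    have h3 := Exp_per hT.per hx hv' h1' 0
    rw [add_zero, zero_smul, Exp_zero G hx] at h2 h3
    rw [h2, h3]
  noconj := by
    intro x hx u hu hu1 b hb h0
    have hπ := Real.pi_pos
    rcases lt_trichotomy ‖u‖ Real.pi with h1 | h1 | h1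
    · exact noconj_pi h hx hu h1 hb h0
    · have hun : ‖(Real.pi⁻¹ • u)‖ = 1 := by
        rw [norm_smul, h1, Real.norm_eq_abs, abs_of_pos (by positivity), inv_mul_cancel₀ hπ.ne']
      have h2 : Real.pi • (Real.pi⁻¹ • u) = u := by
        rw [smul_smul, mul_inv_cancel₀ hπ.ne', one_smul]
      have huT : Real.pi⁻¹ • u ∈ G.T x := (G.T x).smul_mem _ hu
      have h3 := hT.finrank_ker (x, Real.pi⁻¹ • u) ⟨hx, huT⟩ hun
      change finrank ℝ (G.T x ⊓ LinearMap.ker (fderiv ℝ (Exp G x)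
        (Real.pi • (Real.pi⁻¹ • u))).toLinearMap : Submodule ℝ (Euc N)) = 0 at h3
      rw [h2] at h3
      have h4 := Submodule.finrank_eq_zero.1 h3
      have h5 : b ∈ (G.T x ⊓ LinearMap.ker (fderiv ℝ (Exp G x) u).toLinearMap :
          Submodule ℝ (Euc N)) := ⟨hb, h0⟩
      rw [h4] at h5
      exact (Submodule.mem_bot ℝ).1 h5
    · have hn0 : 0 < ‖u‖ := by linarith
      have hun : ‖(‖u‖⁻¹ • u)‖ = 1 := by
        rw [norm_smul, norm_inv, norm_norm, inv_mul_cancel₀ hn0.ne']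
      have h2 : ‖u‖ • (‖u‖⁻¹ • u) = u := by rw [smul_smul, mul_inv_cancel₀ hn0.ne', one_smul]
      exact noconj_two h hT.per hx ((G.T x).smul_mem _ hu) hun h1 hu1 hb (by rw [h2]; exact h0)
  cases := by
    refine Or.inr ⟨rfl, hn, ?_⟩
    intro x hx v hv v' hv' h1 h1' heq
    set q := Exp G x (Real.pi • v) with hq
    have hpv : Real.pi • v ∈ G.T x := (G.T x).smul_mem _ hv
    have hd : intrinsicDist S x q = Real.pi := by
      have hn : ‖Real.pi • v‖ = Real.pi := by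
        rw [norm_smul, h1, mul_one, Real.norm_eq_abs, abs_of_pos Real.pi_pos]
      rw [hq, h.dist_Exp hx hpv hn.le, hn]
    obtain ⟨V, hV1, hV2, hV3, -⟩ := hT.link x hx q (Exp_mem G hx hpv) hd
    have hvV : v ∈ V := ((hV3 v).2 ⟨hv, h1, rfl⟩).1
    have hv'V : v' ∈ V := ((hV3 v').2 ⟨hv', h1', heq.symm⟩).1
    have hv0 : (⟨v, hvV⟩ : V) ≠ 0 := by
      intro h0
      have : v = 0 := congrArg Subtype.val h0
      rw [this, norm_zero] at h1
      exact zero_ne_one h1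
    obtain ⟨r, hr⟩ := exists_smul_eq_of_finrank_eq_one hV2 hv0 (⟨v', hv'V⟩ : V)
    have hr' : r • v = v' := congrArg Subtype.val hr
    have hr1 : |r| = 1 := by
      have := congrArg norm hr'
      rwa [norm_smul, h1, h1', mul_one, Real.norm_eq_abs] at this
    rcases eq_or_eq_neg_of_abs_eq hr1 with h2 | h2
    · left; rw [← hr', h2, one_smul]
    · right; rw [← hr', h2, neg_one_smul]

end Crest.Agent.R208.GH
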