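import Mathlib

/-!
R208, block JT (helper631): the join trick, abstract half.  Definitions.

`V = ℝ^m` is the cone over a Wiedersehen structure on the sphere `S^(m-1)` (norm = distance from
the apex).  Any two vectors lie in the plane of a closed geodesic; `A X Y` is their sum in that
plane, `F (X, Y)` their scalar product, `Z X Y` is the vector `Y` attached at `X` (the velocity of
`t ↦ cos t X + sin t Y`), `G X` is the metric of the cone at `X`.
-/

set_option autoImplicit false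

open scoped RealInnerProductSpace NNReal
open MeasureTheory

noncomputable section

namespace Crest.Agent.R208.JT

/-- `ℝ^m` -/
abbrev Eu (m : ℕ) := EuclideanSpace ℝ (Fin m)

/-- data and axioms of a Wiedersehen cone -/
structure JD (m : ℕ) where
  /-- sum in the plane -/
  A : Eu m → Eu m → Eu m
  /-- scalar product in the plane -/
  F : Eu m × Eu m → ℝ
  /-- `Z X Y`: the plane vector `Y` as a tangent vector at `X` -/
  Z : Eu m → Eu m → Eu m
  /-- the metric of the cone -/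
  G : Eu m → Eu m →L[ℝ] Eu m →L[ℝ] ℝ
  A_comm : ∀ X Y, A X Y = A Y X
  A_zero : ∀ X, A X 0 = X
  A_smul : ∀ (r : ℝ) X Y, A (r • X) (r • Y) = r • A X Y
  lip : ∃ C : ℝ≥0, LipschitzWith C fun P : Eu m × Eu m => A P.1 P.2
  /-- the rotations of the pairs form an action -/
  act : ∀ s t : ℝ, ∀ X Y,
    A (Real.cos s • A (Real.cos t • X) (Real.sin t • Y))
      (Real.sin s • A (-Real.sin t • X) (Real.cos t • Y)) =
      A (Real.cos (s + t) • X) (Real.sin (s + t) • Y)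
  norm_A : ∀ X Y, ‖A X Y‖ ^ 2 = ‖X‖ ^ 2 + 2 * F (X, Y) + ‖Y‖ ^ 2
  F_smul : ∀ (r : ℝ) X Y, F (r • X, Y) = r * F (X, Y)
  smooth : ∀ X Y, X ≠ 0 → Y ≠ 0 → ContDiffAt ℝ (⊤ : ℕ∞) F (X, Y)
  hasDeriv : ∀ X Y, X ≠ 0 → Y ≠ 0 →
    HasDerivAt (fun t : ℝ => A (Real.cos t • X) (Real.sin t • Y)) (Z X Y) 0
  G_symm : ∀ X a b, G X a b = G X b a
  G_pos : ∀ X a, X ≠ 0 → a ≠ 0 → 0 < G X a a
  G_smul : ∀ (r : ℝ) X, 0 < r → G (r • X) = G X
  G_cont : ContinuousOn G {X | X ≠ 0}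
  /-- first variation -/
  grad : ∀ X Y δ, X ≠ 0 → Y ≠ 0 → fderiv ℝ F (X, Y) (δ, 0) = G X (Z X Y) δ
  eik : ∀ X Y, X ≠ 0 → Y ≠ 0 → G X (Z X Y) (Z X Y) = ‖Y‖ ^ 2
  /-- for fixed `X` the map `Y ↦ Z X Y` is a diffeomorphism of `V \ 0` -/
  bij : ∀ X, X ≠ 0 → Set.BijOn (Z X) {Y | Y ≠ 0} {ξ | ξ ≠ 0}
  inj : ∀ X Y, X ≠ 0 → Y ≠ 0 → Function.Injective (fderiv ℝ (Z X) Y)

/-- determinant of the metric -/
def JD.detG {m : ℕ} (J : JD m) (X : Eu m) : ℝ :=
  (Matrix.of fun i j : Fin m =>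
    J.G X (EuclideanSpace.basisFun (Fin m) ℝ i) (EuclideanSpace.basisFun (Fin m) ℝ j)).det

/-- **Conclusion of the join trick**: the volume of the unit ball of the cone is the euclidean one
divided by an integer. -/
def JD.Concl {m : ℕ} (J : JD m) : Prop :=
  ∃ d : ℤ, (d : ℝ) * ∫ X in Metric.ball (0 : Eu m) 1, Real.sqrt (J.detG X) =
    (volume (Metric.ball (0 : Eu m) 1)).toReal

/-- the statement of the abstract half -/
def MainStmt : Prop := ∀ (m : ℕ) (J : JD m), 2 ≤ m → J.Concl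

end Crest.Agent.R208.JT
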