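import Crest.Agent.R208.GH1a
import Crest.Agent.R208.GH0b
import Crest.Agent.R208.JTDefs

/-!
R208, block GH (helper378), file 1b: polar coordinates `k1` at a point `p`.
-/

set_option autoImplicit false

open Set Filter Topology Module
open scoped ContDiff RealInnerProductSpace
open Crest.GeometryTopology.Submanifold
open Crest.Agent.R241.DDefs
open Crest.Agent.R241.D2
open Crest.Agent.R241.D3c
open Crest.Agent.R208.JT (Eu)

noncomputable section

namespace Crest.Agent.R208.GH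

variable {n N : ℕ} {κ : ℝ} {S : Set (Euc N)} {G : Geo n N κ S}

/-- polar frame at `p` -/
structure Fr (G : Geo n N κ S) (p : Euc N) where
  e : Eu (n + 1)
  B : Eu (n + 1) →L[ℝ] Euc N
  v0 : Euc N
  ne : ‖e‖ = 1
  Be : B e = 0
  iso : ∀ w, ⟪e, w⟫ = 0 → ‖B w‖ = ‖w‖
  mem : ∀ w, B w ∈ G.T p
  surj : ∀ v ∈ G.T p, ∃ w, ⟪e, w⟫ = 0 ∧ B w = v
  v0_mem : v0 ∈ G.T p
  v0_norm : ‖v0‖ = 1

/-- drop the first coordinate -/
def dropL (n : ℕ) : Eu (n + 1) →L[ℝ] Euc n :=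
  LinearMap.toContinuousLinearMap
    { toFun := fun x => WithLp.toLp 2 fun i => x (Fin.succ i)
      map_add' := fun x y => by ext i; rfl
      map_smul' := fun r x => by ext i; rfl }

lemma dropL_apply (n : ℕ) (x : Eu (n + 1)) (i : Fin n) : dropL n x i = x (Fin.succ i) := rfl

theorem exists_fr (h : Bl n N κ S G Real.pi) {p : Euc N} (hp : p ∈ S) : Nonempty (Fr G p) := by
  obtain ⟨β, hβ⟩ := exists_frame G hp
  obtain ⟨v0, hv0, hv1⟩ := I.exists_unit h hp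
  have hin : ∀ w : Eu (n + 1), ⟪(EuclideanSpace.single 0 (1 : ℝ) : Eu (n + 1)), w⟫ = w 0 := by
    intro w; simp [EuclideanSpace.inner_single_left]
  refine ⟨⟨EuclideanSpace.single 0 (1 : ℝ), β.toContinuousLinearMap.comp (dropL n), v0, by simp,
    ?_, ?_, ?_, ?_, hv0, hv1⟩⟩
  · have : dropL n (EuclideanSpace.single 0 (1 : ℝ)) = 0 := by
      ext i
      rw [dropL_apply]
      simp
    change β (dropL n _) = 0
    rw [this, map_zero]
  · intro w hw
    rw [hin] at hw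
    change ‖β (dropL n w)‖ = ‖w‖
    rw [β.norm_map, EuclideanSpace.norm_eq, EuclideanSpace.norm_eq, Fin.sum_univ_succ, hw]
    simp [dropL_apply]
  · intro w
    exact frame_mem hβ _
  · intro v hv
    obtain ⟨u, hu⟩ := exists_frame_eq hβ hv
    refine ⟨WithLp.toLp 2 (Fin.cons 0 fun i => u i), ?_, ?_⟩
    · rw [hin]; rfl
    · change β (dropL n _) = v
      rw [← hu]
      congr 1

/-- direction of `X` seen from `e`, with length the angle -/
def nuv (e X : Eu (n + 1)) : Eu (n + 1) :=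
  (Real.arccos (⟪e, X⟫ / ‖X‖) / ‖orth e X‖) • orth e X

lemma nuv_smul (e X : Eu (n + 1)) {r : ℝ} (hr : 0 < r) : nuv e (r • X) = nuv e X := by
  have h1 : ⟪e, r • X⟫ / ‖r • X‖ = ⟪e, X⟫ / ‖X‖ := by
    rw [inner_smul_right, norm_smul, Real.norm_eq_abs, abs_of_pos hr,
      mul_div_mul_left _ _ hr.ne']
  rw [nuv, nuv, h1, orth_smul, norm_smul, Real.norm_eq_abs, abs_of_pos hr, smul_smul]
  congr 1
  field_simp

/-- the euclidean metric -/
lemma met_euc {e : Eu (n + 1)} (he : ‖e‖ = 1) : Met e (innerSL ℝ : Eu (n + 1) →L[ℝ] _) where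
  unit := he
  symm := fun a b => real_inner_comm b a
  pos := fun a ha => by
    change (0 : ℝ) < ⟪a, a⟫
    exact real_inner_self_pos.2 ha
  rad := fun a => rfl

/-- euclidean polar coordinates -/
def PE (e η : Eu (n + 1)) : Eu (n + 1) := RP e (innerSL ℝ) η

lemma PE_add {e w : Eu (n + 1)} (he : ‖e‖ = 1) (hw : ⟪e, w⟫ = 0) (ρ : ℝ) :
    PE e (ρ • e + w) = ρ • (Real.cos ‖w‖ • e + Sn (‖w‖ ^ 2) • w) := by
  have h1 : (innerSL ℝ : Eu (n + 1) →L[ℝ] _) w w = ‖w‖ ^ 2 := by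
    rw [innerSL_apply_apply, real_inner_self_eq_norm_sq]
  rw [PE, RP_add _ he hw, h1, Cs_sq]

lemma norm_PE {e : Eu (n + 1)} (he : ‖e‖ = 1) (η : Eu (n + 1)) : ‖PE e η‖ = |⟪e, η⟫| := by
  have h1 := (met_euc he).norm_RP η
  rw [innerSL_apply_apply, real_inner_self_eq_norm_sq] at h1
  rw [← abs_of_nonneg (norm_nonneg (PE e η))]
  exact (sq_eq_sq_iff_abs_eq_abs _ _).1 h1

lemma nuv_PE {e w : Eu (n + 1)} (he : ‖e‖ = 1) (hw : ⟪e, w⟫ = 0) {ρ : ℝ} (hρ : 0 < ρ)
    (hw1 : ‖w‖ < Real.pi) : nuv e (PE e (ρ • e + w)) = w := by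
  have h1 : ⟪e, ρ • e + w⟫ = ρ := by
    rw [inner_add_right, inner_smul_right, real_inner_self_eq_norm_sq, he, hw]; ring
  have h2 : ‖PE e (ρ • e + w)‖ = ρ := by rw [norm_PE he, h1, abs_of_pos hρ]
  have h3 : orth e (ρ • e + w) = w := by rw [orth, h1]; abel
  have h4 : (innerSL ℝ : Eu (n + 1) →L[ℝ] _) w w = ‖w‖ ^ 2 := by
    rw [innerSL_apply_apply, real_inner_self_eq_norm_sq]
  have h5 : ⟪e, PE e (ρ • e + w)⟫ = ρ * Real.cos ‖w‖ := by
    rw [PE, (met_euc he).inner_RP, h1, h3, h4, Cs_sq]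
  have h6 : orth e (PE e (ρ • e + w)) = (ρ * Sn (‖w‖ ^ 2)) • w := by
    rw [PE, (met_euc he).orth_RP, h1, h3, h4]
  have hS : 0 < Sn (‖w‖ ^ 2) := Sn_pos (by positivity)
    (pow_lt_pow_left₀ hw1 (norm_nonneg _) two_ne_zero)
  rw [nuv, h5, h2, h6, norm_smul, Real.norm_eq_abs, abs_of_pos (mul_pos hρ hS), smul_smul,
    mul_div_cancel_left₀ _ hρ.ne', Real.arccos_cos (norm_nonneg _) hw1.le]
  by_cases hw0 : w = 0
  · rw [hw0, smul_zero]
  · have hn : ‖w‖ ≠ 0 := norm_ne_zero_iff.2 hw0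
    have h7 : ‖w‖ / (ρ * Sn (‖w‖ ^ 2) * ‖w‖) * (ρ * Sn (‖w‖ ^ 2)) = 1 := by
      field_simp
    rw [h7, one_smul]

/-- every vector off the negative axis is `PE e (ρ e + w)` -/
lemma exists_PE {e : Eu (n + 1)} (he : ‖e‖ = 1) {X : Eu (n + 1)}
    (hneg : ∀ r : ℝ, 0 ≤ r → X ≠ -(r • e)) :
    ∃ (ρ : ℝ) (w : Eu (n + 1)), 0 < ρ ∧ ⟪e, w⟫ = 0 ∧ ‖w‖ < Real.pi ∧ PE e (ρ • e + w) = X := by
  obtain ⟨ρ, w, h1, h2, h3, h4⟩ := (met_euc he).exists_RP hneg
  refine ⟨ρ, w, h1, h2, ?_, ?_⟩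
  · rw [innerSL_apply_apply, real_inner_self_eq_norm_sq] at h3
    exact lt_of_pow_lt_pow_left₀ 2 Real.pi_pos.le h3
  · rw [PE, RP_add _ he h2, h4]

/-! ### the polar chart -/

variable {p : Euc N} (F : Fr G p) (c : ℝ)

/-- polar coordinates `r (cos s e + sin s u) ↦ Exp p (c s u)` -/
def k1 (X : Eu (n + 1)) : Euc N := Exp G p (c • F.B (nuv F.e X))

lemma k1_smul (X : Eu (n + 1)) {r : ℝ} (hr : 0 < r) : k1 F c (r • X) = k1 F c X := by
  rw [k1, k1, nuv_smul _ _ hr]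

lemma cB_mem (w : Eu (n + 1)) : c • F.B w ∈ G.T p := (G.T p).smul_mem _ (F.mem w)

variable (hp : p ∈ S)
include hp

lemma k1_mem (X : Eu (n + 1)) : k1 F c X ∈ S := Exp_mem G hp (cB_mem F c _)

omit hp in
lemma k1_PE {w : Eu (n + 1)} (hw : ⟪F.e, w⟫ = 0) {ρ : ℝ} (hρ : 0 < ρ)
    (hw1 : ‖w‖ < Real.pi) : k1 F c (PE F.e (ρ • F.e + w)) = Exp G p (c • F.B w) := by
  rw [k1, nuv_PE F.ne hw hρ hw1]

omit hp in
/-- `k1 ∘ PE` near a good point -/
lemma k1_PE_eventually {η : Eu (n + 1)} (h0 : 0 < ⟪F.e, η⟫) (h1 : ‖orth F.e η‖ < Real.pi) :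
    (fun η => k1 F c (PE F.e η)) =ᶠ[𝓝 η] fun η => Exp G p (c • F.B (orth F.e η)) := by
  have hc1 : Continuous fun η : Eu (n + 1) => ⟪F.e, η⟫ := by fun_prop
  have hc2 : Continuous fun η : Eu (n + 1) => ‖orth F.e η‖ := by unfold orth; fun_prop
  filter_upwards [hc1.continuousAt.eventually (lt_mem_nhds h0),
    hc2.continuousAt.eventually (gt_mem_nhds h1)] with η' h2 h3
  have h4 := k1_PE F c (inner_orth F.ne η') h2 h3
  rw [decomp] at h4
  exact h4

/-- derivative of `η ↦ Exp p (c B (orth η))` -/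
lemma hasFDerivAt_expB (η : Eu (n + 1)) :
    ContDiffAt ℝ ∞ (fun η => Exp G p (c • F.B (orth F.e η))) η ∧
      ∀ v, fderiv ℝ (fun η => Exp G p (c • F.B (orth F.e η))) η v =
        fderiv ℝ (Exp G p) (c • F.B (orth F.e η)) (c • F.B (orth F.e v)) := by
  have hsm := contDiffAt_Exp' G hp (cB_mem F c (orth F.e η))
  let L : Eu (n + 1) →L[ℝ] Eu (n + 1) :=
    ContinuousLinearMap.id ℝ _ - (innerSL ℝ F.e).smulRight F.e
  have hL : ∀ v, L v = orth F.e v := fun v => by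
    simp [L, orth, ContinuousLinearMap.smulRight_apply]
  let M : Eu (n + 1) →L[ℝ] Euc N := c • (F.B.comp L)
  have hM : ∀ v, M v = c • F.B (orth F.e v) := fun v => by
    rw [← hL]; rfl
  have h1 : (fun η => Exp G p (c • F.B (orth F.e η))) = fun η => Exp G p (M η) := by
    ext1 v; rw [hM]
  rw [h1]
  rw [← hM] at hsm
  refine ⟨hsm.comp η M.contDiff.contDiffAt, fun v => ?_⟩
  have h2 : HasFDerivAt (Exp G p) (fderiv ℝ (Exp G p) (M η)) (M η) :=
    (hsm.differentiableAt (by simp)).hasFDerivAt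
  have h3 := h2.comp η M.hasFDerivAt
  have h4 : (fun η => Exp G p (M η)) = Exp G p ∘ M := rfl
  rw [h4, h3.fderiv]
  change fderiv ℝ (Exp G p) (M η) (M v) = _
  rw [hM, hM]

/-- smoothness of the polar chart off the negative axis -/
theorem contDiffAt_k1 {X : Eu (n + 1)} (hneg : ∀ r : ℝ, 0 ≤ r → X ≠ -(r • F.e)) :
    ContDiffAt ℝ ∞ (k1 F c) X := by
  obtain ⟨ρ, w, h1, h2, h3, rfl⟩ := exists_PE F.ne hneg
  have hin : ⟪F.e, ρ • F.e + w⟫ = ρ := by
    rw [inner_add_right, inner_smul_right, real_inner_self_eq_norm_sq, F.ne, h2]; ring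
  have hor : orth F.e (ρ • F.e + w) = w := by rw [orth, hin]; abel
  have hMet := met_euc F.ne
  refine contDiffAt_of_comp (f := PE F.e) (contDiff_RP' _ _).contDiffAt ?_ rfl ?_
  · intro v hv
    refine hMet.fderiv_RP_inj (η := ρ • F.e + w) (by rw [hin]; exact h1.ne') ?_ hv
    rw [hor, innerSL_apply_apply, real_inner_self_eq_norm_sq]
    exact pow_lt_pow_left₀ h3 (norm_nonneg _) two_ne_zero
  · refine (hasFDerivAt_expB F c hp (ρ • F.e + w)).1.congr_of_eventuallyEq ?_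
    exact k1_PE_eventually F c (by rw [hin]; exact h1) (by rw [hor]; exact h3)

/-- the kernel of the differential of the polar chart is radial -/
theorem ker_k1 (hf : Hf G c) (hc : 0 < c) {X : Eu (n + 1)}
    (hneg : ∀ r : ℝ, 0 ≤ r → X ≠ -(r • F.e)) {a : Eu (n + 1)} (ha : fderiv ℝ (k1 F c) X a = 0) :
    ∃ r : ℝ, a = r • X := by
  have hsm := contDiffAt_k1 F c hp hneg
  obtain ⟨ρ, w, h1, h2, h3, rfl⟩ := exists_PE F.ne hneg
  have hin : ⟪F.e, ρ • F.e + w⟫ = ρ := by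
    rw [inner_add_right, inner_smul_right, real_inner_self_eq_norm_sq, F.ne, h2]; ring
  have hor : orth F.e (ρ • F.e + w) = w := by rw [orth, hin]; abel
  have hMet := met_euc F.ne
  set η := ρ • F.e + w with hη
  -- the derivative of PE is bijective
  have hinj : ∀ v, fderiv ℝ (PE F.e) η v = 0 → v = 0 := by
    intro v hv
    refine hMet.fderiv_RP_inj (η := η) (by rw [hin]; exact h1.ne') ?_ hv
    rw [hor, innerSL_apply_apply, real_inner_self_eq_norm_sq]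
    exact pow_lt_pow_left₀ h3 (norm_nonneg _) two_ne_zero
  have hi : Function.Injective (fderiv ℝ (PE F.e) η : Eu (n + 1) →ₗ[ℝ] Eu (n + 1)) := by
    intro a b hab
    have h1 : fderiv ℝ (PE F.e) η (a - b) = 0 := by rw [map_sub]; exact sub_eq_zero.2 hab
    exact sub_eq_zero.1 (hinj _ h1)
  obtain ⟨v, hv⟩ := (LinearMap.injective_iff_surjective.1 hi) a
  have hv' : fderiv ℝ (PE F.e) η v = a := hv
  have hPd : HasFDerivAt (PE F.e) (fderiv ℝ (PE F.e) η) η :=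
    ((contDiff_RP' F.e _).differentiable (by simp) η).hasFDerivAt
  have hkd : HasFDerivAt (k1 F c) (fderiv ℝ (k1 F c) (PE F.e η)) (PE F.e η) :=
    (hsm.differentiableAt (by simp)).hasFDerivAt
  have hcomp := hkd.comp η hPd
  have hE := hasFDerivAt_expB F c hp η
  have hev := k1_PE_eventually F c (η := η) (by rw [hin]; exact h1) (by rw [hor]; exact h3)
  have h5 : fderiv ℝ (fun η => Exp G p (c • F.B (orth F.e η))) η v = 0 := by
    rw [← hev.fderiv_eq]
    have h6 : (fun η => k1 F c (PE F.e η)) = k1 F c ∘ PE F.e := rfl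
    rw [h6, hcomp.fderiv]
    change fderiv ℝ (k1 F c) (PE F.e η) (fderiv ℝ (PE F.e) η v) = 0
    rw [hv', ha]
  rw [hE.2, hor] at h5
  have h6 : c • F.B (orth F.e v) = 0 := by
    refine hf.noconj p hp _ (cB_mem F c w) ?_ _ (cB_mem F c _) h5
    rw [norm_smul, F.iso w h2, Real.norm_eq_abs, abs_of_pos hc]
    exact mul_lt_mul_of_pos_left h3 hc
  have h7 : F.B (orth F.e v) = 0 := (smul_eq_zero.1 h6).resolve_left hc.ne'
  have h8 : orth F.e v = 0 := by
    have := F.iso _ (inner_orth F.ne v)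
    rw [h7, norm_zero] at this
    exact norm_eq_zero.1 this.symm
  have h9 : v = ⟪F.e, v⟫ • F.e := by
    have := decomp F.e v
    rw [h8, add_zero] at this
    exact this.symm
  -- radial derivative of PE
  have h10 : fderiv ℝ (PE F.e) η F.e = ρ⁻¹ • PE F.e η := by
    have hl : HasDerivAt (fun t : ℝ => η + t • F.e) F.e 0 := by
      simpa using ((hasDerivAt_id (0 : ℝ)).smul_const F.e).const_add η
    have hPd' : HasFDerivAt (PE F.e) (fderiv ℝ (PE F.e) η) (η + (0 : ℝ) • F.e) := by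
      rw [zero_smul, add_zero]; exact hPd
    have h11 := hPd'.comp_hasDerivAt (0 : ℝ) hl
    have h12 : (PE F.e ∘ fun t : ℝ => η + t • F.e)
        = fun t : ℝ => (ρ + t) • (Real.cos ‖w‖ • F.e + Sn (‖w‖ ^ 2) • w) := by
      ext1 t
      have : η + t • F.e = (ρ + t) • F.e + w := by rw [hη, add_smul]; abel
      simp only [Function.comp_apply]
      rw [this, PE_add F.ne h2]
    rw [h12] at h11
    have h13 : HasDerivAt (fun t : ℝ => (ρ + t) • (Real.cos ‖w‖ • F.e + Sn (‖w‖ ^ 2) • w))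
        ((1 : ℝ) • (Real.cos ‖w‖ • F.e + Sn (‖w‖ ^ 2) • w)) 0 :=
      ((hasDerivAt_id (0 : ℝ)).const_add ρ).smul_const _
    rw [h11.unique h13, one_smul, hη, PE_add F.ne h2, smul_smul, inv_mul_cancel₀ h1.ne', one_smul]
  refine ⟨⟪F.e, v⟫ * ρ⁻¹, ?_⟩
  rw [← hv', h9, map_smul, h10, smul_smul, inner_smul_right, real_inner_self_eq_norm_sq, F.ne]
  simp

end Crest.Agent.R208.GH
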