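import Crest.Agent.R208.GH1b

/-!
R208, block GH (helper378), file 1c: the covering `k0 : V \ 0 → S`.
-/

set_option autoImplicit false

open Set Filter Topology Module
open scoped ContDiff RealInnerProductSpace
open Crest.GeometryTopology.Submanifold
open Crest.Agent.R241.DDefs
open Crest.Agent.R241.D2
open Crest.Agent.R241.D3c
open Crest.Agent.R208.JT (Eu)

noncomputable section

namespace Crest.Agent.R208.GH

variable {n N : ℕ} {κ : ℝ} {S : Set (Euc N)} {G : Geo n N κ S} {c : ℝ}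

/-- moving along a geodesic by `± c π` -/
lemma half_pt (hf : Hf G c) {p v : Euc N} (hp : p ∈ S) (hv : v ∈ G.T p) (hv1 : ‖v‖ = 1) (s : ℝ)
    {w : Euc N} (hw : w ∈ G.T (Exp G p (s • v))) (hw1 : ‖w‖ = 1) :
    Exp G (Exp G p (s • v)) ((c * Real.pi) • w) = Exp G p ((s + c * Real.pi) • v) ∧
    Exp G (Exp G p (s • v)) ((c * Real.pi) • w) = Exp G p ((s - c * Real.pi) • v) := by
  have hz : ((p, v) : Euc N × Euc N) ∈ TS G := ⟨hp, hv⟩
  have hzs := fl_mem G hz s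
  have hy : Exp G p (s • v) = (fl G ((p, v), s)).1 := Exp_smul G hp hv s
  have hu1 : ‖(fl G ((p, v), s)).2‖ = 1 := by rw [norm_fl G hz, hv1]
  have key : ∀ t : ℝ, Exp G (fl G ((p, v), s)).1 (t • (fl G ((p, v), s)).2)
      = Exp G p ((s + t) • v) := by
    intro t
    rw [Exp_smul G hzs.1 hzs.2, Exp_smul G hp hv, fl_add' G hz]
  rw [hy] at hw ⊢
  constructor
  · rw [hf.half _ hzs.1 w hw _ hzs.2 hw1 hu1, key]
  · rw [hf.half _ hzs.1 w hw _ ((G.T _).neg_mem hzs.2) hw1 (by rw [norm_neg, hu1]), smul_neg,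
      ← neg_smul, key]
    rfl

/-- the map `x ↦ Exp x (c π u(x))`, `u` the normalised projection of `u0` -/
def tau (G : Geo n N κ S) (c : ℝ) (u0 x : Euc N) : Euc N :=
  Exp G x ((c * Real.pi) • (‖G.P x u0‖⁻¹ • G.P x u0))

lemma contDiffAt_tau (c : ℝ) {x u0 : Euc N} (hx : x ∈ S) (hu0 : u0 ∈ G.T x) (hu1 : ‖u0‖ = 1) :
    ContDiffAt ℝ ∞ (tau G c u0) x := by
  have hP : G.P x u0 = u0 := (P_eq_self G hx).1 hu0
  have h1 : ContDiffAt ℝ ∞ (fun y => G.P y u0) x :=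
    (G.contDiff_P.clm_apply contDiff_const).contDiffAt
  have h0 : G.P x u0 ≠ 0 := by
    rw [hP]; intro h; rw [h, norm_zero] at hu1; exact zero_ne_one hu1
  have h2 : ContDiffAt ℝ ∞ (fun y => ‖G.P y u0‖⁻¹) x := (h1.norm ℝ h0).inv (norm_ne_zero_iff.2 h0)
  have h3 : ContDiffAt ℝ ∞ (fun y => (c * Real.pi) • (‖G.P y u0‖⁻¹ • G.P y u0)) x :=
    (contDiffAt_const (c := c * Real.pi)).smul (h2.smul h1)
  have h4 : ContDiffAt ℝ ∞ (fun q : Euc N × Euc N => Exp G q.1 q.2)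
      (x, (c * Real.pi) • (‖G.P x u0‖⁻¹ • G.P x u0)) := by
    refine contDiffAt_Exp G hx ?_
    rw [hP]
    exact (G.T x).smul_mem _ ((G.T x).smul_mem _ hu0)
  exact ContDiffAt.comp (g := fun q : Euc N × Euc N => Exp G q.1 q.2)
    (f := fun y => (y, (c * Real.pi) • (‖G.P y u0‖⁻¹ • G.P y u0))) x h4 (contDiffAt_id.prodMk h3)

variable {p : Euc N} (F : Fr G p)

open Classical in
/-- the covering map -/
def k0 (c : ℝ) (X : Eu (n + 1)) : Euc N :=
  if ∃ r : ℝ, 0 ≤ r ∧ X = -(r • F.e) then Exp G p ((c * Real.pi) • F.v0) else k1 F c X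

lemma k0_neg {r : ℝ} (hr : 0 ≤ r) : k0 F c (-(r • F.e)) = Exp G p ((c * Real.pi) • F.v0) := by
  rw [k0, if_pos ⟨r, hr, rfl⟩]

lemma k0_of {X : Eu (n + 1)} (hneg : ∀ r : ℝ, 0 ≤ r → X ≠ -(r • F.e)) : k0 F c X = k1 F c X := by
  rw [k0, if_neg]
  rintro ⟨r, h1, h2⟩
  exact hneg r h1 h2

lemma ne_of_pos {X : Eu (n + 1)} (h : 0 < ⟪F.e, X⟫) : ∀ r : ℝ, 0 ≤ r → X ≠ -(r • F.e) := by
  intro r hr heq
  rw [heq, inner_neg_right, inner_smul_right, real_inner_self_eq_norm_sq, F.ne] at h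
  linarith

lemma k0_smul (X : Eu (n + 1)) {r : ℝ} (hr : 0 < r) : k0 F c (r • X) = k0 F c X := by
  by_cases h : ∃ s : ℝ, 0 ≤ s ∧ X = -(s • F.e)
  · obtain ⟨s, hs, rfl⟩ := h
    rw [smul_neg, smul_smul, k0_neg F (by positivity), k0_neg F hs]
  · push Not at h
    rw [k0_of F h, k0_of F, k1_smul F c X hr]
    intro s hs heq
    refine h (r⁻¹ * s) (by positivity) ?_
    have := congrArg (fun z => r⁻¹ • z) heq
    simp only [smul_smul, inv_mul_cancel₀ hr.ne', one_smul, smul_neg] at this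
    exact this

variable (hp : p ∈ S)
include hp

lemma k0_mem (X : Eu (n + 1)) : k0 F c X ∈ S := by
  by_cases h : ∃ s : ℝ, 0 ≤ s ∧ X = -(s • F.e)
  · obtain ⟨s, hs, rfl⟩ := h
    rw [k0_neg F hs]
    exact Exp_mem G hp ((G.T p).smul_mem _ F.v0_mem)
  · push Not at h
    rw [k0_of F h]
    exact k1_mem F c hp X

/-- **polar form** of `k0` on the unit sphere -/
theorem k0_polar (hf : Hf G c) {s : ℝ} (h0 : 0 ≤ s) (h1 : s ≤ Real.pi) {u : Eu (n + 1)}
    (hu : ⟪F.e, u⟫ = 0) (hu1 : ‖u‖ = 1) :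
    k0 F c (Real.cos s • F.e + Real.sin s • u) = Exp G p ((c * s) • F.B u) := by
  have hBu : ‖F.B u‖ = 1 := by rw [F.iso u hu, hu1]
  rcases h1.eq_or_lt with h2 | h2
  · rw [h2, Real.cos_pi, Real.sin_pi, zero_smul, add_zero, neg_one_smul]
    have h3 := k0_neg F (c := c) (r := 1) zero_le_one
    rw [one_smul] at h3
    rw [h3]
    exact hf.half p hp _ F.v0_mem _ (F.mem u) F.v0_norm hBu
  · have hsu : ‖s • u‖ = s := by rw [norm_smul, hu1, mul_one, Real.norm_eq_abs, abs_of_nonneg h0]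
    have hesu : ⟪F.e, s • u⟫ = 0 := by rw [inner_smul_right, hu, mul_zero]
    have h3 : PE F.e ((1 : ℝ) • F.e + s • u) = Real.cos s • F.e + Real.sin s • u := by
      rw [PE_add F.ne hesu, hsu, one_smul, smul_smul, mul_comm, Sn_sq]
    rw [← h3, k0_of F, k1_PE F c hesu one_pos (by rw [hsu]; exact h2), map_smul, smul_smul]
    intro r hr heq
    rw [h3] at heq
    have h4 := congrArg (fun z => ⟪F.e, z⟫) heq
    have h5 := congrArg (fun z => ‖z‖ ^ 2) heq
    have hee : ⟪F.e, F.e⟫ = 1 := by rw [real_inner_self_eq_norm_sq, F.ne]; norm_num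
    simp only [inner_add_right, inner_smul_right, hu, inner_neg_right, hee] at h4
    have h6 : ‖Real.cos s • F.e + Real.sin s • u‖ ^ 2 = 1 := by
      rw [norm_add_sq_real, norm_smul, norm_smul, F.ne, hu1, inner_smul_left, inner_smul_right, hu]
      simp only [mul_one, mul_zero, add_zero, Real.norm_eq_abs, sq_abs]
      exact Real.cos_sq_add_sin_sq s
    have h7 : ‖-(r • F.e)‖ ^ 2 = r ^ 2 := by
      rw [norm_neg, norm_smul, F.ne, mul_one, Real.norm_eq_abs, sq_abs]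
    rw [h6, h7] at h5
    have h8 : r = 1 := by nlinarith
    rw [h8] at h4
    have h9 : Real.cos s = -1 := by linarith
    have h10 : Real.cos Real.pi < Real.cos s :=
      Real.cos_lt_cos_of_nonneg_of_le_pi h0 le_rfl h2
    rw [Real.cos_pi] at h10
    linarith

omit hp in
/-- every unit vector is `cos s e + sin s u` -/
lemma exists_polar {X : Eu (n + 1)} (hX : ‖X‖ = 1) : ∃ (s : ℝ) (u : Eu (n + 1)),
    0 ≤ s ∧ s ≤ Real.pi ∧ ⟪F.e, u⟫ = 0 ∧ ‖u‖ = 1 ∧ X = Real.cos s • F.e + Real.sin s • u := by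
  -- a unit vector orthogonal to `e`
  obtain ⟨u1, hu1, hu1n⟩ : ∃ u : Eu (n + 1), ⟪F.e, u⟫ = 0 ∧ ‖u‖ = 1 := by
    obtain ⟨w, hw, hBw⟩ := F.surj F.v0 F.v0_mem
    exact ⟨w, hw, by rw [← F.iso w hw, hBw, F.v0_norm]⟩
  have habs : |⟪F.e, X⟫| ≤ 1 := by
    have := abs_real_inner_le_norm F.e X
    rwa [F.ne, hX, mul_one] at this
  obtain ⟨h1, h2⟩ := abs_le.1 habs
  have hcos : Real.cos (Real.arccos ⟪F.e, X⟫) = ⟪F.e, X⟫ := Real.cos_arccos h1 h2
  have hsq : ‖orth F.e X‖ ^ 2 = 1 - ⟪F.e, X⟫ ^ 2 := by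
    have h3 : X = ⟪F.e, X⟫ • F.e + orth F.e X := (decomp _ _).symm
    have h4 : ‖X‖ ^ 2 = ⟪F.e, X⟫ ^ 2 + ‖orth F.e X‖ ^ 2 := by
      conv_lhs => rw [h3]
      rw [norm_add_sq_real, norm_smul, F.ne, inner_smul_left, inner_orth F.ne]
      simp
    rw [hX] at h4; linarith
  have hsin : Real.sin (Real.arccos ⟪F.e, X⟫) = ‖orth F.e X‖ := by
    rw [Real.sin_arccos, ← hsq, Real.sqrt_sq (norm_nonneg _)]
  by_cases h0 : orth F.e X = 0
  · refine ⟨Real.arccos ⟪F.e, X⟫, u1, Real.arccos_nonneg _, Real.arccos_le_pi _, hu1, hu1n, ?_⟩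
    rw [hcos, hsin, h0, norm_zero, zero_smul, add_zero]
    have := decomp F.e X
    rw [h0, add_zero] at this
    exact this.symm
  · have hn0 : ‖orth F.e X‖ ≠ 0 := norm_ne_zero_iff.2 h0
    refine ⟨Real.arccos ⟪F.e, X⟫, ‖orth F.e X‖⁻¹ • orth F.e X, Real.arccos_nonneg _,
      Real.arccos_le_pi _, ?_, ?_, ?_⟩
    · rw [inner_smul_right, inner_orth F.ne, mul_zero]
    · rw [norm_smul, norm_inv, norm_norm, inv_mul_cancel₀ hn0]
    · rw [hcos, hsin, smul_smul, mul_inv_cancel₀ hn0, one_smul, decomp]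

/-- **half period**: `Exp (k0 X) (c π u) = k0 (-X)` -/
theorem k0_half (hf : Hf G c) {X : Eu (n + 1)} (hX : X ≠ 0) {u : Euc N}
    (hu : u ∈ G.T (k0 F c X)) (hu1 : ‖u‖ = 1) :
    Exp G (k0 F c X) ((c * Real.pi) • u) = k0 F c (-X) := by
  have hXn : 0 < ‖X‖ := norm_pos_iff.2 hX
  obtain ⟨s, w, h0, h1, hw, hw1, hXeq⟩ := exists_polar F
    (X := ‖X‖⁻¹ • X) (by rw [norm_smul, norm_inv, norm_norm, inv_mul_cancel₀ hXn.ne'])
  have h2 : k0 F c X = Exp G p ((c * s) • F.B w) := by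
    rw [← k0_polar F hp hf h0 h1 hw hw1, ← hXeq, k0_smul F X (inv_pos.2 hXn)]
  have h3 : -(‖X‖⁻¹ • X) = Real.cos (Real.pi - s) • F.e + Real.sin (Real.pi - s) • (-w) := by
    rw [hXeq, Real.cos_pi_sub, Real.sin_pi_sub, neg_smul, smul_neg, neg_add]
  have h4 : k0 F c (-X) = Exp G p ((c * (Real.pi - s)) • F.B (-w)) := by
    rw [← k0_polar F hp hf (by linarith) (by linarith) (by rw [inner_neg_right, hw, neg_zero])
      (by rw [norm_neg, hw1]), ← h3, ← smul_neg, k0_smul F _ (inv_pos.2 hXn)]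
  have hBw : ‖F.B w‖ = 1 := by rw [F.iso w hw, hw1]
  rw [h2] at hu ⊢
  rw [(half_pt hf hp (F.mem w) hBw (c * s) hu hu1).2, h4, map_neg, smul_neg, ← neg_smul]
  congr 2
  ring

/-- local form of the half period -/
lemma k0_half_eventually (hf : Hf G c) {X : Eu (n + 1)} (hX : X ≠ 0)
    (hcont : ContinuousAt (k0 F c) X) {u : Euc N} (hu : u ∈ G.T (k0 F c X)) (hu1 : ‖u‖ = 1) :
    (fun Y => k0 F c (-Y)) =ᶠ[𝓝 X] fun Y => tau G c u (k0 F c Y) := by
  have hc : ContinuousAt (fun Y => G.P (k0 F c Y) u) X :=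
    ((G.contDiff_P.continuous.continuousAt (x := k0 F c X)).comp hcont).clm_apply
      continuousAt_const
  have h0 : G.P (k0 F c X) u ≠ 0 := by
    rw [(P_eq_self G (k0_mem F hp X)).1 hu]
    intro h; rw [h, norm_zero] at hu1; exact zero_ne_one hu1
  filter_upwards [hc.eventually_ne h0, isOpen_ne.mem_nhds hX] with Y h1 h2
  have h3 : 0 < ‖G.P (k0 F c Y) u‖ := norm_pos_iff.2 h1
  rw [tau, k0_half F hp hf h2]
  · exact (G.T _).smul_mem _ (P_mem G (k0_mem F hp Y))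
  · rw [norm_smul, norm_inv, norm_norm, inv_mul_cancel₀ h3.ne']

/-- off the negative axis `k0` is `k1` locally -/
lemma k0_eventually {X : Eu (n + 1)} (hneg : ∀ r : ℝ, 0 ≤ r → X ≠ -(r • F.e)) :
    k0 F c =ᶠ[𝓝 X] k1 F c := by
  have hcl : IsClosed {X : Eu (n + 1) | ∃ r : ℝ, 0 ≤ r ∧ X = -(r • F.e)} := by
    have h1 : {X : Eu (n + 1) | ∃ r : ℝ, 0 ≤ r ∧ X = -(r • F.e)}
        = {X | X = ⟪F.e, X⟫ • F.e ∧ ⟪F.e, X⟫ ≤ 0} := by
      have hee : ⟪F.e, F.e⟫ = 1 := by rw [real_inner_self_eq_norm_sq, F.ne]; norm_num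
      ext Y
      constructor
      · rintro ⟨r, hr, rfl⟩
        constructor
        · rw [inner_neg_right, inner_smul_right, hee, mul_one, neg_smul]
        · rw [inner_neg_right, inner_smul_right, hee, mul_one]; linarith
      · rintro ⟨h2, h3⟩
        refine ⟨-⟪F.e, Y⟫, by linarith, ?_⟩
        rw [neg_smul, neg_neg]; exact h2
    rw [h1]
    have hc1 : Continuous fun X : Eu (n + 1) => ⟪F.e, X⟫ := by fun_prop
    have hc2 : Continuous fun X : Eu (n + 1) => ⟪F.e, X⟫ • F.e := by fun_prop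
    exact (isClosed_eq continuous_id hc2).inter (isClosed_le hc1 continuous_const)
  have hop : {X : Eu (n + 1) | ∃ r : ℝ, 0 ≤ r ∧ X = -(r • F.e)}ᶜ ∈ 𝓝 X := by
    refine hcl.isOpen_compl.mem_nhds ?_
    rintro ⟨r, h1, h2⟩
    exact hneg r h1 h2
  filter_upwards [hop] with Y hY
  refine k0_of F ?_
  intro r hr heq
  exact hY ⟨r, hr, heq⟩

/-- **smoothness** -/
theorem contDiffAt_k0 (hf : Hf G c) {X : Eu (n + 1)} (hX : X ≠ 0) :
    ContDiffAt ℝ ∞ (k0 F c) X := by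
  by_cases h : ∃ s : ℝ, 0 ≤ s ∧ X = -(s • F.e)
  · obtain ⟨s, hs, rfl⟩ := h
    have hs0 : 0 < s := by
      rcases hs.eq_or_lt with h1 | h1
      · exact absurd (by rw [← h1]; simp) hX
      · exact h1
    set Y : Eu (n + 1) := s • F.e with hY
    have hY0 : Y ≠ 0 := by
      intro h; apply hX; rw [h, neg_zero]
    have hee : ⟪F.e, F.e⟫ = 1 := by rw [real_inner_self_eq_norm_sq, F.ne]; norm_num
    have hYpos : 0 < ⟪F.e, Y⟫ := by rw [hY, inner_smul_right, hee, mul_one]; exact hs0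
    have h1 : ContDiffAt ℝ ∞ (k0 F c) Y :=
      (contDiffAt_k1 F c hp (ne_of_pos F hYpos)).congr_of_eventuallyEq
        (k0_eventually F hp (ne_of_pos F hYpos))
    obtain ⟨u, hu, hu1⟩ := I.exists_unit hf.bl (k0_mem F hp (c := c) Y)
    have h2 := k0_half_eventually F hp hf hY0 h1.continuousAt hu hu1
    have h3 : ContDiffAt ℝ ∞ (fun Z => tau G c u (k0 F c Z)) Y :=
      (contDiffAt_tau c (k0_mem F hp Y) hu hu1).comp Y h1
    have h4 : ContDiffAt ℝ ∞ (fun Z => k0 F c (-Z)) Y := h3.congr_of_eventuallyEq h2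
    have h5 : k0 F c = fun Z => (fun W => k0 F c (-W)) (-Z) := by ext1 Z; simp
    rw [h5]
    have h6 : ContDiffAt ℝ ∞ (fun W => k0 F c (-W)) (-(-Y)) := by rw [neg_neg]; exact h4
    exact h6.comp (-Y) contDiff_neg.contDiffAt
  · push Not at h
    exact (contDiffAt_k1 F c hp h).congr_of_eventuallyEq (k0_eventually F hp h)

/-- **the kernel of the differential is radial** -/
theorem ker_k0 (hf : Hf G c) (hc : 0 < c) {X : Eu (n + 1)} (hX : X ≠ 0) {a : Eu (n + 1)}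
    (ha : fderiv ℝ (k0 F c) X a = 0) : ∃ r : ℝ, a = r • X := by
  by_cases h : ∃ s : ℝ, 0 ≤ s ∧ X = -(s • F.e)
  · have hXs := contDiffAt_k0 F hp hf hX
    obtain ⟨s, hs, hXe⟩ := h
    have hs0 : 0 < s := by
      rcases hs.eq_or_lt with h1 | h1
      · exact absurd (by rw [hXe, ← h1]; simp) hX
      · exact h1
    have hee : ⟪F.e, F.e⟫ = 1 := by rw [real_inner_self_eq_norm_sq, F.ne]; norm_num
    have hpos : 0 < ⟪F.e, -X⟫ := by
      rw [hXe, neg_neg, inner_smul_right, hee, mul_one]; exact hs0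
    obtain ⟨u, hu, hu1⟩ := I.exists_unit hf.bl (k0_mem F hp (c := c) X)
    have h2 := k0_half_eventually F hp hf hX hXs.continuousAt hu hu1
    have htau := contDiffAt_tau c (k0_mem F hp (c := c) X) hu hu1
    have h3 : HasFDerivAt (fun Z => tau G c u (k0 F c Z))
        ((fderiv ℝ (tau G c u) (k0 F c X)).comp (fderiv ℝ (k0 F c) X)) X :=
      (htau.differentiableAt (by simp)).hasFDerivAt.comp X
        (hXs.differentiableAt (by simp)).hasFDerivAt
    have hmX : -X ≠ 0 := neg_ne_zero.2 hX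
    have hms := contDiffAt_k0 F hp hf hmX
    have h4 : HasFDerivAt (fun Z => k0 F c (-Z))
        ((fderiv ℝ (k0 F c) (-X)).comp (-ContinuousLinearMap.id ℝ (Eu (n + 1)))) X :=
      (hms.differentiableAt (by simp)).hasFDerivAt.comp X (hasFDerivAt_id X).neg
    have h5 := h4.unique (h3.congr_of_eventuallyEq h2)
    have h6 : fderiv ℝ (k0 F c) (-X) (-a) = 0 := by
      have h7 := congrArg (fun L => L a) h5
      change fderiv ℝ (k0 F c) (-X) (-a) = fderiv ℝ (tau G c u) (k0 F c X)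
        (fderiv ℝ (k0 F c) X a) at h7
      rw [h7, ha, map_zero]
    rw [(k0_eventually F hp (ne_of_pos F hpos)).fderiv_eq] at h6
    obtain ⟨r, hr⟩ := ker_k1 F c hp hf hc (ne_of_pos F hpos) h6
    refine ⟨r, ?_⟩
    rw [smul_neg] at hr
    exact neg_injective hr
  · push Not at h
    rw [(k0_eventually F hp h).fderiv_eq] at ha
    exact ker_k1 F c hp hf hc h ha

/-- the differential kills the radial direction -/
lemma fderiv_k0_self (hf : Hf G c) {X : Eu (n + 1)} (hX : X ≠ 0) :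
    fderiv ℝ (k0 F c) X X = 0 := by
  have hd := ((contDiffAt_k0 F hp hf hX).differentiableAt (by simp)).hasFDerivAt
  have hl : HasDerivAt (fun t : ℝ => X + t • X) X 0 := by
    simpa using ((hasDerivAt_id (0 : ℝ)).smul_const X).const_add X
  have hd' : HasFDerivAt (k0 F c) (fderiv ℝ (k0 F c) X) (X + (0 : ℝ) • X) := by
    rw [zero_smul, add_zero]; exact hd
  have h1 := hd'.comp_hasDerivAt (0 : ℝ) hl
  have h2 : (k0 F c ∘ fun t : ℝ => X + t • X) =ᶠ[𝓝 0] fun _ => k0 F c X := by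
    filter_upwards [lt_mem_nhds (show (-1 : ℝ) < 0 by norm_num)] with t ht
    have : X + t • X = (1 + t) • X := by rw [add_smul, one_smul]
    simp only [Function.comp_apply]
    rw [this, k0_smul F X (by linarith)]
  exact h1.unique ((hasDerivAt_const (0 : ℝ) (k0 F c X)).congr_of_eventuallyEq h2)

/-- the differential has values in the tangent space -/
lemma fderiv_k0_mem (hf : Hf G c) {X : Eu (n + 1)} (hX : X ≠ 0) (a : Eu (n + 1)) :
    fderiv ℝ (k0 F c) X a ∈ G.T (k0 F c X) := by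
  have hd := ((contDiffAt_k0 F hp hf hX).differentiableAt (by simp)).hasFDerivAt
  have hl : HasDerivAt (fun t : ℝ => X + t • a) a 0 := by
    simpa using ((hasDerivAt_id (0 : ℝ)).smul_const a).const_add X
  have hd' : HasFDerivAt (k0 F c) (fderiv ℝ (k0 F c) X) (X + (0 : ℝ) • a) := by
    rw [zero_smul, add_zero]; exact hd
  have h1 := hd'.comp_hasDerivAt (0 : ℝ) hl
  have h2 := G.deriv_mem (k0 F c ∘ fun t : ℝ => X + t • a) _ 0
    (Eventually.of_forall fun t => k0_mem F hp _) h1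
  simpa using h2

/-- the differential is onto the tangent space -/
lemma exists_fderiv_k0 (hf : Hf G c) (hc : 0 < c) {X : Eu (n + 1)} (hX : X ≠ 0) {v : Euc N}
    (hv : v ∈ G.T (k0 F c X)) : ∃ w : Eu (n + 1), ⟪X, w⟫ = 0 ∧ fderiv ℝ (k0 F c) X w = v := by
  have hXn : ‖X‖ ^ 2 ≠ 0 := by
    have := norm_pos_iff.2 hX; positivity
  let L : (ℝ ∙ X)ᗮ →ₗ[ℝ] G.T (k0 F c X) :=
    LinearMap.codRestrict (G.T (k0 F c X))
      ((fderiv ℝ (k0 F c) X).toLinearMap.comp (ℝ ∙ X)ᗮ.subtype)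
      (fun w => fderiv_k0_mem F hp hf hX w)
  have hL : Function.Injective L := by
    rw [← LinearMap.ker_eq_bot, LinearMap.ker_eq_bot']
    intro w hw
    have h1 : fderiv ℝ (k0 F c) X (w : Eu (n + 1)) = 0 := congrArg Subtype.val hw
    obtain ⟨r, hr⟩ := ker_k0 F hp hf hc hX h1
    have h2 : ⟪X, (w : Eu (n + 1))⟫ = 0 := Submodule.mem_orthogonal_singleton_iff_inner_right.1 w.2
    rw [hr, inner_smul_right, real_inner_self_eq_norm_sq] at h2
    have h3 : r = 0 := (mul_eq_zero.1 h2).resolve_right hXn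
    rw [h3, zero_smul] at hr
    exact Subtype.ext hr
  have hdim : finrank ℝ (ℝ ∙ X)ᗮ = finrank ℝ (G.T (k0 F c X)) := by
    rw [G.finrank_T _ (k0_mem F hp X)]
    have h1 := Submodule.finrank_add_finrank_orthogonal (K := (ℝ ∙ X : Submodule ℝ (Eu (n + 1))))
    rw [finrank_span_singleton hX, finrank_euclideanSpace_fin] at h1
    omega
  obtain ⟨w, hw⟩ := (LinearMap.injective_iff_surjective_of_finrank_eq_finrank hdim).1 hL ⟨v, hv⟩
  exact ⟨w, Submodule.mem_orthogonal_singleton_iff_inner_right.1 w.2, congrArg Subtype.val hw⟩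

end Crest.Agent.R208.GH
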