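import Crest.Agent.R208.GH1c

/-!
R208, block GH (helper378), file 1d: the fibres of `k0`.
-/

set_option autoImplicit false

open Set Filter Topology Module
open scoped ContDiff RealInnerProductSpace
open Crest.GeometryTopology.Submanifold
open Crest.Agent.R241.DDefs
open Crest.Agent.R241.D2
open Crest.Agent.R241.D3c
open Crest.Agent.R208.JT (Eu)

noncomputable section

namespace Crest.Agent.R208.GH

variable {n N : ℕ} {κ : ℝ} {S : Set (Euc N)} {G : Geo n N κ S} {c : ℝ}

/-- two geodesics of length `≤ π` with the same end point -/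
lemma same_end (hf : Hf G c) {p : Euc N} (hp : p ∈ S) {v v' : Euc N} (hv : v ∈ G.T p)
    (hv' : v' ∈ G.T p) (h1 : ‖v‖ = 1) (h1' : ‖v'‖ = 1) {a a' : ℝ} (ha : 0 ≤ a) (ha' : 0 ≤ a')
    (haπ : a ≤ Real.pi) (haπ' : a' ≤ Real.pi) (heq : Exp G p (a • v) = Exp G p (a' • v')) :
    a = a' ∧ (a < Real.pi → a • v = a' • v') := by
  have hn : ‖a • v‖ = a := by rw [norm_smul, h1, mul_one, Real.norm_eq_abs, abs_of_nonneg ha]
  have hn' : ‖a' • v'‖ = a' := by
    rw [norm_smul, h1', mul_one, Real.norm_eq_abs, abs_of_nonneg ha']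
  have hd := hf.bl.dist_Exp hp ((G.T p).smul_mem a hv) (by rw [hn]; exact haπ)
  have hd' := hf.bl.dist_Exp hp ((G.T p).smul_mem a' hv') (by rw [hn']; exact haπ')
  rw [heq, hd', hn, hn'] at hd
  refine ⟨hd.symm, fun hlt => ?_⟩
  exact hf.bl.Exp_inj hp ((G.T p).smul_mem a hv) ((G.T p).smul_mem a' hv') (by rw [hn]; exact hlt)
    (by rw [hn']; exact haπ') heq

variable {p : Euc N} (F : Fr G p)

/-- **fibres of `k0`** -/
theorem k0_fibre (hp : p ∈ S) (hf : Hf G c) {X Y : Eu (n + 1)} (hX : ‖X‖ = 1) (hY : ‖Y‖ = 1)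
    (heq : k0 F c X = k0 F c Y) : Y = X ∨ (c = 2 ∧ Y = -X) := by
  have hπ := Real.pi_pos
  rcases hf.cases with hc | ⟨hc, hn2, hlink⟩
  · left
    obtain ⟨s, u, h0, h1, hu, hu1, rfl⟩ := exists_polar F hX
    obtain ⟨s', u', h0', h1', hu', hu1', rfl⟩ := exists_polar F hY
    rw [k0_polar F hp hf h0 h1 hu hu1, k0_polar F hp hf h0' h1' hu' hu1', hc, one_mul,
      one_mul] at heq
    have hB : ‖F.B u‖ = 1 := by rw [F.iso u hu, hu1]
    have hB' : ‖F.B u'‖ = 1 := by rw [F.iso u' hu', hu1']
    obtain ⟨h2, h3⟩ := same_end hf hp (F.mem u) (F.mem u') hB hB' h0 h0' h1 h1' heq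
    rw [← h2]
    rcases h1.eq_or_lt with h4 | h4
    · rw [h4, Real.sin_pi, zero_smul, zero_smul]
    · rcases h0.eq_or_lt with h5 | h5
      · rw [← h5, Real.sin_zero, zero_smul, zero_smul]
      · have h6 := h3 h4
        rw [← h2] at h6
        have h7 : F.B u = F.B u' := smul_right_injective _ h5.ne' h6
        have h8 : ‖F.B (u - u')‖ = ‖u - u'‖ := F.iso _ (by rw [inner_sub_right, hu, hu', sub_zero])
        rw [map_sub, h7, sub_self, norm_zero] at h8
        have h9 : u = u' := sub_eq_zero.1 (norm_eq_zero.1 h8.symm)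
        rw [h9]
  · -- projective type: first reduce to the upper half sphere
    have hneg : ∀ Z : Eu (n + 1), Z ≠ 0 → k0 F c (-Z) = k0 F c Z := by
      intro Z hZ
      obtain ⟨w, hw, hw1⟩ := I.exists_unit hf.bl (k0_mem F hp (c := c) Z)
      rw [← k0_half F hp hf hZ hw hw1, hc]
      have h2 := Exp_per hf.per (k0_mem F hp (c := c) Z) hw hw1 0
      rw [add_zero, zero_smul, Exp_zero G (k0_mem F hp (c := c) Z), hc] at h2
      exact h2
    have hupper : ∀ Z : Eu (n + 1), ‖Z‖ = 1 → ∃ W : Eu (n + 1), (W = Z ∨ W = -Z) ∧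
        ∃ (s : ℝ) (u : Eu (n + 1)), 0 ≤ s ∧ s ≤ Real.pi / 2 ∧ ⟪F.e, u⟫ = 0 ∧ ‖u‖ = 1 ∧
          W = Real.cos s • F.e + Real.sin s • u ∧ k0 F c Z = Exp G p ((2 * s) • F.B u) := by
      intro Z hZ
      have hZ0 : Z ≠ 0 := by
        intro h; rw [h, norm_zero] at hZ; exact zero_ne_one hZ
      obtain ⟨s, u, h0, h1, hu, hu1, hZe⟩ := exists_polar F hZ
      rcases le_total s (Real.pi / 2) with h2 | h2
      · refine ⟨Z, Or.inl rfl, s, u, h0, h2, hu, hu1, hZe, ?_⟩
        conv_lhs => rw [hZe]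
        rw [k0_polar F hp hf h0 h1 hu hu1, hc]
      · have hZe' : -Z = Real.cos (Real.pi - s) • F.e + Real.sin (Real.pi - s) • (-u) := by
          rw [hZe, Real.cos_pi_sub, Real.sin_pi_sub, neg_smul, smul_neg, neg_add]
        refine ⟨-Z, Or.inr rfl, Real.pi - s, -u, by linarith, by linarith,
          by rw [inner_neg_right, hu, neg_zero], by rw [norm_neg, hu1], hZe', ?_⟩
        rw [← hneg Z hZ0]
        conv_lhs => rw [hZe']
        rw [k0_polar F hp hf (by linarith) (by linarith) (by rw [inner_neg_right, hu, neg_zero])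
          (by rw [norm_neg, hu1]), hc]
    obtain ⟨W, hW, s, u, h0, h1, hu, hu1, hWe, hk⟩ := hupper X hX
    obtain ⟨W', hW', s', u', h0', h1', hu', hu1', hWe', hk'⟩ := hupper Y hY
    rw [hk, hk'] at heq
    have hB : ‖F.B u‖ = 1 := by rw [F.iso u hu, hu1]
    have hB' : ‖F.B u'‖ = 1 := by rw [F.iso u' hu', hu1']
    obtain ⟨h2, h3⟩ := same_end hf hp (F.mem u) (F.mem u') hB hB' (a := 2 * s) (a' := 2 * s')
      (by linarith) (by linarith) (by linarith) (by linarith) heq
    have hss : s = s' := by linarith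
    have hBinj : ∀ z z' : Eu (n + 1), ⟪F.e, z⟫ = 0 → ⟪F.e, z'⟫ = 0 → F.B z = F.B z' → z = z' := by
      intro z z' hz hz' h7
      have h8 : ‖F.B (z - z')‖ = ‖z - z'‖ := F.iso _ (by rw [inner_sub_right, hz, hz', sub_zero])
      rw [map_sub, h7, sub_self, norm_zero] at h8
      exact sub_eq_zero.1 (norm_eq_zero.1 h8.symm)
    have key : W' = W ∨ W' = -W := by
      rw [hWe, hWe', ← hss]
      rcases h1.eq_or_lt with h4 | h4
      · have h5 : 2 * s = Real.pi := by linarith
        rw [← hss, h5] at heq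
        rcases hlink p hp _ (F.mem u) _ (F.mem u') hB hB' heq with h6 | h6
        · left
          rw [hBinj u' u hu' hu h6]
        · right
          rw [← map_neg] at h6
          rw [hBinj u' (-u) hu' (by rw [inner_neg_right, hu, neg_zero]) h6, h4,
            Real.cos_pi_div_two]
          simp
      · rcases h0.eq_or_lt with h5 | h5
        · left
          rw [← h5, Real.sin_zero, zero_smul, zero_smul]
        · left
          have h6 := h3 (by linarith)
          rw [← h2] at h6
          have h7 : F.B u = F.B u' := smul_right_injective _ (by linarith : 2 * s ≠ 0) h6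
          rw [hBinj u u' hu hu' h7]
    rcases hW with hW | hW <;> rcases hW' with hW' | hW' <;> rw [hW, hW'] at key
    · rcases key with h | h
      · left; exact h
      · right; exact ⟨hc, h⟩
    · rcases key with h | h
      · right; exact ⟨hc, by rw [← h, neg_neg]⟩
      · left; exact neg_injective h
    · rcases key with h | h
      · right; exact ⟨hc, h⟩
      · left; rw [h, neg_neg]
    · rcases key with h | h
      · left; exact neg_injective h
      · right
        refine ⟨hc, ?_⟩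
        rw [neg_neg] at h
        rw [← h, neg_neg]

/-- `k0 (-X) = k0 X` in the projective case -/
lemma k0_neg_two (hp : p ∈ S) (hf : Hf G c) (hc : c = 2) {Z : Eu (n + 1)} (hZ : Z ≠ 0) :
    k0 F c (-Z) = k0 F c Z := by
  obtain ⟨w, hw, hw1⟩ := I.exists_unit hf.bl (k0_mem F hp (c := c) Z)
  rw [← k0_half F hp hf hZ hw hw1, hc]
  have h2 := Exp_per hf.per (k0_mem F hp (c := c) Z) hw hw1 0
  rw [add_zero, zero_smul, Exp_zero G (k0_mem F hp (c := c) Z), hc] at h2
  exact h2

end Crest.Agent.R208.GH
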