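import Crest.Agent.R208.GH1d

/-!
R208, block GH (helper378), file 2a: lifts of geodesics through the covering `k0`.
-/

set_option autoImplicit false

open Set Filter Topology Module
open scoped ContDiff RealInnerProductSpace
open Crest.GeometryTopology.Submanifold
open Crest.Agent.R241.DDefs
open Crest.Agent.R241.D2
open Crest.Agent.R241.D3c
open Crest.Agent.Lib.ODEFlow
open Crest.Agent.R208.JT (Eu)

noncomputable section

namespace Crest.Agent.R208.GH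

variable {n N : ℕ} {κ : ℝ} {S : Set (Euc N)} {G : Geo n N κ S} {c : ℝ} {p : Euc N} (F : Fr G p)

/-- differential of the covering -/
def Kd (c : ℝ) (X : Eu (n + 1)) : Eu (n + 1) →L[ℝ] Euc N := fderiv ℝ (k0 F c) X

/-- `K* K + X ⊗ X` -/
def SX (c : ℝ) (X : Eu (n + 1)) : Eu (n + 1) →L[ℝ] Eu (n + 1) :=
  (Kd F c X).adjoint ∘L (Kd F c X) + (innerSL ℝ X).smulRight X

/-- left inverse of `Kd` -/
def Lc (c : ℝ) (X : Eu (n + 1)) : Euc N →L[ℝ] Eu (n + 1) :=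
  Ring.inverse (SX F c X) ∘L (Kd F c X).adjoint

lemma SX_apply (X a : Eu (n + 1)) :
    SX F c X a = (Kd F c X).adjoint (Kd F c X a) + ⟪X, a⟫ • X := rfl

lemma Lc_apply (X : Eu (n + 1)) (u : Euc N) :
    Lc F c X u = Ring.inverse (SX F c X) ((Kd F c X).adjoint u) := rfl

lemma inner_SX (X a b : Eu (n + 1)) :
    ⟪SX F c X a, b⟫ = ⟪Kd F c X a, Kd F c X b⟫ + ⟪X, a⟫ * ⟪X, b⟫ := by
  rw [SX_apply, inner_add_left, ContinuousLinearMap.adjoint_inner_left, inner_smul_left]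
  rfl

lemma SX_symm (X a b : Eu (n + 1)) : ⟪SX F c X a, b⟫ = ⟪a, SX F c X b⟫ := by
  have h1 := inner_SX F (c := c) X b a
  have h2 : ⟪SX F c X b, a⟫ = ⟪a, SX F c X b⟫ := real_inner_comm _ _
  have h3 : ⟪Kd F c X b, Kd F c X a⟫ = ⟪Kd F c X a, Kd F c X b⟫ := real_inner_comm _ _
  rw [inner_SX, ← h2, h1, h3]
  ring

variable (hp : p ∈ S) (hf : Hf G c) (hc : 0 < c)
include hp hf

lemma contDiffAt_Kd {X : Eu (n + 1)} (hX : X ≠ 0) : ContDiffAt ℝ ∞ (Kd F c) X :=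
  (contDiffAt_k0 F hp hf hX).fderiv_right (by simp)

lemma Kd_self {X : Eu (n + 1)} (hX : X ≠ 0) : Kd F c X X = 0 := fderiv_k0_self F hp hf hX

lemma Kd_mem {X : Eu (n + 1)} (hX : X ≠ 0) (a : Eu (n + 1)) :
    Kd F c X a ∈ G.T (k0 F c X) := fderiv_k0_mem F hp hf hX a

lemma SX_self {X : Eu (n + 1)} (hX : X ≠ 0) : SX F c X X = ‖X‖ ^ 2 • X := by
  rw [SX_apply, Kd_self F hp hf hX, map_zero, zero_add, real_inner_self_eq_norm_sq]

include hc

lemma Kd_inj {X : Eu (n + 1)} (hX : X ≠ 0) {a : Eu (n + 1)} (h1 : Kd F c X a = 0)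
    (h2 : ⟪X, a⟫ = 0) : a = 0 := by
  obtain ⟨r, hr⟩ := ker_k0 F hp hf hc hX h1
  rw [hr, inner_smul_right, real_inner_self_eq_norm_sq] at h2
  have hXn : ‖X‖ ^ 2 ≠ 0 := by have := norm_pos_iff.2 hX; positivity
  rw [hr, (mul_eq_zero.1 h2).resolve_right hXn, zero_smul]

lemma Kd_inj' {X : Eu (n + 1)} (hX : X ≠ 0) {a b : Eu (n + 1)} (h1 : Kd F c X a = Kd F c X b)
    (h2 : ⟪X, a⟫ = 0) (h3 : ⟪X, b⟫ = 0) : a = b := by
  refine sub_eq_zero.1 (Kd_inj F hp hf hc hX ?_ ?_)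
  · rw [map_sub, h1, sub_self]
  · rw [inner_sub_right, h2, h3, sub_self]

lemma exists_Kd {X : Eu (n + 1)} (hX : X ≠ 0) {v : Euc N} (hv : v ∈ G.T (k0 F c X)) :
    ∃ w : Eu (n + 1), ⟪X, w⟫ = 0 ∧ Kd F c X w = v := exists_fderiv_k0 F hp hf hc hX hv

lemma isUnit_SX {X : Eu (n + 1)} (hX : X ≠ 0) : IsUnit (SX F c X) := by
  have hinj : Function.Injective (SX F c X : Eu (n + 1) →ₗ[ℝ] Eu (n + 1)) := by
    rw [← LinearMap.ker_eq_bot, LinearMap.ker_eq_bot']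
    intro a ha
    have ha' : SX F c X a = 0 := ha
    have h1 := inner_SX F (c := c) X a a
    rw [ha', inner_zero_left, real_inner_self_eq_norm_sq] at h1
    have h2 : ‖Kd F c X a‖ ^ 2 = 0 := by nlinarith [sq_nonneg ‖Kd F c X a‖, mul_self_nonneg ⟪X, a⟫]
    have h3 : ⟪X, a⟫ * ⟪X, a⟫ = 0 := by linarith
    refine Kd_inj F hp hf hc hX ?_ (mul_self_eq_zero.1 h3)
    exact norm_eq_zero.1 (pow_eq_zero_iff two_ne_zero |>.1 h2)
  let e : Eu (n + 1) ≃L[ℝ] Eu (n + 1) :=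
    (LinearEquiv.ofInjectiveEndo (SX F c X : Eu (n + 1) →ₗ[ℝ] Eu (n + 1))
      hinj).toContinuousLinearEquiv
  have he : (e : Eu (n + 1) →L[ℝ] Eu (n + 1)) = SX F c X := by ext v; rfl
  rw [← he]
  exact ⟨ContinuousLinearEquiv.toUnit e, rfl⟩

lemma inv_SX {X : Eu (n + 1)} (hX : X ≠ 0) (a : Eu (n + 1)) :
    Ring.inverse (SX F c X) (SX F c X a) = a := by
  have h := Ring.inverse_mul_cancel _ (isUnit_SX F hp hf hc hX)
  exact congrArg (fun L : Eu (n + 1) →L[ℝ] Eu (n + 1) => L a) h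

lemma SX_inv {X : Eu (n + 1)} (hX : X ≠ 0) (a : Eu (n + 1)) :
    SX F c X (Ring.inverse (SX F c X) a) = a := by
  have h := Ring.mul_inverse_cancel _ (isUnit_SX F hp hf hc hX)
  exact congrArg (fun L : Eu (n + 1) →L[ℝ] Eu (n + 1) => L a) h

lemma inner_Lc {X : Eu (n + 1)} (hX : X ≠ 0) (u : Euc N) : ⟪X, Lc F c X u⟫ = 0 := by
  have hXn : ‖X‖ ^ 2 ≠ 0 := by have := norm_pos_iff.2 hX; positivity
  have h1 : ⟪SX F c X X, Lc F c X u⟫ = 0 := by
    rw [SX_symm, Lc_apply, SX_inv F hp hf hc hX, ContinuousLinearMap.adjoint_inner_right,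
      Kd_self F hp hf hX, inner_zero_left]
  rw [SX_self F hp hf hX, inner_smul_left] at h1
  exact (mul_eq_zero.1 h1).resolve_left (by simpa using hXn)

lemma Lc_Kd {X w : Eu (n + 1)} (hX : X ≠ 0) (hw : ⟪X, w⟫ = 0) : Lc F c X (Kd F c X w) = w := by
  have h1 : (Kd F c X).adjoint (Kd F c X w) = SX F c X w := by
    rw [SX_apply, hw, zero_smul, add_zero]
  rw [Lc_apply, h1, inv_SX F hp hf hc hX]

lemma Kd_Lc {X : Eu (n + 1)} (hX : X ≠ 0) (u : Euc N) :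
    Kd F c X (Lc F c X u) = G.P (k0 F c X) u := by
  have hS := k0_mem F hp (c := c) X
  obtain ⟨w, hw, hwu⟩ := exists_Kd F hp hf hc hX (P_mem G hS (v := u))
  have h1 : u = G.P (k0 F c X) u + (u - G.P (k0 F c X) u) := by abel
  have h2 : Lc F c X (u - G.P (k0 F c X) u) = 0 := by
    have h3 : (Kd F c X).adjoint (u - G.P (k0 F c X) u) = 0 := by
      refine ext_inner_right ℝ fun a => ?_
      rw [ContinuousLinearMap.adjoint_inner_left, inner_zero_left, inner_sub_left,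
        inner_P_left G hS, (P_eq_self G hS).1 (Kd_mem F hp hf hX a), sub_self]
    rw [Lc_apply, h3, map_zero]
  conv_lhs => rw [h1]
  rw [map_add, h2, add_zero, ← hwu, Lc_Kd F hp hf hc hX hw]

lemma contDiffAt_Lc {X : Eu (n + 1)} (hX : X ≠ 0) : ContDiffAt ℝ ∞ (Lc F c) X := by
  have hK := contDiffAt_Kd F hp hf hX
  have hadj : ContDiff ℝ ∞ (fun L : Eu (n + 1) →L[ℝ] Euc N => L.adjoint) :=
    (ContinuousLinearMap.adjoint (𝕜 := ℝ) (E := Eu (n + 1))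
      (F := Euc N)).toContinuousLinearEquiv.contDiff
  have hKa : ContDiffAt ℝ ∞ (fun X => (Kd F c X).adjoint) X := hadj.contDiffAt.comp X hK
  have h1 : ContDiffAt ℝ ∞ (fun X : Eu (n + 1) => (innerSL ℝ X).smulRight X) X := by
    have h2 : ContDiff ℝ ∞ (fun X : Eu (n + 1) => (innerSL ℝ X : Eu (n + 1) →L[ℝ] ℝ)) :=
      (innerSL ℝ).contDiff
    exact (h2.smulRight contDiff_id).contDiffAt
  have hS : ContDiffAt ℝ ∞ (SX F c) X := (hKa.clm_comp hK).add h1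
  obtain ⟨u, hu⟩ := isUnit_SX F hp hf hc hX
  have h3 : ContDiffAt ℝ ∞ (Ring.inverse : (Eu (n + 1) →L[ℝ] Eu (n + 1)) → _) (SX F c X) := by
    rw [← hu]; exact contDiffAt_ringInverse ℝ u
  exact (h3.comp X hS).clm_comp hKa

/-! ### the skew product flow -/

omit hp hf hc in
/-- the vector field `X' = L(X) v` over the geodesic flow -/
def Wf (F : Fr G p) (c : ℝ) (z : Eu (n + 1) × (Euc N × Euc N)) : Eu (n + 1) × (Euc N × Euc N) :=
  (Lc F c z.1 z.2.2, X G z.2)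

omit hp hf hc in
/-- its domain -/
def Uf (n N : ℕ) : Set (Eu (n + 1) × (Euc N × Euc N)) := {z | z.1 ≠ 0}

omit hp hf hc in
lemma isOpen_Uf : IsOpen (Uf n N) := isOpen_ne.preimage continuous_fst

lemma contDiffOn_Wf : ContDiffOn ℝ ∞ (Wf F c) (Uf n N) := by
  intro z hz
  have h1 : ContDiffAt ℝ ∞ (fun z : Eu (n + 1) × (Euc N × Euc N) => Lc F c z.1) z :=
    (contDiffAt_Lc F hp hf hc hz).comp z contDiffAt_fst
  have h2 : ContDiffAt ℝ ∞ (fun z : Eu (n + 1) × (Euc N × Euc N) => z.2.2) z := by fun_prop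
  have h3 : ContDiffAt ℝ ∞ (fun z : Eu (n + 1) × (Euc N × Euc N) => X G z.2) z :=
    ((contDiff_X G).comp contDiff_snd).contDiffAt
  exact ((h1.clm_apply h2).prodMk h3).contDiffWithinAt

lemma hWf1 : ContDiffOn ℝ 1 (Wf F c) (Uf n N) :=
  (contDiffOn_Wf F hp hf hc).of_le (by simp)

omit hp hf hc in
/-- its flow -/
def Ps (F : Fr G p) (c : ℝ) (z : (Eu (n + 1) × (Euc N × Euc N)) × ℝ) :
    Eu (n + 1) × (Euc N × Euc N) := flow (Wf F c) (Uf n N) z

lemma Ps_snd {z : Eu (n + 1) × (Euc N × Euc N)} {t : ℝ}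
    (h : (z, t) ∈ dom (Wf F c) (Uf n N)) : (Ps F c (z, t)).2 = fl G (z.2, t) := by
  have h1 := fl_of_curve G (c := fun s => (Ps F c (z, s)).2) (q := z.2) (l := t)
    (by simp [Ps, flow_zero isOpen_Uf (hWf1 F hp hf hc) (mem_of_mem_dom h)])
    (fun s hs => hda_snd (hasDerivAt_flow isOpen_Uf (hWf1 F hp hf hc) (mem_dom_of_uIcc h hs)))
  exact h1.2.symm

lemma norm_Ps {z : Eu (n + 1) × (Euc N × Euc N)} {t : ℝ} (ht : 0 ≤ t)
    (h : (z, t) ∈ dom (Wf F c) (Uf n N)) : ‖(Ps F c (z, t)).1‖ = ‖z.1‖ := by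
  have hmem : ∀ s ∈ Icc 0 t, (z, s) ∈ dom (Wf F c) (Uf n N) := fun s hs =>
    mem_dom_of_uIcc h (by rwa [uIcc_of_le ht])
  have hder : ∀ s ∈ Icc 0 t, HasDerivAt (fun s => ‖(Ps F c (z, s)).1‖ ^ 2) 0 s := by
    intro s hs
    have h1 := hda_fst (hasDerivAt_flow isOpen_Uf (hWf1 F hp hf hc) (hmem s hs))
    have h2 := h1.norm_sq
    have h3 : (flow (Wf F c) (Uf n N) (z, s)).1 ≠ 0 :=
      flow_mem isOpen_Uf (hWf1 F hp hf hc) (hmem s hs)
    refine h2.congr_deriv ?_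
    change 2 * ⟪(flow (Wf F c) (Uf n N) (z, s)).1,
      Lc F c (flow (Wf F c) (Uf n N) (z, s)).1 _⟫ = 0
    rw [inner_Lc F hp hf hc h3, mul_zero]
  have hconst := constant_of_has_deriv_right_zero
    (fun s hs => (hder s hs).continuousAt.continuousWithinAt)
    (fun s hs => (hder s ⟨hs.1, hs.2.le⟩).hasDerivWithinAt) t ⟨ht, le_rfl⟩
  have h0 : Ps F c (z, 0) = z := flow_zero isOpen_Uf (hWf1 F hp hf hc) (mem_of_mem_dom h)
  rw [h0] at hconst
  exact (sq_eq_sq₀ (norm_nonneg _) (norm_nonneg _)).1 hconst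

/-- completeness for positive times -/
lemma Ps_complete {z : Eu (n + 1) × (Euc N × Euc N)} (hz : z.1 ≠ 0) (hz2 : z.2 ∈ TS G) {t : ℝ}
    (ht : 0 ≤ t) : (z, t) ∈ dom (Wf F c) (Uf n N) := by
  refine mem_dom_of_compact isOpen_Uf (hWf1 F hp hf hc)
    (K := Metric.sphere (0 : Eu (n + 1)) ‖z.1‖ ×ˢ
      (Metric.closedBall (z.2.1) (‖z.2.2‖ * t) ×ˢ Metric.closedBall (0 : Euc N) ‖z.2.2‖))
    ((isCompact_sphere _ _).prod ((isCompact_closedBall _ _).prod (isCompact_closedBall _ _)))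
    ?_ hz ?_ ht
  · rintro y ⟨hy, -⟩
    have : ‖y.1‖ = ‖z.1‖ := by simpa using hy
    intro h0
    rw [h0, norm_zero] at this
    exact hz (norm_eq_zero.1 this.symm)
  · intro s hs hsd
    have hf2 := Ps_snd F hp hf hc hsd
    have hnorm := norm_fl G hz2 s
    refine ⟨?_, ?_⟩
    · have := norm_Ps F hp hf hc hs.1 hsd
      simpa [Ps] using this
    · change (Ps F c (z, s)).2 ∈ _
      rw [hf2]
      constructor
      · have h1 : ∀ r ∈ Icc 0 s, HasDerivWithinAt (fun r => (fl G (z.2, r)).1)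
            ((fl G (z.2, r)).2) (Icc 0 s) r := fun r hr =>
          (hda_fst (hasDerivAt_fl G (complete G hz2 r))).hasDerivWithinAt
        have h2 := (convex_Icc (0 : ℝ) s).norm_image_sub_le_of_norm_hasDerivWithin_le h1
          (C := ‖z.2.2‖) (fun r hr => (norm_fl G hz2 r).le)
          (x := 0) (y := s) ⟨le_rfl, hs.1⟩ ⟨hs.1, le_rfl⟩
        rw [fl_zero] at h2
        rw [Metric.mem_closedBall, dist_eq_norm]
        refine h2.trans ?_
        rw [sub_zero, Real.norm_eq_abs, abs_of_nonneg hs.1]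
        exact mul_le_mul_of_nonneg_left hs.2.le (norm_nonneg _)
      · rw [Metric.mem_closedBall, dist_zero_right]
        exact hnorm.le

/-- the lift stays above the geodesic -/
lemma k0_Ps {z : Eu (n + 1) × (Euc N × Euc N)} (hz : z.1 ≠ 0) (hz2 : z.2 ∈ TS G)
    (hk : k0 F c z.1 = z.2.1) {t : ℝ} (ht : 0 ≤ t) :
    k0 F c (Ps F c (z, t)).1 = (fl G (z.2, t)).1 := by
  -- auxiliary vector field on `R^N × (R^N × R^N)`
  let A : Euc N × (Euc N × Euc N) → Euc N × (Euc N × Euc N) := fun y => (G.P y.1 y.2.2, X G y.2)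
  have hA : ContDiff ℝ ∞ A := by
    have h1 : ContDiff ℝ ∞ (fun y : Euc N × (Euc N × Euc N) => G.P y.1) :=
      G.contDiff_P.comp contDiff_fst
    have h2 : ContDiff ℝ ∞ (fun y : Euc N × (Euc N × Euc N) => y.2.2) := by fun_prop
    exact (h1.clm_apply h2).prodMk ((contDiff_X G).comp contDiff_snd)
  have hA1 : ContDiffOn ℝ 1 A univ := (hA.of_le (by simp)).contDiffOn
  have hd := Ps_complete F hp hf hc hz hz2 ht
  have hmem : ∀ s ∈ uIcc 0 t, (z, s) ∈ dom (Wf F c) (Uf n N) := fun s hs =>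
    mem_dom_of_uIcc hd hs
  have hne : ∀ s ∈ uIcc 0 t, (Ps F c (z, s)).1 ≠ 0 := fun s hs =>
    flow_mem isOpen_Uf (hWf1 F hp hf hc) (hmem s hs)
  have h0 : Ps F c (z, 0) = z := flow_zero isOpen_Uf (hWf1 F hp hf hc) hz
  have h1 := flow_of_integralCurve' (v := A) isOpen_univ hA1
    (c := fun s => (k0 F c (Ps F c (z, s)).1, fl G (z.2, s))) (x := (z.2.1, z.2)) (l := t)
    (by simp only [h0, hk, fl_zero]) (fun _ _ => mem_univ _) (fun s hs => by
      have h2 := hda_fst (hasDerivAt_flow isOpen_Uf (hWf1 F hp hf hc) (hmem s hs))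
      have h3 := ((contDiffAt_k0 F hp hf (hne s hs)).differentiableAt
        (by simp)).hasFDerivAt.comp_hasDerivAt s h2
      have h4 := hasDerivAt_fl G (complete G hz2 s)
      refine (h3.prodMk h4).congr_deriv ?_
      refine Prod.ext ?_ rfl
      change Kd F c (Ps F c (z, s)).1 (Lc F c (Ps F c (z, s)).1 (Ps F c (z, s)).2.2) = _
      rw [Kd_Lc F hp hf hc (hne s hs), Ps_snd F hp hf hc (hmem s hs)])
  have h2 := flow_of_integralCurve' (v := A) isOpen_univ hA1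
    (c := fun s => ((fl G (z.2, s)).1, fl G (z.2, s))) (x := (z.2.1, z.2)) (l := t)
    (by simp only [fl_zero]) (fun _ _ => mem_univ _) (fun s hs => by
      have h4 := hasDerivAt_fl G (complete G hz2 s)
      refine ((hda_fst h4).prodMk h4).congr_deriv ?_
      refine Prod.ext ?_ rfl
      change (fl G (z.2, s)).2 = G.P (fl G (z.2, s)).1 (fl G (z.2, s)).2
      have h5 := fl_mem G hz2 s
      rw [(P_eq_self G h5.1).1 h5.2])
  have h3 := h1.2.symm.trans h2.2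
  exact congrArg Prod.fst h3

/-! ### the lifted exponential map -/

omit hp hf hc in
/-- the exponential map of the sphere -/
def Lam (F : Fr G p) (c : ℝ) (z : Eu (n + 1) × Eu (n + 1)) : Eu (n + 1) :=
  (Ps F c ((z.1, (k0 F c z.1, Kd F c z.1 z.2)), 1)).1

lemma mem_TS_Kd {X : Eu (n + 1)} (hX : X ≠ 0) (w : Eu (n + 1)) :
    (k0 F c X, Kd F c X w) ∈ TS G := ⟨k0_mem F hp X, Kd_mem F hp hf hX w⟩

theorem contDiffAt_Lam {X w : Eu (n + 1)} (hX : X ≠ 0) : ContDiffAt ℝ ∞ (Lam F c) (X, w) := by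
  have hd := Ps_complete F hp hf hc (z := (X, (k0 F c X, Kd F c X w))) hX
    (mem_TS_Kd F hp hf hc hX w) zero_le_one
  have h1 : ContDiffAt ℝ ∞ (Ps F c) ((X, (k0 F c X, Kd F c X w)), (1 : ℝ)) :=
    (contDiffOn_flow (n := ⊤) (by simp) isOpen_Uf (contDiffOn_Wf F hp hf hc)).contDiffAt
      ((isOpen_dom isOpen_Uf (hWf1 F hp hf hc)).mem_nhds hd)
  have h2 : ContDiffAt ℝ ∞ (fun z : Eu (n + 1) × Eu (n + 1) => k0 F c z.1) (X, w) :=
    ContDiffAt.comp (g := k0 F c) (X, w) (contDiffAt_k0 F hp hf hX) contDiffAt_fst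
  have h3 : ContDiffAt ℝ ∞ (fun z : Eu (n + 1) × Eu (n + 1) => Kd F c z.1) (X, w) :=
    ContDiffAt.comp (g := Kd F c) (X, w) (contDiffAt_Kd F hp hf hX) contDiffAt_fst
  have h4 : ContDiffAt ℝ ∞ (fun z : Eu (n + 1) × Eu (n + 1) =>
      ((z.1, (k0 F c z.1, Kd F c z.1 z.2)), (1 : ℝ))) (X, w) :=
    (contDiffAt_fst.prodMk (h2.prodMk (h3.clm_apply contDiffAt_snd))).prodMk contDiffAt_const
  exact contDiffAt_fst.comp (X, w) (ContDiffAt.comp (g := Ps F c) (X, w) h1 h4)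

lemma norm_Lam {X : Eu (n + 1)} (hX : X ≠ 0) (w : Eu (n + 1)) : ‖Lam F c (X, w)‖ = ‖X‖ :=
  norm_Ps F hp hf hc zero_le_one (Ps_complete F hp hf hc hX (mem_TS_Kd F hp hf hc hX w)
    zero_le_one)

lemma k0_Lam {X : Eu (n + 1)} (hX : X ≠ 0) (w : Eu (n + 1)) :
    k0 F c (Lam F c (X, w)) = Exp G (k0 F c X) (Kd F c X w) :=
  k0_Ps F hp hf hc (z := (X, (k0 F c X, Kd F c X w))) hX (mem_TS_Kd F hp hf hc hX w) rfl
    zero_le_one

lemma Lam_zero {X : Eu (n + 1)} (hX : X ≠ 0) : Lam F c (X, 0) = X := by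
  have h := flow_of_zero (v := Wf F c) isOpen_Uf (hWf1 F hp hf hc)
    (x := (X, (k0 F c X, Kd F c X 0))) hX (by simp [Wf, Crest.Agent.R241.D2.X]) 1
  change (flow (Wf F c) (Uf n N) ((X, (k0 F c X, Kd F c X 0)), 1)).1 = X
  rw [h.2]

end Crest.Agent.R208.GH
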