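import Crest.Agent.R208.JTDefs

/-!
R208, block GH (helper378): geometry half of the join trick (types `k = n` and `k = 1`).
The intermediate abstract structure: a Wiedersehen structure on the unit sphere of `ℝ^(n+1)`.

`G X` is the metric of the cone `r * x`, `x` in the sphere (so `G X (X, a) = ⟪X, a⟫`),
`Lam (x, w)` (`x` unit, `w ⟂ x`) is the point reached at time `1` by the geodesic of the sphere
with initial velocity `w`; all geodesics satisfy `γ (t + π) = - γ t`, and have no conjugate points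
in `(0, π)`.
-/

set_option autoImplicit false

open scoped RealInnerProductSpace

noncomputable section

namespace Crest.Agent.R208.GH

open Crest.Agent.R208.JT

/-- A Wiedersehen structure on the unit sphere of `Eu m` (`m = n + 1`). -/
structure WS (m : ℕ) where
  /-- the metric of the cone -/
  G : Eu m → Eu m →L[ℝ] Eu m →L[ℝ] ℝ
  /-- the exponential map of the unit sphere -/
  Lam : Eu m × Eu m → Eu m
  /-- the velocity: `Vel x w t = (d/dt) Lam (x, t w)` -/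
  Vel : Eu m → Eu m → ℝ → Eu m
  G_symm : ∀ X a b, G X a b = G X b a
  G_pos : ∀ X a, X ≠ 0 → a ≠ 0 → 0 < G X a a
  G_smul : ∀ (r : ℝ) X, 0 < r → G (r • X) = G X
  G_neg : ∀ X, G (-X) = G X
  G_smooth : ∀ X, X ≠ 0 → ContDiffAt ℝ (⊤ : ℕ∞) G X
  G_radial : ∀ X a, X ≠ 0 → G X X a = ⟪X, a⟫
  Lam_smooth : ∀ X w, X ≠ 0 → ContDiffAt ℝ (⊤ : ℕ∞) Lam (X, w)
  hasDeriv_Lam : ∀ x w (t : ℝ), ‖x‖ = 1 → ⟪x, w⟫ = 0 →
    HasDerivAt (fun t : ℝ => Lam (x, t • w)) (Vel x w t) t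
  norm_Lam : ∀ x w, ‖x‖ = 1 → ⟪x, w⟫ = 0 → ‖Lam (x, w)‖ = 1
  Lam_zero : ∀ x, ‖x‖ = 1 → Lam (x, 0) = x
  Vel_zero : ∀ x w, ‖x‖ = 1 → ⟪x, w⟫ = 0 → Vel x w 0 = w
  flow : ∀ x w (s t : ℝ), ‖x‖ = 1 → ⟪x, w⟫ = 0 →
    Lam (Lam (x, t • w), s • Vel x w t) = Lam (x, (t + s) • w)
  speed : ∀ x w (t : ℝ), ‖x‖ = 1 → ⟪x, w⟫ = 0 →
    G (Lam (x, t • w)) (Vel x w t) (Vel x w t) = G x w w
  half : ∀ x w, ‖x‖ = 1 → ⟪x, w⟫ = 0 → G x w w = Real.pi ^ 2 → Lam (x, w) = -x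
  inj : ∀ x w w', ‖x‖ = 1 → ⟪x, w⟫ = 0 → ⟪x, w'⟫ = 0 → G x w w < Real.pi ^ 2 →
    G x w' w' < Real.pi ^ 2 → Lam (x, w) = Lam (x, w') → w = w'
  surj : ∀ x y, ‖x‖ = 1 → ‖y‖ = 1 → y ≠ -x →
    ∃ w, ⟪x, w⟫ = 0 ∧ G x w w < Real.pi ^ 2 ∧ Lam (x, w) = y
  nonconj : ∀ x w u, ‖x‖ = 1 → ⟪x, w⟫ = 0 → ⟪x, u⟫ = 0 → G x w w < Real.pi ^ 2 →
    fderiv ℝ Lam (x, w) (0, u) = 0 → u = 0
  gauss : ∀ x w u, ‖x‖ = 1 → ⟪x, w⟫ = 0 → ⟪x, u⟫ = 0 →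
    G (Lam (x, w)) (fderiv ℝ Lam (x, w) (0, w)) (fderiv ℝ Lam (x, w) (0, u)) = G x w u

end Crest.Agent.R208.GH
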