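import Crest.Agent.R208.GH2a
import Crest.Agent.R208.GHDefs

/-!
R208, block GH (helper378), file 2b: the cone metric `GG`, velocities of lifts, uniqueness of
lifts, flow property.
-/

set_option autoImplicit false

open Set Filter Topology Module
open scoped ContDiff RealInnerProductSpace
open Crest.GeometryTopology.Submanifold
open Crest.Agent.R241.DDefs
open Crest.Agent.R241.D2
open Crest.Agent.R241.D3c
open Crest.Agent.R208.JT (Eu)

noncomputable section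

namespace Crest.Agent.R208.GH

variable {n N : ℕ} {κ : ℝ} {S : Set (Euc N)} {G : Geo n N κ S} {c : ℝ} {p : Euc N} (F : Fr G p)

/-! ### the metric -/

lemma cda_smul {E E' : Type*} [NormedAddCommGroup E] [NormedSpace ℝ E] [NormedAddCommGroup E']
    [NormedSpace ℝ E'] {f : E → ℝ} {g : E → E'} {x : E} (hf : ContDiffAt ℝ ∞ f x)
    (hg : ContDiffAt ℝ ∞ g x) : ContDiffAt ℝ ∞ (fun x => f x • g x) x := hf.smul hg

lemma cd_clm {E E' : Type*} [NormedAddCommGroup E] [NormedSpace ℝ E] [NormedAddCommGroup E']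
    [NormedSpace ℝ E'] (L : E →L[ℝ] E') : ContDiff ℝ ∞ (fun x => L x) := L.contDiff

/-- pull back of the inner product -/
def QQ (K : Eu (n + 1) →L[ℝ] Euc N) : Eu (n + 1) →L[ℝ] Eu (n + 1) →L[ℝ] ℝ :=
  ((ContinuousLinearMap.compL ℝ (Eu (n + 1)) (Euc N) ℝ).flip K) ∘L ((innerSL ℝ) ∘L K)

lemma QQ_apply (K : Eu (n + 1) →L[ℝ] Euc N) (a b : Eu (n + 1)) : QQ K a b = ⟪K a, K b⟫ := rfl

lemma contDiff_QQ : ContDiff ℝ ∞ (QQ : (Eu (n + 1) →L[ℝ] Euc N) → _) := by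
  refine contDiff_clm_apply_iff.2 fun a => contDiff_clm_apply_iff.2 fun b => ?_
  have h1 : ∀ a : Eu (n + 1), ContDiff ℝ ∞ (fun K : Eu (n + 1) →L[ℝ] Euc N => K a) :=
    fun a => contDiff_id.clm_apply contDiff_const
  exact (h1 a).inner ℝ (h1 b)

/-- the metric of the cone -/
def GG (c : ℝ) (X : Eu (n + 1)) : Eu (n + 1) →L[ℝ] Eu (n + 1) →L[ℝ] ℝ :=
  (‖X‖ ^ 2)⁻¹ • (innerSL ℝ X).smulRight (innerSL ℝ X) + (‖X‖ ^ 2 / c ^ 2) • QQ (Kd F c X)

lemma GG_apply (X a b : Eu (n + 1)) : GG F c X a b =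
    (‖X‖ ^ 2)⁻¹ * (⟪X, a⟫ * ⟪X, b⟫) + (‖X‖ ^ 2 / c ^ 2) * ⟪Kd F c X a, Kd F c X b⟫ := rfl

lemma GG_unit {x : Eu (n + 1)} (hx : ‖x‖ = 1) (a b : Eu (n + 1)) : GG F c x a b =
    ⟪x, a⟫ * ⟪x, b⟫ + ⟪Kd F c x a, Kd F c x b⟫ / c ^ 2 := by
  rw [GG_apply, hx]; ring

lemma GG_orth {x : Eu (n + 1)} (hx : ‖x‖ = 1) {a : Eu (n + 1)} (ha : ⟪x, a⟫ = 0)
    (b : Eu (n + 1)) : GG F c x a b = ⟪Kd F c x a, Kd F c x b⟫ / c ^ 2 := by
  rw [GG_unit F hx, ha, zero_mul, zero_add]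

lemma GG_symm (X a b : Eu (n + 1)) : GG F c X a b = GG F c X b a := by
  rw [GG_apply, GG_apply, real_inner_comm (Kd F c X a)]
  ring

lemma ne_zero_of_unit {x : Eu (n + 1)} (hx : ‖x‖ = 1) : x ≠ 0 := by
  intro h; rw [h, norm_zero] at hx; exact zero_ne_one hx

variable (hp : p ∈ S) (hf : Hf G c) (hc : 0 < c)
include hp hf

lemma Kd_smul {X : Eu (n + 1)} (hX : X ≠ 0) {r : ℝ} (hr : 0 < r) (a : Eu (n + 1)) :
    Kd F c (r • X) (r • a) = Kd F c X a := by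
  have h1 : HasFDerivAt (fun Y => k0 F c (r • Y))
      ((fderiv ℝ (k0 F c) (r • X)).comp (r • ContinuousLinearMap.id ℝ (Eu (n + 1)))) X :=
    ((contDiffAt_k0 F hp hf (smul_ne_zero hr.ne' hX)).differentiableAt
      (by simp)).hasFDerivAt.comp X ((hasFDerivAt_id X).const_smul r)
  have h2 : (fun Y => k0 F c (r • Y)) = k0 F c := by ext1 Y; exact k0_smul F Y hr
  rw [h2] at h1
  have h3 := h1.fderiv
  have h4 := congrArg (fun L => L a) h3
  exact h4.symm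

theorem contDiffAt_GG {X : Eu (n + 1)} (hX : X ≠ 0) : ContDiffAt ℝ ∞ (GG F c) X := by
  have hn : ContDiffAt ℝ ∞ (fun X : Eu (n + 1) => ‖X‖ ^ 2) X := (contDiff_norm_sq ℝ).contDiffAt
  have hn0 : ‖X‖ ^ 2 ≠ 0 := by have := norm_pos_iff.2 hX; positivity
  have h1 : ContDiffAt ℝ ∞ (fun X : Eu (n + 1) =>
      (innerSL ℝ X).smulRight (innerSL ℝ X : Eu (n + 1) →L[ℝ] ℝ)) X := by
    have h2 : ContDiff ℝ ∞ (fun X : Eu (n + 1) => (innerSL ℝ X : Eu (n + 1) →L[ℝ] ℝ)) :=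
      (innerSL ℝ).contDiff
    exact (h2.smulRight h2).contDiffAt
  have h2 : ContDiffAt ℝ ∞ (fun X => QQ (Kd F c X)) X :=
    contDiff_QQ.contDiffAt.comp X (contDiffAt_Kd F hp hf hX)
  exact (cda_smul (E' := Eu (n + 1) →L[ℝ] Eu (n + 1) →L[ℝ] ℝ) (hn.inv hn0) h1).add
    (cda_smul (E' := Eu (n + 1) →L[ℝ] Eu (n + 1) →L[ℝ] ℝ) (hn.div_const _) h2)

lemma GG_smul (r : ℝ) (X : Eu (n + 1)) (hr : 0 < r) : GG F c (r • X) = GG F c X := by
  by_cases hX : X = 0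
  · rw [hX, smul_zero]
  ext1 a
  ext1 b
  have hK : ∀ a, Kd F c (r • X) a = r⁻¹ • Kd F c X a := by
    intro a
    have h1 := Kd_smul F hp hf hX hr (r⁻¹ • a)
    rw [smul_smul, mul_inv_cancel₀ hr.ne', one_smul, map_smul] at h1
    exact h1
  have hXn : ‖X‖ ≠ 0 := norm_ne_zero_iff.2 hX
  rw [GG_apply, GG_apply, hK, hK, norm_smul, Real.norm_eq_abs, abs_of_pos hr]
  simp only [inner_smul_left, inner_smul_right, RCLike.conj_to_real]
  field_simp

include hc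

lemma GG_pos (X a : Eu (n + 1)) (hX : X ≠ 0) (ha : a ≠ 0) : 0 < GG F c X a a := by
  have hXn : 0 < ‖X‖ := norm_pos_iff.2 hX
  rw [GG_apply, real_inner_self_eq_norm_sq]
  by_cases h1 : ⟪X, a⟫ = 0
  · have h2 : Kd F c X a ≠ 0 := fun h => ha (Kd_inj F hp hf hc hX h h1)
    have h3 := norm_pos_iff.2 h2
    positivity
  · have h3 : 0 < ⟪X, a⟫ * ⟪X, a⟫ := mul_self_pos.2 h1
    positivity

lemma GG_radial (X a : Eu (n + 1)) (hX : X ≠ 0) : GG F c X X a = ⟪X, a⟫ := by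
  have hXn : ‖X‖ ≠ 0 := norm_ne_zero_iff.2 hX
  rw [GG_apply, Kd_self F hp hf hX, inner_zero_left, real_inner_self_eq_norm_sq]
  field_simp
  ring

/-! ### velocities -/

omit hp hf hc in
/-- velocity of the lifted geodesic -/
def Vel (F : Fr G p) (c : ℝ) (X w : Eu (n + 1)) (t : ℝ) : Eu (n + 1) :=
  fderiv ℝ (Lam F c) (X, t • w) (0, w)

lemma hasDerivAt_Lam {X : Eu (n + 1)} (hX : X ≠ 0) (w : Eu (n + 1)) (t : ℝ) :
    HasDerivAt (fun t : ℝ => Lam F c (X, t • w)) (Vel F c X w t) t := by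
  have h1 : HasDerivAt (fun t : ℝ => ((X, t • w) : Eu (n + 1) × Eu (n + 1))) (0, w) t := by
    have h2 : HasDerivAt (fun t : ℝ => t • w) w t := by
      simpa using (hasDerivAt_id t).smul_const w
    exact (hasDerivAt_const t X).prodMk h2
  have h3 := ((contDiffAt_Lam F hp hf hc hX (w := t • w)).differentiableAt (by simp)).hasFDerivAt
  exact h3.comp_hasDerivAt t h1

/-- the lifted geodesic is above the geodesic -/
lemma k0_Lam_smul {X : Eu (n + 1)} (hX : X ≠ 0) (w : Eu (n + 1)) (t : ℝ) :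
    k0 F c (Lam F c (X, t • w)) = (fl G ((k0 F c X, Kd F c X w), t)).1 := by
  rw [k0_Lam F hp hf hc hX, map_smul, Exp_smul G (k0_mem F hp X) (Kd_mem F hp hf hX w)]

lemma Lam_ne {X : Eu (n + 1)} (hX : X ≠ 0) (w : Eu (n + 1)) : Lam F c (X, w) ≠ 0 := by
  rw [← norm_ne_zero_iff, norm_Lam F hp hf hc hX]
  exact norm_ne_zero_iff.2 hX

lemma Kd_Vel {X : Eu (n + 1)} (hX : X ≠ 0) (w : Eu (n + 1)) (t : ℝ) :
    Kd F c (Lam F c (X, t • w)) (Vel F c X w t) = (fl G ((k0 F c X, Kd F c X w), t)).2 := by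
  have h1 := ((contDiffAt_k0 F hp hf (Lam_ne F hp hf hc hX (t • w))).differentiableAt
    (by simp)).hasFDerivAt.comp_hasDerivAt t (hasDerivAt_Lam F hp hf hc hX w t)
  have h2 : (k0 F c ∘ fun t : ℝ => Lam F c (X, t • w))
      = fun t : ℝ => (fl G ((k0 F c X, Kd F c X w), t)).1 := by
    ext1 s; exact k0_Lam_smul F hp hf hc hX w s
  rw [h2] at h1
  exact h1.unique (hda_fst (hasDerivAt_fl G (complete G (mem_TS_Kd F hp hf hc hX w) t)))

lemma inner_Vel {X : Eu (n + 1)} (hX : X ≠ 0) (w : Eu (n + 1)) (t : ℝ) :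
    ⟪Lam F c (X, t • w), Vel F c X w t⟫ = 0 := by
  have h1 := (hasDerivAt_Lam F hp hf hc hX w t).norm_sq
  have h2 : (fun t : ℝ => ‖Lam F c (X, t • w)‖ ^ 2) = fun _ => ‖X‖ ^ 2 := by
    ext1 s; rw [norm_Lam F hp hf hc hX]
  rw [h2] at h1
  have h3 := h1.unique (hasDerivAt_const t (‖X‖ ^ 2))
  linarith

lemma Vel_zero {X w : Eu (n + 1)} (hX : X ≠ 0) (hw : ⟪X, w⟫ = 0) : Vel F c X w 0 = w := by
  have h1 := Kd_Vel F hp hf hc hX w 0
  have h2 := inner_Vel F hp hf hc hX w 0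
  rw [zero_smul, Lam_zero F hp hf hc hX] at h1 h2
  rw [fl_zero] at h1
  exact Kd_inj' F hp hf hc hX h1 h2 hw

/-! ### uniqueness of lifts -/

omit hc in
/-- two curves in the sphere with the same image in `S` which meet once are equal -/
theorem lift_unique {I : Set ℝ} (hI : IsPreconnected I) {c₁ c₂ : ℝ → Eu (n + 1)}
    (h1 : ContinuousOn c₁ I) (h2 : ContinuousOn c₂ I) (hn1 : ∀ t ∈ I, ‖c₁ t‖ = 1)
    (hn2 : ∀ t ∈ I, ‖c₂ t‖ = 1) (hk : ∀ t ∈ I, k0 F c (c₁ t) = k0 F c (c₂ t)) {t₀ : ℝ}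
    (ht₀ : t₀ ∈ I) (h0 : c₁ t₀ = c₂ t₀) : ∀ t ∈ I, c₁ t = c₂ t := by
  have hval : ∀ t ∈ I, c₂ t = c₁ t ∨ c₂ t = -c₁ t := by
    intro t ht
    rcases k0_fibre F hp hf (hn1 t ht) (hn2 t ht) (hk t ht) with h | h
    · exact Or.inl h
    · exact Or.inr h.2
  have hcont : ContinuousOn (fun t => ⟪c₁ t, c₂ t⟫) I := h1.inner h2
  have himg := hI.image _ hcont
  intro t ht
  rcases hval t ht with h | h
  · exact h.symm
  · exfalso
    have hm1 : (-1 : ℝ) ∈ (fun t => ⟪c₁ t, c₂ t⟫) '' I := by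
      refine ⟨t, ht, ?_⟩
      simp only [h, inner_neg_right, real_inner_self_eq_norm_sq, hn1 t ht]
      norm_num
    have hp1 : (1 : ℝ) ∈ (fun t => ⟪c₁ t, c₂ t⟫) '' I := by
      refine ⟨t₀, ht₀, ?_⟩
      simp only [← h0, real_inner_self_eq_norm_sq, hn1 t₀ ht₀]
      norm_num
    obtain ⟨s, hs, hs0⟩ := himg.Icc_subset hm1 hp1 (show (0 : ℝ) ∈ Icc (-1) 1 by norm_num)
    rcases hval s hs with h3 | h3
    · simp only [h3, real_inner_self_eq_norm_sq, hn1 s hs] at hs0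
      norm_num at hs0
    · simp only [h3, inner_neg_right, real_inner_self_eq_norm_sq, hn1 s hs] at hs0
      norm_num at hs0

lemma continuous_Lam_smul {X : Eu (n + 1)} (hX : X ≠ 0) (w : Eu (n + 1)) :
    Continuous fun t : ℝ => Lam F c (X, t • w) :=
  continuous_iff_continuousAt.2 fun t => (hasDerivAt_Lam F hp hf hc hX w t).continuousAt

/-- **flow property** -/
theorem Lam_flow {x w : Eu (n + 1)} (hx : ‖x‖ = 1) (s t : ℝ) :
    Lam F c (Lam F c (x, t • w), s • Vel F c x w t) = Lam F c (x, (t + s) • w) := by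
  have hx0 := ne_zero_of_unit hx
  have hy0 := Lam_ne F hp hf hc hx0 (t • w)
  have hz := mem_TS_Kd F hp hf hc hx0 w
  refine lift_unique F hp hf (I := univ) isPreconnected_univ
    (c₁ := fun s => Lam F c (Lam F c (x, t • w), s • Vel F c x w t))
    (c₂ := fun s => Lam F c (x, (t + s) • w))
    (continuous_Lam_smul F hp hf hc hy0 _).continuousOn
    ((continuous_Lam_smul F hp hf hc hx0 w).comp (continuous_const.add continuous_id)).continuousOn
    ?_ ?_ ?_ (mem_univ 0) ?_ s (mem_univ s)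
  · intro s _
    rw [norm_Lam F hp hf hc hy0, norm_Lam F hp hf hc hx0, hx]
  · intro s _
    rw [norm_Lam F hp hf hc hx0, hx]
  · intro s _
    rw [k0_Lam_smul F hp hf hc hy0, Kd_Vel F hp hf hc hx0, k0_Lam_smul F hp hf hc hx0,
      k0_Lam_smul F hp hf hc hx0, fl_add' G hz]
  · rw [zero_smul, Lam_zero F hp hf hc hy0, add_zero]

/-- velocities along the flow -/
lemma Vel_flow {x w : Eu (n + 1)} (hx : ‖x‖ = 1) (s t : ℝ) :
    Vel F c (Lam F c (x, t • w)) (Vel F c x w t) s = Vel F c x w (t + s) := by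
  have hx0 := ne_zero_of_unit hx
  have hy0 := Lam_ne F hp hf hc hx0 (t • w)
  have h1 := hasDerivAt_Lam F hp hf hc hy0 (Vel F c x w t) s
  have h2 : (fun s : ℝ => Lam F c (Lam F c (x, t • w), s • Vel F c x w t))
      = fun s : ℝ => Lam F c (x, (t + s) • w) := by
    ext1 s; exact Lam_flow F hp hf hc hx s t
  rw [h2] at h1
  have h3 := (hasDerivAt_Lam F hp hf hc hx0 w (t + s)).scomp s ((hasDerivAt_id s).const_add t)
  rw [one_smul] at h3
  exact h1.unique h3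

lemma norm_Kd_Vel {X : Eu (n + 1)} (hX : X ≠ 0) (w : Eu (n + 1)) (t : ℝ) :
    ‖Kd F c (Lam F c (X, t • w)) (Vel F c X w t)‖ = ‖Kd F c X w‖ := by
  rw [Kd_Vel F hp hf hc hX, norm_fl G (mem_TS_Kd F hp hf hc hX w)]

/-- speed of the lifted geodesics -/
lemma GG_Vel {x w : Eu (n + 1)} (hx : ‖x‖ = 1) (hw : ⟪x, w⟫ = 0) (t : ℝ) :
    GG F c (Lam F c (x, t • w)) (Vel F c x w t) (Vel F c x w t) = GG F c x w w := by
  have hx0 := ne_zero_of_unit hx
  rw [GG_orth F hx hw, GG_orth F (by rw [norm_Lam F hp hf hc hx0, hx])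
    (inner_Vel F hp hf hc hx0 w t), real_inner_self_eq_norm_sq, real_inner_self_eq_norm_sq,
    norm_Kd_Vel F hp hf hc hx0]

/-! ### differential of `Lam` -/

/-- chain rule for `k0 ∘ Lam` -/
lemma Kd_fderiv_Lam {X : Eu (n + 1)} (hX : X ≠ 0) (w u : Eu (n + 1)) :
    Kd F c (Lam F c (X, w)) (fderiv ℝ (Lam F c) (X, w) (0, u)) =
      fderiv ℝ (Exp G (k0 F c X)) (Kd F c X w) (Kd F c X u) := by
  have hl : HasDerivAt (fun t : ℝ => ((X, w + t • u) : Eu (n + 1) × Eu (n + 1))) (0, u) 0 := by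
    have h2 : HasDerivAt (fun t : ℝ => w + t • u) u 0 := by
      simpa using ((hasDerivAt_id (0 : ℝ)).smul_const u).const_add w
    exact (hasDerivAt_const (0 : ℝ) X).prodMk h2
  have hL : HasFDerivAt (Lam F c) (fderiv ℝ (Lam F c) (X, w)) (X, w + (0 : ℝ) • u) := by
    rw [zero_smul, add_zero]
    exact ((contDiffAt_Lam F hp hf hc hX (w := w)).differentiableAt (by simp)).hasFDerivAt
  have h1 := hL.comp_hasDerivAt (0 : ℝ) hl
  have hk : HasFDerivAt (k0 F c) (Kd F c (Lam F c (X, w)))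
      ((Lam F c ∘ fun t : ℝ => ((X, w + t • u) : Eu (n + 1) × Eu (n + 1))) 0) := by
    simp only [Function.comp_apply, zero_smul, add_zero]
    exact ((contDiffAt_k0 F hp hf (Lam_ne F hp hf hc hX w)).differentiableAt (by simp)).hasFDerivAt
  have h2 := hk.comp_hasDerivAt (0 : ℝ) h1
  have h3 : (k0 F c ∘ (Lam F c ∘ fun t : ℝ => ((X, w + t • u) : Eu (n + 1) × Eu (n + 1))))
      = fun t : ℝ => Exp G (k0 F c X) (Kd F c X w + t • Kd F c X u) := by
    ext1 t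
    simp only [Function.comp_apply]
    rw [k0_Lam F hp hf hc hX, map_add, map_smul]
  rw [h3] at h2
  have hE := hasDerivAt_line (w := Kd F c X u)
    ((contDiffAt_Exp' G (k0_mem F hp X) (Kd_mem F hp hf hX w)).differentiableAt (by simp))
  exact h2.unique hE

lemma inner_fderiv_Lam {X : Eu (n + 1)} (hX : X ≠ 0) (w u : Eu (n + 1)) :
    ⟪Lam F c (X, w), fderiv ℝ (Lam F c) (X, w) (0, u)⟫ = 0 := by
  have hl : HasDerivAt (fun t : ℝ => ((X, w + t • u) : Eu (n + 1) × Eu (n + 1))) (0, u) 0 := by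
    have h2 : HasDerivAt (fun t : ℝ => w + t • u) u 0 := by
      simpa using ((hasDerivAt_id (0 : ℝ)).smul_const u).const_add w
    exact (hasDerivAt_const (0 : ℝ) X).prodMk h2
  have hL : HasFDerivAt (Lam F c) (fderiv ℝ (Lam F c) (X, w)) (X, w + (0 : ℝ) • u) := by
    rw [zero_smul, add_zero]
    exact ((contDiffAt_Lam F hp hf hc hX (w := w)).differentiableAt (by simp)).hasFDerivAt
  have h1 := (hL.comp_hasDerivAt (0 : ℝ) hl).norm_sq
  have h2 : (fun t : ℝ => ‖(Lam F c ∘ fun t : ℝ =>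
      ((X, w + t • u) : Eu (n + 1) × Eu (n + 1))) t‖ ^ 2) = fun _ => ‖X‖ ^ 2 := by
    ext1 s; simp only [Function.comp_apply]; rw [norm_Lam F hp hf hc hX]
  rw [h2] at h1
  have h3 := h1.unique (hasDerivAt_const (0 : ℝ) (‖X‖ ^ 2))
  simp only [Function.comp_apply, zero_smul, add_zero] at h3
  linarith

/-- no conjugate points -/
lemma Lam_nonconj {x w u : Eu (n + 1)} (hx : ‖x‖ = 1) (hw : ⟪x, w⟫ = 0) (hu : ⟪x, u⟫ = 0)
    (hlt : GG F c x w w < Real.pi ^ 2) (h0 : fderiv ℝ (Lam F c) (x, w) (0, u) = 0) : u = 0 := by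
  have hx0 := ne_zero_of_unit hx
  have h1 := Kd_fderiv_Lam F hp hf hc hx0 w u
  rw [h0, map_zero] at h1
  rw [GG_orth F hx hw, real_inner_self_eq_norm_sq, div_lt_iff₀ (by positivity), ← mul_pow] at hlt
  have h2 : ‖Kd F c x w‖ < c * Real.pi := by
    rw [mul_comm]
    exact lt_of_pow_lt_pow_left₀ 2 (by positivity) hlt
  have h3 := hf.noconj _ (k0_mem F hp x) _ (Kd_mem F hp hf hx0 w) h2 _ (Kd_mem F hp hf hx0 u)
    h1.symm
  exact Kd_inj F hp hf hc hx0 h3 hu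

/-- Gauss lemma -/
lemma Lam_gauss {x w u : Eu (n + 1)} (hx : ‖x‖ = 1) (hw : ⟪x, w⟫ = 0) :
    GG F c (Lam F c (x, w)) (fderiv ℝ (Lam F c) (x, w) (0, w))
      (fderiv ℝ (Lam F c) (x, w) (0, u)) = GG F c x w u := by
  have hx0 := ne_zero_of_unit hx
  rw [GG_orth F (by rw [norm_Lam F hp hf hc hx0, hx]) (inner_fderiv_Lam F hp hf hc hx0 w w),
    GG_orth F hx hw, Kd_fderiv_Lam F hp hf hc hx0, Kd_fderiv_Lam F hp hf hc hx0,
    fderiv_Exp_self G (k0_mem F hp x) (Kd_mem F hp hf hx0 w), real_inner_comm,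
    gauss G (k0_mem F hp x) (Kd_mem F hp hf hx0 w) (Kd_mem F hp hf hx0 u)]

end Crest.Agent.R208.GH
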