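import Crest.Agent.R208.GH2b

/-!
R208, block GH (helper378), file 2c: the half period of the lifted geodesics.
-/

set_option autoImplicit false

open Set Filter Topology Module
open scoped ContDiff RealInnerProductSpace
open Crest.GeometryTopology.Submanifold
open Crest.Agent.R241.DDefs
open Crest.Agent.R241.D2
open Crest.Agent.R241.D3c
open Crest.Agent.R208.JT (Eu)

noncomputable section

namespace Crest.Agent.R208.GH

variable {n N : ℕ} {κ : ℝ} {S : Set (Euc N)} {G : Geo n N κ S} {c : ℝ} {p : Euc N} (F : Fr G p)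

variable (hp : p ∈ S) (hf : Hf G c) (hc : 0 < c)
include hp hf

lemma k0_e : k0 F c F.e = p := by
  obtain ⟨s, u, h0, h1, hu, hu1, hXe⟩ := exists_polar F F.ne
  have h := k0_polar F hp hf le_rfl Real.pi_pos.le hu hu1
  rw [Real.cos_zero, Real.sin_zero, one_smul, zero_smul, add_zero, mul_zero, zero_smul,
    Exp_zero G hp] at h
  exact h

/-- unit vectors of the form `cos s e + sin s u` -/
lemma norm_cs {u : Eu (n + 1)} (hu : ⟪F.e, u⟫ = 0) (hu1 : ‖u‖ = 1) (s : ℝ) :
    ‖Real.cos s • F.e + Real.sin s • u‖ = 1 := by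
  have h6 : ‖Real.cos s • F.e + Real.sin s • u‖ ^ 2 = 1 := by
    rw [norm_add_sq_real, norm_smul, norm_smul, F.ne, hu1, inner_smul_left, inner_smul_right, hu]
    simp only [mul_one, mul_zero, add_zero, Real.norm_eq_abs, sq_abs]
    exact Real.cos_sq_add_sin_sq s
  nlinarith [norm_nonneg (Real.cos s • F.e + Real.sin s • u)]

lemma hasDerivAt_cs (u : Eu (n + 1)) (s : ℝ) :
    HasDerivAt (fun s : ℝ => Real.cos s • F.e + Real.sin s • u)
      (-Real.sin s • F.e + Real.cos s • u) s :=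
  ((Real.hasDerivAt_cos s).smul_const F.e).add ((Real.hasDerivAt_sin s).smul_const u)

lemma Kd_e {u : Eu (n + 1)} (hu : ⟪F.e, u⟫ = 0) (hu1 : ‖u‖ = 1) :
    Kd F c F.e u = c • F.B u := by
  have he0 : F.e ≠ 0 := ne_zero_of_unit F.ne
  have h1 : HasDerivAt (fun s : ℝ => Real.cos s • F.e + Real.sin s • u) u 0 := by
    have := hasDerivAt_cs F hp hf u 0
    simpa using this
  have hk : HasFDerivAt (k0 F c) (Kd F c F.e)
      ((fun s : ℝ => Real.cos s • F.e + Real.sin s • u) 0) := by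
    simp only [Real.cos_zero, Real.sin_zero, one_smul, zero_smul, add_zero]
    exact ((contDiffAt_k0 F hp hf he0).differentiableAt (by simp)).hasFDerivAt
  have h2 := hk.comp_hasDerivAt (0 : ℝ) h1
  have hz : ((p, F.B u) : Euc N × Euc N) ∈ TS G := ⟨hp, F.mem u⟩
  have h3 : HasDerivAt (fun s : ℝ => (fl G ((p, F.B u), c * s)).1) (c • F.B u) 0 := by
    have h4 := hda_fst (hasDerivAt_fl G (complete G hz (c * 0)))
    have h5 : HasDerivAt (fun s : ℝ => c * s) c 0 := by
      simpa using (hasDerivAt_id (0 : ℝ)).const_mul c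
    have h6 := h4.scomp (0 : ℝ) h5
    simp only [mul_zero, fl_zero] at h6
    exact h6
  have hEq : EqOn (k0 F c ∘ fun s : ℝ => Real.cos s • F.e + Real.sin s • u)
      (fun s : ℝ => (fl G ((p, F.B u), c * s)).1) (Icc 0 Real.pi) := by
    intro s hs
    simp only [Function.comp_apply]
    rw [k0_polar F hp hf hs.1 hs.2 hu hu1, Exp_smul G hp (F.mem u)]
  have h0mem : (0 : ℝ) ∈ Icc 0 Real.pi := ⟨le_rfl, Real.pi_pos.le⟩
  have h7 := (h2.hasDerivWithinAt (s := Icc 0 Real.pi)).congr (fun s hs => (hEq hs).symm)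
    (hEq h0mem).symm
  exact (uniqueDiffOn_Icc Real.pi_pos 0 h0mem).eq_deriv _ h7
    (h3.hasDerivWithinAt (s := Icc 0 Real.pi))

include hc

/-- the geodesics from the base point are great circles -/
lemma Lam_e {u : Eu (n + 1)} (hu : ⟪F.e, u⟫ = 0) (hu1 : ‖u‖ = 1) {s : ℝ}
    (hs : s ∈ Icc 0 Real.pi) :
    Lam F c (F.e, s • u) = Real.cos s • F.e + Real.sin s • u := by
  have he0 : F.e ≠ 0 := ne_zero_of_unit F.ne
  refine lift_unique F hp hf (I := Icc 0 Real.pi) isPreconnected_Icc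
    (c₁ := fun s => Lam F c (F.e, s • u))
    (c₂ := fun s => Real.cos s • F.e + Real.sin s • u)
    (continuous_Lam_smul F hp hf hc he0 _).continuousOn
    (fun s _ => (hasDerivAt_cs F hp hf u s).continuousAt.continuousWithinAt)
    ?_ ?_ ?_ (t₀ := 0) ⟨le_rfl, Real.pi_pos.le⟩ ?_ s hs
  · intro s _
    rw [norm_Lam F hp hf hc he0, F.ne]
  · intro s _
    exact norm_cs F hp hf hu hu1 s
  · intro s hs
    rw [k0_polar F hp hf hs.1 hs.2 hu hu1, k0_Lam F hp hf hc he0, map_smul, k0_e F hp hf,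
      Kd_e F hp hf hu hu1, smul_smul, mul_comm]
  · rw [zero_smul, Lam_zero F hp hf hc he0, Real.cos_zero, Real.sin_zero]
    simp

lemma GG_e {u : Eu (n + 1)} (hu : ⟪F.e, u⟫ = 0) (hu1 : ‖u‖ = 1) : GG F c F.e u u = 1 := by
  rw [GG_orth F F.ne hu, Kd_e F hp hf hu hu1, real_inner_self_eq_norm_sq, norm_smul,
    F.iso u hu, hu1, Real.norm_eq_abs, mul_one, sq_abs]
  field_simp

/-- norm of `Kd` from the metric -/
lemma norm_Kd_of_GG {x w : Eu (n + 1)} (hx : ‖x‖ = 1) (hw : ⟪x, w⟫ = 0) {r : ℝ} (hr : 0 ≤ r)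
    (h : GG F c x w w = r ^ 2) : ‖Kd F c x w‖ = c * r := by
  rw [GG_orth F hx hw, real_inner_self_eq_norm_sq, div_eq_iff (by positivity)] at h
  have h1 : ‖Kd F c x w‖ ^ 2 = (c * r) ^ 2 := by rw [h]; ring
  exact (sq_eq_sq₀ (norm_nonneg _) (by positivity)).1 h1

/-- after the time `π` a lifted geodesic is at `-x`, or at `x` if `c = 2` -/
lemma half_or {x w : Eu (n + 1)} (hx : ‖x‖ = 1) (hw : ⟪x, w⟫ = 0)
    (h : GG F c x w w = Real.pi ^ 2) : Lam F c (x, w) = -x ∨ (c = 2 ∧ Lam F c (x, w) = x) := by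
  have hx0 := ne_zero_of_unit hx
  have hπ := Real.pi_pos
  have h1 := norm_Kd_of_GG F hp hf hc hx hw hπ.le h
  have hcπ : 0 < c * Real.pi := by positivity
  have h2 : ‖((c * Real.pi)⁻¹ • Kd F c x w)‖ = 1 := by
    rw [norm_smul, h1, Real.norm_eq_abs, abs_of_pos (by positivity), inv_mul_cancel₀ hcπ.ne']
  have h3 := k0_half F hp hf hx0 ((G.T _).smul_mem (c * Real.pi)⁻¹ (Kd_mem F hp hf hx0 w)) h2
  rw [smul_smul, mul_inv_cancel₀ hcπ.ne', one_smul, ← k0_Lam F hp hf hc hx0] at h3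
  rcases k0_fibre F hp hf (by rw [norm_Lam F hp hf hc hx0, hx]) (by rw [norm_neg, hx]) h3 with
    h4 | ⟨h4, h5⟩
  · exact Or.inl h4.symm
  · exact Or.inr ⟨h4, (neg_injective h5).symm⟩

/-- in the projective case: the lifts of the geodesics from the base point -/
lemma Lam_e_half (hc2 : c = 2) {u : Eu (n + 1)} (hu : ⟪F.e, u⟫ = 0) (hu1 : ‖u‖ = 1) (s : ℝ) :
    Lam F c (F.e, (s + Real.pi) • u) = -Lam F c (F.e, s • u) := by
  have he0 : F.e ≠ 0 := ne_zero_of_unit F.ne
  have hBu : ‖F.B u‖ = 1 := by rw [F.iso u hu, hu1]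
  have hk : ∀ t : ℝ, k0 F c (Lam F c (F.e, t • u)) = Exp G p ((2 * t) • F.B u) := by
    intro t
    rw [k0_Lam F hp hf hc he0, map_smul, k0_e F hp hf, Kd_e F hp hf hu hu1, smul_smul, hc2,
      mul_comm]
  have hcL := continuous_Lam_smul F hp hf hc he0 u
  refine lift_unique F hp hf (I := univ) isPreconnected_univ
    (c₁ := fun s => Lam F c (F.e, (s + Real.pi) • u))
    (c₂ := fun s => -Lam F c (F.e, s • u))
    (hcL.comp (continuous_id.add continuous_const)).continuousOn hcL.neg.continuousOn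
    ?_ ?_ ?_ (t₀ := 0) (mem_univ _) ?_ s (mem_univ _)
  · intro s _
    rw [norm_Lam F hp hf hc he0, F.ne]
  · intro s _
    rw [norm_neg, norm_Lam F hp hf hc he0, F.ne]
  · intro s _
    rw [k0_neg_two F hp hf hc2 (Lam_ne F hp hf hc he0 _), hk, hk]
    have h1 : 2 * (s + Real.pi) = 2 * Real.pi + 2 * s := by ring
    rw [h1, Exp_per hf.per hp (F.mem u) hBu]
  · rw [zero_add, zero_smul, Lam_zero F hp hf hc he0,
      Lam_e F hp hf hc hu hu1 ⟨Real.pi_pos.le, le_rfl⟩, Real.cos_pi, Real.sin_pi]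
    simp

/-- **half period** -/
theorem Lam_half {x w : Eu (n + 1)} (hx : ‖x‖ = 1) (hw : ⟪x, w⟫ = 0)
    (h : GG F c x w w = Real.pi ^ 2) : Lam F c (x, w) = -x := by
  have hx0 := ne_zero_of_unit hx
  have hπ := Real.pi_pos
  rcases hf.cases with hc1 | ⟨hc2, hn2, -⟩
  · rcases half_or F hp hf hc hx hw h with h1 | ⟨h1, -⟩
    · exact h1
    · exfalso; rw [hc1] at h1; norm_num at h1
  · -- a direction for which it is true
    obtain ⟨s, u, h0, h1, hu, hu1, hxe⟩ := exists_polar F hx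
    have hxL : Lam F c (F.e, s • u) = x := by
      rw [Lam_e F hp hf hc hu hu1 ⟨h0, h1⟩, hxe]
    have he0 : F.e ≠ 0 := ne_zero_of_unit F.ne
    set η := Vel F c F.e u s with hη
    have hxη : ⟪x, η⟫ = 0 := by rw [← hxL]; exact inner_Vel F hp hf hc he0 u s
    have hGη : GG F c x η η = 1 := by
      rw [← hxL, hη, GG_Vel F hp hf hc F.ne hu, GG_e F hp hf hc hu hu1]
    have hLη : Lam F c (x, Real.pi • η) = -x := by
      have h2 := Lam_flow F hp hf hc (w := u) F.ne Real.pi s
      rw [hxL] at h2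
      rw [h2, Lam_e_half F hp hf hc hc2 hu hu1, hxL]
    -- connectedness of the unit sphere of the tangent space
    set T := G.T (k0 F c x) with hT
    have hrank : 1 < Module.rank ℝ T := by
      rw [← Module.finrank_eq_rank, hT, G.finrank_T _ (k0_mem F hp x)]
      exact_mod_cast hn2
    have hsph := isPreconnected_sphere hrank (0 : T) 1
    let f : T → ℝ := fun v => ⟪x, Lam F c (x, Lc F c x ((c * Real.pi) • (v : Euc N)))⟫
    have hfc : Continuous f := by
      rw [continuous_iff_continuousAt]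
      intro v
      have h3 : ContinuousAt (Lam F c) (x, Lc F c x ((c * Real.pi) • (v : Euc N))) :=
        (contDiffAt_Lam F hp hf hc hx0).continuousAt
      have h4 : ContinuousAt (fun v : T => ((x, Lc F c x ((c * Real.pi) • (v : Euc N))) :
          Eu (n + 1) × Eu (n + 1))) v := by
        have h5 : Continuous (fun v : T => ((x, Lc F c x ((c * Real.pi) • (v : Euc N))) :
          Eu (n + 1) × Eu (n + 1))) := by fun_prop
        exact h5.continuousAt
      have h6 : ContinuousAt (fun v : T => Lam F c (x, Lc F c x ((c * Real.pi) • (v : Euc N)))) v :=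
        ContinuousAt.comp (g := Lam F c) h3 h4
      exact continuousAt_const.inner h6
    have hfval : ∀ v ∈ Metric.sphere (0 : T) 1,
        Lam F c (x, Lc F c x ((c * Real.pi) • (v : Euc N))) = -x ∨
        Lam F c (x, Lc F c x ((c * Real.pi) • (v : Euc N))) = x := by
      intro v hv
      have hv1 : ‖(v : Euc N)‖ = 1 := by simpa using hv
      have hin := inner_Lc F hp hf hc hx0 ((c * Real.pi) • (v : Euc N))
      have hK : Kd F c x (Lc F c x ((c * Real.pi) • (v : Euc N))) = (c * Real.pi) • (v : Euc N) := by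
        rw [Kd_Lc F hp hf hc hx0]
        exact (P_eq_self G (k0_mem F hp x)).1 (T.smul_mem _ v.2)
      have hG : GG F c x (Lc F c x ((c * Real.pi) • (v : Euc N)))
          (Lc F c x ((c * Real.pi) • (v : Euc N))) = Real.pi ^ 2 := by
        rw [GG_orth F hx hin, hK, real_inner_self_eq_norm_sq, norm_smul, hv1, mul_one,
          Real.norm_eq_abs, sq_abs]
        field_simp
      rcases half_or F hp hf hc hx hin hG with h2 | ⟨-, h2⟩
      · exact Or.inl h2
      · exact Or.inr h2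
    have hxx : ⟪x, x⟫ = 1 := by rw [real_inner_self_eq_norm_sq, hx]; norm_num
    have hunit : ∀ w : Eu (n + 1), ⟪x, w⟫ = 0 → GG F c x w w = Real.pi ^ 2 →
        ∃ v ∈ Metric.sphere (0 : T) 1, Lc F c x ((c * Real.pi) • (v : Euc N)) = w := by
      intro w hw h
      have h2 := norm_Kd_of_GG F hp hf hc hx hw hπ.le h
      have hcπ : 0 < c * Real.pi := by positivity
      refine ⟨⟨(c * Real.pi)⁻¹ • Kd F c x w, T.smul_mem _ (Kd_mem F hp hf hx0 w)⟩, ?_, ?_⟩
      · rw [mem_sphere_zero_iff_norm]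
        change ‖((c * Real.pi)⁻¹ • Kd F c x w)‖ = 1
        rw [norm_smul, h2, Real.norm_eq_abs, abs_of_pos (by positivity), inv_mul_cancel₀ hcπ.ne']
      · simp only [smul_smul, mul_inv_cancel₀ hcπ.ne', one_smul]
        exact Lc_Kd F hp hf hc hx0 hw
    obtain ⟨v₁, hv₁, hv₁e⟩ := hunit w hw h
    obtain ⟨v₂, hv₂, hv₂e⟩ := hunit (Real.pi • η) (by rw [inner_smul_right, hxη, mul_zero]) (by
      simp only [map_smul, _root_.smul_apply, smul_eq_mul, hGη]; ring)
    rcases hfval v₁ hv₁ with h2 | h2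
    · rw [hv₁e] at h2; exact h2
    · exfalso
      have himg := hsph.image f hfc.continuousOn
      have hm1 : (-1 : ℝ) ∈ f '' Metric.sphere (0 : T) 1 := by
        refine ⟨v₂, hv₂, ?_⟩
        simp only [f, hv₂e, hLη, inner_neg_right, hxx]
      have hp1 : (1 : ℝ) ∈ f '' Metric.sphere (0 : T) 1 := by
        refine ⟨v₁, hv₁, ?_⟩
        simp only [f, h2, hxx]
      obtain ⟨v, hv, hv0⟩ := himg.Icc_subset hm1 hp1 (show (0 : ℝ) ∈ Icc (-1) 1 by norm_num)
      rcases hfval v hv with h3 | h3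
      · simp only [f, h3, inner_neg_right, hxx] at hv0
        norm_num at hv0
      · simp only [f, h3, hxx] at hv0
        norm_num at hv0

/-- shift by the half period -/
lemma Lam_shift {x η : Eu (n + 1)} (hx : ‖x‖ = 1) (hη : ⟪x, η⟫ = 0) (hG : GG F c x η η = 1)
    (s : ℝ) : Lam F c (x, (s + Real.pi) • η) = -Lam F c (x, s • η) := by
  have hx0 := ne_zero_of_unit hx
  rw [← Lam_flow F hp hf hc hx]
  refine Lam_half F hp hf hc (by rw [norm_Lam F hp hf hc hx0, hx]) ?_ ?_
  · rw [inner_smul_right, inner_Vel F hp hf hc hx0, mul_zero]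
  · simp only [map_smul, _root_.smul_apply, smul_eq_mul, GG_Vel F hp hf hc hx hη, hG]
    ring

end Crest.Agent.R208.GH
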