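import Crest.Agent.R208.GH2c

/-!
R208, block GH (helper378), file 2d: injectivity, surjectivity, the Wiedersehen structure.
-/

set_option autoImplicit false

open Set Filter Topology Module
open scoped ContDiff RealInnerProductSpace
open Crest.GeometryTopology.Submanifold
open Crest.Agent.R241.DDefs
open Crest.Agent.R241.D2
open Crest.Agent.R241.D3c
open Crest.Agent.R208.JT (Eu)

noncomputable section

namespace Crest.Agent.R208.GH

variable {n N : ℕ} {κ : ℝ} {S : Set (Euc N)} {G : Geo n N κ S} {c : ℝ} {p : Euc N} (F : Fr G p)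

variable (hp : p ∈ S) (hf : Hf G c) (hc : 0 < c)
include hp hf hc

/-- unit vector and length -/
lemma exists_unit_len {x w : Eu (n + 1)} (hx : ‖x‖ = 1) (hw : ⟪x, w⟫ = 0) (hw0 : w ≠ 0) :
    ∃ (ℓ : ℝ) (η : Eu (n + 1)), 0 < ℓ ∧ ⟪x, η⟫ = 0 ∧ GG F c x η η = 1 ∧ w = ℓ • η ∧
      GG F c x w w = ℓ ^ 2 := by
  have hpos := GG_pos F hp hf hc x w (ne_zero_of_unit hx) hw0
  have hs : Real.sqrt (GG F c x w w) ^ 2 = GG F c x w w := Real.sq_sqrt hpos.le
  have hs0 : 0 < Real.sqrt (GG F c x w w) := Real.sqrt_pos.2 hpos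
  refine ⟨Real.sqrt (GG F c x w w), (Real.sqrt (GG F c x w w))⁻¹ • w, hs0, ?_, ?_, ?_, hs.symm⟩
  · rw [inner_smul_right, hw, mul_zero]
  · have h1 : GG F c x ((Real.sqrt (GG F c x w w))⁻¹ • w) ((Real.sqrt (GG F c x w w))⁻¹ • w)
        = ((Real.sqrt (GG F c x w w)) ^ 2)⁻¹ * GG F c x w w := by
      simp only [map_smul, _root_.smul_apply, smul_eq_mul]
      ring
    rw [h1, hs, inv_mul_cancel₀ hpos.ne']
  · rw [smul_smul, mul_inv_cancel₀ hs0.ne', one_smul]

/-- the end point of a short lifted geodesic -/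
lemma lift_same_end {x w w' : Eu (n + 1)} (hx : ‖x‖ = 1) (hw : ⟪x, w⟫ = 0) (hw' : ⟪x, w'⟫ = 0)
    (h1 : ‖Kd F c x w‖ ≤ Real.pi) (h1' : ‖Kd F c x w'‖ < Real.pi)
    (heq : k0 F c (Lam F c (x, w)) = k0 F c (Lam F c (x, w'))) : w = w' := by
  have hx0 := ne_zero_of_unit hx
  rw [k0_Lam F hp hf hc hx0, k0_Lam F hp hf hc hx0] at heq
  have h2 := hf.bl.Exp_inj (k0_mem F hp x) (Kd_mem F hp hf hx0 w') (Kd_mem F hp hf hx0 w) h1' h1
    heq.symm
  exact Kd_inj' F hp hf hc hx0 h2.symm hw hw'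

lemma Kd_norm_unit {x η : Eu (n + 1)} (hx : ‖x‖ = 1) (hη : ⟪x, η⟫ = 0)
    (hG : GG F c x η η = 1) (r : ℝ) : ‖Kd F c x (r • η)‖ = c * |r| := by
  have h1 := norm_Kd_of_GG F hp hf hc hx hη zero_le_one (by rw [hG]; norm_num)
  rw [map_smul, norm_smul, h1, Real.norm_eq_abs]; ring

lemma GG_smul_unit {x η : Eu (n + 1)} (hG : GG F c x η η = 1) (r : ℝ) :
    GG F c x (r • η) (r • η) = r ^ 2 := by
  simp only [map_smul, _root_.smul_apply, smul_eq_mul, hG]; ring

/-- in the projective case every short vector can be replaced by one of length `≤ π/2` -/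
lemma reduce {x w : Eu (n + 1)} (hx : ‖x‖ = 1) (hw : ⟪x, w⟫ = 0)
    (hlt : GG F c x w w < Real.pi ^ 2) : ∃ w₁ : Eu (n + 1), ⟪x, w₁⟫ = 0 ∧
      ((w₁ = w ∧ GG F c x w w ≤ (Real.pi / 2) ^ 2) ∨
        (GG F c x w₁ w₁ < (Real.pi / 2) ^ 2 ∧ Lam F c (x, w₁) = -Lam F c (x, w) ∧
          ∃ (ℓ : ℝ) (η : Eu (n + 1)), 0 < ℓ ∧ ℓ < Real.pi ∧ ⟪x, η⟫ = 0 ∧ GG F c x η η = 1 ∧
            w = ℓ • η ∧ w₁ = (ℓ - Real.pi) • η ∧ Real.pi / 2 < ℓ)) := by
  have hπ := Real.pi_pos
  by_cases h1 : GG F c x w w ≤ (Real.pi / 2) ^ 2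
  · exact ⟨w, hw, Or.inl ⟨rfl, h1⟩⟩
  · have hw0 : w ≠ 0 := by
      rintro rfl
      apply h1
      simp only [map_zero]
      positivity
    obtain ⟨ℓ, η, hℓ, hη, hG, rfl, hℓ2⟩ := exists_unit_len F hp hf hc hx hw hw0
    rw [hℓ2] at h1 hlt
    have h2 : Real.pi / 2 < ℓ := lt_of_pow_lt_pow_left₀ 2 hℓ.le (not_le.1 h1)
    have h3 : ℓ < Real.pi := lt_of_pow_lt_pow_left₀ 2 hπ.le hlt
    refine ⟨(ℓ - Real.pi) • η, by rw [inner_smul_right, hη, mul_zero], Or.inr ⟨?_, ?_, ℓ, η, hℓ, h3,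
      hη, hG, rfl, rfl, h2⟩⟩
    · rw [GG_smul_unit F hp hf hc hG]
      nlinarith
    · have h4 := Lam_shift F hp hf hc hx hη hG (ℓ - Real.pi)
      rw [sub_add_cancel] at h4
      rw [h4, neg_neg]

/-- **injectivity** -/
theorem Lam_inj {x w w' : Eu (n + 1)} (hx : ‖x‖ = 1) (hw : ⟪x, w⟫ = 0) (hw' : ⟪x, w'⟫ = 0)
    (h : GG F c x w w < Real.pi ^ 2) (h' : GG F c x w' w' < Real.pi ^ 2)
    (heq : Lam F c (x, w) = Lam F c (x, w')) : w = w' := by
  have hx0 := ne_zero_of_unit hx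
  have hπ := Real.pi_pos
  have hnorm : ∀ {w : Eu (n + 1)} {r : ℝ}, 0 ≤ r → ⟪x, w⟫ = 0 → GG F c x w w < r ^ 2 →
      ‖Kd F c x w‖ < c * r := by
    intro w r hr hw h
    rw [GG_orth F hx hw, real_inner_self_eq_norm_sq, div_lt_iff₀ (by positivity), ← mul_pow] at h
    rw [mul_comm]
    exact lt_of_pow_lt_pow_left₀ 2 (by positivity) h
  have hnorm' : ∀ {w : Eu (n + 1)} {r : ℝ}, 0 ≤ r → ⟪x, w⟫ = 0 → GG F c x w w ≤ r ^ 2 →
      ‖Kd F c x w‖ ≤ c * r := by
    intro w r hr hw h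
    rw [GG_orth F hx hw, real_inner_self_eq_norm_sq, div_le_iff₀ (by positivity), ← mul_pow] at h
    rw [mul_comm]
    exact le_of_sq_le_sq h (by positivity)
  rcases hf.cases with hc1 | ⟨hc2, hn2, hlink⟩
  · subst hc1
    have h1 := hnorm hπ.le hw h
    have h1' := hnorm hπ.le hw' h'
    rw [one_mul] at h1 h1'
    exact lift_same_end F hp hf hc hx hw hw' h1.le h1' (by rw [heq])
  · obtain ⟨w₁, hw₁, hr⟩ := reduce F hp hf hc hx hw h
    obtain ⟨w₁', hw₁', hr'⟩ := reduce F hp hf hc hx hw' h'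
    have hLne := Lam_ne F hp hf hc hx0 w
    have hk : k0 F c (Lam F c (x, w₁)) = k0 F c (Lam F c (x, w₁')) := by
      have e1 : k0 F c (Lam F c (x, w₁)) = k0 F c (Lam F c (x, w)) := by
        rcases hr with ⟨h1, -⟩ | ⟨-, h1, -⟩
        · rw [h1]
        · rw [h1, k0_neg_two F hp hf hc2 hLne]
      have e2 : k0 F c (Lam F c (x, w₁')) = k0 F c (Lam F c (x, w')) := by
        rcases hr' with ⟨h1, -⟩ | ⟨-, h1, -⟩
        · rw [h1]
        · rw [h1, k0_neg_two F hp hf hc2 (by rw [← heq]; exact hLne)]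
      rw [e1, e2, heq]
    have hcπ : c * (Real.pi / 2) = Real.pi := by rw [hc2]; ring
    have hle : ‖Kd F c x w₁‖ ≤ Real.pi := by
      rw [← hcπ]
      refine hnorm' (by positivity) hw₁ ?_
      rcases hr with ⟨h1, h2⟩ | ⟨h1, -⟩
      · rw [h1]; exact h2
      · exact h1.le
    have hle' : ‖Kd F c x w₁'‖ ≤ Real.pi := by
      rw [← hcπ]
      refine hnorm' (by positivity) hw₁' ?_
      rcases hr' with ⟨h1, h2⟩ | ⟨h1, -⟩
      · rw [h1]; exact h2
      · exact h1.le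
    -- the two reduced vectors have the same length
    have hlen : ‖Kd F c x w₁‖ = ‖Kd F c x w₁'‖ := by
      have hk' := hk
      rw [k0_Lam F hp hf hc hx0, k0_Lam F hp hf hc hx0] at hk'
      have d1 := hf.bl.dist_Exp (k0_mem F hp x) (Kd_mem F hp hf hx0 w₁) hle
      have d2 := hf.bl.dist_Exp (k0_mem F hp x) (Kd_mem F hp hf hx0 w₁') hle'
      rw [hk', d2] at d1
      exact d1.symm
    rcases hle'.eq_or_lt with hπ' | hlt'
    · -- both of length `π/2`
      have hKw : ‖Kd F c x w₁‖ = Real.pi := by rw [hlen, hπ']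
      have hred : w₁ = w := by
        rcases hr with ⟨h1, -⟩ | ⟨h1, -⟩
        · exact h1
        · exfalso
          have := hnorm (by positivity) hw₁ h1
          rw [hcπ, hKw] at this
          exact lt_irrefl _ this
      have hred' : w₁' = w' := by
        rcases hr' with ⟨h1, -⟩ | ⟨h1, -⟩
        · exact h1
        · exfalso
          have := hnorm (by positivity) hw₁' h1
          rw [hcπ, hπ'] at this
          exact lt_irrefl _ this
      subst hred hred'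
      have hu : ‖(Real.pi⁻¹ • Kd F c x w₁)‖ = 1 := by
        rw [norm_smul, hKw, Real.norm_eq_abs, abs_of_pos (by positivity), inv_mul_cancel₀ hπ.ne']
      have hu' : ‖(Real.pi⁻¹ • Kd F c x w₁')‖ = 1 := by
        rw [norm_smul, hπ', Real.norm_eq_abs, abs_of_pos (by positivity), inv_mul_cancel₀ hπ.ne']
      have hk' := hk
      rw [k0_Lam F hp hf hc hx0, k0_Lam F hp hf hc hx0] at hk'
      have hl := hlink _ (k0_mem F hp x) _ ((G.T _).smul_mem Real.pi⁻¹ (Kd_mem F hp hf hx0 w₁)) _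
        ((G.T _).smul_mem Real.pi⁻¹ (Kd_mem F hp hf hx0 w₁')) hu hu' (by
          rw [smul_smul, smul_smul, mul_inv_cancel₀ hπ.ne', one_smul, one_smul]; exact hk')
      have hpi0 : Real.pi⁻¹ ≠ 0 := inv_ne_zero hπ.ne'
      rcases hl with h2 | h2
      · have h3 : Kd F c x w₁' = Kd F c x w₁ := smul_right_injective _ hpi0 h2
        exact (Kd_inj' F hp hf hc hx0 h3 hw' hw).symm
      · exfalso
        rw [← smul_neg, ← map_neg] at h2
        have h3 : Kd F c x w₁' = Kd F c x (-w₁) := smul_right_injective _ hpi0 h2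
        have h4 : w₁' = -w₁ := Kd_inj' F hp hf hc hx0 h3 hw' (by rw [inner_neg_right, hw, neg_zero])
        have hw0 : w₁ ≠ 0 := by
          intro h0; rw [h0, map_zero, norm_zero] at hKw; exact hπ.ne hKw
        obtain ⟨ℓ, η, hℓ, hη, hG, hwe, hℓ2⟩ := exists_unit_len F hp hf hc hx hw hw0
        have h5 : ℓ = Real.pi / 2 := by
          have h6 := Kd_norm_unit F hp hf hc hx hη hG ℓ
          rw [← hwe, hKw, abs_of_pos hℓ, hc2] at h6
          linarith
        have h7 := Lam_shift F hp hf hc hx hη hG (ℓ - Real.pi)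
        rw [sub_add_cancel, ← hwe] at h7
        have h8 : (ℓ - Real.pi) • η = w₁' := by
          rw [h4, hwe, h5, ← neg_smul]; congr 1; ring
        rw [h8, ← heq] at h7
        have h9 : (2 : ℝ) • Lam F c (x, w₁) = 0 := by
          rw [two_smul]; nth_rw 1 [h7]; simp
        exact hLne ((smul_eq_zero.1 h9).resolve_left two_ne_zero)
    · have h2 : w₁ = w₁' := lift_same_end F hp hf hc hx hw₁ hw₁' hle hlt' hk
      rcases hr with ⟨h1, h3⟩ | ⟨h1, h3, ℓ, η, hℓ, hℓπ, hη, hG, hwe, hw1e, hℓ2⟩ <;>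
        rcases hr' with ⟨h1', h3'⟩ | ⟨h1', h3', ℓ', η', hℓ', hℓπ', hη', hG', hwe', hw1e', hℓ2'⟩
      · rw [← h1, ← h1', h2]
      · exfalso
        rw [← h2, h1, ← heq] at h3'
        have h9 : (2 : ℝ) • Lam F c (x, w) = 0 := by
          rw [two_smul]; nth_rw 1 [h3']; simp
        exact hLne ((smul_eq_zero.1 h9).resolve_left two_ne_zero)
      · exfalso
        rw [h2, h1', ← heq] at h3
        have h9 : (2 : ℝ) • Lam F c (x, w) = 0 := by
          rw [two_smul]; nth_rw 1 [h3]; simp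
        exact hLne ((smul_eq_zero.1 h9).resolve_left two_ne_zero)
      · -- `(ℓ - π) η = (ℓ' - π) η'`
        rw [hw1e, hw1e'] at h2
        have h4 : (ℓ - Real.pi) ^ 2 = (ℓ' - Real.pi) ^ 2 := by
          rw [← GG_smul_unit F hp hf hc hG, h2, GG_smul_unit F hp hf hc hG']
        have h5 : ℓ = ℓ' := by nlinarith
        have h6 : ℓ - Real.pi ≠ 0 := by linarith
        rw [← h5] at h2
        have h7 : η = η' := smul_right_injective _ h6 h2
        rw [hwe, hwe', h5, h7]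

/-- **surjectivity** -/
theorem Lam_surj {x y : Eu (n + 1)} (hx : ‖x‖ = 1) (hy : ‖y‖ = 1) (hxy : y ≠ -x) :
    ∃ w, ⟪x, w⟫ = 0 ∧ GG F c x w w < Real.pi ^ 2 ∧ Lam F c (x, w) = y := by
  have hx0 := ne_zero_of_unit hx
  have hπ := Real.pi_pos
  obtain ⟨v, hv, hvn, hve⟩ := hf.bl.exists_Exp (k0_mem F hp (c := c) x) (k0_mem F hp (c := c) y)
  obtain ⟨w, hw, hwv⟩ := exists_Kd F hp hf hc hx0 hv
  have hvπ : ‖v‖ ≤ Real.pi := by
    rw [hvn]; exact hf.bl.dist_le _ (k0_mem F hp x) _ (k0_mem F hp y)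
  have hk : k0 F c (Lam F c (x, w)) = k0 F c y := by
    rw [k0_Lam F hp hf hc hx0, hwv, hve]
  have hGw : GG F c x w w = ‖v‖ ^ 2 / c ^ 2 := by
    rw [GG_orth F hx hw, real_inner_self_eq_norm_sq, hwv]
  have hfib := k0_fibre F hp hf (by rw [norm_Lam F hp hf hc hx0, hx]) hy hk
  rcases hf.cases with hc1 | ⟨hc2, hn2, hlink⟩
  · rcases hfib with h1 | ⟨h1, -⟩
    · refine ⟨w, hw, ?_, h1.symm⟩
      have h2 : GG F c x w w ≤ Real.pi ^ 2 := by
        rw [hGw, hc1]
        simp only [one_pow, div_one]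
        exact pow_le_pow_left₀ (norm_nonneg _) hvπ 2
      rcases h2.eq_or_lt with h3 | h3
      · exact absurd (by rw [h1, Lam_half F hp hf hc hx hw h3]) hxy
      · exact h3
    · rw [hc1] at h1; norm_num at h1
  · have h2 : GG F c x w w < Real.pi ^ 2 := by
      rw [hGw, hc2]
      have := pow_le_pow_left₀ (norm_nonneg _) hvπ 2
      nlinarith [sq_nonneg ‖v‖, pow_pos hπ 2]
    rcases hfib with h1 | ⟨-, h1⟩
    · exact ⟨w, hw, h2, h1.symm⟩
    · have hw0 : w ≠ 0 := by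
        rintro rfl
        rw [Lam_zero F hp hf hc hx0] at h1
        exact hxy h1
      obtain ⟨ℓ, η, hℓ, hη, hG, rfl, hℓ2⟩ := exists_unit_len F hp hf hc hx hw hw0
      have h3 : ℓ < Real.pi := by
        rw [hℓ2] at h2; exact lt_of_pow_lt_pow_left₀ 2 hπ.le h2
      refine ⟨(ℓ - Real.pi) • η, by rw [inner_smul_right, hη, mul_zero], ?_, ?_⟩
      · rw [GG_smul_unit F hp hf hc hG]; nlinarith
      · have h4 := Lam_shift F hp hf hc hx hη hG (ℓ - Real.pi)
        rw [sub_add_cancel] at h4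
        rw [h1, h4, neg_neg]

/-! ### the antipodal map is an isometry -/

lemma norm_Kd_neg {X : Eu (n + 1)} (hX : X ≠ 0) (a : Eu (n + 1)) :
    ‖Kd F c (-X) a‖ = ‖Kd F c X a‖ := by
  have hmX : -X ≠ 0 := neg_ne_zero.2 hX
  -- reduction to `a ⟂ X`
  have key : ∀ a : Eu (n + 1), ⟪X, a⟫ = 0 → ‖Kd F c (-X) a‖ = ‖Kd F c X a‖ := by
    intro a ha
    by_cases hv0 : Kd F c X a = 0
    · have h1 := Kd_inj F hp hf hc hX hv0 ha
      rw [h1, map_zero, map_zero]
    set v := Kd F c X a with hv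
    have hvn : 0 < ‖v‖ := norm_pos_iff.2 hv0
    have hvT : v ∈ G.T (k0 F c X) := Kd_mem F hp hf hX a
    have hz : (k0 F c X, v) ∈ TS G := ⟨k0_mem F hp X, hvT⟩
    set τ := c * Real.pi / ‖v‖ with hτ
    have h1 : ∀ t : ℝ, k0 F c (-Lam F c (X, t • a)) = (fl G ((k0 F c X, v), t + τ)).1 := by
      intro t
      have hL := Lam_ne F hp hf hc hX (t • a)
      have hzt := fl_mem G hz t
      have hnt : ‖(fl G ((k0 F c X, v), t)).2‖ = ‖v‖ := norm_fl G hz t
      have hk := k0_Lam_smul F hp hf hc hX a t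
      have h2 : ‖(‖v‖⁻¹ • (fl G ((k0 F c X, v), t)).2)‖ = 1 := by
        rw [norm_smul, hnt, norm_inv, norm_norm, inv_mul_cancel₀ hvn.ne']
      rw [← k0_half F hp hf hL (u := ‖v‖⁻¹ • (fl G ((k0 F c X, v), t)).2)
        (by rw [hk]; exact (G.T _).smul_mem _ hzt.2) h2, hk, smul_smul, Exp_smul G hzt.1 hzt.2]
      have h3 : c * Real.pi * ‖v‖⁻¹ = τ := by rw [hτ]; rfl
      rw [h3]
      change (fl G (fl G ((k0 F c X, v), t), τ)).1 = _
      rw [← fl_add' G hz]
    have h2 : HasDerivAt (fun t : ℝ => Lam F c (X, t • a)) a 0 := by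
      have := hasDerivAt_Lam F hp hf hc hX a 0
      rwa [Vel_zero F hp hf hc hX ha] at this
    have hk : HasFDerivAt (k0 F c) (Kd F c (-X)) ((fun t : ℝ => -Lam F c (X, t • a)) 0) := by
      simp only [zero_smul, Lam_zero F hp hf hc hX]
      exact ((contDiffAt_k0 F hp hf hmX).differentiableAt (by simp)).hasFDerivAt
    have h2' : HasDerivAt (fun t : ℝ => -Lam F c (X, t • a)) (-a) 0 := h2.neg
    have h3 := hk.comp_hasDerivAt (0 : ℝ) h2'
    have h4 : (k0 F c ∘ fun t : ℝ => -Lam F c (X, t • a))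
        = fun t : ℝ => (fl G ((k0 F c X, v), t + τ)).1 := by
      ext1 t; exact h1 t
    rw [h4] at h3
    have h5 := (hda_fst (hasDerivAt_fl G (complete G hz (0 + τ)))).comp_add_const 0 τ
    have h6 := h3.unique h5
    rw [map_neg] at h6
    rw [← norm_neg, h6]
    change ‖(fl G ((k0 F c X, v), 0 + τ)).2‖ = ‖v‖
    exact norm_fl G hz _
  have hXn : ‖X‖ ^ 2 ≠ 0 := by have := norm_pos_iff.2 hX; positivity
  set b := a - (⟪X, a⟫ / ‖X‖ ^ 2) • X with hb
  have hXb : ⟪X, b⟫ = 0 := by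
    rw [hb, inner_sub_right, inner_smul_right, real_inner_self_eq_norm_sq, div_mul_cancel₀ _ hXn,
      sub_self]
  have h1 : Kd F c X a = Kd F c X b := by
    rw [hb, map_sub, map_smul, Kd_self F hp hf hX, smul_zero, sub_zero]
  have h2 : Kd F c (-X) a = Kd F c (-X) b := by
    have h3 : Kd F c (-X) X = 0 := by
      have h4 := Kd_self F hp hf hmX
      rw [map_neg, neg_eq_zero] at h4
      exact h4
    rw [hb, map_sub, map_smul, h3, smul_zero, sub_zero]
  rw [h1, h2, key b hXb]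

lemma inner_Kd_neg {X : Eu (n + 1)} (hX : X ≠ 0) (a b : Eu (n + 1)) :
    ⟪Kd F c (-X) a, Kd F c (-X) b⟫ = ⟪Kd F c X a, Kd F c X b⟫ := by
  have h1 := norm_Kd_neg F hp hf hc hX (a + b)
  have h2 := norm_Kd_neg F hp hf hc hX a
  have h3 := norm_Kd_neg F hp hf hc hX b
  have h4 : ∀ u v : Euc N, ⟪u, v⟫ = (‖u + v‖ ^ 2 - ‖u‖ ^ 2 - ‖v‖ ^ 2) / 2 := by
    intro u v; rw [norm_add_sq_real]; ring
  rw [h4, h4, ← map_add, ← map_add, h1, h2, h3]

lemma GG_neg (X : Eu (n + 1)) : GG F c (-X) = GG F c X := by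
  by_cases hX : X = 0
  · rw [hX, neg_zero]
  ext1 a
  ext1 b
  rw [GG_apply, GG_apply, inner_Kd_neg F hp hf hc hX, norm_neg, inner_neg_left, inner_neg_left,
    neg_mul_neg]

/-- **The Wiedersehen structure of a Blaschke manifold of sphere or projective type.** -/
theorem exists_ws : ∃ W : WS (n + 1), W.G = GG F c :=
  ⟨{ G := GG F c
     Lam := Lam F c
     Vel := Vel F c
     G_symm := GG_symm F
     G_pos := GG_pos F hp hf hc
     G_smul := GG_smul F hp hf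
     G_neg := GG_neg F hp hf hc
     G_smooth := fun X hX => contDiffAt_GG F hp hf hX
     G_radial := GG_radial F hp hf hc
     Lam_smooth := fun X w hX => contDiffAt_Lam F hp hf hc hX
     hasDeriv_Lam := fun x w t hx _ => hasDerivAt_Lam F hp hf hc (ne_zero_of_unit hx) w t
     norm_Lam := fun x w hx _ => by rw [norm_Lam F hp hf hc (ne_zero_of_unit hx), hx]
     Lam_zero := fun x hx => Lam_zero F hp hf hc (ne_zero_of_unit hx)
     Vel_zero := fun x w hx hw => Vel_zero F hp hf hc (ne_zero_of_unit hx) hw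
     flow := fun x w s t hx _ => Lam_flow F hp hf hc hx s t
     speed := fun x w t hx hw => GG_Vel F hp hf hc hx hw t
     half := fun x w hx hw h => Lam_half F hp hf hc hx hw h
     inj := fun x w w' hx hw hw' h h' heq => Lam_inj F hp hf hc hx hw hw' h h' heq
     surj := fun x y hx hy hxy => Lam_surj F hp hf hc hx hy hxy
     nonconj := fun x w u hx hw hu h h0 => Lam_nonconj F hp hf hc hx hw hu h h0
     gauss := fun x w u hx hw _ => Lam_gauss F hp hf hc hx hw }, rfl⟩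

omit hp hf hc in
/-- sphere type -/
theorem exists_ws_one (hB : Bl n N κ S G Real.pi) (hT : I.Typ G n) :
    ∃ (p : Euc N) (_ : p ∈ S) (F : Fr G p) (W : WS (n + 1)), W.G = GG F 1 := by
  obtain ⟨p, hp⟩ := hB.conn.nonempty
  obtain ⟨F⟩ := exists_fr hB hp
  obtain ⟨W, hW⟩ := exists_ws F hp (hf_one hB hT) one_pos
  exact ⟨p, hp, F, W, hW⟩

omit hp hf hc in
/-- projective type -/
theorem exists_ws_two (hB : Bl n N κ S G Real.pi) (hT : I.Typ G 1) (hn : 2 ≤ n) :
    ∃ (p : Euc N) (_ : p ∈ S) (F : Fr G p) (W : WS (n + 1)), W.G = GG F 2 := by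
  obtain ⟨p, hp⟩ := hB.conn.nonempty
  obtain ⟨F⟩ := exists_fr hB hp
  obtain ⟨W, hW⟩ := exists_ws F hp (hf_two hB hT hn) two_pos
  exact ⟨p, hp, F, W, hW⟩

end Crest.Agent.R208.GH
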