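import Mathlib

/-!
Row 208, block GK (helper107), part GK1: the division on `D = Z / S¹`, pure algebra:
the odd power sums of `T_J` on `Z`, and (H1), (H2).
-/

set_option autoImplicit false

open Finset

namespace Crest.Agent.R208.GK

variable {A B : Type*} [CommRing A] [Algebra ℂ A] [CommRing B] [Algebra ℂ B]

theorem map_s (φ : A →ₐ[ℂ] B) {ξ : A} (hξ : φ ξ = 0) {t s : ℕ → A}
    (hs : ∀ j, s j = ∑ i ∈ range (j + 1), (j.choose i : A) * t i * ξ ^ (j - i)) (j : ℕ) :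
    φ (s j) = φ (t j) := by
  rw [hs, map_sum, sum_range_succ, Finset.sum_eq_zero, zero_add]
  · rw [Nat.choose_self, Nat.sub_self, pow_zero, mul_one, Nat.cast_one, one_mul]
  · intro i hi
    rw [mem_range] at hi
    rw [map_mul, map_pow, hξ, zero_pow (by omega), mul_zero]

variable {Gr : ℕ → Submodule ℂ A}

theorem pow_mem' (h1 : (1 : A) ∈ Gr 0)
    (hmul : ∀ i j : ℕ, ∀ a b : A, a ∈ Gr i → b ∈ Gr j → a * b ∈ Gr (i + j)) {l : ℕ} {y : A}
    (hy : y ∈ Gr l) (a : ℕ) : y ^ a ∈ Gr (l * a) := by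
  induction a with
  | zero => rw [pow_zero, mul_zero]; exact h1
  | succ a ih =>
    rw [pow_succ, mul_add, mul_one]
    exact hmul _ _ _ _ ih hy

theorem nat_mul_mem {j : ℕ} {y : A} (hy : y ∈ Gr j) (c : ℕ) : (c : A) * y ∈ Gr j := by
  rw [← nsmul_eq_mul]; exact (Gr j).smul_of_tower_mem c hy

theorem mem_cast {i j : ℕ} {y : A} (hy : y ∈ Gr i) (h : i = j) : y ∈ Gr j := h ▸ hy

section A

variable (φ : A →ₐ[ℂ] B) {l M : ℕ} {ξ x1 x2 e : A} {x w : B}

/-- **Conclusion A** -/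
theorem odd_sum (hl : 1 ≤ l) (hxe : x1 - x2 = ξ * e) (hφξ : φ ξ = 0) (hφ1 : φ x1 = x)
    (hφ2 : φ x2 = x) (hφe : φ e = w) (h1 : (1 : A) ∈ Gr 0)
    (hmul : ∀ i j : ℕ, ∀ a b : A, a ∈ Gr i → b ∈ Gr j → a * b ∈ Gr (i + j)) (hξ : ξ ∈ Gr 1)
    (hx1 : x1 ∈ Gr l) (hx2 : x2 ∈ Gr l) (he : e ∈ Gr (l - 1))
    (div : ∀ j < M, ∀ b ∈ Gr j, b * ξ = 0 → b = 0) {t s : ℕ → A} (ht : ∀ j, t j ∈ Gr j)
    (hs : ∀ j, s j = ∑ i ∈ range (j + 1), (j.choose i : A) * t i * ξ ^ (j - i))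
    {σ : ℕ → ℂ} {v : ℕ → A}
    (hT : ∀ i, 1 ≤ i → 2 * i ≤ M →
      2 * t (2 * i) = (if l ∣ 2 * i then σ (2 * i / l) • x2 ^ (2 * i / l) else 0) - v (2 * i))
    (hF : ∀ i, 1 ≤ i → 2 * i ≤ M →
      2 * s (2 * i) = (if l ∣ 2 * i then σ (2 * i / l) • x1 ^ (2 * i / l) else 0) - v (2 * i))
    (i : ℕ) (hi : 1 ≤ i) (hM : 2 * i ≤ M) :
    φ (t (2 * i - 1)) =
      if l ∣ 2 * i then (σ (2 * i / l) / (2 * l)) • (w * x ^ (2 * i / l - 1)) else 0 := by
  obtain ⟨q, hq⟩ : ∃ q, 2 * i = q + 1 := ⟨2 * i - 1, by omega⟩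
  have hT' := hT i hi hM
  have hF' := hF i hi hM
  have hpos : (0 : ℝ) < 2 * i := by positivity
  rw [hq] at hT' hF' ⊢
  rw [Nat.add_sub_cancel]
  -- the quotient
  set Q : A := ∑ j ∈ range (q + 1), ((q + 1).choose j : A) * t j * ξ ^ (q - j) with hQ
  have hst : s (q + 1) - t (q + 1) = ξ * Q := by
    rw [hs (q + 1), sum_range_succ, Nat.choose_self, Nat.sub_self, pow_zero, mul_one, Nat.cast_one,
      one_mul, add_sub_cancel_right, hQ, mul_sum]
    refine sum_congr rfl fun j hj => ?_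
    rw [mem_range] at hj
    have e1 : q + 1 - j = (q - j) + 1 := by omega
    rw [e1, pow_succ]; ring
  have hQm : Q ∈ Gr q := by
    refine Submodule.sum_mem _ fun j hj => ?_
    rw [mem_range] at hj
    have e1 : ξ ^ (q - j) ∈ Gr (q - j) := by
      have := pow_mem' h1 hmul hξ (q - j)
      rwa [one_mul] at this
    have e2 := hmul _ _ _ _ (nat_mul_mem (ht j) ((q + 1).choose j)) e1
    exact mem_cast e2 (by omega)
  have hφQ : φ Q = ((q + 1 : ℕ) : B) * φ (t q) := by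
    rw [hQ, map_sum, sum_range_succ, Finset.sum_eq_zero, zero_add]
    · rw [Nat.sub_self, pow_zero, mul_one, map_mul, map_natCast, Nat.choose_succ_self_right]
    · intro j hj
      rw [mem_range] at hj
      rw [map_mul, map_pow, hφξ, zero_pow (by omega), mul_zero]
  have hqc : ((q : ℂ) + 1) ≠ 0 := by exact_mod_cast Nat.succ_ne_zero q
  by_cases hd : l ∣ q + 1
  · rw [if_pos hd] at hT' hF' ⊢
    obtain ⟨a, ha⟩ := hd
    have ha0 : a ≠ 0 := by rintro rfl; omega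
    obtain ⟨a', rfl⟩ := Nat.exists_eq_succ_of_ne_zero ha0
    have hda : (q + 1) / l = a' + 1 := by
      rw [ha]; exact Nat.mul_div_cancel_left _ (by omega)
    rw [hda] at hT' hF' ⊢
    rw [Nat.add_sub_cancel]
    set H : A := ∑ b ∈ range (a' + 1), x1 ^ b * x2 ^ (a' + 1 - 1 - b) with hH
    have hg : x1 ^ (a' + 1) - x2 ^ (a' + 1) = ξ * (e * H) := by
      rw [← geom_sum₂_mul, hxe]; ring
    have hHm : e * H ∈ Gr q := by
      have e1 : H ∈ Gr (l * a') := by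
        refine Submodule.sum_mem _ fun b hb => ?_
        rw [mem_range] at hb
        have e2 := hmul _ _ _ _ (pow_mem' h1 hmul hx1 b) (pow_mem' h1 hmul hx2 (a' + 1 - 1 - b))
        refine mem_cast e2 ?_
        rw [← mul_add]; congr 1; omega
      refine mem_cast (hmul _ _ _ _ he e1) ?_
      have h3 : q + 1 = l * (a' + 1) := ha
      have h4 : l * (a' + 1) = l * a' + l := by ring
      omega
    have hz : (2 * Q - σ (a' + 1) • (e * H)) * ξ = 0 := by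
      have e1 : 2 * (s (q + 1) - t (q + 1)) = σ (a' + 1) • (x1 ^ (a' + 1) - x2 ^ (a' + 1)) := by
        rw [mul_sub, hT', hF', smul_sub]; ring
      rw [hst, hg, ← mul_smul_comm] at e1
      linear_combination e1
    have hz2 := div q (by omega) _ (Submodule.sub_mem _ (by
      have := nat_mul_mem hQm 2
      exact_mod_cast this) ((Gr q).smul_mem _ hHm)) hz
    have hz3 := congrArg φ hz2
    have hφH : φ H = ((a' + 1 : ℕ) : B) * x ^ a' := by
      rw [hH, map_sum]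
      have : ∀ b ∈ range (a' + 1), φ (x1 ^ b * x2 ^ (a' + 1 - 1 - b)) = x ^ a' := by
        intro b hb
        rw [mem_range] at hb
        rw [map_mul, map_pow, map_pow, hφ1, hφ2, ← pow_add]
        congr 1; omega
      rw [sum_congr rfl this, sum_const, card_range, nsmul_eq_mul]
    rw [map_sub, map_mul, map_smul, map_mul, hφQ, hφH, hφe, map_zero, map_ofNat, sub_eq_zero] at hz3
    have hlc : (l : ℂ) ≠ 0 := by exact_mod_cast (show l ≠ 0 by omega)
    have hac : ((a' : ℂ) + 1) ≠ 0 := by exact_mod_cast Nat.succ_ne_zero a'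
    have hqa : ((q : ℂ) + 1) = l * (a' + 1) := by exact_mod_cast ha
    -- scalars
    have e3 : (2 * ((q : ℂ) + 1)) • φ (t q) = (σ (a' + 1) * ((a' : ℂ) + 1)) • (w * x ^ a') := by
      have f1 : (2 * ((q : ℂ) + 1)) • φ (t q) = 2 * (((q + 1 : ℕ) : B) * φ (t q)) := by
        rw [Algebra.smul_def, map_mul, map_add, map_one, map_natCast, map_ofNat]
        push_cast
        ring
      have f2 : (σ (a' + 1) * ((a' : ℂ) + 1)) • (w * x ^ a') =
          σ (a' + 1) • (w * (((a' + 1 : ℕ) : B) * x ^ a')) := by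
        rw [mul_smul]
        congr 1
        rw [Algebra.smul_def, map_add, map_one, map_natCast]
        push_cast
        ring
      rw [f1, f2, hz3]
    have e4 : φ (t q) = (2 * ((q : ℂ) + 1))⁻¹ • ((2 * ((q : ℂ) + 1)) • φ (t q)) := by
      rw [smul_smul, inv_mul_cancel₀ (mul_ne_zero two_ne_zero hqc), one_smul]
    rw [e4, e3, smul_smul]
    congr 1
    rw [hqa]
    field_simp
  · rw [if_neg hd] at hT' hF' ⊢
    have hz : (2 * Q) * ξ = 0 := by
      have e1 : 2 * (s (q + 1) - t (q + 1)) = 0 := by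
        rw [mul_sub, hT', hF']; ring
      rw [hst] at e1
      linear_combination e1
    have hz2 := div q (by omega) _ (by
      have := nat_mul_mem hQm 2
      exact_mod_cast this) hz
    have hz3 := congrArg φ hz2
    rw [map_mul, hφQ, map_zero, map_ofNat] at hz3
    have e3 : (2 * ((q : ℂ) + 1)) • φ (t q) = 0 := by
      have f1 : (2 * ((q : ℂ) + 1)) • φ (t q) = 2 * (((q + 1 : ℕ) : B) * φ (t q)) := by
        rw [Algebra.smul_def, map_mul, map_add, map_one, map_natCast, map_ofNat]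
        push_cast
        ring
      rw [f1, hz3]
    have e4 : φ (t q) = (2 * ((q : ℂ) + 1))⁻¹ • ((2 * ((q : ℂ) + 1)) • φ (t q)) := by
      rw [smul_smul, inv_mul_cancel₀ (mul_ne_zero two_ne_zero hqc), one_smul]
    rw [e4, e3, smul_zero]

end A

/-! ### the top and the next Chern class -/

theorem sum_succ (m : ℕ) : ∑ b ∈ range m, (b + 1) = (m + 1).choose 2 := by
  induction m with
  | zero => rfl
  | succ m ih =>
    rw [sum_range_succ, ih, Nat.choose_succ_succ (m + 1) 1, Nat.choose_one_right]; ring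

/-- `∑ (b+1)(m-1-b) = C(m+1,3)` -/
theorem sum_succ_mul (m : ℕ) : ∑ b ∈ range m, (b + 1) * (m - b) = (m + 2).choose 3 := by
  induction m with
  | zero => rfl
  | succ m ih =>
    have h1 : ∑ b ∈ range (m + 1), (b + 1) * (m + 1 - b) =
        ∑ b ∈ range (m + 1), (b + 1) * (m - b) + ∑ b ∈ range (m + 1), (b + 1) := by
      rw [← sum_add_distrib]
      refine sum_congr rfl fun b hb => ?_
      rw [mem_range] at hb
      have : m + 1 - b = (m - b) + 1 := by omega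
      rw [this]; ring
    rw [h1, sum_range_succ (fun b => (b + 1) * (m - b)), ih, Nat.sub_self, mul_zero, add_zero,
      sum_succ, Nat.choose_succ_succ (m + 2) 2]
    ring

omit [Algebra ℂ A] in
/-- the division of the difference of the two top classes -/
theorem diff_div (x1 x2 : A) (m : ℕ) :
    ∑ b ∈ range (m + 1), ((b + 1 : ℕ) : A) * (x1 ^ b * x2 ^ (m - b)) -
      ∑ b ∈ range (m + 1), ((b + 1 : ℕ) : A) * (x2 ^ b * x1 ^ (m - b)) =
    (x1 - x2) * ∑ b ∈ range m, (((b + 1) * (m - b) : ℕ) : A) * (x1 ^ b * x2 ^ (m - 1 - b)) := by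
  have h1 : ∑ b ∈ range (m + 1), ((b + 1 : ℕ) : A) * (x2 ^ b * x1 ^ (m - b)) =
      ∑ b ∈ range (m + 1), ((m - b + 1 : ℕ) : A) * (x1 ^ b * x2 ^ (m - b)) := by
    rw [← Finset.sum_range_reflect]
    refine sum_congr rfl fun b hb => ?_
    rw [mem_range] at hb
    have e1 : m + 1 - 1 - b = m - b := by omega
    have e2 : m - (m - b) = b := by omega
    rw [e1, e2]; ring
  have h2 : x1 * ∑ b ∈ range m, (((b + 1) * (m - b) : ℕ) : A) * (x1 ^ b * x2 ^ (m - 1 - b)) =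
      ∑ b ∈ range (m + 1), ((b * (m + 1 - b) : ℕ) : A) * (x1 ^ b * x2 ^ (m - b)) := by
    rw [sum_range_succ', Nat.zero_mul, Nat.cast_zero, zero_mul, add_zero, mul_sum]
    refine sum_congr rfl fun b hb => ?_
    rw [mem_range] at hb
    have e1 : m + 1 - (b + 1) = m - b := by omega
    have e2 : m - (b + 1) = m - 1 - b := by omega
    rw [e1, e2, pow_succ]; ring
  have h3 : x2 * ∑ b ∈ range m, (((b + 1) * (m - b) : ℕ) : A) * (x1 ^ b * x2 ^ (m - 1 - b)) =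
      ∑ b ∈ range (m + 1), (((b + 1) * (m - b) : ℕ) : A) * (x1 ^ b * x2 ^ (m - b)) := by
    rw [sum_range_succ (fun b => (((b + 1) * (m - b) : ℕ) : A) * (x1 ^ b * x2 ^ (m - b))),
      Nat.sub_self, mul_zero, Nat.cast_zero, zero_mul, add_zero, mul_sum]
    refine sum_congr rfl fun b hb => ?_
    rw [mem_range] at hb
    have e1 : m - b = (m - 1 - b) + 1 := by omega
    rw [e1, pow_succ]; ring
  rw [h1, sub_mul, h2, h3, ← sum_sub_distrib, ← sum_sub_distrib]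
  refine sum_congr rfl fun b hb => ?_
  rw [mem_range] at hb
  obtain ⟨d, rfl⟩ : ∃ d, m = b + d := ⟨m - b, by omega⟩
  have e1 : b + d - b = d := by omega
  have e2 : b + d + 1 - b = d + 1 := by omega
  rw [e1, e2]
  push_cast
  ring

section Bt

variable (φ : A →ₐ[ℂ] B) {l M : ℕ} {ξ x1 x2 e : A} {x w : B}

/-- the value of the top class -/
theorem map_top {κ : ℂ} {m : ℕ} {y1 y2 : A} (h1 : φ y1 = x) (h2 : φ y2 = x) :
    φ (κ • ∑ b ∈ range (m + 1), ((b + 1 : ℕ) : A) * (y1 ^ b * y2 ^ (m - b))) =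
      (κ * ((m + 2).choose 2 : ℂ)) • x ^ m := by
  rw [map_smul, map_sum]
  have h : ∀ b ∈ range (m + 1), φ (((b + 1 : ℕ) : A) * (y1 ^ b * y2 ^ (m - b))) =
      ((b + 1 : ℕ) : B) * x ^ m := by
    intro b hb
    rw [mem_range] at hb
    rw [map_mul, map_mul, map_pow, map_pow, h1, h2, ← pow_add, map_natCast]
    congr 2; omega
  rw [sum_congr rfl h, ← sum_mul, ← Nat.cast_sum, sum_succ, mul_smul]
  congr 1
  rw [Algebra.smul_def, map_natCast]

theorem map_H {m : ℕ} {y1 y2 : A} (h1 : φ y1 = x) (h2 : φ y2 = x) :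
    φ (∑ b ∈ range (m + 1), (((b + 1) * (m + 1 - b) : ℕ) : A) * (y1 ^ b * y2 ^ (m + 1 - 1 - b))) =
      (((m + 3).choose 3 : ℕ) : B) * x ^ m := by
  rw [map_sum]
  have h : ∀ b ∈ range (m + 1), φ ((((b + 1) * (m + 1 - b) : ℕ) : A) *
      (y1 ^ b * y2 ^ (m + 1 - 1 - b))) = (((b + 1) * (m + 1 - b) : ℕ) : B) * x ^ m := by
    intro b hb
    rw [mem_range] at hb
    rw [map_mul, map_mul, map_pow, map_pow, h1, h2, ← pow_add, map_natCast]
    congr 2; omega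
  rw [sum_congr rfl h, ← sum_mul, ← Nat.cast_sum, sum_succ_mul]

/-- **Conclusion B** (`m = m' + 2`) -/
theorem h12' (hl : 1 ≤ l) (m : ℕ) (hrM : l * (m + 1) ≤ M) (hxe : x1 - x2 = ξ * e) (hφξ : φ ξ = 0)
    (hφ1 : φ x1 = x) (hφ2 : φ x2 = x) (hφe : φ e = w) (h1 : (1 : A) ∈ Gr 0)
    (hmul : ∀ i j : ℕ, ∀ a b : A, a ∈ Gr i → b ∈ Gr j → a * b ∈ Gr (i + j)) (hξ : ξ ∈ Gr 1)
    (hx1 : x1 ∈ Gr l) (hx2 : x2 ∈ Gr l) (he : e ∈ Gr (l - 1))
    (div : ∀ j < M, ∀ b ∈ Gr j, b * ξ = 0 → b = 0) {c : ℕ → A} {c' : A}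
    (hcm : ∀ j, c j ∈ Gr j)
    (hc : c' = ∑ i ∈ range (l * (m + 1) + 1), c (l * (m + 1) - i) * ξ ^ i) {κ κ' : ℂ}
    (hF1 : c' = κ • ∑ b ∈ range (m + 2), ((b + 1 : ℕ) : A) * (x1 ^ b * x2 ^ (m + 1 - b)))
    (hT1 : c (l * (m + 1)) =
      κ' • ∑ b ∈ range (m + 2), ((b + 1 : ℕ) : A) * (x2 ^ b * x1 ^ (m + 1 - b)))
    (hx : ∀ z : ℂ, z • x ^ (m + 1) = 0 → z = 0) :
    κ' = κ ∧ φ (c (l * (m + 1))) = (κ * ((m + 3).choose 2 : ℂ)) • x ^ (m + 1) ∧
      φ (c (l * (m + 1) - 1)) = (κ * ((m + 3).choose 3 : ℂ)) • (x ^ m * w) := by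
  have hr1 : 1 ≤ l * (m + 1) := Nat.one_le_iff_ne_zero.2 (by positivity)
  obtain ⟨q, hq⟩ : ∃ q, l * (m + 1) = q + 1 := ⟨l * (m + 1) - 1, by omega⟩
  have hlq : l - 1 + l * m = q := by
    have : l * (m + 1) = l * m + l := by ring
    omega
  have hφc' : φ c' = (κ * ((m + 3).choose 2 : ℂ)) • x ^ (m + 1) := by
    rw [hF1]; exact map_top φ hφ1 hφ2
  have hφc : φ (c (l * (m + 1))) = (κ' * ((m + 3).choose 2 : ℂ)) • x ^ (m + 1) := by
    rw [hT1]; exact map_top φ hφ2 hφ1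
  have hφcc : φ c' = φ (c (l * (m + 1))) := by
    rw [hc, map_sum, sum_range_succ', Finset.sum_eq_zero, zero_add, pow_zero, mul_one,
      Nat.sub_zero]
    intro i hi
    rw [map_mul, map_pow, hφξ, zero_pow (by omega), mul_zero]
  have hch : ((m + 3).choose 2 : ℂ) ≠ 0 := by
    exact_mod_cast (Nat.choose_pos (by omega)).ne'
  have hκ : κ' = κ := by
    have h2 : (κ' * ((m + 3).choose 2 : ℂ) - κ * ((m + 3).choose 2 : ℂ)) • x ^ (m + 1) = 0 := by
      rw [sub_smul, ← hφc', ← hφc, hφcc, sub_self]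
    have h3 := hx _ h2
    have h4 : (κ' - κ) * ((m + 3).choose 2 : ℂ) = 0 := by rw [sub_mul]; exact h3
    rcases mul_eq_zero.1 h4 with h5 | h5
    · exact sub_eq_zero.1 h5
    · exact absurd h5 hch
  refine ⟨hκ, by rw [hφc, hκ], ?_⟩
  subst hκ
  -- the remainder
  set R' : A := ∑ i ∈ range q, c (q - (i + 1)) * ξ ^ i with hR'
  have hcr : c' - c (q + 1) = ξ * (c q + ξ * R') := by
    rw [hc, hq, sum_range_succ', pow_zero, mul_one, Nat.sub_zero, add_sub_cancel_right,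
      sum_range_succ', hR', mul_sum]
    rw [mul_add, mul_sum]
    rw [add_comm]
    congr 1
    · rw [pow_one, mul_comm]; congr 2
    · refine sum_congr rfl fun i hi => ?_
      have e1 : q + 1 - (i + 1 + 1) = q - (i + 1) := by omega
      rw [e1, pow_succ, pow_succ]; ring
  have hR'm : ξ * R' ∈ Gr q := by
    rw [hR', mul_sum]
    refine Submodule.sum_mem _ fun i hi => ?_
    rw [mem_range] at hi
    have e1 : ξ ^ i ∈ Gr i := by
      have := pow_mem' h1 hmul hξ i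
      rwa [one_mul] at this
    exact mem_cast (hmul _ _ _ _ hξ (hmul _ _ _ _ (hcm (q - (i + 1))) e1)) (by omega)
  set H : A := ∑ b ∈ range (m + 1), (((b + 1) * (m + 1 - b) : ℕ) : A) *
    (x1 ^ b * x2 ^ (m + 1 - 1 - b)) with hH
  have hHm : e * H ∈ Gr q := by
    have e1 : H ∈ Gr (l * m) := by
      refine Submodule.sum_mem _ fun b hb => ?_
      rw [mem_range] at hb
      have e2 := hmul _ _ _ _ (pow_mem' h1 hmul hx1 b) (pow_mem' h1 hmul hx2 (m + 1 - 1 - b))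
      refine nat_mul_mem (mem_cast e2 ?_) _
      rw [← mul_add]; congr 1; omega
    exact mem_cast (hmul _ _ _ _ he e1) hlq
  have hdiff : c' - c (q + 1) = κ' • (ξ * (e * H)) := by
    rw [hF1, ← hq, hT1, ← smul_sub, diff_div x1 x2 (m + 1), hxe, mul_assoc]
  have hz : (c q + ξ * R' - κ' • (e * H)) * ξ = 0 := by
    rw [hcr, ← mul_smul_comm] at hdiff
    linear_combination hdiff
  have hz2 := div q (by omega) _ (Submodule.sub_mem _ (Submodule.add_mem _ (hcm q) hR'm)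
    ((Gr q).smul_mem _ hHm)) hz
  have hz3 := congrArg φ hz2
  rw [map_sub, map_add, map_mul, hφξ, zero_mul, add_zero, map_smul, map_mul, hφe, hH,
    map_H φ hφ1 hφ2, map_zero, sub_eq_zero] at hz3
  rw [hq, Nat.add_sub_cancel, hz3, mul_smul]
  congr 1
  rw [Algebra.smul_def, map_natCast]
  ring

/-- **Conclusion B** -/
theorem h12 (hl : 1 ≤ l) {m : ℕ} (hm : 2 ≤ m) (hrM : l * (m - 1) ≤ M) (hxe : x1 - x2 = ξ * e)
    (hφξ : φ ξ = 0)
    (hφ1 : φ x1 = x) (hφ2 : φ x2 = x) (hφe : φ e = w) (h1 : (1 : A) ∈ Gr 0)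
    (hmul : ∀ i j : ℕ, ∀ a b : A, a ∈ Gr i → b ∈ Gr j → a * b ∈ Gr (i + j)) (hξ : ξ ∈ Gr 1)
    (hx1 : x1 ∈ Gr l) (hx2 : x2 ∈ Gr l) (he : e ∈ Gr (l - 1))
    (div : ∀ j < M, ∀ b ∈ Gr j, b * ξ = 0 → b = 0) {c : ℕ → A} {c' : A}
    (hcm : ∀ j, c j ∈ Gr j) {r : ℕ} (hr : r = l * (m - 1))
    (hc : c' = ∑ i ∈ range (r + 1), c (r - i) * ξ ^ i) {κ κ' : ℂ}
    (hF1 : c' = κ • ∑ b ∈ range m, ((b + 1 : ℕ) : A) * (x1 ^ b * x2 ^ (m - 1 - b)))
    (hT1 : c r = κ' • ∑ b ∈ range m, ((b + 1 : ℕ) : A) * (x2 ^ b * x1 ^ (m - 1 - b)))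
    (hx : ∀ z : ℂ, z • x ^ (m - 1) = 0 → z = 0) :
    κ' = κ ∧ φ (c r) = (κ * ((m + 1).choose 2 : ℂ)) • x ^ (m - 1) ∧
      φ (c (r - 1)) = (κ * ((m + 1).choose 3 : ℂ)) • (x ^ (m - 2) * w) := by
  obtain ⟨m, rfl⟩ : ∃ m', m = m' + 2 := ⟨m - 2, by omega⟩
  subst hr
  exact h12' φ hl m hrM hxe hφξ hφ1 hφ2 hφe h1 hmul hξ hx1 hx2 he div hcm hc hF1 hT1 hx

end Bt

end Crest.Agent.R208.GK
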