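import Crest.Agent.R208.HHh

/-!
# (H1), (H2) in the normal form of GA / GQ5 (with `P_M` and its logarithmic derivative).
-/

namespace Crest.Agent.R208.HH

open Finset PowerSeries V2

noncomputable section

/-- the normal form: `PM = (1+μX+eX²)^(m+1)/(1+2μX)`, `c0² (1+2μX) = PM`, `L = θ log PM`. -/
structure Nf (m : ℕ) (κ : ℝ) (μ e : ℝ) (ε : ℂ) (PM c0 L D : PowerSeries ℂ) : Prop where
  ne : ε ≠ 0
  hPM : PM * (1 + C (2 * (μ : ℂ)) * X) = (1 + C (μ : ℂ) * X + C (e : ℂ) * X ^ 2) ^ (m + 1)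
  cc : constantCoeff c0 = 1
  sq : c0 ^ 2 * (1 + C (2 * (μ : ℂ)) * X) = PM
  hL : PM * L = X * d⁄dX ℂ PM
  hD : ∀ i : ℕ, ((κ : ℂ) * (i + 1) - 2) * coeff i D = -coeff (i + 1) L
  H1 : coeff (m - 1) c0 = ε * (m + 1).choose 2
  H2 : coeff (m - 2) (c0 * D) = ε * (m + 1).choose 3

/-- the logarithmic derivative of `P_M`. -/
theorem log_der (k : ℕ) (M e : ℂ) (PM L : PowerSeries ℂ)
    (hPM : PM * (1 + C (2 * M) * X) = (1 + C M * X + C e * X ^ 2) ^ (k + 1))
    (hL : PM * L = X * d⁄dX ℂ PM) :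
    L * ((1 + C M * X + C e * X ^ 2) * (1 + C (2 * M) * X))
      = C ((k : ℂ) + 1) * (C M * X + 2 * C e * X ^ 2) * (1 + C (2 * M) * X)
        - C (2 * M) * X * (1 + C M * X + C e * X ^ 2) := by
  have hq0 : constantCoeff (1 + C M * X + C e * X ^ 2 : PowerSeries ℂ) = 1 := by simp
  have hu0 : constantCoeff (1 + C (2 * M) * X : PowerSeries ℂ) = 1 := by simp
  have hPM0 : PM ≠ 0 := by
    rintro rfl
    rw [zero_mul] at hPM
    have := congrArg constantCoeff hPM
    rw [map_pow, hq0, one_pow, map_zero] at this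
    exact zero_ne_one this
  have c3 : (C (2 * M) : PowerSeries ℂ) = 2 * C M := by rw [map_mul, map_ofNat]
  have ck : (C ((k : ℂ) + 1) : PowerSeries ℂ) = (k : PowerSeries ℂ) + 1 := by
    rw [map_add, map_one, map_natCast]
  rw [c3] at hPM hu0 ⊢
  rw [ck]
  have dM : ∀ a : ℂ, d⁄dX ℂ (C a : PowerSeries ℂ) = 0 := fun a => derivative_C
  have d2 : d⁄dX ℂ (2 : PowerSeries ℂ) = 0 := by
    have : (2 : PowerSeries ℂ) = C (2 : ℂ) := by rw [map_ofNat]
    rw [this, derivative_C]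
  set q : PowerSeries ℂ := 1 + C M * X + C e * X ^ 2 with hq
  set u : PowerSeries ℂ := 1 + 2 * C M * X with hu
  have dq : d⁄dX ℂ q = C M + 2 * C e * X := by
    rw [hq, map_add, map_add, Derivation.leibniz, Derivation.leibniz, dM, dM, derivative_X,
      derivative_pow, derivative_X, derivative_one]
    simp only [smul_eq_mul]
    push_cast
    ring
  have du : d⁄dX ℂ u = 2 * C M := by
    rw [hu, map_add, Derivation.leibniz, Derivation.leibniz, dM, derivative_X, derivative_one, d2]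
    simp only [smul_eq_mul]
    ring
  have hu1 : u ≠ 0 := ne_zero_of_cc' hu0
  have hd : X * d⁄dX ℂ (PM * u) = X * d⁄dX ℂ (q ^ (k + 1)) := by rw [hPM]
  rw [Derivation.leibniz, derivative_pow, du, dq, Nat.add_sub_cancel] at hd
  simp only [smul_eq_mul] at hd
  apply mul_left_cancel₀ (mul_ne_zero hPM0 hu1)
  push_cast at hd
  clear_value q u
  rw [pow_succ] at hPM
  linear_combination (u ^ 2 * q) * hL + (q * u) * hd
    - ((k : PowerSeries ℂ) + 1) * (C M + 2 * C e * X) * X * u * hPM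
  
/-- **the contradiction in the normal form**, `k = 0 mod 4`. -/
theorem Nf.final {m : ℕ} (hm : 2 ≤ m) {κ : ℝ} (hκ : 8 ≤ κ) {μ : ℝ} {ε : ℂ}
    {PM c0 L D : PowerSeries ℂ} (h : Nf m κ μ 1 ε PM c0 L D) : κ = 8 ∧ m = 2 := by
  by_contra h82
  have hP := log_der m μ 1 PM L (by simpa using h.hPM) h.hL
  refine main_complex m hm κ hκ h82 μ ε h.ne c0 L D h.cc ?_ ?_ h.hD h.H1 h.H2
  · have h1 := h.hPM
    rw [Complex.ofReal_one, map_one, one_mul] at h1
    rw [← h1, ← h.sq]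
    ring
  · simpa using hP

/-- **the contradiction in the normal form**, `μ = 0` (`k = 2 mod 4`). -/
theorem Nf.final_two {m : ℕ} (hm : 2 ≤ m) {κ : ℝ} (hκ : 2 < κ) {e : ℝ} (he : e ≠ 0) {ε : ℂ}
    {PM c0 L D : PowerSeries ℂ} (h : Nf m κ 0 e ε PM c0 L D) : False := by
  have hP := log_der m 0 e PM L (by simpa using h.hPM) h.hL
  refine main_two_complex m hm κ hκ e he ε h.ne c0 L D h.cc ?_ ?_ h.hD h.H1 h.H2
  · have h1 := h.hPM
    have h2 := h.sq
    simp only [Complex.ofReal_zero, mul_zero, map_zero, zero_mul, add_zero, mul_one] at h1 h2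
    rw [h2, h1]
  · simp only [mul_zero, map_zero, zero_mul, add_zero, mul_one, zero_add, sub_zero] at hP
    rw [hP]
    simp only [map_mul, map_add, map_one, map_ofNat]
    ring

end

end Crest.Agent.R208.HH
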