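import Crest.Agent.R208.GK1
import Crest.Agent.R208.GA2
import Crest.Agent.R208.HHi

/-!
Row 208, block GK (helper107), part GK2: Conclusion C, the normal form `HH.Nf` from the data on
`D = Z / S¹` and its restriction to `Z`.
-/

set_option autoImplicit false

open Finset

namespace Crest.Agent.R208.GK

variable {A B : Type*} [CommRing A] [Algebra ℂ A] [CommRing B] [Algebra ℂ B]

/-- the data on `D` (algebra `A`) and its restriction to `Z` (algebra `B`) -/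
structure Dat (φ : A →ₐ[ℂ] B) (Gr : ℕ → Submodule ℂ A) (l M : ℕ) (ξ x1 x2 e : A) (x w : B)
    (t s v : ℕ → A) (σ : ℕ → ℂ) : Prop where
  hl : 1 ≤ l
  hxe : x1 - x2 = ξ * e
  hφξ : φ ξ = 0
  hφ1 : φ x1 = x
  hφ2 : φ x2 = x
  hφe : φ e = w
  one : (1 : A) ∈ Gr 0
  mul : ∀ i j : ℕ, ∀ a b : A, a ∈ Gr i → b ∈ Gr j → a * b ∈ Gr (i + j)
  hξ : ξ ∈ Gr 1
  hx1 : x1 ∈ Gr l
  hx2 : x2 ∈ Gr l
  he : e ∈ Gr (l - 1)
  div : ∀ j < M, ∀ b ∈ Gr j, b * ξ = 0 → b = 0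
  ht : ∀ j, t j ∈ Gr j
  hs : ∀ j, s j = ∑ i ∈ range (j + 1), (j.choose i : A) * t i * ξ ^ (j - i)
  hT : ∀ i, 1 ≤ i → 2 * i ≤ M →
    2 * t (2 * i) = (if l ∣ 2 * i then σ (2 * i / l) • x2 ^ (2 * i / l) else 0) - v (2 * i)
  hF : ∀ i, 1 ≤ i → 2 * i ≤ M →
    2 * s (2 * i) = (if l ∣ 2 * i then σ (2 * i / l) • x1 ^ (2 * i / l) else 0) - v (2 * i)

variable {φ : A →ₐ[ℂ] B} {Gr : ℕ → Submodule ℂ A} {l M : ℕ} {ξ x1 x2 e : A} {x w : B}
  {t s v : ℕ → A} {σ : ℕ → ℂ}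

namespace Dat

theorem odd_sum (h : Dat φ Gr l M ξ x1 x2 e x w t s v σ) (i : ℕ) (hi : 1 ≤ i) (hM : 2 * i ≤ M) :
    φ (t (2 * i - 1)) =
      if l ∣ 2 * i then (σ (2 * i / l) / (2 * l)) • (w * x ^ (2 * i / l - 1)) else 0 :=
  GK.odd_sum φ h.hl h.hxe h.hφξ h.hφ1 h.hφ2 h.hφe h.one h.mul h.hξ h.hx1 h.hx2 h.he h.div h.ht h.hs
    h.hT h.hF i hi hM

theorem map_s (h : Dat φ Gr l M ξ x1 x2 e x w t s v σ) (j : ℕ) : φ (s j) = φ (t j) :=
  GK.map_s φ h.hφξ h.hs j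

theorem even_sum (h : Dat φ Gr l M ξ x1 x2 e x w t s v σ) (i : ℕ) (hi : 1 ≤ i) (hM : 2 * i ≤ M) :
    2 * φ (t (2 * i)) =
      (if l ∣ 2 * i then σ (2 * i / l) • x ^ (2 * i / l) else 0) - φ (v (2 * i)) := by
  have h1 := congrArg φ (h.hT i hi hM)
  rw [map_mul, map_ofNat, map_sub] at h1
  rw [h1]
  congr 1
  split_ifs with hd
  · rw [map_smul, map_pow, h.hφ2]
  · rw [map_zero]

theorem t_mem_el (h : Dat φ Gr l M ξ x1 x2 e x w t s v σ) (j : ℕ) : CW.el t j ∈ Gr j := by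
  induction j using Nat.strong_induction_on with
  | _ j ih =>
    cases j with
    | zero => rw [CW.el_zero]; exact h.one
    | succ j =>
      have hc : ((j : ℂ) + 1) ≠ 0 := by exact_mod_cast Nat.succ_ne_zero j
      have h1 := CW.el_succ t j
      have h2 : ((j : A) + 1) * CW.el t (j + 1) = ((j : ℂ) + 1) • CW.el t (j + 1) := by
        rw [Algebra.smul_def, map_add, map_one, map_natCast]
      have h3 : CW.el t (j + 1) = ((j : ℂ) + 1)⁻¹ • (∑ i ∈ range (j + 1),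
          (-1) ^ i * CW.el t (j - i) * t (i + 1)) := by
        rw [← h1, h2, smul_smul, inv_mul_cancel₀ hc, one_smul]
      rw [h3]
      refine (Gr (j + 1)).smul_mem _ (Submodule.sum_mem _ fun i hi => ?_)
      rw [mem_range] at hi
      have h4 := h.mul _ _ _ _ (ih (j - i) (by omega)) (h.ht (i + 1))
      have h5 : (-1 : A) ^ i * CW.el t (j - i) * t (i + 1) =
          (-1 : ℂ) ^ i • (CW.el t (j - i) * t (i + 1)) := by
        rw [Algebra.smul_def, map_pow, map_neg, map_one]; ring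
      rw [h5]
      exact (Gr (j + 1)).smul_mem _ (mem_cast h4 (by omega))

theorem map_el (φ : A →ₐ[ℂ] B) (t : ℕ → A) (j : ℕ) :
    φ (CW.el t j) = CW.el (fun i => φ (t i)) j := CW.el_map (φ : A →+* B) t j

/-- the values of the power sums on `Z`, `l` even -/
theorem sums_even (h : Dat φ Gr l M ξ x1 x2 e x w t s v σ) (hle : Even l) {r : ℕ} (hrM : r + 1 ≤ M)
    {Q : PowerSeries ℂ} {μ : ℂ} (hl2 : 2 ≤ l)
    (hσ : ∀ i, 1 ≤ i → l * i ≤ r + 1 → σ i = -(l : ℂ) * PowerSeries.coeff i Q)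
    (hv : ∀ i, 1 ≤ i → l * i ≤ r → φ (v (l * i)) = ((l : ℂ) * (-(2 * μ)) ^ i) • x ^ i)
    (hv0 : ∀ j, 1 ≤ j → j ≤ r → Even j → ¬ l ∣ j → φ (v j) = 0) :
    (∀ i, 1 ≤ i → l * i ≤ r → φ (t (l * i)) =
      (-((l : ℂ) / 2) * (PowerSeries.coeff i Q + (-(2 * μ)) ^ i)) • x ^ i) ∧
    (∀ j, 1 ≤ j → j ≤ r → Even j → ¬ l ∣ j → φ (t j) = 0) ∧
    (∀ i, 1 ≤ i → l * i - 1 ≤ r →
      φ (t (l * i - 1)) = (-(1 / 2) * PowerSeries.coeff i Q) • (w * x ^ (i - 1))) ∧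
    (∀ j, 1 ≤ j → j ≤ r → Odd j → ¬ l ∣ j + 1 → φ (t j) = 0) := by
  have hlc : (l : ℂ) ≠ 0 := by exact_mod_cast (show l ≠ 0 by omega)
  have two_inv : ∀ b : B, b = (1 / 2 : ℂ) • (2 * b) := by
    intro b
    rw [Algebra.smul_def, ← mul_assoc]
    have : algebraMap ℂ B (1 / 2) * 2 = 1 := by
      rw [← map_ofNat (algebraMap ℂ B) 2, ← map_mul]; norm_num
    rw [this, one_mul]
  refine ⟨?_, ?_, ?_, ?_⟩
  · intro i hi hir
    obtain ⟨l', hl'⟩ := hle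
    have e1 : l * i = 2 * (l' * i) := by rw [hl']; ring
    have h1 := h.even_sum (l' * i) (by
      have : 0 < l' := by omega
      exact Nat.mul_pos this hi) (by omega)
    rw [← e1, if_pos (Dvd.intro i rfl), Nat.mul_div_cancel_left _ h.hl, hv i hi hir,
      hσ i hi (by omega)] at h1
    rw [two_inv (φ (t (l * i))), h1, ← sub_smul, smul_smul]
    congr 1
    ring
  · intro j hj hjr hje hd
    obtain ⟨j', hj'⟩ := hje
    have e1 : j = 2 * j' := by omega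
    have h1 := h.even_sum j' (by omega) (by omega)
    rw [← e1, if_neg hd, hv0 j hj hjr ⟨j', hj'⟩ hd, sub_zero] at h1
    rw [two_inv (φ (t j)), h1, smul_zero]
  · intro i hi hir
    obtain ⟨l', hl'⟩ := hle
    have e1 : l * i = 2 * (l' * i) := by rw [hl']; ring
    have hli : 1 ≤ l' * i := by
      have : 0 < l' := by omega
      exact Nat.mul_pos this hi
    have h1 := h.odd_sum (l' * i) hli (by omega)
    rw [← e1, if_pos (Dvd.intro i rfl), Nat.mul_div_cancel_left _ h.hl, hσ i hi (by omega)] at h1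
    rw [h1]
    congr 1
    field_simp
  · intro j hj hjr hjo hd
    obtain ⟨j', hj'⟩ := hjo
    have e1 : j = 2 * (j' + 1) - 1 := by omega
    have e2 : 2 * (j' + 1) = j + 1 := by omega
    have h1 := h.odd_sum (j' + 1) (by omega) (by omega)
    rw [← e1, e2, if_neg hd] at h1
    exact h1

/-- the values of the power sums on `Z`, `l` odd -/
theorem sums_odd (h : Dat φ Gr l M ξ x1 x2 e x w t s v σ) (_hlo : Odd l) {r : ℕ} (hrM : r + 1 ≤ M)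
    {Q : PowerSeries ℂ} (hl2 : 2 ≤ l)
    (hσ : ∀ i, 1 ≤ i → Even i → l * i ≤ r + 1 → σ i = -(l : ℂ) * PowerSeries.coeff i Q)
    (hv0 : ∀ j, 1 ≤ j → j ≤ r → Even j → φ (v j) = 0) :
    (∀ i, 1 ≤ i → l * i ≤ r → Even i → φ (t (l * i)) =
      (-((l : ℂ) / 2) * PowerSeries.coeff i Q) • x ^ i) ∧
    (∀ j, 1 ≤ j → j ≤ r → Even j → ¬ l ∣ j → φ (t j) = 0) ∧
    (∀ i, 1 ≤ i → l * i - 1 ≤ r → Even i →
      φ (t (l * i - 1)) = (-(1 / 2) * PowerSeries.coeff i Q) • (w * x ^ (i - 1))) ∧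
    (∀ j, 1 ≤ j → j ≤ r → Odd j → ¬ l ∣ j + 1 → φ (t j) = 0) := by
  have hlc : (l : ℂ) ≠ 0 := by exact_mod_cast (show l ≠ 0 by omega)
  have two_inv : ∀ b : B, b = (1 / 2 : ℂ) • (2 * b) := by
    intro b
    rw [Algebra.smul_def, ← mul_assoc]
    have : algebraMap ℂ B (1 / 2) * 2 = 1 := by
      rw [← map_ofNat (algebraMap ℂ B) 2, ← map_mul]; norm_num
    rw [this, one_mul]
  refine ⟨?_, ?_, ?_, ?_⟩
  · intro i hi hir hie
    obtain ⟨i', hi'⟩ := hie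
    have e1 : l * i = 2 * (l * i') := by rw [hi']; ring
    have h0 : 1 ≤ l * i' := Nat.mul_pos h.hl (by omega)
    have h1 := h.even_sum (l * i') h0 (by omega)
    rw [← e1, if_pos (Dvd.intro i rfl), Nat.mul_div_cancel_left _ h.hl,
      hv0 (l * i) (by omega) hir ⟨l * i', by omega⟩, sub_zero,
      hσ i hi ⟨i', hi'⟩ (by omega)] at h1
    rw [two_inv (φ (t (l * i))), h1, smul_smul]
    congr 1
    ring
  · intro j hj hjr hje hd
    obtain ⟨j', hj'⟩ := hje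
    have e1 : j = 2 * j' := by omega
    have h1 := h.even_sum j' (by omega) (by omega)
    rw [← e1, if_neg hd, hv0 j hj hjr ⟨j', hj'⟩, sub_zero] at h1
    rw [two_inv (φ (t j)), h1, smul_zero]
  · intro i hi hir hie
    obtain ⟨i', hi'⟩ := hie
    have e1 : l * i = 2 * (l * i') := by rw [hi']; ring
    have h0 : 1 ≤ l * i' := Nat.mul_pos h.hl (by omega)
    have h1 := h.odd_sum (l * i') h0 (by omega)
    rw [← e1, if_pos (Dvd.intro i rfl), Nat.mul_div_cancel_left _ h.hl,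
      hσ i hi ⟨i', hi'⟩ (by omega)] at h1
    rw [h1]
    congr 1
    field_simp
  · intro j hj hjr hjo hd
    obtain ⟨j', hj'⟩ := hjo
    have e1 : j = 2 * (j' + 1) - 1 := by omega
    have e2 : 2 * (j' + 1) = j + 1 := by omega
    have h1 := h.odd_sum (j' + 1) (by omega) (by omega)
    rw [← e1, e2, if_neg hd] at h1
    exact h1

/-- **(H1), (H2) on `Z`** -/
theorem h12 (h : Dat φ Gr l M ξ x1 x2 e x w t s v σ) {m r : ℕ} (hm : 2 ≤ m) (hr : r = l * (m - 1))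
    (hrM : r ≤ M)
    (hc : CW.el s r = ∑ i ∈ range (r + 1), CW.el t (r - i) * ξ ^ i) {κ κ' : ℂ}
    (hF1 : CW.el s r = κ • ∑ b ∈ range m, ((b + 1 : ℕ) : A) * (x1 ^ b * x2 ^ (m - 1 - b)))
    (hT1 : CW.el t r = κ' • ∑ b ∈ range m, ((b + 1 : ℕ) : A) * (x2 ^ b * x1 ^ (m - 1 - b)))
    (hx : ∀ z : ℂ, z • x ^ (m - 1) = 0 → z = 0) :
    κ' = κ ∧ CW.el (fun i => φ (t i)) r = (κ * ((m + 1).choose 2 : ℂ)) • x ^ (m - 1) ∧
      CW.el (fun i => φ (t i)) (r - 1) = (κ * ((m + 1).choose 3 : ℂ)) • (x ^ (m - 2) * w) := by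
  have h1 := GK.h12 φ h.hl hm (by rw [← hr]; exact hrM) h.hxe h.hφξ h.hφ1 h.hφ2 h.hφe h.one h.mul
    h.hξ h.hx1 h.hx2 h.he h.div (c := CW.el t) h.t_mem_el hr hc hF1 hT1 hx
  rwa [map_el, map_el] at h1

/-- **Conclusion C**, `l` even (`k = 2 l`) -/
theorem nf_even (h : Dat φ Gr l M ξ x1 x2 e x w t s v σ) (hl2 : 2 ≤ l) (hle : Even l) {m r : ℕ}
    (hm : 2 ≤ m) (hr : r = l * (m - 1)) (hrM : r + 1 ≤ M) (hw : w ^ 2 = 0) {μ : ℝ}
    {PM L : PowerSeries ℂ}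
    (hPM : PM * (1 + PowerSeries.C (2 * (μ : ℂ)) * PowerSeries.X) =
      (1 + PowerSeries.C (μ : ℂ) * PowerSeries.X +
        PowerSeries.C (((1 : ℝ) : ℂ)) * PowerSeries.X ^ 2) ^ (m + 1))
    (hL : PM * L = PowerSeries.X * PowerSeries.derivative ℂ PM)
    (hσ : ∀ i, 1 ≤ i → i ≤ m - 1 → σ i = -(l : ℂ) * PowerSeries.coeff i L)
    (hv : ∀ i, 1 ≤ i → l * i ≤ r → φ (v (l * i)) = ((l : ℂ) * (-(2 * (μ : ℂ))) ^ i) • x ^ i)
    (hv0 : ∀ j, 1 ≤ j → j ≤ r → Even j → ¬ l ∣ j → φ (v j) = 0)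
    (hc : CW.el s r = ∑ i ∈ range (r + 1), CW.el t (r - i) * ξ ^ i) {κ κ' : ℂ} (hκ : κ ≠ 0)
    (hF1 : CW.el s r = κ • ∑ b ∈ range m, ((b + 1 : ℕ) : A) * (x1 ^ b * x2 ^ (m - 1 - b)))
    (hT1 : CW.el t r = κ' • ∑ b ∈ range m, ((b + 1 : ℕ) : A) * (x2 ^ b * x1 ^ (m - 1 - b)))
    (hx : ∀ z : ℂ, z • x ^ (m - 1) = 0 → z = 0)
    (hxw : ∀ z : ℂ, z • (x ^ (m - 2) * w) = 0 → z = 0) :
    ∃ c0 D : PowerSeries ℂ, HH.Nf m ((2 * l : ℕ) : ℝ) μ 1 κ PM c0 L D := by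
  have hQ := HH.log_der m (μ : ℂ) ((1 : ℝ) : ℂ) PM L hPM hL
  have hQ' : L * ((1 + PowerSeries.C (μ : ℂ) * PowerSeries.X + PowerSeries.X ^ 2) *
      (1 + PowerSeries.C (2 * (μ : ℂ)) * PowerSeries.X)) =
      PowerSeries.C ((m : ℂ) + 1) * (PowerSeries.C (μ : ℂ) * PowerSeries.X +
        2 * PowerSeries.X ^ 2) * (1 + PowerSeries.C (2 * (μ : ℂ)) * PowerSeries.X)
        - PowerSeries.C (2 * (μ : ℂ)) * PowerSeries.X *
          (1 + PowerSeries.C (μ : ℂ) * PowerSeries.X + PowerSeries.X ^ 2) := by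
    simpa using hQ
  have hσ' : ∀ i, 1 ≤ i → l * i ≤ r + 1 → σ i = -(l : ℂ) * PowerSeries.coeff i L := by
    intro i hi hir
    refine hσ i hi ?_
    by_contra hcon
    have h3 : l * (m - 1 + 1) ≤ l * i := Nat.mul_le_mul_left _ (by omega)
    rw [mul_add, mul_one, ← hr] at h3
    omega
  obtain ⟨h1, h2, h3, h4⟩ := h.sums_even hle hrM hl2 hσ' hv hv0
  obtain ⟨c₀, D, g1, g2, g3, g4, g5⟩ := GA.main_even l m r hl2 hle hm hr (μ : ℂ) hw hQ'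
    (s := fun i => φ (t i)) h1 h2 h3 h4
  obtain ⟨-, f1, f2⟩ := h.h12 hm hr (by omega) hc hF1 hT1 hx
  have hsq : c₀ ^ 2 * (1 + PowerSeries.C (2 * (μ : ℂ)) * PowerSeries.X) = PM := by
    have hu : (1 + PowerSeries.C (2 * (μ : ℂ)) * PowerSeries.X : PowerSeries ℂ) ≠ 0 := by
      intro h0
      have := congrArg PowerSeries.constantCoeff h0
      simp at this
    refine mul_right_cancel₀ hu ?_
    rw [hPM, mul_assoc, ← sq, g2]
    simp
  refine ⟨c₀, D, hκ, hPM, g1, hsq, hL, ?_, ?_, ?_⟩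
  · intro i
    have := g3 i
    push_cast
    exact this
  · have h5 := f1.symm.trans g4
    rw [← sub_eq_zero, ← sub_smul] at h5
    exact (sub_eq_zero.1 (hx _ h5)).symm
  · have h5 := f2.symm.trans g5
    rw [← sub_eq_zero, ← sub_smul] at h5
    exact (sub_eq_zero.1 (hxw _ h5)).symm

/-- **Conclusion C**, `l` odd (`k = 2 l`), `μ = 0` -/
theorem nf_odd (h : Dat φ Gr l M ξ x1 x2 e x w t s v σ) (hl2 : 2 ≤ l) (hlo : Odd l) {m r : ℕ}
    (hm : 2 ≤ m) (hr : r = l * (m - 1)) (hrM : r + 1 ≤ M) (hw : w ^ 2 = 0) {ε : ℝ}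
    {PM L : PowerSeries ℂ}
    (hPM : PM * (1 + PowerSeries.C (2 * ((0 : ℝ) : ℂ)) * PowerSeries.X) =
      (1 + PowerSeries.C ((0 : ℝ) : ℂ) * PowerSeries.X +
        PowerSeries.C (ε : ℂ) * PowerSeries.X ^ 2) ^ (m + 1))
    (hL : PM * L = PowerSeries.X * PowerSeries.derivative ℂ PM)
    (hσ : ∀ i, 1 ≤ i → Even i → i ≤ m - 1 → σ i = -(l : ℂ) * PowerSeries.coeff i L)
    (hv0 : ∀ j, 1 ≤ j → j ≤ r → Even j → φ (v j) = 0)
    (hc : CW.el s r = ∑ i ∈ range (r + 1), CW.el t (r - i) * ξ ^ i) {κ κ' : ℂ} (hκ : κ ≠ 0)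
    (hF1 : CW.el s r = κ • ∑ b ∈ range m, ((b + 1 : ℕ) : A) * (x1 ^ b * x2 ^ (m - 1 - b)))
    (hT1 : CW.el t r = κ' • ∑ b ∈ range m, ((b + 1 : ℕ) : A) * (x2 ^ b * x1 ^ (m - 1 - b)))
    (hx : ∀ z : ℂ, z • x ^ (m - 1) = 0 → z = 0)
    (hxw : ∀ z : ℂ, z • (x ^ (m - 2) * w) = 0 → z = 0) :
    ∃ c0 D : PowerSeries ℂ, HH.Nf m ((2 * l : ℕ) : ℝ) 0 ε κ PM c0 L D := by
  have hQ := HH.log_der m ((0 : ℝ) : ℂ) (ε : ℂ) PM L hPM hL
  have hQ' : L * (1 + PowerSeries.C (ε : ℂ) * PowerSeries.X ^ 2) =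
      PowerSeries.C (2 * (ε : ℂ) * ((m : ℂ) + 1)) * PowerSeries.X ^ 2 := by
    simp only [Complex.ofReal_zero, mul_zero, map_zero, zero_mul, add_zero, mul_one, zero_add,
      sub_zero] at hQ
    rw [hQ]
    simp only [map_mul, map_add, map_one, map_ofNat]
    ring
  have hσ' : ∀ i, 1 ≤ i → Even i → l * i ≤ r + 1 → σ i = -(l : ℂ) * PowerSeries.coeff i L := by
    intro i hi hie hir
    refine hσ i hi hie ?_
    by_contra hcon
    have h3 : l * (m - 1 + 1) ≤ l * i := Nat.mul_le_mul_left _ (by omega)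
    rw [mul_add, mul_one, ← hr] at h3
    omega
  obtain ⟨h1, h2, h3, h4⟩ := h.sums_odd hlo hrM hl2 hσ' hv0
  obtain ⟨c₀, D, g1, g2, g3, g4, g5⟩ := GA.main_odd l m r hl2 hlo hm hr (ε : ℂ) hw hQ'
    (s := fun i => φ (t i)) h1 h2 h3 h4
  obtain ⟨-, f1, f2⟩ := h.h12 hm hr (by omega) hc hF1 hT1 hx
  have hsq : c₀ ^ 2 * (1 + PowerSeries.C (2 * ((0 : ℝ) : ℂ)) * PowerSeries.X) = PM := by
    have h5 := hPM
    simp only [Complex.ofReal_zero, mul_zero, map_zero, zero_mul, add_zero, mul_one] at h5 ⊢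
    rw [h5, g2]
  refine ⟨c₀, D, hκ, hPM, g1, hsq, hL, ?_, ?_, ?_⟩
  · intro i
    have := g3 i
    push_cast
    exact this
  · have h5 := f1.symm.trans g4
    rw [← sub_eq_zero, ← sub_smul] at h5
    exact (sub_eq_zero.1 (hx _ h5)).symm
  · have h5 := f2.symm.trans g5
    rw [← sub_eq_zero, ← sub_smul] at h5
    exact (sub_eq_zero.1 (hxw _ h5)).symm

end Dat

end Crest.Agent.R208.GK
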