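import Crest.Agent.R208.GK2

/-!
Row 208, block GK (helper107), part GK3: the power sums of `TM` and of `V|Z` from the Chern classes.
-/

set_option autoImplicit false

open Finset PowerSeries

namespace Crest.Agent.R208.GK

variable {A : Type*} [CommRing A] [Algebra ℂ A]

theorem coeff_eq_of_mul {F G : ℂ⟦X⟧} {a : ℂ} {m : ℕ}
    (h : ∀ i ≤ m, coeff i (F * (1 + C a * X)) = coeff i (G * (1 + C a * X))) :
    ∀ i ≤ m, coeff i F = coeff i G := by
  have key : ∀ (F : ℂ⟦X⟧) (i : ℕ), coeff (i + 1) (F * (1 + C a * X)) =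
      coeff (i + 1) F + a * coeff i F := by
    intro F i
    rw [mul_add, mul_one, map_add, show F * (C a * X) = C a * (F * X) by ring, coeff_C_mul,
      coeff_succ_mul_X]
  intro i
  induction i with
  | zero =>
    intro hi
    have := h 0 hi
    simpa [coeff_zero_eq_constantCoeff] using this
  | succ i ih =>
    intro hi
    have h1 := h (i + 1) hi
    rw [key, key, ih (by omega)] at h1
    exact add_right_cancel h1

/-- existence of `P_M` and of its logarithmic derivative -/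
theorem exists_PM (m : ℕ) (μ e : ℂ) : ∃ PM L : ℂ⟦X⟧,
    PM * (1 + C (2 * μ) * X) = (1 + C μ * X + C e * X ^ 2) ^ (m + 1) ∧
      PM * L = X * derivative ℂ PM ∧ constantCoeff PM = 1 := by
  have hu : constantCoeff (1 + C (2 * μ) * X : ℂ⟦X⟧) ≠ 0 := by simp
  set PM : ℂ⟦X⟧ := (1 + C μ * X + C e * X ^ 2) ^ (m + 1) * (1 + C (2 * μ) * X)⁻¹ with hPM
  have h1 : PM * (1 + C (2 * μ) * X) = (1 + C μ * X + C e * X ^ 2) ^ (m + 1) := by
    rw [hPM, mul_assoc, PowerSeries.inv_mul_cancel _ hu, mul_one]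
  have h2 : constantCoeff PM = 1 := by
    have := congrArg constantCoeff h1
    simpa using this
  have h3 : constantCoeff PM ≠ 0 := by rw [h2]; exact one_ne_zero
  refine ⟨PM, PM⁻¹ * (X * derivative ℂ PM), h1, ?_, h2⟩
  rw [← mul_assoc, PowerSeries.mul_inv_cancel _ h3, one_mul]

/-- the power sums of `TM` -/
theorem sums_TM {l m : ℕ} (hl : l ≠ 0) {x : A} {u : ℕ → A} {p : ℕ → ℂ}
    (hp : ∀ j, CW.el u j = if l ∣ j then p (j / l) • x ^ (j / l) else 0) {μ e : ℂ} {PM L : ℂ⟦X⟧}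
    (hPM : PM * (1 + C (2 * μ) * X) = (1 + C μ * X + C e * X ^ 2) ^ (m + 1))
    (hL : PM * L = X * derivative ℂ PM)
    (hcl : ∀ i ≤ m, coeff i (PowerSeries.mk p * (1 + C (2 * μ) * X)) =
      coeff i ((1 + C μ * X + C e * X ^ 2) ^ (m + 1))) (j : ℕ) (hj : 1 ≤ j) (hjm : j ≤ l * m) :
    u j = if l ∣ j then ((-1) ^ (j + 1) * ((l : ℂ) * coeff (j / l) L)) • x ^ (j / l) else 0 := by
  have h0 : constantCoeff PM = 1 := by
    have := congrArg constantCoeff hPM
    simpa using this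
  have h1 : ∀ i ≤ m, p i = coeff i PM := by
    intro i hi
    have := coeff_eq_of_mul (F := PowerSeries.mk p) (G := PM) (a := 2 * μ) (m := m)
      (fun i hi => by rw [hcl i hi, hPM]) i hi
    rwa [coeff_mk] at this
  have hth : GA.th PM = L * PM := by rw [GA.th, ← hL, mul_comm]
  obtain ⟨h2, h3⟩ := GA.sums_of_el hl (r := l * m) (x := x) (s := u) h0 hth
    (fun i hi hir => by
      have hi' : i ≤ m := Nat.le_of_mul_le_mul_left hir (Nat.pos_of_ne_zero hl)
      rw [hp, if_pos (Dvd.intro i rfl), Nat.mul_div_cancel_left _ (Nat.pos_of_ne_zero hl), h1 i hi'])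
    (fun j _ hd => by rw [hp, if_neg hd])
  split_ifs with hd
  · obtain ⟨i, rfl⟩ := hd
    rw [Nat.mul_div_cancel_left _ (Nat.pos_of_ne_zero hl)]
    refine h2 i ?_ hjm
    rcases Nat.eq_zero_or_pos i with rfl | h
    · omega
    · exact h
  · exact h3 j hjm hd

/-- the same in even degrees -/
theorem sums_TM_even {l m : ℕ} (hl : l ≠ 0) {x : A} {u : ℕ → A} {p : ℕ → ℂ}
    (hp : ∀ j, CW.el u j = if l ∣ j then p (j / l) • x ^ (j / l) else 0) {μ e : ℂ} {PM L : ℂ⟦X⟧}
    (hPM : PM * (1 + C (2 * μ) * X) = (1 + C μ * X + C e * X ^ 2) ^ (m + 1))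
    (hL : PM * L = X * derivative ℂ PM)
    (hcl : ∀ i ≤ m, coeff i (PowerSeries.mk p * (1 + C (2 * μ) * X)) =
      coeff i ((1 + C μ * X + C e * X ^ 2) ^ (m + 1))) (i : ℕ) (hi : 1 ≤ i) (him : 2 * i ≤ l * m) :
    u (2 * i) =
      if l ∣ 2 * i then (-(l : ℂ) * coeff (2 * i / l) L) • x ^ (2 * i / l) else 0 := by
  rw [sums_TM hl hp hPM hL hcl (2 * i) (by omega) him]
  have h1 : (-1 : ℂ) ^ (2 * i + 1) = -1 := by rw [pow_succ, pow_mul]; norm_num
  rw [h1]
  split_ifs
  · congr 1; ring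
  · rfl

/-- the coefficients of the logarithmic derivative of `1 + a X` -/
theorem sums_V {l : ℕ} (hl : l ≠ 0) {x : A} {u : ℕ → A} {a : ℂ}
    (hu : ∀ j, 1 ≤ j → CW.el u j = if j = l then a • x else 0) :
    (∀ i, 1 ≤ i → u (l * i) = ((-1) ^ (l * i) * ((l : ℂ) * (-a) ^ i)) • x ^ i) ∧
      ∀ j, ¬ l ∣ j → u j = 0 := by
  have hl1 : 0 < l := Nat.pos_of_ne_zero hl
  set P : ℂ⟦X⟧ := 1 + C a * X with hP
  have hP0 : constantCoeff P = 1 := by simp [hP]
  have hPn : constantCoeff P ≠ 0 := by rw [hP0]; exact one_ne_zero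
  set Q : ℂ⟦X⟧ := (C a * X) * P⁻¹ with hQ
  have hth : GA.th P = Q * P := by
    rw [hQ, mul_assoc, PowerSeries.inv_mul_cancel _ hPn, mul_one, hP, GA.th_add, GA.th_one,
      GA.th_C_mul, GA.th_X, zero_add]
  have hQP : Q * (1 + C a * X) = C a * X := by
    rw [← hP, hQ, mul_assoc, PowerSeries.inv_mul_cancel _ hPn, mul_one]
  have hQc : ∀ i, coeff (i + 1) Q = -(-a) ^ (i + 1) := by
    have key : ∀ i, coeff (i + 1) Q + a * coeff i Q = coeff (i + 1) (C a * X : ℂ⟦X⟧) := by
      intro i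
      rw [← hQP, mul_add, mul_one, map_add, show Q * (C a * X) = C a * (Q * X) by ring,
        coeff_C_mul, coeff_succ_mul_X]
    intro i
    induction i with
    | zero =>
      have h1 := key 0
      have h2 : coeff 0 Q = 0 := by
        rw [coeff_zero_eq_constantCoeff_apply, hQ]; simp
      rw [h2, mul_zero, add_zero, coeff_C_mul, zero_add, coeff_one_X, mul_one] at h1
      rw [h1]; simp
    | succ i ih =>
      have h1 := key (i + 1)
      rw [ih, coeff_C_mul, coeff_X, if_neg (by omega), mul_zero] at h1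
      linear_combination h1
  have h := fun r => GA.sums_of_el hl (r := r) (x := x) (s := u) hP0 hth
    (fun i hi hir => by
      have h1 : 1 ≤ l * i := Nat.mul_pos hl1 hi
      rw [hu _ h1]
      obtain ⟨i, rfl⟩ : ∃ i', i = i' + 1 := ⟨i - 1, by omega⟩
      rcases Nat.eq_zero_or_pos i with rfl | hpos
      · rw [if_pos (by omega), hP, zero_add, map_add, coeff_C_mul, coeff_one_X, coeff_one,
          if_neg (by omega), zero_add, mul_one, pow_one]
      · rw [if_neg, hP, map_add, coeff_C_mul, coeff_X, coeff_one, if_neg (by omega),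
          if_neg (by omega), mul_zero, add_zero, zero_smul]
        intro h2
        have : l * (i + 1) = l * i + l := by ring
        have h3 : 0 < l * i := Nat.mul_pos hl1 hpos
        omega)
    (fun j _ hd => by
      have h1 : 1 ≤ j := by
        rcases Nat.eq_zero_or_pos j with rfl | h
        · exact absurd (dvd_zero l) hd
        · exact h
      rw [hu j h1, if_neg (by rintro rfl; exact hd dvd_rfl)])
  refine ⟨fun i hi => ?_, fun j hd => (h j).2 j le_rfl hd⟩
  rw [(h (l * i)).1 i hi le_rfl]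
  obtain ⟨i, rfl⟩ : ∃ i', i = i' + 1 := ⟨i - 1, by omega⟩
  rw [hQc]
  congr 1
  rw [pow_succ]
  ring

theorem sums_V_even {l : ℕ} (hl : l ≠ 0) (hle : Even l) {x : A} {u : ℕ → A} {μ : ℂ}
    (hu : ∀ j, 1 ≤ j → CW.el u j = if j = l then (2 * μ) • x else 0) :
    (∀ i, 1 ≤ i → u (l * i) = ((l : ℂ) * (-(2 * μ)) ^ i) • x ^ i) ∧ ∀ j, ¬ l ∣ j → u j = 0 := by
  obtain ⟨h1, h2⟩ := sums_V hl hu
  refine ⟨fun i hi => ?_, h2⟩
  rw [h1 i hi, (hle.mul_right i).neg_one_pow, one_mul]

theorem sums_V_zero {x : A} {l : ℕ} (hl : l ≠ 0) {u : ℕ → A}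
    (hu : ∀ j, 1 ≤ j → CW.el u j = if j = l then (0 : ℂ) • x else 0) (j : ℕ) (hj : 1 ≤ j) :
    u j = 0 := by
  obtain ⟨h1, h2⟩ := sums_V hl hu
  by_cases hd : l ∣ j
  · obtain ⟨i, rfl⟩ := hd
    have hi : 1 ≤ i := by
      rcases Nat.eq_zero_or_pos i with rfl | h
      · omega
      · exact h
    rw [h1 i hi, neg_zero, zero_pow (by omega), mul_zero, mul_zero, zero_smul]
  · exact h2 j hd

/-- from the Chern series of `V` on `F` to `Z` (`x₁ = x₂`) -/
theorem el_V {B : Type*} [CommRing B] [Algebra ℂ B] {l : ℕ} {f : A →+* B} {u : ℕ → A} {y z : A}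
    {x : B} {a c : ℂ} (hf : ∀ (b : ℂ) (y : A), f (b • y) = b • f y)
    (hcs : ∀ j, CW.el u j = coeff j (1 + C (a • (y + z)) * X ^ l + C (c • (y - z) ^ 2) * X ^ (2 * l)))
    (hy : f y = x) (hz : f z = x) (j : ℕ) (hj : 1 ≤ j) :
    CW.el (fun i => f (u i)) j = if j = l then (2 * a) • x else 0 := by
  have e1 : coeff j (1 + C (a • (y + z)) * X ^ l + C (c • (y - z) ^ 2) * X ^ (2 * l) : A⟦X⟧) =
      a • (y + z) * (if j = l then 1 else 0) + c • (y - z) ^ 2 * (if j = 2 * l then 1 else 0) := by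
    rw [map_add (coeff j), map_add (coeff j), coeff_C_mul, coeff_C_mul, coeff_X_pow, coeff_X_pow,
      coeff_one, if_neg (by omega), zero_add]
  rw [← CW.el_map, hcs, e1, map_add, map_mul, map_mul, hf, hf, map_add, map_pow,
    map_sub, hy, hz, sub_self, zero_pow two_ne_zero, smul_zero, zero_mul, add_zero]
  split_ifs
  · rw [map_one, mul_one, ← two_mul, Algebra.smul_def, Algebra.smul_def, map_mul,
      map_ofNat]
    ring
  · rw [map_zero, mul_zero]

end Crest.Agent.R208.GK
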