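import Crest.Agent.R208.GQ1

/-! Row 208, block GQ (helper989), part GQ2: sphere bundles of odd rank `P = Q - u uᵀ` (Leray–Hirsch),
preparations. -/

set_option autoImplicit false
set_option linter.unusedSectionVars false
set_option linter.unusedVariables false

open MeasureTheory Set Filter Topology Module
open scoped ContDiff RealInnerProductSpace
open Crest.Agent.R208.F Crest.Agent.R208.FI Crest.Agent.R208.CW Crest.Agent.R208.T

noncomputable section

namespace Crest.Agent.R208.GQ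

universe u w

variable {E : Type u} {H : Type w} [NormedAddCommGroup E] [NormedSpace ℝ E] [FiniteDimensional ℝ E]
  [NormedAddCommGroup H] [InnerProductSpace ℝ H] [FiniteDimensional ℝ H]
  {X : Set E} {Q P : E → H →L[ℝ] H} {v : E → H} {r d : ℕ} {R c₀ : ℝ} {e : E → Ext E}
  {τ τ' om : E × H → Ext (E × H)}

/-! ### the end of (B1): from a compactly supported primitive to the base -/

theorem base_of_prim (hX : Sub d X) {b L : E × H → Ext (E × H)} (hb : Sm (Sph X P) b)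
    (sL : Sm (Tot X P) L) {R₂ : ℝ} (vL : ∀ z, R₂ < ‖z.2‖ → L z = 0)
    (eL : Eqv (Tot X P) (F.d (rx b)) (F.d L)) :
    ∃ c : E → Ext E, Sm X c ∧ Cl X c ∧ Coh (Sph X P) b (F.pull Prod.fst c) := by
  have sa : Sm (Tot X P) (rx b) := hb.rx
  set ξ := rx b - L with hξ
  have sξ : Sm (Tot X P) ξ := sa.sub sL
  have cξ : Cl (Tot X P) ξ := by
    rw [Cl, resZero_iff]
    have h1 := (d_sub_eqv sa sL).trans (eL.sub (Eqv.refl (F.d L)))
    rwa [sub_self] at h1
  have k1 := coh_z0 sξ cξ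
  set R' := max R₂ 1 with hR'
  have hR1 : 1 ≤ R' := le_max_right _ _
  have hR2 : R₂ ≤ R' := le_max_left _ _
  have hs0 := smap_dil (X := X) (P := P) (R := R') (by linarith) (show R' < R' + 1 by linarith)
  have hs : SMap (Sph X P) (Tot X P) (dil (E := E) (H := H) (R' + 1)) :=
    ⟨hs0.smooth, fun z hz => (hs0.maps hz).1⟩
  have k2 := k1.pull hs
  have k3 : Eqv (Sph X P) (F.pull (dil (R' + 1)) ξ) b := by
    rw [hξ, pull_sub']
    have h1 : Eqv (Sph X P) (F.pull (dil (R' + 1)) L) 0 := Eqv.of_eq fun z hz =>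
      pull_of_zero (vL _ (lt_of_le_of_lt hR2 (hs0.maps hz).2))
    have h2 : Eqv (Sph X P) (F.pull (dil (R' + 1)) (rx b)) b := by
      have hs1 : SMap (Sph X P) (Tot X P ∩ {z | 1 < ‖z.2‖}) (dil (E := E) (H := H) (R' + 1)) :=
        ⟨hs0.smooth, fun z hz => ⟨(hs0.maps hz).1, lt_of_le_of_lt hR1 (hs0.maps hz).2⟩⟩
      have h3 : Eqv (Sph X P) (F.pull (dil (R' + 1)) (rx b))
          (F.pull (dil (R' + 1)) (F.pull rh b)) := Eqv.of_eq fun z hz => by
        rw [F.pull, F.pull, (rx_near_out b (hs1.maps hz).2).eq_of_nhds]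
      refine h3.trans ((eqv_pull_pull hs1 (smap_rh') (SMap.id _) (fun z hz => ?_) b).trans
        (Eqv.of_eq fun z _ => F.pull_id b z))
      refine Prod.ext rfl ?_
      change ‖(R' + 1) • z.2‖⁻¹ • ((R' + 1) • z.2) = z.2
      rw [norm_smul, hz.2, mul_one, Real.norm_of_nonneg (by linarith), smul_smul,
        inv_mul_cancel₀ (by linarith), one_smul]
    have := h2.sub h1
    rwa [sub_zero] at this
  have k4 : Eqv (Sph X P) (F.pull (dil (R' + 1)) (F.pull z0 ξ)) (F.pull Prod.fst (F.pull zs ξ)) := by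
    have h1 : SMap (Sph X P) (Tot X P) (z0 (E := E) (H := H)) :=
      ⟨fun _ _ => contDiffAt_fst.prodMk contDiffAt_const, fun z hz => ⟨hz.1.1, map_zero (P z.1)⟩⟩
    exact (eqv_pull_pull hs smap_z0 h1 (fun _ _ => rfl) ξ).trans
      (eqv_pull_pull smap_fstS smap_zs h1 (fun _ _ => rfl) ξ).symm
  exact ⟨F.pull zs ξ, sξ.pull smap_zs, cξ.pull smap_zs sξ,
    (Coh.of_eqv k3.symm).trans (k2.trans (Coh.of_eqv k4))⟩

/-! ### a unit section of an even rank field -/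

/-- `Q` symmetric projections of rank `r`, `v` a unit section -/
structure OddS (X : Set E) (Q : E → H →L[ℝ] H) (r : ℕ) (v : E → H) : Prop where
  pf : PField X r Q
  sym : ∀ x ∈ X, ∀ a b, ⟪Q x a, b⟫ = ⟪a, Q x b⟫
  sv : ∀ x ∈ X, ContDiffAt ℝ ∞ v x
  nv : ∀ x ∈ X, ‖v x‖ = 1
  fix : ∀ x ∈ X, Q x (v x) = v x

/-- `Q - v vᵀ` -/
def Pm (Q : E → H →L[ℝ] H) (v : E → H) (x : E) : H →L[ℝ] H :=
  Q x - (innerSL ℝ (v x)).smulRight (v x)

@[simp] theorem Pm_apply (x : E) (a : H) : Pm Q v x a = Q x a - ⟪v x, a⟫ • v x := rfl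

namespace OddS

variable (h : OddS X Q r v)
include h

theorem inner_self {x : E} (hx : x ∈ X) : ⟪v x, v x⟫ = 1 := by
  rw [real_inner_self_eq_norm_sq, h.nv x hx, one_pow]

theorem inner_Q {x : E} (hx : x ∈ X) (a : H) : ⟪v x, Q x a⟫ = ⟪v x, a⟫ := by
  rw [← h.sym x hx, h.fix x hx]

theorem Pm_v {x : E} (hx : x ∈ X) : Pm Q v x (v x) = 0 := by
  rw [Pm_apply, h.fix x hx, h.inner_self hx, one_smul, sub_self]

theorem inner_Pm {x : E} (hx : x ∈ X) (a : H) : ⟪v x, Pm Q v x a⟫ = 0 := by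
  rw [Pm_apply, inner_sub_right, h.inner_Q hx, inner_smul_right, h.inner_self hx, mul_one, sub_self]

theorem Q_Pm {x : E} (hx : x ∈ X) (a : H) : Q x (Pm Q v x a) = Pm Q v x a := by
  rw [Pm_apply, map_sub, h.pf.idem x hx, map_smul, h.fix x hx]

theorem Pm_idem {x : E} (hx : x ∈ X) (a : H) : Pm Q v x (Pm Q v x a) = Pm Q v x a := by
  conv_lhs => rw [Pm_apply]
  rw [h.Q_Pm hx, h.inner_Pm hx, zero_smul, sub_zero]

theorem Pm_add {x : E} (hx : x ∈ X) {a : H} (ha : Pm Q v x a = a) (s : ℝ) :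
    Pm Q v x (a + s • v x) = a ∧ ⟪v x, a + s • v x⟫ = s ∧ Q x (a + s • v x) = a + s • v x := by
  have h1 : ⟪v x, a⟫ = 0 := by rw [← ha]; exact h.inner_Pm hx a
  refine ⟨?_, ?_, ?_⟩
  · rw [map_add, ha, map_smul, h.Pm_v hx, smul_zero, add_zero]
  · rw [inner_add_right, h1, inner_smul_right, h.inner_self hx, mul_one, zero_add]
  · rw [map_add, map_smul, h.fix x hx]
    congr 1
    rw [← ha, h.Q_Pm hx]

theorem smooth_Pm {x : E} (hx : x ∈ X) : ContDiffAt ℝ ∞ (Pm Q v) x := by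
  have h1 : ContDiffAt ℝ ∞ (fun y => (innerSL ℝ (v y) : H →L[ℝ] ℝ)) x :=
    (innerSL ℝ : H →L[ℝ] H →L[ℝ] ℝ).contDiff.contDiffAt.comp x (h.sv x hx)
  exact (h.pf.smooth x hx).sub (h1.smulRight (h.sv x hx))

theorem norm_add {x : E} (hx : x ∈ X) {a : H} (ha : Pm Q v x a = a) (s : ℝ) :
    ‖a + s • v x‖ ^ 2 = ‖a‖ ^ 2 + s ^ 2 := by
  have h1 : ⟪v x, a⟫ = 0 := by rw [← ha]; exact h.inner_Pm hx a
  rw [norm_add_sq_real, inner_smul_right, real_inner_comm, h1, norm_smul, h.nv x hx,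
    mul_one, Real.norm_eq_abs, sq_abs]
  ring

theorem pfield : PField X (r - 1) (Pm Q v) := by
  refine ⟨fun x hx => h.smooth_Pm hx, fun x hx a => h.Pm_idem hx a, fun x hx => ?_⟩
  set A := LinearMap.range (Pm Q v x : H →ₗ[ℝ] H) with hA
  set B := Submodule.span ℝ {v x} with hB
  have hv0 : v x ≠ 0 := fun h0 => by
    have := h.nv x hx
    rw [h0, norm_zero] at this
    exact zero_ne_one this
  have h1 : A ⊔ B = LinearMap.range (Q x : H →ₗ[ℝ] H) := by
    refine le_antisymm (sup_le ?_ ?_) ?_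
    · rintro _ ⟨a, rfl⟩
      exact ⟨Pm Q v x a, h.Q_Pm hx a⟩
    · rw [hB, Submodule.span_le]
      rintro _ rfl
      exact ⟨v x, h.fix x hx⟩
    · rintro _ ⟨a, rfl⟩
      have h2 : Q x a = Pm Q v x a + ⟪v x, a⟫ • v x := by rw [Pm_apply, sub_add_cancel]
      change Q x a ∈ A ⊔ B
      rw [h2]
      exact Submodule.add_mem_sup ⟨a, rfl⟩
        (Submodule.smul_mem _ _ (Submodule.mem_span_singleton_self _))
  have h2 : A ⊓ B = ⊥ := by
    rw [eq_bot_iff]
    rintro y ⟨⟨a, rfl⟩, hy⟩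
    obtain ⟨t, ht⟩ := Submodule.mem_span_singleton.1 hy
    have h3 : ⟪v x, Pm Q v x a⟫ = 0 := h.inner_Pm hx a
    change t • v x = Pm Q v x a at ht
    rw [← ht, inner_smul_right, h.inner_self hx, mul_one] at h3
    change Pm Q v x a = 0
    rw [← ht, h3, zero_smul]
  have h3 := Submodule.finrank_sup_add_finrank_inf_eq A B
  rw [h1, h2, finrank_bot, add_zero, h.pf.rank x hx, finrank_span_singleton hv0] at h3
  omega

/-- `(x,k) ↦ (x, P k)` -/
theorem smap_bm : SMap (Tot X Q) (Tot X (Pm Q v)) (bet (Pm Q v)) :=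
  ⟨fun z hz => contDiffAt_fst.prodMk
      (((h.smooth_Pm hz.1).comp z contDiffAt_fst).clm_apply contDiffAt_snd),
    fun z hz => ⟨hz.1, h.Pm_idem hz.1 z.2⟩⟩

end OddS

/-- `(x,k) ↦ ⟪v x, k⟫` -/
def sg (v : E → H) (z : E × H) : ℝ := ⟪v z.1, z.2⟫

/-- `((x,a),s) ↦ (x, a + s v)` -/
def jm (v : E → H) (z : (E × H) × ℝ) : E × H := (z.1.1, z.1.2 + z.2 • v z.1.1)

theorem OddS.smap_jm (h : OddS X Q r v) :
    SMap (Tot X (Pm Q v) ×ˢ (univ : Set ℝ)) (Tot X Q) (jm v) := by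
  refine ⟨fun z hz => ?_, fun z hz => ⟨hz.1.1, (h.Pm_add hz.1.1 hz.1.2 z.2).2.2⟩⟩
  have h1 : ContDiffAt ℝ ∞ (fun q : (E × H) × ℝ => v q.1.1) z :=
    ContDiffAt.comp (g := v) z (h.sv _ hz.1.1) (by fun_prop)
  unfold jm
  exact (contDiffAt_fst.comp z contDiffAt_fst).prodMk
    ((contDiffAt_snd.comp z contDiffAt_fst).add (contDiffAt_snd.smul h1))

theorem OddS.smap_sg (h : OddS X Q r v) : SMap (Tot X Q) (univ : Set ℝ) (sg v) :=
  ⟨fun z hz => ((h.sv _ hz.1).comp z contDiffAt_fst).inner ℝ contDiffAt_snd, fun _ _ => mem_univ _⟩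

/-- bump one-form on the line -/
def th0 (s : ℝ) : Ext ℝ := Real.smoothTransition (1 - s ^ 2) • io (LinearMap.id : Module.Dual ℝ ℝ)

theorem contDiff_th0 : ContDiff ℝ ∞ th0 := by
  have h1 : ContDiff ℝ ∞ (fun s : ℝ => Real.smoothTransition (1 - s ^ 2)) :=
    Real.smoothTransition.contDiff.comp (contDiff_const.sub (contDiff_id.pow 2))
  have h2 : ContDiff ℝ ∞ (fun _ : ℝ => (io (LinearMap.id : Module.Dual ℝ ℝ) : Ext ℝ)) :=
    contDiff_const
  exact h1.smul h2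

theorem sm_th0 (Y : Set ℝ) : Sm Y th0 := fun _ _ => contDiff_th0.contDiffAt

theorem hom_io {G : Type*} [AddCommGroup G] [Module ℝ G] [FiniteDimensional ℝ G]
    (l : Module.Dual ℝ G) : IsDeg 1 (io l : Ext G) := by
  intro q hq
  cases q with
  | zero =>
    ext w
    have := evA_zero_io_mul' l (1 : Ext G)
    rw [mul_one] at this
    rw [this]
  | succ q =>
    have h1 := dpl_io_mul 0 l (1 : Ext G)
    rw [mul_one, dpl_of_isDeg isDeg_one, mul_one] at h1
    rw [← h1]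
    exact isDeg_dpl 1 _ _ hq

theorem hom_th0 : Hom 1 th0 := fun s => (hom_io _).smul _

theorem cl_th0 (Y : Set ℝ) : Cl Y th0 := fun x _ => by
  have h1 : IsDeg 2 (F.d th0 x) := hom_th0.d x
  rw [h1.eq_zero (by simp), map_zero]

theorem th0_zero {s : ℝ} (hs : 1 ≤ |s|) : th0 s = 0 := by
  rw [th0, Real.smoothTransition.zero_of_nonpos, zero_smul]
  have : 1 ≤ s ^ 2 := by rw [← sq_abs]; nlinarith
  linarith

/-- the one-form `ρ(s) ds`, `s = ⟪v, k⟫` -/
def thf (v : E → H) : E × H → Ext (E × H) := F.pull (sg v) th0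

theorem OddS.sm_thf (h : OddS X Q r v) : Sm (Tot X Q) (thf v) := (sm_th0 _).pull h.smap_sg
theorem OddS.cl_thf (h : OddS X Q r v) : Cl (Tot X Q) (thf v) := (cl_th0 _).pull h.smap_sg (sm_th0 _)
theorem hom_thf : Hom 1 (thf v) := hom_th0.pull

/-- `P^*λ ∧ ρ(s) ds` -/
def lift (Q : E → H →L[ℝ] H) (v : E → H) (l : E × H → Ext (E × H)) : E × H → Ext (E × H) :=
  F.pull (bet (Pm Q v)) l * thf v

section lift
variable {l l' : E × H → Ext (E × H)}

theorem OddS.sm_lift (h : OddS X Q r v) (hl : Sm (Tot X (Pm Q v)) l) : Sm (Tot X Q) (lift Q v l) :=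
  (hl.pull h.smap_bm).mul h.sm_thf

theorem OddS.cl_lift (h : OddS X Q r v) (hl : Sm (Tot X (Pm Q v)) l) (hc : Cl (Tot X (Pm Q v)) l) :
    Cl (Tot X Q) (lift Q v l) :=
  Cl.mul (hl.pull h.smap_bm) h.sm_thf (hc.pull h.smap_bm hl) h.cl_thf

theorem OddS.eqv_lift (h : OddS X Q r v) (hl : Eqv (Tot X (Pm Q v)) l l') :
    Eqv (Tot X Q) (lift Q v l) (lift Q v l') := (Eqv.pull h.smap_bm hl).mul (Eqv.refl _)

theorem lift_sub (l l' : E × H → Ext (E × H)) : lift Q v (l - l') = lift Q v l - lift Q v l' := by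
  rw [lift, pull_sub', sub_mul]; rfl

theorem lift_smul (c : ℝ) (l : E × H → Ext (E × H)) : lift Q v (c • l) = c • lift Q v l := by
  rw [lift, pull_smul', smul_mul_assoc]; rfl

theorem OddS.d_lift (h : OddS X Q r v) (hl : Sm (Tot X (Pm Q v)) l) :
    Eqv (Tot X Q) (F.d (lift Q v l)) (lift Q v (F.d l)) := by
  have sb := hl.pull h.smap_bm
  refine (d_mul_eqv sb h.sm_thf).trans ?_
  have h1 := d_pull_eqv h.smap_bm hl
  have h2 := ((h1.mul (Eqv.refl (thf v))).add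
    ((Eqv.refl (fun x => F.inv (F.pull (bet (Pm Q v)) l x))).mul (resZero_iff.1 h.cl_thf)))
  rwa [mul_zero, add_zero] at h2

/-- vanishing of a lift far out -/
theorem OddS.lift_far (h : OddS X Q r v) (hl : Eqv (Tot X (Pm Q v) ∩ {z | R < ‖z.2‖}) l 0)
    (hR : 0 ≤ R) : Eqv (Tot X Q ∩ {z | R + 1 < ‖z.2‖}) (lift Q v l) 0 := by
  refine eqv_iff.2 fun z hz => ?_
  have hX : z.1 ∈ X := hz.1.1
  set a := Pm Q v z.1 z.2 with ha
  have h0 : z.2 = a + sg v z • v z.1 := by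
    rw [ha, Pm_apply, hz.1.2]
    change z.2 = z.2 - ⟪v z.1, z.2⟫ • v z.1 + ⟪v z.1, z.2⟫ • v z.1
    rw [sub_add_cancel]
  have h1 : ‖z.2‖ ^ 2 = ‖a‖ ^ 2 + sg v z ^ 2 := by
    conv_lhs => rw [h0]
    exact h.norm_add hX (h.Pm_idem hX _) _
  rcases le_or_gt 1 |sg v z| with h2 | h2
  · have h3 : thf v z = 0 := pull_of_zero (th0_zero h2)
    rw [lift, Pi.mul_apply, h3, mul_zero]; rfl
  · have h4 : R < ‖a‖ := by
      have h5 : R + 1 < ‖z.2‖ := hz.2
      have h6 : sg v z ^ 2 < 1 := by rw [← sq_abs]; nlinarith [abs_nonneg (sg v z)]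
      by_contra h7
      push Not at h7
      have h8 : ‖a‖ ^ 2 ≤ R ^ 2 := by nlinarith [norm_nonneg a]
      nlinarith [norm_nonneg z.2]
    -- restrict to the open set `R < ‖P k‖`
    have hU : IsOpen {y : E × H | R < ‖y.2‖} := isOpen_out R
    have hb := h.smap_bm
    have h5 : pb (Tan (Tot X (Pm Q v)) (bet (Pm Q v) z)).subtype (l (bet (Pm Q v) z)) = 0 := by
      have h6 := eqv_of_open hU hl (hb.maps hz.1) h4
      rw [h6]; exact map_zero _
    have h6 : pb (Tan (Tot X Q) z).subtype (F.pull (bet (Pm Q v)) l z) = 0 := by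
      exact pb_pull_eq_zero (hb.diff hz.1) hb.maps h5
    have h7 : pb (Tan (Tot X Q) z).subtype (lift Q v l z) = 0 := by
      rw [lift, Pi.mul_apply, map_mul, h6, zero_mul]
    have h8 : Tan (Tot X Q ∩ {z | R + 1 < ‖z.2‖}) z = Tan (Tot X Q) z :=
      Tan_inter_open (isOpen_out (R + 1)) hz.2
    have h9 : ∀ (K K' : Submodule ℝ (E × H)), K = K' → pb K.subtype (lift Q v l z) = 0 →
        pb K'.subtype (lift Q v l z) = 0 := by rintro K K' rfl h; exact h
    rw [h9 _ _ h8.symm h7]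
    exact (map_zero _).symm

end lift

end Crest.Agent.R208.GQ
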