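import Crest.Agent.R208.THA
import Crest.Agent.R208.GQ2

/-! Row 208, block GO (helper589), part GO1: the orthogonal complement of an oriented orthonormal
family of sections in an oriented projection field is oriented, by contraction of the tensor. -/

set_option autoImplicit false
set_option linter.unusedSectionVars false

open Module Set Matrix
open scoped ContDiff RealInnerProductSpace
open Crest.Agent.R208.F Crest.Agent.R208.FI Crest.Agent.R208.CW Crest.Agent.R208.T

noncomputable section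

namespace Crest.Agent.R208.GO

section index
variable {ι : Type*} [Fintype ι] [DecidableEq ι]

/-- the index equivalence: remove one complex index -/
def eq0 (i0 : ι) : (Unit × Fin 2) ⊕ ({i : ι // i ≠ i0} × Fin 2) ≃ (ι × Fin 2) :=
  (Equiv.sumProdDistrib _ _ _).symm.trans
    (((Equiv.sumComm _ _).trans ((Equiv.optionEquivSumPUnit _).symm.trans
      (Equiv.optionSubtypeNe i0))).prodCongr (Equiv.refl _))

theorem card_ne_add_one (i0 : ι) : Fintype.card {i : ι // i ≠ i0} + 1 = Fintype.card ι := by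
  have h := Fintype.card_congr (Equiv.optionSubtypeNe i0)
  rwa [Fintype.card_option] at h

theorem nonempty_ne (i0 : ι) (h : 2 ≤ Fintype.card ι) : Nonempty {i : ι // i ≠ i0} := by
  have := card_ne_add_one i0
  exact Fintype.card_pos_iff.1 (by omega)

end index

section alg
variable {κ₀ κ' κ n m : Type*} [Fintype κ₀] [DecidableEq κ₀] [Fintype κ'] [DecidableEq κ']
  [Fintype κ] [DecidableEq κ] [Fintype n] [DecidableEq n] [Fintype m] [DecidableEq m]

/-- multilinearity of the determinant in the first block of columns -/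
theorem det_glue_mul_left (eq : κ₀ ⊕ κ' ≃ κ) (B : Matrix κ m ℝ) (f : Matrix m κ₀ ℝ)
    (g : Matrix κ κ' ℝ) : (glue eq (B * f) g).det =
      ∑ J : κ₀ → m, (∏ p, f (J p) p) * (glue eq (B.submatrix id J) g).det := by
  classical
  have h1 : ∀ h : Matrix κ κ₀ ℝ, (glue eq h g).det
      = ∑ σ : Equiv.Perm κ, ((Equiv.Perm.sign σ : ℤ) : ℝ) *
        ((∏ p, h (σ (eq (Sum.inl p))) p) * ∏ q, g (σ (eq (Sum.inr q))) q) := by
    intro h
    rw [det_apply']
    refine Finset.sum_congr rfl fun σ _ => ?_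
    congr 1
    rw [← eq.prod_comp, Fintype.prod_sum_type]
    simp [glue]
  rw [h1]
  simp only [h1, Finset.mul_sum]
  rw [Finset.sum_comm]
  refine Finset.sum_congr rfl fun σ _ => ?_
  simp only [Matrix.mul_apply]
  rw [Finset.prod_univ_sum, Finset.sum_mul, Finset.mul_sum, Fintype.piFinset_univ]
  refine Finset.sum_congr rfl fun J _ => ?_
  simp only [Matrix.submatrix_apply, id, Finset.prod_mul_distrib]
  ring

/-- contraction of a tensor with a family of vectors -/
def ctr (eq : κ₀ ⊕ κ' ≃ κ) (U : Matrix n κ₀ ℝ) (W : (κ → n) → ℝ) (I : κ' → n) : ℝ :=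
  ∑ J : κ₀ → n, (∏ p, U (J p) p) * W (Sum.elim J I ∘ eq.symm)

theorem ctr_frame (eq : κ₀ ⊕ κ' ≃ κ) {f : Matrix n κ ℝ} (U : Matrix n κ₀ ℝ) {W : (κ → n) → ℝ}
    (hW : ∀ I, W I = (f.submatrix I id).det) (I : κ' → n) :
    ctr eq U W I = (glue eq (fᵀ * U) (f.submatrix I id)ᵀ).det := by
  rw [det_glue_mul_left, ctr]
  refine Finset.sum_congr rfl fun J _ => ?_
  rw [hW, ← det_transpose]
  congr 2
  ext a b
  obtain ⟨s, rfl⟩ := eq.surjective b
  rcases s with p | q <;> simp [glue]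

/-- invariance under rotations of the family -/
theorem ctr_mul (eq : κ₀ ⊕ κ' ≃ κ) {f : Matrix n κ ℝ} (U : Matrix n κ₀ ℝ) {W : (κ → n) → ℝ}
    (hW : ∀ I, W I = (f.submatrix I id).det) (R : Matrix κ₀ κ₀ ℝ) (I : κ' → n) :
    ctr eq (U * R) W I = R.det * ctr eq U W I := by
  rw [ctr_frame eq (U * R) hW, ctr_frame eq U hW]
  have e : glue eq (fᵀ * (U * R)) (f.submatrix I id)ᵀ = glue eq (fᵀ * U) (f.submatrix I id)ᵀ *
      (Matrix.fromBlocks R 0 0 (1 : Matrix κ' κ' ℝ)).submatrix eq.symm eq.symm := by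
    rw [← Matrix.mul_assoc]
    ext a y
    obtain ⟨t, rfl⟩ := eq.surjective y
    rw [Matrix.mul_apply, ← eq.sum_comp, Fintype.sum_sum_type]
    rcases t with p | q
    · simp only [glue, submatrix_apply, id, Equiv.symm_apply_apply, fromCols_apply_inl,
        fromCols_apply_inr, fromBlocks_apply₁₁, fromBlocks_apply₂₁, Matrix.zero_apply, mul_zero,
        Finset.sum_const_zero, add_zero]
      rw [Matrix.mul_apply]
    · simp [glue, Matrix.one_apply]
  rw [e, det_mul, det_submatrix_equiv_self, det_fromBlocks_zero₂₁, det_one, mul_one, mul_comm]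

theorem det_glue_frame' (eq : κ₀ ⊕ κ' ≃ κ) {Y : Matrix κ κ₀ ℝ} {Y' : Matrix κ κ' ℝ}
    (h1 : Yᵀ * Y = 1) (h3 : Y'ᵀ * Y = 0) (hd : (glue eq Y Y').det = 1) (G : Matrix κ κ' ℝ) :
    (glue eq Y G).det = (Y'ᵀ * G).det := by
  have h5 : (glue eq Y Y')ᵀ * glue eq Y G
      = (Matrix.fromBlocks (1 : Matrix κ₀ κ₀ ℝ) (Yᵀ * G) 0 (Y'ᵀ * G)).submatrix eq.symm
        eq.symm := by
    rw [← h1, ← h3]
    ext a b
    obtain ⟨s, rfl⟩ := eq.surjective a
    obtain ⟨t, rfl⟩ := eq.surjective b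
    rcases s with p | q <;> rcases t with p' | q' <;>
      simp [glue, Matrix.mul_apply]
  have h6 := congrArg Matrix.det h5
  rw [det_mul, det_transpose, hd, one_mul, det_submatrix_equiv_self, det_fromBlocks_zero₂₁,
    det_one, one_mul] at h6
  exact h6

/-- the complementary frame -/
theorem exists_frame (eq : κ₀ ⊕ κ' ≃ κ) [Nonempty κ'] {f : Matrix n κ ℝ} (hf : fᵀ * f = 1)
    {U : Matrix n κ₀ ℝ} (hU : Uᵀ * U = 1) (hfU : f * fᵀ * U = U) :
    ∃ f' : Matrix n κ' ℝ, f'ᵀ * f' = 1 ∧ f'ᵀ * U = 0 ∧ U * Uᵀ + f' * f'ᵀ = f * fᵀ ∧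
      ∀ I, (glue eq (fᵀ * U) (f.submatrix I id)ᵀ).det = (f'.submatrix I id).det := by
  have hY : (fᵀ * U)ᵀ * (fᵀ * U) = 1 := by
    rw [transpose_mul, transpose_transpose, Matrix.mul_assoc, ← Matrix.mul_assoc f, hfU, hU]
  obtain ⟨Y', g1, g2, g3, g4⟩ := exists_compl eq hY
  have hfY : f * (fᵀ * U) = U := by rw [← Matrix.mul_assoc, hfU]
  refine ⟨f * Y', ?_, ?_, ?_, fun I => ?_⟩
  · rw [transpose_mul, Matrix.mul_assoc, ← Matrix.mul_assoc fᵀ, hf, Matrix.one_mul, g1]
  · rw [transpose_mul, Matrix.mul_assoc, g2]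
  · have h1 : f * (fᵀ * U * (fᵀ * U)ᵀ + Y' * Y'ᵀ) * fᵀ = f * fᵀ := by
      rw [g3, Matrix.mul_one]
    rw [← h1, Matrix.mul_add, Matrix.add_mul, transpose_mul (f) Y']
    congr 1
    · rw [← Matrix.mul_assoc f, hfY, transpose_mul, transpose_transpose, Matrix.mul_assoc U,
        Matrix.mul_assoc]
      have h2 : Uᵀ * (f * fᵀ) = Uᵀ := by
        have h3 := congrArg Matrix.transpose hfU
        rwa [transpose_mul, transpose_mul, transpose_transpose] at h3
      rw [h2]
    · simp only [Matrix.mul_assoc]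
  · rw [det_glue_frame' eq hY g2 g4, ← det_transpose, transpose_mul, transpose_transpose,
      transpose_transpose]
    rfl

end alg

section field

variable {n : Type*} [Fintype n] [DecidableEq n] {E : Type*} [NormedAddCommGroup E]
  [NormedSpace ℝ E] [FiniteDimensional ℝ E] {ι₀ ι ι' : Type*} [Fintype ι] [DecidableEq ι]
  [Fintype ι'] [DecidableEq ι'] [Fintype ι₀] [DecidableEq ι₀] {X : Set E}
  {P : E → EuclideanSpace ℝ n →L[ℝ] EuclideanSpace ℝ n} {W : E → (ι × Fin 2 → n) → ℝ}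

/-- **the complement of an orthonormal family of sections** -/
theorem OR_ctr [Nonempty ι'] (eq : (ι₀ × Fin 2) ⊕ (ι' × Fin 2) ≃ (ι × Fin 2)) (h : OR X P W)
    {U : E → Matrix n (ι₀ × Fin 2) ℝ} (hU : ∀ x ∈ X, ∀ a p, ContDiffAt ℝ ∞ (fun y => U y a p) x)
    (h1 : ∀ x ∈ X, (U x)ᵀ * U x = 1)
    (h2 : ∀ x ∈ X, ∀ p, P x (WithLp.toLp 2 fun a => U x a p) = WithLp.toLp 2 fun a => U x a p)
    {P' : E → EuclideanSpace ℝ n →L[ℝ] EuclideanSpace ℝ n}
    (hP' : ∀ x ∈ X, ContDiffAt ℝ ∞ P' x)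
    (hP'2 : ∀ x ∈ X, ∀ v i, P' x v i = P x v i - ∑ j, (U x * (U x)ᵀ) i j * v j) :
    OR X P' (fun x => ctr eq (U x) (W x)) where
  sP := hP'
  sW x hx I := by
    unfold ctr
    refine ContDiffAt.sum fun J _ => ?_
    exact (contDiffAt_prod fun p _ => hU x hx _ _).mul (h.sW x hx _)
  fr x hx := by
    obtain ⟨f, f1, f2, f3⟩ := h.fr x hx
    have hfU : f * fᵀ * U x = U x := by
      ext i p
      rw [Matrix.mul_apply]
      have h3 := congrArg (fun v : EuclideanSpace ℝ n => v i) (h2 x hx p)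
      simp only at h3
      rw [f2] at h3
      exact h3
    obtain ⟨f', g1, g2, g3, g4⟩ := exists_frame eq f1 (h1 x hx) hfU
    refine ⟨f', g1, fun v i => ?_, fun I => ?_⟩
    · rw [hP'2 x hx, f2, ← Finset.sum_sub_distrib]
      refine Finset.sum_congr rfl fun j _ => ?_
      rw [← g3, Matrix.add_apply]
      ring
    · rw [ctr_frame eq (U x) f3, g4]

/-- the matrix with columns `a`, `b` -/
def col2 (a b : EuclideanSpace ℝ n) : Matrix n (Unit × Fin 2) ℝ :=
  Matrix.of fun i p => if p.2 = 0 then a i else b i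

theorem col2_orth {a b : EuclideanSpace ℝ n} (ha : ‖a‖ = 1) (hb : ‖b‖ = 1) (hab : ⟪a, b⟫ = 0) :
    (col2 a b)ᵀ * col2 a b = 1 := by
  have i1 : ∑ i, a i * a i = 1 := by
    have := real_inner_self_eq_norm_sq a
    rw [ha, PiLp.inner_apply, one_pow] at this
    rw [← this]
    refine Finset.sum_congr rfl fun i _ => ?_
    rw [RCLike.inner_apply, conj_trivial]
  have i2 : ∑ i, b i * b i = 1 := by
    have := real_inner_self_eq_norm_sq b
    rw [hb, PiLp.inner_apply, one_pow] at this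
    rw [← this]
    refine Finset.sum_congr rfl fun i _ => ?_
    rw [RCLike.inner_apply, conj_trivial]
  have i3 : ∑ i, a i * b i = 0 := by
    rw [PiLp.inner_apply] at hab
    rw [← hab]
    refine Finset.sum_congr rfl fun i _ => ?_
    rw [RCLike.inner_apply, conj_trivial, mul_comm]
  ext ⟨⟨⟩, p⟩ ⟨⟨⟩, q⟩
  rw [Matrix.mul_apply]
  fin_cases p <;> fin_cases q
  · simpa [col2] using i1
  · simpa [col2] using i3
  · rw [show (1 : Matrix (Unit × Fin 2) (Unit × Fin 2) ℝ) ((), ⟨1, by norm_num⟩)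
      ((), ⟨0, by norm_num⟩) = 0 from rfl, ← i3]
    refine Finset.sum_congr rfl fun i _ => ?_
    simp [col2, mul_comm]
  · simpa [col2] using i2

/-- **the complement of an orthonormal pair of sections** -/
theorem OR_pair [Nonempty ι'] (eq : (Unit × Fin 2) ⊕ (ι' × Fin 2) ≃ (ι × Fin 2)) (h : OR X P W)
    {v w : E → EuclideanSpace ℝ n} (hv : ∀ x ∈ X, ContDiffAt ℝ ∞ v x)
    (hw : ∀ x ∈ X, ContDiffAt ℝ ∞ w x) (hv1 : ∀ x ∈ X, ‖v x‖ = 1) (hw1 : ∀ x ∈ X, ‖w x‖ = 1)
    (hvw : ∀ x ∈ X, ⟪v x, w x⟫ = 0) (hPv : ∀ x ∈ X, P x (v x) = v x)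
    (hPw : ∀ x ∈ X, P x (w x) = w x) :
    OR X (GQ.Pm (GQ.Pm P v) w) (fun x => ctr eq (col2 (v x) (w x)) (W x)) := by
  refine OR_ctr eq h (fun x hx a p => ?_) (fun x hx => col2_orth (hv1 x hx) (hw1 x hx) (hvw x hx))
    (fun x hx p => ?_) (fun x hx => ?_) (fun x hx u i => ?_)
  · obtain ⟨⟨⟩, p⟩ := p
    unfold col2
    simp only [Matrix.of_apply]
    split_ifs
    · exact (EuclideanSpace.proj a : EuclideanSpace ℝ n →L[ℝ] ℝ).contDiff.contDiffAt.comp x (hv x hx)
    · exact (EuclideanSpace.proj a : EuclideanSpace ℝ n →L[ℝ] ℝ).contDiff.contDiffAt.comp x (hw x hx)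
  · obtain ⟨⟨⟩, p⟩ := p
    by_cases hp : p = 0
    · have : (WithLp.toLp 2 fun a => col2 (v x) (w x) a ((), p) : EuclideanSpace ℝ n) = v x := by
        ext a; simp [col2, hp]
      rw [this, hPv x hx]
    · have : (WithLp.toLp 2 fun a => col2 (v x) (w x) a ((), p) : EuclideanSpace ℝ n) = w x := by
        ext a; simp [col2, hp]
      rw [this, hPw x hx]
  · have h1 := h.sP x hx
    have h2 := hv x hx
    have h3 := hw x hx
    have hb : ContDiff ℝ ∞ fun a : EuclideanSpace ℝ n => (innerSL ℝ a).smulRight a :=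
      (ContinuousLinearMap.smulRightL ℝ (EuclideanSpace ℝ n)
        (EuclideanSpace ℝ n)).isBoundedBilinearMap.contDiff.comp
        ((innerSL ℝ).contDiff.prodMk contDiff_id)
    exact (h1.sub (hb.contDiffAt.comp x h2)).sub (hb.contDiffAt.comp x h3)
  · rw [GQ.Pm_apply, GQ.Pm_apply]
    have e1 : ∀ a b : EuclideanSpace ℝ n, ∑ j, (col2 a b * (col2 a b)ᵀ) i j * u j =
        ⟪a, u⟫ * a i + ⟪b, u⟫ * b i := by
      intro a b
      have e2 : ∀ j, (col2 a b * (col2 a b)ᵀ) i j = a i * a j + b i * b j := by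
        intro j
        rw [Matrix.mul_apply, Fintype.sum_prod_type, Fintype.sum_unique, Fin.sum_univ_two]
        simp [col2]
      simp only [e2, PiLp.inner_apply, RCLike.inner_apply, conj_trivial, Finset.sum_mul, add_mul,
        Finset.sum_add_distrib]
      congr 1 <;> exact Finset.sum_congr rfl fun j _ => by ring
    rw [e1]
    simp only [PiLp.sub_apply, PiLp.smul_apply, smul_eq_mul]
    ring

/-- rotation invariance of the contracted tensor -/
theorem ctr_rot (eq : (Unit × Fin 2) ⊕ (ι' × Fin 2) ≃ (ι × Fin 2)) {f : Matrix n (ι × Fin 2) ℝ}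
    {W : (ι × Fin 2 → n) → ℝ} (hW : ∀ I, W I = (f.submatrix I id).det)
    (v w : EuclideanSpace ℝ n) (t : ℝ) (I : ι' × Fin 2 → n) :
    ctr eq (col2 (Real.cos t • v + Real.sin t • w) (-Real.sin t • v + Real.cos t • w)) W I =
      ctr eq (col2 v w) W I := by
  set R : Matrix (Unit × Fin 2) (Unit × Fin 2) ℝ := Matrix.of fun p q =>
    if p.2 = 0 then (if q.2 = 0 then Real.cos t else -Real.sin t)
      else (if q.2 = 0 then Real.sin t else Real.cos t) with hR
  have e1 : col2 (Real.cos t • v + Real.sin t • w) (-Real.sin t • v + Real.cos t • w) =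
      col2 v w * R := by
    ext i ⟨⟨⟩, q⟩
    rw [Matrix.mul_apply, Fintype.sum_prod_type, Fintype.sum_unique, Fin.sum_univ_two]
    fin_cases q
    · simp [col2, hR, mul_comm]
    · simp [col2, hR, mul_comm]
  have e2 : R.det = 1 := by
    have e3 : R = (!![Real.cos t, -Real.sin t; Real.sin t, Real.cos t]).submatrix
        (Equiv.uniqueProd (Fin 2) Unit) (Equiv.uniqueProd (Fin 2) Unit) := by
      ext ⟨⟨⟩, p⟩ ⟨⟨⟩, q⟩
      fin_cases p <;> fin_cases q <;> simp [hR]
    rw [e3, det_submatrix_equiv_self, det_fin_two_of]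
    have := Real.sin_sq_add_cos_sq t
    nlinarith
  rw [e1, ctr_mul eq _ hW, e2, one_mul]

end field

end Crest.Agent.R208.GO
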