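import Crest.Agent.R208.THD0b

/-! Row 208, block TH-D0 (helper423): the vertical part of the Thom form, in the frame. -/

set_option autoImplicit false
set_option linter.unusedSectionVars false

open Module Set Matrix Filter Topology
open scoped ContDiff Nat
open Crest.Agent.R208.F Crest.Agent.R208.FI Crest.Agent.R208.CW

noncomputable section

namespace Crest.Agent.R208.T

section main
variable {n ι : Type*} [Fintype n] [DecidableEq n] [Fintype ι] [DecidableEq ι]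

/-- the covectors of a frame -/
def eta (f : Matrix n (ι × Fin 2) ℝ) (a : ι × Fin 2) : Module.Dual ℝ (EuclideanSpace ℝ n) :=
  ∑ i, f i a • ((EuclideanSpace.proj i : EuclideanSpace ℝ n →L[ℝ] ℝ) :
    Module.Dual ℝ (EuclideanSpace ℝ n))

@[simp] theorem eta_apply (f : Matrix n (ι × Fin 2) ℝ) (a : ι × Fin 2) (v : EuclideanSpace ℝ n) :
    eta f a v = ∑ i, f i a * v i := by
  simp [eta]

/-- the wedge of the covectors of a frame -/
def Xi (f : Matrix n (ι × Fin 2) ℝ) : Ext (EuclideanSpace ℝ n) :=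
  ExteriorAlgebra.ιMulti ℝ (Fintype.card ι * 2) fun k => eta f ((kFin ι).symm k)

/-- the density of the Thom form -/
def GG (ι : Type*) [Fintype ι] (s : ℝ) : ℝ :=
  ((2 * Fintype.card ι)! : ℝ) * (2 * Real.sqrt s * deriv ph s *
    (Real.sin (ph s) / Real.sqrt s) ^ (2 * Fintype.card ι - 1))

variable {A : EuclideanSpace ℝ n →L[ℝ] EuclideanSpace ℝ n} {f : Matrix n (ι × Fin 2) ℝ}

/-- coordinates -/
def yy (f : Matrix n (ι × Fin 2) ℝ) (h : EuclideanSpace ℝ n) (p : ι × Fin 2) : ℝ :=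
  ∑ i, f i p * h i

theorem A_yy (hA : ∀ v i, A v i = ∑ j, (f * fᵀ) i j * v j) (h : EuclideanSpace ℝ n) (i : n) :
    A h i = ∑ p, f i p * yy f h p := by
  rw [hA]
  simp only [Matrix.mul_apply, yy, Finset.mul_sum, Finset.sum_mul, transpose_apply]
  rw [Finset.sum_comm]
  exact Finset.sum_congr rfl fun p _ => Finset.sum_congr rfl fun j _ => by ring

theorem yy_A (hf : fᵀ * f = 1) (hA : ∀ v i, A v i = ∑ j, (f * fᵀ) i j * v j)
    (h : EuclideanSpace ℝ n) (p : ι × Fin 2) : ∑ i, f i p * A h i = yy f h p :=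
  sum_fv hf (v := fun i => A h i) (A_yy hA h) p

theorem norm_A (hf : fᵀ * f = 1) (hA : ∀ v i, A v i = ∑ j, (f * fᵀ) i j * v j)
    (h : EuclideanSpace ℝ n) : ‖A h‖ ^ 2 = ∑ p, yy f h p * yy f h p := by
  rw [nsq, sum_vv hf (v := fun i => A h i) (A_yy hA h)]

theorem SS_frame (hf : fᵀ * f = 1) (hA : ∀ v i, A v i = ∑ j, (f * fᵀ) i j * v j)
    (h : EuclideanSpace ℝ n) :
    SS (A h) * mc f = mc (mF f (fun i => A h i) (yy f h) (ca (‖A h‖ ^ 2)) (cb (‖A h‖ ^ 2))) := by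
  refine Matrix.ext fun a p => ?_
  rw [Matrix.mul_apply]
  have h1 := yy_A hf hA h p
  rcases a with i | t
  · have e1 : ∀ j, SS (A h) (Sum.inl i) j * mc f j p
        = (if i = j then ((f j p : ℝ) : ℂ) else 0)
          + ((ca (‖A h‖ ^ 2) * A h i * (f j p * A h j) : ℝ) : ℂ) := by
      intro j
      simp only [SS, of_apply, Matrix.map_apply]
      push_cast
      split_ifs <;> ring
    simp only [e1, Finset.sum_add_distrib, Finset.sum_ite_eq, Finset.mem_univ, if_true]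
    rw [← Complex.ofReal_sum, ← Finset.mul_sum, h1]
    simp [mF]
  · have e1 : ∀ j, SS (A h) (Sum.inr t) j * mc f j p
        = ((cb (‖A h‖ ^ 2) * (f j p * A h j) : ℝ) : ℂ) := by
      intro j
      simp only [SS, of_apply, Matrix.map_apply]
      push_cast
      ring
    simp only [e1]
    rw [← Complex.ofReal_sum, ← Finset.mul_sum, h1]
    simp [mF]

/-- the section -/
def uu (A : EuclideanSpace ℝ n →L[ℝ] EuclideanSpace ℝ n) (h : EuclideanSpace ℝ n) : n ⊕ Unit → ℝ :=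
  mU (fun i => A h i) (cb (‖A h‖ ^ 2)) (Real.cos (ph (‖A h‖ ^ 2)))

theorem mc_mul {α β γ : Type*} [Fintype β] (M : Matrix α β ℝ) (N : Matrix β γ ℝ) :
    mc M * mc N = mc (M * N) := by
  ext a b
  simp [Matrix.mul_apply]

theorem field_eq (hf : fᵀ * f = 1) (hA : ∀ v i, A v i = ∑ j, (f * fᵀ) i j * v j)
    (h : EuclideanSpace ℝ n) : SS (A h) * mtx A * (SS (A h))ᵀ
      = mc (Matrix.fromBlocks (f * fᵀ) 0 0 (1 : Matrix Unit Unit ℝ)) - Uc (uu A) h * (Uc (uu A) h)ᵀ := by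
  have h1 : mtx A = mc f * (mc f)ᵀ := by
    have : (mc f)ᵀ = mc fᵀ := rfl
    rw [this, mc_mul]
    exact mtx_of_frame hA
  have h2 : SS (A h) * mtx A * (SS (A h))ᵀ = (SS (A h) * mc f) * (SS (A h) * mc f)ᵀ := by
    rw [h1, transpose_mul]
    simp only [Matrix.mul_assoc]
  have ht : (0 : ℝ) ≤ ‖A h‖ ^ 2 := sq_nonneg _
  have hn := norm_A hf hA h
  rw [h2, SS_frame hf hA]
  refine Matrix.ext fun a b => ?_
  have h3 := mF_range (f := f) (v := fun i => A h i) (y := yy f h) (c := ca (‖A h‖ ^ 2))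
    (b := cb (‖A h‖ ^ 2)) (co := Real.cos (ph (‖A h‖ ^ 2))) (A_yy hA h)
    (by rw [← hn]; exact sc1 ht) (by rw [← hn]; exact sc2 ht) (by rw [← hn]; exact sc3 ht) a b
  have h4 : (mc (mF f (fun i => A h i) (yy f h) (ca (‖A h‖ ^ 2)) (cb (‖A h‖ ^ 2))))ᵀ
      = mc (mF f (fun i => A h i) (yy f h) (ca (‖A h‖ ^ 2)) (cb (‖A h‖ ^ 2)))ᵀ := rfl
  rw [h4, mc_mul, Matrix.sub_apply, Matrix.mul_apply]
  change ((_ : ℝ) : ℂ) = _
  rw [h3]
  simp only [Uc, of_apply, transpose_apply, Finset.univ_unique, Finset.sum_singleton,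
    Matrix.map_apply]
  push_cast
  rfl

/-- the matrix of the derivative in the frame -/
def LL2 (y : ι × Fin 2 → ℝ) (s : ℝ) : Matrix (ι × Fin 2) (ι × Fin 2) ℝ :=
  (-cb s) • (1 : Matrix (ι × Fin 2) (ι × Fin 2) ℝ)
    + (-2 * deriv cb s * (1 + ca s * s) - ca s * cb s
      - 2 * cb s * (Real.sin (ph s) * deriv ph s)) • Matrix.vecMulVec y y

theorem det_LL2 [Nonempty ι] {y : ι × Fin 2 → ℝ} {s : ℝ} (hs : ∑ p, y p * y p = s) (h0 : 0 ≤ s) :
    (LL2 y s).det = 2 * Real.sqrt s * deriv ph s *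
      (Real.sin (ph s) / Real.sqrt s) ^ (2 * Fintype.card ι - 1) := by
  have h1 : y ⬝ᵥ y = s := hs
  rw [LL2, det_rank_one, h1, sc4 h0, mul_comm]
  have h2 : Fintype.card (ι × Fin 2) = 2 * Fintype.card ι := by
    rw [Fintype.card_prod, Fintype.card_fin, mul_comm]
  have h3 : -cb s = Real.sin (ph s) / Real.sqrt s := by rw [cb]; ring
  rw [h2, h3]

theorem hasFDerivAt_uu (A : EuclideanSpace ℝ n →L[ℝ] EuclideanSpace ℝ n) (h : EuclideanSpace ℝ n)
    (a : n ⊕ Unit) : HasFDerivAt (fun z => uu A z a)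
      (match a with
        | Sum.inl i => (-cb (‖A h‖ ^ 2)) • (EuclideanSpace.proj i : EuclideanSpace ℝ n →L[ℝ] ℝ).comp A
            + (-(deriv cb (‖A h‖ ^ 2)) * (2 * A h i)) •
              (innerSL ℝ (A h)).comp A
        | Sum.inr _ => (-(Real.sin (ph (‖A h‖ ^ 2)) * deriv ph (‖A h‖ ^ 2)) * 2) •
              (innerSL ℝ (A h)).comp A) h := by
  have hA1 : HasFDerivAt (fun z => A z) A h := A.hasFDerivAt
  have hn : HasFDerivAt (fun z => ‖A z‖ ^ 2) ((2 : ℝ) • (innerSL ℝ (A h)).comp A) h := by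
    have := hA1.norm_sq
    refine this.congr_fderiv ?_
    ext w
    simp
  have hcb : HasDerivAt cb (deriv cb (‖A h‖ ^ 2)) (‖A h‖ ^ 2) :=
    ((cb_contDiff.differentiable (by simp)) _).hasDerivAt
  have hph : HasDerivAt ph (deriv ph (‖A h‖ ^ 2)) (‖A h‖ ^ 2) :=
    ((ph_contDiff.differentiable (by simp)) _).hasDerivAt
  rcases a with i | t
  · have h1 : HasFDerivAt (fun z => -cb (‖A z‖ ^ 2))
        (-(deriv cb (‖A h‖ ^ 2) • ((2 : ℝ) • (innerSL ℝ (A h)).comp A))) h :=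
      (hcb.comp_hasFDerivAt (f := fun z => ‖A z‖ ^ 2) h hn).fun_neg
    have h2 : HasFDerivAt (fun z => A z i)
        ((EuclideanSpace.proj i : EuclideanSpace ℝ n →L[ℝ] ℝ).comp A) h :=
      (EuclideanSpace.proj i : EuclideanSpace ℝ n →L[ℝ] ℝ).hasFDerivAt.comp h hA1
    have h3 := h1.mul h2
    refine h3.congr_fderiv ?_
    ext w
    simp only [_root_.add_apply, _root_.smul_apply, _root_.neg_apply,
      ContinuousLinearMap.comp_apply, smul_eq_mul]
    ring
  · have h1 : HasFDerivAt (fun z => Real.cos (ph (‖A z‖ ^ 2)))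
        ((-Real.sin (ph (‖A h‖ ^ 2)) * deriv ph (‖A h‖ ^ 2)) •
          ((2 : ℝ) • (innerSL ℝ (A h)).comp A)) h :=
      (hph.cos).comp_hasFDerivAt (f := fun z => ‖A z‖ ^ 2) h hn
    refine h1.congr_fderiv ?_
    ext w
    simp only [_root_.smul_apply, ContinuousLinearMap.comp_apply, smul_eq_mul]
    ring

theorem inner_A (hf : fᵀ * f = 1) (hA : ∀ v i, A v i = ∑ j, (f * fᵀ) i j * v j)
    (h w : EuclideanSpace ℝ n) : ∑ i, A h i * A w i = ∑ q, yy f h q * yy f w q := by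
  have h1 : ∀ i, A h i * A w i = ∑ q, yy f h q * (f i q * A w i) := by
    intro i
    rw [A_yy hA h i, Finset.sum_mul]
    exact Finset.sum_congr rfl fun q _ => by ring
  simp only [h1]
  rw [Finset.sum_comm]
  refine Finset.sum_congr rfl fun q _ => ?_
  rw [← Finset.mul_sum, yy_A hf hA]

theorem theta_eq (hf : fᵀ * f = 1) (hA : ∀ v i, A v i = ∑ j, (f * fᵀ) i j * v j)
    (h : EuclideanSpace ℝ n) (p : ι × Fin 2) :
    ∑ a, mF f (fun i => A h i) (yy f h) (ca (‖A h‖ ^ 2)) (cb (‖A h‖ ^ 2)) a p •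
      ((fderiv ℝ (fun z => uu A z a) h : EuclideanSpace ℝ n →L[ℝ] ℝ) :
        Module.Dual ℝ (EuclideanSpace ℝ n))
      = ∑ q, LL2 (yy f h) (‖A h‖ ^ 2) p q • eta f q := by
  refine LinearMap.ext fun w => ?_
  set s := ‖A h‖ ^ 2 with hs
  have hn : ∑ i, A h i * A h i = s := (nsq (A h)).symm
  have e1 := yy_A hf hA w p
  have e2 := yy_A hf hA h p
  have e3 := inner_A hf hA h w
  rw [LinearMap.sum_apply, LinearMap.sum_apply, Fintype.sum_sum_type]
  simp only [LinearMap.smul_apply, ContinuousLinearMap.coe_coe, (hasFDerivAt_uu A h _).fderiv,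
    Finset.univ_unique, Finset.sum_singleton, mF, of_apply, _root_.add_apply, _root_.smul_apply,
    ContinuousLinearMap.comp_apply, smul_eq_mul, eta_apply]
  have e4 : (innerSL ℝ (A h)) (A w) = ∑ i, A h i * A w i := by
    rw [innerSL_apply_apply, PiLp.inner_apply]
    refine Finset.sum_congr rfl fun i _ => ?_
    rw [RCLike.inner_apply, conj_trivial, mul_comm]
  have e5 : ∀ i, (EuclideanSpace.proj i : EuclideanSpace ℝ n →L[ℝ] ℝ) (A w) = A w i := fun _ => rfl
  simp only [e4, e5, ← hs]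
  set r := ∑ i, A h i * A w i with hr
  have e6 : ∀ i, (f i p + ca s * A h i * yy f h p) *
        (-cb s * A w i + -deriv cb s * (2 * A h i) * r)
      = -cb s * (f i p * A w i) + (-2 * deriv cb s * r) * (f i p * A h i)
        + (-(ca s * cb s * yy f h p)) * (A h i * A w i)
        + (-2 * ca s * deriv cb s * yy f h p * r) * (A h i * A h i) := fun i => by ring
  have e7 : ∀ q, LL2 (yy f h) s p q * yy f w q
      = (if p = q then -cb s * yy f w q else 0)
        + (-2 * deriv cb s * (1 + ca s * s) - ca s * cb s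
      - 2 * cb s * (Real.sin (ph s) * deriv ph s)) * yy f h p * (yy f h q * yy f w q) := by
    intro q
    simp only [LL2, Matrix.add_apply, Matrix.smul_apply, Matrix.one_apply, Matrix.vecMulVec_apply,
      smul_eq_mul]
    split_ifs <;> ring
  have e8 : ∀ q, ∑ i, f i q * w i = yy f w q := fun _ => rfl
  simp only [e6, e8, e7, Finset.sum_add_distrib, ← Finset.mul_sum, e1, e2, hn, ← e3, ← hr,
    Finset.sum_ite_eq, Finset.mem_univ, if_true]
  ring

variable {E : Type*} [NormedAddCommGroup E] [NormedSpace ℝ E] [FiniteDimensional ℝ E]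
  {P : E → EuclideanSpace ℝ n →L[ℝ] EuclideanSpace ℝ n} {W : E → (ι × Fin 2 → n) → ℝ} {x : E}

theorem det_mc {κ : Type*} [Fintype κ] [DecidableEq κ] (M : Matrix κ κ ℝ) :
    ((M.det : ℝ) : ℂ) = (mc M).det := by
  have := RingHom.map_det (algebraMap ℝ ℂ) M
  exact this

/-- the vertical part of the Euler form `ue` in the frame -/
theorem pbC_ue [Nonempty ι] (hP : ContDiffAt ℝ ∞ P x)
    (hf : fᵀ * f = 1) (hPf : ∀ v i, P x v i = ∑ j, (f * fᵀ) i j * v j)
    (hWf : ∀ I, W x I = (f.submatrix I id).det) (h : EuclideanSpace ℝ n) :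
    pbC (((ContinuousLinearMap.inr ℝ E (EuclideanSpace ℝ n)).comp (P x) :
        EuclideanSpace ℝ n →L[ℝ] E × EuclideanSpace ℝ n) :
        EuclideanSpace ℝ n →ₗ[ℝ] E × EuclideanSpace ℝ n) (ue P W (x, P x h))
      = Cx.ofR (GG ι (‖P x h‖ ^ 2) • Xi f) := by
  set A := P x with hAdef
  set g : EuclideanSpace ℝ n → E × EuclideanSpace ℝ n := fun z => (x, A z) with hg
  have hgd : ∀ z, HasFDerivAt g ((ContinuousLinearMap.inr ℝ E (EuclideanSpace ℝ n)).comp A) z := by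
    intro z
    have : HasFDerivAt (fun z => (x, A z)) ((0 : EuclideanSpace ℝ n →L[ℝ] E).prod A) z :=
      (hasFDerivAt_const x z).prodMk A.hasFDerivAt
    refine this.congr_fderiv ?_
    ext w <;> simp
  have hg2 : ContDiffAt ℝ 2 g h := contDiffAt_const.prodMk A.contDiff.contDiffAt
  have hSM : SM 1 (fun z : E × EuclideanSpace ℝ n => SS z.2 * mtx (P z.1) * (SS z.2)ᵀ) (g h) := by
    have h1 : SM ∞ (fun z : E × EuclideanSpace ℝ n => SS z.2) (g h) :=
      (SM_SS (g h).2).comp contDiffAt_snd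
    have h2 : SM ∞ (fun z : E × EuclideanSpace ℝ n => mtx (P z.1)) (g h) :=
      (contDiffAt_mtx (x := (g h).1) hP).comp contDiffAt_fst
    exact ((h1.push h2)).of_le one_le_inf
  have e1 : pbC (((ContinuousLinearMap.inr ℝ E (EuclideanSpace ℝ n)).comp A :
        EuclideanSpace ℝ n →L[ℝ] E × EuclideanSpace ℝ n) :
        EuclideanSpace ℝ n →ₗ[ℝ] E × EuclideanSpace ℝ n) (ue P W (x, A h))
      = pullC g (ue P W) h := by
    rw [pullC, (hgd h).fderiv]
  rw [e1, ue, pullC_ef hg2 hSM]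
  have ht : (0 : ℝ) ≤ ‖A h‖ ^ 2 := sq_nonneg _
  have hn := norm_A hf hPf h
  have hW2 : ∀ I, pushW (SS (g h).2) (wC W (g h).1) I
      = ((mc (mF f (fun i => A h i) (yy f h) (ca (‖A h‖ ^ 2)) (cb (‖A h‖ ^ 2)))).submatrix I id).det := by
    intro I
    rw [← SS_frame hf hPf h]
    exact pushW_frame (SS (A h)) (mc f) (fun I => by
      change ((W x I : ℝ) : ℂ) = _
      rw [hWf, det_mc]
      rfl) I
  have hfld : ∀ z, SS (g z).2 * mtx (P (g z).1) * (SS (g z).2)ᵀ
      = mc (Matrix.fromBlocks (f * fᵀ) 0 0 (1 : Matrix Unit Unit ℝ))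
        - Uc (uu A) z * (Uc (uu A) z)ᵀ := fun z => field_eq hf hPf z
  have huC : ∀ a, ContDiffAt ℝ 1 (fun z => uu A z a) h := by
    intro a
    rcases a with i | t
    · have h1 : ContDiff ℝ ∞ fun z => -cb (‖A z‖ ^ 2) * A z i :=
        (contDiff_cb.comp A.contDiff).neg.mul ((contDiff_coord i).comp A.contDiff)
      exact h1.contDiffAt.of_le one_le_inf
    · have h1 : ContDiff ℝ ∞ fun z => Real.cos (ph (‖A z‖ ^ 2)) :=
        Real.contDiff_cos.comp (ph_contDiff.comp ((contDiff_norm_sq ℝ).comp A.contDiff))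
      exact h1.contDiffAt.of_le one_le_inf
  have hq : ∑ p, yy f h p * yy f h p = ‖A h‖ ^ 2 := hn.symm
  have e2 := ef_complement (x := h)
    (P := fun z => SS (g z).2 * mtx (P (g z).1) * (SS (g z).2)ᵀ)
    (Wt := fun z => pushW (SS (g z).2) (wC W (g z).1)) (u := uu A)
    (f := mF f (fun i => A h i) (yy f h) (ca (‖A h‖ ^ 2)) (cb (‖A h‖ ^ 2)))
    hfld huC (mF_orth hf (A_yy hPf h) (by rw [hq]; exact sc3 ht))
    (by
      have h4 : (mc (mF f (fun i => A h i) (yy f h) (ca (‖A h‖ ^ 2)) (cb (‖A h‖ ^ 2))))ᵀ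
        = (SS (A h) * mc f)ᵀ := by rw [SS_frame hf hPf h]
      have h1 : mtx A = mc f * (mc f)ᵀ := by
        have : (mc f)ᵀ = mc fᵀ := rfl
        rw [this, mc_mul]
        exact mtx_of_frame hPf
      rw [h4, ← SS_frame hf hPf h, transpose_mul]
      change _ = SS (A h) * mtx A * (SS (A h))ᵀ
      rw [h1]
      simp only [Matrix.mul_assoc])
    (mU_unit hf (A_yy hPf h) (by rw [hq]; exact sc2 ht))
    (mF_mU hf (A_yy hPf h) (by rw [hq]; exact sc1 ht)) hW2
  rw [e2, th_lin (LL2 (yy f h) (‖A h‖ ^ 2)) (theta_eq hf hPf h), det_LL2 hq ht]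
  have h5 : Fintype.card (ι × Fin 2) = 2 * Fintype.card ι := by
    rw [Fintype.card_prod, Fintype.card_fin, mul_comm]
  rw [h5]
  rfl

theorem pb_zero_of_isDeg {V V' : Type*} [NormedAddCommGroup V] [NormedSpace ℝ V]
    [FiniteDimensional ℝ V] [NormedAddCommGroup V'] [NormedSpace ℝ V'] {p : ℕ} (hp : 0 < p)
    {c : Ext V'} (hc : IsDeg p c) : pb (0 : V →ₗ[ℝ] V') c = 0 := by
  refine eq_zero_of_evA fun q => ?_
  ext v
  rw [evA_pb]
  rcases Nat.eq_zero_or_pos q with h | h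
  · subst h
    rw [hc 0 (by omega)]
    rfl
  · obtain ⟨q', rfl⟩ : ∃ q', q = q' + 1 := ⟨q - 1, by omega⟩
    have : (fun i => (0 : V →ₗ[ℝ] V') (v i)) = fun _ : Fin (q' + 1) => (0 : V') := by
      funext i; simp
    rw [this]
    exact (evA V' (q' + 1) c).map_coord_zero 0 rfl

/-- **(TH-D0)** -/
theorem pb_thomF [Nonempty ι] (hP : ContDiffAt ℝ ∞ P x)
    (hf : fᵀ * f = 1) (hPf : ∀ v i, P x v i = ∑ j, (f * fᵀ) i j * v j)
    (hWf : ∀ I, W x I = (f.submatrix I id).det) (h : EuclideanSpace ℝ n) :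
    pb (((ContinuousLinearMap.inr ℝ E (EuclideanSpace ℝ n)).comp (P x) :
        EuclideanSpace ℝ n →L[ℝ] E × EuclideanSpace ℝ n) :
        EuclideanSpace ℝ n →ₗ[ℝ] E × EuclideanSpace ℝ n) (thomF P W (x, P x h))
      = GG ι (‖P x h‖ ^ 2) • Xi f := by
  have h1 := congrArg Cx.re (pbC_ue (W := W) hP hf hPf hWf h)
  rw [pbC_re, Cx.ofR_re] at h1
  have h2 : pb (((ContinuousLinearMap.inr ℝ E (EuclideanSpace ℝ n)).comp (P x) :
        EuclideanSpace ℝ n →L[ℝ] E × EuclideanSpace ℝ n) :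
        EuclideanSpace ℝ n →ₗ[ℝ] E × EuclideanSpace ℝ n)
        (F.pull (fun z : E × EuclideanSpace ℝ n => z.1) (eR P W) (x, P x h)) = 0 := by
    rw [F.pull, pb_comp]
    have h3 : ((fderiv ℝ (fun z : E × EuclideanSpace ℝ n => z.1) (x, P x h) :
        E × EuclideanSpace ℝ n →L[ℝ] E) : E × EuclideanSpace ℝ n →ₗ[ℝ] E) ∘ₗ
        (((ContinuousLinearMap.inr ℝ E (EuclideanSpace ℝ n)).comp (P x) :
        EuclideanSpace ℝ n →L[ℝ] E × EuclideanSpace ℝ n) :
        EuclideanSpace ℝ n →ₗ[ℝ] E × EuclideanSpace ℝ n) = 0 := by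
      have : fderiv ℝ (fun z : E × EuclideanSpace ℝ n => z.1) (x, P x h)
          = ContinuousLinearMap.fst ℝ E (EuclideanSpace ℝ n) := fderiv_fst
      rw [this]
      ext w
      simp
    rw [h3]
    have h4 : IsDeg (2 * Fintype.card ι) (eR P W x) := (degC_ef _ _ x).1
    exact pb_zero_of_isDeg (by have := Fintype.card_pos (α := ι); omega) h4
  rw [thomF, map_smul, map_add, h1, h2, add_zero]
  by_cases hle : ‖P x h‖ ≤ 2
  · rw [cut_of_le hle, one_smul]
  · have hs : (1 : ℝ) ≤ ‖P x h‖ ^ 2 := by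
      push Not at hle
      nlinarith
    have hG : GG ι (‖P x h‖ ^ 2) = 0 := by
      rw [GG, ph_of_ge hs, Real.sin_pi, zero_div, zero_pow, mul_zero, mul_zero]
      have := Fintype.card_pos (α := ι); omega
    rw [hG, zero_smul, smul_zero]

end main

end Crest.Agent.R208.T
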