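import Crest.Agent.R208.GO1
import Crest.Agent.R208.THD0
import Crest.Agent.R208.SB1
import Crest.Agent.R208.SO1
import Crest.Agent.R208.CM3e

/-! Row 208, block GO (helper589), part GO2: the Euler class of the complement on the sphere bundle
of an odd rank field is not pulled back from the base. -/

set_option autoImplicit false
set_option linter.unusedSectionVars false

open Module Set Matrix Filter Topology
open scoped ContDiff RealInnerProductSpace Nat
open Crest.Agent.R208.F Crest.Agent.R208.FI Crest.Agent.R208.CW Crest.Agent.R208.T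

noncomputable section

namespace Crest.Agent.R208.GO

variable {n : Type*} [Fintype n] [DecidableEq n] {E : Type*} [NormedAddCommGroup E]
  [NormedSpace ℝ E] [FiniteDimensional ℝ E] {ι' : Type*} [Fintype ι'] [DecidableEq ι']
  {X : Set E} {P : E → EuclideanSpace ℝ n →L[ℝ] EuclideanSpace ℝ n} {x0 : E}
  {W' : E × EuclideanSpace ℝ n → (ι' × Fin 2 → n) → ℝ}

/-- the complement of the tautological section on the sphere bundle -/
abbrev RR (P : E → EuclideanSpace ℝ n →L[ℝ] EuclideanSpace ℝ n) :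
    E × EuclideanSpace ℝ n → EuclideanSpace ℝ n →L[ℝ] EuclideanSpace ℝ n :=
  GQ.Pm (fun z => P z.1) (fun z => z.2)

theorem mtx_RR (y : EuclideanSpace ℝ n) : mtx (RR P (x0, y)) =
    mtx (P x0) - Uc (fun z : EuclideanSpace ℝ n => fun a => z a) y *
      (Uc (fun z : EuclideanSpace ℝ n => fun a => z a) y)ᵀ := by
  ext i j
  rw [Matrix.sub_apply, Matrix.mul_apply]
  simp only [mtx, of_apply, Uc, transpose_apply, Finset.univ_unique, Finset.sum_singleton]
  rw [GQ.Pm_apply, PiLp.sub_apply, PiLp.smul_apply, smul_eq_mul, EuclideanSpace.inner_single_right]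
  push_cast
  simp [mul_comm]

/-- the Euler form along a fibre -/
theorem pull_fibre {f : Matrix n (ι' × Fin 2) ℝ} {w : EuclideanSpace ℝ n} (hw : ‖w‖ = 1)
    (hP : ContDiffAt ℝ ∞ P x0) (hPw : P x0 w = w)
    (hf1 : fᵀ * f = 1) (hf2 : ∀ v i, RR P (x0, w) v i = ∑ j, (f * fᵀ) i j * v j)
    (hf3 : ∀ I, W' (x0, w) I = (f.submatrix I id).det) :
    F.pull (fun y : EuclideanSpace ℝ n => (x0, y)) (eR (RR P) W') w =
      ((Fintype.card (ι' × Fin 2))! : ℝ) • Xw (eta f) := by
  have hg : ContDiffAt ℝ 2 (fun y : EuclideanSpace ℝ n => (x0, y)) w :=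
    contDiffAt_const.prodMk contDiffAt_id
  have hS : SM 1 (fun z : E × EuclideanSpace ℝ n => mtx (RR P z)) (x0, w) := by
    have h1 : ContDiffAt ℝ ∞ (RR P) (x0, w) := by
      have hb : ContDiff ℝ ∞ fun a : EuclideanSpace ℝ n => (innerSL ℝ a).smulRight a :=
        (ContinuousLinearMap.smulRightL ℝ (EuclideanSpace ℝ n)
          (EuclideanSpace ℝ n)).isBoundedBilinearMap.contDiff.comp
          ((innerSL ℝ).contDiff.prodMk contDiff_id)
      exact (hP.comp (x0, w) contDiffAt_fst).sub (hb.contDiffAt.comp (x0, w) contDiffAt_snd)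
    exact (contDiffAt_mtx h1).of_le one_le_inf
  have hfw : fᵀ.mulVec (fun a => w a) = 0 := by
    have h1 : (f * fᵀ).mulVec (fun a => w a) = 0 := by
      funext i
      have h2 := hf2 w i
      rw [GQ.Pm_apply, hPw, real_inner_self_eq_norm_sq, hw, one_pow, one_smul, sub_self] at h2
      rw [Matrix.mulVec, dotProduct]
      exact h2.symm
    have h2 := congrArg (fun z => fᵀ.mulVec z) h1
    simp only [Matrix.mulVec_zero] at h2
    rwa [Matrix.mulVec_mulVec, ← Matrix.mul_assoc, hf1, Matrix.one_mul] at h2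
  have e2 := ef_complement (x := w) (P := fun y => mtx (RR P (x0, y))) (Q := mtx (P x0))
    (Wt := fun y => wC W' (x0, y)) (u := fun z : EuclideanSpace ℝ n => fun a => z a) (f := f)
    (fun y => mtx_RR y)
    (fun a => (EuclideanSpace.proj a : EuclideanSpace ℝ n →L[ℝ] ℝ).contDiff.contDiffAt) hf1
    (by
      have : (mc f)ᵀ = mc fᵀ := rfl
      rw [this, mc_mul]
      exact (mtx_of_frame hf2).symm)
    (by
      have := real_inner_self_eq_norm_sq w
      rw [hw, PiLp.inner_apply, one_pow] at this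
      rw [← this]
      exact Finset.sum_congr rfl fun i _ => by rw [RCLike.inner_apply, conj_trivial])
    (fun p => by
      have h1 := congrFun hfw p
      rw [Matrix.mulVec, dotProduct] at h1
      exact h1)
    (fun I => by
      change ((W' (x0, w) I : ℝ) : ℂ) = _
      rw [hf3, det_mc]
      rfl)
  have e3 : F.pull (fun y : EuclideanSpace ℝ n => (x0, y)) (eR (RR P) W') w =
      (pullC (fun y : EuclideanSpace ℝ n => (x0, y))
        (ef (fun z => mtx (RR P z)) (wC W')) w).re := rfl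
  rw [e3, pullC_ef hg hS, e2, pfS_th, Cx.ofR_re]
  congr 2
  funext p
  refine LinearMap.ext fun v => ?_
  rw [LinearMap.sum_apply, eta_apply]
  refine Finset.sum_congr rfl fun a _ => ?_
  rw [LinearMap.smul_apply, smul_eq_mul]
  congr 1
  have : (fun y : EuclideanSpace ℝ n => y a) = (EuclideanSpace.proj a : EuclideanSpace ℝ n →L[ℝ] ℝ) :=
    rfl
  rw [this, ContinuousLinearMap.fderiv]
  rfl

theorem Tan_point (p : E) : Tan ({p} : Set E) p = ⊥ :=
  Submodule.finrank_eq_zero.1 ((sub_point p).finrank_Tan rfl)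

/-- **(hε)**: the Euler class of the complement of the tautological section on the sphere bundle of an
odd rank field is not a class of the base -/
theorem not_pull [Nonempty ι'] {r : ℕ} (hP : PField X r P) (hr : r = 2 * Fintype.card ι' + 1)
    (hR : OR (Sph X P) (RR P) W') (hx0 : x0 ∈ X) :
    ¬ ∃ c : E → Ext E, Sm X c ∧ Coh (Sph X P) (eR (RR P) W') (F.pull Prod.fst c) := by
  rintro ⟨c, hc, hcoh⟩
  set k := Fintype.card ι' * 2 with hk
  have hk0 : 0 < k := by
    have := Fintype.card_pos (α := ι')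
    omega
  have hP0 : PField ({x0} : Set E) (k + 1) P :=
    ⟨fun x hx => by rw [hx]; exact hP.smooth _ hx0, fun x hx => by rw [hx]; exact hP.idem _ hx0,
      fun x hx => by rw [hx, hP.rank _ hx0]; omega⟩
  have hsub : Sph ({x0} : Set E) P ⊆ Sph X P := by
    rintro z ⟨⟨h1, h2⟩, h3⟩
    have h1' : z.1 = x0 := h1
    exact ⟨⟨by rw [h1']; exact hx0, h2⟩, h3⟩
  have hS : Clo (k + 0) (Sph ({x0} : Set E) P) :=
    SB.clo_Sph ((sub_point x0).clo isCompact_singleton) hP0
  rw [add_zero] at hS
  have sE : Sm (Sph ({x0} : Set E) P) (eR (RR P) W') := (CM.sm_eR hR).mono hsub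
  -- orientation
  have ho : Ori k (Sph ({x0} : Set E) P) (eR (RR P) W') := by
    refine ori_of hS (continuousOn_of_contDiffAt sE) fun z hz => ?_
    obtain ⟨x, w⟩ := z
    have hx : x = x0 := hz.1.1
    subst hx
    obtain ⟨f, f1, f2, f3⟩ := hR.fr _ (hsub hz)
    have hPw : P x w = w := hz.1.2
    have hw : ‖w‖ = 1 := hz.2
    have key := pull_fibre hw (hP.smooth _ hx0) hPw f1 f2 f3
    set b : Fin k → EuclideanSpace ℝ n := fun i => WithLp.toLp 2 fun a => f a ((kFin ι').symm i)
      with hb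
    have hRb : ∀ i, RR P (x, w) (b i) = b i := by
      intro i
      ext a
      rw [f2]
      have h1 : f * fᵀ * f = f := by rw [Matrix.mul_assoc, f1, Matrix.mul_one]
      have h2 := congrFun (congrFun h1 a) ((kFin ι').symm i)
      rw [Matrix.mul_apply] at h2
      exact h2
    have hwb : ∀ i, ⟪w, b i⟫ = 0 := by
      intro i
      have h1 : (f * fᵀ).mulVec (fun a => w a) = 0 := by
        funext i
        have h2 := f2 w i
        rw [GQ.Pm_apply, hPw, real_inner_self_eq_norm_sq, hw, one_pow, one_smul, sub_self] at h2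
        rw [Matrix.mulVec, dotProduct]
        exact h2.symm
      have h2 := congrArg (fun z => fᵀ.mulVec z) h1
      simp only [Matrix.mulVec_zero] at h2
      rw [Matrix.mulVec_mulVec, ← Matrix.mul_assoc, f1, Matrix.one_mul] at h2
      have h3 := congrFun h2 ((kFin ι').symm i)
      rw [Matrix.mulVec, dotProduct] at h3
      rw [PiLp.inner_apply]
      refine Eq.trans (Finset.sum_congr rfl fun a _ => ?_) h3
      rw [RCLike.inner_apply, conj_trivial]
      rfl
    have hPb : ∀ i, P x (b i) = b i := by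
      intro i
      have h1 := hRb i
      rw [GQ.Pm_apply, hwb, zero_smul, sub_zero] at h1
      exact h1
    refine ⟨fun i => ((0 : E), b i), fun i => ?_, ?_⟩
    · exact (SB.vert_mem_Sph (sub_point x) hP0 hz).2 ⟨hPb i, hwb i⟩
    · have h1 : evA (E × EuclideanSpace ℝ n) k (eR (RR P) W' (x, w)) (fun i => ((0 : E), b i)) =
          evA (EuclideanSpace ℝ n) k (F.pull (fun y : EuclideanSpace ℝ n => (x, y))
            (eR (RR P) W') w) b := by
        rw [F.pull, evA_pb]
        have h2 : fderiv ℝ (fun y : EuclideanSpace ℝ n => (x, y)) w =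
            ContinuousLinearMap.inr ℝ E (EuclideanSpace ℝ n) := by
          have : HasFDerivAt (fun y : EuclideanSpace ℝ n => (x, y))
              ((0 : EuclideanSpace ℝ n →L[ℝ] E).prod (ContinuousLinearMap.id ℝ _)) w :=
            (hasFDerivAt_const x w).prodMk (hasFDerivAt_id w)
          rw [this.fderiv]
          ext v <;> simp
        rw [h2]
        rfl
      rw [h1, key, map_smul, AlternatingMap.smul_apply, Xw, evA_iMulti, smul_eq_mul]
      have h3 : (Matrix.of fun i j : Fin k => eta f ((kFin ι').symm j) (b i)) = 1 := by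
        ext i j
        rw [of_apply, eta_apply, Matrix.one_apply]
        have h4 := congrFun (congrFun f1 ((kFin ι').symm j)) ((kFin ι').symm i)
        rw [Matrix.mul_apply, Matrix.one_apply] at h4
        refine Eq.trans ?_ (h4.trans ?_)
        · exact Finset.sum_congr rfl fun a _ => rfl
        · by_cases hij : i = j
          · rw [if_pos hij, if_pos (by rw [hij])]
          · rw [if_neg hij, if_neg fun h => hij ((kFin ι').symm.injective h).symm]
      rw [h3, det_one, mul_one]
      exact_mod_cast (Nat.factorial_pos _).ne'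
  -- the integral
  have hne : (Sph ({x0} : Set E) P).Nonempty := by
    have h1 : 0 < finrank ℝ (LinearMap.range (P x0 : EuclideanSpace ℝ n →ₗ[ℝ] EuclideanSpace ℝ n)) := by
      rw [hP.rank _ hx0]; omega
    obtain ⟨⟨y, hy⟩, hy0⟩ := (Module.finrank_pos_iff_exists_ne_zero).1 h1
    have hy1 : y ≠ 0 := fun h => hy0 (Subtype.ext h)
    obtain ⟨u, rfl⟩ := hy
    refine ⟨(x0, ‖P x0 u‖⁻¹ • P x0 u), ⟨rfl, ?_⟩, ?_⟩
    · change P x0 _ = _
      rw [map_smul, hP.idem _ hx0]
    · rw [norm_smul, norm_inv, norm_norm]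
      exact inv_mul_cancel₀ (norm_ne_zero_iff.2 hy1)
  have h1 := J_pos hS ho hne
  have hsm : Sm (Sph ({x0} : Set E) P) (F.pull Prod.fst c) := (hc.pull smap_fstS).mono hsub
  rw [SO.J_coh hS ho sE hsm (hcoh.mono hsub)] at h1
  refine h1.ne' (J_eq_zero hS fun z hz w hw => ?_)
  obtain ⟨x, y⟩ := z
  have hx : x = x0 := hz.1.1
  subst hx
  rw [F.pull, evA_pb]
  have h2 : fderiv ℝ (Prod.fst : E × EuclideanSpace ℝ n → E) (x, y) =
      ContinuousLinearMap.fst ℝ E (EuclideanSpace ℝ n) := fderiv_fst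
  rw [h2]
  refine (evA E k (c x)).map_coord_zero ⟨0, hk0⟩ ?_
  have h3 := ((SB.mem_Tan_Sph (sub_point x) hP0 (v := y) hz (a := (w ⟨0, hk0⟩).1)
    (b := (w ⟨0, hk0⟩).2)).1 (hw ⟨0, hk0⟩)).1
  rw [Tan_point, Submodule.mem_bot] at h3
  exact h3

section sph
variable {ι : Type*} [Fintype ι] [DecidableEq ι]
  {Q : E → EuclideanSpace ℝ n →L[ℝ] EuclideanSpace ℝ n} {W : E → (ι × Fin 2 → n) → ℝ}
  {v : E → EuclideanSpace ℝ n} {r : ℕ}

/-- the tensor of the complement of `v` and the tautological section on the sphere bundle -/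
def WS (eq : (Unit × Fin 2) ⊕ (ι' × Fin 2) ≃ (ι × Fin 2)) (W : E → (ι × Fin 2 → n) → ℝ)
    (v : E → EuclideanSpace ℝ n) (z : E × EuclideanSpace ℝ n) : (ι' × Fin 2 → n) → ℝ :=
  ctr eq (col2 (v z.1) z.2) (W z.1)

/-- **the complement of `(v, z.2)` on the sphere bundle of `Q - v vᵀ` is oriented** -/
theorem OR_sph [Nonempty ι'] (eq : (Unit × Fin 2) ⊕ (ι' × Fin 2) ≃ (ι × Fin 2))
    (h : GQ.OddS X Q r v) (hO : OR X Q W) :
    OR (Sph X (GQ.Pm Q v)) (RR (GQ.Pm Q v)) (WS eq W v) := by
  refine OR_pair eq (P := fun z : E × EuclideanSpace ℝ n => Q z.1) (W := fun z => W z.1)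
    (v := fun z => v z.1) (w := fun z => z.2)
    ⟨fun z hz => (hO.sP _ hz.1.1).comp z contDiffAt_fst,
      fun z hz I => (hO.sW _ hz.1.1 I).comp z contDiffAt_fst, fun z hz => hO.fr _ hz.1.1⟩
    (fun z hz => (h.sv _ hz.1.1).comp z contDiffAt_fst) (fun z _ => contDiffAt_snd)
    (fun z hz => h.nv _ hz.1.1) (fun z hz => hz.2) (fun z hz => ?_)
    (fun z hz => h.fix _ hz.1.1) (fun z hz => ?_)
  · have h1 : GQ.Pm Q v z.1 z.2 = z.2 := hz.1.2
    change ⟪v z.1, z.2⟫ = 0
    rw [← h1]
    exact h.inner_Pm hz.1.1 _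
  · have h1 : GQ.Pm Q v z.1 z.2 = z.2 := hz.1.2
    change Q z.1 z.2 = z.2
    rw [← h1]
    exact h.Q_Pm hz.1.1 _

/-- **(hε)** in the situation of an oriented even rank field with a unit section -/
theorem not_pull_sph [Nonempty ι'] (eq : (Unit × Fin 2) ⊕ (ι' × Fin 2) ≃ (ι × Fin 2))
    (h : GQ.OddS X Q (2 * Fintype.card ι) v) (hO : OR X Q W) (hx0 : x0 ∈ X) :
    ¬ ∃ c : E → Ext E, Sm X c ∧
      Coh (Sph X (GQ.Pm Q v)) (eR (RR (GQ.Pm Q v)) (WS eq W v)) (F.pull Prod.fst c) := by
  have h1 := Fintype.card_congr eq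
  rw [Fintype.card_sum, Fintype.card_prod, Fintype.card_prod, Fintype.card_prod,
    Fintype.card_unit, Fintype.card_fin] at h1
  exact not_pull h.pfield (by omega) (OR_sph eq h hO) hx0

end sph

end Crest.Agent.R208.GO
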