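import Mathlib

/-! Row 208, block GP (helper198), part GP0: smooth extension from compact sets; continuous lifts of
fields of lines over star shaped sets and their quotients with connected fibres. -/

set_option autoImplicit false
set_option linter.unusedSectionVars false

open Set Filter Topology
open scoped ContDiff RealInnerProductSpace

noncomputable section

namespace Crest.Agent.R208.GP

/-- **extension lemma**: local ambient extensions glue over a compact set. -/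
theorem exists_extension {E F : Type*} [NormedAddCommGroup E] [NormedSpace ℝ E]
    [FiniteDimensional ℝ E] [NormedAddCommGroup F] [NormedSpace ℝ F] {K : Set E}
    (hK : IsCompact K) {f : E → F}
    (h : ∀ x ∈ K, ∃ (U : Set E) (g : E → F), IsOpen U ∧ x ∈ U ∧
      (∀ y ∈ K ∩ U, ContDiffAt ℝ ∞ g y) ∧ ∀ y ∈ K ∩ U, g y = f y) :
    ∃ f' : E → F, (∀ x ∈ K, ContDiffAt ℝ ∞ f' x) ∧ ∀ x ∈ K, f' x = f x := by
  classical
  have key : ∀ x : E, x ∈ K → ∃ (φ : E → ℝ) (U : Set E) (g : E → F),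
      (∀ y ∈ K ∩ U, ContDiffAt ℝ ∞ g y) ∧ (∀ y ∈ K ∩ U, g y = f y) ∧ tsupport φ ⊆ U ∧
      ContDiff ℝ ∞ φ ∧ (∀ y, 0 ≤ φ y) ∧ 0 < φ x := by
    intro x hx
    obtain ⟨U, g, hU, hxU, h1, h2⟩ := h x hx
    obtain ⟨φ, h3, h4, h5, h6, h7⟩ := exists_contDiff_tsupport_subset (n := ⊤) (hU.mem_nhds hxU)
    exact ⟨φ, U, g, h1, h2, h3, h5, fun y => (h6 ⟨y, rfl⟩).1, by rw [h7]; norm_num⟩
  choose! φ U g hg hgf hs hφ hφ0 hφp using key
  obtain ⟨t, htX, ht⟩ := hK.elim_nhds_subcover (fun x => {y | 0 < φ x y}) (fun x hx =>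
    (isOpen_lt continuous_const (hφ x hx).continuous).mem_nhds (hφp x hx))
  set Φ : E → ℝ := fun y => ∑ x ∈ t, φ x y with hΦ
  have hΦC : ContDiff ℝ ∞ Φ := ContDiff.sum fun x hx => hφ x (htX x hx)
  have hΦp : ∀ y ∈ K, 0 < Φ y := by
    intro y hy
    obtain ⟨x, hx, hxy⟩ := mem_iUnion₂.1 (ht hy)
    exact Finset.sum_pos' (fun z hz => hφ0 z (htX z hz) y) ⟨x, hx, hxy⟩
  refine ⟨fun y => (Φ y)⁻¹ • ∑ i ∈ t, φ i y • g i y, fun x hx => ?_, fun x hx => ?_⟩
  · refine (hΦC.contDiffAt.inv (hΦp x hx).ne').smul (ContDiffAt.sum fun i hi => ?_)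
    by_cases hxi : x ∈ tsupport (φ i)
    · exact (hφ i (htX i hi)).contDiffAt.smul (hg i (htX i hi) x ⟨hx, hs i (htX i hi) hxi⟩)
    · refine contDiffAt_const (c := (0 : F)) |>.congr_of_eventuallyEq ?_
      filter_upwards [notMem_tsupport_iff_eventuallyEq.1 hxi] with y hy
      rw [hy]
      exact zero_smul _ _
  · have h1 : ∑ i ∈ t, φ i x • g i x = Φ x • f x := by
      rw [hΦ, Finset.sum_smul]
      refine Finset.sum_congr rfl fun i hi => ?_
      by_cases hxi : x ∈ tsupport (φ i)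
      · rw [hgf i (htX i hi) x ⟨hx, hs i (htX i hi) hxi⟩]
      · rw [image_eq_zero_of_notMem_tsupport hxi, zero_smul, zero_smul]
    show (Φ x)⁻¹ • ∑ i ∈ t, φ i x • g i x = f x
    rw [h1, smul_smul, inv_mul_cancel₀ (hΦp x hx).ne', one_smul]

section lift
variable {W : Type*} [NormedAddCommGroup W] [InnerProductSpace ℝ W]

/-- rank one orthogonal projection -/
def R1 (P : W →L[ℝ] W) : Prop := ∃ u : W, ‖u‖ = 1 ∧ ∀ x, P x = (⟪u, x⟫ : ℝ) • u

theorem R1.idem {P : W →L[ℝ] W} (h : R1 P) (x : W) : P (P x) = P x := by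
  obtain ⟨u, hu, hP⟩ := h
  rw [hP (P x), hP x, real_inner_smul_right, real_inner_self_eq_norm_sq, hu]
  simp

theorem R1.fix {P : W →L[ℝ] W} (h : R1 P) {w : W} (hw : ‖w‖ = 1) (hPw : P w = w) :
    ∀ x, P x = (⟪w, x⟫ : ℝ) • w := by
  obtain ⟨u, hu, hP⟩ := h
  have h1 : w = (⟪u, w⟫ : ℝ) • u := by rw [← hP w, hPw]
  have h2 : (⟪u, w⟫ : ℝ) ^ 2 = 1 := by
    have h3 := congrArg norm h1
    rw [norm_smul, hu, hw, mul_one, Real.norm_eq_abs] at h3
    rw [← sq_abs, ← h3, one_pow]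
  intro x
  rw [hP x]
  conv_rhs => rw [h1, real_inner_smul_left, smul_smul]
  congr 1
  linear_combination (-(⟪u, x⟫ : ℝ)) * h2

theorem R1.two {P : W →L[ℝ] W} (h : R1 P) {w w' : W} (hw : ‖w‖ = 1) (hPw : P w = w)
    (hw' : ‖w'‖ = 1) (hPw' : P w' = w') : w' = w ∨ w' = -w := by
  have h1 := h.fix hw hPw w'
  rw [hPw'] at h1
  have h3 := congrArg norm h1
  rw [norm_smul, hw, hw', mul_one, Real.norm_eq_abs] at h3
  rcases abs_eq (by norm_num : (0:ℝ) ≤ 1) |>.1 h3.symm with h4 | h4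
  · left; rw [h4, one_smul] at h1; exact h1
  · right; rw [h4, neg_one_smul] at h1; exact h1

/-- **lifting** of a field of lines over a compact star shaped set. -/
theorem star_lift {V : Type*} [NormedAddCommGroup V] [NormedSpace ℝ V] {A : Set V}
    (hA : IsCompact A) (h0 : (0 : V) ∈ A) (hst : ∀ x ∈ A, ∀ t ∈ Icc (0 : ℝ) 1, t • x ∈ A)
    {P : V → (W →L[ℝ] W)} (hP : ContinuousOn P A) (hR : ∀ x ∈ A, R1 (P x)) :
    ∃ w : V → W, ContinuousOn w A ∧ ∀ x ∈ A, ‖w x‖ = 1 ∧ P x (w x) = w x := by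
  classical
  -- uniform continuity along rays
  have hc : ContinuousOn (fun q : V × ℝ => P (q.2 • q.1)) (A ×ˢ Icc (0 : ℝ) 1) := by
    refine hP.comp (by fun_prop) ?_
    rintro ⟨x, t⟩ ⟨hx, ht⟩
    exact hst x hx t ht
  have huc := (hA.prod isCompact_Icc).uniformContinuousOn_of_continuous hc
  rw [Metric.uniformContinuousOn_iff] at huc
  obtain ⟨δ, hδ, hδ'⟩ := huc (1 / 2) (by norm_num)
  obtain ⟨m, hm⟩ := exists_nat_gt (1 / δ)
  have hm0 : (0 : ℝ) < m := lt_trans (by positivity) hm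
  have hmδ : 1 / (m : ℝ) < δ := by
    rw [div_lt_iff₀ hm0]
    rw [div_lt_iff₀ hδ] at hm
    linarith
  set s : ℕ → ℝ := fun i => i / m with hs
  have hs01 : ∀ i ≤ m, s i ∈ Icc (0 : ℝ) 1 := fun i hi => ⟨by positivity, by
    rw [hs]; simp only
    rw [div_le_one hm0]; exact_mod_cast hi⟩
  have hstep : ∀ x ∈ A, ∀ i, i + 1 ≤ m → ‖P (s (i + 1) • x) - P (s i • x)‖ < 1 / 2 := by
    intro x hx i hi
    have h1 := hδ' (x, s (i + 1)) ⟨hx, hs01 _ hi⟩ (x, s i) ⟨hx, hs01 _ (by omega)⟩ (by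
      rw [Prod.dist_eq, dist_self, max_eq_right dist_nonneg, Real.dist_eq]
      have h2 : s (i + 1) - s i = 1 / m := by rw [hs]; simp only; push_cast; ring
      rw [h2, abs_of_pos (by positivity)]
      exact hmδ)
    rw [dist_eq_norm] at h1
    exact h1
  obtain ⟨u₀, hu₀, hP₀⟩ := hR 0 h0
  let w : ℕ → V → W := fun i => Nat.rec (fun _ => u₀) (fun j wj x => P (s (j + 1) • x) (wj x)) i
  have hw0 : ∀ x, w 0 x = u₀ := fun _ => rfl
  have hws : ∀ i x, w (i + 1) x = P (s (i + 1) • x) (w i x) := fun _ _ => rfl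
  have hwc : ∀ i ≤ m, ContinuousOn (w i) A := by
    intro i
    induction i with
    | zero => intro _; exact continuousOn_const
    | succ i ih =>
      intro hi
      have h1 := ih (by omega)
      have h2 : ContinuousOn (fun x => P (s (i + 1) • x)) A := by
        refine hP.comp (by fun_prop) fun x hx => hst x hx _ (hs01 _ hi)
      exact h2.clm_apply h1
  have hwm : ∀ i ≤ m, ∀ x ∈ A, P (s i • x) (w i x) = w i x ∧ w i x ≠ 0 := by
    intro i
    induction i with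
    | zero =>
      intro _ x _
      have h1 : s 0 = 0 := by rw [hs]; simp
      rw [h1, zero_smul, hw0]
      refine ⟨?_, fun h => by rw [h, norm_zero] at hu₀; norm_num at hu₀⟩
      rw [hP₀, real_inner_self_eq_norm_sq, hu₀]; simp
    | succ i ih =>
      intro hi x hx
      obtain ⟨h1, h2⟩ := ih (by omega) x hx
      have hmem : s (i + 1) • x ∈ A := hst x hx _ (hs01 _ hi)
      rw [hws]
      refine ⟨(hR _ hmem).idem _, fun h => ?_⟩
      have h3 := (P (s (i + 1) • x) - P (s i • x)).le_opNorm (w i x)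
      rw [sub_apply, h, h1, zero_sub, norm_neg] at h3
      have h4 : 0 < ‖w i x‖ := norm_pos_iff.2 h2
      nlinarith [hstep x hx i hi]
  have hsm : s m = 1 := by rw [hs]; simp only; exact div_self hm0.ne'
  refine ⟨fun x => (‖w m x‖)⁻¹ • w m x, ?_, fun x hx => ?_⟩
  · refine ContinuousOn.smul (ContinuousOn.inv₀ (hwc m le_rfl).norm fun x hx => ?_) (hwc m le_rfl)
    exact norm_ne_zero_iff.2 (hwm m le_rfl x hx).2
  · obtain ⟨h1, h2⟩ := hwm m le_rfl x hx
    rw [hsm, one_smul] at h1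
    refine ⟨?_, ?_⟩
    · rw [norm_smul, norm_inv, norm_norm, inv_mul_cancel₀ (norm_ne_zero_iff.2 h2)]
    · show P x ((‖w m x‖)⁻¹ • w m x) = _
      rw [map_smul, h1]

/-- **descent** of a lift through a quotient map with connected fibres. -/
theorem descend {V Y : Type*} [TopologicalSpace V] [TopologicalSpace Y] [T2Space Y] {A : Set V}
    (hA : IsCompact A) {f : V → Y} (hf : ContinuousOn f A) {B : Set Y} (hB : f '' A = B)
    (hfib : ∀ b ∈ B, IsPreconnected (A ∩ f ⁻¹' {b}))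
    {P : Y → (W →L[ℝ] W)} (hR : ∀ x ∈ B, R1 (P x)) {w : V → W} (hw : ContinuousOn w A)
    (hw1 : ∀ a ∈ A, ‖w a‖ = 1 ∧ P (f a) (w a) = w a) :
    ∃ w' : Y → W, ContinuousOn w' B ∧ (∀ b ∈ B, ‖w' b‖ = 1 ∧ P b (w' b) = w' b) ∧
      ∀ a ∈ A, w a = w' (f a) := by
  classical
  have hconst : ∀ a ∈ A, ∀ a' ∈ A, f a = f a' → w a = w a' := by
    intro a ha a' ha' haa
    have hb : f a ∈ B := by rw [← hB]; exact ⟨a, ha, rfl⟩
    have hpre := hfib _ hb
    have hg : ContinuousOn (fun x => (⟪w a, w x⟫ : ℝ)) (A ∩ f ⁻¹' {f a}) :=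
      continuousOn_const.inner (𝕜 := ℝ) (hw.mono inter_subset_left)
    have hval : ∀ x ∈ A ∩ f ⁻¹' {f a}, w x = w a ∨ w x = - w a := by
      rintro x ⟨hx, hxa⟩
      have hxa' : f x = f a := hxa
      have h1 := hw1 x hx
      rw [hxa'] at h1
      exact (hR _ hb).two (hw1 a ha).1 (hw1 a ha).2 h1.1 h1.2
    have him := hpre.image _ hg
    rcases hval a' ⟨ha', haa.symm⟩ with h | h
    · exact h.symm
    · exfalso
      have h1 : (1 : ℝ) ∈ (fun x => (⟪w a, w x⟫ : ℝ)) '' (A ∩ f ⁻¹' {f a}) :=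
        ⟨a, ⟨ha, rfl⟩, by simp only; rw [real_inner_self_eq_norm_sq, (hw1 a ha).1]; norm_num⟩
      have h2 : (-1 : ℝ) ∈ (fun x => (⟪w a, w x⟫ : ℝ)) '' (A ∩ f ⁻¹' {f a}) :=
        ⟨a', ⟨ha', haa.symm⟩, by
          simp only; rw [h, inner_neg_right, real_inner_self_eq_norm_sq, (hw1 a ha).1]; norm_num⟩
      have h3 : (0 : ℝ) ∈ (fun x => (⟪w a, w x⟫ : ℝ)) '' (A ∩ f ⁻¹' {f a}) :=
        him.ordConnected.out h2 h1 ⟨by norm_num, by norm_num⟩
      obtain ⟨x, hx, hx0⟩ := h3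
      simp only at hx0
      rcases hval x hx with h4 | h4
      · rw [h4, real_inner_self_eq_norm_sq, (hw1 a ha).1] at hx0; norm_num at hx0
      · rw [h4, inner_neg_right, real_inner_self_eq_norm_sq, (hw1 a ha).1] at hx0
        norm_num at hx0
  have hch : ∀ b ∈ B, ∃ a, a ∈ A ∧ f a = b := fun b hb => by rw [← hB] at hb; exact hb
  let w' : Y → W := fun b => if hb : b ∈ B then w (hch b hb).choose else 0
  have hw' : ∀ a ∈ A, w a = w' (f a) := by
    intro a ha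
    have hb : f a ∈ B := by rw [← hB]; exact ⟨a, ha, rfl⟩
    show w a = if hb : f a ∈ B then w (hch _ hb).choose else 0
    rw [dif_pos hb]
    have h1 := (hch _ hb).choose_spec
    exact hconst a ha _ h1.1 h1.2.symm
  refine ⟨w', ?_, ?_, hw'⟩
  · rw [continuousOn_iff_isClosed]
    intro C hC
    obtain ⟨D, hD, hDe⟩ := continuousOn_iff_isClosed.1 hw C hC
    have hcomp : IsCompact (w ⁻¹' C ∩ A) := by
      rw [hDe, inter_comm]; exact hA.inter_right hD
    refine ⟨f '' (w ⁻¹' C ∩ A),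
      (hcomp.image_of_continuousOn (hf.mono inter_subset_right)).isClosed, ?_⟩
    ext b
    constructor
    · rintro ⟨hb1, hb2⟩
      obtain ⟨a, ha, rfl⟩ := hch b hb2
      refine ⟨⟨a, ⟨?_, ha⟩, rfl⟩, hb2⟩
      show w a ∈ C
      rw [hw' a ha]; exact hb1
    · rintro ⟨⟨a, ⟨h1, h2⟩, rfl⟩, hb2⟩
      refine ⟨?_, hb2⟩
      show w' (f a) ∈ C
      rw [← hw' a h2]; exact h1
  · intro b hb
    obtain ⟨a, ha, rfl⟩ := hch b hb
    rw [← hw' a ha]
    exact hw1 a ha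

/-- a continuous lift of a smooth field of lines over a compact set is smooth. -/
theorem smooth_lift {E : Type*} [NormedAddCommGroup E] [NormedSpace ℝ E] [FiniteDimensional ℝ E]
    {B : Set E} (hB : IsCompact B) {P : E → (W →L[ℝ] W)} (hP : ∀ x ∈ B, ContDiffAt ℝ ∞ P x)
    (hR : ∀ x ∈ B, R1 (P x)) {w : E → W} (hw : ContinuousOn w B)
    (hw1 : ∀ b ∈ B, ‖w b‖ = 1 ∧ P b (w b) = w b) :
    ∃ w' : E → W, (∀ x ∈ B, ContDiffAt ℝ ∞ w' x) ∧ ∀ x ∈ B, w' x = w x := by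
  refine exists_extension hB fun x hx => ?_
  -- near `x`: `w y = P y (w x) / ‖P y (w x)‖`
  have h1 : ContinuousOn (fun y => (⟪w y, w x⟫ : ℝ)) B := hw.inner (𝕜 := ℝ) continuousOn_const
  have h2 : ∀ᶠ y in 𝓝[B] x, (0 : ℝ) < ⟪w y, w x⟫ := by
    refine (h1 x hx).eventually (lt_mem_nhds ?_)
    simp only
    rw [real_inner_self_eq_norm_sq, (hw1 x hx).1]; norm_num
  rw [eventually_nhdsWithin_iff] at h2
  obtain ⟨U, hU, hUo, hxU⟩ := eventually_nhds_iff.1 h2
  have h3 : ∀ y ∈ B ∩ U, P y (w x) = (⟪w y, w x⟫ : ℝ) • w y := fun y hy =>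
    (hR y hy.1).fix (hw1 y hy.1).1 (hw1 y hy.1).2 _
  have h4 : ∀ y ∈ B ∩ U, ‖P y (w x)‖ = (⟪w y, w x⟫ : ℝ) := fun y hy => by
    rw [h3 y hy, norm_smul, (hw1 y hy.1).1, mul_one, Real.norm_eq_abs,
      abs_of_pos (hU y hy.2 hy.1)]
  refine ⟨U, fun y => (‖P y (w x)‖)⁻¹ • P y (w x), hUo, hxU, fun y hy => ?_, fun y hy => ?_⟩
  · have h5 : P y (w x) ≠ 0 := by
      intro h
      have := h4 y hy
      rw [h, norm_zero] at this
      exact (hU y hy.2 hy.1).ne this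
    have h6 : ContDiffAt ℝ ∞ (fun y => P y (w x)) y := (hP y hy.1).clm_apply contDiffAt_const
    exact ((h6.norm ℝ h5).inv (norm_ne_zero_iff.2 h5)).smul h6
  · show (‖P y (w x)‖)⁻¹ • P y (w x) = w y
    rw [h4 y hy, h3 y hy, smul_smul, inv_mul_cancel₀ (hU y hy.2 hy.1).ne', one_smul]

end lift

end Crest.Agent.R208.GP
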