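import Crest.Agent.R208.GP0

/-! Row 208, block GP (helper198), part GP0b: the line `Λ^r (range P)` of an orthogonal projection of
rank `r` as a field of rank one projections on the space of `r`-tensors. -/

set_option autoImplicit false
set_option linter.unusedSectionVars false

open Set Filter Topology
open scoped ContDiff RealInnerProductSpace

noncomputable section

namespace Crest.Agent.R208.GP

/-- `r`-tensors on `ℝ^N` -/
abbrev Ten (r N : ℕ) := EuclideanSpace ℝ (Fin r → Fin N)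

/-- orthonormal frame of the orthogonal projection `P` -/
structure OF {N : ℕ} (r : ℕ) (P : EuclideanSpace ℝ (Fin N) →L[ℝ] EuclideanSpace ℝ (Fin N))
    (e : Fin r → EuclideanSpace ℝ (Fin N)) : Prop where
  on : Orthonormal ℝ e
  eq : ∀ x, P x = ∑ a, (⟪e a, x⟫ : ℝ) • e a

/-- decomposable tensor `e_1 ∧ .. ∧ e_r` (unnormalised: norm² = r!). -/
def dtn {N r : ℕ} (e : Fin r → EuclideanSpace ℝ (Fin N)) : Ten r N :=
  WithLp.toLp 2 fun I => Matrix.det (Matrix.of fun a b => e a (I b))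

theorem dtn_apply {N r : ℕ} (e : Fin r → EuclideanSpace ℝ (Fin N)) (I : Fin r → Fin N) :
    dtn e I = Matrix.det (Matrix.of fun a b => e a (I b)) := rfl

theorem dtn_norm_sq {N r : ℕ} {e : Fin r → EuclideanSpace ℝ (Fin N)} (he : Orthonormal ℝ e) :
    ‖dtn e‖ ^ 2 = r.factorial := by
  classical
  rw [EuclideanSpace.real_norm_sq_eq]
  have h1 : ∀ I : Fin r → Fin N, dtn e I ^ 2 = ∑ σ : Equiv.Perm (Fin r), ∑ τ : Equiv.Perm (Fin r),
      ((Equiv.Perm.sign σ : ℤ) : ℝ) * ((Equiv.Perm.sign τ : ℤ) : ℝ) *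
        ∏ a, (e (σ a) (I a) * e (τ a) (I a)) := by
    intro I
    rw [dtn_apply, sq, Matrix.det_apply', Finset.sum_mul_sum]
    refine Finset.sum_congr rfl fun σ _ => Finset.sum_congr rfl fun τ _ => ?_
    rw [Finset.prod_mul_distrib]
    simp only [Matrix.of_apply]
    ring
  simp only [h1]
  rw [Finset.sum_comm]
  have h2 : ∀ σ : Equiv.Perm (Fin r), ∑ I : Fin r → Fin N, ∑ τ : Equiv.Perm (Fin r),
      ((Equiv.Perm.sign σ : ℤ) : ℝ) * ((Equiv.Perm.sign τ : ℤ) : ℝ) *
        ∏ a, (e (σ a) (I a) * e (τ a) (I a)) = 1 := by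
    intro σ
    rw [Finset.sum_comm]
    have h3 : ∀ τ : Equiv.Perm (Fin r), ∑ I : Fin r → Fin N,
        ((Equiv.Perm.sign σ : ℤ) : ℝ) * ((Equiv.Perm.sign τ : ℤ) : ℝ) *
        ∏ a, (e (σ a) (I a) * e (τ a) (I a)) = if σ = τ then 1 else 0 := by
      intro τ
      rw [← Finset.mul_sum]
      have h4 : ∑ I : Fin r → Fin N, ∏ a, (e (σ a) (I a) * e (τ a) (I a)) =
          ∏ a, ∑ i, (e (σ a) i * e (τ a) i) := by
        rw [Finset.prod_univ_sum, Fintype.piFinset_univ]
      rw [h4]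
      have h5 : ∀ a, ∑ i, (e (σ a) i * e (τ a) i) = if σ a = τ a then 1 else 0 := by
        intro a
        have := (orthonormal_iff_ite.1 he) (σ a) (τ a)
        rw [← this, PiLp.inner_apply]
        refine Finset.sum_congr rfl fun i _ => ?_
        simp [mul_comm]
      simp only [h5]
      by_cases hst : σ = τ
      · subst hst
        simp only [if_true, Finset.prod_const_one, mul_one]
        rw [← Int.cast_mul, ← Units.val_mul, Int.units_mul_self]; simp
      · rw [if_neg hst]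
        obtain ⟨a, ha⟩ : ∃ a, σ a ≠ τ a := by
          by_contra h; push Not at h; exact hst (Equiv.ext h)
        rw [Finset.prod_eq_zero (Finset.mem_univ a) (by rw [if_neg ha]), mul_zero]
    simp only [h3]
    simp
  simp only [h2]
  rw [Finset.sum_const, Finset.card_univ, Fintype.card_perm, Fintype.card_fin]
  simp

/-- matrix entries -/
def pe {N : ℕ} (P : EuclideanSpace ℝ (Fin N) →L[ℝ] EuclideanSpace ℝ (Fin N)) (i j : Fin N) : ℝ :=
  P (EuclideanSpace.single j 1) i

theorem contDiff_pe {N : ℕ} (i j : Fin N) : ContDiff ℝ ∞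
    fun P : EuclideanSpace ℝ (Fin N) →L[ℝ] EuclideanSpace ℝ (Fin N) => pe P i j := by
  have h1 : ContDiff ℝ ∞ fun P : EuclideanSpace ℝ (Fin N) →L[ℝ] EuclideanSpace ℝ (Fin N) =>
      P (EuclideanSpace.single j 1) := contDiff_id.clm_apply contDiff_const
  exact (EuclideanSpace.proj (𝕜 := ℝ) i).contDiff.comp h1

theorem pe_eq {N r : ℕ} {P : EuclideanSpace ℝ (Fin N) →L[ℝ] EuclideanSpace ℝ (Fin N)}
    {e : Fin r → EuclideanSpace ℝ (Fin N)} (h : OF r P e) (i j : Fin N) :
    pe P i j = ∑ a, e a i * e a j := by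
  rw [pe, h.eq]
  simp only [WithLp.ofLp_sum, Finset.sum_apply, PiLp.smul_apply, smul_eq_mul]
  refine Finset.sum_congr rfl fun a _ => ?_
  rw [EuclideanSpace.inner_single_right]
  simp [mul_comm]

/-- the projection onto the line `Λ^r (range P)` -/
def TP {N : ℕ} (r : ℕ) (P : EuclideanSpace ℝ (Fin N) →L[ℝ] EuclideanSpace ℝ (Fin N)) :
    Ten r N →L[ℝ] Ten r N :=
  ∑ I, ∑ J, ((r.factorial : ℝ)⁻¹ * Matrix.det (Matrix.of fun a b => pe P (I a) (J b))) •
    (EuclideanSpace.proj (𝕜 := ℝ) J).smulRight (EuclideanSpace.single I (1 : ℝ))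

theorem contDiff_TP {N : ℕ} (r : ℕ) : ContDiff ℝ ∞
    fun P : EuclideanSpace ℝ (Fin N) →L[ℝ] EuclideanSpace ℝ (Fin N) => TP r P := by
  refine ContDiff.sum fun I _ => ContDiff.sum fun J _ => ?_
  have h1 : ContDiff ℝ ∞ fun P : EuclideanSpace ℝ (Fin N) →L[ℝ] EuclideanSpace ℝ (Fin N) =>
      (r.factorial : ℝ)⁻¹ * Matrix.det (Matrix.of fun a b => pe P (I a) (J b)) := by
    refine contDiff_const.mul ?_
    simp only [Matrix.det_apply', Matrix.of_apply]
    exact ContDiff.sum fun σ _ => contDiff_const.mul (contDiff_prod fun a _ => contDiff_pe _ _)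
  exact h1.smul (contDiff_const (c := (EuclideanSpace.proj (𝕜 := ℝ) J).smulRight
    (EuclideanSpace.single I (1 : ℝ))))

theorem TP_apply {N r : ℕ} {P : EuclideanSpace ℝ (Fin N) →L[ℝ] EuclideanSpace ℝ (Fin N)}
    {e : Fin r → EuclideanSpace ℝ (Fin N)} (h : OF r P e) (x : Ten r N) :
    TP r P x = ((r.factorial : ℝ)⁻¹ * (⟪dtn e, x⟫ : ℝ)) • dtn e := by
  ext K
  rw [TP]
  simp only [sum_apply, smul_apply, ContinuousLinearMap.smulRight_apply, WithLp.ofLp_sum,
    Finset.sum_apply, PiLp.smul_apply, smul_eq_mul,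
    PiLp.single_apply]
  rw [Finset.sum_eq_single K (fun I _ hI => by
    refine Finset.sum_eq_zero fun J _ => ?_
    rw [if_neg (Ne.symm hI)]; simp) (fun hK => absurd (Finset.mem_univ K) hK)]
  have h1 : ∀ J, Matrix.det (Matrix.of fun a b => pe P (K a) (J b)) = dtn e K * dtn e J := by
    intro J
    rw [dtn_apply, dtn_apply, ← Matrix.det_transpose (Matrix.of fun a b => e a (K b)),
      ← Matrix.det_mul]
    congr 1
    ext a b
    rw [Matrix.mul_apply, Matrix.of_apply, pe_eq h]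
    rfl
  simp only [h1, if_true]
  rw [PiLp.inner_apply, Finset.mul_sum, Finset.sum_mul]
  refine Finset.sum_congr rfl fun J _ => ?_
  simp
  ring

/-- the unit tensor -/
def udt {N r : ℕ} (e : Fin r → EuclideanSpace ℝ (Fin N)) : Ten r N :=
  (Real.sqrt r.factorial)⁻¹ • dtn e

theorem sqrt_fact_pos (r : ℕ) : 0 < Real.sqrt r.factorial :=
  Real.sqrt_pos.2 (by exact_mod_cast r.factorial_pos)

theorem norm_udt {N r : ℕ} {e : Fin r → EuclideanSpace ℝ (Fin N)} (he : Orthonormal ℝ e) :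
    ‖udt e‖ = 1 := by
  have h1 : ‖dtn e‖ = Real.sqrt r.factorial := by
    rw [← dtn_norm_sq he, Real.sqrt_sq (norm_nonneg _)]
  rw [udt, norm_smul, h1, norm_inv, Real.norm_eq_abs, abs_of_pos (sqrt_fact_pos r),
    inv_mul_cancel₀ (sqrt_fact_pos r).ne']

theorem TP_eq {N r : ℕ} {P : EuclideanSpace ℝ (Fin N) →L[ℝ] EuclideanSpace ℝ (Fin N)}
    {e : Fin r → EuclideanSpace ℝ (Fin N)} (h : OF r P e) (x : Ten r N) :
    TP r P x = (⟪udt e, x⟫ : ℝ) • udt e := by
  rw [TP_apply h, udt, real_inner_smul_left, smul_smul]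
  congr 1
  have h1 := Real.mul_self_sqrt (Nat.cast_nonneg (α := ℝ) r.factorial)
  have h2 := (sqrt_fact_pos r).ne'
  rw [mul_assoc, mul_comm (⟪dtn e, x⟫ : ℝ), ← mul_assoc, ← mul_inv, h1]

theorem R1_TP {N r : ℕ} {P : EuclideanSpace ℝ (Fin N) →L[ℝ] EuclideanSpace ℝ (Fin N)}
    {e : Fin r → EuclideanSpace ℝ (Fin N)} (h : OF r P e) : R1 (TP r P) :=
  ⟨udt e, norm_udt h.on, TP_eq h⟩

/-- a unit tensor in the line is `udt` of an orthonormal frame (`r ≥ 1`). -/
theorem exists_frame_of_unit {N r : ℕ} (hr : 1 ≤ r)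
    {P : EuclideanSpace ℝ (Fin N) →L[ℝ] EuclideanSpace ℝ (Fin N)}
    {e : Fin r → EuclideanSpace ℝ (Fin N)} (h : OF r P e) {w : Ten r N} (hw : ‖w‖ = 1)
    (hPw : TP r P w = w) : ∃ e', OF r P e' ∧ w = udt e' := by
  classical
  have hid : TP r P (udt e) = udt e := by
    rw [TP_eq h, real_inner_self_eq_norm_sq, norm_udt h.on]; simp
  rcases (R1_TP h).two (norm_udt h.on) hid hw hPw with h1 | h1
  · exact ⟨e, h, h1⟩
  · -- flip the first vector
    let i0 : Fin r := ⟨0, hr⟩
    let s : Fin r → ℝ := fun a => if a = i0 then -1 else 1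
    have hs : ∀ a, s a * s a = 1 := fun a => by
      by_cases ha : a = i0 <;> simp [s, ha]
    refine ⟨fun a => s a • e a, ⟨?_, fun x => ?_⟩, ?_⟩
    · rw [orthonormal_iff_ite]
      intro a b
      rw [real_inner_smul_left, real_inner_smul_right, (orthonormal_iff_ite.1 h.on) a b]
      by_cases hab : a = b
      · subst hab
        rw [if_pos rfl, mul_one, hs]
      · rw [if_neg hab, mul_zero, mul_zero]
    · rw [h.eq]
      refine Finset.sum_congr rfl fun a _ => ?_
      rw [real_inner_smul_left, smul_smul, mul_comm (s a), mul_assoc, hs, mul_one]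
    · rw [h1, udt, udt, ← smul_neg]
      congr 1
      ext I
      rw [PiLp.neg_apply, dtn_apply, dtn_apply]
      have h2 : (Matrix.of fun a b => (s a • e a) (I b)) =
          Matrix.diagonal s * (Matrix.of fun a b => e a (I b)) := by
        ext a b
        rw [Matrix.diagonal_mul, Matrix.of_apply, Matrix.of_apply, PiLp.smul_apply, smul_eq_mul]
      rw [h2, Matrix.det_mul, Matrix.det_diagonal, Finset.prod_eq_single i0 (fun b _ hb => by
        simp [s, hb]) (fun h => absurd (Finset.mem_univ _) h)]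
      simp [s]

end Crest.Agent.R208.GP
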