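import Crest.Agent.R208.GP0b
import Crest.Agent.R208.FH12

/-! Row 208, block GP (helper198), part GP0c: differential forms from tensors, orientation forms. -/

set_option autoImplicit false
set_option linter.unusedSectionVars false

open Set Filter Topology Module
open scoped ContDiff RealInnerProductSpace
open Crest.Agent.R208.F Crest.Agent.R208.FI

noncomputable section

namespace Crest.Agent.R208.GP

variable {N r : ℕ}

/-- coordinate covector -/
def cv (i : Fin N) : Module.Dual ℝ (EuclideanSpace ℝ (Fin N)) :=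
  (EuclideanSpace.proj (𝕜 := ℝ) i).toLinearMap

@[simp] theorem cv_apply (i : Fin N) (x : EuclideanSpace ℝ (Fin N)) : cv i x = x i := rfl

/-- the form of a tensor -/
def fm (r N : ℕ) : Ten r N →ₗ[ℝ] Ext (EuclideanSpace ℝ (Fin N)) where
  toFun w := ∑ I, w I • ExteriorAlgebra.ιMulti ℝ r (fun a => cv (I a))
  map_add' x y := by
    rw [← Finset.sum_add_distrib]
    exact Finset.sum_congr rfl fun I _ => by rw [PiLp.add_apply, add_smul]
  map_smul' c x := by
    rw [RingHom.id_apply, Finset.smul_sum]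
    exact Finset.sum_congr rfl fun I _ => by rw [PiLp.smul_apply, smul_eq_mul, mul_smul]

theorem fm_apply (w : Ten r N) :
    fm r N w = ∑ I, w I • ExteriorAlgebra.ιMulti ℝ r (fun a => cv (I a)) := rfl

theorem isDeg_fm (w : Ten r N) : IsDeg r (fm r N w) := by
  rw [fm_apply]
  exact IsDeg.sum _ fun I _ => (IsDeg.iMulti _).smul _

/-- `evA (fm w) v = ⟪w, v_1 ∧ .. ∧ v_r⟫`. -/
theorem evA_fm (w : Ten r N) (v : Fin r → EuclideanSpace ℝ (Fin N)) :
    evA _ r (fm r N w) v = (⟪w, dtn v⟫ : ℝ) := by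
  classical
  let L : Ext (EuclideanSpace ℝ (Fin N)) →ₗ[ℝ] ℝ :=
    { toFun := fun c => evA _ r c v
      map_add' := fun x y => by rw [map_add]; rfl
      map_smul' := fun c x => by rw [map_smul]; rfl }
  have h1 : evA _ r (fm r N w) v = L (fm r N w) := rfl
  rw [h1, fm_apply, map_sum, PiLp.inner_apply]
  refine Finset.sum_congr rfl fun I _ => ?_
  rw [map_smul]
  have h2 : L (ExteriorAlgebra.ιMulti ℝ r fun a => cv (I a)) = dtn v I := by
    show evA _ r (ExteriorAlgebra.ιMulti ℝ r fun a => cv (I a)) v = dtn v I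
    rw [evA_iMulti, dtn_apply]
    rfl
  rw [h2]
  simp [mul_comm]

/-- `fm` as a continuous linear map -/
def fmL (r N : ℕ) : Ten r N →L[ℝ] Ext (EuclideanSpace ℝ (Fin N)) :=
  LinearMap.toContinuousLinearMap (fm r N)

@[simp] theorem fmL_apply (w : Ten r N) : fmL r N w = fm r N w := rfl

theorem evA_fm_udt {e : Fin r → EuclideanSpace ℝ (Fin N)} (he : Orthonormal ℝ e) :
    evA _ r (fm r N (udt e)) e = Real.sqrt r.factorial := by
  rw [evA_fm, udt, real_inner_smul_left, real_inner_self_eq_norm_sq, dtn_norm_sq he]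
  rw [inv_mul_eq_div]
  exact Real.div_sqrt

/-- **orientation form** from a field of unit tensors -/
theorem ori_of_field {X : Set (EuclideanSpace ℝ (Fin N))} (hX : Clo r X)
    {w : EuclideanSpace ℝ (Fin N) → Ten r N} (hw : ContinuousOn w X)
    (h : ∀ x ∈ X, ∃ e : Fin r → EuclideanSpace ℝ (Fin N), Orthonormal ℝ e ∧
      (∀ a, e a ∈ FI.Tan X x) ∧ w x = udt e) : Ori r X (fun x => fm r N (w x)) := by
  refine ori_of hX ?_ ?_
  · exact (fmL r N).continuous.comp_continuousOn hw
  · intro x hx
    obtain ⟨e, h1, h2, h3⟩ := h x hx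
    refine ⟨e, h2, ?_⟩
    rw [h3, evA_fm_udt h1]
    exact (sqrt_fact_pos r).ne'

/-- the two unit tensors of a subspace -/
theorem udt_eq_or_neg {P : EuclideanSpace ℝ (Fin N) →L[ℝ] EuclideanSpace ℝ (Fin N)}
    {e e' : Fin r → EuclideanSpace ℝ (Fin N)} (h : OF r P e) (h' : OF r P e') :
    udt e' = udt e ∨ udt e' = - udt e := by
  have h1 : ∀ {e : Fin r → EuclideanSpace ℝ (Fin N)}, OF r P e → TP r P (udt e) = udt e := by
    intro e h
    rw [TP_eq h, real_inner_self_eq_norm_sq, norm_udt h.on]; simp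
  exact (R1_TP h).two (norm_udt h.on) (h1 h) (norm_udt h'.on) (h1 h')

/-- orthonormal frames of the orthogonal projection onto a subspace -/
theorem exists_OF (T : Submodule ℝ (EuclideanSpace ℝ (Fin N))) (hT : finrank ℝ T = r) :
    ∃ e : Fin r → EuclideanSpace ℝ (Fin N), OF r T.starProjection e ∧ ∀ a, e a ∈ T := by
  let b := (stdOrthonormalBasis ℝ T).reindex (finCongr hT)
  refine ⟨fun a => (b a : EuclideanSpace ℝ (Fin N)), ⟨?_, fun x => ?_⟩, fun a => (b a).2⟩
  · exact b.orthonormal.comp_linearIsometry T.subtypeₗᵢ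
  · have h1 := b.sum_repr' (T.orthogonalProjectionOnto x)
    have h2 := congrArg (fun z : T => (z : EuclideanSpace ℝ (Fin N))) h1
    simp only [Submodule.coe_sum, Submodule.coe_smul] at h2
    rw [Submodule.starProjection_apply, ← h2]
    refine Finset.sum_congr rfl fun a _ => ?_
    congr 1
    exact Submodule.inner_orthogonalProjectionOnto_eq_of_mem_left (b a) x

end Crest.Agent.R208.GP
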