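import Crest.Agent.R241.D3b

/-!
R208, block G4b, part 1 (helper971): the canonical skew form `om` on `ℝ^N × ℝ^N`, tangent vectors of
the tangent bundle `TS` of a closed submanifold, and invariance of `om` under the geodesic flow.
-/

set_option autoImplicit false

open Set Filter Topology
open scoped ContDiff RealInnerProductSpace
open Crest.GeometryTopology.Submanifold
open Crest.Agent.R241.DDefs
open Crest.Agent.R241.D2
open Crest.Agent.R241

noncomputable section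

namespace Crest.Agent.R208.L

variable {n N : ℕ} {κ : ℝ} {S : Set (Euc N)} (G : Geo n N κ S)

/-- symmetry of the second fundamental form -/
theorem II_symm {x v w : Euc N} (hx : x ∈ S) (hv : v ∈ G.T x) (hw : w ∈ G.T x) :
    II G x v w = II G x w v := by
  obtain ⟨α, h0, hα, hS, hv', hw'⟩ := G.exists_surface x hx v hv w hw
  have h0' : α 0 = x := h0
  have h1 := D3b.snd_deriv G (hα.of_le D3b.two_le) hS (1, 0) (0, 1)
  have h2 := D3b.snd_deriv G (hα.of_le D3b.two_le) hS (0, 1) (1, 0)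
  have h3 : fderiv ℝ (fderiv ℝ α) 0 (1, 0) (0, 1) = fderiv ℝ (fderiv ℝ α) 0 (0, 1) (1, 0) :=
    (hα.isSymmSndFDerivAt (n := ∞) D3b.min_le).eq _ _
  rw [hv', hw', h0'] at h1 h2
  rw [h3, h2] at h1
  have h4 : G.P x (G.P x (fderiv ℝ (fderiv ℝ α) 0 (0, 1) (1, 0)) + II G x w v) +
      II G x v w = G.P x (fderiv ℝ (fderiv ℝ α) 0 (0, 1) (1, 0)) + II G x w v := by
    rw [← h1]
  rw [map_add, P_idem G hx, II_normal G hx hw hv, add_zero] at h4
  exact add_left_cancel h4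

/-- the derivative of the projection field in a tangent direction is symmetric -/
theorem dP_symm {x X : Euc N} (hx : x ∈ S) (hX : X ∈ G.T x) (v w : Euc N) :
    ⟪fderiv ℝ G.P x X v, w⟫ = ⟪v, fderiv ℝ G.P x X w⟫ := by
  obtain ⟨c, h0, hc, hS⟩ := exists_curve G hx hX
  have h1 : HasDerivAt (fun t => G.P (c t)) (fderiv ℝ G.P x X) 0 := by
    have := ((differentiable_P G) (c 0)).hasFDerivAt.comp_hasDerivAt (0 : ℝ) hc
    rwa [h0] at this
  have h2 : HasDerivAt (fun t => ⟪G.P (c t) v, w⟫) ⟪fderiv ℝ G.P x X v, w⟫ 0 := by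
    have h3 : HasDerivAt (fun t => G.P (c t) v) (fderiv ℝ G.P x X v) 0 := by
      simpa using h1.clm_apply (hasDerivAt_const (0 : ℝ) v)
    simpa using h3.inner ℝ (hasDerivAt_const (0 : ℝ) w)
  have h4 : HasDerivAt (fun t => ⟪v, G.P (c t) w⟫) ⟪v, fderiv ℝ G.P x X w⟫ 0 := by
    have h3 : HasDerivAt (fun t => G.P (c t) w) (fderiv ℝ G.P x X w) 0 := by
      simpa using h1.clm_apply (hasDerivAt_const (0 : ℝ) w)
    simpa using (hasDerivAt_const (0 : ℝ) v).inner ℝ h3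
  have h5 : (fun t => ⟪G.P (c t) v, w⟫) =ᶠ[𝓝 0] fun t => ⟪v, G.P (c t) w⟫ := by
    filter_upwards [hS] with t ht
    exact inner_P_left G ht v w
  exact ((h4.congr_of_eventuallyEq h5).unique h2).symm

/-- the canonical skew form on `ℝ^N × ℝ^N` -/
def om (ξ η : Euc N × Euc N) : ℝ := ⟪ξ.2, η.1⟫ - ⟪η.2, ξ.1⟫

/-- `ξ` is the velocity at `q` of a curve in the tangent bundle -/
def TanTS (q ξ : Euc N × Euc N) : Prop :=
  ∃ c : ℝ → Euc N × Euc N, c 0 = q ∧ HasDerivAt c ξ 0 ∧ ∀ᶠ s in 𝓝 (0 : ℝ), c s ∈ TS G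

variable {G}

lemma TanTS.fst_mem {q ξ : Euc N × Euc N} (h : TanTS G q ξ) : ξ.1 ∈ G.T q.1 := by
  obtain ⟨c, h0, hc, hS⟩ := h
  have h1 := G.deriv_mem (fun s => (c s).1) ξ.1 0 (hS.mono fun s hs => hs.1) (hda_fst hc)
  simpa [h0] using h1

lemma TanTS.map {q ξ : Euc N × Euc N} (h : TanTS G q ξ) {Ψ : Euc N × Euc N → Euc N × Euc N}
    (hΨ : DifferentiableAt ℝ Ψ q) (hm : ∀ᶠ y in 𝓝 q, y ∈ TS G → Ψ y ∈ TS G) :
    TanTS G (Ψ q) (fderiv ℝ Ψ q ξ) := by
  obtain ⟨c, h0, hc, hS⟩ := h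
  refine ⟨fun s => Ψ (c s), by simp [h0], ?_, ?_⟩
  · have : HasFDerivAt Ψ (fderiv ℝ Ψ q) (c 0) := by rw [h0]; exact hΨ.hasFDerivAt
    exact this.comp_hasDerivAt (0 : ℝ) hc
  · have h1 : Tendsto c (𝓝 0) (𝓝 q) := by rw [← h0]; exact hc.continuousAt
    filter_upwards [hS, h1.eventually hm] with s hs hs'
    exact hs' hs

/-- `X` is tangent to `TS` -/
lemma tanTS_X {q : Euc N × Euc N} (hq : q ∈ TS G) : TanTS G q (X G q) := by
  refine ⟨fun s => fl G (q, s), fl_zero G q, ?_, Eventually.of_forall fun s => fl_mem G hq s⟩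
  have := hasDerivAt_fl G (complete G hq 0)
  rwa [fl_zero] at this

/-- the normal component of the derivative of `X₂` along the tangent bundle -/
lemma inner_fderiv_X {q ξ : Euc N × Euc N} (hq : q ∈ TS G) (h : TanTS G q ξ) {w : Euc N}
    (hw : w ∈ G.T q.1) :
    ⟪(fderiv ℝ (X G) q ξ).2, w⟫ = -⟪(X G q).2, II G q.1 ξ.1 w⟫ := by
  have hξ := h.fst_mem
  obtain ⟨c, h0, hc, hS⟩ := h
  have hX : HasDerivAt (fun s => X G (c s)) (fderiv ℝ (X G) q ξ) 0 := by
    have h1 := ((contDiff_X G).differentiable (by simp) (c 0)).hasFDerivAt.comp_hasDerivAt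
      (0 : ℝ) hc
    rwa [h0] at h1
  have hP : HasDerivAt (fun s => G.P (c s).1) (fderiv ℝ G.P q.1 ξ.1) 0 := by
    have h1 := ((differentiable_P G) (c 0).1).hasFDerivAt.comp_hasDerivAt (0 : ℝ) (hda_fst hc)
    rwa [h0] at h1
  have h2 := hP.clm_apply (hda_snd hX)
  have h3 : (fun s => G.P (c s).1 (X G (c s)).2) =ᶠ[𝓝 0] fun _ => 0 := by
    filter_upwards [hS] with s hs
    exact II_normal G hs.1 hs.2 hs.2
  have h4 := (h2.congr_of_eventuallyEq h3.symm).unique (hasDerivAt_const (0 : ℝ) (0 : Euc N))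
  rw [h0] at h4
  have h5 : ⟪(fderiv ℝ (X G) q ξ).2, w⟫ = ⟪G.P q.1 (fderiv ℝ (X G) q ξ).2, w⟫ := by
    rw [inner_P_left G hq.1, (P_eq_self G hq.1).1 hw]
  have h6 : G.P q.1 (fderiv ℝ (X G) q ξ).2 = -(fderiv ℝ G.P q.1 ξ.1 (X G q).2) := by
    rw [add_comm] at h4
    exact eq_neg_of_add_eq_zero_left h4
  rw [h5, h6, inner_neg_left, dP_symm G hq.1 hξ]
  rfl

/-- first component of the derivative of `X` -/
lemma fderiv_X_fst (G : Geo n N κ S) (q ξ : Euc N × Euc N) : (fderiv ℝ (X G) q ξ).1 = ξ.2 := by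
  have h1 := ((contDiff_X G).differentiable (by simp) q).hasFDerivAt
  have h2 : HasFDerivAt (fun q => (X G q).1)
      ((ContinuousLinearMap.fst ℝ (Euc N) (Euc N)).comp (fderiv ℝ (X G) q)) q :=
    (ContinuousLinearMap.fst ℝ (Euc N) (Euc N)).hasFDerivAt.comp q h1
  have h3 : HasFDerivAt (fun q : Euc N × Euc N => (X G q).1)
      (ContinuousLinearMap.snd ℝ (Euc N) (Euc N)) q :=
    (ContinuousLinearMap.snd ℝ (Euc N) (Euc N)).hasFDerivAt
  have h4 := h2.unique h3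
  exact congrArg (fun L => L ξ) h4

/-- infinitesimal invariance of `om` -/
lemma om_fderiv_X {q ξ η : Euc N × Euc N} (hq : q ∈ TS G) (hξ : TanTS G q ξ)
    (hη : TanTS G q η) :
    om (fderiv ℝ (X G) q ξ) η + om ξ (fderiv ℝ (X G) q η) = 0 := by
  unfold om
  rw [fderiv_X_fst, fderiv_X_fst, inner_fderiv_X hq hξ hη.fst_mem,
    inner_fderiv_X hq hη hξ.fst_mem, II_symm G hq.1 hξ.fst_mem hη.fst_mem,
    real_inner_comm η.2 ξ.2]
  ring

/-- `om X η` is the differential of the energy -/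
lemma om_X {q η : Euc N × Euc N} (hq : q ∈ TS G) (hη : TanTS G q η) :
    om (X G q) η = -⟪q.2, η.2⟫ := by
  have h1 : ⟪(X G q).2, η.1⟫ = 0 := inner_II G hq.1 hq.2 hq.2 hη.fst_mem
  unfold om
  rw [h1, zero_sub, real_inner_comm]
  rfl

lemma om_skew (ξ η : Euc N × Euc N) : om ξ η = -om η ξ := by
  unfold om; ring

lemma om_self (ξ : Euc N × Euc N) : om ξ ξ = 0 := by
  unfold om; ring

lemma om_add_left (ξ ξ' η : Euc N × Euc N) : om (ξ + ξ') η = om ξ η + om ξ' η := by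
  unfold om
  simp only [Prod.snd_add, Prod.fst_add, inner_add_left, inner_add_right]
  ring

lemma om_smul_left (a : ℝ) (ξ η : Euc N × Euc N) : om (a • ξ) η = a * om ξ η := by
  unfold om
  simp only [Prod.smul_snd, Prod.smul_fst, real_inner_smul_left, real_inner_smul_right]
  ring

lemma om_add_right (ξ η η' : Euc N × Euc N) : om ξ (η + η') = om ξ η + om ξ η' := by
  rw [om_skew, om_add_left, om_skew η, om_skew η']; ring

lemma om_smul_right (a : ℝ) (ξ η : Euc N × Euc N) : om ξ (a • η) = a * om ξ η := by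
  rw [om_skew, om_smul_left, om_skew η]; ring

/-- the derivative of the geodesic flow in the initial condition -/
def dfl (G : Geo n N κ S) (q : Euc N × Euc N) (t : ℝ) :
    Euc N × Euc N →L[ℝ] Euc N × Euc N := fderiv ℝ (fun y => fl G (y, t)) q

lemma hasFDerivAt_fl_left {q : Euc N × Euc N} (hq : q ∈ TS G) (t : ℝ) :
    HasFDerivAt (fun y => fl G (y, t)) (dfl G q t) q := by
  have h1 := (contDiffAt_fl' G hq t).differentiableAt (by simp)
  have h2 : DifferentiableAt ℝ (fun y => fl G (y, t)) q :=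
    DifferentiableAt.comp (f := fun y : Euc N × Euc N => (y, t)) q h1
      (differentiableAt_id.prodMk (differentiableAt_const t))
  exact h2.hasFDerivAt

lemma dfl_apply {q : Euc N × Euc N} (hq : q ∈ TS G) (t : ℝ) (ξ : Euc N × Euc N) :
    dfl G q t ξ = fderiv ℝ (fl G) (q, t) (ξ, 0) := by
  have h1 := ((contDiffAt_fl' G hq t).differentiableAt (by simp)).hasFDerivAt
  have h2 : HasFDerivAt (fun y : Euc N × Euc N => (y, t))
      ((ContinuousLinearMap.id ℝ (Euc N × Euc N)).prod 0) q :=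
    (hasFDerivAt_id q).prodMk (hasFDerivAt_const t q)
  have h3 := (hasFDerivAt_fl_left hq t).unique (HasFDerivAt.comp q h1 h2)
  rw [h3]
  rfl

lemma dfl_zero {q : Euc N × Euc N} (hq : q ∈ TS G) (ξ : Euc N × Euc N) :
    dfl G q 0 ξ = ξ := by
  have h1 : (fun y => fl G (y, 0)) = fun y => y := funext fun y => fl_zero G y
  have h2 := hasFDerivAt_fl_left hq (0 : ℝ)
  rw [h1] at h2
  rw [h2.unique (hasFDerivAt_id q)]
  rfl

/-- the derivative of the flow maps tangent vectors to tangent vectors -/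
lemma tanTS_dfl {q ξ : Euc N × Euc N} (hq : q ∈ TS G) (h : TanTS G q ξ) (t : ℝ) :
    TanTS G (fl G (q, t)) (dfl G q t ξ) :=
  h.map (hasFDerivAt_fl_left hq t).differentiableAt (Eventually.of_forall fun _ hy => fl_mem G hy t)

/-- the linearised geodesic equation -/
lemma hasDerivAt_dfl {q : Euc N × Euc N} (hq : q ∈ TS G) (ξ : Euc N × Euc N) (t : ℝ) :
    HasDerivAt (fun t => dfl G q t ξ) (fderiv ℝ (X G) (fl G (q, t)) (dfl G q t ξ)) t := by
  have h0 := contDiffAt_fl' G hq t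
  have hd : DifferentiableAt ℝ (fderiv ℝ (fl G)) (q, t) :=
    (h0.fderiv_right (m := ∞) (by simp)).differentiableAt (by simp)
  have hsymm := h0.isSymmSndFDerivAt (n := ∞) D3b.min_le
  -- derivative in `t` of `D fl (q,t) (ξ,0)`
  have h1 : HasDerivAt (fun s : ℝ => ((q, s) : (Euc N × Euc N) × ℝ)) (0, 1) t :=
    (hasDerivAt_const t q).prodMk (hasDerivAt_id t)
  have h2 : HasDerivAt (fun s => fderiv ℝ (fl G) (q, s))
      (fderiv ℝ (fderiv ℝ (fl G)) (q, t) (0, 1)) t := hd.hasFDerivAt.comp_hasDerivAt t h1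
  have h3 : HasDerivAt (fun s => fderiv ℝ (fl G) (q, s) (ξ, 0))
      (fderiv ℝ (fderiv ℝ (fl G)) (q, t) (0, 1) (ξ, 0)) t := by
    simpa using h2.clm_apply (hasDerivAt_const t ((ξ, 0) : (Euc N × Euc N) × ℝ))
  have h4 : (fun s => dfl G q s ξ) = fun s => fderiv ℝ (fl G) (q, s) (ξ, 0) :=
    funext fun s => dfl_apply hq s ξ
  rw [h4]
  refine h3.congr_deriv ?_
  rw [hsymm.eq]
  -- `D fl (·) (0,1) = X ∘ fl`
  have h5 : (fun y => fderiv ℝ (fl G) y (0, 1)) =ᶠ[𝓝 (q, t)] fun y => X G (fl G y) := by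
    filter_upwards [(isOpen_fd G).mem_nhds (complete G hq t)] with y hy
    have h6 : HasDerivAt (fun s : ℝ => ((y.1, s) : (Euc N × Euc N) × ℝ)) (0, 1) y.2 :=
      (hasDerivAt_const y.2 y.1).prodMk (hasDerivAt_id y.2)
    have h7 := ((contDiffAt_fl G hy).differentiableAt (by simp)).hasFDerivAt
    have h8 : HasDerivAt (fun s => fl G (y.1, s)) (fderiv ℝ (fl G) y (0, 1)) y.2 :=
      HasFDerivAt.comp_hasDerivAt (f := fun s : ℝ => ((y.1, s) : (Euc N × Euc N) × ℝ)) y.2 h7 h6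
    exact h8.unique (hasDerivAt_fl G hy)
  have h6 : HasFDerivAt (fun y => fderiv ℝ (fl G) y (0, 1))
      ((fderiv ℝ (fderiv ℝ (fl G)) (q, t)).flip (0, 1)) (q, t) := by
    simpa using hd.hasFDerivAt.clm_apply
      (hasFDerivAt_const ((0, 1) : (Euc N × Euc N) × ℝ) (q, t))
  have h7 : HasFDerivAt (fun y => X G (fl G y))
      ((fderiv ℝ (X G) (fl G (q, t))).comp (fderiv ℝ (fl G) (q, t))) (q, t) :=
    ((contDiff_X G).differentiable (by simp) _).hasFDerivAt.comp (q, t)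
      (h0.differentiableAt (by simp)).hasFDerivAt
  have h8 := (h6.congr_of_eventuallyEq h5.symm).unique h7
  have h9 := congrArg (fun L => L (ξ, 0)) h8
  simp only [ContinuousLinearMap.flip_apply, ContinuousLinearMap.comp_apply] at h9
  rw [h9, dfl_apply hq]

lemma hasDerivAt_om {a b : ℝ → Euc N × Euc N} {a' b' : Euc N × Euc N} {t : ℝ}
    (ha : HasDerivAt a a' t) (hb : HasDerivAt b b' t) :
    HasDerivAt (fun t => om (a t) (b t)) (om a' (b t) + om (a t) b') t := by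
  have h1 := (hda_snd ha).inner ℝ (hda_fst hb)
  have h2 := (hda_snd hb).inner ℝ (hda_fst ha)
  refine (h1.sub h2).congr_deriv ?_
  unfold om
  ring

/-- **the geodesic flow preserves `om` on tangent vectors of the tangent bundle** -/
theorem om_dfl {q ξ η : Euc N × Euc N} (hq : q ∈ TS G) (hξ : TanTS G q ξ)
    (hη : TanTS G q η) (t : ℝ) : om (dfl G q t ξ) (dfl G q t η) = om ξ η := by
  have hder : ∀ t, HasDerivAt (fun t => om (dfl G q t ξ) (dfl G q t η)) 0 t := by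
    intro t
    have h1 := hasDerivAt_om (hasDerivAt_dfl hq ξ t) (hasDerivAt_dfl hq η t)
    rwa [om_fderiv_X (fl_mem G hq t) (tanTS_dfl hq hξ t) (tanTS_dfl hq hη t)] at h1
  have h1 := is_const_of_deriv_eq_zero (fun t => (hder t).differentiableAt)
    (fun t => (hder t).deriv) t 0
  simpa only [dfl_zero hq] using h1

/-- `D fl_t X = X` -/
lemma dfl_X {q : Euc N × Euc N} (hq : q ∈ TS G) (t : ℝ) :
    dfl G q t (X G q) = X G (fl G (q, t)) := by
  have h1 : HasDerivAt (fun s => fl G (q, s)) (X G q) 0 := by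
    have := hasDerivAt_fl G (complete G hq 0)
    rwa [fl_zero] at this
  have h2 : HasDerivAt (fun s => fl G (fl G (q, s), t)) (dfl G q t (X G q)) 0 := by
    have h3 : HasFDerivAt (fun y => fl G (y, t)) (dfl G q t) (fl G (q, 0)) := by
      rw [fl_zero]; exact hasFDerivAt_fl_left hq t
    exact h3.comp_hasDerivAt (0 : ℝ) h1
  have h4 : (fun s => fl G (fl G (q, s), t)) = fun s => fl G (q, s + t) :=
    funext fun s => (fl_add' G hq s t).symm
  have h5 : HasDerivAt (fun s => fl G (q, s + t)) (X G (fl G (q, t))) 0 := by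
    have h6 : HasDerivAt (fun s : ℝ => s + t) 1 0 := (hasDerivAt_id (0 : ℝ)).add_const t
    have h7 := hasDerivAt_fl G (complete G hq (0 + t))
    have h8 := h7.scomp (0 : ℝ) h6
    rw [one_smul] at h8
    simpa [Function.comp_def] using h8
  rw [h4] at h2
  exact h2.unique h5

/-! ### the unit speed flow -/

/-- the unit speed geodesic flow -/
def ufl (G : Geo n N κ S) (t : ℝ) (q : Euc N × Euc N) : Euc N × Euc N :=
  fl G (q, t / ‖q.2‖)

/-- its derivative -/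
def dufl (G : Geo n N κ S) (t : ℝ) (q : Euc N × Euc N) : Euc N × Euc N →L[ℝ] Euc N × Euc N :=
  fderiv ℝ (ufl G t) q

lemma hasFDerivAt_tau {q : Euc N × Euc N} (h : q.2 ≠ 0) (t : ℝ) :
    HasFDerivAt (fun y : Euc N × Euc N => t / ‖y.2‖)
      ((-(t / ‖q.2‖ ^ 3)) • (innerSL ℝ q.2).comp (ContinuousLinearMap.snd ℝ (Euc N) (Euc N))) q := by
  have hn : ‖q.2‖ ≠ 0 := norm_ne_zero_iff.2 h
  have hsq : HasFDerivAt (fun y : Euc N × Euc N => ‖y.2‖ ^ 2)
      ((2 • innerSL ℝ q.2).comp (ContinuousLinearMap.snd ℝ (Euc N) (Euc N))) q := by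
    have h1 := (hasStrictFDerivAt_norm_sq q.2).hasFDerivAt
    exact h1.comp q (hasFDerivAt_snd)
  have h2 : HasDerivAt (fun r : ℝ => t / Real.sqrt r) (-(t / (2 * ‖q.2‖ ^ 3))) (‖q.2‖ ^ 2) := by
    have h3 : HasDerivAt Real.sqrt (1 / (2 * Real.sqrt (‖q.2‖ ^ 2))) (‖q.2‖ ^ 2) :=
      Real.hasDerivAt_sqrt (pow_ne_zero 2 hn)
    have h4 := (h3.inv (by rw [Real.sqrt_sq (norm_nonneg _)]; exact hn)).const_mul t
    have h5 : (fun r : ℝ => t / Real.sqrt r) = fun r => t * (Real.sqrt r)⁻¹ := by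
      ext r; rw [div_eq_mul_inv]
    rw [h5]
    refine h4.congr_deriv ?_
    rw [Real.sqrt_sq (norm_nonneg _)]
    field_simp
  have h3 := h2.comp_hasFDerivAt q hsq
  have h4 : ((fun r : ℝ => t / Real.sqrt r) ∘ fun y : Euc N × Euc N => ‖y.2‖ ^ 2) =
      fun y => t / ‖y.2‖ := by
    ext y
    simp only [Function.comp_apply]
    rw [Real.sqrt_sq (norm_nonneg _)]
  rw [h4] at h3
  refine h3.congr_fderiv ?_
  ext y <;> simp
  ring

/-- the set of non-zero tangent vectors -/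
def TS0 (G : Geo n N κ S) : Set (Euc N × Euc N) := {q | q ∈ TS G ∧ q.2 ≠ 0}

lemma hasFDerivAt_ufl {q : Euc N × Euc N} (hq : q ∈ TS0 G) (t : ℝ) :
    ∃ a : ℝ, HasFDerivAt (ufl G t) (dufl G t q) q ∧ ∀ ξ, dufl G t q ξ =
      dfl G q (t / ‖q.2‖) ξ + (a * ⟪q.2, ξ.2⟫) • X G (ufl G t q) := by
  have h1 := ((contDiffAt_fl' G hq.1 (t / ‖q.2‖)).differentiableAt (by simp)).hasFDerivAt
  have h2 := (hasFDerivAt_id q).prodMk (hasFDerivAt_tau hq.2 t)
  have h3 : HasFDerivAt (ufl G t) _ q :=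
    HasFDerivAt.comp (f := fun y : Euc N × Euc N => (y, t / ‖y.2‖)) q h1 h2
  refine ⟨-(t / ‖q.2‖ ^ 3), h3.differentiableAt.hasFDerivAt, fun ξ => ?_⟩
  have h4 : dufl G t q = _ := h3.fderiv
  rw [h4]
  have h5 : HasDerivAt (fun s => fl G (q, s)) (fderiv ℝ (fl G) (q, t / ‖q.2‖) (0, 1))
      (t / ‖q.2‖) := by
    have h6 : HasDerivAt (fun s : ℝ => ((q, s) : (Euc N × Euc N) × ℝ)) (0, 1) (t / ‖q.2‖) :=
      (hasDerivAt_const _ q).prodMk (hasDerivAt_id _)
    exact HasFDerivAt.comp_hasDerivAt (f := fun s : ℝ => ((q, s) : (Euc N × Euc N) × ℝ))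
      (t / ‖q.2‖) h1 h6
  have h6 : fderiv ℝ (fl G) (q, t / ‖q.2‖) (0, 1) = X G (ufl G t q) :=
    h5.unique (hasDerivAt_fl G (complete G hq.1 _))
  rw [dfl_apply hq.1, ← h6]
  have h7 : ((ξ, -(t / ‖q.2‖ ^ 3) * ⟪q.2, ξ.2⟫) : (Euc N × Euc N) × ℝ) =
      (ξ, 0) + (-(t / ‖q.2‖ ^ 3) * ⟪q.2, ξ.2⟫) • ((0, 1) : (Euc N × Euc N) × ℝ) := by
    ext <;> simp
  rw [← map_smul, ← map_add, ← h7]
  rfl

lemma ufl_mem {q : Euc N × Euc N} (hq : q ∈ TS G) (t : ℝ) : ufl G t q ∈ TS G :=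
  fl_mem G hq _

lemma norm_ufl {q : Euc N × Euc N} (hq : q ∈ TS G) (t : ℝ) : ‖(ufl G t q).2‖ = ‖q.2‖ :=
  norm_fl G hq _

lemma ufl_mem0 {q : Euc N × Euc N} (hq : q ∈ TS0 G) (t : ℝ) : ufl G t q ∈ TS0 G := by
  refine ⟨ufl_mem hq.1 t, ?_⟩
  rw [← norm_ne_zero_iff, norm_ufl hq.1 t]
  exact norm_ne_zero_iff.2 hq.2

lemma ufl_add {q : Euc N × Euc N} (hq : q ∈ TS G) (s t : ℝ) :
    ufl G t (ufl G s q) = ufl G (s + t) q := by
  have h1 : ufl G t (ufl G s q) = fl G (ufl G s q, t / ‖q.2‖) := by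
    rw [← norm_ufl hq s]; rfl
  rw [h1]
  unfold ufl
  rw [← fl_add' G hq, add_div]

lemma ufl_zero (q : Euc N × Euc N) : ufl G 0 q = q := by
  unfold ufl; rw [zero_div, fl_zero]

/-- **the unit speed flow preserves `om` on tangent vectors of the tangent bundle** -/
theorem om_dufl {q ξ η : Euc N × Euc N} (hq : q ∈ TS0 G) (hξ : TanTS G q ξ)
    (hη : TanTS G q η) (t : ℝ) : om (dufl G t q ξ) (dufl G t q η) = om ξ η := by
  obtain ⟨a, -, ha⟩ := hasFDerivAt_ufl hq t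
  have hX : X G (ufl G t q) = dfl G q (t / ‖q.2‖) (X G q) := (dfl_X hq.1 _).symm
  rw [ha, ha, hX]
  simp only [om_add_left, om_add_right, om_smul_left, om_smul_right]
  rw [om_dfl hq.1 hξ hη, om_dfl hq.1 hξ (tanTS_X hq.1), om_dfl hq.1 (tanTS_X hq.1) hη,
    om_dfl hq.1 (tanTS_X hq.1) (tanTS_X hq.1), om_self, om_skew ξ (X G q), om_X hq.1 hξ,
    om_X hq.1 hη]
  ring

end Crest.Agent.R208.L
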