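import Crest.Agent.R208.I7
import Crest.Agent.R208.L1

/-!
Row 208, block GT (helper989), part GT1: the differential of `Exp` along a geodesic and along the
reversed geodesic are adjoint; the links `V_pq` as canonical submodules; the tangent spaces
`T_q C_p` of the cut loci; the linear link isometries `V_pq → V_qp`.
-/

set_option autoImplicit false

open MeasureTheory Measure Set Filter Topology Module Metric
open scoped ContDiff RealInnerProductSpace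
open Crest.GeometryTopology.Submanifold
open Crest.Agent.R241.DDefs
open Crest.Agent.R241.D2
open Crest.Agent.R208.L (om TanTS dfl om_dfl)

noncomputable section

namespace Crest.Agent.R208.GT

variable {n N k : ℕ} {κ : ℝ} {S : Set (Euc N)} {G : Geo n N κ S} {p q v w a b : Euc N}

lemma hasDerivAt_vert (z : Euc N × Euc N) (b : Euc N) :
    HasDerivAt (fun s : ℝ => ((z.1, z.2 + s • b) : Euc N × Euc N)) (0, b) 0 := by
  have h1 : HasDerivAt (fun s : ℝ => z.2 + s • b) b 0 := by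
    simpa using ((hasDerivAt_id (0 : ℝ)).smul_const b).const_add z.2
  exact (hasDerivAt_const (0 : ℝ) z.1).prodMk h1

lemma vert_mem {z : Euc N × Euc N} (hz : z ∈ TS G) (hb : b ∈ G.T z.1) (s : ℝ) :
    (z.1, z.2 + s • b) ∈ TS G :=
  ⟨hz.1, (G.T z.1).add_mem hz.2 ((G.T z.1).smul_mem _ hb)⟩

lemma tanTS_vert {z : Euc N × Euc N} (hz : z ∈ TS G) (hb : b ∈ G.T z.1) : TanTS G z (0, b) :=
  ⟨fun s => (z.1, z.2 + s • b), by simp, hasDerivAt_vert z b,
    Eventually.of_forall fun s => vert_mem hz hb s⟩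

/-- the first component of the derivative of the flow in a vertical direction -/
lemma dfl_vert_fst {z : Euc N × Euc N} (hz : z ∈ TS G) (b : Euc N) :
    (dfl G z 1 (0, b)).1 = fderiv ℝ (Exp G z.1) z.2 b := by
  have h1 : HasDerivAt (fun s : ℝ => fl G ((z.1, z.2 + s • b), 1)) (dfl G z 1 (0, b)) 0 := by
    have h2 : HasFDerivAt (fun y => fl G (y, 1)) (dfl G z 1) (z.1, z.2 + (0 : ℝ) • b) := by
      simpa using L.hasFDerivAt_fl_left hz 1
    exact h2.comp_hasDerivAt (0 : ℝ) (hasDerivAt_vert z b)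
  have h3 : HasDerivAt (fun s : ℝ => Exp G z.1 (z.2 + s • b)) (fderiv ℝ (Exp G z.1) z.2 b) 0 :=
    R241.D3c.hasDerivAt_line ((R241.D3c.contDiffAt_Exp' G hz.1 hz.2).differentiableAt (by simp))
  exact (hda_fst h1).unique h3

/-- **adjointness**: the differentials of `Exp` along a geodesic and its reverse are adjoint. -/
theorem adj (hp : p ∈ S) (hv : v ∈ G.T p) (ha : a ∈ G.T p) (hb : b ∈ G.T (Exp G p v)) :
    ⟪fderiv ℝ (Exp G p) v a, b⟫ = ⟪a, fderiv ℝ (Exp G (Exp G p v)) (-Vel G p v) b⟫ := by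
  have hz : (p, v) ∈ TS G := ⟨hp, hv⟩
  have hr : rev (fl G ((p, v), 1)) ∈ TS G := rev_mem G (fl_mem G hz 1)
  -- the curve `rev ∘ fl_1` of the vertical line
  have h1 : HasDerivAt (fun s : ℝ => fl G ((p, v + s • a), 1)) (dfl G (p, v) 1 (0, a)) 0 := by
    have h2 : HasFDerivAt (fun y => fl G (y, 1)) (dfl G (p, v) 1) (p, v + (0 : ℝ) • a) := by
      simpa using L.hasFDerivAt_fl_left hz 1
    exact h2.comp_hasDerivAt (0 : ℝ) (hasDerivAt_vert (p, v) a)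
  set ξ := dfl G (p, v) 1 (0, a) with hξ
  have h2 : HasDerivAt (fun s : ℝ => rev (fl G ((p, v + s • a), 1))) (ξ.1, -ξ.2) 0 :=
    (hda_fst h1).prodMk (hda_snd h1).neg
  have hT : TanTS G (rev (fl G ((p, v), 1))) (ξ.1, -ξ.2) :=
    ⟨fun s : ℝ => rev (fl G ((p, v + s • a), 1)), by simp, h2,
      Eventually.of_forall fun s => rev_mem G (fl_mem G (vert_mem hz ha s) 1)⟩
  have h3 : HasDerivAt (fun s : ℝ => fl G (rev (fl G ((p, v + s • a), 1)), 1))
      (dfl G (rev (fl G ((p, v), 1))) 1 (ξ.1, -ξ.2)) 0 := by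
    have h4 : HasFDerivAt (fun y => fl G (y, 1)) (dfl G (rev (fl G ((p, v), 1))) 1)
        (rev (fl G ((p, v + (0 : ℝ) • a), 1))) := by
      simpa using L.hasFDerivAt_fl_left hr 1
    exact h4.comp_hasDerivAt (0 : ℝ) h2
  have h5 : HasDerivAt (fun s : ℝ => fl G (rev (fl G ((p, v + s • a), 1)), 1)) (0, -a) 0 := by
    have h6 : (fun s : ℝ => fl G (rev (fl G ((p, v + s • a), 1)), 1)) =
        fun s => (p, -(v + s • a)) := by
      funext s
      exact K.fl_rev_back G (vert_mem hz ha s) 1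
    rw [h6]
    have h7 := hasDerivAt_vert (p, v) a
    exact (hda_fst h7).prodMk (hda_snd h7).neg
  have h6 := h3.unique h5
  have h7 := om_dfl hr (tanTS_vert hr (b := b) hb) hT 1
  rw [h6] at h7
  unfold om at h7
  simp only [inner_zero_right, zero_sub, inner_neg_left, neg_neg, sub_zero] at h7
  rw [dfl_vert_fst hr, hξ, dfl_vert_fst hz] at h7
  rw [real_inner_comm]
  exact h7.symm

/-! ### links -/

/-- The set of pairs of points at distance `π`. -/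
def FF (S : Set (Euc N)) : Set (Euc N × Euc N) :=
  {z | z.1 ∈ S ∧ z.2 ∈ S ∧ intrinsicDist S z.1 z.2 = Real.pi}

/-- The space `V_pq` (spanned by the link at `p` towards `q`). -/
def Vs (G : Geo n N κ S) (p q : Euc N) : Submodule ℝ (Euc N) :=
  Submodule.span ℝ {v | v ∈ G.T p ∧ ‖v‖ = 1 ∧ Exp G p (Real.pi • v) = q}

/-- The tangent space at `q` of the cut locus `C_p = {q | d(p,q) = π}`. -/
def TC (G : Geo n N κ S) (p q : Euc N) : Submodule ℝ (Euc N) := G.T q ⊓ (Vs G q p)ᗮ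

/-- Blaschke data of diameter `π` and type `k`. -/
structure Bla (G : Geo n N κ S) (k : ℕ) : Prop where
  bl : Bl n N κ S G Real.pi
  ty : I.Typ G k

lemma FF_symm {z : Euc N × Euc N} (hz : z ∈ FF S) : z.swap ∈ FF S :=
  ⟨hz.2.1, hz.1, by rw [Prod.fst_swap, Prod.snd_swap, intrinsicDist_comm]; exact hz.2.2⟩

lemma FF_symm' (hz : (p, q) ∈ FF S) : (q, p) ∈ FF S := FF_symm hz

/-- The reversed arrival velocity at time `π`. -/
def ar (G : Geo n N κ S) (p v : Euc N) : Euc N := -(fl G ((p, v), Real.pi)).2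

lemma smul_ar (hp : p ∈ S) (hv : v ∈ G.T p) :
    Real.pi • ar G p v = -Vel G p (Real.pi • v) := by
  rw [ar, Vel_smul G hp hv, smul_neg]

lemma unit_of {x : Euc N} (hx : x ≠ 0) : ‖(‖x‖⁻¹ : ℝ) • x‖ = 1 := by
  rw [norm_smul, norm_inv, norm_norm, inv_mul_cancel₀ (norm_ne_zero_iff.2 hx)]

lemma smul_unit {x : Euc N} (hx : x ≠ 0) : ‖x‖ • ((‖x‖⁻¹ : ℝ) • x) = x := by
  rw [smul_smul, mul_inv_cancel₀ (norm_ne_zero_iff.2 hx), one_smul]

lemma mem_Vs (hv : v ∈ G.T p) (hv1 : ‖v‖ = 1) :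
    v ∈ Vs G p (Exp G p (Real.pi • v)) :=
  Submodule.subset_span ⟨hv, hv1, rfl⟩

lemma TC_le : TC G p q ≤ G.T q := inf_le_left

lemma inner_TC (hu : w ∈ Vs G q p) (hb : b ∈ TC G p q) : ⟪w, b⟫ = 0 :=
  (Submodule.mem_orthogonal _ _).1 hb.2 w hu

namespace Bla

variable (h : Bla G k)

include h

lemma Vs_eq (hz : (p, q) ∈ FF S) : Vs G p q ≤ G.T p ∧ finrank ℝ (Vs G p q) = k ∧
    (∀ v : Euc N, (v ∈ Vs G p q ∧ ‖v‖ = 1) ↔
      (v ∈ G.T p ∧ ‖v‖ = 1 ∧ Exp G p (Real.pi • v) = q)) ∧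
    (∀ v ∈ Vs G p q, ‖v‖ = 1 → ∀ b : Euc N,
      (b ∈ G.T p ∧ fderiv ℝ (Exp G p) (Real.pi • v) b = 0) ↔ (b ∈ Vs G p q ∧ ⟪v, b⟫ = 0)) := by
  obtain ⟨V, h1, h2, h3, h4⟩ := h.ty.link p hz.1 q hz.2.1 hz.2.2
  have hV : Vs G p q = V := by
    apply le_antisymm
    · rw [Vs, Submodule.span_le]
      intro v hv
      exact ((h3 v).2 hv).1
    · intro x hx
      by_cases h0 : x = 0
      · rw [h0]; exact Submodule.zero_mem _
      · rw [← smul_unit h0]
        refine Submodule.smul_mem _ _ (Submodule.subset_span ?_)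
        exact (h3 _).1 ⟨V.smul_mem _ hx, unit_of h0⟩
  rw [hV]
  exact ⟨h1, h2, h3, h4⟩

lemma Vs_le (hz : (p, q) ∈ FF S) : Vs G p q ≤ G.T p := (h.Vs_eq hz).1

lemma finrank_Vs (hz : (p, q) ∈ FF S) : finrank ℝ (Vs G p q) = k := (h.Vs_eq hz).2.1

lemma Exp_pi (hz : (p, q) ∈ FF S) (hv : v ∈ Vs G p q) (hv1 : ‖v‖ = 1) :
    Exp G p (Real.pi • v) = q := (((h.Vs_eq hz).2.2.1 v).1 ⟨hv, hv1⟩).2.2

lemma ker_iff (hz : (p, q) ∈ FF S) (hv : v ∈ Vs G p q) (hv1 : ‖v‖ = 1) :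
    (b ∈ G.T p ∧ fderiv ℝ (Exp G p) (Real.pi • v) b = 0) ↔ (b ∈ Vs G p q ∧ ⟪v, b⟫ = 0) :=
  (h.Vs_eq hz).2.2.2 v hv hv1 b

/-- every unit vector starts a geodesic to the cut locus -/
lemma mem_FF (hp : p ∈ S) (hv : v ∈ G.T p) (hv1 : ‖v‖ = 1) :
    (p, Exp G p (Real.pi • v)) ∈ FF S := by
  have h1 : Real.pi • v ∈ G.T p := (G.T p).smul_mem _ hv
  have h2 : ‖Real.pi • v‖ = Real.pi := by
    rw [norm_smul, hv1, mul_one, Real.norm_of_nonneg Real.pi_pos.le]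
  exact ⟨hp, Exp_mem G hp h1, by rw [h.bl.dist_Exp hp h1 h2.le, h2]⟩

lemma ar_spec (hz : (p, q) ∈ FF S) (hv : v ∈ Vs G p q) (hv1 : ‖v‖ = 1) :
    ar G p v ∈ Vs G q p ∧ ‖ar G p v‖ = 1 ∧ ar G q (ar G p v) = v := by
  have hvT := h.Vs_le hz hv
  have hq := h.Exp_pi hz hv hv1
  have hpv : Real.pi • v ∈ G.T p := (G.T p).smul_mem _ hvT
  have h1 := Exp_neg_Vel G hz.1 hpv
  rw [← smul_ar hz.1 hvT, hq] at h1
  have hflq : (fl G ((p, v), Real.pi)).1 = q := by rw [← Exp_smul G hz.1 hvT, hq]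
  have h2 : ar G p v ∈ G.T q := by
    have := (fl_mem G (q := (p, v)) ⟨hz.1, hvT⟩ Real.pi).2
    rw [hflq] at this
    exact (G.T q).neg_mem this
  have h3 : ‖ar G p v‖ = 1 := by
    rw [ar, norm_neg, norm_fl G (q := (p, v)) ⟨hz.1, hvT⟩]
    exact hv1
  refine ⟨((h.Vs_eq (FF_symm' hz)).2.2.1 _).2 ⟨h2, h3, h1.1⟩ |>.1, h3, ?_⟩
  have h4 : Real.pi • ar G q (ar G p v) = Real.pi • v := by
    rw [smul_ar hz.2.1 h2, h1.2, neg_neg]
  exact smul_right_injective _ Real.pi_ne_zero h4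

/-- adjointness along the geodesics of length `π` -/
lemma adj_pi (hz : (p, q) ∈ FF S) (hv : v ∈ Vs G p q) (hv1 : ‖v‖ = 1) (ha : a ∈ G.T p)
    (hb : b ∈ G.T q) : ⟪fderiv ℝ (Exp G p) (Real.pi • v) a, b⟫ =
      ⟪a, fderiv ℝ (Exp G q) (Real.pi • ar G p v) b⟫ := by
  have hvT := h.Vs_le hz hv
  have hq := h.Exp_pi hz hv hv1
  have hpv : Real.pi • v ∈ G.T p := (G.T p).smul_mem _ hvT
  have h1 := adj (b := b) hz.1 hpv ha (by rw [hq]; exact hb)
  rwa [hq, ← smul_ar hz.1 hvT] at h1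

lemma finrank_TC (hz : (p, q) ∈ FF S) : k + finrank ℝ (TC G p q) = n := by
  have h1 := Submodule.finrank_add_inf_finrank_orthogonal (h.Vs_le (FF_symm' hz))
  rw [h.finrank_Vs (FF_symm' hz), G.finrank_T q hz.2.1, inf_comm] at h1
  exact h1

lemma fderiv_mem_TC (hz : (p, q) ∈ FF S) (hv : v ∈ Vs G p q) (hv1 : ‖v‖ = 1) (ha : a ∈ G.T p)
    (hva : ⟪v, a⟫ = 0) : fderiv ℝ (Exp G p) (Real.pi • v) a ∈ TC G p q := by
  have hvT := h.Vs_le hz hv
  have hq := h.Exp_pi hz hv hv1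
  have hpv : Real.pi • v ∈ G.T p := (G.T p).smul_mem _ hvT
  obtain ⟨hu, hu1, -⟩ := h.ar_spec hz hv hv1
  set u := ar G p v with hudef
  have hu' : ⟪u, fderiv ℝ (Exp G p) (Real.pi • v) a⟫ = 0 := by
    have h2 := R241.D3c.gauss G hz.1 hpv ha
    have h3 : Vel G p (Real.pi • v) = -(Real.pi • u) := by rw [hudef, smul_ar hz.1 hvT, neg_neg]
    rw [h3, inner_neg_right, inner_smul_right, inner_smul_left, hva, mul_zero, real_inner_comm,
      neg_eq_zero] at h2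
    exact (mul_eq_zero.1 h2).resolve_left Real.pi_ne_zero
  refine Submodule.mem_inf.2 ⟨?_, ?_⟩
  · have := R241.D3c.fderiv_Exp_mem G hz.1 hpv ha
    rwa [hq] at this
  · rw [Submodule.mem_orthogonal]
    intro b hb
    set b' := b - ⟪u, b⟫ • u with hb'
    have h1 : b' ∈ Vs G q p := Submodule.sub_mem _ hb (Submodule.smul_mem _ _ hu)
    have h2 : ⟪u, b'⟫ = 0 := by
      rw [hb', inner_sub_right, inner_smul_right, real_inner_self_eq_norm_sq, hu1]; ring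
    have h3 := (h.ker_iff (FF_symm' hz) hu hu1).2 ⟨h1, h2⟩
    have h4 := h.adj_pi hz hv hv1 ha h3.1
    rw [← hudef, h3.2, inner_zero_right] at h4
    have h5 : b = b' + ⟪u, b⟫ • u := by rw [hb']; abel
    rw [h5, inner_add_left, inner_smul_left, hu', mul_zero, add_zero, real_inner_comm]
    exact h4

lemma fderiv_inj (hz : (p, q) ∈ FF S) (hv : v ∈ Vs G p q) (hv1 : ‖v‖ = 1) (ha : a ∈ TC G q p)
    (h0 : fderiv ℝ (Exp G p) (Real.pi • v) a = 0) : a = 0 := by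
  have h1 := (h.ker_iff hz hv hv1).1 ⟨ha.1, h0⟩
  have h2 := (Submodule.mem_orthogonal _ _).1 ha.2 a h1.1
  exact inner_self_eq_zero.1 h2

/-- `A_v = fderiv (Exp p) (π v)` maps `T_p C_q` onto `T_q C_p`. -/
lemma fderiv_surj (hz : (p, q) ∈ FF S) (hv : v ∈ Vs G p q) (hv1 : ‖v‖ = 1) {y : Euc N}
    (hy : y ∈ TC G p q) : ∃ a ∈ TC G q p, fderiv ℝ (Exp G p) (Real.pi • v) a = y := by
  have hperp : ∀ a ∈ TC G q p, ⟪v, a⟫ = 0 := fun a ha => inner_TC hv ha
  let A : TC G q p →ₗ[ℝ] TC G p q :=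
    ((fderiv ℝ (Exp G p) (Real.pi • v)).toLinearMap.restrict
      (fun a ha => h.fderiv_mem_TC hz hv hv1 (TC_le ha) (hperp a ha)))
  have hinj : Function.Injective A := by
    rw [injective_iff_map_eq_zero]
    rintro ⟨a, ha⟩ h0
    have h1 : fderiv ℝ (Exp G p) (Real.pi • v) a = 0 := congrArg Subtype.val h0
    exact Subtype.ext (h.fderiv_inj hz hv hv1 ha h1)
  have hfr : finrank ℝ (TC G q p) = finrank ℝ (TC G p q) := by
    have h1 := h.finrank_TC hz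
    have h2 := h.finrank_TC (FF_symm' hz)
    omega
  obtain ⟨a, ha⟩ := (LinearMap.injective_iff_surjective_of_finrank_eq_finrank hfr).1 hinj ⟨y, hy⟩
  exact ⟨a, a.2, congrArg Subtype.val ha⟩

/-- **the link isometry** on unit vectors -/
lemma inner_ar (hz : (p, q) ∈ FF S) (hv : v ∈ Vs G p q) (hv1 : ‖v‖ = 1) (hw : w ∈ Vs G p q)
    (hw1 : ‖w‖ = 1) : ⟪ar G p v, ar G p w⟫ = ⟪v, w⟫ := by
  have h1 := (I.hyp h.bl).inner_lk (v := v) (w := w) (q := q) hz.1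
    ⟨h.Vs_le hz hv, hv1, by rw [← Exp_smul G hz.1 (h.Vs_le hz hv)]; exact h.Exp_pi hz hv hv1⟩
    ⟨h.Vs_le hz hw, hw1, by rw [← Exp_smul G hz.1 (h.Vs_le hz hw)]; exact h.Exp_pi hz hw hw1⟩
  rw [ar, ar, inner_neg_neg]
  exact h1.symm

end Bla

/-! ### the linear link isometry -/

/-- The linear isometry `V_pq → V_qp` (zero on `V_pqᗮ`), `v ↦` reversed arrival velocity. -/
def lf (G : Geo n N κ S) (p q : Euc N) : Euc N →L[ℝ] Euc N :=
  ∑ i, (innerSL ℝ ((stdOrthonormalBasis ℝ (Vs G p q) i : Vs G p q) : Euc N)).smulRight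
    (ar G p (stdOrthonormalBasis ℝ (Vs G p q) i : Vs G p q))

lemma lf_apply (x : Euc N) : lf G p q x =
    ∑ i, ⟪((stdOrthonormalBasis ℝ (Vs G p q) i : Vs G p q) : Euc N), x⟫ •
      ar G p (stdOrthonormalBasis ℝ (Vs G p q) i : Vs G p q) := by
  simp [lf]

lemma lf_perp {x : Euc N} (hx : x ∈ (Vs G p q)ᗮ) : lf G p q x = 0 := by
  rw [lf_apply]
  refine Finset.sum_eq_zero fun i _ => ?_
  rw [(Submodule.mem_orthogonal _ _).1 hx _ (Submodule.coe_mem _), zero_smul]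

namespace Bla

variable (h : Bla G k)

include h

lemma lf_unit (hz : (p, q) ∈ FF S) (hv : v ∈ Vs G p q) (hv1 : ‖v‖ = 1) :
    lf G p q v = ar G p v := by
  set e := stdOrthonormalBasis ℝ (Vs G p q) with he
  have he1 : ∀ i, ‖((e i : Vs G p q) : Euc N)‖ = 1 := fun i => e.norm_eq_one i
  have hsum : ∑ i, ⟪((e i : Vs G p q) : Euc N), v⟫ ^ 2 = 1 := by
    have h1 := e.sum_sq_norm_inner_right (⟨v, hv⟩ : Vs G p q)
    have h2 : ‖(⟨v, hv⟩ : Vs G p q)‖ = 1 := hv1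
    rw [h2, one_pow] at h1
    rw [← h1]
    refine Finset.sum_congr rfl fun i _ => ?_
    rw [Real.norm_eq_abs, sq_abs]
    rfl
  have hin : ∀ i, ⟪ar G p v, ar G p (e i : Vs G p q)⟫ = ⟪((e i : Vs G p q) : Euc N), v⟫ :=
    fun i => by
      rw [h.inner_ar hz hv hv1 (Submodule.coe_mem _) (he1 i), real_inner_comm]
  have hortho : ∀ i j, ⟪ar G p (e i : Vs G p q), ar G p (e j : Vs G p q)⟫ =
      if i = j then (1 : ℝ) else 0 := fun i j => by
    rw [h.inner_ar hz (Submodule.coe_mem _) (he1 i) (Submodule.coe_mem _) (he1 j)]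
    exact orthonormal_iff_ite.1 e.orthonormal i j
  have hlf : lf G p q v = ∑ i, ⟪((e i : Vs G p q) : Euc N), v⟫ • ar G p (e i : Vs G p q) :=
    lf_apply v
  have hx : ⟪ar G p v, lf G p q v⟫ = 1 := by
    rw [hlf, inner_sum, ← hsum]
    refine Finset.sum_congr rfl fun i _ => ?_
    rw [inner_smul_right, hin]; ring
  have hxx : ⟪lf G p q v, lf G p q v⟫ = 1 := by
    rw [hlf, inner_sum, ← hsum]
    refine Finset.sum_congr rfl fun i _ => ?_
    rw [inner_smul_right, sum_inner]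
    simp only [inner_smul_left, hortho, mul_ite, mul_one, mul_zero,
      Finset.sum_ite_eq', Finset.mem_univ, if_true, conj_trivial]
    ring
  have h0 : ⟪ar G p v - lf G p q v, ar G p v - lf G p q v⟫ = 0 := by
    have h1 : ⟪ar G p v, ar G p v⟫ = 1 := by
      rw [real_inner_self_eq_norm_sq, (h.ar_spec hz hv hv1).2.1, one_pow]
    have h2 : ⟪lf G p q v, ar G p v⟫ = 1 := by rw [real_inner_comm]; exact hx
    rw [inner_sub_left, inner_sub_right, inner_sub_right, hx, hxx, h1, h2]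
    norm_num
  exact (sub_eq_zero.1 (inner_self_eq_zero.1 h0)).symm

lemma lf_mem (hz : (p, q) ∈ FF S) (x : Euc N) : lf G p q x ∈ Vs G q p := by
  rw [lf_apply]
  refine Submodule.sum_mem _ fun i _ => Submodule.smul_mem _ _ ?_
  exact (h.ar_spec hz (Submodule.coe_mem _)
    ((stdOrthonormalBasis ℝ (Vs G p q)).norm_eq_one i)).1

lemma norm_lf (hz : (p, q) ∈ FF S) (hv : v ∈ Vs G p q) : ‖lf G p q v‖ = ‖v‖ := by
  by_cases h0 : v = 0
  · rw [h0, map_zero]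
  · have h1 : (‖v‖⁻¹ : ℝ) • v ∈ Vs G p q := Submodule.smul_mem _ _ hv
    have h2 := h.lf_unit hz h1 (unit_of h0)
    have h3 := (h.ar_spec hz h1 (unit_of h0)).2.1
    rw [← h2, map_smul, norm_smul, norm_inv, norm_norm] at h3
    have h4 : ‖v‖ ≠ 0 := norm_ne_zero_iff.2 h0
    field_simp at h3
    linarith

lemma inner_lf (hz : (p, q) ∈ FF S) (hv : v ∈ Vs G p q) (hw : w ∈ Vs G p q) :
    ⟪lf G p q v, lf G p q w⟫ = ⟪v, w⟫ := by
  have h1 := h.norm_lf hz (Submodule.add_mem _ hv hw)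
  have h2 := h.norm_lf hz hv
  have h3 := h.norm_lf hz hw
  have h4 := norm_add_sq_real (lf G p q v) (lf G p q w)
  have h5 := norm_add_sq_real v w
  rw [← map_add, h1, h2, h3, h5] at h4
  linarith

lemma lf_lf (hz : (p, q) ∈ FF S) (hv : v ∈ Vs G p q) : lf G q p (lf G p q v) = v := by
  by_cases h0 : v = 0
  · rw [h0, map_zero, map_zero]
  · have h1 : (‖v‖⁻¹ : ℝ) • v ∈ Vs G p q := Submodule.smul_mem _ _ hv
    have h2 := h.lf_unit hz h1 (unit_of h0)
    obtain ⟨h3, h4, h5⟩ := h.ar_spec hz h1 (unit_of h0)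
    have h6 := h.lf_unit (FF_symm' hz) h3 h4
    rw [h5, ← h2, map_smul, map_smul] at h6
    exact smul_right_injective _ (inv_ne_zero (norm_ne_zero_iff.2 h0)) h6

end Bla

end Crest.Agent.R208.GT
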