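import Crest.Agent.R208.GP1b
import Crest.Agent.R208.FV2
import Crest.Agent.R208.GT1
import Crest.Agent.R208.T0b

/-! Row 208, block GP (helper198), part GP2a: the cut locus `C_p` is a closed manifold of dimension
`n - k` with tangent spaces `TC G p q`. -/

set_option autoImplicit false
set_option linter.unusedSectionVars false

open MeasureTheory Measure Set Filter Topology Module Metric
open scoped ContDiff RealInnerProductSpace
open Crest.GeometryTopology.Submanifold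
open Crest.Agent.R241.DDefs
open Crest.Agent.R241.D2
open Crest.Agent.R208.F Crest.Agent.R208.FI
open Crest.Agent.R208.FV (Vl phi PV)

noncomputable section

namespace Crest.Agent.R208.GP

variable {n N k : ℕ} {κ : ℝ} {S : Set (Euc N)} {G : Geo n N κ S} {p q : Euc N}

theorem mem_FF_of_Cut (hp : p ∈ S) (hq : q ∈ Cut S p) : (p, q) ∈ FV.FF G := ⟨hp, hq.1, hq.2⟩

theorem mem_FF_of_Cut' (hp : p ∈ S) (hq : q ∈ Cut S p) : (q, p) ∈ FV.FF G :=
  ⟨hq.1, hp, by rw [intrinsicDist_comm]; exact hq.2⟩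

theorem Vl_eq_Vs (G : Geo n N κ S) (p q : Euc N) : Vl G (p, q) = GT.Vs G p q := rfl

/-- `Tan F → T_p S` is surjective. -/
theorem exists_Tan_FF (hB : Bl n N κ S G Real.pi) (hT : I.Typ G k) (hS : Sub n S)
    {z : Euc N × Euc N} (hz : z ∈ FV.FF G) {a : Euc N} (ha : a ∈ G.T z.1) :
    ∃ b, (a, b) ∈ Tan (FV.FF G) z := by
  have hz' := hz
  rw [FV.FF_eq_image hB hT] at hz'
  obtain ⟨q, hq, rfl⟩ := hz'
  have h1 := LB.hl_mem hS hq (u := a) ha
  have h2 := FV.fderiv_mem_Tan_of_mapsTo (X := L.US G) (Y := FV.FF G)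
    (fun x hx => FV.phi_mem hB hx) ((FV.contDiffAt_phi hq.1).differentiableAt (by simp)) h1
  rw [FV.fderiv_phi hq.1] at h2
  exact ⟨_, h2⟩

/-- `{z ∈ F | z.1 = p}` -/
def FP (G : Geo n N κ S) (p : Euc N) : Set (Euc N × Euc N) := {z | z ∈ FV.FF G ∧ z.1 - p = 0}

theorem sub_FP (hB : Bl n N κ S G Real.pi) (hT : I.Typ G k) (hS : Sub n S) (hp : p ∈ S) :
    Sub (n - k) (FP G p) := by
  obtain ⟨f, W, O, ℓ, h1, h2⟩ := hS.exists_loc hp
  have hd : (2 * n - k) + k = 2 * n := by have := hT.le; omega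
  set X : Set (Euc N × Euc N) := FV.FF G ∩ {z | z.1 ∈ O} with hX
  have hXs : Sub (2 * n - k) X :=
    (FV.sub_FF hB hT hS hd).inter_open (h1.oO.preimage continuous_fst)
  set g : Euc N × Euc N → Eu n := fun z => ℓ z.1 - ℓ p with hg
  have hgC : ∀ x ∈ X, ContDiffAt ℝ ∞ g x := fun x hx =>
    ((h1.lC' (hx.2 : x.1 ∈ O)).comp x contDiffAt_fst).sub contDiffAt_const
  have hset : {x ∈ X | g x = 0} = FP G p := by
    ext z
    constructor
    · rintro ⟨⟨hz, hzO⟩, hz0⟩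
      refine ⟨hz, sub_eq_zero.2 ?_⟩
      have h3 : ℓ z.1 = ℓ p := sub_eq_zero.1 hz0
      rw [← h1.right_inv hz.1 hzO, ← h1.right_inv hp h2, h3]
    · rintro ⟨hz, hz0⟩
      have h3 : z.1 = p := sub_eq_zero.1 hz0
      refine ⟨⟨hz, ?_⟩, ?_⟩
      · show z.1 ∈ O
        rw [h3]; exact h2
      · rw [hg]; simp only; rw [h3, sub_self]
  have h3 := hXs.level hgC (fun x hx hgx y => by
    have hx1 : x.1 = p := by
      have : x ∈ {x ∈ X | g x = 0} := ⟨hx, hgx⟩
      rw [hset] at this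
      exact sub_eq_zero.1 this.2
    -- the tangent vector of `S` with image `y`
    set a : Euc N := fderiv ℝ f (ℓ p) y with ha
    have hW : ℓ p ∈ W := h1.maps p h2
    have haT : a ∈ G.T x.1 := by
      rw [hx1, ← LB.Tan_S hS hp]
      have h4 := h1.range_eq_Tan hW
      rw [h1.right_inv hp h2] at h4
      rw [← h4]
      exact ⟨y, rfl⟩
    obtain ⟨b, hb⟩ := exists_Tan_FF hB hT hS hx.1 haT
    refine ⟨(a, b), ?_, ?_⟩
    · refine Tan_open (X := FV.FF G) (X' := X) ?_ hb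
      filter_upwards [(h1.oO.preimage continuous_fst).mem_nhds hx.2] with y hy hyF using
        ⟨hyF, hy⟩
    · have h5 : HasFDerivAt ℓ (fderiv ℝ ℓ x.1) x.1 :=
        ((h1.lC' hx.2).differentiableAt (by simp)).hasFDerivAt
      have h6 : HasFDerivAt g ((fderiv ℝ ℓ x.1) ∘L (ContinuousLinearMap.fst ℝ (Euc N) (Euc N))) x :=
        (h5.comp x hasFDerivAt_fst).sub_const _
      rw [h6.fderiv]
      change fderiv ℝ ℓ x.1 a = y
      have h7 : HasFDerivAt f (fderiv ℝ f (ℓ p)) (ℓ p) :=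
        ((h1.fC' hW).differentiableAt (by simp)).hasFDerivAt
      have h8 : HasFDerivAt (fun u => ℓ (f u)) ((fderiv ℝ ℓ x.1) ∘L (fderiv ℝ f (ℓ p))) (ℓ p) := by
        have h9 : HasFDerivAt ℓ (fderiv ℝ ℓ x.1) (f (ℓ p)) := by
          rw [h1.right_inv hp h2]; rw [hx1] at h5 ⊢; exact h5
        exact h9.comp (ℓ p) h7
      have h9 : HasFDerivAt (fun u => ℓ (f u)) (ContinuousLinearMap.id ℝ (Eu n)) (ℓ p) := by
        refine (hasFDerivAt_id (ℓ p)).congr_of_eventuallyEq ?_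
        filter_upwards [h1.oW.mem_nhds hW] with u hu using h1.inv u hu
      have h10 := h8.unique h9
      exact congrArg (fun L => L y) h10)
  rw [hset] at h3
  have h4 : 2 * n - k - finrank ℝ (Eu n) = n - k := by
    rw [finrank_euclideanSpace_fin]; omega
  rwa [h4] at h3

theorem sub_Cut (hB : Bl n N κ S G Real.pi) (hT : I.Typ G k) (hS : Sub n S) (hp : p ∈ S) :
    Sub (n - k) (Cut S p) := by
  refine Sub.of_loc' fun q hq => ?_
  have hx : ((p, q) : Euc N × Euc N) ∈ FP G p :=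
    ⟨mem_FF_of_Cut hp hq, sub_self p⟩
  obtain ⟨f, W, O, ℓ, h1, h2⟩ := (sub_FP hB hT hS hp).exists_loc hx
  obtain ⟨U', O', ℓ', h3, h4, -, -⟩ := FV.Loc.image h1 (g := Prod.snd) (Y := Cut S p)
    (fun x _ => contDiffAt_snd) hx h2
    (by
      intro v hv h0
      have h5 : v ∈ Tan (FV.FF G) (p, q) ⊓ LinearMap.ker
          (fderiv ℝ (fun z : Euc N × Euc N => z.1 - p) (p, q) : Euc N × Euc N →ₗ[ℝ] Euc N) :=
        FV.Tan_le_ker (X := FV.FF G) (g := fun z : Euc N × Euc N => z.1 - p)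
          (differentiableAt_fst.sub_const p) hv
      have h6 : fderiv ℝ (fun z : Euc N × Euc N => z.1 - p) (p, q) =
          ContinuousLinearMap.fst ℝ (Euc N) (Euc N) := (hasFDerivAt_fst.sub_const p).fderiv
      have h7 := h5.2
      rw [h6] at h7
      have h8 : v.1 = 0 := h7
      rw [fderiv_snd] at h0
      exact Prod.ext h8 h0)
    (by
      rintro x ⟨hx, hx1⟩
      have hx1' : x.1 = p := sub_eq_zero.1 hx1
      exact ⟨hx.2.1, by rw [← hx1']; exact hx.2.2⟩)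
    (by
      intro O' hO' hqO
      have h5 : Continuous (fun y : Euc N => ((p, y) : Euc N × Euc N)) := by fun_prop
      filter_upwards [nhdsWithin_le_nhds ((hO'.preimage h5).mem_nhds hqO),
        self_mem_nhdsWithin] with y hy hyC
      exact ⟨(p, y), ⟨⟨mem_FF_of_Cut hp hyC, sub_self p⟩, hy⟩, rfl⟩)
  exact ⟨_, _, _, _, h3, h4⟩

/-- **`C_p` is a closed manifold of dimension `n - k`.** -/
theorem clo_Cut (hB : Bl n N κ S G Real.pi) (hT : I.Typ G k) (hS : Sub n S) (hp : p ∈ S) :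
    Clo (n - k) (Cut S p) := (sub_Cut hB hT hS hp).clo (isClosed_Cut hB hp)

/-- **tangent space of `C_p`** -/
theorem Tan_Cut (hB : Bl n N κ S G Real.pi) (hT : I.Typ G k) (hS : Sub n S) (hp : p ∈ S)
    (hq : q ∈ Cut S p) : Tan (Cut S p) q = GT.TC G p q := by
  have hz : (p, q) ∈ GT.FF S := ⟨hp, hq.1, hq.2⟩
  have hb : GT.Bla G k := ⟨hB, hT⟩
  refine (Submodule.eq_of_le_of_finrank_eq ?_ ?_).symm
  · intro y hy
    -- a unit vector of `V_pq`
    obtain ⟨v1, hv1V, hv1n⟩ : ∃ v ∈ GT.Vs G p q, ‖v‖ = 1 := by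
      obtain ⟨v, hv, hv0⟩ : ∃ v ∈ GT.Vs G p q, v ≠ 0 := by
        refine (Submodule.ne_bot_iff _).1 fun h => ?_
        have h1 := hb.finrank_Vs hz
        rw [h, finrank_bot] at h1
        have := hT.one_le
        omega
      exact ⟨(‖v‖⁻¹ : ℝ) • v, Submodule.smul_mem _ _ hv, GT.unit_of hv0⟩
    have hv1T : v1 ∈ G.T p := hb.Vs_le hz hv1V
    obtain ⟨a, ha, hay⟩ := hb.fderiv_surj hz hv1V hv1n hy
    have haT : a ∈ G.T p := ha.1
    have hva : ⟪v1, a⟫ = 0 := GT.inner_TC hv1V ha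
    by_cases ha0 : a = 0
    · rw [← hay, ha0, map_zero]; exact Submodule.zero_mem _
    have hna : ‖a‖ ≠ 0 := norm_ne_zero_iff.2 ha0
    obtain ⟨a1, ha1⟩ : ∃ a1 : Euc N, a1 = (‖a‖⁻¹ : ℝ) • a := ⟨_, rfl⟩
    have ha1n : ‖a1‖ = 1 := by rw [ha1]; exact GT.unit_of ha0
    have ha1T : a1 ∈ G.T p := by rw [ha1]; exact (G.T p).smul_mem _ haT
    have hva1 : ⟪v1, a1⟫ = 0 := by rw [ha1, inner_smul_right, hva, mul_zero]
    set c : ℝ → Euc N := fun t => Real.cos t • v1 + Real.sin t • a1 with hc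
    have hcT : ∀ t, c t ∈ G.T p := fun t =>
      (G.T p).add_mem ((G.T p).smul_mem _ hv1T) ((G.T p).smul_mem _ ha1T)
    have hcn : ∀ t, ‖c t‖ = 1 := by
      intro t
      have h1 : ‖c t‖ ^ 2 = 1 := by
        rw [hc]; simp only
        rw [norm_add_sq_real, inner_smul_left, inner_smul_right, hva1, norm_smul, norm_smul, hv1n,
          ha1n, mul_one, mul_one, Real.norm_eq_abs, Real.norm_eq_abs, sq_abs, sq_abs]
        simp [Real.cos_sq_add_sin_sq]
      exact (pow_eq_one_iff_of_nonneg (norm_nonneg _) two_ne_zero).1 h1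
    have hcd : HasDerivAt c a1 0 := by
      have h1 : HasDerivAt (fun t : ℝ => Real.cos t • v1) ((-Real.sin 0) • v1) 0 :=
        (Real.hasDerivAt_cos 0).smul_const v1
      have h2 : HasDerivAt (fun t : ℝ => Real.sin t • a1) ((Real.cos 0) • a1) 0 :=
        (Real.hasDerivAt_sin 0).smul_const a1
      have h3 := h1.add h2
      rw [Real.sin_zero, Real.cos_zero, neg_zero, zero_smul, zero_add, one_smul] at h3
      exact h3
    have hc0 : c 0 = v1 := by rw [hc]; simp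
    have hcC : ∀ t, Exp G p (Real.pi • c t) ∈ Cut S p := fun t => by
      have h1 := hb.mem_FF hp (hcT t) (hcn t)
      exact ⟨h1.2.1, h1.2.2⟩
    have hd : HasDerivAt (fun t => Exp G p (Real.pi • c t))
        (fderiv ℝ (Exp G p) (Real.pi • v1) (Real.pi • a1)) 0 := by
      have h1 : HasFDerivAt (Exp G p) (fderiv ℝ (Exp G p) (Real.pi • v1)) (Real.pi • c 0) := by
        rw [hc0]
        exact ((R241.D3c.contDiffAt_Exp' G hp ((G.T p).smul_mem _ hv1T)).differentiableAt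
          (by simp)).hasFDerivAt
      exact h1.comp_hasDerivAt 0 (hcd.const_smul Real.pi)
    have h1 := mem_Tan_of_curve (X := Cut S p) hd (Eventually.of_forall hcC)
    simp only [hc0] at h1
    rw [hb.Exp_pi hz hv1V hv1n] at h1
    rw [map_smul, ha1, map_smul, hay, smul_smul] at h1
    have h2 := (Tan (Cut S p) q).smul_mem (Real.pi * ‖a‖⁻¹)⁻¹ h1
    rwa [smul_smul, inv_mul_cancel₀ (mul_ne_zero Real.pi_ne_zero (inv_ne_zero hna)), one_smul] at h2
  · rw [(sub_Cut hB hT hS hp).finrank_Tan hq]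
    have := hb.finrank_TC hz
    omega

/-! ### the normal bundle -/

/-- the projection field `q ↦ P_{V_qp}` -/
def PC (hB : Bl n N κ S G Real.pi) (hT : I.Typ G k) (hS : Sub n S) (p q : Euc N) :
    Euc N →L[ℝ] Euc N := PV hB hT hS (q, p)

theorem pfield_PC (hB : Bl n N κ S G Real.pi) (hT : I.Typ G k) (hS : Sub n S) (hp : p ∈ S) :
    PField (Cut S p) k (PC hB hT hS p) where
  smooth := fun q _ => (FV.contDiff_PV hB hT hS).contDiffAt.comp q
    (contDiffAt_id.prodMk contDiffAt_const)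
  idem := fun _ hq v => (FV.pfield_PV hB hT hS).idem _ (mem_FF_of_Cut' hp hq) v
  rank := fun _ hq => (FV.pfield_PV hB hT hS).rank _ (mem_FF_of_Cut' hp hq)

theorem PC_eq_self (hB : Bl n N κ S G Real.pi) (hT : I.Typ G k) (hS : Sub n S) (hp : p ∈ S)
    (hq : q ∈ Cut S p) {v : Euc N} : PC hB hT hS p q v = v ↔ v ∈ GT.Vs G q p :=
  FV.PV_eq_self hB hT hS (mem_FF_of_Cut' hp hq)

theorem mem_Tot_PC (hB : Bl n N κ S G Real.pi) (hT : I.Typ G k) (hS : Sub n S) (hp : p ∈ S)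
    {z : Euc N × Euc N} : z ∈ Tot (Cut S p) (PC hB hT hS p) ↔ z.1 ∈ Cut S p ∧ z.2 ∈ GT.Vs G z.1 p :=
  ⟨fun h => ⟨h.1, (PC_eq_self hB hT hS hp h.1).1 h.2⟩,
    fun h => ⟨h.1, (PC_eq_self hB hT hS hp h.1).2 h.2⟩⟩

theorem sub_Tot_PC (hB : Bl n N κ S G Real.pi) (hT : I.Typ G k) (hS : Sub n S) (hp : p ∈ S) :
    Sub n (Tot (Cut S p) (PC hB hT hS p)) := by
  have h1 := (pfield_PC hB hT hS hp).sub_tot (sub_Cut hB hT hS hp)
  rwa [Nat.sub_add_cancel hT.le] at h1

end Crest.Agent.R208.GP
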