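import Crest.Agent.R208.GP2a

/-! Row 208, block GP (helper198), part GP2b: the tube `{(q,v) | q ∈ C_p, v ∈ V_qp, |v| < π} → S ∖ {p}`
and its globally smooth inverse. -/

set_option autoImplicit false
set_option linter.unusedSectionVars false

open MeasureTheory Measure Set Filter Topology Module Metric
open scoped ContDiff RealInnerProductSpace
open Crest.GeometryTopology.Submanifold
open Crest.Agent.R241.DDefs
open Crest.Agent.R241.D2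
open Crest.Agent.R208.F Crest.Agent.R208.FI
open Crest.Agent.R208.FV (Vl phi PV)

noncomputable section

namespace Crest.Agent.R208.GP

section ext
open scoped Manifold
variable {E F : Type*} [NormedAddCommGroup E] [InnerProductSpace ℝ E] [FiniteDimensional ℝ E]
  [NormedAddCommGroup F] [NormedSpace ℝ F]

/-- **extension lemma for `S ∖ {p}`**: local ambient extensions glue. -/
theorem exists_extension_punct {S : Set E} (hS : IsClosed S) (p : E) {f : E → F}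
    (h : ∀ x ∈ S, x ≠ p → ∃ (U : Set E) (g : E → F), IsOpen U ∧ x ∈ U ∧
      (∀ y ∈ S ∩ U, y ≠ p → ContDiffAt ℝ ∞ g y) ∧ ∀ y ∈ S ∩ U, y ≠ p → g y = f y) :
    ∃ f' : E → F, (∀ x ∈ S, x ≠ p → ContDiffAt ℝ ∞ f' x) ∧ ∀ x ∈ S, x ≠ p → f' x = f x := by
  classical
  set s : Set (E × ℝ) := {z | z.1 ∈ S ∧ z.2 * ‖z.1 - p‖ ^ 2 = 1} with hs
  have hsc : IsClosed s := (hS.preimage continuous_fst).inter
    (isClosed_eq (by fun_prop) continuous_const)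
  have hsp : ∀ z ∈ s, z.1 ≠ p := by
    rintro z ⟨-, hz⟩ h0
    rw [h0, sub_self, norm_zero] at hz
    simp at hz
  choose! U g hU hxU hg hgf using h
  obtain ⟨ρ, hρ⟩ := SmoothPartitionOfUnity.exists_isSubordinate (I := 𝓘(ℝ, E × ℝ)) (M := E × ℝ) hsc
    (fun i : s => (U i.1.1) ×ˢ (univ : Set ℝ))
    (fun i => (hU _ i.2.1 (hsp _ i.2)).prod isOpen_univ)
    (fun z hz => mem_iUnion.2 ⟨⟨z, hz⟩, hxU _ hz.1 (hsp _ hz), mem_univ _⟩)
  set Φ : E × ℝ → F := fun z => ∑ᶠ i, ρ i z • g (i : s).1.1 z.1 with hΦ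
  have h1 : ∀ z ∈ s, ContDiffAt ℝ ∞ Φ z := by
    intro z hz
    refine ρ.contDiffAt_finsum (n := (⊤ : ℕ∞)) (g := fun i z => g (i : s).1.1 z.1) fun i hi => ?_
    have h2 := hρ i hi
    exact (hg _ i.2.1 (hsp _ i.2) z.1 ⟨hz.1, h2.1⟩ (hsp _ hz)).comp z contDiffAt_fst
  have h2 : ∀ z ∈ s, Φ z = f z.1 := by
    intro z hz
    have h3 := ρ.finsum_smul_mem_convex (g := fun i z => g (i : s).1.1 z.1) (t := {f z.1}) hz
      (fun i hi => ?_) (convex_singleton _)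
    · exact h3
    · have h4 := hρ i (subset_tsupport _ hi)
      exact hgf _ i.2.1 (hsp _ i.2) z.1 ⟨hz.1, h4.1⟩ (hsp _ hz)
  have h3 : ∀ x ∈ S, x ≠ p → ((x, (‖x - p‖ ^ 2)⁻¹) : E × ℝ) ∈ s := by
    intro x hx hxp
    have h4 : ‖x - p‖ ^ 2 ≠ 0 := pow_ne_zero 2 (norm_ne_zero_iff.2 (sub_ne_zero.2 hxp))
    exact ⟨hx, inv_mul_cancel₀ h4⟩
  refine ⟨fun x => Φ (x, (‖x - p‖ ^ 2)⁻¹), fun x hx hxp => ?_, fun x hx hxp => h2 _ (h3 x hx hxp)⟩
  have h4 : ‖x - p‖ ^ 2 ≠ 0 := pow_ne_zero 2 (norm_ne_zero_iff.2 (sub_ne_zero.2 hxp))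
  have h5 : ContDiffAt ℝ ∞ (fun x : E => ((x, (‖x - p‖ ^ 2)⁻¹) : E × ℝ)) x := by
    refine contDiffAt_id.prodMk (ContDiffAt.inv ?_ h4)
    exact ((contDiff_norm_sq ℝ).contDiffAt.comp x (contDiffAt_id.sub contDiffAt_const))
  exact ContDiffAt.comp (g := Φ) x (h1 _ (h3 x hx hxp)) h5

end ext

variable {n N k : ℕ} {κ : ℝ} {S : Set (Euc N)} {G : Geo n N κ S} {p q x v : Euc N}

/-- reversed geodesics -/
theorem Exp_rev (hp : p ∈ S) (hv : v ∈ G.T p) (s : ℝ) :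
    Exp G (Exp G p (Real.pi • v)) (s • GT.ar G p v) = Exp G p ((Real.pi - s) • v) := by
  have hz : (p, v) ∈ TS G := ⟨hp, hv⟩
  have hz' := fl_mem G hz Real.pi
  have h1 := (fl_rev G (complete G hz' (-s))).2
  rw [neg_neg, ← fl_add' G hz] at h1
  have h2 : rev (fl G ((p, v), Real.pi)) = (Exp G p (Real.pi • v), GT.ar G p v) := by
    rw [Exp_smul G hp hv]; rfl
  rw [h2] at h1
  have h3 : (Exp G p (Real.pi • v), GT.ar G p v) ∈ TS G := by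
    rw [← h2]; exact rev_mem G hz'
  rw [Exp_smul G h3.1 h3.2, h1, Exp_smul G hp hv, ← sub_eq_add_neg]
  rfl

/-- **the tube is onto** `S ∖ {p}` -/
theorem exists_tube (hB : Bl n N κ S G Real.pi) (hT : I.Typ G k) (hp : p ∈ S) (hx : x ∈ S)
    (hxp : x ≠ p) : ∃ q v, q ∈ Cut S p ∧ v ∈ GT.Vs G q p ∧
      ‖v‖ = Real.pi - intrinsicDist S p x ∧ Exp G q v = x := by
  have hb : GT.Bla G k := ⟨hB, hT⟩
  obtain ⟨w, hw, h1, h2⟩ := hB.exists_Exp hp hx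
  have hw0 : w ≠ 0 := by
    rintro rfl
    rw [Exp_zero G hp] at h2
    exact hxp h2.symm
  set w1 : Euc N := (‖w‖⁻¹ : ℝ) • w with hw1
  have hw1T : w1 ∈ G.T p := (G.T p).smul_mem _ hw
  have hw1n : ‖w1‖ = 1 := GT.unit_of hw0
  have hF := hb.mem_FF hp hw1T hw1n
  have hV : w1 ∈ GT.Vs G p (Exp G p (Real.pi • w1)) := GT.mem_Vs hw1T hw1n
  obtain ⟨h3, h4, -⟩ := hb.ar_spec hF hV hw1n
  refine ⟨Exp G p (Real.pi • w1), (Real.pi - ‖w‖) • GT.ar G p w1, ⟨hF.2.1, hF.2.2⟩,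
    Submodule.smul_mem _ _ h3, ?_, ?_⟩
  · rw [norm_smul, h4, mul_one, Real.norm_of_nonneg (by
      rw [h1]; linarith [hB.dist_le p hp x hx]), h1]
  · rw [Exp_rev hp hw1T, sub_sub_cancel, hw1, GT.smul_unit hw0, h2]

/-- distance along the tube, polar form -/
theorem tube_polar (hB : Bl n N κ S G Real.pi) (hT : I.Typ G k) (hp : p ∈ S) (hq : q ∈ Cut S p)
    (hv : v ∈ GT.Vs G q p) (hv0 : v ≠ 0) :
    ∃ w ∈ G.T p, ‖w‖ = 1 ∧ q = Exp G p (Real.pi • w) ∧ v = ‖v‖ • GT.ar G p w ∧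
      Exp G q v = Exp G p ((Real.pi - ‖v‖) • w) := by
  have hb : GT.Bla G k := ⟨hB, hT⟩
  have hz : (q, p) ∈ GT.FF S := ⟨hq.1, hp, by rw [intrinsicDist_comm]; exact hq.2⟩
  have h1 : (‖v‖⁻¹ : ℝ) • v ∈ GT.Vs G q p := Submodule.smul_mem _ _ hv
  have h2 := GT.unit_of hv0
  obtain ⟨h3, h4, h5⟩ := hb.ar_spec hz h1 h2
  have hz' := GT.FF_symm' hz
  have h6 := hb.Vs_le hz' h3
  have h7 := hb.Exp_pi hz' h3 h4
  refine ⟨_, h6, h4, h7.symm, ?_, ?_⟩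
  · rw [h5, GT.smul_unit hv0]
  · have h8 := Exp_rev hp h6 ‖v‖
    rw [h7, h5, GT.smul_unit hv0] at h8
    exact h8

theorem tube_dist (hB : Bl n N κ S G Real.pi) (hT : I.Typ G k) (hp : p ∈ S) (hq : q ∈ Cut S p)
    (hv : v ∈ GT.Vs G q p) (hvπ : ‖v‖ ≤ Real.pi) :
    intrinsicDist S p (Exp G q v) = Real.pi - ‖v‖ := by
  by_cases hv0 : v = 0
  · rw [hv0, Exp_zero G hq.1, norm_zero, sub_zero]; exact hq.2
  · obtain ⟨w, hw, hw1, -, -, h5⟩ := tube_polar hB hT hp hq hv hv0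
    have h6 : ‖(Real.pi - ‖v‖) • w‖ = Real.pi - ‖v‖ := by
      rw [norm_smul, hw1, mul_one, Real.norm_of_nonneg (by linarith)]
    rw [h5, hB.dist_Exp hp ((G.T p).smul_mem _ hw) (by rw [h6]; linarith [norm_nonneg v]), h6]

/-- **the tube is injective** -/
theorem tube_inj (hB : Bl n N κ S G Real.pi) (hT : I.Typ G k) (hp : p ∈ S) {q' v' : Euc N}
    (hq : q ∈ Cut S p) (hv : v ∈ GT.Vs G q p) (hvπ : ‖v‖ < Real.pi) (hq' : q' ∈ Cut S p)
    (hv' : v' ∈ GT.Vs G q' p) (hvπ' : ‖v'‖ < Real.pi) (h : Exp G q v = Exp G q' v') :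
    q = q' ∧ v = v' := by
  have h1 := tube_dist hB hT hp hq hv hvπ.le
  have h2 := tube_dist hB hT hp hq' hv' hvπ'.le
  rw [h, h2] at h1
  have h3 : ‖v‖ = ‖v'‖ := by linarith
  by_cases hv0 : v = 0
  · have hv0' : v' = 0 := by rw [hv0, norm_zero] at h3; exact norm_eq_zero.1 h3.symm
    rw [hv0, hv0', Exp_zero G hq.1, Exp_zero G hq'.1] at h
    exact ⟨h, by rw [hv0, hv0']⟩
  · have hn : 0 < ‖v‖ := norm_pos_iff.2 hv0
    have hv0' : v' ≠ 0 := by rw [← norm_pos_iff, ← h3]; exact hn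
    obtain ⟨w, hw, hw1, e1, e2, e3⟩ := tube_polar hB hT hp hq hv hv0
    obtain ⟨w', hw', hw1', e1', e2', e3'⟩ := tube_polar hB hT hp hq' hv' hv0'
    rw [e3, e3', ← h3] at h
    have h4 : ∀ w : Euc N, ‖w‖ = 1 → ‖(Real.pi - ‖v‖) • w‖ = Real.pi - ‖v‖ := fun w hw => by
      rw [norm_smul, hw, mul_one, Real.norm_of_nonneg (by linarith)]
    have h5 := hB.Exp_inj hp ((G.T p).smul_mem _ hw) ((G.T p).smul_mem _ hw')
      (by rw [h4 w hw1]; linarith) (by rw [h4 w' hw1']; linarith) h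
    have h6 : w = w' := smul_right_injective _ (by linarith : (Real.pi - ‖v‖) ≠ 0) h5
    exact ⟨by rw [e1, e1', h6], by rw [e2, e2', h6, h3]⟩

end Crest.Agent.R208.GP
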