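import Crest.Agent.R208.GP2b

/-! Row 208, block GP (helper198), part GP2c: the globally smooth inverse of the tube. -/

set_option autoImplicit false
set_option linter.unusedSectionVars false

open MeasureTheory Measure Set Filter Topology Module Metric
open scoped ContDiff RealInnerProductSpace
open Crest.GeometryTopology.Submanifold
open Crest.Agent.R241.DDefs
open Crest.Agent.R241.D2
open Crest.Agent.R208.F Crest.Agent.R208.FI
open Crest.Agent.R208.FV (Vl phi PV)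

noncomputable section

namespace Crest.Agent.R208.GP

variable {n N k : ℕ} {κ : ℝ} {S : Set (Euc N)} {G : Geo n N κ S} {p q x v : Euc N}

/-- the total space of the open disc bundle of radius `π` of the normal bundle of `C_p` -/
def DB (G : Geo n N κ S) (p : Euc N) : Set (Euc N × Euc N) :=
  {z | z.1 ∈ Cut S p ∧ z.2 ∈ GT.Vs G z.1 p ∧ ‖z.2‖ < Real.pi}

/-- `(q,v) ↦ Exp_q v` -/
def Psi (G : Geo n N κ S) (z : Euc N × Euc N) : Euc N := Exp G z.1 z.2

theorem DB_eq (hB : Bl n N κ S G Real.pi) (hT : I.Typ G k) (hS : Sub n S) (hp : p ∈ S) :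
    DB G p = Tot (Cut S p) (PC hB hT hS p) ∩ {z | ‖z.2‖ < Real.pi} := by
  ext z
  constructor
  · rintro ⟨h1, h2, h3⟩
    exact ⟨(mem_Tot_PC hB hT hS hp).2 ⟨h1, h2⟩, h3⟩
  · rintro ⟨h1, h2⟩
    obtain ⟨h3, h4⟩ := (mem_Tot_PC hB hT hS hp).1 h1
    exact ⟨h3, h4, h2⟩

theorem sub_DB (hB : Bl n N κ S G Real.pi) (hT : I.Typ G k) (hS : Sub n S) (hp : p ∈ S) :
    Sub n (DB G p) := by
  rw [DB_eq hB hT hS hp]
  exact (sub_Tot_PC hB hT hS hp).inter_open
    (isOpen_lt (continuous_norm.comp continuous_snd) continuous_const)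

theorem DB_TS (hB : Bl n N κ S G Real.pi) (hT : I.Typ G k) (hp : p ∈ S) {z : Euc N × Euc N}
    (hz : z ∈ DB G p) : z ∈ TS G := by
  have hb : GT.Bla G k := ⟨hB, hT⟩
  have hzF : (z.1, p) ∈ GT.FF S := ⟨hz.1.1, hp, by rw [intrinsicDist_comm]; exact hz.1.2⟩
  exact ⟨hz.1.1, hb.Vs_le hzF hz.2.1⟩

theorem contDiffAt_Psi {z : Euc N × Euc N} (hz : z ∈ TS G) : ContDiffAt ℝ ∞ (Psi G) z :=
  contDiffAt_Exp G hz.1 hz.2

theorem Psi_mem {z : Euc N × Euc N} (hz : z ∈ TS G) : Psi G z ∈ S := Exp_mem G hz.1 hz.2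

/-- immersivity along the zero section -/
theorem Psi_inj (hB : Bl n N κ S G Real.pi) (hT : I.Typ G k) (hS : Sub n S) (hp : p ∈ S)
    (hq : q ∈ Cut S p) {ξ : Euc N × Euc N} (hξ : ξ ∈ Tan (DB G p) (q, 0))
    (h0 : fderiv ℝ (Psi G) (q, 0) ξ = 0) : ξ = 0 := by
  obtain ⟨a, b⟩ := ξ
  have hz0 : ((q, 0) : Euc N × Euc N) ∈ TS G := ⟨hq.1, (G.T q).zero_mem⟩
  have h1 : (a, b) ∈ Tan (Tot (Cut S p) (PC hB hT hS p)) (q, 0) := by
    refine Tan_mono_of_subset ?_ _ hξ
    rw [DB_eq hB hT hS hp]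
    exact inter_subset_left
  obtain ⟨h2, h3⟩ := (pfield_PC hB hT hS hp).deriv_mem hq h1
  rw [map_zero] at h3
  have h4 : b ∈ GT.Vs G q p := (PC_eq_self hB hT hS hp hq).1 (sub_eq_zero.1 h3).symm
  have hb : GT.Bla G k := ⟨hB, hT⟩
  have hzF : (q, p) ∈ GT.FF S := ⟨hq.1, hp, by rw [intrinsicDist_comm]; exact hq.2⟩
  have h5 : b ∈ G.T q := hb.Vs_le hzF h4
  have h6 : a ∈ GT.TC G p q := by rw [← Tan_Cut hB hT hS hp hq]; exact h2
  have h7 : a ∈ Tan S q := Tan_mono_of_subset (fun y hy => hy.1) _ h2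
  have hd : HasFDerivAt (Psi G) (fderiv ℝ (Psi G) (q, 0)) (q, 0) :=
    ((contDiffAt_Psi hz0).differentiableAt (by simp)).hasFDerivAt
  have h8 : fderiv ℝ (Psi G) (q, 0) (0, b) = b := by
    have h9 := FV.fderiv_Exp_snd (G := G) hq.1 (G.T q).zero_mem b
    rw [R241.D3c.fderiv_Exp_zero G hq.1 h5] at h9
    exact h9
  have h9 : fderiv ℝ (Psi G) (q, 0) (a, 0) = a := by
    have h10 : HasFDerivAt (fun y : Euc N => ((y, 0) : Euc N × Euc N))
        (ContinuousLinearMap.inl ℝ (Euc N) (Euc N)) q :=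
      (hasFDerivAt_id q).prodMk (hasFDerivAt_const 0 q)
    have h11 : HasFDerivAt (fun y : Euc N => Psi G (y, 0))
        ((fderiv ℝ (Psi G) (q, 0)) ∘L (ContinuousLinearMap.inl ℝ (Euc N) (Euc N))) q :=
      HasFDerivAt.comp (g := Psi G) q hd h10
    have h12 := fderiv_eq_of_id (X := S) h11.differentiableAt
      (Eventually.of_forall fun y hy => Exp_zero G hy) h7
    rw [h11.fderiv] at h12
    exact h12
  have h10 : a + b = 0 := by
    rw [← h0, show ((a, b) : Euc N × Euc N) = (a, 0) + (0, b) by simp, map_add, h9, h8]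
  have h11 : ⟪b, a⟫ = 0 := GT.inner_TC h4 h6
  have h12 : b = -a := (neg_eq_of_add_eq_zero_right h10).symm
  rw [h12, inner_neg_left, neg_eq_zero] at h11
  have h13 : a = 0 := inner_self_eq_zero.1 h11
  rw [h12, h13, neg_zero]
  rfl

/-- openness at the zero section -/
theorem Psi_open (hB : Bl n N κ S G Real.pi) (hT : I.Typ G k) (hp : p ∈ S)
    (hq : q ∈ Cut S p) (O' : Set (Euc N × Euc N)) (hO' : IsOpen O') (hqO : (q, 0) ∈ O') :
    ∀ᶠ y in 𝓝[S] q, ∃ z ∈ DB G p ∩ O', Psi G z = y := by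
  obtain ⟨ε, hε, hεO⟩ := Metric.isOpen_iff.1 hO' _ hqO
  have hqp : q ≠ p := by
    rintro rfl
    have := hq.2
    rw [intrinsicDist_self hp] at this
    exact Real.pi_ne_zero this.symm
  have h1 := (continuousOn_dist_left hB hp) q hq.1
  rw [ContinuousWithinAt, hq.2] at h1
  set δ := min (ε / 2) (Real.pi / 2) with hδ
  have hδ0 : 0 < δ := lt_min (by linarith) (by linarith [Real.pi_pos])
  have h2 : ∀ᶠ y in 𝓝[S] q, Real.pi - δ < intrinsicDist S p y :=
    h1.eventually (lt_mem_nhds (by linarith))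
  have h3 : ∀ᶠ y in 𝓝[S] q, dist y q < ε / 2 :=
    nhdsWithin_le_nhds (Metric.ball_mem_nhds q (by linarith))
  have h4 : ∀ᶠ y in 𝓝[S] q, y ≠ p := nhdsWithin_le_nhds (isOpen_ne.mem_nhds hqp)
  filter_upwards [h2, h3, h4, self_mem_nhdsWithin] with y hy2 hy3 hy4 hyS
  obtain ⟨q', v, e1, e2, e3, e4⟩ := exists_tube hB hT hp hyS hy4
  have hv : ‖v‖ < δ := by rw [e3]; linarith
  have hvπ : ‖v‖ < Real.pi := by
    have := min_le_right (ε / 2) (Real.pi / 2)
    have := Real.pi_pos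
    linarith
  have hz : (q', v) ∈ DB G p := ⟨e1, e2, hvπ⟩
  have hzT := DB_TS hB hT hp hz
  refine ⟨(q', v), ⟨hz, hεO ?_⟩, e4⟩
  have h5 : ‖y - q'‖ ≤ ‖v‖ := by
    have h6 := chord_le_intrinsicDist (hB.joined e1.1 hyS)
    have h7 := hB.dist_Exp e1.1 hzT.2 hvπ.le
    simp only at h7
    rw [e4] at h7
    rwa [h7] at h6
  have h6 := min_le_left (ε / 2) (Real.pi / 2)
  rw [Metric.mem_ball, Prod.dist_eq, max_lt_iff]
  refine ⟨?_, ?_⟩
  · simp only
    calc dist q' q ≤ dist q' y + dist y q := dist_triangle _ _ _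
      _ < ε := by
        rw [dist_comm q' y, dist_eq_norm y q']
        linarith
  · simp only
    rw [dist_zero_right]
    linarith

/-- **The tube has a globally smooth inverse on `S ∖ {p}`.** -/
theorem exists_tube_inv (hB : Bl n N κ S G Real.pi) (hT : I.Typ G k) (hS : Sub n S) (hp : p ∈ S) :
    ∃ σ : Euc N → Euc N × Euc N, (∀ x ∈ S, x ≠ p → ContDiffAt ℝ ∞ σ x) ∧
      (∀ x ∈ S, x ≠ p → σ x ∈ DB G p ∧ Psi G (σ x) = x ∧
        ‖(σ x).2‖ = Real.pi - intrinsicDist S p x) ∧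
      ∀ z ∈ DB G p, σ (Psi G z) = z := by
  classical
  have hex : ∀ x : Euc N, x ∈ S → x ≠ p → ∃ z : Euc N × Euc N, z ∈ DB G p ∧ Psi G z = x ∧
      ‖z.2‖ = Real.pi - intrinsicDist S p x := by
    intro x hx hxp
    obtain ⟨q, v, h1, h2, h3, h4⟩ := exists_tube hB hT hp hx hxp
    refine ⟨(q, v), ⟨h1, h2, ?_⟩, h4, h3⟩
    simp only
    have h5 : 0 < intrinsicDist S p x := by
      have h6 := chord_le_intrinsicDist (hB.joined hp hx)
      have h7 : 0 < ‖x - p‖ := norm_pos_iff.2 (sub_ne_zero.2 hxp)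
      linarith
    linarith
  choose! σ0 h1 h2 h3 using hex
  have huniq : ∀ z ∈ DB G p, ∀ z' ∈ DB G p, Psi G z = Psi G z' → z = z' := by
    intro z hz z' hz' h
    obtain ⟨e1, e2⟩ := tube_inj hB hT hp hz.1 hz.2.1 hz.2.2 hz'.1 hz'.2.1 hz'.2.2 h
    exact Prod.ext e1 e2
  have hPp : ∀ z ∈ DB G p, Psi G z ≠ p := by
    intro z hz h
    have h4 := tube_dist hB hT hp hz.1 hz.2.1 hz.2.2.le
    change intrinsicDist S p (Psi G z) = _ at h4
    rw [h, intrinsicDist_self hp] at h4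
    linarith [hz.2.2]
  obtain ⟨σ, h4, h5⟩ := exists_extension_punct hB.cpt.isClosed p (f := σ0) (by
    intro x hx hxp
    obtain ⟨hd1, hd2, hd3⟩ := And.intro (h1 x hx hxp) (And.intro (h2 x hx hxp) (h3 x hx hxp))
    by_cases hxC : x ∈ Cut S p
    · -- near the cut locus
      have hz0 : ((x, 0) : Euc N × Euc N) ∈ DB G p :=
        ⟨hxC, Submodule.zero_mem _, by simp only; rw [norm_zero]; exact Real.pi_pos⟩
      have hΨ0 : Psi G (x, 0) = x := Exp_zero G hx
      obtain ⟨f, W, O, ℓ, l1, l2⟩ := (sub_DB hB hT hS hp).exists_loc hz0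
      obtain ⟨σ', O', a1, a2, a3, a4, a5, a6, -⟩ := FV.exists_section l1 (g := Psi G) (Y := S)
        (fun z hz => contDiffAt_Psi (DB_TS hB hT hp hz)) hz0 l2
        (fun v hv h0 => Psi_inj hB hT hS hp hxC hv h0)
        (fun z hz => Psi_mem (DB_TS hB hT hp hz))
        (fun O' hO' hqO => by rw [hΨ0]; exact Psi_open hB hT hp hxC O' hO' hqO)
      rw [hΨ0] at a2 a4
      refine ⟨O', σ', a1, a2, fun y hy _ => a3.contDiffAt (a1.mem_nhds hy.2), fun y hy hyp => ?_⟩
      refine huniq _ (a5 y hy.2) _ (h1 y hy.1 hyp) ?_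
      rw [a6 y hy, h2 y hy.1 hyp]
    · -- off the cut locus
      have hdx : intrinsicDist S p x < Real.pi :=
        lt_of_le_of_ne (hB.dist_le p hp x hx) fun h => hxC ⟨hx, h⟩
      obtain ⟨r, hr1, hr2⟩ := exists_between hdx
      obtain ⟨L, hL1, hL2⟩ := exists_log hB hp hr2
      have hcont := (continuousOn_dist_left hB hp) x hx
      have h6 : ∀ᶠ y in 𝓝[S] x, intrinsicDist S p y < r := hcont.eventually (gt_mem_nhds hr1)
      rw [eventually_nhdsWithin_iff] at h6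
      obtain ⟨U, hU, hUo, hxU⟩ := _root_.eventually_nhds_iff.1 h6
      refine ⟨U, fun y => (Exp G p (Real.pi • ((‖L y‖⁻¹ : ℝ) • L y)),
        -((Real.pi - ‖L y‖) * Real.pi⁻¹) • Vel G p (Real.pi • ((‖L y‖⁻¹ : ℝ) • L y))), hUo, hxU,
        ?_, ?_⟩
      · rintro y ⟨hyS, hyU⟩ hyp
        have hyr : intrinsicDist S p y ≤ r := (hU y hyU hyS).le
        obtain ⟨c1, c2, c3⟩ := hL2 y hyS hyr
        have hL0 : L y ≠ 0 := by
          intro h
          rw [h, Exp_zero G hp] at c3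
          exact hyp c3.symm
        have hLc := hL1 y hyS hyr
        have hn : ContDiffAt ℝ ∞ (fun y => ‖L y‖) y := hLc.norm ℝ hL0
        have hw : ContDiffAt ℝ ∞ (fun y => Real.pi • ((‖L y‖⁻¹ : ℝ) • L y)) y :=
          ContDiffAt.smul (f := fun _ => Real.pi) contDiffAt_const
            (ContDiffAt.smul (f := fun y => ‖L y‖⁻¹) (hn.inv (norm_ne_zero_iff.2 hL0)) hLc)
        have hwT : Real.pi • ((‖L y‖⁻¹ : ℝ) • L y) ∈ G.T p :=
          (G.T p).smul_mem _ ((G.T p).smul_mem _ c1)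
        refine ContDiffAt.prodMk (contDiffAt_Exp_comp hp hw hwT) ?_
        refine ContDiffAt.smul ((contDiffAt_const.sub hn).mul contDiffAt_const).neg ?_
        exact ContDiffAt.comp (g := Vel G p) y (R241.D3c.contDiffAt_Vel' G hp hwT) hw
      · rintro y ⟨hyS, hyU⟩ hyp
        have hyr : intrinsicDist S p y < r := hU y hyU hyS
        obtain ⟨c1, c2, c3⟩ := hL2 y hyS hyr.le
        have hL0 : L y ≠ 0 := by
          intro h
          rw [h, Exp_zero G hp] at c3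
          exact hyp c3.symm
        have hb : GT.Bla G k := ⟨hB, hT⟩
        set w1 : Euc N := (‖L y‖⁻¹ : ℝ) • L y with hw1
        have hw1T : w1 ∈ G.T p := (G.T p).smul_mem _ c1
        have hw1n : ‖w1‖ = 1 := GT.unit_of hL0
        have hF := hb.mem_FF hp hw1T hw1n
        have hV : w1 ∈ GT.Vs G p (Exp G p (Real.pi • w1)) := GT.mem_Vs hw1T hw1n
        obtain ⟨g3, g4, -⟩ := hb.ar_spec hF hV hw1n
        have hv : -((Real.pi - ‖L y‖) * Real.pi⁻¹) • Vel G p (Real.pi • w1) =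
            (Real.pi - ‖L y‖) • GT.ar G p w1 := by
          have e1 := GT.smul_ar (G := G) hp hw1T
          rw [neg_smul, ← smul_neg, ← e1, smul_smul, mul_assoc,
            inv_mul_cancel₀ Real.pi_ne_zero, mul_one]
        refine huniq _ ?_ _ (h1 y hyS hyp) ?_
        · refine ⟨⟨hF.2.1, hF.2.2⟩, ?_, ?_⟩
          · simp only
            rw [hv]
            exact Submodule.smul_mem _ _ g3
          · simp only
            rw [hv, norm_smul, g4, mul_one, Real.norm_of_nonneg (by rw [c2]; linarith)]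
            have : 0 < ‖L y‖ := norm_pos_iff.2 hL0
            linarith
        · rw [h2 y hyS hyp]
          change Exp G (Exp G p (Real.pi • w1))
            (-((Real.pi - ‖L y‖) * Real.pi⁻¹) • Vel G p (Real.pi • w1)) = y
          rw [hv, Exp_rev hp hw1T, sub_sub_cancel, hw1, GT.smul_unit hL0, c3])
  refine ⟨σ, h4, fun x hx hxp => ?_, fun z hz => ?_⟩
  · rw [h5 x hx hxp]
    exact ⟨h1 x hx hxp, h2 x hx hxp, h3 x hx hxp⟩
  · have h6 := Psi_mem (DB_TS hB hT hp hz)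
    have h7 := hPp z hz
    rw [h5 _ h6 h7]
    exact huniq _ (h1 _ h6 h7) _ hz (h2 _ h6 h7)

end Crest.Agent.R208.GP
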