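import Crest.Agent.R208.GP0

/-! Row 208, block GP (helper198), part GP3a: moving frames over star shaped sets; lifting of fields
of lines over (star shaped) × sphere. -/

set_option autoImplicit false
set_option linter.unusedSectionVars false

open Set Filter Topology Module Metric
open scoped ContDiff RealInnerProductSpace

noncomputable section

namespace Crest.Agent.R208.GP

/-- **moving frame** along a field of projections over a compact star shaped set. -/
theorem star_frame {V E F : Type*} [NormedAddCommGroup V] [NormedSpace ℝ V]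
    [NormedAddCommGroup E] [NormedSpace ℝ E] [NormedAddCommGroup F] [NormedSpace ℝ F] {A : Set V}
    (hA : IsCompact A) (h0 : (0 : V) ∈ A) (hst : ∀ x ∈ A, ∀ t ∈ Icc (0 : ℝ) 1, t • x ∈ A)
    {P : V → (E →L[ℝ] E)} (hP : ContinuousOn P A) (hid : ∀ x ∈ A, ∀ v, P x (P x v) = P x v)
    {B₀ : F →L[ℝ] E} (hB₀ : Function.Injective B₀) (hPB : ∀ v, P 0 (B₀ v) = B₀ v) :
    ∃ B : V → (F →L[ℝ] E), ContinuousOn B A ∧
      ∀ x ∈ A, Function.Injective (B x) ∧ ∀ v, P x (B x v) = B x v := by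
  classical
  have hc : ContinuousOn (fun q : V × ℝ => P (q.2 • q.1)) (A ×ˢ Icc (0 : ℝ) 1) := by
    refine hP.comp (by fun_prop) ?_
    rintro ⟨x, t⟩ ⟨hx, ht⟩
    exact hst x hx t ht
  have huc := (hA.prod isCompact_Icc).uniformContinuousOn_of_continuous hc
  rw [Metric.uniformContinuousOn_iff] at huc
  obtain ⟨δ, hδ, hδ'⟩ := huc (1 / 2) (by norm_num)
  obtain ⟨m, hm⟩ := exists_nat_gt (1 / δ)
  have hm0 : (0 : ℝ) < m := lt_trans (by positivity) hm
  have hmδ : 1 / (m : ℝ) < δ := by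
    rw [div_lt_iff₀ hm0]
    rw [div_lt_iff₀ hδ] at hm
    linarith
  set s : ℕ → ℝ := fun i => i / m with hs
  have hs01 : ∀ i ≤ m, s i ∈ Icc (0 : ℝ) 1 := fun i hi => ⟨by positivity, by
    rw [hs]; simp only
    rw [div_le_one hm0]; exact_mod_cast hi⟩
  have hstep : ∀ x ∈ A, ∀ i, i + 1 ≤ m → ‖P (s (i + 1) • x) - P (s i • x)‖ < 1 / 2 := by
    intro x hx i hi
    have h1 := hδ' (x, s (i + 1)) ⟨hx, hs01 _ hi⟩ (x, s i) ⟨hx, hs01 _ (by omega)⟩ (by
      rw [Prod.dist_eq, dist_self, max_eq_right dist_nonneg, Real.dist_eq]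
      have h2 : s (i + 1) - s i = 1 / m := by rw [hs]; simp only; push_cast; ring
      rw [h2, abs_of_pos (by positivity)]
      exact hmδ)
    rw [dist_eq_norm] at h1
    exact h1
  let w : ℕ → V → (F →L[ℝ] E) := fun i =>
    Nat.rec (fun _ => B₀) (fun j wj x => (P (s (j + 1) • x)).comp (wj x)) i
  have hw0 : ∀ x, w 0 x = B₀ := fun _ => rfl
  have hws : ∀ i x, w (i + 1) x = (P (s (i + 1) • x)).comp (w i x) := fun _ _ => rfl
  have hwc : ∀ i ≤ m, ContinuousOn (w i) A := by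
    intro i
    induction i with
    | zero => intro _; exact continuousOn_const
    | succ i ih =>
      intro hi
      have h1 := ih (by omega)
      have h2 : ContinuousOn (fun x => P (s (i + 1) • x)) A := by
        refine hP.comp (by fun_prop) fun x hx => hst x hx _ (hs01 _ hi)
      exact h2.clm_comp h1
  have hwm : ∀ i ≤ m, ∀ x ∈ A, (∀ v, P (s i • x) (w i x v) = w i x v) ∧
      ∀ v, v ≠ 0 → w i x v ≠ 0 := by
    intro i
    induction i with
    | zero =>
      intro _ x _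
      have h1 : s 0 = 0 := by rw [hs]; simp
      rw [h1, zero_smul, hw0]
      exact ⟨hPB, fun v hv h => hv (hB₀ (by rw [h, map_zero]))⟩
    | succ i ih =>
      intro hi x hx
      obtain ⟨h1, h2⟩ := ih (by omega) x hx
      have hmem : s (i + 1) • x ∈ A := hst x hx _ (hs01 _ hi)
      rw [hws]
      refine ⟨fun v => hid _ hmem _, fun v hv h => ?_⟩
      have h' : P (s (i + 1) • x) (w i x v) = 0 := h
      have h3 := (P (s (i + 1) • x) - P (s i • x)).le_opNorm (w i x v)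
      rw [sub_apply, h', h1, zero_sub, norm_neg] at h3
      have h4 : 0 < ‖w i x v‖ := norm_pos_iff.2 (h2 v hv)
      nlinarith [hstep x hx i hi]
  have hsm : s m = 1 := by rw [hs]; simp only; exact div_self hm0.ne'
  refine ⟨w m, hwc m le_rfl, fun x hx => ?_⟩
  obtain ⟨h1, h2⟩ := hwm m le_rfl x hx
  rw [hsm, one_smul] at h1
  refine ⟨?_, h1⟩
  intro a b hab
  by_contra hne
  exact h2 (a - b) (sub_ne_zero.2 hne) (by rw [map_sub, hab, sub_self])

section sphere
variable {F : Type*} [NormedAddCommGroup F] [InnerProductSpace ℝ F] [FiniteDimensional ℝ F]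

theorem fin1 (e : F) : finrank ℝ (ℝ ∙ e) ≤ 1 := by
  have h := finrank_span_le_card (R := ℝ) ({e} : Set F)
  simpa using h

/-- wrapping of the ball in `e^⊥` around the sphere -/
def wrap (e : F) (z : F) : F := Real.cos ‖z‖ • e + Real.sinc ‖z‖ • z

theorem continuous_wrap (e : F) : Continuous (wrap e) := by
  unfold wrap
  have := Real.continuous_sinc
  fun_prop

/-- the ball in `e^⊥` -/
def Db (e : F) : Set F := {z | (⟪e, z⟫ : ℝ) = 0 ∧ ‖z‖ ≤ Real.pi}

theorem isCompact_Db (e : F) : IsCompact (Db e) := by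
  have h1 : Db e = closedBall 0 Real.pi ∩ {z | (⟪e, z⟫ : ℝ) = 0} := by
    ext z; simp [Db, and_comm]
  rw [h1]
  exact (isCompact_closedBall _ _).inter_right (isClosed_eq (by fun_prop) continuous_const)

theorem sinc_mul (t : ℝ) : Real.sinc t * t = Real.sin t := by
  by_cases ht : t = 0
  · simp [ht]
  · rw [Real.sinc_of_ne_zero ht]; field_simp

theorem norm_wrap {e : F} (he : ‖e‖ = 1) {z : F} (hz : (⟪e, z⟫ : ℝ) = 0) : ‖wrap e z‖ = 1 := by
  have h1 : ‖wrap e z‖ ^ 2 = 1 := by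
    rw [wrap, norm_add_sq_real, real_inner_smul_left, real_inner_smul_right, hz, norm_smul,
      norm_smul, he, Real.norm_eq_abs, Real.norm_eq_abs, mul_pow, mul_pow, sq_abs, sq_abs]
    have h2 : Real.sinc ‖z‖ ^ 2 * ‖z‖ ^ 2 = Real.sin ‖z‖ ^ 2 := by rw [← mul_pow, sinc_mul]
    rw [h2]
    nlinarith [Real.sin_sq_add_cos_sq ‖z‖]
  have h3 : 0 ≤ ‖wrap e z‖ := norm_nonneg _
  nlinarith

theorem inner_wrap {e : F} (he : ‖e‖ = 1) {z : F} (hz : (⟪e, z⟫ : ℝ) = 0) :
    (⟪e, wrap e z⟫ : ℝ) = Real.cos ‖z‖ := by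
  rw [wrap, inner_add_right, real_inner_smul_right, real_inner_smul_right, hz,
    real_inner_self_eq_norm_sq, he]
  simp

theorem exists_wrap {e : F} (he : ‖e‖ = 1) (hF : 2 ≤ finrank ℝ F) {u : F} (hu : ‖u‖ = 1) :
    ∃ z ∈ Db e, wrap e z = u := by
  set c : ℝ := ⟪e, u⟫ with hc
  set t := Real.arccos c with ht
  have hc1 : |c| ≤ 1 := by
    have := abs_real_inner_le_norm e u
    rw [he, hu, mul_one] at this; exact this
  obtain ⟨hcl, hcu⟩ := abs_le.1 hc1
  have hcos : Real.cos t = c := Real.cos_arccos hcl hcu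
  have ht0 : 0 ≤ t := Real.arccos_nonneg c
  have htπ : t ≤ Real.pi := Real.arccos_le_pi c
  set w := u - c • e with hw
  have hew : (⟪e, w⟫ : ℝ) = 0 := by
    rw [hw, inner_sub_right, real_inner_smul_right, real_inner_self_eq_norm_sq, he]; simp [hc]
  have hwn : ‖w‖ = Real.sin t := by
    have h1 : ‖w‖ ^ 2 = 1 - c ^ 2 := by
      rw [hw, norm_sub_sq_real, real_inner_smul_right, norm_smul, he, hu, real_inner_comm, ← hc,
        Real.norm_eq_abs, mul_one, sq_abs]
      ring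
    have h2 : Real.sin t ^ 2 = 1 - c ^ 2 := by rw [← hcos]; nlinarith [Real.sin_sq_add_cos_sq t]
    have h3 : 0 ≤ Real.sin t := Real.sin_nonneg_of_nonneg_of_le_pi ht0 htπ
    nlinarith [norm_nonneg w, sq_nonneg (‖w‖ - Real.sin t)]
  by_cases hw0 : w = 0
  · -- `u = ± e`
    have hs0 : Real.sin t = 0 := by rw [← hwn, hw0, norm_zero]
    have hu' : u = c • e := sub_eq_zero.1 hw0
    by_cases ht1 : t = 0
    · refine ⟨0, ⟨by simp, by simp [Real.pi_pos.le]⟩, ?_⟩
      rw [wrap, norm_zero, Real.cos_zero, one_smul, smul_zero, add_zero, hu']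
      rw [← hcos, ht1, Real.cos_zero, one_smul]
    · have ht2 : t = Real.pi := by
        by_contra h
        have := Real.sin_pos_of_pos_of_lt_pi (lt_of_le_of_ne ht0 (Ne.symm ht1))
          (lt_of_le_of_ne htπ h)
        exact this.ne' hs0
      -- pick a unit vector orthogonal to `e`
      obtain ⟨z, hz, hz1⟩ : ∃ z : F, (⟪e, z⟫ : ℝ) = 0 ∧ ‖z‖ = 1 := by
        have h1 : 0 < finrank ℝ (ℝ ∙ e)ᗮ := by
          have h2 := Submodule.finrank_add_finrank_orthogonal (ℝ ∙ e)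
          have h3 : finrank ℝ (ℝ ∙ e) ≤ 1 := fin1 e
          omega
        have : Nontrivial (ℝ ∙ e)ᗮ := finrank_pos_iff.1 h1
        obtain ⟨z, hz⟩ := exists_ne (0 : (ℝ ∙ e)ᗮ)
        have hzn : ‖(z : F)‖ ≠ 0 := by
          rw [norm_ne_zero_iff]; exact fun h => hz (Subtype.ext h)
        refine ⟨(‖(z : F)‖)⁻¹ • (z : F), ?_, ?_⟩
        · rw [real_inner_smul_right, Submodule.mem_orthogonal_singleton_iff_inner_right.1 z.2,
            mul_zero]
        · rw [norm_smul, norm_inv, norm_norm, inv_mul_cancel₀ hzn]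
      refine ⟨Real.pi • z, ⟨by rw [real_inner_smul_right, hz, mul_zero], ?_⟩, ?_⟩
      · rw [norm_smul, hz1, mul_one, Real.norm_eq_abs, abs_of_pos Real.pi_pos]
      · have hn : ‖Real.pi • z‖ = Real.pi := by
          rw [norm_smul, hz1, mul_one, Real.norm_eq_abs, abs_of_pos Real.pi_pos]
        rw [wrap, hn, Real.sinc_of_ne_zero Real.pi_pos.ne', Real.sin_pi, zero_div, zero_smul,
          add_zero, hu', ← hcos, ht2]
  · have hwp : 0 < ‖w‖ := norm_pos_iff.2 hw0
    refine ⟨(t / ‖w‖) • w, ⟨by rw [real_inner_smul_right, hew, mul_zero], ?_⟩, ?_⟩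
    · rw [norm_smul, Real.norm_eq_abs, abs_of_nonneg (by positivity), div_mul_cancel₀ _ hwp.ne']
      exact htπ
    · have hn : ‖(t / ‖w‖) • w‖ = t := by
        rw [norm_smul, Real.norm_eq_abs, abs_of_nonneg (by positivity),
          div_mul_cancel₀ _ hwp.ne']
      rw [wrap, hn, smul_smul]
      have h1 : Real.sinc t * (t / ‖w‖) = 1 := by
        rw [← mul_div_assoc, sinc_mul, hwn, div_self]
        rw [← hwn]; exact hwp.ne'
      rw [h1, one_smul, hcos, hw]
      abel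

theorem wrap_fibre {e : F} (he : ‖e‖ = 1) (hF : 3 ≤ finrank ℝ F) {u : F} (hu : ‖u‖ = 1) :
    IsPreconnected (Db e ∩ wrap e ⁻¹' {u}) := by
  by_cases hue : u = -e
  · -- sphere of radius `π` in `e^⊥`
    have h1 : IsPreconnected (sphere (0 : (ℝ ∙ e)ᗮ) Real.pi) := by
      apply isPreconnected_sphere
      rw [← Module.finrank_eq_rank]
      have h2 := Submodule.finrank_add_finrank_orthogonal (ℝ ∙ e)
      have h3 : finrank ℝ (ℝ ∙ e) ≤ 1 := fin1 e
      have h4 : 1 < finrank ℝ (ℝ ∙ e)ᗮ := by omega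
      exact_mod_cast h4
    have h2 := h1.image (fun v : (ℝ ∙ e)ᗮ => (v : F)) continuous_subtype_val.continuousOn
    have h3 : (fun v : (ℝ ∙ e)ᗮ => (v : F)) '' sphere (0 : (ℝ ∙ e)ᗮ) Real.pi =
        Db e ∩ wrap e ⁻¹' {u} := by
      ext z
      constructor
      · rintro ⟨w, hw, rfl⟩
        rw [mem_sphere_zero_iff_norm] at hw
        have hw' : ‖(w : F)‖ = Real.pi := hw
        refine ⟨⟨Submodule.mem_orthogonal_singleton_iff_inner_right.1 w.2, hw'.le⟩, ?_⟩
        show wrap e (w : F) = u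
        rw [wrap, hw', Real.sinc_of_ne_zero Real.pi_pos.ne', Real.sin_pi, zero_div, zero_smul,
          add_zero, Real.cos_pi, neg_one_smul, hue]
      · rintro ⟨⟨hz1, hz2⟩, hz3⟩
        have hz4 : wrap e z = u := hz3
        have h5 : Real.cos ‖z‖ = -1 := by
          rw [← inner_wrap he hz1, hz4, hue, inner_neg_right, real_inner_self_eq_norm_sq, he]
          norm_num
        have h6 : ‖z‖ = Real.pi := by
          by_contra hne
          have hlt : ‖z‖ < Real.pi := lt_of_le_of_ne hz2 hne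
          have := Real.cos_lt_cos_of_nonneg_of_le_pi (norm_nonneg z) le_rfl hlt
          rw [Real.cos_pi, h5] at this
          exact lt_irrefl _ this
        refine ⟨⟨z, Submodule.mem_orthogonal_singleton_iff_inner_right.2 hz1⟩, ?_, rfl⟩
        rw [mem_sphere_zero_iff_norm]
        exact h6
    rwa [h3] at h2
  · apply Set.Subsingleton.isPreconnected
    rintro z ⟨⟨hz1, hz2⟩, hz3⟩ z' ⟨⟨hz1', hz2'⟩, hz3'⟩
    have h3 : wrap e z = u := hz3
    have h3' : wrap e z' = u := hz3'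
    have hcos : Real.cos ‖z‖ = Real.cos ‖z'‖ := by
      rw [← inner_wrap he hz1, ← inner_wrap he hz1', h3, h3']
    have hn : ‖z‖ = ‖z'‖ := Real.injOn_cos ⟨norm_nonneg _, hz2⟩ ⟨norm_nonneg _, hz2'⟩ hcos
    have h4 : Real.sinc ‖z‖ • z = Real.sinc ‖z‖ • z' := by
      have h5 : wrap e z = wrap e z' := by rw [h3, h3']
      rw [wrap, wrap, hn] at h5
      have h6 := add_left_cancel h5
      rw [hn]; exact h6
    by_cases hz0 : ‖z‖ = 0
    · have : ‖z'‖ = 0 := by rw [← hn, hz0]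
      rw [norm_eq_zero] at hz0 this
      rw [hz0, this]
    · have hzπ : ‖z‖ ≠ Real.pi := by
        intro h
        apply hue
        rw [← h3, wrap, h, Real.sinc_of_ne_zero Real.pi_pos.ne', Real.sin_pi, zero_div, zero_smul,
          add_zero, Real.cos_pi, neg_one_smul]
      have h5 : Real.sinc ‖z‖ ≠ 0 := by
        rw [Real.sinc_of_ne_zero hz0]
        have := Real.sin_pos_of_pos_of_lt_pi (lt_of_le_of_ne (norm_nonneg z) (Ne.symm hz0))
          (lt_of_le_of_ne hz2 hzπ)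
        exact div_ne_zero this.ne' hz0
      exact smul_right_injective F h5 h4

variable {W : Type*} [NormedAddCommGroup W] [InnerProductSpace ℝ W]

/-- **lifting over (star shaped) × sphere**, `dim ≥ 3`. -/
theorem lift_prod_sphere {V : Type*} [NormedAddCommGroup V] [NormedSpace ℝ V] {A : Set V}
    (hA : IsCompact A) (h0 : (0 : V) ∈ A) (hst : ∀ x ∈ A, ∀ t ∈ Icc (0 : ℝ) 1, t • x ∈ A)
    (hF : 3 ≤ finrank ℝ F) {P : V × F → (W →L[ℝ] W)}
    (hP : ContinuousOn P (A ×ˢ sphere (0 : F) 1)) (hR : ∀ x ∈ A ×ˢ sphere (0 : F) 1, R1 (P x)) :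
    ∃ w : V × F → W, ContinuousOn w (A ×ˢ sphere (0 : F) 1) ∧
      ∀ x ∈ A ×ˢ sphere (0 : F) 1, ‖w x‖ = 1 ∧ P x (w x) = w x := by
  have : Nontrivial F := by
    apply Module.nontrivial_of_finrank_pos (R := ℝ); omega
  obtain ⟨e', he'⟩ := exists_ne (0 : F)
  set e : F := (‖e'‖)⁻¹ • e' with hedef
  have he : ‖e‖ = 1 := by
    rw [hedef, norm_smul, norm_inv, norm_norm, inv_mul_cancel₀ (norm_ne_zero_iff.2 he')]
  set f : V × F → V × F := fun x => (x.1, wrap e x.2) with hf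
  have hfc : Continuous f := continuous_fst.prodMk ((continuous_wrap e).comp continuous_snd)
  have hcomp : IsCompact (A ×ˢ Db e) := hA.prod (isCompact_Db e)
  have hmaps : ∀ x ∈ A ×ˢ Db e, f x ∈ A ×ˢ sphere (0 : F) 1 := by
    rintro ⟨x, z⟩ ⟨hx, hz⟩
    exact ⟨hx, by rw [mem_sphere_zero_iff_norm]; exact norm_wrap he hz.1⟩
  have himg : f '' (A ×ˢ Db e) = A ×ˢ sphere (0 : F) 1 := by
    refine Subset.antisymm (image_subset_iff.2 hmaps) ?_
    rintro ⟨x, u⟩ ⟨hx, hu⟩
    have hu' : ‖u‖ = 1 := by rwa [mem_sphere_zero_iff_norm] at hu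
    obtain ⟨z, hz, hzu⟩ := exists_wrap he (by omega) hu'
    exact ⟨(x, z), ⟨hx, hz⟩, by rw [hf]; simp only; rw [hzu]⟩
  obtain ⟨w, hw, hw1⟩ := star_lift (A := A ×ˢ Db e) (P := fun x => P (f x)) hcomp
    ⟨h0, by simp [Db, Real.pi_pos.le]⟩ (by
      rintro ⟨x, z⟩ ⟨hx, hz1, hz2⟩ t ht
      refine ⟨hst x hx t ht, ?_, ?_⟩
      · show (⟪e, t • z⟫ : ℝ) = 0
        have hz1' : (⟪e, z⟫ : ℝ) = 0 := hz1
        rw [real_inner_smul_right, hz1', mul_zero]
      · show ‖t • z‖ ≤ Real.pi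
        have hz2' : ‖z‖ ≤ Real.pi := hz2
        rw [norm_smul, Real.norm_eq_abs, abs_of_nonneg ht.1]
        calc t * ‖z‖ ≤ 1 * ‖z‖ := mul_le_mul_of_nonneg_right ht.2 (norm_nonneg _)
          _ ≤ Real.pi := by rw [one_mul]; exact hz2')
    (hP.comp hfc.continuousOn hmaps) (fun x hx => hR _ (hmaps x hx))
  obtain ⟨w', h1, h2, -⟩ := descend hcomp hfc.continuousOn himg (by
    rintro ⟨x, u⟩ ⟨hx, hu⟩
    have hu' : ‖u‖ = 1 := by rwa [mem_sphere_zero_iff_norm] at hu
    have h3 := (wrap_fibre he hF hu').image (fun z => (x, z)) (by fun_prop)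
    have h4 : (fun z => (x, z)) '' (Db e ∩ wrap e ⁻¹' {u}) = A ×ˢ Db e ∩ f ⁻¹' {(x, u)} := by
      ext ⟨y, z⟩
      constructor
      · rintro ⟨z', ⟨hz1, hz2⟩, h⟩
        obtain ⟨rfl, rfl⟩ := Prod.mk.inj h
        exact ⟨⟨hx, hz1⟩, by
          show (x, wrap e z') = (x, u)
          rw [show wrap e z' = u from hz2]⟩
      · rintro ⟨⟨-, hz⟩, h⟩
        have h' : (y, wrap e z) = (x, u) := h
        obtain ⟨h5, h6⟩ := Prod.mk.inj h'
        exact ⟨z, ⟨hz, h6⟩, by rw [h5]⟩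
    rwa [h4] at h3) hR hw hw1
  exact ⟨w', h1, h2⟩

end sphere

end Crest.Agent.R208.GP
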