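import Crest.Agent.R208.GP3
import Crest.Agent.R208.GP3a
import Crest.Agent.R208.GT2

/-! Row 208, block GP (helper198), part GP3b: fields of lines over the unit tangent bundle and over
`F = {d = π}` have smooth unit sections (`k ≥ 2`, `n ≥ 3`); the link bundle `V` is orientable. -/

set_option autoImplicit false
set_option linter.unusedSectionVars false

open MeasureTheory Measure Set Filter Topology Module Metric
open scoped ContDiff RealInnerProductSpace
open Crest.GeometryTopology.Submanifold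
open Crest.Agent.R241.DDefs
open Crest.Agent.R241.D2
open Crest.Agent.R208.F Crest.Agent.R208.FI

noncomputable section

namespace Crest.Agent.R208.GP

section inv
variable {V F E : Type*} [NormedAddCommGroup V] [NormedSpace ℝ V]
  [NormedAddCommGroup F] [InnerProductSpace ℝ F] [FiniteDimensional ℝ F]
  [NormedAddCommGroup E] [InnerProductSpace ℝ E] [FiniteDimensional ℝ E]

theorem isUnit_of_injective {B : F →L[ℝ] F} (hB : Function.Injective B) : IsUnit B := by
  have h1 : LinearMap.ker (B : F →ₗ[ℝ] F) = ⊥ := LinearMap.ker_eq_bot.2 hB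
  let e : F ≃ₗ[ℝ] F := LinearEquiv.ofInjectiveEndo (B : F →ₗ[ℝ] F) hB
  let e' : F ≃L[ℝ] F := e.toContinuousLinearEquiv
  have h2 : B = (ContinuousLinearEquiv.toUnit e' : F →L[ℝ] F) := by
    ext x; rfl
  rw [h2]
  exact Units.isUnit _

/-- left inverse of an injective operator -/
def linv (B : F →L[ℝ] E) : E →L[ℝ] F := (Ring.inverse (B.adjoint.comp B)).comp B.adjoint

theorem isUnit_gram {B : F →L[ℝ] E} (hB : Function.Injective B) :
    IsUnit (B.adjoint.comp B) := by
  apply isUnit_of_injective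
  intro x y hxy
  have h1 : (B.adjoint.comp B) (x - y) = 0 := by rw [map_sub, hxy, sub_self]
  have h2 : (⟪B (x - y), B (x - y)⟫ : ℝ) = 0 := by
    rw [← ContinuousLinearMap.adjoint_inner_left]
    have h3 : B.adjoint (B (x - y)) = 0 := h1
    rw [h3, inner_zero_left]
  have h3 : B (x - y) = 0 := inner_self_eq_zero.1 h2
  exact sub_eq_zero.1 (hB (by rw [h3, map_zero]))

theorem linv_apply {B : F →L[ℝ] E} (hB : Function.Injective B) (x : F) : linv B (B x) = x := by
  have h1 : Ring.inverse (B.adjoint.comp B) * (B.adjoint.comp B) = 1 :=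
    Ring.inverse_mul_cancel _ (isUnit_gram hB)
  have h2 := congrArg (fun T : F →L[ℝ] F => T x) h1
  exact h2

theorem continuousOn_linv {A : Set V} {B : V → (F →L[ℝ] E)} (hB : ContinuousOn B A)
    (hi : ∀ x ∈ A, Function.Injective (B x)) : ContinuousOn (fun x => linv (B x)) A := by
  have h1 : ContinuousOn (fun x => (B x).adjoint) A :=
    (ContinuousLinearMap.adjoint (𝕜 := ℝ) (E := F) (F := E)).continuous.comp_continuousOn hB
  have h2 : ContinuousOn (fun x => (B x).adjoint.comp (B x)) A := h1.clm_comp hB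
  have h3 : ContinuousOn (fun x => Ring.inverse ((B x).adjoint.comp (B x))) A := by
    intro x hx
    have h4 := NormedRing.inverse_continuousAt (isUnit_gram (hi x hx)).unit
    rw [IsUnit.unit_spec] at h4
    exact ContinuousAt.comp_continuousWithinAt (f := fun x => (B x).adjoint.comp (B x))
      (g := Ring.inverse) h4 (h2 x hx)
  exact h3.clm_comp h1

end inv

variable {n N k : ℕ} {κ : ℝ} {S : Set (Euc N)} {G : Geo n N κ S}
variable {W : Type*} [NormedAddCommGroup W] [InnerProductSpace ℝ W]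

/-- **lifting over the unit tangent bundle** -/
theorem lift_US (hB : Bl n N κ S G Real.pi) (hT : I.Typ G k) (hk : 2 ≤ k) (hn : 3 ≤ n)
    {P : Euc N × Euc N → (W →L[ℝ] W)} (hP : ContinuousOn P (L.US G))
    (hR : ∀ x ∈ L.US G, R1 (P x)) :
    ∃ w : Euc N × Euc N → W, ContinuousOn w (L.US G) ∧
      ∀ x ∈ L.US G, ‖w x‖ = 1 ∧ P x (w x) = w x := by
  classical
  obtain ⟨p, hp⟩ := hB.conn.nonempty
  obtain ⟨b, hb⟩ := exists_frame G hp
  set f : Euc n → Euc N := fun v => Exp G p (b v) with hf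
  have hfS : ∀ v, f v ∈ S := fun v => Exp_mem G hp (frame_mem hb v)
  have hfc : Continuous f := (contDiff_Exp_frame G hp hb).continuous
  set A := closedBall (0 : Euc n) Real.pi with hA
  have hAc : IsCompact A := isCompact_closedBall _ _
  have hA0 : (0 : Euc n) ∈ A := mem_closedBall_self Real.pi_pos.le
  have hst : ∀ x ∈ A, ∀ t ∈ Icc (0 : ℝ) 1, t • x ∈ A := by
    intro x hx t ht
    rw [hA, mem_closedBall_zero_iff] at hx ⊢
    rw [norm_smul, Real.norm_eq_abs, abs_of_nonneg ht.1]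
    calc t * ‖x‖ ≤ 1 * ‖x‖ := mul_le_mul_of_nonneg_right ht.2 (norm_nonneg _)
      _ ≤ Real.pi := by rw [one_mul]; exact hx
  have hf0 : f 0 = p := by
    show Exp G p (b 0) = p
    rw [map_zero, Exp_zero G hp]
  obtain ⟨B, hBc, hBi⟩ := star_frame (A := A) (P := fun v => G.P (f v)) (F := Euc n)
    (B₀ := b.toContinuousLinearMap) hAc hA0 hst
    ((G.contDiff_P.continuous.comp hfc).continuousOn) (fun v _ x => P_idem G (hfS v) x)
    b.injective (fun v => by
      rw [hf0]
      exact (P_eq_self G hp).1 (frame_mem hb v))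
  have hBT : ∀ v ∈ A, ∀ x, B v x ∈ G.T (f v) := fun v hv x =>
    (P_eq_self G (hfS v)).2 ((hBi v hv).2 x)
  have hBrange : ∀ v ∈ A, ∀ u ∈ G.T (f v), ∃ x, B v x = u := by
    intro v hv u hu
    have h1 : LinearMap.range (B v : Euc n →ₗ[ℝ] Euc N) = G.T (f v) := by
      apply Submodule.eq_of_le_of_finrank_eq
      · rintro _ ⟨x, rfl⟩; exact hBT v hv x
      · rw [LinearMap.finrank_range_of_inj (hBi v hv).1, G.finrank_T _ (hfS v)]
        simp
    rw [← h1] at hu
    exact hu
  have hBne : ∀ v ∈ A, ∀ x, x ≠ 0 → B v x ≠ 0 := fun v hv x hx h =>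
    hx ((hBi v hv).1 (by rw [h, map_zero]))
  -- the parametrisation of the unit tangent bundle
  set g : Euc n × Euc n → Euc N × Euc N := fun z => (f z.1, (‖B z.1 z.2‖)⁻¹ • B z.1 z.2) with hg
  have hBc2 : ContinuousOn (fun z : Euc n × Euc n => B z.1 z.2) (A ×ˢ sphere (0 : Euc n) 1) :=
    (hBc.comp continuousOn_fst fun z hz => hz.1).clm_apply continuousOn_snd
  have hsne : ∀ x ∈ sphere (0 : Euc n) 1, x ≠ 0 := by
    intro x hx h
    rw [mem_sphere_zero_iff_norm, h, norm_zero] at hx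
    norm_num at hx
  have hgc : ContinuousOn g (A ×ˢ sphere (0 : Euc n) 1) := by
    have h1 : ContinuousOn (fun z : Euc n × Euc n => (‖B z.1 z.2‖)⁻¹) (A ×ˢ sphere (0 : Euc n) 1) :=
      hBc2.norm.inv₀ fun z hz => norm_ne_zero_iff.2 (hBne _ hz.1 _ (hsne _ hz.2))
    exact (hfc.comp_continuousOn continuousOn_fst).prodMk (h1.smul hBc2)
  have hgm : ∀ z ∈ A ×ˢ sphere (0 : Euc n) 1, g z ∈ L.US G := by
    rintro ⟨v, x⟩ ⟨hv, hx⟩
    refine ⟨⟨hfS v, (G.T _).smul_mem _ (hBT v hv x)⟩, ?_⟩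
    show ‖(‖B v x‖)⁻¹ • B v x‖ = 1
    rw [norm_smul, norm_inv, norm_norm,
      inv_mul_cancel₀ (norm_ne_zero_iff.2 (hBne _ hv _ (hsne _ hx)))]
  have himg : g '' (A ×ˢ sphere (0 : Euc n) 1) = L.US G := by
    refine Subset.antisymm (image_subset_iff.2 hgm) ?_
    rintro ⟨q, u⟩ ⟨⟨hq, hu⟩, hu1⟩
    have hu1' : ‖u‖ = 1 := hu1
    have hq' : q ∈ S := hq
    rw [← image_closedBall hB hp hb] at hq'
    obtain ⟨v, hv, hvq⟩ := hq'
    have hvq' : f v = q := hvq
    obtain ⟨x, hx⟩ := hBrange v hv u (by rw [hvq']; exact hu)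
    have hx0 : x ≠ 0 := by
      intro h
      rw [h, map_zero] at hx
      rw [← hx, norm_zero] at hu1'
      norm_num at hu1'
    have hxn : 0 < ‖x‖ := norm_pos_iff.2 hx0
    refine ⟨(v, ‖x‖⁻¹ • x), ⟨hv, ?_⟩, ?_⟩
    · rw [mem_sphere_zero_iff_norm, norm_smul, norm_inv, norm_norm, inv_mul_cancel₀ hxn.ne']
    · rw [hg]
      simp only
      rw [hvq', map_smul, hx, norm_smul, norm_inv, norm_norm, hu1', mul_one, _root_.inv_inv, smul_smul,
        mul_inv_cancel₀ hxn.ne', one_smul]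
  obtain ⟨w, hw, hw1⟩ := lift_prod_sphere (F := Euc n) (P := fun z => P (g z)) hAc hA0 hst
    (by simpa using hn) (hP.comp hgc hgm) (fun z hz => hR _ (hgm z hz))
  obtain ⟨w', h1, h2, -⟩ := descend (hAc.prod (isCompact_sphere _ _)) hgc himg (by
    rintro ⟨q, u⟩ ⟨⟨hq, hu⟩, hu1⟩
    have hu1' : ‖u‖ = 1 := hu1
    have hpre := fibre_preconn hB hT hk hp hb hq
    have hfib : A ∩ f ⁻¹' {q} = closedBall (0 : Euc n) Real.pi ∩
        (fun v => Exp G p (b v)) ⁻¹' {q} := rfl
    rw [← hfib] at hpre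
    set c : Euc n → Euc n × Euc n := fun v => (v, (‖linv (B v) u‖)⁻¹ • linv (B v) u) with hc
    have hl : ContinuousOn (fun v => linv (B v)) A := continuousOn_linv hBc fun x hx => (hBi x hx).1
    have hlu : ContinuousOn (fun v => linv (B v) u) (A ∩ f ⁻¹' {q}) :=
      (hl.mono inter_subset_left).clm_apply continuousOn_const
    have hlne : ∀ v ∈ A ∩ f ⁻¹' {q}, linv (B v) u ≠ 0 ∧ B v (linv (B v) u) = u := by
      rintro v ⟨hv, hvq⟩
      have hvq' : f v = q := hvq
      obtain ⟨x, hx⟩ := hBrange v hv u (by rw [hvq']; exact hu)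
      have h3 : linv (B v) u = x := by rw [← hx, linv_apply (hBi v hv).1]
      refine ⟨fun h => ?_, by rw [h3, hx]⟩
      rw [h3] at h
      rw [h, map_zero] at hx
      rw [← hx, norm_zero] at hu1'
      norm_num at hu1'
    have hcc : ContinuousOn c (A ∩ f ⁻¹' {q}) :=
      continuousOn_id.prodMk ((hlu.norm.inv₀ fun v hv => norm_ne_zero_iff.2 (hlne v hv).1).smul hlu)
    have h3 := hpre.image c hcc
    have h4 : c '' (A ∩ f ⁻¹' {q}) = A ×ˢ sphere (0 : Euc n) 1 ∩ g ⁻¹' {(q, u)} := by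
      ext ⟨v, x⟩
      constructor
      · rintro ⟨v', hv', h⟩
        obtain ⟨rfl, h5⟩ := Prod.mk.inj h
        have h6 := hlne v' hv'
        have h7 : 0 < ‖linv (B v') u‖ := norm_pos_iff.2 h6.1
        refine ⟨⟨hv'.1, ?_⟩, ?_⟩
        · show x ∈ sphere (0 : Euc n) 1
          rw [← h5, mem_sphere_zero_iff_norm, norm_smul, norm_inv, norm_norm,
            inv_mul_cancel₀ h7.ne']
        · show (f v', (‖B v' x‖)⁻¹ • B v' x) = (q, u)
          have h8 : f v' = q := hv'.2
          rw [← h5, map_smul, h6.2, norm_smul, norm_inv, norm_norm, hu1', mul_one, _root_.inv_inv,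
            smul_smul, mul_inv_cancel₀ h7.ne', one_smul, h8]
      · rintro ⟨⟨hv, hx⟩, h⟩
        have h' : (f v, (‖B v x‖)⁻¹ • B v x) = (q, u) := h
        obtain ⟨h5, h6⟩ := Prod.mk.inj h'
        refine ⟨v, ⟨hv, h5⟩, ?_⟩
        have hx' : ‖x‖ = 1 := by
          have : x ∈ sphere (0 : Euc n) 1 := hx
          rwa [mem_sphere_zero_iff_norm] at this
        have hBx : 0 < ‖B v x‖ := norm_pos_iff.2 (hBne v hv x (hsne x hx))
        have h7 : linv (B v) u = (‖B v x‖)⁻¹ • x := by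
          rw [← h6, map_smul, linv_apply (hBi v hv).1]
        rw [hc]
        simp only
        rw [h7, norm_smul, norm_inv, norm_norm, hx', mul_one, _root_.inv_inv, smul_smul,
          mul_inv_cancel₀ hBx.ne', one_smul]
    rwa [h4] at h3) hR hw hw1
  exact ⟨w', h1, h2⟩

end Crest.Agent.R208.GP
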