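import Crest.Agent.R208.T2

/-! Row 208, block GP (helper198), part GP4a: gluing of forms and a Mayer-Vietoris lemma. -/

set_option autoImplicit false
set_option linter.unusedSectionVars false

open MeasureTheory Set Filter Topology Module
open scoped ContDiff
open Crest.Agent.R208.F Crest.Agent.R208.FI Crest.Agent.R208.CW
open Crest.Agent.R208.T

noncomputable section

namespace Crest.Agent.R208.GP

variable {E : Type*} [NormedAddCommGroup E] [NormedSpace ℝ E] [FiniteDimensional ℝ E]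
  {X U U₁ U₂ : Set E} {d : ℕ} {w η₁ η₂ γ₁ γ₂ ζ : E → Ext E} {χ : E → ℝ}

open scoped Manifold in
theorem exists_cut {K₁ K₂ : Set E} (h1 : IsClosed K₁) (h2 : IsClosed K₂) (hd : Disjoint K₁ K₂) :
    ∃ χ : E → ℝ, ContDiff ℝ ∞ χ ∧ (∀ x ∈ K₁, ∀ᶠ y in 𝓝 x, χ y = 0) ∧
      (∀ x ∈ K₂, ∀ᶠ y in 𝓝 x, χ y = 1) ∧ ∀ x, χ x ∈ Icc (0 : ℝ) 1 := by
  obtain ⟨f, hf0, hf1, hf⟩ := exists_contMDiffMap_zero_one_nhds_of_isClosed (n := (⊤ : ℕ∞))
    𝓘(ℝ, E) h1 h2 hd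
  refine ⟨f, f.contMDiff.contDiff, fun x hx => ?_, fun x hx => ?_, hf⟩
  · exact hf0.filter_mono (nhds_le_nhdsSet hx)
  · exact hf1.filter_mono (nhds_le_nhdsSet hx)

/-- extension by zero -/
theorem sm_cut (hχ : ContDiff ℝ ∞ χ) (h0 : ∀ x ∈ X, x ∉ U → ∀ᶠ y in 𝓝 x, χ y = 0)
    (hζ : Sm (X ∩ U) ζ) : Sm X (fun x => χ x • ζ x) := by
  intro x hx
  by_cases hxU : x ∈ U
  · exact hχ.contDiffAt.smul (hζ x ⟨hx, hxU⟩)
  · refine (contDiffAt_const (c := (0 : Ext E))).congr_of_eventuallyEq ?_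
    filter_upwards [h0 x hx hxU] with y hy
    rw [hy, zero_smul]

theorem eqv_of_cover (hU₁ : IsOpen U₁) (hU₂ : IsOpen U₂) (hX : X ⊆ U₁ ∪ U₂) {a b : E → Ext E}
    (h1 : Eqv (X ∩ U₁) a b) (h2 : Eqv (X ∩ U₂) a b) : Eqv X a b := by
  refine eqv_iff.2 fun x hx => ?_
  rcases hX hx with h | h
  · exact eqv_of_open hU₁ h1 hx h
  · exact eqv_of_open hU₂ h2 hx h

/-- **gluing of forms** -/
theorem glue (hXc : IsClosed X) (hU₁ : IsOpen U₁) (hU₂ : IsOpen U₂) (hX : X ⊆ U₁ ∪ U₂)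
    (h1 : Sm (X ∩ U₁) η₁) (h2 : Sm (X ∩ U₂) η₂) (he : Eqv (X ∩ (U₁ ∩ U₂)) η₁ η₂) :
    ∃ η : E → Ext E, Sm X η ∧ Eqv (X ∩ U₁) η η₁ ∧ Eqv (X ∩ U₂) η η₂ := by
  obtain ⟨χ, hχ, c1, c2, -⟩ := exists_cut (K₁ := X \ U₂) (K₂ := X \ U₁) (hXc.sdiff hU₂)
    (hXc.sdiff hU₁) (Set.disjoint_left.2 fun x hx hx' => (hX hx.1).elim hx'.2 hx.2)
  have s1 : Sm X (fun x => (1 - χ x) • η₁ x) := by
    refine sm_cut (contDiff_const.sub hχ) (fun x hx hxU => ?_) h1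
    filter_upwards [c2 x ⟨hx, hxU⟩] with y hy
    rw [hy, sub_self]
  have s2 : Sm X (fun x => χ x • η₂ x) := sm_cut hχ (fun x hx hxU => c1 x ⟨hx, hxU⟩) h2
  refine ⟨(fun x => (1 - χ x) • η₁ x) + fun x => χ x • η₂ x, s1.add s2, ?_, ?_⟩
  · refine eqv_iff.2 fun x hx => ?_
    simp only [Pi.add_apply]
    by_cases hx2 : x ∈ U₂
    · have h3 := eqv_of_open (hU₁.inter hU₂) he hx.1 ⟨hx.2, hx2⟩
      rw [← Tan_inter_open hU₁ hx.2] at h3
      rw [map_add, map_smul, map_smul, h3, ← add_smul, sub_add_cancel, one_smul]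
    · rw [(c1 x ⟨hx.1, hx2⟩).self_of_nhds, sub_zero, one_smul, zero_smul, add_zero]
  · refine eqv_iff.2 fun x hx => ?_
    simp only [Pi.add_apply]
    by_cases hx2 : x ∈ U₁
    · have h3 := eqv_of_open (hU₁.inter hU₂) he hx.1 ⟨hx2, hx.2⟩
      rw [← Tan_inter_open hU₂ hx.2] at h3
      rw [map_add, map_smul, map_smul, h3, ← add_smul, sub_add_cancel, one_smul]
    · rw [(c2 x ⟨hx.1, hx2⟩).self_of_nhds, sub_self, one_smul, zero_smul, zero_add]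

/-- **Mayer-Vietoris**: a form exact on two open pieces, the difference of the primitives being
exact on the overlap, is exact. -/
theorem mayer_vietoris (hXs : Sub d X) (hXc : IsClosed X) (hU₁ : IsOpen U₁) (hU₂ : IsOpen U₂)
    (hX : X ⊆ U₁ ∪ U₂) (g1 : Sm (X ∩ U₁) γ₁) (e1 : Eqv (X ∩ U₁) w (F.d γ₁))
    (g2 : Sm (X ∩ U₂) γ₂) (e2 : Eqv (X ∩ U₂) w (F.d γ₂))
    (h : Coh (X ∩ (U₁ ∩ U₂)) (γ₁ - γ₂) 0) : Coh X w 0 := by
  obtain ⟨ζ, hζ, e3⟩ := h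
  rw [sub_zero] at e3
  obtain ⟨χ, hχ, c1, c2, -⟩ := exists_cut (K₁ := X \ U₂) (K₂ := X \ U₁) (hXc.sdiff hU₂)
    (hXc.sdiff hU₁) (Set.disjoint_left.2 fun x hx hx' => (hX hx.1).elim hx'.2 hx.2)
  set a : E → Ext E := fun x => χ x • ζ x with ha
  set b : E → Ext E := fun x => (1 - χ x) • ζ x with hb
  have sa : Sm (X ∩ U₁) a := by
    refine sm_cut hχ (fun x hx hxU => c1 x ⟨hx.1, hxU⟩) (U := U₂) ?_
    rwa [inter_assoc]
  have sb : Sm (X ∩ U₂) b := by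
    refine sm_cut (contDiff_const.sub hχ) (fun x hx hxU => ?_) (U := U₁) ?_
    · filter_upwards [c2 x ⟨hx.1, hxU⟩] with y hy
      rw [hy, sub_self]
    · rwa [inter_assoc, inter_comm U₂ U₁]
  set O := X ∩ (U₁ ∩ U₂) with hO
  have hO1 : O ⊆ X ∩ U₁ := fun x hx => ⟨hx.1, hx.2.1⟩
  have hO2 : O ⊆ X ∩ U₂ := fun x hx => ⟨hx.1, hx.2.2⟩
  have e4 : Eqv O (γ₁ - F.d a) (γ₂ + F.d b) := by
    have h1 : Eqv O (F.d ζ) (F.d a + F.d b) := by
      have h2 := d_add_eqv (X := O) (sa.mono hO1) (sb.mono hO2)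
      have h3 : a + b = ζ := by
        funext x
        simp only [ha, hb, Pi.add_apply]
        rw [← add_smul, add_sub_cancel, one_smul]
      rwa [h3] at h2
    have h2 := e3.trans h1
    have h3 := h2.add ((Eqv.refl (X := O) γ₂).sub (Eqv.refl (F.d a)))
    have h4 : γ₁ - γ₂ + (γ₂ - F.d a) = γ₁ - F.d a := by abel
    have h5 : F.d a + F.d b + (γ₂ - F.d a) = γ₂ + F.d b := by abel
    rwa [h4, h5] at h3
  obtain ⟨η, hη, f1, f2⟩ := glue hXc hU₁ hU₂ hX (g1.sub sa.d) (g2.add sb.d) e4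
  refine ⟨η, hη, ?_⟩
  rw [sub_zero]
  refine eqv_of_cover hU₁ hU₂ hX ?_ ?_
  · have h1 := f1.d (hXs.inter_open hU₁) (hη.mono inter_subset_left) (g1.sub sa.d)
    have h2 := d_sub_eqv g1 sa.d
    have h3 : Eqv (X ∩ U₁) (F.d γ₁ - F.d (F.d a)) (F.d γ₁) := by
      have := (Eqv.refl (X := X ∩ U₁) (F.d γ₁)).sub (resZero_iff.1 (d_d' sa))
      rwa [sub_zero] at this
    exact e1.trans (h1.trans (h2.trans h3)).symm
  · have h1 := f2.d (hXs.inter_open hU₂) (hη.mono inter_subset_left) (g2.add sb.d)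
    have h2 := d_add_eqv g2 sb.d
    have h3 : Eqv (X ∩ U₂) (F.d γ₂ + F.d (F.d b)) (F.d γ₂) := by
      have := (Eqv.refl (X := X ∩ U₂) (F.d γ₂)).add (resZero_iff.1 (d_d' sb))
      rwa [add_zero] at this
    exact e2.trans (h1.trans (h2.trans h3)).symm

end Crest.Agent.R208.GP
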