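import Crest.Agent.R208.T3a

/-! Row 208, block GQ (helper989), part GQ1: **DIV** = third piece of the Gysin sequence: if
`b * e ~ 0` on `X` and the closed forms of degree `j + r - 1` on the sphere bundle are exact, then
`b ~ 0`. -/

set_option autoImplicit false
set_option linter.unusedSectionVars false

open MeasureTheory Set Filter Topology Module
open scoped ContDiff
open Crest.Agent.R208.F Crest.Agent.R208.FI Crest.Agent.R208.CW Crest.Agent.R208.T

noncomputable section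

namespace Crest.Agent.R208.GQ

universe u w

variable {E : Type u} {H : Type w} [NormedAddCommGroup E] [NormedSpace ℝ E] [FiniteDimensional ℝ E]
  [NormedAddCommGroup H] [InnerProductSpace ℝ H] [FiniteDimensional ℝ H]
  {X : Set E} {P : E → H →L[ℝ] H} {r d : ℕ} {R c₀ : ℝ} {e : E → Ext E}
  {τ τ' : E × H → Ext (E × H)}

set_option linter.unusedVariables false

theorem inv_isDeg {E : Type*} [AddCommGroup E] [Module ℝ E] [FiniteDimensional ℝ E] {p : ℕ}
    {c : Ext E} (h : IsDeg p c) : F.inv c = (-1 : ℝ) ^ p • c := by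
  refine ext_evA fun q => ?_
  rw [evA_inv, map_smul]
  by_cases hq : q = p
  · rw [hq]
  · rw [h q hq, smul_zero, smul_zero]

/-- outer region of the total space -/
def Out (X : Set E) (P : E → H →L[ℝ] H) (R : ℝ) : Set (E × H) := Tot X P ∩ {z | R < ‖z.2‖}

/-- dilation -/
def dil (ρ : ℝ) (z : E × H) : E × H := (z.1, ρ • z.2)

theorem smap_dil (hR : 0 ≤ R) {ρ : ℝ} (hρ : R < ρ) :
    SMap (Sph X P) (Out X P R) (dil (E := E) (H := H) ρ) := by
  refine ⟨fun z _ => by unfold dil; fun_prop, fun z hz => ⟨⟨hz.1.1, ?_⟩, ?_⟩⟩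
  · change P z.1 (ρ • z.2) = ρ • z.2
    rw [map_smul, hz.1.2]
  · change R < ‖ρ • z.2‖
    rw [norm_smul, hz.2, mul_one, Real.norm_of_nonneg (by linarith)]
    exact hρ

theorem smap_rhO (hR : 0 ≤ R) : SMap (Out X P R) (Sph X P) (rh (E := E) (H := H)) :=
  smap_rh.mono fun z hz => ⟨hz.1, norm_pos_iff.1 (lt_of_le_of_lt hR hz.2)⟩

/-- radial scaling stays in the outer region -/
theorem Out.smul_mem {z : E × H} (hR : 0 ≤ R) (hz : z ∈ Out X P R) {t : ℝ} (h0 : R < t) :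
    ((z.1, (t * ‖z.2‖⁻¹) • z.2) : E × H) ∈ Out X P R := by
  have hz0 : 0 < ‖z.2‖ := lt_of_le_of_lt hR hz.2
  refine ⟨⟨hz.1.1, ?_⟩, ?_⟩
  · change P z.1 ((t * ‖z.2‖⁻¹) • z.2) = (t * ‖z.2‖⁻¹) • z.2
    rw [map_smul, hz.1.2]
  · change R < ‖(t * ‖z.2‖⁻¹) • z.2‖
    rw [norm_smul, Real.norm_of_nonneg (mul_nonneg (by linarith) (inv_nonneg.2 hz0.le)),
      inv_mul_cancel_right₀ hz0.ne']
    exact h0

theorem coh_out (hR : 0 ≤ R) {ρ : ℝ} (hρ : R < ρ) {ζ : E × H → Ext (E × H)}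
    (hs : Sm (Out X P R) ζ) (hc : Cl (Out X P R) ζ) :
    Coh (Out X P R) ζ (F.pull rh (F.pull (dil ρ) ζ)) := by
  have hd := smap_dil (X := X) (P := P) hR hρ
  have hrh := smap_rhO (X := X) (P := P) hR
  have hpos : ∀ z ∈ Out X P R, 0 < ‖z.2‖ := fun z hz => lt_of_le_of_lt hR hz.2
  have h3 := coh_homotopy (X := Out X P R) (Y := Out X P R) (w := ζ)
    (Fh := fun q : (E × H) × ℝ =>
      ((q.1.1, (((1 - q.2) * ‖q.1.2‖ + q.2 * ρ) * ‖q.1.2‖⁻¹) • q.1.2) : E × H))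
    (fun z hz t _ => by
      have hz0 : z.2 ≠ 0 := norm_pos_iff.1 (hpos z hz)
      have a1 : ContDiffAt ℝ ∞ (fun q : (E × H) × ℝ => ‖q.1.2‖) (z, t) :=
        ContDiffAt.comp (g := fun h : H => ‖h‖) (f := fun q : (E × H) × ℝ => q.1.2) (z, t)
          (contDiffAt_norm ℝ hz0) (by fun_prop)
      have a2 : ContDiffAt ℝ ∞ (fun q : (E × H) × ℝ => ‖q.1.2‖⁻¹) (z, t) :=
        a1.inv (norm_ne_zero_iff.2 hz0)
      have a3 : ContDiffAt ℝ ∞ (fun q : (E × H) × ℝ => q.1.1) (z, t) := by fun_prop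
      have a4 : ContDiffAt ℝ ∞ (fun q : (E × H) × ℝ => q.1.2) (z, t) := by fun_prop
      have a5 : ContDiffAt ℝ ∞ (fun q : (E × H) × ℝ => q.2) (z, t) := by fun_prop
      exact a3.prodMk (((((contDiffAt_const.sub a5).mul a1).add (a5.mul contDiffAt_const)).mul
        a2).smul a4))
    (fun z hz t ht => by
      have hz1 : R < ‖z.2‖ := hz.2
      refine Out.smul_mem hR hz ?_
      rcases eq_or_lt_of_le ht.1 with h | h
      · rw [← h]; linarith
      · have a1 := mul_lt_mul_of_pos_left hρ h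
        have a2 := mul_le_mul_of_nonneg_left hz1.le (sub_nonneg.2 ht.2)
        linarith)
    hs hc
  have hkt : ∀ t : ℝ, (∀ z ∈ Out X P R, R < (1 - t) * ‖z.2‖ + t * ρ) →
      SMap (Out X P R) (Out X P R) (fun y : E × H =>
      ((y.1, (((1 - t) * ‖y.2‖ + t * ρ) * ‖y.2‖⁻¹) • y.2) : E × H)) := by
    intro t ht
    refine ⟨fun z hz => ?_, fun z hz => Out.smul_mem hR hz (ht z hz)⟩
    have hz0 : z.2 ≠ 0 := norm_pos_iff.1 (hpos z hz)
    have a1 : ContDiffAt ℝ ∞ (fun q : E × H => ‖q.2‖) z :=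
      (contDiffAt_norm ℝ hz0).comp z contDiffAt_snd
    exact contDiffAt_fst.prodMk ((((contDiffAt_const.mul a1).add contDiffAt_const).mul
      (a1.inv (norm_ne_zero_iff.2 hz0))).smul contDiffAt_snd)
  have e1 : Eqv (Out X P R) (F.pull (fun y : E × H =>
      ((y.1, (((1 - (0 : ℝ)) * ‖y.2‖ + 0 * ρ) * ‖y.2‖⁻¹) • y.2) : E × H)) ζ) ζ := by
    have k1 := hkt 0 (fun z hz => by have : R < ‖z.2‖ := hz.2; linarith)
    refine (eqv_pull_of_eq ζ (fun z hz => k1.diff hz) (fun z _ => differentiableAt_id)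
      (fun z hz => ?_)).trans (Eqv.of_eq fun z _ => F.pull_id ζ z)
    refine Prod.ext rfl ?_
    change (((1 - (0 : ℝ)) * ‖z.2‖ + 0 * ρ) * ‖z.2‖⁻¹) • z.2 = z.2
    rw [sub_zero, one_mul, zero_mul, add_zero, mul_inv_cancel₀ (hpos z hz).ne', one_smul]
  have e2 : Eqv (Out X P R) (F.pull (fun y : E × H =>
      ((y.1, (((1 - (1 : ℝ)) * ‖y.2‖ + 1 * ρ) * ‖y.2‖⁻¹) • y.2) : E × H)) ζ)
      (F.pull rh (F.pull (dil ρ) ζ)) := by
    have k1 := hkt 1 (fun z hz => by linarith)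
    refine (eqv_pull_pull hrh hd k1 (fun z _ => ?_) ζ).symm
    refine Prod.ext rfl ?_
    change ρ • (‖z.2‖⁻¹ • z.2) = (((1 - (1 : ℝ)) * ‖z.2‖ + 1 * ρ) * ‖z.2‖⁻¹) • z.2
    rw [smul_smul, sub_self, zero_mul, zero_add, one_mul]
  exact (Coh.of_eqv e1.symm).trans (h3.symm.trans (Coh.of_eqv e2))

/-- `0` for `‖h‖ ≤ R`, `1` for `‖h‖ ≥ R + 1` -/
def outC (R : ℝ) (κ : E × H → Ext (E × H)) (z : E × H) : Ext (E × H) := (1 - chi R z.2) • κ z

theorem outC_near (hR : 0 ≤ R) (κ : E × H → Ext (E × H)) {z : E × H} (hz : ‖z.2‖ < R) :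
    outC R κ =ᶠ[𝓝 z] fun _ => 0 := by
  have ho : IsOpen {z : E × H | ‖z.2‖ < R} := isOpen_lt (by fun_prop) continuous_const
  filter_upwards [ho.mem_nhds hz] with y hy
  rw [outC, chi_one hR (le_of_lt hy), sub_self, zero_smul]

theorem outC_far (hR : 0 ≤ R) (κ : E × H → Ext (E × H)) {z : E × H} (hz : R + 1 < ‖z.2‖) :
    outC R κ =ᶠ[𝓝 z] κ := by
  filter_upwards [(isOpen_out (R + 1)).mem_nhds hz] with y hy
  rw [outC, chi_zero hR (le_of_lt hy), sub_zero, one_smul]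

theorem sm_outC (hR : 0 < R) {R' : ℝ} (hR' : R' < R) {κ : E × H → Ext (E × H)}
    (h : Sm (Out X P R') κ) : Sm (Tot X P) (outC R κ) := by
  intro z hz
  rcases lt_or_ge ‖z.2‖ R with h1 | h1
  · exact contDiffAt_const.congr_of_eventuallyEq (outC_near hR.le κ h1)
  · exact (contDiffAt_const.sub ((contDiff_chi R).contDiffAt.comp z contDiffAt_snd)).smul
      (h z ⟨hz, lt_of_lt_of_le hR' h1⟩)

/-- an exact form with compact support, whose primitive is exact near infinity, has a primitive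
with compact support -/
theorem compact_prim (hX : Sub d X) (hP : PField X r P) (hR : 0 < R)
    {ζ : E × H → Ext (E × H)} (hs : Sm (Tot X P) ζ) (h : Coh (Out X P R) ζ 0) :
    ∃ ζ' : E × H → Ext (E × H), Sm (Tot X P) ζ' ∧ (∀ z, R + 3 < ‖z.2‖ → ζ' z = 0) ∧
      Eqv (Tot X P) (F.d ζ') (F.d ζ) := by
  obtain ⟨κ, sκ, eκ⟩ := h
  rw [sub_zero] at eκ
  have sκc : Sm (Tot X P) (outC (R + 1) κ) := sm_outC (by linarith) (by linarith) sκ
  set ζ1 := ζ - F.d (outC (R + 1) κ) with hζ1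
  have s1 : Sm (Tot X P) ζ1 := hs.sub sκc.d
  have hsub : Sub (d + r) (Tot X P) := hP.sub_tot hX
  have z1 : Eqv (Tot X P ∩ {z | R + 2 < ‖z.2‖}) ζ1 0 := by
    have h1 : Eqv (Tot X P ∩ {z | R + 2 < ‖z.2‖}) (F.d (outC (R + 1) κ)) (F.d κ) :=
      Eqv.of_eq fun z hz => F.d_congr (outC_far (by linarith) κ (by
        have : R + 2 < ‖z.2‖ := hz.2
        linarith))
    have h2 : Eqv (Tot X P ∩ {z | R + 2 < ‖z.2‖}) ζ (F.d κ) :=
      eκ.mono_tan (show Tot X P ∩ {z : E × H | R + 2 < ‖z.2‖} ⊆ Out X P R from fun z hz =>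
        ⟨hz.1, by
          have : R + 2 < ‖z.2‖ := hz.2
          change R < ‖z.2‖
          linarith⟩)
    have h3 := h2.sub h1
    rwa [sub_self] at h3
  have hR2 : 0 ≤ R + 2 := by linarith
  refine ⟨cutH (R + 2) ζ1, s1.cutH, fun z hz => Vt.cutH (a := ζ1) hR2 z (by linarith), ?_⟩
  have h4 : Eqv (Tot X P) (cutH (R + 2) ζ1) ζ1 := eqv_cutH' hR2 z1
  refine (h4.d hsub s1.cutH s1).trans ?_
  refine (d_sub_eqv hs sκc.d).trans ?_
  have h5 := (Eqv.refl (X := Tot X P) (F.d ζ)).sub (resZero_iff.1 (d_d' sκc))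
  rwa [sub_zero] at h5

variable [MeasurableSpace H] [BorelSpace H] {μ : Measure H} [μ.IsAddHaarMeasure]

/-- fibre integral of an exact form with compact support -/
theorem coh_thE' (hX : Sub d X) (hP : PField X r P) (hT : ThomPair μ X P r R c₀ e τ τ')
    {R' : ℝ} (hR : R ≤ R') {ζ : E × H → Ext (E × H)} (hs : Sm (Tot X P) ζ)
    (hv : ∀ z, R' < ‖z.2‖ → ζ z = 0) :
    Coh X (pI μ (thE P τ' (F.d ζ))) 0 := by
  have h' := hT.mono hR
  set N := finrank ℝ H with hN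
  have hτ' := h'.csf'
  have hXH : Sub (d + N) (X ×ˢ (univ : Set H)) := hX.prod (sub_open rfl isOpen_univ)
  set A := thE P τ' ζ with hA
  have vA : Vt (2 * R') A := vt_eta hτ'.supp hv
  have sA : Sm (X ×ˢ (univ : Set H)) A := sm_eta hP hτ'.smooth hs
  have vB : Vt (2 * R') (thE P τ' (F.d ζ)) := vt_eta hτ'.supp (by
    have h1 : Vt R' ζ := hv
    exact h1.d)
  have sB : Sm (X ×ˢ (univ : Set H)) (thE P τ' (F.d ζ)) := sm_eta hP hτ'.smooth hs.d
  have sg : Sm (X ×ˢ (univ : Set H)) (F.pull (gam P) τ') := hτ'.smooth.pull (smap_gam hP)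
  have sb : Sm (X ×ˢ (univ : Set H)) (F.pull (bet P) ζ) := hs.pull (smap_bet hP)
  have e1 : Eqv (X ×ˢ (univ : Set H)) (F.d A) ((-1 : ℝ) ^ (N - r) • thE P τ' (F.d ζ)) := by
    refine (d_mul_eqv sg sb).trans ?_
    have h1 : Eqv (X ×ˢ (univ : Set H)) (F.d (F.pull (gam P) τ')) 0 :=
      resZero_iff.1 (hτ'.closed.pull (smap_gam hP) hτ'.smooth)
    have h2 := d_pull_eqv (smap_bet hP) hs
    have h3 : (fun x => F.inv (F.pull (gam P) τ' x)) = (-1 : ℝ) ^ (N - r) • F.pull (gam P) τ' :=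
      funext fun z => inv_isDeg ((h'.deg' _).pb _)
    have h4 := (h1.mul (Eqv.refl (F.pull (bet P) ζ))).add
      ((Eqv.refl (fun x => F.inv (F.pull (gam P) τ' x))).mul h2)
    rw [zero_mul, zero_add] at h4
    refine h4.trans (Eqv.of_eq fun z _ => ?_)
    rw [h3]
    simp only [thE, Pi.mul_apply, Pi.smul_apply, smul_mul_assoc]
  have e2 := eqv_pI μ vA.d sA.d (vB.smul _) (sB.smul _) e1
  have e3 : Eqv X (pI μ (F.d A)) ((-1 : ℝ) ^ N • F.d (pI μ A)) :=
    Eqv.of_eq fun x hx => d_pI μ vA sA hx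
  have e4 : Eqv X (pI μ ((-1 : ℝ) ^ (N - r) • thE P τ' (F.d ζ)))
      ((-1 : ℝ) ^ (N - r) • pI μ (thE P τ' (F.d ζ))) := Eqv.of_eq fun x _ => by
    rw [pI_eq, Pi.smul_apply, pI_eq, ← integral_smul]
    refine integral_congr_ae (Eventually.of_forall fun z => ?_)
    change cH _ _ ((-1 : ℝ) ^ (N - r) • thE P τ' (F.d ζ) (x, z)) = _
    rw [map_smul]
  have e5 : Eqv X ((-1 : ℝ) ^ (N - r) • pI μ (thE P τ' (F.d ζ))) ((-1 : ℝ) ^ N • F.d (pI μ A)) :=
    e4.symm.trans (e2.symm.trans e3)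
  have sI : Sm X (pI μ A) := sm_pI μ vA sA
  have e6 := e5.smul ((-1 : ℝ) ^ (N - r))
  have h9 : (-1 : ℝ) ^ (N - r) * (-1) ^ (N - r) = 1 := by
    rw [← mul_pow]; simp
  rw [smul_smul, h9, one_smul, smul_smul] at e6
  exact ⟨((-1 : ℝ) ^ (N - r) * (-1) ^ N) • pI μ A, sI.smul _, by
    rw [sub_zero]; exact e6.trans (d_smul_eqv _ sI).symm⟩

/-- fibre integral of `π^* b τ` -/
theorem eqv_thE (hX : Sub d X) (hP : PField X r P) (hT : ThomPair μ X P r R c₀ e τ τ')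
    {b : E → Ext E} (hb : Sm X b) :
    Eqv X (pI μ (thE P τ' (F.pull Prod.fst b * τ))) (c₀ • b) := by
  have sp : Sm (Tot X P) (F.pull Prod.fst b) := hb.pull smap_fst'
  have sB : Sm (X ×ˢ (univ : Set H)) (thE P τ' (F.pull Prod.fst b * τ)) :=
    sm_eta hP hT.csf'.smooth (sp.mul hT.csf.smooth)
  have vB : Vt (2 * R) (thE P τ' (F.pull Prod.fst b * τ)) :=
    vt_eta hT.csf'.supp fun z hz => by rw [Pi.mul_apply, hT.csf.supp z hz, mul_zero]
  have v1 : Vt (2 * R) (thE P τ' τ) := vt_eta hT.csf'.supp hT.csf.supp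
  have s1 := sm_eta hP hT.csf'.smooth hT.csf.smooth
  have hf : SMap (X ×ˢ (univ : Set H)) X (Prod.fst : E × H → E) :=
    ⟨fun _ _ => contDiffAt_fst, fun _ hz => hz.1⟩
  have e1 : Eqv (X ×ˢ (univ : Set H)) (thE P τ' (F.pull Prod.fst b * τ))
      (thE P τ' τ * F.pull Prod.fst b) := by
    have h1 : Eqv (X ×ˢ (univ : Set H)) (F.pull (bet P) (F.pull Prod.fst b))
        (F.pull Prod.fst b) := eqv_pull_pull (smap_bet hP) smap_fst' hf (fun _ _ => rfl) b
    have h2 : thE P τ' (F.pull Prod.fst b * τ) = F.pull (gam P) τ' *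
        (F.pull (bet P) (F.pull Prod.fst b) * F.pull (bet P) τ) := by
      rw [thE, pull_mul']
    rw [h2]
    refine ((Eqv.refl _).mul (h1.mul (Eqv.refl _))).trans (Eqv.of_eq fun z _ => ?_)
    have hc : F.inv (F.pull (bet P) τ z) = F.pull (bet P) τ z := by
      rw [F.pull, ← pb_inv, hT.even]
    simp only [thE, Pi.mul_apply]
    rw [← even_mul_comm hc, mul_assoc]
  have e2 := eqv_pI μ vB sB (v1.mul_right _) (s1.mul (hb.pull hf)) e1
  refine e2.trans ?_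
  have e3 : Eqv X (pI μ (thE P τ' τ * F.pull Prod.fst b)) (pI μ (thE P τ' τ) * b) :=
    Eqv.of_eq fun x hx => pI_mul_fst μ v1 s1 hx b
  refine e3.trans ((hT.unit.mul (Eqv.refl b)).trans (Eqv.of_eq fun x _ => ?_))
  simp only [Pi.mul_apply, Pi.smul_apply, Algebra.smul_def]

/-- **DIV** -/
theorem div_pair (hX : Sub d X) (hP : PField X r P) (hT : ThomPair μ X P r R c₀ e τ τ')
    (hr : 1 ≤ r) {j : ℕ} {b : E → Ext E} (hb : Sm X b) (hc : Cl X b) (hd : Hom j b)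
    (h0 : Coh X (b * e) 0) (hE : ExactIn (Sph X P) (j + r - 1)) : Coh X b 0 := by
  set R₁ := max R 1 with hR₁
  have hR1 : 0 < R₁ := lt_of_lt_of_le one_pos (le_max_right _ _)
  have hRR : R ≤ R₁ := le_max_left _ _
  have sp : Sm (Tot X P) (F.pull Prod.fst b) := hb.pull smap_fst'
  set a := F.pull (Prod.fst : E × H → E) b * τ with ha
  have sa : Sm (Tot X P) a := sp.mul hT.csf.smooth
  have ca : Cl (Tot X P) a := Cl.mul sp hT.csf.smooth (hc.pull smap_fst' hb) hT.csf.closed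
  have da : Hom (j + r) a := hd.pull.mul hT.deg
  have k1 := coh_z0 sa ca
  -- the restriction to the zero section is exact
  have k2 : Eqv X (F.pull zs a) (b * e) := by
    rw [ha, pull_mul']
    have h1 : Eqv X (F.pull zs (F.pull (Prod.fst : E × H → E) b)) b :=
      (eqv_pull_pull smap_zs (smap_fst' (X := X) (P := P)) (SMap.id X) (fun _ _ => rfl) b).trans
        (Eqv.of_eq fun x _ => F.pull_id b x)
    exact h1.mul hT.zero
  have k3 : Coh X (F.pull zs a) 0 := (Coh.of_eqv k2).trans h0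
  have k4 : Eqv (Tot X P) (F.pull z0 a) (F.pull Prod.fst (F.pull zs a)) :=
    (eqv_pull_pull smap_fst' smap_zs smap_z0 (fun _ _ => rfl) a).symm
  have k5 : Coh (Tot X P) a 0 := by
    have h1 := k3.pull (smap_fst' (X := X) (P := P))
    rw [pull_zero'] at h1
    exact k1.trans ((Coh.of_eqv k4).trans h1)
  obtain ⟨ζ0, sζ0, eζ0⟩ := k5
  rw [sub_zero] at eζ0
  set ζ := T.dp (j + r - 1) ζ0 with hζ
  have sζ : Sm (Tot X P) ζ := sζ0.dp _
  have dζ : Hom (j + r - 1) ζ := hom_dp _ _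
  have eζ : Eqv (Tot X P) a (F.d ζ) := by
    have h1 := eζ0.dp (j + r)
    rw [da.dp_eq] at h1
    refine h1.trans (Eqv.of_eq fun z hz => ?_)
    have h2 : j + r = (j + r - 1) + 1 := by omega
    rw [h2]
    exact dp_d _ (sζ0.diff hz)
  -- outside the support
  have sO : Sm (Out X P R₁) ζ := sζ.mono inter_subset_left
  have cO : Cl (Out X P R₁) ζ := by
    rw [Cl, resZero_iff]
    have h1 : Eqv (Out X P R₁) a 0 := Eqv.of_eq fun z hz => by
      rw [ha, Pi.mul_apply, hT.csf.supp z (lt_of_le_of_lt hRR hz.2), mul_zero]; rfl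
    exact ((eζ.mono_tan inter_subset_left).symm).trans h1
  have hρ : R₁ < R₁ + 1 := by linarith
  have hdl := smap_dil (X := X) (P := P) hR1.le hρ
  have h3 : Coh (Sph X P) (F.pull (dil (R₁ + 1)) ζ) 0 :=
    hE _ (sO.pull hdl) (cO.pull hdl sO) dζ.pull
  have h4 := h3.pull (smap_rhO (X := X) (P := P) hR1.le)
  rw [pull_zero'] at h4
  have h5 : Coh (Out X P R₁) ζ 0 := (coh_out hR1.le hρ sO cO).trans h4
  obtain ⟨ζ', sζ', vζ', eζ'⟩ := compact_prim hX hP hR1 sζ h5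
  have hR3 : R ≤ R₁ + 3 := by linarith
  have h6 := coh_thE' hX hP hT hR3 sζ' vζ'
  -- the two fibre integrals agree
  have h7 : Eqv X (pI μ (thE P τ' (F.d ζ'))) (pI μ (thE P τ' a)) := by
    have hT' := hT.mono hR3
    have hv' : Vt (R₁ + 3) ζ' := vζ'
    refine eqv_pI μ (vt_eta hT'.csf'.supp hv'.d) (sm_eta hP hT'.csf'.smooth sζ'.d)
      (vt_eta hT'.csf'.supp fun z hz => ?_) (sm_eta hP hT'.csf'.smooth sa)
      ((Eqv.refl _).mul (Eqv.pull (smap_bet hP) (eζ'.trans eζ.symm)))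
    rw [ha, Pi.mul_apply, hT'.csf.supp z hz, mul_zero]
  have h8 := eqv_thE hX hP hT hb
  have h9 : Coh X (c₀ • b) 0 := (Coh.of_eqv (h8.symm.trans h7.symm)).trans h6
  have h10 := h9.smul c₀⁻¹
  rwa [smul_smul, inv_mul_cancel₀ hT.ne, one_smul, smul_zero] at h10

end Crest.Agent.R208.GQ
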