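import Crest.Agent.R208.GQ1
import Crest.Agent.R208.T2d

/-! Row 208, block GQ (helper989), part GQ1b: DIV for oriented projection fields of even rank and
arbitrary codimension. -/

set_option autoImplicit false
set_option linter.unusedSectionVars false

open MeasureTheory Set Filter Topology Module
open scoped ContDiff Matrix
open Crest.Agent.R208.F Crest.Agent.R208.FI Crest.Agent.R208.CW Crest.Agent.R208.T

noncomputable section

namespace Crest.Agent.R208.GQ

variable {n : Type} [Fintype n] [DecidableEq n]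
  {E : Type} [NormedAddCommGroup E] [NormedSpace ℝ E] [FiniteDimensional ℝ E]
  {ι : Type} [Fintype ι] [DecidableEq ι]
  {X : Set E} {P : E → EuclideanSpace ℝ n →L[ℝ] EuclideanSpace ℝ n}
  {W : E → (ι × Fin 2 → n) → ℝ} {d : ℕ}

theorem div_OR {ι' : Type} [Fintype ι'] [DecidableEq ι'] [Nonempty ι] [Nonempty ι']
    (eq : (ι × Fin 2) ⊕ (ι' × Fin 2) ≃ n) (hX : Sub d X) (hc : IsPreconnected X)
    (hne : X.Nonempty) (h : OR X P W) {j : ℕ} {b : E → Ext E} (hb : Sm X b) (hcl : Cl X b)
    (hd : Hom j b) (h0 : Coh X (b * eR P W) 0)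
    (hE : ExactIn (Sph X P) (j + 2 * Fintype.card ι - 1)) : Coh X b 0 := by
  obtain ⟨W', c₀, hT⟩ := exists_thomPair thd_holds eq hX hc hne h
  have hr : 1 ≤ 2 * Fintype.card ι := by
    have := Fintype.card_pos (α := ι)
    omega
  refine div_pair hX h.pfield hT hr hb hcl hd ?_ hE
  have h1 := h0.smul 2
  rwa [smul_zero, ← mul_smul_comm] at h1

/-- **DIV**: third piece of the Gysin sequence, any codimension. -/
theorem div_all [Nonempty ι] (hX : Sub d X) (hc : IsPreconnected X)
    (h : OR X P W) {j : ℕ} {b : E → Ext E} (hb : Sm X b) (hcl : Cl X b)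
    (hd : Hom j b) (h0 : Coh X (b * eR P W) 0)
    (hE : ExactIn (Sph X P) (j + 2 * Fintype.card ι - 1)) : Coh X b 0 := by
  rcases X.eq_empty_or_nonempty with rfl | hne
  · exact Coh.of_eqv (Eqv.of_eq fun z hz => hz.elim)
  obtain ⟨q, r, eq, -⟩ := exists_par h hne
  have hS := iM_iso (n := n) (Fin q)
  refine div_OR eq hX hc hne (h.push hS) hb hcl hd
    ((Coh.of_eqv ((Eqv.refl b).mul (eqv_eR_push hS h))).trans h0) ?_
  refine hE.transport (smap_out hS) (smap_in hS) fun z hz => ?_
  exact Prod.ext rfl (tot_out hS hz.1).2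

end Crest.Agent.R208.GQ
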