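import Crest.Agent.R208.GQ2
import Crest.Agent.R208.THD1

/-! Row 208, block GQ (helper989), part GQ2b: integration over the line `ℝ v`: a lift with a compactly
supported primitive comes from a form with a compactly supported primitive. -/

set_option autoImplicit false
set_option linter.unusedSectionVars false
set_option linter.unusedVariables false

open MeasureTheory Set Filter Topology Module
open scoped ContDiff RealInnerProductSpace
open Crest.Agent.R208.F Crest.Agent.R208.FI Crest.Agent.R208.CW Crest.Agent.R208.T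

noncomputable section

namespace Crest.Agent.R208.GQ

universe u w

section line
variable {G : Type u} [NormedAddCommGroup G] [NormedSpace ℝ G] [FiniteDimensional ℝ G]

theorem evA_io_one {n : ℕ} (hn : n = 1) (b : Fin n → ℝ) (hb : ∀ i, b i ≠ 0) :
    evA ℝ n (io (LinearMap.id : Module.Dual ℝ ℝ)) b ≠ 0 := by
  subst hn
  rw [evA_io]
  simpa using hb 0

/-- value of the covolume form of the line -/
def cL : ℝ := evA ℝ (finrank ℝ ℝ) (io (LinearMap.id : Module.Dual ℝ ℝ)) (Module.finBasis ℝ ℝ)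

theorem cL_ne : cL ≠ 0 := evA_io_one (Module.finrank_self ℝ) _ fun i =>
  (Module.finBasis ℝ ℝ).ne_zero i

/-- total mass -/
def mL : ℝ := ∫ s : ℝ, Real.smoothTransition (1 - s ^ 2)

theorem mL_pos : 0 < mL := by
  have hc : Continuous (fun s : ℝ => Real.smoothTransition (1 - s ^ 2)) :=
    Real.smoothTransition.continuous.comp (by fun_prop)
  have hs : HasCompactSupport (fun s : ℝ => Real.smoothTransition (1 - s ^ 2)) := by
    refine HasCompactSupport.intro (isCompact_Icc (a := (-1 : ℝ)) (b := 1)) fun s hs => ?_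
    refine Real.smoothTransition.zero_of_nonpos ?_
    rw [mem_Icc, not_and_or, not_le, not_le] at hs
    rcases hs with h | h <;> nlinarith
  refine hc.integral_pos_of_hasCompactSupport_nonneg_nonzero hs
    (fun s => Real.smoothTransition.nonneg _) (x := 0) ?_
  rw [Real.smoothTransition.one_of_one_le (by norm_num)]
  exact one_ne_zero

theorem pull_snd_th0 (z : G × ℝ) : F.pull (Prod.snd : G × ℝ → ℝ) th0 z =
    Real.smoothTransition (1 - z.2 ^ 2) • io (LinearMap.snd ℝ G ℝ) := by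
  rw [F.pull, fderiv_snd, th0, map_smul, pb_io]
  rfl

theorem isDeg_snd (z : G × ℝ) : IsDeg 1 (F.pull (Prod.snd : G × ℝ → ℝ) th0 z) := (hom_th0 _).pb _

theorem pI_snd_th0 (y : G) : pI volume (F.pull (Prod.snd : G × ℝ → ℝ) th0) y =
    algebraMap ℝ (Ext G) (mL * cL) := by
  rw [pI_eq]
  have h1 : ∀ s : ℝ, cH (ContinuousLinearMap.inl ℝ G ℝ) (ContinuousLinearMap.inr ℝ G ℝ)
      (F.pull (Prod.snd : G × ℝ → ℝ) th0 (y, s)) =
      Real.smoothTransition (1 - s ^ 2) • algebraMap ℝ (Ext G) cL := by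
    intro s
    have hd : IsDeg (finrank ℝ ℝ) (F.pull (Prod.snd : G × ℝ → ℝ) th0 (y, s)) := by
      rw [Module.finrank_self]; exact isDeg_snd _
    rw [cH_of_isDeg hd, pull_snd_th0, map_smul, pb_io]
    have h2 : (LinearMap.snd ℝ G ℝ) ∘ₗ ((ContinuousLinearMap.inr ℝ G ℝ : ℝ →L[ℝ] G × ℝ) :
        ℝ →ₗ[ℝ] G × ℝ) = LinearMap.id := by ext; simp
    rw [h2, map_smul, AlternatingMap.smul_apply, smul_eq_mul, map_mul, Algebra.smul_def]
    rfl
  simp only [h1]
  rw [integral_smul_const, ← mL, map_mul, Algebra.smul_def]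

/-- commuting a form of degree `p` past the one-form of the line -/
theorem mul_snd_th0 {p : ℕ} {β : G → Ext G} (hβ : Hom p β) (z : G × ℝ) :
    F.pull (Prod.fst : G × ℝ → G) β z * F.pull (Prod.snd : G × ℝ → ℝ) th0 z =
      (-1 : ℝ) ^ p • (F.pull (Prod.snd : G × ℝ → ℝ) th0 z * F.pull (Prod.fst : G × ℝ → G) β z) := by
  have h1 : F.inv (F.pull (Prod.fst : G × ℝ → G) β z) =
      (-1 : ℝ) ^ p • F.pull (Prod.fst : G × ℝ → G) β z := inv_isDeg ((hβ _).pb _)
  have h2 : (-1 : ℝ) ^ p * (-1) ^ p = 1 := by rw [← mul_pow]; simp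
  rw [pull_snd_th0, smul_mul_assoc, io_mul, h1, mul_smul_comm, smul_mul_assoc,
    smul_comm ((-1 : ℝ) ^ p), smul_smul, smul_smul, mul_assoc, h2, mul_one]

end line

variable {E : Type u} {H : Type w} [NormedAddCommGroup E] [NormedSpace ℝ E] [FiniteDimensional ℝ E]
  [NormedAddCommGroup H] [InnerProductSpace ℝ H] [FiniteDimensional ℝ H]
  {X : Set E} {Q P : E → H →L[ℝ] H} {v : E → H} {r d : ℕ} {R c₀ : ℝ} {e : E → Ext E}
  {τ τ' om : E × H → Ext (E × H)}

theorem OddS.pull_lift (h : OddS X Q r v) (l : E × H → Ext (E × H)) :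
    Eqv (Tot X (Pm Q v) ×ˢ (univ : Set ℝ)) (F.pull (jm v) (lift Q v l))
      (F.pull Prod.fst l * F.pull Prod.snd th0) := by
  have hj := h.smap_jm
  rw [lift, pull_mul']
  have hf : SMap (Tot X (Pm Q v) ×ˢ (univ : Set ℝ)) (Tot X (Pm Q v))
      (Prod.fst : (E × H) × ℝ → E × H) := ⟨fun _ _ => contDiffAt_fst, fun _ hz => hz.1⟩
  have hs : SMap (Tot X (Pm Q v) ×ˢ (univ : Set ℝ)) (univ : Set ℝ)
      (Prod.snd : (E × H) × ℝ → ℝ) := ⟨fun _ _ => contDiffAt_snd, fun _ _ => mem_univ _⟩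
  refine (eqv_pull_pull hj h.smap_bm hf (fun z hz => ?_) l).mul
    (eqv_pull_pull hj h.smap_sg hs (fun z hz => ?_) th0)
  · exact Prod.ext rfl (h.Pm_add hz.1.1 hz.1.2 z.2).1
  · exact (h.Pm_add hz.1.1 hz.1.2 z.2).2.1

set_option maxHeartbeats 1000000 in
/-- **descent of primitives** from `Tot X Q` to `Tot X (Q - v vᵀ)` -/
theorem OddS.descend (h : OddS X Q r v) (hX : Sub d X) {l : E × H → Ext (E × H)} {p : ℕ}
    (hl : Sm (Tot X (Pm Q v)) l) (dl : Hom p l) {M : E × H → Ext (E × H)}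
    (hM : Sm (Tot X Q) M) (hR : 0 ≤ R) (vM : ∀ z, R < ‖z.2‖ → M z = 0)
    (he : Eqv (Tot X Q) (lift Q v l) (F.d M)) :
    ∃ L : E × H → Ext (E × H), Sm (Tot X (Pm Q v)) L ∧ (∀ z, R + 1 < ‖z.2‖ → L z = 0) ∧
      Eqv (Tot X (Pm Q v)) l (F.d L) := by
  set Y := Tot X (Pm Q v) with hY
  have hj := h.smap_jm
  have hYs : Sub (d + (r - 1)) Y := h.pfield.sub_tot hX
  have hYR : Sub (d + (r - 1) + 1) (Y ×ˢ (univ : Set ℝ)) := by
    have := hYs.prod (sub_open (Module.finrank_self ℝ) (isOpen_univ (X := ℝ)))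
    exact this
  have hf : SMap (Y ×ˢ (univ : Set ℝ)) Y (Prod.fst : (E × H) × ℝ → E × H) :=
    ⟨fun _ _ => contDiffAt_fst, fun _ hz => hz.1⟩
  have hs : SMap (Y ×ˢ (univ : Set ℝ)) (univ : Set ℝ)
      (Prod.snd : (E × H) × ℝ → ℝ) := ⟨fun _ _ => contDiffAt_snd, fun _ _ => mem_univ _⟩
  set M1 := F.pull (jm v) M with hM1
  have sM1 : Sm (Y ×ˢ (univ : Set ℝ)) M1 := hM.pull hj
  have hfar : ∀ z ∈ Y ×ˢ (univ : Set ℝ), (R < ‖z.1.2‖ ∨ R < ‖z.2‖) → M1 z = 0 := by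
    intro z hz hh
    refine pull_of_zero (vM _ ?_)
    have h1 := h.norm_add hz.1.1 hz.1.2 z.2
    change R < ‖z.1.2 + z.2 • v z.1.1‖
    by_contra h2
    push Not at h2
    have h3 : ‖z.1.2 + z.2 • v z.1.1‖ ^ 2 ≤ R ^ 2 := by
      nlinarith [norm_nonneg (z.1.2 + z.2 • v z.1.1)]
    rcases hh with hh | hh
    · nlinarith [norm_nonneg z.1.2, sq_nonneg z.2]
    · rw [Real.norm_eq_abs] at hh
      have h4 : z.2 ^ 2 = |z.2| ^ 2 := (sq_abs _).symm
      nlinarith [norm_nonneg z.1.2, abs_nonneg z.2, sq_nonneg ‖z.1.2‖]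
  set M2 := cutH R M1 with hM2
  have sM2 : Sm (Y ×ˢ (univ : Set ℝ)) M2 := sM1.cutH
  have vM2 : Vt (R + 1) M2 := Vt.cutH hR
  have e2 : Eqv (Y ×ˢ (univ : Set ℝ)) M2 M1 := eqv_cutH hR fun z hz hh => hfar z hz (Or.inr hh)
  set A := F.pull (Prod.fst : (E × H) × ℝ → E × H) l * F.pull (Prod.snd : (E × H) × ℝ → ℝ) th0
    with hA
  have sA : Sm (Y ×ˢ (univ : Set ℝ)) A := (hl.pull hf).mul ((sm_th0 _).pull hs)
  have eA : Eqv (Y ×ˢ (univ : Set ℝ)) A (F.d M2) := by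
    refine (h.pull_lift l).symm.trans ((Eqv.pull hj he).trans ?_)
    exact (d_pull_eqv hj hM).symm.trans ((e2.d hYR sM2 sM1).symm)
  have hsnd0 : ∀ z : (E × H) × ℝ, 1 < ‖z.2‖ → F.pull (Prod.snd : (E × H) × ℝ → ℝ) th0 z = 0 :=
    fun z hz => pull_of_zero (th0_zero (le_of_lt hz))
  set B := F.pull (Prod.snd : (E × H) × ℝ → ℝ) th0 * F.pull (Prod.fst : (E × H) × ℝ → E × H) l
    with hB
  have sB : Sm (Y ×ˢ (univ : Set ℝ)) B := ((sm_th0 _).pull hs).mul (hl.pull hf)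
  have vB : Vt (R + 1) B := fun z hz => by
    rw [hB, Pi.mul_apply, hsnd0 z (by linarith), zero_mul]
  have eAB : A = (-1 : ℝ) ^ p • B := funext fun z => mul_snd_th0 dl z
  have e3 : Eqv (Y ×ˢ (univ : Set ℝ)) ((-1 : ℝ) ^ p • B) (F.d M2) := eAB ▸ eA
  have e4 := eqv_pI volume (vB.smul _) (sB.smul _) vM2.d sM2.d e3
  have e5 : ∀ y ∈ Y, pI volume B y = (mL * cL) • l y := fun y hy => by
    have hv : Vt 1 (F.pull (Prod.snd : (E × H) × ℝ → ℝ) th0) := hsnd0
    rw [hB, pI_mul_fst volume (X := Y) hv ((sm_th0 _).pull hs) hy l, pI_snd_th0, Algebra.smul_def]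
  have e6 : Eqv Y (pI volume ((-1 : ℝ) ^ p • B)) (((-1 : ℝ) ^ p * (mL * cL)) • l) :=
    Eqv.of_eq fun y hy => by
      rw [Pi.smul_apply, mul_smul, ← e5 y hy, pI_eq, pI_eq, ← integral_smul]
      refine integral_congr_ae (Eventually.of_forall fun z => ?_)
      change cH _ _ ((-1 : ℝ) ^ p • B (y, z)) = _
      rw [map_smul]
  have e7 : Eqv Y (pI volume (F.d M2)) ((-1 : ℝ) ^ finrank ℝ ℝ • F.d (pI volume M2)) :=
    Eqv.of_eq fun y hy => d_pI volume vM2 sM2 hy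
  have sL0 : Sm Y (pI volume M2) := sm_pI volume vM2 sM2
  have l0 : ∀ z ∈ Y, R < ‖z.2‖ → pI volume M2 z = 0 := by
    intro z hz hh
    rw [pI_eq]
    have h2 : ∀ s : ℝ, M2 (z, s) = 0 := fun s => by
      have h3 : M1 (z, s) = 0 := hfar (z, s) ⟨hz, mem_univ _⟩ (Or.inl hh)
      exact (congrArg (fun c => chi R s • c) h3).trans (smul_zero _)
    refine (integral_congr_ae (g := fun _ : ℝ => (0 : Ext (E × H)))
      (Eventually.of_forall fun s => ?_)).trans (integral_zero _ _)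
    exact (congrArg _ (h2 s)).trans (map_zero _)
  set t : ℝ := ((-1 : ℝ) ^ p * (mL * cL))⁻¹ * (-1 : ℝ) ^ finrank ℝ ℝ with ht
  have hne : (-1 : ℝ) ^ p * (mL * cL) ≠ 0 :=
    mul_ne_zero (pow_ne_zero _ (by norm_num)) (mul_ne_zero mL_pos.ne' cL_ne)
  have sC : Sm Y (cutH R (pI volume M2)) := sL0.cutH
  refine ⟨t • cutH R (pI volume M2), sC.smul _, fun z hz => ?_, ?_⟩
  · have h0 : cutH R (pI volume M2) z = 0 := by
      rw [cutH, chi_zero hR (le_of_lt hz), zero_smul]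
    rw [Pi.smul_apply, h0, smul_zero]
  have e8 : Eqv Y (((-1 : ℝ) ^ p * (mL * cL)) • l) ((-1 : ℝ) ^ finrank ℝ ℝ • F.d (pI volume M2)) :=
    e6.symm.trans (e4.trans e7)
  have e9 := e8.smul ((-1 : ℝ) ^ p * (mL * cL))⁻¹
  rw [smul_smul, inv_mul_cancel₀ hne, one_smul, smul_smul, ← ht] at e9
  have e10 : Eqv Y (cutH R (pI volume M2)) (pI volume M2) := eqv_cutH hR l0
  refine e9.trans ?_
  exact ((e10.d hYs sC sL0).symm.smul t).trans (d_smul_eqv t sC).symm

end Crest.Agent.R208.GQ
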