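import Crest.Agent.R208.TX1

/-! Row 208, block T (helper316).  TX1b: fibre integral of closed forms on `Sph X P`, full Gysin
sequence. -/

set_option autoImplicit false
set_option linter.unusedSectionVars false

open MeasureTheory Set Filter Topology Module
open scoped ContDiff
open Crest.Agent.R208.F Crest.Agent.R208.FI Crest.Agent.R208.CW

noncomputable section

namespace Crest.Agent.R208.T

universe u w

variable {E : Type u} {H : Type w} [NormedAddCommGroup E] [NormedSpace ℝ E] [FiniteDimensional ℝ E]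
  [NormedAddCommGroup H] [InnerProductSpace ℝ H] [FiniteDimensional ℝ H]
  {X : Set E} {P : E → H →L[ℝ] H} {r d j : ℕ} {R c₀ : ℝ} {e : E → Ext E}
  {τ τ' b b' : E × H → Ext (E × H)}

theorem rx_sub (b b' : E × H → Ext (E × H)) : rx (b - b') = rx b - rx b' := by
  funext z
  rw [rx, pull_sub', Pi.sub_apply, smul_sub]; rfl

theorem rx_smul (t : ℝ) (b : E × H → Ext (E × H)) : rx (t • b) = t • rx b := by
  funext z
  rw [rx, pull_smul', Pi.smul_apply, smul_comm]; rfl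

theorem cutH_sub (R : ℝ) (b b' : E × H → Ext (E × H)) : cutH R (b - b') = cutH R b - cutH R b' := by
  funext z; simp only [cutH, Pi.sub_apply, smul_sub]

theorem cutH_smul (R t : ℝ) (b : E × H → Ext (E × H)) : cutH R (t • b) = t • cutH R b := by
  funext z; simp only [cutH, Pi.smul_apply]; rw [smul_comm]

theorem cutH_mul (R : ℝ) (b b' : E × H → Ext (E × H)) : cutH R (b * b') = cutH R b * b' := by
  funext z; simp only [cutH, Pi.mul_apply, smul_mul_assoc]

theorem eqv_cut {X' : Set (E × H)} {R : ℝ} (h : Eqv X' b b') : Eqv X' (cutH R b) (cutH R b') :=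
  eqv_iff.2 fun z hz => by
    rw [cutH, cutH, map_smul, map_smul, eqv_iff.1 h z hz]

/-- `rx (b * pull fst β) = rx b * pull fst β` -/
theorem rx_mul_fst (b : E × H → Ext (E × H)) (β : E → Ext E) :
    rx (b * F.pull (Prod.fst : E × H → E) β) = rx b * F.pull (Prod.fst : E × H → E) β := by
  funext z
  rw [rx, Pi.mul_apply, rx]
  by_cases hz : z.2 = 0
  · rw [hz, kp_zero (by simp), zero_smul, zero_smul, zero_mul]
  · have h1 : DifferentiableAt ℝ (rh (E := E) (H := H)) z := by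
      have h2 : ContDiffAt ℝ ∞ (fun z : E × H => ‖z.2‖) z :=
        (contDiffAt_norm ℝ hz).comp z contDiffAt_snd
      exact (contDiffAt_fst.prodMk ((h2.inv (norm_ne_zero_iff.2 hz)).smul
        contDiffAt_snd)).differentiableAt (by simp)
    have h3 : F.pull rh (F.pull (Prod.fst : E × H → E) β) z = F.pull Prod.fst β z :=
      (F.pull_comp (g := (Prod.fst : E × H → E)) h1 differentiableAt_fst).trans rfl
    rw [pull_mul', Pi.mul_apply, h3, smul_mul_assoc]

variable [MeasurableSpace H] [BorelSpace H] (μ : Measure H) [μ.IsAddHaarMeasure]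

/-- fibre integral of a closed form on the sphere bundle -/
def fi (P : E → H →L[ℝ] H) (τ' b : E × H → Ext (E × H)) : E → Ext E :=
  pT μ P τ' (cutH 1 (F.d (rx b)))

theorem fi_csf (hX : Sub d X) (hP : PField X r P) (hb : Sm (Sph X P) b) (hc : Cl (Sph X P) b) :
    CSF X P (max R 2) (cutH 1 (F.d (rx b))) ∧ Eqv (Tot X P) (cutH 1 (F.d (rx b))) (F.d (rx b)) := by
  have e0 : Eqv (Tot X P ∩ {z | 1 < ‖z.2‖}) (F.d (rx b)) 0 := by
    refine (d_rx hb).trans ?_
    have := Eqv.pull (smap_rh') (resZero_iff.1 hc)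
    rwa [pull_zero'] at this
  exact ⟨(csf_cutH hX hP zero_le_one hb.rx.d (d_d' hb.rx) e0).mono (by norm_num),
    eqv_cutH' zero_le_one e0⟩

theorem hom_fi {i : ℕ} (hr : r ≤ finrank ℝ H) (hd' : ∀ z, IsDeg (finrank ℝ H - r) (τ' z))
    (hj : j + 1 = i + r) (hd : Hom j b) : Hom i (fi μ P τ' b) :=
  hom_pT μ hr hd' (Hom.cutH (hj ▸ Hom.d hd.rx))

theorem fi_eq_zero (hr : r ≤ finrank ℝ H) (hd' : ∀ z, IsDeg (finrank ℝ H - r) (τ' z))
    (hj : j + 1 < r) (hd : Hom j b) : fi μ P τ' b = 0 :=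
  pT_eq_zero μ hr hd' (Hom.cutH (Hom.d hd.rx)) hj

theorem sm_cl_fi (hX : Sub d X) (hP : PField X r P) (hT : ThomPair μ X P r R c₀ e τ τ')
    (hb : Sm (Sph X P) b) (hc : Cl (Sph X P) b) :
    Sm X (fi μ P τ' b) ∧ Cl X (fi μ P τ' b) := by
  have hR0 : 0 ≤ max R 2 := le_trans (by norm_num) (le_max_right R 2)
  have h := thom μ hX hP (hT.mono (le_max_left R 2)) hR0 (fi_csf (R := R) hX hP hb hc).1
  exact ⟨h.1, h.2.1⟩

theorem fi_smul (t : ℝ) (b : E × H → Ext (E × H)) (hX : Sub d X) (hP : PField X r P)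
    (hT : ThomPair μ X P r R c₀ e τ τ') (hb : Sm (Sph X P) b) (hc : Cl (Sph X P) b) :
    Eqv X (fi μ P τ' (t • b)) (t • fi μ P τ' b) := by
  rw [fi, fi, ← pT_smul, ← cutH_smul]
  have h1 := (fi_csf (R := R) hX hP hb hc).1
  have h2 := (fi_csf (R := R) hX hP (hb.smul t) (Cl.smul t hb hc)).1
  have h3 : CSF X P (max R 2) (cutH 1 (t • F.d (rx b))) := by
    rw [cutH_smul]
    exact ⟨h1.smooth.smul t, fun z hz => by rw [Pi.smul_apply, h1.supp z hz, smul_zero],
      Cl.smul t h1.smooth h1.closed⟩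
  refine pT_eqv μ hP (hT.mono (le_max_left R 2)).csf' h2.smooth h2.supp h3.smooth h3.supp
    (eqv_cut ?_)
  rw [rx_smul]
  exact d_smul_eqv t hb.rx

theorem fi_sub (hX : Sub d X) (hP : PField X r P)
    (hT : ThomPair μ X P r R c₀ e τ τ') (hb : Sm (Sph X P) b) (hc : Cl (Sph X P) b)
    (hb' : Sm (Sph X P) b') (hc' : Cl (Sph X P) b') :
    Eqv X (fi μ P τ' (b - b')) (fi μ P τ' b - fi μ P τ' b') := by
  have h1 := (fi_csf (R := R) hX hP hb hc).1
  have h1' := (fi_csf (R := R) hX hP hb' hc').1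
  have h2 := (fi_csf (R := R) hX hP (hb.sub hb') (Cl.sub hb hb' hc hc')).1
  have hT' := (hT.mono (le_max_left R 2)).csf'
  refine (pT_eqv μ hP hT' h2.smooth h2.supp (h1.smooth.sub h1'.smooth)
    (Vt.sub (h1.supp : Vt _ _) h1'.supp) ?_).trans
    (pT_sub μ hP hT' h1.smooth h1.supp h1'.smooth h1'.supp)
  rw [← cutH_sub]
  refine eqv_cut ?_
  rw [rx_sub]
  exact d_sub_eqv hb.rx hb'.rx

/-- projection formula -/
theorem fi_mul (hX : Sub d X) (hP : PField X r P)
    (hT : ThomPair μ X P r R c₀ e τ τ') (hb : Sm (Sph X P) b) (hc : Cl (Sph X P) b)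
    {β : E → Ext E} (sβ : Sm X β) (cβ : Cl X β) :
    Eqv X (fi μ P τ' (b * F.pull Prod.fst β)) (fi μ P τ' b * β) := by
  have h1 := (fi_csf (R := R) hX hP hb hc).1
  have sβ1 : Sm (Sph X P) (F.pull Prod.fst β) := sβ.pull smap_fstS
  have cβ1 : Cl (Sph X P) (F.pull Prod.fst β) := cβ.pull smap_fstS sβ
  have sβ2 : Sm (Tot X P) (F.pull Prod.fst β) := sβ.pull smap_fst'
  have cβ2 : Cl (Tot X P) (F.pull Prod.fst β) := cβ.pull smap_fst' sβ
  have h2 := (fi_csf (R := R) hX hP (hb.mul sβ1) (Cl.mul hb sβ1 hc cβ1)).1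
  have hT' := (hT.mono (le_max_left R 2)).csf'
  refine (pT_eqv μ hP hT' h2.smooth h2.supp (h1.smooth.mul sβ2)
    (Vt.mul_right (h1.supp : Vt _ _) _) ?_).trans
    (pT_mul μ hP hT' h1.smooth h1.supp β)
  rw [← cutH_mul]
  refine eqv_cut ?_
  rw [rx_mul_fst]
  refine (d_mul_eqv hb.rx sβ2).trans ?_
  have a4 : Eqv (Tot X P) (F.d (F.pull (Prod.fst : E × H → E) β)) 0 := resZero_iff.1 cβ2
  have a7 := ((Eqv.refl (F.d (rx b) * F.pull (Prod.fst : E × H → E) β)).add
      ((Eqv.refl (fun x => F.inv (rx b x))).mul a4))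
  rwa [mul_zero, add_zero] at a7

set_option maxHeartbeats 1000000 in
/-- exact forms have exact fibre integral -/
theorem fi_exact (hX : Sub d X) (hP : PField X r P)
    (hT : ThomPair μ X P r R c₀ e τ τ') (hb : Sm (Sph X P) b) (hc : Cl (Sph X P) b)
    (h : Coh (Sph X P) b 0) : Coh X (fi μ P τ' b) 0 := by
  obtain ⟨ν, sν, eν⟩ := h
  rw [sub_zero] at eν
  have hsub : Sub (d + r) (Tot X P) := hP.sub_tot hX
  obtain ⟨h1, h2⟩ := fi_csf (R := R) hX hP hb hc
  have hT' := hT.mono (le_max_left R 2)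
  set L' := rx b - F.d (rx ν) with hL'
  have sL' : Sm (Tot X P) L' := hb.rx.sub sν.rx.d
  have l0 : Eqv (Tot X P ∩ {z | 1 < ‖z.2‖}) L' 0 := by
    have a1 : Eqv (Tot X P ∩ {z | 1 < ‖z.2‖}) (rx b) (F.pull rh b) :=
      Eqv.of_eq fun z hz => (rx_near_out b hz.2).eq_of_nhds
    have a3 := a1.trans ((Eqv.pull smap_rh' eν).trans (d_rx sν).symm)
    have := a3.sub (Eqv.refl (F.d (rx ν)))
    rwa [sub_self] at this
  have sL1 : Sm (Tot X P) (cutH 1 L') := sL'.cutH
  have eL1 : Eqv (Tot X P) (cutH 1 L') L' := eqv_cutH' zero_le_one l0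
  have vL1 : Vt (max R 2) (cutH 1 L') := (Vt.cutH zero_le_one).mono (by norm_num)
  refine pT_exact μ hP hX hT'.csf' hT.deg' sL1 vL1 h1.smooth h1.supp ?_
  refine h2.trans (Eqv.symm ((eL1.d hsub sL1 sL').trans ((d_sub_eqv hb.rx sν.rx.d).trans ?_)))
  have a5 : Eqv (Tot X P) (F.d (F.d (rx ν))) 0 := resZero_iff.1 (d_d' sν.rx)
  have := (Eqv.refl (F.d (rx b))).sub a5
  rwa [sub_zero] at this

theorem fi_coh (hX : Sub d X) (hP : PField X r P)
    (hT : ThomPair μ X P r R c₀ e τ τ') (hb : Sm (Sph X P) b) (hc : Cl (Sph X P) b)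
    (hb' : Sm (Sph X P) b') (hc' : Cl (Sph X P) b') (h : Coh (Sph X P) b b') :
    Coh X (fi μ P τ' b) (fi μ P τ' b') := by
  have h0 := h.sub (Coh.refl b')
  rw [sub_self] at h0
  have h1 := fi_exact μ hX hP hT (hb.sub hb') (Cl.sub hb hb' hc hc') h0
  have h2 := (Coh.of_eqv (fi_sub μ hX hP hT hb hc hb' hc')).symm.trans h1
  have h3 := h2.add (Coh.refl (fi μ P τ' b'))
  rwa [sub_add_cancel, zero_add] at h3

set_option maxHeartbeats 1000000 in
/-- the fibre integral times the Euler form is exact -/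
theorem fi_mul_euler (hX : Sub d X) (hP : PField X r P)
    (hT : ThomPair μ X P r R c₀ e τ τ') (hb : Sm (Sph X P) b) (hc : Cl (Sph X P) b) :
    Coh X (fi μ P τ' b * e) 0 := by
  obtain ⟨h1, h2⟩ := fi_csf (R := R) hX hP hb hc
  have hT' := hT.mono (le_max_left R 2)
  have hR0 : 0 ≤ max R 2 := le_trans (by norm_num) (le_max_right R 2)
  obtain ⟨sc, cc, L, sL, -, eL⟩ := thom μ hX hP hT' hR0 h1
  have k1 : Coh (Tot X P) (c₀ • cutH 1 (F.d (rx b))) (F.pull Prod.fst (fi μ P τ' b) * τ) :=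
    ⟨L, sL, eL⟩
  have k2 := k1.pull (smap_zs (X := X) (P := P))
  rw [pull_smul', pull_mul'] at k2
  have k3 : Eqv X (F.pull zs (cutH 1 (F.d (rx b)))) 0 := by
    refine (Eqv.pull smap_zs h2).trans (Eqv.of_eq fun x _ => ?_)
    refine pull_of_zero ?_
    have : rx b =ᶠ[𝓝 (zs (E := E) (H := H) x)] fun _ => 0 := rx_near_zero b (by rw [zs]; simp)
    rw [F.d_congr this, F.d_const]
  have k4 : Eqv X (F.pull zs (F.pull (Prod.fst : E × H → E) (fi μ P τ' b))) (fi μ P τ' b) :=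
    (eqv_pull_pull smap_zs (smap_fst' (X := X) (P := P)) (SMap.id X) (fun _ _ => rfl) _).trans
      (Eqv.of_eq fun x _ => F.pull_id _ x)
  have k5 := (Coh.of_eqv ((k3.smul c₀))).symm.trans (k2.trans (Coh.of_eqv (k4.mul hT.zero)))
  rw [smul_zero] at k5
  exact k5.symm

set_option maxHeartbeats 1000000 in
/-- **full Gysin**: a closed form on the sphere bundle with exact fibre integral comes from the
base. -/
theorem sph_of_fi (hX : Sub d X) (hP : PField X r P) (hT : ThomPair μ X P r R c₀ e τ τ')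
    (hb : Sm (Sph X P) b) (hc : Cl (Sph X P) b) (hd : Hom j b)
    (h0 : Coh X (fi μ P τ' b) 0) :
    ∃ c : E → Ext E, Sm X c ∧ Cl X c ∧ Hom j c ∧ Coh (Sph X P) b (F.pull Prod.fst c) := by
  obtain ⟨lam, slam, elam⟩ := h0
  rw [sub_zero] at elam
  set a := rx b with ha
  have sa : Sm (Tot X P) a := hb.rx
  obtain ⟨hom2, he⟩ := fi_csf (R := R) hX hP hb hc
  set om := cutH 1 (F.d a) with hom
  set R' := max R 2 with hR'
  have hR0 : 0 ≤ R' := le_trans (by norm_num) (le_max_right R 2)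
  have hT' := hT.mono (le_max_left R 2)
  obtain ⟨-, -, L0, sL0, vL0, eL0⟩ := thom μ hX hP hT' hR0 hom2
  set L := L0 + F.pull (Prod.fst : E × H → E) lam * τ with hL
  have sl1 : Sm (Tot X P) (F.pull (Prod.fst : E × H → E) lam) := slam.pull smap_fst'
  have sL : Sm (Tot X P) L := sL0.add (sl1.mul hT.csf.smooth)
  have vL : ∀ z, 2 * R' + 1 < ‖z.2‖ → L z = 0 := fun z hz => by
    rw [hL, Pi.add_apply, vL0 z hz, Pi.mul_apply, hT'.csf.supp z (by linarith), mul_zero, add_zero]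
  have eL2 : Eqv (Tot X P) (c₀ • om) (F.d L) := by
    have a1 := d_add_eqv sL0 (sl1.mul hT.csf.smooth)
    have a2 := d_mul_eqv sl1 hT.csf.smooth
    have a3 : Eqv (Tot X P) (F.d τ) 0 := resZero_iff.1 hT.csf.closed
    have a4 : Eqv (Tot X P) (F.d (F.pull (Prod.fst : E × H → E) lam))
        (F.pull Prod.fst (fi μ P τ' b)) :=
      (d_pull_eqv smap_fst' slam).trans (elam.symm.pull smap_fst')
    have a5 := (a4.mul (Eqv.refl τ)).add
      ((Eqv.refl (fun x => F.inv (F.pull (Prod.fst : E × H → E) lam x))).mul a3)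
    rw [mul_zero, add_zero] at a5
    have a6 := a1.trans (eL0.symm.add (a2.trans a5))
    have a7 : c₀ • om - F.pull Prod.fst (pI μ (thE' P τ' om)) * τ +
        F.pull Prod.fst (fi μ P τ' b) * τ = c₀ • om := sub_add_cancel _ _
    rw [a7] at a6
    exact a6.symm
  set ξ := c₀ • a - L with hξ
  have sξ : Sm (Tot X P) ξ := (sa.smul c₀).sub sL
  have cξ : Cl (Tot X P) ξ := by
    rw [Cl, resZero_iff]
    refine (d_sub_eqv (sa.smul c₀) sL).trans ?_
    have h1 : Eqv (Tot X P) (F.d (c₀ • a)) (F.d L) :=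
      (d_smul_eqv c₀ sa).trans ((he.symm.smul c₀).trans eL2)
    have := h1.sub (Eqv.refl (F.d L))
    rwa [sub_self] at this
  have k1 := coh_z0 sξ cξ
  -- the sphere of radius `2 R' + 2`
  set ρ : ℝ := 2 * R' + 2 with hρ
  have hρ1 : 1 < ρ := by rw [hρ]; linarith
  let s : E × H → E × H := fun z => (z.1, ρ • z.2)
  have hs : SMap (Sph X P) (Tot X P ∩ {z | 1 < ‖z.2‖}) s := by
    refine ⟨fun z _ => by fun_prop, fun z hz => ⟨⟨hz.1.1, ?_⟩, ?_⟩⟩
    · change P z.1 (ρ • z.2) = ρ • z.2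
      rw [map_smul, hz.1.2]
    · change 1 < ‖ρ • z.2‖
      rw [norm_smul, hz.2, mul_one, Real.norm_of_nonneg (by linarith)]
      exact hρ1
  have hs' : SMap (Sph X P) (Tot X P) s := ⟨hs.smooth, fun z hz => (hs.maps hz).1⟩
  have k2 := k1.pull hs'
  have k3 : Eqv (Sph X P) (F.pull s ξ) (c₀ • b) := by
    rw [hξ, pull_sub', pull_smul']
    have h1 : Eqv (Sph X P) (F.pull s L) 0 := Eqv.of_eq fun z hz => by
      refine pull_of_zero (vL _ ?_)
      change 2 * R' + 1 < ‖ρ • z.2‖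
      rw [norm_smul, hz.2, mul_one, Real.norm_of_nonneg (by linarith), hρ]
      linarith
    have h2 : Eqv (Sph X P) (F.pull s a) b := by
      have h3 : Eqv (Sph X P) (F.pull s a) (F.pull s (F.pull rh b)) := Eqv.of_eq fun z hz => by
        rw [F.pull, F.pull, ha, (rx_near_out b (hs.maps hz).2).eq_of_nhds]
      refine h3.trans ((eqv_pull_pull hs (smap_rh') (SMap.id _) (fun z hz => ?_) b).trans
        (Eqv.of_eq fun z _ => F.pull_id b z))
      refine Prod.ext rfl ?_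
      change ‖ρ • z.2‖⁻¹ • (ρ • z.2) = z.2
      rw [norm_smul, hz.2, mul_one, Real.norm_of_nonneg (by linarith), smul_smul,
        inv_mul_cancel₀ (by linarith), one_smul]
    have := (h2.smul c₀).sub h1
    rwa [sub_zero] at this
  have k4 : Eqv (Sph X P) (F.pull s (F.pull z0 ξ)) (F.pull Prod.fst (F.pull zs ξ)) := by
    have h1 : SMap (Sph X P) (Tot X P) (z0 (E := E) (H := H)) :=
      ⟨fun _ _ => contDiffAt_fst.prodMk contDiffAt_const, fun z hz => ⟨hz.1.1, map_zero (P z.1)⟩⟩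
    exact (eqv_pull_pull hs' smap_z0 h1 (fun _ _ => rfl) ξ).trans
      (eqv_pull_pull smap_fstS smap_zs h1 (fun _ _ => rfl) ξ).symm
  have k5 : Coh (Sph X P) (c₀ • b) (F.pull Prod.fst (F.pull zs ξ)) :=
    (Coh.of_eqv k3.symm).trans (k2.trans (Coh.of_eqv k4))
  have k6 := (k5.smul c₀⁻¹).dp j
  have h7 : c₀⁻¹ • c₀ • b = b := by rw [smul_smul, inv_mul_cancel₀ hT.ne, one_smul]
  rw [h7, hd.dp_eq, ← pull_smul', dp_pull] at k6
  have s1 : Sm X (c₀⁻¹ • F.pull zs ξ) := (sξ.pull smap_zs).smul _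
  exact ⟨dp j (c₀⁻¹ • F.pull zs ξ), s1.dp j,
    Cl.dp j s1 (Cl.smul _ (sξ.pull smap_zs) (cξ.pull smap_zs sξ)), hom_dp _ _, k6⟩

end Crest.Agent.R208.T
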