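import Crest.Agent.R208.GQ2b
import Crest.Agent.R208.TX1b

/-! Row 208, block GQ (helper989), part GQ2c: fibre integral for sphere bundles of odd rank
`P = Q - v vᵀ`, Leray–Hirsch. -/

set_option autoImplicit false
set_option linter.unusedSectionVars false
set_option linter.unusedVariables false

open MeasureTheory Set Filter Topology Module
open scoped ContDiff RealInnerProductSpace
open Crest.Agent.R208.F Crest.Agent.R208.FI Crest.Agent.R208.CW Crest.Agent.R208.T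

noncomputable section

namespace Crest.Agent.R208.GQ

universe u w

variable {E : Type u} {H : Type w} [NormedAddCommGroup E] [NormedSpace ℝ E] [FiniteDimensional ℝ E]
  [NormedAddCommGroup H] [InnerProductSpace ℝ H] [FiniteDimensional ℝ H]
  {X : Set E} {Q P : E → H →L[ℝ] H} {v : E → H} {r d j : ℕ} {R c₀ : ℝ} {e : E → Ext E}
  {τ τ' om b b' : E × H → Ext (E × H)}

/-- compactly supported representative of `P^* d(rx b) ∧ ρ ds` -/
def om2 (Q : E → H →L[ℝ] H) (v : E → H) (b : E × H → Ext (E × H)) : E × H → Ext (E × H) :=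
  cutH 3 (lift Q v (cutH 1 (F.d (rx b))))

theorem OddS.far3 (h : OddS X Q r v) {l : E × H → Ext (E × H)} (hl : ∀ z, 2 < ‖z.2‖ → l z = 0) :
    Eqv (Tot X Q ∩ {z | 3 < ‖z.2‖}) (lift Q v l) 0 := by
  have h1 : Eqv (Tot X (Pm Q v) ∩ {z | (2 : ℝ) < ‖z.2‖}) l 0 :=
    Eqv.of_eq fun z hz => hl z hz.2
  have h2 := h.lift_far h1 (by norm_num)
  norm_num at h2
  exact h2

theorem OddS.om2_spec [MeasurableSpace H] [BorelSpace H] (h : OddS X Q r v) (hX : Sub d X) (hb : Sm (Sph X (Pm Q v)) b)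
    (hc : Cl (Sph X (Pm Q v)) b) :
    CSF X Q (max R 4) (om2 Q v b) ∧ Eqv (Tot X Q) (om2 Q v b) (lift Q v (F.d (rx b))) := by
  obtain ⟨h1, h2⟩ := fi_csf (R := 0) hX h.pfield hb hc
  set l := cutH 1 (F.d (rx b)) with hl
  have hv : ∀ z, 2 < ‖z.2‖ → l z = 0 := fun z hz => by
    rw [hl, cutH, chi_zero zero_le_one (by linarith), zero_smul]
  have f3 := h.far3 hv
  have s1 := h.sm_lift h1.smooth
  have c1 := h.cl_lift h1.smooth h1.closed
  refine ⟨(csf_cutH hX h.pf (by norm_num) s1 c1 f3).mono (by norm_num), ?_⟩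
  exact (eqv_cutH' (by norm_num) f3).trans (h.eqv_lift h2)

theorem hom_lift {l : E × H → Ext (E × H)} (hl : Hom j l) : Hom (j + 1) (lift Q v l) :=
  Hom.mul (Hom.pull hl) hom_thf

theorem hom_om2 (hd : Hom j b) : Hom (j + 2) (om2 Q v b) :=
  Hom.cutH (hom_lift (Hom.cutH (Hom.d hd.rx)))

theorem mul_thf {p : ℕ} {c : Ext (E × H)} (hc : IsDeg p c) (z : E × H) :
    c * thf v z = (-1 : ℝ) ^ p • (thf v z * c) := by
  have h1 : F.inv c = (-1 : ℝ) ^ p • c := inv_isDeg hc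
  have h2 : (-1 : ℝ) ^ p * (-1) ^ p = 1 := by rw [← mul_pow]; simp
  rw [thf, F.pull, th0, map_smul, pb_io, smul_mul_assoc, io_mul, h1, mul_smul_comm, smul_mul_assoc,
    smul_comm ((-1 : ℝ) ^ p), smul_smul, smul_smul, mul_assoc, h2, mul_one]

/-- `lift (l * π^*β) = (-1)^p lift l * π^*β` -/
theorem OddS.lift_mul_fst (h : OddS X Q r v) (l : E × H → Ext (E × H)) {β : E → Ext E} {p : ℕ}
    (hβ : Hom p β) :
    Eqv (Tot X Q) (lift Q v (l * F.pull Prod.fst β))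
      ((-1 : ℝ) ^ p • (lift Q v l * F.pull Prod.fst β)) := by
  refine Eqv.of_eq fun z hz => ?_
  have h2 : F.pull (bet (Pm Q v)) (F.pull (Prod.fst : E × H → E) β) z =
      F.pull (fun z => (bet (Pm Q v) z).1) β z :=
    F.pull_comp (h.smap_bm.diff hz) differentiableAt_fst
  have h3 : (fun z : E × H => (bet (Pm Q v) z).1) = Prod.fst := rfl
  rw [h3] at h2
  have h5 : F.pull (Prod.fst : E × H → E) β z * thf v z =
      (-1 : ℝ) ^ p • (thf v z * F.pull (Prod.fst : E × H → E) β z) := mul_thf ((hβ _).pb _) z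
  rw [lift, Pi.mul_apply, pull_mul', Pi.mul_apply, h2, mul_assoc, h5, Pi.smul_apply, Pi.mul_apply,
    lift, Pi.mul_apply, mul_smul_comm, mul_assoc]

theorem d_mul_closed {G : Type*} [NormedAddCommGroup G] [NormedSpace ℝ G] [FiniteDimensional ℝ G]
    {Y : Set G} {f g : G → Ext G} (hf : Sm Y f) (hg : Sm Y g) (h0 : Eqv Y (F.d g) 0) :
    Eqv Y (F.d (f * g)) (F.d f * g) := by
  refine (d_mul_eqv hf hg).trans ?_
  have a7 := (Eqv.refl (F.d f * g)).add ((Eqv.refl (fun x => F.inv (f x))).mul h0)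
  rwa [mul_zero, add_zero] at a7

variable [MeasurableSpace H] [BorelSpace H] (μ : Measure H) [μ.IsAddHaarMeasure]

/-- fibre integral of a closed form on the sphere bundle of `Q - v vᵀ` -/
def fo (Q : E → H →L[ℝ] H) (v : E → H) (τ' b : E × H → Ext (E × H)) : E → Ext E :=
  pT μ Q τ' (om2 Q v b)

theorem hom_fo {i : ℕ} (hr : r ≤ finrank ℝ H) (hd' : ∀ z, IsDeg (finrank ℝ H - r) (τ' z))
    (hj : j + 2 = i + r) (hd : Hom j b) : Hom i (fo μ Q v τ' b) :=
  hom_pT μ hr hd' (hj ▸ hom_om2 hd)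

theorem fo_eq_zero (hr : r ≤ finrank ℝ H) (hd' : ∀ z, IsDeg (finrank ℝ H - r) (τ' z))
    (hj : j + 2 < r) (hd : Hom j b) : fo μ Q v τ' b = 0 :=
  pT_eq_zero μ hr hd' (hom_om2 hd) hj

section props
variable (h : OddS X Q r v) (hX : Sub d X) (hT : ThomPair μ X Q r R c₀ e τ τ')
include h hX hT

theorem OddS.sm_cl_fo (hb : Sm (Sph X (Pm Q v)) b) (hc : Cl (Sph X (Pm Q v)) b) :
    Sm X (fo μ Q v τ' b) ∧ Cl X (fo μ Q v τ' b) := by
  have hR0 : 0 ≤ max R 4 := le_trans (by norm_num) (le_max_right R 4)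
  have h := thom μ hX h.pf (hT.mono (le_max_left R 4)) hR0 (h.om2_spec (R := R) hX hb hc).1
  exact ⟨h.1, h.2.1⟩

theorem OddS.fo_smul (t : ℝ) (hb : Sm (Sph X (Pm Q v)) b) (hc : Cl (Sph X (Pm Q v)) b) :
    Eqv X (fo μ Q v τ' (t • b)) (t • fo μ Q v τ' b) := by
  rw [fo, fo, ← pT_smul]
  have h1 := h.om2_spec (R := R) hX hb hc
  have h2 := h.om2_spec (R := R) hX (hb.smul t) (Cl.smul t hb hc)
  refine pT_eqv μ h.pf (hT.mono (le_max_left R 4)).csf' h2.1.smooth h2.1.supp (h1.1.smooth.smul t)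
    (fun z hz => by rw [Pi.smul_apply, h1.1.supp z hz, smul_zero]) ?_
  refine h2.2.trans (Eqv.trans ?_ (h1.2.symm.smul t))
  rw [← lift_smul, rx_smul]
  exact h.eqv_lift (d_smul_eqv t hb.rx)

theorem OddS.fo_sub (hb : Sm (Sph X (Pm Q v)) b) (hc : Cl (Sph X (Pm Q v)) b)
    (hb' : Sm (Sph X (Pm Q v)) b') (hc' : Cl (Sph X (Pm Q v)) b') :
    Eqv X (fo μ Q v τ' (b - b')) (fo μ Q v τ' b - fo μ Q v τ' b') := by
  have h1 := h.om2_spec (R := R) hX hb hc
  have h1' := h.om2_spec (R := R) hX hb' hc'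
  have h2 := h.om2_spec (R := R) hX (hb.sub hb') (Cl.sub hb hb' hc hc')
  have hT' := (hT.mono (le_max_left R 4)).csf'
  refine (pT_eqv μ h.pf hT' h2.1.smooth h2.1.supp (h1.1.smooth.sub h1'.1.smooth)
    (Vt.sub (h1.1.supp : Vt _ _) h1'.1.supp) ?_).trans
    (pT_sub μ h.pf hT' h1.1.smooth h1.1.supp h1'.1.smooth h1'.1.supp)
  refine h2.2.trans (Eqv.trans ?_ (h1.2.symm.sub h1'.2.symm))
  rw [← lift_sub, rx_sub]
  exact h.eqv_lift (d_sub_eqv hb.rx hb'.rx)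

/-- projection formula -/
theorem OddS.fo_mul (hb : Sm (Sph X (Pm Q v)) b) (hc : Cl (Sph X (Pm Q v)) b)
    {β : E → Ext E} (sβ : Sm X β) (cβ : Cl X β) {p : ℕ} (dβ : Hom p β) :
    Eqv X (fo μ Q v τ' (b * F.pull Prod.fst β)) ((-1 : ℝ) ^ p • (fo μ Q v τ' b * β)) := by
  have h1 := h.om2_spec (R := R) hX hb hc
  have sβ1 : Sm (Sph X (Pm Q v)) (F.pull Prod.fst β) := sβ.pull smap_fstS
  have cβ1 : Cl (Sph X (Pm Q v)) (F.pull Prod.fst β) := cβ.pull smap_fstS sβ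
  have sβ2 : Sm (Tot X (Pm Q v)) (F.pull Prod.fst β) := sβ.pull smap_fst'
  have cβ2 : Cl (Tot X (Pm Q v)) (F.pull Prod.fst β) := cβ.pull smap_fst' sβ
  have sβ3 : Sm (Tot X Q) (F.pull Prod.fst β) := sβ.pull smap_fst'
  have h2 := h.om2_spec (R := R) hX (hb.mul sβ1) (Cl.mul hb sβ1 hc cβ1)
  have hT' := (hT.mono (le_max_left R 4)).csf'
  have e1 : Eqv (Tot X (Pm Q v)) (F.d (rx b * F.pull (Prod.fst : E × H → E) β))
      (F.d (rx b) * F.pull (Prod.fst : E × H → E) β) := by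
    have a4 : Eqv (Tot X (Pm Q v)) (F.d (F.pull (Prod.fst : E × H → E) β)) 0 := resZero_iff.1 cβ2
    exact d_mul_closed hb.rx sβ2 a4
  have e2 : Eqv (Tot X Q) (om2 Q v (b * F.pull Prod.fst β))
      ((-1 : ℝ) ^ p • (om2 Q v b * F.pull Prod.fst β)) := by
    refine h2.2.trans ?_
    rw [rx_mul_fst]
    refine (h.eqv_lift e1).trans ((h.lift_mul_fst _ dβ).trans ?_)
    have e3 : Eqv (Tot X Q) (lift Q v (F.d (rx b)) * F.pull (Prod.fst : E × H → E) β)
        (om2 Q v b * F.pull (Prod.fst : E × H → E) β) := h1.2.symm.mul (Eqv.refl _)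
    exact e3.smul _
  have s3 : Sm (Tot X Q) (om2 Q v b * F.pull Prod.fst β) := h1.1.smooth.mul sβ3
  have v3 : Vt (max R 4) (om2 Q v b * F.pull (Prod.fst : E × H → E) β) :=
    Vt.mul_right (h1.1.supp : Vt _ _) _
  have e4 := pT_eqv μ h.pf hT' h2.1.smooth h2.1.supp (s3.smul _) (v3.smul _) e2
  rw [pT_smul] at e4
  have e5 := pT_mul μ h.pf hT' h1.1.smooth h1.1.supp β
  exact e4.trans (e5.smul _)

set_option maxHeartbeats 1000000 in
/-- exact forms have exact fibre integral -/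
theorem OddS.fo_exact (hb : Sm (Sph X (Pm Q v)) b) (hc : Cl (Sph X (Pm Q v)) b)
    (h0 : Coh (Sph X (Pm Q v)) b 0) : Coh X (fo μ Q v τ' b) 0 := by
  obtain ⟨ν, sν, eν⟩ := h0
  rw [sub_zero] at eν
  have hP := h.pfield
  have hsub : Sub (d + (r - 1)) (Tot X (Pm Q v)) := hP.sub_tot hX
  have hsubQ : Sub (d + r) (Tot X Q) := h.pf.sub_tot hX
  obtain ⟨h1, h2⟩ := h.om2_spec (R := R) hX hb hc
  have hT' := hT.mono (le_max_left R 4)
  set L' := rx b - F.d (rx ν) with hL'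
  have sL' : Sm (Tot X (Pm Q v)) L' := hb.rx.sub sν.rx.d
  have l0 : Eqv (Tot X (Pm Q v) ∩ {z | 1 < ‖z.2‖}) L' 0 := by
    have a1 : Eqv (Tot X (Pm Q v) ∩ {z | 1 < ‖z.2‖}) (rx b) (F.pull rh b) :=
      Eqv.of_eq fun z hz => (rx_near_out b hz.2).eq_of_nhds
    have a3 := a1.trans ((Eqv.pull smap_rh' eν).trans (d_rx sν).symm)
    have := a3.sub (Eqv.refl (F.d (rx ν)))
    rwa [sub_self] at this
  have sL1 : Sm (Tot X (Pm Q v)) (cutH 1 L') := sL'.cutH
  have eL1 : Eqv (Tot X (Pm Q v)) (cutH 1 L') L' := eqv_cutH' zero_le_one l0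
  have vL1 : ∀ z, 2 < ‖z.2‖ → cutH 1 L' z = 0 := fun z hz => by
    rw [cutH, chi_zero zero_le_one (by linarith), zero_smul]
  have f3 := h.far3 vL1
  have sM := h.sm_lift sL1
  have eM : Eqv (Tot X Q) (cutH 3 (lift Q v (cutH 1 L'))) (lift Q v (cutH 1 L')) :=
    eqv_cutH' (by norm_num) f3
  have vM : Vt (max R 4) (cutH 3 (lift Q v (cutH 1 L'))) := by
    have : Vt (3 + 1) (cutH 3 (lift Q v (cutH 1 L'))) := Vt.cutH (by norm_num)
    refine this.mono ?_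
    norm_num
  refine pT_exact μ h.pf hX hT'.csf' hT.deg' sM.cutH vM h1.smooth h1.supp ?_
  refine h2.trans (Eqv.symm ((eM.d hsubQ sM.cutH sM).trans ((h.d_lift sL1).trans ?_)))
  refine h.eqv_lift ((eL1.d hsub sL1 sL').trans ((d_sub_eqv hb.rx sν.rx.d).trans ?_))
  have a5 : Eqv (Tot X (Pm Q v)) (F.d (F.d (rx ν))) 0 := resZero_iff.1 (d_d' sν.rx)
  have := (Eqv.refl (F.d (rx b))).sub a5
  rwa [sub_zero] at this

set_option maxHeartbeats 1000000 in
/-- a closed form on the sphere bundle with exact fibre integral comes from the base. -/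
theorem OddS.sph_of_fo (hb : Sm (Sph X (Pm Q v)) b) (hc : Cl (Sph X (Pm Q v)) b) (hd : Hom j b)
    (h0 : Coh X (fo μ Q v τ' b) 0) :
    ∃ c : E → Ext E, Sm X c ∧ Cl X c ∧ Hom j c ∧ Coh (Sph X (Pm Q v)) b (F.pull Prod.fst c) := by
  obtain ⟨lam, slam, elam⟩ := h0
  rw [sub_zero] at elam
  obtain ⟨hom2, he⟩ := h.om2_spec (R := R) hX hb hc
  set om := om2 Q v b with hom
  set R' := max R 4 with hR'
  have hR0 : 0 ≤ R' := le_trans (by norm_num) (le_max_right R 4)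
  have hT' := hT.mono (le_max_left R 4)
  obtain ⟨-, -, L0, sL0, vL0, eL0⟩ := thom μ hX h.pf hT' hR0 hom2
  set L := L0 + F.pull (Prod.fst : E × H → E) lam * τ with hL
  have sl1 : Sm (Tot X Q) (F.pull (Prod.fst : E × H → E) lam) := slam.pull smap_fst'
  have sL : Sm (Tot X Q) L := sL0.add (sl1.mul hT.csf.smooth)
  have vL : ∀ z, 2 * R' + 1 < ‖z.2‖ → L z = 0 := fun z hz => by
    rw [hL, Pi.add_apply, vL0 z hz, Pi.mul_apply, hT'.csf.supp z (by linarith), mul_zero, add_zero]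
  have eL2 : Eqv (Tot X Q) (c₀ • om) (F.d L) := by
    have a1 := d_add_eqv sL0 (sl1.mul hT.csf.smooth)
    have a2 := d_mul_eqv sl1 hT.csf.smooth
    have a3 : Eqv (Tot X Q) (F.d τ) 0 := resZero_iff.1 hT.csf.closed
    have a4 : Eqv (Tot X Q) (F.d (F.pull (Prod.fst : E × H → E) lam))
        (F.pull Prod.fst (fo μ Q v τ' b)) :=
      (d_pull_eqv smap_fst' slam).trans (elam.symm.pull smap_fst')
    have a5 := (a4.mul (Eqv.refl τ)).add
      ((Eqv.refl (fun x => F.inv (F.pull (Prod.fst : E × H → E) lam x))).mul a3)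
    rw [mul_zero, add_zero] at a5
    have a6 := a1.trans (eL0.symm.add (a2.trans a5))
    have a7 : c₀ • om - F.pull Prod.fst (pI μ (thE' Q τ' om)) * τ +
        F.pull Prod.fst (fo μ Q v τ' b) * τ = c₀ • om := sub_add_cancel _ _
    rw [a7] at a6
    exact a6.symm
  -- the lift of `c₀ d (rx b)` is exact with compact support
  set l := c₀ • cutH 1 (F.d (rx b)) with hl
  obtain ⟨g1, g2⟩ := fi_csf (R := 0) hX h.pfield hb hc
  have sl : Sm (Tot X (Pm Q v)) l := g1.smooth.smul _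
  have dl : Hom (j + 1) l := fun z => (Hom.cutH (Hom.d hd.rx) z).smul _
  have e1 : Eqv (Tot X Q) (lift Q v l) (F.d L) := by
    rw [hl, lift_smul]
    have a1 : Eqv (Tot X Q) (lift Q v (cutH 1 (F.d (rx b)))) om :=
      (h.eqv_lift g2).trans he.symm
    exact (a1.smul c₀).trans eL2
  have hR2 : 0 ≤ 2 * R' + 1 := by linarith
  obtain ⟨L1, sL1, vL1, eL1⟩ := h.descend hX sl dl sL hR2 vL e1
  have e2 : Eqv (Tot X (Pm Q v)) (F.d (rx b)) (F.d (c₀⁻¹ • L1)) := by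
    have a1 := (eL1.smul c₀⁻¹)
    rw [hl, smul_smul, inv_mul_cancel₀ hT.ne, one_smul] at a1
    exact g2.symm.trans (a1.trans (d_smul_eqv c₀⁻¹ sL1).symm)
  obtain ⟨c, sc, cc, ec⟩ := base_of_prim hX hb (sL1.smul c₀⁻¹)
    (fun z hz => by rw [Pi.smul_apply, vL1 z hz, smul_zero]) e2
  have k6 := ec.dp j
  rw [hd.dp_eq, dp_pull] at k6
  exact ⟨dp j c, sc.dp j, Cl.dp j sc cc, hom_dp _ _, k6⟩

end props

end Crest.Agent.R208.GQ
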