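import Crest.Agent.R208.GQ1b
import Crest.Agent.R208.GQ2c

/-! Row 208, block GQ (helper989), part GQ2d: **Leray–Hirsch** for sphere bundles of odd rank
`P = Q - v vᵀ`, `Q` oriented of even rank, `v` a unit section of `Q`. -/

set_option autoImplicit false
set_option linter.unusedSectionVars false
set_option linter.unusedVariables false

open MeasureTheory Set Filter Topology Module
open scoped ContDiff RealInnerProductSpace Matrix
open Crest.Agent.R208.F Crest.Agent.R208.FI Crest.Agent.R208.CW Crest.Agent.R208.T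

noncomputable section

namespace Crest.Agent.R208.GQ

universe u w

section gen
variable {E : Type u} {H : Type w} [NormedAddCommGroup E] [NormedSpace ℝ E] [FiniteDimensional ℝ E]
  [NormedAddCommGroup H] [InnerProductSpace ℝ H] [FiniteDimensional ℝ H]
  {X : Set E} {Q P : E → H →L[ℝ] H} {v : E → H} {r d j q : ℕ} {R c₀ : ℝ} {e : E → Ext E}
  {τ τ' om b b' ε : E × H → Ext (E × H)}

/-- **Leray–Hirsch** for the sphere bundle of `P` with fibre class `ε` of degree `q`. -/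
structure LH (X : Set E) (P : E → H →L[ℝ] H) (q : ℕ) (ε : E × H → Ext (E × H)) : Prop where
  sm : Sm (Sph X P) ε
  cl : Cl (Sph X P) ε
  deg : Hom q ε
  low : ∀ {j : ℕ} {b : E × H → Ext (E × H)}, j < q → Sm (Sph X P) b → Cl (Sph X P) b → Hom j b →
    ∃ a : E → Ext E, Sm X a ∧ Cl X a ∧ Hom j a ∧ Coh (Sph X P) b (F.pull Prod.fst a)
  split : ∀ {i : ℕ} {b : E × H → Ext (E × H)}, Sm (Sph X P) b → Cl (Sph X P) b → Hom (i + q) b →
    ∃ a c : E → Ext E, Sm X a ∧ Cl X a ∧ Hom (i + q) a ∧ Sm X c ∧ Cl X c ∧ Hom i c ∧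
      Coh (Sph X P) b (F.pull Prod.fst a + ε * F.pull Prod.fst c)
  inj : ∀ {i : ℕ} {a : E → Ext E}, Sm X a → Cl X a → Hom i a →
    Coh (Sph X P) (ε * F.pull Prod.fst a) 0 → Coh X a 0

/-- `π^*` is injective -/
theorem LH.inj' (h : LH X P q ε) {i : ℕ} {a : E → Ext E} (sa : Sm X a) (ca : Cl X a) (da : Hom i a)
    (h0 : Coh (Sph X P) (F.pull Prod.fst a) 0) : Coh X a 0 := by
  refine h.inj sa ca da ?_
  have h1 := h0.mul_left h.sm h.cl
  rwa [mul_zero] at h1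

variable [MeasurableSpace H] [BorelSpace H] (μ : Measure H) [μ.IsAddHaarMeasure]

theorem OddS.fo_eps (h : OddS X Q r v) (hX : Sub d X) (hXc : IsPreconnected X)
    (hT : ThomPair μ X Q r R c₀ e τ τ') (hrN : r ≤ finrank ℝ H) (hq : q + 2 = r)
    (sε : Sm (Sph X (Pm Q v)) ε) (cε : Cl (Sph X (Pm Q v)) ε) (dε : Hom q ε)
    (hε : ¬ ∃ a : E → Ext E, Sm X a ∧ Cl X a ∧ Hom q a ∧
      Coh (Sph X (Pm Q v)) ε (F.pull Prod.fst a)) :
    ∃ κ : ℝ, κ ≠ 0 ∧ ∀ x ∈ X, fo μ Q v τ' ε x = algebraMap ℝ (Ext E) κ := by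
  obtain ⟨s1, c1⟩ := h.sm_cl_fo μ hX hT sε cε
  have d1 : Hom 0 (fo μ Q v τ' ε) := hom_fo μ hrN hT.deg' (by omega) dε
  obtain ⟨κ, hκ⟩ := const_of_closed hX hXc s1 c1 d1
  refine ⟨κ, fun h0 => hε ?_, hκ⟩
  refine h.sph_of_fo μ hX hT sε cε dε (Coh.of_eqv (Eqv.of_eq fun x hx => ?_))
  rw [hκ x hx, h0, map_zero]; rfl

set_option maxHeartbeats 1000000 in
theorem OddS.lh_pair (h : OddS X Q r v) (hX : Sub d X) (hXc : IsPreconnected X)
    (hT : ThomPair μ X Q r R c₀ e τ τ') (hrN : r ≤ finrank ℝ H) (hq : q + 2 = r)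
    (sε : Sm (Sph X (Pm Q v)) ε) (cε : Cl (Sph X (Pm Q v)) ε) (dε : Hom q ε)
    (hε : ¬ ∃ a : E → Ext E, Sm X a ∧ Cl X a ∧ Hom q a ∧
      Coh (Sph X (Pm Q v)) ε (F.pull Prod.fst a)) : LH X (Pm Q v) q ε := by
  obtain ⟨κ, k0, hκ⟩ := h.fo_eps μ hX hXc hT hrN hq sε cε dε hε
  have key : ∀ {i : ℕ} {c : E → Ext E}, Sm X c → Cl X c → Hom i c →
      Eqv X (fo μ Q v τ' (ε * F.pull Prod.fst c)) (((-1 : ℝ) ^ i * κ) • c) := by
    intro i c sc cc dc
    refine (h.fo_mul μ hX hT sε cε sc cc dc).trans (Eqv.of_eq fun x hx => ?_)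
    rw [Pi.smul_apply, Pi.mul_apply, hκ x hx, Pi.smul_apply, mul_smul, Algebra.smul_def κ]
  refine ⟨sε, cε, dε, fun {j b} hj sb cb db => ?_, fun {i b} sb cb db => ?_,
    fun {i a} sa ca da h0 => ?_⟩
  · refine h.sph_of_fo μ hX hT sb cb db ?_
    rw [fo_eq_zero μ hrN hT.deg' (by omega) db]
    exact Coh.refl 0
  · set c₁ := fo μ Q v τ' b with hc₁
    obtain ⟨s1, k1⟩ := h.sm_cl_fo μ hX hT sb cb
    have d1 : Hom i c₁ := hom_fo μ hrN hT.deg' (by omega) db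
    set t : ℝ := ((-1 : ℝ) ^ i * κ)⁻¹ with ht
    have hne : (-1 : ℝ) ^ i * κ ≠ 0 := mul_ne_zero (pow_ne_zero _ (by norm_num)) k0
    set c := t • c₁ with hc
    have sc : Sm X c := s1.smul t
    have cc : Cl X c := Cl.smul t s1 k1
    have dc : Hom i c := d1.smul t
    have spc : Sm (Sph X (Pm Q v)) (F.pull Prod.fst c) := sc.pull smap_fstS
    have cpc : Cl (Sph X (Pm Q v)) (F.pull Prod.fst c) := cc.pull smap_fstS sc
    have se : Sm (Sph X (Pm Q v)) (ε * F.pull Prod.fst c) := sε.mul spc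
    have ce : Cl (Sph X (Pm Q v)) (ε * F.pull Prod.fst c) := Cl.mul sε spc cε cpc
    have de : Hom (i + q) (ε * F.pull Prod.fst c) := by
      rw [add_comm]; exact dε.mul dc.pull
    have h1 : Coh X (fo μ Q v τ' (b - ε * F.pull Prod.fst c)) 0 := by
      refine Coh.of_eqv ((h.fo_sub μ hX hT sb cb se ce).trans ?_)
      have h2 := (Eqv.refl (X := X) c₁).sub (key sc cc dc)
      rwa [hc, smul_smul, mul_inv_cancel₀ hne, one_smul, sub_self, ← hc] at h2
    obtain ⟨a, sa, ca, da, ea⟩ := h.sph_of_fo μ hX hT (sb.sub se) (Cl.sub sb se cb ce)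
      (Hom.sub db de) h1
    refine ⟨a, c, sa, ca, da, sc, cc, dc, ?_⟩
    have h3 := ea.add (Coh.refl (ε * F.pull (Prod.fst : E × H → E) c))
    rwa [sub_add_cancel] at h3
  · have spc : Sm (Sph X (Pm Q v)) (F.pull Prod.fst a) := sa.pull smap_fstS
    have cpc : Cl (Sph X (Pm Q v)) (F.pull Prod.fst a) := ca.pull smap_fstS sa
    have h1 := h.fo_exact μ hX hT (sε.mul spc) (Cl.mul sε spc cε cpc) h0
    have hne : (-1 : ℝ) ^ i * κ ≠ 0 := mul_ne_zero (pow_ne_zero _ (by norm_num)) k0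
    have h2 := ((Coh.of_eqv (key sa ca da)).symm.trans h1).smul ((-1 : ℝ) ^ i * κ)⁻¹
    rwa [smul_smul, inv_mul_cancel₀ hne, one_smul, smul_zero] at h2

end gen

/-! ### oriented fields -/
section or
variable {n : Type} [Fintype n] [DecidableEq n]
  {E : Type} [NormedAddCommGroup E] [NormedSpace ℝ E] [FiniteDimensional ℝ E]
  {ι : Type} [Fintype ι] [DecidableEq ι]
  {X : Set E} {Q P : E → EuclideanSpace ℝ n →L[ℝ] EuclideanSpace ℝ n}
  {W : E → (ι × Fin 2 → n) → ℝ} {v : E → EuclideanSpace ℝ n} {d q : ℕ}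
  {ε : E × EuclideanSpace ℝ n → Ext (E × EuclideanSpace ℝ n)}

/-- Leray–Hirsch is inherited along `H → H ⊕ ℝ^κ` -/
theorem LH.of_push {m : Type} [Fintype m] [DecidableEq m] {S : Matrix m n ℝ} (hS : Sᵀ * S = 1)
    (sε : Sm (Sph X P) ε) (cε : Cl (Sph X P) ε) (dε : Hom q ε)
    (h : LH X (pushE S P) q (F.pull (fun z : E × EuclideanSpace ℝ m =>
        ((z.1, mE Sᵀ z.2) : E × EuclideanSpace ℝ n)) ε)) : LH X P q ε := by
  set fo : E × EuclideanSpace ℝ m → E × EuclideanSpace ℝ n := fun z => (z.1, mE Sᵀ z.2) with hfo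
  set fi : E × EuclideanSpace ℝ n → E × EuclideanSpace ℝ m := fun z => (z.1, mE S z.2) with hfi
  have so : SMap (Sph X (pushE S P)) (Sph X P) fo := smap_out hS
  have si : SMap (Sph X P) (Sph X (pushE S P)) fi := smap_in hS
  have e2 : ∀ b, Eqv (Sph X P) (F.pull fi (F.pull fo b)) b := fun b =>
    (eqv_pull_pull si so (SMap.id _) (fun z _ => by
      change (z.1, mE Sᵀ (mE S z.2)) = z
      rw [mE_mE, hS, mE_one]) b).trans (Eqv.of_eq fun z _ => F.pull_id b z)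
  have e3 : ∀ c : E → Ext E, Eqv (Sph X P) (F.pull fi (F.pull Prod.fst c)) (F.pull Prod.fst c) :=
    fun c => eqv_pull_pull si (smap_fstS (X := X) (P := pushE S P)) (smap_fstS (X := X) (P := P))
      (fun _ _ => rfl) c
  have e4 : ∀ c : E → Ext E, Eqv (Sph X (pushE S P)) (F.pull fo (F.pull Prod.fst c))
      (F.pull Prod.fst c) :=
    fun c => eqv_pull_pull so (smap_fstS (X := X) (P := P)) (smap_fstS (X := X) (P := pushE S P))
      (fun _ _ => rfl) c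
  refine ⟨sε, cε, dε, fun {j b} hj sb cb db => ?_, fun {i b} sb cb db => ?_,
    fun {i a} sa ca da h0 => ?_⟩
  · obtain ⟨a, sa, ca, da, ea⟩ := h.low hj (sb.pull so) (cb.pull so sb) db.pull
    exact ⟨a, sa, ca, da, (Coh.of_eqv (e2 b).symm).trans ((ea.pull si).trans (Coh.of_eqv (e3 a)))⟩
  · obtain ⟨a, c, sa, ca, da, sc, cc, dc, ea⟩ := h.split (sb.pull so) (cb.pull so sb) db.pull
    refine ⟨a, c, sa, ca, da, sc, cc, dc, (Coh.of_eqv (e2 b).symm).trans ((ea.pull si).trans ?_)⟩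
    rw [pull_add', pull_mul']
    exact Coh.of_eqv ((e3 a).add ((e2 ε).mul (e3 c)))
  · refine h.inj sa ca da ?_
    have h1 := h0.pull so
    rw [pull_zero', pull_mul'] at h1
    exact (Coh.of_eqv ((Eqv.refl _).mul (e4 a).symm)).trans h1

theorem Pm_pushE {m : Type} [Fintype m] [DecidableEq m] (S : Matrix m n ℝ) :
    Pm (pushE S Q) (fun x => mE S (v x)) = pushE S (Pm Q v) := by
  funext x
  ext w i
  have h1 : ⟪mE S (v x), w⟫ = ⟪v x, mE Sᵀ w⟫ := by
    rw [PiLp.inner_apply, PiLp.inner_apply]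
    have := mE_inner S (v x) w
    simpa [mul_comm] using this
  change (mE S (Q x (mE Sᵀ w)) - ⟪mE S (v x), w⟫ • mE S (v x)) i =
    (mE S (Q x (mE Sᵀ w) - ⟪v x, mE Sᵀ w⟫ • v x)) i
  rw [map_sub, map_smul, h1]

theorem OddS.push {m : Type} [Fintype m] [DecidableEq m] {S : Matrix m n ℝ} (hS : Sᵀ * S = 1)
    (h : OR X Q W) (hs : OddS X Q (2 * Fintype.card ι) v) :
    OddS X (pushE S Q) (2 * Fintype.card ι) (fun x => mE S (v x)) := by
  have hin : ∀ (a : EuclideanSpace ℝ n) (w : EuclideanSpace ℝ m), ⟪mE S a, w⟫ = ⟪a, mE Sᵀ w⟫ := by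
    intro a w
    rw [PiLp.inner_apply, PiLp.inner_apply]
    have := mE_inner S a w
    simpa [mul_comm] using this
  refine ⟨(h.push hS).pfield, fun x hx a b => ?_, fun x hx => ?_, fun x hx => ?_, fun x hx => ?_⟩
  · change ⟪mE S (Q x (mE Sᵀ a)), b⟫ = ⟪a, mE S (Q x (mE Sᵀ b))⟫
    rw [hin, hs.sym x hx, real_inner_comm, ← hin, real_inner_comm]
  · exact (mE S).contDiff.contDiffAt.comp x (hs.sv x hx)
  · rw [norm_mE hS, hs.nv x hx]
  · change mE S (Q x (mE Sᵀ (mE S (v x)))) = mE S (v x)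
    rw [mE_mE, hS, mE_one, hs.fix x hx]

set_option maxHeartbeats 1000000 in
/-- **Leray–Hirsch**, oriented fields of any codimension -/
theorem lh_OR [Nonempty ι] (hX : Sub d X) (hXc : IsPreconnected X) (h : OR X Q W)
    (hs : OddS X Q (2 * Fintype.card ι) v) (hq : q + 2 = 2 * Fintype.card ι)
    (sε : Sm (Sph X (Pm Q v)) ε) (cε : Cl (Sph X (Pm Q v)) ε) (dε : Hom q ε)
    (hε : ¬ ∃ a : E → Ext E, Sm X a ∧ Cl X a ∧ Hom q a ∧
      Coh (Sph X (Pm Q v)) ε (F.pull Prod.fst a)) : LH X (Pm Q v) q ε := by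
  rcases X.eq_empty_or_nonempty with rfl | hne
  · refine (hε ⟨0, Sm.zero, fun x hx => hx.elim, Hom.zero, Coh.of_eqv (Eqv.of_eq fun z hz => ?_)⟩).elim
    exact hz.1.1.elim
  obtain ⟨p, r, eq, -⟩ := exists_par h hne
  have hS := iM_iso (n := n) (Fin p)
  have h' := h.push hS
  obtain ⟨W', c₀, hT⟩ := exists_thomPair thd_holds eq hX hXc hne h'
  have hs' := hs.push hS h
  have hrN : 2 * Fintype.card ι ≤ finrank ℝ (EuclideanSpace ℝ (n ⊕ Fin p)) := by
    rw [finrank_euclideanSpace]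
    exact h'.card_le hne
  refine LH.of_push hS sε cε dε ?_
  rw [← Pm_pushE]
  have so : SMap (Sph X (pushE (iM n (Fin p)) (Pm Q v))) (Sph X (Pm Q v))
    (fun z : E × EuclideanSpace ℝ (n ⊕ Fin p) =>
      ((z.1, mE (iM n (Fin p))ᵀ z.2) : E × EuclideanSpace ℝ n)) := smap_out hS
  have si : SMap (Sph X (Pm Q v)) (Sph X (pushE (iM n (Fin p)) (Pm Q v)))
    (fun z : E × EuclideanSpace ℝ n =>
      ((z.1, mE (iM n (Fin p)) z.2) : E × EuclideanSpace ℝ (n ⊕ Fin p))) := smap_in hS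
  rw [← Pm_pushE] at so si
  refine hs'.lh_pair volume hX hXc hT hrN hq (sε.pull so) (cε.pull so sε) dε.pull ?_
  rintro ⟨a, sa, ca, da, ea⟩
  refine hε ⟨a, sa, ca, da, ?_⟩
  have e1 := ea.pull si
  have e2 := (eqv_pull_pull si so (SMap.id _) (fun z _ => by
      change (z.1, mE (iM n (Fin p))ᵀ (mE (iM n (Fin p)) z.2)) = z
      rw [mE_mE, hS, mE_one]) ε).trans (Eqv.of_eq fun z _ => F.pull_id ε z)
  have e3 := eqv_pull_pull si (smap_fstS (X := X)
    (P := Pm (pushE (iM n (Fin p)) Q) (fun x => mE (iM n (Fin p)) (v x))))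
    (smap_fstS (X := X) (P := Pm Q v)) (fun _ _ => rfl) a
  exact (Coh.of_eqv e2.symm).trans (e1.trans (Coh.of_eqv e3))

end or

end Crest.Agent.R208.GQ
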