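import Crest.Agent.R208.TI5
import Crest.Agent.R208.TX2b
import Crest.Agent.R208.SB1
import Crest.Agent.R208.GQ2d

/-! Row 208, block GQ (helper989), part GQ3a: classes on the unit sphere bundle
`UV = S(V) → F` (`≅ US`), in degrees `< n - 1`. -/

set_option autoImplicit false
set_option linter.unusedSectionVars false
set_option linter.unusedVariables false

open MeasureTheory Set Filter Topology Module
open scoped ContDiff RealInnerProductSpace
open Crest.GeometryTopology.Submanifold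
open Crest.Agent.R241.DDefs
open Crest.Agent.R241.D2
open Crest.Agent.R208.F Crest.Agent.R208.FI Crest.Agent.R208.CW Crest.Agent.R208.T
open Crest.Agent.R208.L (US)

noncomputable section

namespace Crest.Agent.R208.GQ

variable {n N k : ℕ} {κ : ℝ} {S : Set (Euc N)} {G : Geo n N κ S} {p : Euc N}
  {ι : Type} [Fintype ι] [DecidableEq ι] {W : Euc N × Euc N → (ι × Fin 2 → Fin N) → ℝ}
  {x : Euc N → Ext (Euc N)}

/-- closed functions on the unit sphere of `T_p S` are constant -/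
theorem conn0_pt (h : GT.Bla G k) (hk : 2 ≤ k) (hn : 2 ≤ n) (hne : Even n) (hp : p ∈ S) :
    Conn0 (Sph ({p} : Set (Euc N)) (fun _ => G.P p)) := by
  obtain ⟨m, hm⟩ := hne
  have hι : 2 * Fintype.card (Fin m) = n := by rw [Fintype.card_fin]; omega
  obtain ⟨Wt, hW⟩ := GP.exists_OR_S (G := G) h.bl h.ty hk hι
  have : Nonempty (Fin m) := ⟨⟨0, by omega⟩⟩
  have hW' : OR ({p} : Set (Euc N)) (fun _ => G.P p) (fun _ => Wt p) :=
    ⟨fun _ _ => contDiffAt_const, fun _ _ _ => contDiffAt_const, fun _ _ => hW.fr p hp⟩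
  intro b hb hc hd
  obtain ⟨c, sc, cc, dc, ec⟩ := sph_low_all (sub_point p) isPreconnected_singleton hW'
    (j := 0) (by omega) hb hc hd
  obtain ⟨t, ht⟩ := const_of_closed (sub_point p) isPreconnected_singleton sc cc dc
  refine ⟨t, (ec.eqv_zero hd dc.pull).trans ?_⟩
  have h1 : Eqv ({p} : Set (Euc N)) c (fun _ => algebraMap ℝ (Ext (Euc N)) t) := Eqv.of_eq ht
  have h2 := h1.pull (smap_fstS (X := ({p} : Set (Euc N))) (P := fun _ => G.P p))
  rwa [pull_const'] at h2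

/-- `H¹(S) = 0` -/
theorem exactIn_S_one (h : GT.Bla G k) (hk : 2 ≤ k) (hkn : k < n) (hne : Even n) (hp : p ∈ S)
    (hι : 2 * Fintype.card ι = k) (hW : OR (GT.FF S) (FV.PVB h) W) : ExactIn S 1 := by
  obtain ⟨Gt, hG, -⟩ := exists_Tube' h hp
  obtain ⟨U, Λ, hpol, -, -⟩ := GP.exists_polar (G := G) h.bl hp one_pos
    (by linarith [Real.pi_gt_three])
  refine hG.exactIn_one hpol (conn0_pt h hk (by omega) hne hp) fun b sb cb db => ?_
  obtain ⟨c, hc, ec⟩ := Cut_classes h hk hkn hp hι (OR_Cut h hp hW) 1 sb cb db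
  have h1 : ¬ k ∣ 1 := fun h2 => by
    have := Nat.le_of_dvd one_pos h2
    omega
  rwa [hc h1, zero_smul] at ec

/-- the unit sphere bundle of `V` -/
abbrev UV (h : GT.Bla G k) : Set ((Euc N × Euc N) × Euc N) := Sph (GT.FF S) (FV.PVB h)

/-- first projection -/
def pS (ζ : (Euc N × Euc N) × Euc N) : Euc N := ζ.1.1

theorem smap_pS (h : GT.Bla G k) : SMap (UV h) S pS :=
  ⟨fun _ _ => contDiffAt_fst.comp _ contDiffAt_fst, fun _ hζ => hζ.1.1.1⟩

theorem sub_UV (h : GT.Bla G k) (hk : 1 ≤ k) (hkn : k < n) : Sub (2 * n - 1) (UV h) := by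
  obtain ⟨k', rfl⟩ : ∃ k', k = k' + 1 := ⟨k - 1, by omega⟩
  have h1 := SB.sub_Sph (FV.sub_FF' h (d := 2 * n - (k' + 1)) (by omega)) (FV.pfield_PVB h)
  rwa [show k' + (2 * n - (k' + 1)) = 2 * n - 1 by omega] at h1

theorem preconn_UV (h : GT.Bla G k) (hn : 2 ≤ n) : IsPreconnected (UV h) := by
  have h1 : UV h = FV.up G '' US G := by
    ext ζ
    constructor
    · intro hζ
      refine ⟨FV.dn ζ, ?_, FV.up_dn h hζ⟩
      rw [← FV.Sph_S]
      exact (FV.smap_dn h).maps hζ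
    · rintro ⟨z, hz, rfl⟩
      rw [← FV.Sph_S] at hz
      exact (FV.smap_up h).maps hz
  rw [h1]
  refine (FV.preconn_US h.bl hn).image _ fun z hz => ?_
  rw [← FV.Sph_S] at hz
  exact ((FV.smap_up h).smooth z hz).continuousAt.continuousWithinAt

theorem UV_base (h : GT.Bla G k) (hk : 2 ≤ k) (hne : Even n) {j : ℕ} (hj : j + 1 < n)
    {b : (Euc N × Euc N) × Euc N → Ext ((Euc N × Euc N) × Euc N)} (hb : Sm (UV h) b)
    (hc : Cl (UV h) b) (hd : Hom j b) :
    ∃ a : Euc N → Ext (Euc N), Sm S a ∧ Cl S a ∧ Hom j a ∧ Coh (UV h) b (F.pull pS a) := by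
  have su := FV.smap_up h
  have sd := FV.smap_dn h
  obtain ⟨a, sa, ca, da, ea⟩ := pb1_S h hk hne j (F.pull (FV.up G) b) hj (hb.pull su)
    (hc.pull su hb) hd.pull
  refine ⟨a, sa, ca, da, ?_⟩
  have e1 := ea.pull sd
  have e2 : Eqv (UV h) (F.pull FV.dn (F.pull (FV.up G) b)) b :=
    (eqv_pull_pull sd su (SMap.id _) (fun z hz => FV.up_dn h hz) b).trans
      (Eqv.of_eq fun z _ => F.pull_id b z)
  have e3 : Eqv (UV h) (F.pull FV.dn (F.pull Prod.fst a)) (F.pull pS a) :=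
    eqv_pull_pull sd smap_fstS (smap_pS h) (fun _ _ => rfl) a
  exact (Coh.of_eqv e2.symm).trans (e1.trans (Coh.of_eqv e3))

/-- `H^j(US) = 0` for odd `j < n - 1` -/
theorem exactIn_UV (h : GT.Bla G k) (hk : 2 ≤ k) (hkn : k < n) (hke : Even k) (hne : Even n)
    (hp : p ∈ S) (hι : 2 * Fintype.card ι = k) (hW : OR (GT.FF S) (FV.PVB h) W) {j : ℕ}
    (hj : Odd j) (hjn : j + 1 < n) : ExactIn (UV h) j := by
  intro b hb hc hd
  obtain ⟨a, sa, ca, da, ea⟩ := UV_base h hk hne hjn hb hc hd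
  have h0 : Coh S a 0 := by
    rcases Nat.lt_or_ge j 2 with h1 | h1
    · have h2 : j = 1 := by
        rcases hj with ⟨i, hi⟩
        omega
      subst h2
      exact exactIn_S_one h hk hkn hne hp hι hW a sa ca da
    · obtain ⟨x, sx, cx, dx, ex⟩ := exists_xM h hk hp hι (OR_Cut h hp hW)
      obtain ⟨c, hc0, ec⟩ := S_classes h hk hkn hp hι (OR_Cut h hp hW) sx cx dx ex j a h1 (by omega)
        sa ca da
      have h2 : ¬ k ∣ j := fun h2 => (Nat.not_even_iff_odd.2 hj) (hke.trans_dvd h2)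
      rwa [hc0 h2, zero_smul] at ec
  have h1 := h0.pull (smap_pS h)
  rw [pull_zero'] at h1
  exact ea.trans h1

/-- closed forms of even degree `< n - 1` on `US` -/
theorem UV_even (h : GT.Bla G k) (hk : 2 ≤ k) (hkn : k < n) (hne : Even n)
    (hp : p ∈ S) (hι : 2 * Fintype.card ι = k) (hW : OR (GT.FF S) (FV.PVB h) W)
    (sx : Sm S x) (cx : Cl S x) (dx : Hom k x)
    (ex : Eqv (GP.Cut S p) x (eR (FV.PC h p) (fun q => W (q, p)))) {j : ℕ} (hj : Even j)
    (hjn : j + 1 < n) {b : (Euc N × Euc N) × Euc N → Ext ((Euc N × Euc N) × Euc N)}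
    (hb : Sm (UV h) b) (hc : Cl (UV h) b) (hd : Hom j b) :
    ∃ t : ℝ, (¬ k ∣ j → t = 0) ∧ Coh (UV h) b (t • F.pull pS x ^ (j / k)) := by
  obtain ⟨a, sa, ca, da, ea⟩ := UV_base h hk hne hjn hb hc hd
  rcases Nat.eq_zero_or_pos j with rfl | h1
  · obtain ⟨t, ht⟩ := const_of_closed (FV.sub_S h.bl) h.bl.conn.isPreconnected sa ca da
    refine ⟨t, fun h2 => (h2 (dvd_zero k)).elim, ea.trans ?_⟩
    rw [Nat.zero_div, pow_zero]
    have h3 : Eqv S a (fun _ => algebraMap ℝ (Ext (Euc N)) t) := Eqv.of_eq ht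
    have h4 := h3.pull (smap_pS h)
    rw [pull_const'] at h4
    refine Coh.of_eqv (h4.trans (Eqv.of_eq fun z _ => ?_))
    rw [Pi.smul_apply, Pi.one_apply, Algebra.algebraMap_eq_smul_one]
  · have h2 : 2 ≤ j := by
      rcases hj with ⟨i, hi⟩
      omega
    obtain ⟨c, hc0, ec⟩ := S_classes h hk hkn hp hι (OR_Cut h hp hW) sx cx dx ex j a h2 (by omega)
      sa ca da
    refine ⟨c, hc0, ea.trans ?_⟩
    have h3 := ec.pull (smap_pS h)
    rwa [pull_smul', pull_pow'] at h3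

end Crest.Agent.R208.GQ
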