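import Crest.Agent.R208.GQ3a
import Crest.Agent.R208.GT5

/-! Row 208, block GQ (helper989), part GQ3b: classes on `ZZ = V₂(V)` in degrees `< n - 1`, from
Leray–Hirsch over `UV`. -/

set_option autoImplicit false
set_option linter.unusedSectionVars false
set_option linter.unusedVariables false

open MeasureTheory Set Filter Topology Module
open scoped ContDiff RealInnerProductSpace
open Crest.GeometryTopology.Submanifold
open Crest.Agent.R241.DDefs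
open Crest.Agent.R241.D2
open Crest.Agent.R208.F Crest.Agent.R208.FI Crest.Agent.R208.CW Crest.Agent.R208.T
open Crest.Agent.R208.L (US)

noncomputable section

namespace Crest.Agent.R208.GQ

variable {n N k q : ℕ} {κ : ℝ} {S : Set (Euc N)} {G : Geo n N κ S} {p : Euc N}
  {ι : Type} [Fintype ι] [DecidableEq ι] {W : Euc N × Euc N → (ι × Fin 2 → Fin N) → ℝ}
  {x : Euc N → Ext (Euc N)}

/-- `V` over `UV` -/
abbrev Q1 (h : GT.Bla G k) (ζ : (Euc N × Euc N) × Euc N) : Euc N →L[ℝ] Euc N := FV.PVB h ζ.1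

/-- the tautological section -/
abbrev v1 (ζ : (Euc N × Euc N) × Euc N) : Euc N := ζ.2

/-- `S(v^⊥) → UV`, a copy of `ZZ` -/
abbrev Z1 (h : GT.Bla G k) : Set (((Euc N × Euc N) × Euc N) × Euc N) :=
  Sph (UV h) (Pm (Q1 h) v1)

theorem sym_PVB (h : GT.Bla G k) {z : Euc N × Euc N} (hz : z ∈ GT.FF S) (a b : Euc N) :
    ⟪FV.PVB h z a, b⟫ = ⟪a, FV.PVB h z b⟫ :=
  (FV.vfield_PVB h).inner_PV (p := z.1) (q := z.2) hz a b

theorem oddS_UV (h : GT.Bla G k) : OddS (UV h) (Q1 h) k v1 where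
  pf := ⟨fun ζ hζ => (FV.contDiff_PVB h).contDiffAt.comp ζ contDiffAt_fst,
    fun ζ hζ a => (FV.pfield_PVB h).idem ζ.1 hζ.1.1 a, fun ζ hζ => (FV.pfield_PVB h).rank ζ.1 hζ.1.1⟩
  sym := fun ζ hζ a b => sym_PVB h hζ.1.1 a b
  sv := fun _ _ => contDiffAt_snd
  nv := fun _ hζ => hζ.2
  fix := fun _ hζ => hζ.1.2

theorem or_UV (h : GT.Bla G k) (hW : OR (GT.FF S) (FV.PVB h) W) :
    OR (UV h) (Q1 h) (fun ζ => W ζ.1) :=
  GP.OR.comp hW (f := fun ζ : (Euc N × Euc N) × Euc N => ζ.1) (fun _ _ => contDiffAt_fst)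
    fun _ hζ => hζ.1.1

/-- the two copies of `V₂(V)` -/
def toZ (ζ : (Euc N × Euc N) × (Fin 2 → Euc N)) : ((Euc N × Euc N) × Euc N) × Euc N :=
  ((ζ.1, ζ.2 0), ζ.2 1)

def ofZ (z : ((Euc N × Euc N) × Euc N) × Euc N) : (Euc N × Euc N) × (Fin 2 → Euc N) :=
  (z.1.1, ![z.1.2, z.2])

theorem ofZ_toZ (ζ : (Euc N × Euc N) × (Fin 2 → Euc N)) : ofZ (toZ ζ) = ζ := by
  refine Prod.ext rfl ?_
  funext i
  fin_cases i <;> rfl

theorem toZ_ofZ (z : ((Euc N × Euc N) × Euc N) × Euc N) : toZ (ofZ z) = z := rfl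

theorem smap_toZ (h : GT.Bla G k) : SMap (GT.ZZ S (FV.PVB h)) (Z1 h) toZ := by
  refine ⟨fun ζ _ => ?_, fun ζ hζ => ?_⟩
  · have h0 : ∀ i : Fin 2, ContDiffAt ℝ ∞ (fun ζ : (Euc N × Euc N) × (Fin 2 → Euc N) => ζ.2 i) ζ :=
      fun i => ((contDiff_apply ℝ (Euc N) i).contDiffAt).comp ζ contDiffAt_snd
    exact (contDiffAt_fst.prodMk (h0 0)).prodMk (h0 1)
  · obtain ⟨h1, h2, h3⟩ := hζ
    have h4 : ⟪ζ.2 0, ζ.2 1⟫ = 0 := h3.2 (by decide)
    refine ⟨⟨⟨⟨h1, h2 0⟩, h3.1 0⟩, ?_⟩, h3.1 1⟩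
    change FV.PVB h ζ.1 (ζ.2 1) - ⟪ζ.2 0, ζ.2 1⟫ • ζ.2 0 = ζ.2 1
    rw [h4, zero_smul, sub_zero, h2 1]

theorem smap_ofZ (h : GT.Bla G k) : SMap (Z1 h) (GT.ZZ S (FV.PVB h)) ofZ := by
  refine ⟨fun z _ => ?_, fun z hz => ?_⟩
  · refine (contDiffAt_fst.comp z contDiffAt_fst).prodMk (contDiffAt_pi.2 fun i => ?_)
    fin_cases i
    · exact contDiffAt_snd.comp z contDiffAt_fst
    · exact contDiffAt_snd
  · obtain ⟨⟨⟨⟨h1, h2⟩, h3⟩, h4⟩, h5⟩ := hz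
    have h6 : ⟪z.1.2, z.2⟫ = 0 := by
      rw [← h4]
      exact (oddS_UV h).inner_Pm (x := z.1) ⟨⟨h1, h2⟩, h3⟩ z.2
    have h7 : FV.PVB h z.1.1 z.2 = z.2 := by
      have := (oddS_UV h).Q_Pm (x := z.1) ⟨⟨h1, h2⟩, h3⟩ z.2
      rwa [h4] at this
    refine ⟨h1, fun i => ?_, ?_⟩
    · fin_cases i
      · exact h2
      · exact h7
    · refine ⟨fun i => ?_, fun i j hij => ?_⟩
      · fin_cases i
        · exact h3
        · exact h5
      · fin_cases i <;> fin_cases j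
        · exact absurd rfl hij
        · exact h6
        · change ⟪z.2, z.1.2⟫ = 0
          rw [real_inner_comm, h6]
        · exact absurd rfl hij

/-! ### Leray–Hirsch -/
section lh
variable {ε : ((Euc N × Euc N) × Euc N) × Euc N → Ext (((Euc N × Euc N) × Euc N) × Euc N)}

/-- `x` on `Z1` -/
def pZ (z : ((Euc N × Euc N) × Euc N) × Euc N) : Euc N := z.1.1.1

theorem smap_pZ (h : GT.Bla G k) : SMap (Z1 h) S pZ :=
  ⟨fun _ _ => contDiffAt_fst.comp _ (contDiffAt_fst.comp _ contDiffAt_fst),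
    fun _ hζ => hζ.1.1.1.1.1⟩

/-- `H^j(ZZ) = 0` for odd `j < n - 1` -/
theorem exactIn_Z1 (h : GT.Bla G k) (hk : 2 ≤ k) (hkn : k < n) (hke : Even k) (hne : Even n)
    (hp : p ∈ S) (hι : 2 * Fintype.card ι = k) (hW : OR (GT.FF S) (FV.PVB h) W) (hq : q + 2 = k)
    (hL : LH (UV h) (Pm (Q1 h) v1) q ε) {j : ℕ} (hj : Odd j) (hjn : j + 1 < n) :
    ExactIn (Z1 h) j := by
  intro b hb hc hd
  have key : ∀ {i : ℕ} {a : (Euc N × Euc N) × Euc N → Ext ((Euc N × Euc N) × Euc N)}, Odd i →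
      i + 1 < n → Sm (UV h) a → Cl (UV h) a → Hom i a → Coh (Z1 h) (F.pull Prod.fst a) 0 := by
    intro i a hi hin sa ca da
    have h1 := (exactIn_UV h hk hkn hke hne hp hι hW hi hin a sa ca da).pull
      (smap_fstS (X := UV h) (P := Pm (Q1 h) v1))
    rwa [pull_zero'] at h1
  rcases Nat.lt_or_ge j q with h1 | h1
  · obtain ⟨a, sa, ca, da, ea⟩ := hL.low h1 hb hc hd
    exact ea.trans (key hj hjn sa ca da)
  · obtain ⟨i, rfl⟩ : ∃ i, j = i + q := ⟨j - q, by omega⟩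
    obtain ⟨a, c, sa, ca, da, sc, cc, dc, ea⟩ := hL.split hb hc hd
    have hi : Odd i := by
      rcases hj with ⟨u, hu⟩
      rcases hke with ⟨t, ht⟩
      exact ⟨u - (t - 1), by omega⟩
    have h2 := (key hj hjn sa ca da).add ((key hi (by omega) sc cc dc).mul_left hL.sm hL.cl)
    rw [mul_zero, add_zero] at h2
    exact ea.trans h2

/-- closed forms of even degree `< n - 1` on `ZZ` -/
theorem Z1_even (h : GT.Bla G k) (hk : 2 ≤ k) (hkn : k < n) (hke : Even k) (hne : Even n)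
    (hp : p ∈ S) (hι : 2 * Fintype.card ι = k) (hW : OR (GT.FF S) (FV.PVB h) W) (hq : q + 2 = k)
    (hL : LH (UV h) (Pm (Q1 h) v1) q ε) (sx : Sm S x) (cx : Cl S x) (dx : Hom k x)
    (ex : Eqv (GP.Cut S p) x (eR (FV.PC h p) (fun q => W (q, p)))) {j : ℕ} (hj : Even j)
    (hjn : j + 1 < n)
    {b : ((Euc N × Euc N) × Euc N) × Euc N → Ext (((Euc N × Euc N) × Euc N) × Euc N)}
    (hb : Sm (Z1 h) b) (hc : Cl (Z1 h) b) (hd : Hom j b) :
    ∃ s t : ℝ, (¬ k ∣ j → s = 0) ∧ (¬ (q ≤ j ∧ k ∣ j - q) → t = 0) ∧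
      Coh (Z1 h) b (s • F.pull pZ x ^ (j / k) + t • (ε * F.pull pZ x ^ ((j - q) / k))) := by
  have key : ∀ {i : ℕ} {a : (Euc N × Euc N) × Euc N → Ext ((Euc N × Euc N) × Euc N)}, Even i →
      i + 1 < n → Sm (UV h) a → Cl (UV h) a → Hom i a → ∃ t : ℝ, (¬ k ∣ i → t = 0) ∧
        Coh (Z1 h) (F.pull Prod.fst a) (t • F.pull pZ x ^ (i / k)) := by
    intro i a hi hin sa ca da
    obtain ⟨t, ht, et⟩ := UV_even h hk hkn hne hp hι hW sx cx dx ex hi hin sa ca da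
    refine ⟨t, ht, ?_⟩
    have h1 := et.pull (smap_fstS (X := UV h) (P := Pm (Q1 h) v1))
    rw [pull_smul', pull_pow'] at h1
    have h2 : Eqv (Z1 h) (F.pull Prod.fst (F.pull pS x)) (F.pull pZ x) :=
      eqv_pull_pull smap_fstS (smap_pS h) (smap_pZ h) (fun _ _ => rfl) x
    exact h1.trans (Coh.of_eqv ((h2.pow _).smul t))
  rcases Nat.lt_or_ge j q with h1 | h1
  · obtain ⟨a, sa, ca, da, ea⟩ := hL.low h1 hb hc hd
    obtain ⟨t, ht, et⟩ := key hj hjn sa ca da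
    refine ⟨t, 0, ht, fun _ => rfl, ea.trans ?_⟩
    rw [zero_smul, add_zero]
    exact et
  · obtain ⟨i, rfl⟩ : ∃ i, j = i + q := ⟨j - q, by omega⟩
    obtain ⟨a, c, sa, ca, da, sc, cc, dc, ea⟩ := hL.split hb hc hd
    have hi : Even i := by
      rcases hj with ⟨u, hu⟩
      rcases hke with ⟨t, ht⟩
      exact ⟨u - (t - 1), by omega⟩
    obtain ⟨s, hs, es⟩ := key hj hjn sa ca da
    obtain ⟨t, ht, et⟩ := key hi (by omega) sc cc dc
    refine ⟨s, t, hs, fun h2 => ht fun h3 => h2 ⟨h1, by rwa [Nat.add_sub_cancel]⟩, ea.trans ?_⟩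
    have h2 := es.add (et.mul_left hL.sm hL.cl)
    rw [mul_smul_comm] at h2
    rw [Nat.add_sub_cancel]
    exact h2

/-- non-degeneracy on `ZZ` -/
theorem Z1_inj (h : GT.Bla G k) (hL : LH (UV h) (Pm (Q1 h) v1) q ε) (sx : Sm S x) (cx : Cl S x)
    (dx : Hom k x) {i : ℕ}
    (h0 : Coh (Z1 h) (ε * F.pull pZ x ^ i) 0 ∨ Coh (Z1 h) (F.pull pZ x ^ i) 0) :
    Coh (UV h) (F.pull pS x ^ i) 0 := by
  have h2 : Eqv (Z1 h) (F.pull Prod.fst (F.pull pS x)) (F.pull pZ x) :=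
    eqv_pull_pull smap_fstS (smap_pS h) (smap_pZ h) (fun _ _ => rfl) x
  have s1 : Sm (UV h) (F.pull pS x) := sx.pull (smap_pS h)
  have c1 : Cl (UV h) (F.pull pS x) := cx.pull (smap_pS h) sx
  have d1 : Hom (k * i) (F.pull pS x ^ i) := Hom.pow (Hom.pull dx) i
  have h3 : Eqv (Z1 h) (F.pull Prod.fst (F.pull pS x ^ i)) (F.pull pZ x ^ i) := by
    rw [pull_pow']
    exact h2.pow i
  rcases h0 with h0 | h0
  · exact hL.inj (s1.pow i) (Cl.pow s1 c1 i) d1 ((Coh.of_eqv ((Eqv.refl ε).mul h3)).trans h0)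
  · exact hL.inj' (s1.pow i) (Cl.pow s1 c1 i) d1 ((Coh.of_eqv h3).trans h0)

end lh

end Crest.Agent.R208.GQ
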