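import Crest.Agent.R208.GQ3b

/-! Row 208, block GQ (helper989), part GQ3c: the ring `H(ZZ)` in low degrees. -/

set_option autoImplicit false
set_option linter.unusedSectionVars false
set_option linter.unusedVariables false

open MeasureTheory Set Filter Topology Module
open scoped ContDiff RealInnerProductSpace
open Crest.GeometryTopology.Submanifold
open Crest.Agent.R241.DDefs
open Crest.Agent.R241.D2
open Crest.Agent.R208.F Crest.Agent.R208.FI Crest.Agent.R208.CW Crest.Agent.R208.T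
open Crest.Agent.R208.L (US)

noncomputable section

namespace Crest.Agent.R208.GQ

variable {n N k q m : ℕ} {κ : ℝ} {S : Set (Euc N)} {G : Geo n N κ S} {p : Euc N}
  {ι : Type} [Fintype ι] [DecidableEq ι] {W : Euc N × Euc N → (ι × Fin 2 → Fin N) → ℝ}
  {x : Euc N → Ext (Euc N)}
  {ε : ((Euc N × Euc N) × Euc N) × Euc N → Ext (((Euc N × Euc N) × Euc N) × Euc N)}

/-- `H^j(S) → H^j(US)` is injective for `j < n` -/
theorem UV_inj (h : GT.Bla G k) (hk : 2 ≤ k) (hne : Even n) {j : ℕ} {b : Euc N → Ext (Euc N)}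
    (hb : Sm S b) (hc : Cl S b) (hd : Hom j b) (hj : j < n) (h0 : Coh (UV h) (F.pull pS b) 0) :
    Coh S b 0 := by
  obtain ⟨m, hm⟩ := hne
  have hι : 2 * Fintype.card (Fin m) = n := by rw [Fintype.card_fin]; omega
  obtain ⟨Wt, hW⟩ := GP.exists_OR_S (G := G) h.bl h.ty hk hι
  have : Nonempty (Fin m) := ⟨⟨0, by omega⟩⟩
  have h1 := h0.pull (FV.smap_up h)
  rw [pull_zero'] at h1
  have e1 : Eqv (Sph S G.P) (F.pull (FV.up G) (F.pull pS b)) (F.pull Prod.fst b) :=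
    eqv_pull_pull (FV.smap_up h) (smap_pS h) smap_fstS (fun _ _ => rfl) b
  exact gysin_low_all (FV.sub_S h.bl) h.bl.conn.isPreconnected hW hb hc hd (by omega)
    ((Coh.of_eqv e1.symm).trans h1)

/-- powers of `x` on `US` -/
theorem UV_pow_ne (h : GT.Bla G k) (hk : 2 ≤ k) (hne : Even n) (sx : Sm S x) (cx : Cl S x)
    (dx : Hom k x) (hxm : ¬ Coh S (x ^ m) 0) {i : ℕ} (hi : i ≤ m) (hin : k * i < n) :
    ¬ Coh (UV h) (F.pull pS x ^ i) 0 := by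
  intro h0
  rw [← pull_pow'] at h0
  have h1 := UV_inj h hk hne (sx.pow i) (Cl.pow sx cx i) (dx.pow i) hin h0
  have h2 := h1.mul_right (sx.pow (m - i)) (Cl.pow sx cx (m - i))
  rw [zero_mul, ← pow_add, Nat.add_sub_cancel' hi] at h2
  exact hxm h2

/-- `ε` on `ZZ` -/
abbrev eZ (ε : ((Euc N × Euc N) × Euc N) × Euc N → Ext (((Euc N × Euc N) × Euc N) × Euc N)) :
    (Euc N × Euc N) × (Fin 2 → Euc N) → Ext ((Euc N × Euc N) × (Fin 2 → Euc N)) := F.pull toZ ε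

/-- the first point -/
def pz (ζ : (Euc N × Euc N) × (Fin 2 → Euc N)) : Euc N := ζ.1.1

theorem smap_pz (h : GT.Bla G k) : SMap (GT.ZZ S (FV.PVB h)) S pz :=
  ⟨fun _ _ => contDiffAt_fst.comp _ contDiffAt_fst, fun _ hζ => hζ.1.1⟩

/-- `x` on `ZZ` -/
abbrev xZ (x : Euc N → Ext (Euc N)) :
    (Euc N × Euc N) × (Fin 2 → Euc N) → Ext ((Euc N × Euc N) × (Fin 2 → Euc N)) := F.pull pz x

theorem eqv_xZ (h : GT.Bla G k) (x : Euc N → Ext (Euc N)) :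
    Eqv (GT.ZZ S (FV.PVB h)) (F.pull toZ (F.pull pZ x)) (xZ x) :=
  eqv_pull_pull (smap_toZ h) (smap_pZ h) (smap_pz h) (fun _ _ => rfl) x

theorem eqv_xZ' (h : GT.Bla G k) (x : Euc N → Ext (Euc N)) :
    Eqv (Z1 h) (F.pull ofZ (xZ x)) (F.pull pZ x) :=
  eqv_pull_pull (smap_ofZ h) (smap_pz h) (smap_pZ h) (fun _ _ => rfl) x

theorem eqv_toZ (h : GT.Bla G k)
    (b : (Euc N × Euc N) × (Fin 2 → Euc N) → Ext ((Euc N × Euc N) × (Fin 2 → Euc N))) :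
    Eqv (GT.ZZ S (FV.PVB h)) (F.pull toZ (F.pull ofZ b)) b :=
  (eqv_pull_pull (smap_toZ h) (smap_ofZ h) (SMap.id _) (fun ζ _ => ofZ_toZ ζ) b).trans
    (Eqv.of_eq fun z _ => F.pull_id b z)

theorem eqv_ofZ (h : GT.Bla G k)
    (b : ((Euc N × Euc N) × Euc N) × Euc N → Ext (((Euc N × Euc N) × Euc N) × Euc N)) :
    Eqv (Z1 h) (F.pull ofZ (F.pull toZ b)) b :=
  (eqv_pull_pull (smap_ofZ h) (smap_toZ h) (SMap.id _) (fun z _ => toZ_ofZ z) b).trans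
    (Eqv.of_eq fun z _ => F.pull_id b z)

/-- `H^j(ZZ) = 0` for odd `j < n - 1` -/
theorem exactIn_ZZ (h : GT.Bla G k) (hk : 2 ≤ k) (hkn : k < n) (hke : Even k) (hne : Even n)
    (hp : p ∈ S) (hι : 2 * Fintype.card ι = k) (hW : OR (GT.FF S) (FV.PVB h) W) (hq : q + 2 = k)
    (hL : LH (UV h) (Pm (Q1 h) v1) q ε) {j : ℕ} (hj : Odd j) (hjn : j + 1 < n) :
    ExactIn (GT.ZZ S (FV.PVB h)) j :=
  (exactIn_Z1 h hk hkn hke hne hp hι hW hq hL hj hjn).transport (smap_toZ h) (smap_ofZ h)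
    fun ζ _ => ofZ_toZ ζ

/-- closed forms of even degree `< n - 1` on `ZZ` -/
theorem ZZ_even (h : GT.Bla G k) (hk : 2 ≤ k) (hkn : k < n) (hke : Even k) (hne : Even n)
    (hp : p ∈ S) (hι : 2 * Fintype.card ι = k) (hW : OR (GT.FF S) (FV.PVB h) W) (hq : q + 2 = k)
    (hL : LH (UV h) (Pm (Q1 h) v1) q ε) (sx : Sm S x) (cx : Cl S x) (dx : Hom k x)
    (ex : Eqv (GP.Cut S p) x (eR (FV.PC h p) (fun q => W (q, p)))) {j : ℕ} (hj : Even j)
    (hjn : j + 1 < n)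
    {b : (Euc N × Euc N) × (Fin 2 → Euc N) → Ext ((Euc N × Euc N) × (Fin 2 → Euc N))}
    (hb : Sm (GT.ZZ S (FV.PVB h)) b) (hc : Cl (GT.ZZ S (FV.PVB h)) b) (hd : Hom j b) :
    ∃ s t : ℝ, (¬ k ∣ j → s = 0) ∧ (¬ (q ≤ j ∧ k ∣ j - q) → t = 0) ∧
      Coh (GT.ZZ S (FV.PVB h)) b (s • xZ x ^ (j / k) + t • (eZ ε * xZ x ^ ((j - q) / k))) := by
  obtain ⟨s, t, hs, ht, e1⟩ := Z1_even h hk hkn hke hne hp hι hW hq hL sx cx dx ex hj hjn
    (hb.pull (smap_ofZ h)) (hc.pull (smap_ofZ h) hb) hd.pull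
  refine ⟨s, t, hs, ht, (Coh.of_eqv (eqv_toZ h b).symm).trans ((e1.pull (smap_toZ h)).trans ?_)⟩
  rw [pull_add', pull_smul', pull_smul', pull_mul', pull_pow', pull_pow']
  have h1 := eqv_xZ h x
  exact Coh.of_eqv (((h1.pow _).smul s).add (((Eqv.refl (eZ ε)).mul (h1.pow _)).smul t))

/-- `e'^2 = 0` on `ZZ`, `k ≥ 6` -/
theorem eZ_sq (h : GT.Bla G k) (hk : 6 ≤ k) (hkn : 2 * k ≤ n) (hke : Even k) (hne : Even n)
    (hp : p ∈ S) (hι : 2 * Fintype.card ι = k) (hW : OR (GT.FF S) (FV.PVB h) W) (hq : q + 2 = k)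
    (hL : LH (UV h) (Pm (Q1 h) v1) q ε) (sx : Sm S x) (cx : Cl S x) (dx : Hom k x)
    (ex : Eqv (GP.Cut S p) x (eR (FV.PC h p) (fun q => W (q, p)))) :
    Coh (GT.ZZ S (FV.PVB h)) (eZ ε * eZ ε) 0 := by
  have s1 : Sm (GT.ZZ S (FV.PVB h)) (eZ ε) := hL.sm.pull (smap_toZ h)
  have c1 : Cl (GT.ZZ S (FV.PVB h)) (eZ ε) := hL.cl.pull (smap_toZ h) hL.sm
  have d1 : Hom q (eZ ε) := Hom.pull hL.deg
  obtain ⟨s, t, hs, ht, e1⟩ := ZZ_even h (by omega) (by omega) hke hne hp hι hW hq hL sx cx dx ex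
    (j := q + q) ⟨q, rfl⟩ (by omega) (s1.mul s1) (Cl.mul s1 s1 c1 c1) (d1.mul d1)
  have h1 : ¬ k ∣ q + q := by
    rintro ⟨c, hc⟩
    rcases Nat.lt_or_ge c 2 with h2 | h2
    · interval_cases c <;> omega
    · have := Nat.mul_le_mul_left k h2
      omega
  have h2 : ¬ (q ≤ q + q ∧ k ∣ q + q - q) := by
    rintro ⟨-, h3⟩
    rw [Nat.add_sub_cancel] at h3
    have := Nat.le_of_dvd (by omega) h3
    omega
  rwa [hs h1, ht h2, zero_smul, zero_smul, add_zero] at e1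

/-- `x^i ≠ 0`, `e' x^i ≠ 0` on `ZZ` -/
theorem ZZ_ne (h : GT.Bla G k) (hk : 2 ≤ k) (hne : Even n)
    (hL : LH (UV h) (Pm (Q1 h) v1) q ε) (sx : Sm S x) (cx : Cl S x) (dx : Hom k x)
    (hxm : ¬ Coh S (x ^ m) 0) {i : ℕ} (hi : i ≤ m) (hin : k * i < n) :
    ¬ Coh (GT.ZZ S (FV.PVB h)) (xZ x ^ i) 0 ∧ ¬ Coh (GT.ZZ S (FV.PVB h)) (eZ ε * xZ x ^ i) 0 := by
  have h1 := eqv_xZ' h x
  constructor
  · intro h0
    refine UV_pow_ne h hk hne sx cx dx hxm hi hin (Z1_inj h hL sx cx dx (Or.inr ?_))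
    have h2 := h0.pull (smap_ofZ h)
    rw [pull_zero', pull_pow'] at h2
    exact (Coh.of_eqv (h1.pow i).symm).trans h2
  · intro h0
    refine UV_pow_ne h hk hne sx cx dx hxm hi hin (Z1_inj h hL sx cx dx (Or.inl ?_))
    have h2 := h0.pull (smap_ofZ h)
    rw [pull_zero', pull_mul', pull_pow'] at h2
    exact (Coh.of_eqv ((eqv_ofZ h ε).symm.mul (h1.pow i).symm)).trans h2

/-! ### classes -/

/-- a closed real form of even degree -/
theorem ec_even {E : Type*} [NormedAddCommGroup E] [NormedSpace ℝ E] [FiniteDimensional ℝ E]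
    {X : Set E} {a : E → Ext E} {j : ℕ} (sa : Sm X a) (ca : Cl X a) (da : Hom j a) (hj : Even j) :
    EC X a := by
  obtain ⟨i, hi⟩ := hj
  rw [← two_mul] at hi
  subst hi
  exact EC.of_hom sa ca da

theorem smul_rcl_eq_zero {E : Type*} [NormedAddCommGroup E] [NormedSpace ℝ E]
    [FiniteDimensional ℝ E] {X : Set E} {a : E → Ext E} (ha : EC X a) (hne : ¬ Coh X a 0) {z : ℂ}
    (hz : z • rcl ha = 0) : z = 0 := by
  by_contra h
  exact hne ((rcl_eq_zero_iff ha).1 ((smul_eq_zero.1 hz).resolve_left h))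

end Crest.Agent.R208.GQ
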