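import Crest.Agent.R208.GQ1b
import Crest.Agent.R208.GD3
import Crest.Agent.R208.CM3d
import Crest.Agent.R208.TI5

/-! Row 208, block GQ (helper989), part GQ4a: division by the Euler class on the quotient of a free
circle action, in the rings `H`. -/

set_option autoImplicit false
set_option linter.unusedSectionVars false
set_option linter.unusedVariables false

open MeasureTheory Set Filter Topology Module
open scoped ContDiff RealInnerProductSpace
open Crest.Agent.R208.F Crest.Agent.R208.FI Crest.Agent.R208.CW Crest.Agent.R208.T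
open Crest.Agent.R208.CM

noncomputable section

namespace Crest.Agent.R208.GQ

/-! ### division by an Euler class, in `H X` -/
section div
variable {n : Type} [Fintype n] [DecidableEq n]
  {E : Type} [NormedAddCommGroup E] [NormedSpace ℝ E] [FiniteDimensional ℝ E]
  {ι : Type} [Fintype ι] [DecidableEq ι]
  {X : Set E} {P : E → EuclideanSpace ℝ n →L[ℝ] EuclideanSpace ℝ n}
  {W : E → (ι × Fin 2 → n) → ℝ} {d : ℕ}

/-- **DIV** in `H X` -/
theorem div_HD [Nonempty ι] (hX : Sub d X) (hc : IsPreconnected X) (h : OR X P W) {j : ℕ}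
    {b : CW.H X} (hb : b ∈ HD X (2 * j)) (h0 : b * ec (OR.of h) = 0)
    (hE : ExactIn (Sph X P) (2 * j + 2 * Fintype.card ι - 1)) : b = 0 := by
  obtain ⟨a, a', ha, ha', da, da', rfl⟩ := exists_rcl_HD hb
  rw [← h.rcl_eR, add_mul, smul_mul_assoc, ← rcl_mul, ← rcl_mul, ← cls_eq_rcl,
    cls_eq_zero_iff_coh] at h0
  obtain ⟨h1, h2⟩ := h0
  rw [(rcl_eq_zero_iff ha).2 (div_all hX hc h ha.sm ha.cl da h1 hE),
    (rcl_eq_zero_iff ha').2 (div_all hX hc h ha'.sm ha'.cl da' h2 hE), smul_zero, add_zero]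

end div

section quo
variable {E : Type} [NormedAddCommGroup E] [NormedSpace ℝ E] [FiniteDimensional ℝ E]
  {X : Set E} {φ : ℝ → E → E} {m n : ℕ} {g : E → Fin m → ℂ}

theorem exactIn_Sph_Quo (hg : Emb X φ g) (h : Cir X φ) (hX : Clo (n + 1) X) {j : ℕ}
    (hE : ExactIn X j) : ExactIn (T.Sph (Quo X g) (PL (m := m))) j := by
  obtain ⟨ψ, -, h2, -, h4⟩ := hg.exists_Jinv h hX
  exact hE.transport h2 (hg.smap_Jm h) fun z hz => (h4 z hz).1

theorem preconn_Quo (hg : Emb X φ g) (hXc : IsPreconnected X) : IsPreconnected (Quo X g) :=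
  hXc.image _ fun x hx => (hg.contDiffAt_jj hx).continuousAt.continuousWithinAt

/-- division on the quotient -/
theorem div_Quo (hg : Emb X φ g) (h : Cir X φ) (hX : Clo (n + 1) X) (hXc : IsPreconnected X)
    {j : ℕ} {b : CW.H (Quo X g)} (hb : b ∈ HD (Quo X g) (2 * j))
    (h0 : b * ec (OR.of hg.or_L) = 0) (hE : ExactIn X (2 * j + 1)) : b = 0 := by
  refine div_HD (hg.clo_Quo h hX).sub (preconn_Quo hg hXc) hg.or_L hb h0 ?_
  have h1 : 2 * j + 2 * Fintype.card Unit - 1 = 2 * j + 1 := by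
    rw [Fintype.card_unit]; omega
  rw [h1]
  exact exactIn_Sph_Quo hg h hX hE

/-- the Euler class of the line dies on `X` -/
theorem map_ec_L (hg : Emb X φ g) (h : Cir X φ) : CW.H.map hg.smap_jj (ec (OR.of hg.or_L)) = 0 := by
  rw [← hg.or_L.rcl_eR, ← rcl_pull hg.smap_jj, rcl_eq_zero_iff]
  refine (Coh.of_eqv (hg.pull_eR h)).trans ?_
  have h1 : Coh X (F.d (CM.th g)) 0 := ⟨CM.th g, (hg.conn_th h).sm, by rw [sub_zero]; exact Eqv.refl _⟩
  have h2 := h1.smul (-2)
  rwa [smul_zero] at h2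

end quo

end Crest.Agent.R208.GQ
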