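import Crest.Agent.R208.GQ3c
import Crest.Agent.R208.GO2

/-! Row 208, block GQ (helper989), part GQ4b: Leray–Hirsch for `ZZ → US` with the Euler form of
`V ⊖ ⟨v₀, v₁⟩` (tensor `GO.WS`), and the resulting statements on `ZZ`. -/

set_option autoImplicit false
set_option linter.unusedSectionVars false
set_option linter.unusedVariables false

open MeasureTheory Set Filter Topology Module
open scoped ContDiff RealInnerProductSpace
open Crest.GeometryTopology.Submanifold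
open Crest.Agent.R241.DDefs
open Crest.Agent.R241.D2
open Crest.Agent.R208.F Crest.Agent.R208.FI Crest.Agent.R208.CW Crest.Agent.R208.T
open Crest.Agent.R208.L (US)

noncomputable section

namespace Crest.Agent.R208.GQ

variable {n N k m : ℕ} {κ : ℝ} {S : Set (Euc N)} {G : Geo n N κ S} {p : Euc N}
  {ι ι' : Type} [Fintype ι] [DecidableEq ι] [Fintype ι'] [DecidableEq ι'] [Nonempty ι']
  {W : Euc N × Euc N → (ι × Fin 2 → Fin N) → ℝ} {x : Euc N → Ext (Euc N)}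
  (eq : (Unit × Fin 2) ⊕ (ι' × Fin 2) ≃ (ι × Fin 2))

/-- the Euler form of `V ⊖ ⟨v₀, v₁⟩` on `Z1` -/
def eps (eq : (Unit × Fin 2) ⊕ (ι' × Fin 2) ≃ (ι × Fin 2)) (h : GT.Bla G k)
    (W : Euc N × Euc N → (ι × Fin 2 → Fin N) → ℝ) :
    ((Euc N × Euc N) × Euc N) × Euc N → Ext (((Euc N × Euc N) × Euc N) × Euc N) :=
  eR (GO.RR (Pm (Q1 h) v1)) (GO.WS eq (fun ζ => W ζ.1) v1)

theorem card_eq (eq : (Unit × Fin 2) ⊕ (ι' × Fin 2) ≃ (ι × Fin 2)) :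
    Fintype.card ι' + 1 = Fintype.card ι := by
  have h1 := Fintype.card_congr eq
  rw [Fintype.card_sum, Fintype.card_prod, Fintype.card_prod, Fintype.card_prod,
    Fintype.card_unit, Fintype.card_fin] at h1
  omega

theorem nonempty_UV (h : GT.Bla G k) (hn : 2 ≤ n) (hS : S.Nonempty) : (UV h).Nonempty := by
  obtain ⟨p, hp⟩ := hS
  have hn1 : 0 < finrank ℝ (LinearMap.range (G.P p : Euc N →ₗ[ℝ] Euc N)) := by
    rw [finrank_range_P G hp]; omega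
  obtain ⟨v, hv⟩ := finrank_pos_iff_exists_ne_zero.1 hn1
  have hv0 : (v : Euc N) ≠ 0 := fun h0 => hv (Subtype.ext h0)
  have hv1 : G.P p (v : Euc N) = v := by
    obtain ⟨w, hw⟩ := v.2
    rw [← hw]
    exact (LB.pfield G).idem p hp w
  refine ⟨FV.up G (p, ‖(v : Euc N)‖⁻¹ • (v : Euc N)), (FV.smap_up h).maps ⟨⟨hp, ?_⟩, ?_⟩⟩
  · change G.P p (‖(v : Euc N)‖⁻¹ • (v : Euc N)) = ‖(v : Euc N)‖⁻¹ • (v : Euc N)
    rw [map_smul, hv1]
  · change ‖‖(v : Euc N)‖⁻¹ • (v : Euc N)‖ = 1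
    rw [norm_smul, norm_inv, norm_norm, inv_mul_cancel₀ (norm_ne_zero_iff.2 hv0)]

theorem or_Z1 (h : GT.Bla G k) (hW : OR (GT.FF S) (FV.PVB h) W) :
    OR (Z1 h) (GO.RR (Pm (Q1 h) v1)) (GO.WS eq (fun ζ => W ζ.1) v1) :=
  GO.OR_sph eq (oddS_UV h) (or_UV h hW)

/-- **(X6)**: Leray–Hirsch for `ZZ → US` -/
theorem lh_UV (h : GT.Bla G k) (hn : 2 ≤ n) (hkn : k < n) (hS : S.Nonempty)
    (hι : 2 * Fintype.card ι = k) (hW : OR (GT.FF S) (FV.PVB h) W) :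
    LH (UV h) (Pm (Q1 h) v1) (2 * Fintype.card ι') (eps eq h W) := by
  have hc := card_eq eq
  have : Nonempty ι := Fintype.card_pos_iff.1 (by omega)
  obtain ⟨z0, hz0⟩ := nonempty_UV h hn hS
  have hO := or_Z1 eq h hW
  have hodd : OddS (UV h) (Q1 h) (2 * Fintype.card ι) v1 := by
    rw [hι]; exact oddS_UV h
  refine lh_OR (sub_UV h (by omega) hkn) (preconn_UV h hn) (or_UV h hW) hodd (by omega)
    hO.ec_eR.sm hO.ec_eR.cl hom_eR ?_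
  rintro ⟨a, sa, -, -, ea⟩
  exact GO.not_pull_sph eq hodd (or_UV h hW) hz0 ⟨a, sa, ea⟩

/-- the field `V ⊖ ⟨v₀, v₁⟩` on `ZZ` -/
def P0Z (h : GT.Bla G k) (ζ : (Euc N × Euc N) × (Fin 2 → Euc N)) : Euc N →L[ℝ] Euc N :=
  Pm (Pm (fun ζ : (Euc N × Euc N) × (Fin 2 → Euc N) => FV.PVB h ζ.1) (fun ζ => ζ.2 0))
    (fun ζ => ζ.2 1) ζ

/-- its orientation tensor -/
def W0Z (eq : (Unit × Fin 2) ⊕ (ι' × Fin 2) ≃ (ι × Fin 2))
    (W : Euc N × Euc N → (ι × Fin 2 → Fin N) → ℝ) (ζ : (Euc N × Euc N) × (Fin 2 → Euc N)) :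
    (ι' × Fin 2 → Fin N) → ℝ := GO.ctr eq (GO.col2 (ζ.2 0) (ζ.2 1)) (W ζ.1)

theorem P0Z_eq (h : GT.Bla G k) (ζ : (Euc N × Euc N) × (Fin 2 → Euc N)) :
    P0Z h ζ = GO.RR (Pm (Q1 h) v1) (toZ ζ) := rfl

theorem W0Z_eq (ζ : (Euc N × Euc N) × (Fin 2 → Euc N)) :
    W0Z eq W ζ = GO.WS eq (fun ζ => W ζ.1) v1 (toZ ζ) := rfl

theorem or_ZZ (h : GT.Bla G k) (hW : OR (GT.FF S) (FV.PVB h) W) :
    OR (GT.ZZ S (FV.PVB h)) (P0Z h) (W0Z eq W) :=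
  GP.OR.comp (or_Z1 eq h hW) (f := toZ) (smap_toZ h).smooth (smap_toZ h).maps

end Crest.Agent.R208.GQ
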