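import Crest.Agent.R208.GK1
import Crest.Agent.R208.GA2

/-!
Row 208, block GQ (helper989), part GQ5a: the algebra between the classes on `D` and the
contradiction of `GA.absurd_even`, `GA.absurd_odd`.
-/

set_option autoImplicit false

open PowerSeries Finset

namespace Crest.Agent.R208.GQ

variable {A B : Type*} [CommRing A] [Algebra ℂ A] [CommRing B] [Algebra ℂ B]

/-! ### the logarithmic derivative of `(1 + μ X + X²)^(m+1) / (1 + 2 μ X)` -/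

/-- `P_M` -/
noncomputable def PP (m : ℕ) (μ : ℂ) : ℂ⟦X⟧ :=
  (1 + C μ * X + X ^ 2) ^ (m + 1) * (1 + C (2 * μ) * X)⁻¹

theorem PP_mul (m : ℕ) (μ : ℂ) : PP m μ * (1 + C (2 * μ) * X) = (1 + C μ * X + X ^ 2) ^ (m + 1) := by
  rw [PP, mul_assoc, PowerSeries.inv_mul_cancel _ (by simp), mul_one]

theorem PP_const (m : ℕ) (μ : ℂ) : constantCoeff (PP m μ) = 1 := by
  have h := congrArg constantCoeff (PP_mul m μ)
  simpa using h

/-- `θ P / P` -/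
noncomputable def QQ (m : ℕ) (μ : ℂ) : ℂ⟦X⟧ :=
  C ((m : ℂ) + 1) * (C μ * X + 2 * X ^ 2) * (1 + C μ * X + X ^ 2)⁻¹ -
    C (2 * μ) * X * (1 + C (2 * μ) * X)⁻¹

theorem q1_ne (μ : ℂ) : constantCoeff (1 + C μ * X + X ^ 2 : ℂ⟦X⟧) ≠ 0 := by simp

theorem q2_ne (μ : ℂ) : constantCoeff (1 + C (2 * μ) * X : ℂ⟦X⟧) ≠ 0 := by simp

theorem QQ_mul (m : ℕ) (μ : ℂ) : QQ m μ * ((1 + C μ * X + X ^ 2) * (1 + C (2 * μ) * X)) =
      C ((m : ℂ) + 1) * (C μ * X + 2 * X ^ 2) * (1 + C (2 * μ) * X)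
        - C (2 * μ) * X * (1 + C μ * X + X ^ 2) := by
  have h1 := PowerSeries.mul_inv_cancel _ (q1_ne μ)
  have h2 := PowerSeries.mul_inv_cancel _ (q2_ne μ)
  rw [QQ]
  linear_combination (C ((m : ℂ) + 1) * (C μ * X + 2 * X ^ 2) * (1 + C (2 * μ) * X)) * h1 -
    (C (2 * μ) * X * (1 + C μ * X + X ^ 2)) * h2

theorem th_PP (m : ℕ) (μ : ℂ) : GA.th (PP m μ) = QQ m μ * PP m μ := by
  have h1 := PP_mul m μ
  have h2 := QQ_mul m μ
  have h3 := congrArg GA.th h1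
  have h4 : GA.th (1 + C (2 * μ) * X : ℂ⟦X⟧) = C (2 * μ) * X := by
    rw [GA.th_add, GA.th_one, GA.th_C_mul, GA.th_X, zero_add]
  have h5 : GA.th (1 + C μ * X + X ^ 2 : ℂ⟦X⟧) = C μ * X + 2 * X ^ 2 := by
    rw [GA.th_add, GA.th_add, GA.th_one, GA.th_C_mul, sq, GA.th_mul, GA.th_X]
    ring
  rw [GA.th_mul, GA.th_pow, h4, h5] at h3
  have h6 : (1 + C (2 * μ) * X : ℂ⟦X⟧) ≠ 0 := fun h => q2_ne μ (by rw [h, map_zero])
  have h7 : (1 + C μ * X + X ^ 2 : ℂ⟦X⟧) ≠ 0 := fun h => q1_ne μ (by rw [h, map_zero])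
  refine mul_right_cancel₀ (mul_ne_zero h6 h7) ?_
  have hC : C ((m : ℂ) + 1) = ((m : ℂ⟦X⟧) + 1) := by simp
  rw [hC] at h2
  linear_combination (1 + C μ * X + X ^ 2) * h3 - (PP m μ) * h2 -
    (((m : ℂ⟦X⟧) + 1) * (C μ * X + 2 * X ^ 2)) * h1

/-- the case `μ = 0` -/
theorem QQ_zero (m : ℕ) :
    QQ m 0 * (1 + C ((1 : ℝ) : ℂ) * X ^ 2) = C (2 * ((1 : ℝ) : ℂ) * ((m : ℂ) + 1)) * X ^ 2 := by
  have h := QQ_mul m 0
  simp only [mul_zero, map_zero, zero_mul, add_zero, zero_add, mul_one, sub_zero] at h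
  rw [Complex.ofReal_one, map_one, one_mul, h, mul_one, map_mul]
  have : (C (2 : ℂ) : ℂ⟦X⟧) = 2 := map_ofNat C 2
  rw [this]
  ring

variable (φ : A →ₐ[ℂ] B) {l m r : ℕ} {ξ x1 x2 e : A} {x w : B} {Gr : ℕ → Submodule ℂ A}

/-- the `F`-level contradiction from the classes on `D` -/
theorem core_False (hl : 3 ≤ l) (hm : 2 ≤ m) (hr : r = l * (m - 1)) (h82 : ¬ (l = 4 ∧ m = 2))
    (hxe : x1 - x2 = ξ * e) (hφξ : φ ξ = 0) (hφ1 : φ x1 = x) (hφ2 : φ x2 = x) (hφe : φ e = w)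
    (h1 : (1 : A) ∈ Gr 0)
    (hmul : ∀ i j : ℕ, ∀ a b : A, a ∈ Gr i → b ∈ Gr j → a * b ∈ Gr (i + j)) (hξ : ξ ∈ Gr 1)
    (hx1 : x1 ∈ Gr l) (hx2 : x2 ∈ Gr l) (he : e ∈ Gr (l - 1))
    (div : ∀ j < r + 1, ∀ b ∈ Gr j, b * ξ = 0 → b = 0) {t s v : ℕ → A} (ht : ∀ j, t j ∈ Gr j)
    (hs : ∀ j, s j = ∑ i ∈ range (j + 1), (j.choose i : A) * t i * ξ ^ (j - i))
    (μ : ℝ) (hμ : Odd l → μ = 0)
    (hT : ∀ i, 1 ≤ i → 2 * i ≤ r + 1 → 2 * t (2 * i) =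
      (if l ∣ 2 * i then (-(l : ℂ) * coeff (2 * i / l) (QQ m μ)) • x2 ^ (2 * i / l) else 0) -
        v (2 * i))
    (hF : ∀ i, 1 ≤ i → 2 * i ≤ r + 1 → 2 * s (2 * i) =
      (if l ∣ 2 * i then (-(l : ℂ) * coeff (2 * i / l) (QQ m μ)) • x1 ^ (2 * i / l) else 0) -
        v (2 * i))
    (hv : ∀ i, 1 ≤ i → 2 * i ≤ r → φ (v (2 * i)) =
      if l ∣ 2 * i then ((l : ℂ) * (-(2 * (μ : ℂ))) ^ (2 * i / l)) • x ^ (2 * i / l) else 0)
    {c c' : ℕ → A} (hce : ∀ j, c j = CW.el t j) (hcm : ∀ j, c j ∈ Gr j)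
    (hc : c' r = ∑ i ∈ range (r + 1), c (r - i) * ξ ^ i) {κ κ' : ℂ} (hκ : κ ≠ 0)
    (hF1 : c' r = κ • ∑ b ∈ range m, ((b + 1 : ℕ) : A) * (x1 ^ b * x2 ^ (m - 1 - b)))
    (hT1 : c r = κ' • ∑ b ∈ range m, ((b + 1 : ℕ) : A) * (x2 ^ b * x1 ^ (m - 1 - b)))
    (hw : w ^ 2 = 0) (hx : x ^ (m - 1) ≠ 0) (hxw : x ^ (m - 2) * w ≠ 0) : False := by
  have hodd := GK.odd_sum φ (M := r + 1) (by omega : 1 ≤ l) hxe hφξ hφ1 hφ2 hφe h1 hmul hξ hx1 hx2
    he div ht hs (σ := fun i => -(l : ℂ) * coeff i (QQ m μ)) (v := v) hT hF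
  obtain ⟨-, hB1, hB2⟩ := GK.h12 φ (M := r + 1) (by omega : 1 ≤ l) hm (by omega) hxe hφξ hφ1 hφ2
    hφe h1 hmul hξ hx1 hx2 he div hcm hr hc hF1 hT1 (fun z hz => by
      by_contra h
      exact hx ((smul_eq_zero.1 hz).resolve_left h))
  set t' : ℕ → B := fun j => φ (t j) with ht'
  have hcel : ∀ j, φ (c j) = CW.el t' j := fun j => by
    rw [hce]; exact CW.el_map φ.toRingHom t j
  rw [hcel] at hB1 hB2
  have hlc : (l : ℂ) ≠ 0 := by exact_mod_cast (show l ≠ 0 by omega)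
  -- even sums
  have heven : ∀ i, 1 ≤ i → 2 * i ≤ r → t' (2 * i) =
      if l ∣ 2 * i then (-((l : ℂ) / 2) * (coeff (2 * i / l) (QQ m μ) +
        (-(2 * (μ : ℂ))) ^ (2 * i / l))) • x ^ (2 * i / l) else 0 := by
    intro i hi hir
    have e1 := congrArg φ (hT i hi (by omega))
    rw [map_sub, hv i hi hir, map_mul, map_ofNat] at e1
    have e2 : t' (2 * i) = (1 / 2 : ℂ) • (2 * φ (t (2 * i))) := by
      rw [show (2 : B) * φ (t (2 * i)) = (2 : ℂ) • φ (t (2 * i)) by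
        rw [Algebra.smul_def, map_ofNat], smul_smul]
      norm_num [ht']
    rw [e2, e1]
    by_cases hd : l ∣ 2 * i
    · rw [if_pos hd, if_pos hd, if_pos hd, map_smul, map_pow, hφ2, ← sub_smul, smul_smul]
      congr 1
      ring
    · rw [if_neg hd, if_neg hd, if_neg hd, map_zero, sub_zero, smul_zero]
  -- odd sums
  have hodd' : ∀ j, j ≤ r → Odd j → t' j = if l ∣ j + 1 then
      (-(1 / 2) * coeff ((j + 1) / l) (QQ m μ)) • (w * x ^ ((j + 1) / l - 1)) else 0 := by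
    rintro j hj ⟨i, rfl⟩
    have e1 := hodd (i + 1) (by omega) (by omega)
    rw [show 2 * (i + 1) - 1 = 2 * i + 1 by omega, show 2 * (i + 1) = 2 * i + 1 + 1 by ring] at e1
    rw [ht']
    simp only
    rw [e1]
    by_cases hd : l ∣ 2 * i + 1 + 1
    · rw [if_pos hd, if_pos hd]
      congr 1
      field_simp
    · rw [if_neg hd, if_neg hd]
  have he2 : ∀ j, 1 ≤ j → j ≤ r → Even j → ¬ l ∣ j → t' j = 0 := by
    rintro j hj hjr hev hd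
    obtain ⟨i, rfl⟩ := hev.exists_two_nsmul
    rw [smul_eq_mul] at hj hjr hd ⊢
    rw [heven i (by omega) hjr, if_neg hd]
  have ho2 : ∀ j, 1 ≤ j → j ≤ r → Odd j → ¬ l ∣ j + 1 → t' j = 0 := by
    intro j _ hjr hod hd
    rw [hodd' j hjr hod, if_neg hd]
  have hli : ∀ i, (l * i) / l = i := fun i => Nat.mul_div_cancel_left i (by omega)
  have he1 : ∀ i, 1 ≤ i → l * i ≤ r → Even (l * i) →
      t' (l * i) = (-((l : ℂ) / 2) * (coeff i (QQ m μ) + (-(2 * (μ : ℂ))) ^ i)) • x ^ i := by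
    intro i hi hir hev
    obtain ⟨q, hq⟩ := hev.exists_two_nsmul
    rw [smul_eq_mul] at hq
    have h3 : 1 ≤ l * i := Nat.mul_pos (by omega) hi
    have e1 := heven q (by omega) (by omega)
    rw [← hq, if_pos (dvd_mul_right l i), hli] at e1
    exact e1
  have ho1 : ∀ i, 1 ≤ i → l * i - 1 ≤ r → Even (l * i) →
      t' (l * i - 1) = (-(1 / 2) * coeff i (QQ m μ)) • (w * x ^ (i - 1)) := by
    intro i hi hir hev
    have h3 : l ≤ l * i := Nat.le_mul_of_pos_right l hi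
    have e1 := hodd' (l * i - 1) hir (by
      obtain ⟨q, hq⟩ := hev
      exact ⟨q - 1, by omega⟩)
    rw [show l * i - 1 + 1 = l * i by omega, if_pos (dvd_mul_right l i), hli] at e1
    exact e1
  rcases Nat.even_or_odd l with hle | hlo
  · have hl4 : 4 ≤ l := by
      obtain ⟨q, rfl⟩ := hle; omega
    exact GA.absurd_even l m r hl4 hle hm h82 hr μ κ hκ hw (QQ_mul m μ)
      (fun i hi hir => he1 i hi hir (hle.mul_right i)) he2
      (fun i hi hir => ho1 i hi hir (hle.mul_right i)) ho2 hx hxw hB1 hB2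
  · have hμ0 := hμ hlo
    subst hμ0
    rw [Complex.ofReal_zero] at he1 ho1
    refine GA.absurd_odd l m r (by omega) hlo hm hr 1 one_ne_zero κ hκ hw (QQ_zero m)
      (fun i hi hir hev => ?_) he2 (fun i hi hir hev => ho1 i hi hir (hev.mul_left l)) ho2 hx hxw
      hB1 hB2
    rw [he1 i hi hir (hev.mul_left l), mul_zero, neg_zero, zero_pow (by omega), add_zero]

end Crest.Agent.R208.GQ
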