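import Crest.Agent.R208.CW7b
import Crest.Agent.R208.CW9
import Crest.Agent.R208.GD3
import Crest.Agent.R208.VX2

/-! Row 208, block GQ (helper989), part GQ5b: the Euler class of `T + conj T` and the top Chern
class of `T`. -/

set_option autoImplicit false
set_option linter.unusedSectionVars false
set_option linter.unusedVariables false

open MeasureTheory Set Filter Topology Module
open scoped ContDiff RealInnerProductSpace Matrix
open Crest.Agent.R208.F Crest.Agent.R208.FI Crest.Agent.R208.CW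

noncomputable section

namespace Crest.Agent.R208.GQ

section abs
variable {E : Type*} [NormedAddCommGroup E] [NormedSpace ℝ E] [FiniteDimensional ℝ E]
  {ι n : Type*} [Fintype ι] [DecidableEq ι] [Fintype n] [DecidableEq n] {X : Set E} {dX : ℕ}
  {T P : E → Matrix n n ℂ} {W : E → (ι × Fin 2 → n) → ℂ}

/-- the complex structure of `T + conj T` with `+i` eigenspace `T` -/
def jT (T : Matrix n n ℂ) : Matrix n n ℂ := Complex.I • (T - SP.cj T)

theorem rj_of {T P : Matrix n n ℂ} (hP : P.transpose = P) (hc : SP.cj P = P) (hs : P = T + SP.cj T)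
    (h0 : T * T = T) (h1 : T * SP.cj T = 0) (h2 : SP.cj T * T = 0) : RJ P (jT T) := by
  have h3 : SP.cj T * SP.cj T = SP.cj T := by rw [← map_mul, h0]
  have h4 : SP.cj (SP.cj T) = T := by
    ext i j
    rw [SP.cj_apply, SP.cj_apply, Complex.conj_conj]
  refine ⟨hc, ?_, hP, ?_, ?_, ?_, ?_⟩
  · rw [jT]
    ext i j
    have h5 : SP.cj (SP.cj T) i j = T i j := by rw [h4]
    rw [SP.cj_apply, SP.cj_apply] at h5
    simp only [SP.cj_apply, Matrix.smul_apply, Matrix.sub_apply, smul_eq_mul, map_mul, map_sub,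
      Complex.conj_I, Complex.conj_conj]
    ring
  · rw [hs, add_mul, mul_add, mul_add, h0, h1, h2, h3]
    abel
  · rw [jT, Matrix.smul_mul, Matrix.mul_smul, smul_smul, Complex.I_mul_I, sub_mul, mul_sub, mul_sub,
      h0, h1, h2, h3, hs]
    rw [neg_one_smul]
    abel
  · rw [jT, Matrix.smul_mul, hs, sub_mul, mul_add, mul_add, h0, h1, h2, h3]
    simp
  · rw [jT, Matrix.mul_smul, hs, mul_sub, add_mul, add_mul, h0, h1, h2, h3]
    simp

theorem qJ_jT {T P : Matrix n n ℂ} (hs : P = T + SP.cj T) : qJ P (jT T) = T := by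
  rw [qJ, jT, hs]
  have e1 : Complex.I * (1 / 2) * Complex.I = -(1 / 2) := by
    linear_combination (1 / 2) * Complex.I_mul_I
  rw [← smul_neg, smul_smul, smul_smul, e1]
  module

theorem transpose_of {P : Matrix n n ℂ} {W : (ι × Fin 2 → n) → ℂ} (h : Fr P W) :
    P.transpose = P := by
  obtain ⟨f, -, rfl, -⟩ := h
  rw [Matrix.transpose_mul, Matrix.transpose_transpose]

theorem rank_of (h : OF X P W) (hT : IdF X T) (hs : ∀ x ∈ X, P x = T x + SP.cj (T x))
    {x : E} (hx : x ∈ X) : (T x).rank = Fintype.card ι := by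
  have h1 := (h.fr x hx).trace
  have h2 := rank_eq_trace (hT.idem x hx)
  have h3 : (SP.cj (T x)).trace = (starRingEnd ℂ) (T x).trace := by
    rw [Matrix.trace, Matrix.trace, map_sum]
    exact Finset.sum_congr rfl fun i _ => rfl
  rw [hs x hx, Matrix.trace_add, h3, ← h2, Complex.conj_natCast, ← two_mul] at h1
  exact_mod_cast mul_left_cancel₀ two_ne_zero h1

/-- the Euler class of `T + conj T` -/
theorem ec_of (hX : Sub dX X) (hXc : IsPreconnected X) (h : OF X P W) (hT : IdF X T)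
    (hc : ∀ x ∈ X, SP.cj (P x) = P x)
    (hs : ∀ x ∈ X, P x = T x + SP.cj (T x)) (h1 : ∀ x ∈ X, T x * SP.cj (T x) = 0)
    (h2 : ∀ x ∈ X, SP.cj (T x) * T x = 0) :
    ∃ ε : ℂ, ε ≠ 0 ∧ ec h = ε • cc hX hT (Fintype.card ι) := by
  have hcjS : ∀ x ∈ X, SM ∞ (fun x => SP.cj (T x)) x := fun x hx => hT.conj.smooth x hx
  have hJ : ∀ x ∈ X, SM ∞ (fun x => jT (T x)) x := fun x hx =>
    ((hT.smooth x hx).sub (hcjS x hx)).csmul Complex.I
  have hr : ∀ x ∈ X, RJ (P x) (jT (T x)) := fun x hx =>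
    rj_of (transpose_of (h.fr x hx)) (hc x hx) (hs x hx) (hT.idem x hx) (h1 x hx) (h2 x hx)
  have hQ : IdF X (fun x => qJ (P x) (jT (T x))) := ⟨fun x hx => by
    have := SM.qJ (h.sP x hx) (hJ x hx)
    exact this, fun x hx => (hr x hx).qJ_idem⟩
  obtain ⟨ε, hε, e1⟩ := ec_complex hX hXc h hJ hr hQ
  refine ⟨ε * (2 ^ Fintype.card ι * ↑(Fintype.card ι).factorial * Complex.I ^ Fintype.card ι), ?_,
    e1.trans ?_⟩
  · refine mul_ne_zero ?_ (mul_ne_zero (mul_ne_zero (pow_ne_zero _ two_ne_zero) ?_)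
      (pow_ne_zero _ Complex.I_ne_zero))
    · rcases hε with rfl | rfl
      · exact one_ne_zero
      · exact neg_ne_zero.2 one_ne_zero
    · exact_mod_cast Nat.factorial_ne_zero _
  · have e2 : cc hX hQ (Fintype.card ι) = cc hX hT (Fintype.card ι) :=
      VX.cc_congr hX hQ hT (fun x hx => qJ_jT (hs x hx)) (Fintype.card ι)
    rw [e2]

end abs

section des
open Crest.GeometryTopology.Submanifold
open Crest.Agent.R241.DDefs
open Crest.Agent.R241.D2
open Crest.Agent.R208.GT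

variable {n N k d : ℕ} {κ : ℝ} {S : Set (Euc N)} {G : Geo n N κ S}
  {PV : Euc N × Euc N → Euc N →L[ℝ] Euc N} (hV : VField G PV) (h : Bla G k)
  {E' : Type} [NormedAddCommGroup E'] [NormedSpace ℝ E'] [FiniteDimensional ℝ E'] {Y : Set E'}
  {z : E' → Euc N × Euc N} {T F L : E' → Matrix (Fin N) (Fin N) ℂ}
  {ι : Type} [Fintype ι] [DecidableEq ι] {W : Euc N × Euc N → (ι × Fin 2 → Fin N) → ℝ}

theorem cr_mP (z : Euc N × Euc N) : SP.cr (mP G PV z) = R208.T.mtx (G.P z.2 - PV z.swap) :=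
  VX.mV_eq (PTC G PV) z

theorem cj_mtx (A : Euc N →L[ℝ] Euc N) : SP.cj (R208.T.mtx A) = R208.T.mtx A := by
  ext i j
  rw [SP.cj_apply, R208.T.mtx, Matrix.of_apply, Complex.conj_ofReal]

include hV h

/-- the Euler class of `T_p C_q` on `Y` -/
theorem ec_Fz (hD : Des G PV Y z T F L) (hY : Sub d Y) (hYc : IsPreconnected Y)
    (hW : R208.T.OR (FF S) (fun z => G.P z.1 - PV z) W) :
    ∃ ε : ℂ, ε ≠ 0 ∧ H.map hD.smap (ec hW.of) = ε • cc hY (hD.idf_F hV h) (Fintype.card ι) := by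
  rw [ec_map]
  refine ec_of hY hYc _ _ (fun y _ => cj_mtx _) (fun y hy => ?_) (fun y hy => ?_) (fun y hy => ?_)
  all_goals obtain ⟨ζ, hζ, e1, -, e2, -⟩ := hD.ex y hy
  · rw [e1, e2]
    exact ((cr_mP (G := G) (PV := PV) ζ.1.swap).symm.trans
      ((pencil_ZZ hV h hζ).fj_add_cj).symm)
  · rw [e2]; exact (pencil_ZZ hV h hζ).fj_mul_cj
  · rw [e2]; exact (pencil_ZZ hV h hζ).cj_mul_fj

/-- the Euler class of `T_q C_p` on `Y` -/
theorem ec_Tz (hD : Des G PV Y z T F L) (hY : Sub d Y) (hYc : IsPreconnected Y)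
    (hW : R208.T.OR (FF S) (fun z => G.P z.1 - PV z) W) :
    ∃ ε : ℂ, ε ≠ 0 ∧ H.map (smap_swap.comp hD.smap) (ec hW.of) =
      ε • cc hY (hD.idf_T hV h) (Fintype.card ι) := by
  rw [ec_map]
  refine ec_of hY hYc _ _ (fun y _ => cj_mtx _) (fun y hy => ?_) (fun y hy => ?_) (fun y hy => ?_)
  all_goals obtain ⟨ζ, hζ, e1, e2, -, -⟩ := hD.ex y hy
  · change R208.T.mtx (G.P (z y).swap.1 - PV (z y).swap) = _
    rw [e1, e2]
    exact ((cr_mP (G := G) (PV := PV) ζ.1).symm.trans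
      ((pencil_ZZ hV h hζ).tj_add_cj).symm)
  · rw [e2]; exact (pencil_ZZ hV h hζ).tj_mul_cj
  · rw [e2]; exact (pencil_ZZ hV h hζ).cj_mul_tj

/-- the rank of `T_J` -/
theorem rank_T (hD : Des G PV Y z T F L) (hW : R208.T.OR (FF S) (fun z => G.P z.1 - PV z) W)
    {y : E'} (hy : y ∈ Y) : (T y).rank = Fintype.card ι := by
  refine rank_of (hW.of.comp (smap_swap.comp hD.smap)) (hD.idf_T hV h) (fun y hy => ?_) hy
  obtain ⟨ζ, hζ, e1, e2, -, -⟩ := hD.ex y hy
  change R208.T.mtx (G.P (z y).swap.1 - PV (z y).swap) = _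
  rw [e1, e2]
  exact ((cr_mP (G := G) (PV := PV) ζ.1).symm.trans
    ((pencil_ZZ hV h hζ).tj_add_cj).symm)

/-- the top class of `F_J = T_J ⊗ ℓ` -/
theorem cc_F_top (hD : Des G PV Y z T F L) (hY : Sub d Y)
    (hW : R208.T.OR (FF S) (fun z => G.P z.1 - PV z) W) {r : ℕ} (hr : Fintype.card ι = r) :
    cc hY (hD.idf_F hV h) r =
      ∑ i ∈ Finset.range (r + 1), cc hY (hD.idf_T hV h) (r - i) * CW.sc hY hD.idf_L 1 ^ i := by
  rw [cc_twist_top hY (hD.idf_T hV h) hD.idf_L (hD.idf_F hV h)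
    (fun y hy => (rank_T hV h hD hW hy).trans hr) (fun y hy => by
      obtain ⟨ζ, hζ, -, -, -, e⟩ := hD.ex y hy
      rw [e]; exact LL_rank hζ) (fun j _ => hD.sc_F hV h hY j), ← Finset.sum_range_reflect]
  refine Finset.sum_congr rfl fun i hi => ?_
  rw [Finset.mem_range] at hi
  rw [mul_comm]
  congr 2
  omega

end des

end Crest.Agent.R208.GQ
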