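import Crest.Agent.R208.GQ5a
import Crest.Agent.R208.CW9

/-! Row 208, block GQ (helper989), part GQ5c: power sums of `TM` and of `V`. -/

set_option autoImplicit false

open PowerSeries Finset

namespace Crest.Agent.R208.GQ

variable {A : Type*} [CommRing A] [Algebra ℂ A]

/-- coefficients of the quotient by a unit -/
theorem coeff_eq_of_mul {F G : ℂ⟦X⟧} {u : ℂ⟦X⟧} (hu : constantCoeff u ≠ 0) {m : ℕ}
    (h : ∀ i ≤ m, coeff i (F * u) = coeff i (G * u)) : ∀ i ≤ m, coeff i F = coeff i G := by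
  have h1 : X ^ (m + 1) ∣ (F - G) * u := by
    rw [X_pow_dvd_iff]
    intro i hi
    rw [sub_mul, map_sub, h i (by omega), sub_self]
  have h2 : X ^ (m + 1) ∣ F - G := by
    have h3 := h1.mul_right u⁻¹
    rwa [mul_assoc, PowerSeries.mul_inv_cancel _ hu, mul_one] at h3
  intro i hi
  have h3 := (X_pow_dvd_iff.1 h2) i (by omega)
  rw [map_sub, sub_eq_zero] at h3
  exact h3

/-- power sums of `TM` -/
theorem tm_sums {l m : ℕ} (hl : 1 ≤ l) {x : A} {s : ℕ → A} {p : ℕ → ℂ} (μ : ℂ)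
    (hp : ∀ j, j ≤ l * m → CW.el s j = if l ∣ j then p (j / l) • x ^ (j / l) else 0)
    (hrel : ∀ i ≤ m, coeff i (PowerSeries.mk p * (1 + C (2 * μ) * X)) =
      coeff i ((1 + C μ * X + X ^ 2) ^ (m + 1))) :
    ∀ i, 1 ≤ i → 2 * i ≤ l * m → s (2 * i) =
      if l ∣ 2 * i then (-(l : ℂ) * coeff (2 * i / l) (QQ m μ)) • x ^ (2 * i / l) else 0 := by
  have hc : ∀ i ≤ m, coeff i (PowerSeries.mk p) = coeff i (PP m μ) :=
    coeff_eq_of_mul (q2_ne μ) (fun i hi => by rw [hrel i hi, PP_mul])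
  have hli : ∀ i, (l * i) / l = i := fun i => Nat.mul_div_cancel_left i (by omega)
  obtain ⟨h1, h2⟩ := GA.sums_of_el (r := l * m) (by omega : l ≠ 0) (x := x) (s := s) (PP_const m μ)
    (th_PP m μ) (fun i _ hir => by
      have him : i ≤ m := Nat.le_of_mul_le_mul_left hir (by omega)
      rw [hp _ hir, if_pos (dvd_mul_right l i), hli, ← hc i him, coeff_mk])
    (fun j hj hd => by rw [hp j hj, if_neg hd])
  intro i hi him
  by_cases hd : l ∣ 2 * i
  · rw [if_pos hd]
    obtain ⟨q, hq⟩ := hd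
    have hq1 : 1 ≤ q := by
      rcases Nat.eq_zero_or_pos q with rfl | h
      · omega
      · exact h
    rw [hq, hli, h1 q hq1 (by omega), ← hq, pow_succ, (even_two_mul i).neg_one_pow]
    congr 1
    ring
  · rw [if_neg hd]
    exact h2 _ him hd

theorem q2_coeff (a : ℂ) {i : ℕ} (hi : 1 ≤ i) :
    coeff i (C a * X * (1 + C a * X)⁻¹ : ℂ⟦X⟧) = -(-a) ^ i := by
  have h1 : (1 + C a * X : ℂ⟦X⟧)⁻¹ = PowerSeries.mk fun n => (-a) ^ n := by
    rw [PowerSeries.inv_eq_iff_mul_eq_one (by simp)]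
    ext n
    rw [mul_add, mul_one, map_add, coeff_mk, show (PowerSeries.mk fun n => (-a) ^ n) * (C a * X) =
      C a * ((PowerSeries.mk fun n => (-a) ^ n) * X) by ring, coeff_C_mul]
    cases n with
    | zero => simp
    | succ n =>
      rw [coeff_succ_mul_X, coeff_mk, coeff_one, if_neg (by omega), pow_succ]
      ring
  obtain ⟨j, rfl⟩ : ∃ j, i = j + 1 := ⟨i - 1, by omega⟩
  rw [h1, mul_assoc, coeff_C_mul, mul_comm X, coeff_succ_mul_X, coeff_mk, pow_succ]
  ring

/-- power sums of `V` on `Z` -/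
theorem v_sums {l : ℕ} (hl : 1 ≤ l) {x : A} {s : ℕ → A} (μ : ℂ)
    (hcs : CW.cser s = 1 + C ((2 * μ) • x) * X ^ l) :
    ∀ i, 1 ≤ i → s (2 * i) =
      if l ∣ 2 * i then ((l : ℂ) * (-(2 * μ)) ^ (2 * i / l)) • x ^ (2 * i / l) else 0 := by
  have hel : ∀ j, 1 ≤ j → CW.el s j = if j = l then (2 * μ) • x else 0 := by
    intro j hj
    rw [← CW.coeff_cser, hcs, map_add, coeff_one, if_neg (by omega), zero_add, coeff_C_mul,
      coeff_X_pow]
    split_ifs <;> simp
  have hli : ∀ i, (l * i) / l = i := fun i => Nat.mul_div_cancel_left i (by omega)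
  have hth : GA.th (1 + C (2 * μ) * X : ℂ⟦X⟧) =
      (C (2 * μ) * X * (1 + C (2 * μ) * X)⁻¹) * (1 + C (2 * μ) * X) := by
    rw [mul_assoc, PowerSeries.inv_mul_cancel _ (q2_ne μ), mul_one, GA.th_add, GA.th_one,
      GA.th_C_mul, GA.th_X, zero_add]
  intro i hi
  obtain ⟨h1, h2⟩ := GA.sums_of_el (r := 2 * i) (by omega : l ≠ 0) (x := x) (s := s)
    (P := 1 + C (2 * μ) * X) (by simp) hth (fun i hi1 hir => by
      rw [hel _ (Nat.mul_pos (by omega) hi1)]
      rcases Nat.lt_or_ge 1 i with h | h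
      · rw [if_neg, map_add, coeff_one, if_neg (by omega), zero_add, coeff_C_mul, coeff_X,
          if_neg (by omega), mul_zero, zero_smul]
        intro h3
        have h4 : l * 1 < l * i := Nat.mul_lt_mul_of_pos_left h (by omega)
        omega
      · have h5 : i = 1 := by omega
        subst h5
        rw [mul_one, if_pos rfl, pow_one, map_add, coeff_one, if_neg (by omega), zero_add,
          coeff_C_mul, coeff_one_X, mul_one])
    (fun j hj hd => by
      have hj1 : 1 ≤ j := by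
        rcases Nat.eq_zero_or_pos j with rfl | h
        · exact absurd (dvd_zero l) hd
        · exact h
      rw [hel j hj1, if_neg (fun h => hd (by rw [h]))])
  by_cases hd : l ∣ 2 * i
  · rw [if_pos hd]
    obtain ⟨q, hq⟩ := hd
    have hq1 : 1 ≤ q := by
      rcases Nat.eq_zero_or_pos q with rfl | h
      · omega
      · exact h
    rw [hq, hli, h1 q hq1 (by omega), ← hq, pow_succ, (even_two_mul i).neg_one_pow,
      q2_coeff _ hq1]
    congr 1
    ring
  · rw [if_neg hd]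
    exact h2 _ le_rfl hd

end Crest.Agent.R208.GQ
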