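import Crest.Agent.R208.GQ5b
import Crest.Agent.R208.GQ5c
import Crest.Agent.R208.FG5

/-! Row 208, block GQ (helper989), part GQ5d: power sums of `T_J`, `F_J` and the classes of `TM`, `V`
on any `Des Y`. -/

set_option autoImplicit false
set_option linter.unusedSectionVars false
set_option linter.unusedVariables false

open MeasureTheory Set Filter Topology Module
open scoped ContDiff RealInnerProductSpace Matrix
open Crest.Agent.R208.F Crest.Agent.R208.FI Crest.Agent.R208.CW
open Crest.GeometryTopology.Submanifold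
open Crest.Agent.R241.DDefs
open Crest.Agent.R241.D2
open Crest.Agent.R208.GT

noncomputable section

namespace Crest.Agent.R208.GQ

section des

variable {n N k d dF : ℕ} {κ : ℝ} {S : Set (Euc N)} {G : Geo n N κ S}
  {PV : Euc N × Euc N → Euc N →L[ℝ] Euc N} (hV : VField G PV) (h : Bla G k)
  {E' : Type} [NormedAddCommGroup E'] [NormedSpace ℝ E'] [FiniteDimensional ℝ E'] {Y : Set E'}
  {z : E' → Euc N × Euc N} {T F L : E' → Matrix (Fin N) (Fin N) ℂ}

include hV h

/-- `T_q M = V + T_J + conj T_J` -/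
theorem rel_T (hkn : k < n) (hD : Des G PV Y z T F L) (hY : Sub d Y) (hS : Sub n S)
    (hF : Sub dF (FF S)) (j : ℕ) :
    (1 + (-1) ^ j) * CW.sc hY (hD.idf_T hV h) j =
      H.map hD.smap (FG.xq (CW.sc hS (idf_mM (G := G)) j)) -
        H.map hD.smap (CW.sc hF (idf_mV hV) j) := by
  rw [← hD.sc_TC hV h hY j, ← CW.map_sc hY hF hD.smap (idf_TCF hV h) j, ← map_sub]
  congr 1
  rw [FG.xq, CW.map_sc hF hS, eq_sub_iff_add_eq, add_comm]
  exact (sc_TC_sub hV h hkn hF j).symm

/-- `T_p M = V + F_J + conj F_J` -/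
theorem rel_F (hkn : k < n) (hD : Des G PV Y z T F L) (hY : Sub d Y) (hS : Sub n S)
    (hF : Sub dF (FF S)) (j : ℕ) :
    (1 + (-1) ^ j) * CW.sc hY (hD.idf_F hV h) j =
      H.map hD.smap (FG.xp (CW.sc hS (idf_mM (G := G)) j)) -
        H.map hD.smap (CW.sc hF (idf_mV hV) j) := by
  have e1 : CW.sc hF (idf_TCF hV h) j =
      FG.xq (CW.sc hS (idf_mM (G := G)) j) - CW.sc hF (idf_mV hV) j := by
    rw [FG.xq, CW.map_sc hF hS, eq_sub_iff_add_eq, add_comm]
    exact (sc_TC_sub hV h hkn hF j).symm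
  rw [← hD.sc_TC' hV h hY j, ← CW.map_sc hY hF (smap_swap.comp hD.smap) (idf_TCF hV h) j, e1,
    map_sub]
  congr 1
  · rw [FG.xq, FG.xp, H.map_map, H.map_map]
  · rw [← H.map_map smap_swap hD.smap, CW.map_sc hF hF, sc_V_swap hV h hkn hF]

end des

end Crest.Agent.R208.GQ
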