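import Crest.Agent.R208.GS2
import Crest.Agent.R208.GD3

/-! Row 208, block GS (helper742), part GS3: on `D = CM.Quo (ZZ S PV) g` the Euler class of `V`
is a nonzero multiple of `ξ e'`. -/

set_option autoImplicit false
set_option linter.unusedSectionVars false

open Module Set Matrix
open scoped ContDiff RealInnerProductSpace ComplexConjugate
open Crest.GeometryTopology.Submanifold
open Crest.Agent.R241.DDefs
open Crest.Agent.R241.D2
open Crest.Agent.R208.F Crest.Agent.R208.FI Crest.Agent.R208.CW Crest.Agent.R208.T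
open Crest.Agent.R208.GT

noncomputable section

namespace Crest.Agent.R208.GS

variable {n N k d dZ m : ℕ} {κ : ℝ} {S : Set (Euc N)} {G : Geo n N κ S}
  {PV : Euc N × Euc N → Euc N →L[ℝ] Euc N}
  {g : (Euc N × Euc N) × (Fin 2 → Euc N) → Fin m → ℂ}
  {z : CM.MM m → Euc N × Euc N} {TD FD LD : CM.MM m → Matrix (Fin N) (Fin N) ℂ}

/-- the complex structure of the plane -/
def Jl (L : CM.MM m → Matrix (Fin N) (Fin N) ℂ) (y : CM.MM m) : Matrix (Fin N) (Fin N) ℂ :=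
  Complex.I • (L y - (L y).map (starRingEnd ℂ))

theorem mtx_PlZ (ζ : (Euc N × Euc N) × (Fin 2 → Euc N)) :
    mtx (PlZ ζ) = LL ζ + (LL ζ).map (starRingEnd ℂ) := by
  ext a b
  have e1 : ∀ v : Euc N, ⟪v, EuclideanSpace.single b (1 : ℝ)⟫ = v b := fun v => by
    rw [EuclideanSpace.inner_single_right]; simp
  have e2 : mtx (PlZ ζ) a b = ((ζ.2 0 b * ζ.2 0 a + ζ.2 1 b * ζ.2 1 a : ℝ) : ℂ) := by
    rw [mtx, Matrix.of_apply, PlZ_apply, e1, e1]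
    rfl
  rw [e2, Matrix.add_apply, Matrix.map_apply, LL_apply]
  simp only [map_mul, map_sub, map_add, map_div₀, map_one, map_ofNat, Complex.conj_ofReal,
    Complex.conj_I]
  push_cast
  linear_combination ((ζ.2 1 a : ℂ) * (ζ.2 1 b : ℂ)) * Complex.I_mul_I

section pw
variable {ζ : (Euc N × Euc N) × (Fin 2 → Euc N)}

theorem LLc_transpose : ((LL ζ).map (starRingEnd ℂ)).transpose = LL ζ := by
  rw [← LL_hermitian, Matrix.transpose_transpose]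

theorem LLc_idem (hζ : ζ ∈ ZZ S PV) :
    (LL ζ).map (starRingEnd ℂ) * (LL ζ).map (starRingEnd ℂ) = (LL ζ).map (starRingEnd ℂ) := by
  have h1 := (idf_LL (PV := PV) (S := S)).idem ζ hζ
  have h2 := congrArg (fun M => M.map (starRingEnd ℂ)) h1
  simpa only [Matrix.map_mul] using h2

theorem J_entry (a b : Fin N) : (Complex.I • (LL ζ - (LL ζ).map (starRingEnd ℂ))) a b =
    ((ζ.2 1 a * ζ.2 0 b - ζ.2 0 a * ζ.2 1 b : ℝ) : ℂ) := by
  rw [Matrix.smul_apply, Matrix.sub_apply, Matrix.map_apply, LL_apply, smul_eq_mul]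
  simp only [map_mul, map_sub, map_add, map_div₀, map_one, map_ofNat, Complex.conj_ofReal,
    Complex.conj_I]
  push_cast
  linear_combination ((ζ.2 0 a : ℂ) * (ζ.2 1 b : ℂ) - (ζ.2 1 a : ℂ) * (ζ.2 0 b : ℂ)) *
    Complex.I_mul_I

end pw

/-- the plane is a complex line -/
theorem cs_Pl (hD : DPk G PV g z TD FD LD) {Pl : CM.MM m → Euc N →L[ℝ] Euc N}
    {Wl : CM.MM m → (Unit × Fin 2 → Fin N) → ℝ} (hl : OR (CM.Quo (ZZ S PV) g) Pl Wl)
    (e1 : ∀ ζ ∈ ZZ S PV, Pl (CM.jj g ζ) = PlZ ζ) (e2 : ∀ ζ ∈ ZZ S PV, Wl (CM.jj g ζ) = WlZ ζ) :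
    CW.CS (ι := Unit) (CM.Quo (ZZ S PV) g) (fun y => mtx (Pl y)) (Jl LD) (wC Wl) := by
  refine ⟨hl.of, fun y hy => ((hD.sL y hy).sub (hD.idf_L.conj.smooth y hy)).csmul _, ?_, ?_, ?_, ?_⟩
  · rintro _ ⟨ζ, hζ, rfl⟩
    rw [Jl, hD.eL ζ hζ, Matrix.transpose_smul, Matrix.transpose_sub, LLc_transpose, LL_hermitian,
      ← smul_neg, neg_sub]
  · rintro _ ⟨ζ, hζ, rfl⟩
    have h1 := (idf_LL (PV := PV) (S := S)).idem ζ hζ
    change Jl LD (CM.jj g ζ) * Jl LD (CM.jj g ζ) = - mtx (Pl (CM.jj g ζ))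
    rw [Jl, hD.eL ζ hζ, e1 ζ hζ, mtx_PlZ, Matrix.smul_mul, Matrix.mul_smul, smul_smul,
      Complex.I_mul_I, sub_mul, mul_sub, mul_sub, h1, LLc_idem hζ, LL_mul_conj hζ,
      conj_mul_LL hζ, neg_one_smul]
    abel
  · rintro _ ⟨ζ, hζ, rfl⟩
    have h1 := (idf_LL (PV := PV) (S := S)).idem ζ hζ
    change Jl LD (CM.jj g ζ) * mtx (Pl (CM.jj g ζ)) = Jl LD (CM.jj g ζ)
    rw [Jl, hD.eL ζ hζ, e1 ζ hζ, mtx_PlZ, Matrix.smul_mul, sub_mul, mul_add, mul_add, h1,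
      LLc_idem hζ, LL_mul_conj hζ, conj_mul_LL hζ, add_zero, zero_add]
  · rintro _ ⟨ζ, hζ, rfl⟩
    obtain ⟨f1, f2⟩ := (⟨hζ.2.2.1 0, hζ.2.2.1 1⟩ : ‖ζ.2 0‖ = 1 ∧ ‖ζ.2 1‖ = 1)
    have f3 : ⟪ζ.2 0, ζ.2 1⟫ = 0 := hζ.2.2.2 (by decide)
    have hor := GO.col2_orth f1 f2 f3
    refine ⟨Matrix.of fun a _ => ((ζ.2 0 a : ℝ) : ℂ),
      (GO.col2 (ζ.2 0) (ζ.2 1)).map (algebraMap ℝ ℂ), fun a j => ?_, fun a j => ?_, ?_, ?_,
      fun I => ?_⟩
    · simp [GO.col2]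
    · rw [Matrix.mul_apply]
      have g1 : ∀ b, Jl LD (CM.jj g ζ) a b = ((ζ.2 1 a * ζ.2 0 b - ζ.2 0 a * ζ.2 1 b : ℝ) : ℂ) :=
        fun b => by rw [Jl, hD.eL ζ hζ]; exact J_entry a b
      have g2 : ∑ b, ζ.2 0 b * ζ.2 0 b = 1 := by
        have := congrFun (congrFun hor ((), 0)) ((), 0)
        rw [Matrix.mul_apply] at this
        simpa [GO.col2] using this
      have g3 : ∑ b, ζ.2 1 b * ζ.2 0 b = 0 := by
        have := congrFun (congrFun hor ((), 1)) ((), 0)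
        rw [Matrix.mul_apply] at this
        simpa [GO.col2] using this
      have g4 : ∀ b, Jl LD (CM.jj g ζ) a b * (Matrix.of fun a (_ : Unit) => ((ζ.2 0 a : ℝ) : ℂ)) b j
          = ((ζ.2 1 a * (ζ.2 0 b * ζ.2 0 b) - ζ.2 0 a * (ζ.2 1 b * ζ.2 0 b) : ℝ) : ℂ) := fun b => by
        rw [g1, Matrix.of_apply]
        push_cast
        ring
      rw [Finset.sum_congr rfl fun b _ => g4 b, ← Complex.ofReal_sum, Finset.sum_sub_distrib,
        ← Finset.mul_sum, ← Finset.mul_sum, g2, g3]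
      simp [GO.col2]
    · rw [← Matrix.transpose_map, ← Matrix.map_mul, hor]
      exact Matrix.map_one _ (map_zero _) (map_one _)
    · rw [e1 ζ hζ, ← Matrix.transpose_map, ← Matrix.map_mul, mtx_of_frame]
      intro u i
      rw [PlZ_apply]
      have e3 : ∀ j, (GO.col2 (ζ.2 0) (ζ.2 1) * (GO.col2 (ζ.2 0) (ζ.2 1))ᵀ) i j =
          ζ.2 0 i * ζ.2 0 j + ζ.2 1 i * ζ.2 1 j := by
        intro j
        rw [Matrix.mul_apply, Fintype.sum_prod_type, Fintype.sum_unique, Fin.sum_univ_two]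
        simp [GO.col2]
      simp only [e3, PiLp.add_apply, PiLp.smul_apply, smul_eq_mul, PiLp.inner_apply,
        RCLike.inner_apply, conj_trivial, Finset.sum_mul, add_mul, Finset.sum_add_distrib]
      congr 1 <;> exact Finset.sum_congr rfl fun j _ => by ring
    · have e1' := RingHom.map_det (algebraMap ℝ ℂ)
        ((GO.col2 (ζ.2 0) (ζ.2 1)).submatrix I id)
      change ((Wl (CM.jj g ζ) I : ℝ) : ℂ) = _
      rw [e2 ζ hζ]
      exact e1'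

/-- **the Euler class of the plane is `2 i ξ`** -/
theorem ec_Pl (hD : DPk G PV g z TD FD LD) (hQ : Sub d (CM.Quo (ZZ S PV) g))
    {Pl : CM.MM m → Euc N →L[ℝ] Euc N} {Wl : CM.MM m → (Unit × Fin 2 → Fin N) → ℝ}
    (hl : OR (CM.Quo (ZZ S PV) g) Pl Wl)
    (e1 : ∀ ζ ∈ ZZ S PV, Pl (CM.jj g ζ) = PlZ ζ) (e2 : ∀ ζ ∈ ZZ S PV, Wl (CM.jj g ζ) = WlZ ζ) :
    ec hl.of = (2 * Complex.I) • CW.sc hQ hD.idf_L 1 := by
  have hcs := cs_Pl hD hl e1 e2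
  have h1 := hcs.ec_eq hQ
  have h3 : CW.cc hQ hcs.idF 1 = CW.sc hQ hcs.idF 1 := by
    rw [CW.cc_eq_el]
    have h1 := CW.el_succ (CW.sc hQ hcs.idF) 0
    simpa [CW.el_zero] using h1
  have h2 : CW.sc hQ hcs.idF 1 = CW.sc hQ hD.idf_L 1 := by
    refine CW.sc_congr hQ _ _ ?_ 1
    rintro _ ⟨ζ, hζ, rfl⟩
    rw [e1 ζ hζ, mtx_PlZ, Jl, hD.eL ζ hζ]
    set A := LL ζ
    set B := (LL ζ).map (starRingEnd ℂ)
    have h4 : Complex.I • ((1 : ℂ) / 2) • (-(Complex.I • (A - B))) =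
        (-(Complex.I * Complex.I) * (1 / 2)) • (A - B) := by
      rw [← smul_neg, smul_smul, smul_smul, smul_neg, ← neg_smul]
      congr 1; ring
    rw [h4, Complex.I_mul_I]
    module
  simp only [Fintype.card_unit, pow_one, Nat.factorial_one, Nat.cast_one, mul_one] at h1
  rw [h3, h2] at h1
  exact h1

variable {ι ι' : Type*} [Fintype ι] [DecidableEq ι] [Fintype ι'] [DecidableEq ι']
  {W : Euc N × Euc N → (ι × Fin 2 → Fin N) → ℝ}

/-- **`e(V) = c ξ e'` on `D`**, `c ≠ 0` -/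
theorem exists_e' [Nonempty ι'] (eq : (Unit × Fin 2) ⊕ (ι' × Fin 2) ≃ (ι × Fin 2))
    (hW : OR (FF S) PV W) (hg : CM.Emb (ZZ S PV) rt g) (hZ : Clo (dZ + 1) (ZZ S PV))
    (hD : DPk G PV g z TD FD LD) (hQ : Sub d (CM.Quo (ZZ S PV) g)) :
    ∃ (P0 : CM.MM m → Euc N →L[ℝ] Euc N) (W0 : CM.MM m → (ι' × Fin 2 → Fin N) → ℝ)
      (hw0 : OR (CM.Quo (ZZ S PV) g) P0 W0) (c : ℂ), c ≠ 0 ∧
      H.map hD.smap (ec hW.of) = c • (CW.sc hQ hD.idf_L 1 * ec hw0.of) ∧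
      (∀ ζ ∈ ZZ S PV, P0 (CM.jj g ζ) = P0Z PV ζ ∧ W0 (CM.jj g ζ) = W0Z eq W ζ) ∧
      H.map hg.smap_jj (ec hw0.of) = ec (or_0Z eq hW).of := by
  obtain ⟨Pl, P0, Wl, W0, hl, h0, hs, he⟩ := exists_desc_split eq hW hg hZ hD.sz hD.ez
  have hWz : OR (CM.Quo (ZZ S PV) g) (fun y => PV (z y)) (fun y => W (z y)) :=
    ⟨fun y hy => (hW.sP _ (hD.smap.maps hy)).comp y (hD.sz y hy),
      fun y hy I => ContDiffAt.comp (g := fun x => W x I) y (hW.sW _ (hD.smap.maps hy) I)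
        (hD.sz y hy), fun y hy => hW.fr _ (hD.smap.maps hy)⟩
  have h1 := ec_split eq hWz hl h0 hs
  have h2 := ec_Pl hD hQ hl (fun ζ hζ => (he ζ hζ).1) fun ζ hζ => (he ζ hζ).2.1
  have h3 : H.map hD.smap (ec hW.of) = ec hWz.of :=
    (ec_map hW.of hD.smap).trans (ec_congr _ _ (fun _ _ => rfl) fun _ _ => rfl)
  have h4 : H.map hg.smap_jj (ec h0.of) = ec (or_0Z eq hW).of := by
    rw [ec_map h0.of hg.smap_jj]
    refine ec_congr _ _ (fun ζ hζ => ?_) fun ζ hζ => ?_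
    · rw [(he ζ hζ).2.2.1]
    · funext I
      change ((W0 (CM.jj g ζ) I : ℝ) : ℂ) = _
      rw [(he ζ hζ).2.2.2]
      rfl
  refine ⟨P0, W0, h0, ((((sg (sr eq) : ℤ) : ℝ) * (Fintype.card ι : ℝ) : ℝ) : ℂ) *
    (2 * Complex.I), ?_, ?_, fun ζ hζ => ⟨(he ζ hζ).2.2.1, (he ζ hζ).2.2.2⟩, h4⟩
  rotate_left
  · rw [h3, h1, h2, smul_mul_assoc, smul_smul]
  · have h5 := card_eq (sr eq)
    rw [Fintype.card_sum, Fintype.card_unit] at h5
    refine mul_ne_zero (Complex.ofReal_ne_zero.2 (mul_ne_zero sg_ne ?_))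
      (mul_ne_zero two_ne_zero Complex.I_ne_zero)
    rw [← h5]
    positivity

end Crest.Agent.R208.GS
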