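import Crest.Agent.R208.TX6b
import Crest.Agent.R208.FG1e

/-! Row 208, block T (helper595).  TY1: `x₁^m x₂^(m-1)` is not exact on `F` (input of (X1c)). -/

set_option autoImplicit false
set_option linter.unusedSectionVars false

open MeasureTheory Set Filter Topology Module
open scoped ContDiff RealInnerProductSpace
open Crest.GeometryTopology.Submanifold
open Crest.Agent.R241.DDefs
open Crest.Agent.R241.D2
open Crest.Agent.R208.F Crest.Agent.R208.FI Crest.Agent.R208.CW

noncomputable section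

namespace Crest.Agent.R208.T

section gen
variable {E : Type*} [NormedAddCommGroup E] [NormedSpace ℝ E] [FiniteDimensional ℝ E]
  {X : Set E} {d : ℕ} {o : E → Ext E}

theorem J_zero' : J d X o (0 : E → Ext E) = 0 := by
  have h1 := J_smul (d := d) (X := X) (o := o) (om := fun _ => (0 : Ext E)) (0 : ℝ)
  show J d X o (fun _ => (0 : Ext E)) = 0
  simpa using h1

/-- the integral of the class of a real form -/
theorem integ_rcl' (hX : Clo d X) (ho : Ori d X o) {a : E → Ext E} (h : EC X a) :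
    integ hX ho (rcl h) = ((J d X o a : ℝ) : ℂ) := by
  rw [rcl, integ_cls]
  exact Complex.ext rfl J_zero'

theorem pull_powY {E' : Type*} [NormedAddCommGroup E'] [NormedSpace ℝ E'] [FiniteDimensional ℝ E']
    (f : E → E') (a : E' → Ext E') (i : ℕ) : F.pull f (a ^ i) = (F.pull f a) ^ i := by
  funext x
  show pb _ ((a (f x)) ^ i) = (pb _ (a (f x))) ^ i
  rw [map_pow]

/-- the top degree part of an orientation form is an orientation form -/
theorem ori_dp (ho : Ori d X o) : Ori d X (dp d o) where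
  cont := by
    have h1 : Continuous (dpl (E := E) d) :=
      LinearMap.continuous_of_finiteDimensional (dpl (E := E) d)
    exact h1.comp_continuousOn ho.cont
  ne x hx := by
    show evA E d (dpl d (o x)) _ ≠ 0
    rw [evA_dpl, if_pos rfl]
    exact ho.ne x hx

end gen

variable {n N k m : ℕ} {κ : ℝ} {S : Set (Euc N)} {G : Geo n N κ S} {p : Euc N}

/-- the base is connected -/
theorem preconn_S (h : GT.Bla G k) : IsPreconnected S := h.bl.conn.isPreconnected

/-- **fibre integration over `F → S`**: `fst^* a * snd^* b` is not exact, if `∫_S a ≠ 0` and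
`∫_{C_p} b ≠ 0`. -/
theorem mul_ne_gen (h : GT.Bla G k) (hk : 2 ≤ k) (hkn : k < n) (hp : p ∈ S)
    {oS : Euc N → Ext (Euc N)} (hoS : Ori n S oS) (hdS : ∀ y, IsDeg n (oS y))
    {a b : Euc N → Ext (Euc N)} (ha : EC S a) (hda : Hom n a) (hb : EC S b)
    {oC : Euc N → Ext (Euc N)} (hoC : Ori (n - k) (GP.Cut S p) oC) (hJa : J n S oS a ≠ 0)
    (hJb : J (n - k) (GP.Cut S p) oC b ≠ 0) :
    ¬ Coh (GT.FF S) (F.pull Prod.fst a * F.pull Prod.snd b) 0 := by
  intro h0
  obtain ⟨oV, hdV, hos⟩ := FG.exists_osubm h hk hkn hoS hdS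
  have h1 := FG.osubm_integ hos FG.smap_fst (preconn_S h) hp (FG.xq (rcl hb)) (rcl_mem_HD ha hda)
  have h2 : FG.xq (rcl hb) * H.map FG.smap_fst (rcl ha) = 0 := by
    rw [FG.xq, ← rcl_pull FG.smap_snd hb, ← rcl_pull FG.smap_fst ha, mul_comm,
      ← rcl_mul (ha.pull FG.smap_fst) (hb.pull FG.smap_snd)]
    exact (rcl_eq_zero_iff _).2 h0
  rw [h2, map_zero] at h1
  have h3 := FG.fib_ne_zero h (by omega) hp (hos.fib p) hoC (rcl hb) (by
    rw [← rcl_pull (FG.smap_cut p) hb, integ_rcl']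
    have : F.pull (fun q : Euc N => q) b = b := by
      funext y
      rw [F.pull, fderiv_fun_id, ContinuousLinearMap.coe_id]
      exact pb_id (b y)
    rw [this]
    exact_mod_cast hJb)
  rw [integ_rcl'] at h1
  exact mul_ne_zero h3 (by exact_mod_cast hJa) h1.symm

variable {ι : Type} [Fintype ι] [DecidableEq ι] {W : Euc N × Euc N → (ι × Fin 2 → Fin N) → ℝ}
  {x : Euc N → Ext (Euc N)}

/-- the powers of `x` over the cut locus -/
theorem XM.J_Cut_ne {h : GT.Bla G k} (D : XM h m W p x) {oC : Euc N → Ext (Euc N)}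
    (hoC : Ori (n - k) (GP.Cut S p) oC) : J (n - k) (GP.Cut S p) oC (x ^ (m - 1)) ≠ 0 := by
  have hk := D.hk
  have hWp := OR_Cut h D.hp D.hW
  obtain ⟨m', hm1, hm2, hJ⟩ := X1a h D.hk D.hkn D.hp D.hι hWp hoC
  have hmm : m - 1 = m' := by
    have h1 : k * m = k * (m' + 1) := by rw [← D.hn]; exact hm2
    have h2 := Nat.eq_of_mul_eq_mul_left (by omega) h1
    omega
  rw [hmm]
  have hsub : GP.Cut S p ⊆ S := fun q hq => hq.1
  have h3 : Coh (GP.Cut S p) (x ^ m') (eR (FV.PC h p) (fun q => W (q, p)) ^ m') :=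
    Coh.powT (D.sx.mono hsub) (D.cx.mono hsub) hWp.ec_eR.sm hWp.ec_eR.cl (Coh.of_eqv D.ex) m'
  rwa [J_coh (FV.clo_Cut h D.hp) hoC ((D.sx.mono hsub).pow m') (hWp.ec_eR.sm.pow m') h3]

theorem XM.ec {h : GT.Bla G k} (D : XM h m W p x) : EC S x :=
  EC.of_hom (j := Fintype.card ι) D.sx D.cx (by rw [D.hι]; exact D.dx)

/-- **`x₁^m x₂^(m-1)` is not exact on `F`** (for an orientation form of degree `n`) -/
theorem XM.mul_ne' {h : GT.Bla G k} (D : XM h m W p x) {oS : Euc N → Ext (Euc N)}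
    (hoS : Ori n S oS) (hdS : ∀ y, IsDeg n (oS y)) (hS : J n S oS (x ^ m) ≠ 0) :
    ¬ Coh (GT.FF S) (F.pull Prod.fst x ^ m * F.pull Prod.snd x ^ (m - 1)) 0 := by
  obtain ⟨oC, hoC, -, -⟩ := exists_ori_Cut h D.hk D.hkn D.hp
  have h1 := mul_ne_gen h D.hk D.hkn D.hp hoS hdS (D.ec.pow m)
    (by rw [D.hn]; exact D.dx.pow m) (D.ec.pow (m - 1)) hoC hS (D.J_Cut_ne hoC)
  rwa [pull_powY, pull_powY] at h1

/-- **`x₁^m x₂^(m-1)` is not exact on `F`** -/
theorem XM.mul_ne {h : GT.Bla G k} (D : XM h m W p x) {oS : Euc N → Ext (Euc N)}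
    (hoS : Ori n S oS) (hS : J n S oS (x ^ m) ≠ 0) :
    ¬ Coh (GT.FF S) (F.pull Prod.fst x ^ m * F.pull Prod.snd x ^ (m - 1)) 0 := by
  refine D.mul_ne' (ori_dp hoS) (hom_dp n oS) ?_
  rcases J_ori_connected (GP.clo_S h.bl) hoS (ori_dp hoS) (preconn_S h) with h1 | h1
  · rwa [h1]
  · rw [h1]; exact neg_ne_zero.2 hS

end Crest.Agent.R208.T
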