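import Crest.Agent.R208.TX7
import Crest.Agent.R208.TY1

/-! Row 208, block T (helper316).  TX7b: `J S x^m ≠ 0`, `J C x^(m-1) ≠ 0`, and
`x₁^m x₂^(m-1)` is not exact on `F`. -/

set_option autoImplicit false
set_option linter.unusedSectionVars false

open MeasureTheory Set Filter Topology Module
open scoped ContDiff RealInnerProductSpace Matrix
open Crest.GeometryTopology.Submanifold
open Crest.Agent.R241.DDefs
open Crest.Agent.R241.D2
open Crest.Agent.R208.F Crest.Agent.R208.FI Crest.Agent.R208.CW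

noncomputable section

namespace Crest.Agent.R208.T

variable {n N k m : ℕ} {κ : ℝ} {S : Set (Euc N)} {G : Geo n N κ S} {p : Euc N}
  {ι : Type} [Fintype ι] [DecidableEq ι] {W : Euc N × Euc N → (ι × Fin 2 → Fin N) → ℝ}
  {x : Euc N → Ext (Euc N)} {oS oC : Euc N → Ext (Euc N)}

/-- the orientation of `TM` as an oriented field -/
theorem XM.exists_OR_S {h : GT.Bla G k} (D : XM h m W p x) :
    ∃ (l : ℕ) (W' : Euc N → (Fin l × Fin 2 → Fin N) → ℝ), 2 * l = n ∧ 1 ≤ l ∧ OR S G.P W' := by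
  obtain ⟨l, hl⟩ := D.hne
  have h1 := D.two_k
  have h2 := D.hk
  have hι : 2 * Fintype.card (Fin l) = n := by rw [Fintype.card_fin]; omega
  obtain ⟨Wt, hW⟩ := GP.exists_OR_S (G := G) h.bl h.ty D.hk hι
  exact ⟨l, Wt, by omega, by omega, hW⟩

theorem XM.dim1 {h : GT.Bla G k} (D : XM h m W p x) : Dim1 S n := by
  obtain ⟨l, W', h1, h2, hO⟩ := D.exists_OR_S
  exact HY.dim1_S h D.hk D.hkn D.hp (by rw [Fintype.card_fin]; omega) hO

theorem XM.exactIn_one {h : GT.Bla G k} (D : XM h m W p x) : ExactIn S 1 := by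
  obtain ⟨l, W', h1, h2, hO⟩ := D.exists_OR_S
  exact HY.exactIn_one_S h D.hk D.hkn D.hp D.hι (OR_Cut h D.hp D.hW)
    (by rw [Fintype.card_fin]; omega) hO

/-- **(X1c)** the integral of `x^m` over `S` -/
theorem XM.J_ne {h : GT.Bla G k} (D : XM h m W p x) (hoS : Ori n S oS) :
    J n S oS (x ^ m) ≠ 0 := by
  obtain ⟨o₁, h1, h2, h3⟩ := GP.exists_ori (G := G) h.bl h.ty D.hk
  have hC := GP.clo_S h.bl
  have hpos : 0 < J n S o₁ o₁ := J_pos hC h1 ⟨p, D.hp⟩
  have hpos' : J n S oS o₁ ≠ 0 := by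
    rcases J_ori_connected hC h1 hoS h.bl.conn.isPreconnected with h4 | h4
    · rw [h4]; exact hpos.ne'
    · rw [h4]; exact neg_ne_zero.2 hpos.ne'
  intro hJ
  refine D.xm_ne (exact_of_J hC hoS D.dim1 h2 h3 hpos' (D.sx.pow m) ?_ hJ)
  rw [D.hn]; exact D.dx.pow m

/-- `x^m' ` is not exact on `S` for `m' ≤ m` -/
theorem XM.pow_ne {h : GT.Bla G k} (D : XM h m W p x) {i : ℕ} (hi : i ≤ m) :
    ¬ Coh S (x ^ i) 0 := by
  intro h0
  refine D.xm_ne ?_
  have h1 := Coh.mul_right (D.sx.pow (m - i)) (Cl.pow D.sx D.cx (m - i)) h0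
  rwa [← pow_add, zero_mul, Nat.add_sub_cancel' hi] at h1

/-- **(X1c)** `x₁^m x₂^(m-1)` is not exact on `F` -/
theorem XM.mix_ne {h : GT.Bla G k} (D : XM h m W p x) :
    ¬ Coh (GT.FF S) (F.pull Prod.fst x ^ m * F.pull Prod.snd x ^ (m - 1)) 0 := by
  obtain ⟨oS, hoS, -, -⟩ := GP.exists_ori (G := G) h.bl h.ty D.hk
  exact D.mul_ne hoS (D.J_ne hoS)

end Crest.Agent.R208.T
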