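import Crest.Agent.R208.GQ4a
import Crest.Agent.R208.GQ4b
import Crest.Agent.R208.GQ5d
import Crest.Agent.R208.GS3
import Crest.Agent.R208.TX7b

/-! Row 208, block GQ (helper989), part GQ5e: the classes `x`, `w = e(V ⊖ ⟨v₀, v₁⟩)` on `ZZ`. -/

set_option autoImplicit false
set_option linter.unusedSectionVars false
set_option linter.unusedVariables false

open MeasureTheory Set Filter Topology Module
open scoped ContDiff RealInnerProductSpace Matrix
open Crest.GeometryTopology.Submanifold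
open Crest.Agent.R241.DDefs
open Crest.Agent.R241.D2
open Crest.Agent.R208.F Crest.Agent.R208.FI Crest.Agent.R208.CW Crest.Agent.R208.T
open Crest.Agent.R208.L (US)

noncomputable section

namespace Crest.Agent.R208.GQ

variable {n N k m : ℕ} {κ : ℝ} {S : Set (Euc N)} {G : Geo n N κ S} {p : Euc N}
  {ι ι' : Type} [Fintype ι] [DecidableEq ι] [Fintype ι'] [DecidableEq ι'] [Nonempty ι']
  {W : Euc N × Euc N → (ι × Fin 2 → Fin N) → ℝ} {x : Euc N → Ext (Euc N)} {h : GT.Bla G k}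
  (eq : (Unit × Fin 2) ⊕ (ι' × Fin 2) ≃ (ι × Fin 2))

include eq

/-- the Leray–Hirsch package on `XM` -/
theorem lh_XM (M : T.XM h m W p x) : LH (UV h) (Pm (Q1 h) v1) (2 * Fintype.card ι') (eps eq h W) :=
  lh_UV eq h (by have := M.hkn; have := M.hk; omega) M.hkn ⟨p, M.hp⟩ M.hι M.hW

theorem two_card (M : T.XM h m W p x) : 2 * Fintype.card ι' + 2 = k := by
  have h1 := card_eq eq
  have h2 := M.hι
  omega

theorem ec_eZ (M : T.XM h m W p x) : EC (GT.ZZ S (FV.PVB h)) (eZ (eps eq h W)) :=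
  ec_even ((lh_XM eq M).sm.pull (smap_toZ h)) ((lh_XM eq M).cl.pull (smap_toZ h) (lh_XM eq M).sm)
    (Hom.pull (lh_XM eq M).deg) ⟨Fintype.card ι', by ring⟩

/-- the Euler class of `V ⊖ ⟨v₀, v₁⟩` as the class of `eZ` -/
theorem ec_0Z (M : T.XM h m W p x) : ec (GS.or_0Z eq M.hW).of = rcl (ec_eZ eq M) := by
  rw [← OR.rcl_eR (GS.or_0Z eq M.hW)]
  refine rcl_congr _ _ (Coh.of_eqv (Eqv.symm ?_))
  exact T.eqv_pull_eR (or_Z1 eq h M.hW) (smap_toZ h)

/-- `w² = 0` -/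
theorem w_sq (M : T.XM h m W p x) (hk : 6 ≤ k) : ec (GS.or_0Z eq M.hW).of ^ 2 = 0 := by
  rw [ec_0Z eq M, sq, ← rcl_mul, rcl_eq_zero_iff]
  exact eZ_sq h hk M.two_k M.hke M.hne M.hp M.hι M.hW (two_card eq M) (lh_XM eq M) M.sx M.cx M.dx
    M.ex

/-- `x^i ≠ 0`, `x^i w ≠ 0` -/
theorem xw_ne (M : T.XM h m W p x) (hx : EC S x) {i : ℕ} (hi : i ≤ m) (hin : k * i < n) :
    H.map (smap_pz h) (rcl hx) ^ i ≠ 0 ∧
      H.map (smap_pz h) (rcl hx) ^ i * ec (GS.or_0Z eq M.hW).of ≠ 0 := by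
  obtain ⟨h1, h2⟩ := ZZ_ne h M.hk M.hne (lh_XM eq M) M.sx M.cx M.dx M.xm_ne hi hin
  have hz : EC (GT.ZZ S (FV.PVB h)) (xZ x) := hx.pull (smap_pz h)
  have e1 : H.map (smap_pz h) (rcl hx) = rcl hz := (rcl_pull (smap_pz h) hx).symm
  constructor
  · intro h0
    rw [e1, ← rcl_pow, rcl_eq_zero_iff] at h0
    exact h1 h0
  · intro h0
    rw [e1, ec_0Z eq M, mul_comm, ← rcl_pow, ← rcl_mul, rcl_eq_zero_iff] at h0
    exact h2 h0

end Crest.Agent.R208.GQ
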