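import Crest.Agent.R208.GQ5e
import Crest.Agent.R208.XE2

/-! Row 208, block GQ (helper989), part GQ5f: the contradiction for `k ≥ 6`, `(k, m) ≠ (8, 2)`. -/

set_option autoImplicit false
set_option linter.unusedSectionVars false
set_option linter.unusedVariables false

open MeasureTheory Set Filter Topology Module
open scoped ContDiff RealInnerProductSpace Matrix
open Crest.GeometryTopology.Submanifold
open Crest.Agent.R241.DDefs
open Crest.Agent.R241.D2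
open Crest.Agent.R208.F Crest.Agent.R208.FI Crest.Agent.R208.CW Crest.Agent.R208.T
open Crest.Agent.R208.L (US)

noncomputable section

namespace Crest.Agent.R208.GQ

variable {n N k m : ℕ} {κ : ℝ} {S : Set (Euc N)} {G : Geo n N κ S} {p : Euc N}
  {ι : Type} [Fintype ι] [DecidableEq ι] {W : Euc N × Euc N → (ι × Fin 2 → Fin N) → ℝ}
  {x : Euc N → Ext (Euc N)} {h : GT.Bla G k}

/-- `x₁ - x₂ = e(V)` in `H F` -/
theorem xp_sub_xq (M : T.XM h m W p x) (hx : EC S x) :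
    FG.xp (rcl hx) - FG.xq (rcl hx) = ec M.hW.of := by
  have hxf : EC (GT.FF S) (F.pull Prod.fst x) := hx.pull FG.smap_fst
  have hxs : EC (GT.FF S) (F.pull Prod.snd x) := hx.pull FG.smap_snd
  have e1 : FG.xp (rcl hx) = rcl hxf := (T.rcl_pull FG.smap_fst hx).symm
  have e2 : FG.xq (rcl hx) = rcl hxs := (T.rcl_pull FG.smap_snd hx).symm
  have h1 : Coh (GT.FF S) (F.pull Prod.fst x) (F.pull Prod.snd x + eR (FV.PVB h) W) := by
    have h2 := M.snd_class.symm.add (Coh.refl (eR (FV.PVB h) W) (X := GT.FF S))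
    rwa [sub_add_cancel] at h2
  rw [e1, e2, ← OR.rcl_eR M.hW, sub_eq_iff_eq_add, add_comm, ← T.rcl_add hxs (OR.ec_eR M.hW)]
  exact T.rcl_congr _ _ h1

variable {ι₁ : Type} [Fintype ι₁] [DecidableEq ι₁] {W₁ : Euc N × Euc N → (ι₁ × Fin 2 → Fin N) → ℝ}

/-- (X4') in `H F` -/
theorem ec_F1 (hx : EC S x) (hW₁ : OR (GT.FF S) (XE.F1 h) W₁) {ρ : ℝ}
    (hX4 : Coh (GT.FF S) (eR (XE.F1 h) W₁)
      (ρ • XE.pS (F.pull Prod.fst x) (F.pull Prod.snd x) m)) {c₀ : ℂ} (hc₀ : c₀ ≠ 0) :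
    ec hW₁.of = ((ρ : ℂ) * (c₀⁻¹) ^ (m - 1)) • ∑ b ∈ Finset.range m,
      ((b + 1 : ℕ) : CW.H (GT.FF S)) * (FG.xp (c₀ • rcl hx) ^ b * FG.xq (c₀ • rcl hx) ^ (m - 1 - b)) := by
  have hxf : EC (GT.FF S) (F.pull Prod.fst x) := hx.pull FG.smap_fst
  have hxs : EC (GT.FF S) (F.pull Prod.snd x) := hx.pull FG.smap_snd
  have e1 : FG.xp (c₀ • rcl hx) = c₀ • rcl hxf := by
    rw [FG.xp, map_smul]; congr 1; exact (T.rcl_pull FG.smap_fst hx).symm
  have e2 : FG.xq (c₀ • rcl hx) = c₀ • rcl hxs := by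
    rw [FG.xq, map_smul]; congr 1; exact (T.rcl_pull FG.smap_snd hx).symm
  rw [← OR.rcl_eR hW₁, T.rcl_congr _ ((XE.ec_pS hxf hxs m).smul ρ) hX4,
    T.rcl_smul ρ (XE.ec_pS hxf hxs m), XE.rcl_pS, mul_smul, Finset.smul_sum (r := (c₀⁻¹) ^ (m - 1))]
  congr 1
  refine Finset.sum_congr rfl fun b hb => ?_
  rw [Finset.mem_range] at hb
  rw [e1, e2, smul_pow, smul_pow, smul_mul_smul_comm, mul_smul_comm, smul_smul, ← pow_add,
    Nat.add_sub_of_le (by omega), ← mul_pow, inv_mul_cancel₀ hc₀, one_pow, one_smul]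

theorem map_series {A B : Type*} [CommRing A] [CommRing B] (f : A →+* B) (a b : A) (i j : ℕ) :
    PowerSeries.map f (1 + PowerSeries.C a * PowerSeries.X ^ i + PowerSeries.C b * PowerSeries.X ^ j)
      = 1 + PowerSeries.C (f a) * PowerSeries.X ^ i + PowerSeries.C (f b) * PowerSeries.X ^ j := by
  simp

set_option maxHeartbeats 1600000 in
/-- **the contradiction for `k ≥ 6`, `(k, m) ≠ (8, 2)`** -/
theorem main (M : T.XM h m W p x) (hk6 : 6 ≤ k) (h82 : ¬ (k = 8 ∧ m = 2))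
    (hrel : Coh (GT.FF S) (XE.hS (F.pull Prod.fst x) (F.pull Prod.snd x) m) 0)
    (hι₁ : 2 * Fintype.card ι₁ + k = n) (hW₁ : OR (GT.FF S) (XE.F1 h) W₁) {ρ : ℝ} (hρ : ρ ≠ 0)
    (hX4 : Coh (GT.FF S) (eR (XE.F1 h) W₁)
      (ρ • XE.pS (F.pull Prod.fst x) (F.pull Prod.snd x) m)) : False := by
  classical
  have hm := M.hm
  have hn := M.hn
  have hkn := M.hkn
  have h2k := M.two_k
  obtain ⟨l, hl⟩ : ∃ l, k = 2 * l := by
    obtain ⟨l, hl⟩ := M.hke; exact ⟨l, by omega⟩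
  have hkl : k / 2 = l := by omega
  have hnl : 2 * (l * m) = n := by rw [hn, hl]; ring
  have hml : l * m = l * (m - 1) + l := by
    obtain ⟨m', rfl⟩ : ∃ m', m = m' + 1 := ⟨m - 1, by omega⟩
    rw [Nat.add_sub_cancel]; ring
  have hV := FV.vfield_PVB h
  have hx : EC S x := M.ec
  have hS : Sub n S := (GP.clo_S h.bl).sub
  have hF : Sub (2 * n - k) (GT.FF S) := FV.sub_FF' h (by omega)
  obtain ⟨oS, hoS, -, hdS⟩ := GP.exists_ori (G := G) h.bl h.ty M.hk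
  obtain ⟨μ, hμ, -, hcsV, q, hq0, hq, hclosed⟩ :=
    FG.closed_XM M hS hF hx hoS hdS (M.J_ne hoS) hrel M.dim1
  rw [hkl] at hμ hcsV hq
  set c₀ : ℂ := (((VX.nE ι : ℝ) : ℂ))⁻¹ with hc₀
  have hc₀0 : c₀ ≠ 0 := inv_ne_zero (by exact_mod_cast (VX.nE_pos ι).ne')
  set X₀ : CW.H S := c₀ • rcl hx with hX₀
  -- the quotient
  obtain ⟨dZ, hdZ⟩ : ∃ dZ, dZ + 4 = 2 * n + k := ⟨2 * n + k - 4, by omega⟩
  have hZ : Clo (dZ + 1) (GT.ZZ S (FV.PVB h)) := FV.clo_ZZ h M.hk (by omega)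
  have hcir := GT.cir_ZZ (S := S) (PV := FV.PVB h)
  obtain ⟨mm, g, hg⟩ := CM.exists_emb hcir hZ
  obtain ⟨z, TD, FD, LD, hD⟩ := GT.exists_dpk hV h hg hZ
  have hQ := (hg.clo_Quo hcir hZ).sub
  have hZc : IsPreconnected (GT.ZZ S (FV.PVB h)) := FV.preconn_ZZ h (by omega)
  have hQc := preconn_Quo hg hZc
  -- the splitting
  have hcι : 2 ≤ Fintype.card ι := by have := M.hι; omega
  have hne : Nonempty ι := Fintype.card_pos_iff.1 (by omega)
  obtain ⟨i0⟩ := hne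
  have : Nonempty {i : ι // i ≠ i0} := GO.nonempty_ne i0 hcι
  obtain ⟨P0, W0, hw0, c, hc, hGS, -, hφe⟩ := GS.exists_e' (GO.eq0 i0) M.hW hg hZ hD hQ
  set eq0 := GO.eq0 i0 with heq0
  have hcι' := two_card eq0 M
  set φ := H.map hg.smap_jj with hφ
  set ξ := CW.sc hQ hD.idf_L 1 with hξ
  set x1 := H.map hD.smap (FG.xp X₀) with hx1
  set x2 := H.map hD.smap (FG.xq X₀) with hx2
  set e : CW.H (CM.Quo (GT.ZZ S (FV.PVB h)) g) := (c₀ * c) • ec hw0.of with he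
  have hxe : x1 - x2 = ξ * e := by
    rw [hx1, hx2, ← map_sub, hX₀, FG.xp, FG.xq, map_smul, map_smul, ← smul_sub, map_smul]
    have h1 := xp_sub_xq M hx
    rw [FG.xp, FG.xq] at h1
    rw [h1, hGS, smul_smul, he, mul_smul_comm]
  have hφξ : φ ξ = 0 := by
    rw [hξ, hD.xi_eq hg hZ hQ, map_smul, hφ, map_ec_L hg hcir, smul_zero]
  have hφ2 : φ x2 = φ x1 := by
    have h1 := congrArg φ hxe
    rw [map_sub, map_mul, hφξ, zero_mul, sub_eq_zero] at h1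
    exact h1.symm
  have hφ1 : φ x1 = c₀ • H.map (smap_pz h) (rcl hx) := by
    rw [hφ, hx1, hD.map_z hg hZ.sub, hX₀, FG.xp, map_smul, map_smul, H.map_map]
    rfl
  -- degrees
  have hX₀d : X₀ ∈ HD S (2 * l) := by
    rw [hX₀, ← hl]; exact (HD S k).smul_mem _ (rcl_mem_HD hx M.dx)
  have hmul : ∀ i j : ℕ, ∀ a b : CW.H (CM.Quo (GT.ZZ S (FV.PVB h)) g),
      a ∈ HD (CM.Quo (GT.ZZ S (FV.PVB h)) g) (2 * i) →
      b ∈ HD (CM.Quo (GT.ZZ S (FV.PVB h)) g) (2 * j) →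
      a * b ∈ HD (CM.Quo (GT.ZZ S (FV.PVB h)) g) (2 * (i + j)) := by
    intro i j a b ha hb
    rw [mul_add]; exact HD_mul ha hb
  have hed : e ∈ HD (CM.Quo (GT.ZZ S (FV.PVB h)) g) (2 * (l - 1)) := by
    have h1 := ec_mem_HD hw0.of
    have h2 : Fintype.card {i : ι // i ≠ i0} = l - 1 := by omega
    rw [h2] at h1
    exact Submodule.smul_mem _ _ h1
  have hdiv : ∀ j < l * (m - 1) + 1, ∀ b ∈ HD (CM.Quo (GT.ZZ S (FV.PVB h)) g) (2 * j),
      b * ξ = 0 → b = 0 := by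
    intro j hj b hb h0
    refine div_Quo hg hcir hZ hZc hb ?_ (exactIn_ZZ h M.hk hkn M.hke M.hne M.hp M.hι M.hW hcι'
      (lh_XM eq0 M) ⟨j, rfl⟩ (by omega))
    rw [hD.ec_L hg hZ hQ, mul_smul_comm, ← hξ, h0, smul_zero]
  -- power sums
  have htm := tm_sums (m := m) (by omega : 1 ≤ l) (s := CW.sc hS (GT.idf_mM (G := G))) (x := X₀)
    (p := q) (μ : ℂ) (fun j _ => by rw [← CW.cc_eq_el]; exact hq j) hclosed
  have h2e : ∀ (i : ℕ) (a : CW.H (CM.Quo (GT.ZZ S (FV.PVB h)) g)),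
      (1 + (-1) ^ (2 * i)) * a = 2 * a := by
    intro i a
    rw [(even_two_mul i).neg_one_pow]; norm_num
  have hT : ∀ i, 1 ≤ i → 2 * i ≤ l * (m - 1) + 1 → 2 * CW.sc hQ (hD.idf_T hV h) (2 * i) =
      (if l ∣ 2 * i then (-(l : ℂ) * PowerSeries.coeff (2 * i / l) (QQ m μ)) • x2 ^ (2 * i / l)
        else 0) - H.map hD.smap (CW.sc hF (GT.idf_mV hV) (2 * i)) := by
    intro i hi hir
    rw [← h2e i, rel_T hV h hkn hD.toDes hQ hS hF, htm i hi (by omega)]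
    congr 1
    split_ifs with hd
    · rw [hx2, FG.xq, map_smul, map_smul, map_pow, map_pow]
      rfl
    · rw [FG.xq, map_zero, map_zero]
  have hFs : ∀ i, 1 ≤ i → 2 * i ≤ l * (m - 1) + 1 → 2 * CW.sc hQ (hD.idf_F hV h) (2 * i) =
      (if l ∣ 2 * i then (-(l : ℂ) * PowerSeries.coeff (2 * i / l) (QQ m μ)) • x1 ^ (2 * i / l)
        else 0) - H.map hD.smap (CW.sc hF (GT.idf_mV hV) (2 * i)) := by
    intro i hi hir
    rw [← h2e i, rel_F hV h hkn hD.toDes hQ hS hF, htm i hi (by omega)]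
    congr 1
    split_ifs with hd
    · rw [hx1, FG.xp, map_smul, map_smul, map_pow, map_pow]
      rfl
    · rw [FG.xp, map_zero, map_zero]
  -- the power sums of `V` on `Z`
  have hcser : cser (fun j => φ (H.map hD.smap (CW.sc hF (GT.idf_mV hV) j))) =
      1 + PowerSeries.C ((2 * (μ : ℂ)) • φ x1) * PowerSeries.X ^ l := by
    set f : CW.H (GT.FF S) →ₐ[ℂ] CW.H (GT.ZZ S (FV.PVB h)) := φ.comp (H.map hD.smap) with hf
    have h1 : cser (fun j => φ (H.map hD.smap (CW.sc hF (GT.idf_mV hV) j))) =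
        PowerSeries.map f.toRingHom (cs hF (GT.idf_mV hV)) := by
      rw [cs, cser_map]
      rfl
    have hf1 : f (FG.xp X₀) = φ x1 := rfl
    have hf2 : f (FG.xq X₀) = φ x1 := hφ2
    rw [h1, hcsV, map_series]
    have h3 : f.toRingHom ((μ : ℂ) • (FG.xp X₀ + FG.xq X₀)) = (2 * (μ : ℂ)) • φ x1 := by
      change f ((μ : ℂ) • (FG.xp X₀ + FG.xq X₀)) = _
      rw [map_smul, map_add, hf1, hf2]
      module
    have h4 : f.toRingHom ((FG.xp X₀ - FG.xq X₀) ^ 2) = 0 := by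
      change f ((FG.xp X₀ - FG.xq X₀) ^ 2) = _
      rw [map_pow, map_sub, hf1, hf2, sub_self, sq, mul_zero]
    rw [h3, h4, map_zero, zero_mul, add_zero]
  have hv := v_sums (by omega : 1 ≤ l) (μ : ℂ) hcser
  -- the top classes
  have hcard : Fintype.card ι₁ = l * (m - 1) := by omega
  obtain ⟨ε, hε, hE⟩ : ∃ ε : ℂ, ε ≠ 0 ∧ H.map hD.smap (ec hW₁.of) =
      ε • cc hQ (hD.idf_F hV h) (Fintype.card ι₁) := ec_Fz hV h hD.toDes hQ hQc hW₁
  obtain ⟨ε', hε', hE'⟩ : ∃ ε : ℂ, ε ≠ 0 ∧ H.map (GT.smap_swap.comp hD.smap) (ec hW₁.of) =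
      ε • cc hQ (hD.idf_T hV h) (Fintype.card ι₁) := ec_Tz hV h hD.toDes hQ hQc hW₁
  rw [hcard] at hE hE'
  have hX := ec_F1 hx hW₁ hX4 hc₀0
  rw [← hX₀] at hX
  set κ₀ : ℂ := (ρ : ℂ) * (c₀⁻¹) ^ (m - 1) with hκ₀
  have hκ₀0 : κ₀ ≠ 0 := mul_ne_zero (by exact_mod_cast hρ) (pow_ne_zero _ (inv_ne_zero hc₀0))
  have hF1 : cc hQ (hD.idf_F hV h) (l * (m - 1)) = (ε⁻¹ * κ₀) • ∑ b ∈ Finset.range m,
      ((b + 1 : ℕ) : CW.H (CM.Quo (GT.ZZ S (FV.PVB h)) g)) * (x1 ^ b * x2 ^ (m - 1 - b)) := by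
    have h1 : cc hQ (hD.idf_F hV h) (l * (m - 1)) = ε⁻¹ • H.map hD.smap (ec hW₁.of) := by
      rw [hE, smul_smul, inv_mul_cancel₀ hε, one_smul]
    rw [h1, hX, map_smul, map_sum, smul_smul]
    congr 1
    refine Finset.sum_congr rfl fun b _ => ?_
    rw [map_mul, map_mul, map_pow, map_pow, map_natCast]
  have hT1 : cc hQ (hD.idf_T hV h) (l * (m - 1)) = (ε'⁻¹ * κ₀) • ∑ b ∈ Finset.range m,
      ((b + 1 : ℕ) : CW.H (CM.Quo (GT.ZZ S (FV.PVB h)) g)) * (x2 ^ b * x1 ^ (m - 1 - b)) := by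
    have h1 : cc hQ (hD.idf_T hV h) (l * (m - 1)) =
        ε'⁻¹ • H.map (GT.smap_swap.comp hD.smap) (ec hW₁.of) := by
      rw [hE', smul_smul, inv_mul_cancel₀ hε', one_smul]
    have h2 : H.map (GT.smap_swap.comp hD.smap) (FG.xp X₀) = x2 := by
      rw [hx2, ← H.map_map GT.smap_swap hD.smap, (VX.xq_xp_swap X₀).1]
    have h3 : H.map (GT.smap_swap.comp hD.smap) (FG.xq X₀) = x1 := by
      rw [hx1, ← H.map_map GT.smap_swap hD.smap, (VX.xq_xp_swap X₀).2]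
    rw [h1, hX, map_smul, map_sum, smul_smul]
    congr 1
    refine Finset.sum_congr rfl fun b _ => ?_
    rw [map_mul, map_mul, map_pow, map_pow, map_natCast, h2, h3]
  -- nonvanishing on `Z`
  have hw : φ e = (c₀ * c) • ec (GS.or_0Z eq0 M.hW).of := by
    rw [he, map_smul, hφe]
  have hw2 : (φ e) ^ 2 = 0 := by
    rw [hw, smul_pow, w_sq eq0 M hk6, smul_zero]
  have hlt : ∀ i, i ≤ m - 1 → k * i < n := by
    intro i hi
    rw [hn]
    exact Nat.mul_lt_mul_of_pos_left (by omega) (by omega)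
  have hxz : ∀ i, i ≤ m - 1 → (φ x1) ^ i ≠ 0 := by
    intro i hi h0
    rw [hφ1, smul_pow] at h0
    exact (xw_ne eq0 M hx (i := i) (by omega) (hlt i hi)).1
      ((smul_eq_zero.1 h0).resolve_left (pow_ne_zero _ hc₀0))
  have hxwz : (φ x1) ^ (m - 2) * φ e ≠ 0 := by
    intro h0
    rw [hφ1, hw, smul_pow, smul_mul_smul_comm] at h0
    exact (xw_ne eq0 M hx (i := m - 2) (by omega) (hlt _ (by omega))).2
      ((smul_eq_zero.1 h0).resolve_left (mul_ne_zero (pow_ne_zero _ hc₀0) (mul_ne_zero hc₀0 hc)))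
  refine core_False φ (Gr := fun j => HD (CM.Quo (GT.ZZ S (FV.PVB h)) g) (2 * j)) (l := l) (m := m)
    (r := l * (m - 1)) (by omega) hm rfl (fun h3 => h82 ⟨by omega, h3.2⟩) hxe hφξ rfl hφ2 rfl
    one_mem_HD hmul (sc_mem_HD hQ hD.idf_L 1) (HD_map hD.smap (HD_map FG.smap_fst hX₀d))
    (HD_map hD.smap (HD_map FG.smap_snd hX₀d)) hed hdiv
    (t := fun j => CW.sc hQ (hD.idf_T hV h) j) (s := fun j => CW.sc hQ (hD.idf_F hV h) j)
    (v := fun j => H.map hD.smap (CW.sc hF (GT.idf_mV hV) j))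
    (fun j => sc_mem_HD hQ _ j) (fun j => ?_) μ hμ hT hFs (fun i hi _ => hv i hi)
    (c := fun j => cc hQ (hD.idf_T hV h) j) (c' := fun j => cc hQ (hD.idf_F hV h) j)
    (fun j => CW.cc_eq_el hQ _ j) (fun j => cc_mem_HD hQ _ j) (cc_F_top hV h hD.toDes hQ hW₁ hcard)
    (mul_ne_zero (inv_ne_zero hε) hκ₀0) hF1 hT1 hw2 (hxz _ le_rfl) hxwz
  rw [hD.sc_F hV h hQ j]
  exact Finset.sum_congr rfl fun i _ => by rw [hD.sc_L hQ (j - i)]

end Crest.Agent.R208.GQ
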