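import Crest.Agent.R208.XE4
import Crest.Agent.R208.TX9

/-! Row 208, block XE (helper126).  XE5: (X4′) without hypotheses, on `XM`; the same for `T_q C_p`;
the form in the ring `H F`. -/

set_option autoImplicit false
set_option linter.unusedSectionVars false

open MeasureTheory Set Filter Topology Module
open scoped ContDiff RealInnerProductSpace Matrix
open Crest.GeometryTopology.Submanifold
open Crest.Agent.R241.DDefs
open Crest.Agent.R241.D2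
open Crest.Agent.R208.F Crest.Agent.R208.FI Crest.Agent.R208.CW Crest.Agent.R208.T

noncomputable section

namespace Crest.Agent.R208.XE

variable {n N k m : ℕ} {κ : ℝ} {S : Set (Euc N)} {G : Geo n N κ S} {p : Euc N}
  {ι ι₁ ι' : Type} [Fintype ι] [DecidableEq ι] [Fintype ι₁] [DecidableEq ι₁] [Fintype ι']
  [DecidableEq ι']
  {W : Euc N × Euc N → (ι × Fin 2 → Fin N) → ℝ} {W₁ : Euc N × Euc N → (ι₁ × Fin 2 → Fin N) → ℝ}
  {x : Euc N → Ext (Euc N)} {h : GT.Bla G k}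

/-- **(X4′)**: `e(T_p C_q) ~ ρ ∑ (i + 1) x₁^i x₂^(m-1-i)`, `ρ ≠ 0` -/
theorem euler_F1 (D : XM h m W p x) (hW₁ : OR (GT.FF S) (F1 h) W₁)
    (hι₁ : 2 * Fintype.card ι₁ = n - k) :
    ∃ ρ : ℝ, ρ ≠ 0 ∧ Coh (GT.FF S) (eR (F1 h) W₁)
      (ρ • pS (F.pull Prod.fst x) (F.pull Prod.snd x) m) :=
  euler_F1' D hW₁ hι₁ D.hm_zero

/-- (X4′) in the ring `H F` -/
theorem ec_F1 (D : XM h m W p x) (hW₁ : OR (GT.FF S) (F1 h) W₁)
    (hι₁ : 2 * Fintype.card ι₁ = n - k) (hx : EC S x) :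
    ∃ ρ : ℝ, ρ ≠ 0 ∧ ec (OR.of hW₁) = (ρ : ℂ) • ∑ i ∈ Finset.range m,
      ((i + 1 : ℕ) : CW.H (GT.FF S)) * (H.map smap_fst_FF (rcl hx) ^ i
        * H.map smap_snd_FF (rcl hx) ^ (m - 1 - i)) := by
  obtain ⟨ρ, hρ, h1⟩ := euler_F1 D hW₁ hι₁
  refine ⟨ρ, hρ, ?_⟩
  rw [← hW₁.rcl_eR, ← rcl_pull smap_fst_FF hx, ← rcl_pull smap_snd_FF hx,
    ← rcl_pS (hx.pull smap_fst_FF) (hx.pull smap_snd_FF) m,
    ← rcl_smul _ (ec_pS (hx.pull smap_fst_FF) (hx.pull smap_snd_FF) m)]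
  exact (rcl_eq_iff _ _).2 h1

/-- (X4′) in the ring `H F`, for a multiple of `x` -/
theorem ec_F1_smul (D : XM h m W p x) (hW₁ : OR (GT.FF S) (F1 h) W₁)
    (hι₁ : 2 * Fintype.card ι₁ = n - k) (hx : EC S x) {t : ℂ} (ht : t ≠ 0) :
    ∃ ρ : ℂ, ρ ≠ 0 ∧ ec (OR.of hW₁) = ρ • ∑ i ∈ Finset.range m,
      ((i + 1 : ℕ) : CW.H (GT.FF S)) * (H.map smap_fst_FF (t • rcl hx) ^ i
        * H.map smap_snd_FF (t • rcl hx) ^ (m - 1 - i)) := by
  obtain ⟨ρ, hρ, h1⟩ := ec_F1 D hW₁ hι₁ hx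
  have hρ' : (ρ : ℂ) ≠ 0 := by exact_mod_cast hρ
  refine ⟨ρ * (t ^ (m - 1))⁻¹, mul_ne_zero hρ' (inv_ne_zero (pow_ne_zero _ ht)), ?_⟩
  rw [h1, mul_smul]
  congr 1
  rw [Finset.smul_sum]
  refine Finset.sum_congr rfl fun i hi => ?_
  have hi' := Finset.mem_range.1 hi
  have e : m - 1 = i + (m - 1 - i) := by omega
  rw [map_smul, map_smul, smul_pow, smul_pow, smul_mul_smul_comm, ← pow_add, ← e, mul_smul_comm,
    smul_smul, inv_mul_cancel₀ (pow_ne_zero _ ht), one_smul]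

theorem smap_swap : SMap (GT.FF S) (GT.FF S) (Prod.swap : Euc N × Euc N → Euc N × Euc N) :=
  ⟨fun _ _ => contDiffAt_snd.prodMk contDiffAt_fst, fun _ hz => GT.FF_symm' hz⟩

/-- (X4′) for `T_q C_p` -/
theorem euler_T1 (D : XM h m W p x)
    (hW₁ : OR (GT.FF S) (GT.PTC G (FV.PVB h)) W₁) (hι₁ : 2 * Fintype.card ι₁ = n - k) :
    ∃ ρ : ℝ, ρ ≠ 0 ∧ Coh (GT.FF S) (eR (GT.PTC G (FV.PVB h)) W₁)
      (ρ • pS (F.pull Prod.snd x) (F.pull Prod.fst x) m) := by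
  have h0 : OR (GT.FF S) (F1 h) (fun z => W₁ z.swap) :=
    GP.OR.comp hW₁ (f := Prod.swap) smap_swap.smooth smap_swap.maps
  obtain ⟨ρ, hρ, h1⟩ := euler_F1 D h0 hι₁
  refine ⟨ρ, hρ, ?_⟩
  have h2 := h1.pull (smap_swap (S := S))
  have e1 : Eqv (GT.FF S) (F.pull Prod.swap (eR (F1 h) fun z => W₁ z.swap))
      (eR (GT.PTC G (FV.PVB h)) W₁) := eqv_pull_eR h0 smap_swap
  have e2 : Eqv (GT.FF S) (F.pull Prod.swap (F.pull Prod.fst x)) (F.pull Prod.snd x) :=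
    eqv_pull_pull smap_swap smap_fst_FF smap_snd_FF (fun _ _ => rfl) x
  have e3 : Eqv (GT.FF S) (F.pull Prod.swap (F.pull Prod.snd x)) (F.pull Prod.fst x) :=
    eqv_pull_pull smap_swap smap_snd_FF smap_fst_FF (fun _ _ => rfl) x
  refine (Coh.of_eqv e1.symm).trans (h2.trans ?_)
  have hx1 := ec_x1 D
  have hx2 := ec_x2 D
  have hy1 := hx1.pull (smap_swap (S := S))
  have hy2 := hx2.pull (smap_swap (S := S))
  have hp := ec_pS hx1 hx2 m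
  have hq := ec_pS hx2 hx1 m
  refine (rcl_eq_iff ((hp.smul ρ).pull smap_swap) (hq.smul ρ)).1 ?_
  rw [rcl_pull smap_swap (hp.smul ρ), rcl_smul _ hp, rcl_smul _ hq, map_smul, rcl_pS hx1 hx2,
    rcl_pS hx2 hx1, map_sum]
  congr 1
  refine Finset.sum_congr rfl fun i _ => ?_
  rw [map_mul, map_mul, map_pow, map_pow, map_natCast, ← rcl_pull smap_swap hx1,
    ← rcl_pull smap_swap hx2, rcl_congr hy1 hx2 (Coh.of_eqv e2), rcl_congr hy2 hx1 (Coh.of_eqv e3)]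

end Crest.Agent.R208.XE
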