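import Crest.Agent.R208.ZG1
import Crest.Agent.R208.XE5

/-!
# `TypesStmt` from the contradiction on `XM`
-/

set_option autoImplicit false

open Crest.GeometryTopology.Submanifold
open Crest.Agent.R241.DDefs
open Crest.Agent.R241.D2
open Crest.Agent.R208.F

noncomputable section

namespace Crest.Agent.R208.ZT

/-- the situation of `T.XM` exists -/
theorem exists_XM {n N k : ℕ} {κ : ℝ} {S : Set (Euc N)} {G : Geo n N κ S} (h : GT.Bla G k)
    (hk : Even k) (h2 : 2 ≤ k) (hkn : k < n) :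
    ∃ (m : ℕ) (W : Euc N × Euc N → (Fin (k / 2) × Fin 2 → Fin N) → ℝ) (p : Euc N)
      (x : Euc N → Ext (Euc N)), T.XM h m W p x := by
  obtain ⟨p, hp⟩ := h.bl.conn.nonempty
  have hι : 2 * Fintype.card (Fin (k / 2)) = k := by
    rw [Fintype.card_fin]
    obtain ⟨r, hr⟩ := hk
    omega
  obtain ⟨W, hW⟩ := T.exists_OR_FF h h2 (by omega) hι
  obtain ⟨m, x, hD⟩ := T.exists_XM h h2 hkn hι hW hp
  exact ⟨m, W, p, x, hD⟩

/-- the contradiction for `k ≥ 6`, except for `k = 8`, `n = 16` -/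
def CoreStmt : Prop :=
  ∀ (n N k m : ℕ) (κ : ℝ) (S : Set (Euc N)) (G : Geo n N κ S) (h : GT.Bla G k)
    (W : Euc N × Euc N → (Fin (k / 2) × Fin 2 → Fin N) → ℝ) (p : Euc N)
    (x : Euc N → Ext (Euc N)), T.XM h m W p x → 6 ≤ k → ¬ (k = 8 ∧ m = 2) → False

theorem typesStmt_of_core (core : CoreStmt) : ZG.TypesStmt := by
  intro n N κ S G k hG hk h2 hkn
  obtain ⟨m, W, p, x, hD⟩ := exists_XM hG hk h2 hkn
  refine ⟨⟨m, hD.hm, hD.hn⟩, ?_⟩
  by_cases h : k = 2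
  · exact Or.inl h
  by_cases h' : k = 4
  · exact Or.inr (Or.inl h')
  have hk6 : 6 ≤ k := by
    obtain ⟨r, hr⟩ := hk
    omega
  by_cases h8 : k = 8 ∧ m = 2
  · right; right
    refine ⟨h8.1, ?_⟩
    rw [hD.hn, h8.1, h8.2]
  · exact (core n N k m κ S G hG W p x hD hk6 h8).elim

end Crest.Agent.R208.ZT
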