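import Crest.Agent.R208.GQ5f
import Crest.Agent.R208.ZT2

/-! Row 208, block GQ (helper989), part GQ6: **the types theorem** `ZG.TypesStmt`. -/

set_option autoImplicit false

open Crest.GeometryTopology.Submanifold
open Crest.Agent.R241.DDefs
open Crest.Agent.R241.D2
open Crest.Agent.R208.F

noncomputable section

namespace Crest.Agent.R208.GQ

/-- the contradiction for `k ≥ 6`, except for `k = 8`, `n = 16` -/
theorem core : ZT.CoreStmt := by
  intro n N k m κ S G h W p x M hk6 h82
  have hke := M.hke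
  have hne := M.hne
  have hkn := M.hkn
  obtain ⟨a, ha⟩ := hke
  obtain ⟨b, hb⟩ := hne
  have hι₁ : 2 * Fintype.card (Fin (b - a)) + k = n := by rw [Fintype.card_fin]; omega
  obtain ⟨W₁, hW₁⟩ := XE.exists_OR_F1 (ι₁ := Fin (b - a)) h M.hk M.hne M.hι hι₁ M.hW
  obtain ⟨ρ, hρ, hX4⟩ := XE.euler_F1 M hW₁ (by omega)
  exact main M hk6 h82 M.hm_zero hι₁ hW₁ hρ hX4

/-- **the types theorem** -/
theorem types : ZG.TypesStmt := ZT.typesStmt_of_core core

end Crest.Agent.R208.GQ
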