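import Crest.Agent.R208.GQ5a

/-!
Row 208, block GQ (helper989), part GQ7a: `k = 8`, `n = 16`: the vanishing of `c_7(T_J)` gives
`μ² = 36` (algebra).
-/

set_option autoImplicit false

open PowerSeries Finset

namespace Crest.Agent.R208.GQ

variable {A B : Type*} [CommRing A] [Algebra ℂ A] [CommRing B] [Algebra ℂ B]

/-- the seventh elementary class from the power sums `t₃, t₄, t₇` -/
theorem el_seven {t : ℕ → B} (h1 : t 1 = 0) (h2 : t 2 = 0) (h5 : t 5 = 0) (h6 : t 6 = 0) :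
    84 * CW.el t 7 = 12 * t 7 - 7 * (t 3 * t 4) := by
  have e0 : CW.el t 0 = 1 := CW.el_zero t
  have n1 := GA.el_newton t 0
  have n3 := GA.el_newton t 2
  have n4 := GA.el_newton t 3
  have n7 := GA.el_newton t 6
  simp only [sum_range_succ, sum_range_zero, Nat.reduceAdd, Nat.reduceSub, e0, h1, h2, h5, h6]
    at n1 n3 n4 n7
  push_cast at n1 n3 n4 n7
  linear_combination 12 * n7 + 3 * t 3 * n4 - 4 * t 4 * n3 + (3 * t 3 * t 3) * n1

theorem QQ_coeff_zero (m : ℕ) (μ : ℂ) : coeff 0 (QQ m μ) = 0 := by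
  have h := congrArg constantCoeff (QQ_mul m μ)
  simpa using h

theorem QQ_mul_two (μ : ℂ) : QQ 2 μ + C (3 * μ) * (QQ 2 μ * X ^ 1) +
    C (1 + 2 * μ ^ 2) * (QQ 2 μ * X ^ 2) + C (2 * μ) * (QQ 2 μ * X ^ 3) =
      C μ * X ^ 1 + C (6 + 4 * μ ^ 2) * X ^ 2 + C (10 * μ) * X ^ 3 := by
  have h := QQ_mul 2 μ
  simp only [map_add, map_mul, map_pow, map_ofNat, map_one, Nat.cast_ofNat] at h ⊢
  linear_combination h

theorem coeff_aux {F : ℂ⟦X⟧} {a b c d e g : ℂ} (h0 : coeff 0 F = 0)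
    (h : F + C a * (F * X ^ 1) + C b * (F * X ^ 2) + C c * (F * X ^ 3) =
      C d * X ^ 1 + C e * X ^ 2 + C g * X ^ 3) : coeff 1 F = d ∧ coeff 2 F + a * d = e := by
  have h1 := congrArg (coeff 1) h
  have h2 := congrArg (coeff 2) h
  simp only [map_add, coeff_C_mul, coeff_mul_X_pow'] at h1 h2
  norm_num at h1 h2 h0
  rw [h0] at h1 h2
  have h3 : coeff 1 F = d := by simpa using h1
  rw [h3] at h2
  exact ⟨h3, by simpa using h2⟩

theorem QQ_coeff (μ : ℂ) : coeff 1 (QQ 2 μ) = μ ∧ coeff 2 (QQ 2 μ) = 6 + μ ^ 2 := by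
  obtain ⟨h1, h2⟩ := coeff_aux (QQ_coeff_zero 2 μ) (QQ_mul_two μ)
  exact ⟨h1, by linear_combination h2⟩

variable (φ : A →ₐ[ℂ] B) {ξ x1 x2 e : A} {x w : B} {Gr : ℕ → Submodule ℂ A}

/-- **`μ² = 36`** from `c_7(T_J) = 0` (`k = 8`, `n = 16`) -/
theorem mu_sq_alg (hxe : x1 - x2 = ξ * e) (hφξ : φ ξ = 0) (hφ1 : φ x1 = x) (hφ2 : φ x2 = x)
    (hφe : φ e = w) (h1 : (1 : A) ∈ Gr 0)
    (hmul : ∀ i j : ℕ, ∀ a b : A, a ∈ Gr i → b ∈ Gr j → a * b ∈ Gr (i + j)) (hξ : ξ ∈ Gr 1)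
    (hx1 : x1 ∈ Gr 4) (hx2 : x2 ∈ Gr 4) (he : e ∈ Gr (4 - 1))
    (div : ∀ j < 8, ∀ b ∈ Gr j, b * ξ = 0 → b = 0) {t s v : ℕ → A} (ht : ∀ j, t j ∈ Gr j)
    (hs : ∀ j, s j = ∑ i ∈ range (j + 1), (j.choose i : A) * t i * ξ ^ (j - i)) (μ : ℂ)
    (hT : ∀ i, 1 ≤ i → 2 * i ≤ 8 → 2 * t (2 * i) =
      (if 4 ∣ 2 * i then (-((4 : ℕ) : ℂ) * coeff (2 * i / 4) (QQ 2 μ)) • x2 ^ (2 * i / 4) else 0) -
        v (2 * i))
    (hF : ∀ i, 1 ≤ i → 2 * i ≤ 8 → 2 * s (2 * i) =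
      (if 4 ∣ 2 * i then (-((4 : ℕ) : ℂ) * coeff (2 * i / 4) (QQ 2 μ)) • x1 ^ (2 * i / 4) else 0) -
        v (2 * i))
    (hv : ∀ i, 1 ≤ i → φ (v (2 * i)) =
      if 4 ∣ 2 * i then (((4 : ℕ) : ℂ) * (-(2 * μ)) ^ (2 * i / 4)) • x ^ (2 * i / 4) else 0)
    (hc : CW.el t 7 = 0) (hxw : x * w ≠ 0) : μ ^ 2 = 36 := by
  obtain ⟨q1, q2⟩ := QQ_coeff μ
  have hodd := GK.odd_sum φ (M := 8) (l := 4) (by norm_num) hxe hφξ hφ1 hφ2 hφe h1 hmul hξ hx1 hx2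
    he div ht hs (σ := fun i => -((4 : ℕ) : ℂ) * coeff i (QQ 2 μ)) (v := v) hT hF
  have o1 := hodd 1 (by norm_num) (by norm_num)
  have o3 := hodd 2 (by norm_num) (by norm_num)
  have o5 := hodd 3 (by norm_num) (by norm_num)
  have o7 := hodd 4 (by norm_num) (by norm_num)
  norm_num [q1, q2] at o1 o3 o5 o7
  have hev : ∀ i, 1 ≤ i → 2 * i ≤ 8 → 2 * φ (t (2 * i)) =
      (if 4 ∣ 2 * i then (-((4 : ℕ) : ℂ) * coeff (2 * i / 4) (QQ 2 μ)) • x ^ (2 * i / 4) else 0) -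
        if 4 ∣ 2 * i then (((4 : ℕ) : ℂ) * (-(2 * μ)) ^ (2 * i / 4)) • x ^ (2 * i / 4) else 0 := by
    intro i hi hi8
    have e1 := congrArg φ (hT i hi hi8)
    rw [map_mul, map_ofNat, map_sub, hv i hi] at e1
    rw [e1]
    congr 1
    split_ifs
    · rw [map_smul, map_pow, hφ2]
    · rw [map_zero]
  have hhalf : ∀ {b c : B}, 2 * b = c → b = (1 / 2 : ℂ) • c := by
    intro b c h
    rw [← h, show (2 : B) * b = (2 : ℂ) • b by rw [Algebra.smul_def, map_ofNat], smul_smul]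
    norm_num
  have e2 := hhalf (hev 1 (by norm_num) (by norm_num))
  have e4 := hhalf (hev 2 (by norm_num) (by norm_num))
  have e6 := hhalf (hev 3 (by norm_num) (by norm_num))
  norm_num [q1] at e2 e4 e6
  have hel : CW.el (fun j => φ (t j)) 7 = 0 := by
    have h2 : φ (CW.el t 7) = CW.el (fun j => φ (t j)) 7 := CW.el_map φ.toRingHom t 7
    rw [← h2, hc, map_zero]
  have key := el_seven (t := fun j => φ (t j)) o1 e2 o5 e6
  rw [hel, mul_zero] at key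
  simp only [o3, o7, e4] at key
  have e4' : -((1 / 2 : ℂ) • (4 * μ) • x) + (1 / 2 : ℂ) • (4 * (2 * μ)) • x = (2 * μ) • x := by
    module
  have h12 : ∀ (c : ℂ) (y : B), 12 * (c • y) = (12 * c) • y := fun c y => by
    rw [Algebra.smul_def, Algebra.smul_def, map_mul, map_ofNat, mul_assoc]
  have h7 : ∀ (c : ℂ) (y : B), 7 * (c • y) = (7 * c) • y := fun c y => by
    rw [Algebra.smul_def, Algebra.smul_def, map_mul, map_ofNat, mul_assoc]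
  rw [e4', smul_mul_smul_comm, h12, h7, ← sub_smul, mul_comm w x] at key
  have h3 := (smul_eq_zero.1 key.symm).resolve_right hxw
  linear_combination h3

end Crest.Agent.R208.GQ
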