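import Crest.Agent.R208.GD3
import Crest.Agent.R208.GQ4a
import Crest.Agent.R208.HG1
import Crest.Agent.R208.FG3b
import Crest.Agent.R208.TX6b

/-! Row 208, block QV (helper105), part QV3: the relations between the classes on
`D = V_2(V) / S¹`, for every `k`: division by the Euler class, the two relations with `c(TM)`,
ranks. -/

set_option autoImplicit false
set_option linter.unusedSectionVars false
set_option linter.unusedVariables false

open Set Filter Topology Module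
open scoped ContDiff RealInnerProductSpace ComplexConjugate
open Crest.GeometryTopology.Submanifold
open Crest.Agent.R241.DDefs
open Crest.Agent.R241.D2
open Crest.Agent.R208.F Crest.Agent.R208.FI
open Crest.Agent.R208.CW (IdF SM el)
open Crest.Agent.R208.GT (bas mM mV mP FF ZZ TJ FJ LL rt Des DPk)
open Crest.Agent.R208.T (HD EC rcl Coh Hom)

noncomputable section

namespace Crest.Agent.R208.QV

/-! ### division on the quotient, in `H` -/

section quo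
open Crest.Agent.R208.CM

variable {E : Type} [NormedAddCommGroup E] [NormedSpace ℝ E] [FiniteDimensional ℝ E]
  {X : Set E} {φ : ℝ → E → E} {m n : ℕ} {g : E → Fin m → ℂ}

theorem rcl_map_eq_zero {E E' : Type*} [NormedAddCommGroup E] [NormedSpace ℝ E]
    [FiniteDimensional ℝ E] [NormedAddCommGroup E'] [NormedSpace ℝ E'] [FiniteDimensional ℝ E']
    {X : Set E} {Y : Set E'} {f : E → E'} (hf : CW.SMap X Y f) {a b : E' → Ext E'} (ha : EC Y a)
    (hb : EC Y b) (h0 : CW.H.map hf (rcl ha + Complex.I • rcl hb) = 0) :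
    Coh X (F.pull f a) 0 ∧ Coh X (F.pull f b) 0 := by
  rw [map_add, map_smul, ← T.rcl_pull, ← T.rcl_pull, ← T.cls_eq_rcl, T.cls_eq_zero_iff_coh] at h0
  exact h0

/-- **kernel of the pull-back**, in `H` -/
theorem exists_div (hg : Emb X φ g) (h : Cir X φ) (hX : Clo (n + 1) X) {j : ℕ}
    {b : CW.H (Quo X g)} (hb : b ∈ HD (Quo X g) (2 * (j + 1)))
    (h0 : CW.H.map hg.smap_jj b = 0) :
    ∃ w ∈ HD (Quo X g) (2 * j), b = CW.ec (R208.T.OR.of hg.or_L) * w := by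
  obtain ⟨a, a', ha, ha', da, da', rfl⟩ := T.exists_rcl_HD hb
  obtain ⟨h1, h2⟩ := rcl_map_eq_zero hg.smap_jj ha ha' h0
  have key : ∀ {a : MM m → Ext (MM m)} (ha : EC (Quo X g) a), Hom (2 * (j + 1)) a →
      Coh X (F.pull (jj g) a) 0 → ∃ w ∈ HD (Quo X g) (2 * j),
        rcl ha = CW.ec (R208.T.OR.of hg.or_L) * w := by
    intro a ha da h1
    obtain ⟨c, sc, cc, dc, ec⟩ := HG.gysin_high hg h hX (hg.conn_th h) (hg.curv_th h)
      (i := 2 * j) ha.sm (by exact da) h1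
    have hc : EC (Quo X g) c := EC.of_hom sc cc dc
    refine ⟨((-(1 / 2) : ℝ) : ℂ) • rcl hc, Submodule.smul_mem _ _ (T.rcl_mem_HD hc dc), ?_⟩
    have hF := hg.or_L.ec_eR
    rw [T.rcl_congr ha (hc.mul (hF.smul _)) ec, T.rcl_mul hc (hF.smul _), T.rcl_smul _ hF,
      hg.or_L.rcl_eR, mul_smul_comm, mul_smul_comm, mul_comm]
  obtain ⟨w, hw, e1⟩ := key ha da h1
  obtain ⟨w', hw', e2⟩ := key ha' da' h2
  refine ⟨w + Complex.I • w', Submodule.add_mem _ hw (Submodule.smul_mem _ _ hw'), ?_⟩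
  rw [e1, e2, mul_add, mul_smul_comm]

end quo

/-! ### the relations on `Y` over `V_2(V)` -/

variable {n N k d dF : ℕ} {κ : ℝ} {S : Set (Euc N)} {G : Geo n N κ S}
  {PV : Euc N × Euc N → Euc N →L[ℝ] Euc N}

section rel
variable {E' : Type*} [NormedAddCommGroup E'] [NormedSpace ℝ E'] [FiniteDimensional ℝ E']
  {Y : Set E'} {z : E' → Euc N × Euc N} {T F L : E' → Matrix (Fin N) (Fin N) ℂ}
  (hV : GT.VField G PV) (h : GT.Bla G k)

include hV h

/-- `TM` at the first point -/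
theorem sc_TC_sub' (hkn : k < n) (hF : Sub dF (FF S)) (j : ℕ) :
    CW.sc hF ((GT.idf_mM (G := G)).comp GT.smap_p) j =
      CW.sc hF (GT.idf_mV hV) j + CW.sc hF ((GT.idf_TCF hV h).comp GT.smap_swap) j := by
  have h1 := congrArg (CW.H.map (GT.smap_swap (S := S))) (GT.sc_TC_sub hV h hkn hF j)
  rw [map_add, CW.map_sc hF hF, CW.map_sc hF hF, CW.map_sc hF hF, GT.sc_V_swap hV h hkn hF j] at h1
  rw [← h1]

/-- the relation of the second point, on `Y` -/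
theorem rel_q (hD : Des G PV Y z T F L) (hkn : k < n) (hS : Sub n S) (hF : Sub dF (FF S))
    (hY : Sub d Y) (j : ℕ) :
    CW.H.map hD.smap (FG.xq (CW.sc hS (GT.idf_mM (G := G)) j)) =
      CW.sc hY (hD.idf_mV hV) j + (1 + (-1) ^ j) * CW.sc hY (hD.idf_T hV h) j := by
  have h1 := congrArg (CW.H.map hD.smap) (GT.sc_TC_sub hV h hkn hF j)
  rw [map_add, CW.map_sc hY hF, CW.map_sc hY hF, CW.map_sc hY hF] at h1
  rw [← hD.sc_TC hV h hY j]
  rw [FG.xq, CW.map_sc hF hS, CW.map_sc hY hF]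
  exact h1

/-- the relation of the first point, on `Y` -/
theorem rel_p (hD : Des G PV Y z T F L) (hkn : k < n) (hS : Sub n S) (hF : Sub dF (FF S))
    (hY : Sub d Y) (j : ℕ) :
    CW.H.map hD.smap (FG.xp (CW.sc hS (GT.idf_mM (G := G)) j)) =
      CW.sc hY (hD.idf_mV hV) j + (1 + (-1) ^ j) * CW.sc hY (hD.idf_F hV h) j := by
  have h1 := congrArg (CW.H.map hD.smap) (sc_TC_sub' hV h hkn hF j)
  rw [map_add, CW.map_sc hY hF, CW.map_sc hY hF, CW.map_sc hY hF] at h1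
  rw [← hD.sc_TC' hV h hY j]
  rw [FG.xp, CW.map_sc hF hS, CW.map_sc hY hF]
  exact h1

/-- `F_J = T_J ⊗ ℓ` on power sums -/
theorem sc_F' (hD : Des G PV Y z T F L) (hY : Sub d Y) (j : ℕ) :
    CW.sc hY (hD.idf_F hV h) j = ∑ i ∈ Finset.range (j + 1), (j.choose i : CW.H Y) *
      CW.sc hY (hD.idf_T hV h) i * CW.sc hY hD.idf_L 1 ^ (j - i) := by
  rw [hD.sc_F hV h hY j]
  refine Finset.sum_congr rfl fun i _ => ?_
  rw [hD.sc_L hY (j - i)]

/-! ### ranks -/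

omit h in
theorem trace_mV {z : Euc N × Euc N} (h : GT.Bla G k) (hz : z ∈ FF S) :
    (mV PV z).trace = (k : ℂ) := by
  have h1 := CW.rank_eq_trace ((GT.idf_mV hV).idem z hz)
  have h2 : (mV PV z).rank = k := by
    refine (FG.rank_cr (T := PV z) fun v => hV.PV_idem (p := z.1) (q := z.2) hz v).trans ?_
    rw [FG.range_PV hV hz]
    exact h.finrank_Vs hz
  rw [← h1, h2]

/-- `V₀` has rank `k - 2` -/
theorem rank_V0 (hD : Des G PV Y z T F L) {y : E'} (hy : y ∈ Y) :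
    (GT.VD0 PV z L y).rank + 2 = k := by
  obtain ⟨ζ, hζ, e1, -, -, e⟩ := hD.ex y hy
  have h1 := CW.rank_eq_trace ((hD.idf_V0 hV).idem y hy)
  have h2 : (GT.VD0 PV z L y).trace = (k : ℂ) - 2 := by
    rw [GT.VD0, Matrix.trace_sub, Matrix.trace_add, trace_mV hV h (hD.mem hy), e, GT.LL_trace hζ]
    have h3 : ((LL ζ).map (starRingEnd ℂ)).trace = 1 := by
      have h4 : ((LL ζ).map (starRingEnd ℂ)).trace = starRingEnd ℂ (LL ζ).trace := by
        simp [Matrix.trace, Matrix.diag, map_sum]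
      rw [h4, GT.LL_trace hζ, map_one]
    rw [h3]; norm_num
  rw [h2] at h1
  have h3 : (((GT.VD0 PV z L y).rank + 2 : ℕ) : ℂ) = (k : ℂ) := by
    push_cast; rw [h1]; ring
  exact_mod_cast h3

theorem sc_V0_odd (hD : Des G PV Y z T F L) (hY : Sub d Y) {j : ℕ} (hj : Odd j) :
    CW.sc hY (hD.idf_V0 hV) j = 0 := by
  refine CW.sc_real_odd hY (hD.idf_V0 hV) (fun y hy => ?_) hj
  ext a b
  simp [GT.VD0, mV, Matrix.map_apply]
  ring

theorem el_V0_eq_zero (hD : Des G PV Y z T F L) (hY : Sub d Y) {j : ℕ} (hj : k < j + 2) :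
    el (CW.sc hY (hD.idf_V0 hV)) j = 0 := by
  rw [← CW.cc_eq_el]
  refine CW.cc_eq_zero hY (hD.idf_V0 hV) fun y hy => ?_
  have := rank_V0 hV h hD hy
  omega

end rel

section ZZ
variable {m : ℕ} {g : (Euc N × Euc N) × (Fin 2 → Euc N) → Fin m → ℂ}

theorem two_rank {Q M : Matrix (Fin N) (Fin N) ℂ} (hQ : Q * Q = Q) (hM : M * M = M)
    (h : Q + SP.cj Q = M) : 2 * Q.rank = M.rank := by
  have h1 := CW.rank_eq_trace hQ
  have h2 := CW.rank_eq_trace hM
  have h3 : (SP.cj Q).trace = starRingEnd ℂ Q.trace := by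
    simp [Matrix.trace, Matrix.diag, map_sum]
  rw [← h, Matrix.trace_add, h3, ← h1, Complex.conj_natCast, h] at h2
  have h4 : ((2 * Q.rank : ℕ) : ℂ) = ((M.rank : ℕ) : ℂ) := by
    push_cast; rw [h2]; ring
  exact_mod_cast h4

/-- `T_q C_p` has rank `n - k` -/
theorem rank_mP (hV : GT.VField G PV) (h : GT.Bla G k) {z : Euc N × Euc N} (hz : z ∈ FF S) :
    k + (SP.cr (mP G PV z)).rank = n := by
  have h1 : (SP.cr (mP G PV z)).rank = finrank ℝ (GT.TC G z.1 z.2) := by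
    refine (FG.rank_cr (T := GT.PTC G PV z) fun v => hV.PTC_idem h (p := z.1) (q := z.2) hz v).trans
      ?_
    rw [hV.range_PTC h (p := z.1) (q := z.2) hz]
  rw [h1]
  exact h.finrank_TC hz

theorem rank_TJ (hV : GT.VField G PV) (h : GT.Bla G k)
    {ζ : (Euc N × Euc N) × (Fin 2 → Euc N)} (hζ : ζ ∈ ZZ S PV) :
    2 * (TJ G PV ζ).rank + k = n := by
  have h1 := two_rank ((GT.idf_TJ hV h).idem ζ hζ) ((GT.idf_TCF hV h).idem ζ.1 hζ.1)
    (GT.pencil_ZZ hV h hζ).tj_add_cj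
  have h2 := rank_mP hV h hζ.1
  have h3 : 2 * (TJ G PV ζ).rank = (SP.cr (mP G PV ζ.1)).rank := h1
  omega

theorem rank_FJ (hV : GT.VField G PV) (h : GT.Bla G k)
    {ζ : (Euc N × Euc N) × (Fin 2 → Euc N)} (hζ : ζ ∈ ZZ S PV) :
    2 * (FJ G PV ζ).rank + k = n := by
  have h1 := two_rank ((GT.idf_FJ hV h).idem ζ hζ)
    ((GT.idf_TCF hV h).idem ζ.1.swap (GT.FF_symm hζ.1)) (GT.pencil_ZZ hV h hζ).fj_add_cj
  have h2 := rank_mP hV h (GT.FF_symm hζ.1)
  have h3 : 2 * (FJ G PV ζ).rank = (SP.cr (mP G PV ζ.1.swap)).rank := h1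
  omega

/-- Chern classes of `T_J`, `F_J` above the rank -/
theorem cc_T_eq_zero (hV : GT.VField G PV) (h : GT.Bla G k)
    {E' : Type*} [NormedAddCommGroup E'] [NormedSpace ℝ E'] [FiniteDimensional ℝ E']
    {Y : Set E'} {z : E' → Euc N × Euc N} {T F L : E' → Matrix (Fin N) (Fin N) ℂ}
    (hD : Des G PV Y z T F L) (hY : Sub d Y) {j : ℕ} (hj : n < 2 * j + k) :
    CW.cc hY (hD.idf_T hV h) j = 0 := by
  refine CW.cc_eq_zero hY (hD.idf_T hV h) fun y hy => ?_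
  obtain ⟨ζ, hζ, -, e, -, -⟩ := hD.ex y hy
  rw [e]
  have := rank_TJ hV h hζ
  omega

theorem cc_F_eq_zero (hV : GT.VField G PV) (h : GT.Bla G k)
    {E' : Type*} [NormedAddCommGroup E'] [NormedSpace ℝ E'] [FiniteDimensional ℝ E']
    {Y : Set E'} {z : E' → Euc N × Euc N} {T F L : E' → Matrix (Fin N) (Fin N) ℂ}
    (hD : Des G PV Y z T F L) (hY : Sub d Y) {j : ℕ} (hj : n < 2 * j + k) :
    CW.cc hY (hD.idf_F hV h) j = 0 := by
  refine CW.cc_eq_zero hY (hD.idf_F hV h) fun y hy => ?_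
  obtain ⟨ζ, hζ, -, -, e, -⟩ := hD.ex y hy
  rw [e]
  have := rank_FJ hV h hζ
  omega

/-! ### the two pull-backs from `S` agree on `V_2(V)` -/

/-- `V_2(V) → S(V)` -/
def frZ (ζ : (Euc N × Euc N) × (Fin 2 → Euc N)) : (Euc N × Euc N) × Euc N := (ζ.1, ζ.2 0)

theorem smap_frZ (h : GT.Bla G k) :
    CW.SMap (ZZ S (FV.PVB h)) (T.Sph (FF S) (FV.PVB h)) frZ := by
  refine ⟨fun ζ _ => ?_, fun ζ hζ => ⟨⟨hζ.1, hζ.2.1 0⟩, hζ.2.2.1 0⟩⟩
  exact contDiffAt_fst.prodMk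
    (((contDiff_apply ℝ (Euc N) (0 : Fin 2)).contDiffAt).comp ζ contDiffAt_snd)

theorem geod_H (h : GT.Bla G k) (c : CW.H S) :
    CW.H.map (GT.smap_fst (S := S) (PV := FV.PVB h)) (FG.xp c) =
      CW.H.map (GT.smap_fst (S := S) (PV := FV.PVB h)) (FG.xq c) := by
  obtain ⟨a, b, ha, hb, rfl⟩ := T.exists_rcl c
  have key : ∀ {a : Euc N → Ext (Euc N)} (ha : EC S a),
      CW.H.map (GT.smap_fst (S := S) (PV := FV.PVB h)) (FG.xp (rcl ha)) =
        CW.H.map (GT.smap_fst (S := S) (PV := FV.PVB h)) (FG.xq (rcl ha)) := by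
    intro a ha
    rw [FG.xp, FG.xq, ← T.rcl_pull, ← T.rcl_pull, ← T.rcl_pull, ← T.rcl_pull]
    refine T.rcl_congr _ _ ?_
    have h1 := (T.coh_geod h ha.sm ha.cl).pull (smap_frZ h)
    have e1 : ∀ c : Euc N × Euc N → Ext (Euc N × Euc N),
        T.Eqv (ZZ S (FV.PVB h)) (F.pull frZ (F.pull Prod.fst c)) (F.pull Prod.fst c) := fun c =>
      T.eqv_pull_pull (smap_frZ h) T.smap_fstS (GT.smap_fst (S := S) (PV := FV.PVB h))
        (fun _ _ => rfl) c
    exact (Coh.of_eqv (e1 _).symm).trans (h1.trans (Coh.of_eqv (e1 _)))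
  simp only [FG.xp, FG.xq, map_add, map_smul] at key ⊢
  rw [key ha, key hb]

/-- **`x₁ - x₂ = ξ w`** on `D` -/
theorem exists_w {h : GT.Bla G k} {dZ : ℕ} (hg : CM.Emb (ZZ S (FV.PVB h)) rt g)
    (hX : Clo (dZ + 1) (ZZ S (FV.PVB h))) {z : CM.MM m → Euc N × Euc N}
    {TD FD LD : CM.MM m → Matrix (Fin N) (Fin N) ℂ} (hD : DPk G (FV.PVB h) g z TD FD LD)
    (hQ : Sub d (CM.Quo (ZZ S (FV.PVB h)) g)) {j : ℕ} {x : CW.H S} (hx : x ∈ HD S (2 * (j + 1))) :
    ∃ w ∈ HD (CM.Quo (ZZ S (FV.PVB h)) g) (2 * j),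
      CW.H.map hD.smap (FG.xp x) - CW.H.map hD.smap (FG.xq x) = CW.sc hQ hD.idf_L 1 * w := by
  have h1 : CW.H.map hD.smap (FG.xp x) - CW.H.map hD.smap (FG.xq x) ∈
      HD (CM.Quo (ZZ S (FV.PVB h)) g) (2 * (j + 1)) :=
    Submodule.sub_mem _ (T.HD_map _ (T.HD_map _ hx)) (T.HD_map _ (T.HD_map _ hx))
  obtain ⟨w, hw, e1⟩ := exists_div hg GT.cir_ZZ hX h1 (by
    rw [map_sub, hD.map_z hg hX.sub, hD.map_z hg hX.sub, geod_H, sub_self])
  refine ⟨(2 * Complex.I) • w, Submodule.smul_mem _ _ hw, ?_⟩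
  rw [e1, hD.ec_L hg hX hQ, smul_mul_assoc, mul_smul_comm]

end ZZ

end Crest.Agent.R208.QV
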