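import Crest.Agent.R208.QV2
import Crest.Agent.R208.QV3
import Crest.Agent.R208.GQ4b
import Crest.Agent.R208.XE2
import Crest.Agent.R208.TX7b
import Crest.Agent.R208.FG5

/-! Row 208, block QV (helper105), part QV4: **(V4)**, `k = 4`: the coefficient `μ` of
`c_2(V ⊗ ℂ) = μ (x_1 + x_2)` satisfies `|μ| < 6`. -/

set_option autoImplicit false
set_option linter.unusedSectionVars false
set_option linter.unusedVariables false

open Set Filter Topology Module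
open scoped ContDiff RealInnerProductSpace ComplexConjugate
open Crest.GeometryTopology.Submanifold
open Crest.Agent.R241.DDefs
open Crest.Agent.R241.D2
open Crest.Agent.R208.F Crest.Agent.R208.FI
open Crest.Agent.R208.CW (IdF SM el)
open Crest.Agent.R208.GT (bas mM mV mP FF ZZ TJ FJ LL rt Des DPk)
open Crest.Agent.R208.T (HD EC rcl Coh Hom Cl Eqv Sm OR ExactIn)
open Crest.Agent.R208.GQ (UV Z1 Q1 v1 Pm pS xZ eZ LH)
open Crest.Agent.R208.VX (nE nE_pos)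

noncomputable section

namespace Crest.Agent.R208.QV

variable {n N k m dF : ℕ} {κ : ℝ} {S : Set (Euc N)} {G : Geo n N κ S}

/-! ### the theorem on `D` -/

/-- **(V4)** on the level of classes -/
theorem lt_six_H (h : GT.Bla G 4) (hm : 2 ≤ m) (hn : n = 4 * m) (hS : Sub n S)
    (hF : Sub dF (FF S)) {μ : ℝ} {q : ℕ → ℂ} (hq0 : q 0 = 1)
    (hqc : ∀ i ≤ m, PowerSeries.coeff i (PowerSeries.mk q * (1 + PowerSeries.C (2 * (μ : ℂ)) *
      PowerSeries.X)) = PowerSeries.coeff i ((1 + PowerSeries.C (μ : ℂ) * PowerSeries.X +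
        PowerSeries.X ^ 2) ^ (m + 1)))
    {x : CW.H S} (hx : x ∈ HD S 4)
    (hc2 : CW.cc hF (GT.idf_mV (FV.vfield_PVB h)) 2 = (μ : ℂ) • (FG.xp x + FG.xq x))
    (hc4 : CW.cc hF (GT.idf_mV (FV.vfield_PVB h)) 4 = (FG.xp x - FG.xq x) ^ 2)
    (hq : ∀ i ≤ m, CW.cc hS (GT.idf_mM (G := G)) (2 * i) = q i • x ^ i)
    (hE : ∀ j < 2 * m, ExactIn (ZZ S (FV.PVB h)) (2 * j + 1))
    (hne : ∀ e ∈ HD (ZZ S (FV.PVB h)) 2, e ≠ 0 →
      e * CW.H.map (GT.smap_fst (S := S) (PV := FV.PVB h)) (FG.xp x) ^ (m - 1) ≠ 0)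
    (hx0 : CW.H.map (GT.smap_fst (S := S) (PV := FV.PVB h)) (FG.xp x) ≠ 0) : |μ| < 6 := by
  have hV := FV.vfield_PVB h
  have hkn : 4 < n := by omega
  have hX : Clo (2 * n + 1) (ZZ S (FV.PVB h)) := FV.clo_ZZ h (by norm_num) (by omega)
  obtain ⟨M, g, hg⟩ := CM.exists_emb GT.cir_ZZ hX
  obtain ⟨z, TD, FD, LD, hD⟩ := GT.exists_dpk hV h hg hX
  have hQ := (hg.clo_Quo GT.cir_ZZ hX).sub
  obtain ⟨w, hw, hxe⟩ := exists_w hg hX hD hQ (j := 1) hx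
  have hsums := sum_of_closed (m := m) hq0 (x := x) (t := CW.sc hS (GT.idf_mM (G := G)))
    (fun j hj _ => CW.sc_real_odd hS _ (fun y _ => by ext a b; simp [mM]) hj)
    (fun i hi => by rw [← CW.cc_eq_el]; exact hq i hi)
  have hmapcc : ∀ j, CW.H.map hD.smap (CW.cc hF (GT.idf_mV hV) j) =
      el (CW.sc hQ (hD.idf_mV hV)) j := by
    intro j
    rw [CW.cc_eq_el]
    refine (CW.el_map (CW.H.map hD.smap).toRingHom _ j).trans ?_
    refine CW.el_congr fun i _ _ => ?_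
    exact CW.map_sc hQ hF hD.smap (GT.idf_mV hV) i
  refine lt_six_D (CW.H.map hg.smap_jj) (Gr := fun j => HD (CM.Quo (ZZ S (FV.PVB h)) g) (2 * j))
    hm hq0 hqc hxe ?_ rfl ?_ rfl ?_ ?_ ?_ ?_ ?_ hw ?_ (t := CW.sc hQ (hD.idf_T hV h)) ?_
    (s := CW.sc hQ (hD.idf_F hV h)) ?_ (v := CW.sc hQ (hD.idf_mV hV))
    (v0 := CW.sc hQ (hD.idf_V0 hV)) ?_ ?_ ?_ ?_ ?_ ?_ ?_ ?_ ?_ ?_
  · rw [hD.xi_eq hg hX hQ, map_smul, GQ.map_ec_L hg GT.cir_ZZ, smul_zero]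
  · rw [hD.map_z hg hX.sub, hD.map_z hg hX.sub, geod_H]
  · exact T.one_mem_HD
  · intro i j a b ha hb
    rw [mul_add]; exact T.HD_mul ha hb
  · exact T.sc_mem_HD hQ _ 1
  · exact T.HD_map _ (T.HD_map _ hx)
  · exact T.HD_map _ (T.HD_map _ hx)
  · intro j hj b hb h0
    refine GQ.div_Quo hg GT.cir_ZZ hX (FV.preconn_ZZ h (by norm_num)) hb ?_ (hE j hj)
    rw [hD.ec_L hg hX hQ, mul_smul_comm, h0, smul_zero]
  · exact fun j => T.sc_mem_HD hQ _ j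
  · exact fun j => sc_F' hV h hD.toDes hQ j
  · intro j
    rw [hD.sc_V hV hQ j, hD.sc_L hQ j]
  · exact fun j hj => sc_V0_odd hV h hD.toDes hQ hj
  · exact fun j hj => el_V0_eq_zero hV h hD.toDes hQ (by omega)
  · rw [← CW.cc_eq_el]; exact T.cc_mem_HD hQ _ 2
  · rw [← hmapcc, hc2, map_smul, map_add]
  · rw [← hmapcc, hc4, map_pow, map_sub]
  · intro i h1 h2
    have h3 := rel_q hV h hD.toDes hkn hS hF hQ (2 * i)
    rw [hsums i h1 h2, pow_mul, neg_one_sq, one_pow] at h3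
    have h4 : CW.H.map hD.smap (FG.xq (tau q i • x ^ i)) =
        tau q i • CW.H.map hD.smap (FG.xq x) ^ i := by
      rw [FG.xq, FG.xq, map_smul, map_smul, map_pow, map_pow]
    rw [h4] at h3
    rw [h3]; ring
  · intro i h1 h2
    have h3 := rel_p hV h hD.toDes hkn hS hF hQ (2 * i)
    rw [hsums i h1 h2, pow_mul, neg_one_sq, one_pow] at h3
    have h4 : CW.H.map hD.smap (FG.xp (tau q i • x ^ i)) =
        tau q i • CW.H.map hD.smap (FG.xp x) ^ i := by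
      rw [FG.xp, FG.xp, map_smul, map_smul, map_pow, map_pow]
    rw [h4] at h3
    rw [h3]; ring
  · have h1 := cc_T_eq_zero hV h hD.toDes hQ (j := 2 * m - 1) (by omega)
    have h2 := congrArg (CW.H.map hg.smap_jj) h1
    rw [map_zero, CW.cc_eq_el] at h2
    rw [← h2]
    exact (CW.el_map (CW.H.map hg.smap_jj).toRingHom _ _).symm
  · intro hμ he
    rw [hD.map_z hg hX.sub] at he ⊢
    refine hne _ (T.HD_map _ hw) ?_
    intro h0
    rw [h0, zero_pow (by norm_num)] at he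
    have h1 : (-(2 * (μ : ℂ))) ≠ 0 := by
      rw [neg_ne_zero]
      exact mul_ne_zero two_ne_zero (by exact_mod_cast hμ)
    exact hx0 ((smul_eq_zero.1 he.symm).resolve_left h1)

/-! ### odd classes on `S(V)` and on `V_2(V)` -/

section low
variable {p : Euc N} {ι ι' ι₁ : Type} [Fintype ι] [DecidableEq ι] [Fintype ι'] [DecidableEq ι']
  [Fintype ι₁] [DecidableEq ι₁]
  {W : Euc N × Euc N → (ι × Fin 2 → Fin N) → ℝ} {W' : Euc N → (ι' × Fin 2 → Fin N) → ℝ}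
  {x : Euc N → Ext (Euc N)} {h : GT.Bla G k}
  {r : ℕ} {ε : ((Euc N × Euc N) × Euc N) × Euc N → Ext (((Euc N × Euc N) × Euc N) × Euc N)}

/-- `H^j(US) = 0` for all odd `j < n + k - 1` -/
theorem exactIn_UV' (M : T.XM h m W p x) (hι' : 2 * Fintype.card ι' = n) (hO : OR S G.P W')
    (he : ¬ Coh S (T.eR G.P W') 0) {j : ℕ} (hj : Odd j) (hjn : j + 1 < n + k) :
    ExactIn (UV h) j := by
  rcases Nat.lt_or_ge (j + 1) n with h1 | h1
  · exact GQ.exactIn_UV h M.hk M.hkn M.hke M.hne M.hp M.hι M.hW hj h1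
  · exact XE.exactIn_Sph_F M hι' hO he h1 hjn

/-- `H^j(V_2(V)) = 0` for all odd `j < n + k - 1` -/
theorem exactIn_ZZ' (M : T.XM h m W p x) (hι' : 2 * Fintype.card ι' = n) (hO : OR S G.P W')
    (he : ¬ Coh S (T.eR G.P W') 0) (hr : Even r) (hL : LH (UV h) (Pm (Q1 h) v1) r ε) {j : ℕ}
    (hj : Odd j) (hjn : j + 1 < n + k) : ExactIn (ZZ S (FV.PVB h)) j := by
  refine ExactIn.transport (Y := Z1 h) (GQ.smap_toZ h) (GQ.smap_ofZ h)
    (fun ζ _ => GQ.ofZ_toZ ζ) ?_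
  intro b hb hc hd
  have key : ∀ {i : ℕ} {a : (Euc N × Euc N) × Euc N → Ext ((Euc N × Euc N) × Euc N)}, Odd i →
      i + 1 < n + k → Sm (UV h) a → Cl (UV h) a → Hom i a →
        Coh (Z1 h) (F.pull Prod.fst a) 0 := by
    intro i a hi hin sa ca da
    have h1 := (exactIn_UV' M hι' hO he hi hin a sa ca da).pull
      (T.smap_fstS (X := UV h) (P := Pm (Q1 h) v1))
    rwa [T.pull_zero'] at h1
  rcases Nat.lt_or_ge j r with h1 | h1
  · obtain ⟨a, sa, ca, da, ea⟩ := hL.low h1 hb hc hd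
    exact ea.trans (key hj hjn sa ca da)
  · obtain ⟨i, rfl⟩ : ∃ i, j = i + r := ⟨j - r, by omega⟩
    obtain ⟨a, c, sa, ca, da, sc, cc, dc, ea⟩ := hL.split hb hc hd
    have hi : Odd i := by
      rcases hj with ⟨u, hu⟩
      rcases hr with ⟨t, ht⟩
      exact ⟨u - t, by omega⟩
    have h2 := (key hj hjn sa ca da).add ((key hi (by omega) sc cc dc).mul_left hL.sm hL.cl)
    rw [mul_zero, add_zero] at h2
    exact ea.trans h2

end low

/-! ### the final theorem -/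

section final
variable {p : Euc N} {ι ι' : Type} [Fintype ι] [DecidableEq ι] [Fintype ι'] [DecidableEq ι']
  {W : Euc N × Euc N → (ι × Fin 2 → Fin N) → ℝ} {W' : Euc N → (ι' × Fin 2 → Fin N) → ℝ}
  {x : Euc N → Ext (Euc N)} {h : GT.Bla G 4}
  {ε : ((Euc N × Euc N) × Euc N) × Euc N → Ext (((Euc N × Euc N) × Euc N) × Euc N)}

/-- `x` on `V_2(V)`, class version -/
theorem map_xp_rcl (hx : EC S x) : CW.H.map (GT.smap_fst (S := S) (PV := FV.PVB h))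
    (FG.xp (rcl hx)) = rcl (hx.pull (GQ.smap_pz h)) := by
  rw [FG.xp, ← T.rcl_pull, ← T.rcl_pull]
  refine T.rcl_congr _ _ (Coh.of_eqv ?_)
  exact T.eqv_pull_pull (GT.smap_fst (S := S) (PV := FV.PVB h)) FG.smap_fst (GQ.smap_pz h)
    (fun _ _ => rfl) x

/-- the class `e` of degree `2`: `e x^(m-1) ≠ 0` -/
theorem e_mul_ne (M : T.XM h m W p x) (hx : EC S x) (hL : LH (UV h) (Pm (Q1 h) v1) 2 ε)
    {e : CW.H (ZZ S (FV.PVB h))} (he : e ∈ HD (ZZ S (FV.PVB h)) 2) (he0 : e ≠ 0) {c₀ : ℂ}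
    (hc₀ : c₀ ≠ 0) : e * CW.H.map (GT.smap_fst (S := S) (PV := FV.PVB h))
      (FG.xp (c₀ • rcl hx)) ^ (m - 1) ≠ 0 := by
  have hn := M.hn
  have hm := M.hm
  have hxm := M.xm_ne
  have s1 : Sm (ZZ S (FV.PVB h)) (eZ ε) := hL.sm.pull (GQ.smap_toZ h)
  have c1 : Cl (ZZ S (FV.PVB h)) (eZ ε) := hL.cl.pull (GQ.smap_toZ h) hL.sm
  have d1 : Hom 2 (eZ ε) := Hom.pull hL.deg
  have hE : EC (ZZ S (FV.PVB h)) (eZ ε) := EC.of_hom (j := 1) s1 c1 d1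
  have hxZ : EC (ZZ S (FV.PVB h)) (xZ x) := hx.pull (GQ.smap_pz h)
  obtain ⟨a, b, ha, hb, da, db, rfl⟩ := T.exists_rcl_HD (j := 1) he
  have key : ∀ {a : (Euc N × Euc N) × (Fin 2 → Euc N) → Ext ((Euc N × Euc N) × (Fin 2 → Euc N))}
      (ha : EC (ZZ S (FV.PVB h)) a), Hom 2 a → ∃ t : ℝ, rcl ha = (t : ℂ) • rcl hE := by
    intro a ha da
    obtain ⟨s, t, hs, -, e1⟩ := GQ.ZZ_even h (by norm_num) M.hkn M.hke M.hne M.hp M.hι M.hW
      (q := 2) (by norm_num) hL M.sx M.cx M.dx M.ex (j := 2) (by decide) (by omega) ha.sm ha.cl da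
    refine ⟨t, ?_⟩
    rw [hs (by norm_num), zero_smul, zero_add, show (2 - 2) / 4 = 0 from rfl, pow_zero, mul_one]
      at e1
    rw [T.rcl_congr ha (hE.smul t) e1, T.rcl_smul]
  obtain ⟨t, ht⟩ := key ha da
  obtain ⟨u, hu⟩ := key hb db
  rw [ht, hu, smul_smul, ← add_smul] at he0 ⊢
  have hz : (t : ℂ) + Complex.I * u ≠ 0 := fun h0 => he0 (by rw [h0, zero_smul])
  have hne := (GQ.ZZ_ne h (by norm_num) M.hne hL M.sx M.cx M.dx hxm (i := m - 1) (by omega)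
    (by omega)).2
  rw [FG.xp, map_smul, map_smul, ← FG.xp, map_xp_rcl, smul_pow, ← T.rcl_pow hxZ,
    smul_mul_smul_comm, ← T.rcl_mul hE (hxZ.pow (m - 1))]
  refine fun h0 => hne ((T.rcl_eq_zero_iff (hE.mul (hxZ.pow (m - 1)))).1
    ((smul_eq_zero.1 h0).resolve_left (mul_ne_zero hz (pow_ne_zero _ hc₀))))

theorem x_ne_zero (M : T.XM h m W p x) (hx : EC S x) (hL : LH (UV h) (Pm (Q1 h) v1) 2 ε)
    {c₀ : ℂ} (hc₀ : c₀ ≠ 0) : CW.H.map (GT.smap_fst (S := S) (PV := FV.PVB h))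
      (FG.xp (c₀ • rcl hx)) ≠ 0 := by
  have hn := M.hn
  have hm := M.hm
  have hne := (GQ.ZZ_ne h (by norm_num) M.hne hL M.sx M.cx M.dx M.xm_ne (i := 1) (by omega)
    (by omega)).1
  rw [pow_one] at hne
  have hxZ : EC (ZZ S (FV.PVB h)) (xZ x) := hx.pull (GQ.smap_pz h)
  rw [FG.xp, map_smul, map_smul, ← FG.xp, map_xp_rcl]
  exact fun h0 => hne ((T.rcl_eq_zero_iff hxZ).1 ((smul_eq_zero.1 h0).resolve_left hc₀))

/-- **(V4)** -/
theorem lt_six_XM (M : T.XM h m W p x) (hι' : 2 * Fintype.card ι' = n) (hO : OR S G.P W')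
    (he : ¬ Coh S (T.eR G.P W') 0) (hS : Sub n S) (hF : Sub dF (FF S)) (hx : EC S x) {μ : ℝ}
    {q : ℕ → ℂ} {c₀ : ℂ} (hc₀ : c₀ ≠ 0) (hq0 : q 0 = 1)
    (hqc : ∀ i ≤ m, PowerSeries.coeff i (PowerSeries.mk q * (1 + PowerSeries.C (2 * (μ : ℂ)) *
      PowerSeries.X)) = PowerSeries.coeff i ((1 + PowerSeries.C (μ : ℂ) * PowerSeries.X +
        PowerSeries.X ^ 2) ^ (m + 1)))
    (hc2 : CW.cc hF (GT.idf_mV (FV.vfield_PVB h)) 2 =
      (μ : ℂ) • (FG.xp (c₀ • rcl hx) + FG.xq (c₀ • rcl hx)))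
    (hc4 : CW.cc hF (GT.idf_mV (FV.vfield_PVB h)) 4 =
      (FG.xp (c₀ • rcl hx) - FG.xq (c₀ • rcl hx)) ^ 2)
    (hq : ∀ i ≤ m, CW.cc hS (GT.idf_mM (G := G)) (2 * i) = q i • (c₀ • rcl hx) ^ i) : |μ| < 6 := by
  have hι2 : Fintype.card ι = 2 := by have := M.hι; omega
  have hn := M.hn
  have hm := M.hm
  -- Leray-Hirsch
  have eq : (Unit × Fin 2) ⊕ (Fin 1 × Fin 2) ≃ (ι × Fin 2) := Fintype.equivOfCardEq (by
    simp [hι2])
  have hL := GQ.lh_UV eq h (by omega) M.hkn ⟨p, M.hp⟩ M.hι M.hW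
  have hc1 : 2 * Fintype.card (Fin 1) = 2 := by simp
  rw [hc1] at hL
  refine lt_six_H h hm hn hS hF hq0 hqc
    (Submodule.smul_mem _ _ (T.rcl_mem_HD hx M.dx)) hc2 hc4 hq (fun j hj => ?_)
    (fun e h1 h2 => e_mul_ne M hx hL h1 h2 hc₀) (x_ne_zero M hx hL hc₀)
  exact exactIn_ZZ' M hι' hO he (by decide) hL ⟨j, rfl⟩ (by omega)

/-- **(V4), final form**: the coefficient of `X3` and `|μ| < 6`; inputs `e(TM)` not exact and (X1d)
`h_m(x_1, x_2) = 0`. -/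
theorem V4 (M : T.XM h m W p x) (hι' : 2 * Fintype.card ι' = n) (hO : OR S G.P W')
    (he : ¬ Coh S (T.eR G.P W') 0) (hS : Sub n S) (hF : Sub dF (FF S)) (hx : EC S x)
    (hrel : Coh (FF S)
      (∑ i ∈ Finset.range (m + 1), F.pull Prod.fst x ^ i * F.pull Prod.snd x ^ (m - i)) 0) :
    ∃ μ : ℝ, |μ| < 6 ∧
      CW.cc hF (GT.idf_mV (FV.vfield_PVB h)) 2 =
        (μ : ℂ) • (FG.xp (((nE ι : ℝ) : ℂ)⁻¹ • rcl hx) + FG.xq (((nE ι : ℝ) : ℂ)⁻¹ • rcl hx)) ∧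
      CW.cs hF (GT.idf_mV (FV.vfield_PVB h)) = 1 +
        PowerSeries.C ((μ : ℂ) •
          (FG.xp (((nE ι : ℝ) : ℂ)⁻¹ • rcl hx) + FG.xq (((nE ι : ℝ) : ℂ)⁻¹ • rcl hx))) *
            PowerSeries.X ^ 2 +
        PowerSeries.C ((FG.xp (((nE ι : ℝ) : ℂ)⁻¹ • rcl hx) -
          FG.xq (((nE ι : ℝ) : ℂ)⁻¹ • rcl hx)) ^ 2) * PowerSeries.X ^ 4 := by
  obtain ⟨oS, hoS, -, hdS⟩ := GP.exists_ori (G := G) h.bl h.ty (by norm_num)
  obtain ⟨μ, -, h2, h3, q, hq0, hq, hqc⟩ := FG.closed_XM M hS hF hx hoS hdS (M.J_ne hoS) hrel M.dim1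
  have e4 : 4 / 2 = 2 := rfl
  rw [e4] at h2 h3
  refine ⟨μ, ?_, h2, h3⟩
  have hc0 : ((nE ι : ℝ) : ℂ)⁻¹ ≠ 0 := inv_ne_zero (by exact_mod_cast (nE_pos ι).ne')
  refine lt_six_XM M hι' hO he hS hF hx hc0 hq0 hqc h2 ?_ fun i hi => ?_
  · rw [← CW.coeff_cs, h3]
    rw [_root_.map_add, _root_.map_add, PowerSeries.coeff_one, PowerSeries.coeff_C_mul,
      PowerSeries.coeff_C_mul, PowerSeries.coeff_X_pow, PowerSeries.coeff_X_pow,
      if_neg (by norm_num), if_neg (by norm_num), if_pos rfl, mul_zero, mul_one, zero_add, zero_add]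
  · have h4 := hq (2 * i)
    rw [e4, if_pos ⟨i, rfl⟩, show 2 * i / 2 = i by omega] at h4
    exact h4

end final

end Crest.Agent.R208.QV
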