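import Crest.Agent.R208.GQ5f
import Crest.Agent.R208.GQ7a
import Crest.Agent.R208.TX9
import Crest.Agent.R208.QV4

/-! Row 208, block GQ (helper989), part GQ7b: `k = 8`, `n = 16`: `μ² = 36`. -/

set_option autoImplicit false
set_option linter.unusedSectionVars false
set_option linter.unusedVariables false

open MeasureTheory Set Filter Topology Module
open scoped ContDiff RealInnerProductSpace Matrix
open Crest.GeometryTopology.Submanifold
open Crest.Agent.R241.DDefs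
open Crest.Agent.R241.D2
open Crest.Agent.R208.F Crest.Agent.R208.FI Crest.Agent.R208.CW Crest.Agent.R208.T
open Crest.Agent.R208.L (US)

noncomputable section

namespace Crest.Agent.R208.GQ

variable {n N : ℕ} {κ : ℝ} {S : Set (Euc N)} {G : Geo n N κ S} {p : Euc N}
  {ι : Type} [Fintype ι] [DecidableEq ι] {W : Euc N × Euc N → (ι × Fin 2 → Fin N) → ℝ}
  {x : Euc N → Ext (Euc N)} {h : GT.Bla G 8} {dF : ℕ}

set_option maxHeartbeats 1600000 in
/-- **`μ² = 36`** for `(k, n) = (8, 16)` -/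
theorem mu_sq (M : T.XM h 2 W p x) (hF : Sub dF (GT.FF S)) (hx : EC S x) (μ : ℝ)
    (hμV : cs hF (GT.idf_mV (FV.vfield_PVB h)) = 1 +
        PowerSeries.C ((μ : ℂ) • (FG.xp (((VX.nE ι : ℝ) : ℂ)⁻¹ • rcl hx) +
          FG.xq (((VX.nE ι : ℝ) : ℂ)⁻¹ • rcl hx))) * PowerSeries.X ^ (8 / 2) +
        PowerSeries.C ((FG.xp (((VX.nE ι : ℝ) : ℂ)⁻¹ • rcl hx) -
          FG.xq (((VX.nE ι : ℝ) : ℂ)⁻¹ • rcl hx)) ^ 2) * PowerSeries.X ^ 8) : μ ^ 2 = 36 := by
  classical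
  have hn : n = 16 := by rw [M.hn]
  have hkn := M.hkn
  have hV := FV.vfield_PVB h
  have hS : Sub n S := (GP.clo_S h.bl).sub
  obtain ⟨oS, hoS, -, hdS⟩ := GP.exists_ori (G := G) h.bl h.ty M.hk
  obtain ⟨ν, -, -, hcsV, q, hq0, hq, hclosed⟩ :=
    FG.closed_XM M hS hF hx hoS hdS (M.J_ne hoS) M.hm_zero M.dim1
  rw [show (8 / 2 : ℕ) = 4 by norm_num] at hμV hcsV hq
  set c₀ : ℂ := (((VX.nE ι : ℝ) : ℂ))⁻¹ with hc₀
  have hc₀0 : c₀ ≠ 0 := inv_ne_zero (by exact_mod_cast (VX.nE_pos ι).ne')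
  set X₀ : CW.H S := c₀ • rcl hx with hX₀
  -- the quotient
  have hZ : Clo (36 + 1) (GT.ZZ S (FV.PVB h)) := FV.clo_ZZ h M.hk (by omega)
  have hcir := GT.cir_ZZ (S := S) (PV := FV.PVB h)
  obtain ⟨mm, g, hg⟩ := CM.exists_emb hcir hZ
  obtain ⟨z, TD, FD, LD, hD⟩ := GT.exists_dpk hV h hg hZ
  have hQ := (hg.clo_Quo hcir hZ).sub
  have hZc : IsPreconnected (GT.ZZ S (FV.PVB h)) := FV.preconn_ZZ h (by norm_num)
  have hQc := preconn_Quo hg hZc
  -- the splitting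
  have hcι : 2 ≤ Fintype.card ι := by have := M.hι; omega
  have hne : Nonempty ι := Fintype.card_pos_iff.1 (by omega)
  obtain ⟨i0⟩ := hne
  have : Nonempty {i : ι // i ≠ i0} := GO.nonempty_ne i0 hcι
  obtain ⟨P0, W0, hw0, c, hc, hGS, -, hφe⟩ := GS.exists_e' (GO.eq0 i0) M.hW hg hZ hD hQ
  set eq0 := GO.eq0 i0 with heq0
  have hcι' := two_card eq0 M
  set φ := H.map hg.smap_jj with hφ
  set ξ := CW.sc hQ hD.idf_L 1 with hξ
  set x1 := H.map hD.smap (FG.xp X₀) with hx1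
  set x2 := H.map hD.smap (FG.xq X₀) with hx2
  set e : CW.H (CM.Quo (GT.ZZ S (FV.PVB h)) g) := (c₀ * c) • ec hw0.of with he
  have hxe : x1 - x2 = ξ * e := by
    rw [hx1, hx2, ← map_sub, hX₀, FG.xp, FG.xq, map_smul, map_smul, ← smul_sub, map_smul]
    have h1 := xp_sub_xq M hx
    rw [FG.xp, FG.xq] at h1
    rw [h1, hGS, smul_smul, he, mul_smul_comm]
  have hφξ : φ ξ = 0 := by
    rw [hξ, hD.xi_eq hg hZ hQ, map_smul, hφ, map_ec_L hg hcir, smul_zero]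
  have hφ2 : φ x2 = φ x1 := by
    have h1 := congrArg φ hxe
    rw [map_sub, map_mul, hφξ, zero_mul, sub_eq_zero] at h1
    exact h1.symm
  have hφ1 : φ x1 = c₀ • H.map (smap_pz h) (rcl hx) := by
    rw [hφ, hx1, hD.map_z hg hZ.sub, hX₀, FG.xp, map_smul, map_smul, H.map_map]
    rfl
  -- nonvanishing on `Z`
  obtain ⟨hn1, hn2⟩ := xw_ne eq0 M hx (i := 1) (by norm_num) (by omega)
  rw [pow_one] at hn1 hn2
  have hw : φ e = (c₀ * c) • ec (GS.or_0Z eq0 M.hW).of := by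
    rw [he, map_smul, hφe]
  have hxz : φ x1 ≠ 0 := by
    intro h0
    rw [hφ1] at h0
    exact hn1 ((smul_eq_zero.1 h0).resolve_left hc₀0)
  have hxwz : φ x1 * φ e ≠ 0 := by
    intro h0
    rw [hφ1, hw, smul_mul_smul_comm] at h0
    exact hn2 ((smul_eq_zero.1 h0).resolve_left (mul_ne_zero hc₀0 (mul_ne_zero hc₀0 hc)))
  -- uniqueness of `μ`
  set f : CW.H (GT.FF S) →ₐ[ℂ] CW.H (GT.ZZ S (FV.PVB h)) := φ.comp (H.map hD.smap) with hf
  have hf1 : f (FG.xp X₀) = φ x1 := rfl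
  have hf2 : f (FG.xq X₀) = φ x1 := hφ2
  have hμν : μ = ν := by
    have h1 := congrArg (PowerSeries.coeff 4) (hμV.symm.trans hcsV)
    rw [map_add, map_add, map_add, map_add, PowerSeries.coeff_C_mul, PowerSeries.coeff_C_mul,
      PowerSeries.coeff_C_mul, PowerSeries.coeff_X_pow, PowerSeries.coeff_X_pow,
      if_pos rfl, if_neg (by norm_num), mul_zero, mul_one, mul_one, add_zero, add_zero,
      add_right_inj] at h1
    have h2 := congrArg f h1
    rw [map_smul, map_smul, map_add, hf1, hf2, ← two_smul ℂ, smul_smul, smul_smul, ← sub_eq_zero,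
      ← sub_smul] at h2
    have h3 := (smul_eq_zero.1 h2).resolve_right hxz
    have h4 : (μ : ℂ) = ν := by linear_combination h3 / 2
    exact_mod_cast h4
  subst hμν
  -- degrees
  have hX₀d : X₀ ∈ HD S (2 * 4) := (HD S (2 * 4)).smul_mem _ (rcl_mem_HD hx M.dx)
  have hmul : ∀ i j : ℕ, ∀ a b : CW.H (CM.Quo (GT.ZZ S (FV.PVB h)) g),
      a ∈ HD (CM.Quo (GT.ZZ S (FV.PVB h)) g) (2 * i) →
      b ∈ HD (CM.Quo (GT.ZZ S (FV.PVB h)) g) (2 * j) →
      a * b ∈ HD (CM.Quo (GT.ZZ S (FV.PVB h)) g) (2 * (i + j)) := by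
    intro i j a b ha hb
    rw [mul_add]; exact HD_mul ha hb
  have hed : e ∈ HD (CM.Quo (GT.ZZ S (FV.PVB h)) g) (2 * (4 - 1)) := by
    have h1 := ec_mem_HD hw0.of
    have h2 : Fintype.card {i : ι // i ≠ i0} = 4 - 1 := by omega
    rw [h2] at h1
    exact Submodule.smul_mem _ _ h1
  have hι' : 2 * Fintype.card (Fin 8) = n := by rw [Fintype.card_fin]; omega
  obtain ⟨WS, hOS⟩ := GP.exists_OR_S (G := G) h.bl h.ty M.hk hι'
  have hdiv : ∀ j < 8, ∀ b ∈ HD (CM.Quo (GT.ZZ S (FV.PVB h)) g) (2 * j),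
      b * ξ = 0 → b = 0 := by
    intro j hj b hb h0
    refine div_Quo hg hcir hZ hZc hb ?_ (QV.exactIn_ZZ' M hι' hOS (M.eS_ne hι' hOS)
      (even_two_mul _) (lh_XM eq0 M) ⟨j, rfl⟩ (by omega))
    rw [hD.ec_L hg hZ hQ, mul_smul_comm, ← hξ, h0, smul_zero]
  -- power sums
  have htm := tm_sums (l := 4) (m := 2) (by norm_num) (s := CW.sc hS (GT.idf_mM (G := G))) (x := X₀)
    (p := q) (μ : ℂ) (fun j _ => by rw [← CW.cc_eq_el]; exact hq j) hclosed
  have h2e : ∀ (i : ℕ) (a : CW.H (CM.Quo (GT.ZZ S (FV.PVB h)) g)),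
      (1 + (-1) ^ (2 * i)) * a = 2 * a := by
    intro i a
    rw [(even_two_mul i).neg_one_pow]; norm_num
  have hT : ∀ i, 1 ≤ i → 2 * i ≤ 8 → 2 * CW.sc hQ (hD.idf_T hV h) (2 * i) =
      (if 4 ∣ 2 * i then (-((4 : ℕ) : ℂ) * PowerSeries.coeff (2 * i / 4) (QQ 2 μ)) • x2 ^ (2 * i / 4)
        else 0) - H.map hD.smap (CW.sc hF (GT.idf_mV hV) (2 * i)) := by
    intro i hi hir
    rw [← h2e i, rel_T hV h hkn hD.toDes hQ hS hF, htm i hi (by omega)]
    congr 1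
    split_ifs with hd
    · rw [hx2, FG.xq, map_smul, map_smul, map_pow, map_pow]
      rfl
    · rw [FG.xq, map_zero, map_zero]
  have hFs : ∀ i, 1 ≤ i → 2 * i ≤ 8 → 2 * CW.sc hQ (hD.idf_F hV h) (2 * i) =
      (if 4 ∣ 2 * i then (-((4 : ℕ) : ℂ) * PowerSeries.coeff (2 * i / 4) (QQ 2 μ)) • x1 ^ (2 * i / 4)
        else 0) - H.map hD.smap (CW.sc hF (GT.idf_mV hV) (2 * i)) := by
    intro i hi hir
    rw [← h2e i, rel_F hV h hkn hD.toDes hQ hS hF, htm i hi (by omega)]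
    congr 1
    split_ifs with hd
    · rw [hx1, FG.xp, map_smul, map_smul, map_pow, map_pow]
      rfl
    · rw [FG.xp, map_zero, map_zero]
  -- the power sums of `V` on `Z`
  have hcser : cser (fun j => φ (H.map hD.smap (CW.sc hF (GT.idf_mV hV) j))) =
      1 + PowerSeries.C ((2 * (μ : ℂ)) • φ x1) * PowerSeries.X ^ 4 := by
    have h1 : cser (fun j => φ (H.map hD.smap (CW.sc hF (GT.idf_mV hV) j))) =
        PowerSeries.map f.toRingHom (cs hF (GT.idf_mV hV)) := by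
      rw [cs, cser_map]
      rfl
    rw [h1, hcsV, map_series]
    have h3 : f.toRingHom ((μ : ℂ) • (FG.xp X₀ + FG.xq X₀)) = (2 * (μ : ℂ)) • φ x1 := by
      change f ((μ : ℂ) • (FG.xp X₀ + FG.xq X₀)) = _
      rw [map_smul, map_add, hf1, hf2]
      module
    have h4 : f.toRingHom ((FG.xp X₀ - FG.xq X₀) ^ 2) = 0 := by
      change f ((FG.xp X₀ - FG.xq X₀) ^ 2) = _
      rw [map_pow, map_sub, hf1, hf2, sub_self, sq, mul_zero]
    rw [h3, h4, map_zero, zero_mul, add_zero]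
  have hv := v_sums (by norm_num : 1 ≤ 4) (μ : ℂ) hcser
  -- the rank
  obtain ⟨W₁, hW₁⟩ := XE.exists_OR_F1 (ι₁ := Fin 4) h M.hk M.hne M.hι
    (by rw [Fintype.card_fin]; omega) M.hW
  have hc7 : CW.el (fun j => CW.sc hQ (hD.idf_T hV h) j) 7 = 0 := by
    have h1 : cc hQ (hD.idf_T hV h) 7 = 0 := cc_eq_zero hQ _ fun y hy => by
      rw [rank_T hV h hD.toDes hW₁ hy, Fintype.card_fin]; norm_num
    rw [CW.cc_eq_el] at h1
    exact h1
  have hres := mu_sq_alg φ (Gr := fun j => HD (CM.Quo (GT.ZZ S (FV.PVB h)) g) (2 * j))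
    hxe hφξ rfl hφ2 rfl one_mem_HD hmul (sc_mem_HD hQ hD.idf_L 1)
    (HD_map hD.smap (HD_map FG.smap_fst hX₀d)) (HD_map hD.smap (HD_map FG.smap_snd hX₀d)) hed hdiv
    (t := fun j => CW.sc hQ (hD.idf_T hV h) j) (s := fun j => CW.sc hQ (hD.idf_F hV h) j)
    (v := fun j => H.map hD.smap (CW.sc hF (GT.idf_mV hV) j))
    (fun j => sc_mem_HD hQ _ j) (fun j => by
      rw [hD.sc_F hV h hQ j]
      exact Finset.sum_congr rfl fun i _ => by rw [hD.sc_L hQ (j - i)]) μ hT hFs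
    (fun i hi => hv i hi) hc7 hxwz
  exact_mod_cast hres

end Crest.Agent.R208.GQ
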