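import Crest.Agent.R208.GS1
import Crest.Agent.R208.GR1
import Crest.Agent.R208.CM3e

/-! Row 208, block GS (helper742), part GS2: the plane field of an orthonormal pair and its
complement descend to the quotient `D = Fr X P 2 / S¹`; the Euler class of `P` splits on `D`. -/

set_option autoImplicit false
set_option linter.unusedSectionVars false

open Module Set Matrix
open scoped ContDiff RealInnerProductSpace
open Crest.Agent.R208.F Crest.Agent.R208.FI Crest.Agent.R208.CW Crest.Agent.R208.T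

noncomputable section

namespace Crest.Agent.R208.GS

open Crest.Agent.R208.GT (rt rt_fst rt_zero' rt_one' cir_Fr)

section gen
variable {E : Type} [NormedAddCommGroup E] [NormedSpace ℝ E] [FiniteDimensional ℝ E]
  {ν : Type} [Fintype ν] [DecidableEq ν] {X : Set E} {ι ι' : Type*} [Fintype ι] [DecidableEq ι]
  [Fintype ι'] [DecidableEq ι']
  {P : E → EuclideanSpace ℝ ν →L[ℝ] EuclideanSpace ℝ ν} {W : E → (ι × Fin 2 → ν) → ℝ}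

/-- `v₀ v₀ᵀ + v₁ v₁ᵀ` -/
def PlZ (ζ : E × (Fin 2 → EuclideanSpace ℝ ν)) : EuclideanSpace ℝ ν →L[ℝ] EuclideanSpace ℝ ν :=
  (innerSL ℝ (ζ.2 0)).smulRight (ζ.2 0) + (innerSL ℝ (ζ.2 1)).smulRight (ζ.2 1)

theorem PlZ_apply (ζ : E × (Fin 2 → EuclideanSpace ℝ ν)) (u : EuclideanSpace ℝ ν) :
    PlZ ζ u = ⟪ζ.2 0, u⟫ • ζ.2 0 + ⟪ζ.2 1, u⟫ • ζ.2 1 := rfl

/-- the orientation tensor of the plane `(v₀, v₁)` -/
def WlZ (ζ : E × (Fin 2 → EuclideanSpace ℝ ν)) (I : Unit × Fin 2 → ν) : ℝ :=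
  ((GO.col2 (ζ.2 0) (ζ.2 1)).submatrix I id).det

/-- the complement of the plane -/
def P0Z (P : E → EuclideanSpace ℝ ν →L[ℝ] EuclideanSpace ℝ ν)
    (ζ : E × (Fin 2 → EuclideanSpace ℝ ν)) : EuclideanSpace ℝ ν →L[ℝ] EuclideanSpace ℝ ν :=
  GQ.Pm (GQ.Pm (fun ζ : E × (Fin 2 → EuclideanSpace ℝ ν) => P ζ.1) (fun ζ => ζ.2 0))
    (fun ζ => ζ.2 1) ζ

/-- its orientation tensor -/
def W0Z (eq : (Unit × Fin 2) ⊕ (ι' × Fin 2) ≃ (ι × Fin 2)) (W : E → (ι × Fin 2 → ν) → ℝ)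
    (ζ : E × (Fin 2 → EuclideanSpace ℝ ν)) : (ι' × Fin 2 → ν) → ℝ :=
  GO.ctr eq (GO.col2 (ζ.2 0) (ζ.2 1)) (W ζ.1)

theorem P0Z_apply (ζ : E × (Fin 2 → EuclideanSpace ℝ ν)) (u : EuclideanSpace ℝ ν) :
    P0Z P ζ u = P ζ.1 u - PlZ ζ u := by
  rw [P0Z, GQ.Pm_apply, GQ.Pm_apply, PlZ_apply]
  abel

theorem smooth_snd (ζ : E × (Fin 2 → EuclideanSpace ℝ ν)) (i : Fin 2) :
    ContDiffAt ℝ ∞ (fun y : E × (Fin 2 → EuclideanSpace ℝ ν) => y.2 i) ζ :=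
  (contDiff_pi.1 contDiff_snd i).contDiffAt

theorem smooth_PlZ (ζ : E × (Fin 2 → EuclideanSpace ℝ ν)) :
    ContDiffAt ℝ ∞ (PlZ (E := E) (ν := ν)) ζ := by
  have hb : ContDiff ℝ ∞ fun a : EuclideanSpace ℝ ν => (innerSL ℝ a).smulRight a :=
    (ContinuousLinearMap.smulRightL ℝ (EuclideanSpace ℝ ν)
      (EuclideanSpace ℝ ν)).isBoundedBilinearMap.contDiff.comp
      ((innerSL ℝ).contDiff.prodMk contDiff_id)
  exact (hb.contDiffAt.comp ζ (smooth_snd ζ 0)).add (hb.contDiffAt.comp ζ (smooth_snd ζ 1))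

theorem smooth_col2 (ζ : E × (Fin 2 → EuclideanSpace ℝ ν)) (a : ν) (p : Unit × Fin 2) :
    ContDiffAt ℝ ∞ (fun y : E × (Fin 2 → EuclideanSpace ℝ ν) => GO.col2 (y.2 0) (y.2 1) a p) ζ := by
  unfold GO.col2
  simp only [Matrix.of_apply]
  split_ifs
  · exact (EuclideanSpace.proj a : EuclideanSpace ℝ ν →L[ℝ] ℝ).contDiff.contDiffAt.comp ζ
      (smooth_snd ζ 0)
  · exact (EuclideanSpace.proj a : EuclideanSpace ℝ ν →L[ℝ] ℝ).contDiff.contDiffAt.comp ζ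
      (smooth_snd ζ 1)

theorem smooth_WlZ (ζ : E × (Fin 2 → EuclideanSpace ℝ ν)) :
    ContDiffAt ℝ ∞ (WlZ (E := E) (ν := ν)) ζ := by
  refine contDiffAt_pi.2 fun I => ?_
  unfold WlZ
  simp only [det_apply', submatrix_apply, id]
  exact ContDiffAt.sum fun σ _ => contDiffAt_const.mul (contDiffAt_prod fun p _ =>
    smooth_col2 ζ _ _)

theorem col2_col (a b : EuclideanSpace ℝ ν) (p : Unit × Fin 2) :
    (WithLp.toLp 2 fun i => GO.col2 a b i p : EuclideanSpace ℝ ν) = if p.2 = 0 then a else b := by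
  obtain ⟨⟨⟩, p⟩ := p
  by_cases hp : p = 0
  · ext i; simp [GO.col2, hp]
  · ext i; simp [GO.col2, hp]

/-- the plane field on `Z` -/
theorem or_lZ : OR (FI.Fr X P 2) (PlZ (E := E) (ν := ν)) WlZ where
  sP ζ _ := smooth_PlZ ζ
  sW ζ _ I := contDiffAt_pi.1 (smooth_WlZ ζ) I
  fr ζ hζ := by
    refine ⟨GO.col2 (ζ.2 0) (ζ.2 1), GO.col2_orth (hζ.2.2.1 0) (hζ.2.2.1 1)
      (hζ.2.2.2 (by decide)), fun u i => ?_, fun I => rfl⟩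
    have e2 : ∀ j, (GO.col2 (ζ.2 0) (ζ.2 1) * (GO.col2 (ζ.2 0) (ζ.2 1))ᵀ) i j =
        ζ.2 0 i * ζ.2 0 j + ζ.2 1 i * ζ.2 1 j := by
      intro j
      rw [Matrix.mul_apply, Fintype.sum_prod_type, Fintype.sum_unique, Fin.sum_univ_two]
      simp [GO.col2]
    rw [PlZ_apply]
    simp only [e2, PiLp.add_apply, PiLp.smul_apply, smul_eq_mul, PiLp.inner_apply,
      RCLike.inner_apply, conj_trivial, Finset.sum_mul, add_mul, Finset.sum_add_distrib]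
    congr 1 <;> exact Finset.sum_congr rfl fun j _ => by ring

theorem smap_fst_Fr : SMap (FI.Fr X P 2) X
    (fun ζ : E × (Fin 2 → EuclideanSpace ℝ ν) => ζ.1) :=
  ⟨fun _ _ => contDiffAt_fst, fun _ h => h.1⟩

/-- the complement on `Z` -/
theorem or_0Z [Nonempty ι'] (eq : (Unit × Fin 2) ⊕ (ι' × Fin 2) ≃ (ι × Fin 2)) (h : OR X P W) :
    OR (FI.Fr X P 2) (P0Z P) (W0Z eq W) := by
  have h1 : OR (FI.Fr X P 2) (fun ζ : E × (Fin 2 → EuclideanSpace ℝ ν) => P ζ.1)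
      (fun ζ => W ζ.1) :=
    ⟨fun ζ hζ => (h.sP _ hζ.1).comp ζ contDiffAt_fst,
      fun ζ hζ I => ContDiffAt.comp (g := fun x => W x I) ζ (h.sW _ hζ.1 I) contDiffAt_fst,
      fun ζ hζ => h.fr _ hζ.1⟩
  exact GO.OR_pair eq h1 (fun ζ _ => smooth_snd ζ 0) (fun ζ _ => smooth_snd ζ 1)
    (fun ζ hζ => hζ.2.2.1 0) (fun ζ hζ => hζ.2.2.1 1) (fun ζ hζ => hζ.2.2.2 (by decide))
    (fun ζ hζ => hζ.2.1 0) (fun ζ hζ => hζ.2.1 1)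

theorem spl_Z (eq : (Unit × Fin 2) ⊕ (ι' × Fin 2) ≃ (ι × Fin 2)) :
    Spl eq (FI.Fr X P 2) (fun ζ => P ζ.1) PlZ (P0Z P) (fun ζ => W ζ.1) WlZ (W0Z eq W) :=
  fun ζ hζ => ⟨ζ.2 0, ζ.2 1, hζ.2.2.1 0, hζ.2.2.1 1, hζ.2.2.2 (by decide), hζ.2.1 0, hζ.2.1 1,
    rfl, rfl, fun _ => rfl, fun u => P0Z_apply ζ u⟩

/-! ### invariance under the rotation -/

theorem PlZ_rt (ζ : E × (Fin 2 → EuclideanSpace ℝ ν)) (t : ℝ) : PlZ (rt t ζ) = PlZ ζ := by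
  ext u : 1
  rw [PlZ_apply, PlZ_apply, rt_zero', rt_one']
  simp only [inner_add_left, inner_smul_left, conj_trivial]
  have h := Real.sin_sq_add_cos_sq t
  set a := ⟪ζ.2 0, u⟫
  set b := ⟪ζ.2 1, u⟫
  set c := Real.cos t
  set s := Real.sin t
  have e : (c * a + s * b) • (c • ζ.2 0 + s • ζ.2 1) + (-s * a + c * b) • (-s • ζ.2 0 + c • ζ.2 1)
      = ((s ^ 2 + c ^ 2) * a) • ζ.2 0 + ((s ^ 2 + c ^ 2) * b) • ζ.2 1 := by module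
  rw [e, h, one_mul, one_mul]

/-- the rotation matrix -/
def Rm (t : ℝ) : Matrix (Unit × Fin 2) (Unit × Fin 2) ℝ := Matrix.of fun p q =>
  if p.2 = 0 then (if q.2 = 0 then Real.cos t else -Real.sin t)
    else (if q.2 = 0 then Real.sin t else Real.cos t)

theorem det_Rm (t : ℝ) : (Rm t).det = 1 := by
  have e3 : Rm t = (!![Real.cos t, -Real.sin t; Real.sin t, Real.cos t]).submatrix
      (Equiv.uniqueProd (Fin 2) Unit) (Equiv.uniqueProd (Fin 2) Unit) := by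
    ext ⟨⟨⟩, p⟩ ⟨⟨⟩, q⟩
    fin_cases p <;> fin_cases q <;> simp [Rm]
  rw [e3, det_submatrix_equiv_self, det_fin_two_of]
  have := Real.sin_sq_add_cos_sq t
  nlinarith

theorem col2_rt (ζ : E × (Fin 2 → EuclideanSpace ℝ ν)) (t : ℝ) :
    GO.col2 ((rt t ζ).2 0) ((rt t ζ).2 1) = GO.col2 (ζ.2 0) (ζ.2 1) * Rm t := by
  rw [rt_zero', rt_one']
  ext i ⟨⟨⟩, q⟩
  rw [Matrix.mul_apply, Fintype.sum_prod_type, Fintype.sum_unique, Fin.sum_univ_two]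
  fin_cases q
  · simp [GO.col2, Rm, mul_comm]
  · simp [GO.col2, Rm, mul_comm]

theorem WlZ_rt (ζ : E × (Fin 2 → EuclideanSpace ℝ ν)) (t : ℝ) : WlZ (rt t ζ) = WlZ ζ := by
  funext I
  rw [WlZ, col2_rt]
  have e : (GO.col2 (ζ.2 0) (ζ.2 1) * Rm t).submatrix I id =
      (GO.col2 (ζ.2 0) (ζ.2 1)).submatrix I id * Rm t := rfl
  rw [e, det_mul, det_Rm, mul_one, WlZ]

theorem W0Z_rt (eq : (Unit × Fin 2) ⊕ (ι' × Fin 2) ≃ (ι × Fin 2)) (h : OR X P W)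
    {ζ : E × (Fin 2 → EuclideanSpace ℝ ν)} (hζ : ζ ∈ FI.Fr X P 2) (t : ℝ) :
    W0Z eq W (rt t ζ) = W0Z eq W ζ := by
  obtain ⟨f, f1, f2, f3⟩ := h.fr _ hζ.1
  funext I
  exact GO.ctr_rot eq f3 (ζ.2 0) (ζ.2 1) t I

/-! ### descent -/

variable {m dZ : ℕ} {g : E × (Fin 2 → EuclideanSpace ℝ ν) → Fin m → ℂ}

/-- **the splitting on the quotient** -/
theorem exists_desc_split [Nonempty ι'] (eq : (Unit × Fin 2) ⊕ (ι' × Fin 2) ≃ (ι × Fin 2))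
    (h : OR X P W) (hg : CM.Emb (FI.Fr X P 2) rt g) (hZ : Clo (dZ + 1) (FI.Fr X P 2))
    {z : CM.MM m → E} (hz : ∀ y ∈ CM.Quo (FI.Fr X P 2) g, ContDiffAt ℝ ∞ z y)
    (ez : ∀ ζ ∈ FI.Fr X P 2, z (CM.jj g ζ) = ζ.1) :
    ∃ (Pl P0 : CM.MM m → EuclideanSpace ℝ ν →L[ℝ] EuclideanSpace ℝ ν)
      (Wl : CM.MM m → (Unit × Fin 2 → ν) → ℝ) (W0 : CM.MM m → (ι' × Fin 2 → ν) → ℝ),
      OR (CM.Quo (FI.Fr X P 2) g) Pl Wl ∧ OR (CM.Quo (FI.Fr X P 2) g) P0 W0 ∧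
      Spl eq (CM.Quo (FI.Fr X P 2) g) (fun y => P (z y)) Pl P0 (fun y => W (z y)) Wl W0 ∧
      ∀ ζ ∈ FI.Fr X P 2, Pl (CM.jj g ζ) = PlZ ζ ∧ Wl (CM.jj g ζ) = WlZ ζ ∧
        P0 (CM.jj g ζ) = P0Z P ζ ∧ W0 (CM.jj g ζ) = W0Z eq W ζ := by
  have hc : CM.Cir (FI.Fr X P 2) rt := cir_Fr
  obtain ⟨Pl, l1, l2⟩ := hg.exists_desc hc hZ (f := PlZ) (fun ζ _ => smooth_PlZ ζ)
    (fun ζ _ t => PlZ_rt ζ t)
  obtain ⟨Wl, w1, w2⟩ := hg.exists_desc hc hZ (f := WlZ) (fun ζ _ => smooth_WlZ ζ)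
    (fun ζ _ t => WlZ_rt ζ t)
  obtain ⟨W0, v1, v2⟩ := hg.exists_desc hc hZ (f := W0Z eq W)
    (fun ζ hζ => contDiffAt_pi.2 fun I => (or_0Z eq h).sW ζ hζ I) (fun ζ hζ t => W0Z_rt eq h hζ t)
  have hP0 : ∀ ζ ∈ FI.Fr X P 2, P (z (CM.jj g ζ)) - Pl (CM.jj g ζ) = P0Z P ζ := fun ζ hζ => by
    ext u : 1
    rw [P0Z_apply, ez ζ hζ, l2 ζ hζ]
    rfl
  refine ⟨Pl, fun y => P (z y) - Pl y, Wl, W0, ⟨fun y _ => l1.contDiffAt, fun y _ I =>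
    (contDiff_pi.1 w1 I).contDiffAt, ?_⟩, ⟨fun y hy => ?_, fun y _ I =>
    (contDiff_pi.1 v1 I).contDiffAt, ?_⟩, ?_, fun ζ hζ => ⟨l2 ζ hζ, w2 ζ hζ, hP0 ζ hζ, v2 ζ hζ⟩⟩
  · rintro _ ⟨ζ, hζ, rfl⟩
    rw [l2 ζ hζ, w2 ζ hζ]
    exact or_lZ.fr ζ hζ
  · have hy' : z y ∈ X := by
      obtain ⟨ζ, hζ, rfl⟩ := hy
      rw [ez ζ hζ]; exact hζ.1
    exact ((h.sP _ hy').comp y (hz y hy)).sub l1.contDiffAt
  · rintro _ ⟨ζ, hζ, rfl⟩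
    rw [hP0 ζ hζ, v2 ζ hζ]
    exact (or_0Z eq h).fr ζ hζ
  · rintro _ ⟨ζ, hζ, rfl⟩
    obtain ⟨v, w, a1, a2, a3, a4, a5, a6, a7, a8, -⟩ := spl_Z (P := P) (W := W) eq ζ hζ
    simp only [v2 ζ hζ, l2 ζ hζ, w2 ζ hζ, ez ζ hζ]
    exact ⟨v, w, a1, a2, a3, a4, a5, a6, a7, a8, fun _ => rfl⟩

end gen

end Crest.Agent.R208.GS
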