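import Crest.Agent.R208.GHDefs
import Crest.Agent.R208.GH0b

/-!
R208, block GW (helper499), file 1: planes in a Wiedersehen cone.

`Pl x v ζ` = the point with complex coordinate `ζ` in the plane of the geodesic `(x, v)`.
-/

set_option autoImplicit false

open scoped RealInnerProductSpace
open Complex (arg)

noncomputable section

namespace Crest.Agent.R208.GW

open Crest.Agent.R208.JT Crest.Agent.R208.GH

variable {m : ℕ} (W : WS m)

lemma met (x : Eu m) (hx : ‖x‖ = 1) : Met x (W.G x) where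
  unit := hx
  symm := W.G_symm x
  pos := fun a ha => W.G_pos x a (by rintro rfl; simp at hx) ha
  rad := fun a => W.G_radial x a (by rintro rfl; simp at hx)

/-- orthonormal frames of planes -/
structure Fr (x v : Eu m) : Prop where
  unit : ‖x‖ = 1
  orth : ⟪x, v⟫ = 0
  one : W.G x v v = 1

variable {W}

lemma Fr.neg {x v : Eu m} (h : Fr W x v) : Fr W x (-v) :=
  ⟨h.unit, by rw [inner_neg_right, h.orth, neg_zero], by simp [h.one]⟩

lemma Fr.ne {x v : Eu m} (h : Fr W x v) : v ≠ 0 := by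
  rintro rfl
  have := h.one
  simp at this

lemma Fr.orth_smul {x v : Eu m} (h : Fr W x v) (t : ℝ) : ⟪x, t • v⟫ = 0 := by
  rw [inner_smul_right, h.orth, mul_zero]

lemma Fr.G_smul {x v : Eu m} (h : Fr W x v) (t : ℝ) : W.G x (t • v) (t • v) = t ^ 2 := by
  simp only [map_smul, _root_.smul_apply, smul_eq_mul, h.one]
  ring

/-- normalisation -/
lemma Fr.mk' {x w : Eu m} (hx : ‖x‖ = 1) (hw : ⟪x, w⟫ = 0) (h0 : w ≠ 0) :
    Fr W x ((Real.sqrt (W.G x w w))⁻¹ • w) ∧ 0 < Real.sqrt (W.G x w w) ∧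
      Real.sqrt (W.G x w w) ^ 2 = W.G x w w := by
  have hb : 0 < W.G x w w := (met W x hx).pos w h0
  have hs : Real.sqrt (W.G x w w) ^ 2 = W.G x w w := Real.sq_sqrt hb.le
  have hs0 : 0 < Real.sqrt (W.G x w w) := Real.sqrt_pos.2 hb
  refine ⟨⟨hx, by rw [inner_smul_right, hw, mul_zero], ?_⟩, hs0, hs⟩
  simp only [map_smul, _root_.smul_apply, smul_eq_mul]
  have hne := hs0.ne'
  calc (Real.sqrt (W.G x w w))⁻¹ * ((Real.sqrt (W.G x w w))⁻¹ * W.G x w w)
      = (Real.sqrt (W.G x w w))⁻¹ * ((Real.sqrt (W.G x w w))⁻¹ * Real.sqrt (W.G x w w) ^ 2) := by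
        rw [hs]
    _ = 1 := by
        generalize Real.sqrt (W.G x w w) = s at hne
        field_simp

/-- the geodesic -/
def gam (W : WS m) (x v : Eu m) (t : ℝ) : Eu m := W.Lam (x, t • v)

lemma Fr.norm_gam {x v : Eu m} (h : Fr W x v) (t : ℝ) : ‖gam W x v t‖ = 1 :=
  W.norm_Lam x _ h.unit (h.orth_smul t)

lemma Fr.gam_zero {x v : Eu m} (h : Fr W x v) : gam W x v 0 = x := by
  rw [gam, zero_smul, W.Lam_zero x h.unit]

lemma Fr.hasDeriv {x v : Eu m} (h : Fr W x v) (t : ℝ) :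
    HasDerivAt (gam W x v) (W.Vel x v t) t := W.hasDeriv_Lam x v t h.unit h.orth

lemma Fr.vel_orth {x v : Eu m} (h : Fr W x v) (t : ℝ) : ⟪gam W x v t, W.Vel x v t⟫ = 0 := by
  have h1 : HasDerivAt (fun t => ⟪gam W x v t, gam W x v t⟫)
      (⟪gam W x v t, W.Vel x v t⟫ + ⟪W.Vel x v t, gam W x v t⟫) t := (h.hasDeriv t).inner ℝ (h.hasDeriv t)
  have h2 : (fun t => ⟪gam W x v t, gam W x v t⟫) = fun _ => (1 : ℝ) := by
    ext t
    rw [real_inner_self_eq_norm_sq, h.norm_gam]; norm_num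
  rw [h2] at h1
  have h3 := h1.unique (hasDerivAt_const t (1 : ℝ))
  rw [real_inner_comm (gam W x v t)] at h3
  linarith

lemma Fr.vel_zero {x v : Eu m} (h : Fr W x v) : W.Vel x v 0 = v := W.Vel_zero x v h.unit h.orth

/-- the moved frame -/
lemma Fr.move {x v : Eu m} (h : Fr W x v) (t : ℝ) : Fr W (gam W x v t) (W.Vel x v t) :=
  ⟨h.norm_gam t, h.vel_orth t, by
    have := W.speed x v t h.unit h.orth
    rw [gam, this, h.one]⟩

lemma Fr.flow {x v : Eu m} (h : Fr W x v) (s t : ℝ) :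
    gam W (gam W x v t) (W.Vel x v t) s = gam W x v (t + s) :=
  W.flow x v s t h.unit h.orth

lemma Fr.half {x v : Eu m} (h : Fr W x v) : gam W x v Real.pi = -x :=
  W.half x _ h.unit (h.orth_smul _) (h.G_smul _)

lemma Fr.add_pi {x v : Eu m} (h : Fr W x v) (t : ℝ) : gam W x v (t + Real.pi) = -gam W x v t := by
  rw [← h.flow, (h.move t).half]

lemma Fr.gam_add_two_pi {x v : Eu m} (h : Fr W x v) (t : ℝ) :
    gam W x v (t + 2 * Real.pi) = gam W x v t := by
  rw [two_mul, ← add_assoc, h.add_pi, h.add_pi, neg_neg]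

lemma Fr.periodic {x v : Eu m} (h : Fr W x v) : Function.Periodic (gam W x v) (2 * Real.pi) :=
  h.gam_add_two_pi

lemma Fr.vel_add_pi {x v : Eu m} (h : Fr W x v) (t : ℝ) :
    W.Vel x v (t + Real.pi) = -W.Vel x v t := by
  have h1 : HasDerivAt (fun s => gam W x v (s + Real.pi)) (W.Vel x v (t + Real.pi)) t := by
    simpa using (h.hasDeriv (t + Real.pi)).comp_add_const t Real.pi
  have h2 : (fun s => gam W x v (s + Real.pi)) = fun s => -gam W x v s := by
    ext1 s; exact h.add_pi s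
  rw [h2] at h1
  exact h1.unique (h.hasDeriv t).neg

lemma Fr.gam_neg {x v : Eu m} (_h : Fr W x v) (t : ℝ) : gam W x (-v) t = gam W x v (-t) := by
  rw [gam, gam, smul_neg, neg_smul]

/-- a short geodesic does not reach the antipode, and is not closed -/
lemma Fr.ne_neg {x v : Eu m} (h : Fr W x v) {t : ℝ} (h0 : 0 < t) (h1 : t < Real.pi) :
    gam W x v t ≠ -x := by
  intro hx
  -- compare with the geodesic from a point a little further
  set s := min t (Real.pi - t) / 2 with hs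
  have hmin : 0 < min t (Real.pi - t) := lt_min h0 (by linarith)
  have hst : s < t := by have := min_le_left t (Real.pi - t); linarith
  have hspos : 0 < s := by positivity
  have hF := h.move s
  have e1 : gam W (gam W x v s) (W.Vel x v s) (t - s) = -x := by rw [h.flow, ← hx]; congr 1; ring
  have e2 : gam W (gam W x v s) (W.Vel x v s) (Real.pi - s) = -x := by
    rw [h.flow, ← h.half]; congr 1; ring
  have h3 := W.inj (gam W x v s) ((t - s) • W.Vel x v s) ((Real.pi - s) • W.Vel x v s) hF.unit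
    (hF.orth_smul _) (hF.orth_smul _)
    (by rw [hF.G_smul]; exact pow_lt_pow_left₀ (by linarith) (by linarith) two_ne_zero)
    (by rw [hF.G_smul]; exact pow_lt_pow_left₀ (by linarith) (by linarith) two_ne_zero)
    (by rw [gam] at e1 e2; rw [e1]; exact e2.symm)
  have h4 : (t - Real.pi) • W.Vel x v s = 0 := by
    have : (t - Real.pi) • W.Vel x v s = (t - s) • W.Vel x v s - (Real.pi - s) • W.Vel x v s := by
      rw [← sub_smul]; congr 1; ring
    rw [this, h3, sub_self]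
  rcases smul_eq_zero.1 h4 with h5 | h5
  · linarith
  · exact hF.ne h5

/-- the plane of a frame -/
def Pl (W : WS m) (x v : Eu m) (ζ : ℂ) : Eu m := ‖ζ‖ • gam W x v (arg ζ)

lemma Pl_zero (x v : Eu m) : Pl W x v 0 = 0 := by simp [Pl]

lemma Fr.norm_Pl {x v : Eu m} (h : Fr W x v) (ζ : ℂ) : ‖Pl W x v ζ‖ = ‖ζ‖ := by
  rw [Pl, norm_smul, h.norm_gam, mul_one, norm_norm]

lemma Fr.gam_congr {x v : Eu m} (h : Fr W x v) {s t : ℝ}
    (he : Complex.exp (s * Complex.I) = Complex.exp (t * Complex.I)) : gam W x v s = gam W x v t := by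
  obtain ⟨n, hn⟩ := Complex.exp_eq_exp_iff_exists_int.1 he
  have h1 : s = t + n * (2 * Real.pi) := by
    have h2 := congrArg Complex.im hn
    simpa using h2
  rw [h1]
  exact h.periodic.int_mul n t

/-- polar coordinates, `r` of any sign -/
lemma Fr.Pl_polar {x v : Eu m} (h : Fr W x v) (r θ : ℝ) :
    Pl W x v (r * Complex.exp (θ * Complex.I)) = r • gam W x v θ := by
  rcases lt_trichotomy r 0 with hr | hr | hr
  · have h1 : (r : ℂ) * Complex.exp (θ * Complex.I)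
        = ((-r : ℝ) : ℂ) * Complex.exp (((θ + Real.pi : ℝ) : ℂ) * Complex.I) := by
      push_cast
      rw [add_mul, Complex.exp_add, Complex.exp_pi_mul_I]; ring
    have hn : ‖((-r : ℝ) : ℂ) * Complex.exp (((θ + Real.pi : ℝ) : ℂ) * Complex.I)‖ = -r := by
      rw [norm_mul, Complex.norm_exp_ofReal_mul_I, mul_one, Complex.norm_real, Real.norm_eq_abs,
        abs_of_pos (by linarith)]
    have ha : gam W x v (arg (((-r : ℝ) : ℂ) * Complex.exp (((θ + Real.pi : ℝ) : ℂ) * Complex.I)))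
        = gam W x v (θ + Real.pi) := by
      apply h.gam_congr
      have h2 := Complex.norm_mul_exp_arg_mul_I
        (((-r : ℝ) : ℂ) * Complex.exp (((θ + Real.pi : ℝ) : ℂ) * Complex.I))
      rw [hn] at h2
      exact mul_left_cancel₀ (by simp [hr.ne]) h2
    rw [h1, Pl, hn, ha, h.add_pi, smul_neg, neg_smul, neg_neg]
  · simp [hr, Pl]
  · have hn : ‖(r : ℂ) * Complex.exp (θ * Complex.I)‖ = r := by
      rw [norm_mul, Complex.norm_exp_ofReal_mul_I, mul_one, Complex.norm_real, Real.norm_eq_abs,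
        abs_of_pos hr]
    have ha : gam W x v (arg ((r : ℂ) * Complex.exp (θ * Complex.I))) = gam W x v θ := by
      apply h.gam_congr
      have h2 := Complex.norm_mul_exp_arg_mul_I ((r : ℂ) * Complex.exp (θ * Complex.I))
      rw [hn] at h2
      exact mul_left_cancel₀ (by simp [hr.ne']) h2
    rw [Pl, hn, ha]

lemma exists_polar (ζ : ℂ) : ∃ r θ : ℝ, 0 ≤ r ∧ ζ = r * Complex.exp (θ * Complex.I) ∧ r = ‖ζ‖ ∧
    θ = arg ζ := ⟨‖ζ‖, arg ζ, norm_nonneg _, (Complex.norm_mul_exp_arg_mul_I ζ).symm, rfl, rfl⟩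

lemma Fr.Pl_smul {x v : Eu m} (h : Fr W x v) (r : ℝ) (ζ : ℂ) : Pl W x v (r * ζ) = r • Pl W x v ζ := by
  obtain ⟨a, θ, -, h1, -, -⟩ := exists_polar ζ
  rw [h1, h.Pl_polar, ← mul_assoc, ← Complex.ofReal_mul, h.Pl_polar, smul_smul]

lemma Fr.Pl_ofReal {x v : Eu m} (h : Fr W x v) (r : ℝ) : Pl W x v r = r • x := by
  have := h.Pl_polar r 0
  simpa [h.gam_zero] using this

lemma Fr.Pl_neg {x v : Eu m} (h : Fr W x v) (ζ : ℂ) : Pl W x v (-ζ) = -Pl W x v ζ := by
  have := h.Pl_smul (-1) ζ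
  simpa using this

/-- change of the base point of the frame -/
lemma Fr.Pl_move {x v : Eu m} (h : Fr W x v) (s : ℝ) (ζ : ℂ) :
    Pl W (gam W x v s) (W.Vel x v s) ζ = Pl W x v (Complex.exp (s * Complex.I) * ζ) := by
  obtain ⟨a, θ, -, h1, -, -⟩ := exists_polar ζ
  rw [h1, (h.move s).Pl_polar, h.flow]
  have h2 : Complex.exp (s * Complex.I) * (a * Complex.exp (θ * Complex.I))
      = a * Complex.exp (((s + θ : ℝ) : ℂ) * Complex.I) := by
    push_cast
    rw [add_mul, Complex.exp_add]; ring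
  rw [h2, h.Pl_polar]

/-- reversal of the frame -/
lemma Fr.Pl_conj {x v : Eu m} (h : Fr W x v) (ζ : ℂ) :
    Pl W x (-v) ζ = Pl W x v ((starRingEnd ℂ) ζ) := by
  obtain ⟨a, θ, -, h1, -, -⟩ := exists_polar ζ
  have h2 : (starRingEnd ℂ) ((a : ℂ) * Complex.exp (θ * Complex.I))
      = a * Complex.exp (((-θ : ℝ) : ℂ) * Complex.I) := by
    rw [map_mul, Complex.conj_ofReal, ← Complex.exp_conj]
    simp
  rw [h1, h.neg.Pl_polar, h2, h.Pl_polar, h.gam_neg]

lemma cos_smul_eq {x v : Eu m} (h : Fr W x v) (θ : ℝ) :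
    Real.cos θ = Cs (W.G x (θ • v) (θ • v)) ∧
      Real.sin θ • v = Sn (W.G x (θ • v) (θ • v)) • (θ • v) := by
  rw [h.G_smul, Cs_sq]
  refine ⟨rfl, ?_⟩
  rw [smul_smul, mul_comm, Sn_sq]

/-- uniqueness of the coordinates in the planes through `x` -/
lemma Pl_unique {x v v' : Eu m} (h : Fr W x v) (h' : Fr W x v') {ζ ζ' : ℂ}
    (he : Pl W x v ζ = Pl W x v' ζ') : ζ.re = ζ'.re ∧ ζ.im • v = ζ'.im • v' := by
  have hn : ‖ζ‖ = ‖ζ'‖ := by rw [← h.norm_Pl, he, h'.norm_Pl]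
  by_cases h0 : ζ = 0
  · have h0' : ζ' = 0 := by
      rw [h0, norm_zero] at hn; exact norm_eq_zero.1 hn.symm
    rw [h0, h0']; simp
  have hne : ‖ζ‖ ≠ 0 := norm_ne_zero_iff.2 h0
  have hg : gam W x v (arg ζ) = gam W x v' (arg ζ') := by
    rw [Pl, Pl, ← hn] at he
    exact smul_right_injective _ hne he
  -- the two tangent vectors
  have key : Real.cos (arg ζ) = Real.cos (arg ζ') ∧
      Real.sin (arg ζ) • v = Real.sin (arg ζ') • v' := by
    have hlt : ∀ {ζ : ℂ}, arg ζ ≠ Real.pi → (arg ζ) ^ 2 < Real.pi ^ 2 := fun {ζ} h =>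
      sq_lt_sq' (Complex.neg_pi_lt_arg ζ) (lt_of_le_of_ne (Complex.arg_le_pi ζ) h)
    have aux : ∀ {v v' : Eu m} (_h : Fr W x v) (_h' : Fr W x v') {ζ ζ' : ℂ},
        gam W x v (arg ζ) = gam W x v' (arg ζ') → arg ζ = Real.pi → arg ζ' = Real.pi := by
      intro v v' h h' ζ ζ' hg hpi
      rw [hpi, h.half] at hg
      by_contra hcon
      rcases lt_trichotomy (arg ζ') 0 with h3 | h3 | h3
      · have h4 := h'.neg.ne_neg (t := -arg ζ') (by linarith)
          (by linarith [Complex.neg_pi_lt_arg ζ'])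
        apply h4
        rw [h'.gam_neg, neg_neg, ← hg]
      · rw [h3, h'.gam_zero] at hg
        have h5 : x = 0 := by
          have h6 : (2 : ℝ) • x = 0 := by rw [two_smul]; nth_rw 1 [← hg]; simp
          exact (smul_eq_zero.1 h6).resolve_left two_ne_zero
        have := h.unit
        rw [h5] at this; simp at this
      · exact h'.ne_neg h3 (lt_of_le_of_ne (Complex.arg_le_pi ζ') hcon) hg.symm
    by_cases h1 : arg ζ = Real.pi
    · have h2 := aux h h' hg h1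
      rw [h1, h2]; simp
    · have h2 : arg ζ' ≠ Real.pi := fun h2 => h1 (aux h' h hg.symm h2)
      have h3 := W.inj x (arg ζ • v) (arg ζ' • v') h.unit (h.orth_smul _) (h'.orth_smul _)
        (by rw [h.G_smul]; exact hlt h1) (by rw [h'.G_smul]; exact hlt h2) hg
      obtain ⟨e1, e2⟩ := cos_smul_eq h (arg ζ)
      obtain ⟨e3, e4⟩ := cos_smul_eq h' (arg ζ')
      rw [e1, e2, e3, e4, h3]
      exact ⟨rfl, rfl⟩
  obtain ⟨k1, k2⟩ := key
  have r1 : ζ.re = ‖ζ‖ * Real.cos (arg ζ) := by rw [Complex.norm_mul_cos_arg]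
  have r2 : ζ'.re = ‖ζ'‖ * Real.cos (arg ζ') := by rw [Complex.norm_mul_cos_arg]
  have i1 : ζ.im = ‖ζ‖ * Real.sin (arg ζ) := by rw [Complex.norm_mul_sin_arg]
  have i2 : ζ'.im = ‖ζ'‖ * Real.sin (arg ζ') := by rw [Complex.norm_mul_sin_arg]
  refine ⟨by rw [r1, r2, hn, k1], ?_⟩
  rw [i1, i2, mul_smul, mul_smul, k2, hn]

/-- existence of a frame at a unit vector -/
lemma exists_Fr (W : WS m) (hm : 2 ≤ m) {x : Eu m} (hx : ‖x‖ = 1) : ∃ v, Fr W x v := by
  have h1 : ∃ w : Eu m, w ∈ (ℝ ∙ x)ᗮ ∧ w ≠ 0 := by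
    have h2 : (ℝ ∙ x)ᗮ ≠ ⊥ := by
      intro hb
      have h3 : Module.finrank ℝ (ℝ ∙ x) = m := by
        have h4 := Submodule.finrank_add_finrank_orthogonal (ℝ ∙ x)
        rw [hb, finrank_bot, add_zero, finrank_euclideanSpace_fin] at h4
        exact h4
      have h5 := finrank_span_singleton (K := ℝ) (v := x) (by rintro rfl; simp at hx)
      omega
    exact Submodule.exists_mem_ne_zero_of_ne_bot h2
  obtain ⟨w, hw, hw0⟩ := h1
  have hxw : ⟪x, w⟫ = 0 := Submodule.mem_orthogonal_singleton_iff_inner_right.1 hw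
  exact ⟨_, (Fr.mk' hx hxw hw0).1⟩

/-- every point lies in a plane through `x` -/
lemma exists_Pl (hm : 2 ≤ m) {x : Eu m} (hx : ‖x‖ = 1) (Y : Eu m) :
    ∃ v ζ, Fr W x v ∧ 0 ≤ ζ.im ∧ Y = Pl W x v ζ := by
  obtain ⟨v0, hv0⟩ := exists_Fr W hm hx
  by_cases hY : Y = 0
  · exact ⟨v0, 0, hv0, le_rfl, by rw [hY, Pl_zero]⟩
  have hn : 0 < ‖Y‖ := norm_pos_iff.2 hY
  by_cases h1 : ‖Y‖⁻¹ • Y = -x
  · refine ⟨v0, ((-‖Y‖ : ℝ) : ℂ), hv0, by simp, ?_⟩
    rw [hv0.Pl_ofReal, neg_smul, ← smul_neg, ← h1, smul_smul, mul_inv_cancel₀ hn.ne', one_smul]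
  obtain ⟨w, hw1, hw2, hw3⟩ := W.surj x (‖Y‖⁻¹ • Y) hx
    (by rw [norm_smul, norm_inv, norm_norm, inv_mul_cancel₀ hn.ne']) h1
  by_cases hw0 : w = 0
  · refine ⟨v0, (‖Y‖ : ℝ), hv0, by simp, ?_⟩
    rw [hv0.Pl_ofReal]
    rw [hw0, W.Lam_zero x hx] at hw3
    rw [hw3, smul_smul, mul_inv_cancel₀ hn.ne', one_smul]
  obtain ⟨hF, hs, hs2⟩ := Fr.mk' (W := W) hx hw1 hw0
  set s := Real.sqrt (W.G x w w) with hsdef
  have hspi : s < Real.pi := by
    rw [← hs2] at hw2
    exact lt_of_pow_lt_pow_left₀ 2 Real.pi_pos.le hw2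
  refine ⟨s⁻¹ • w, ‖Y‖ * Complex.exp (s * Complex.I), hF, ?_, ?_⟩
  · rw [Complex.im_ofReal_mul, Complex.exp_ofReal_mul_I_im]
    exact mul_nonneg hn.le (Real.sin_nonneg_of_nonneg_of_le_pi hs.le hspi.le)
  · rw [hF.Pl_polar, gam, smul_smul, mul_inv_cancel₀ hs.ne', one_smul, hw3, smul_smul,
      mul_inv_cancel₀ hn.ne', one_smul]

end Crest.Agent.R208.GW
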