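import Crest.Agent.R208.GW1

/-!
R208, block GW (helper499), file 2: the sum `A`, the scalar product `Fn`, the algebra of planes.
-/

set_option autoImplicit false

open scoped RealInnerProductSpace
open Complex (arg)

noncomputable section

namespace Crest.Agent.R208.GW

open Crest.Agent.R208.JT Crest.Agent.R208.GH

variable {m : ℕ} {W : WS m}

/-- normalisation of a vector -/
def nz (X : Eu m) : Eu m := ‖X‖⁻¹ • X

lemma norm_nz {X : Eu m} (h : X ≠ 0) : ‖nz X‖ = 1 := by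
  rw [nz, norm_smul, norm_inv, norm_norm, inv_mul_cancel₀ (norm_ne_zero_iff.2 h)]

lemma norm_smul_nz (X : Eu m) : ‖X‖ • nz X = X := by
  by_cases h : X = 0
  · simp [h]
  · rw [nz, smul_smul, mul_inv_cancel₀ (norm_ne_zero_iff.2 h), one_smul]

lemma nz_of_unit {X : Eu m} (h : ‖X‖ = 1) : nz X = X := by rw [nz, h, inv_one, one_smul]

lemma nz_smul {X : Eu m} {r : ℝ} (hr : 0 < r) : nz (r • X) = nz X := by
  rw [nz, nz, norm_smul, Real.norm_eq_abs, abs_of_pos hr, smul_smul, mul_inv, mul_comm r⁻¹, mul_assoc,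
    inv_mul_cancel₀ hr.ne', mul_one]

lemma nz_neg (X : Eu m) : nz (-X) = -nz X := by rw [nz, nz, norm_neg, smul_neg]

/-- the exponential map of the cone, moved to the apex: `a x + b v ↦ Pl x v (a + i b)` -/
def E (W : WS m) (x ξ : Eu m) : Eu m := by
  classical
  exact if orth x ξ = 0 then ⟪x, ξ⟫ • x else
    Pl W x ((Real.sqrt (W.G x (orth x ξ) (orth x ξ)))⁻¹ • orth x ξ)
      ⟨⟪x, ξ⟫, Real.sqrt (W.G x (orth x ξ) (orth x ξ))⟩

lemma Fr.inner_comb {x v : Eu m} (h : Fr W x v) (a b : ℝ) : ⟪x, a • x + b • v⟫ = a := by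
  rw [inner_add_right, inner_smul_right, inner_smul_right, h.orth, real_inner_self_eq_norm_sq, h.unit]
  ring

lemma Fr.orth_comb {x v : Eu m} (h : Fr W x v) (a b : ℝ) : GH.orth x (a • x + b • v) = b • v := by
  rw [GH.orth, h.inner_comb]; abel

lemma E_frame {x v : Eu m} (h : Fr W x v) (a b : ℝ) :
    E W x (a • x + b • v) = Pl W x v ⟨a, b⟩ := by
  rw [E]
  simp only [h.inner_comb, h.orth_comb]
  rcases lt_trichotomy b 0 with hb | hb | hb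
  · have h0 : b • v ≠ 0 := smul_ne_zero hb.ne h.ne
    rw [if_neg h0]
    have h1 : Real.sqrt (W.G x (b • v) (b • v)) = -b := by
      rw [h.G_smul, Real.sqrt_sq_eq_abs, abs_of_neg hb]
    rw [h1, smul_smul]
    have h2 : (-b)⁻¹ * b = -1 := by rw [inv_neg, neg_mul, inv_mul_cancel₀ hb.ne]
    rw [h2, neg_one_smul, h.Pl_conj]
    congr 1
    apply Complex.ext <;> simp
  · rw [hb, zero_smul, if_pos rfl]
    have := h.Pl_ofReal a
    rw [← this]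
    congr 1
  · have h0 : b • v ≠ 0 := smul_ne_zero hb.ne' h.ne
    rw [if_neg h0]
    have h1 : Real.sqrt (W.G x (b • v) (b • v)) = b := by
      rw [h.G_smul, Real.sqrt_sq hb.le]
    rw [h1, smul_smul, inv_mul_cancel₀ hb.ne', one_smul]

/-- the inverse of `E` -/
def Z (W : WS m) (x Y : Eu m) : Eu m := by
  classical
  exact if h : ∃ p : Eu m × ℂ, Fr W x p.1 ∧ Y = Pl W x p.1 p.2 then
    h.choose.2.re • x + h.choose.2.im • h.choose.1 else 0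

lemma Z_frame {x v : Eu m} (h : Fr W x v) (ζ : ℂ) : Z W x (Pl W x v ζ) = ζ.re • x + ζ.im • v := by
  have hex : ∃ p : Eu m × ℂ, Fr W x p.1 ∧ Pl W x v ζ = Pl W x p.1 p.2 := ⟨(v, ζ), h, rfl⟩
  rw [Z, dif_pos hex]
  obtain ⟨h1, h2⟩ := hex.choose_spec
  obtain ⟨h3, h4⟩ := Pl_unique h h1 h2
  rw [h3, h4]

/-- the sum -/
def A (W : WS m) (X Y : Eu m) : Eu m := by
  classical
  exact if X = 0 then Y else E W (nz X) (X + Z W (nz X) Y)

/-- the scalar product -/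
def Fn (W : WS m) (P : Eu m × Eu m) : ℝ := ⟪P.1, Z W (nz P.1) P.2⟫

section plane

variable {x v : Eu m}

lemma Fr.nz_Pl (h : Fr W x v) {ζ : ℂ} (hζ : ζ ≠ 0) : nz (Pl W x v ζ) = gam W x v (arg ζ) := by
  rw [nz, h.norm_Pl, Pl, smul_smul, inv_mul_cancel₀ (norm_ne_zero_iff.2 hζ), one_smul]

lemma Fr.Pl_ne_zero (h : Fr W x v) {ζ : ℂ} (hζ : ζ ≠ 0) : Pl W x v ζ ≠ 0 := by
  rw [← norm_ne_zero_iff, h.norm_Pl]; exact norm_ne_zero_iff.2 hζ

lemma Fr.ne_zero_of_Pl {ζ : ℂ} (hζ : Pl W x v ζ ≠ 0) : ζ ≠ 0 := by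
  rintro rfl; exact hζ (Pl_zero x v)

lemma exp_mul_exp_neg (s : ℝ) : Complex.exp (s * Complex.I) * Complex.exp (-(s * Complex.I)) = 1 := by
  rw [← Complex.exp_add, add_neg_cancel, Complex.exp_zero]

lemma Fr.Pl_move' (h : Fr W x v) (s : ℝ) (ζ : ℂ) :
    Pl W x v ζ = Pl W (gam W x v s) (W.Vel x v s) (Complex.exp (-(s * Complex.I)) * ζ) := by
  rw [h.Pl_move, ← mul_assoc, exp_mul_exp_neg, one_mul]

lemma exp_arg (ζ : ℂ) : Complex.exp (-(arg ζ * Complex.I)) * ζ = ‖ζ‖ := by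
  calc Complex.exp (-(arg ζ * Complex.I)) * ζ
      = Complex.exp (-(arg ζ * Complex.I)) * (‖ζ‖ * Complex.exp (arg ζ * Complex.I)) := by
        rw [Complex.norm_mul_exp_arg_mul_I]
    _ = ‖ζ‖ * (Complex.exp (arg ζ * Complex.I) * Complex.exp (-(arg ζ * Complex.I))) := by ring
    _ = ‖ζ‖ := by rw [exp_mul_exp_neg, mul_one]

lemma Fr.Z_Pl (h : Fr W x v) {ξ : ℂ} (hξ : ξ ≠ 0) (η : ℂ) :
    Z W (nz (Pl W x v ξ)) (Pl W x v η) =
      (Complex.exp (-(arg ξ * Complex.I)) * η).re • gam W x v (arg ξ) +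
        (Complex.exp (-(arg ξ * Complex.I)) * η).im • W.Vel x v (arg ξ) := by
  rw [h.nz_Pl hξ]
  conv_lhs => rw [h.Pl_move' (arg ξ) η]
  rw [Z_frame (h.move _)]

/-- the sum in a plane -/
lemma Fr.A_Pl (h : Fr W x v) (ξ η : ℂ) : A W (Pl W x v ξ) (Pl W x v η) = Pl W x v (ξ + η) := by
  by_cases hξ : ξ = 0
  · rw [hξ, Pl_zero, A, if_pos rfl, zero_add]
  rw [A, if_neg (h.Pl_ne_zero hξ), h.Z_Pl hξ, h.nz_Pl hξ]
  set s := arg ξ with hs
  have h1 : Pl W x v ξ = (‖ξ‖ : ℝ) • gam W x v s := rfl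
  rw [h1, ← add_assoc, ← add_smul, E_frame (h.move s), h.Pl_move]
  congr 1
  have h2 : (⟨‖ξ‖ + (Complex.exp (-(s * Complex.I)) * η).re, (Complex.exp (-(s * Complex.I)) * η).im⟩ : ℂ)
      = ‖ξ‖ + Complex.exp (-(s * Complex.I)) * η := by
    apply Complex.ext <;> simp
  rw [h2, mul_add, ← mul_assoc, exp_mul_exp_neg, one_mul, mul_comm, Complex.norm_mul_exp_arg_mul_I]

lemma Fr.Fn_Pl (h : Fr W x v) (ξ η : ℂ) :
    Fn W (Pl W x v ξ, Pl W x v η) = ((starRingEnd ℂ) ξ * η).re := by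
  by_cases hξ : ξ = 0
  · rw [hξ, Fn]; simp [Pl_zero]
  rw [Fn]
  simp only
  rw [h.Z_Pl hξ]
  have h1 : Pl W x v ξ = (‖ξ‖ : ℝ) • gam W x v (arg ξ) := rfl
  rw [h1, inner_smul_left, (h.move (arg ξ)).inner_comb]
  simp only [conj_trivial]
  have h2 : (starRingEnd ℂ) ξ = ‖ξ‖ * Complex.exp (-(arg ξ * Complex.I)) := by
    conv_lhs => rw [← Complex.norm_mul_exp_arg_mul_I ξ]
    rw [map_mul, Complex.conj_ofReal, ← Complex.exp_conj]
    congr 2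
    rw [map_mul, Complex.conj_ofReal, Complex.conj_I]; ring
  rw [h2, mul_assoc, Complex.re_ofReal_mul]

end plane

/-- two vectors lie in a common plane -/
lemma exists_pair (W : WS m) (hm : 2 ≤ m) (X Y : Eu m) :
    ∃ x v ξ η, Fr W x v ∧ X = Pl W x v ξ ∧ Y = Pl W x v η := by
  by_cases hX : X = 0
  · obtain ⟨x, hx⟩ : ∃ x : Eu m, ‖x‖ = 1 :=
      ⟨EuclideanSpace.single (⟨0, by omega⟩ : Fin m) (1 : ℝ), by simp⟩
    obtain ⟨v, ζ, h, -, hY⟩ := exists_Pl (W := W) hm hx Y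
    exact ⟨x, v, 0, ζ, h, by rw [hX, Pl_zero], hY⟩
  · obtain ⟨v, ζ, h, -, hY⟩ := exists_Pl (W := W) hm (norm_nz hX) Y
    exact ⟨nz X, v, (‖X‖ : ℝ), ζ, h, by rw [h.Pl_ofReal, norm_smul_nz], hY⟩

lemma A_comm (hm : 2 ≤ m) (X Y : Eu m) : A W X Y = A W Y X := by
  obtain ⟨x, v, ξ, η, h, rfl, rfl⟩ := exists_pair W hm X Y
  rw [h.A_Pl, h.A_Pl, add_comm]

lemma A_zero (hm : 2 ≤ m) (X : Eu m) : A W X 0 = X := by
  obtain ⟨x, v, ξ, η, h, rfl, -⟩ := exists_pair W hm X 0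
  rw [← Pl_zero (W := W) x v, h.A_Pl, add_zero]

lemma A_smul (hm : 2 ≤ m) (r : ℝ) (X Y : Eu m) : A W (r • X) (r • Y) = r • A W X Y := by
  obtain ⟨x, v, ξ, η, h, rfl, rfl⟩ := exists_pair W hm X Y
  rw [← h.Pl_smul, ← h.Pl_smul, h.A_Pl, h.A_Pl, ← mul_add, h.Pl_smul]

lemma act (hm : 2 ≤ m) (s t : ℝ) (X Y : Eu m) :
    A W (Real.cos s • A W (Real.cos t • X) (Real.sin t • Y))
      (Real.sin s • A W (-Real.sin t • X) (Real.cos t • Y)) =
      A W (Real.cos (s + t) • X) (Real.sin (s + t) • Y) := by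
  obtain ⟨x, v, ξ, η, h, rfl, rfl⟩ := exists_pair W hm X Y
  simp only [← h.Pl_smul, h.A_Pl]
  congr 1
  rw [Real.cos_add, Real.sin_add]
  push_cast
  ring

lemma norm_A (hm : 2 ≤ m) (X Y : Eu m) :
    ‖A W X Y‖ ^ 2 = ‖X‖ ^ 2 + 2 * Fn W (X, Y) + ‖Y‖ ^ 2 := by
  obtain ⟨x, v, ξ, η, h, rfl, rfl⟩ := exists_pair W hm X Y
  rw [h.A_Pl, h.Fn_Pl, h.norm_Pl, h.norm_Pl, h.norm_Pl, Complex.sq_norm, Complex.sq_norm,
    Complex.sq_norm, Complex.normSq_apply, Complex.normSq_apply, Complex.normSq_apply]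
  simp only [Complex.add_re, Complex.add_im, Complex.mul_re, Complex.conj_re, Complex.conj_im]
  ring

lemma Fn_smul (hm : 2 ≤ m) (r : ℝ) (X Y : Eu m) : Fn W (r • X, Y) = r * Fn W (X, Y) := by
  obtain ⟨x, v, ξ, η, h, rfl, rfl⟩ := exists_pair W hm X Y
  rw [← h.Pl_smul, h.Fn_Pl, h.Fn_Pl, map_mul, Complex.conj_ofReal, mul_assoc, Complex.re_ofReal_mul]

lemma Fn_comm (hm : 2 ≤ m) (X Y : Eu m) : Fn W (X, Y) = Fn W (Y, X) := by
  obtain ⟨x, v, ξ, η, h, rfl, rfl⟩ := exists_pair W hm X Y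
  rw [h.Fn_Pl, h.Fn_Pl]
  simp only [Complex.mul_re, Complex.conj_re, Complex.conj_im]
  ring

/-- `E x` and `Z x` are inverse to each other -/
lemma Z_E (hm : 2 ≤ m) {x : Eu m} (hx : ‖x‖ = 1) (ξ : Eu m) : Z W x (E W x ξ) = ξ := by
  by_cases h0 : orth x ξ = 0
  · obtain ⟨v, h⟩ := exists_Fr W hm hx
    have h1 : ξ = ⟪x, ξ⟫ • x + (0 : ℝ) • v := by
      rw [zero_smul, add_zero]
      conv_lhs => rw [← decomp x ξ, h0, add_zero]
    rw [h1, E_frame h, Z_frame h]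
  · obtain ⟨h, hs, hs2⟩ := Fr.mk' (W := W) hx (inner_orth hx ξ) h0
    set s := Real.sqrt (W.G x (orth x ξ) (orth x ξ)) with hsd
    have h1 : ξ = ⟪x, ξ⟫ • x + s • (s⁻¹ • orth x ξ) := by
      rw [smul_smul, mul_inv_cancel₀ hs.ne', one_smul, decomp]
    rw [h1, E_frame h, Z_frame h]

lemma E_Z (hm : 2 ≤ m) {x : Eu m} (hx : ‖x‖ = 1) (Y : Eu m) : E W x (Z W x Y) = Y := by
  obtain ⟨v, ζ, h, -, rfl⟩ := exists_Pl (W := W) hm hx Y
  rw [Z_frame h, E_frame h]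

lemma Z_smul (hm : 2 ≤ m) {x : Eu m} (hx : ‖x‖ = 1) (r : ℝ) (Y : Eu m) :
    Z W x (r • Y) = r • Z W x Y := by
  obtain ⟨v, ζ, h, -, rfl⟩ := exists_Pl (W := W) hm hx Y
  rw [← h.Pl_smul, Z_frame h, Z_frame h, smul_add, smul_smul, smul_smul, Complex.re_ofReal_mul,
    Complex.im_ofReal_mul]

lemma E_smul (hm : 2 ≤ m) {x : Eu m} (hx : ‖x‖ = 1) (r : ℝ) (ξ : Eu m) :
    E W x (r • ξ) = r • E W x ξ := by
  have h1 := Z_smul (W := W) hm hx r (E W x ξ)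
  rw [Z_E hm hx] at h1
  rw [← h1, E_Z hm hx]

lemma Z_zero (hm : 2 ≤ m) {x : Eu m} (hx : ‖x‖ = 1) : Z W x 0 = 0 := by
  have := Z_smul (W := W) hm hx 0 0
  simpa using this

lemma E_zero (hm : 2 ≤ m) {x : Eu m} (hx : ‖x‖ = 1) : E W x 0 = 0 := by
  have := E_smul (W := W) hm hx 0 0
  simpa using this

/-- for fixed `X ≠ 0` the map `Z X` is a bijection of the non-zero vectors -/
lemma bij (hm : 2 ≤ m) (X : Eu m) (hX : X ≠ 0) :
    Set.BijOn (fun Y => Z W (nz X) Y) {Y | Y ≠ 0} {ξ | ξ ≠ 0} := by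
  have hx := norm_nz hX
  refine ⟨?_, ?_, ?_⟩
  · intro Y (hY : Y ≠ 0) h
    apply hY
    have h' : Z W (nz X) Y = 0 := h
    rw [← E_Z (W := W) hm hx Y, h', E_zero hm hx]
  · intro Y _ Y' _ h
    have h' : Z W (nz X) Y = Z W (nz X) Y' := h
    rw [← E_Z (W := W) hm hx Y, h', E_Z hm hx]
  · intro ξ (hξ : ξ ≠ 0)
    refine ⟨E W (nz X) ξ, ?_, Z_E hm hx ξ⟩
    intro h
    apply hξ
    rw [← Z_E (W := W) hm hx ξ, h, Z_zero hm hx]

/-- the eikonal identity -/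
lemma eik (hm : 2 ≤ m) (X Y : Eu m) (hX : X ≠ 0) :
    W.G X (Z W (nz X) Y) (Z W (nz X) Y) = ‖Y‖ ^ 2 := by
  have hx := norm_nz hX
  obtain ⟨v, ζ, h, -, rfl⟩ := exists_Pl (W := W) hm hx Y
  have hG : W.G X = W.G (nz X) := by
    have := W.G_smul ‖X‖ (nz X) (norm_pos_iff.2 hX)
    rw [norm_smul_nz] at this
    exact this
  have hM := met W (nz X) hx
  have h1 : W.G (nz X) (nz X) v = 0 := by rw [hM.rad, h.orth]
  have h2 : W.G (nz X) v (nz X) = 0 := by rw [hM.symm, h1]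
  rw [Z_frame h, hG, h.norm_Pl, Complex.sq_norm, Complex.normSq_apply]
  simp only [map_add, map_smul, _root_.add_apply, _root_.smul_apply, smul_eq_mul, h1, h2, hM.self,
    h.one]
  ring

end Crest.Agent.R208.GW
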