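import Crest.Agent.R208.GW2

/-!
R208, block GW (helper499), file 3: smoothness of `E` and `Z`, derivative of the rotation.
-/

set_option autoImplicit false

open scoped RealInnerProductSpace ContDiff Topology
open Complex (arg)
open Filter

noncomputable section

namespace Crest.Agent.R208.GW

open Crest.Agent.R208.JT Crest.Agent.R208.GH

variable {m : ℕ} {W : WS m}

/-! ### derivative of the plane map -/

lemma Fr.Pl_log {x v : Eu m} (_h : Fr W x v) {ζ : ℂ} (hζ : ζ ≠ 0) :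
    Pl W x v ζ = Real.exp (Complex.log ζ).re • gam W x v (Complex.log ζ).im := by
  rw [Pl, Complex.log_re, Complex.log_im, Real.exp_log (norm_pos_iff.2 hζ)]

lemma Fr.hasDerivAt_Pl {x v : Eu m} (h : Fr W x v) {ζ : ℝ → ℂ} {ζ' : ℂ} {t r : ℝ}
    (hζ : HasDerivAt ζ ζ' t) (hr : 0 < r) (hr' : ζ t = r) :
    HasDerivAt (fun s => Pl W x v (ζ s)) (ζ'.re • x + ζ'.im • v) t := by
  have hslit : ζ t ∈ Complex.slitPlane := by
    rw [hr']; exact Complex.ofReal_mem_slitPlane.2 hr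
  have h1 : HasDerivAt (fun s => Complex.log (ζ s)) (ζ' / ζ t) t := HasDerivAt.clog_real hζ hslit
  have h2 : HasDerivAt (fun s => (Complex.log (ζ s)).re) (ζ' / ζ t).re t :=
    Complex.reCLM.hasFDerivAt.comp_hasDerivAt t h1
  have h3 : HasDerivAt (fun s => (Complex.log (ζ s)).im) (ζ' / ζ t).im t :=
    Complex.imCLM.hasFDerivAt.comp_hasDerivAt t h1
  have hlog : Complex.log (ζ t) = (Real.log r : ℝ) := by
    rw [hr', Complex.ofReal_log hr.le]
  have hg : HasDerivAt (gam W x v) v ((Complex.log (ζ t)).im) := by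
    have := h.hasDeriv 0
    rw [h.vel_zero] at this
    rw [hlog, Complex.ofReal_im]; exact this
  have h4 : HasDerivAt (fun s => gam W x v (Complex.log (ζ s)).im) ((ζ' / ζ t).im • v) t :=
    HasDerivAt.scomp (h := fun s => (Complex.log (ζ s)).im) t hg h3
  have h5 := (h2.exp).smul h4
  have h6 : (fun s => Pl W x v (ζ s)) =ᶠ[𝓝 t]
      fun s => Real.exp (Complex.log (ζ s)).re • gam W x v (Complex.log (ζ s)).im := by
    have hne : ∀ᶠ s in 𝓝 t, ζ s ≠ 0 := by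
      apply hζ.continuousAt.eventually_ne
      rw [hr']; exact_mod_cast hr.ne'
    filter_upwards [hne] with s hs using h.Pl_log hs
  refine (h5.congr_of_eventuallyEq h6).congr_deriv ?_
  have hre : Real.exp (Complex.log (ζ t)).re = r := by
    rw [hlog, Complex.ofReal_re, Real.exp_log hr]
  have him : (Complex.log (ζ t)).im = 0 := by rw [hlog, Complex.ofReal_im]
  have e1 : (ζ' / ζ t).re = ζ'.re / r := by rw [hr', Complex.div_ofReal_re]
  have e2 : (ζ' / ζ t).im = ζ'.im / r := by rw [hr', Complex.div_ofReal_im]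
  rw [hre, him, h.gam_zero, e1, e2, smul_smul, add_comm]
  congr 2 <;> field_simp

lemma hasDeriv (hm : 2 ≤ m) (X Y : Eu m) (hX : X ≠ 0) :
    HasDerivAt (fun t : ℝ => A W (Real.cos t • X) (Real.sin t • Y)) (Z W (nz X) Y) 0 := by
  have hx := norm_nz hX
  obtain ⟨v, ζ, h, -, hY⟩ := exists_Pl (W := W) hm hx Y
  have hXn : X = ‖X‖ • nz X := (norm_smul_nz X).symm
  have hr := norm_pos_iff.2 hX
  generalize hxd : nz X = x at *
  generalize ‖X‖ = r at *
  have h1 : (fun t : ℝ => A W (Real.cos t • X) (Real.sin t • Y)) =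
      fun t : ℝ => Pl W x v ((Real.cos t : ℂ) * r + (Real.sin t : ℂ) * ζ) := by
    ext1 t
    have h2 : X = Pl W x v (r : ℝ) := by rw [h.Pl_ofReal, hXn]
    rw [h2, hY, ← h.Pl_smul, ← h.Pl_smul, h.A_Pl]
  rw [h1, hY, Z_frame h]
  have h2 : HasDerivAt (fun t : ℝ => (Real.cos t : ℂ) * r + (Real.sin t : ℂ) * ζ) ζ 0 := by
    have hc : HasDerivAt (fun t : ℝ => (Real.cos t : ℂ)) ((-Real.sin 0 : ℝ) : ℂ) 0 :=
      (Real.hasDerivAt_cos 0).ofReal_comp
    have hs : HasDerivAt (fun t : ℝ => (Real.sin t : ℂ)) ((Real.cos 0 : ℝ) : ℂ) 0 :=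
      (Real.hasDerivAt_sin 0).ofReal_comp
    have h3 : HasDerivAt (fun t : ℝ => (Real.cos t : ℂ) * r + (Real.sin t : ℂ) * ζ)
        (((-Real.sin 0 : ℝ) : ℂ) * r + ((Real.cos 0 : ℝ) : ℂ) * ζ) 0 :=
      (hc.mul_const (r : ℂ)).add (hs.mul_const ζ)
    refine h3.congr_deriv ?_
    simp
  exact h.hasDerivAt_Pl h2 hr (by simp)

/-! ### derivative of the exponential map -/

/-- derivative of `Lam (x, ·)` -/
def DL (W : WS m) (x w u : Eu m) : Eu m := fderiv ℝ W.Lam (x, w) (0, u)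

lemma ne_of_unit {x : Eu m} (hx : ‖x‖ = 1) : x ≠ 0 := by rintro rfl; simp at hx

lemma differentiableAt_Lam {x : Eu m} (hx : ‖x‖ = 1) (w : Eu m) : DifferentiableAt ℝ W.Lam (x, w) :=
  (W.Lam_smooth x w (ne_of_unit hx)).differentiableAt (by simp)

lemma hasFDerivAt_Lam_snd {x : Eu m} (hx : ‖x‖ = 1) (w : Eu m) :
    HasFDerivAt (fun w => W.Lam (x, w))
      ((fderiv ℝ W.Lam (x, w)).comp (ContinuousLinearMap.inr ℝ (Eu m) (Eu m))) w := by
  have h1 : HasFDerivAt (fun w : Eu m => (x, w)) (ContinuousLinearMap.inr ℝ (Eu m) (Eu m)) w :=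
    hasFDerivAt_prodMk_right x w
  exact (differentiableAt_Lam (W := W) hx w).hasFDerivAt.comp w h1

lemma hasDerivAt_Lam_line {x : Eu m} (hx : ‖x‖ = 1) (w u : Eu m) :
    HasDerivAt (fun t : ℝ => W.Lam (x, w + t • u)) (DL W x w u) 0 := by
  have hl : HasDerivAt (fun t : ℝ => w + t • u) u 0 := by
    simpa using ((hasDerivAt_id (0 : ℝ)).smul_const u).const_add w
  have h1 := hasFDerivAt_Lam_snd (W := W) hx w
  have h2 : HasFDerivAt (fun w => W.Lam (x, w))
      ((fderiv ℝ W.Lam (x, w)).comp (ContinuousLinearMap.inr ℝ (Eu m) (Eu m))) (w + (0 : ℝ) • u) := by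
    rw [zero_smul, add_zero]; exact h1
  exact HasFDerivAt.comp_hasDerivAt (l := fun w => W.Lam (x, w)) (f := fun t : ℝ => w + t • u)
    (0 : ℝ) h2 hl

lemma DL_orth {x w u : Eu m} (hx : ‖x‖ = 1) (hw : ⟪x, w⟫ = 0) (hu : ⟪x, u⟫ = 0) :
    ⟪W.Lam (x, w), DL W x w u⟫ = 0 := by
  have h1 := hasDerivAt_Lam_line (W := W) hx w u
  have h2 := h1.inner ℝ h1
  have h3 : (fun t : ℝ => ⟪W.Lam (x, w + t • u), W.Lam (x, w + t • u)⟫) = fun _ => (1 : ℝ) := by
    ext t
    rw [real_inner_self_eq_norm_sq, W.norm_Lam x _ hx (by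
      rw [inner_add_right, inner_smul_right, hw, hu]; ring)]
    norm_num
  rw [h3] at h2
  have h4 := h2.unique (hasDerivAt_const (0 : ℝ) (1 : ℝ))
  simp only [zero_smul, add_zero] at h4
  rw [real_inner_comm (W.Lam (x, w))] at h4
  linarith

lemma DL_add (x w u u' : Eu m) : DL W x w (u + u') = DL W x w u + DL W x w u' := by
  rw [DL, DL, DL, ← map_add]; simp

lemma DL_smul (x w u : Eu m) (r : ℝ) : DL W x w (r • u) = r • DL W x w u := by
  rw [DL, DL, ← map_smul]; simp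

/-- `Eh (X, ρ x + w) = ρ Lam (x, w)`, `x = X/|X|` -/
def Eh (W : WS m) (P : Eu m × Eu m) : Eu m :=
  ⟪nz P.1, P.2⟫ • W.Lam (nz P.1, orth (nz P.1) P.2)

/-- `Rh (X, ρ x + w)` = the round polar map -/
def Rh (W : WS m) (P : Eu m × Eu m) : Eu m := RP (nz P.1) (W.G P.1) P.2

lemma G_nz {X : Eu m} (hX : X ≠ 0) : W.G X = W.G (nz X) := by
  have := W.G_smul ‖X‖ (nz X) (norm_pos_iff.2 hX)
  rw [norm_smul_nz] at this
  exact this

lemma contDiffAt_nz {X : Eu m} (hX : X ≠ 0) : ContDiffAt ℝ ∞ (nz : Eu m → Eu m) X :=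
  ((contDiffAt_norm ℝ hX).inv (norm_ne_zero_iff.2 hX)).smul contDiffAt_id

lemma contDiffAt_Eh {P : Eu m × Eu m} (hX : P.1 ≠ 0) : ContDiffAt ℝ ∞ (Eh W) P := by
  have h1 : ContDiffAt ℝ ∞ (fun P : Eu m × Eu m => nz P.1) P :=
    (contDiffAt_nz hX).comp P contDiffAt_fst
  have h2 : ContDiffAt ℝ ∞ (fun P : Eu m × Eu m => ⟪nz P.1, P.2⟫) P := h1.inner ℝ contDiffAt_snd
  have h3 : ContDiffAt ℝ ∞ (fun P : Eu m × Eu m => orth (nz P.1) P.2) P :=
    contDiffAt_snd.sub (h2.smul h1)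
  have h4 : ContDiffAt ℝ ∞ (fun P : Eu m × Eu m => W.Lam (nz P.1, orth (nz P.1) P.2)) P :=
    (W.Lam_smooth (nz P.1) (orth (nz P.1) P.2) (ne_of_unit (norm_nz hX))).comp P (h1.prodMk h3)
  exact h2.smul h4

lemma contDiffAt_Rh {P : Eu m × Eu m} (hX : P.1 ≠ 0) : ContDiffAt ℝ ∞ (Rh W) P := by
  have h1 : ContDiffAt ℝ ∞ (fun P : Eu m × Eu m => nz P.1) P :=
    (contDiffAt_nz hX).comp P contDiffAt_fst
  have h2 : ContDiffAt ℝ ∞ (fun P : Eu m × Eu m => W.G P.1) P :=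
    (W.G_smooth P.1 hX).comp P contDiffAt_fst
  exact contDiff_RP.contDiffAt.comp P (h1.prodMk (h2.prodMk contDiffAt_snd))

lemma orth_smul_self {x : Eu m} (hx : ‖x‖ = 1) (ρ : ℝ) {w : Eu m} (hw : ⟪x, w⟫ = 0) :
    GH.orth x (ρ • x + w) = w ∧ ⟪x, ρ • x + w⟫ = ρ := by
  have h1 : ⟪x, ρ • x + w⟫ = ρ := by
    rw [inner_add_right, inner_smul_right, hw, real_inner_self_eq_norm_sq, hx]; ring
  refine ⟨?_, h1⟩
  rw [GH.orth, h1]; abel

lemma E_Rh (hm : 2 ≤ m) {X : Eu m} (hX : X ≠ 0) (η : Eu m) : E W (nz X) (Rh W (X, η)) = Eh W (X, η) := by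
  have hx := norm_nz hX
  rw [Rh, Eh, G_nz hX, RP]
  simp only
  set x := nz X
  set ρ := ⟪x, η⟫
  have hw : ⟪x, orth x η⟫ = 0 := inner_orth hx η
  set w := orth x η
  by_cases h0 : w = 0
  · rw [h0]
    simp only [map_zero, Cs_zero, smul_zero, add_zero, one_smul, W.Lam_zero x hx]
    obtain ⟨v, h⟩ := exists_Fr W hm hx
    have h1 := E_frame h ρ 0
    rw [zero_smul, add_zero] at h1
    rw [h1]
    have h2 := h.Pl_ofReal ρ
    rw [← h2]
    congr 1
  · obtain ⟨h, hs, hs2⟩ := Fr.mk' (W := W) hx hw h0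
    set s := Real.sqrt (W.G x w w)
    have hw' : w = s • (s⁻¹ • w) := by rw [smul_smul, mul_inv_cancel₀ hs.ne', one_smul]
    have h1 : ρ • (Cs (W.G x w w) • x + Sn (W.G x w w) • w)
        = (ρ * Real.cos s) • x + (ρ * Real.sin s) • (s⁻¹ • w) := by
      rw [← hs2, Cs_sq, smul_add, smul_smul]
      congr 1
      conv_lhs => rw [hw']
      rw [smul_smul, smul_smul, ← Sn_sq s]
      congr 1; ring
    rw [h1, E_frame h]
    have h2 : (⟨ρ * Real.cos s, ρ * Real.sin s⟩ : ℂ) = ρ * Complex.exp (s * Complex.I) := by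
      apply Complex.ext
      · rw [Complex.re_ofReal_mul, Complex.exp_ofReal_mul_I_re]
      · rw [Complex.im_ofReal_mul, Complex.exp_ofReal_mul_I_im]
    rw [h2, h.Pl_polar, gam, ← hw']

lemma Z_Eh (hm : 2 ≤ m) {X : Eu m} (hX : X ≠ 0) (η : Eu m) : Z W (nz X) (Eh W (X, η)) = Rh W (X, η) := by
  rw [← E_Rh hm hX, Z_E hm (norm_nz hX)]

/-- injectivity of the derivative of `(X, η) ↦ (X, f (X, η))` -/
lemma inj_pair {f : Eu m × Eu m → Eu m} {P : Eu m × Eu m} (hf : DifferentiableAt ℝ f P)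
    (h : ∀ v, fderiv ℝ (fun η => f (P.1, η)) P.2 v = 0 → v = 0) :
    ∀ v, fderiv ℝ (fun Q : Eu m × Eu m => (Q.1, f Q)) P v = 0 → v = 0 := by
  intro v hv
  have h1 : HasFDerivAt (fun Q : Eu m × Eu m => (Q.1, f Q))
      ((ContinuousLinearMap.fst ℝ (Eu m) (Eu m)).prod (fderiv ℝ f P)) P :=
    hasFDerivAt_fst.prodMk hf.hasFDerivAt
  rw [h1.fderiv] at hv
  have h2 : v.1 = 0 := congrArg Prod.fst hv
  have h3 : fderiv ℝ f P v = 0 := congrArg Prod.snd hv
  have h4 : HasFDerivAt (fun η => f (P.1, η))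
      ((fderiv ℝ f P).comp (ContinuousLinearMap.inr ℝ (Eu m) (Eu m))) P.2 :=
    HasFDerivAt.comp P.2 (g := f) (f := fun η => (P.1, η)) (by exact hf.hasFDerivAt)
      (hasFDerivAt_prodMk_right P.1 P.2)
  have h5 : v.2 = 0 := by
    apply h
    rw [h4.fderiv]
    have h6 : v = (0, v.2) := Prod.ext h2 rfl
    rw [h6] at h3
    exact h3
  exact Prod.ext h2 h5

lemma fderiv_Rh_inj {X : Eu m} (hX : X ≠ 0) {η v : Eu m} (hρ : ⟪nz X, η⟫ ≠ 0)
    (hq : W.G (nz X) (orth (nz X) η) (orth (nz X) η) < Real.pi ^ 2)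
    (h : fderiv ℝ (fun η => Rh W (X, η)) η v = 0) : v = 0 := by
  have hM := met W (nz X) (norm_nz hX)
  refine hM.fderiv_RP_inj hρ hq ?_
  have h1 : (fun η => Rh W (X, η)) = RP (nz X) (W.G (nz X)) := by
    ext1 η
    rw [Rh, G_nz hX]
  rw [h1] at h
  exact h

lemma hasFDerivAt_Eh {X : Eu m} (hX : X ≠ 0) (η : Eu m) (v : Eu m) :
    fderiv ℝ (fun η => Eh W (X, η)) η v = ⟪nz X, v⟫ • W.Lam (nz X, orth (nz X) η) +
      ⟪nz X, η⟫ • DL W (nz X) (orth (nz X) η) (orth (nz X) v) := by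
  have hx := norm_nz hX
  have hd : DifferentiableAt ℝ (fun η => Eh W (X, η)) η := by
    have h1 := (contDiffAt_Eh (W := W) (P := (X, η)) hX).differentiableAt (by simp)
    exact h1.comp η (by fun_prop)
  have hl : HasDerivAt (fun t : ℝ => η + t • v) v 0 := by
    simpa using ((hasDerivAt_id (0 : ℝ)).smul_const v).const_add η
  have h1 : HasDerivAt (fun t : ℝ => Eh W (X, η + t • v))
      (fderiv ℝ (fun η => Eh W (X, η)) η v) 0 := by
    have h2 : HasFDerivAt (fun η => Eh W (X, η)) (fderiv ℝ (fun η => Eh W (X, η)) η)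
        (η + (0 : ℝ) • v) := by rw [zero_smul, add_zero]; exact hd.hasFDerivAt
    exact h2.comp_hasDerivAt (0 : ℝ) hl
  have h2 : HasDerivAt (fun t : ℝ => ⟪nz X, η + t • v⟫) ⟪nz X, v⟫ 0 := hasDerivAt_inner_const _ hl
  have h3 := hasDerivAt_Lam_line (W := W) hx (orth (nz X) η) (orth (nz X) v)
  have h4 := h2.smul h3
  have h5 : (fun t : ℝ => Eh W (X, η + t • v)) =
      fun t : ℝ => ⟪nz X, η + t • v⟫ • W.Lam (nz X, orth (nz X) η + t • orth (nz X) v) := by
    ext1 t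
    rw [Eh]
    simp only [orth_add, orth_smul]
  rw [h5] at h1
  have h6 := h1.unique h4
  simp only [zero_smul, add_zero] at h6
  rw [h6, add_comm]

lemma fderiv_Eh_inj {X : Eu m} (hX : X ≠ 0) {η v : Eu m} (hρ : ⟪nz X, η⟫ ≠ 0)
    (hq : W.G (nz X) (orth (nz X) η) (orth (nz X) η) < Real.pi ^ 2)
    (h : fderiv ℝ (fun η => Eh W (X, η)) η v = 0) : v = 0 := by
  have hx := norm_nz hX
  rw [hasFDerivAt_Eh hX] at h
  set x := nz X
  have hw : ⟪x, orth x η⟫ = 0 := inner_orth hx η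
  have hu : ⟪x, orth x v⟫ = 0 := inner_orth hx v
  have h1 : ⟪x, v⟫ = 0 := by
    have h2 := congrArg (fun y => ⟪W.Lam (x, orth x η), y⟫) h
    simp only [inner_add_right, inner_smul_right, DL_orth hx hw hu, inner_zero_right,
      real_inner_self_eq_norm_sq, W.norm_Lam x _ hx hw] at h2
    linarith
  rw [h1, zero_smul, zero_add] at h
  have h2 : DL W x (orth x η) (orth x v) = 0 := (smul_eq_zero.1 h).resolve_left hρ
  have h3 := W.nonconj x (orth x η) (orth x v) hx hw hu hq h2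
  rw [← decomp x v, h1, h3]; simp

/-- smoothness of `E` -/
lemma contDiffAt_E (hm : 2 ≤ m) {X ξ : Eu m} (hX : X ≠ 0) (hξ : ξ ≠ 0) :
    ContDiffAt ℝ ∞ (fun P : Eu m × Eu m => E W (nz P.1) P.2) (X, ξ) := by
  have hx := norm_nz hX
  have main : ∀ ξ : Eu m, (∀ r : ℝ, 0 ≤ r → ξ ≠ -(r • nz X)) →
      ContDiffAt ℝ ∞ (fun P : Eu m × Eu m => E W (nz P.1) P.2) (X, ξ) := by
    intro ξ hneg
    obtain ⟨ρ, w, hρ, hw, hq, hξ⟩ := (met W (nz X) hx).exists_RP hneg
    obtain ⟨o1, o2⟩ := orth_smul_self hx ρ hw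
    set η := ρ • nz X + w with hη
    have e1 : Rh W (X, η) = ξ := by
      rw [Rh, G_nz hX]
      simp only
      rw [hη, RP_add _ hx hw, hξ]
    have hf : ContDiffAt ℝ ∞ (fun Q : Eu m × Eu m => (Q.1, Rh W Q)) (X, η) :=
      contDiffAt_fst.prodMk (contDiffAt_Rh (P := (X, η)) hX)
    have hinj := inj_pair (f := Rh W) (P := (X, η))
      ((contDiffAt_Rh (W := W) (P := (X, η)) hX).differentiableAt (by simp))
      (fun v hv => fderiv_Rh_inj (W := W) hX (η := η) (by rw [o2]; exact hρ.ne')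
        (by rw [o1]; exact hq) hv)
    have hg : ContDiffAt ℝ ∞ (fun Q : Eu m × Eu m =>
        (fun P : Eu m × Eu m => E W (nz P.1) P.2) ((fun Q : Eu m × Eu m => (Q.1, Rh W Q)) Q))
        (X, η) := by
      refine (contDiffAt_Eh (W := W) (P := (X, η)) hX).congr_of_eventuallyEq ?_
      have : ∀ᶠ Q : Eu m × Eu m in 𝓝 (X, η), Q.1 ≠ 0 :=
        (continuous_fst.tendsto (X, η)).eventually_ne hX
      filter_upwards [this] with Q hQ
      exact E_Rh hm hQ Q.2
    have := contDiffAt_of_comp (g := fun P : Eu m × Eu m => E W (nz P.1) P.2) hf hinj rfl hg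
    simp only [e1] at this
    exact this
  by_cases hneg : ∀ r : ℝ, 0 ≤ r → ξ ≠ -(r • nz X)
  · exact main ξ hneg
  · push Not at hneg
    obtain ⟨r, hr, hr2⟩ := hneg
    have h1 := main (-ξ) (by
      intro s hs hcon
      apply hξ
      have h2 : (r + s) • nz X = 0 := by
        rw [hr2, neg_neg] at hcon
        rw [add_smul, hcon]; simp
      rcases smul_eq_zero.1 h2 with h3 | h3
      · have : r = 0 := by linarith
        rw [hr2, this]; simp
      · exact absurd h3 (ne_of_unit hx))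
    have h2 : ContDiffAt ℝ ∞ (fun P : Eu m × Eu m => -(fun P : Eu m × Eu m => E W (nz P.1) P.2)
        (P.1, -P.2)) (X, ξ) := by
      apply ContDiffAt.neg
      have h3 : ContDiffAt ℝ ∞ (fun P : Eu m × Eu m => (P.1, -P.2)) (X, ξ) :=
        contDiffAt_fst.prodMk contDiffAt_snd.neg
      exact ContDiffAt.comp (X, ξ) (by exact h1) h3
    refine h2.congr_of_eventuallyEq ?_
    have : ∀ᶠ Q : Eu m × Eu m in 𝓝 (X, ξ), Q.1 ≠ 0 :=
      (continuous_fst.tendsto (X, ξ)).eventually_ne hX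
    filter_upwards [this] with Q hQ
    have h4 := E_smul (W := W) hm (norm_nz hQ) (-1) Q.2
    rw [neg_one_smul, neg_one_smul] at h4
    rw [h4, neg_neg]

/-- every vector off the negative axis is in the image of `Eh` -/
lemma exists_Eh {X Y : Eu m} (hX : X ≠ 0) (hY : Y ≠ 0) (hneg : nz Y ≠ -nz X) :
    ∃ w, ⟪nz X, w⟫ = 0 ∧ W.G (nz X) w w < Real.pi ^ 2 ∧ Eh W (X, ‖Y‖ • nz X + w) = Y := by
  have hx := norm_nz hX
  obtain ⟨w, hw1, hw2, hw3⟩ := W.surj (nz X) (nz Y) hx (norm_nz hY) hneg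
  refine ⟨w, hw1, hw2, ?_⟩
  obtain ⟨o1, o2⟩ := orth_smul_self hx ‖Y‖ hw1
  rw [Eh]
  simp only
  rw [o1, o2, hw3, norm_smul_nz]

lemma neg_ne_of_ne {X Y : Eu m} (hX : X ≠ 0) (h : nz Y = -nz X) : nz (-Y) ≠ -nz X := by
  rw [nz_neg, h, neg_neg]
  intro h1
  have h2 : (2 : ℝ) • nz X = 0 := by rw [two_smul]; nth_rw 1 [h1]; simp
  exact ne_of_unit (norm_nz hX) ((smul_eq_zero.1 h2).resolve_left two_ne_zero)

/-- smoothness of `Z` -/
lemma contDiffAt_Z (hm : 2 ≤ m) {X Y : Eu m} (hX : X ≠ 0) (hY : Y ≠ 0) :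
    ContDiffAt ℝ ∞ (fun P : Eu m × Eu m => Z W (nz P.1) P.2) (X, Y) := by
  have hx := norm_nz hX
  have main : ∀ Y : Eu m, Y ≠ 0 → nz Y ≠ -nz X →
      ContDiffAt ℝ ∞ (fun P : Eu m × Eu m => Z W (nz P.1) P.2) (X, Y) := by
    intro Y hY hneg
    obtain ⟨w, hw, hq, hYw⟩ := exists_Eh (W := W) hX hY hneg
    obtain ⟨o1, o2⟩ := orth_smul_self hx ‖Y‖ hw
    set η := ‖Y‖ • nz X + w with hη
    have hf : ContDiffAt ℝ ∞ (fun Q : Eu m × Eu m => (Q.1, Eh W Q)) (X, η) :=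
      contDiffAt_fst.prodMk (contDiffAt_Eh (P := (X, η)) hX)
    have hinj := inj_pair (f := Eh W) (P := (X, η))
      ((contDiffAt_Eh (W := W) (P := (X, η)) hX).differentiableAt (by simp))
      (fun v hv => fderiv_Eh_inj (W := W) hX (η := η) (by rw [o2]; exact norm_ne_zero_iff.2 hY)
        (by rw [o1]; exact hq) hv)
    have hg : ContDiffAt ℝ ∞ (fun Q : Eu m × Eu m =>
        (fun P : Eu m × Eu m => Z W (nz P.1) P.2) ((fun Q : Eu m × Eu m => (Q.1, Eh W Q)) Q))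
        (X, η) := by
      refine (contDiffAt_Rh (W := W) (P := (X, η)) hX).congr_of_eventuallyEq ?_
      have : ∀ᶠ Q : Eu m × Eu m in 𝓝 (X, η), Q.1 ≠ 0 :=
        (continuous_fst.tendsto (X, η)).eventually_ne hX
      filter_upwards [this] with Q hQ
      exact Z_Eh hm hQ Q.2
    have := contDiffAt_of_comp (g := fun P : Eu m × Eu m => Z W (nz P.1) P.2) hf hinj rfl hg
    simp only [hYw] at this
    exact this
  by_cases hneg : nz Y = -nz X
  · have h1 := main (-Y) (neg_ne_zero.2 hY) (neg_ne_of_ne hX hneg)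
    have h2 : ContDiffAt ℝ ∞ (fun P : Eu m × Eu m => -(fun P : Eu m × Eu m => Z W (nz P.1) P.2)
        (P.1, -P.2)) (X, Y) := by
      apply ContDiffAt.neg
      have h3 : ContDiffAt ℝ ∞ (fun P : Eu m × Eu m => (P.1, -P.2)) (X, Y) :=
        contDiffAt_fst.prodMk contDiffAt_snd.neg
      exact ContDiffAt.comp (X, Y) (by exact h1) h3
    refine h2.congr_of_eventuallyEq ?_
    have : ∀ᶠ Q : Eu m × Eu m in 𝓝 (X, Y), Q.1 ≠ 0 :=
      (continuous_fst.tendsto (X, Y)).eventually_ne hX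
    filter_upwards [this] with Q hQ
    have h4 := Z_smul (W := W) hm (norm_nz hQ) (-1) Q.2
    rw [neg_one_smul, neg_one_smul] at h4
    rw [h4, neg_neg]
  · exact main Y hY hneg

lemma contDiffAt_Fn (hm : 2 ≤ m) {X Y : Eu m} (hX : X ≠ 0) (hY : Y ≠ 0) :
    ContDiffAt ℝ ∞ (Fn W) (X, Y) :=
  contDiffAt_fst.inner ℝ (contDiffAt_Z hm hX hY)

/-- derivative of `Z X` is injective -/
lemma inj (hm : 2 ≤ m) (X Y : Eu m) (hX : X ≠ 0) (hY : Y ≠ 0) :
    Function.Injective (fderiv ℝ (fun Y => Z W (nz X) Y) Y) := by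
  have hx := norm_nz hX
  have hdiff : ∀ Y : Eu m, Y ≠ 0 → DifferentiableAt ℝ (fun Y => Z W (nz X) Y) Y := by
    intro Y hY
    have h1 := (contDiffAt_Z (W := W) hm hX hY).differentiableAt (by simp)
    exact DifferentiableAt.comp Y (g := fun P : Eu m × Eu m => Z W (nz P.1) P.2)
      (f := fun Y => (X, Y)) h1 (by fun_prop)
  have main : ∀ Y : Eu m, Y ≠ 0 → nz Y ≠ -nz X →
      ∀ v, fderiv ℝ (fun Y => Z W (nz X) Y) Y v = 0 → v = 0 := by
    intro Y hY hneg v hv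
    obtain ⟨w, hw, hq, hYw⟩ := exists_Eh (W := W) hX hY hneg
    obtain ⟨o1, o2⟩ := orth_smul_self hx ‖Y‖ hw
    set η := ‖Y‖ • nz X + w with hη
    have hE : DifferentiableAt ℝ (fun η => Eh W (X, η)) η := by
      have h1 := (contDiffAt_Eh (W := W) (P := (X, η)) hX).differentiableAt (by simp)
      exact h1.comp η (by fun_prop)
    have hρ : ⟪nz X, η⟫ ≠ 0 := by rw [o2]; exact norm_ne_zero_iff.2 hY
    have hq' : W.G (nz X) (orth (nz X) η) (orth (nz X) η) < Real.pi ^ 2 := by rw [o1]; exact hq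
    -- the derivative of `Eh` is surjective
    have hEi : Function.Injective (fderiv ℝ (fun η => Eh W (X, η)) η) := by
      intro a b hab
      rw [← sub_eq_zero]
      refine fderiv_Eh_inj hX hρ hq' ?_
      rw [map_sub, hab, sub_self]
    have hEs : Function.Surjective (fderiv ℝ (fun η => Eh W (X, η)) η) :=
      (LinearMap.injective_iff_surjective (f := (fderiv ℝ (fun η => Eh W (X, η)) η).toLinearMap)).1 hEi
    obtain ⟨u, hu⟩ := hEs v
    have hcomp : (fun η => Z W (nz X) (Eh W (X, η))) = fun η => Rh W (X, η) := by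
      ext1 η; exact Z_Eh hm hX η
    have hZ : HasFDerivAt (fun Y => Z W (nz X) Y) (fderiv ℝ (fun Y => Z W (nz X) Y) Y)
        (Eh W (X, η)) := by rw [hYw]; exact (hdiff Y hY).hasFDerivAt
    have h2 := (hZ.comp η hE.hasFDerivAt).fderiv
    have h3 : fderiv ℝ (fun η => Rh W (X, η)) η u = 0 := by
      rw [← hcomp]
      have h4 : fderiv ℝ (fun η => Z W (nz X) (Eh W (X, η))) η =
        (fderiv ℝ (fun Y => Z W (nz X) Y) Y).comp (fderiv ℝ (fun η => Eh W (X, η)) η) := h2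
      rw [h4, ContinuousLinearMap.comp_apply, hu, hv]
    have h5 : u = 0 := fderiv_Rh_inj hX hρ hq' h3
    rw [← hu, h5, map_zero]
  have key : ∀ v, fderiv ℝ (fun Y => Z W (nz X) Y) Y v = 0 → v = 0 := by
    by_cases hneg : nz Y = -nz X
    · intro v hv
      have hY' : -Y ≠ 0 := neg_ne_zero.2 hY
      refine main (-Y) hY' (neg_ne_of_ne hX hneg) v ?_
      have h1 : (fun Y => Z W (nz X) Y) = fun Y => -Z W (nz X) (-Y) := by
        ext1 Y
        have h4 := Z_smul (W := W) hm hx (-1) Y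
        rw [neg_one_smul, neg_one_smul] at h4
        rw [h4, neg_neg]
      have hd := (hdiff (-Y) hY').hasFDerivAt
      have h2 : HasFDerivAt (fun Y => -Z W (nz X) (-Y))
          (-((fderiv ℝ (fun Y => Z W (nz X) Y) (-Y)).comp (-ContinuousLinearMap.id ℝ (Eu m)))) Y :=
        (HasFDerivAt.comp Y (g := fun Y => Z W (nz X) Y) (f := fun Y => -Y) hd
          (hasFDerivAt_id Y).neg).neg
      rw [← h1] at h2
      rw [h2.fderiv] at hv
      simpa using hv
    · exact main Y hY hneg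
  intro a b hab
  rw [← sub_eq_zero]
  exact key _ (by rw [map_sub, hab, sub_self])

end Crest.Agent.R208.GW
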