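import Crest.Agent.R208.GW3

/-!
R208, block GW (helper499), file 4: the first variation `∂F/∂X = G_X (Z X Y, ·)`.
-/

set_option autoImplicit false

open scoped RealInnerProductSpace ContDiff Topology
open Complex (arg)
open Filter

noncomputable section

namespace Crest.Agent.R208.GW

open Crest.Agent.R208.JT Crest.Agent.R208.GH

variable {m : ℕ} {W : WS m}

lemma exists_fr_smul (hm : 2 ≤ m) {y w : Eu m} (hy : ‖y‖ = 1) (hw : ⟪y, w⟫ = 0) :
    ∃ (e : Eu m) (s : ℝ), Fr W y e ∧ 0 ≤ s ∧ w = s • e := by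
  by_cases h0 : w = 0
  · obtain ⟨e, he⟩ := exists_Fr W hm hy
    exact ⟨e, 0, he, le_rfl, by rw [h0, zero_smul]⟩
  · obtain ⟨h1, h2, -⟩ := Fr.mk' (W := W) hy hw h0
    exact ⟨_, _, h1, h2.le, by rw [smul_smul, mul_inv_cancel₀ h2.ne', one_smul]⟩

lemma Fr.DL_self {y e : Eu m} (h : Fr W y e) (s : ℝ) :
    DL W y (s • e) (s • e) = s • W.Vel y e s := by
  have h1 := hasDerivAt_Lam_line (W := W) h.unit (s • e) (s • e)
  have h2 : (fun t : ℝ => W.Lam (y, s • e + t • s • e)) = fun t : ℝ => gam W y e (s + t * s) := by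
    ext1 t
    rw [gam, add_smul, smul_smul]
  rw [h2] at h1
  have h3 : HasDerivAt (fun t : ℝ => s + t * s) s 0 := by
    simpa using ((hasDerivAt_id (0 : ℝ)).mul_const s).const_add s
  have h4 : HasDerivAt (gam W y e) (W.Vel y e s) (s + 0 * s) := by
    rw [zero_mul, add_zero]; exact h.hasDeriv s
  exact h1.unique (HasDerivAt.scomp (h := fun t : ℝ => s + t * s) (0 : ℝ) h4 h3)

/-- `Z` does not change if the base point is replaced by its antipode -/
lemma Z_neg_left (hm : 2 ≤ m) {x : Eu m} (hx : ‖x‖ = 1) (Y : Eu m) : Z W (-x) Y = Z W x Y := by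
  obtain ⟨v, ζ, h, -, rfl⟩ := exists_Pl (W := W) hm hx Y
  have h1 := h.Pl_move' Real.pi ζ
  have h2 : W.Vel x v Real.pi = -v := by
    have := h.vel_add_pi 0
    rw [zero_add, h.vel_zero] at this
    exact this
  have h3 := h.move Real.pi
  rw [h.half, h2] at h1 h3
  have h4 : Complex.exp (-(Real.pi * Complex.I)) * ζ = -ζ := by
    rw [Complex.exp_neg, Complex.exp_pi_mul_I]
    norm_num
  rw [h4] at h1
  conv_lhs => rw [h1]
  rw [Z_frame h3, Z_frame h]
  simp

lemma hasDerivAt_Fn_left (hm : 2 ≤ m) {X Y : Eu m} (hX : X ≠ 0) (hY : Y ≠ 0) {c : ℝ → Eu m}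
    {δ : Eu m} (hc : HasDerivAt c δ 0) (hc0 : c 0 = X) :
    HasDerivAt (fun t => Fn W (c t, Y)) (fderiv ℝ (Fn W) (X, Y) (δ, 0)) 0 := by
  have h1 : HasFDerivAt (Fn W) (fderiv ℝ (Fn W) (X, Y)) (c 0, Y) := by
    rw [hc0]
    exact ((contDiffAt_Fn hm hX hY).differentiableAt (by simp)).hasFDerivAt
  have h2 : HasDerivAt (fun t => (c t, Y)) (δ, (0 : Eu m)) 0 := hc.prodMk (hasDerivAt_const _ _)
  exact HasFDerivAt.comp_hasDerivAt (f := fun t => (c t, Y)) (0 : ℝ) h1 h2

theorem grad (hm : 2 ≤ m) (X Y δ : Eu m) (hX : X ≠ 0) (hY : Y ≠ 0) :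
    fderiv ℝ (Fn W) (X, Y) (δ, 0) = W.G X (Z W (nz X) Y) δ := by
  have main : ∀ X : Eu m, X ≠ 0 → nz X ≠ -nz Y →
      fderiv ℝ (Fn W) (X, Y) (δ, 0) = W.G X (Z W (nz X) Y) δ := by
    intro X hX hneg
    have hy := norm_nz hY
    have hρ0 : ‖X‖ ≠ 0 := norm_ne_zero_iff.2 hX
    obtain ⟨w, hw, hq, hXw⟩ := exists_Eh (W := W) hY hX hneg
    obtain ⟨o1, o2⟩ := orth_smul_self hy ‖X‖ hw
    set ρ := ‖X‖ with hρ
    set y := nz Y with hyd
    set η := ρ • y + w with hη
    set r := ‖Y‖ with hr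
    have hYr : Y = r • y := (norm_smul_nz Y).symm
    have hM := met W y hy
    -- the derivative of `Eh` is surjective
    have hEd : DifferentiableAt ℝ (fun η => Eh W (Y, η)) η := by
      have h1 := (contDiffAt_Eh (W := W) (P := (Y, η)) hY).differentiableAt (by simp)
      exact h1.comp η (by fun_prop)
    have hEi : Function.Injective (fderiv ℝ (fun η => Eh W (Y, η)) η) := by
      intro a b hab
      rw [← sub_eq_zero]
      refine fderiv_Eh_inj hY (by rw [o2]; exact hρ0) (by rw [o1]; exact hq) ?_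
      rw [map_sub, hab, sub_self]
    have hEs : Function.Surjective (fderiv ℝ (fun η => Eh W (Y, η)) η) :=
      (LinearMap.injective_iff_surjective (f := (fderiv ℝ (fun η => Eh W (Y, η)) η).toLinearMap)).1 hEi
    obtain ⟨v, hv⟩ := hEs δ
    -- the curve
    have hl : HasDerivAt (fun t : ℝ => η + t • v) v 0 := by
      simpa using ((hasDerivAt_id (0 : ℝ)).smul_const v).const_add η
    have hc : HasDerivAt (fun t : ℝ => Eh W (Y, η + t • v)) δ 0 := by
      have h2 : HasFDerivAt (fun η => Eh W (Y, η)) (fderiv ℝ (fun η => Eh W (Y, η)) η)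
          (η + (0 : ℝ) • v) := by rw [zero_smul, add_zero]; exact hEd.hasFDerivAt
      have h3 := HasFDerivAt.comp_hasDerivAt (l := fun η => Eh W (Y, η))
        (f := fun t : ℝ => η + t • v) (0 : ℝ) h2 hl
      rw [hv] at h3
      exact h3
    have h1 := hasDerivAt_Fn_left (W := W) hm hX hY hc (by simpa using hXw)
    -- the function along the curve
    have h2 : (fun t : ℝ => Fn W (Eh W (Y, η + t • v), Y)) = fun t : ℝ =>
        r * (⟪y, η + t • v⟫ * Cs (W.G y (w + t • orth y v) (w + t • orth y v))) := by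
      ext1 t
      rw [Fn_comm hm, Fn]
      simp only
      rw [← hyd, Z_Eh hm hY, Rh, G_nz hY]
      simp only
      rw [← hyd]
      conv_lhs => rw [hYr]
      rw [inner_smul_left, hM.inner_RP, orth_add, o1, orth_smul]
      simp
    rw [h2] at h1
    have h3 : HasDerivAt (fun t : ℝ => ⟪y, η + t • v⟫) ⟪y, v⟫ 0 := hasDerivAt_inner_const _ hl
    have hw' : HasDerivAt (fun t : ℝ => w + t • orth y v) (orth y v) 0 := by
      simpa using ((hasDerivAt_id (0 : ℝ)).smul_const (orth y v)).const_add w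
    have h4 := hasDerivAt_quad (W.G y) hw'
    have h5 : HasDerivAt Cs (deriv Cs (W.G y w w))
        (W.G y (w + (0 : ℝ) • orth y v) (w + (0 : ℝ) • orth y v)) := by
      rw [zero_smul, add_zero]
      exact (contDiff_Cs.differentiable (by simp) _).hasDerivAt
    have h6 := (h3.mul (HasDerivAt.scomp (h := fun t : ℝ =>
      W.G y (w + t • orth y v) (w + t • orth y v)) (0 : ℝ) h5 h4)).const_mul r
    have h7 := h1.unique h6
    rw [h7]
    -- the other side
    have hδ : δ = ⟪y, v⟫ • W.Lam (y, w) + ρ • DL W y w (orth y v) := by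
      rw [← hv, hasFDerivAt_Eh hY, ← hyd, o1, o2]
    have hu : ⟪y, orth y v⟫ = 0 := inner_orth hy v
    obtain ⟨e, s, hF, hs, hws⟩ := exists_fr_smul (W := W) hm hy hw
    have hXn : nz X = gam W y e s := by
      have e1 : X = ρ • W.Lam (y, w) := by
        rw [← hXw, Eh]
        simp only
        rw [← hyd, o1, o2]
      rw [e1, nz_smul (norm_pos_iff.2 hX), nz_of_unit (W.norm_Lam y w hy hw), gam, hws]
    have hZ : Z W (nz X) Y = (r * Real.cos s) • gam W y e s + (-(r * Real.sin s)) • W.Vel y e s := by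
      rw [hXn]
      have e1 : Y = Pl W y e (r : ℝ) := by rw [hF.Pl_ofReal, ← hYr]
      conv_lhs => rw [e1, hF.Pl_move' s]
      rw [Z_frame (hF.move s)]
      have e2 : -((s : ℂ) * Complex.I) = ((-s : ℝ) : ℂ) * Complex.I := by push_cast; ring
      rw [e2, Complex.re_mul_ofReal, Complex.im_mul_ofReal, Complex.exp_ofReal_mul_I_re,
        Complex.exp_ofReal_mul_I_im, Real.cos_neg, Real.sin_neg]
      congr 1
      · congr 1; ring
      · congr 1; ring
    have hz : W.Lam (y, w) = gam W y e s := by rw [gam, hws]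
    have hGX : W.G X = W.G (gam W y e s) := by rw [G_nz hX, hXn]
    have hMz := met W (gam W y e s) (hF.norm_gam s)
    have g1 : W.G (gam W y e s) (gam W y e s) (gam W y e s) = 1 := hMz.self
    have g2 : W.G (gam W y e s) (gam W y e s) (DL W y w (orth y v)) = 0 := by
      rw [hMz.rad, ← hz, DL_orth hy hw hu]
    have g3 : W.G (gam W y e s) (W.Vel y e s) (gam W y e s) = 0 := by
      rw [hMz.symm, hMz.rad, hF.vel_orth]
    have g4 : s * W.G (gam W y e s) (W.Vel y e s) (DL W y w (orth y v)) = W.G y w (orth y v) := by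
      have e1 := W.gauss y w (orth y v) hy hw hu
      have e2 : fderiv ℝ W.Lam (y, w) (0, w) = s • W.Vel y e s := by
        have := hF.DL_self s
        rw [← hws] at this
        exact this
      rw [e2, hz] at e1
      rw [← e1]
      simp only [map_smul, _root_.smul_apply, smul_eq_mul]
      rfl
    have g5 : W.G y w w = s ^ 2 := by rw [hws, hF.G_smul]
    have g6 : W.G y w (orth y v) = W.G y (orth y v) w := hM.symm _ _
    have g7 : deriv Cs (s ^ 2) * (2 * W.G y w (orth y v)) = -(Sn (s ^ 2)) * W.G y w (orth y v) := by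
      rcases hs.eq_or_lt with h0 | h0
      · have : w = 0 := by rw [hws, ← h0, zero_smul]
        rw [this]; simp
      · rw [deriv_Cs (by positivity)]; ring
    rw [hGX, hZ, hδ, hz]
    simp only [Function.comp_apply, zero_smul, add_zero, g5]
    simp only [map_add, map_smul, _root_.add_apply, _root_.smul_apply, smul_eq_mul, g1, g2, g3,
      o2, ← g6, Cs_sq]
    have g8 : Real.sin s * W.G (gam W y e s) (W.Vel y e s) (DL W y w (orth y v))
        = Sn (s ^ 2) * W.G y w (orth y v) := by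
      rw [← Sn_sq, ← g4]; ring
    have g9 : (W.G y w (orth y v) + W.G y w (orth y v)) * deriv Cs (s ^ 2)
      = -(Sn (s ^ 2)) * W.G y w (orth y v) := by rw [← g7]; ring
    rw [g9]
    linear_combination (r * ρ) * g8
  by_cases hneg : nz X = -nz Y
  · have hX' : -X ≠ 0 := neg_ne_zero.2 hX
    have h1 := main (-X) hX' (by
      rw [nz_neg, hneg, neg_neg]
      intro h
      have h2 : (2 : ℝ) • nz Y = 0 := by rw [two_smul]; nth_rw 1 [h]; simp
      exact ne_of_unit (norm_nz hY) ((smul_eq_zero.1 h2).resolve_left two_ne_zero))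
    have hl : HasDerivAt (fun t : ℝ => X + t • δ) δ 0 := by
      simpa using ((hasDerivAt_id (0 : ℝ)).smul_const δ).const_add X
    have hl' : HasDerivAt (fun t : ℝ => -(X + t • δ)) (-δ) 0 := hl.neg
    have h2 := hasDerivAt_Fn_left (W := W) hm hX hY hl (by simp)
    have h3 := hasDerivAt_Fn_left (W := W) hm hX' hY hl' (by simp)
    have h4 : (fun t : ℝ => Fn W (-(X + t • δ), Y)) = fun t : ℝ => -Fn W (X + t • δ, Y) := by
      ext1 t
      have := Fn_smul (W := W) hm (-1) (X + t • δ) Y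
      rw [neg_one_smul] at this
      rw [this]; ring
    rw [h4] at h3
    have h5 := h3.unique h2.neg
    have h6 : fderiv ℝ (Fn W) (-X, Y) (-δ, 0) = -fderiv ℝ (Fn W) (-X, Y) (δ, 0) := by
      rw [← map_neg]; simp
    rw [h6] at h5
    have h7 := neg_injective h5
    rw [← h7, h1, nz_neg, Z_neg_left hm (norm_nz hX), W.G_neg]
  · exact main X hX hneg

end Crest.Agent.R208.GW
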