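import Crest.Agent.R208.GW4

/-!
R208, block GW (helper499), file 5: the sum `A` is Lipschitz; assembly of the join data.
-/

set_option autoImplicit false

open scoped RealInnerProductSpace ContDiff Topology NNReal
open Complex (arg)
open Filter

noncomputable section

namespace Crest.Agent.R208.GW

open Crest.Agent.R208.JT Crest.Agent.R208.GH

variable {m : ℕ} {W : WS m}

/-- a map which is `C¹` near a compact set is Lipschitz on it -/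
lemma lip_of_contDiffAt {E' F' : Type*} [NormedAddCommGroup E'] [NormedSpace ℝ E']
    [NormedAddCommGroup F'] [NormedSpace ℝ F'] {f : E' → F'} {s : Set E'} (hs : IsCompact s)
    (hf : ∀ x ∈ s, ContDiffAt ℝ ∞ f x) : ∃ L : ℝ, 0 ≤ L ∧ ∀ x ∈ s, ∀ y ∈ s,
      ‖f x - f y‖ ≤ L * ‖x - y‖ := by
  have h1 : LocallyLipschitzOn s f := by
    intro x hx
    obtain ⟨K, t, ht, hL⟩ := ((hf x hx).of_le (by simp : (1 : WithTop ℕ∞) ≤ ∞)).exists_lipschitzOnWith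
    exact ⟨K, t, mem_nhdsWithin_of_mem_nhds ht, hL⟩
  obtain ⟨K, hK⟩ := h1.exists_lipschitzOnWith_of_compact hs
  refine ⟨K, K.2, fun x hx y hy => ?_⟩
  have := hK.dist_le_mul x hx y hy
  rwa [dist_eq_norm, dist_eq_norm] at this

/-- homogeneous extension -/
lemma hom_lip {f : Eu m → Eu m → Eu m}
    (hom : ∀ x Y (r : ℝ), ‖x‖ = 1 → f x (r • Y) = r • f x Y) {L B : ℝ} (hL : 0 ≤ L) (hB : 0 ≤ B)
    (hf : ∀ x y x' y' : Eu m, ‖x‖ = 1 → ‖y‖ = 1 → ‖x'‖ = 1 → ‖y'‖ = 1 →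
      ‖f x y - f x' y'‖ ≤ L * (‖x - x'‖ + ‖y - y'‖))
    (hb : ∀ x y : Eu m, ‖x‖ = 1 → ‖y‖ = 1 → ‖f x y‖ ≤ B) {R : ℝ} (hR : 0 ≤ R) :
    ∀ x Y x' Y' : Eu m, ‖x‖ = 1 → ‖x'‖ = 1 → ‖Y'‖ ≤ R →
      ‖f x Y - f x' Y'‖ ≤ (B + 2 * L + L * R) * (‖x - x'‖ + ‖Y - Y'‖) := by
  intro x Y x' Y' hx hx' hY'R
  have h0 : ∀ x, ‖x‖ = 1 → f x 0 = 0 := by
    intro x hx
    have := hom x 0 0 hx
    simpa using this
  have hbY : ∀ x Y : Eu m, ‖x‖ = 1 → ‖f x Y‖ ≤ B * ‖Y‖ := by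
    intro x Y hx
    by_cases hY : Y = 0
    · rw [hY, h0 x hx]; simp
    · have h1 : f x Y = ‖Y‖ • f x (nz Y) := by rw [← hom x _ _ hx, norm_smul_nz]
      rw [h1, norm_smul, norm_norm, mul_comm]
      exact mul_le_mul_of_nonneg_right (hb x _ hx (norm_nz hY)) (norm_nonneg _)
  have hC : B ≤ B + 2 * L + L * R := by
    have := mul_nonneg hL hR
    linarith
  have hxx := norm_nonneg (x - x')
  have hYY := norm_nonneg (Y - Y')
  by_cases hY : Y = 0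
  · rw [hY, h0 x hx, zero_sub, norm_neg, zero_sub, norm_neg]
    calc ‖f x' Y'‖ ≤ B * ‖Y'‖ := hbY x' Y' hx'
      _ ≤ (B + 2 * L + L * R) * (‖x - x'‖ + ‖Y'‖) :=
        mul_le_mul hC (by linarith) (norm_nonneg _) (hB.trans hC)
  by_cases hY' : Y' = 0
  · rw [hY', h0 x' hx', sub_zero, sub_zero]
    calc ‖f x Y‖ ≤ B * ‖Y‖ := hbY x Y hx
      _ ≤ (B + 2 * L + L * R) * (‖x - x'‖ + ‖Y‖) :=
        mul_le_mul hC (by linarith) (norm_nonneg _) (hB.trans hC)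
  have h1 : f x Y = ‖Y‖ • f x (nz Y) := by rw [← hom x _ _ hx, norm_smul_nz]
  have h2 : f x' Y' = ‖Y'‖ • f x' (nz Y') := by rw [← hom x' _ _ hx', norm_smul_nz]
  have h3 : f x Y - f x' Y' = (‖Y‖ - ‖Y'‖) • f x (nz Y) + ‖Y'‖ • (f x (nz Y) - f x' (nz Y')) := by
    rw [h1, h2, sub_smul, smul_sub]; abel
  have h4 : |‖Y‖ - ‖Y'‖| ≤ ‖Y - Y'‖ := abs_norm_sub_norm_le Y Y'
  have h5 : ‖Y'‖ * ‖nz Y - nz Y'‖ ≤ 2 * ‖Y - Y'‖ := by
    have e1 : ‖Y'‖ * ‖nz Y - nz Y'‖ = ‖(‖Y'‖ - ‖Y‖) • nz Y + (Y - Y')‖ := by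
      rw [← norm_norm Y', ← norm_smul]
      simp only [norm_norm]
      congr 1
      rw [smul_sub, norm_smul_nz, sub_smul, norm_smul_nz]; abel
    rw [e1]
    refine (norm_add_le _ _).trans ?_
    rw [norm_smul, norm_nz hY, mul_one, Real.norm_eq_abs, abs_sub_comm]
    linarith
  have h6 := hf x (nz Y) x' (nz Y') hx (norm_nz hY) hx' (norm_nz hY')
  calc ‖f x Y - f x' Y'‖ ≤ ‖(‖Y‖ - ‖Y'‖) • f x (nz Y)‖ + ‖‖Y'‖ • (f x (nz Y) - f x' (nz Y'))‖ := by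
        rw [h3]; exact norm_add_le _ _
    _ = |‖Y‖ - ‖Y'‖| * ‖f x (nz Y)‖ + ‖Y'‖ * ‖f x (nz Y) - f x' (nz Y')‖ := by
        rw [norm_smul, norm_smul, norm_norm, Real.norm_eq_abs]
    _ ≤ ‖Y - Y'‖ * B + ‖Y'‖ * (L * (‖x - x'‖ + ‖nz Y - nz Y'‖)) := by
        refine add_le_add (mul_le_mul h4 (hb x _ hx (norm_nz hY)) (norm_nonneg _) hYY) ?_
        exact mul_le_mul_of_nonneg_left h6 (norm_nonneg _)
    _ = ‖Y - Y'‖ * B + L * (‖Y'‖ * ‖x - x'‖) + L * (‖Y'‖ * ‖nz Y - nz Y'‖) := by ring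
    _ ≤ ‖Y - Y'‖ * B + L * (R * ‖x - x'‖) + L * (2 * ‖Y - Y'‖) := by
        gcongr
    _ ≤ (B + 2 * L + L * R) * (‖x - x'‖ + ‖Y - Y'‖) := by
        have e1 := mul_nonneg hB hxx
        have e2 := mul_nonneg hL hxx
        have e3 := mul_nonneg (mul_nonneg hL hR) hYY
        nlinarith

lemma isCompact_pairs : IsCompact {P : Eu m × Eu m | ‖P.1‖ = 1 ∧ ‖P.2‖ = 1} := by
  have h1 : {P : Eu m × Eu m | ‖P.1‖ = 1 ∧ ‖P.2‖ = 1} =
      Metric.sphere (0 : Eu m) 1 ×ˢ Metric.sphere (0 : Eu m) 1 := by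
    ext P; simp
  rw [h1]
  exact (isCompact_sphere _ _).prod (isCompact_sphere _ _)

/-- Lipschitz and bounded on pairs of unit vectors -/
lemma lip_pairs {f : Eu m × Eu m → Eu m}
    (hf : ∀ x y : Eu m, ‖x‖ = 1 → ‖y‖ = 1 → ContDiffAt ℝ ∞ f (x, y)) :
    ∃ L B : ℝ, 0 ≤ L ∧ 0 ≤ B ∧ (∀ x y x' y' : Eu m, ‖x‖ = 1 → ‖y‖ = 1 → ‖x'‖ = 1 → ‖y'‖ = 1 →
      ‖f (x, y) - f (x', y')‖ ≤ L * (‖x - x'‖ + ‖y - y'‖)) ∧
      ∀ x y : Eu m, ‖x‖ = 1 → ‖y‖ = 1 → ‖f (x, y)‖ ≤ B := by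
  obtain ⟨L, hL, h1⟩ := lip_of_contDiffAt (isCompact_pairs (m := m)) (f := f)
    (fun P hP => hf P.1 P.2 hP.1 hP.2)
  have hcont : ContinuousOn f {P : Eu m × Eu m | ‖P.1‖ = 1 ∧ ‖P.2‖ = 1} :=
    fun P hP => (hf P.1 P.2 hP.1 hP.2).continuousAt.continuousWithinAt
  obtain ⟨B, hB⟩ := (isCompact_pairs (m := m)).exists_bound_of_continuousOn hcont
  refine ⟨L, max B 0, hL, le_max_right _ _, ?_, ?_⟩
  · intro x y x' y' hx hy hx' hy'
    refine (h1 (x, y) ⟨hx, hy⟩ (x', y') ⟨hx', hy'⟩).trans ?_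
    refine mul_le_mul_of_nonneg_left ?_ hL
    rw [Prod.mk_sub_mk, Prod.norm_def]
    exact max_le (by simp) (by simp)
  · intro x y hx hy
    exact (hB (x, y) ⟨hx, hy⟩).trans (le_max_left _ _)

lemma norm_A_le (hm : 2 ≤ m) (X Y : Eu m) : ‖A W X Y‖ ≤ ‖X‖ + ‖Y‖ := by
  obtain ⟨x, v, ξ, η, h, rfl, rfl⟩ := exists_pair W hm X Y
  rw [h.A_Pl, h.norm_Pl, h.norm_Pl, h.norm_Pl]
  exact norm_add_le _ _

lemma norm_Z_eq (hm : 2 ≤ m) : ∃ B : ℝ, 0 ≤ B ∧ ∀ x Y : Eu m, ‖x‖ = 1 → ‖Z W x Y‖ ≤ B * ‖Y‖ := by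
  obtain ⟨L, B, hL, hB, h1, h2⟩ := lip_pairs (m := m)
    (f := fun P : Eu m × Eu m => Z W (nz P.1) P.2)
    (fun x y hx hy => contDiffAt_Z hm (ne_of_unit hx) (ne_of_unit hy))
  refine ⟨B, hB, fun x Y hx => ?_⟩
  by_cases hY : Y = 0
  · rw [hY, Z_zero hm hx]; simp
  · have h3 : Z W x Y = ‖Y‖ • Z W x (nz Y) := by rw [← Z_smul hm hx, norm_smul_nz]
    rw [h3, norm_smul, norm_norm, mul_comm]
    have h4 := h2 x (nz Y) hx (norm_nz hY)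
    simp only [nz_of_unit hx] at h4
    exact mul_le_mul_of_nonneg_right h4 (norm_nonneg _)

/-- the sum is Lipschitz for unit `x` and bounded `Y` -/
lemma lip_A_unit (hm : 2 ≤ m) : ∃ C : ℝ, 0 ≤ C ∧ ∀ x Y x' Y' : Eu m, ‖x‖ = 1 → ‖x'‖ = 1 →
    ‖Y'‖ ≤ 1 → ‖A W x Y - A W x' Y'‖ ≤ C * (‖x - x'‖ + ‖Y - Y'‖) := by
  obtain ⟨L1, B1, hL1, hB1, h1, h2⟩ := lip_pairs (m := m)
    (f := fun P : Eu m × Eu m => Z W (nz P.1) P.2)
    (fun x y hx hy => contDiffAt_Z hm (ne_of_unit hx) (ne_of_unit hy))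
  obtain ⟨L2, B2, hL2, hB2, h3, h4⟩ := lip_pairs (m := m)
    (f := fun P : Eu m × Eu m => E W (nz P.1) P.2)
    (fun x y hx hy => contDiffAt_E hm (ne_of_unit hx) (ne_of_unit hy))
  have hZ := hom_lip (m := m) (f := Z W) (fun x Y r hx => Z_smul hm hx r Y) hL1 hB1
    (fun x y x' y' hx hy hx' hy' => by
      have := h1 x y x' y' hx hy hx' hy'
      simpa only [nz_of_unit hx, nz_of_unit hx'] using this)
    (fun x y hx hy => by simpa only [nz_of_unit hx] using h2 x y hx hy) zero_le_one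
  obtain ⟨B, hB, hZb⟩ := norm_Z_eq (W := W) hm
  have hE := hom_lip (m := m) (f := E W) (fun x Y r hx => E_smul hm hx r Y) hL2 hB2
    (fun x y x' y' hx hy hx' hy' => by
      have := h3 x y x' y' hx hy hx' hy'
      simpa only [nz_of_unit hx, nz_of_unit hx'] using this)
    (fun x y hx hy => by simpa only [nz_of_unit hx] using h4 x y hx hy)
    (R := 1 + B) (by linarith)
  set C1 := B1 + 2 * L1 + L1 * 1 with hC1
  set C2 := B2 + 2 * L2 + L2 * (1 + B) with hC2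
  have hC1n : 0 ≤ C1 := by positivity
  have hC2n : 0 ≤ C2 := by positivity
  refine ⟨C2 * (2 + C1), by positivity, fun x Y x' Y' hx hx' hY' => ?_⟩
  rw [A, A, if_neg (ne_of_unit hx), if_neg (ne_of_unit hx'), nz_of_unit hx, nz_of_unit hx']
  have e1 : ‖x' + Z W x' Y'‖ ≤ 1 + B := by
    refine (norm_add_le _ _).trans ?_
    rw [hx']
    have := hZb x' Y' hx'
    nlinarith
  have e2 := hE x (x + Z W x Y) x' (x' + Z W x' Y') hx hx' e1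
  have e3 := hZ x Y x' Y' hx hx' hY'
  have e4 : ‖x + Z W x Y - (x' + Z W x' Y')‖ ≤ ‖x - x'‖ + ‖Z W x Y - Z W x' Y'‖ := by
    rw [add_sub_add_comm]; exact norm_add_le _ _
  have hn1 := norm_nonneg (x - x')
  have hn2 := norm_nonneg (Y - Y')
  refine e2.trans ?_
  rw [mul_assoc]
  refine mul_le_mul_of_nonneg_left ?_ hC2n
  nlinarith

/-- Lipschitz on the cone `|Y| ≤ |X|` -/
lemma lip_A_cone (hm : 2 ≤ m) : ∃ C : ℝ, 0 ≤ C ∧ ∀ X Y X' Y' : Eu m, ‖Y‖ ≤ ‖X‖ → ‖Y'‖ ≤ ‖X'‖ →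
    ‖A W X Y - A W X' Y'‖ ≤ C * (‖X - X'‖ + ‖Y - Y'‖) := by
  obtain ⟨C, hC, h⟩ := lip_A_unit (W := W) hm
  refine ⟨2 + 4 * C, by positivity, fun X Y X' Y' hXY hXY' => ?_⟩
  have hn1 := norm_nonneg (X - X')
  have hn2 := norm_nonneg (Y - Y')
  have hA0 : A W 0 0 = 0 := by rw [A, if_pos rfl]
  by_cases hX : X = 0
  · have hY : Y = 0 := by rw [hX, norm_zero] at hXY; exact norm_le_zero_iff.1 hXY
    rw [hX, hY, hA0, zero_sub, norm_neg, zero_sub, norm_neg, zero_sub, norm_neg]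
    refine (norm_A_le hm X' Y').trans ?_
    have := norm_nonneg X'
    have := norm_nonneg Y'
    nlinarith
  by_cases hX' : X' = 0
  · have hY : Y' = 0 := by rw [hX', norm_zero] at hXY'; exact norm_le_zero_iff.1 hXY'
    rw [hX', hY, hA0, sub_zero, sub_zero, sub_zero]
    refine (norm_A_le hm X Y).trans ?_
    have := norm_nonneg X
    have := norm_nonneg Y
    nlinarith
  have hp : 0 < ‖X‖ := norm_pos_iff.2 hX
  have hp' : 0 < ‖X'‖ := norm_pos_iff.2 hX'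
  have e1 : ∀ {X Y : Eu m}, X ≠ 0 → A W X Y = ‖X‖ • A W (nz X) (‖X‖⁻¹ • Y) := by
    intro X Y hX
    rw [← A_smul hm, norm_smul_nz, smul_smul, mul_inv_cancel₀ (norm_ne_zero_iff.2 hX), one_smul]
  have h3 : A W X Y - A W X' Y' = (‖X‖ - ‖X'‖) • A W (nz X) (‖X‖⁻¹ • Y) +
      ‖X'‖ • (A W (nz X) (‖X‖⁻¹ • Y) - A W (nz X') (‖X'‖⁻¹ • Y')) := by
    rw [e1 hX, e1 hX', sub_smul, smul_sub]; abel
  have h4 : |‖X‖ - ‖X'‖| ≤ ‖X - X'‖ := abs_norm_sub_norm_le X X'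
  have hb : ∀ {X Y : Eu m}, X ≠ 0 → ‖Y‖ ≤ ‖X‖ → ‖‖X‖⁻¹ • Y‖ ≤ 1 := by
    intro X Y hX h
    rw [norm_smul, norm_inv, norm_norm, inv_mul_le_iff₀ (norm_pos_iff.2 hX), mul_one]
    exact h
  have h5 : ‖A W (nz X) (‖X‖⁻¹ • Y)‖ ≤ 2 := by
    refine (norm_A_le hm _ _).trans ?_
    rw [norm_nz hX]
    linarith [hb hX hXY]
  have h6 := h (nz X) (‖X‖⁻¹ • Y) (nz X') (‖X'‖⁻¹ • Y') (norm_nz hX) (norm_nz hX') (hb hX' hXY')
  have h7 : ‖X'‖ * ‖nz X - nz X'‖ ≤ 2 * ‖X - X'‖ := by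
    have e1 : ‖X'‖ * ‖nz X - nz X'‖ = ‖(‖X'‖ - ‖X‖) • nz X + (X - X')‖ := by
      rw [← norm_norm X', ← norm_smul]
      simp only [norm_norm]
      congr 1
      rw [smul_sub, norm_smul_nz, sub_smul, norm_smul_nz]; abel
    rw [e1]
    refine (norm_add_le _ _).trans ?_
    rw [norm_smul, norm_nz hX, mul_one, Real.norm_eq_abs, abs_sub_comm]
    linarith
  have h8 : ‖X'‖ * ‖‖X‖⁻¹ • Y - ‖X'‖⁻¹ • Y'‖ ≤ ‖X - X'‖ + ‖Y - Y'‖ := by
    have e1 : ‖X'‖ * ‖‖X‖⁻¹ • Y - ‖X'‖⁻¹ • Y'‖ = ‖(‖X'‖ - ‖X‖) • (‖X‖⁻¹ • Y) + (Y - Y')‖ := by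
      rw [← norm_norm X', ← norm_smul]
      simp only [norm_norm]
      congr 1
      rw [smul_sub, smul_smul ‖X'‖ ‖X'‖⁻¹, mul_inv_cancel₀ hp'.ne', one_smul, sub_smul,
        smul_smul ‖X‖ ‖X‖⁻¹, mul_inv_cancel₀ hp.ne', one_smul]; abel
    rw [e1]
    refine (norm_add_le _ _).trans ?_
    rw [norm_smul, Real.norm_eq_abs, abs_sub_comm]
    have := mul_le_mul h4 (hb hX hXY) (norm_nonneg _) hn1
    linarith
  calc ‖A W X Y - A W X' Y'‖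
      ≤ |‖X‖ - ‖X'‖| * ‖A W (nz X) (‖X‖⁻¹ • Y)‖ +
        ‖X'‖ * ‖A W (nz X) (‖X‖⁻¹ • Y) - A W (nz X') (‖X'‖⁻¹ • Y')‖ := by
        rw [h3]
        refine (norm_add_le _ _).trans ?_
        rw [norm_smul, norm_smul, norm_norm, Real.norm_eq_abs]
    _ ≤ ‖X - X'‖ * 2 + ‖X'‖ * (C * (‖nz X - nz X'‖ + ‖‖X‖⁻¹ • Y - ‖X'‖⁻¹ • Y'‖)) := by
        refine add_le_add (mul_le_mul h4 h5 (norm_nonneg _) hn1) ?_
        exact mul_le_mul_of_nonneg_left h6 hp'.le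
    _ = ‖X - X'‖ * 2 + C * (‖X'‖ * ‖nz X - nz X'‖) + C * (‖X'‖ * ‖‖X‖⁻¹ • Y - ‖X'‖⁻¹ • Y'‖) := by
        ring
    _ ≤ ‖X - X'‖ * 2 + C * (2 * ‖X - X'‖) + C * (‖X - X'‖ + ‖Y - Y'‖) := by
        gcongr
    _ ≤ (2 + 4 * C) * (‖X - X'‖ + ‖Y - Y'‖) := by
        have e1 := mul_nonneg hC hn1
        have e2 := mul_nonneg hC hn2
        nlinarith

/-- the sum is Lipschitz -/
theorem lip (hm : 2 ≤ m) : ∃ C : ℝ≥0, LipschitzWith C fun P : Eu m × Eu m => A W P.1 P.2 := by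
  obtain ⟨C, hC, h⟩ := lip_A_cone (W := W) hm
  have h' : ∀ X Y X' Y' : Eu m, ‖X‖ ≤ ‖Y‖ → ‖X'‖ ≤ ‖Y'‖ →
      ‖A W X Y - A W X' Y'‖ ≤ C * (‖X - X'‖ + ‖Y - Y'‖) := by
    intro X Y X' Y' h1 h2
    rw [A_comm hm X Y, A_comm hm X' Y', add_comm]
    exact h Y X Y' X' h1 h2
  -- crossing
  have key : ∀ X Y X' Y' : Eu m, ‖Y‖ ≤ ‖X‖ → ‖X'‖ ≤ ‖Y'‖ →
      ‖A W X Y - A W X' Y'‖ ≤ C * (‖X - X'‖ + ‖Y - Y'‖) := by
    intro X Y X' Y' h1 h2
    have hcont : Continuous fun t : ℝ => ‖X + t • (X' - X)‖ - ‖Y + t • (Y' - Y)‖ := by fun_prop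
    have hivt := intermediate_value_Icc' (zero_le_one (α := ℝ)) hcont.continuousOn
    have h0 : (0 : ℝ) ∈ Set.Icc ((fun t : ℝ => ‖X + t • (X' - X)‖ - ‖Y + t • (Y' - Y)‖) 1)
        ((fun t : ℝ => ‖X + t • (X' - X)‖ - ‖Y + t • (Y' - Y)‖) 0) := by
      constructor <;> simp [h1, h2]
    obtain ⟨t, ⟨ht0, ht1⟩, ht⟩ := hivt h0
    have ht' : ‖X + t • (X' - X)‖ = ‖Y + t • (Y' - Y)‖ := sub_eq_zero.1 ht
    have e1 := h X Y (X + t • (X' - X)) (Y + t • (Y' - Y)) h1 ht'.ge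
    have e2 := h' (X + t • (X' - X)) (Y + t • (Y' - Y)) X' Y' ht'.le h2
    have n1 : ∀ U V : Eu m, ‖U - (U + t • (V - U))‖ = t * ‖U - V‖ := by
      intro U V
      have : U - (U + t • (V - U)) = t • (U - V) := by rw [smul_sub, smul_sub]; abel
      rw [this, norm_smul, Real.norm_eq_abs, abs_of_nonneg ht0]
    have n2 : ∀ U V : Eu m, ‖(U + t • (V - U)) - V‖ = (1 - t) * ‖U - V‖ := by
      intro U V
      have : (U + t • (V - U)) - V = (1 - t) • (U - V) := by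
        rw [sub_smul, one_smul, smul_sub, smul_sub]; abel
      rw [this, norm_smul, Real.norm_eq_abs, abs_of_nonneg (by linarith)]
    rw [n1, n1] at e1
    rw [n2, n2] at e2
    have e3 := norm_sub_le_norm_sub_add_norm_sub (A W X Y)
      (A W (X + t • (X' - X)) (Y + t • (Y' - Y))) (A W X' Y')
    calc _ ≤ _ := e3
      _ ≤ C * (t * ‖X - X'‖ + t * ‖Y - Y'‖) + C * ((1 - t) * ‖X - X'‖ + (1 - t) * ‖Y - Y'‖) :=
        add_le_add e1 e2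
      _ = _ := by ring
  refine ⟨Real.toNNReal (C * 2), LipschitzWith.of_dist_le_mul fun P Q => ?_⟩
  rw [dist_eq_norm, dist_eq_norm]
  have h1 : ‖P.1 - Q.1‖ ≤ ‖P - Q‖ := norm_fst_le (P - Q)
  have h2 : ‖P.2 - Q.2‖ ≤ ‖P - Q‖ := norm_snd_le (P - Q)
  have h3 : ‖A W P.1 P.2 - A W Q.1 Q.2‖ ≤ C * (‖P.1 - Q.1‖ + ‖P.2 - Q.2‖) := by
    rcases le_total ‖P.2‖ ‖P.1‖ with hP | hP
    · rcases le_total ‖Q.2‖ ‖Q.1‖ with hQ | hQ
      · exact h _ _ _ _ hP hQ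
      · exact key _ _ _ _ hP hQ
    · rcases le_total ‖Q.2‖ ‖Q.1‖ with hQ | hQ
      · have := key _ _ _ _ hQ hP
        rw [norm_sub_rev, norm_sub_rev P.1, norm_sub_rev P.2]
        exact this
      · exact h' _ _ _ _ hP hQ
  refine h3.trans ?_
  rw [Real.coe_toNNReal _ (by positivity), mul_assoc]
  refine mul_le_mul_of_nonneg_left ?_ hC
  linarith

/-- **WS ⟹ JD** -/
theorem exists_JD {m : ℕ} (W : WS m) (hm : 2 ≤ m) : ∃ J : JD m, J.G = W.G := by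
  refine ⟨{ A := A W
            F := Fn W
            Z := fun X Y => Z W (nz X) Y
            G := W.G
            A_comm := A_comm hm
            A_zero := A_zero hm
            A_smul := A_smul hm
            lip := lip hm
            act := act hm
            norm_A := norm_A hm
            F_smul := Fn_smul hm
            smooth := fun X Y hX hY => contDiffAt_Fn hm hX hY
            hasDeriv := fun X Y hX _ => hasDeriv hm X Y hX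
            G_symm := W.G_symm
            G_pos := W.G_pos
            G_smul := W.G_smul
            G_cont := fun X hX => (W.G_smooth X hX).continuousAt.continuousWithinAt
            grad := fun X Y δ hX hY => grad hm X Y δ hX hY
            eik := fun X Y hX _ => eik hm X Y hX
            bij := fun X hX => bij hm X hX
            inj := fun X Y hX hY => inj hm X Y hX hY }, rfl⟩

end Crest.Agent.R208.GW
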