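import Crest.Agent.R208.GZ6

/-!
R208, block GZ (helper595), part 7: `VolLe` for the types `k = n` and `k = 1` from the join trick.
-/

set_option autoImplicit false

open MeasureTheory Measure Set Filter Topology Module Metric
open scoped ContDiff RealInnerProductSpace ENNReal
open Crest.GeometryTopology.Submanifold
open Crest.Agent.R241.DDefs
open Crest.Agent.R241.D2
open Crest.Agent.R208.L (cst)
open Crest.Agent.R208.JT (Eu JD)
open Crest.Agent.R208.GH
open Crest.Agent.R208.I (IM Typ)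

noncomputable section

namespace Crest.Agent.R208.GZ

variable {n N : ℕ} {κ : ℝ} {S : Set (Euc N)} {G : Geo n N κ S} {c : ℝ} {p : Euc N}

/-- **the volume from the conclusion of the join trick** -/
theorem vol_le_of_concl (F : Fr G p) (hp : p ∈ S) (hf : Hf G c) (J : JD (n + 1))
    (hg : IsGG F c J.G) (hJ : J.Concl) :
    μHE[n] S ≤ cst (n + 1) * ENNReal.ofReal (c ^ n * c⁻¹) := by
  have hc : 0 < c := by
    rcases hf.cases with h | h
    · rw [h]; exact one_pos
    · rw [h.1]; exact two_pos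
  obtain ⟨d, hd⟩ := hJ
  have h1 : ∫ X in ball (0 : Eu (n + 1)) 1, Real.sqrt (J.detG X) =
      1 / ((n : ℝ) + 1) * (c * (c ^ n)⁻¹ * (μHE[n] S).toReal) :=
    integral_cone F hp hf hg J.G_cont
  rw [h1] at hd
  have hVne : μHE[n] S ≠ ⊤ := (L.muHE_lt_top hf.bl.sub hf.bl.cpt).ne
  have hV : 0 < (μHE[n] S).toReal :=
    ENNReal.toReal_pos (I.muHE_ne_zero hf.bl) hVne
  have hcst : (cst (n + 1)).toReal =
      ((n : ℝ) + 1) * (volume (ball (0 : Eu (n + 1)) 1)).toReal := by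
    rw [cst_ball, ENNReal.toReal_mul]
    congr 1
  have hcpos : 0 < (cst (n + 1)).toReal :=
    ENNReal.toReal_pos (L.cst_ne_zero (by omega)) (L.cst_ne_top _)
  have hn : (0 : ℝ) < (n : ℝ) + 1 := by positivity
  have hcn : 0 < c ^ n := pow_pos hc n
  -- `d V' = cst`
  have h2 : (d : ℝ) * (c * (c ^ n)⁻¹ * (μHE[n] S).toReal) = (cst (n + 1)).toReal := by
    rw [hcst, ← hd]
    field_simp
  have hA : 0 < c * (c ^ n)⁻¹ * (μHE[n] S).toReal := by positivity
  have hd0 : 0 < (d : ℝ) := by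
    by_contra h
    have : (d : ℝ) * (c * (c ^ n)⁻¹ * (μHE[n] S).toReal) ≤ 0 :=
      mul_nonpos_of_nonpos_of_nonneg (not_lt.1 h) hA.le
    linarith
  have hd1 : (1 : ℝ) ≤ d := by
    have : 0 < d := by exact_mod_cast hd0
    exact_mod_cast this
  have h3 : c * (c ^ n)⁻¹ * (μHE[n] S).toReal ≤ (cst (n + 1)).toReal := by
    rw [← h2]
    exact le_mul_of_one_le_left hA.le hd1
  have h4 : (μHE[n] S).toReal ≤ (cst (n + 1)).toReal * (c ^ n * c⁻¹) := by
    calc (μHE[n] S).toReal = (c * (c ^ n)⁻¹ * (μHE[n] S).toReal) * (c ^ n * c⁻¹) := by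
          field_simp
      _ ≤ _ := by gcongr
  have h5 : (cst (n + 1)).toReal * (c ^ n * c⁻¹) =
      (cst (n + 1) * ENNReal.ofReal (c ^ n * c⁻¹)).toReal := by
    rw [ENNReal.toReal_mul, ENNReal.toReal_ofReal (by positivity)]
  rw [h5] at h4
  exact (ENNReal.toReal_le_toReal hVne
    (ENNReal.mul_ne_top (L.cst_ne_top _) ENNReal.ofReal_ne_top)).1 h4

/-- what the geometry half of the join trick delivers (378 and 499) -/
def GeoHalf : Prop :=
  ∀ (n N : ℕ) (κ : ℝ) (S : Set (Euc N)) (G : Geo n N κ S) (c : ℝ), Hf G c → 2 ≤ n →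
    ∃ (p : Euc N) (_ : p ∈ S) (F : Fr G p) (J : JD (n + 1)), IsGG F c J.G

/-- **`VolLe`, type `k = n`** -/
theorem volLe_sphere (hmain : JT.MainStmt) (hgeo : GeoHalf) (hB : Bl n N κ S G Real.pi)
    (hT : Typ G n) : μHE[n] S ≤ cst n * IM (n - 1) (n - n) := by
  rw [Nat.sub_self]
  rcases Nat.lt_or_ge n 2 with h2 | h2
  · have hn := hB.hn
    have hn1 : n = 1 := by omega
    subst hn1
    exact volLe_one hB
  · obtain ⟨p, hp, F, J, hg⟩ := hgeo n N κ S G 1 (hf_one hB hT) h2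
    have h1 := vol_le_of_concl F hp (hf_one hB hT) J hg (hmain _ J (by omega))
    rw [one_pow, one_mul, inv_one, ENNReal.ofReal_one, mul_one, cst_succ_sphere hB.hn] at h1
    exact h1

/-- **`VolLe`, type `k = 1`** -/
theorem volLe_rp (hmain : JT.MainStmt) (hgeo : GeoHalf) (hB : Bl n N κ S G Real.pi)
    (hT : Typ G 1) : μHE[n] S ≤ cst n * IM (1 - 1) (n - 1) := by
  rcases Nat.lt_or_ge n 2 with h2 | h2
  · have hn := hB.hn
    have hn1 : n = 1 := by omega
    subst hn1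
    exact volLe_one hB
  · obtain ⟨p, hp, F, J, hg⟩ := hgeo n N κ S G 2 (hf_two hB hT h2) h2
    have h1 := vol_le_of_concl F hp (hf_two hB hT h2) J hg (hmain _ J (by omega))
    have h3 : (2 : ℝ) ^ n * 2⁻¹ = 2 ^ (n - 1) := by
      obtain ⟨m, rfl⟩ : ∃ m, n = m + 1 := ⟨n - 1, by omega⟩
      rw [Nat.add_sub_cancel, pow_succ, mul_assoc, mul_inv_cancel₀ two_ne_zero, mul_one]
    rw [h3, ENNReal.ofReal_pow (by norm_num), ENNReal.ofReal_ofNat, cst_succ_rp hB.hn] at h1
    exact h1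

end Crest.Agent.R208.GZ
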