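import Crest.Agent.R208.GW5
import Crest.Agent.R208.GH2d
import Crest.Agent.R208.GZ7

/-!
R208, block GW (helper499), file 6: the geometry half of the join trick, assembled.
-/

set_option autoImplicit false

open scoped RealInnerProductSpace

noncomputable section

namespace Crest.Agent.R208.GW

open Crest.Agent.R208.JT Crest.Agent.R208.GH

theorem geoHalf : GZ.GeoHalf := by
  intro n N κ S G c hf hn
  have hc : 0 < c := by
    rcases hf.cases with h | h
    · rw [h]; exact one_pos
    · rw [h.1]; exact two_pos
  obtain ⟨p, hp⟩ := hf.bl.conn.nonempty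
  obtain ⟨F⟩ := exists_fr hf.bl hp
  obtain ⟨W, hW⟩ := exists_ws F hp hf hc
  obtain ⟨J, hJ⟩ := exists_JD W (by omega)
  refine ⟨p, hp, F, J, ?_⟩
  intro X hX a b
  rw [hJ, hW, GG_apply, Kd]
  ring

end Crest.Agent.R208.GW
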