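import Crest.Agent.R208.I6

/-!
R208, block GZ (helper595), part 1: the number identities of the endgame of the join trick.

* `cst (n + 1) = cst n * IM (n - 1) 0` (type `k = n`);
* `cst (n + 1) * 2 ^ (n - 1) = cst n * IM 0 (n - 1)` (type `k = 1`);
* `(n + 1) * volume (ball 0 1) = cst (n + 1)`.
-/

set_option autoImplicit false

open MeasureTheory Measure Set Filter Topology Module Metric
open scoped RealInnerProductSpace ENNReal
open Crest.Agent.R208.L (cst)
open Crest.GeometryTopology.Submanifold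
open Crest.Agent.R241.DDefs

noncomputable section

namespace Crest.Agent.R208.GZ

open Crest.Agent.R208.I (IM)

/-- the area of the unit sphere is `n` times the volume of the unit ball -/
theorem cst_eq_ball (n : ℕ) : cst n = (n : ℝ≥0∞) * volume (ball (0 : EuclideanSpace ℝ (Fin n)) 1) := by
  unfold cst
  rw [Measure.toSphere_apply_univ]
  congr 1
  rw [finrank_euclideanSpace, Fintype.card_fin]

theorem cst_eq_gamma (n : ℕ) (hn : 1 ≤ n) :
    cst n = ENNReal.ofReal (2 * Real.pi ^ ((n : ℝ) / 2) / Real.Gamma ((n : ℝ) / 2)) := by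
  have hne : Nonempty (Fin n) := ⟨⟨0, hn⟩⟩
  rw [cst_eq_ball, EuclideanSpace.volume_ball, Fintype.card_fin]
  have hn' : (0 : ℝ) < n := by exact_mod_cast hn
  have h1 : Real.Gamma ((n : ℝ) / 2 + 1) = (n : ℝ) / 2 * Real.Gamma ((n : ℝ) / 2) :=
    Real.Gamma_add_one (by positivity)
  have h2 : 0 < Real.Gamma ((n : ℝ) / 2) := Real.Gamma_pos_of_pos (by positivity)
  have h3 : Real.sqrt Real.pi ^ n = Real.pi ^ ((n : ℝ) / 2) := by
    rw [Real.sqrt_eq_rpow, ← Real.rpow_natCast, ← Real.rpow_mul Real.pi_pos.le]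
    congr 1
    ring
  rw [ENNReal.ofReal_one, one_pow, one_mul, ← ENNReal.ofReal_natCast, ← ENNReal.ofReal_mul hn'.le,
    h1, h3]
  congr 1
  field_simp

/-- the integral of the powers of the sine, as a real number -/
def J (m : ℕ) : ℝ := ∫ x in (0 : ℝ)..Real.pi, Real.sin x ^ m

lemma J_step (m : ℕ) : J (m + 2) = ((m : ℝ) + 1) / (m + 2) * J m := by
  unfold J
  rw [integral_sin_pow]
  simp

/-- the beta integral `∫_0^π sin^(n-1) = √π Γ(n/2) / Γ((n+1)/2)`, in the product form -/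
lemma J_gamma (m : ℕ) : J m * Real.Gamma ((m : ℝ) / 2 + 1) =
    Real.sqrt Real.pi * Real.Gamma (((m : ℝ) + 1) / 2) := by
  induction m using Nat.twoStepInduction with
  | zero =>
    have h0 : J 0 = Real.pi := by unfold J; simp
    rw [h0, Nat.cast_zero, zero_div, zero_add, Real.Gamma_one, Real.Gamma_one_half_eq,
      mul_one, Real.mul_self_sqrt Real.pi_pos.le]
  | one =>
    have h0 : J 1 = 2 := by unfold J; simp; norm_num
    have h1 : ((1 : ℕ) : ℝ) / 2 + 1 = 1 / 2 + 1 := by norm_num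
    have h2 : (((1 : ℕ) : ℝ) + 1) / 2 = 1 := by norm_num
    rw [h0, h1, h2, Real.Gamma_add_one (by norm_num), Real.Gamma_one, Real.Gamma_one_half_eq]
    ring
  | more m ih _ =>
    rw [J_step]
    have h1 : ((m + 2 : ℕ) : ℝ) / 2 + 1 = ((m : ℝ) / 2 + 1) + 1 := by push_cast; ring
    have h2 : (((m + 2 : ℕ) : ℝ) + 1) / 2 = ((m : ℝ) + 1) / 2 + 1 := by push_cast; ring
    have hm : (0 : ℝ) ≤ m := Nat.cast_nonneg m
    have h5 : (m : ℝ) / 2 + 1 ≠ 0 := by positivity
    have h6 : ((m : ℝ) + 1) / 2 ≠ 0 := by positivity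
    rw [h1, h2, Real.Gamma_add_one h5, Real.Gamma_add_one h6]
    have h3 : (m : ℝ) + 2 ≠ 0 := by positivity
    have h4 : ((m : ℝ) + 1) / (m + 2) * J m * (((m : ℝ) / 2 + 1) * Real.Gamma ((m : ℝ) / 2 + 1)) =
        ((m : ℝ) + 1) / 2 * (J m * Real.Gamma ((m : ℝ) / 2 + 1)) := by
      field_simp
    rw [h4, ih]
    ring

lemma J_nonneg (m : ℕ) : 0 ≤ J m := by
  unfold J
  exact (integral_sin_pow_pos (n := m)).le

/-- the model integral of the sphere, as a real number -/
theorem IM_zero_right (m : ℕ) : IM m 0 = ENNReal.ofReal (J m) := by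
  unfold IM J
  rw [intervalIntegral.integral_of_le Real.pi_pos.le, ← integral_Ioc_eq_integral_Ioo.symm,
    ofReal_integral_eq_lintegral_ofReal]
  · simp
  · exact ((Continuous.integrableOn_Icc (by fun_prop)).mono_set Ioo_subset_Icc_self)
  · rw [EventuallyLE, ae_restrict_iff' measurableSet_Ioo]
    refine Eventually.of_forall fun x hx => ?_
    exact pow_nonneg (Real.sin_pos_of_pos_of_lt_pi hx.1 hx.2).le _

lemma J_half (m : ℕ) : J m = 2 * ∫ x in (0 : ℝ)..(Real.pi / 2), Real.sin x ^ m := by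
  have hi : ∀ a b : ℝ, IntervalIntegrable (fun x => Real.sin x ^ m) volume a b := fun a b =>
    Continuous.intervalIntegrable (by fun_prop) _ _
  unfold J
  rw [← intervalIntegral.integral_add_adjacent_intervals (hi 0 (Real.pi / 2))
    (hi (Real.pi / 2) Real.pi), two_mul]
  congr 1
  have h1 := intervalIntegral.integral_comp_sub_left (a := 0) (b := Real.pi / 2)
    (fun x => Real.sin x ^ m) Real.pi
  simp only [Real.sin_pi_sub, sub_zero] at h1
  rw [h1]
  congr 1
  ring

/-- the model integral of the projective space, as a real number -/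
theorem IM_zero_left (m : ℕ) : IM 0 m = ENNReal.ofReal (2 ^ m * J m) := by
  have h0 : 2 ^ m * J m = ∫ x in (0 : ℝ)..Real.pi, (2 * Real.sin (x / 2)) ^ m := by
    have h1 := intervalIntegral.integral_comp_div (a := 0) (b := Real.pi)
      (fun x => (2 * Real.sin x) ^ m) (two_ne_zero' ℝ)
    rw [h1, zero_div, J_half]
    simp only [mul_pow, intervalIntegral.integral_const_mul, smul_eq_mul]
    ring
  rw [h0]
  unfold IM
  rw [intervalIntegral.integral_of_le Real.pi_pos.le, integral_Ioc_eq_integral_Ioo,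
    ofReal_integral_eq_lintegral_ofReal]
  · simp
  · exact ((Continuous.integrableOn_Icc (by fun_prop)).mono_set Ioo_subset_Icc_self)
  · rw [EventuallyLE, ae_restrict_iff' measurableSet_Ioo]
    refine Eventually.of_forall fun x hx => ?_
    have := Real.sin_pos_of_pos_of_lt_pi (x := x / 2) (by linarith [hx.1])
      (by linarith [hx.1, hx.2])
    simp only [Pi.zero_apply]
    positivity

/-- `cst (n + 1) = cst n * J (n - 1)` -/
theorem cst_succ_J {n : ℕ} (hn : 1 ≤ n) : cst (n + 1) = cst n * ENNReal.ofReal (J (n - 1)) := by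
  have hn' : (1 : ℝ) ≤ n := by exact_mod_cast hn
  rw [cst_eq_gamma (n + 1) (by omega), cst_eq_gamma n hn, ← ENNReal.ofReal_mul (by positivity)]
  congr 1
  have h1 := J_gamma (n - 1)
  have h2 : ((n - 1 : ℕ) : ℝ) = n - 1 := by
    rw [Nat.cast_sub hn, Nat.cast_one]
  rw [h2] at h1
  have h3 : ((n : ℝ) - 1) / 2 + 1 = ((n + 1 : ℕ) : ℝ) / 2 := by push_cast; ring
  have h4 : ((n : ℝ) - 1 + 1) / 2 = (n : ℝ) / 2 := by ring
  rw [h3, h4] at h1
  have h5 : 0 < Real.Gamma ((n : ℝ) / 2) := Real.Gamma_pos_of_pos (by positivity)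
  have h6 : 0 < Real.Gamma (((n + 1 : ℕ) : ℝ) / 2) := Real.Gamma_pos_of_pos (by positivity)
  have h7 : Real.pi ^ (((n + 1 : ℕ) : ℝ) / 2) = Real.pi ^ ((n : ℝ) / 2) * Real.sqrt Real.pi := by
    rw [Real.sqrt_eq_rpow, ← Real.rpow_add Real.pi_pos]
    congr 1
    push_cast; ring
  rw [h7, div_mul_eq_mul_div, div_eq_div_iff h6.ne' h5.ne']
  calc 2 * (Real.pi ^ ((n : ℝ) / 2) * Real.sqrt Real.pi) * Real.Gamma ((n : ℝ) / 2)
      = 2 * Real.pi ^ ((n : ℝ) / 2) * (Real.sqrt Real.pi * Real.Gamma ((n : ℝ) / 2)) := by ring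
    _ = _ := by rw [← h1]; ring

/-- **number identity, type `k = n`** -/
theorem cst_succ_sphere {n : ℕ} (hn : 1 ≤ n) : cst (n + 1) = cst n * IM (n - 1) 0 := by
  rw [IM_zero_right, cst_succ_J hn]

/-- **number identity, type `k = 1`** -/
theorem cst_succ_rp {n : ℕ} (hn : 1 ≤ n) :
    cst (n + 1) * 2 ^ (n - 1) = cst n * IM 0 (n - 1) := by
  rw [IM_zero_left, cst_succ_J hn, ENNReal.ofReal_mul (by positivity),
    ENNReal.ofReal_pow (by norm_num)]
  norm_num
  ring

/-- the volume of the unit ball of `ℝ^(n+1)` -/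
theorem cst_ball (n : ℕ) : cst (n + 1) = ((n : ℝ≥0∞) + 1) *
    volume (ball (0 : EuclideanSpace ℝ (Fin (n + 1))) 1) := by
  rw [cst_eq_ball]
  push_cast
  rfl

end Crest.Agent.R208.GZ
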