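import Crest.Agent.R208.GZ1
import Crest.Agent.R208.I7

/-!
R208, block GZ (helper595), part 2: the volume of a closed curve (`n = 1`).
-/

set_option autoImplicit false

open MeasureTheory Measure Set Filter Topology Module Metric
open scoped RealInnerProductSpace ENNReal
open Crest.GeometryTopology.Submanifold
open Crest.Agent.R241.DDefs
open Crest.Agent.R241.D2
open Crest.Agent.R208.L (cst nu)

noncomputable section

namespace Crest.Agent.R208.GZ

open Crest.Agent.R208.I (IM)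

/-- in dimension `1` the density is `1` -/
lemma Dn_one {N : ℕ} {κ : ℝ} {S : Set (Euc N)} {G : Geo 1 N κ S} {q : Euc N × Euc N}
    (hq : q ∈ TS G) (h1 : ‖q.2‖ = 1) (s t : ℝ) : J.Dn G q s t = 1 := by
  obtain ⟨b⟩ := J.exists_basis (m := 0) rfl hq h1
  rw [J.Dn_eq hq h1 b, Matrix.det_isEmpty, abs_one]

/-- the volume in dimension `1` -/
theorem vol_one {N : ℕ} {κ : ℝ} {S : Set (Euc N)} {G : Geo 1 N κ S}
    (hB : Bl 1 N κ S G Real.pi) : μHE[1] S = cst 1 * ENNReal.ofReal Real.pi := by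
  have h1 := I.vol_sq' hB
  have h2 : ∀ t : ℝ, ∫⁻ q, ENNReal.ofReal (J.Dn G q 0 t) ∂(nu G) = cst 1 * μHE[1] S := by
    intro t
    have h3 : ∫⁻ q, ENNReal.ofReal (J.Dn G q 0 t) ∂(nu G) = ∫⁻ _, 1 ∂(nu G) := by
      refine lintegral_congr_ae ?_
      filter_upwards [L.ae_nu G hB.hn] with q hq
      rw [Dn_one hq.1 hq.2, ENNReal.ofReal_one]
    rw [h3, lintegral_const, one_mul, L.nu_univ]
  simp only [h2] at h1
  rw [setLIntegral_const, Real.volume_Ioo, sub_zero] at h1
  have h3 := I.muHE_ne_zero hB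
  have h4 := (L.muHE_lt_top hB.sub hB.cpt).ne
  have h5 : μHE[1] S * μHE[1] S = μHE[1] S * (cst 1 * ENNReal.ofReal Real.pi) := by
    rw [h1]; ring
  exact (ENNReal.mul_right_inj h3 h4).1 h5

/-- **`VolLe` in dimension `1`** -/
theorem volLe_one {N : ℕ} {κ : ℝ} {S : Set (Euc N)} {G : Geo 1 N κ S}
    (hB : Bl 1 N κ S G Real.pi) : μHE[1] S ≤ cst 1 * IM 0 0 := by
  rw [vol_one hB, IM_zero_right]
  have : J 0 = Real.pi := by unfold J; simp
  rw [this]

end Crest.Agent.R208.GZ
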