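import Crest.Agent.R208.GZ2
import Crest.Agent.R208.GH1c

/-!
R208, block GZ (helper595), part 3: the volume of `S` as an integral of the Jacobian of the
exponential map over the balls of radius `π` and `2π` of the tangent space.
-/

set_option autoImplicit false

open MeasureTheory Measure Set Filter Topology Module Metric
open scoped ContDiff RealInnerProductSpace ENNReal
open Crest.GeometryTopology.Submanifold
open Crest.Agent.R241.DDefs
open Crest.Agent.R241.D2
open Crest.Agent.R241.D3c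
open Crest.Agent.R241
open Crest.Agent.R241.AF (jac jac_nonneg jac_sq_gram finrank_Euc)
open Crest.Agent.R208.L (cst nu)

noncomputable section

namespace Crest.Agent.R208.GZ

variable {n N : ℕ} {κ : ℝ} {S : Set (Euc N)} {G : Geo n N κ S}

section frame

variable {p : Euc N} {A : Euc n →L[ℝ] Euc N}

lemma norm_frame (hA : ∀ v w, ⟪A v, A w⟫ = ⟪v, w⟫) (y : Euc n) : ‖A y‖ = ‖y‖ := by
  have h3 : ‖A y‖ ^ 2 = ‖y‖ ^ 2 := by
    rw [← real_inner_self_eq_norm_sq, ← real_inner_self_eq_norm_sq, hA]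
  exact (sq_eq_sq₀ (norm_nonneg _) (norm_nonneg _)).1 h3

lemma frame_inj (hA : ∀ v w, ⟪A v, A w⟫ = ⟪v, w⟫) {v w : Euc n} (h : A v = A w) : v = w := by
  have h1 : ‖A (v - w)‖ = 0 := by rw [map_sub, h, sub_self, norm_zero]
  rw [norm_frame hA, norm_eq_zero, sub_eq_zero] at h1
  exact h1

lemma frame_mem' (hAT : range A = (G.T p : Set (Euc N))) (v : Euc n) : A v ∈ G.T p := by
  have : A v ∈ (G.T p : Set (Euc N)) := by rw [← hAT]; exact ⟨v, rfl⟩
  exact this

lemma hasFDerivAt_expA (hp : p ∈ S) (hAT : range A = (G.T p : Set (Euc N))) (y : Euc n) :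
    HasFDerivAt (fun y => Exp G p (A y)) ((fderiv ℝ (Exp G p) (A y)).comp A) y := by
  have h1 : ContDiffAt ℝ ∞ (Exp G p) (A y) := by
    have h2 : ContDiffAt ℝ ∞ (fun u : Euc N => (p, u)) (A y) := by fun_prop
    exact ContDiffAt.comp (g := fun q : Euc N × Euc N => Exp G q.1 q.2) (A y)
      (contDiffAt_Exp G hp (frame_mem' hAT y)) h2
  exact (h1.differentiableAt (by simp)).hasFDerivAt.comp y A.hasFDerivAt

/-- a set of full measure -/
lemma muHE_exp_ball (hB : Bl n N κ S G Real.pi) (hp : p ∈ S) (hA : ∀ v w, ⟪A v, A w⟫ = ⟪v, w⟫)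
    (hAT : range A = (G.T p : Set (Euc N))) :
    μHE[n] ((fun y => Exp G p (A y)) '' (ball 0 Real.pi \ {0})) = μHE[n] S := by
  have hV := L.nontrivial_Euc hB.hn
  set Φ : Euc n → Euc N := fun y => Exp G p (A y) with hΦ
  have hd := hasFDerivAt_expA (G := G) hp hAT
  have h1 : S ⊆ Φ '' (ball 0 Real.pi \ {0}) ∪ (Φ '' {0} ∪ Φ '' sphere 0 Real.pi) := by
    intro q hq
    obtain ⟨v, hv, hvn, he⟩ := hB.exists_Exp hp hq
    have hvD : ‖v‖ ≤ Real.pi := by rw [hvn]; exact hB.dist_le p hp q hq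
    have hv' : v ∈ (G.T p : Set (Euc N)) := hv
    rw [← hAT] at hv'
    obtain ⟨y, rfl⟩ := hv'
    rw [norm_frame hA] at hvD
    by_cases h0 : y = 0
    · exact Or.inr (Or.inl ⟨y, h0, he⟩)
    rcases lt_or_eq_of_le hvD with h | h
    · exact Or.inl ⟨y, ⟨mem_ball_zero_iff.2 h, h0⟩, he⟩
    · exact Or.inr (Or.inr ⟨y, mem_sphere_zero_iff_norm.2 h, he⟩)
  have h2 : μHE[n] (Φ '' sphere 0 Real.pi) = 0 := by
    have h3 := AF.muHE_image_null (f := Φ) (s := sphere (0 : Euc n) Real.pi)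
      (fun y _ => (hd y).differentiableAt.differentiableWithinAt) (addHaar_sphere _ _ _)
    rwa [finrank_Euc] at h3
  have h2' : μHE[n] (Φ '' {0}) = 0 := by
    have h3 := AF.muHE_image_null (f := Φ) (s := {(0 : Euc n)})
      (fun y _ => (hd y).differentiableAt.differentiableWithinAt) (measure_singleton _)
    rwa [finrank_Euc] at h3
  apply le_antisymm
  · refine measure_mono ?_
    rintro _ ⟨y, -, rfl⟩
    exact Exp_mem G hp (frame_mem' hAT y)
  · refine (measure_mono h1).trans ((measure_union_le _ _).trans ?_)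
    refine (add_le_add le_rfl (measure_union_le _ _)).trans ?_
    rw [h2, h2', add_zero, add_zero]

lemma injOn_exp (hB : Bl n N κ S G Real.pi) (hp : p ∈ S) (hA : ∀ v w, ⟪A v, A w⟫ = ⟪v, w⟫)
    (hAT : range A = (G.T p : Set (Euc N))) :
    InjOn (fun y => Exp G p (A y)) (ball 0 Real.pi) := by
  intro y hy y' hy' h
  refine frame_inj hA ?_
  refine hB.Exp_inj hp (frame_mem' hAT y) (frame_mem' hAT y') ?_ ?_ h
  · rw [norm_frame hA]; exact mem_ball_zero_iff.1 hy
  · rw [norm_frame hA]; exact (mem_ball_zero_iff.1 hy').le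

lemma jac_expA (hp : p ∈ S) (hA : ∀ v w, ⟪A v, A w⟫ = ⟪v, w⟫)
    (hAT : range A = (G.T p : Set (Euc N))) (y : Euc n) :
    jac ((fderiv ℝ (Exp G p) (A y)).comp A) = L.jE G (p, A y) :=
  (L.jE_eq G (q := (p, A y)) ⟨hp, frame_mem' hAT y⟩ A hA hAT).symm

/-- the integral of the Jacobian over a set where `Exp` is injective -/
lemma lintegral_jE (hp : p ∈ S) (hA : ∀ v w, ⟪A v, A w⟫ = ⟪v, w⟫)
    (hAT : range A = (G.T p : Set (Euc N))) {R : Set (Euc n)} (hR : MeasurableSet R)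
    (hinj : InjOn (fun y => Exp G p (A y)) R) :
    ∫⁻ y in R, ENNReal.ofReal (L.jE G (p, A y)) = μHE[n] ((fun y => Exp G p (A y)) '' R) := by
  have h4 := AF.lintegral_jac_eq_muHE_image (f := fun y => Exp G p (A y)) hR
    (fun y _ => (hasFDerivAt_expA hp hAT y).hasFDerivWithinAt) hinj
  rw [finrank_Euc] at h4
  rw [← h4]
  simp only [jac_expA hp hA hAT]

/-- **the ball of radius `π`** -/
theorem lintegral_ball_one (hB : Bl n N κ S G Real.pi) (hp : p ∈ S)
    (hA : ∀ v w, ⟪A v, A w⟫ = ⟪v, w⟫) (hAT : range A = (G.T p : Set (Euc N))) :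
    ∫⁻ y in ball 0 Real.pi, ENNReal.ofReal (L.jE G (p, A y)) = μHE[n] S := by
  have h1 := lintegral_jE (G := G) hp hA hAT measurableSet_ball (injOn_exp hB hp hA hAT)
  rw [h1]
  apply le_antisymm
  · refine measure_mono ?_
    rintro _ ⟨y, -, rfl⟩
    exact Exp_mem G hp (frame_mem' hAT y)
  · rw [← muHE_exp_ball hB hp hA hAT]
    exact measure_mono (image_mono sdiff_subset)

/-- the reflection of the shell `π < |y| < 2π` onto the punctured ball -/
def Tf (y : Euc n) : Euc n := (1 - 2 * Real.pi * ‖y‖⁻¹) • y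

lemma norm_Tf {y : Euc n} (h0 : 0 < ‖y‖) (h1 : ‖y‖ < 2 * Real.pi) :
    ‖Tf y‖ = 2 * Real.pi - ‖y‖ := by
  unfold Tf
  rw [norm_smul, Real.norm_eq_abs]
  have h2 : 1 - 2 * Real.pi * ‖y‖⁻¹ = -((2 * Real.pi - ‖y‖) * ‖y‖⁻¹) := by
    field_simp
    ring
  rw [h2, abs_neg, abs_of_pos (mul_pos (by linarith) (inv_pos.2 h0)), mul_assoc,
    inv_mul_cancel₀ h0.ne', mul_one]

lemma Tf_Tf {y : Euc n} (h0 : 0 < ‖y‖) (h1 : ‖y‖ < 2 * Real.pi) : Tf (Tf y) = y := by
  have h2 := norm_Tf h0 h1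
  have h3 : 2 * Real.pi - ‖y‖ ≠ 0 := by linarith
  rw [Tf, h2]
  unfold Tf
  rw [smul_smul]
  have h4 : (1 - 2 * Real.pi * (2 * Real.pi - ‖y‖)⁻¹) * (1 - 2 * Real.pi * ‖y‖⁻¹) = 1 := by
    field_simp
    ring
  rw [h4, one_smul]

lemma Exp_Tf (hper : HS.Per G) (hp : p ∈ S) (hA : ∀ v w, ⟪A v, A w⟫ = ⟪v, w⟫)
    (hAT : range A = (G.T p : Set (Euc N))) {y : Euc n} (h0 : 0 < ‖y‖) :
    Exp G p (A (Tf y)) = Exp G p (A y) := by
  have h1 : ‖‖y‖⁻¹ • A y‖ = 1 := by
    rw [norm_smul, norm_inv, norm_norm, norm_frame hA, inv_mul_cancel₀ h0.ne']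
  have h2 := GH.Exp_per hper hp ((G.T p).smul_mem ‖y‖⁻¹ (frame_mem' hAT y)) h1
    (‖y‖ - 2 * Real.pi)
  rw [add_sub_cancel, smul_smul, mul_inv_cancel₀ h0.ne', one_smul, smul_smul] at h2
  rw [h2]
  unfold Tf
  rw [map_smul]
  congr 2
  field_simp

/-- **the ball of radius `2π`** -/
theorem lintegral_ball_two (hB : Bl n N κ S G Real.pi) (hper : HS.Per G) (hp : p ∈ S)
    (hA : ∀ v w, ⟪A v, A w⟫ = ⟪v, w⟫) (hAT : range A = (G.T p : Set (Euc N))) :
    ∫⁻ y in ball 0 (2 * Real.pi), ENNReal.ofReal (L.jE G (p, A y)) = 2 * μHE[n] S := by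
  have hπ := Real.pi_pos
  have hV := L.nontrivial_Euc hB.hn
  set R : Set (Euc n) := ball 0 (2 * Real.pi) \ closedBall 0 Real.pi with hR
  have hRm : MeasurableSet R := measurableSet_ball.diff measurableSet_closedBall
  have hR1 : ∀ y ∈ R, Real.pi < ‖y‖ ∧ ‖y‖ < 2 * Real.pi := by
    rintro y ⟨h1, h2⟩
    rw [mem_ball_zero_iff] at h1
    rw [mem_closedBall_zero_iff, not_le] at h2
    exact ⟨h2, h1⟩
  -- image
  have himg : (fun y => Exp G p (A y)) '' R =
      (fun y => Exp G p (A y)) '' (ball 0 Real.pi \ {0}) := by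
    apply Subset.antisymm
    · rintro _ ⟨y, hy, rfl⟩
      obtain ⟨h1, h2⟩ := hR1 y hy
      have h3 := norm_Tf (hπ.trans h1) h2
      refine ⟨Tf y, ⟨?_, ?_⟩, Exp_Tf hper hp hA hAT (hπ.trans h1)⟩
      · rw [mem_ball_zero_iff, h3]; linarith
      · intro h4
        rw [mem_singleton_iff] at h4
        rw [h4, norm_zero] at h3
        linarith
    · rintro _ ⟨y, ⟨hy1, hy2⟩, rfl⟩
      rw [mem_ball_zero_iff] at hy1
      have hy0 : 0 < ‖y‖ := norm_pos_iff.2 hy2
      have h3 := norm_Tf hy0 (by linarith)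
      refine ⟨Tf y, ⟨?_, ?_⟩, Exp_Tf hper hp hA hAT hy0⟩
      · rw [mem_ball_zero_iff, h3]; linarith
      · rw [mem_closedBall_zero_iff, h3, not_le]; linarith
  have hinj : InjOn (fun y => Exp G p (A y)) R := by
    intro y hy y' hy' h
    obtain ⟨h1, h2⟩ := hR1 y hy
    obtain ⟨h1', h2'⟩ := hR1 y' hy'
    have h3 := norm_Tf (hπ.trans h1) h2
    have h3' := norm_Tf (hπ.trans h1') h2'
    have h4 : Tf y = Tf y' := by
      refine injOn_exp hB hp hA hAT ?_ ?_ ?_
      · rw [mem_ball_zero_iff, h3]; linarith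
      · rw [mem_ball_zero_iff, h3']; linarith
      · change Exp G p (A (Tf y)) = Exp G p (A (Tf y'))
        rw [Exp_Tf hper hp hA hAT (hπ.trans h1), Exp_Tf hper hp hA hAT (hπ.trans h1')]
        exact h
    rw [← Tf_Tf (hπ.trans h1) h2, h4, Tf_Tf (hπ.trans h1') h2']
  have h1 := lintegral_jE (G := G) hp hA hAT hRm hinj
  rw [himg, muHE_exp_ball hB hp hA hAT] at h1
  have h2 := lintegral_ball_one hB hp hA hAT
  have h3 : ball (0 : Euc n) (2 * Real.pi) = closedBall 0 Real.pi ∪ R := by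
    rw [hR, union_sdiff_cancel]
    exact closedBall_subset_ball (by linarith)
  rw [h3, lintegral_union hRm disjoint_sdiff_right, h1]
  have h4 : ∫⁻ y in closedBall 0 Real.pi, ENNReal.ofReal (L.jE G (p, A y)) =
      ∫⁻ y in ball 0 Real.pi, ENNReal.ofReal (L.jE G (p, A y)) := by
    refine setLIntegral_congr ?_
    rw [← ball_union_sphere]
    exact union_ae_eq_left_of_ae_eq_empty (ae_eq_empty.2 (addHaar_sphere _ _ _))
  rw [h4, h2, two_mul]

lemma lintegral_ball_smul {h : Euc n → ℝ≥0∞} (hh : Measurable h) {c : ℝ} (hc : 0 < c) (r : ℝ) :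
    ∫⁻ y in ball (0 : Euc n) r, h (c • y) =
      ENNReal.ofReal (c ^ n)⁻¹ * ∫⁻ y in ball (0 : Euc n) (c * r), h y := by
  have h1 : Measure.map (fun y : Euc n => c • y) volume = ENNReal.ofReal (c ^ n)⁻¹ • volume := by
    have h2 := map_addHaar_smul (volume : Measure (Euc n)) hc.ne'
    rw [finrank_Euc, abs_of_pos (by positivity)] at h2
    exact h2
  have hm : Measurable ((ball (0 : Euc n) (c * r)).indicator h) := hh.indicator measurableSet_ball
  rw [← lintegral_indicator measurableSet_ball, ← lintegral_indicator measurableSet_ball]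
  have h3 : ∀ y : Euc n, (ball (0 : Euc n) r).indicator (fun y => h (c • y)) y =
      (ball (0 : Euc n) (c * r)).indicator h (c • y) := by
    intro y
    have h4 : c • y ∈ ball (0 : Euc n) (c * r) ↔ y ∈ ball (0 : Euc n) r := by
      rw [mem_ball_zero_iff, mem_ball_zero_iff, norm_smul, Real.norm_of_nonneg hc.le,
        mul_lt_mul_iff_right₀ hc]
    by_cases h5 : y ∈ ball (0 : Euc n) r
    · rw [indicator_of_mem h5, indicator_of_mem (h4.2 h5)]
    · rw [indicator_of_notMem h5, indicator_of_notMem (fun h6 => h5 (h4.1 h6))]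
  rw [lintegral_congr h3, ← lintegral_map hm (measurable_const_smul c), h1,
    lintegral_smul_measure, smul_eq_mul]

/-- **the integral of the Jacobian in the scaled ball** -/
theorem lintegral_scaled {c : ℝ} (hf : GH.Hf G c) (hp : p ∈ S)
    (hA : ∀ v w, ⟪A v, A w⟫ = ⟪v, w⟫) (hAT : range A = (G.T p : Set (Euc N))) :
    ∫⁻ y in ball 0 Real.pi, ENNReal.ofReal (L.jE G (p, c • A y)) =
      ENNReal.ofReal (c * (c ^ n)⁻¹) * μHE[n] S := by
  have hm : Measurable fun y : Euc n => ENNReal.ofReal (L.jE G (p, A y)) :=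
    ENNReal.measurable_ofReal.comp ((L.measurable_jE G).comp
      (measurable_const.prodMk A.continuous.measurable))
  have hc : 0 < c := by
    rcases hf.cases with h | h
    · rw [h]; exact one_pos
    · rw [h.1]; exact two_pos
  have h1 := lintegral_ball_smul hm hc Real.pi
  simp only [map_smul] at h1
  rw [h1, mul_comm c (c ^ n)⁻¹, ENNReal.ofReal_mul (by positivity), mul_assoc]
  congr 1
  rcases hf.cases with h | h
  · rw [h, one_mul, ENNReal.ofReal_one, one_mul]
    exact lintegral_ball_one hf.bl hp hA hAT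
  · rw [h.1, lintegral_ball_two hf.bl hf.per hp hA hAT, ENNReal.ofReal_ofNat]

end frame

end Crest.Agent.R208.GZ
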