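import Mathlib

/-!
R208, block GZ (helper595), part 4: determinants of forms.
-/

set_option autoImplicit false

open Module
open scoped RealInnerProductSpace

noncomputable section

namespace Crest.Agent.R208.GZ

variable {m : ℕ}

/-- determinant of the form `g` on the vectors `b` -/
def dv (g : EuclideanSpace ℝ (Fin m) → EuclideanSpace ℝ (Fin m) → ℝ)
    (b : Fin m → EuclideanSpace ℝ (Fin m)) : ℝ :=
  (Matrix.of fun i j : Fin m => g (b i) (b j)).det

/-- change of variables in the determinant of a form -/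
theorem dv_comp (g : EuclideanSpace ℝ (Fin m) →L[ℝ] EuclideanSpace ℝ (Fin m) →L[ℝ] ℝ)
    (D : EuclideanSpace ℝ (Fin m) →ₗ[ℝ] EuclideanSpace ℝ (Fin m)) :
    dv (fun a b => g a b) (fun i => D (EuclideanSpace.basisFun (Fin m) ℝ i)) =
      LinearMap.det D ^ 2 * dv (fun a b => g a b) (EuclideanSpace.basisFun (Fin m) ℝ) := by
  classical
  set e := EuclideanSpace.basisFun (Fin m) ℝ with he
  set P := LinearMap.toMatrix e.toBasis e.toBasis D with hP
  have hD : ∀ j, D (e j) = ∑ k, P k j • e k := by
    intro j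
    have h1 := e.toBasis.sum_repr (D (e j))
    rw [← h1]
    refine Finset.sum_congr rfl fun k _ => ?_
    rw [OrthonormalBasis.coe_toBasis]
    congr 1
    rw [hP, LinearMap.toMatrix_apply, OrthonormalBasis.coe_toBasis]
  have h1 : (Matrix.of fun i j : Fin m => g (D (e i)) (D (e j))) =
      P.transpose * (Matrix.of fun i j : Fin m => g (e i) (e j)) * P := by
    ext i j
    rw [Matrix.of_apply, hD i, hD j, Matrix.mul_apply]
    simp only [map_sum, map_smul, smul_eq_mul, Matrix.mul_apply, Matrix.transpose_apply,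
      Matrix.of_apply, _root_.sum_apply, _root_.smul_apply]
    rw [Finset.sum_congr rfl fun x _ => ?_]
    simp only [Finset.mul_sum, Finset.sum_mul]
    refine Finset.sum_congr rfl fun k _ => ?_
    ring
  unfold dv
  rw [h1, Matrix.det_mul, Matrix.det_mul, Matrix.det_transpose, ← LinearMap.det_toMatrix e.toBasis D]
  ring

/-- the determinant of a form does not depend on the orthonormal basis -/
theorem dv_basis (g : EuclideanSpace ℝ (Fin m) →L[ℝ] EuclideanSpace ℝ (Fin m) →L[ℝ] ℝ)
    (b : OrthonormalBasis (Fin m) ℝ (EuclideanSpace ℝ (Fin m))) :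
    dv (fun a b => g a b) b = dv (fun a b => g a b) (EuclideanSpace.basisFun (Fin m) ℝ) := by
  classical
  set D : EuclideanSpace ℝ (Fin m) →ₗ[ℝ] EuclideanSpace ℝ (Fin m) :=
    b.repr.symm.toLinearEquiv.toLinearMap with hD
  have hDe : ∀ i, D (EuclideanSpace.basisFun (Fin m) ℝ i) = b i := by
    intro i
    rw [EuclideanSpace.basisFun_apply]
    exact b.repr_symm_single i
  have h1 := dv_comp g D
  have h2 := dv_comp (innerSL ℝ) D
  simp only [hDe] at h1 h2
  have h3 : ∀ b : OrthonormalBasis (Fin m) ℝ (EuclideanSpace ℝ (Fin m)),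
      dv (fun x y => (innerSL ℝ x) y) b = 1 := by
    intro b
    unfold dv
    have : (Matrix.of fun i j : Fin m => (innerSL ℝ (b i)) (b j)) = 1 := by
      ext i j
      rw [Matrix.of_apply, innerSL_apply_apply, b.inner_eq_ite, Matrix.one_apply]
    rw [this, Matrix.det_one]
  have h4 : dv (fun x y => (innerSL ℝ x) y) (fun i => b i) = 1 := h3 b
  rw [h4, h3, mul_one] at h2
  rw [← h2, one_mul] at h1
  exact h1

/-- block form -/
theorem dv_block {n : ℕ} (g : EuclideanSpace ℝ (Fin (n + 1)) → EuclideanSpace ℝ (Fin (n + 1)) → ℝ)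
    (b : Fin (n + 1) → EuclideanSpace ℝ (Fin (n + 1))) (h0 : g (b 0) (b 0) = 1)
    (h1 : ∀ j : Fin n, g (b 0) (b j.succ) = 0) :
    dv g b = (Matrix.of fun i j : Fin n => g (b i.succ) (b j.succ)).det := by
  unfold dv
  rw [Matrix.det_succ_row_zero, Finset.sum_eq_single 0]
  · simp only [Matrix.of_apply, Fin.val_zero, pow_zero, one_mul, h0]
    congr 1
  · intro j _ hj
    obtain ⟨i, rfl⟩ := Fin.exists_succ_eq.2 hj
    simp [Matrix.of_apply, h1]
  · intro h
    exact absurd (Finset.mem_univ _) h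

/-- an orthonormal basis starting with a given unit vector -/
theorem exists_basis_zero {n : ℕ} {e : EuclideanSpace ℝ (Fin (n + 1))} (he : ‖e‖ = 1) :
    ∃ b : OrthonormalBasis (Fin (n + 1)) ℝ (EuclideanSpace ℝ (Fin (n + 1))), b 0 = e := by
  obtain ⟨b, hb⟩ := Orthonormal.exists_orthonormalBasis_extension_of_card_eq (𝕜 := ℝ)
    (E := EuclideanSpace ℝ (Fin (n + 1))) (ι := Fin (n + 1)) (by simp) (v := fun _ => e) (s := {0})
    (by
      constructor
      · rintro ⟨i, hi⟩
        exact he
      · rintro ⟨i, hi⟩ ⟨j, hj⟩ hij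
        rw [Set.mem_singleton_iff] at hi hj
        exact absurd (Subtype.ext (hi.trans hj.symm)) hij)
  exact ⟨b, hb 0 rfl⟩

end Crest.Agent.R208.GZ
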