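import Crest.Agent.R208.GZ3
import Crest.Agent.R208.GZ4

/-!
R208, block GZ (helper595), part 5: the Jacobian of the euclidean polar map and the metric of the
cone.
-/

set_option autoImplicit false

open MeasureTheory Measure Set Filter Topology Module Metric
open scoped ContDiff RealInnerProductSpace ENNReal
open Crest.GeometryTopology.Submanifold
open Crest.Agent.R241.DDefs
open Crest.Agent.R241.D2
open Crest.Agent.R241.D3c
open Crest.Agent.R241
open Crest.Agent.R241.AF (jac jac_nonneg jac_sq_gram finrank_Euc)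
open Crest.Agent.R208.L (cst nu)
open Crest.Agent.R208.JT (Eu)
open Crest.Agent.R208.GH

noncomputable section

namespace Crest.Agent.R208.GZ

variable {n N : ℕ} {κ : ℝ} {S : Set (Euc N)} {G : Geo n N κ S} {c : ℝ} {p : Euc N}

/-- the determinant of the metric `g` -/
def dg {m : ℕ} (g : Eu m →L[ℝ] Eu m →L[ℝ] ℝ) : ℝ :=
  dv (fun a b => g a b) (EuclideanSpace.basisFun (Fin m) ℝ)

/-- what is used of the metric of the cone -/
def IsGG (F : Fr G p) (c : ℝ) (g : Eu (n + 1) → Eu (n + 1) →L[ℝ] Eu (n + 1) →L[ℝ] ℝ) : Prop :=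
  ∀ X, X ≠ 0 → ∀ a b, g X a b = ⟪X, a⟫ * ⟪X, b⟫ / ‖X‖ ^ 2 +
    ‖X‖ ^ 2 / c ^ 2 * ⟪fderiv ℝ (k0 F c) X a, fderiv ℝ (k0 F c) X b⟫

/-- the frame of `T_p` given by the polar frame and an adapted orthonormal basis -/
def frA (F : Fr G p) (b : OrthonormalBasis (Fin (n + 1)) ℝ (Eu (n + 1))) : Euc n →L[ℝ] Euc N :=
  F.B.comp (LinearMap.toContinuousLinearMap
    ((Fintype.linearCombination ℝ fun i : Fin n => b i.succ) ∘ₗ
      (WithLp.linearEquiv 2 ℝ (Fin n → ℝ)).toLinearMap))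

/-- `Σ y_i b_(i+1)` -/
def lift (b : OrthonormalBasis (Fin (n + 1)) ℝ (Eu (n + 1))) (y : Euc n) : Eu (n + 1) :=
  ∑ i : Fin n, y i • b i.succ

lemma frA_apply (F : Fr G p) (b : OrthonormalBasis (Fin (n + 1)) ℝ (Eu (n + 1))) (y : Euc n) :
    frA F b y = F.B (lift b y) := rfl

lemma lift_single (b : OrthonormalBasis (Fin (n + 1)) ℝ (Eu (n + 1))) (i : Fin n) :
    lift b (EuclideanSpace.basisFun (Fin n) ℝ i) = b i.succ := by
  classical
  unfold lift
  rw [Finset.sum_eq_single i]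
  · simp
  · intro j _ hj
    simp [hj]
  · intro h; exact absurd (Finset.mem_univ _) h

lemma inner_lift {b : OrthonormalBasis (Fin (n + 1)) ℝ (Eu (n + 1))} (y z : Euc n) :
    ⟪lift b y, lift b z⟫ = ⟪y, z⟫ := by
  classical
  unfold lift
  rw [sum_inner]
  simp only [inner_sum, inner_smul_left, inner_smul_right, b.inner_eq_ite, Fin.succ_inj]
  simp [PiLp.inner_apply, mul_comm]

lemma inner_zero_lift {b : OrthonormalBasis (Fin (n + 1)) ℝ (Eu (n + 1))} (y : Euc n) :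
    ⟪b 0, lift b y⟫ = 0 := by
  classical
  unfold lift
  simp only [inner_sum, inner_smul_right, b.inner_eq_ite]
  refine Finset.sum_eq_zero fun i _ => ?_
  rw [if_neg (Fin.succ_ne_zero i).symm, mul_zero]

lemma norm_lift {b : OrthonormalBasis (Fin (n + 1)) ℝ (Eu (n + 1))} (y : Euc n) :
    ‖lift b y‖ = ‖y‖ := by
  have h3 : ‖lift b y‖ ^ 2 = ‖y‖ ^ 2 := by
    rw [← real_inner_self_eq_norm_sq, ← real_inner_self_eq_norm_sq, inner_lift]
  exact (sq_eq_sq₀ (norm_nonneg _) (norm_nonneg _)).1 h3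

lemma lift_sub (b : OrthonormalBasis (Fin (n + 1)) ℝ (Eu (n + 1))) (y z : Euc n) :
    lift b (y - z) = lift b y - lift b z := by
  unfold lift
  simp [sub_smul, Finset.sum_sub_distrib]

lemma lift_add (b : OrthonormalBasis (Fin (n + 1)) ℝ (Eu (n + 1))) (y z : Euc n) :
    lift b (y + z) = lift b y + lift b z := by
  unfold lift
  simp [add_smul, Finset.sum_add_distrib]

/-- every vector orthogonal to `b 0` is a `lift` -/
lemma exists_lift {b : OrthonormalBasis (Fin (n + 1)) ℝ (Eu (n + 1))} {w : Eu (n + 1)}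
    (hw : ⟪b 0, w⟫ = 0) : ∃ y : Euc n, lift b y = w := by
  refine ⟨WithLp.toLp 2 fun i => ⟪b i.succ, w⟫, ?_⟩
  have h1 := b.sum_repr' w
  rw [Fin.sum_univ_succ, hw, zero_smul, zero_add] at h1
  exact h1

variable (F : Fr G p) {b : OrthonormalBasis (Fin (n + 1)) ℝ (Eu (n + 1))} (hb : b 0 = F.e)
include hb

lemma norm_B {w : Eu (n + 1)} (hw : ⟪F.e, w⟫ = 0) : ⟪F.B w, F.B w⟫ = ⟪w, w⟫ := by
  rw [real_inner_self_eq_norm_sq, real_inner_self_eq_norm_sq, F.iso w hw]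

lemma inner_B {v w : Eu (n + 1)} (hv : ⟪F.e, v⟫ = 0) (hw : ⟪F.e, w⟫ = 0) :
    ⟪F.B v, F.B w⟫ = ⟪v, w⟫ := by
  have h1 := norm_B F hb (w := v + w) (by rw [inner_add_right, hv, hw, add_zero])
  rw [map_add] at h1
  simp only [inner_add_left, inner_add_right] at h1
  rw [norm_B F hb hv, norm_B F hb hw, real_inner_comm (F.B v) (F.B w), real_inner_comm v w] at h1
  linarith

lemma inner_frA (y z : Euc n) : ⟪frA F b y, frA F b z⟫ = ⟪y, z⟫ := by
  rw [frA_apply, frA_apply, inner_B F hb (by rw [← hb]; exact inner_zero_lift y)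
    (by rw [← hb]; exact inner_zero_lift z), inner_lift]

lemma range_frA : range (frA F b) = (G.T p : Set (Euc N)) := by
  ext v
  constructor
  · rintro ⟨y, rfl⟩
    exact F.mem _
  · intro hv
    obtain ⟨w, hw, rfl⟩ := F.surj v hv
    obtain ⟨y, rfl⟩ := exists_lift (b := b) (w := w) (by rw [hb]; exact hw)
    exact ⟨y, rfl⟩

omit hb

lemma orth_e_e : orth F.e F.e = 0 := by
  rw [orth, real_inner_self_eq_norm_sq, F.ne]; simp

lemma PE_ne {η : Eu (n + 1)} (h0 : 0 < ⟪F.e, η⟫) : PE F.e η ≠ 0 := by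
  intro h
  have h1 := norm_PE F.ne η
  rw [h, norm_zero, abs_of_pos h0] at h1
  exact h0.ne h1

lemma PE_hneg {η : Eu (n + 1)} (h0 : 0 < ⟪F.e, η⟫) (h1 : ‖orth F.e η‖ < Real.pi) :
    ∀ r : ℝ, 0 ≤ r → PE F.e η ≠ -(r • F.e) := by
  intro r hr h
  have h2 : (innerSL ℝ : Eu (n + 1) →L[ℝ] _) (orth F.e η) (orth F.e η) =
      ‖orth F.e η‖ ^ 2 := by
    rw [innerSL_apply_apply, real_inner_self_eq_norm_sq]
  have hS : 0 < Sn (‖orth F.e η‖ ^ 2) := Sn_pos (by positivity)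
    (pow_lt_pow_left₀ h1 (norm_nonneg _) two_ne_zero)
  have h3 : orth F.e (PE F.e η) = (⟪F.e, η⟫ * Sn (‖orth F.e η‖ ^ 2)) • orth F.e η := by
    rw [PE, (met_euc F.ne).orth_RP, h2]
  have h4 : orth F.e (PE F.e η) = 0 := by
    rw [h, ← neg_smul, orth_smul, orth_e_e, smul_zero]
  rw [h4] at h3
  have h5 : orth F.e η = 0 := (smul_eq_zero.1 h3.symm).resolve_left (mul_pos h0 hS).ne'
  have h6 := (met_euc F.ne).inner_RP η
  rw [h5] at h6
  have h7 : (innerSL ℝ : Eu (n + 1) →L[ℝ] _) (0 : Eu (n + 1)) (0 : Eu (n + 1)) = 0 := by simp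
  rw [h7, Cs_zero, mul_one] at h6
  have h8 : ⟪F.e, PE F.e η⟫ = ⟪F.e, η⟫ := h6
  rw [h, inner_neg_right, inner_smul_right, real_inner_self_eq_norm_sq, F.ne] at h8
  linarith

lemma hasFDerivAt_PE (η : Eu (n + 1)) :
    HasFDerivAt (PE F.e) (fderiv ℝ (PE F.e) η) η :=
  ((contDiff_RP' F.e _).differentiable (by simp) η).hasFDerivAt

/-- radial part of the derivative of `PE` -/
lemma inner_fderiv_PE (η a : Eu (n + 1)) :
    ⟪PE F.e η, fderiv ℝ (PE F.e) η a⟫ = ⟪F.e, η⟫ * ⟪F.e, a⟫ := by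
  have h1 : (fun η => ‖PE F.e η‖ ^ 2) = fun η => ⟪F.e, η⟫ ^ 2 := by
    ext1 η
    rw [norm_PE F.ne, sq_abs]
  have h2 := (hasFDerivAt_PE F η).norm_sq
  have h3 : HasFDerivAt (fun η : Eu (n + 1) => ⟪F.e, η⟫ ^ 2)
      ((2 * ⟪F.e, η⟫) • (innerSL ℝ F.e : Eu (n + 1) →L[ℝ] ℝ)) η := by
    have h4 : HasFDerivAt (fun η : Eu (n + 1) => ⟪F.e, η⟫) (innerSL ℝ F.e) η :=
      (innerSL ℝ F.e).hasFDerivAt
    have h5 := h4.pow 2
    simpa using h5
  rw [h1] at h2
  have h4 := congrArg (fun L => L a) (h2.unique h3)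
  simp only [_root_.smul_apply, ContinuousLinearMap.comp_apply, innerSL_apply_apply,
    smul_eq_mul] at h4
  simp only [nsmul_eq_mul, Nat.cast_ofNat] at h4
  linarith

variable (hp : p ∈ S)
include hp

/-- tangential part of the derivative of `PE` -/
lemma fderiv_k0_PE (hf : Hf G c) {η : Eu (n + 1)} (h0 : 0 < ⟪F.e, η⟫)
    (h1 : ‖orth F.e η‖ < Real.pi) (a : Eu (n + 1)) :
    fderiv ℝ (k0 F c) (PE F.e η) (fderiv ℝ (PE F.e) η a) =
      c • fderiv ℝ (Exp G p) (c • F.B (orth F.e η)) (F.B (orth F.e a)) := by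
  have hX := PE_ne F h0
  have hd := ((contDiffAt_k0 F hp hf hX).differentiableAt (by simp)).hasFDerivAt
  have hcomp := hd.comp η (hasFDerivAt_PE F η)
  have hev : (fun η => k0 F c (PE F.e η)) =ᶠ[𝓝 η]
      fun η => Exp G p (c • F.B (orth F.e η)) := by
    have h2 := (hasFDerivAt_PE F η).continuousAt.eventually
      (k0_eventually F (c := c) hp (PE_hneg F h0 h1))
    filter_upwards [h2, k1_PE_eventually F c h0 h1] with z h3 h4
    rw [h3, h4]
  have hE := (hasFDerivAt_expB F c hp η).2 a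
  rw [← hev.fderiv_eq] at hE
  have h6 : (fun η => k0 F c (PE F.e η)) = k0 F c ∘ PE F.e := rfl
  rw [h6, hcomp.fderiv, map_smul] at hE
  exact hE

include hb in
/-- **the Jacobian of the polar map** -/
theorem det_PE_sq (hf : Hf G c) (hc : c ≠ 0)
    {g : Eu (n + 1) → Eu (n + 1) →L[ℝ] Eu (n + 1) →L[ℝ] ℝ}
    (hg : IsGG F c g) {η : Eu (n + 1)} (h0 : 0 < ⟪F.e, η⟫) (h1 : ‖orth F.e η‖ < Real.pi) :
    (fderiv ℝ (PE F.e) η).det ^ 2 * dg (g (PE F.e η)) =
      (⟪F.e, η⟫ ^ n * L.jE G (p, c • F.B (orth F.e η))) ^ 2 := by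
  set X := PE F.e η with hXdef
  set D := fderiv ℝ (PE F.e) η with hD
  set ρ := ⟪F.e, η⟫ with hρ
  have hX : X ≠ 0 := PE_ne F h0
  have hXn : ‖X‖ ^ 2 = ρ ^ 2 := by rw [hXdef, norm_PE F.ne, sq_abs]
  -- the pulled back form
  set g' : Eu (n + 1) →L[ℝ] Eu (n + 1) →L[ℝ] ℝ := (g X).bilinearComp D D with hg'
  have hg'a : ∀ a b, g' a b = ⟪F.e, a⟫ * ⟪F.e, b⟫ + ρ ^ 2 *
      ⟪fderiv ℝ (Exp G p) (c • F.B (orth F.e η)) (F.B (orth F.e a)),
        fderiv ℝ (Exp G p) (c • F.B (orth F.e η)) (F.B (orth F.e b))⟫ := by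
    intro a b
    have h2 : g' a b = g X (D a) (D b) := rfl
    rw [h2, hg X hX, inner_fderiv_PE, inner_fderiv_PE, fderiv_k0_PE F hp hf h0 h1,
      fderiv_k0_PE F hp hf h0 h1, inner_smul_left, inner_smul_right, hXn, ← hρ]
    simp only [conj_trivial]
    have : ρ ≠ 0 := h0.ne'
    field_simp
  have h2 : dv (fun a b => g' a b) (EuclideanSpace.basisFun (Fin (n + 1)) ℝ) =
      D.det ^ 2 * dg (g X) := dv_comp (g X) D.toLinearMap
  have h3 := dv_basis g' b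
  have hee : ⟪F.e, F.e⟫ = 1 := by rw [real_inner_self_eq_norm_sq, F.ne]; norm_num
  have hes : ∀ j : Fin n, ⟪F.e, b j.succ⟫ = 0 := by
    intro j
    rw [← hb, b.inner_eq_ite, if_neg (Fin.succ_ne_zero j).symm]
  have h4 : dv (fun a b => g' a b) b =
      (Matrix.of fun i j : Fin n => g' (b i.succ) (b j.succ)).det := by
    apply dv_block
    · rw [hb, hg'a, orth_e_e, map_zero, map_zero, inner_zero_left, hee]; ring
    · intro j
      rw [hb, hg'a, orth_e_e, map_zero, map_zero, inner_zero_left, hes]; ring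
  set T : Euc n →L[ℝ] Euc N := (fderiv ℝ (Exp G p) (c • F.B (orth F.e η))).comp (frA F b) with hT
  have h5 : (Matrix.of fun i j : Fin n => g' (b i.succ) (b j.succ)) = ρ ^ 2 •
      (Matrix.of fun i j : Fin n => ⟪T (EuclideanSpace.basisFun (Fin n) ℝ i),
        T (EuclideanSpace.basisFun (Fin n) ℝ j)⟫) := by
    ext i j
    rw [Matrix.of_apply, Matrix.smul_apply, Matrix.of_apply, hg'a, hes, zero_mul, zero_add,
      smul_eq_mul, orth_of_inner (hes i), orth_of_inner (hes j), hT]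
    simp only [ContinuousLinearMap.comp_apply, frA_apply, lift_single]
  have h6 : jac T = L.jE G (p, c • F.B (orth F.e η)) :=
    (L.jE_eq G (q := (p, c • F.B (orth F.e η))) ⟨hp, (G.T p).smul_mem _ (F.mem _)⟩ (frA F b)
      (inner_frA F hb) (range_frA F hb)).symm
  rw [← h2, ← h3, h4, h5, Matrix.det_smul, Fintype.card_fin, ← jac_sq_gram, h6]
  ring

include hb in
/-- the same with square roots -/
theorem abs_det_PE (hf : Hf G c) (hc : c ≠ 0)
    {g : Eu (n + 1) → Eu (n + 1) →L[ℝ] Eu (n + 1) →L[ℝ] ℝ}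
    (hg : IsGG F c g) {η : Eu (n + 1)} (h0 : 0 < ⟪F.e, η⟫) (h1 : ‖orth F.e η‖ < Real.pi) :
    |(fderiv ℝ (PE F.e) η).det| * Real.sqrt (dg (g (PE F.e η))) =
      ⟪F.e, η⟫ ^ n * L.jE G (p, c • F.B (orth F.e η)) := by
  have h2 := det_PE_sq F hb hp hf hc hg h0 h1
  have h3 : 0 ≤ ⟪F.e, η⟫ ^ n * L.jE G (p, c • F.B (orth F.e η)) :=
    mul_nonneg (pow_nonneg h0.le _) (L.jE_nonneg G _)
  rw [← Real.sqrt_sq h3, ← h2, Real.sqrt_mul (sq_nonneg _), Real.sqrt_sq_eq_abs]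

end Crest.Agent.R208.GZ
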