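import Crest.Agent.R208.GZ5

/-!
R208, block GZ (helper595), part 6: the volume of the unit ball of the cone.
-/

set_option autoImplicit false

open MeasureTheory Measure Set Filter Topology Module Metric
open scoped ContDiff RealInnerProductSpace ENNReal
open Crest.GeometryTopology.Submanifold
open Crest.Agent.R241.DDefs
open Crest.Agent.R241.D2
open Crest.Agent.R241.D3c
open Crest.Agent.R241
open Crest.Agent.R241.AF (jac jac_nonneg jac_sq_gram finrank_Euc)
open Crest.Agent.R208.L (cst nu)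
open Crest.Agent.R208.JT (Eu)
open Crest.Agent.R208.GH

noncomputable section

namespace Crest.Agent.R208.GZ

section split

variable {n : ℕ}

/-- splitting off the first vector of an orthonormal basis -/
def spl (b : OrthonormalBasis (Fin (n + 1)) ℝ (Eu (n + 1))) :
    WithLp 2 (ℝ × Euc n) →ₗᵢ[ℝ] Eu (n + 1) where
  toFun z := z.fst • b 0 + lift b z.snd
  map_add' x y := by
    simp only [WithLp.add_fst, WithLp.add_snd, add_smul, lift_add]
    abel
  map_smul' r x := by
    have h : lift b (r • x.snd) = r • lift b x.snd := by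
      unfold lift
      simp [smul_smul, Finset.smul_sum]
    simp only [WithLp.smul_fst, WithLp.smul_snd, h, smul_eq_mul, mul_smul, smul_add,
      RingHom.id_apply]
  norm_map' z := by
    change ‖z.fst • b 0 + lift b z.snd‖ = ‖z‖
    have h1 : ‖z.fst • b 0 + lift b z.snd‖ ^ 2 = ‖z‖ ^ 2 := by
      rw [WithLp.prod_norm_sq_eq_of_L2, norm_add_sq_real, inner_smul_left, inner_zero_lift,
        norm_smul, b.norm_eq_one, norm_lift]
      simp
    exact (sq_eq_sq₀ (norm_nonneg _) (norm_nonneg _)).1 h1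

lemma finrank_spl : finrank ℝ (WithLp 2 (ℝ × Euc n)) = finrank ℝ (Eu (n + 1)) := by
  rw [(WithLp.linearEquiv 2 ℝ (ℝ × Euc n)).finrank_eq, Module.finrank_prod, finrank_self,
    finrank_euclideanSpace_fin, finrank_euclideanSpace_fin, add_comm]

/-- **Fubini in an adapted basis** -/
theorem lintegral_split (b : OrthonormalBasis (Fin (n + 1)) ℝ (Eu (n + 1)))
    {H : Eu (n + 1) → ℝ≥0∞} (hH : Measurable H) :
    ∫⁻ η, H η = ∫⁻ ρ : ℝ, ∫⁻ y : Euc n, H (ρ • b 0 + lift b y) := by
  have h1 : MeasurePreserving ((spl b).toLinearIsometryEquiv finrank_spl) :=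
    LinearIsometryEquiv.measurePreserving _
  have h2 : MeasurePreserving (@WithLp.toLp 2 (ℝ × Euc n)) := WithLp.volume_preserving_toLp _ _
  have h3 := (h1.comp h2).lintegral_comp hH
  rw [← h3, Measure.volume_eq_prod, lintegral_prod]
  · rfl
  · exact (hH.comp (h1.comp h2).measurable).aemeasurable

end split

lemma lintegral_pow (n : ℕ) :
    ∫⁻ ρ in Ioo (0 : ℝ) 1, ENNReal.ofReal (ρ ^ n) = ENNReal.ofReal (1 / ((n : ℝ) + 1)) := by
  rw [← ofReal_integral_eq_lintegral_ofReal]
  · rw [← integral_Ioc_eq_integral_Ioo, ← intervalIntegral.integral_of_le zero_le_one,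
      integral_pow]
    simp
  · exact ((Continuous.integrableOn_Icc (by fun_prop)).mono_set Ioo_subset_Icc_self)
  · rw [EventuallyLE, ae_restrict_iff' measurableSet_Ioo]
    refine Eventually.of_forall fun x hx => ?_
    exact pow_nonneg hx.1.le _

variable {n N : ℕ} {κ : ℝ} {S : Set (Euc N)} {G : Geo n N κ S} {c : ℝ} {p : Euc N}

/-- the domain of the polar map -/
def Ud (F : Fr G p) : Set (Eu (n + 1)) :=
  {η | 0 < ⟪F.e, η⟫ ∧ ⟪F.e, η⟫ < 1 ∧ ‖orth F.e η‖ < Real.pi}

lemma continuous_orth (e : Eu (n + 1)) : Continuous (orth e) := by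
  unfold orth; fun_prop

lemma measurableSet_Ud (F : Fr G p) : MeasurableSet (Ud F) := by
  have h1 : Continuous fun η : Eu (n + 1) => ⟪F.e, η⟫ := by fun_prop
  have h2 : Continuous fun η : Eu (n + 1) => ‖orth F.e η‖ := (continuous_orth _).norm
  exact ((isOpen_lt continuous_const h1).inter ((isOpen_lt h1 continuous_const).inter
    (isOpen_lt h2 continuous_const))).measurableSet

lemma injOn_PE (F : Fr G p) : InjOn (PE F.e) (Ud F) := by
  intro η hη η' hη' h
  have h1 := norm_PE F.ne η
  have h2 := norm_PE F.ne η'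
  rw [abs_of_pos hη.1] at h1
  rw [abs_of_pos hη'.1, ← h, h1] at h2
  have h3 := nuv_PE F.ne (inner_orth F.ne η) hη.1 hη.2.2
  have h4 := nuv_PE F.ne (inner_orth F.ne η') hη'.1 hη'.2.2
  rw [decomp] at h3 h4
  rw [h, h4] at h3
  rw [← decomp F.e η, ← decomp F.e η', h2, h3]

lemma image_PE (F : Fr G p) : PE F.e '' (Ud F) ⊆ ball 0 1 := by
  rintro _ ⟨η, hη, rfl⟩
  rw [mem_ball_zero_iff, norm_PE F.ne, abs_of_pos hη.1]
  exact hη.2.1

lemma null_PE (F : Fr G p) (hn : 1 ≤ n) :
    volume (ball (0 : Eu (n + 1)) 1 \ PE F.e '' (Ud F)) = 0 := by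
  have h1 : ball (0 : Eu (n + 1)) 1 \ PE F.e '' (Ud F) ⊆
      (Submodule.span ℝ {F.e} : Submodule ℝ (Eu (n + 1))) := by
    rintro X ⟨hX1, hX2⟩
    by_contra hX
    obtain ⟨ρ, w, h1, h2, h3, h4⟩ := exists_PE F.ne (X := X) (by
      intro r _ h
      apply hX
      rw [h, ← neg_smul]
      exact Submodule.smul_mem _ _ (Submodule.mem_span_singleton_self _))
    apply hX2
    have hin : ⟪F.e, ρ • F.e + w⟫ = ρ := by
      rw [inner_add_right, inner_smul_right, real_inner_self_eq_norm_sq, F.ne, h2]; ring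
    have hor : orth F.e (ρ • F.e + w) = w := by rw [orth, hin]; abel
    refine ⟨ρ • F.e + w, ⟨by rw [hin]; exact h1, ?_, by rw [hor]; exact h3⟩, h4⟩
    have h5 := norm_PE F.ne (ρ • F.e + w)
    rw [h4, hin, abs_of_pos h1] at h5
    rw [hin, ← h5]
    exact mem_ball_zero_iff.1 hX1
  refine measure_mono_null h1 ?_
  apply addHaar_submodule
  intro h
  have h2 : finrank ℝ (Submodule.span ℝ {F.e} : Submodule ℝ (Eu (n + 1))) = n + 1 := by
    rw [h, finrank_top, finrank_euclideanSpace_fin]
  have h3 := finrank_span_le_card (R := ℝ) ({F.e} : Set (Eu (n + 1)))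
  simp at h3
  omega

/-- **the volume of the unit ball of the cone**, as a Lebesgue integral -/
theorem lintegral_cone (F : Fr G p) (hp : p ∈ S) (hf : Hf G c)
    {g : Eu (n + 1) → Eu (n + 1) →L[ℝ] Eu (n + 1) →L[ℝ] ℝ} (hg : IsGG F c g) :
    ∫⁻ X in ball (0 : Eu (n + 1)) 1, ENNReal.ofReal (Real.sqrt (dg (g X))) =
      ENNReal.ofReal (1 / ((n : ℝ) + 1)) * (ENNReal.ofReal (c * (c ^ n)⁻¹) * μHE[n] S) := by
  have hc : c ≠ 0 := by
    rcases hf.cases with h | h
    · rw [h]; exact one_ne_zero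
    · rw [h.1]; exact two_ne_zero
  obtain ⟨b, hb⟩ := exists_basis_zero F.ne
  have h1 : (ball (0 : Eu (n + 1)) 1 : Set (Eu (n + 1))) =ᵐ[volume] PE F.e '' (Ud F) := by
    have h2 : ball (0 : Eu (n + 1)) 1 =
        PE F.e '' (Ud F) ∪ (ball (0 : Eu (n + 1)) 1 \ PE F.e '' (Ud F)) :=
      (union_sdiff_cancel (image_PE F)).symm
    rw [h2]
    exact union_ae_eq_left_of_ae_eq_empty (ae_eq_empty.2 (null_PE F hf.bl.hn))
  rw [setLIntegral_congr h1, lintegral_image_eq_lintegral_abs_det_fderiv_mul volume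
    (measurableSet_Ud F) (fun η _ => (hasFDerivAt_PE F η).hasFDerivWithinAt) (injOn_PE F)]
  have h2 : ∫⁻ η in Ud F, ENNReal.ofReal |(fderiv ℝ (PE F.e) η).det| *
      ENNReal.ofReal (Real.sqrt (dg (g (PE F.e η)))) =
      ∫⁻ η in Ud F, ENNReal.ofReal (⟪F.e, η⟫ ^ n * L.jE G (p, c • F.B (orth F.e η))) := by
    refine setLIntegral_congr_fun (measurableSet_Ud F) fun η hη => ?_
    rw [← abs_det_PE F hb hp hf hc hg hη.1 hη.2.2, ENNReal.ofReal_mul (abs_nonneg _)]
  rw [h2, ← lintegral_indicator (measurableSet_Ud F), lintegral_split b]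
  · have h3 : ∀ (ρ : ℝ) (y : Euc n), (Ud F).indicator
        (fun η => ENNReal.ofReal (⟪F.e, η⟫ ^ n * L.jE G (p, c • F.B (orth F.e η))))
          (ρ • b 0 + lift b y) =
        (Ioo (0 : ℝ) 1).indicator (fun ρ => ENNReal.ofReal (ρ ^ n)) ρ *
          (ball (0 : Euc n) Real.pi).indicator
            (fun y => ENNReal.ofReal (L.jE G (p, c • frA F b y))) y := by
      intro ρ y
      have h0 : ⟪F.e, lift b y⟫ = 0 := by rw [← hb]; exact inner_zero_lift y
      have hin : ⟪F.e, ρ • b 0 + lift b y⟫ = ρ := by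
        rw [hb, inner_add_right, inner_smul_right, real_inner_self_eq_norm_sq, F.ne, h0]; ring
      have hor : orth F.e (ρ • b 0 + lift b y) = lift b y := by rw [orth, hin, hb]; abel
      by_cases h4 : ρ ∈ Ioo (0 : ℝ) 1 ∧ y ∈ ball (0 : Euc n) Real.pi
      · have h5 : ρ • b 0 + lift b y ∈ Ud F := by
          refine ⟨by rw [hin]; exact h4.1.1, by rw [hin]; exact h4.1.2, ?_⟩
          rw [hor, norm_lift]
          exact mem_ball_zero_iff.1 h4.2
        rw [indicator_of_mem h5, indicator_of_mem h4.1, indicator_of_mem h4.2, hin, hor,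
          ENNReal.ofReal_mul (pow_nonneg h4.1.1.le _), frA_apply]
      · have h5 : ρ • b 0 + lift b y ∉ Ud F := by
          rintro ⟨h6, h7, h8⟩
          rw [hin] at h6 h7
          rw [hor, norm_lift] at h8
          exact h4 ⟨⟨h6, h7⟩, mem_ball_zero_iff.2 h8⟩
        rw [indicator_of_notMem h5]
        rcases not_and_or.1 h4 with h6 | h6
        · rw [indicator_of_notMem h6, zero_mul]
        · rw [indicator_of_notMem h6, mul_zero]
    simp only [h3]
    have hm : Measurable fun y : Euc n => ENNReal.ofReal (L.jE G (p, c • frA F b y)) :=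
      ENNReal.measurable_ofReal.comp ((L.measurable_jE G).comp
        (measurable_const.prodMk ((frA F b).continuous.measurable.const_smul c)))
    have h5 : ∀ ρ : ℝ, ∫⁻ y : Euc n, (Ioo (0 : ℝ) 1).indicator (fun ρ => ENNReal.ofReal (ρ ^ n)) ρ *
          (ball (0 : Euc n) Real.pi).indicator
            (fun y => ENNReal.ofReal (L.jE G (p, c • frA F b y))) y =
        (Ioo (0 : ℝ) 1).indicator (fun ρ => ENNReal.ofReal (ρ ^ n)) ρ *
          (ENNReal.ofReal (c * (c ^ n)⁻¹) * μHE[n] S) := by
      intro ρ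
      rw [lintegral_const_mul _ (hm.indicator measurableSet_ball),
        lintegral_indicator measurableSet_ball,
        lintegral_scaled hf hp (inner_frA F hb) (range_frA F hb)]
    simp only [h5]
    have hm2 : Measurable fun ρ : ℝ => ENNReal.ofReal (ρ ^ n) :=
      ENNReal.measurable_ofReal.comp (measurable_id.pow_const n)
    rw [lintegral_mul_const _ (hm2.indicator measurableSet_Ioo),
      lintegral_indicator measurableSet_Ioo, lintegral_pow]
  · refine Measurable.indicator ?_ (measurableSet_Ud F)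
    refine ENNReal.measurable_ofReal.comp (Measurable.mul ?_ ?_)
    · have h1 : Continuous fun η : Eu (n + 1) => ⟪F.e, η⟫ := by fun_prop
      exact h1.measurable.pow_const n
    · have h1 : Continuous fun η : Eu (n + 1) => c • F.B (orth F.e η) :=
        (F.B.continuous.comp (continuous_orth _)).const_smul c
      exact (L.measurable_jE G).comp (measurable_const.prodMk h1.measurable)

lemma continuousOn_dg {m : ℕ} {g : Eu m → Eu m →L[ℝ] Eu m →L[ℝ] ℝ} {s : Set (Eu m)}
    (hg : ContinuousOn g s) : ContinuousOn (fun X => dg (g X)) s := by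
  have h1 : Continuous fun h : Eu m →L[ℝ] Eu m →L[ℝ] ℝ => dg h := by
    unfold dg dv
    refine Continuous.matrix_det ?_
    refine continuous_matrix fun i j => ?_
    simp only [Matrix.of_apply]
    fun_prop
  exact h1.comp_continuousOn hg

/-- **GH6**: the volume of the unit ball of the cone -/
theorem integral_cone (F : Fr G p) (hp : p ∈ S) (hf : Hf G c)
    {g : Eu (n + 1) → Eu (n + 1) →L[ℝ] Eu (n + 1) →L[ℝ] ℝ} (hg : IsGG F c g)
    (hgc : ContinuousOn g {X | X ≠ 0}) :
    ∫ X in ball (0 : Eu (n + 1)) 1, Real.sqrt (dg (g X)) =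
      1 / ((n : ℝ) + 1) * (c * (c ^ n)⁻¹ * (μHE[n] S).toReal) := by
  have hc : 0 < c := by
    rcases hf.cases with h | h
    · rw [h]; exact one_pos
    · rw [h.1]; exact two_pos
  have hm : AEStronglyMeasurable (fun X => Real.sqrt (dg (g X)))
      (volume.restrict (ball (0 : Eu (n + 1)) 1)) := by
    have h1 : ContinuousOn (fun X => Real.sqrt (dg (g X))) {X | X ≠ 0} :=
      Real.continuous_sqrt.comp_continuousOn (continuousOn_dg hgc)
    have h2 : AEStronglyMeasurable (fun X => Real.sqrt (dg (g X)))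
        (volume.restrict {X : Eu (n + 1) | X ≠ 0}) :=
      h1.aestronglyMeasurable isOpen_ne.measurableSet
    have h3 : (volume : Measure (Eu (n + 1))).restrict {X | X ≠ 0} = volume := by
      have : ({X | X ≠ 0} : Set (Eu (n + 1))) = {0}ᶜ := rfl
      rw [this, restrict_compl_singleton]
    rw [h3] at h2
    exact h2.restrict
  rw [integral_eq_lintegral_of_nonneg_ae (Eventually.of_forall fun X => Real.sqrt_nonneg _) hm,
    lintegral_cone F hp hf hg, ENNReal.toReal_mul, ENNReal.toReal_mul,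
    ENNReal.toReal_ofReal (by positivity), ENNReal.toReal_ofReal (by positivity)]

end Crest.Agent.R208.GZ
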