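import Crest.Agent.R208.GZ7
import Crest.Agent.R208.GH2d

/-!
R208, block GZ (helper595), part 8: `VolLe` for the types `k = n` and `k = 1` from the abstract
statements alone.
-/

set_option autoImplicit false

open MeasureTheory Measure Set Filter Topology Module Metric
open scoped ContDiff RealInnerProductSpace ENNReal
open Crest.GeometryTopology.Submanifold
open Crest.Agent.R241.DDefs
open Crest.Agent.R241.D2
open Crest.Agent.R208.L (cst)
open Crest.Agent.R208.JT (Eu JD)
open Crest.Agent.R208.GH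
open Crest.Agent.R208.I (IM Typ)

noncomputable section

namespace Crest.Agent.R208.GZ

variable {n N : ℕ} {κ : ℝ} {S : Set (Euc N)} {G : Geo n N κ S} {c : ℝ} {p : Euc N}

theorem isGG (F : Fr G p) (c : ℝ) : IsGG F c (GG F c) := by
  intro X _ a b
  rw [GG_apply, div_eq_mul_inv (⟪X, a⟫ * ⟪X, b⟫), mul_comm (⟪X, a⟫ * ⟪X, b⟫)]
  rfl

/-- the abstract geometry half -/
def JDHalf : Prop := ∀ (m : ℕ) (W : WS m), 2 ≤ m → ∃ J : JD m, J.G = W.G

theorem geoHalf (h : JDHalf) : GeoHalf := by
  intro n N κ S G c hf hn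
  obtain ⟨p, hp⟩ := hf.bl.conn.nonempty
  obtain ⟨F⟩ := exists_fr hf.bl hp
  have hc : 0 < c := by
    rcases hf.cases with h | h
    · rw [h]; exact one_pos
    · rw [h.1]; exact two_pos
  obtain ⟨W, hW⟩ := exists_ws F hp hf hc
  obtain ⟨J, hJ⟩ := h (n + 1) W (by omega)
  exact ⟨p, hp, F, J, by rw [hJ, hW]; exact isGG F c⟩

/-- **`VolLe` for `k = n` and `k = 1`** from 631's `MainStmt` and 499's `JDHalf` -/
theorem volLe_ends (hmain : JT.MainStmt) (hjd : JDHalf) (hB : Bl n N κ S G Real.pi) {k : ℕ}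
    (hT : Typ G k) (hk : k = n ∨ k = 1) : μHE[n] S ≤ cst n * IM (k - 1) (n - k) := by
  rcases hk with rfl | rfl
  · exact volLe_sphere hmain (geoHalf hjd) hB hT
  · exact volLe_rp hmain (geoHalf hjd) hB hT

end Crest.Agent.R208.GZ
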