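import Crest.Agent.R208.GZ8
import Crest.Agent.R208.GW5

/-!
R208, block GZ (helper595), part 9: `VolLe` for the types `k = n` and `k = 1` from `MainStmt`.
-/

set_option autoImplicit false

open MeasureTheory Measure
open Crest.GeometryTopology.Submanifold
open Crest.Agent.R241.DDefs
open Crest.Agent.R208.L (cst)
open Crest.Agent.R208.I (IM Typ)

noncomputable section

namespace Crest.Agent.R208.GZ

variable {n N : ℕ} {κ : ℝ} {S : Set (Euc N)} {G : Geo n N κ S}

theorem jdHalf : JDHalf := fun _ W hm => GW.exists_JD W hm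

/-- **`VolLe` for `k = n` and `k = 1`** from 631's `MainStmt` -/
theorem volLe_ends' (hmain : JT.MainStmt) (hB : Bl n N κ S G Real.pi) {k : ℕ}
    (hT : Typ G k) (hk : k = n ∨ k = 1) : μHE[n] S ≤ cst n * IM (k - 1) (n - k) :=
  volLe_ends hmain jdHalf hB hT hk

end Crest.Agent.R208.GZ
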