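import Mathlib

/-!
R208, block G7 (helper88), file HA1: pure multilinear algebra.

`B` symmetric bilinear, `C` totally symmetric trilinear (second fundamental form and its
covariant derivative).  If `(∇_v R)(x,v,v,x) = 0` for all `v, x`, then `∇ R = 0`.
-/

set_option autoImplicit false

open scoped RealInnerProductSpace

noncomputable section

namespace Crest.Agent.R208.HA

variable {E W : Type*} [AddCommGroup E] [Module ℝ E] [NormedAddCommGroup W] [InnerProductSpace ℝ W]

/-- curvature form of a second fundamental form `B`. -/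
def Rb (B : E →ₗ[ℝ] E →ₗ[ℝ] W) (X Y Z U : E) : ℝ := ⟪B X U, B Y Z⟫ - ⟪B X Z, B Y U⟫

/-- its covariant derivative, `C` = covariant derivative of `B`. -/
def DRb (B : E →ₗ[ℝ] E →ₗ[ℝ] W) (C : E →ₗ[ℝ] E →ₗ[ℝ] E →ₗ[ℝ] W) (v X Y Z U : E) : ℝ :=
  ⟪C v X U, B Y Z⟫ + ⟪C v Y Z, B X U⟫ - ⟪C v X Z, B Y U⟫ - ⟪C v Y U, B X Z⟫

variable {B : E →ₗ[ℝ] E →ₗ[ℝ] W} {C : E →ₗ[ℝ] E →ₗ[ℝ] E →ₗ[ℝ] W}

/-- first step: linearisation in `v` and symmetry give `(∇_y R)(x,v,v,x) = 0`. -/
theorem DRb_step (hB : ∀ a b, B a b = B b a) (hC1 : ∀ a b c, C a b c = C b a c)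
    (hC2 : ∀ a b c, C a b c = C a c b) (h : ∀ v x, DRb B C v x v v x = 0) (y x v : E) :
    DRb B C y x v v x = 0 := by
  -- φ(v;x) = g(vxx;vv) + g(vvv;xx) - 2 g(vvx;vx)
  have key : ∀ v x y : E,
      ⟪C y x x, B v v⟫ + 2 * ⟪C v x x, B v y⟫ + 3 * ⟪C v v y, B x x⟫ - 4 * ⟪C v y x, B v x⟫
        - 2 * ⟪C v v x, B y x⟫ = 0 := by
    intro v x y
    have h1 := h (v + y) x
    have h2 := h (v - y) x
    have h3 := h y x
    unfold DRb at h1 h2 h3
    simp only [map_add, map_sub, LinearMap.add_apply, LinearMap.sub_apply, inner_add_left,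
      inner_add_right, inner_sub_left, inner_sub_right] at h1 h2 h3
    have e1 : C y x v = C v y x := by rw [hC2 y x v, hC1 y v x]
    have e2 : C v x y = C v y x := hC2 v x y
    have e3 : C v x v = C v v x := hC2 v x v
    have e4 : C v y v = C v v y := hC2 v y v
    have e5 : C y v v = C v v y := by rw [hC1 y v v, hC2 v y v]
    have e6 : C y v x = C v y x := hC1 y v x
    have e7 : C y x y = C y y x := hC2 y x y
    have e8 : C y v y = C v y y := hC1 y v y
    have e9 : C y y v = C v y y := by rw [hC2 y y v, hC1 y v y]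
    simp only [e1, e2, e3, e4, e5, e6, e7, e8, e9, hB y v, hB x v, hB x y] at h1 h2 h3
    linarith
  have k1 := key v x y
  have k2 := key x v y
  have e1 : C v y x = C y x v := by rw [hC1 v y x, hC2 y v x]
  have e2 : C v x x = C x x v := by rw [hC1 v x x, hC2 x v x]
  have e3 : C x v v = C v v x := by rw [hC1 x v v, hC2 v x v]
  have e4 : C y v v = C v v y := by rw [hC1 y v v, hC2 v y v]
  have e5 : C y x x = C x x y := by rw [hC1 y x x, hC2 x y x]
  have e6 : C x y v = C y x v := hC1 x y v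
  have e7 : C y v x = C y x v := hC2 y v x
  unfold DRb
  rw [e5, e2, e1] at k1
  rw [e4, e3, e6] at k2
  rw [e5, e4, e7]
  simp only [hB x v, hB y v, hB y x] at k1 k2 ⊢
  linarith

/-- second step: a curvature-like form with vanishing sectional values vanishes. -/
theorem DRb_zero (hB : ∀ a b, B a b = B b a) (hC1 : ∀ a b c, C a b c = C b a c)
    (hC2 : ∀ a b c, C a b c = C a c b) (h : ∀ v x, DRb B C v x v v x = 0) (y X Y Z U : E) :
    DRb B C y X Y Z U = 0 := by
  have h0 := fun x v => DRb_step hB hC1 hC2 h y x v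
  -- linearise in x
  have h1 : ∀ x z v : E, DRb B C y x v v z = 0 := by
    intro x z v
    have a1 := h0 (x + z) v
    have a2 := h0 x v
    have a3 := h0 z v
    unfold DRb at a1 a2 a3 ⊢
    simp only [map_add, LinearMap.add_apply, inner_add_left, inner_add_right] at a1
    have e1 := hC2 y z x
    have e2 := hC2 y z v
    have e3 := hC2 y v x
    rw [e1, e2, e3, hB z x, hB z v, hB v x] at a1
    rw [e2, hB z v] at a3
    rw [e3, hB v x] at a2
    rw [hB v z, hC2 y v z, e2, hB z v]
    linarith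
  -- linearise in v
  have h2 : ∀ x z v w : E, DRb B C y x v w z + DRb B C y x w v z = 0 := by
    intro x z v w
    have a1 := h1 x z (v + w)
    have a2 := h1 x z v
    have a3 := h1 x z w
    unfold DRb at a1 a2 a3 ⊢
    simp only [map_add, LinearMap.add_apply, inner_add_left, inner_add_right] at a1
    linarith
  have a1 := h2 X U Y Z
  have a2 := h2 Y U Z X
  have a3 := h2 Z U X Y
  unfold DRb at a1 a2 a3 ⊢
  have f1 := hC2 y Z X
  have f2 := hC2 y Y X
  have f3 := hC2 y Z Y
  rw [f3, hB Z Y] at a1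
  rw [f1, f2, hB Z X, hB Y X] at a2
  rw [f1, f3, hB Z X, hB Z Y, f2, hB Y X] at a3
  linarith

end Crest.Agent.R208.HA
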