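import Crest.Agent.R208.HA1
import Crest.Agent.R241.D3b

/-!
R208, block G7 (helper88), file HA2: the curvature form of a closed submanifold, its covariant
derivative, the derivative of the curvature along fields on curves.
-/

set_option autoImplicit false

open Set Filter Topology
open scoped ContDiff RealInnerProductSpace
open Crest.GeometryTopology.Submanifold
open Crest.Agent.R241.DDefs
open Crest.Agent.R241.D2
open Crest.Agent.R241.D3b

noncomputable section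

namespace Crest.Agent.R208.HA

variable {n N : ℕ} {κ : ℝ} {S : Set (Euc N)} (G : Geo n N κ S)

/-- curvature form `⟨R(X,Y)Z,W⟩` (Gauss). -/
def Rm (x X Y Z W : Euc N) : ℝ := ⟪II G x X W, II G x Y Z⟫ - ⟪II G x X Z, II G x Y W⟫

/-- covariant derivative of the second fundamental form. -/
def Cf (x v X W : Euc N) : Euc N :=
  (fderiv ℝ (fderiv ℝ G.P) x v X W + fderiv ℝ G.P x (II G x v X) W) -
    G.P x (fderiv ℝ (fderiv ℝ G.P) x v X W + fderiv ℝ G.P x (II G x v X) W)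

/-- covariant derivative of the curvature form. -/
def DRm (x v X Y Z W : Euc N) : ℝ :=
  ⟪Cf G x v X W, II G x Y Z⟫ + ⟪Cf G x v Y Z, II G x X W⟫
    - ⟪Cf G x v X Z, II G x Y W⟫ - ⟪Cf G x v Y W, II G x X Z⟫

lemma contDiff_dP : ContDiff ℝ ∞ (fderiv ℝ G.P) := G.contDiff_P.fderiv_right (by simp)

lemma differentiable_dP : Differentiable ℝ (fderiv ℝ G.P) :=
  (contDiff_dP G).differentiable (by simp)

lemma d2P_symm (x a b : Euc N) :
    fderiv ℝ (fderiv ℝ G.P) x a b = fderiv ℝ (fderiv ℝ G.P) x b a := by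
  have h := (G.contDiff_P.contDiffAt (x := x)).isSymmSndFDerivAt (n := ∞) min_le
  exact h.eq a b

variable {G}

lemma II_symm {x v w : Euc N} (hx : x ∈ S) (hv : v ∈ G.T x) (hw : w ∈ G.T x) :
    II G x v w = II G x w v := by
  obtain ⟨α, h0, hα, hS, h1, h2⟩ := G.exists_surface x hx v hv w hw
  have hα2 : ContDiffAt ℝ 2 α 0 := hα.of_le two_le
  have e1 := snd_deriv G hα2 hS (1, 0) (0, 1)
  have e2 := snd_deriv G hα2 hS (0, 1) (1, 0)
  have h3 : fderiv ℝ (fderiv ℝ α) 0 (1, 0) (0, 1) = fderiv ℝ (fderiv ℝ α) 0 (0, 1) (1, 0) :=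
    (hα.isSymmSndFDerivAt (n := ∞) min_le).eq _ _
  rw [h1, h2, h0] at e1 e2
  rw [h3] at e1
  have h4 := e1.symm.trans e2
  exact add_left_cancel h4

/-- `dP(v)` maps normal vectors to tangent vectors (in the form `P (dP(v) ν) = dP(v) ν`). -/
lemma P_dP_normal {x v ν : Euc N} (hx : x ∈ S) (hv : v ∈ G.T x) (hν : G.P x ν = 0) :
    G.P x (fderiv ℝ G.P x v ν) = fderiv ℝ G.P x v ν := by
  obtain ⟨c, h0, hc, hS⟩ := exists_curve G hx hv
  have hP : HasDerivAt (fun t => G.P (c t)) (fderiv ℝ G.P x v) 0 := by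
    have := ((differentiable_P G) (c 0)).hasFDerivAt.comp_hasDerivAt (0 : ℝ) hc
    rwa [h0] at this
  have h1 : HasDerivAt (fun t => G.P (c t) ν) (fderiv ℝ G.P x v ν) 0 := by
    simpa using hP.clm_apply (hasDerivAt_const (0 : ℝ) ν)
  have h2 := hP.clm_apply h1
  have h3 : (fun t => G.P (c t) (G.P (c t) ν)) =ᶠ[𝓝 0] fun t => G.P (c t) ν := by
    filter_upwards [hS] with t ht
    exact P_idem G ht ν
  have h4 := (h2.congr_of_eventuallyEq h3.symm).unique h1
  rw [h0, hν] at h4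
  simpa using h4

/-- symmetry of `dP(v)`. -/
lemma inner_dP {x v a b : Euc N} (hx : x ∈ S) (hv : v ∈ G.T x) :
    ⟪fderiv ℝ G.P x v a, b⟫ = ⟪a, fderiv ℝ G.P x v b⟫ := by
  obtain ⟨c, h0, hc, hS⟩ := exists_curve G hx hv
  have hP : HasDerivAt (fun t => G.P (c t)) (fderiv ℝ G.P x v) 0 := by
    have := ((differentiable_P G) (c 0)).hasFDerivAt.comp_hasDerivAt (0 : ℝ) hc
    rwa [h0] at this
  have ha : HasDerivAt (fun t => G.P (c t) a) (fderiv ℝ G.P x v a) 0 := by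
    simpa using hP.clm_apply (hasDerivAt_const (0 : ℝ) a)
  have hb : HasDerivAt (fun t => G.P (c t) b) (fderiv ℝ G.P x v b) 0 := by
    simpa using hP.clm_apply (hasDerivAt_const (0 : ℝ) b)
  have h1 := ha.inner ℝ (hasDerivAt_const (0 : ℝ) b)
  have h2 := (hasDerivAt_const (0 : ℝ) a).inner ℝ hb
  have h3 : (fun t => ⟪G.P (c t) a, b⟫) =ᶠ[𝓝 0] fun t => ⟪a, G.P (c t) b⟫ := by
    filter_upwards [hS] with t ht
    exact inner_P_left G ht a b
  have h4 := (h2.congr_of_eventuallyEq h3).unique h1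
  simp only [inner_zero_left, inner_zero_right, add_zero, zero_add] at h4
  exact h4.symm

/-- derivative of the second fundamental form along fields on a curve. -/
lemma hasDerivAt_II {c : ℝ → Euc N} {v : Euc N} {t : ℝ} {X W : ℝ → Euc N} {X' W' : Euc N}
    (hc : HasDerivAt c v t) (hX : HasDerivAt X X' t) (hW : HasDerivAt W W' t) :
    HasDerivAt (fun s => II G (c s) (X s) (W s))
      (fderiv ℝ (fderiv ℝ G.P) (c t) v (X t) (W t) + fderiv ℝ G.P (c t) X' (W t)
        + fderiv ℝ G.P (c t) (X t) W') t := by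
  have h0 : HasFDerivAt (fderiv ℝ G.P) (fderiv ℝ (fderiv ℝ G.P) (c t)) (c t) :=
    (differentiable_dP G (c t)).hasFDerivAt
  have h1 : HasDerivAt (fun s => fderiv ℝ G.P (c s)) (fderiv ℝ (fderiv ℝ G.P) (c t) v) t :=
    HasFDerivAt.comp_hasDerivAt (E := Euc N →L[ℝ] Euc N →L[ℝ] Euc N) (F := Euc N) t h0 hc
  have h2 := (h1.clm_apply hX).clm_apply hW
  refine h2.congr_deriv ?_
  simp

/-- the derivative of a tangential field. -/
lemma deriv_field {c : ℝ → Euc N} {v : Euc N} {t : ℝ} {X : ℝ → Euc N} {X' : Euc N}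
    (hc : HasDerivAt c v t) (hX : HasDerivAt X X' t) (hS : ∀ᶠ s in 𝓝 t, c s ∈ S)
    (hT : ∀ᶠ s in 𝓝 t, X s ∈ G.T (c s)) : X' = G.P (c t) X' + II G (c t) v (X t) := by
  have hP : HasDerivAt (fun s => G.P (c s)) (fderiv ℝ G.P (c t) v) t :=
    ((differentiable_P G) (c t)).hasFDerivAt.comp_hasDerivAt t hc
  have h1 := hP.clm_apply hX
  have h2 : (fun s => G.P (c s) (X s)) =ᶠ[𝓝 t] X := by
    filter_upwards [hS, hT] with s h3 h4
    exact (P_eq_self G h3).1 h4
  have h3 := (h1.congr_of_eventuallyEq h2.symm).unique hX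
  rw [← h3]
  unfold II
  have h4 : G.P (c t) (fderiv ℝ G.P (c t) v (X t)) = 0 :=
    II_normal G hS.self_of_nhds (G.deriv_mem c v t hS hc) hT.self_of_nhds
  rw [map_add, h4, zero_add]
  rw [show G.P (c t) (G.P (c t) X') = G.P (c t) X' from P_idem G hS.self_of_nhds _]
  abel

/-- normal part of the derivative of `II` along tangential fields. -/
lemma normal_deriv_II {x v X W X' W' : Euc N} (hx : x ∈ S) (hv : v ∈ G.T x) (hX : X ∈ G.T x)
    (hW : W ∈ G.T x) (hX' : X' = G.P x X' + II G x v X) (hW' : W' = G.P x W' + II G x v W) :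
    ∃ τ ∈ G.T x, fderiv ℝ (fderiv ℝ G.P) x v X W + fderiv ℝ G.P x X' W + fderiv ℝ G.P x X W' =
      Cf G x v X W + II G x (G.P x X') W + II G x X (G.P x W') + τ := by
  have h1 : fderiv ℝ G.P x X' W = II G x (G.P x X') W + fderiv ℝ G.P x (II G x v X) W := by
    conv_lhs => rw [hX']
    simp [II]
  have h2 : fderiv ℝ G.P x X W' = II G x X (G.P x W') + fderiv ℝ G.P x X (II G x v W) := by
    conv_lhs => rw [hW']
    simp [II]
  have h3 := P_dP_normal hx hX (II_normal G hx hv hW)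
  refine ⟨G.P x (fderiv ℝ (fderiv ℝ G.P) x v X W + fderiv ℝ G.P x (II G x v X) W) +
    fderiv ℝ G.P x X (II G x v W), ?_, ?_⟩
  · refine (G.T x).add_mem (P_mem G hx) ?_
    rw [← h3]
    exact P_mem G hx
  · rw [h1, h2]
    unfold Cf
    abel

lemma P_Cf {x : Euc N} (hx : x ∈ S) (v X W : Euc N) : G.P x (Cf G x v X W) = 0 := by
  unfold Cf
  rw [map_sub, P_idem G hx, sub_self]

lemma inner_normal {x ν τ : Euc N} (hx : x ∈ S) (hν : G.P x ν = 0) (hτ : τ ∈ G.T x) :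
    ⟪τ, ν⟫ = 0 := by
  rw [← (P_eq_self G hx).1 hτ, inner_P_left G hx, hν, inner_zero_right]

lemma inner_normal' {x ν τ : Euc N} (hx : x ∈ S) (hν : G.P x ν = 0) (hτ : τ ∈ G.T x) :
    ⟪ν, τ⟫ = 0 := by
  rw [real_inner_comm, inner_normal hx hν hτ]

/-- symmetry of `C` in the first two arguments -/
lemma Cf_symm1 {x v X : Euc N} (hx : x ∈ S) (hv : v ∈ G.T x) (hX : X ∈ G.T x) (W : Euc N) :
    Cf G x v X W = Cf G x X v W := by
  unfold Cf
  rw [d2P_symm G x v X, II_symm hx hv hX]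

/-- symmetry of `C` in the last two arguments -/
lemma Cf_symm2 {x v X W : Euc N} (hx : x ∈ S) (hv : v ∈ G.T x) (hX : X ∈ G.T x)
    (hW : W ∈ G.T x) : Cf G x v X W = Cf G x v W X := by
  obtain ⟨c, h0, hc, hS⟩ := exists_curve G hx hv
  have hP : HasDerivAt (fun t => G.P (c t)) (fderiv ℝ G.P x v) 0 := by
    have := ((differentiable_P G) (c 0)).hasFDerivAt.comp_hasDerivAt (0 : ℝ) hc
    rwa [h0] at this
  have hXd : HasDerivAt (fun t => G.P (c t) X) (fderiv ℝ G.P x v X) 0 := by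
    simpa using hP.clm_apply (hasDerivAt_const (0 : ℝ) X)
  have hWd : HasDerivAt (fun t => G.P (c t) W) (fderiv ℝ G.P x v W) 0 := by
    simpa using hP.clm_apply (hasDerivAt_const (0 : ℝ) W)
  have h1 := hasDerivAt_II (G := G) hc hXd hWd
  have h2 := hasDerivAt_II (G := G) hc hWd hXd
  have h3 : (fun s => II G (c s) (G.P (c s) X) (G.P (c s) W)) =ᶠ[𝓝 0]
      fun s => II G (c s) (G.P (c s) W) (G.P (c s) X) := by
    filter_upwards [hS] with s hs
    exact II_symm hs (P_mem G hs) (P_mem G hs)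
  have h4 := (h2.congr_of_eventuallyEq h3).unique h1
  rw [h0] at h4
  rw [(P_eq_self G hx).1 hX, (P_eq_self G hx).1 hW] at h4
  have hXn : G.P x (fderiv ℝ G.P x v X) = 0 := II_normal G hx hv hX
  have hWn : G.P x (fderiv ℝ G.P x v W) = 0 := II_normal G hx hv hW
  obtain ⟨τ1, hτ1, k1⟩ := normal_deriv_II (X' := fderiv ℝ G.P x v X)
    (W' := fderiv ℝ G.P x v W) hx hv hX hW (by rw [hXn, zero_add]; rfl) (by rw [hWn, zero_add]; rfl)
  obtain ⟨τ2, hτ2, k2⟩ := normal_deriv_II (X' := fderiv ℝ G.P x v W)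
    (W' := fderiv ℝ G.P x v X) hx hv hW hX (by rw [hWn, zero_add]; rfl) (by rw [hXn, zero_add]; rfl)
  rw [k1, k2, hXn, hWn] at h4
  simp only [II, map_zero, add_zero, zero_apply] at h4
  -- take normal parts
  have h5 : Cf G x v X W - Cf G x v W X = τ2 - τ1 := by
    rw [sub_eq_sub_iff_add_eq_add, ← h4]; abel
  have h6 : G.P x (Cf G x v X W - Cf G x v W X) = 0 := by
    rw [map_sub, P_Cf hx, P_Cf hx, sub_zero]
  have h7 : G.P x (τ2 - τ1) = τ2 - τ1 := (P_eq_self G hx).1 ((G.T x).sub_mem hτ2 hτ1)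
  rw [← h5, h6] at h7
  exact sub_eq_zero.1 h7.symm

/-- derivative of the curvature form along tangential fields on a curve. -/
theorem hasDerivAt_Rm {c : ℝ → Euc N} {v : Euc N} {t : ℝ} {X Y Z W : ℝ → Euc N}
    {X' Y' Z' W' : Euc N} (hc : HasDerivAt c v t) (hS : ∀ᶠ s in 𝓝 t, c s ∈ S)
    (hX : HasDerivAt X X' t) (hY : HasDerivAt Y Y' t) (hZ : HasDerivAt Z Z' t)
    (hW : HasDerivAt W W' t) (hXT : ∀ᶠ s in 𝓝 t, X s ∈ G.T (c s))
    (hYT : ∀ᶠ s in 𝓝 t, Y s ∈ G.T (c s)) (hZT : ∀ᶠ s in 𝓝 t, Z s ∈ G.T (c s))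
    (hWT : ∀ᶠ s in 𝓝 t, W s ∈ G.T (c s)) :
    HasDerivAt (fun s => Rm G (c s) (X s) (Y s) (Z s) (W s))
      (DRm G (c t) v (X t) (Y t) (Z t) (W t)
        + Rm G (c t) (G.P (c t) X') (Y t) (Z t) (W t)
        + Rm G (c t) (X t) (G.P (c t) Y') (Z t) (W t)
        + Rm G (c t) (X t) (Y t) (G.P (c t) Z') (W t)
        + Rm G (c t) (X t) (Y t) (Z t) (G.P (c t) W')) t := by
  have hx : c t ∈ S := hS.self_of_nhds
  have hv : v ∈ G.T (c t) := G.deriv_mem c v t hS hc
  have eX := deriv_field hc hX hS hXT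
  have eY := deriv_field hc hY hS hYT
  have eZ := deriv_field hc hZ hS hZT
  have eW := deriv_field hc hW hS hWT
  have tX := hXT.self_of_nhds
  have tY := hYT.self_of_nhds
  have tZ := hZT.self_of_nhds
  have tW := hWT.self_of_nhds
  have dXW := hasDerivAt_II (G := G) hc hX hW
  have dYZ := hasDerivAt_II (G := G) hc hY hZ
  have dXZ := hasDerivAt_II (G := G) hc hX hZ
  have dYW := hasDerivAt_II (G := G) hc hY hW
  obtain ⟨τ1, h1, k1⟩ := normal_deriv_II hx hv tX tW eX eW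
  obtain ⟨τ2, h2, k2⟩ := normal_deriv_II hx hv tY tZ eY eZ
  obtain ⟨τ3, h3, k3⟩ := normal_deriv_II hx hv tX tZ eX eZ
  obtain ⟨τ4, h4, k4⟩ := normal_deriv_II hx hv tY tW eY eW
  rw [k1] at dXW
  rw [k2] at dYZ
  rw [k3] at dXZ
  rw [k4] at dYW
  have nXW := II_normal G hx tX tW
  have nYZ := II_normal G hx tY tZ
  have nXZ := II_normal G hx tX tZ
  have nYW := II_normal G hx tY tW
  have h := (dXW.inner ℝ dYZ).sub (dXZ.inner ℝ dYW)
  refine h.congr_deriv ?_
  simp only [inner_add_left, inner_add_right]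
  rw [inner_normal hx nYZ h1, inner_normal' hx nXW h2, inner_normal hx nYW h3,
    inner_normal' hx nXZ h4]
  unfold DRm Rm
  rw [real_inner_comm (II G (c t) (X t) (W t)) (Cf G (c t) v (Y t) (Z t)),
    real_inner_comm (II G (c t) (X t) (Z t)) (Cf G (c t) v (Y t) (W t))]
  ring

end Crest.Agent.R208.HA
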