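import Crest.Agent.R208.HA2

/-!
R208, block G7 (helper88), file HA3: `∇R = 0` from the vanishing of `(∇_v R)(X,v,v,X)`;
the curvature operators act as derivations of the curvature form.
-/

set_option autoImplicit false

open Set Filter Topology
open scoped ContDiff RealInnerProductSpace
open Crest.GeometryTopology.Submanifold
open Crest.Agent.R241.DDefs
open Crest.Agent.R241.D2
open Crest.Agent.R241.D3b

noncomputable section

namespace Crest.Agent.R208.HA

variable {n N : ℕ} {κ : ℝ} {S : Set (Euc N)} (G : Geo n N κ S)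

/-- `II` on projected vectors. -/
def Bl (x : Euc N) : Euc N →ₗ[ℝ] Euc N →ₗ[ℝ] Euc N :=
  LinearMap.mk₂ ℝ (fun v w => II G x (G.P x v) (G.P x w))
    (by intro a b c; simp [II]) (by intro a b c; simp [II])
    (by intro a b c; simp [II]) (by intro a b c; simp [II])

/-- `C` on projected vectors, linear in the last variable. -/
def Cl1 (x v X : Euc N) : Euc N →ₗ[ℝ] Euc N where
  toFun W := Cf G x v X (G.P x W)
  map_add' a b := by simp only [Cf, map_add]; abel
  map_smul' r a := by simp only [Cf, map_smul, RingHom.id_apply, smul_sub, smul_add, map_add]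

/-- `C` on projected vectors. -/
def Cl (x : Euc N) : Euc N →ₗ[ℝ] Euc N →ₗ[ℝ] Euc N →ₗ[ℝ] Euc N :=
  LinearMap.mk₂ ℝ (fun v X => Cl1 G x (G.P x v) (G.P x X))
    (by
      intro a b c; ext1 W
      simp only [Cl1, LinearMap.coe_mk, AddHom.coe_mk, LinearMap.add_apply, Cf, II, map_add,
        add_apply]
      abel)
    (by
      intro a b c; ext1 W
      simp only [Cl1, LinearMap.coe_mk, AddHom.coe_mk, LinearMap.smul_apply, Cf, II, map_smul,
        smul_apply, smul_sub, smul_add, map_add])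
    (by
      intro a b c; ext1 W
      simp only [Cl1, LinearMap.coe_mk, AddHom.coe_mk, LinearMap.add_apply, Cf, II, map_add,
        add_apply]
      abel)
    (by
      intro a b c; ext1 W
      simp only [Cl1, LinearMap.coe_mk, AddHom.coe_mk, LinearMap.smul_apply, Cf, II, map_smul,
        smul_apply, smul_sub, smul_add, map_add])

lemma Bl_apply (x v w : Euc N) : Bl G x v w = II G x (G.P x v) (G.P x w) := rfl

lemma Cl_apply (x v X W : Euc N) : Cl G x v X W = Cf G x (G.P x v) (G.P x X) (G.P x W) := rfl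

variable {G}

lemma DRb_eq (x v X Y Z W : Euc N) :
    DRb (Bl G x) (Cl G x) v X Y Z W =
      DRm G x (G.P x v) (G.P x X) (G.P x Y) (G.P x Z) (G.P x W) := rfl

/-- `∇R = 0` at `x`. -/
theorem DRm_zero {x : Euc N} (hx : x ∈ S)
    (h : ∀ v ∈ G.T x, ∀ X ∈ G.T x, DRm G x v X v v X = 0) {v X Y Z W : Euc N} (hv : v ∈ G.T x)
    (hX : X ∈ G.T x) (hY : Y ∈ G.T x) (hZ : Z ∈ G.T x) (hW : W ∈ G.T x) :
    DRm G x v X Y Z W = 0 := by
  have h1 := DRb_zero (B := Bl G x) (C := Cl G x)
    (fun a b => II_symm hx (P_mem G hx) (P_mem G hx))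
    (fun a b c => Cf_symm1 hx (P_mem G hx) (P_mem G hx) _)
    (fun a b c => Cf_symm2 hx (P_mem G hx) (P_mem G hx) (P_mem G hx))
    (fun a b => h _ (P_mem G hx) _ (P_mem G hx)) v X Y Z W
  rw [DRb_eq] at h1
  rwa [(P_eq_self G hx).1 hv, (P_eq_self G hx).1 hX, (P_eq_self G hx).1 hY,
    (P_eq_self G hx).1 hZ, (P_eq_self G hx).1 hW] at h1

end Crest.Agent.R208.HA
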