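import Crest.Agent.R208.V2b

/-!
# (H1), (H2) exclude all `k ≥ 8` except `(8,2)`, part a: the numbers `[z^i] (1-z)^σ / (1-κz)`
over a commutative `ℝ`-algebra.
-/

namespace Crest.Agent.R208.HH

open Finset V2

noncomputable section

/-- `[z^i] (1-z)^σ / (1-κz)`. -/
def K {A : Type*} [CommRing A] [Algebra ℝ A] (κ : A) (σ : ℝ) : ℕ → A
  | 0 => 1
  | i + 1 => κ * K κ σ i + algebraMap ℝ A (F 0 σ (i + 1))

section
variable {A : Type*} [CommRing A] [Algebra ℝ A] (κ : A)

@[simp] theorem K_zero (σ : ℝ) : K κ σ 0 = 1 := rfl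

theorem K_succ (σ : ℝ) (i : ℕ) :
    K κ σ (i + 1) = κ * K κ σ i + algebraMap ℝ A (F 0 σ (i + 1)) := rfl

theorem K_pascal (σ : ℝ) (i : ℕ) : K κ (σ + 1) (i + 1) = K κ σ (i + 1) - K κ σ i := by
  induction i with
  | zero =>
    rw [K_succ, K_succ, F_pascal]
    simp only [K_zero, F_zero_right, map_sub, map_one]
    ring
  | succ i ih =>
    rw [K_succ, ih, K_succ κ σ (i + 1), K_succ κ σ i, F_pascal]
    simp only [map_sub]
    ring

/-- the numbers `γ`. -/
def gam (i : ℕ) : A := K κ ((i : ℝ) / 2) i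

/-- the numbers `χ`. -/
def chi (i : ℕ) : A := K κ ((i : ℝ) / 2 + 1) i

theorem K_aux (i : ℕ) :
    K κ ((i : ℝ) / 2 + 1) (i + 1) = (κ - 1) * gam κ i + 2 * algebraMap ℝ A (om (i + 2)) := by
  rw [K_pascal, K_succ, om_F]
  unfold gam
  rw [map_mul, om_add_two, map_ofNat]
  ring

theorem gam_add_two (i : ℕ) :
    gam κ (i + 2) = κ * (κ - 1) * gam κ i + (2 * κ - 1) * algebraMap ℝ A (om (i + 2)) := by
  have e : gam κ (i + 2) = K κ ((i : ℝ) / 2 + 1) (i + 2) := by
    unfold gam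
    congr 1
    push_cast
    ring
  rw [e, K_succ, K_aux, F_pascal, om_F, om_add_two]
  simp only [map_sub, map_mul, map_ofNat]
  ring

theorem chi_add_two (i : ℕ) :
    chi κ (i + 2) = (κ - 1) ^ 2 * gam κ i + (2 * κ - 3) * algebraMap ℝ A (om (i + 2)) := by
  have e : chi κ (i + 2) = K κ ((i : ℝ) / 2 + 1 + 1) (i + 1 + 1) := by
    unfold chi
    congr 1
    push_cast
    ring
  have e2 : gam κ (i + 2) = K κ ((i : ℝ) / 2 + 1) (i + 1 + 1) := by
    unfold gam
    congr 1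
    push_cast
    ring
  rw [e, K_pascal, ← e2, K_aux, gam_add_two]
  ring

theorem gam_zero : gam κ 0 = 1 := rfl

theorem gam_one : gam κ 1 = κ - algebraMap ℝ A (1 / 2) := by
  unfold gam
  rw [K_succ, F_zero_left, bn_succ]
  have : (-1 : ℝ) ^ (0 + 1) * (bn (((1 : ℕ) : ℝ) / 2) 0 * (((1 : ℕ) : ℝ) / 2 - (0 : ℕ)) / ((0 : ℕ) + 1))
      = -(1 / 2) := by
    norm_num
  rw [this, map_neg]
  simp
  ring

theorem chi_zero : chi κ 0 = 1 := rfl

theorem chi_one : chi κ 1 = κ - algebraMap ℝ A (3 / 2) := by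
  unfold chi
  rw [K_succ, F_zero_left, bn_succ]
  have : (-1 : ℝ) ^ (0 + 1)
      * (bn (((1 : ℕ) : ℝ) / 2 + 1) 0 * (((1 : ℕ) : ℝ) / 2 + 1 - (0 : ℕ)) / ((0 : ℕ) + 1))
      = -(3 / 2) := by
    norm_num
  rw [this, map_neg]
  simp
  ring

theorem chi_two : chi κ 2 = (1 - κ) ^ 2 := by
  rw [chi_add_two, gam_zero, om_two, map_zero]
  ring

/-- the recursion of `χ` (`i ≥ 1`). -/
theorem chi_rec (i : ℕ) : chi κ (i + 3) = -(κ * (1 - κ) * chi κ (i + 1))
    - (1 - κ) * algebraMap ℝ A (om (i + 1))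
    - (1 + 2 * (1 - κ)) * algebraMap ℝ A (om (i + 3)) := by
  rcases i with _ | i
  · rw [chi_add_two κ 1, gam_one, chi_one]
    have e3 : om (1 + 2) = -(1 / 16) := by
      rw [om_succ, om_one]; norm_num
    have e1 : om (0 + 1) = 1 / 2 := om_one
    rw [e3, e1]
    have h1 : algebraMap ℝ A (3 / 2) = 1 + algebraMap ℝ A (1 / 2) := by
      rw [← map_one (algebraMap ℝ A), ← map_add]; norm_num
    rw [h1]
    ring
  · rw [chi_add_two κ (i + 2), chi_add_two κ i, gam_add_two]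
    show _ = -(κ * (1 - κ) * ((κ - 1) ^ 2 * gam κ i + (2 * κ - 3) * algebraMap ℝ A (om (i + 2))))
      - (1 - κ) * algebraMap ℝ A (om (i + 2)) - (1 + 2 * (1 - κ)) * algebraMap ℝ A (om (i + 4))
    show (κ - 1) ^ 2 * (κ * (κ - 1) * gam κ i + (2 * κ - 1) * algebraMap ℝ A (om (i + 2)))
      + (2 * κ - 3) * algebraMap ℝ A (om (i + 4)) = _
    ring

end

/-! ### real `κ` -/

theorem K_two (σ : ℝ) (i : ℕ) : K (2 : ℝ) σ i = F 1 σ i := by
  induction i with
  | zero => simp
  | succ i ih =>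
    rw [K_succ, F_succ, ih]
    rfl

theorem gam_two (i : ℕ) : gam (2 : ℝ) i = ga i := K_two _ _

/-- the numbers `g'`. -/
def gp (i : ℕ) : ℝ := F 1 ((i : ℝ) / 2 + 1) i

theorem chi_two' (i : ℕ) : chi (2 : ℝ) i = gp i := K_two _ _

theorem gp_add_two (i : ℕ) : gp (i + 2) = ga i + om (i + 2) := by
  rw [← chi_two', chi_add_two, gam_two]
  simp only [Algebra.algebraMap_self, RingHom.id_apply]
  ring

theorem gp_zero : gp 0 = 1 := by simp [gp]

theorem gp_one : gp 1 = 1 / 2 := by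
  rw [← chi_two', chi_one]
  simp only [Algebra.algebraMap_self, RingHom.id_apply]
  norm_num

theorem om_three : om 3 = -(1 / 16) := by
  rw [om_succ 1, om_one]; norm_num

theorem om_four : om 4 = 0 := by
  rw [om_succ 2, om_two]; simp

theorem om_five : om 5 = 3 / 256 := by
  rw [om_succ 3, om_three]; norm_num

theorem ga_two : ga 2 = 2 := by
  rw [ga_add_two 0, ga_zero, om_two]; norm_num

theorem ga_three : ga 3 = 45 / 16 := by
  rw [ga_add_two 1, ga_one, om_three]; norm_num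

theorem gp_two : gp 2 = 1 := by
  rw [gp_add_two 0, ga_zero, om_two]; norm_num

theorem gp_three : gp 3 = 23 / 16 := by
  rw [gp_add_two 1, ga_one, om_three]; norm_num

theorem gp_four : gp 4 = 2 := by
  rw [gp_add_two 2, ga_two, om_four]; norm_num

theorem gp_five : gp 5 = 723 / 256 := by
  rw [gp_add_two 3, ga_three, om_five]; norm_num

theorem gp_pos : ∀ i : ℕ, 0 < gp i
  | 0 => by rw [gp_zero]; norm_num
  | 1 => by rw [gp_one]; norm_num
  | i + 2 => by
    rw [gp_add_two]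
    have h1 := ga_ge i
    have h2 := (abs_le.1 (om_small i)).1
    linarith

/-- the absolute bounds. -/
def nb : ℕ → ℝ
  | 0 => 1
  | 1 => 3 / 2
  | 2 => 1
  | i + 3 => nb (i + 1) + 3 * |om (i + 3)| + |om (i + 1)|

theorem nb_three : nb 3 = 35 / 16 := by
  show nb 1 + 3 * |om 3| + |om 1| = _
  rw [om_three, om_one]
  simp only [nb]
  rw [abs_of_neg (by norm_num), abs_of_pos (by norm_num)]
  norm_num

theorem nb_nonneg : ∀ i : ℕ, 0 ≤ nb i
  | 0 => by simp [nb]
  | 1 => by simp [nb]; norm_num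
  | 2 => by simp [nb]
  | i + 3 => by
    have := nb_nonneg (i + 1)
    simp only [nb]
    positivity

theorem nb_le_gp : ∀ i : ℕ, nb (i + 4) ≤ gp (i + 4)
  | 0 => by
    show nb 2 + 3 * |om 4| + |om 2| ≤ gp 4
    rw [gp_four, om_four, om_two]
    simp [nb]
  | 1 => by
    show nb 3 + 3 * |om 5| + |om 3| ≤ gp 5
    rw [gp_five, om_five, om_three, nb_three, abs_of_pos (by norm_num : (0 : ℝ) < 3 / 256),
      abs_of_neg (by norm_num : -(1 / 16 : ℝ) < 0)]
    norm_num
  | i + 2 => by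
    have ih := nb_le_gp i
    show nb (i + 4) + 3 * |om (i + 6)| + |om (i + 4)| ≤ gp (i + 6)
    rw [gp_add_two (i + 4), ga_add_two (i + 2)]
    rw [gp_add_two (i + 2)] at ih
    have h1 := ga_ge (i + 2)
    have h2 := om_small (i + 2)
    have h3 := om_small (i + 4)
    change |om (i + 4)| ≤ 1 / 8 at h2
    change |om (i + 6)| ≤ 1 / 8 at h3
    have h4 := abs_le.1 (le_refl |om (i + 4)|)
    have h5 := abs_le.1 (le_refl |om (i + 6)|)
    have e1 : om (i + 2 + 2) = om (i + 4) := rfl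
    have e2 : om (i + 4 + 2) = om (i + 6) := rfl
    rw [e1] at ih
    rw [e1, e2]
    linarith [h4.1, h5.1]

/-- for real `κ ∈ [0,1]` the `γ` are small. -/
theorem gam_small {κ : ℝ} (h0 : 0 ≤ κ) (h1 : κ ≤ 1) : ∀ i : ℕ, |gam κ (i + 1)| ≤ 1 / 2
  | 0 => by
    rw [gam_one]
    simp only [Algebra.algebraMap_self, RingHom.id_apply]
    rw [abs_le]
    constructor <;> linarith
  | 1 => by
    rw [gam_add_two, gam_zero, om_two]
    simp only [Algebra.algebraMap_self, RingHom.id_apply]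
    rw [abs_le]
    constructor <;> nlinarith [sq_nonneg (κ - 1 / 2)]
  | i + 2 => by
    have ih := abs_le.1 (gam_small h0 h1 i)
    have ho := abs_le.1 (om_small (i + 1))
    rw [gam_add_two κ (i + 1)]
    simp only [Algebra.algebraMap_self, RingHom.id_apply]
    have a1 : |κ * (κ - 1)| ≤ 1 / 4 := by
      rw [abs_le]
      constructor <;> nlinarith [sq_nonneg (κ - 1 / 2)]
    have a2 : |2 * κ - 1| ≤ 1 := by
      rw [abs_le]
      constructor <;> linarith
    have a3 := gam_small h0 h1 i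
    have a4 := om_small (i + 1)
    calc |κ * (κ - 1) * gam κ (i + 1) + (2 * κ - 1) * om (i + 1 + 2)|
        ≤ |κ * (κ - 1) * gam κ (i + 1)| + |(2 * κ - 1) * om (i + 1 + 2)| := abs_add_le _ _
      _ = |κ * (κ - 1)| * |gam κ (i + 1)| + |2 * κ - 1| * |om (i + 1 + 2)| := by
          rw [abs_mul (κ * (κ - 1)), abs_mul (2 * κ - 1)]
      _ ≤ (1 / 4) * (1 / 2) + 1 * (1 / 8) :=
          add_le_add (mul_le_mul a1 a3 (abs_nonneg _) (by norm_num))
            (mul_le_mul a2 a4 (abs_nonneg _) (by norm_num))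
      _ ≤ 1 / 2 := by norm_num

theorem gam_le {κ : ℝ} (h0 : 1 ≤ κ) (h1 : κ ≤ 2) : ∀ i : ℕ, gam κ i ≤ ga i
  | 0 => by rw [gam_zero, ga_zero]
  | 1 => by
    rw [gam_one, ga_one]
    simp only [Algebra.algebraMap_self, RingHom.id_apply]
    linarith
  | i + 2 => by
    have ih := gam_le h0 h1 i
    have hg := ga_ge i
    have ho := (abs_le.1 (om_small i)).1
    rw [gam_add_two, ga_add_two]
    simp only [Algebra.algebraMap_self, RingHom.id_apply]
    have h2 : κ * (κ - 1) * gam κ i ≤ κ * (κ - 1) * ga i :=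
      mul_le_mul_of_nonneg_left ih (by nlinarith)
    have h3 : 0 ≤ (2 - κ) * ((κ + 1) * ga i + 2 * om (i + 2)) :=
      mul_nonneg (by linarith) (by nlinarith)
    nlinarith

theorem chi_le {κ : ℝ} (h0 : 0 ≤ κ) (h1 : κ ≤ 2) (i : ℕ) : chi κ (i + 2) ≤ gp (i + 2) := by
  rw [chi_add_two, gp_add_two]
  simp only [Algebra.algebraMap_self, RingHom.id_apply]
  rcases i with _ | i
  · rw [gam_zero, ga_zero, om_two]
    nlinarith
  · rcases le_total κ 1 with h | h
    · have a1 := (abs_le.1 (gam_small h0 h i)).2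
      have a2 := om_small (i + 1)
      have a3 := abs_le.1 a2
      have a4 : (3 : ℝ) / 2 ≤ ga (i + 1) := by
        rcases i with _ | i
        · exact le_of_eq ga_one.symm
        · have := ga_ge' i
          linarith
      have a5 : (κ - 1) ^ 2 * gam κ (i + 1) ≤ 1 / 2 := by
        have b1 : (κ - 1) ^ 2 ≤ 1 := by nlinarith
        have b2 : 0 ≤ (κ - 1) ^ 2 := sq_nonneg _
        nlinarith
      have a6 : (2 * κ - 3) * om (i + 1 + 2) ≤ 3 / 8 := by
        have : (2 * κ - 3) * om (i + 1 + 2) ≤ |2 * κ - 3| * |om (i + 1 + 2)| := by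
          rw [← abs_mul]; exact le_abs_self _
        have b3 : |2 * κ - 3| ≤ 3 := by
          rw [abs_le]; constructor <;> linarith
        have := mul_le_mul b3 a2 (abs_nonneg _) (by norm_num : (0 : ℝ) ≤ 3)
        linarith
      linarith [a3.1]
    · have a1 := gam_le h h1 (i + 1)
      have hg := ga_ge (i + 1)
      have ho := (abs_le.1 (om_small (i + 1))).1
      have h2 : (κ - 1) ^ 2 * gam κ (i + 1) ≤ (κ - 1) ^ 2 * ga (i + 1) :=
        mul_le_mul_of_nonneg_left a1 (sq_nonneg _)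
      have h3 : 0 ≤ (2 - κ) * (κ * ga (i + 1) + 2 * om (i + 1 + 2)) :=
        mul_nonneg (by linarith) (by nlinarith)
      nlinarith

end

end Crest.Agent.R208.HH
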