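import Crest.Agent.R208.HHa

/-!
# (H1), (H2) exclude all `k ≥ 8` except `(8,2)`, part b: coefficientwise positivity in `w`.
-/

namespace Crest.Agent.R208.HH

open Finset PowerSeries V2

noncomputable section

/-- all coefficients are non-negative. -/
def NN (f : PowerSeries ℝ) : Prop := ∀ t, 0 ≤ coeff t f

theorem NN.add {f g : PowerSeries ℝ} (hf : NN f) (hg : NN g) : NN (f + g) := fun t => by
  rw [map_add]; exact add_nonneg (hf t) (hg t)

theorem NN.mul {f g : PowerSeries ℝ} (hf : NN f) (hg : NN g) : NN (f * g) := fun t => by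
  rw [coeff_mul]; exact Finset.sum_nonneg fun p _ => mul_nonneg (hf _) (hg _)

theorem NN_C {c : ℝ} (h : 0 ≤ c) : NN (C c) := fun t => by
  rw [coeff_C]; split_ifs <;> simp [h]

theorem NN_X : NN (X : PowerSeries ℝ) := fun t => by
  rw [coeff_X]; split_ifs <;> simp

theorem NN_one : NN (1 : PowerSeries ℝ) := fun t => by
  rw [coeff_one]; split_ifs <;> simp

theorem NN_zero : NN (0 : PowerSeries ℝ) := fun t => by simp

theorem NN.smul {c : ℝ} (h : 0 ≤ c) {f : PowerSeries ℝ} (hf : NN f) : NN (C c * f) :=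
  (NN_C h).mul hf

/-- the geometric series. -/
def geo (c : ℝ) : PowerSeries ℝ := PowerSeries.mk fun t => c ^ t

theorem NN_geo {c : ℝ} (h : 0 ≤ c) : NN (geo c) := fun t => by
  rw [geo, coeff_mk]; positivity

theorem geo_mul (c : ℝ) : (1 - C c * X) * geo c = 1 := by
  ext t
  cases t with
  | zero => simp [geo]
  | succ t =>
    have h : (1 - C c * X) * geo c = geo c - C c * (X * geo c) := by ring
    rw [h, map_sub, coeff_C_mul, coeff_succ_X_mul, geo, coeff_mk, coeff_mk, coeff_one]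
    simp [pow_succ]
    ring

/-- `(1-w)^(-σ)`. -/
def D (σ : ℝ) : PowerSeries ℝ := PowerSeries.mk fun t => bn (σ + t - 1) t

theorem coeff_D (σ : ℝ) (t : ℕ) : coeff t (D σ) = bn (σ + t - 1) t := by rw [D, coeff_mk]

theorem coeff_D_succ (σ : ℝ) (t : ℕ) : coeff t (D (σ + 1)) = bn (σ + t) t := by
  rw [coeff_D]
  congr 1
  ring

theorem D_succ (σ : ℝ) : (1 - X) * D (σ + 1) = D σ := by
  ext t
  have h : (1 - X) * D (σ + 1) = D (σ + 1) - X * D (σ + 1) := by ring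
  rw [h, map_sub]
  cases t with
  | zero => simp [coeff_D]
  | succ t =>
    rw [coeff_succ_X_mul, coeff_D, coeff_D, coeff_D]
    have e1 : σ + 1 + ((t + 1 : ℕ) : ℝ) - 1 = (σ + t) + 1 := by push_cast; ring
    have e2 : σ + 1 + (t : ℝ) - 1 = σ + t := by ring
    have e3 : σ + ((t + 1 : ℕ) : ℝ) - 1 = σ + t := by push_cast; ring
    rw [e1, e2, e3, bn_pascal]
    ring

theorem bn_nonneg {a : ℝ} {t : ℕ} (h : (t : ℝ) ≤ a + 1) : 0 ≤ bn a t := by
  cases t with
  | zero => simp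
  | succ t =>
    rw [bn_succ]
    push_cast at h
    have h1 : 0 < bn a t := bn_pos (by linarith)
    have h2 : 0 ≤ a - t := by linarith
    positivity

theorem NN_D {σ : ℝ} (h : 0 ≤ σ) : NN (D σ) := fun t => by
  rw [coeff_D]
  exact bn_nonneg (by linarith)

section
variable (l : ℝ)

/-- `1/p`, `p = 1 - (1-λ²)w`. -/
def ip : PowerSeries ℝ := geo (1 - l ^ 2)

/-- `1/d`, `d = (2-λ) - (2-λ-λ²)w`. -/
def idd : PowerSeries ℝ := C (1 / (2 - l)) * geo ((2 - l - l ^ 2) / (2 - l))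

/-- `κ = λ r / p`, `r = 1 - (1-λ)w`. -/
def ka : PowerSeries ℝ := C l * (1 - C (1 - l) * X) * ip l

/-- `u = 1 - κ = (1-λ)(1-w)/p`. -/
def uu : PowerSeries ℝ := C (1 - l) * (1 - X) * ip l

/-- `Γ = (1 - (1-λ)²w)/(p d)`. -/
def Ga : PowerSeries ℝ := (1 - C ((1 - l) ^ 2) * X) * ip l * idd l

theorem ip_eq : (1 - (1 - C l ^ 2) * X) * ip l = 1 := by
  have := geo_mul (1 - l ^ 2)
  rw [map_sub, map_one, map_pow] at this
  exact this

variable {l}

theorem inv_eq (h1 : l < 1) : (2 - C l) * C (1 / (2 - l)) = 1 := by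
  have : (2 : PowerSeries ℝ) - C l = C (2 - l) := by rw [map_sub, map_ofNat]
  rw [this, ← map_mul, mul_one_div_cancel (by linarith), map_one]

theorem idd_eq (h1 : l < 1) : ((2 - C l) - (2 - C l - C l ^ 2) * X) * idd l = 1 := by
  have h := geo_mul ((2 - l - l ^ 2) / (2 - l))
  have h2 := inv_eq h1
  have e : C ((2 - l - l ^ 2) / (2 - l)) = (2 - C l - C l ^ 2) * C (1 / (2 - l)) := by
    have : (2 : PowerSeries ℝ) - C l - C l ^ 2 = C (2 - l - l ^ 2) := by
      rw [map_sub, map_sub, map_ofNat, map_pow]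
    rw [this, ← map_mul]
    congr 1
    ring
  unfold idd
  rw [e] at h
  generalize C (1 / (2 - l)) = v at *
  generalize geo ((2 - l - l ^ 2) / (2 - l)) = g at *
  linear_combination h + g * h2

theorem uu_eq : uu l = 1 - ka l := by
  have h := ip_eq l
  unfold uu ka
  simp only [map_sub, map_one]
  linear_combination h

theorem NN_ip (h0 : 0 ≤ l) (h1 : l < 1) : NN (ip l) := NN_geo (by nlinarith)

theorem NN_idd (h0 : 0 ≤ l) (h1 : l < 1) : NN (idd l) :=
  NN.smul (by have : 0 < 2 - l := by linarith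
              positivity) (NN_geo (div_nonneg (by nlinarith) (by linarith)))

theorem ka_eq : ka l = C l * (1 + C l * (1 - C l) * X * ip l) := by
  have h := ip_eq l
  unfold ka
  simp only [map_sub, map_one]
  linear_combination C l * h

theorem NN_ka (h0 : 0 ≤ l) (h1 : l < 1) : NN (ka l) := by
  rw [ka_eq]
  have e : (1 : PowerSeries ℝ) - C l = C (1 - l) := by rw [map_sub, map_one]
  rw [e]
  exact NN.smul h0 (NN_one.add ((((NN_C h0).mul (NN_C (by linarith))).mul NN_X).mul (NN_ip h0 h1)))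

theorem Ga_eq : Ga l = idd l + 2 * C l * (1 - C l) * X * ip l * idd l := by
  have h := ip_eq l
  unfold Ga
  simp only [map_sub, map_one, map_pow]
  linear_combination idd l * h

theorem NN_two : NN (2 : PowerSeries ℝ) := by
  have : (2 : PowerSeries ℝ) = C 2 := by rw [map_ofNat]
  rw [this]
  exact NN_C (by norm_num)

theorem NN_Ga (h0 : 0 ≤ l) (h1 : l < 1) : NN (Ga l) := by
  rw [Ga_eq]
  have e : (1 : PowerSeries ℝ) - C l = C (1 - l) := by rw [map_sub, map_one]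
  rw [e]
  exact (NN_idd h0 h1).add (((((NN_two.mul (NN_C h0)).mul (NN_C (by linarith))).mul NN_X).mul
    (NN_ip h0 h1)).mul (NN_idd h0 h1))

/-- `Y ≽ ip * (1-X) Y`. -/
theorem step_ip (σ : ℝ) : D (σ + 1) - ip l * D σ = C l ^ 2 * X * ip l * D (σ + 1) := by
  have h := ip_eq l
  have h2 := D_succ σ
  rw [← h2]
  linear_combination -D (σ + 1) * h

theorem step_idd (h1 : l < 1) (σ : ℝ) : C (1 / (2 - l)) * D (σ + 1) - idd l * D σ
    = C (1 / (2 - l)) * C l ^ 2 * X * idd l * D (σ + 1) := by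
  have h := idd_eq h1
  have h2 := D_succ σ
  have h3 := inv_eq h1
  rw [← h2]
  linear_combination -C (1 / (2 - l)) * D (σ + 1) * h + idd l * D (σ + 1) * (1 - X) * h3

end


/-- coefficientwise absolute bound. -/
def Ab (f g : PowerSeries ℝ) : Prop := ∀ t, |coeff t f| ≤ coeff t g

theorem Ab.mul_left {f g h : PowerSeries ℝ} (hh : NN h) (hfg : Ab f g) : Ab (h * f) (h * g) := by
  intro t
  rw [coeff_mul, coeff_mul]
  refine (Finset.abs_sum_le_sum_abs _ _).trans (Finset.sum_le_sum fun p _ => ?_)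
  rw [abs_mul, abs_of_nonneg (hh _)]
  exact mul_le_mul_of_nonneg_left (hfg _) (hh _)

theorem alg (r : ℝ) : algebraMap ℝ (PowerSeries ℝ) r = C r := rfl

section
variable {l : ℝ}

/-- `Y σ = (1-w)^(-σ) Γ`. -/
def Y (l σ : ℝ) : PowerSeries ℝ := D σ * Ga l

theorem NN_Y (h0 : 0 ≤ l) (h1 : l < 1) {σ : ℝ} (hσ : 0 ≤ σ) : NN (Y l σ) :=
  (NN_D hσ).mul (NN_Ga h0 h1)

theorem uu_Y (σ : ℝ) : uu l * Y l (σ + 1) = C (1 - l) * (ip l * Y l σ) := by
  unfold Y uu
  rw [← D_succ σ]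
  ring

theorem NN_uuY (h0 : 0 ≤ l) (h1 : l < 1) {σ : ℝ} (hσ : 0 ≤ σ) : NN (uu l * Y l (σ + 1)) := by
  rw [uu_Y]
  exact NN.smul (by linarith) ((NN_ip h0 h1).mul (NN_Y h0 h1 hσ))

theorem ka_Y_le (h0 : 0 ≤ l) (h1 : l < 1) {σ : ℝ} (hσ : 0 ≤ σ) (t : ℕ) :
    coeff t (ka l * Y l (σ + 1)) ≤ coeff t (Y l (σ + 1)) := by
  have h := NN_uuY h0 h1 hσ t
  rw [uu_eq, sub_mul, one_mul, map_sub] at h
  linarith

theorem uu_Y_le (h0 : 0 ≤ l) (h1 : l < 1) {σ : ℝ} (hσ : 0 ≤ σ) (t : ℕ) :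
    coeff t (uu l * Y l (σ + 1)) ≤ (1 - l) * coeff t (Y l (σ + 1)) := by
  rw [uu_Y, coeff_C_mul]
  refine mul_le_mul_of_nonneg_left ?_ (by linarith)
  have h : Y l (σ + 1) - ip l * Y l σ = C l ^ 2 * X * ip l * D (σ + 1) * Ga l := by
    rw [← step_ip]
    unfold Y
    ring
  have h2 : NN (C l ^ 2 * X * ip l * D (σ + 1) * Ga l) := by
    rw [← map_pow]
    exact ((((NN_C (by positivity)).mul NN_X).mul (NN_ip h0 h1)).mul (NN_D (by linarith))).mul
      (NN_Ga h0 h1)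
  have h3 := h2 t
  rw [← h, map_sub] at h3
  linarith

/-- the refined step. -/
theorem chi_step (h0 : 0 ≤ l) (h1 : l < 1) (i : ℕ)
    (ih : Ab (chi (ka l) (i + 1) * Y l (((i + 1 : ℕ) : ℝ) / 2 + 1))
      (C (nb (i + 1)) * Y l (((i + 1 : ℕ) : ℝ) / 2 + 1))) :
    Ab (chi (ka l) (i + 3) * Y l (((i + 3 : ℕ) : ℝ) / 2 + 1))
      (C (|om (i + 3)| + (nb (i + 1) + 2 * |om (i + 3)| + |om (i + 1)|) * (1 - l))
        * Y l (((i + 3 : ℕ) : ℝ) / 2 + 1)) := by
  intro t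
  set σ : ℝ := ((i + 1 : ℕ) : ℝ) / 2 + 1 with hσ
  have e : ((i + 3 : ℕ) : ℝ) / 2 + 1 = σ + 1 := by rw [hσ]; push_cast; ring
  have hσ0 : 0 ≤ σ := by rw [hσ]; positivity
  rw [e]
  have h2 : chi (ka l) (i + 3) * Y l (σ + 1)
      = -((C (1 - l) * (ka l * ip l)) * (chi (ka l) (i + 1) * Y l σ))
        - C (om (i + 1)) * (uu l * Y l (σ + 1)) - C (om (i + 3)) * Y l (σ + 1)
        - C (2 * om (i + 3)) * (uu l * Y l (σ + 1)) := by
    rw [chi_rec, alg, alg, ← uu_eq]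
    have e2 : (C (1 - l) * (ka l * ip l)) * (chi (ka l) (i + 1) * Y l σ)
      = ka l * chi (ka l) (i + 1) * (C (1 - l) * (ip l * Y l σ)) := by ring
    rw [e2, ← uu_Y, map_mul, map_ofNat]
    ring
  have h3 := Ab.mul_left (h := C (1 - l) * (ka l * ip l))
    (NN.smul (by linarith) ((NN_ka h0 h1).mul (NN_ip h0 h1))) ih t
  have e3 : (C (1 - l) * (ka l * ip l)) * (C (nb (i + 1)) * Y l σ)
      = C (nb (i + 1)) * (ka l * (C (1 - l) * (ip l * Y l σ))) := by ring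
  rw [e3, ← uu_Y, coeff_C_mul] at h3
  have h4 : coeff t (ka l * (uu l * Y l (σ + 1))) ≤ (1 - l) * coeff t (Y l (σ + 1)) := by
    have a1 := ka_Y_le h0 h1 hσ0 t
    have h5 : NN (C (1 - l) * Y l (σ + 1) - uu l * Y l (σ + 1)) := fun t => by
      rw [map_sub, coeff_C_mul]
      linarith [uu_Y_le h0 h1 hσ0 t]
    have h6 := (NN_ka h0 h1).mul h5 t
    have e6 : ka l * (C (1 - l) * Y l (σ + 1) - uu l * Y l (σ + 1))
        = C (1 - l) * (ka l * Y l (σ + 1)) - ka l * (uu l * Y l (σ + 1)) := by ring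
    rw [e6, map_sub, coeff_C_mul] at h6
    have h7 := mul_le_mul_of_nonneg_left a1 (by linarith : (0 : ℝ) ≤ 1 - l)
    linarith
  have h5 := uu_Y_le h0 h1 hσ0 t
  have h6 := NN_uuY h0 h1 hσ0 t
  have h7 := NN_Y h0 h1 (by linarith : (0 : ℝ) ≤ σ + 1) t
  rw [h2, map_sub (coeff t), map_sub (coeff t), map_sub (coeff t), map_neg (coeff t), coeff_C_mul,
    coeff_C_mul, coeff_C_mul, coeff_C_mul]
  set z := coeff t ((C (1 - l) * (ka l * ip l)) * (chi (ka l) (i + 1) * Y l σ)) with hz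
  set v := coeff t (uu l * Y l (σ + 1)) with hv
  set y := coeff t (Y l (σ + 1)) with hy
  have hn := nb_nonneg (i + 1)
  have b1 : |z| ≤ nb (i + 1) * ((1 - l) * y) :=
    h3.trans (mul_le_mul_of_nonneg_left h4 hn)
  have b2 : |om (i + 1) * v| ≤ |om (i + 1)| * ((1 - l) * y) := by
    rw [abs_mul, abs_of_nonneg h6]
    exact mul_le_mul_of_nonneg_left h5 (abs_nonneg _)
  have b3 : |om (i + 3) * y| ≤ |om (i + 3)| * y := by
    rw [abs_mul, abs_of_nonneg h7]
  have b4 : |2 * om (i + 3) * v| ≤ 2 * |om (i + 3)| * ((1 - l) * y) := by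
    rw [abs_mul, abs_of_nonneg h6, abs_mul, abs_of_pos (by norm_num : (0 : ℝ) < 2)]
    exact mul_le_mul_of_nonneg_left h5 (by positivity)
  rw [abs_le] at *
  constructor <;> nlinarith [b1.1, b1.2, b2.1, b2.2, b3.1, b3.2, b4.1, b4.2]

theorem chi_abs (h0 : 0 ≤ l) (h1 : l < 1) : ∀ i : ℕ,
    Ab (chi (ka l) (i + 1) * Y l (((i + 1 : ℕ) : ℝ) / 2 + 1))
      (C (nb (i + 1)) * Y l (((i + 1 : ℕ) : ℝ) / 2 + 1))
  | 0 => by
    intro t
    have e : ((0 + 1 : ℕ) : ℝ) / 2 + 1 = 1 / 2 + 1 := by norm_num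
    rw [e]
    have h2 := ka_Y_le h0 h1 (σ := 1 / 2) (by norm_num) t
    have h3 := (NN_ka h0 h1).mul (NN_Y h0 h1 (σ := 1 / 2 + 1) (by norm_num)) t
    have h4 := NN_Y h0 h1 (σ := 1 / 2 + 1) (by norm_num) t
    rw [show chi (ka l) (0 + 1) = ka l - C (3 / 2) from chi_one _, sub_mul, map_sub, coeff_C_mul,
      coeff_C_mul, show nb (0 + 1) = 3 / 2 from rfl, abs_le]
    constructor <;> linarith
  | 1 => by
    intro t
    have e : ((1 + 1 : ℕ) : ℝ) / 2 + 1 = 1 + 1 := by norm_num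
    rw [e, show chi (ka l) (1 + 1) = (1 - ka l) ^ 2 from chi_two _, ← uu_eq,
      show nb (1 + 1) = 1 from rfl, map_one, one_mul]
    have e1 : uu l * Y l (1 + 1) = C (1 - l) * (ip l * Y l 1) := uu_Y 1
    have e0 : uu l * Y l (0 + 1) = C (1 - l) * (ip l * Y l 0) := uu_Y 0
    rw [zero_add] at e0
    have h2 : NN (uu l ^ 2 * Y l (1 + 1)) := by
      have : uu l ^ 2 * Y l (1 + 1)
          = C (1 - l) * (ip l * (C (1 - l) * (ip l * Y l 0))) := by
        rw [← e0, pow_two, mul_assoc, e1]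
        ring
      rw [this]
      exact NN.smul (by linarith) ((NN_ip h0 h1).mul (NN.smul (by linarith)
        ((NN_ip h0 h1).mul (NN_Y h0 h1 le_rfl))))
    have h3 : NN (Y l (1 + 1) - uu l ^ 2 * Y l (1 + 1)) := by
      have : Y l (1 + 1) - uu l ^ 2 * Y l (1 + 1)
          = ka l * (Y l (1 + 1) + uu l * Y l (1 + 1)) := by
        rw [uu_eq]; ring
      rw [this]
      exact (NN_ka h0 h1).mul ((NN_Y h0 h1 (by norm_num)).add (NN_uuY h0 h1 (by norm_num)))
    have h4 := h2 t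
    have h5 := h3 t
    rw [map_sub] at h5
    rw [abs_of_nonneg h4]
    linarith
  | i + 2 => by
    intro t
    have h := chi_step h0 h1 i (chi_abs h0 h1 i) t
    refine h.trans ?_
    rw [coeff_C_mul, coeff_C_mul]
    have h7 := NN_Y h0 h1 (by positivity : (0 : ℝ) ≤ ((i + 3 : ℕ) : ℝ) / 2 + 1) t
    refine mul_le_mul_of_nonneg_right ?_ h7
    show _ ≤ nb (i + 1) + 3 * |om (i + 3)| + |om (i + 1)|
    have h8 : 0 ≤ nb (i + 1) + 2 * |om (i + 3)| + |om (i + 1)| := by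
      have := nb_nonneg (i + 1)
      positivity
    nlinarith

end


section
variable {l : ℝ}

theorem NN_XI (h0 : 0 ≤ l) (h1 : l < 1) {σ : ℝ} (hσ : 0 ≤ σ) : NN (X * idd l * D (σ + 1)) :=
  (NN_X.mul (NN_idd h0 h1)).mul (NN_D (by linarith))

theorem Y_le (h0 : 0 ≤ l) (h1 : l < 1) {σ : ℝ} (hσ : 0 ≤ σ) (t : ℕ) :
    coeff t (Y l σ) ≤ 1 / (2 - l) * coeff t (D (σ + 1))
      + 2 * l * (1 - l) * coeff t (X * idd l * D (σ + 1)) := by
  have e : C (1 / (2 - l)) * D (σ + 1) + C (2 * l * (1 - l)) * (X * idd l * D (σ + 1)) - Y l σ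
      = C (1 / (2 - l)) * (C l ^ 2 * (X * idd l * D (σ + 1)))
        + C (2 * l * (1 - l)) * (X * idd l * (C l ^ 2 * X * ip l * D (σ + 1))) := by
    rw [← step_ip]
    have h := step_idd h1 σ
    unfold Y
    rw [Ga_eq]
    simp only [map_mul, map_sub, map_one, map_ofNat]
    linear_combination h
  have h2 : NN (C (1 / (2 - l)) * (C l ^ 2 * (X * idd l * D (σ + 1)))
        + C (2 * l * (1 - l)) * (X * idd l * (C l ^ 2 * X * ip l * D (σ + 1)))) := by
    rw [← map_pow]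
    refine (NN.smul ?_ (NN.smul (by positivity) (NN_XI h0 h1 hσ))).add (NN.smul ?_
      ((NN_X.mul (NN_idd h0 h1)).mul ((((NN_C (by positivity)).mul NN_X).mul (NN_ip h0 h1)).mul
        (NN_D (by linarith)))))
    · have : 0 < 2 - l := by linarith
      positivity
    · have : 0 ≤ 1 - l := by linarith
      positivity
  have h3 := h2 t
  rw [← e, map_sub, map_add, coeff_C_mul, coeff_C_mul] at h3
  linarith

/-- `-(B)`: the generating function in `w` of the `i`-th coefficient. -/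
def bm (l σ : ℝ) (i : ℕ) : PowerSeries ℝ :=
  C (F 1 σ i) * (2 * D (σ + 1) - (4 - C l) * idd l * D σ) + C l * (K (ka l) σ i * Y l σ)

theorem bm_main (h1 : l < 1) (σ : ℝ) : 2 * D (σ + 1) - (4 - C l) * idd l * D σ
    = -(C (l / (2 - l)) * D (σ + 1)) + C (l ^ 2 * (4 - l) / (2 - l)) * (X * idd l * D (σ + 1)) := by
  have h := idd_eq h1
  have h3 := inv_eq h1
  rw [← D_succ σ]
  have e1 : C (l / (2 - l)) = C l * C (1 / (2 - l)) := by rw [← map_mul]; congr 1; ring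
  have e2 : C (l ^ 2 * (4 - l) / (2 - l)) = C l ^ 2 * (4 - C l) * C (1 / (2 - l)) := by
    have : (4 : PowerSeries ℝ) = C 4 := by rw [map_ofNat]
    rw [this, ← map_sub, ← map_pow, ← map_mul, ← map_mul]
    congr 1
    ring
  rw [e1, e2]
  generalize C (1 / (2 - l)) = ci at *
  linear_combination -D (σ + 1) * (2 + C l * ci) * h
    + D (σ + 1) * idd l * (C l - X * (C l + 2 * C l ^ 2)) * h3

theorem bm_lower (h0 : 0 ≤ l) (h1 : l < 1) {σ : ℝ} (hσ : 0 ≤ σ) (i t : ℕ) (c : ℝ) (hc : 0 ≤ c)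
    (hg : (1 - l) * c ≤ F 1 σ i)
    (hχ : -(c * coeff t (Y l σ)) ≤ coeff t (K (ka l) σ i * Y l σ)) :
    -(l / (2 - l) * (F 1 σ i + c) * bn (σ + t) t) ≤ coeff t (bm l σ i) := by
  rw [← coeff_D_succ, bm, bm_main h1, map_add, coeff_C_mul, coeff_C_mul, map_add, map_neg,
    coeff_C_mul, coeff_C_mul]
  have hy := Y_le h0 h1 hσ t
  have hx := NN_XI h0 h1 hσ t
  have hd := NN_D (by linarith : 0 ≤ σ + 1) t
  set δ := coeff t (D (σ + 1))
  set ξ := coeff t (X * idd l * D (σ + 1))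
  set y := coeff t (Y l σ)
  set z := coeff t (K (ka l) σ i * Y l σ)
  set g := F 1 σ i
  have h2 : 0 < 2 - l := by linarith
  have e1 : l ^ 2 * (4 - l) / (2 - l) = 2 * l ^ 2 + l ^ 3 / (2 - l) := by
    field_simp
    ring
  have e2 : l / (2 - l) = l * (1 / (2 - l)) := by ring
  rw [e1, e2]
  set v := 1 / (2 - l) with hv
  have hv0 : 0 ≤ v := by positivity
  have e3 : l ^ 3 / (2 - l) = l ^ 3 * v := by rw [hv]; ring
  rw [e3]
  have b1 : c * y ≤ c * (v * δ + 2 * l * (1 - l) * ξ) := mul_le_mul_of_nonneg_left hy hc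
  have b2 : -(l * (c * (v * δ + 2 * l * (1 - l) * ξ))) ≤ l * z := by
    have : -(c * (v * δ + 2 * l * (1 - l) * ξ)) ≤ z := by linarith
    nlinarith
  have b3 : 0 ≤ (g - (1 - l) * c) * ξ := mul_nonneg (by linarith) hx
  have b4 : 0 ≤ l ^ 2 * ((g - (1 - l) * c) * ξ) := mul_nonneg (by positivity) b3
  have hg0 : 0 ≤ g := le_trans (mul_nonneg (by linarith) hc) hg
  have b5 : 0 ≤ l ^ 3 * v * ξ * g := by positivity
  nlinarith

/-- the bracket. -/
def br (l : ℝ) (t i : ℕ) : ℝ :=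
  2 * (i + 2 * t) * l * (bn ((i : ℝ) / 2 + 1 + t) t * gp i)
    + bn ((i : ℝ) / 2 + 1 + t) t * (l / (1 - l) * (gp i - chi (2 * l) i))
    + 2 * ((i : ℝ) / 2 + 1 + t) * coeff t (bm l ((i : ℝ) / 2 + 1) i)

theorem bn_pos' (i t : ℕ) : 0 < bn ((i : ℝ) / 2 + 1 + t) t := bn_pos (by
  have : (0 : ℝ) ≤ (i : ℝ) / 2 := by positivity
  linarith)

theorem br_pos_of (h0 : 0 < l) (h1 : l < 1) (i t : ℕ) (c : ℝ) (hc : 0 ≤ c)
    (hg : (1 - l) * c ≤ gp (i + 2))
    (hχ : -(c * coeff t (Y l (((i + 2 : ℕ) : ℝ) / 2 + 1)))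
      ≤ coeff t (chi (ka l) (i + 2) * Y l (((i + 2 : ℕ) : ℝ) / 2 + 1)))
    (hN : (((i + 2 : ℕ) : ℝ) / 2 + 1 + t) * (gp (i + 2) + c)
      < 2 * (((i + 2 : ℕ) : ℝ) / 2 + t) * gp (i + 2) * (2 - l)) : 0 < br l t (i + 2) := by
  have hb := bm_lower h0.le h1 (σ := ((i + 2 : ℕ) : ℝ) / 2 + 1) (by positivity) (i + 2) t c hc hg hχ
  have hbn := bn_pos' (i + 2) t
  have hchi := chi_le (κ := 2 * l) (by linarith) (by linarith) i
  change -(l / (2 - l) * (gp (i + 2) + c) * _) ≤ _ at hb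
  unfold br
  set B := bn (((i + 2 : ℕ) : ℝ) / 2 + 1 + t) t
  set M := coeff t (bm l (((i + 2 : ℕ) : ℝ) / 2 + 1) (i + 2))
  set g := gp (i + 2)
  set s : ℝ := ((i + 2 : ℕ) : ℝ) / 2 with hs
  have hs0 : 0 ≤ s := by rw [hs]; positivity
  have h2 : 0 < 2 - l := by linarith
  have a1 : 0 ≤ B * (l / (1 - l) * (g - chi (2 * l) (i + 2))) := by
    have : 0 ≤ 1 - l := by linarith
    have : 0 ≤ l / (1 - l) := by positivity
    exact mul_nonneg hbn.le (mul_nonneg this (by linarith))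
  have a2 : -(2 * (s + 1 + t) * (l / (2 - l) * (g + c) * B)) ≤ 2 * (s + 1 + t) * M := by
    have : (0 : ℝ) ≤ 2 * (s + 1 + t) := by positivity
    nlinarith
  have a3 : 2 * (s + 1 + t) * (l / (2 - l) * (g + c) * B)
      < 2 * (((i + 2 : ℕ) : ℝ) + 2 * t) * l * (B * g) := by
    have e : ((i + 2 : ℕ) : ℝ) = 2 * s := by rw [hs]; ring
    rw [e]
    have e2 : 2 * (s + 1 + t) * (l / (2 - l) * (g + c) * B)
        = (2 * l * B) * ((s + 1 + t) * (g + c) / (2 - l)) := by ring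
    have e3 : 2 * (2 * s + 2 * (t : ℝ)) * l * (B * g) = (2 * l * B) * (2 * (s + t) * g) := by ring
    rw [e2, e3]
    apply mul_lt_mul_of_pos_left _ (by positivity)
    rw [div_lt_iff₀ h2]
    exact hN
  linarith

theorem br_pos (h0 : 0 < l) (h1 : l < 1) (i t : ℕ) : 0 < br l t (i + 2) := by
  have ht : (0 : ℝ) ≤ t := Nat.cast_nonneg t
  rcases i with _ | _ | i
  · -- `i = 2`
    have e : ((0 + 2 : ℕ) : ℝ) / 2 + 1 = 1 + 1 := by norm_num
    refine br_pos_of h0 h1 0 t 0 le_rfl ?_ ?_ ?_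
    · rw [gp_two]; norm_num
    · rw [zero_mul, neg_zero, e, show chi (ka l) (0 + 2) = (1 - ka l) ^ 2 from chi_two _, ← uu_eq]
      have e1 : uu l * Y l (1 + 1) = C (1 - l) * (ip l * Y l 1) := uu_Y 1
      have e0 : uu l * Y l (0 + 1) = C (1 - l) * (ip l * Y l 0) := uu_Y 0
      rw [zero_add] at e0
      have : uu l ^ 2 * Y l (1 + 1)
          = C (1 - l) * (ip l * (C (1 - l) * (ip l * Y l 0))) := by
        rw [← e0, pow_two, mul_assoc, e1]
        ring
      rw [this]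
      exact NN.smul (by linarith) ((NN_ip h0.le h1).mul (NN.smul (by linarith)
        ((NN_ip h0.le h1).mul (NN_Y h0.le h1 le_rfl)))) t
    · rw [e, gp_two]
      push_cast
      nlinarith
  · -- `i = 3`
    have e : ((0 + 1 + 2 : ℕ) : ℝ) / 2 + 1 = 3 / 2 + 1 := by norm_num
    refine br_pos_of h0 h1 1 t (3 / 8 * (1 - l)) (by linarith) ?_ ?_ ?_
    · rw [gp_three]; nlinarith
    · show -(3 / 8 * (1 - l) * coeff t (Y l (((0 + 1 + 2 : ℕ) : ℝ) / 2 + 1))) ≤ coeff t (chi (ka l) 3 * Y l (((0 + 1 + 2 : ℕ) : ℝ) / 2 + 1))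
      rw [e]
      have h3 : chi (ka l) 3 * Y l (3 / 2 + 1) = C (1 / 16) * Y l (3 / 2 + 1)
          + C (1 / 2) * (ka l * (uu l * Y l (3 / 2 + 1)))
          + ka l * (uu l ^ 2 * Y l (3 / 2 + 1)) - C (3 / 8) * (uu l * Y l (3 / 2 + 1)) := by
        have hc := chi_rec (ka l) 0
        rw [show chi (ka l) (0 + 3) = chi (ka l) 3 from rfl,
          show chi (ka l) (0 + 1) = ka l - C (3 / 2) from chi_one _,
          show om (0 + 1) = 1 / 2 from om_one, show om (0 + 3) = -(1 / 16) from om_three, alg, alg,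
          map_neg] at hc
        have c1 : (C (3 / 2) : PowerSeries ℝ) = 1 + C (1 / 2) := by
          rw [← map_one C, ← map_add]; norm_num
        have c2 : (C (3 / 8) : PowerSeries ℝ) = C (1 / 2) - 2 * C (1 / 16) := by
          have : (2 : PowerSeries ℝ) = C 2 := by rw [map_ofNat]
          rw [this, ← map_mul, ← map_sub]; norm_num
        rw [hc, c1, c2, uu_eq]
        ring
      have n1 := NN_Y h0.le h1 (by norm_num : (0 : ℝ) ≤ 3 / 2 + 1) t
      have n2 := ((NN_ka h0.le h1).mul (NN_uuY h0.le h1 (by norm_num : (0 : ℝ) ≤ 3 / 2))) t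
      have n3 : NN (uu l ^ 2 * Y l (3 / 2 + 1)) := by
        have e1 : uu l * Y l (3 / 2 + 1) = C (1 - l) * (ip l * Y l (3 / 2)) := uu_Y _
        have e0 : uu l * Y l (1 / 2 + 1) = C (1 - l) * (ip l * Y l (1 / 2)) := uu_Y _
        have : uu l ^ 2 * Y l (3 / 2 + 1)
            = C (1 - l) * (ip l * (C (1 - l) * (ip l * Y l (1 / 2)))) := by
          rw [← e0, pow_two, mul_assoc, e1]
          have : (3 / 2 : ℝ) = 1 / 2 + 1 := by norm_num
          rw [this]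
          ring
        rw [this]
        exact NN.smul (by linarith) ((NN_ip h0.le h1).mul (NN.smul (by linarith)
          ((NN_ip h0.le h1).mul (NN_Y h0.le h1 (by norm_num)))))
      have n4 := ((NN_ka h0.le h1).mul n3) t
      have n5 := uu_Y_le h0.le h1 (by norm_num : (0 : ℝ) ≤ 3 / 2) t
      rw [h3, map_sub, map_add, map_add, coeff_C_mul, coeff_C_mul, coeff_C_mul]
      linarith
    · rw [e]
      show (3 / 2 + 1 + (t : ℝ)) * (gp 3 + 3 / 8 * (1 - l)) < 2 * (((0 + 1 + 2 : ℕ) : ℝ) / 2 + t) * gp 3 * (2 - l)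
      rw [gp_three]
      push_cast
      nlinarith
  · -- `i ≥ 4`
    have hch := chi_step h0.le h1 (i + 1) (chi_abs h0.le h1 (i + 1)) t
    set c : ℝ := |om (i + 1 + 3)| + (nb (i + 1 + 1) + 2 * |om (i + 1 + 3)| + |om (i + 1 + 1)|) * (1 - l)
      with hc
    have hnb : nb (i + 1 + 1) + 3 * |om (i + 1 + 3)| + |om (i + 1 + 1)| ≤ gp (i + 4) := nb_le_gp i
    have hn0 := nb_nonneg (i + 1 + 1)
    have hom := om_small (i + 2)
    change |om (i + 1 + 3)| ≤ 1 / 8 at hom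
    have p1 : 0 ≤ |om (i + 1 + 3)| := abs_nonneg _
    have p2 : 0 ≤ |om (i + 1 + 1)| := abs_nonneg _
    set q1 := |om (i + 1 + 3)|
    set q2 := |om (i + 1 + 1)|
    set q3 := nb (i + 1 + 1)
    have hc0 : 0 ≤ c := by
      rw [hc]
      have : 0 ≤ 1 - l := by linarith
      positivity
    have hgp : 7 / 8 ≤ gp (i + 4) := by
      rw [gp_add_two]
      have := ga_ge (i + 2)
      have h8 := (abs_le.1 (om_small (i + 2))).1
      linarith
    have hcle : c ≤ gp (i + 4) := by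
      have : c ≤ q3 + 3 * q1 + q2 := by rw [hc]; nlinarith
      linarith
    refine br_pos_of h0 h1 (i + 2) t c hc0 ?_ ?_ ?_
    · show (1 - l) * c ≤ gp (i + 4)
      nlinarith
    · rw [coeff_C_mul] at hch
      exact (abs_le.1 hch).1
    · show _ * (gp (i + 4) + c) < _ * gp (i + 4) * (2 - l)
      set g := gp (i + 4)
      have e : ((i + 2 + 2 : ℕ) : ℝ) / 2 = (i : ℝ) / 2 + 2 := by push_cast; ring
      rw [e]
      have hi : (0 : ℝ) ≤ (i : ℝ) / 2 := by positivity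
      set N : ℝ := (i : ℝ) / 2 + 2 + 1 + t with hN
      have hN3 : 3 ≤ N := by rw [hN]; linarith
      have e2 : (i : ℝ) / 2 + 2 + t = N - 1 := by rw [hN]; ring
      rw [e2]
      -- c ≤ q1 + (g - q1) (1-l)
      have hc2 : c ≤ q1 + (g - q1) * (1 - l) := by
        rw [hc]
        have : q3 + 2 * q1 + q2 ≤ g - q1 := by linarith
        nlinarith
      have h5 : N * (g + c) ≤ N * (g + (q1 + (g - q1) * (1 - l))) :=
        mul_le_mul_of_nonneg_left (by linarith) (by linarith)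
      have h6 : 0 < (N - 2) * g - N * q1 := by nlinarith
      have h7 : 0 ≤ ((N - 2) * g + N * q1) * (1 - l) :=
        mul_nonneg (by nlinarith) (by linarith)
      nlinarith

/-- `i = 0`. -/
theorem br_pos_zero (h0 : 0 < l) (h1 : l < 1) (t : ℕ) (ht : 1 ≤ t) : 0 < br l t 0 := by
  have ht' : (1 : ℝ) ≤ t := by exact_mod_cast ht
  have hb : coeff t (bm l 1 0) = 2 * (coeff t (D (1 + 1)) - coeff t (ip l * D 1)) := by
    have : bm l 1 0 = C 2 * (D (1 + 1) - ip l * D 1) := by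
      unfold bm Y Ga
      rw [F_zero_right, K_zero]
      have hp := ip_eq l
      have hd := idd_eq h1
      simp only [map_one, map_sub, map_pow, map_ofNat]
      linear_combination -2 * ip l * D 1 * hd + (4 - C l) * idd l * D 1 * hp
    rw [this, coeff_C_mul, map_sub]
  have h2 := NN.mul (f := C l ^ 2 * X * ip l) (g := D (1 + 1)) (by
    rw [← map_pow]
    exact ((NN_C (by positivity)).mul NN_X).mul (NN_ip h0.le h1)) (NN_D (by norm_num)) t
  rw [← step_ip, map_sub] at h2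
  have e : ((0 : ℕ) : ℝ) / 2 + 1 = 1 := by norm_num
  have hbn := bn_pos' 0 t
  unfold br
  rw [e] at hbn ⊢
  rw [gp_zero, chi_zero, hb]
  have a1 : 0 < 2 * (((0 : ℕ) : ℝ) + 2 * t) * l * (bn (1 + (t : ℝ)) t * 1) := by positivity
  have a2 : 0 ≤ 2 * (1 + (t : ℝ)) * (2 * (coeff t (D (1 + 1)) - coeff t (ip l * D 1))) := by
    have : (0 : ℝ) ≤ 2 * (1 + (t : ℝ)) := by positivity
    nlinarith
  have a3 : bn (1 + (t : ℝ)) t * (l / (1 - l) * (1 - 1)) = 0 := by ring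
  rw [a3]
  linarith

end

end

end Crest.Agent.R208.HH
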