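import Crest.Agent.R208.HHb

/-!
# (H1), (H2) exclude all `k ≥ 8` except `(8,2)`, part c: the evaluation at `x`.
-/

namespace Crest.Agent.R208.HH

open Finset PowerSeries V2

noncomputable section

/-- a family `f σ` of power series in `z` over `ℝ[[w]]`, read off at `σ = N - t`. -/
def Ev (ν N : ℝ) (f : ℝ → PowerSeries (PowerSeries ℝ)) : PowerSeries ℝ :=
  S fun t i => ν ^ i * coeff t (coeff i (f (N - t)))

section
variable (ν N : ℝ)

theorem Ev_congr {f g : ℝ → PowerSeries (PowerSeries ℝ)} (h : ∀ σ, f σ = g σ) :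
    Ev ν N f = Ev ν N g := by
  have : f = g := funext h
  rw [this]

theorem Ev_add (f g : ℝ → PowerSeries (PowerSeries ℝ)) :
    Ev ν N f + Ev ν N g = Ev ν N fun σ => f σ + g σ := by
  unfold Ev
  rw [S_add]
  refine S_congr fun t i => ?_
  rw [map_add, map_add]
  ring

theorem Ev_smul (r : ℝ) (f : ℝ → PowerSeries (PowerSeries ℝ)) :
    C r * Ev ν N f = Ev ν N fun σ => C (C r) * f σ := by
  unfold Ev
  rw [S_smul]
  refine S_congr fun t i => ?_
  rw [coeff_C_mul, coeff_C_mul]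
  ring

theorem Ev_X (f : ℝ → PowerSeries (PowerSeries ℝ)) :
    C ν * X * Ev ν N f = Ev ν N fun σ => X * f σ := by
  unfold Ev
  rw [mul_assoc, X_mul_S, S_smul]
  refine S_congr fun t i => ?_
  cases i with
  | zero => simp
  | succ i =>
    rw [shi_succ, coeff_succ_X_mul, pow_succ]
    ring

theorem Ev_w (f : ℝ → PowerSeries (PowerSeries ℝ)) :
    X ^ 2 * Ev ν N f = Ev ν N fun σ => C X * f (σ + 1) := by
  unfold Ev
  rw [X_sq_mul_S]
  refine S_congr fun t i => ?_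
  cases t with
  | zero => simp
  | succ t =>
    rw [sht_succ, coeff_C_mul, coeff_succ_X_mul]
    congr 5
    push_cast
    ring

end

/-- `(1-z)^σ`. -/
def Q (σ : ℝ) : PowerSeries (PowerSeries ℝ) := PowerSeries.mk fun i => C (F 0 σ i)

/-- `(1-z)^σ / (1-κz)`. -/
def KK (κ : PowerSeries ℝ) (σ : ℝ) : PowerSeries (PowerSeries ℝ) := PowerSeries.mk fun i => K κ σ i

theorem KK_mul (κ : PowerSeries ℝ) (σ : ℝ) : (1 - C κ * X) * KK κ σ = Q σ := by
  ext1 i
  have h : (1 - C κ * X) * KK κ σ = KK κ σ - C κ * (X * KK κ σ) := by ring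
  rw [h, map_sub, coeff_C_mul]
  cases i with
  | zero => simp [KK, Q]
  | succ i =>
    rw [coeff_succ_X_mul, KK, Q, coeff_mk, coeff_mk, coeff_mk, K_succ]
    show κ * K κ σ i + C (F 0 σ (i + 1)) - κ * K κ σ i = _
    ring

theorem KK_pascal (κ : PowerSeries ℝ) (σ : ℝ) : KK κ (σ + 1) = (1 - X) * KK κ σ := by
  ext1 i
  have h : (1 - X) * KK κ σ = KK κ σ - X * KK κ σ := by ring
  rw [h, map_sub]
  cases i with
  | zero => simp [KK]
  | succ i =>
    rw [coeff_succ_X_mul, KK, KK, coeff_mk, coeff_mk, coeff_mk, K_pascal]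

theorem Q_pascal (σ : ℝ) : Q (σ + 1) = (1 - X) * Q σ := by
  rw [← KK_mul 0, ← KK_mul 0, KK_pascal]
  ring

/-- the family `b⁻`. -/
def bb (l : ℝ) (σ : ℝ) : PowerSeries (PowerSeries ℝ) :=
  C (2 * D (σ + 1) - (4 - C l) * idd l * D σ) * KK 2 σ + C (C l * Y l σ) * KK (ka l) σ

theorem K_two' (σ : ℝ) (i : ℕ) : K (2 : PowerSeries ℝ) σ i = C (F 1 σ i) := by
  induction i with
  | zero => simp
  | succ i ih =>
    rw [K_succ, F_succ, ih, map_add, map_mul, map_ofNat]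
    rfl

theorem coeff_bb (l σ : ℝ) (i : ℕ) : coeff i (bb l σ) = bm l σ i := by
  rw [bb, map_add, coeff_C_mul, coeff_C_mul, KK, KK, coeff_mk, coeff_mk, bm, K_two']
  ring

theorem bb_rec {l : ℝ} (h1 : l < 1) (σ : ℝ) :
    (1 - 2 * X) * (1 - C (C l) * X) * bb l σ + C (C l) ^ 2 * C X * (1 - 2 * X) * bb l (σ + 1)
      = -(C (C l) * X * (C (D (σ + 1)) * Q σ)) + 2 * C (C l) ^ 2 * C X * (C (D (σ + 2)) * Q (σ + 1)) := by
  have hk2 := KK_mul 2 σ
  have hk := KK_mul (ka l) σ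
  have e2 : (C 2 : PowerSeries (PowerSeries ℝ)) = 2 := by rw [map_ofNat]
  rw [e2] at hk2
  have hp : (1 - (1 - C (C l) ^ 2) * C X) * C (ip l) = (1 : PowerSeries (PowerSeries ℝ)) := by
    have := congrArg (C : PowerSeries ℝ →+* PowerSeries (PowerSeries ℝ)) (ip_eq l)
    simpa using this
  have hd : ((2 - C (C l)) - (2 - C (C l) - C (C l) ^ 2) * C X) * C (idd l)
      = (1 : PowerSeries (PowerSeries ℝ)) := by
    have := congrArg (C : PowerSeries ℝ →+* PowerSeries (PowerSeries ℝ)) (idd_eq h1)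
    simpa only [map_mul, map_sub, map_pow, map_one, e2] using this
  have hD1 : (1 - C X) * C (D (σ + 1)) = (C (D σ) : PowerSeries (PowerSeries ℝ)) := by
    have := congrArg (C : PowerSeries ℝ →+* PowerSeries (PowerSeries ℝ)) (D_succ σ)
    simpa using this
  have hD2 : (1 - C X) * C (D (σ + 2)) = (C (D (σ + 1)) : PowerSeries (PowerSeries ℝ)) := by
    have h := D_succ (σ + 1)
    have e : σ + 1 + 1 = σ + 2 := by ring
    rw [e] at h
    have := congrArg (C : PowerSeries ℝ →+* PowerSeries (PowerSeries ℝ)) h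
    simpa using this
  have e4 : (C 4 : PowerSeries (PowerSeries ℝ)) = 4 := by rw [map_ofNat]
  have hka : C (ka l) = C (C l) * (1 - (1 - C (C l)) * C X) * (C (ip l) : PowerSeries (PowerSeries ℝ)) := by
    rw [ka]
    simp only [map_mul, map_sub, map_one]
  have hY : ∀ τ, C (Y l τ) = C (D τ) * ((1 - (1 - C (C l)) ^ 2 * C X) * C (ip l) * C (idd l)) := by
    intro τ
    rw [Y, Ga]
    simp only [map_mul, map_sub, map_one, map_pow]
  have h21 : σ + 1 + 1 = σ + 2 := by ring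
  rw [bb, bb, KK_pascal, KK_pascal, Q_pascal, h21, map_mul, map_mul, hY, hY]
  rw [hka] at hk
  simp only [map_mul, map_sub, e2, e4]
  rw [← hD1]
  generalize (C (D (σ + 1)) : PowerSeries (PowerSeries ℝ)) = D1 at *
  generalize (C (D (σ + 2)) : PowerSeries (PowerSeries ℝ)) = D2 at *
  generalize (C (ip l) : PowerSeries (PowerSeries ℝ)) = P at *
  generalize (C (idd l) : PowerSeries (PowerSeries ℝ)) = I at *
  generalize (C (C l) : PowerSeries (PowerSeries ℝ)) = L at *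
  generalize (C X : PowerSeries (PowerSeries ℝ)) = w at *
  generalize KK 2 σ = Z2 at *
  generalize KK (ka l) σ = Zk at *
  generalize Q σ = Qs at *
  linear_combination ((1 - L * X) * (2 * D1 - (4 - L) * I * ((1 - w) * D1))
      + L ^ 2 * w * (1 - X) * (2 * D2 - (4 - L) * I * D1)) * hk2
    + (1 - 2 * X) * L * D1 * (1 - (1 - L) ^ 2 * w) * I * hk
    + (1 - 2 * X) * L * D1 * (1 - (1 - L) ^ 2 * w) * I * Zk * hp
    - Qs * D1 * (2 - L * X) * hd


theorem Ev_lin (ν N r s : ℝ) (f : ℝ → PowerSeries (PowerSeries ℝ)) :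
    Ev ν N (fun σ => (C (C r) + C (C s) * X) * f σ) = (C r + C s * (C ν * X)) * Ev ν N f := by
  rw [add_mul, mul_assoc (C s), Ev_X, Ev_smul, Ev_smul, Ev_add]
  refine Ev_congr ν N fun σ => ?_
  ring

theorem Ev_QD (ν N : ℝ) : Ev ν N (fun σ => C (D (σ + 1)) * Q σ) = W ν 0 N := by
  unfold Ev W
  refine S_congr fun t i => ?_
  rw [coeff_C_mul, Q, coeff_mk, mul_comm (D _), coeff_C_mul, coeff_D_succ, sub_add_cancel]
  ring

/-- the equation of `Ev bb`. -/
theorem Ev_bb {l : ℝ} (h1 : l < 1) (ν N : ℝ) :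
    (1 - C (2 * ν) * X) * (1 - C (l * ν) * X + C (l ^ 2) * X ^ 2) * Ev ν N (bb l)
      = (-(C (l * ν) * X) + C (2 * l ^ 2) * X ^ 2) * W ν 0 N := by
  have e2 : (C 2 : PowerSeries ℝ) = 2 := by rw [map_ofNat]
  have e2' : (C 2 : PowerSeries (PowerSeries ℝ)) = 2 := by rw [map_ofNat]
  -- left hand side
  have hl1 : Ev ν N (fun σ => (1 - 2 * X) * (1 - C (C l) * X) * bb l σ)
      = (1 - C (2 * ν) * X) * (1 - C (l * ν) * X) * Ev ν N (bb l) := by
    have h := Ev_lin ν N 1 (-2) (fun σ => (C (C 1) + C (C (-l)) * X) * bb l σ)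
    rw [Ev_lin ν N 1 (-l)] at h
    simp only [map_one, map_neg, e2, e2'] at h
    have e : (fun σ => (1 - 2 * X) * (1 - C (C l) * X) * bb l σ)
        = fun σ => (1 + -2 * X) * ((1 + -C (C l) * X) * bb l σ) := by
      funext σ; ring
    rw [e, h, map_mul, map_mul, e2]
    ring
  have hl2 : Ev ν N (fun σ => C (C l) ^ 2 * C X * (1 - 2 * X) * bb l (σ + 1))
      = C (l ^ 2) * (X ^ 2 * ((1 - C (2 * ν) * X) * Ev ν N (bb l))) := by
    have h := Ev_lin ν N 1 (-2) (bb l)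
    simp only [map_one, map_neg, e2, e2'] at h
    have e : (1 - C (2 * ν) * X) * Ev ν N (bb l) = (1 + -2 * (C ν * X)) * Ev ν N (bb l) := by
      rw [map_mul, e2]; ring
    rw [e, ← h, Ev_w, Ev_smul]
    refine Ev_congr ν N fun σ => ?_
    rw [map_pow, map_pow]
    ring
  have hr1 : Ev ν N (fun σ => -(C (C l) * X * (C (D (σ + 1)) * Q σ)))
      = -(C (l * ν) * X) * W ν 0 N := by
    have e : -(C (l * ν) * X) * W ν 0 N = C (-l) * (C ν * X * W ν 0 N) := by
      rw [map_mul, map_neg]; ring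
    rw [e, ← Ev_QD, Ev_X, Ev_smul]
    refine Ev_congr ν N fun σ => ?_
    rw [map_neg, map_neg]
    ring
  have hr2 : Ev ν N (fun σ => 2 * C (C l) ^ 2 * C X * (C (D (σ + 2)) * Q (σ + 1)))
      = C (2 * l ^ 2) * X ^ 2 * W ν 0 N := by
    have e : C (2 * l ^ 2) * X ^ 2 * W ν 0 N = C (2 * l ^ 2) * (X ^ 2 * W ν 0 N) := by ring
    rw [e, ← Ev_QD, Ev_w, Ev_smul]
    refine Ev_congr ν N fun σ => ?_
    have h21 : σ + 1 + 1 = σ + 2 := by ring
    rw [h21]
    simp only [map_mul, map_pow, e2, e2']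
    ring
  have h : Ev ν N (fun σ => (1 - 2 * X) * (1 - C (C l) * X) * bb l σ
        + C (C l) ^ 2 * C X * (1 - 2 * X) * bb l (σ + 1))
      = Ev ν N (fun σ => -(C (C l) * X * (C (D (σ + 1)) * Q σ))
        + 2 * C (C l) ^ 2 * C X * (C (D (σ + 2)) * Q (σ + 1))) :=
    Ev_congr ν N fun σ => bb_rec h1 σ
  rw [← Ev_add, ← Ev_add, hl1, hl2, hr1, hr2] at h
  linear_combination h

/-- `q^N / (1 - κνX)`. -/
def WK (ν κ N : ℝ) : PowerSeries ℝ := S fun t i => bn N t * ν ^ i * K κ (N - t) i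

theorem WK_mul (ν κ N : ℝ) : (1 - C (κ * ν) * X) * WK ν κ N = W ν 0 N := by
  have h : (1 - C (κ * ν) * X) * WK ν κ N = WK ν κ N + C (-(κ * ν)) * (X * WK ν κ N) := by
    rw [map_neg]
    ring
  rw [h, WK, X_mul_S, S_smul, S_add, W]
  refine S_congr fun t i => ?_
  cases i with
  | zero => simp
  | succ i =>
    rw [shi_succ, K_succ]
    simp only [Algebra.algebraMap_self, RingHom.id_apply]
    ring

theorem ne_zero_of_cc {f : PowerSeries ℝ} (h : constantCoeff f = 1) : f ≠ 0 := by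
  rintro rfl
  simp at h

/-- the main identity. -/
theorem main_id {l : ℝ} (h1 : l < 1) (ν N : ℝ) (G : PowerSeries ℝ)
    (hG : G * ((1 - C (l * ν) * X + C (l ^ 2) * X ^ 2) * (1 - C (2 * (l * ν)) * X))
      = C (2 * N) * (-(C (l * ν) * X) + C (2 * l ^ 2) * X ^ 2) * (1 - C (2 * (l * ν)) * X)
        + C (2 * (l * ν)) * X * (1 - C (l * ν) * X + C (l ^ 2) * X ^ 2)) :
    W ν 1 N * G = C (l / (1 - l)) * (W ν 1 N - WK ν (2 * l) N) + C (2 * N) * Ev ν N (bb l) := by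
  have hu := W_u ν 0 N
  rw [zero_add] at hu
  have hk := WK_mul ν (2 * l) N
  have hb := Ev_bb h1 ν N
  have e1 : C (2 * l * ν) = (C (2 * (l * ν)) : PowerSeries ℝ) := by rw [mul_assoc]
  rw [e1] at hk
  have n1 : (1 - C (2 * ν) * X : PowerSeries ℝ) ≠ 0 := ne_zero_of_cc (by simp)
  have n2 : (1 - C (2 * (l * ν)) * X : PowerSeries ℝ) ≠ 0 := ne_zero_of_cc (by simp)
  have n3 : (1 - C (l * ν) * X + C (l ^ 2) * X ^ 2 : PowerSeries ℝ) ≠ 0 := ne_zero_of_cc (by simp)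
  apply mul_left_cancel₀ (mul_ne_zero (mul_ne_zero n1 n2) n3)
  have e3 : C (l / (1 - l)) * (C (2 * ν) - C (2 * (l * ν))) = (C (2 * (l * ν)) : PowerSeries ℝ) := by
    rw [← map_sub, ← map_mul]
    congr 1
    have : 1 - l ≠ 0 := by linarith
    field_simp
  generalize (C (2 * ν) : PowerSeries ℝ) = a at *
  generalize (C (2 * (l * ν)) : PowerSeries ℝ) = b at *
  generalize (1 - C (l * ν) * X + C (l ^ 2) * X ^ 2 : PowerSeries ℝ) = q at *
  generalize (-(C (l * ν) * X) + C (2 * l ^ 2) * X ^ 2 : PowerSeries ℝ) = p at *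
  generalize (C (l / (1 - l)) : PowerSeries ℝ) = r at *
  generalize (C (2 * N) : PowerSeries ℝ) = M at *
  generalize W ν 1 N = c at *
  generalize W ν 0 N = c0 at *
  generalize WK ν (2 * l) N = k at *
  generalize Ev ν N (bb l) = E at *
  linear_combination (1 - a * X) * c * hG + (M * p * (1 - b * X) + b * X * q - r * q * (1 - b * X)) * hu
    + r * q * (1 - a * X) * hk - M * (1 - b * X) * hb - c0 * X * q * e3

/-- coefficients of the main identity. -/
theorem coeff_main {l : ℝ} (h1 : l < 1) (ν : ℝ) (n : ℕ) (G : PowerSeries ℝ)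
    (hG : G * ((1 - C (l * ν) * X + C (l ^ 2) * X ^ 2) * (1 - C (2 * (l * ν)) * X))
      = C (2 * (((n : ℝ) + 2) / 2)) * (-(C (l * ν) * X) + C (2 * l ^ 2) * X ^ 2)
          * (1 - C (2 * (l * ν)) * X)
        + C (2 * (l * ν)) * X * (1 - C (l * ν) * X + C (l ^ 2) * X ^ 2)) :
    2 * n * l * coeff n (W ν 1 (((n : ℝ) + 2) / 2)) + coeff n (W ν 1 (((n : ℝ) + 2) / 2) * G)
      = ∑ t ∈ range (n + 1), if 2 * t ≤ n then ν ^ (n - 2 * t) * br l t (n - 2 * t) else 0 := by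
  rw [main_id h1 ν _ G hG, map_add, coeff_C_mul, coeff_C_mul, map_sub, W, WK, Ev, coeff_S, coeff_S,
    coeff_S, mul_sum, ← sum_sub_distrib, mul_sum, mul_sum, ← sum_add_distrib, ← sum_add_distrib]
  refine Finset.sum_congr rfl fun t _ => ?_
  split_ifs with h
  · have hc : ((n - 2 * t : ℕ) : ℝ) = n - 2 * t := by
      rw [Nat.cast_sub h]; push_cast; ring
    have e1 : ((n : ℝ) + 2) / 2 - t = ((n - 2 * t : ℕ) : ℝ) / 2 + 1 := by rw [hc]; ring
    have e2 : ((n : ℝ) + 2) / 2 = ((n - 2 * t : ℕ) : ℝ) / 2 + 1 + t := by rw [hc]; ring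
    have e3 : (n : ℝ) = ((n - 2 * t : ℕ) : ℝ) + 2 * t := by rw [hc]; ring
    rw [e1, coeff_bb, br]
    rw [← e2]
    show 2 * (n : ℝ) * l * (bn _ t * ν ^ (n - 2 * t) * gp (n - 2 * t))
      + (l / (1 - l) * (bn _ t * ν ^ (n - 2 * t) * gp (n - 2 * t)
        - bn _ t * ν ^ (n - 2 * t) * chi (2 * l) (n - 2 * t)) + _) = _
    rw [← e3]
    ring
  · ring

end

end Crest.Agent.R208.HH
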