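import Crest.Agent.R208.HHc

/-!
# (H1), (H2) exclude all `k ≥ 8` except `(8,2)`, part d: the coefficient of `ν`, and the
positive functional `x^k ↦ 1/(k-δ)`.
-/

namespace Crest.Agent.R208.HH

open Finset PowerSeries V2

noncomputable section

/-! ### the sums `∑ bn (σ+t) (t-a) e_a` -/

/-- the sums. -/
def Sm (σ : ℝ) (t : ℕ) (e : ℕ → ℝ) : ℝ := ∑ a ∈ range (t + 1), bn (σ + t) (t - a) * e a

theorem Sm_succ (σ : ℝ) (t : ℕ) (e : ℕ → ℝ) :
    Sm σ (t + 1) e = bn (σ + t) (t + 1) * e 0 + Sm σ t (fun a => e (a + 1)) + Sm σ t e := by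
  have h1 : Sm σ (t + 1) e = (∑ a ∈ range (t + 1), (bn (σ + t) (t + 1 - a) * e a
      + bn (σ + t) (t - a) * e a)) + e (t + 1) := by
    unfold Sm
    rw [sum_range_succ _ (t + 1)]
    congr 1
    · refine sum_congr rfl fun a ha => ?_
      have ha' : a ≤ t := by
        have := mem_range.1 ha
        omega
      have e1 : t + 1 - a = (t - a) + 1 := by omega
      have e2 : σ + ((t + 1 : ℕ) : ℝ) = (σ + t) + 1 := by push_cast; ring
      rw [e1, e2, bn_pascal]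
      ring
    · simp
  have h2 : bn (σ + t) (t + 1) * e 0 + Sm σ t (fun a => e (a + 1))
      = (∑ a ∈ range (t + 1), bn (σ + t) (t + 1 - a) * e a) + e (t + 1) := by
    have h3 : ∑ a ∈ range (t + 1 + 1), bn (σ + t) (t + 1 - a) * e a
        = (∑ a ∈ range (t + 1), bn (σ + t) (t + 1 - a) * e a) + e (t + 1) := by
      rw [sum_range_succ _ (t + 1)]
      simp
    rw [← h3, sum_range_succ', add_comm]
    unfold Sm
    congr 1
    refine sum_congr rfl fun a _ => ?_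
    have e1 : t + 1 - (a + 1) = t - a := by omega
    rw [e1]
  rw [h1, h2, sum_add_distrib]
  unfold Sm
  ring

/-- the series of the sums. -/
def Ss (σ : ℝ) (e : ℕ → ℝ) : PowerSeries ℝ := PowerSeries.mk fun t => Sm σ t e

theorem Ss_mul (σ : ℝ) (e : ℕ → ℝ) :
    (1 - X) * Ss σ e = C (e 0) * D σ + X * Ss σ (fun a => e (a + 1)) := by
  ext t
  have h : (1 - X) * Ss σ e = Ss σ e - X * Ss σ e := by ring
  rw [h, map_sub, map_add, coeff_C_mul]
  cases t with
  | zero => simp [Ss, Sm, coeff_D]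
  | succ t =>
    rw [coeff_succ_X_mul, coeff_succ_X_mul, coeff_D, Ss, Ss, coeff_mk, coeff_mk, coeff_mk, Sm_succ]
    have e1 : σ + ((t + 1 : ℕ) : ℝ) - 1 = σ + t := by push_cast; ring
    rw [e1]
    ring

theorem Ss_smul (σ r : ℝ) (e : ℕ → ℝ) : Ss σ (fun a => r * e a) = C r * Ss σ e := by
  ext t
  rw [coeff_C_mul, Ss, Ss, coeff_mk, coeff_mk, Sm, Sm, mul_sum]
  exact sum_congr rfl fun a _ => by ring

theorem Ss_add (σ : ℝ) (e f : ℕ → ℝ) : Ss σ (fun a => e a + f a) = Ss σ e + Ss σ f := by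
  ext t
  rw [map_add, Ss, Ss, Ss, coeff_mk, coeff_mk, coeff_mk, Sm, Sm, Sm, ← sum_add_distrib]
  exact sum_congr rfl fun a _ => by ring

theorem Ss_g (l σ : ℝ) : Ss σ (fun a => (-l ^ 2) ^ a) = ip l * D σ := by
  have h := Ss_mul σ (fun a => (-l ^ 2) ^ a)
  have e1 : Ss σ (fun a => (-l ^ 2) ^ (a + 1)) = C (-l ^ 2) * Ss σ (fun a => (-l ^ 2) ^ a) := by
    rw [← Ss_smul]
    congr 1
    funext a
    ring
  rw [e1, pow_zero, map_one, one_mul, map_neg, map_pow] at h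
  have hp := ip_eq l
  linear_combination ip l * h - Ss σ (fun a => (-l ^ 2) ^ a) * hp

theorem Ss_e (l σ : ℝ) : Ss σ (fun a => (-l ^ 2) ^ a * ((1 + a) * l - a)) = ka l * (ip l * D σ) := by
  have h := Ss_mul σ (fun a => (-l ^ 2) ^ a * ((1 + a) * l - a))
  have e1 : Ss σ (fun a => (-l ^ 2) ^ (a + 1) * ((1 + (a + 1 : ℕ)) * l - (a + 1 : ℕ)))
      = C (-l ^ 2) * Ss σ (fun a => (-l ^ 2) ^ a * ((1 + a) * l - a))
        + C (-l ^ 2 * (l - 1)) * Ss σ (fun a => (-l ^ 2) ^ a) := by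
    rw [← Ss_smul, ← Ss_smul, ← Ss_add]
    congr 1
    funext a
    push_cast
    ring
  rw [e1, Ss_g] at h
  simp only [Nat.cast_zero, pow_zero, add_zero, sub_zero, one_mul, map_neg, map_pow, map_mul,
    map_sub, map_one] at h
  have hp := ip_eq l
  rw [ka]
  simp only [map_sub, map_one]
  generalize Ss σ (fun a => (-l ^ 2) ^ a * ((1 + a) * l - a)) = E at *
  linear_combination ip l * h - (E + C l * ip l * D σ) * hp

theorem coeff_ip_D (l σ : ℝ) (t : ℕ) : coeff t (ip l * D σ) = Sm σ t (fun a => (-l ^ 2) ^ a) := by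
  rw [← Ss_g, Ss, coeff_mk]

theorem coeff_ka_D (l σ : ℝ) (t : ℕ) : coeff t (ka l * (ip l * D σ))
    = Sm σ t (fun a => (-l ^ 2) ^ a * ((1 + a) * l - a)) := by
  rw [← Ss_e, Ss, coeff_mk]

theorem bm_one {l : ℝ} (h1 : l < 1) : bm l (3 / 2) 1 = D (3 / 2 + 1) - C (1 - l) * (ip l * D (3 / 2))
    - C 2 * (ka l * (ip l * D (3 / 2))) := by
  have hF : F 1 (3 / 2) 1 = 1 / 2 := by
    have := gp_one
    unfold gp at this
    rw [← this]
    norm_num
  have hK : K (ka l) (3 / 2) 1 = ka l - C (3 / 2) := by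
    have := chi_one (ka l)
    unfold chi at this
    rw [alg] at this
    rw [← this]
    norm_num
  rw [bm, hF, hK, Y, Ga, ← D_succ (3 / 2)]
  have hp := ip_eq l
  have hd := idd_eq h1
  have c1 : (C (3 / 2) : PowerSeries ℝ) = 3 * C (1 / 2) := by
    have : (3 : PowerSeries ℝ) = C 3 := by rw [map_ofNat]
    rw [this, ← map_mul]; norm_num
  have c2 : (2 : PowerSeries ℝ) * C (1 / 2) = 1 := by
    have : (2 : PowerSeries ℝ) = C 2 := by rw [map_ofNat]
    rw [this, ← map_mul, ← map_one C]; norm_num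
  rw [c1, ka]
  simp only [map_sub, map_one, map_pow, map_ofNat]
  generalize (C (1 / 2) : PowerSeries ℝ) = v at *
  generalize (C l : PowerSeries ℝ) = L at *
  generalize ip l = P at *
  generalize idd l = I at *
  generalize D (3 / 2 + 1) = D' at *
  linear_combination D' * c2
    - (1 - X) * D' * (1 - L + 2 * (L * (1 - (1 - L) * X) * P)) * P * hd
    + (1 - X) * D' * I * (v * (4 - L) * ((1 - (1 - L ^ 2) * X) * P + 1)
        + 3 * v * L * (1 - (1 - L) ^ 2 * X) * P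
        - (1 - L) * P * (2 - L - (2 - L - L ^ 2) * X)) * hp
    - (1 - X) * D' * I * P ^ 2 * (2 * (1 - L) * (1 - (1 - L ^ 2) * X) ^ 2
        + 3 * L * (1 - (1 - L) * X) * (1 - (1 - L ^ 2) * X)) * c2

/-- the bracket for `i = 1`. -/
theorem br_one {l : ℝ} (h1 : l < 1) (t : ℕ) : br l t 1 = (2 * t + 3) * ∑ a ∈ range t,
    bn (3 / 2 + t) (t - (a + 1)) * ((-l ^ 2) ^ (a + 1) * ((2 * a + 1) - (2 * a + 3) * l)) := by
  have e : ((1 : ℕ) : ℝ) / 2 + 1 = 3 / 2 := by norm_num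
  rw [br, e, bm_one h1, map_sub, map_sub, coeff_C_mul, coeff_C_mul, coeff_D_succ, coeff_ip_D,
    coeff_ka_D, gp_one, chi_one]
  simp only [Algebra.algebraMap_self, RingHom.id_apply]
  have hl : l / (1 - l) * (1 / 2 - (2 * l - 3 / 2)) = 2 * l := by
    have : 1 - l ≠ 0 := by linarith
    field_simp
    ring
  rw [hl]
  unfold Sm
  rw [sum_range_succ', sum_range_succ']
  simp only [Nat.cast_zero, pow_zero, add_zero, sub_zero, one_mul, Nat.sub_zero, mul_one]
  have key : ∑ a ∈ range t, bn (3 / 2 + t) (t - (a + 1)) * ((-l ^ 2) ^ (a + 1) * ((2 * a + 1) - (2 * a + 3) * l))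
      = -((1 - l) * ∑ a ∈ range t, bn (3 / 2 + t) (t - (a + 1)) * (-l ^ 2) ^ (a + 1))
        - 2 * ∑ a ∈ range t, bn (3 / 2 + t) (t - (a + 1))
            * ((-l ^ 2) ^ (a + 1) * ((1 + (a + 1 : ℕ)) * l - (a + 1 : ℕ))) := by
    rw [mul_sum, mul_sum, ← sum_neg_distrib, ← sum_sub_distrib]
    refine sum_congr rfl fun a _ => ?_
    push_cast
    ring
  rw [key]
  push_cast
  ring

/-! ### the alternating sums are positive -/

theorem alt_sum (x : ℝ) (t : ℕ) :
    ∑ a ∈ range (t + 1), (-1 : ℝ) ^ a * bn (x + 1) (t - a) = bn x t := by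
  induction t with
  | zero => simp
  | succ t ih =>
    rw [sum_range_succ']
    have : ∑ a ∈ range (t + 1), (-1 : ℝ) ^ (a + 1) * bn (x + 1) (t + 1 - (a + 1))
        = -∑ a ∈ range (t + 1), (-1 : ℝ) ^ a * bn (x + 1) (t - a) := by
      rw [← sum_neg_distrib]
      refine sum_congr rfl fun a _ => ?_
      have e1 : t + 1 - (a + 1) = t - a := by omega
      rw [e1, pow_succ]
      ring
    rw [this, ih, Nat.sub_zero, bn_pascal]
    ring

/-- the alternating sum with weight `1/(a+1+α)`. -/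
def U (σ α : ℝ) (t : ℕ) : ℝ :=
  ∑ a ∈ range t, (-1 : ℝ) ^ a * bn (σ + t) (t - (a + 1)) / (a + 1 + α)

theorem U_rec (σ α : ℝ) (hα : -1 < α) (t : ℕ) :
    (t + 1 + α) * U σ α (t + 1) = (σ + t + 1) * U σ α t + bn (σ + t) t := by
  have e2 : σ + ((t + 1 : ℕ) : ℝ) = (σ + t) + 1 := by push_cast; ring
  unfold U
  rw [← alt_sum (σ + t) t, e2]
  rw [mul_sum, mul_sum]
  have h3 : ∑ a ∈ range t, (σ + t + 1) * ((-1 : ℝ) ^ a * bn (σ + t) (t - (a + 1)) / (a + 1 + α))
      = ∑ a ∈ range (t + 1), (-1 : ℝ) ^ a * (bn (σ + t + 1) (t - a) * (t - a : ℕ)) / (a + 1 + α) := by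
    rw [sum_range_succ _ t]
    simp only [Nat.sub_self, Nat.cast_zero, mul_zero, zero_div, add_zero]
    refine sum_congr rfl fun a ha => ?_
    have ha' : a < t := mem_range.1 ha
    obtain ⟨k, hk⟩ : ∃ k, t - a = k + 1 := ⟨t - a - 1, by omega⟩
    have hk2 : t - (a + 1) = k := by omega
    rw [hk2, hk]
    have h4 : (σ + t + 1) * bn (σ + t) k = bn (σ + t + 1) (k + 1) * ((k + 1 : ℕ) : ℝ) := by
      have h5 := bn_absorb (σ + t + 1) k
      have h6 := bn_succ_mul (σ + t + 1) k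
      have e3 : σ + t + 1 - 1 = σ + t := by ring
      rw [e3] at h5
      push_cast
      linear_combination h5 - h6
    rw [← h4]
    ring
  rw [h3, ← sum_add_distrib]
  refine sum_congr rfl fun a ha => ?_
  have ha' : a < t + 1 := mem_range.1 ha
  have e1 : t + 1 - (a + 1) = t - a := by omega
  have e3 : ((t - a : ℕ) : ℝ) = t - a := by rw [Nat.cast_sub (by omega)]
  rw [e1, e3]
  have ha0 : (0 : ℝ) ≤ a := Nat.cast_nonneg a
  have : (a : ℝ) + 1 + α ≠ 0 := by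
    have : 0 < (a : ℝ) + 1 + α := by linarith
    exact this.ne'
  field_simp
  ring

theorem U_nonneg {σ α : ℝ} (hσ : 0 ≤ σ) (hα : -1 < α) : ∀ t : ℕ, 0 ≤ U σ α t
  | 0 => by simp [U]
  | t + 1 => by
    have ih := U_nonneg hσ hα t
    have h := U_rec σ α hα t
    have ht : (0 : ℝ) ≤ t := Nat.cast_nonneg t
    have h2 : 0 ≤ bn (σ + t) t := bn_nonneg (by linarith)
    have h3 : 0 < (t : ℝ) + 1 + α := by linarith
    have h4 : 0 ≤ (t + 1 + α) * U σ α (t + 1) := by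
      rw [h]
      have : 0 ≤ (σ + t + 1) * U σ α t := mul_nonneg (by linarith) ih
      linarith
    exact nonneg_of_mul_nonneg_right h4 h3

/-! ### the functional -/

/-- `f` has integral `v` against `x^(-1-δ)` on `[0,1]`. -/
def Good (δ : ℝ) (f : ℝ → ℝ) (v : ℝ) : Prop :=
  ∃ G : ℝ → ℝ, ContinuousOn G (Set.Icc 0 1) ∧ G 0 = 0 ∧ G 1 = v ∧
    ∀ x ∈ Set.Ioo (0 : ℝ) 1, HasDerivAt G (x ^ (-1 - δ) * f x) x

theorem Good.add {δ : ℝ} {f g : ℝ → ℝ} {v w : ℝ} (hf : Good δ f v) (hg : Good δ g w) :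
    Good δ (fun x => f x + g x) (v + w) := by
  obtain ⟨F, a1, a2, a3, a4⟩ := hf
  obtain ⟨G, b1, b2, b3, b4⟩ := hg
  refine ⟨fun x => F x + G x, a1.add b1, by simp [a2, b2], by simp [a3, b3], fun x hx => ?_⟩
  have := (a4 x hx).add (b4 x hx)
  rw [← mul_add] at this
  exact this

theorem Good.smul {δ : ℝ} {f : ℝ → ℝ} {v : ℝ} (hf : Good δ f v) (r : ℝ) :
    Good δ (fun x => r * f x) (r * v) := by
  obtain ⟨F, a1, a2, a3, a4⟩ := hf
  refine ⟨fun x => r * F x, continuousOn_const.mul a1, by simp [a2], by simp [a3], fun x hx => ?_⟩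
  exact ((a4 x hx).const_mul r).congr_deriv (by ring)

theorem Good_zero (δ : ℝ) : Good δ (fun _ => 0) 0 :=
  ⟨fun _ => 0, continuousOn_const, rfl, rfl, fun x _ => by simpa using hasDerivAt_const x (0 : ℝ)⟩

theorem Good.sum {δ : ℝ} {ι : Type*} (s : Finset ι) {f : ι → ℝ → ℝ} {v : ι → ℝ}
    (h : ∀ i ∈ s, Good δ (f i) (v i)) : Good δ (fun x => ∑ i ∈ s, f i x) (∑ i ∈ s, v i) := by
  classical
  induction s using Finset.induction_on with
  | empty => simpa using Good_zero δ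
  | insert a s ha ih =>
    have h1 := (h a (mem_insert_self _ _)).add (ih fun i hi => h i (mem_insert_of_mem hi))
    simp only [sum_insert ha]
    exact h1

theorem Good.congr {δ : ℝ} {f g : ℝ → ℝ} {v : ℝ} (hf : Good δ f v)
    (h : ∀ x ∈ Set.Ioo (0 : ℝ) 1, f x = g x) : Good δ g v := by
  obtain ⟨F, a1, a2, a3, a4⟩ := hf
  exact ⟨F, a1, a2, a3, fun x hx => by rw [← h x hx]; exact a4 x hx⟩

theorem Good_pow {δ : ℝ} (hδ : δ < 1) (k : ℕ) (hk : 1 ≤ k) :
    Good δ (fun x => x ^ k) (1 / (k - δ)) := by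
  have hk' : (1 : ℝ) ≤ k := by exact_mod_cast hk
  have hp : 0 < (k : ℝ) - δ := by linarith
  refine ⟨fun x => x ^ ((k : ℝ) - δ) / ((k : ℝ) - δ), ?_, ?_, ?_, fun x hx => ?_⟩
  · exact (continuousOn_id.rpow_const fun x _ => Or.inr hp.le).div_const _
  · simp [Real.zero_rpow hp.ne']
  · simp
  · have h := (Real.hasDerivAt_rpow_const (x := x) (p := (k : ℝ) - δ) (Or.inl hx.1.ne')).div_const
      ((k : ℝ) - δ)
    refine h.congr_deriv ?_
    rw [mul_div_assoc, mul_comm, div_mul_cancel₀ _ hp.ne']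
    have e : (k : ℝ) - δ - 1 = (-1 - δ) + k := by ring
    rw [e, Real.rpow_add hx.1, Real.rpow_natCast]

theorem Good.pos {δ : ℝ} {f : ℝ → ℝ} {v : ℝ} (hf : Good δ f v)
    (h : ∀ x ∈ Set.Ioo (0 : ℝ) 1, 0 < f x) : 0 < v := by
  obtain ⟨F, a1, a2, a3, a4⟩ := hf
  have hm : StrictMonoOn F (Set.Icc 0 1) := by
    refine strictMonoOn_of_deriv_pos (convex_Icc 0 1) a1 fun x hx => ?_
    rw [interior_Icc] at hx
    rw [(a4 x hx).deriv]
    exact mul_pos (Real.rpow_pos_of_pos hx.1 _) (h x hx)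
  have := hm (Set.left_mem_Icc.2 zero_le_one) (Set.right_mem_Icc.2 zero_le_one) zero_lt_one
  rw [a2, a3] at this
  exact this

end

end Crest.Agent.R208.HH
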