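import Crest.Agent.R208.V2b

/-!
# The (V2) lemma, part c: conclusion.
-/

namespace Crest.Agent.R208.V2

open Finset PowerSeries

noncomputable section

/-- uniqueness for `q Y' = r q' Y`. -/
theorem ode_unique {q q' Y Z : PowerSeries ℝ} (r : PowerSeries ℝ)
    (hq : constantCoeff q = 1) (hZ : constantCoeff Z = 1) (hY : constantCoeff Y = 1)
    (h1 : q * (X * d⁄dX ℝ Y) = r * (q' * Y)) (h2 : q * (X * d⁄dX ℝ Z) = r * (q' * Z)) : Y = Z := by
  have hZ0 : Z ≠ 0 := by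
    rintro rfl
    simp at hZ
  have hq0 : q ≠ 0 := by
    rintro rfl
    simp at hq
  have hd : d⁄dX ℝ (Y * Z⁻¹) = d⁄dX ℝ (1 : PowerSeries ℝ) := by
    rw [Derivation.leibniz, derivative_inv', smul_eq_mul, smul_eq_mul]
    have hZi : Z * Z⁻¹ = 1 := PowerSeries.mul_inv_cancel Z (by rw [hZ]; norm_num)
    have key : (q * X) * (Y * (-Z⁻¹ ^ 2 * d⁄dX ℝ Z) + Z⁻¹ * d⁄dX ℝ Y) = (q * X) * 0 := by
      have : (q * X) * (Y * (-Z⁻¹ ^ 2 * d⁄dX ℝ Z) + Z⁻¹ * d⁄dX ℝ Y)
          = Z⁻¹ * (q * (X * d⁄dX ℝ Y)) - Y * Z⁻¹ ^ 2 * (q * (X * d⁄dX ℝ Z)) := by ring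
      rw [this, h1, h2]
      have : Y * Z⁻¹ ^ 2 * (r * (q' * Z)) = Y * Z⁻¹ * (Z * Z⁻¹) * (r * q') := by ring
      rw [this, hZi]
      ring
    have := mul_left_cancel₀ (mul_ne_zero hq0 X_ne_zero) key
    rw [this]
    simp
  have hc : constantCoeff (Y * Z⁻¹) = constantCoeff (1 : PowerSeries ℝ) := by
    rw [map_mul, hY, constantCoeff_inv, hZ]
    simp
  have h := derivative.ext hd hc
  have hZi : Z⁻¹ * Z = 1 := PowerSeries.inv_mul_cancel Z (by rw [hZ]; norm_num)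
  calc Y = Y * (Z⁻¹ * Z) := by rw [hZi, mul_one]
    _ = (Y * Z⁻¹) * Z := by ring
    _ = Z := by rw [h, one_mul]

theorem constantCoeff_q (ν : ℝ) : constantCoeff (1 - C ν * X + X ^ 2 : PowerSeries ℝ) = 1 := by
  simp

theorem deriv_q (ν : ℝ) : X * d⁄dX ℝ (1 - C ν * X + X ^ 2 : PowerSeries ℝ)
    = -(C ν * X) + 2 * X ^ 2 := by
  rw [map_add, map_sub, Derivation.leibniz, derivative_C, derivative_X, derivative_pow,
    derivative_X, derivative_one]
  simp only [smul_eq_mul]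
  push_cast
  ring

/-- `W 0 N ^ 2 = q ^ (2N)`. -/
theorem W_sq (ν : ℝ) (k : ℕ) : W ν 0 ((k : ℝ) / 2) ^ 2 = (1 - C ν * X + X ^ 2) ^ k := by
  refine ode_unique (q := 1 - C ν * X + X ^ 2) (q' := -(C ν * X) + 2 * X ^ 2) (C (k : ℝ))
    (constantCoeff_q ν) ?_ ?_ ?_ ?_
  · rw [map_pow, constantCoeff_q, one_pow]
  · rw [map_pow, constantCoeff_W, one_pow]
  · rw [derivative_pow]
    have h := W_ode ν ((k : ℝ) / 2)
    have h2 : (C ((k : ℝ) / 2) : PowerSeries ℝ) * 2 = C (k : ℝ) := by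
      have : (2 : PowerSeries ℝ) = C (2 : ℝ) := by rw [map_ofNat]
      rw [this, ← map_mul]
      congr 1
      ring
    have h3 : (1 - C ν * X + X ^ 2) * (X * (((2 : ℕ) : PowerSeries ℝ) * W ν 0 ((k : ℝ) / 2) ^ (2 - 1)
        * d⁄dX ℝ (W ν 0 ((k : ℝ) / 2))))
        = 2 * W ν 0 ((k : ℝ) / 2) * ((1 - C ν * X + X ^ 2) * (X * d⁄dX ℝ (W ν 0 ((k : ℝ) / 2)))) := by
      push_cast
      ring
    rw [h3, h, ← h2]
    ring
  · rw [derivative_pow]
    rcases k with _ | k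
    · simp
    · have h := deriv_q ν
      have h3 : (1 - C ν * X + X ^ 2) * (X * (((k + 1 : ℕ) : PowerSeries ℝ)
          * (1 - C ν * X + X ^ 2) ^ (k + 1 - 1) * d⁄dX ℝ (1 - C ν * X + X ^ 2 : PowerSeries ℝ)))
          = ((k + 1 : ℕ) : PowerSeries ℝ) * (1 - C ν * X + X ^ 2) ^ (k + 1)
            * (X * d⁄dX ℝ (1 - C ν * X + X ^ 2 : PowerSeries ℝ)) := by
        rw [Nat.add_sub_cancel, pow_succ]
        ring
      rw [h3, h, map_natCast]
      ring

theorem eq_of_sq_eq {A B : PowerSeries ℝ} (hA : constantCoeff A = 1) (hB : constantCoeff B = 1)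
    (h : A ^ 2 = B ^ 2) : A = B := by
  rcases sq_eq_sq_iff_eq_or_eq_neg.1 h with h | h
  · exact h
  · exfalso
    rw [h, map_neg, hB] at hA
    norm_num at hA

theorem constantCoeff_u (ν : ℝ) : constantCoeff (1 - C (2 * ν) * X : PowerSeries ℝ) = 1 := by
  simp

/-- identification of `c = e^g`. -/
theorem c_eq {ν : ℝ} {k : ℕ} {c : PowerSeries ℝ} (hc0 : constantCoeff c = 1)
    (hc : c ^ 2 * (1 - C (2 * ν) * X) ^ 2 = (1 - C ν * X + X ^ 2) ^ k) :
    c = W ν 1 ((k : ℝ) / 2) := by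
  have h1 : c * (1 - C (2 * ν) * X) = W ν 0 ((k : ℝ) / 2) := by
    refine eq_of_sq_eq ?_ (constantCoeff_W _ _ _) ?_
    · rw [map_mul, hc0, constantCoeff_u, one_mul]
    · rw [W_sq, ← hc]
      ring
  have h2 := W_u ν 0 ((k : ℝ) / 2)
  have hu : (1 - C (2 * ν) * X : PowerSeries ℝ) ≠ 0 := by
    intro h
    have := constantCoeff_u ν
    rw [h] at this
    simp at this
  apply mul_left_cancel₀ hu
  rw [zero_add] at h2
  rw [h2, ← h1]
  ring

/-- the bigraded coefficients of `c θ²g`. -/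
def TJ (ν N : ℝ) (t i : ℕ) : ℝ :=
  2 * ν * shi (fun t i => bn N t * ν ^ i * F 3 (N - t) i) t i
  + -(N * ν) * shi (fun t i => bn (N - 1) t * ν ^ i * F 1 (N - 1 - t) i) t i
  + 4 * N * sht (fun t i => bn (N - 2) t * ν ^ i * F 1 (N - 2 - t) i) t i
  + -(N * ν ^ 2) * shi (shi (fun t i => bn (N - 2) t * ν ^ i * F 1 (N - 2 - t) i)) t i

theorem TJ_eq (ν N : ℝ) (t i : ℕ) (h : 1 ≤ i + t) (hN : N = ((i : ℝ) + 2 * t + 2) / 2) :
    TJ ν N t i = ν ^ i * bn N t * (2 * al i - ((i : ℝ) / 2 + 1) * be i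
      + 4 * t * (((i : ℝ) / 2 + 1) / ((i : ℝ) / 2 + t)) * ga i
      - ((i : ℝ) / 2) * (((i : ℝ) / 2 + 1) / ((i : ℝ) / 2 + t)) * gm i) := by
  have h0 : (0 : ℝ) ≤ i := Nat.cast_nonneg i
  have ht : (0 : ℝ) ≤ t := Nat.cast_nonneg t
  have hst : (0 : ℝ) < (i : ℝ) / 2 + t := by
    rcases Nat.eq_zero_or_pos i with rfl | hi
    · have : (1 : ℝ) ≤ t := by exact_mod_cast (by omega : 1 ≤ t)
      simp only [Nat.cast_zero]
      linarith
    · have : (1 : ℝ) ≤ i := by exact_mod_cast hi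
      linarith
  have hN1 : N - 1 = (i : ℝ) / 2 + t := by rw [hN]; ring
  have hNt : N - t = (i : ℝ) / 2 + 1 := by rw [hN]; ring
  -- term 1
  have e1 : 2 * ν * shi (fun t i => bn N t * ν ^ i * F 3 (N - t) i) t i
      = ν ^ i * bn N t * (2 * al i) := by
    rcases i with _ | i
    · simp [al]
    · simp only [shi_succ, al]
      rw [hNt, pow_succ]
      ring
  -- term 2
  have e2 : -(N * ν) * shi (fun t i => bn (N - 1) t * ν ^ i * F 1 (N - 1 - t) i) t i
      = -(ν ^ i * bn N t * (((i : ℝ) / 2 + 1) * be i)) := by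
    rcases i with _ | i
    · simp [be]
    · have hb := bn_absorb N t
      have hN2 : N - 1 - t = ((i + 1 : ℕ) : ℝ) / 2 := by rw [hN]; push_cast; ring
      simp only [shi_succ, be]
      rw [hN2, pow_succ]
      rw [hNt] at hb
      linear_combination (-(ν ^ i * ν * F 1 (((i + 1 : ℕ) : ℝ) / 2) i)) * hb
  -- term 3
  have e3 : 4 * N * sht (fun t i => bn (N - 2) t * ν ^ i * F 1 (N - 2 - t) i) t i
      = ν ^ i * bn N t * (4 * t * (((i : ℝ) / 2 + 1) / ((i : ℝ) / 2 + t)) * ga i) := by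
    rcases t with _ | t
    · simp
    · have hb := bn_absorb (N - 1) t
      have hs := bn_succ_mul N t
      have ha := bn_absorb N t
      have hN2 : N - 2 - t = (i : ℝ) / 2 := by rw [hN]; push_cast; ring
      have hN3 : N - 1 - 1 = N - 2 := by ring
      have hN4 : N - 1 - t = (i : ℝ) / 2 + 1 := by rw [hN]; push_cast; ring
      simp only [sht_succ, ga]
      rw [hN2]
      rw [hN3, hN4] at hb
      have hb' : ((i : ℝ) / 2 + ((t + 1 : ℕ) : ℝ)) * bn (N - 2) t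
          = ((i : ℝ) / 2 + 1) * bn (N - 1) t := by
        rw [← hN1]; exact hb
      have hs' : ((t : ℝ) + 1) * bn N (t + 1) = N * bn (N - 1) t := by
        rw [hs, ha]; ring
      have hmain : N * bn (N - 2) t * ((i : ℝ) / 2 + ((t + 1 : ℕ) : ℝ))
          = ((t : ℝ) + 1) * bn N (t + 1) * ((i : ℝ) / 2 + 1) := by
        rw [hs']
        linear_combination N * hb'
      have hne : ((i : ℝ) / 2 + ((t + 1 : ℕ) : ℝ)) ≠ 0 := hst.ne'
      have : N * bn (N - 2) t = ((t : ℝ) + 1) * bn N (t + 1) * (((i : ℝ) / 2 + 1)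
          / ((i : ℝ) / 2 + ((t + 1 : ℕ) : ℝ))) := by
        rw [← mul_div_assoc, eq_div_iff hne, hmain]
      push_cast at this ⊢
      linear_combination (4 * ν ^ i * F 1 ((i : ℝ) / 2) i) * this
  -- term 4
  have e4 : -(N * ν ^ 2) * shi (shi (fun t i => bn (N - 2) t * ν ^ i * F 1 (N - 2 - t) i)) t i
      = -(ν ^ i * bn N t * (((i : ℝ) / 2) * (((i : ℝ) / 2 + 1) / ((i : ℝ) / 2 + t)) * gm i)) := by
    rcases i with _ | _ | i
    · simp [gm]
    · simp [gm]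
    · have hb := bn_absorb (N - 1) t
      have ha := bn_absorb N t
      have hN2 : N - 2 - t = (i : ℝ) / 2 := by rw [hN]; push_cast; ring
      have hN3 : N - 1 - 1 = N - 2 := by ring
      have hN4 : N - 1 - t = ((i + 1 + 1 : ℕ) : ℝ) / 2 := by rw [hN]; push_cast; ring
      simp only [shi_succ, gm, ga]
      rw [hN2]
      rw [hN3, hN4] at hb
      have hb' : (((i + 1 + 1 : ℕ) : ℝ) / 2 + t) * bn (N - 2) t
          = ((i + 1 + 1 : ℕ) : ℝ) / 2 * bn (N - 1) t := by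
        rw [← hN1]; exact hb
      rw [hNt] at ha
      have hne : (((i + 1 + 1 : ℕ) : ℝ) / 2 + t) ≠ 0 := hst.ne'
      have : N * bn (N - 2) t = bn N t * ((((i + 1 + 1 : ℕ) : ℝ) / 2)
          * ((((i + 1 + 1 : ℕ) : ℝ) / 2 + 1) / (((i + 1 + 1 : ℕ) : ℝ) / 2 + t))) := by
        rw [← mul_div_assoc, ← mul_div_assoc, eq_div_iff hne]
        linear_combination N * hb' + (((i + 1 + 1 : ℕ) : ℝ) / 2) * ha
      rw [show ν ^ (i + 1 + 1) = ν ^ i * ν ^ 2 by ring]
      linear_combination (-(ν ^ 2 * ν ^ i * F 1 ((i : ℝ) / 2) i)) * this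
  unfold TJ
  rw [e1, e2, e3, e4]
  ring

/-- the coefficient formula and its positivity. -/
theorem coeff_TJ (ν : ℝ) (n : ℕ) (hn : 1 ≤ n) :
    ∃ J : ℕ → ℝ, (∀ t, 2 * t ≤ n → 0 < J t) ∧
      coeff n (S (TJ ν (((n : ℝ) + 2) / 2)))
        = ∑ t ∈ range (n + 1), if 2 * t ≤ n then ν ^ (n - 2 * t) * J t else 0 := by
  set N : ℝ := ((n : ℝ) + 2) / 2 with hN
  refine ⟨fun t => bn N t * (2 * al (n - 2 * t) - (((n - 2 * t : ℕ) : ℝ) / 2 + 1) * be (n - 2 * t)
      + 4 * t * ((((n - 2 * t : ℕ) : ℝ) / 2 + 1) / (((n - 2 * t : ℕ) : ℝ) / 2 + t)) * ga (n - 2 * t)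
      - (((n - 2 * t : ℕ) : ℝ) / 2) * ((((n - 2 * t : ℕ) : ℝ) / 2 + 1)
        / (((n - 2 * t : ℕ) : ℝ) / 2 + t)) * gm (n - 2 * t)), ?_, ?_⟩
  · intro t ht
    refine mul_pos (bn_pos ?_) (bracket_pos _ _ (by omega))
    have : (2 : ℝ) * t ≤ n := by exact_mod_cast ht
    rw [hN]
    linarith
  · rw [coeff_S]
    refine Finset.sum_congr rfl fun t _ => ?_
    by_cases h : 2 * t ≤ n
    · rw [if_pos h, if_pos h, TJ_eq ν N t (n - 2 * t) (by omega) (by
        rw [hN, Nat.cast_sub h]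
        push_cast
        ring)]
      ring
    · rw [if_neg h, if_neg h]

/-- **(V2)** for `ν`. -/
theorem V2_aux (ν : ℝ) (n : ℕ) (hn : 1 ≤ n) (h : coeff n (S (TJ ν (((n : ℝ) + 2) / 2))) = 0) :
    Odd n ∧ ν = 0 := by
  obtain ⟨J, hJ, hc⟩ := coeff_TJ ν n hn
  rw [h] at hc
  rcases Nat.even_or_odd n with he | ho
  · exfalso
    obtain ⟨r, hr⟩ := he
    have hpos : 0 < ∑ t ∈ range (n + 1), if 2 * t ≤ n then ν ^ (n - 2 * t) * J t else 0 := by
      refine Finset.sum_pos' (fun t _ => ?_) ⟨r, Finset.mem_range.2 (by omega), ?_⟩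
      · split_ifs with h1
        · have : n - 2 * t = 2 * (r - t) := by omega
          rw [this, pow_mul]
          exact mul_nonneg (pow_nonneg (sq_nonneg ν) _) (hJ t h1).le
        · exact le_refl _
      · rw [if_pos (by omega)]
        have : n - 2 * r = 0 := by omega
        rw [this, pow_zero, one_mul]
        exact hJ r (by omega)
    exact hpos.ne hc
  · refine ⟨ho, ?_⟩
    obtain ⟨r, hr⟩ := ho
    have hpos : 0 < ∑ t ∈ range (n + 1), if 2 * t ≤ n then ν ^ (n - 2 * t - 1) * J t else 0 := by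
      refine Finset.sum_pos' (fun t _ => ?_) ⟨r, Finset.mem_range.2 (by omega), ?_⟩
      · split_ifs with h1
        · have : n - 2 * t - 1 = 2 * (r - t) := by omega
          rw [this, pow_mul]
          exact mul_nonneg (pow_nonneg (sq_nonneg ν) _) (hJ t h1).le
        · exact le_refl _
      · rw [if_pos (by omega)]
        have : n - 2 * r - 1 = 0 := by omega
        rw [this, pow_zero, one_mul]
        exact hJ r (by omega)
    have hfac : ∑ t ∈ range (n + 1), (if 2 * t ≤ n then ν ^ (n - 2 * t) * J t else 0)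
        = ν * ∑ t ∈ range (n + 1), if 2 * t ≤ n then ν ^ (n - 2 * t - 1) * J t else 0 := by
      rw [Finset.mul_sum]
      refine Finset.sum_congr rfl fun t _ => ?_
      split_ifs with h1
      · have : n - 2 * t = (n - 2 * t - 1) + 1 := by omega
        rw [this, pow_succ, Nat.add_sub_cancel]
        ring
      · simp
    rw [hfac] at hc
    rcases mul_eq_zero.1 hc.symm with h1 | h1
    · exact h1
    · exact absurd h1 hpos.ne'

/-- **THE (V2) LEMMA** (helper591 #10936, helper126 #11003). -/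
theorem V2_main (m : ℕ) (hm : 2 ≤ m) (μ : ℝ) (c G2 : PowerSeries ℝ)
    (hc0 : constantCoeff c = 1)
    (hc : c ^ 2 * (1 + C (2 * μ) * X) ^ 2 = (1 + C μ * X + X ^ 2) ^ (m + 1))
    (hG : G2 * ((1 + C μ * X + X ^ 2) ^ 2 * (1 + C (2 * μ) * X) ^ 2)
      = C (((m : ℝ) + 1) / 2) * X * (C μ + 4 * X + C μ * X ^ 2) * (1 + C (2 * μ) * X) ^ 2
        - C (2 * μ) * X * (1 + C μ * X + X ^ 2) ^ 2)
    (h : coeff (m - 1) (c * G2) = 0) : Even m ∧ μ = 0 := by
  obtain ⟨n, rfl⟩ : ∃ n, m = n + 1 := ⟨m - 1, by omega⟩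
  have hn : 1 ≤ n := by omega
  rw [Nat.add_sub_cancel] at h
  set ν : ℝ := -μ with hν
  set N : ℝ := ((n : ℝ) + 2) / 2 with hN
  have hq : (1 + C μ * X + X ^ 2 : PowerSeries ℝ) = 1 - C ν * X + X ^ 2 := by
    rw [hν, map_neg]; ring
  have hu : (1 + C (2 * μ) * X : PowerSeries ℝ) = 1 - C (2 * ν) * X := by
    rw [hν]
    have : (2 * -μ) = -(2 * μ) := by ring
    rw [this, map_neg]; ring
  rw [hq, hu] at hc hG
  have hN' : (((n + 1 : ℕ) : ℝ) + 1) / 2 = N := by rw [hN]; push_cast; ring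
  have hN'' : ((n + 1 + 1 : ℕ) : ℝ) / 2 = N := by rw [hN]; push_cast; ring
  have hcW : c = W ν 1 N := by
    have := c_eq hc0 hc
    rw [hN''] at this
    exact this
  rw [hN'] at hG
  set q : PowerSeries ℝ := 1 - C ν * X + X ^ 2 with hqdef
  set u : PowerSeries ℝ := 1 - C (2 * ν) * X with hudef
  have hq0 : q ≠ 0 := by
    intro h0
    have := constantCoeff_q ν
    rw [← hqdef, h0] at this
    simp at this
  have hu0 : u ≠ 0 := by
    intro h0
    have := constantCoeff_u ν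
    rw [← hudef, h0] at this
    simp at this
  have hW1 : W ν 1 N = q * W ν 1 (N - 1) := by
    have := W_q ν 1 (N - 1)
    rw [sub_add_cancel] at this
    rw [hqdef, this]
  have hW2 : W ν 1 (N - 1) = q * W ν 1 (N - 2) := by
    have := W_q ν 1 (N - 2)
    rw [show N - 2 + 1 = N - 1 by ring] at this
    rw [hqdef, this]
  have hU1 : W ν 1 N = u * W ν 2 N := by
    rw [hudef, W_u ν 1 N]
  have hU2 : W ν 2 N = u * W ν 3 N := by
    rw [hudef, W_u ν 2 N]
  have hμ : μ = -ν := by rw [hν]; ring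
  have hK : c * G2 = S (TJ ν N) := by
    have hK1 : c * G2 = C (2 * ν) * (X * W ν 3 N) + C (-(N * ν)) * (X * W ν 1 (N - 1))
        + C (4 * N) * (X ^ 2 * W ν 1 (N - 2)) + C (-(N * ν ^ 2)) * (X * (X * W ν 1 (N - 2))) := by
      apply mul_right_cancel₀ (mul_ne_zero (pow_ne_zero 2 hq0) (pow_ne_zero 2 hu0))
      have e1 : c * G2 * (q ^ 2 * u ^ 2) = c * (G2 * (q ^ 2 * u ^ 2)) := by ring
      rw [e1, hG, hμ, hcW]
      have c1 : (C (2 * -ν) : PowerSeries ℝ) = -(2 * C ν) := by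
        rw [map_mul, map_neg, map_ofNat]; ring
      have c2 : (C (-ν) : PowerSeries ℝ) = -C ν := by rw [map_neg]
      have c3 : (C (2 * ν) : PowerSeries ℝ) = 2 * C ν := by rw [map_mul, map_ofNat]
      have c4 : (C (-(N * ν)) : PowerSeries ℝ) = -(C N * C ν) := by rw [map_neg, map_mul]
      have c5 : (C (4 * N) : PowerSeries ℝ) = 4 * C N := by rw [map_mul, map_ofNat]
      have c6 : (C (-(N * ν ^ 2)) : PowerSeries ℝ) = -(C N * C ν ^ 2) := by
        rw [map_neg, map_mul, map_pow]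
      rw [c1, c2, c3, c4, c5, c6]
      -- two expressions of `W 1 N`
      have f1 : W ν 1 N = q ^ 2 * W ν 1 (N - 2) := by rw [hW1, hW2]; ring
      have f2 : W ν 1 N = u ^ 2 * W ν 3 N := by rw [hU1, hU2]; ring
      have f3 : W ν 1 (N - 1) = q * W ν 1 (N - 2) := hW2
      set A := W ν 1 (N - 2)
      set B := W ν 3 N
      have lhs : W ν 1 N * (C N * X * (-C ν + 4 * X + -C ν * X ^ 2) * u ^ 2 - -(2 * C ν) * X * q ^ 2)
          = (q ^ 2 * A) * (C N * X * (-C ν + 4 * X + -C ν * X ^ 2) * u ^ 2)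
            + (u ^ 2 * B) * (2 * C ν * X * q ^ 2) := by
        rw [← f1, ← f2]; ring
      rw [lhs, f3, hqdef]
      ring
    rw [hK1, W, W, W, X_mul_S, X_mul_S, X_sq_mul_S, X_mul_S, X_mul_S, S_smul, S_smul, S_smul,
      S_smul, S_add, S_add, S_add]
    rfl
  rw [hK] at h
  obtain ⟨h1, h2⟩ := V2_aux ν n hn h
  refine ⟨Odd.add_one h1, ?_⟩
  rw [hμ, h2, neg_zero]

end

end Crest.Agent.R208.V2
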