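import Crest.Agent.R208.HHd
import Crest.Agent.R208.V2c

/-!
# (H1), (H2) exclude all `k ≥ 8` except `(8,2)`, part e: the theorem.
-/

namespace Crest.Agent.R208.HH

open Finset PowerSeries V2

noncomputable section

/-- the integral of the bracket for `i = 1`. -/
def E1 (δ : ℝ) (t : ℕ) : ℝ := (2 * t + 3) * ∑ a ∈ range t,
    bn (3 / 2 + t) (t - (a + 1)) * (-1) ^ (a + 1)
      * ((2 * a + 1) * (1 / ((2 * a + 2 : ℕ) - δ)) + -(2 * a + 3) * (1 / ((2 * a + 3 : ℕ) - δ)))

theorem br_one_good {δ : ℝ} (hδ : δ < 1) (t : ℕ) : Good δ (fun l => br l t 1) (E1 δ t) := by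
  have h : Good δ (fun l => (2 * (t : ℝ) + 3) * ∑ a ∈ range t,
      bn (3 / 2 + t) (t - (a + 1)) * (-1) ^ (a + 1)
        * ((2 * (a : ℝ) + 1) * l ^ (2 * a + 2) + -(2 * (a : ℝ) + 3) * l ^ (2 * a + 3))) (E1 δ t) := by
    refine Good.smul (Good.sum _ fun a _ => Good.smul (Good.add (Good.smul (Good_pow hδ _ ?_) _)
      (Good.smul (Good_pow hδ _ ?_) _)) _) _ <;> omega
  refine h.congr fun l hl => ?_
  rw [br_one hl.2]
  congr 1
  refine sum_congr rfl fun a _ => ?_
  have e : (-l ^ 2) ^ (a + 1) = (-1) ^ (a + 1) * l ^ (2 * a + 2) := by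
    rw [← neg_one_mul, mul_pow, ← pow_mul]
    congr 2
  rw [e]
  ring

theorem E1_nonneg {δ : ℝ} (h0 : 0 ≤ δ) (h1 : δ < 1) (t : ℕ) : 0 ≤ E1 δ t := by
  have e : E1 δ t = (2 * t + 3) * ((1 - δ) / 2 * U (3 / 2) (-(δ / 2)) t
      + δ / 2 * U (3 / 2) ((1 - δ) / 2) t) := by
    unfold E1 U
    congr 1
    rw [mul_sum, mul_sum, ← sum_add_distrib]
    refine sum_congr rfl fun a _ => ?_
    have ha : (0 : ℝ) ≤ a := Nat.cast_nonneg a
    have n1 : (2 * (a : ℝ) + 2 - δ) ≠ 0 := by
      have : 0 < (2 * (a : ℝ) + 2 - δ) := by linarith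
      exact this.ne'
    have n2 : (2 * (a : ℝ) + 3 - δ) ≠ 0 := by
      have : 0 < (2 * (a : ℝ) + 3 - δ) := by linarith
      exact this.ne'
    have e1 : ((a : ℝ) + 1 + -(δ / 2)) = (2 * a + 2 - δ) / 2 := by ring
    have e2 : ((a : ℝ) + 1 + (1 - δ) / 2) = (2 * a + 3 - δ) / 2 := by ring
    rw [e1, e2, pow_succ]
    push_cast
    have h1' : 2 * (a : ℝ) + 1 = (2 * a + 2 - δ) - (1 - δ) := by ring
    have h3' : (2 * (a : ℝ) + 1) * (1 / (2 * a + 2 - δ)) = 1 - (1 - δ) / (2 * a + 2 - δ) := by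
      rw [h1', sub_mul, mul_one_div_cancel n1]
      ring
    have h4' : -(2 * (a : ℝ) + 3) * (1 / (2 * a + 3 - δ)) = -1 - δ / (2 * a + 3 - δ) := by
      linear_combination -(mul_one_div_cancel n2)
    rw [h3', h4', div_div_eq_mul_div, div_div_eq_mul_div]
    ring
  rw [e]
  have u1 := U_nonneg (σ := 3 / 2) (α := -(δ / 2)) (by norm_num) (by linarith) t
  have u2 := U_nonneg (σ := 3 / 2) (α := (1 - δ) / 2) (by norm_num) (by linarith) t
  have : 0 ≤ 1 - δ := by linarith
  positivity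

theorem coeff_W_nonneg {ν : ℝ} (hν : 0 ≤ ν) (n : ℕ) :
    0 ≤ coeff n (W ν 1 (((n : ℝ) + 2) / 2)) := by
  rw [W, coeff_S]
  refine sum_nonneg fun t _ => ?_
  split_ifs with h
  · have hc : ((n - 2 * t : ℕ) : ℝ) = n - 2 * t := by
      rw [Nat.cast_sub h]; push_cast; ring
    have e1 : ((n : ℝ) + 2) / 2 - t = ((n - 2 * t : ℕ) : ℝ) / 2 + 1 := by rw [hc]; ring
    have e2 : ((n : ℝ) + 2) / 2 = ((n - 2 * t : ℕ) : ℝ) / 2 + 1 + t := by rw [hc]; ring
    have h2 : F 1 (((n : ℝ) + 2) / 2 - t) (n - 2 * t) = gp (n - 2 * t) := by rw [e1]; rfl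
    have h3 := bn_pos' (n - 2 * t) t
    rw [← e2] at h3
    have h4 := gp_pos (n - 2 * t)
    rw [h2]
    positivity
  · exact le_rfl

/-- the sum with the series `G`. -/
theorem coeff_mul_rescale (c G : PowerSeries ℝ) (hG : constantCoeff G = 0) (l : ℝ) (n : ℕ) :
    coeff n (c * rescale l G)
      = ∑ k ∈ range n, coeff (n - (k + 1)) c * coeff (k + 1) G * l ^ (k + 1) := by
  rw [coeff_mul, ← Finset.Nat.sum_antidiagonal_swap]
  rw [Finset.Nat.sum_antidiagonal_eq_sum_range_succ_mk, Finset.sum_range_succ']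
  simp only [Prod.swap_prod_mk, coeff_rescale, pow_zero, one_mul]
  rw [show coeff 0 G = 0 from by rw [coeff_zero_eq_constantCoeff_apply]; exact hG]
  rw [mul_zero, add_zero]
  exact sum_congr rfl fun k _ => by ring

section
variable {n : ℕ} {ν : ℝ} {G : PowerSeries ℝ}

theorem cc_G (hG : G * ((1 - C ν * X + X ^ 2) * (1 - C (2 * ν) * X))
      = C ((n : ℝ) + 2) * (-(C ν * X) + 2 * X ^ 2) * (1 - C (2 * ν) * X)
        + C (2 * ν) * X * (1 - C ν * X + X ^ 2)) : constantCoeff G = 0 := by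
  have := congrArg constantCoeff hG
  simpa using this

theorem coeff_one_G (hG : G * ((1 - C ν * X + X ^ 2) * (1 - C (2 * ν) * X))
      = C ((n : ℝ) + 2) * (-(C ν * X) + 2 * X ^ 2) * (1 - C (2 * ν) * X)
        + C (2 * ν) * X * (1 - C ν * X + X ^ 2)) : coeff 1 G = -((n : ℝ) * ν) := by
  have h0 := cc_G hG
  have h := congrArg (coeff 1) hG
  rw [PowerSeries.coeff_one_mul, h0, map_mul constantCoeff] at h
  have e : C ((n : ℝ) + 2) * (-(C ν * X) + 2 * X ^ 2) * (1 - C (2 * ν) * X)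
        + C (2 * ν) * X * (1 - C ν * X + X ^ 2)
      = X * (C ((n : ℝ) + 2) * (-(C ν) + 2 * X) * (1 - C (2 * ν) * X)
        + C (2 * ν) * (1 - C ν * X + X ^ 2)) := by ring
  have e0 : ∀ f : PowerSeries ℝ, coeff 1 (X * f) = constantCoeff f := fun f => by
    rw [← coeff_zero_eq_constantCoeff_apply]
    exact coeff_succ_X_mul 0 f
  rw [e, e0] at h
  simp at h
  linarith

theorem scaled_G (l : ℝ) (hG : G * ((1 - C ν * X + X ^ 2) * (1 - C (2 * ν) * X))
      = C ((n : ℝ) + 2) * (-(C ν * X) + 2 * X ^ 2) * (1 - C (2 * ν) * X)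
        + C (2 * ν) * X * (1 - C ν * X + X ^ 2)) :
    rescale l G * ((1 - C (l * ν) * X + C (l ^ 2) * X ^ 2) * (1 - C (2 * (l * ν)) * X))
      = C (2 * (((n : ℝ) + 2) / 2)) * (-(C (l * ν) * X) + C (2 * l ^ 2) * X ^ 2)
          * (1 - C (2 * (l * ν)) * X)
        + C (2 * (l * ν)) * X * (1 - C (l * ν) * X + C (l ^ 2) * X ^ 2) := by
  have h := congrArg (rescale l) hG
  have hC : ∀ a : ℝ, rescale l (C a : PowerSeries ℝ) = C a := by
    intro a
    ext t
    rw [coeff_rescale, coeff_C]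
    split_ifs with h
    · rw [h]; simp
    · simp
  simp only [map_mul, map_add, map_sub, map_neg, map_pow, map_one, map_ofNat, rescale_X] at h
  have e2 : rescale l (C ν : PowerSeries ℝ) = C ν := hC _
  have e3 : rescale l (C (n : ℝ) : PowerSeries ℝ) = C (n : ℝ) := hC _
  rw [e2] at h
  have e5 : 2 * (((n : ℝ) + 2) / 2) = n + 2 := by ring
  rw [e5]
  simp only [map_mul, map_add, map_pow, map_ofNat, e3] at h ⊢
  linear_combination h

/-- the two equations are contradictory. -/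
theorem key (hn : 1 ≤ n) {κ : ℝ} (hκ : 8 ≤ κ) (h8 : ¬ (κ = 8 ∧ n = 1)) (hν : 0 ≤ ν)
    (hG : G * ((1 - C ν * X + X ^ 2) * (1 - C (2 * ν) * X))
      = C ((n : ℝ) + 2) * (-(C ν * X) + 2 * X ^ 2) * (1 - C (2 * ν) * X)
        + C (2 * ν) * X * (1 - C ν * X + X ^ 2))
    (hc : coeff n (W ν 1 (((n : ℝ) + 2) / 2)) ≠ 0) :
    (n : ℝ) / 3 * coeff n (W ν 1 (((n : ℝ) + 2) / 2))
      + ∑ k ∈ range n, coeff (n - (k + 1)) (W ν 1 (((n : ℝ) + 2) / 2)) * coeff (k + 1) G
        / (κ * (k + 1) - 2) ≠ 0 := by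
  intro heq
  have hcn := coeff_W_nonneg hν n
  have hn' : (1 : ℝ) ≤ n := by exact_mod_cast hn
  have hκ0 : 0 < κ := by linarith
  set δ : ℝ := 2 / κ with hδ
  have hδ0 : 0 ≤ δ := by positivity
  have hδ1 : δ < 1 := by
    rw [hδ, div_lt_one hκ0]
    linarith
  have hδκ : δ * κ = 2 := by rw [hδ]; field_simp
  -- the equation times `κ`
  have heq2 : κ * ((n : ℝ) / 3) * coeff n (W ν 1 (((n : ℝ) + 2) / 2))
      + ∑ k ∈ range n, coeff (n - (k + 1)) (W ν 1 (((n : ℝ) + 2) / 2)) * coeff (k + 1) G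
        * (1 / ((k + 1 : ℕ) - δ)) = 0 := by
    have h := congrArg (fun x => κ * x) heq
    beta_reduce at h
    rw [mul_zero, mul_add, mul_sum] at h
    rw [← h]
    congr 1
    · ring
    · refine sum_congr rfl fun k _ => ?_
      have hk : (0 : ℝ) ≤ k := Nat.cast_nonneg k
      have n1 : (κ * ((k : ℝ) + 1) - 2) ≠ 0 := by
        have : 0 < κ * ((k : ℝ) + 1) - 2 := by nlinarith
        exact this.ne'
      have n2 : (((k + 1 : ℕ) : ℝ) - δ) ≠ 0 := by
        have : 0 < ((k + 1 : ℕ) : ℝ) - δ := by push_cast; linarith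
        exact this.ne'
      have e : κ * (((k + 1 : ℕ) : ℝ) - δ) = κ * ((k : ℝ) + 1) - 2 := by
        push_cast
        linear_combination -hδκ
      rw [← e]
      field_simp
  have hpre : (2 / (1 - δ) - κ / 3) ≤ 0 := by
    have : 0 < 1 - δ := by linarith
    rw [sub_nonpos, div_le_div_iff₀ this (by norm_num)]
    nlinarith
  rcases Nat.lt_or_ge n 2 with h2 | h2
  · -- `n = 1`
    have hn1 : n = 1 := by omega
    subst hn1
    have hκ8 : 8 < κ := lt_of_le_of_ne hκ fun h => h8 ⟨h.symm, rfl⟩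
    have hG1 := coeff_one_G hG
    simp only [sum_range_one, zero_add, Nat.sub_self] at heq
    rw [hG1, coeff_zero_eq_constantCoeff_apply, constantCoeff_W] at heq
    have hc1 : coeff 1 (W ν 1 ((((1 : ℕ) : ℝ) + 2) / 2)) = ν / 2 := by
      rw [W, coeff_S]
      simp only [sum_range_succ, sum_range_zero]
      have e : (((1 : ℕ) : ℝ) + 2) / 2 - (0 : ℕ) = ((1 : ℕ) : ℝ) / 2 + 1 := by norm_num
      have e2 : F 1 ((((1 : ℕ) : ℝ) + 2) / 2 - (0 : ℕ)) (1 - 2 * 0) = gp 1 := by rw [e]; rfl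
      rw [e2, gp_one]
      simp
      ring
    rw [hc1] at heq hc
    have hν0 : ν ≠ 0 := fun h => hc (by rw [h]; norm_num)
    have n1 : κ * ((0 : ℕ) + 1) - 2 ≠ 0 := by
      have : 0 < κ * (((0 : ℕ) : ℝ) + 1) - 2 := by push_cast; linarith
      exact this.ne'
    have n3 : κ - 2 ≠ 0 := by
      have : 0 < κ - 2 := by linarith
      exact this.ne'
    push_cast at heq
    have e9 : κ * (0 + 1) - 2 = κ - 2 := by ring
    rw [e9] at heq
    field_simp at heq
    have : ν * (κ - 8) = 0 := by linarith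
    rcases mul_eq_zero.1 this with h | h
    · exact hν0 h
    · linarith
  · -- `n ≥ 2`
    set c := W ν 1 (((n : ℝ) + 2) / 2) with hcdef
    have hG0 := cc_G hG
    -- the function `M`
    have hM : Good δ (fun l => 2 * n * coeff n c * l ^ 1
        + ∑ k ∈ range n, coeff (n - (k + 1)) c * coeff (k + 1) G * l ^ (k + 1))
        (2 * n * coeff n c * (1 / ((1 : ℕ) - δ))
        + ∑ k ∈ range n, coeff (n - (k + 1)) c * coeff (k + 1) G * (1 / ((k + 1 : ℕ) - δ))) :=
      (Good.smul (Good_pow hδ1 1 le_rfl) _).add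
        (Good.sum _ fun k _ => Good.smul (Good_pow hδ1 (k + 1) (by omega)) _)
    have hMval : (2 * n * coeff n c * (1 / ((1 : ℕ) - δ))
        + ∑ k ∈ range n, coeff (n - (k + 1)) c * coeff (k + 1) G * (1 / ((k + 1 : ℕ) - δ)))
        = (2 / (1 - δ) - κ / 3) * (n * coeff n c) := by
      have h1δ : 1 - δ ≠ 0 := by linarith
      push_cast at heq2 ⊢
      have e : 2 * n * coeff n c * (1 / (1 - δ)) = 2 / (1 - δ) * (n * coeff n c) := by ring
      rw [e]
      linear_combination heq2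
    have hM0 : (2 / (1 - δ) - κ / 3) * (n * coeff n c) ≤ 0 :=
      mul_nonpos_of_nonpos_of_nonneg hpre (by positivity)
    have hMeq : ∀ l ∈ Set.Ioo (0 : ℝ) 1, (2 * n * coeff n c * l ^ 1
        + ∑ k ∈ range n, coeff (n - (k + 1)) c * coeff (k + 1) G * l ^ (k + 1))
        = ∑ t ∈ range (n + 1), if 2 * t ≤ n then ν ^ (n - 2 * t) * br l t (n - 2 * t) else 0 := by
      intro l hl
      rw [← coeff_main hl.2 ν n (rescale l G) (scaled_G l hG), ← hcdef,
        coeff_mul_rescale c G hG0]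
      ring
    have hbr : ∀ l ∈ Set.Ioo (0 : ℝ) 1, ∀ t i : ℕ, i + 2 * t = n → i ≠ 1 → 0 < br l t i := by
      intro l hl t i hti hi
      rcases i with _ | _ | i
      · exact br_pos_zero hl.1 hl.2 t (by omega)
      · exact absurd rfl hi
      · exact br_pos hl.1 hl.2 i t
    rcases Nat.even_or_odd' n with ⟨r, hr | hr⟩
    · -- `n` even
      have hpos := hM.pos fun l hl => by
        rw [hMeq l hl]
        refine Finset.sum_pos' (fun t _ => ?_) ⟨r, mem_range.2 (by omega), ?_⟩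
        · split_ifs with h
          · exact mul_nonneg (pow_nonneg hν _) (hbr l hl t _ (by omega) (by omega)).le
          · exact le_rfl
        · rw [if_pos (by omega), show n - 2 * r = 0 by omega, pow_zero, one_mul]
          exact hbr l hl r 0 (by omega) (by omega)
      rw [hMval] at hpos
      linarith
    · -- `n` odd
      have hν0 : ν ≠ 0 := by
        rintro rfl
        apply hc
        rw [hcdef, W, coeff_S]
        refine sum_eq_zero fun t _ => ?_
        split_ifs with h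
        · rw [zero_pow (by omega : n - 2 * t ≠ 0)]
          ring
        · rfl
      have hν1 : 0 < ν := lt_of_le_of_ne hν (Ne.symm hν0)
      have hg := (hM.add ((br_one_good hδ1 r).smul (-ν))).pos fun l hl => by
        rw [hMeq l hl]
        have hr' : r ∈ range (n + 1) := mem_range.2 (by omega)
        rw [← Finset.add_sum_erase _ _ hr', if_pos (by omega), show n - 2 * r = 1 by omega, pow_one]
        have : 0 < ∑ t ∈ (range (n + 1)).erase r,
            if 2 * t ≤ n then ν ^ (n - 2 * t) * br l t (n - 2 * t) else 0 := by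
          refine Finset.sum_pos' (fun t ht => ?_) ⟨0, mem_erase.2 ⟨by omega, mem_range.2 (by omega)⟩, ?_⟩
          · have htr := (mem_erase.1 ht).1
            split_ifs with h
            · exact mul_nonneg (pow_nonneg hν _) (hbr l hl t _ (by omega) (by omega)).le
            · exact le_rfl
          · rw [if_pos (by omega)]
            exact mul_pos (pow_pos hν1 _) (hbr l hl 0 _ (by omega) (by omega))
        linarith
      rw [hMval] at hg
      have hE := E1_nonneg hδ0 hδ1 r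
      nlinarith

end

end

end Crest.Agent.R208.HH
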