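import Crest.Agent.R208.HHe

/-!
# (H1), (H2) exclude all `k ≥ 8` except `(8,2)`, part f: the theorem in terms of `μ`.
-/

namespace Crest.Agent.R208.HH

open Finset PowerSeries V2

noncomputable section

theorem rescale_C' (l a : ℝ) : rescale l (C a : PowerSeries ℝ) = C a := by
  ext t
  rw [coeff_rescale, coeff_C]
  split_ifs with h
  · rw [h]; simp
  · simp

/-- the two relations combined: `(n/3) c_n + ∑ c_(n-k) π_k k/(κk-2) ≠ 0`. -/
theorem main_eq (n : ℕ) (hn : 1 ≤ n) (κ : ℝ) (hκ : 8 ≤ κ) (h8 : ¬ (κ = 8 ∧ n = 1)) (μ : ℝ)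
    (c P : PowerSeries ℝ) (hc0 : constantCoeff c = 1)
    (hc : c ^ 2 * (1 + C (2 * μ) * X) ^ 2 = (1 + C μ * X + X ^ 2) ^ (n + 2))
    (hP : P * ((1 + C μ * X + X ^ 2) * (1 + C (2 * μ) * X))
      = C ((n : ℝ) + 2) * (C μ * X + 2 * X ^ 2) * (1 + C (2 * μ) * X)
        - C (2 * μ) * X * (1 + C μ * X + X ^ 2))
    (hcn : coeff n c ≠ 0) :
    (n : ℝ) / 3 * coeff n c
      + ∑ k ∈ range n, coeff (n - (k + 1)) c * coeff (k + 1) P / (κ * (k + 1) - 2) ≠ 0 := by
  -- the sign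
  obtain ⟨e, he, hν⟩ : ∃ e : ℝ, e * e = 1 ∧ 0 ≤ -(e * μ) := by
    rcases le_total μ 0 with h | h
    · exact ⟨1, by norm_num, by linarith⟩
    · exact ⟨-1, by norm_num, by linarith⟩
  have he2 : (C e : PowerSeries ℝ) * C e = 1 := by rw [← map_mul, he, map_one]
  set ν : ℝ := -(e * μ) with hνdef
  have hcν : (C ν : PowerSeries ℝ) = -(C e * C μ) := by rw [hνdef, map_neg, map_mul]
  have hcν2 : (C (2 * ν) : PowerSeries ℝ) = -(2 * (C e * C μ)) := by
    rw [map_mul, hcν, map_ofNat]; ring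
  have hX2 : (C e * X : PowerSeries ℝ) ^ 2 = X ^ 2 := by
    rw [mul_pow, pow_two, he2, one_mul]
  -- the rescaled series
  have hc' : (rescale e c) ^ 2 * (1 - C (2 * ν) * X) ^ 2 = (1 - C ν * X + X ^ 2) ^ (n + 2) := by
    have h := congrArg (rescale e) hc
    simp only [map_mul, map_add, map_pow, map_one, rescale_X, rescale_C', hX2, map_ofNat] at h
    rw [hcν, hcν2]
    have e1 : (1 : PowerSeries ℝ) - -(2 * (C e * C μ)) * X = 1 + 2 * C μ * (C e * X) := by ring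
    have e2 : (1 : PowerSeries ℝ) - -(C e * C μ) * X + X ^ 2 = 1 + C μ * (C e * X) + X ^ 2 := by ring
    rw [e1, e2]
    exact h
  have hP' : rescale e P * ((1 - C ν * X + X ^ 2) * (1 - C (2 * ν) * X))
      = C ((n : ℝ) + 2) * (-(C ν * X) + 2 * X ^ 2) * (1 - C (2 * ν) * X)
        + C (2 * ν) * X * (1 - C ν * X + X ^ 2) := by
    have h := congrArg (rescale e) hP
    have h3 : rescale e (C (n : ℝ) : PowerSeries ℝ) = C (n : ℝ) := rescale_C' _ _
    have h4 : rescale e (C μ : PowerSeries ℝ) = C μ := rescale_C' _ _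
    simp only [map_mul, map_add, map_sub, map_pow, map_one, rescale_X, map_ofNat, hX2] at h
    rw [h3, h4] at h
    rw [hcν, hcν2]
    simp only [map_add, map_ofNat]
    linear_combination h
  have hc0' : constantCoeff (rescale e c) = 1 := by
    rw [← coeff_zero_eq_constantCoeff_apply, coeff_rescale, pow_zero, one_mul,
      coeff_zero_eq_constantCoeff_apply, hc0]
  have hW := c_eq hc0' hc'
  have e5 : (((n + 2 : ℕ) : ℝ)) / 2 = ((n : ℝ) + 2) / 2 := by push_cast; ring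
  rw [e5] at hW
  have he0 : e ≠ 0 := by
    rintro rfl
    simp at he
  have hcn' : coeff n (W ν 1 (((n : ℝ) + 2) / 2)) ≠ 0 := by
    rw [← hW, coeff_rescale]
    exact mul_ne_zero (pow_ne_zero _ he0) hcn
  have hk := key hn hκ h8 hν hP' hcn'
  intro heq
  apply hk
  rw [← hW]
  have : (n : ℝ) / 3 * coeff n (rescale e c)
      + ∑ k ∈ range n, coeff (n - (k + 1)) (rescale e c) * coeff (k + 1) (rescale e P)
        / (κ * (k + 1) - 2)
      = e ^ n * ((n : ℝ) / 3 * coeff n c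
      + ∑ k ∈ range n, coeff (n - (k + 1)) c * coeff (k + 1) P / (κ * (k + 1) - 2)) := by
    rw [mul_add, mul_sum, coeff_rescale]
    congr 1
    · ring
    · refine sum_congr rfl fun k hk => ?_
      have hk' : k < n := mem_range.1 hk
      have e1 : e ^ n = e ^ (n - (k + 1)) * e ^ (k + 1) := by
        rw [← pow_add]; congr 1; omega
      rw [coeff_rescale, coeff_rescale, e1]
      ring
  rw [this, heq, mul_zero]

/-- **(H1) and (H2) are contradictory for all `k ≥ 8` except `(k,m) = (8,2)`.** Here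
`c = c₀ = (1+μX+X²)^((m+1)/2)/(1+2μX)`, `P = θ log P_M`, `P_M = (1+μX+X²)^(m+1)/(1+2μX)`, and
`D = -∑ i π_i X^(i-1)/(κ i - 2)`. -/
theorem main (m : ℕ) (hm : 2 ≤ m) (κ : ℝ) (hκ : 8 ≤ κ) (h82 : ¬ (κ = 8 ∧ m = 2)) (μ ε : ℝ)
    (hε : ε ≠ 0) (c P D : PowerSeries ℝ) (hc0 : constantCoeff c = 1)
    (hc : c ^ 2 * (1 + C (2 * μ) * X) ^ 2 = (1 + C μ * X + X ^ 2) ^ (m + 1))
    (hP : P * ((1 + C μ * X + X ^ 2) * (1 + C (2 * μ) * X))
      = C ((m : ℝ) + 1) * (C μ * X + 2 * X ^ 2) * (1 + C (2 * μ) * X)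
        - C (2 * μ) * X * (1 + C μ * X + X ^ 2))
    (hD : ∀ i : ℕ, (κ * (i + 1) - 2) * coeff i D = -coeff (i + 1) P)
    (H1 : coeff (m - 1) c = ε * (m + 1).choose 2)
    (H2 : coeff (m - 2) (c * D) = ε * (m + 1).choose 3) : False := by
  obtain ⟨n, rfl⟩ : ∃ n, m = n + 2 := ⟨m - 2, by omega⟩
  have e1 : n + 2 - 1 = n + 1 := by omega
  have e2 : n + 2 - 2 = n := by omega
  rw [e1] at H1
  rw [e2] at H2
  have hch : 3 * (((n + 2 + 1).choose 3 : ℕ) : ℝ) = ((n + 1 : ℕ) : ℝ) * ((n + 2 + 1).choose 2 : ℕ) := by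
    have h := Nat.choose_succ_right_eq (n + 2 + 1) 2
    have e3 : n + 2 + 1 - 2 = n + 1 := by omega
    rw [e3] at h
    have h2 : ((n + 2 + 1).choose 3 : ℝ) * 3 = (n + 2 + 1).choose 2 * (n + 1 : ℕ) := by
      exact_mod_cast h
    linarith
  have hcn : coeff (n + 1) c ≠ 0 := by
    rw [H1]
    refine mul_ne_zero hε ?_
    have : 0 < (n + 2 + 1).choose 2 := Nat.choose_pos (by omega)
    positivity
  have hP' : P * ((1 + C μ * X + X ^ 2) * (1 + C (2 * μ) * X))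
      = C (((n + 1 : ℕ) : ℝ) + 2) * (C μ * X + 2 * X ^ 2) * (1 + C (2 * μ) * X)
        - C (2 * μ) * X * (1 + C μ * X + X ^ 2) := by
    rw [hP]
    have : (((n + 2 : ℕ) : ℝ)) + 1 = ((n + 1 : ℕ) : ℝ) + 2 := by push_cast; ring
    rw [this]
  refine main_eq (n + 1) (by omega) κ hκ (fun h => h82 ⟨h.1, by omega⟩) μ c P hc0 hc hP' hcn ?_
  have h3 : coeff n (c * D) = -∑ k ∈ range (n + 1), coeff (n + 1 - (k + 1)) c * coeff (k + 1) P
      / (κ * (k + 1) - 2) := by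
    rw [coeff_mul, ← Finset.Nat.sum_antidiagonal_swap,
      Finset.Nat.sum_antidiagonal_eq_sum_range_succ_mk, ← sum_neg_distrib]
    refine sum_congr rfl fun k _ => ?_
    simp only [Prod.swap_prod_mk]
    have hk : (0 : ℝ) ≤ k := Nat.cast_nonneg k
    have n1 : (κ * ((k : ℝ) + 1) - 2) ≠ 0 := by
      have : 0 < κ * ((k : ℝ) + 1) - 2 := by nlinarith
      exact this.ne'
    have h4 : coeff k D = -coeff (k + 1) P / (κ * (k + 1) - 2) := by
      rw [eq_div_iff n1, ← hD k]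
      ring
    have e4 : n + 1 - (k + 1) = n - k := by omega
    rw [h4, e4]
    ring
  rw [h3] at H2
  rw [H1]
  have : ∑ k ∈ range (n + 1), coeff (n + 1 - (k + 1)) c * coeff (k + 1) P / (κ * (k + 1) - 2)
      = -(ε * (n + 2 + 1).choose 3) := by linarith
  rw [this]
  linear_combination -(ε / 3) * hch

end

end Crest.Agent.R208.HH
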