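import Crest.Agent.R208.HHf

/-!
# (H1), (H2) with `P_M = (1 + e X²)^(m+1)`: the case `k = 2 mod 4`, `k ≥ 6` (any real `κ > 2/…`).
-/

namespace Crest.Agent.R208.HH

open Finset PowerSeries V2

noncomputable section

theorem sum_range_two (f : ℕ → ℝ) (s : ℕ) :
    ∑ k ∈ range (2 * s), f k = ∑ j ∈ range s, (f (2 * j) + f (2 * j + 1)) := by
  induction s with
  | zero => simp
  | succ s ih =>
    rw [show 2 * (s + 1) = 2 * s + 1 + 1 by ring, sum_range_succ, sum_range_succ, ih,
      sum_range_succ]
    ring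

theorem coeff_X_sq_mul' (f : PowerSeries ℝ) (n : ℕ) : coeff (n + 2) (X ^ 2 * f) = coeff n f := by
  rw [pow_two, mul_assoc, coeff_succ_X_mul, coeff_succ_X_mul]

theorem bn_natCast (k j : ℕ) : bn (k : ℝ) j = (k.choose j : ℝ) := by
  induction j with
  | zero => simp
  | succ j ih =>
    rw [bn_succ, ih]
    have h := Nat.choose_succ_right_eq k j
    have hj : ((j : ℝ) + 1) ≠ 0 := by positivity
    rcases le_or_gt j k with h1 | h1
    · have h2 : ((k.choose (j + 1) : ℕ) : ℝ) * ((j + 1 : ℕ) : ℝ)
          = (k.choose j : ℝ) * ((k - j : ℕ) : ℝ) := by exact_mod_cast h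
      rw [Nat.cast_sub h1] at h2
      rw [div_eq_iff hj]
      push_cast at h2
      linarith
    · rw [Nat.choose_eq_zero_of_lt h1, Nat.choose_eq_zero_of_lt (by omega)]
      simp

/-- coefficients of `(1 + e X²)^k`. -/
theorem coeff_pow_even (e : ℝ) (k : ℕ) : ∀ j : ℕ,
    coeff (2 * j) ((1 + C e * X ^ 2 : PowerSeries ℝ) ^ k) = bn (k : ℝ) j * e ^ j := by
  induction k with
  | zero =>
    intro j
    rw [pow_zero, coeff_one, bn_natCast]
    rcases j with _ | j
    · simp
    · rw [if_neg (by omega)]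
      simp
  | succ k ih =>
    intro j
    have h : (1 + C e * X ^ 2 : PowerSeries ℝ) ^ (k + 1)
        = (1 + C e * X ^ 2) ^ k + C e * (X ^ 2 * (1 + C e * X ^ 2) ^ k) := by ring
    rw [h, map_add, coeff_C_mul, ih]
    rcases j with _ | j
    · simp [pow_two, mul_assoc]
    · rw [show 2 * (j + 1) = 2 * j + 2 by ring, coeff_X_sq_mul', ih]
      have h2 := bn_pascal (k : ℝ) j
      push_cast
      rw [h2]
      ring

/-- **(H1) and (H2) are contradictory for `P_M = (1 + e X²)^(m+1)`, every `m ≥ 2`, `κ > 2`**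
(the case `k = 2 mod 4`, `k ≥ 6`, is `e = -1`, `κ = k`). -/
theorem main_two (m : ℕ) (hm : 2 ≤ m) (κ : ℝ) (hκ : 2 < κ) (e ε : ℝ) (he : e ≠ 0)
    (hε : ε ≠ 0) (c P D : PowerSeries ℝ) (hc0 : constantCoeff c = 1)
    (hc : c ^ 2 = (1 + C e * X ^ 2) ^ (m + 1))
    (hP : P * (1 + C e * X ^ 2) = C (2 * e * ((m : ℝ) + 1)) * X ^ 2)
    (hD : ∀ i : ℕ, (κ * (i + 1) - 2) * coeff i D = -coeff (i + 1) P)
    (H1 : coeff (m - 1) c = ε * (m + 1).choose 2)
    (H2 : coeff (m - 2) (c * D) = ε * (m + 1).choose 3) : False := by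
  have hch0 : ((m + 1).choose 2 : ℝ) ≠ 0 := by
    have : 0 < (m + 1).choose 2 := Nat.choose_pos (by omega)
    positivity
  rcases Nat.even_or_odd' m with ⟨r, hr | hr⟩
  · -- `m` even: `c` is even
    have h1 : rescale (-1) c = c := by
      refine eq_of_sq_eq ?_ ?_ ?_
      · rw [← coeff_zero_eq_constantCoeff_apply, coeff_rescale, pow_zero, one_mul,
          coeff_zero_eq_constantCoeff_apply, hc0]
      · exact hc0
      · have h := congrArg (rescale (-1)) hc
        simp only [map_mul, map_add, map_pow, map_one, rescale_X, rescale_C'] at h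
        rw [hc, h]
        congr 3
        rw [mul_pow, ← map_pow]
        norm_num
    have h2 := congrArg (coeff (m - 1)) h1
    rw [coeff_rescale, Odd.neg_one_pow (⟨r - 1, by omega⟩ : Odd (m - 1)), H1] at h2
    have h3 : ε * ((m + 1).choose 2 : ℝ) = 0 := by linarith
    rcases mul_eq_zero.1 h3 with h | h
    · exact hε h
    · exact hch0 h
  · -- `m = 2r+1`
    have hr1 : 1 ≤ r := by omega
    have hcc : c = (1 + C e * X ^ 2) ^ (r + 1) := by
      refine eq_of_sq_eq hc0 ?_ ?_
      · simp
      · rw [hc, hr, ← pow_mul]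
        congr 1
        ring
    have hPc : ∀ j : ℕ, coeff (2 * j + 1) P = 0 ∧ coeff (2 * j + 2) P
        = 2 * e * ((m : ℝ) + 1) * (-e) ^ j := by
      have hP' : P + C e * (X ^ 2 * P) = C (2 * e * ((m : ℝ) + 1)) * X ^ 2 := by
        rw [← hP]; ring
      intro j
      induction j with
      | zero =>
        have a0 : coeff 0 P = 0 := by
          have h := congrArg (coeff 0) hP'
          rw [map_add, coeff_C_mul, coeff_C_mul] at h
          simpa [pow_two, mul_assoc] using h
        constructor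
        · have h := congrArg (coeff 1) hP'
          rw [map_add, coeff_C_mul, coeff_C_mul, coeff_X_pow, if_neg (by norm_num)] at h
          have e1 : coeff 1 (X ^ 2 * P) = 0 := by
            rw [pow_two, mul_assoc]
            have := coeff_succ_X_mul 0 (X * P)
            rw [zero_add] at this
            rw [this, coeff_zero_X_mul]
          rw [e1] at h
          simpa using h
        · have h := congrArg (coeff (0 + 2)) hP'
          rw [map_add, coeff_C_mul, coeff_C_mul, coeff_X_pow, if_pos rfl, coeff_X_sq_mul', a0] at h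
          simpa using h
      | succ j ih =>
        constructor
        · have h := congrArg (coeff (2 * j + 1 + 2)) hP'
          rw [map_add, coeff_C_mul, coeff_C_mul, coeff_X_pow, if_neg (by omega), coeff_X_sq_mul',
            ih.1] at h
          have e1 : 2 * (j + 1) + 1 = 2 * j + 1 + 2 := by ring
          rw [e1]
          simpa using h
        · have h := congrArg (coeff (2 * j + 2 + 2)) hP'
          rw [map_add, coeff_C_mul, coeff_C_mul, coeff_X_pow, if_neg (by omega), coeff_X_sq_mul',
            ih.2] at h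
          have e1 : 2 * (j + 1) + 2 = 2 * j + 2 + 2 := by ring
          rw [e1, pow_succ]
          linarith
    -- `H2`
    have h3 : coeff (m - 2) (c * D) = -∑ k ∈ range (2 * r), coeff (2 * r - (k + 1)) c
        * coeff (k + 1) P / (κ * (k + 1) - 2) := by
      rw [coeff_mul, ← Finset.Nat.sum_antidiagonal_swap,
        Finset.Nat.sum_antidiagonal_eq_sum_range_succ_mk, ← sum_neg_distrib]
      have e0 : (m - 2).succ = 2 * r := by omega
      rw [e0]
      refine sum_congr rfl fun k _ => ?_
      simp only [Prod.swap_prod_mk]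
      have hk : (0 : ℝ) ≤ k := Nat.cast_nonneg k
      have n1 : (κ * ((k : ℝ) + 1) - 2) ≠ 0 := by
        have : 0 < κ * ((k : ℝ) + 1) - 2 := by nlinarith
        exact this.ne'
      have h4 : coeff k D = -coeff (k + 1) P / (κ * (k + 1) - 2) := by
        rw [eq_div_iff n1, ← hD k]
        ring
      have e4 : 2 * r - (k + 1) = m - 2 - k := by omega
      rw [h4, e4]
      ring
    rw [sum_range_two] at h3
    have h5 : ∑ j ∈ range r, (coeff (2 * r - (2 * j + 1)) c * coeff (2 * j + 1) P
          / (κ * ((2 * j : ℕ) + 1) - 2)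
        + coeff (2 * r - (2 * j + 1 + 1)) c * coeff (2 * j + 1 + 1) P
          / (κ * ((2 * j + 1 : ℕ) + 1) - 2))
        = e ^ r * ((m : ℝ) + 1) / κ * U 1 (-(1 / κ)) r := by
      unfold U
      rw [mul_sum]
      refine sum_congr rfl fun j hj => ?_
      have hj' : j < r := mem_range.1 hj
      have e6 : 2 * r - (2 * j + 1 + 1) = 2 * (r - (j + 1)) := by omega
      have e7 : e ^ r = e ^ (r - (j + 1)) * e ^ (j + 1) := by
        rw [← pow_add]; congr 1; omega
      rw [(hPc j).1, show 2 * j + 1 + 1 = 2 * j + 2 from rfl, (hPc j).2,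
        show 2 * r - (2 * j + 2) = 2 * (r - (j + 1)) by omega, hcc, coeff_pow_even, e7]
      have e8 : ((r + 1 : ℕ) : ℝ) = 1 + r := by push_cast; ring
      rw [e8]
      have hj0 : (0 : ℝ) ≤ j := Nat.cast_nonneg j
      have hκ0 : κ ≠ 0 := by linarith
      have n2 : κ * ((j : ℝ) + 1) - 1 ≠ 0 := by
        have : 0 < κ * ((j : ℝ) + 1) - 1 := by nlinarith
        exact this.ne'
      have e9 : (j : ℝ) + 1 + -(1 / κ) = (κ * ((j : ℝ) + 1) - 1) / κ := by
        field_simp
        ring
      have e10 : κ * (((2 * j + 1 : ℕ) : ℝ) + 1) - 2 = 2 * (κ * ((j : ℝ) + 1) - 1) := by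
        push_cast
        ring
      have e11 : (-e) ^ j = (-1) ^ j * e ^ j := by rw [neg_pow]
      rw [e9, e10, e11, pow_succ]
      field_simp
      ring
    rw [h5] at h3
    have hch : 3 * (((m + 1).choose 3 : ℕ) : ℝ) = (2 * r : ℝ) * ((m + 1).choose 2 : ℕ) := by
      have h := Nat.choose_succ_right_eq (m + 1) 2
      have e3 : m + 1 - 2 = 2 * r := by omega
      rw [e3] at h
      have h2 : ((m + 1).choose 3 : ℝ) * 3 = (m + 1).choose 2 * (2 * r : ℕ) := by
        exact_mod_cast h
      push_cast at h2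
      linarith
    have hcn : coeff (m - 1) c = (r + 1) * e ^ r := by
      rw [show m - 1 = 2 * r by omega, hcc, coeff_pow_even, bn_natCast,
        Nat.choose_succ_self_right]
      push_cast
      ring
    have h6 : ε * ((m + 1).choose 3 : ℝ) = -(e ^ r * ((m : ℝ) + 1) / κ * U 1 (-(1 / κ)) r) := by
      rw [← H2, h3]
    have h7 : ε * ((m + 1).choose 2 : ℝ) = (r + 1) * e ^ r := by rw [← H1, hcn]
    have hU : 0 ≤ U 1 (-(1 / κ)) r := by
      refine U_nonneg (by norm_num) ?_ r
      have : 1 / κ < 1 := by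
        rw [div_lt_one (by linarith)]
        linarith
      linarith
    have h8 : e ^ r * ((2 * r : ℝ) * (r + 1) + 3 * (((m : ℝ) + 1) / κ * U 1 (-(1 / κ)) r)) = 0 := by
      have : e ^ r * (3 * (((m : ℝ) + 1) / κ * U 1 (-(1 / κ)) r))
          = -(3 * (ε * ((m + 1).choose 3 : ℝ))) := by
        rw [h6]; ring
      rw [mul_add, this]
      have h9 : 3 * (ε * ((m + 1).choose 3 : ℝ)) = ε * (3 * ((m + 1).choose 3 : ℝ)) := by ring
      rw [h9, hch]
      linear_combination -(2 * (r : ℝ)) * h7
    have h10 : (0 : ℝ) < (2 * r : ℝ) * (r + 1) + 3 * (((m : ℝ) + 1) / κ * U 1 (-(1 / κ)) r) := by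
      have hr' : (1 : ℝ) ≤ r := by exact_mod_cast hr1
      have : 0 < κ := by linarith
      positivity
    rcases mul_eq_zero.1 h8 with h | h
    · exact pow_ne_zero _ he h
    · exact h10.ne' h

end

end Crest.Agent.R208.HH
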