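import Crest.Agent.R208.TU6
import Crest.Agent.R208.EX10

/-!
Row 208, block TU (helper10), part TU7: the rounded loops over `N4 h` as families of loops; the cut
off function on `N4 h` (zero near the diagonal, one off the tube).
-/

set_option autoImplicit false
set_option linter.unusedSectionVars false
set_option linter.unusedVariables false

open Set Filter Topology MeasureTheory Module
open scoped ContDiff RealInnerProductSpace Interval
open Crest.GeometryTopology.Submanifold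
open Crest.Agent.R241.DDefs
open Crest.Agent.R241.D2
open Crest.Agent.R241.D3c
open Crest.Agent.R208.NN (V0 qq Wt nuP)
open Crest.Agent.R208.FI (Tan Sub Clo PField Tot)
open Crest.Agent.R208.KG (OK N2 N3 N4 nest4 nest2 idx)
open Crest.Agent.R208.AK (HC PP PP_eq Lall LP LA uN zan mkZ cP nrm norm_nrm nrm_self contDiffAt_nrm
  norm_sq_add add_ne_zero' kap V0_inner)

noncomputable section

namespace Crest.Agent.R208.TU

variable {n N k : ℕ} {κ : ℝ} {S : Set (Euc N)} {G : Geo n N κ S} {ε : ℝ}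

/-! ### the loops -/

/-- the rounded loops over `N4 h` (period `2π`) -/
def FK (G : Geo n N κ S) (ε τ : ℝ) (z : (((Euc N × Euc N) × Euc N) × Euc N) × Euc N) (t : ℝ) :
    Euc N := KG.F G 4 ε (nest4 z) τ t

/-- the rounded loops over `N2 h` -/
def FK2 (G : Geo n N κ S) (ε τ : ℝ) (z : (Euc N × Euc N) × Euc N) (t : ℝ) : Euc N :=
  KG.F G 2 ε (nest2 z) τ t

theorem lf_N4 (hO : OK G 4 ε) (h : GT.Bla G k) {τ : ℝ} (hτ : τ ∈ Icc (0 : ℝ) 1) :
    EX.LF S (N4 h) (FK G ε τ) where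
  smooth z hz t := by
    have h1 : ContDiffAt ℝ ∞ (fun q : ((((Euc N × Euc N) × Euc N) × Euc N) × Euc N) × ℝ =>
        (nest4 q.1, τ, q.2)) (z, t) :=
      (KG.contDiff_nest4.contDiffAt.comp (z, t) contDiffAt_fst).prodMk
        (contDiffAt_const.prodMk contDiffAt_snd)
    exact ContDiffAt.comp (g := fun q : (Euc N × (Fin 4 → Euc N)) × ℝ × ℝ =>
      KG.F G 4 ε q.1 q.2.1 q.2.2) (z, t) (KG.F_smooth hO (KG.nest4_mem h hz) hτ t) h1
  per z _ t := KG.F_per t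
  mem z hz t := KG.F_mem hO (KG.nest4_mem h hz) hτ t

theorem lf_N2 (hO : OK G 2 ε) (h : GT.Bla G k) {τ : ℝ} (hτ : τ ∈ Icc (0 : ℝ) 1) :
    EX.LF S (N2 h) (FK2 G ε τ) where
  smooth z hz t := by
    have h1 : ContDiffAt ℝ ∞ (fun q : ((Euc N × Euc N) × Euc N) × ℝ =>
        (nest2 q.1, τ, q.2)) (z, t) :=
      (KG.contDiff_nest2.contDiffAt.comp (z, t) contDiffAt_fst).prodMk
        (contDiffAt_const.prodMk contDiffAt_snd)
    exact ContDiffAt.comp (g := fun q : (Euc N × (Fin 2 → Euc N)) × ℝ × ℝ =>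
      KG.F G 2 ε q.1 q.2.1 q.2.2) (z, t) (KG.F_smooth hO (KG.nest2_mem h hz) hτ t) h1
  per z _ t := KG.F_per t
  mem z hz t := KG.F_mem hO (KG.nest2_mem h hz) hτ t

lemma st_mem (τ : ℝ) : Real.smoothTransition τ ∈ Icc (0 : ℝ) 1 :=
  ⟨Real.smoothTransition.nonneg τ, Real.smoothTransition.le_one τ⟩

/-- the deformation to the flat family -/
theorem lf_N4_hom (hO : OK G 4 ε) (h : GT.Bla G k) :
    EX.LF S (N4 h ×ˢ (univ : Set ℝ)) (fun q => FK G ε (Real.smoothTransition q.2) q.1) where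
  smooth z hz t := by
    have h0 : ContDiffAt ℝ ∞ (fun q : (((((Euc N × Euc N) × Euc N) × Euc N) × Euc N) × ℝ) × ℝ =>
        Real.smoothTransition q.1.2) (z, t) :=
      ContDiffAt.comp (g := Real.smoothTransition) (z, t)
        Real.smoothTransition.contDiff.contDiffAt (by fun_prop)
    have h1 : ContDiffAt ℝ ∞ (fun q : (((((Euc N × Euc N) × Euc N) × Euc N) × Euc N) × ℝ) × ℝ =>
        (nest4 q.1.1, Real.smoothTransition q.1.2, q.2)) (z, t) :=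
      (ContDiffAt.comp (g := nest4) (z, t) KG.contDiff_nest4.contDiffAt (by fun_prop)).prodMk
        (h0.prodMk contDiffAt_snd)
    exact ContDiffAt.comp (g := fun q : (Euc N × (Fin 4 → Euc N)) × ℝ × ℝ =>
      KG.F G 4 ε q.1 q.2.1 q.2.2) (z, t)
      (KG.F_smooth hO (KG.nest4_mem h hz.1) (st_mem z.2) t) h1
  per z _ t := KG.F_per t
  mem z hz t := KG.F_mem hO (KG.nest4_mem h hz.1) (st_mem z.2) t

/-- the deformation to the flat family, two arcs -/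
theorem lf_N2_hom (hO : OK G 2 ε) (h : GT.Bla G k) :
    EX.LF S (N2 h ×ˢ (univ : Set ℝ)) (fun q => FK2 G ε (Real.smoothTransition q.2) q.1) where
  smooth z hz t := by
    have h0 : ContDiffAt ℝ ∞ (fun q : (((Euc N × Euc N) × Euc N) × ℝ) × ℝ =>
        Real.smoothTransition q.1.2) (z, t) :=
      ContDiffAt.comp (g := Real.smoothTransition) (z, t)
        Real.smoothTransition.contDiff.contDiffAt (by fun_prop)
    have h1 : ContDiffAt ℝ ∞ (fun q : (((Euc N × Euc N) × Euc N) × ℝ) × ℝ =>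
        (nest2 q.1.1, Real.smoothTransition q.1.2, q.2)) (z, t) :=
      (ContDiffAt.comp (g := nest2) (z, t) KG.contDiff_nest2.contDiffAt (by fun_prop)).prodMk
        (h0.prodMk contDiffAt_snd)
    exact ContDiffAt.comp (g := fun q : (Euc N × (Fin 2 → Euc N)) × ℝ × ℝ =>
      KG.F G 2 ε q.1 q.2.1 q.2.2) (z, t)
      (KG.F_smooth hO (KG.nest2_mem h hz.1) (st_mem z.2) t) h1
  per z _ t := KG.F_per t
  mem z hz t := KG.F_mem hO (KG.nest2_mem h hz.1) (st_mem z.2) t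

/-! ### the distance from the diagonal -/

/-- `Σ ‖v_i - v_0‖²` -/
def ssq (z : (((Euc N × Euc N) × Euc N) × Euc N) × Euc N) : ℝ :=
  ∑ i, ‖(nest4 z).2 i - (nest4 z).2 0‖ ^ 2

theorem contDiff_ssq : ContDiff ℝ ∞
    (ssq : (((Euc N × Euc N) × Euc N) × Euc N) × Euc N → ℝ) := by
  unfold ssq
  refine ContDiff.sum fun i _ => ?_
  have h1 : ∀ i, ContDiff ℝ ∞
      (fun z : (((Euc N × Euc N) × Euc N) × Euc N) × Euc N => (nest4 z).2 i) := fun i =>
    contDiff_pi.1 (contDiff_snd.comp KG.contDiff_nest4) i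
  exact (contDiff_norm_sq ℝ).comp ((h1 i).sub (h1 0))

lemma ssq_nonneg (z : (((Euc N × Euc N) × Euc N) × Euc N) × Euc N) : 0 ≤ ssq z :=
  Finset.sum_nonneg fun _ _ => sq_nonneg _

/-- `‖nrm (v + u) - v‖ ≤ ‖u‖` -/
lemma norm_nrm_sub_sq {v u : Euc N} (hv : ‖v‖ = 1) (hu : ⟪u, v⟫ = 0) :
    ‖nrm (v + u) - v‖ ^ 2 ≤ ‖u‖ ^ 2 := by
  have hne := add_ne_zero' hv hu
  have h1 := inner_eq hv (norm_nrm hne)
  rw [inner_nrm hv hu] at h1
  have h2 := norm_sq_add hv hu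
  set q := ‖v + u‖ with hq
  have hq0 : 0 < q := norm_pos_iff.2 hne
  have h3 : ‖nrm (v + u) - v‖ ^ 2 = 2 - 2 * q⁻¹ := by linarith
  have h4 : ‖u‖ ^ 2 = q ^ 2 - 1 := by linarith
  rw [h3, h4]
  have h5 : (q ^ 2 - 1) - (2 - 2 * q⁻¹) = (q - 1) ^ 2 * (q + 2) * q⁻¹ := by
    field_simp; ring
  have h6 : 0 ≤ (q - 1) ^ 2 * (q + 2) * q⁻¹ := by positivity
  linarith

variable {H₁ H₂ : Type*} [NormedAddCommGroup H₁] [InnerProductSpace ℝ H₁] [FiniteDimensional ℝ H₁]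
  [NormedAddCommGroup H₂] [InnerProductSpace ℝ H₂] [FiniteDimensional ℝ H₂]
  {P₁ : Euc N × Euc N → H₁ →L[ℝ] H₁} {P₂ : Euc N × Euc N → H₂ →L[ℝ] H₂}
  {h : GT.Bla G k} {Lz : Euc N × Euc N → (H₂ × H₁) →L[ℝ] (Fin 4 → Euc N)}
  {L2 : Euc N × Euc N → H₁ →L[ℝ] (Fin 2 → Euc N)} {r₁ r₂ : ℕ}

theorem LinK.ssq_le (hL : LinK h P₂ P₁ Lz) {x : ((Euc N × Euc N) × H₂) × H₁}
    (hx : x ∈ TP.TT (L.US G) P₂ P₁) :
    ssq (Psi Lz x) ≤ 4 * ‖Lz x.1.1 (x.1.2, x.2)‖ ^ 2 := by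
  have hz := (mem_TT.1 hx).1
  have key : ∀ i, ‖(nest4 (Psi Lz x)).2 i - (nest4 (Psi Lz x)).2 0‖ ^ 2 ≤
      ‖Lz x.1.1 (x.1.2, x.2)‖ ^ 2 := by
    intro i
    have e0 : (nest4 (Psi Lz x)).2 0 = x.1.1.2 := rfl
    have ei : (nest4 (Psi Lz x)).2 i = nrm (x.1.1.2 + Lz x.1.1 (x.1.2, x.2) i) := by
      rw [hL.nest4_Psi hx]; rfl
    rw [e0, ei]
    refine (norm_nrm_sub_sq hz.2 (V0_inner (hL.Li_mem hx i))).trans ?_
    exact pow_le_pow_left₀ (norm_nonneg _) (norm_le_pi_norm _ i) 2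
  unfold ssq
  refine (Finset.sum_le_sum fun i _ => key i).trans ?_
  simp

theorem LinK.exists_opbound (hS : IsCompact S) (hL : LinK h P₂ P₁ Lz) :
    ∃ M : ℝ, 0 < M ∧ ∀ z ∈ L.US G, ‖Lz z‖ ≤ M := by
  obtain ⟨M, hM⟩ := (LB.isCompact_US (G := G) hS).exists_bound_of_continuousOn
    (f := Lz) (fun x hx => (hL.smooth x hx).continuousAt.continuousWithinAt)
  exact ⟨max M 1, lt_max_of_lt_right one_pos, fun z hz => (hM z hz).trans (le_max_left _ _)⟩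

/-- **the cut off** on `N4 h` -/
theorem LinK.exists_cut (hS : IsCompact S) (hL : LinK h P₂ P₁ Lz) (hP₂ : PField (L.US G) r₂ P₂)
    (hP₁ : PField (L.US G) r₁ P₁) (hr : r₁ + r₂ + 3 = 3 * k) {ρ : ℝ} (hρ : 0 < ρ) :
    ∃ (c : (((Euc N × Euc N) × Euc N) × Euc N) × Euc N → ℝ) (ρ' b : ℝ), 0 < ρ' ∧ ρ' < ρ ∧ 0 < b ∧
      ContDiff ℝ ∞ c ∧ (∀ z, 0 ≤ c z) ∧ (∀ z, c z ≤ 1) ∧
      (∀ z ∈ N4 h, c z < 1 → ∃ x ∈ TP.TT (L.US G) P₂ P₁, ‖x.1.2‖ < ρ ∧ ‖x.2‖ < ρ ∧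
        Psi Lz x = z) ∧
      (∀ x ∈ TP.TT (L.US G) P₂ P₁, ‖x.1.2‖ < ρ' → ‖x.2‖ < ρ' → c (Psi Lz x) = 0) ∧
      (∀ z, 0 < c z → ∃ i, b < ‖(nest4 z).2 i - (nest4 z).2 0‖ ^ 2) := by
  obtain ⟨c₁, hc₁, hgap⟩ := hL.gap_sum hS hP₂ hP₁ hr hρ
  obtain ⟨M, hM, hMb⟩ := hL.exists_opbound hS
  set ρ' := min (ρ / 2) (Real.sqrt (c₁ / 16) / M) with hρ'
  have hs0 : 0 < Real.sqrt (c₁ / 16) := Real.sqrt_pos.2 (by positivity)
  have hρ'0 : 0 < ρ' := lt_min (by positivity) (by positivity)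
  refine ⟨fun z => Real.smoothTransition (4 * ssq z / c₁ - 1), ρ', c₁ / 16, hρ'0,
    (min_le_left _ _).trans_lt (by linarith), by positivity, ?_, fun z => (st_mem _).1,
    fun z => (st_mem _).2, fun z hz hc => ?_, fun x hx h2 h1 => ?_, fun z hc => ?_⟩
  · exact Real.smoothTransition.contDiff.comp
      (((contDiff_const.mul contDiff_ssq).div_const c₁).sub contDiff_const)
  · refine hgap z hz ?_
    by_contra hcon
    push Not at hcon
    have h1 : 1 ≤ 4 * ssq z / c₁ - 1 := by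
      have : 2 ≤ 4 * ssq z / c₁ := by
        rw [le_div_iff₀ hc₁]
        change c₁ ≤ ssq z at hcon
        linarith
      linarith
    have h2 : Real.smoothTransition (4 * ssq z / c₁ - 1) < 1 := hc
    rw [Real.smoothTransition.one_of_one_le h1] at h2
    exact lt_irrefl _ h2
  · have hz := (mem_TT.1 hx).1
    refine Real.smoothTransition.zero_of_nonpos ?_
    have e1 : ‖((x.1.2, x.2) : H₂ × H₁)‖ ≤ ρ' := by
      rw [Prod.norm_def]
      exact max_le h2.le h1.le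
    have e2 : ‖Lz x.1.1 (x.1.2, x.2)‖ ≤ Real.sqrt (c₁ / 16) := by
      refine (ContinuousLinearMap.le_opNorm _ _).trans ?_
      calc ‖Lz x.1.1‖ * ‖((x.1.2, x.2) : H₂ × H₁)‖ ≤ M * (Real.sqrt (c₁ / 16) / M) := by
            refine mul_le_mul (hMb _ hz) (e1.trans (min_le_right _ _)) (norm_nonneg _) hM.le
        _ = Real.sqrt (c₁ / 16) := by field_simp
    have e3 : ‖Lz x.1.1 (x.1.2, x.2)‖ ^ 2 ≤ c₁ / 16 := by
      have := pow_le_pow_left₀ (norm_nonneg _) e2 2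
      rwa [Real.sq_sqrt (by positivity)] at this
    have e4 := hL.ssq_le hx
    have e5 : 4 * ssq (Psi Lz x) / c₁ ≤ 1 := by
      rw [div_le_one hc₁]
      linarith
    linarith
  · by_contra hcon
    push Not at hcon
    have h1 : ssq z ≤ c₁ / 4 := by
      unfold ssq
      refine (Finset.sum_le_sum fun i _ => hcon i).trans ?_
      simp
      linarith
    have h2 : 4 * ssq z / c₁ - 1 ≤ 0 := by
      have : 4 * ssq z / c₁ ≤ 1 := by
        rw [div_le_one hc₁]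
        linarith
      linarith
    have h3 : Real.smoothTransition (4 * ssq z / c₁ - 1) = 0 :=
      Real.smoothTransition.zero_of_nonpos h2
    have h4 : (0 : ℝ) < Real.smoothTransition (4 * ssq z / c₁ - 1) := hc
    rw [h3] at h4
    exact lt_irrefl _ h4

/-- **the cut off** on `N2 h` -/
theorem LinK2.exists_cut (hS : IsCompact S) (hL : LinK2 h P₁ L2)
    (hP₁ : PField (L.US G) r₁ P₁) (hr : r₁ + 1 = k) {ρ : ℝ} (hρ : 0 < ρ) :
    ∃ (c : (Euc N × Euc N) × Euc N → ℝ) (ρ' b : ℝ), 0 < ρ' ∧ ρ' < ρ ∧ 0 < b ∧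
      ContDiff ℝ ∞ c ∧ (∀ z, 0 ≤ c z) ∧ (∀ z, c z ≤ 1) ∧
      (∀ z ∈ N2 h, c z < 1 → ∃ x ∈ Tot (L.US G) P₁, ‖x.2‖ < ρ ∧ Psi2 L2 x = z) ∧
      (∀ x ∈ Tot (L.US G) P₁, ‖x.2‖ < ρ' → c (Psi2 L2 x) = 0) ∧
      (∀ z, 0 < c z → b < ‖z.2 - z.1.2‖ ^ 2) := by
  obtain ⟨c₁, hc₁, hgap⟩ := hL.gap hS hP₁ hr hρ
  obtain ⟨M', hM'⟩ := (LB.isCompact_US (G := G) hS).exists_bound_of_continuousOn
    (f := L2) (fun x hx => (hL.smooth x hx).continuousAt.continuousWithinAt)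
  set M := max M' 1 with hMd
  have hM : 0 < M := lt_max_of_lt_right one_pos
  have hMb : ∀ z ∈ L.US G, ‖L2 z‖ ≤ M := fun z hz => (hM' z hz).trans (le_max_left _ _)
  set ρ' := min (ρ / 2) (Real.sqrt (c₁ / 4) / M) with hρ'
  have hs0 : 0 < Real.sqrt (c₁ / 4) := Real.sqrt_pos.2 (by positivity)
  have hρ'0 : 0 < ρ' := lt_min (by positivity) (by positivity)
  refine ⟨fun z => Real.smoothTransition (4 * ‖z.2 - z.1.2‖ ^ 2 / c₁ - 1), ρ', c₁ / 4, hρ'0,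
    (min_le_left _ _).trans_lt (by linarith), by positivity, ?_, fun z => (st_mem _).1,
    fun z => (st_mem _).2, fun z hz hc => ?_, fun x hx h1 => ?_, fun z hc => ?_⟩
  · have h1 : ContDiff ℝ ∞ (fun z : (Euc N × Euc N) × Euc N => ‖z.2 - z.1.2‖ ^ 2) :=
      (contDiff_norm_sq ℝ).comp (by fun_prop)
    exact Real.smoothTransition.contDiff.comp
      (((contDiff_const.mul h1).div_const c₁).sub contDiff_const)
  · refine hgap z hz ?_
    by_contra hcon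
    push Not at hcon
    have h1 : 1 ≤ 4 * ‖z.2 - z.1.2‖ ^ 2 / c₁ - 1 := by
      have : 2 ≤ 4 * ‖z.2 - z.1.2‖ ^ 2 / c₁ := by
        rw [le_div_iff₀ hc₁]
        linarith
      linarith
    have h2 : Real.smoothTransition (4 * ‖z.2 - z.1.2‖ ^ 2 / c₁ - 1) < 1 := hc
    rw [Real.smoothTransition.one_of_one_le h1] at h2
    exact lt_irrefl _ h2
  · have hz : x.1 ∈ L.US G := hx.1
    refine Real.smoothTransition.zero_of_nonpos ?_
    have e2 : ‖L2 x.1 x.2‖ ≤ Real.sqrt (c₁ / 4) := by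
      refine (ContinuousLinearMap.le_opNorm _ _).trans ?_
      calc ‖L2 x.1‖ * ‖x.2‖ ≤ M * (Real.sqrt (c₁ / 4) / M) := by
            refine mul_le_mul (hMb _ hz) (h1.le.trans (min_le_right _ _)) (norm_nonneg _) hM.le
        _ = Real.sqrt (c₁ / 4) := by field_simp
    have e3 : ‖L2 x.1 x.2‖ ^ 2 ≤ c₁ / 4 := by
      have := pow_le_pow_left₀ (norm_nonneg _) e2 2
      rwa [Real.sq_sqrt (by positivity)] at this
    have e4 : ‖(Psi2 L2 x).2 - (Psi2 L2 x).1.2‖ ^ 2 ≤ ‖L2 x.1 x.2‖ ^ 2 := by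
      refine (norm_nrm_sub_sq hz.2 (V0_inner (hL.L_mem hx 1))).trans ?_
      exact pow_le_pow_left₀ (norm_nonneg _) (norm_le_pi_norm _ 1) 2
    have e5 : 4 * ‖(Psi2 L2 x).2 - (Psi2 L2 x).1.2‖ ^ 2 / c₁ ≤ 1 := by
      rw [div_le_one hc₁]
      linarith
    linarith
  · by_contra hcon
    push Not at hcon
    have h2 : 4 * ‖z.2 - z.1.2‖ ^ 2 / c₁ - 1 ≤ 0 := by
      have : 4 * ‖z.2 - z.1.2‖ ^ 2 / c₁ ≤ 1 := by
        rw [div_le_one hc₁]
        linarith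
      linarith
    have h3 : Real.smoothTransition (4 * ‖z.2 - z.1.2‖ ^ 2 / c₁ - 1) = 0 :=
      Real.smoothTransition.zero_of_nonpos h2
    have h4 : (0 : ℝ) < Real.smoothTransition (4 * ‖z.2 - z.1.2‖ ^ 2 / c₁ - 1) := hc
    rw [h3] at h4
    exact lt_irrefl _ h4

end Crest.Agent.R208.TU
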