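import Crest.Agent.R208.NW7
import Crest.Agent.R208.FT7
import Crest.Agent.R208.TU7

/-! Row 208, block HJ (helper537), part HJ1: **AK14**: the junction of helper952 over the total
space of `P₂ ⊕ N`, in phase time, as a smooth family of loops over `(TT ∩ D_r) × ℝ`. -/

set_option autoImplicit false
set_option linter.unusedSectionVars false
set_option linter.unusedVariables false

open MeasureTheory Set Filter Topology Module
open scoped ContDiff RealInnerProductSpace Real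
open Crest.GeometryTopology.Submanifold
open Crest.Agent.R241.DDefs
open Crest.Agent.R241.D2
open Crest.Agent.R208.NN (Wt nuP V0 qf Rt fd)
open Crest.Agent.R208.KG (idx gT OK Km nest4 N4)
open Crest.Agent.R208.SV (ix ixd jf jf')
open Crest.Agent.R208.DD (pl pr norm_sq_eq NN_eq_self_iff)

noncomputable section

namespace Crest.Agent.R208.HJ

variable {n N k K : ℕ} {κ : ℝ} {S : Set (Euc N)} {G : Geo n N κ S} {z : Euc N × Euc N}
  {δ : ℝ} {PN : Euc N × Euc N → Wt N K →L[ℝ] Wt N K}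

/-- the two halves -/
def jW (N K : ℕ) : FT.W2 N K →L[ℝ] Wt N K × Wt N K :=
  (pl : FT.W2 N K →L[ℝ] Wt N K).prod pr

theorem jW_mem {ν : FT.W2 N K} (hν : DD.NN PN z ν = ν) : AK.PP PN PN z (jW N K ν) = jW N K ν :=
  AK.PP_eq.2 (NN_eq_self_iff.1 hν)

theorem jW_ge (ν : FT.W2 N K) : (1 / 2 : ℝ) * ‖ν‖ ^ 2 ≤ ‖jW N K ν‖ ^ 2 := by
  rw [norm_sq_eq]
  have h1 : ‖(pl : FT.W2 N K →L[ℝ] Wt N K) ν‖ ≤ ‖jW N K ν‖ := norm_fst_le (jW N K ν)
  have h2 : ‖(pr : FT.W2 N K →L[ℝ] Wt N K) ν‖ ≤ ‖jW N K ν‖ := norm_snd_le (jW N K ν)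
  have h3 := pow_le_pow_left₀ (norm_nonneg _) h1 2
  have h4 := pow_le_pow_left₀ (norm_nonneg _) h2 2
  linarith

/-- the discs -/
def Dr (N K : ℕ) (r : ℝ) : Set (((Euc N × Euc N) × FT.W2 N K) × Wt N K) :=
  {x | ‖x.1.2‖ < r ∧ ‖x.2‖ < r}

theorem isOpen_Dr (r : ℝ) : IsOpen (Dr N K r) := by
  have h1 : Continuous fun x : ((Euc N × Euc N) × FT.W2 N K) × Wt N K => ‖x.1.2‖ := by fun_prop
  have h2 : Continuous fun x : ((Euc N × Euc N) × FT.W2 N K) × Wt N K => ‖x.2‖ := by fun_prop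
  exact (isOpen_lt h1 continuous_const).inter (isOpen_lt h2 continuous_const)

/-- the retraction on a neighbourhood of `S` -/
theorem exists_nhd {ρ : Euc N → Euc N} {r' Kr : ℝ} (hR : MS.Retr S ρ r' Kr) :
    ∃ O : Set (Euc N), IsOpen O ∧ S ⊆ O ∧ ContDiffOn ℝ ∞ ρ O ∧ MapsTo ρ O S := by
  refine ⟨⋃ x ∈ S, Metric.ball x r', isOpen_biUnion fun _ _ => Metric.isOpen_ball, ?_, ?_, ?_⟩
  · intro x hx
    exact mem_biUnion hx (Metric.mem_ball_self hR.r_pos)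
  · intro q hq
    simp only [mem_iUnion, Metric.mem_ball, exists_prop] at hq
    obtain ⟨x, hx, hq⟩ := hq
    exact (hR.smooth x hx q (by rwa [← dist_eq_norm])).contDiffWithinAt
  · intro q hq
    simp only [mem_iUnion, Metric.mem_ball, exists_prop] at hq
    obtain ⟨x, hx, hq⟩ := hq
    exact hR.mem x hx q (by rwa [← dist_eq_norm])

/-- the chain map of the tube -/
abbrev LJ (h : GT.Bla G k) (εg δ : ℝ) (PN : Euc N × Euc N → Wt N K →L[ℝ] Wt N K) :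
    Euc N × Euc N → (FT.W2 N K × Wt N K) →L[ℝ] (Fin 4 → Euc N) :=
  AK.rem (AK.Lall h εg δ PN (jW N K))

theorem linK_LJ {εg c : ℝ} (hO : OK G 4 εg) (h : GT.Bla G k) (hk : 1 ≤ k)
    (H : NB.NegB G (k - 1) (nuP K) δ PN) (hc0 : 0 < c) (hc : AK.HC G εg c) :
    TU.LinK h (DD.NN PN) PN (LJ h εg δ PN) :=
  TU.linK_rem' hO.cpt hO h hk H hc0 hc (fun z hz ν hν => jW_mem hν) (cj := 1 / 2) (by norm_num)
    fun z hz ν hν => jW_ge ν

/-- the junction family -/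
def fJ (Hm : (((Euc N × Euc N) × ℝ) × (FT.W2 N K × Wt N K)) × ℝ → Euc N)
    (q : (((Euc N × Euc N) × FT.W2 N K) × Wt N K) × ℝ) (t : ℝ) : Euc N :=
  Hm (((q.1.1.1, Real.smoothTransition q.2), (q.1.1.2, q.1.2)), 2 * t)

/-- **AK14**: the junction over the tube -/
theorem exists_fJ {εg c : ℝ} (hO : OK G 4 εg) (h : GT.Bla G k) (hk : 1 ≤ k)
    (H : NB.NegB G (k - 1) (nuP K) δ PN) (hc0 : 0 < c) (hc : AK.HC G εg c)
    {ρ : Euc N → Euc N} {r' Kr : ℝ} (hR : MS.Retr S ρ r' Kr) {ε ε₂ : ℝ} (hε : 0 < ε)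
    (hε₂ : 0 < ε₂) :
    ∃ (f : (((Euc N × Euc N) × FT.W2 N K) × Wt N K) × ℝ → ℝ → Euc N) (r δf : ℝ),
      0 < r ∧ r ≤ 1 / 2 ∧ 0 < δf ∧
      EX.LF S ((TP.TT (L.US G) (DD.NN PN) PN ∩ Dr N K r) ×ˢ (univ : Set ℝ)) f ∧
      (∀ x ∈ TP.TT (L.US G) (DD.NN PN) PN ∩ Dr N K r, ∀ τ ≤ (0:ℝ), ∀ t,
        f (x, τ) t = TU.FK G εg 0 (TU.Psi (LJ h εg δ PN) x) t) ∧
      (∀ x ∈ TP.TT (L.US G) (DD.NN PN) PN ∩ Dr N K r, ∀ τ, (1:ℝ) ≤ τ → ∀ t,
        f (x, τ) t = ρ ((fl G (x.1.1, 2 * t)).1 +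
          (ε₂ • FT.xf G (FT.RN N K) (FT.xiN h PN) x.1.1 x.1.2 (2 * t) +
            ε • fd G x.1.1 (nuP K) x.2 (2 * t)))) ∧
      ∀ x ∈ TP.TT (L.US G) (DD.NN PN) PN ∩ Dr N K r, ∀ τ,
        MS.En (f (x, τ)) ≤ 4 * π - 2 * δf * ‖((x.1.2, x.2) : FT.W2 N K × Wt N K)‖ ^ 2 := by
  obtain ⟨O, hOo, hSO, hRO, hRm⟩ := exists_nhd hR
  obtain ⟨Hm, r₀, δf, hr₀, hδf, hLF, hm0, hm1, hen⟩ := NW.exists_junction (P₂ := DD.NN PN)
    (j := jW N K) hO.cpt hO h hk H hc0 hc (fun z hz ν hν => jW_mem hν) (cj := 1 / 2) (by norm_num)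
    (fun z hz ν hν => jW_ge ν) hε hε₂ hOo hSO hRO hRm hR.eq
  have hP := KR.NegB.of_NB h H
  set r := min r₀ (1 / 2) with hr
  have hrp : 0 < r := lt_min hr₀ (by norm_num)
  have hmem : ∀ x ∈ TP.TT (L.US G) (DD.NN PN) PN ∩ Dr N K r, x.1.1 ∈ L.US G ∧
      AK.PP (DD.NN PN) PN x.1.1 (x.1.2, x.2) = (x.1.2, x.2) ∧ ‖(x.1.2, x.2)‖ < r₀ := by
    rintro x ⟨hx, hxr⟩
    rw [TU.mem_TT] at hx
    refine ⟨hx.1, AK.PP_eq.2 hx.2, ?_⟩
    rw [Prod.norm_def]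
    exact lt_of_lt_of_le (max_lt hxr.1 hxr.2) (min_le_left _ _)
  have hst : ∀ τ : ℝ, Real.smoothTransition τ ∈ Icc (0:ℝ) 1 := fun τ =>
    ⟨Real.smoothTransition.nonneg τ, Real.smoothTransition.le_one τ⟩
  refine ⟨fJ Hm, r, δf, hrp, min_le_right _ _, hδf, ⟨?_, ?_, ?_⟩, ?_, ?_, ?_⟩
  · rintro ⟨x, τ⟩ ⟨hx, -⟩ t
    obtain ⟨h1, h2, h3⟩ := hmem x hx
    have k1 : ContDiffAt ℝ ∞
        (fun q : ((((Euc N × Euc N) × FT.W2 N K) × Wt N K) × ℝ) × ℝ =>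
          Real.smoothTransition q.1.2) ((x, τ), t) :=
      ContDiffAt.comp (g := Real.smoothTransition) ((x, τ), t)
        Real.smoothTransition.contDiff.contDiffAt (by fun_prop)
    have k2 : ContDiffAt ℝ ∞
        (fun q : ((((Euc N × Euc N) × FT.W2 N K) × Wt N K) × ℝ) × ℝ =>
          (((q.1.1.1.1, Real.smoothTransition q.1.2), (q.1.1.1.2, q.1.1.2)), 2 * q.2))
        ((x, τ), t) :=
      (((by fun_prop : ContDiffAt ℝ ∞
        (fun q : ((((Euc N × Euc N) × FT.W2 N K) × Wt N K) × ℝ) × ℝ => q.1.1.1.1)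
        ((x, τ), t)).prodMk k1).prodMk (by fun_prop)).prodMk (by fun_prop)
    exact ContDiffAt.comp (g := Hm) ((x, τ), t)
      (hLF.smooth (x.1.1, Real.smoothTransition τ) ⟨h1, hst τ⟩ _ h2 h3 (2 * t)) k2
  · rintro ⟨x, τ⟩ ⟨hx, -⟩ t
    obtain ⟨h1, h2, h3⟩ := hmem x hx
    unfold fJ
    have e : 2 * (t + 2 * π) = 2 * t + 4 * π := by ring
    rw [e]
    exact hLF.per (x.1.1, Real.smoothTransition τ) ⟨h1, hst τ⟩ _ h2 h3 (2 * t)
  · rintro ⟨x, τ⟩ ⟨hx, -⟩ t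
    obtain ⟨h1, h2, h3⟩ := hmem x hx
    exact hLF.mem (x.1.1, Real.smoothTransition τ) ⟨h1, hst τ⟩ _ h2 h3 (2 * t)
  · intro x hx τ hτ t
    obtain ⟨h1, h2, h3⟩ := hmem x hx
    unfold fJ
    rw [Real.smoothTransition.zero_of_nonpos hτ]
    change Hm (((x.1.1, 0), (x.1.2, x.2)), 2 * t) = _
    rw [hm0 _ h1 _ h2 h3, TU.FK, (linK_LJ hO h hk H hc0 hc).nest4_Psi hx.1]
    unfold AK.FT
    congr 1
    push_cast
    ring
  · intro x hx τ hτ t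
    obtain ⟨h1, h2, h3⟩ := hmem x hx
    unfold fJ
    rw [Real.smoothTransition.one_of_one_le hτ]
    change Hm (((x.1.1, 1), (x.1.2, x.2)), 2 * t) = _
    rw [hm1 _ h1 _ h2 h3]
    unfold NW.FX
    rw [FT.xf_xiN h H h1, hP.xi_eq (θ := fun r => r) (θ' := fun _ => 1) h1 continuous_id
      continuous_const]
    rfl
  · intro x hx τ
    obtain ⟨h1, h2, h3⟩ := hmem x hx
    have h4 := hen _ h1 _ (hst τ) _ h2 h3
    have h5 : MS.En (fJ Hm (x, τ)) = 2 * AK.EnT (4 * π)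
        (fun t => Hm (((x.1.1, Real.smoothTransition τ), (x.1.2, x.2)), t)) := by
      have h6 := FT.En_double
        (fun t => Hm (((x.1.1, Real.smoothTransition τ), (x.1.2, x.2)), t))
      unfold AK.EnT
      change MS.En (fun t => Hm (((x.1.1, Real.smoothTransition τ), (x.1.2, x.2)), 2 * t)) = _
      rw [h6]
      ring
    rw [h5]
    linarith

/-- the end value of the junction is the family `f2` of every level two data -/
theorem orb_eq (h : GT.Bla G k) {lg : Euc N → Euc N → Euc N} {ρ : Euc N → Euc N}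
    {r C r' Kr B w δ₂ ε E₀ η ε₂ : ℝ} {J : ℕ}
    (D : FT.D2 G k K lg ρ r C r' Kr B w δ PN ε J E₀ η (DD.NN PN) (FT.RN N K) (FT.xiN h PN) δ₂ ε₂)
    {r₀ : ℝ} (hr₀ : r₀ ≤ 1 / 2) {x : ((Euc N × Euc N) × FT.W2 N K) × Wt N K}
    (hx : x ∈ TP.TT (L.US G) (DD.NN PN) PN ∩ Dr N K r₀) (t : ℝ) :
    ρ ((fl G (x.1.1, 2 * t)).1 +
      (ε₂ • FT.xf G (FT.RN N K) (FT.xiN h PN) x.1.1 x.1.2 (2 * t) +
        ε • fd G x.1.1 (nuP K) x.2 (2 * t))) =
    FT.f2 G lg ρ w J (FT.xiN h PN) ε ε₂ (FT.Ph2 G K (FT.RN N K) t x) := by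
  have h1 := norm_nonneg x.2
  have h2 := norm_nonneg x.1.2
  have h3 := hx.2.1
  have h4 := hx.2.2
  exact (D.orb_small hx.1 (by nlinarith) (by nlinarith) t).symm

end Crest.Agent.R208.HJ
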