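import Crest.Agent.R208.TX9
import Crest.Agent.R208.GQ2d

/-! Row 208, block RR, (Hn) (helper316).  HN1: closed forms of low degree on sphere bundles of odd
rank over `US`. -/

set_option autoImplicit false
set_option linter.unusedSectionVars false

open MeasureTheory Set Filter Topology Module
open scoped ContDiff RealInnerProductSpace
open Crest.GeometryTopology.Submanifold
open Crest.Agent.R241.DDefs
open Crest.Agent.R241.D2
open Crest.Agent.R208.F Crest.Agent.R208.FI Crest.Agent.R208.CW Crest.Agent.R208.T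
open Crest.Agent.R208.L (US)

noncomputable section

namespace Crest.Agent.R208.HN

universe u w

section gen
variable {E : Type u} {H : Type w} [NormedAddCommGroup E] [NormedSpace ℝ E] [FiniteDimensional ℝ E]
  [NormedAddCommGroup H] [InnerProductSpace ℝ H] [FiniteDimensional ℝ H]
  {X : Set E} {P : E → H →L[ℝ] H} {d j q : ℕ} {ε b : E × H → Ext (E × H)}

/-- `1` is not exact -/
theorem one_ne {X : Set E} (hne : X.Nonempty) : ¬ Coh X (1 : E → Ext E) 0 := by
  intro h
  obtain ⟨x, hx⟩ := hne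
  have h1 : Eqv X (1 : E → Ext E) 0 :=
    h.eqv_zero (fun _ => T.isDeg_one) Hom.zero
  have h2 := eqv_iff.1 h1 x hx
  have h3 := congrArg (fun c => evA (Tan X x) 0 c ![]) h2
  have h4 : (pb (Tan X x).subtype) ((1 : E → Ext E) x) = algebraMap ℝ _ 1 := by
    rw [Pi.one_apply, map_one, map_one]
  rw [h4] at h3
  simp only [Pi.zero_apply, map_zero, evA_zero_algebraMap] at h3
  exact one_ne_zero h3

/-- the middle degree -/
theorem mid_of_LH (hL : GQ.LH X P q ε) (hX : FI.Sub d X) (hXc : IsPreconnected X)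
    (h0 : ExactIn X q) (hb : Sm (Sph X P) b) (hc : Cl (Sph X P) b) (hd : Hom q b) :
    ∃ c : ℝ, Coh (Sph X P) b (c • ε) := by
  obtain ⟨a, c, sa, ca, da, sc, cc, dc, h1⟩ := hL.split (i := 0) hb hc (by rwa [zero_add])
  rw [zero_add] at da
  obtain ⟨t, ht⟩ := const_of_closed hX hXc sc cc dc
  refine ⟨t, h1.trans ?_⟩
  have h2 := (h0 a sa ca da).pull (smap_fstS (X := X) (P := P))
  rw [pull_zero'] at h2
  have h3 : Eqv X c (fun _ => algebraMap ℝ (Ext E) t) := Eqv.of_eq ht
  have h4 := h3.pull (smap_fstS (X := X) (P := P))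
  rw [pull_const'] at h4
  have h5 : Eqv (Sph X P) (ε * F.pull Prod.fst c) (t • ε) := by
    refine ((Eqv.refl ε).mul h4).trans (Eqv.of_eq fun z _ => ?_)
    rw [Pi.mul_apply, Pi.smul_apply, Algebra.smul_def, Algebra.commutes]
  have h6 := h2.add (Coh.of_eqv h5)
  rwa [zero_add] at h6

/-- low degrees -/
theorem low_of_LH (hL : GQ.LH X P q ε) (hj : j < q) (h0 : ExactIn X j) :
    ExactIn (Sph X P) j := by
  intro b hb hc hd
  obtain ⟨a, sa, ca, da, h1⟩ := hL.low hj hb hc hd
  have h2 := (h0 a sa ca da).pull (smap_fstS (X := X) (P := P))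
  rw [pull_zero'] at h2
  exact h1.trans h2

/-- degrees `q + i`, `i > 0` -/
theorem high_of_LH (hL : GQ.LH X P q ε) {i : ℕ} (h0 : ExactIn X i) (h1 : ExactIn X (i + q)) :
    ExactIn (Sph X P) (i + q) := by
  intro b hb hc hd
  obtain ⟨a, c, sa, ca, da, sc, cc, dc, h2⟩ := hL.split hb hc hd
  have h3 := (h1 a sa ca da).pull (smap_fstS (X := X) (P := P))
  have h4 := (h0 c sc cc dc).pull (smap_fstS (X := X) (P := P))
  rw [pull_zero'] at h3 h4
  have h5 := Coh.mul_left hL.sm hL.cl h4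
  rw [mul_zero] at h5
  have h6 := h3.add h5
  rw [add_zero] at h6
  exact h2.trans h6

/-- the fibre class is not exact -/
theorem ne_of_LH (hL : GQ.LH X P q ε) (hne : X.Nonempty) : ¬ Coh (Sph X P) ε 0 := by
  intro h
  refine one_ne hne (hL.inj (i := 0) EC.one.sm EC.one.cl (fun _ => T.isDeg_one) ?_)
  have h1 : F.pull (Prod.fst : E × H → E) (1 : E → Ext E) = 1 := pull_one' _
  rwa [h1, mul_one]

end gen

variable {n N k m : ℕ} {κ : ℝ} {S : Set (Euc N)} {G : Geo n N κ S} {p₀ : Euc N}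
  {ι : Type} [Fintype ι] [DecidableEq ι] {W₀ : Euc N × Euc N → (ι × Fin 2 → Fin N) → ℝ}
  {x : Euc N → Ext (Euc N)} {j : ℕ}

/-- closed forms on `US` of degree `j < n + k - 1`, `k ∤ j`, are exact -/
theorem exactIn_US {h : GT.Bla G k} (D : T.XM h m W₀ p₀ x) (hj : 0 < j) (hjn : j < n + k - 1)
    (hkj : ¬ k ∣ j) : ExactIn (US G) j := by
  intro b sb cb db
  rw [← FV.Sph_S] at *
  obtain ⟨c, hc0, hc⟩ := D.low j b hj hjn sb cb db
  rwa [hc0 hkj, zero_smul] at hc

section inst
variable {H : Type} [NormedAddCommGroup H] [InnerProductSpace ℝ H] [FiniteDimensional ℝ H]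
  {PN : Euc N × Euc N → H →L[ℝ] H} {ε b : (Euc N × Euc N) × H → Ext ((Euc N × Euc N) × H)}

/-- **(Hn)**: closed forms of degree `k - 2` on `Sph (US G) PN`, `PN` of rank `k - 1`, are multiples
of the fibre class -/
theorem mid_US {h : GT.Bla G k} (D : T.XM h m W₀ p₀ x) (hk : 4 ≤ k)
    (hL : GQ.LH (US G) PN (k - 2) ε) (hb : Sm (Sph (US G) PN) b) (hc : Cl (Sph (US G) PN) b)
    (hd : Hom (k - 2) b) : ∃ c : ℝ, Coh (Sph (US G) PN) b (c • ε) := by
  have h2k := D.two_k
  exact mid_of_LH hL (LB.sub_US (FV.sub_S h.bl) (d := 2 * n - 1) (by omega)) (FV.preconn_US h.bl (by omega))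
    (exactIn_US D (by omega) (by omega) fun hd => by
      have := Nat.le_of_dvd (by omega) hd; omega) hb hc hd

end inst

end Crest.Agent.R208.HN
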