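import Crest.Agent.R208.TP2
import Crest.Agent.R208.TX1

/-! Row 208, block TP (helper382).  TPL1: the Thom lemma for Thom pairs of any parity, with control
of the support of the primitive in the base; two-level version. -/

set_option autoImplicit false
set_option linter.unusedSectionVars false
set_option linter.unusedVariables false
set_option maxHeartbeats 1000000

open MeasureTheory Set Filter Topology Module
open scoped ContDiff
open Crest.Agent.R208.F Crest.Agent.R208.FI Crest.Agent.R208.CW Crest.Agent.R208.T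

noncomputable section

namespace Crest.Agent.R208.TP

section alg
variable {E : Type*} [NormedAddCommGroup E] [NormedSpace ℝ E] [FiniteDimensional ℝ E]

theorem isDeg_mul_comm {p q : ℕ} {a b : Ext E} (ha : IsDeg p a) (hb : IsDeg q b) :
    a * b = (-1 : ℝ) ^ (p * q) • (b * a) := by
  have h1 := inv_deg ha
  have h2 := inv_deg hb
  rcases Nat.even_or_odd p with hp | hp
  · rw [hp.neg_one_pow, one_smul] at h1
    rw [even_comm h1 b, (hp.mul_right q).neg_one_pow, one_smul]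
  · rw [hp.neg_one_pow, neg_one_smul] at h1
    rw [odd_comm h1 b, h2, smul_mul_assoc, pow_mul, hp.neg_one_pow]

theorem hom_mul_comm {p q : ℕ} {a b : E → Ext E} (ha : Hom p a) (hb : Hom q b) :
    a * b = (-1 : ℝ) ^ (p * q) • (b * a) := funext fun x => isDeg_mul_comm (ha x) (hb x)

end alg

section pair
universe u w
variable {E : Type u} {H : Type w} [NormedAddCommGroup E] [NormedSpace ℝ E] [FiniteDimensional ℝ E]
  [NormedAddCommGroup H] [InnerProductSpace ℝ H] [FiniteDimensional ℝ H]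
  {X : Set E} {P : E → H →L[ℝ] H} {r d D : ℕ} {R R' c₀ : ℝ} {e : E → Ext E}
  {τ τ' om : E × H → Ext (E × H)}

/-- Thom pairs of any parity -/
structure TPair [MeasurableSpace H] (μ : Measure H) (X : Set E) (P : E → H →L[ℝ] H) (r : ℕ)
    (R c₀ : ℝ) (τ τ' : E × H → Ext (E × H)) : Prop where
  csf : CSF X P R τ
  csf' : CSF X (fun x => 1 - P x) R τ'
  deg : Hom r τ
  deg' : Hom (finrank ℝ H - r) τ'
  unit : Eqv X (pI μ (thE P τ' τ)) (fun _ => algebraMap ℝ (Ext E) c₀)
  ne : c₀ ≠ 0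

theorem _root_.Crest.Agent.R208.T.ThomPair.pair [MeasurableSpace H] {μ : Measure H}
    (h : ThomPair μ X P r R c₀ e τ τ') : TPair μ X P r R c₀ τ τ' :=
  ⟨h.csf, h.csf', h.deg, h.deg', h.unit, h.ne⟩

theorem csf_mono (hR : R ≤ R') (h : CSF X P R om) : CSF X P R' om :=
  ⟨h.smooth, fun z hz => h.supp z (hR.trans_lt hz), h.closed⟩

theorem TPair.mono [MeasurableSpace H] {μ : Measure H} (hR : R ≤ R')
    (h : TPair μ X P r R c₀ τ τ') : TPair μ X P r R' c₀ τ τ' :=
  ⟨csf_mono hR h.csf, csf_mono hR h.csf', h.deg, h.deg', h.unit, h.ne⟩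

theorem ThomPair.mono [MeasurableSpace H] {μ : Measure H} (hR : R ≤ R')
    (h : ThomPair μ X P r R c₀ e τ τ') : ThomPair μ X P r R' c₀ e τ τ' :=
  ⟨csf_mono hR h.csf, csf_mono hR h.csf', h.even, h.deg, h.deg', h.unit, h.ne, h.zero⟩

theorem rot1_eqv' (hP : PField X r P) (hr : Hom r τ) (hD : Hom D om) :
    Eqv (Tot X P ×ˢ (univ : Set H)) (F.pull (fun z => rot P (z, 1)) (Tht P τ' τ om))
      ((-1 : ℝ) ^ (r * D) • (F.pull rho (thE' P τ' om) * F.pull Prod.fst τ)) := by
  have hr1 := smap_rot1 hP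
  have hrho := smap_rho (X := X) (P := P)
  have hfst := smap_fst (X := X) (P := P)
  have hid := hP.idem
  have e1 : Eqv (Tot X P ×ˢ (univ : Set H))
      (F.pull (fun z => rot P (z, 1)) (F.pull rho (F.pull (gam P) τ')))
      (F.pull rho (F.pull (gam P) τ')) := by
    refine (Eqv.pull hr1 (eqv_pull_pull hrho (smap_gam hP) ((smap_gam hP).comp hrho)
      (fun _ _ => rfl) τ')).trans ?_
    refine (eqv_pull_pull hr1 ((smap_gam hP).comp hrho) ((smap_gam hP).comp hrho) ?_ τ').trans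
      (eqv_pull_pull hrho (smap_gam hP) ((smap_gam hP).comp hrho) (fun _ _ => rfl) τ').symm
    rintro ⟨⟨x, v⟩, k⟩ ⟨⟨hx, hv⟩, -⟩
    change P x v = v at hv
    simp only [rot_one, rho, gam]
    refine Prod.ext rfl ?_
    change k + P x (v - k) - P x (k + P x (v - k)) = k - P x k
    rw [map_add, hid x hx]
    abel
  have e2 : Eqv (Tot X P ×ˢ (univ : Set H))
      (F.pull (fun z => rot P (z, 1)) (F.pull rho (F.pull (bet P) τ))) (F.pull Prod.fst τ) := by
    refine (Eqv.pull hr1 (eqv_pull_pull hrho (smap_bet hP) ((smap_bet hP).comp hrho)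
      (fun _ _ => rfl) τ)).trans ?_
    refine eqv_pull_pull hr1 ((smap_bet hP).comp hrho) hfst ?_ τ
    rintro ⟨⟨x, v⟩, k⟩ ⟨⟨hx, hv⟩, -⟩
    change P x v = v at hv
    simp only [rot_one, rho, bet]
    refine Prod.ext rfl ?_
    change P x (k + P x (v - k)) = v
    rw [map_add, hid x hx, map_sub, hv]
    abel
  have e3 : Eqv (Tot X P ×ˢ (univ : Set H))
      (F.pull (fun z => rot P (z, 1)) (F.pull Prod.fst om)) (F.pull rho (F.pull (nbet P) om)) := by
    refine (eqv_pull_pull hr1 hfst ((smap_nbet hP).comp hrho) ?_ om).trans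
      (eqv_pull_pull hrho (smap_nbet hP) ((smap_nbet hP).comp hrho) (fun _ _ => rfl) om).symm
    rintro ⟨⟨x, v⟩, k⟩ ⟨⟨hx, hv⟩, -⟩
    change P x v = v at hv
    simp only [rot_one, rho, nbet]
    refine Prod.ext rfl ?_
    change v + P x (-v - k) = -P x k
    rw [map_sub, map_neg, hv]
    abel
  have e4 : F.pull (fun z => rot P (z, 1)) (Tht P τ' τ om) =
      (F.pull (fun z => rot P (z, 1)) (F.pull rho (F.pull (gam P) τ')) *
        F.pull (fun z => rot P (z, 1)) (F.pull rho (F.pull (bet P) τ))) *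
        F.pull (fun z => rot P (z, 1)) (F.pull Prod.fst om) := by
    rw [Tht, thE, pull_mul', pull_mul', pull_mul']
  rw [e4]
  refine ((e1.mul e2).mul e3).trans (Eqv.of_eq fun z _ => ?_)
  have hc := isDeg_mul_comm
    (Hom.pull (f := (Prod.fst : (E × H) × H → E × H)) hr z)
    (Hom.pull (f := rho (E := E) (H := H)) (Hom.pull (f := nbet P) hD) z)
  rw [thE', pull_mul']
  simp only [Pi.mul_apply, Pi.smul_apply]
  rw [mul_assoc, hc, mul_smul_comm, ← mul_assoc]

/-- **the Thom lemma**, any parity; the primitive vanishes over points over which `om`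
vanishes -/
theorem thomS [MeasurableSpace H] [BorelSpace H] (μ : Measure H) [μ.IsAddHaarMeasure]
    (hX : Sub d X) (hP : PField X r P) (hT : TPair μ X P r R c₀ τ τ') (hR : 0 ≤ R)
    (hω : CSF X P R om) (hD : Hom D om) :
    ∃ L : E × H → Ext (E × H), Sm (Tot X P) L ∧ (∀ z, 2 * R + 1 < ‖z.2‖ → L z = 0) ∧
      (∀ x, (∀ h, om (x, h) = 0) → ∀ h, L (x, h) = 0) ∧
        Eqv (Tot X P) (c₀ • om - (-1 : ℝ) ^ (r * D) •
          (F.pull Prod.fst (push μ P τ' om) * τ)) (F.d L) := by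
  set N := finrank ℝ H with hN
  set c' := pI μ (thE' P τ' om) with hc'
  have hsub : Sub (d + r) (Tot X P) := hP.sub_tot hX
  have hsubH : Sub N (univ : Set H) := sub_open rfl isOpen_univ
  have hY : Sub (d + r + N) (Tot X P ×ˢ (univ : Set H)) := hsub.prod hsubH
  have hXH : Sub (d + N) (X ×ˢ (univ : Set H)) := hX.prod hsubH
  have v1 : Vt (2 * R) (thE P τ' τ) := vt_eta hT.csf'.supp hT.csf.supp
  have v2 : Vt (2 * R) (thE' P τ' om) := vt_eta' hT.csf'.supp hω.supp
  have s1 := sm_eta hP hT.csf'.smooth hT.csf.smooth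
  have s2 := sm_eta' hP hT.csf'.smooth hω.smooth
  -- the rotated form
  set Th := Tht P τ' τ om with hTh
  set sg : ℝ := (-1 : ℝ) ^ (r * D) with hsg
  set T2 := sg • (F.pull rho (thE' P τ' om) * F.pull (Prod.fst : (E × H) × H → E × H) τ) with hT2
  have sTh : Sm (Tot X P ×ˢ (univ : Set H)) Th :=
    (s1.pull smap_rho).mul (hω.smooth.pull smap_fst)
  have cTh : Cl (Tot X P ×ˢ (univ : Set H)) Th :=
    Cl.mul (s1.pull smap_rho) (hω.smooth.pull smap_fst)
      ((cl_eta hP hT.csf'.smooth hT.csf.smooth hT.csf'.closed hT.csf.closed).pull smap_rho s1)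
      (hω.closed.pull smap_fst hω.smooth)
  have sT2 : Sm (Tot X P ×ˢ (univ : Set H)) T2 :=
    ((s2.pull smap_rho).mul (hT.csf.smooth.pull smap_fst)).smul _
  have vTh : Vt (2 * R) Th := (vt_rho v1).mul_right _
  have vT2 : Vt (2 * R) T2 := ((vt_rho v2).mul_right _).smul _
  -- the homotopy
  set K := Hop (rot P) Th with hK
  have sK : Sm (Tot X P ×ˢ (univ : Set H)) K := fun z hz =>
    contDiffAt_Hop (fun t _ => contDiffAt_rot (p := (z, t)) hP hz.1.1)
      (fun t _ => sTh _ (rot_mem hP hz t))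
  have k1 : Eqv (Tot X P ×ˢ (univ : Set H)) (F.pull (fun z => rot P (z, 1)) Th -
      F.pull (fun z => rot P (z, 0)) Th) (F.d K) :=
    resZero_Hop (fun z hz t _ => (contDiffAt_rot (p := (z, t)) hP hz.1.1).of_le two_le)
      (fun z hz t _ => rot_mem hP hz t)
      (fun z hz => (sTh z hz).of_le (by exact_mod_cast le_top)) cTh
  have k2 : F.pull (fun z => rot P (z, 0)) Th = Th := by
    have : (fun z => rot P (z, 0)) = fun z => z := funext fun z => rot_zero P z
    rw [this]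
    exact funext fun z => F.pull_id Th z
  have k3 := rot1_eqv' (τ' := τ') (om := om) hP hT.deg hD
  rw [k2] at k1
  have k4 : Eqv (Tot X P ×ˢ (univ : Set H)) (F.d K) (T2 - Th) :=
    k1.symm.trans (k3.sub (Eqv.refl Th))
  have k5 : ∀ z ∈ Tot X P ×ˢ (univ : Set H), (2 * R < ‖z.1.2‖ ∨ 3 * R < ‖z.2‖) → K z = 0 :=
    fun z hz h => Hop_eq_zero fun t => rot_supp hP hT.csf'.supp hT.csf.supp hω.supp hz h t
  have k5' : ∀ x, (∀ h, om (x, h) = 0) → ∀ h h', K ((x, h), h') = 0 := fun x hx h h' =>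
    Hop_eq_zero fun t => by
      rw [hTh, Tht, Pi.mul_apply, pull_of_zero (f := Prod.fst) (hx _), mul_zero]
  have h3R : 0 ≤ 3 * R := by linarith
  set Kc := cutH (3 * R) K with hKc
  have sKc : Sm (Tot X P ×ˢ (univ : Set H)) Kc := sK.cutH
  have k6 : Eqv (Tot X P ×ˢ (univ : Set H)) Kc K := eqv_cutH h3R fun z hz h => k5 z hz (Or.inr h)
  have k7 : Eqv (Tot X P ×ˢ (univ : Set H)) (F.d Kc) (T2 - Th) := (k6.d hY sKc sK).trans k4
  have vKc : Vt (3 * R + 1) Kc := Vt.cutH h3R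
  have hle : 2 * R ≤ 3 * R + 1 := by linarith
  have k8 := eqv_pI μ vKc.d sKc.d ((vT2.sub vTh).mono hle) (sT2.sub sTh) k7
  -- evaluation of the integrals
  have i1 : ∀ z ∈ Tot X P, pI μ (F.d Kc) z = (-1 : ℝ) ^ N • F.d (pI μ Kc) z := fun z hz =>
    d_pI μ vKc sKc hz
  have i2 : ∀ z ∈ Tot X P, pI μ (T2 - Th) z = pI μ T2 z - pI μ Th z := fun z hz =>
    pI_sub μ vT2 sT2 vTh sTh hz
  have i3 : ∀ z ∈ Tot X P, pI μ T2 z = sg • (F.pull Prod.fst c' z * τ z) := fun z hz => by
    rw [hT2, pI_smul', Pi.smul_apply, pI_mul_fst μ (vt_rho v2) (s2.pull smap_rho) hz]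
    congr 2
    exact pI_pull μ (f := (Prod.fst : E × H → E)) (y := z) differentiableAt_fst v2
      (fun h => (s2 (z.1, h) ⟨hz.1, mem_univ _⟩).continuousAt)
  have i4 : ∀ z ∈ Tot X P, pI μ Th z = F.pull Prod.fst (pI μ (thE P τ' τ)) z * om z :=
    fun z hz => by
    rw [hTh, Tht, pI_mul_fst μ (vt_rho v1) (s1.pull smap_rho) hz]
    congr 1
    exact pI_pull μ (f := (Prod.fst : E × H → E)) (y := z) differentiableAt_fst v1
      (fun h => (s1 (z.1, h) ⟨hz.1, mem_univ _⟩).continuousAt)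
  have i5 : Eqv (Tot X P) (F.pull Prod.fst (pI μ (thE P τ' τ)) * om) (c₀ • om) := by
    have h1 := (Eqv.pull (smap_fst' (X := X) (P := P)) hT.unit).mul (Eqv.refl om)
    refine h1.trans (Eqv.of_eq fun z _ => ?_)
    simp only [Pi.mul_apply, F.pull, AlgHom.commutes, Pi.smul_apply, Algebra.smul_def]
  -- conclusion
  set L0 := pI μ Kc with hL0
  have sL0 : Sm (Tot X P) L0 := sm_pI μ vKc sKc
  have j1 : Eqv (Tot X P) ((-1 : ℝ) ^ N • F.d L0) (sg • (F.pull Prod.fst c' * τ) - c₀ • om) := by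
    refine (Eqv.of_eq fun z hz => (i1 z hz).symm).trans (k8.trans ?_)
    refine (Eqv.of_eq (b := sg • (F.pull Prod.fst c' * τ) -
      F.pull Prod.fst (pI μ (thE P τ' τ)) * om) fun z hz => ?_).trans ((Eqv.refl _).sub i5)
    rw [i2 z hz, i3 z hz, i4 z hz]; rfl
  have hz0 : ∀ z : E × H, (∀ h', K (z, h') = 0) → L0 z = 0 := by
    intro z h3
    rw [hL0, pI_eq]
    have h2 : ∀ h' : H, Kc (z, h') = 0 := fun h' =>
      (congrArg (fun c => chi (3 * R) h' • c) (h3 h')).trans (smul_zero _)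
    refine (integral_congr_ae (g := fun _ : H => (0 : Ext (E × H)))
      (Eventually.of_forall fun h' => ?_)).trans (integral_zero _ _)
    exact (congrArg _ (h2 h')).trans (map_zero _)
  have l0 : ∀ z ∈ Tot X P, 2 * R < ‖z.2‖ → L0 z = 0 := fun z hz h =>
    hz0 z fun h' => k5 (z, h') ⟨hz, mem_univ _⟩ (Or.inl h)
  have h2R : 0 ≤ 2 * R := by linarith
  refine ⟨(-((-1 : ℝ) ^ N)) • cutH (2 * R) L0, (sL0.cutH).smul _, (Vt.cutH h2R).smul _,
    fun x hx h => ?_, ?_⟩
  · have : L0 (x, h) = 0 := hz0 (x, h) fun h' => k5' x hx h h'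
    change (-((-1 : ℝ) ^ N)) • (chi (2 * R) h • L0 (x, h)) = 0
    rw [this, smul_zero, smul_zero]
  have j2 : Eqv (Tot X P) (cutH (2 * R) L0) L0 := eqv_cutH h2R l0
  have j3 := j2.d hsub sL0.cutH sL0
  have j4 : Eqv (Tot X P) (F.d ((-((-1 : ℝ) ^ N)) • cutH (2 * R) L0))
      ((-((-1 : ℝ) ^ N)) • F.d L0) :=
    (d_smul_eqv _ sL0.cutH).trans (j3.smul _)
  refine (j4.trans ?_).symm
  have j5 := j1.neg
  rw [neg_sub] at j5
  rw [neg_smul]
  exact j5

end pair

end Crest.Agent.R208.TP
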