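import Crest.Agent.R208.TPL1

/-! Row 208, block TP (helper382).  TPL2: base change of Thom pairs; the Thom lemma for
`P₂ ⊕ P₁` (`thom₂`). -/

set_option autoImplicit false
set_option linter.unusedSectionVars false
set_option linter.unusedVariables false
set_option maxHeartbeats 1000000

open MeasureTheory Set Filter Topology Module
open scoped ContDiff
open Crest.Agent.R208.F Crest.Agent.R208.FI Crest.Agent.R208.CW Crest.Agent.R208.T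

noncomputable section

namespace Crest.Agent.R208.TP

section up
variable {E H E' : Type*} [NormedAddCommGroup E] [NormedSpace ℝ E] [FiniteDimensional ℝ E]
  [NormedAddCommGroup E'] [NormedSpace ℝ E'] [FiniteDimensional ℝ E']
  [NormedAddCommGroup H] [InnerProductSpace ℝ H] [FiniteDimensional ℝ H]
  [MeasurableSpace H] [BorelSpace H] {μ : Measure H} [μ.IsAddHaarMeasure]
  {X : Set E} {X' : Set E'} {P : E → H →L[ℝ] H} {r d : ℕ} {R c₀ : ℝ}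
  {τ τ' : E × H → Ext (E × H)} {f : E' → E}

/-- base change of Thom pairs -/
theorem TPair.up (hP : PField X r P) (hf : SMap X' X f) (h : TPair μ X P r R c₀ τ τ') :
    TPair μ X' (fun y => P (f y)) r R c₀ (F.pull (up f) τ) (F.pull (up f) τ') where
  csf := csf_up hf h.csf
  csf' := csf_up (P := fun x => 1 - P x) hf h.csf'
  deg := Hom.pull h.deg
  deg' := Hom.pull h.deg'
  ne := h.ne
  unit := by
    have hP' := pfield_up hP hf
    have hu := smap_up' (H := H) hf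
    have v1 : Vt (2 * R) (thE P τ' τ) := vt_eta h.csf'.supp h.csf.supp
    have s1 := sm_eta hP h.csf'.smooth h.csf.smooth
    refine (Eqv.of_eq (b := F.pull f (pI μ (thE P τ' τ))) fun y hy => ?_).trans
      ((h.unit.pull hf).trans (Eqv.of_eq fun y _ => by rw [F.pull, AlgHom.commutes]))
    rw [← show pI μ (F.pull (fun z : E' × H => ((f z.1, z.2) : E × H)) (thE P τ' τ)) y =
      F.pull f (pI μ (thE P τ' τ)) y from pI_pull μ (hf.diff hy) v1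
        (fun h => (s1 (f y, h) ⟨hf.maps hy, mem_univ _⟩).continuousAt), pI_eq, pI_eq]
    refine integral_congr_ae (Eventually.of_forall fun k => ?_)
    have hz : (y, k) ∈ X' ×ˢ (univ : Set H) := ⟨hy, mem_univ _⟩
    have e1 : F.pull (gam (fun y => P (f y))) (F.pull (TP.up f) τ') (y, k) =
        F.pull (TP.up f) (F.pull (gam P) τ') (y, k) := by
      have a1 := F.pull_comp (om := τ') ((smap_gam hP').diff hz)
        ((smap_up (P := fun x => 1 - P x) hf).diff ((smap_gam hP').maps hz))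
      have a2 := F.pull_comp (om := τ') (hu.diff hz) ((smap_gam hP).diff (hu.maps hz))
      exact a1.trans a2.symm
    have e2 : F.pull (bet (fun y => P (f y))) (F.pull (TP.up f) τ) (y, k) =
        F.pull (TP.up f) (F.pull (bet P) τ) (y, k) := by
      have a1 := F.pull_comp (om := τ) ((smap_bet hP').diff hz)
        ((smap_up (P := P) hf).diff ((smap_bet hP').maps hz))
      have a2 := F.pull_comp (om := τ) (hu.diff hz) ((smap_bet hP).diff (hu.maps hz))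
      exact a1.trans a2.symm
    change cH _ _ (F.pull (gam (fun y => P (f y))) (F.pull (TP.up f) τ') (y, k) *
      F.pull (bet (fun y => P (f y))) (F.pull (TP.up f) τ) (y, k)) =
      cH _ _ (F.pull (TP.up f) (thE P τ' τ) (y, k))
    rw [e1, e2, thE, pull_mul']
    rfl

end up

section two
universe u w w'
variable {E : Type u} {H₂ : Type w} {H₁ : Type w'} [NormedAddCommGroup E] [NormedSpace ℝ E]
  [FiniteDimensional ℝ E]
  [NormedAddCommGroup H₁] [InnerProductSpace ℝ H₁] [FiniteDimensional ℝ H₁]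
  [NormedAddCommGroup H₂] [InnerProductSpace ℝ H₂] [FiniteDimensional ℝ H₂]
  {X : Set E} {P₁ : E → H₁ →L[ℝ] H₁} {P₂ : E → H₂ →L[ℝ] H₂} {r₁ r₂ d j : ℕ} {R c₁ c₂ : ℝ}
  {τ₁ τ₁' : E × H₁ → Ext (E × H₁)} {τ₂ τ₂' : E × H₂ → Ext (E × H₂)}
  {V : (E × H₂) × H₁ → Ext ((E × H₂) × H₁)}

/-- the Thom form of `P₂ ⊕ P₁` -/
def T21 (τ₂ : E × H₂ → Ext (E × H₂)) (τ₁ : E × H₁ → Ext (E × H₁)) :
    (E × H₂) × H₁ → Ext ((E × H₂) × H₁) :=
  F.pull Prod.fst τ₂ * F.pull (up (H := H₁) (Prod.fst : E × H₂ → E)) τ₁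

theorem smap_TTf : SMap (TT X P₂ P₁) (Tot X P₂) (Prod.fst : (E × H₂) × H₁ → E × H₂) :=
  ⟨fun z _ => contDiffAt_fst, fun _ hz => hz.1⟩

theorem smap_TTg : SMap (TT X P₂ P₁) (Tot X P₁) (up (H := H₁) (Prod.fst : E × H₂ → E)) :=
  ⟨fun z _ => (contDiffAt_fst.comp z contDiffAt_fst).prodMk contDiffAt_snd,
    fun z hz => ⟨hz.1.1, hz.2⟩⟩

theorem smap_TTb : SMap (TT X P₂ P₁) X (fun z : (E × H₂) × H₁ => z.1.1) :=
  ⟨fun z _ => contDiffAt_fst.comp z contDiffAt_fst, fun _ hz => hz.1.1⟩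

theorem sm_T21 (h₂ : CSF X P₂ R τ₂) (h₁ : CSF X P₁ R τ₁) : Sm (TT X P₂ P₁) (T21 τ₂ τ₁) :=
  (h₂.smooth.pull smap_TTf).mul (h₁.smooth.pull smap_TTg)

theorem cl_T21 (h₂ : CSF X P₂ R τ₂) (h₁ : CSF X P₁ R τ₁) : Cl (TT X P₂ P₁) (T21 τ₂ τ₁) :=
  Cl.mul (h₂.smooth.pull smap_TTf) (h₁.smooth.pull smap_TTg) (h₂.closed.pull smap_TTf h₂.smooth)
    (h₁.closed.pull smap_TTg h₁.smooth)

theorem hom_T21 (h₂ : Hom r₂ τ₂) (h₁ : Hom r₁ τ₁) : Hom (r₂ + r₁) (T21 τ₂ τ₁) :=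
  (Hom.pull h₂).mul (Hom.pull h₁)

theorem supp_T21 (h₂ : CSF X P₂ R τ₂) (h₁ : CSF X P₁ R τ₁) {z : (E × H₂) × H₁}
    (hz : R < ‖z.2‖ ∨ R < ‖z.1.2‖) : T21 τ₂ τ₁ z = 0 := by
  rw [T21, Pi.mul_apply]
  rcases hz with h | h
  · rw [pull_of_zero (f := up (H := H₁) (Prod.fst : E × H₂ → E)) (h₁.supp _ h), mul_zero]
  · rw [pull_of_zero (f := (Prod.fst : (E × H₂) × H₁ → E × H₂)) (h₂.supp _ h), zero_mul]

variable [MeasurableSpace H₁] [BorelSpace H₁] (μ₁ : Measure H₁) [μ₁.IsAddHaarMeasure]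
  [MeasurableSpace H₂] [BorelSpace H₂] (μ₂ : Measure H₂) [μ₂.IsAddHaarMeasure]

/-- **the Thom lemma for `P₂ ⊕ P₁`** -/
theorem thom₂ (hX : Sub d X) (hP₁ : PField X r₁ P₁) (hP₂ : PField X r₂ P₂)
    (hr₁ : r₁ ≤ finrank ℝ H₁)
    (hT₁ : TPair μ₁ X P₁ r₁ R c₁ τ₁ τ₁') (hT₂ : TPair μ₂ X P₂ r₂ R c₂ τ₂ τ₂')
    (hR : 0 ≤ R) (hV : CV X P₂ P₁ R V) (dV : Hom (j + r₂ + r₁) V) :
    ∃ L : (E × H₂) × H₁ → Ext ((E × H₂) × H₁), Sm (TT X P₂ P₁) L ∧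
      (∀ z, (2 * R + 1 < ‖z.2‖ ∨ 2 * R + 1 < ‖z.1.2‖) → L z = 0) ∧
      Eqv (TT X P₂ P₁) ((c₁ * c₂) • V - ((-1 : ℝ) ^ (r₁ * (j + r₂ + r₁)) *
        (-1 : ℝ) ^ (r₂ * (j + r₂))) • (F.pull (fun z : (E × H₂) × H₁ => z.1.1)
          (pu₂ μ₁ μ₂ P₂ τ₂' P₁ τ₁' V) * T21 τ₂ τ₁)) (F.d L) := by
  have hb := smap_fst' (X := X) (P := P₂)
  have hX₂ : Sub (d + r₂) (Tot X P₂) := hP₂.sub_tot hX
  have hP₁' := pfield_fst (P₂ := P₂) hP₁
  have hT₁' := hT₁.up (X' := Tot X P₂) (f := (Prod.fst : E × H₂ → E)) hP₁ hb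
  have hV1 : CSF (Tot X P₂) (fun z : E × H₂ => P₁ z.1) R V := ⟨hV.smooth, hV.supp₁, hV.closed⟩
  obtain ⟨L₁, sL₁, zL₁, zL₁', eL₁⟩ := thomS μ₁ hX₂ hP₁' hT₁' hR hV1 dV
  have hq₁ : finrank ℝ H₁ - r₁ + r₁ = finrank ℝ H₁ := Nat.sub_add_cancel hr₁
  have d1 : Hom (j + r₂) (pu₁ μ₁ P₁ τ₁' V) := hom_pu₁ μ₁ hT₁.deg' dV hq₁
  have hp := csf_pu₁ μ₁ hP₁ hT₁.csf' hV
  obtain ⟨L₂, sL₂, zL₂, -, eL₂⟩ := thomS μ₂ hX hP₂ hT₂ hR hp d1
  set s₁ : ℝ := (-1 : ℝ) ^ (r₁ * (j + r₂ + r₁)) with hs₁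
  set s₂ : ℝ := (-1 : ℝ) ^ (r₂ * (j + r₂)) with hs₂
  set a := pu₂ μ₁ μ₂ P₂ τ₂' P₁ τ₁' V with ha
  set v₁ := pu₁ μ₁ P₁ τ₁' V with hv₁
  set t₁ := F.pull (up (H := H₁) (Prod.fst : E × H₂ → E)) τ₁ with ht₁
  have st₁ : Sm (TT X P₂ P₁) t₁ := hT₁.csf.smooth.pull smap_TTg
  have ct₁ : Cl (TT X P₂ P₁) t₁ := hT₁.csf.closed.pull smap_TTg hT₁.csf.smooth
  have sM : Sm (TT X P₂ P₁) (F.pull (Prod.fst : (E × H₂) × H₁ → E × H₂) L₂) :=
    sL₂.pull smap_TTf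
  refine ⟨c₂ • L₁ + s₁ • (F.pull Prod.fst L₂ * t₁), (sL₁.smul _).add ((sM.mul st₁).smul _),
    fun z hz => ?_, ?_⟩
  · rw [Pi.add_apply, Pi.smul_apply, Pi.smul_apply, Pi.mul_apply]
    rcases hz with h | h
    · rw [zL₁ z h, ht₁, pull_of_zero (f := up (H := H₁) (Prod.fst : E × H₂ → E))
        (hT₁.csf.supp _ (show R < ‖z.2‖ by linarith)), mul_zero, smul_zero, smul_zero, add_zero]
    · rw [show L₁ z = 0 from zL₁' z.1 (fun k => hV.supp₂ (z.1, k) (show R < ‖z.1.2‖ by linarith))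
        z.2, pull_of_zero (f := (Prod.fst : (E × H₂) × H₁ → E × H₂)) (zL₂ z.1 h), zero_mul,
        smul_zero, smul_zero, add_zero]
  · -- level 2 pulled back
    have e2 := eL₂.pull (smap_TTf (X := X) (P₁ := P₁) (P₂ := P₂))
    rw [pull_sub', pull_smul', pull_smul', pull_mul'] at e2
    have e3 : Eqv (TT X P₂ P₁) (F.pull (Prod.fst : (E × H₂) × H₁ → E × H₂)
        (F.pull (Prod.fst : E × H₂ → E) (push μ₂ P₂ τ₂' v₁)))
        (F.pull (fun z : (E × H₂) × H₁ => z.1.1) a) :=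
      eqv_pull_pull smap_TTf hb smap_TTb (fun _ _ => rfl) _
    have e4 := (d_pull_eqv (smap_TTf (X := X) (P₁ := P₁) (P₂ := P₂)) sL₂).symm
    have e5 := ((e2.trans e4).mul (Eqv.refl t₁))
    have e6 : Eqv (TT X P₂ P₁) (F.d (F.pull (Prod.fst : (E × H₂) × H₁ → E × H₂) L₂) * t₁)
        (F.d (F.pull (Prod.fst : (E × H₂) × H₁ → E × H₂) L₂ * t₁)) := by
      have h1 := (d_mul_eqv sM st₁).trans ((Eqv.refl _).add
        ((Eqv.refl (fun x => F.inv (F.pull (Prod.fst : (E × H₂) × H₁ → E × H₂) L₂ x))).mul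
          (resZero_iff.1 ct₁)))
      rw [mul_zero, add_zero] at h1
      exact h1.symm
    have e7 := e5.trans e6
    rw [sub_mul, smul_mul_assoc, smul_mul_assoc] at e7
    have e8 : Eqv (TT X P₂ P₁) (c₂ • (F.pull (Prod.fst : (E × H₂) × H₁ → E × H₂) v₁ * t₁) -
        s₂ • (F.pull (fun z : (E × H₂) × H₁ => z.1.1) a * T21 τ₂ τ₁))
        (F.d (F.pull (Prod.fst : (E × H₂) × H₁ → E × H₂) L₂ * t₁)) := by
      refine Eqv.trans ?_ e7
      refine (Eqv.refl _).sub (Eqv.smul s₂ ?_)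
      rw [T21, ← mul_assoc]
      exact (e3.symm.mul (Eqv.refl _)).mul (Eqv.refl _)
    have e9 : Eqv (TT X P₂ P₁) (c₁ • V - s₁ • (F.pull (Prod.fst : (E × H₂) × H₁ → E × H₂) v₁ *
        t₁)) (F.d L₁) := eL₁
    have e10 := ((e9.smul c₂).add (e8.smul s₁)).trans
      (((d_smul_eqv c₂ sL₁).symm.add (d_smul_eqv s₁ (sM.mul st₁)).symm).trans
        (d_add_eqv (sL₁.smul c₂) ((sM.mul st₁).smul s₁)).symm)
    refine Eqv.trans ?_ e10
    refine Eqv.of_eq fun z _ => ?_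
    simp only [Pi.sub_apply, Pi.smul_apply, Pi.add_apply, smul_sub, smul_smul]
    rw [mul_comm c₁ c₂, mul_comm s₁ c₂]
    abel

end two

end Crest.Agent.R208.TP
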