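import Crest.Agent.R208.TP6
import Crest.Agent.R208.TPL1
import Crest.Agent.R208.TPL2

/-! Row 208, block HO (helper537), AK15 of helper952: homotopy invariance of the double vertical
integral for closed forms on `TT X P₂ P₁ × ℝ` which vanish outside the disks, seen through
isometric embeddings of the two fields. -/

set_option autoImplicit false
set_option linter.unusedSectionVars false
set_option linter.unusedVariables false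

open MeasureTheory Set Filter Topology Module
open scoped ContDiff RealInnerProductSpace
open Crest.Agent.R208.F Crest.Agent.R208.FI Crest.Agent.R208.CW Crest.Agent.R208.T
open Crest.Agent.R208.TP
open Crest.Agent.R208.CM (Triv Qd)

noncomputable section

namespace Crest.Agent.R208.HO

section congr
variable {E : Type*} {H₁ H₂ : Type*} [NormedAddCommGroup E] [NormedSpace ℝ E]
  [FiniteDimensional ℝ E]
  [NormedAddCommGroup H₁] [InnerProductSpace ℝ H₁] [FiniteDimensional ℝ H₁]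
  [MeasurableSpace H₁] [BorelSpace H₁] (μ₁ : Measure H₁) [μ₁.IsAddHaarMeasure]
  [NormedAddCommGroup H₂] [InnerProductSpace ℝ H₂] [FiniteDimensional ℝ H₂]
  [MeasurableSpace H₂] [BorelSpace H₂] (μ₂ : Measure H₂) [μ₂.IsAddHaarMeasure]
  {X : Set E} {P₁ : E → H₁ →L[ℝ] H₁} {P₂ : E → H₂ →L[ℝ] H₂} {r₁ r₂ d : ℕ} {R R' : ℝ}
  {τ₁' : E × H₁ → Ext (E × H₁)} {τ₂' : E × H₂ → Ext (E × H₂)}
  {V V' : (E × H₂) × H₁ → Ext ((E × H₂) × H₁)}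

theorem cv_mono (hR : R ≤ R') (h : CV X P₂ P₁ R V) : CV X P₂ P₁ R' V :=
  ⟨h.smooth, fun z hz => h.supp₁ z (hR.trans_lt hz), fun z hz => h.supp₂ z (hR.trans_lt hz),
    h.closed⟩

theorem pu₁_congr (hP₁ : PField X r₁ P₁) (hτ₁ : CSF X (fun x => 1 - P₁ x) R τ₁')
    (hV : CV X P₂ P₁ R V) (hV' : CV X P₂ P₁ R V') (h : Eqv (TT X P₂ P₁) V V') :
    Eqv (Tot X P₂) (pu₁ μ₁ P₁ τ₁' V) (pu₁ μ₁ P₁ τ₁' V') :=
  push_congr μ₁ (X := Tot X P₂) (P := fun z : E × H₂ => P₁ z.1) (pfield_fst (P₂ := P₂) hP₁)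
    (csf_fst (P₂ := P₂) hτ₁) hV.smooth hV.supp₁ hV'.smooth hV'.supp₁ h

/-- the double integral only depends on the restriction to the total space -/
theorem pu₂_congr (hP₁ : PField X r₁ P₁) (hP₂ : PField X r₂ P₂)
    (hτ₁ : CSF X (fun x => 1 - P₁ x) R τ₁') (hτ₂ : CSF X (fun x => 1 - P₂ x) R τ₂')
    (hV : CV X P₂ P₁ R V) (hV' : CV X P₂ P₁ R V') (h : Eqv (TT X P₂ P₁) V V') :
    Eqv X (pu₂ μ₁ μ₂ P₂ τ₂' P₁ τ₁' V) (pu₂ μ₁ μ₂ P₂ τ₂' P₁ τ₁' V') :=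
  push_congr μ₂ hP₂ hτ₂ (csf_pu₁ μ₁ hP₁ hτ₁ hV).smooth (csf_pu₁ μ₁ hP₁ hτ₁ hV).supp
    (csf_pu₁ μ₁ hP₁ hτ₁ hV').smooth (csf_pu₁ μ₁ hP₁ hτ₁ hV').supp
    (pu₁_congr μ₁ hP₁ hτ₁ hV hV' h)

end congr

/-! ### pairs of mutually inverse fibrewise linear maps -/

section pair
variable {E H V : Type*} [NormedAddCommGroup E] [NormedSpace ℝ E]
  [NormedAddCommGroup H] [InnerProductSpace ℝ H] [FiniteDimensional ℝ H]
  [NormedAddCommGroup V] [InnerProductSpace ℝ V] [FiniteDimensional ℝ V]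
  {X : Set E} {P : E → H →L[ℝ] H} {Q : E → V →L[ℝ] V} {T : E → H →L[ℝ] V} {B : E → V →L[ℝ] H}

/-- `T : P → Q` and `B : Q → P` are smooth, `T B = 1` on `Q` and `B` is isometric on `Q` -/
structure Pt (X : Set E) (P : E → H →L[ℝ] H) (Q : E → V →L[ℝ] V) (T : E → H →L[ℝ] V)
    (B : E → V →L[ℝ] H) : Prop where
  sT : ∀ x ∈ X, ContDiffAt ℝ ∞ T x
  sB : ∀ x ∈ X, ContDiffAt ℝ ∞ B x
  mT : ∀ x ∈ X, ∀ w, P x w = w → Q x (T x w) = T x w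
  mB : ∀ x ∈ X, ∀ v, Q x v = v → P x (B x v) = B x v
  TB : ∀ x ∈ X, ∀ v, Q x v = v → T x (B x v) = v
  nB : ∀ x ∈ X, ∀ v, Q x v = v → ‖B x v‖ = ‖v‖

/-- the pair given by an isometric embedding -/
theorem pt_of_iso (sT : ∀ x ∈ X, ContDiffAt ℝ ∞ T x) (iT : ∀ x ∈ X, ∀ w, ‖T x w‖ = ‖w‖)
    (hQ : ∀ x ∈ X, Q x = Qd T P x) :
    Pt X P Q T (fun x => ContinuousLinearMap.adjoint (T x)) := by
  have hT : Triv X (fun _ x => x) (fun _ => ContinuousLinearMap.id ℝ H) T := ⟨sT, iT, fun _ _ _ _ => rfl⟩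
  have key : ∀ x ∈ X, ∀ v, Q x v = v → T x (ContinuousLinearMap.adjoint (T x) v) = v ∧
      P x (ContinuousLinearMap.adjoint (T x) v) = ContinuousLinearMap.adjoint (T x) v :=
    fun x hx v hv => hT.mem_range hx (by rw [← hQ x hx]; exact hv)
  refine ⟨sT, fun x hx => ?_, fun x hx w hw => ?_, fun x hx v hv => (key x hx v hv).2,
    fun x hx v hv => (key x hx v hv).1, fun x hx v hv => ?_⟩
  · exact (ContinuousLinearMap.adjoint (𝕜 := ℝ) (E := H)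
      (F := V)).toContinuousLinearEquiv.contDiff.contDiffAt.comp x (sT x hx)
  · rw [hQ x hx, hT.Qd_T hx, hw]
  · rw [← iT x hx, (key x hx v hv).1]

end pair

section main
variable {E : Type*} [NormedAddCommGroup E] [NormedSpace ℝ E] [FiniteDimensional ℝ E]
  {H₁ V₁ : Type*} [NormedAddCommGroup H₁] [InnerProductSpace ℝ H₁] [FiniteDimensional ℝ H₁]
  [NormedAddCommGroup V₁] [InnerProductSpace ℝ V₁] [FiniteDimensional ℝ V₁]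
  {H₂ V₂ : Type*} [NormedAddCommGroup H₂] [InnerProductSpace ℝ H₂] [FiniteDimensional ℝ H₂]
  [NormedAddCommGroup V₂] [InnerProductSpace ℝ V₂] [FiniteDimensional ℝ V₂]
  {X : Set E} {P₁ : E → H₁ →L[ℝ] H₁} {P₂ : E → H₂ →L[ℝ] H₂}
  {Q₁ : E → V₁ →L[ℝ] V₁} {Q₂ : E → V₂ →L[ℝ] V₂}
  {T₁ : E → H₁ →L[ℝ] V₁} {T₂ : E → H₂ →L[ℝ] V₂} {B₁ : E → V₁ →L[ℝ] H₁} {B₂ : E → V₂ →L[ℝ] H₂}
  {r₁ r₂ d : ℕ} {R : ℝ}

theorem pull_up_fst {V : Type*} [NormedAddCommGroup V] [NormedSpace ℝ V]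
    [FiniteDimensional ℝ V] (t : ℝ) (τ : E × V → Ext (E × V)) :
    F.pull (up (H := V) (fun y : E => ((y, t) : E × ℝ)))
      (F.pull (up (H := V) (Prod.fst : E × ℝ → E)) τ) = τ := by
  funext z
  have h3 := F.pull_comp (f := up (H := V) (fun y : E => ((y, t) : E × ℝ)))
    (g := up (H := V) (Prod.fst : E × ℝ → E)) (om := τ) (x := z)
    (by unfold up; fun_prop) (by unfold up; fun_prop)
  rw [h3]
  exact F.pull_id τ z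

/-- `((x,ν),w) ↦ ((x,T₂ ν),T₁ w)` -/
def Ph2 (T₂ : E → H₂ →L[ℝ] V₂) (T₁ : E → H₁ →L[ℝ] V₁) (z : (E × H₂) × H₁) : (E × V₂) × V₁ :=
  ((z.1.1, T₂ z.1.1 z.1.2), T₁ z.1.1 z.2)

/-- the same with a parameter -/
def La (T₂ : E → H₂ →L[ℝ] V₂) (T₁ : E → H₁ →L[ℝ] V₁) (z : ((E × ℝ) × H₂) × H₁) :
    ((E × V₂) × V₁) × ℝ :=
  (((z.1.1.1, T₂ z.1.1.1 z.1.2), T₁ z.1.1.1 z.2), z.1.1.2)

theorem smap_Ph2 (s₂ : ∀ x ∈ X, ContDiffAt ℝ ∞ T₂ x) (s₁ : ∀ x ∈ X, ContDiffAt ℝ ∞ T₁ x)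
    (m₂ : ∀ x ∈ X, ∀ w, P₂ x w = w → Q₂ x (T₂ x w) = T₂ x w)
    (m₁ : ∀ x ∈ X, ∀ w, P₁ x w = w → Q₁ x (T₁ x w) = T₁ x w) :
    SMap (TT X P₂ P₁) (TT X Q₂ Q₁) (Ph2 T₂ T₁) := by
  refine ⟨fun z hz => ?_, fun z hz => ⟨⟨hz.1.1, m₂ _ hz.1.1 _ hz.1.2⟩, m₁ _ hz.1.1 _ hz.2⟩⟩
  have a2 : ContDiffAt ℝ ∞ (fun z : (E × H₂) × H₁ => T₂ z.1.1) z :=
    ContDiffAt.comp (g := T₂) (f := fun z : (E × H₂) × H₁ => z.1.1) z (s₂ _ hz.1.1) (by fun_prop)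
  have a1 : ContDiffAt ℝ ∞ (fun z : (E × H₂) × H₁ => T₁ z.1.1) z :=
    ContDiffAt.comp (g := T₁) (f := fun z : (E × H₂) × H₁ => z.1.1) z (s₁ _ hz.1.1) (by fun_prop)
  exact ((by fun_prop : ContDiffAt ℝ ∞ (fun z : (E × H₂) × H₁ => z.1.1) z).prodMk
    (a2.clm_apply (by fun_prop))).prodMk (a1.clm_apply (by fun_prop))

theorem smap_La (s₂ : ∀ x ∈ X, ContDiffAt ℝ ∞ T₂ x) (s₁ : ∀ x ∈ X, ContDiffAt ℝ ∞ T₁ x)
    (m₂ : ∀ x ∈ X, ∀ w, P₂ x w = w → Q₂ x (T₂ x w) = T₂ x w)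
    (m₁ : ∀ x ∈ X, ∀ w, P₁ x w = w → Q₁ x (T₁ x w) = T₁ x w) :
    SMap (TT (X ×ˢ (univ : Set ℝ)) (fun p => P₂ p.1) (fun p => P₁ p.1))
      (TT X Q₂ Q₁ ×ˢ (univ : Set ℝ)) (La T₂ T₁) := by
  refine ⟨fun z hz => ?_, fun z hz => ⟨⟨⟨hz.1.1.1, m₂ _ hz.1.1.1 _ hz.1.2⟩,
    m₁ _ hz.1.1.1 _ hz.2⟩, mem_univ _⟩⟩
  have hx : z.1.1.1 ∈ X := hz.1.1.1
  have a2 : ContDiffAt ℝ ∞ (fun z : ((E × ℝ) × H₂) × H₁ => T₂ z.1.1.1) z :=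
    ContDiffAt.comp (g := T₂) (f := fun z : ((E × ℝ) × H₂) × H₁ => z.1.1.1) z (s₂ _ hx)
      (by fun_prop)
  have a1 : ContDiffAt ℝ ∞ (fun z : ((E × ℝ) × H₂) × H₁ => T₁ z.1.1.1) z :=
    ContDiffAt.comp (g := T₁) (f := fun z : ((E × ℝ) × H₂) × H₁ => z.1.1.1) z (s₁ _ hx)
      (by fun_prop)
  exact (((by fun_prop : ContDiffAt ℝ ∞ (fun z : ((E × ℝ) × H₂) × H₁ => z.1.1.1) z).prodMk
    (a2.clm_apply (by fun_prop))).prodMk (a1.clm_apply (by fun_prop))).prodMk (by fun_prop)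

end main

section hom
universe u
variable {E : Type u} [NormedAddCommGroup E] [NormedSpace ℝ E] [FiniteDimensional ℝ E]
  {H₁ V₁ : Type*} [NormedAddCommGroup H₁] [InnerProductSpace ℝ H₁] [FiniteDimensional ℝ H₁]
  [NormedAddCommGroup V₁] [InnerProductSpace ℝ V₁] [FiniteDimensional ℝ V₁]
  [MeasurableSpace V₁] [BorelSpace V₁] (μ₁ : Measure V₁) [μ₁.IsAddHaarMeasure]
  {H₂ V₂ : Type*} [NormedAddCommGroup H₂] [InnerProductSpace ℝ H₂] [FiniteDimensional ℝ H₂]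
  [NormedAddCommGroup V₂] [InnerProductSpace ℝ V₂] [FiniteDimensional ℝ V₂]
  [MeasurableSpace V₂] [BorelSpace V₂] (μ₂ : Measure V₂) [μ₂.IsAddHaarMeasure]
  {X : Set E} {P₁ : E → H₁ →L[ℝ] H₁} {P₂ : E → H₂ →L[ℝ] H₂}
  {Q₁ : E → V₁ →L[ℝ] V₁} {Q₂ : E → V₂ →L[ℝ] V₂}
  {T₁ : E → H₁ →L[ℝ] V₁} {T₂ : E → H₂ →L[ℝ] V₂} {B₁ : E → V₁ →L[ℝ] H₁} {B₂ : E → V₂ →L[ℝ] H₂}
  {r₁ r₂ d : ℕ} {R R₀ R₁ R₂ : ℝ}
  {τ₁' : E × V₁ → Ext (E × V₁)} {τ₂' : E × V₂ → Ext (E × V₂)}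
  {Om : ((E × H₂) × H₁) × ℝ → Ext (((E × H₂) × H₁) × ℝ)}
  {V0 V1 : (E × V₂) × V₁ → Ext ((E × V₂) × V₁)}

/-- **AK15 (HOM)**: a closed form on `TT X P₂ P₁ × ℝ` which vanishes outside the `R`-disks gives
cohomologous double integrals at the times `0` and `1`. -/
theorem hom (hX : Sub d X) (h₁ : Pt X P₁ Q₁ T₁ B₁) (h₂ : Pt X P₂ Q₂ T₂ B₂)
    (hQ₁ : PField X r₁ Q₁) (hQ₂ : PField X r₂ Q₂)
    (hτ₁ : CSF X (fun x => 1 - Q₁ x) R₁ τ₁') (hτ₂ : CSF X (fun x => 1 - Q₂ x) R₂ τ₂')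
    (hR : 0 ≤ R) (sO : Sm (TT X P₂ P₁ ×ˢ (univ : Set ℝ)) Om)
    (cO : Cl (TT X P₂ P₁ ×ˢ (univ : Set ℝ)) Om)
    (zO : ∀ p ∈ TT X P₂ P₁ ×ˢ (univ : Set ℝ), (R < ‖p.1.2‖ ∨ R < ‖p.1.1.2‖) →
      pb (Tan (TT X P₂ P₁ ×ˢ (univ : Set ℝ)) p).subtype (Om p) = 0) (j : ℕ)
    (hV0 : CV X Q₂ Q₁ R₀ V0) (hV1 : CV X Q₂ Q₁ R₀ V1)
    (e0 : Eqv (TT X P₂ P₁) (F.pull (Ph2 T₂ T₁) V0)
      (T.dp j (F.pull (fun z : (E × H₂) × H₁ => (z, (0 : ℝ))) Om)))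
    (e1 : Eqv (TT X P₂ P₁) (F.pull (Ph2 T₂ T₁) V1)
      (T.dp j (F.pull (fun z : (E × H₂) × H₁ => (z, (1 : ℝ))) Om))) :
    Coh X (pu₂ μ₁ μ₂ Q₂ τ₂' Q₁ τ₁' V1) (pu₂ μ₁ μ₂ Q₂ τ₂' Q₁ τ₁' V0) := by
  -- the form with a parameter
  have sΛ : SMap (TT (X ×ˢ (univ : Set ℝ)) (fun p => Q₂ p.1) (fun p => Q₁ p.1))
      (TT X P₂ P₁ ×ˢ (univ : Set ℝ)) (La B₂ B₁) := smap_La h₂.sB h₁.sB h₂.mB h₁.mB
  have sfst : SMap (X ×ˢ (univ : Set ℝ)) X (Prod.fst : E × ℝ → E) :=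
    ⟨fun _ _ => contDiffAt_fst, fun _ hp => hp.1⟩
  have hXR : Sub (d + 1) (X ×ˢ (univ : Set ℝ)) := VC.sub_prod hX isOpen_univ
  have hQ₁' : PField (X ×ˢ (univ : Set ℝ)) r₁ (fun p : E × ℝ => Q₁ p.1) := pfield_up hQ₁ sfst
  have hQ₂' : PField (X ×ˢ (univ : Set ℝ)) r₂ (fun p : E × ℝ => Q₂ p.1) := pfield_up hQ₂ sfst
  have hTT := sub_TT hXR hQ₁' hQ₂'
  set W₀ := T.dp j (F.pull (La B₂ B₁) Om) with hW₀
  have sW₀ : Sm (TT (X ×ˢ (univ : Set ℝ)) (fun p => Q₂ p.1) (fun p => Q₁ p.1)) W₀ :=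
    (sO.pull sΛ).dp j
  have cW₀ : Cl (TT (X ×ˢ (univ : Set ℝ)) (fun p => Q₂ p.1) (fun p => Q₁ p.1)) W₀ :=
    Cl.dp j (sO.pull sΛ) (cO.pull sΛ sO)
  have zW₀ : ∀ z ∈ TT (X ×ˢ (univ : Set ℝ)) (fun p : E × ℝ => Q₂ p.1) (fun p => Q₁ p.1),
      (R < ‖z.2‖ ∨ R < ‖z.1.2‖) →
      pb (Tan (TT (X ×ˢ (univ : Set ℝ)) (fun p : E × ℝ => Q₂ p.1) (fun p => Q₁ p.1)) z).subtype
        (W₀ z) = 0 := by
    intro z hz hz2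
    have n1 : ‖(La B₂ B₁ z).1.2‖ = ‖z.2‖ := h₁.nB _ hz.1.1.1 _ hz.2
    have n2 : ‖(La B₂ B₁ z).1.1.2‖ = ‖z.1.2‖ := h₂.nB _ hz.1.1.1 _ hz.1.2
    have k1 := zO (La B₂ B₁ z) (sΛ.maps hz) (by rw [n1, n2]; exact hz2)
    have k2 : pb (Tan (TT (X ×ˢ (univ : Set ℝ)) (fun p : E × ℝ => Q₂ p.1)
        (fun p => Q₁ p.1)) z).subtype (F.pull (La B₂ B₁) Om z) = 0 :=
      pb_pull_eq_zero (sΛ.diff hz) sΛ.maps k1
    rw [hW₀, T.dp, ← dpl_pb, k2, map_zero]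
  -- the cut off form
  set W := cut₂ R W₀ with hW
  have eW : Eqv (TT (X ×ˢ (univ : Set ℝ)) (fun p => Q₂ p.1) (fun p => Q₁ p.1)) W W₀ :=
    eqv_cut₂ hR zW₀
  have sW : Sm (TT (X ×ˢ (univ : Set ℝ)) (fun p => Q₂ p.1) (fun p => Q₁ p.1)) W := fun z hz =>
    ((((contDiff_chi R).comp contDiff_snd).mul
      ((contDiff_chi R).comp (contDiff_snd.comp contDiff_fst))).contDiffAt).smul (sW₀ z hz)
  have hCV : CV (X ×ˢ (univ : Set ℝ)) (fun p : E × ℝ => Q₂ p.1) (fun p => Q₁ p.1) (R + 1) W :=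
    ⟨sW, fun z hz => by rw [hW, cut₂, chi_zero hR hz.le, zero_mul, zero_smul],
      fun z hz => by rw [hW, cut₂, chi_zero hR hz.le, mul_zero, zero_smul],
      Cl.of_eqv hTT sW sW₀ eW cW₀⟩
  -- common radius
  set M := max (max (R + 1) R₀) (max R₁ R₂) with hM
  have m1 : R + 1 ≤ M := (le_max_left _ _).trans (le_max_left _ _)
  have m2 : R₀ ≤ M := (le_max_right _ _).trans (le_max_left _ _)
  have m3 : R₁ ≤ M := (le_max_left _ _).trans (le_max_right _ _)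
  have m4 : R₂ ≤ M := (le_max_right _ _).trans (le_max_right _ _)
  have hCV' := cv_mono m1 hCV
  have t1 : CSF (X ×ˢ (univ : Set ℝ)) (fun p : E × ℝ => (1 : V₁ →L[ℝ] V₁) - Q₁ p.1) M
      (F.pull (up (H := V₁) (Prod.fst : E × ℝ → E)) τ₁') :=
    csf_up (P := fun x => 1 - Q₁ x) sfst (csf_mono m3 hτ₁)
  have t2 : CSF (X ×ˢ (univ : Set ℝ)) (fun p : E × ℝ => (1 : V₂ →L[ℝ] V₂) - Q₂ p.1) M
      (F.pull (up (H := V₂) (Prod.fst : E × ℝ → E)) τ₂') :=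
    csf_up (P := fun x => 1 - Q₂ x) sfst (csf_mono m4 hτ₂)
  have hh := pu₂_homotopy μ₁ μ₂ (X := X) (I := univ) (subset_univ _) hQ₁' hQ₂' t1 t2 hCV'
  -- the pulled back auxiliary forms
  have key : ∀ (t : ℝ) (Vt' : (E × V₂) × V₁ → Ext ((E × V₂) × V₁)), CV X Q₂ Q₁ R₀ Vt' →
      Eqv (TT X P₂ P₁) (F.pull (Ph2 T₂ T₁) Vt')
        (T.dp j (F.pull (fun z : (E × H₂) × H₁ => (z, t)) Om)) →
      Eqv X (pu₂ μ₁ μ₂ Q₂ τ₂' Q₁ τ₁' Vt') (pu₂ μ₁ μ₂ (fun y => Q₂ ((y, t) : E × ℝ).1)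
        (F.pull (up fun y => (y, t)) (F.pull (up (H := V₂) (Prod.fst : E × ℝ → E)) τ₂'))
        (fun y => Q₁ ((y, t) : E × ℝ).1)
        (F.pull (up fun y => (y, t)) (F.pull (up (H := V₁) (Prod.fst : E × ℝ → E)) τ₁'))
        (F.pull (up (up fun y => (y, t))) W)) := by
    intro t Vt' hVt' et
    rw [pull_up_fst, pull_up_fst]
    have sat : SMap X (X ×ˢ (univ : Set ℝ)) (fun x : E => ((x, t) : E × ℝ)) :=
      smap_at univ (mem_univ t)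
    have hcv : CV X Q₂ Q₁ M (F.pull (up (up fun y => ((y, t) : E × ℝ))) W) :=
      cv_up (P₁ := fun p : E × ℝ => Q₁ p.1) (P₂ := fun p : E × ℝ => Q₂ p.1) sat hCV'
    refine pu₂_congr μ₁ μ₂ hQ₁ hQ₂ (csf_mono m3 hτ₁) (csf_mono m4 hτ₂) (cv_mono m2 hVt') hcv ?_
    -- comparison on the total space
    have sΨ : SMap (TT X Q₂ Q₁) (TT X P₂ P₁) (Ph2 B₂ B₁) := smap_Ph2 h₂.sB h₁.sB h₂.mB h₁.mB
    have sΦ : SMap (TT X P₂ P₁) (TT X Q₂ Q₁) (Ph2 T₂ T₁) := smap_Ph2 h₂.sT h₁.sT h₂.mT h₁.mT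
    have sup : SMap (TT X Q₂ Q₁) (TT (X ×ˢ (univ : Set ℝ)) (fun p => Q₂ p.1) (fun p => Q₁ p.1))
        (up (up fun y => ((y, t) : E × ℝ))) :=
      smap_up2 (P₁ := fun p : E × ℝ => Q₁ p.1) (P₂ := fun p : E × ℝ => Q₂ p.1) sat
    have sι : SMap (TT X P₂ P₁) (TT X P₂ P₁ ×ˢ (univ : Set ℝ))
        (fun z : (E × H₂) × H₁ => (z, t)) :=
      ⟨fun _ _ => contDiffAt_id.prodMk contDiffAt_const, fun _ hz => ⟨hz, mem_univ _⟩⟩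
    have a1 : Eqv (TT X Q₂ Q₁) (F.pull (Ph2 B₂ B₁) (F.pull (Ph2 T₂ T₁) Vt')) Vt' := by
      refine (eqv_pull_pull sΨ sΦ (SMap.id _) (fun z hz => ?_) Vt').trans
        (Eqv.of_eq fun z _ => F.pull_id Vt' z)
      exact Prod.ext (Prod.ext rfl (h₂.TB _ hz.1.1 _ hz.1.2)) (h₁.TB _ hz.1.1 _ hz.2)
    have a2 := et.pull sΨ
    have a3 : Eqv (TT X Q₂ Q₁) (F.pull (Ph2 B₂ B₁)
        (T.dp j (F.pull (fun z : (E × H₂) × H₁ => (z, t)) Om)))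
        (F.pull (up (up fun y => ((y, t) : E × ℝ))) W₀) := by
      rw [hW₀, ← dp_pull, ← dp_pull]
      exact ((eqv_pull_pull sΨ sι (sι.comp sΨ) (fun z hz => rfl) Om).trans
        (eqv_pull_pull sup sΛ (sι.comp sΨ) (fun z hz => rfl) Om).symm).dp j
    exact a1.symm.trans (a2.trans (a3.trans (eW.symm.pull sup)))
  exact (Coh.of_eqv (key 1 V1 hV1 e1)).trans (hh.trans (Coh.of_eqv (key 0 V0 hV0 e0).symm))

end hom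

end Crest.Agent.R208.HO
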