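import Crest.Agent.R241.D3c

/-!
R208, block G7 (helper88), file HS1: Jacobi fields of reversed and of closed geodesics; the polar
metric `PolarAt` and its symmetry.
-/

set_option autoImplicit false

open Set Filter Topology
open scoped ContDiff RealInnerProductSpace
open Crest.GeometryTopology.Submanifold
open Crest.Agent.R241.DDefs
open Crest.Agent.R241.D2
open Crest.Agent.R241.D3b
open Crest.Agent.R241.D3c

noncomputable section

namespace Crest.Agent.R208.HS

variable {n N : ℕ} {κ : ℝ} {S : Set (Euc N)} (G : Geo n N κ S)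

/-- The equality case of the volume inequality, along the geodesic with initial unit vector `v`:
the Jacobi fields vanishing at `p` with derivative in `E` have norm `sin t`, those with derivative
perpendicular to `v` and `E` have norm `2 sin (t/2)`, and the two kinds are orthogonal. -/
def PolarAt (p v : Euc N) : Prop :=
  ∃ E : Submodule ℝ (Euc N), E ≤ G.T p ∧ (∀ w ∈ E, ⟪v, w⟫ = 0) ∧
    ∀ w₁ ∈ E, ∀ w₂ ∈ G.T p, ⟪v, w₂⟫ = 0 → (∀ u ∈ E, ⟪u, w₂⟫ = 0) →
      ∀ t ∈ Icc (0 : ℝ) Real.pi, ‖J G p v (w₁ + w₂) t‖ ^ 2 =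
        Real.sin t ^ 2 * ‖w₁‖ ^ 2 + 4 * Real.sin (t / 2) ^ 2 * ‖w₂‖ ^ 2

/-- all unit speed geodesics are closed with period `2π` -/
def Per : Prop := ∀ z ∈ TS G, ‖z.2‖ = 1 → fl G (z, 2 * Real.pi) = z

variable {G} {p v w : Euc N}

lemma hasDerivAt_al_s (hp : p ∈ S) (hv : v ∈ G.T p) (hw : w ∈ G.T p) (t : ℝ) :
    HasDerivAt (fun s => al G p v w (s, t)) (J G p v w t) 0 :=
  hasDerivAt_s (q := ((0 : ℝ), t)) ((contDiff_al G hp hv hw).differentiable (by simp) _)

/-- `dExp_{tv}(t w) = J(t)` -/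
lemma fderiv_Exp_smul (hp : p ∈ S) (hv : v ∈ G.T p) (hw : w ∈ G.T p) (t : ℝ) :
    fderiv ℝ (Exp G p) (t • v) (t • w) = J G p v w t := by
  rw [fderiv_Exp G hp ((G.T p).smul_mem t hv) ((G.T p).smul_mem t hw)]
  have h1 := hasDerivAt_al_s (G := G) hp ((G.T p).smul_mem t hv) ((G.T p).smul_mem t hw) 1
  have h2 := hasDerivAt_al_s (G := G) hp hv hw t
  have h3 : (fun s => al G p (t • v) (t • w) (s, 1)) = fun s => al G p v w (s, t) := by
    ext1 s
    unfold al
    have h4 : t • v + s • t • w = t • (v + s • w) := by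
      rw [smul_add, smul_comm s t w]
    simp only [h4]
    rw [fl_scale G (mem_TS' G hp hv hw s), mul_one]
  rw [h3] at h1
  exact h1.unique h2

/-- reversed geodesics -/
lemma J_neg (hp : p ∈ S) (hv : v ∈ G.T p) (hw : w ∈ G.T p) (t : ℝ) :
    J G p (-v) w t = -J G p v w (-t) := by
  have h1 := hasDerivAt_al_s (G := G) hp ((G.T p).neg_mem hv) hw t
  have h2 := hasDerivAt_al_s (G := G) hp hv hw (-t)
  have h2' : HasDerivAt (fun s => al G p v w (s, -t)) (J G p v w (-t)) (-0) := by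
    rw [neg_zero]; exact h2
  have h3 := h2'.scomp (0 : ℝ) (hasDerivAt_neg (0 : ℝ))
  have h4 : (fun s => al G p (-v) w (s, t)) = (fun s => al G p v w (s, -t)) ∘ Neg.neg := by
    ext1 s
    unfold al
    have hq := mem_TS' G hp hv hw (-s)
    have h5 := (fl_rev G (complete G hq (-t))).2
    rw [neg_neg] at h5
    have h6 : rev (p, v + (-s) • w) = (p, -v + s • w) := by
      simp [rev]
      abel
    rw [h6] at h5
    simp only [Function.comp_apply]
    rw [h5]
    rfl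
  rw [h4] at h1
  rw [h1.unique h3]
  simp

/-- Jacobi fields along closed geodesics. -/
lemma J_periodic (hper : Per G) (hp : p ∈ S) (hv : v ∈ G.T p) (hv1 : ‖v‖ = 1) (hw : w ∈ G.T p)
    (hvw : ⟪v, w⟫ = 0) (t : ℝ) : J G p v w (t + 2 * Real.pi) = J G p v w t := by
  have hd := (contDiff_al G hp hv hw).differentiable (by simp) ((0 : ℝ), t + 2 * Real.pi)
  -- the period of the geodesic with velocity `v + s w`
  set r : ℝ → ℝ := fun s => ‖v + s • w‖ with hr
  have hr0 : r 0 = 1 := by simp [hr, hv1]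
  have hrd : HasDerivAt r 0 0 := by
    have h1 : HasDerivAt (fun s : ℝ => v + s • w) w 0 := by
      simpa using ((hasDerivAt_id (0 : ℝ)).smul_const w).const_add v
    have h2 := h1.norm_sq
    have h3 : HasDerivAt (fun s : ℝ => Real.sqrt (‖v + s • w‖ ^ 2)) _ 0 :=
      h2.sqrt (by simp [hv1])
    have h4 : (fun s : ℝ => Real.sqrt (‖v + s • w‖ ^ 2)) = r := by
      ext1 s; exact Real.sqrt_sq (norm_nonneg _)
    rw [h4] at h3
    refine h3.congr_deriv ?_
    simp [hvw]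
  have hτ : HasDerivAt (fun s => t + 2 * Real.pi / r s) 0 0 := by
    have h1 := (hrd.inv (by rw [hr0]; exact one_ne_zero)).const_mul (2 * Real.pi)
    have h2 := h1.const_add t
    refine h2.congr_deriv ?_
    simp
  have hcurve : HasDerivAt (fun s : ℝ => ((s, t + 2 * Real.pi / r s) : ℝ × ℝ)) (1, 0) 0 :=
    (hasDerivAt_id (0 : ℝ)).prodMk hτ
  have hpt : ((0 : ℝ), t + 2 * Real.pi / r 0) = ((0 : ℝ), t + 2 * Real.pi) := by
    rw [hr0, div_one]
  have h1 : HasDerivAt (fun s => al G p v w (s, t + 2 * Real.pi / r s))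
      (J G p v w (t + 2 * Real.pi)) 0 := by
    have h2 : HasFDerivAt (al G p v w) (fderiv ℝ (al G p v w) (0, t + 2 * Real.pi))
        ((fun s : ℝ => ((s, t + 2 * Real.pi / r s) : ℝ × ℝ)) 0) := by
      simp only [hpt]
      exact hd.hasFDerivAt
    exact h2.comp_hasDerivAt (0 : ℝ) hcurve
  have h2 := hasDerivAt_al_s (G := G) hp hv hw t
  have h3 : (fun s => al G p v w (s, t + 2 * Real.pi / r s)) =ᶠ[𝓝 0]
      fun s => al G p v w (s, t) := by
    have h4 : ∀ᶠ s in 𝓝 (0 : ℝ), r s ≠ 0 := by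
      have : ContinuousAt r 0 := hrd.continuousAt
      exact this.eventually_ne (by rw [hr0]; exact one_ne_zero)
    filter_upwards [h4] with s hs
    unfold al
    have hq := mem_TS' G hp hv hw s
    simp only
    -- unit vector
    set u : Euc N := (r s)⁻¹ • (v + s • w) with hu
    have hrpos : 0 < r s := lt_of_le_of_ne (norm_nonneg _) (Ne.symm hs)
    have hu1 : ‖u‖ = 1 := by
      rw [hu, norm_smul, norm_inv, Real.norm_eq_abs, abs_of_pos hrpos]
      exact inv_mul_cancel₀ hs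
    have huT : (p, u) ∈ TS G := ⟨hp, (G.T p).smul_mem _ hq.2⟩
    have hvu : v + s • w = r s • u := by
      rw [hu, smul_smul, mul_inv_cancel₀ hs, one_smul]
    rw [hvu, fl_scale G huT, fl_scale G huT]
    simp only
    have h5 : r s * (t + 2 * Real.pi / r s) = 2 * Real.pi + r s * t := by
      field_simp
      ring
    rw [h5, fl_add' G huT, hper _ huT hu1]
  exact (h1.congr_of_eventuallyEq h3.symm).unique h2

/-- decomposition with respect to a subspace of `v^⊥`. -/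
lemma exists_decomp {E : Submodule ℝ (Euc N)} (hE : E ≤ G.T p) (hEv : ∀ w ∈ E, ⟪v, w⟫ = 0)
    (hw : w ∈ G.T p) (hvw : ⟪v, w⟫ = 0) :
    ∃ w₁ ∈ E, ∃ w₂ ∈ G.T p, ⟪v, w₂⟫ = 0 ∧ (∀ u ∈ E, ⟪u, w₂⟫ = 0) ∧ w = w₁ + w₂ := by
  have h1 : E.starProjection w ∈ E := Submodule.starProjection_apply_mem _ _
  refine ⟨E.starProjection w, h1, w - E.starProjection w,
    (G.T p).sub_mem hw (hE h1), ?_, ?_, by abel⟩
  · rw [inner_sub_right, hvw, hEv _ h1, sub_zero]
  · intro u hu
    have := Submodule.sub_starProjection_mem_orthogonal (K := E) w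
    exact (Submodule.mem_orthogonal _ _).1 this u hu

/-- the norms of the Jacobi fields along a geodesic and along the reversed geodesic agree. -/
theorem norm_J_neg (hper : Per G) (hp : p ∈ S) (hv : v ∈ G.T p) (hv1 : ‖v‖ = 1)
    (hw : w ∈ G.T p) (hvw : ⟪v, w⟫ = 0) (h : PolarAt G p v) (h' : PolarAt G p (-v)) {t : ℝ}
    (ht : t ∈ Icc (0 : ℝ) Real.pi) : ‖J G p (-v) w t‖ = ‖J G p v w t‖ := by
  obtain ⟨E, hE, hEv, hEJ⟩ := h
  obtain ⟨E', hE', hEv', hEJ'⟩ := h'
  have hEv'' : ∀ w ∈ E', ⟪v, w⟫ = 0 := fun w hw => by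
    have := hEv' w hw
    rwa [inner_neg_left, neg_eq_zero] at this
  have hpi : Real.pi ∈ Icc (0 : ℝ) Real.pi := ⟨Real.pi_pos.le, le_rfl⟩
  have hJπ : ∀ u ∈ G.T p, ⟪v, u⟫ = 0 → J G p (-v) u Real.pi = -J G p v u Real.pi := by
    intro u hu huv
    rw [J_neg hp hv hu]
    have := J_periodic hper hp hv hv1 hu huv (-Real.pi)
    rw [show -Real.pi + 2 * Real.pi = Real.pi by ring] at this
    rw [← this]
  have hz : ∀ u₁ ∈ E, J G p v u₁ Real.pi = 0 := by
    intro u hu
    have := hEJ u hu 0 (G.T p).zero_mem (by simp) (by simp) _ hpi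
    simpa using this
  have hz' : ∀ u₁ ∈ E', J G p (-v) u₁ Real.pi = 0 := by
    intro u hu
    have := hEJ' u hu 0 (G.T p).zero_mem (by simp) (by simp) _ hpi
    simpa using this
  have hsin : Real.sin (Real.pi / 2) = 1 := Real.sin_pi_div_two
  have hle : ∀ u ∈ G.T p, ⟪v, u⟫ = 0 → J G p v u Real.pi = 0 → u ∈ E := by
    intro u hu huv hJu
    obtain ⟨u₁, h1, u₂, h2, h3, h4, rfl⟩ := exists_decomp (G := G) hE hEv hu huv
    have := hEJ u₁ h1 u₂ h2 h3 h4 _ hpi
    rw [hJu, hsin] at this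
    simp at this
    rw [this, add_zero]
    exact h1
  have hle' : ∀ u ∈ G.T p, ⟪v, u⟫ = 0 → J G p (-v) u Real.pi = 0 → u ∈ E' := by
    intro u hu huv hJu
    obtain ⟨u₁, h1, u₂, h2, h3, h4, rfl⟩ := exists_decomp (G := G) hE' hEv'' hu huv
    have := hEJ' u₁ h1 u₂ h2 (by rw [inner_neg_left, h3, neg_zero]) h4 _ hpi
    rw [hJu, hsin] at this
    simp at this
    rw [this, add_zero]
    exact h1
  have hEE : E = E' := by
    apply le_antisymm
    · intro u hu
      refine hle' u (hE hu) (hEv u hu) ?_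
      rw [hJπ u (hE hu) (hEv u hu), hz u hu, neg_zero]
    · intro u hu
      refine hle u (hE' hu) (hEv'' u hu) ?_
      have := hJπ u (hE' hu) (hEv'' u hu)
      rw [hz' u hu] at this
      exact neg_eq_zero.1 this.symm
  subst hEE
  obtain ⟨w₁, h1, w₂, h2, h3, h4, rfl⟩ := exists_decomp (G := G) hE hEv hw hvw
  have e1 := hEJ w₁ h1 w₂ h2 h3 h4 t ht
  have e2 := hEJ' w₁ h1 w₂ h2 (by rw [inner_neg_left, h3, neg_zero]) h4 t ht
  rw [← e1] at e2
  exact (sq_eq_sq₀ (norm_nonneg _) (norm_nonneg _)).1 e2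

/-- Jacobi fields do not vanish before `π`. -/
theorem J_ne_zero (h : PolarAt G p v) (hw : w ∈ G.T p) (hvw : ⟪v, w⟫ = 0) {t : ℝ}
    (ht : t ∈ Ioo (0 : ℝ) Real.pi) (hJ : J G p v w t = 0) : w = 0 := by
  obtain ⟨E, hE, hEv, hEJ⟩ := h
  obtain ⟨w₁, h1, w₂, h2, h3, h4, rfl⟩ := exists_decomp (G := G) hE hEv hw hvw
  have e1 := hEJ w₁ h1 w₂ h2 h3 h4 t ⟨ht.1.le, ht.2.le⟩
  have s1 : 0 < Real.sin t := Real.sin_pos_of_pos_of_lt_pi ht.1 ht.2
  have s2 : 0 < Real.sin (t / 2) := Real.sin_pos_of_pos_of_lt_pi (by linarith [ht.1])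
    (by linarith [ht.1, ht.2])
  rw [hJ, norm_zero] at e1
  have p1 : 0 ≤ Real.sin t ^ 2 * ‖w₁‖ ^ 2 := by positivity
  have p2 : 0 ≤ 4 * Real.sin (t / 2) ^ 2 * ‖w₂‖ ^ 2 := by positivity
  have z1 : Real.sin t ^ 2 * ‖w₁‖ ^ 2 = 0 := by nlinarith
  have z2 : 4 * Real.sin (t / 2) ^ 2 * ‖w₂‖ ^ 2 = 0 := by nlinarith
  have y1 : w₁ = 0 := by
    rcases mul_eq_zero.1 z1 with h | h
    · exact absurd h (by positivity)
    · simpa using h
  have y2 : w₂ = 0 := by
    rcases mul_eq_zero.1 z2 with h | h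
    · exact absurd h (by positivity)
    · simpa using h
  rw [y1, y2, add_zero]

end Crest.Agent.R208.HS
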