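import Crest.Agent.R208.HS1
import Crest.Agent.R208.G3

/-!
R208, block G7 (helper88), file HS2: the differential of `exp` at `ξ` and `-ξ`; the point symmetries.
-/

set_option autoImplicit false

open Set Filter Topology
open scoped ContDiff RealInnerProductSpace
open Crest.GeometryTopology.Submanifold
open Crest.Agent.R241.DDefs
open Crest.Agent.R241.D2
open Crest.Agent.R241.D3b
open Crest.Agent.R241.D3c

noncomputable section

namespace Crest.Agent.R208.HS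

variable {n N : ℕ} {κ : ℝ} {S : Set (Euc N)} {G : Geo n N κ S} {p v w : Euc N}

/-- Gauss lemma, squared norm of `dExp`. -/
lemma norm_sq_fderiv (hp : p ∈ S) (hv : v ∈ G.T p) (hv1 : ‖v‖ = 1) (hw : w ∈ G.T p)
    (hvw : ⟪v, w⟫ = 0) (a : ℝ) {t : ℝ} (ht : 0 < t) :
    t ^ 2 * ‖fderiv ℝ (Exp G p) (t • v) (a • v + w)‖ ^ 2 = t ^ 2 * a ^ 2 + ‖J G p v w t‖ ^ 2 := by
  have htv := (G.T p).smul_mem t hv
  have htw := (G.T p).smul_mem t hw
  have h1 : t • fderiv ℝ (Exp G p) (t • v) (a • v + w) =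
      a • Vel G p (t • v) + J G p v w t := by
    rw [← fderiv_Exp_self G hp htv, ← fderiv_Exp_smul hp hv hw]
    simp only [map_add, map_smul, smul_add]
    rw [smul_comm]
  have h2 : ⟪Vel G p (t • v), J G p v w t⟫ = 0 := by
    rw [← fderiv_Exp_smul hp hv hw, real_inner_comm, gauss G hp htv htw, inner_smul_left,
      inner_smul_right, hvw]
    simp
  have h3 : ‖Vel G p (t • v)‖ = t := by
    rw [norm_Vel G hp htv, norm_smul, hv1, mul_one, Real.norm_eq_abs, abs_of_pos ht]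
  have h4 : ‖t • fderiv ℝ (Exp G p) (t • v) (a • v + w)‖ ^ 2 =
      t ^ 2 * ‖fderiv ℝ (Exp G p) (t • v) (a • v + w)‖ ^ 2 := by
    rw [norm_smul, mul_pow, Real.norm_eq_abs, sq_abs]
  rw [← h4, h1, norm_add_sq_real, inner_smul_left, h2, norm_smul, h3, mul_pow, Real.norm_eq_abs,
    sq_abs]
  simp
  ring

lemma exists_polar (hv : v ∈ G.T p) (h0 : v ≠ 0) :
    ∃ u ∈ G.T p, ‖u‖ = 1 ∧ v = ‖v‖ • u := by
  have hn : ‖v‖ ≠ 0 := norm_ne_zero_iff.2 h0
  refine ⟨‖v‖⁻¹ • v, (G.T p).smul_mem _ hv, ?_, ?_⟩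
  · rw [norm_smul, norm_inv, norm_norm, inv_mul_cancel₀ hn]
  · rw [smul_smul, mul_inv_cancel₀ hn, one_smul]

/-- `dExp` at `-ξ` and at `ξ` have the same metric. -/
theorem norm_fderiv_neg (hper : Per G) (hpol : ∀ v ∈ G.T p, ‖v‖ = 1 → PolarAt G p v) (hp : p ∈ S)
    {ξ η : Euc N} (hξ : ξ ∈ G.T p) (hη : η ∈ G.T p) (hle : ‖ξ‖ ≤ Real.pi) :
    ‖fderiv ℝ (Exp G p) (-ξ) η‖ = ‖fderiv ℝ (Exp G p) ξ η‖ := by
  by_cases h0 : ξ = 0
  · rw [h0, neg_zero]
  obtain ⟨v, hv, hv1, hξv⟩ := exists_polar hξ h0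
  set t := ‖ξ‖ with ht
  have htpos : 0 < t := norm_pos_iff.2 h0
  set a := ⟪v, η⟫ with ha
  set w := η - a • v with hw
  have hwT : w ∈ G.T p := (G.T p).sub_mem hη ((G.T p).smul_mem a hv)
  have hvw : ⟪v, w⟫ = 0 := by
    rw [hw, inner_sub_right, inner_smul_right, real_inner_self_eq_norm_sq, hv1, ← ha]
    ring
  have hη1 : η = a • v + w := by rw [hw]; abel
  have hη2 : η = (-a) • (-v) + w := by rw [hη1]; simp
  have hnv : -v ∈ G.T p := (G.T p).neg_mem hv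
  have hnv1 : ‖-v‖ = 1 := by rw [norm_neg, hv1]
  have hnvw : ⟪-v, w⟫ = 0 := by rw [inner_neg_left, hvw, neg_zero]
  have e1 := norm_sq_fderiv hp hv hv1 hwT hvw a htpos
  have e2 := norm_sq_fderiv hp hnv hnv1 hwT hnvw (-a) htpos
  rw [← hη1, ← hξv] at e1
  rw [← hη2, smul_neg, ← hξv, norm_J_neg hper hp hv hv1 hwT hvw (hpol v hv hv1)
    (hpol _ hnv hnv1) ⟨htpos.le, hle⟩] at e2
  have e3 : t ^ 2 * ‖fderiv ℝ (Exp G p) (-ξ) η‖ ^ 2 = t ^ 2 * ‖fderiv ℝ (Exp G p) ξ η‖ ^ 2 := by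
    rw [e1, e2]; ring
  have e4 : ‖fderiv ℝ (Exp G p) (-ξ) η‖ ^ 2 = ‖fderiv ℝ (Exp G p) ξ η‖ ^ 2 :=
    mul_left_cancel₀ (by positivity) e3
  exact (sq_eq_sq₀ (norm_nonneg _) (norm_nonneg _)).1 e4

/-- `dExp` is injective on the open ball of radius `π`. -/
theorem fderiv_Exp_inj (hpol : ∀ v ∈ G.T p, ‖v‖ = 1 → PolarAt G p v) (hp : p ∈ S)
    {ξ η : Euc N} (hξ : ξ ∈ G.T p) (hη : η ∈ G.T p) (hlt : ‖ξ‖ < Real.pi)
    (h : fderiv ℝ (Exp G p) ξ η = 0) : η = 0 := by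
  by_cases h0 : ξ = 0
  · rw [h0, fderiv_Exp_zero G hp hη] at h
    exact h
  obtain ⟨v, hv, hv1, hξv⟩ := exists_polar hξ h0
  set t := ‖ξ‖ with ht
  have htpos : 0 < t := norm_pos_iff.2 h0
  set a := ⟪v, η⟫ with ha
  set w := η - a • v with hw
  have hwT : w ∈ G.T p := (G.T p).sub_mem hη ((G.T p).smul_mem a hv)
  have hvw : ⟪v, w⟫ = 0 := by
    rw [hw, inner_sub_right, inner_smul_right, real_inner_self_eq_norm_sq, hv1, ← ha]
    ring
  have hη1 : η = a • v + w := by rw [hw]; abel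
  have e1 := norm_sq_fderiv hp hv hv1 hwT hvw a htpos
  rw [← hη1, ← hξv, h, norm_zero] at e1
  have p1 : 0 ≤ t ^ 2 * a ^ 2 := by positivity
  have p2 : 0 ≤ ‖J G p v w t‖ ^ 2 := by positivity
  have z1 : t ^ 2 * a ^ 2 = 0 := by nlinarith
  have z2 : ‖J G p v w t‖ ^ 2 = 0 := by nlinarith
  have y1 : a = 0 := by
    rcases mul_eq_zero.1 z1 with h | h
    · exact absurd h (by positivity)
    · simpa using h
  have y2 : w = 0 := J_ne_zero (hpol v hv hv1) hwT hvw ⟨htpos, hlt⟩ (by simpa using z2)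
  rw [hη1, y1, y2]
  simp

/-- the differential of `Exp ∘ b`. -/
lemma hasDerivAt_Exp_comp (hp : p ∈ S) {c : ℝ → Euc N} {c' : Euc N} {t : ℝ}
    (hc : HasDerivAt c c' t) (hT : c t ∈ G.T p) :
    HasDerivAt (fun s => Exp G p (c s)) (fderiv ℝ (Exp G p) (c t) c') t :=
  hasDerivAt_sigma G hp hT hc

/-! ### The point symmetries -/

/-- hypotheses for the block -/
structure Hyp (G : Geo n N κ S) : Prop where
  bl : Bl n N κ S G Real.pi
  per : Per G
  pol : ∀ p ∈ S, ∀ v ∈ G.T p, ‖v‖ = 1 → PolarAt G p v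
  reach : ∀ p ∈ S, ∀ q ∈ S, ∃ v ∈ G.T p, ‖v‖ = intrinsicDist S p q ∧ Exp G p v = q
  inj : ∀ p ∈ S, ∀ v ∈ G.T p, ∀ w ∈ G.T p, ‖v‖ < Real.pi → ‖w‖ ≤ Real.pi →
    Exp G p v = Exp G p w → v = w

variable (G) in
/-- the point symmetry at `x` -/
def sy (x y : Euc N) : Euc N :=
  open Classical in
  if h : ∃ ξ ∈ G.T x, Exp G x ξ = y then Exp G x (-(Classical.choose h)) else y

lemma fl_per (hper : Per G) {z : Euc N × Euc N} (hz : z ∈ TS G) (hz1 : ‖z.2‖ = 1) :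
    Function.Periodic (fun t => fl G (z, t)) (2 * Real.pi) := by
  intro t
  show fl G (z, t + 2 * Real.pi) = fl G (z, t)
  rw [add_comm, fl_add' G hz, hper z hz hz1]

lemma norm_reduce (hper : Per G) (hp : p ∈ S) {ξ : Euc N} (hξ : ξ ∈ G.T p) :
    ∃ ξ' ∈ G.T p, ‖ξ'‖ ≤ Real.pi ∧ Exp G p ξ' = Exp G p ξ ∧ Exp G p (-ξ') = Exp G p (-ξ) := by
  by_cases h0 : ξ = 0
  · exact ⟨0, (G.T p).zero_mem, by simp [Real.pi_pos.le], by rw [h0], by rw [h0]⟩
  obtain ⟨v, hv, hv1, hξv⟩ := exists_polar hξ h0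
  set t := ‖ξ‖ with ht
  have hz : (p, v) ∈ TS G := ⟨hp, hv⟩
  have hP := fl_per hper hz hv1
  set k : ℤ := round (t / (2 * Real.pi)) with hk
  set t' := t - k * (2 * Real.pi) with ht'
  have hpi := Real.pi_pos
  have habs : |t'| ≤ Real.pi := by
    have h1 := abs_sub_round (t / (2 * Real.pi))
    have h2 : t' = (t / (2 * Real.pi) - round (t / (2 * Real.pi))) * (2 * Real.pi) := by
      rw [ht', hk]; field_simp
    rw [h2, abs_mul, abs_of_pos (by positivity : (0 : ℝ) < 2 * Real.pi)]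
    nlinarith
  refine ⟨t' • v, (G.T p).smul_mem _ hv, ?_, ?_, ?_⟩
  · rw [norm_smul, hv1, mul_one, Real.norm_eq_abs]; exact habs
  · rw [Exp_smul G hp hv]
    conv_rhs => rw [hξv]
    rw [Exp_smul G hp hv]
    have := hP.sub_int_mul_eq k (x := t)
    rw [ht', this]
  · rw [← neg_smul, Exp_smul G hp hv]
    conv_rhs => rw [hξv]
    rw [← neg_smul, Exp_smul G hp hv]
    have := hP.sub_int_mul_eq (-k) (x := -t)
    rw [← this, ht']
    congr 3
    push_cast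
    ring

lemma dist_Exp' (H : Hyp G) (hp : p ∈ S) {ξ : Euc N} (hξ : ξ ∈ G.T p) (h : ‖ξ‖ ≤ Real.pi) :
    intrinsicDist S p (Exp G p ξ) = ‖ξ‖ := by
  by_cases h0 : ξ = 0
  · rw [h0, Exp_zero G hp, intrinsicDist_self hp, norm_zero]
  obtain ⟨v, hv, hv1, hξv⟩ := exists_polar hξ h0
  have h1 := H.bl.dist_fl (p, v) ⟨hp, hv⟩ hv1 0 ‖ξ‖ (norm_nonneg _) (by simpa using h)
  rw [fl_zero, sub_zero] at h1
  conv_lhs => rw [hξv]
  rw [Exp_smul G hp hv]
  exact h1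

theorem sy_well (H : Hyp G) (hp : p ∈ S) {ξ η : Euc N} (hξ : ξ ∈ G.T p) (hη : η ∈ G.T p)
    (h : Exp G p ξ = Exp G p η) : Exp G p (-ξ) = Exp G p (-η) := by
  obtain ⟨ξ', h1, h2, h3, h4⟩ := norm_reduce H.per hp hξ
  obtain ⟨η', k1, k2, k3, k4⟩ := norm_reduce H.per hp hη
  rw [← h4, ← k4]
  rw [← h3, ← k3] at h
  rcases h2.lt_or_eq with hlt | heq
  · rw [H.inj p hp ξ' h1 η' k1 hlt k2 h]
  · have hη'n : ‖η'‖ = Real.pi := by
      rw [← dist_Exp' H hp k1 k2, ← h, dist_Exp' H hp h1 h2, heq]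
    have key : ∀ ζ ∈ G.T p, ‖ζ‖ = Real.pi → Exp G p (-ζ) = Exp G p ζ := by
      intro ζ hζ hζn
      have hζ0 : ζ ≠ 0 := by
        intro h0; rw [h0, norm_zero] at hζn; exact Real.pi_pos.ne hζn
      obtain ⟨v, hv, hv1, hζv⟩ := exists_polar hζ hζ0
      rw [hζn] at hζv
      rw [hζv, ← neg_smul, Exp_smul G hp hv, Exp_smul G hp hv]
      have := fl_per H.per (z := (p, v)) ⟨hp, hv⟩ hv1 (-Real.pi)
      simp only at this
      rw [← this]
      congr 3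
      ring
    rw [key ξ' h1 heq, key η' k1 hη'n, h]

lemma sy_Exp (H : Hyp G) {x ξ : Euc N} (hx : x ∈ S) (hξ : ξ ∈ G.T x) :
    sy G x (Exp G x ξ) = Exp G x (-ξ) := by
  have h : ∃ ζ ∈ G.T x, Exp G x ζ = Exp G x ξ := ⟨ξ, hξ, rfl⟩
  have h1 := Classical.choose_spec h
  unfold sy
  rw [dif_pos h]
  exact sy_well H hx h1.1 hξ h1.2

lemma sy_mem (H : Hyp G) {x y : Euc N} (hx : x ∈ S) (hy : y ∈ S) : sy G x y ∈ S := by
  obtain ⟨ξ, hξ, -, rfl⟩ := H.reach x hx y hy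
  rw [sy_Exp H hx hξ]
  exact Exp_mem G hx ((G.T x).neg_mem hξ)

lemma sy_sy (H : Hyp G) {x y : Euc N} (hx : x ∈ S) (hy : y ∈ S) : sy G x (sy G x y) = y := by
  obtain ⟨ξ, hξ, -, rfl⟩ := H.reach x hx y hy
  rw [sy_Exp H hx hξ, sy_Exp H hx ((G.T x).neg_mem hξ), neg_neg]

/-- the symmetry fixes the cut locus -/
lemma sy_cut (H : Hyp G) {x y : Euc N} (hx : x ∈ S) (hy : y ∈ S)
    (h : intrinsicDist S x y = Real.pi) : sy G x y = y := by
  obtain ⟨ξ, hξ, hn, rfl⟩ := H.reach x hx y hy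
  rw [h] at hn
  rw [sy_Exp H hx hξ]
  have hζ0 : ξ ≠ 0 := by
    intro h0; rw [h0, norm_zero] at hn; exact Real.pi_pos.ne hn
  obtain ⟨v, hv, hv1, hζv⟩ := exists_polar hξ hζ0
  rw [hn] at hζv
  rw [hζv, ← neg_smul, Exp_smul G hx hv, Exp_smul G hx hv]
  have := fl_per H.per (z := (x, v)) ⟨hx, hv⟩ hv1 (-Real.pi)
  simp only at this
  rw [← this]
  congr 3
  ring

/-- the symmetries are continuous -/
lemma continuousOn_sy (H : Hyp G) {x : Euc N} (hx : x ∈ S) : ContinuousOn (sy G x) S := by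
  obtain ⟨b, hb⟩ := exists_frame G hx
  set K : Set (Euc n) := Metric.closedBall 0 Real.pi with hK
  have hKc : IsCompact K := isCompact_closedBall _ _
  have hf : ContinuousOn (fun u => Exp G x (b u)) K := fun u _ =>
    ((contDiffAt_Exp' G hx (frame_mem hb u)).continuousAt.comp
      b.continuous.continuousAt).continuousWithinAt
  have hg : ContinuousOn (fun u => Exp G x (-(b u))) K := fun u _ =>
    (ContinuousAt.comp (f := fun u => -(b u)) (g := Exp G x)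
      (contDiffAt_Exp' G hx ((G.T x).neg_mem (frame_mem hb u))).continuousAt
      (b.continuous.neg.continuousAt)).continuousWithinAt
  rw [continuousOn_iff_isClosed]
  intro C hC
  obtain ⟨Z, hZ, hZK⟩ := (continuousOn_iff_isClosed.1 hg) C hC
  have hcomp : IsCompact ((fun u => Exp G x (b u)) '' (Z ∩ K)) :=
    (hKc.inter_left hZ).image_of_continuousOn (hf.mono inter_subset_right)
  refine ⟨_, hcomp.isClosed, ?_⟩
  ext y
  constructor
  · rintro ⟨hy1, hyS⟩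
    obtain ⟨ξ, hξ, hn, rfl⟩ := H.reach x hx y hyS
    obtain ⟨u, rfl⟩ := exists_frame_eq hb hξ
    refine ⟨⟨u, ?_, rfl⟩, hyS⟩
    rw [← hZK]
    refine ⟨?_, ?_⟩
    · have h2 : sy G x (Exp G x (b u)) ∈ C := hy1
      rw [sy_Exp H hx hξ] at h2
      exact h2
    · rw [hK, mem_closedBall_zero_iff, ← b.norm_map, hn]
      exact H.bl.dist_le x hx _ hyS
  · rintro ⟨⟨u, hu, rfl⟩, hyS⟩
    refine ⟨?_, hyS⟩
    show sy G x (Exp G x (b u)) ∈ C
    rw [sy_Exp H hx (frame_mem hb u)]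
    rw [← hZK] at hu
    exact hu.1

/-- off the cut locus the symmetry preserves the speed of curves -/
lemma hasDerivAt_sy (H : Hyp G) {x : Euc N} (hx : x ∈ S) {σ : ℝ → Euc N} {σ' : Euc N} {t : ℝ}
    (hσ : HasDerivAt σ σ' t) (hS : ∀ᶠ s in 𝓝 t, σ s ∈ S)
    (hlt : intrinsicDist S x (σ t) < Real.pi) :
    ∃ c', HasDerivAt (fun s => sy G x (σ s)) c' t ∧ ‖c'‖ = ‖σ'‖ := by
  obtain ⟨b, hb⟩ := exists_frame G hx
  obtain ⟨ξ, hξ, hn, hE⟩ := H.reach x hx (σ t) hS.self_of_nhds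
  obtain ⟨u₀, rfl⟩ := exists_frame_eq hb hξ
  have hd0 := (contDiffAt_Exp' G hx hξ)
  have hΦ : ContDiffAt ℝ ∞ (fun u => Exp G x (b u)) u₀ :=
    ContDiffAt.comp (g := Exp G x) u₀ hd0 (b.toContinuousLinearMap.contDiff.contDiffAt)
  have hfd : ∀ w, fderiv ℝ (fun u => Exp G x (b u)) u₀ w = fderiv ℝ (Exp G x) (b u₀) (b w) := by
    intro w
    have h1 : HasFDerivAt (fun u => Exp G x (b u))
        ((fderiv ℝ (Exp G x) (b u₀)).comp b.toContinuousLinearMap) u₀ :=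
      HasFDerivAt.comp u₀ (hd0.differentiableAt (by simp)).hasFDerivAt
        b.toContinuousLinearMap.hasFDerivAt
    rw [h1.fderiv]
    rfl
  have hinj : Function.Injective (fderiv ℝ (fun u => Exp G x (b u)) u₀) := by
    rw [injective_iff_map_eq_zero]
    intro w hw
    rw [hfd] at hw
    have := fderiv_Exp_inj (H.pol x hx) hx hξ (frame_mem hb w) (by rw [hn]; exact hlt) hw
    exact b.injective (by rw [this, map_zero])
  obtain ⟨R, hR, hR0, -, hR2⟩ := local_inverse H.bl.sub hΦ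
    (Eventually.of_forall fun u => Exp_mem G hx (frame_mem hb u)) hinj
  rw [hE] at hR hR0 hR2
  have hu : HasDerivAt (fun s => R (σ s)) (fderiv ℝ R (σ t) σ') t :=
    (hR.differentiableAt (by simp)).hasFDerivAt.comp_hasDerivAt t hσ
  set u' := fderiv ℝ R (σ t) σ' with hu'
  have hbu : HasDerivAt (fun s => b (R (σ s))) (b u') t :=
    b.toContinuousLinearMap.hasFDerivAt.comp_hasDerivAt t hu
  have hev : ∀ᶠ s in 𝓝 t, Exp G x (b (R (σ s))) = σ s := by
    have h1 : Tendsto σ (𝓝 t) (𝓝[S] (σ t)) :=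
      tendsto_nhdsWithin_iff.2 ⟨hσ.continuousAt, hS⟩
    exact h1.eventually hR2
  have e1 : HasDerivAt (fun s => Exp G x (b (R (σ s))))
      (fderiv ℝ (Exp G x) (b (R (σ t))) (b u')) t :=
    hasDerivAt_Exp_comp hx hbu (frame_mem hb _)
  have e2 := (hσ.congr_of_eventuallyEq hev).unique e1
  have e3 : HasDerivAt (fun s => Exp G x (-(b (R (σ s)))))
      (fderiv ℝ (Exp G x) (-(b (R (σ t)))) (-(b u'))) t :=
    hasDerivAt_Exp_comp hx hbu.neg ((G.T x).neg_mem (frame_mem hb _))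
  have hev2 : (fun s => sy G x (σ s)) =ᶠ[𝓝 t] fun s => Exp G x (-(b (R (σ s)))) := by
    filter_upwards [hev] with s hs
    rw [← sy_Exp H hx (frame_mem hb _), hs]
  refine ⟨_, e3.congr_of_eventuallyEq hev2, ?_⟩
  rw [hR0, map_neg, norm_neg, norm_fderiv_neg H.per (H.pol x hx) hx hξ (frame_mem hb _)
    (by rw [hn]; exact hlt.le), e2, hR0]

/-- a geodesic segment off the cut locus -/
lemma dist_sy_segment (H : Hyp G) {x : Euc N} (hx : x ∈ S) {z : Euc N × Euc N} (hz : z ∈ TS G)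
    (hz1 : ‖z.2‖ = 1) {a b : ℝ} (hab : a ≤ b)
    (h : ∀ t ∈ Ioo a b, intrinsicDist S x (fl G (z, t)).1 < Real.pi) :
    intrinsicDist S (sy G x (fl G (z, a)).1) (sy G x (fl G (z, b)).1) ≤ b - a := by
  set σ : ℝ → Euc N := fun t => (fl G (z, t)).1 with hσ
  have hσS : ∀ t, σ t ∈ S := fun t => (fl_mem G hz t).1
  have hσd : ∀ t, HasDerivAt σ (fl G (z, t)).2 t := fun t => hda_fst (hasDerivAt_fl G (complete G hz t))
  have hσc : Continuous σ := continuous_iff_continuousAt.2 fun t => (hσd t).continuousAt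
  set c : ℝ → Euc N := fun t => sy G x (σ t) with hc
  have hcc : ContinuousOn c (Icc a b) :=
    ((continuousOn_sy H hx).comp hσc.continuousOn fun t _ => hσS t)
  rcases hab.eq_or_lt with rfl | hlt
  · rw [intrinsicDist_self (sy_mem H hx (hσS a)), sub_self]
  have hlip : LipschitzOnWith 1 c (Ioo a b) := by
    have h1 : ∀ t ∈ Ioo a b, ∃ c', HasDerivAt c c' t ∧ ‖c'‖ = 1 := by
      intro t ht
      obtain ⟨c', h2, h3⟩ := hasDerivAt_sy H hx (hσd t) (Eventually.of_forall hσS) (h t ht)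
      exact ⟨c', h2, by rw [h3, norm_fl G hz, hz1]⟩
    choose! c' h2 h3 using h1
    refine (convex_Ioo a b).lipschitzOnWith_of_nnnorm_hasDerivWithin_le
      (fun t ht => (h2 t ht).hasDerivWithinAt) (fun t ht => ?_)
    rw [← NNReal.coe_le_coe, coe_nnnorm, h3 t ht]
    simp
  have hlip2 : LipschitzOnWith 1 c (Icc a b) := by
    rw [← closure_Ioo hlt.ne]
    exact (lipschitzOnWith_closure_iff (by rw [closure_Ioo hlt.ne]; exact hcc)).2 hlip
  have hch := intrinsicDist_le_of_chords H.bl.sub H.bl.cpt (c := c) (L := fun t => t) hab hcc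
    (fun t _ => sy_mem H hx (hσS t)) (fun s hs t ht hst => by
      have := hlip2.dist_le_mul t ht s hs
      rw [dist_eq_norm, Real.dist_eq, abs_of_nonneg (by linarith)] at this
      simpa using this)
  exact hch.2

end Crest.Agent.R208.HS
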