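import Crest.Agent.R208.HS2
import Crest.Agent.R208.G3b

/-!
R208, block G7 (helper88), file HS3: the point symmetries are isometries; the equator lemma.
-/

set_option autoImplicit false

open Set Filter Topology
open scoped ContDiff RealInnerProductSpace
open Crest.GeometryTopology.Submanifold
open Crest.Agent.R241.DDefs
open Crest.Agent.R241.D2
open Crest.Agent.R241.D3b
open Crest.Agent.R241.D3c

noncomputable section

namespace Crest.Agent.R208.HS

variable {n N : ℕ} {κ : ℝ} {S : Set (Euc N)} {G : Geo n N κ S} {p v w : Euc N}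

/-- the point symmetries do not increase distances. -/
theorem sy_lip (H : Hyp G) {x y z : Euc N} (hx : x ∈ S) (hy : y ∈ S) (hz : z ∈ S) :
    intrinsicDist S (sy G x y) (sy G x z) ≤ intrinsicDist S y z := by
  obtain ⟨ζ, hζ, hn, rfl⟩ := H.reach y hy z hz
  rw [← hn]
  set l := ‖ζ‖ with hl
  by_cases h0 : ζ = 0
  · rw [h0, Exp_zero G hy, intrinsicDist_self (sy_mem H hx hy)]
    exact norm_nonneg _
  obtain ⟨v, hv, hv1, hζv⟩ := exists_polar hζ h0
  have hlpos : 0 < l := norm_pos_iff.2 h0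
  have hlπ : l ≤ Real.pi := by rw [hn]; exact H.bl.dist_le y hy _ hz
  have hzv : (y, v) ∈ TS G := ⟨hy, hv⟩
  set σ : ℝ → Euc N := fun t => (fl G ((y, v), t)).1 with hσ
  have hσS : ∀ t, σ t ∈ S := fun t => (fl_mem G hzv t).1
  have hσ0 : σ 0 = y := by simp [hσ, fl_zero]
  have hσl : σ l = Exp G y ζ := by
    rw [hζv, Exp_smul G hy hv]
  have hσc : Continuous σ := continuous_iff_continuousAt.2 fun t =>
    (hda_fst (hasDerivAt_fl G (complete G hzv t))).continuousAt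
  rw [← hσl, ← hσ0]
  have hcd : Continuous fun t => intrinsicDist S x (σ t) := by
    have h1 := continuousOn_intrinsicDist H.bl.sub H.bl.cpt H.bl.conn
    exact h1.comp_continuous (f := fun t => (x, σ t)) (by fun_prop) (fun t => ⟨hx, hσS t⟩)
  set T : Set ℝ := {t | t ∈ Icc 0 l ∧ intrinsicDist S x (σ t) = Real.pi} with hT
  have hTc : IsCompact T := by
    have h1 : T = Icc 0 l ∩ {t | intrinsicDist S x (σ t) = Real.pi} := rfl
    rw [h1]
    exact isCompact_Icc.inter_right (isClosed_eq hcd continuous_const)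
  have hlt : ∀ t ∈ Icc 0 l, t ∉ T → intrinsicDist S x (σ t) < Real.pi := by
    intro t ht htT
    exact lt_of_le_of_ne (H.bl.dist_le x hx _ (hσS t)) (fun h => htT ⟨ht, h⟩)
  rcases T.eq_empty_or_nonempty with hTe | hTn
  · have := dist_sy_segment H hx hzv hv1 hlpos.le (fun t ht =>
      hlt t ⟨ht.1.le, ht.2.le⟩ (by rw [hTe]; exact notMem_empty t))
    rw [sub_zero] at this
    exact this
  · obtain ⟨t0, ht0, hmin⟩ := hTc.exists_isLeast hTn
    obtain ⟨t1, ht1, hmax⟩ := hTc.exists_isGreatest hTn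
    have h01 : t0 ≤ t1 := hmin ht1
    have a1 := dist_sy_segment H hx hzv hv1 ht0.1.1 (fun t ht =>
      hlt t ⟨ht.1.le, ht.2.le.trans ht0.1.2⟩ (fun h => absurd (hmin h) (not_le.2 ht.2)))
    have a2 := dist_sy_segment H hx hzv hv1 ht1.1.2 (fun t ht =>
      hlt t ⟨ht1.1.1.trans ht.1.le, ht.2.le⟩ (fun h => absurd (hmax h) (not_le.2 ht.1)))
    have a3 := H.bl.dist_fl (y, v) hzv hv1 t0 t1 h01 (by linarith [ht0.1.1, ht1.1.2])
    have e0 : sy G x (σ t0) = σ t0 := sy_cut H hx (hσS t0) ht0.2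
    have e1 : sy G x (σ t1) = σ t1 := sy_cut H hx (hσS t1) ht1.2
    change intrinsicDist S (sy G x (σ 0)) (sy G x (σ t0)) ≤ t0 - 0 at a1
    change intrinsicDist S (sy G x (σ t1)) (sy G x (σ l)) ≤ l - t1 at a2
    change intrinsicDist S (σ t0) (σ t1) = t1 - t0 at a3
    have m : ∀ t, sy G x (σ t) ∈ S := fun t => sy_mem H hx (hσS t)
    have b1 := H.bl.tri (m 0) (m t0) (m l)
    have b2 := H.bl.tri (m t0) (m t1) (m l)
    rw [e0, e1, a3] at b2
    rw [e0] at b1 a1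
    rw [e1] at a2
    linarith

/-- the point symmetries do not increase distances, exponential form. -/
theorem symS (H : Hyp G) (hp : p ∈ S) {ξ η : Euc N} (hξ : ξ ∈ G.T p) (hη : η ∈ G.T p) :
    intrinsicDist S (Exp G p (-ξ)) (Exp G p (-η)) ≤ intrinsicDist S (Exp G p ξ) (Exp G p η) := by
  rw [← sy_Exp H hp hξ, ← sy_Exp H hp hη]
  exact sy_lip H hp (Exp_mem G hp hξ) (Exp_mem G hp hη)

/-- a Jacobi field vanishing at `0` and `π` has norm `sin t`. -/
lemma norm_J_of_kernel (h : PolarAt G p v) (hw : w ∈ G.T p) (hvw : ⟪v, w⟫ = 0)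
    (hJ : J G p v w Real.pi = 0) {t : ℝ} (ht : t ∈ Icc (0 : ℝ) Real.pi) :
    ‖J G p v w t‖ = Real.sin t * ‖w‖ := by
  obtain ⟨E, hE, hEv, hEJ⟩ := h
  obtain ⟨w₁, h1, w₂, h2, h3, h4, rfl⟩ := exists_decomp (G := G) hE hEv hw hvw
  have e0 := hEJ w₁ h1 w₂ h2 h3 h4 Real.pi ⟨Real.pi_pos.le, le_rfl⟩
  rw [hJ, Real.sin_pi_div_two] at e0
  simp at e0
  rw [e0, add_zero]
  have e1 := hEJ w₁ h1 0 (G.T p).zero_mem (by simp) (by simp) t ht
  rw [add_zero, norm_zero] at e1
  have hs : 0 ≤ Real.sin t := Real.sin_nonneg_of_nonneg_of_le_pi ht.1 ht.2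
  have e2 : ‖J G p v w₁ t‖ ^ 2 = (Real.sin t * ‖w₁‖) ^ 2 := by rw [e1]; ring
  exact (sq_eq_sq₀ (norm_nonneg _) (by positivity)).1 e2

/-- Arcs of the equator of a linked sphere are `1`-Lipschitz. -/
lemma arc_le (H : Hyp G) (hp : p ∈ S) {q : Euc N} {V : Submodule ℝ (Euc N)} (hV : V ≤ G.T p)
    (hVq : ∀ u ∈ V, ‖u‖ = 1 → Exp G p (Real.pi • u) = q) {v e : Euc N} (hv : v ∈ V)
    (he : e ∈ V) (hv1 : ‖v‖ = 1) (he1 : ‖e‖ = 1) (hve : ⟪v, e⟫ = 0) {α β : ℝ} (hαβ : α ≤ β) :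
    intrinsicDist S (Exp G p ((Real.pi / 2) • (Real.cos α • v + Real.sin α • e)))
      (Exp G p ((Real.pi / 2) • (Real.cos β • v + Real.sin β • e))) ≤ β - α := by
  set u : ℝ → Euc N := fun θ => Real.cos θ • v + Real.sin θ • e with hu
  set u' : ℝ → Euc N := fun θ => -Real.sin θ • v + Real.cos θ • e with hu'
  have huV : ∀ θ, u θ ∈ V := fun θ => V.add_mem (V.smul_mem _ hv) (V.smul_mem _ he)
  have hu'V : ∀ θ, u' θ ∈ V := fun θ => V.add_mem (V.smul_mem _ hv) (V.smul_mem _ he)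
  have hvv : ⟪v, v⟫ = 1 := by rw [real_inner_self_eq_norm_sq, hv1]; norm_num
  have hee : ⟪e, e⟫ = 1 := by rw [real_inner_self_eq_norm_sq, he1]; norm_num
  have hev : ⟪e, v⟫ = 0 := by rw [real_inner_comm]; exact hve
  have hn : ∀ a b : ℝ, ‖a • v + b • e‖ ^ 2 = a ^ 2 + b ^ 2 := by
    intro a b
    rw [← real_inner_self_eq_norm_sq]
    simp only [inner_add_left, inner_add_right, inner_smul_left, inner_smul_right, hvv, hee, hev,
      hve, conj_trivial]
    ring
  have hu1 : ∀ θ, ‖u θ‖ = 1 := by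
    intro θ
    have : ‖u θ‖ ^ 2 = 1 ^ 2 := by
      rw [hu]; simp only; rw [hn]; nlinarith [Real.sin_sq_add_cos_sq θ]
    exact (sq_eq_sq₀ (norm_nonneg _) (by norm_num)).1 this
  have hu'1 : ∀ θ, ‖u' θ‖ = 1 := by
    intro θ
    have : ‖u' θ‖ ^ 2 = 1 ^ 2 := by
      rw [hu']; simp only; rw [hn]; nlinarith [Real.sin_sq_add_cos_sq θ]
    exact (sq_eq_sq₀ (norm_nonneg _) (by norm_num)).1 this
  have huu' : ∀ θ, ⟪u θ, u' θ⟫ = 0 := by
    intro θ
    simp only [hu, hu', inner_add_left, inner_add_right, inner_smul_left, inner_smul_right, hvv,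
      hee, hev, hve, conj_trivial]
    ring
  have hud : ∀ θ, HasDerivAt u (u' θ) θ := fun θ =>
    ((Real.hasDerivAt_cos θ).smul_const v).add ((Real.hasDerivAt_sin θ).smul_const e)
  -- Jacobi field
  have hd : ∀ (r θ : ℝ), HasDerivAt (fun θ => Exp G p (r • u θ)) (J G p (u θ) (u' θ) r) θ := by
    intro r θ
    rw [← fderiv_Exp_smul hp (hV (huV θ)) (hV (hu'V θ))]
    exact hasDerivAt_Exp_comp hp ((hud θ).const_smul r) ((G.T p).smul_mem _ (hV (huV θ)))
  have hJπ : ∀ θ, J G p (u θ) (u' θ) Real.pi = 0 := by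
    intro θ
    have h1 := hd Real.pi θ
    have h2 : (fun θ => Exp G p (Real.pi • u θ)) = fun _ => q :=
      funext fun θ => hVq _ (huV θ) (hu1 θ)
    rw [h2] at h1
    exact h1.unique (hasDerivAt_const _ _)
  have hpi := Real.pi_pos
  have hJn : ∀ θ, ‖J G p (u θ) (u' θ) (Real.pi / 2)‖ = 1 := by
    intro θ
    rw [norm_J_of_kernel (H.pol p hp _ (hV (huV θ)) (hu1 θ)) (hV (hu'V θ)) (huu' θ) (hJπ θ)
      ⟨by positivity, by linarith⟩, hu'1, Real.sin_pi_div_two, mul_one]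
  have hch := intrinsicDist_le_of_chords H.bl.sub H.bl.cpt
    (c := fun θ => Exp G p ((Real.pi / 2) • u θ)) (L := fun t => t) hαβ
    (fun θ _ => (hd (Real.pi / 2) θ).continuousAt.continuousWithinAt)
    (fun θ _ => Exp_mem G hp ((G.T p).smul_mem _ (hV (huV θ))))
    (fun s hs t ht hst => by
      have h1 := (convex_Icc α β).norm_image_sub_le_of_norm_hasDerivWithin_le
        (f := fun θ => Exp G p ((Real.pi / 2) • u θ)) (C := 1)
        (fun θ _ => (hd (Real.pi / 2) θ).hasDerivWithinAt) (fun θ _ => (hJn θ).le) hs ht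
      rw [Real.norm_eq_abs, abs_of_nonneg (by linarith), one_mul] at h1
      exact h1)
  exact hch.2

/-- **The equator lemma.** -/
theorem equator (H : Hyp G) (hp : p ∈ S) {q : Euc N} {V : Submodule ℝ (Euc N)} (hV : V ≤ G.T p)
    (hVq : ∀ u ∈ V, ‖u‖ = 1 → Exp G p (Real.pi • u) = q) {v w : Euc N} (hv : v ∈ V)
    (hw : w ∈ V) (hv1 : ‖v‖ = 1) (hw1 : ‖w‖ = 1) :
    intrinsicDist S (Exp G p ((Real.pi / 2) • v)) (Exp G p ((Real.pi / 2) • w))
      = InnerProductGeometry.angle v w := by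
  have hpi := Real.pi_pos
  have hmem : ∀ (r : ℝ) {u : Euc N}, u ∈ V → Exp G p (r • u) ∈ S := fun r u hu =>
    Exp_mem G hp ((G.T p).smul_mem _ (hV hu))
  have hopp : intrinsicDist S (Exp G p ((Real.pi / 2) • v)) (Exp G p ((Real.pi / 2) • (-v))) =
      Real.pi := by
    have h1 := H.bl.dist_ray (s := -(Real.pi / 2)) (t := Real.pi / 2) hp (hV hv) hv1
      (by linarith) (by linarith)
    rw [intrinsicDist_comm, smul_neg, ← neg_smul, h1]
    ring
  set θ := InnerProductGeometry.angle v w with hθ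
  have hθ0 : 0 ≤ θ := InnerProductGeometry.angle_nonneg _ _
  have hθπ : θ ≤ Real.pi := InnerProductGeometry.angle_le_pi _ _
  have hcos : Real.cos θ = ⟪v, w⟫ := by
    rw [hθ, InnerProductGeometry.cos_angle, hv1, hw1, mul_one, div_one]
  have hv0 : v ≠ 0 := fun h' => by rw [h', norm_zero] at hv1; norm_num at hv1
  have hw0 : w ≠ 0 := fun h' => by rw [h', norm_zero] at hw1; norm_num at hw1
  rcases hθ0.eq_or_lt with h0 | h0
  · -- `w = v`
    have h1 : ⟪v, w⟫ = 1 := by rw [← hcos, ← h0, Real.cos_zero]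
    have h2 : v = w := (inner_eq_one_iff_of_norm_eq_one hv1 hw1).1 h1
    rw [← h0, ← h2, intrinsicDist_self (hmem _ hv)]
  rcases hθπ.eq_or_lt with hπ | hlt
  · have h1 : ⟪v, w⟫ = -1 := by rw [← hcos, hπ, Real.cos_pi]
    have h2 : ⟪v, -w⟫ = 1 := by rw [inner_neg_right, h1, neg_neg]
    have h3 : v = -w := (inner_eq_one_iff_of_norm_eq_one hv1 (by rw [norm_neg, hw1])).1 h2
    have h4 : w = -v := by rw [h3, neg_neg]
    rw [hπ, h4, hopp]
  have hsin : 0 < Real.sin θ := Real.sin_pos_of_pos_of_lt_pi h0 hlt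
  have hvv : ⟪v, v⟫ = 1 := by rw [real_inner_self_eq_norm_sq, hv1]; norm_num
  have hww : ⟪w, w⟫ = 1 := by rw [real_inner_self_eq_norm_sq, hw1]; norm_num
  set e : Euc N := (Real.sin θ)⁻¹ • (w - Real.cos θ • v) with he
  have heV : e ∈ V := V.smul_mem _ (V.sub_mem hw (V.smul_mem _ hv))
  have hwe : w = Real.cos θ • v + Real.sin θ • e := by
    rw [he, smul_smul, mul_inv_cancel₀ hsin.ne', one_smul]; abel
  have hve : ⟪v, e⟫ = 0 := by
    rw [he, inner_smul_right, inner_sub_right, inner_smul_right, hvv, hcos]; ring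
  have he1 : ‖e‖ = 1 := by
    have h1 : ‖w - Real.cos θ • v‖ ^ 2 = Real.sin θ ^ 2 := by
      rw [norm_sub_sq_real, norm_smul, inner_smul_right, real_inner_comm, ← hcos, hw1, hv1,
        mul_one, Real.norm_eq_abs, sq_abs, Real.sin_sq]
      ring
    have h2 : ‖w - Real.cos θ • v‖ = Real.sin θ :=
      (sq_eq_sq₀ (norm_nonneg _) hsin.le).1 h1
    rw [he, norm_smul, h2, norm_inv, Real.norm_eq_abs, abs_of_pos hsin,
      inv_mul_cancel₀ hsin.ne']
  have a1 := arc_le H hp hV hVq hv heV hv1 he1 hve (α := 0) (β := θ) hθ0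
  have a2 := arc_le H hp hV hVq hv heV hv1 he1 hve (α := θ) (β := Real.pi) hθπ
  rw [Real.cos_zero, Real.sin_zero, one_smul, zero_smul, add_zero, ← hwe] at a1
  rw [Real.cos_pi, Real.sin_pi, zero_smul, add_zero, ← hwe, neg_smul, one_smul] at a2
  have a3 := H.bl.tri (hmem (Real.pi / 2) hv) (hmem (Real.pi / 2) hw)
    (hmem (Real.pi / 2) (V.neg_mem hv))
  rw [hopp] at a3
  linarith

end Crest.Agent.R208.HS
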