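import Crest.Agent.R208.M885
import Crest.Agent.R208.G3

/-!
R208 (Blaschke), block G7, the wiring: from the geometric facts about `(S, G)` (structure `Rigid`)
to the conclusion of S0321, through the metric theorem `M.two_point`.
-/

set_option autoImplicit false

open Set Filter Topology
open scoped ContDiff RealInnerProductSpace
open Crest.GeometryTopology.Submanifold
open Crest.Agent.R241.DDefs Crest.Agent.R241.D Crest.Agent.R241.D2

noncomputable section

namespace Crest.Agent.R208.M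

variable {n N : ℕ} {κ : ℝ} {S : Set (Euc N)}

/-- All the facts about a Blaschke manifold of diameter `π` with equality in NCK which are used for
two-point homogeneity. -/
structure Rigid (G : Geo n N κ S) : Prop where
  bl : Crest.Agent.R208.Bl n N κ S G Real.pi
  dist_Exp : ∀ p ∈ S, ∀ v ∈ G.T p, ‖v‖ ≤ Real.pi → intrinsicDist S p (Exp G p v) = ‖v‖
  exists_Exp : ∀ p ∈ S, ∀ q ∈ S, ∃ v ∈ G.T p, ‖v‖ = intrinsicDist S p q ∧ Exp G p v = q
  no_corner : ∀ x ∈ S, ∀ u ∈ G.T x, ∀ w ∈ G.T x, ‖u‖ = 1 → ‖w‖ = 1 → ∀ s t : ℝ, 0 < s → 0 < t →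
    intrinsicDist S (Exp G x (s • u)) (Exp G x (t • w)) = s + t → w = -u
  Exp_inj : ∀ p ∈ S, ∀ v ∈ G.T p, ∀ w ∈ G.T p, ‖v‖ < Real.pi → ‖w‖ ≤ Real.pi →
    Exp G p v = Exp G p w → v = w
  per : ∀ z ∈ TS G, ‖z.2‖ = 1 → fl G (z, 2 * Real.pi) = z
  symS : ∀ p ∈ S, ∀ ξ ∈ G.T p, ∀ η ∈ G.T p, ‖ξ‖ ≤ Real.pi → ‖η‖ ≤ Real.pi →
    intrinsicDist S (Exp G p (-ξ)) (Exp G p (-η)) ≤ intrinsicDist S (Exp G p ξ) (Exp G p η)
  equator : ∀ p ∈ S, ∀ v ∈ G.T p, ∀ w ∈ G.T p, ‖v‖ = 1 → ‖w‖ = 1 →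
    Exp G p (Real.pi • v) = Exp G p (Real.pi • w) →
    intrinsicDist S (Exp G p ((Real.pi / 2) • v)) (Exp G p ((Real.pi / 2) • w))
      = InnerProductGeometry.angle v w
  lin : ∀ p ∈ S, ∀ v ∈ G.T p, ∀ w ∈ G.T p, ‖v‖ = 1 → ‖w‖ = 1 →
    Exp G p (Real.pi • v) = Exp G p (Real.pi • w) → v ≠ -w →
    Exp G p (Real.pi • (‖v + w‖⁻¹ • (v + w))) = Exp G p (Real.pi • v)

/-- The set `S` as a type, to carry the intrinsic metric. -/
@[ext] structure XM (S : Set (Euc N)) : Type where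
  /-- the point -/
  val : Euc N
  /-- membership -/
  mem : val ∈ S

/-- the intrinsic metric. -/
@[reducible] def metricXM (hS : IsSubmanifold n N S) (hc : IsConnected S) : MetricSpace (XM S) where
  dist x y := intrinsicDist S x.1 y.1
  dist_self x := intrinsicDist_self x.2
  dist_comm x y := intrinsicDist_comm S x.1 y.1
  dist_triangle x y z := intrinsicDist_triangle (joinedS_of_connected hS hc x.2 y.2)
    (joinedS_of_connected hS hc y.2 z.2)
  eq_of_dist_eq_zero {x y} h := by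
    have h1 := chord_le_intrinsicDist (joinedS_of_connected hS hc x.2 y.2)
    have h2 : ‖y.1 - x.1‖ ≤ 0 := h1.trans (le_of_eq h)
    have h3 := norm_le_zero_iff.1 h2
    exact XM.ext (sub_eq_zero.1 h3).symm

open Classical in
/-- the exponential map on `XM S`. -/
def exM (G : Geo n N κ S) (p : XM S) (v : Euc N) : XM S :=
  if h : v ∈ G.T p.1 then ⟨Exp G p.1 v, Exp_mem G p.2 h⟩ else p

lemma exM_coe (G : Geo n N κ S) (p : XM S) {v : Euc N} (hv : v ∈ G.T p.1) :
    (exM G p v).1 = Exp G p.1 v := by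
  unfold exM; rw [dif_pos hv]

/-- two unit-speed parameters which agree modulo `2π`. -/
lemma Exp_periodic {G : Geo n N κ S} (hR : Rigid G) {p v : Euc N} (hp : p ∈ S) (hv : v ∈ G.T p)
    (hv1 : ‖v‖ = 1) (t : ℝ) : Exp G p ((t + 2 * Real.pi) • v) = Exp G p (t • v) := by
  have hz : (p, v) ∈ TS G := ⟨hp, hv⟩
  rw [Exp_smul G hp hv, Exp_smul G hp hv, add_comm, fl_add' G hz, hR.per _ hz hv1]

lemma Exp_periodic_int {G : Geo n N κ S} (hR : Rigid G) {p v : Euc N} (hp : p ∈ S)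
    (hv : v ∈ G.T p) (hv1 : ‖v‖ = 1) (t : ℝ) (k : ℤ) :
    Exp G p ((t + k * (2 * Real.pi)) • v) = Exp G p (t • v) := by
  induction k using Int.induction_on with
  | zero => simp
  | succ i ih =>
    rw [show t + ((i : ℤ) + 1 : ℤ) * (2 * Real.pi) = (t + (i : ℤ) * (2 * Real.pi)) + 2 * Real.pi by
      push_cast; ring, Exp_periodic hR hp hv hv1, ih]
  | pred i ih =>
    rw [← ih, ← Exp_periodic hR hp hv hv1 (t + ((-(i : ℤ) - 1 : ℤ)) * (2 * Real.pi))]
    congr 2
    push_cast; ring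

section

variable {G : Geo n N κ S} (hR : Rigid G)

include hR in
/-- the metric axioms. -/
theorem bl_metric : @Bl (XM S) (Euc N) (metricXM hR.bl.sub hR.bl.conn) _ _ Real.pi
    (fun p => G.T p.1) (exM G) := by
  let _ := metricXM hR.bl.sub hR.bl.conn
  have hdist : ∀ p q : XM S, dist p q = intrinsicDist S p.1 q.1 := fun _ _ => rfl
  refine ⟨Real.pi_pos, fun p q => hR.bl.dist_le _ p.2 _ q.2, ?_, ?_, ?_, ?_, ?_, ?_⟩
  · -- rebase
    intro p v hv hv1 s
    have hz : (p.1, v) ∈ TS G := ⟨p.2, hv⟩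
    have hsv : s • v ∈ G.T p.1 := (G.T p.1).smul_mem _ hv
    have e1 : (exM G p (s • v)).1 = (fl G ((p.1, v), s)).1 := by
      rw [exM_coe G p hsv, Exp_smul G p.2 hv]
    have hmem := fl_mem G hz s
    refine ⟨(fl G ((p.1, v), s)).2, ?_, ?_, ?_⟩
    · rw [e1]; exact hmem.2
    · rw [norm_fl G hz, hv1]
    · intro t
      have hw : (fl G ((p.1, v), s)).2 ∈ G.T (exM G p (s • v)).1 := by rw [e1]; exact hmem.2
      apply XM.ext
      rw [exM_coe G _ ((G.T _).smul_mem _ hw), e1,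
        exM_coe G p (v := (s + t) • v) ((G.T p.1).smul_mem _ hv), Exp_smul G hmem.1 hmem.2, Exp_smul G p.2 hv, fl_add' G hz]
  · intro p v hv hv1 r hr0 hr
    rw [hdist, exM_coe G p ((G.T p.1).smul_mem _ hv),
      hR.dist_Exp _ p.2 _ ((G.T p.1).smul_mem _ hv), norm_smul, hv1, Real.norm_of_nonneg hr0,
      mul_one]
    rw [norm_smul, hv1, Real.norm_of_nonneg hr0, mul_one]; exact hr
  · intro p v hv hv1 t
    apply XM.ext
    rw [exM_coe G p ((G.T p.1).smul_mem _ hv), exM_coe G p ((G.T p.1).smul_mem _ hv),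
      Exp_periodic hR p.2 hv hv1]
  · intro p q
    obtain ⟨v, hv, hvn, hvq⟩ := hR.exists_Exp p.1 p.2 q.1 q.2
    by_cases h0 : v = 0
    · -- `p = q`: any unit vector
      have hpq : p = q := by
        apply XM.ext
        rw [← hvq, h0, Exp_zero G p.2]
      have hfr : 0 < Module.finrank ℝ (G.T p.1) := by
        rw [G.finrank_T p.1 p.2]; exact hR.bl.hn
      obtain ⟨w, hw⟩ := @exists_ne (G.T p.1) (Module.nontrivial_of_finrank_pos hfr) 0
      have hw0 : (w : Euc N) ≠ 0 := fun h => hw (Subtype.ext h)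
      refine ⟨‖(w : Euc N)‖⁻¹ • (w : Euc N), (G.T p.1).smul_mem _ w.2, ?_, ?_⟩
      · rw [norm_smul, norm_inv, norm_norm, inv_mul_cancel₀ (norm_ne_zero_iff.2 hw0)]
      · subst hpq
        rw [dist_self, zero_smul]
        apply XM.ext
        rw [exM_coe G p (G.T p.1).zero_mem, Exp_zero G p.2]
    · have hn0 : ‖v‖ ≠ 0 := norm_ne_zero_iff.2 h0
      refine ⟨‖v‖⁻¹ • v, (G.T p.1).smul_mem _ hv, ?_, ?_⟩
      · rw [norm_smul, norm_inv, norm_norm, inv_mul_cancel₀ hn0]
      · apply XM.ext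
        rw [hdist, ← hvn, smul_smul, mul_inv_cancel₀ hn0, one_smul, exM_coe G p hv, hvq]
  · intro p v w hv hv1 hw hw1 r hr0 hr h
    have h1 : Exp G p.1 (r • v) = Exp G p.1 (r • w) := by
      have := congrArg XM.val h
      rwa [exM_coe G p ((G.T p.1).smul_mem _ hv), exM_coe G p ((G.T p.1).smul_mem _ hw)] at this
    have h2 := hR.Exp_inj _ p.2 _ ((G.T p.1).smul_mem _ hv) _ ((G.T p.1).smul_mem _ hw)
      (by rw [norm_smul, hv1, Real.norm_of_nonneg hr0.le, mul_one]; exact hr)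
      (by rw [norm_smul, hw1, Real.norm_of_nonneg hr0.le, mul_one]; exact hr.le) h1
    exact smul_right_injective _ hr0.ne' h2
  · intro p y q v hv hv1 hyp hy hadd
    have hdp : 0 < dist p y := dist_pos.2 (Ne.symm hyp)
    by_cases hqy : q = y
    · subst hqy
      rw [dist_self, add_zero] at hadd
      exact hy
    have hdq : 0 < dist y q := dist_pos.2 (Ne.symm hqy)
    -- the velocity at `y`
    have hz : (p.1, v) ∈ TS G := ⟨p.2, hv⟩
    set d := dist p y with hd
    have hmem := fl_mem G hz d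
    have hy1 : y.1 = (fl G ((p.1, v), d)).1 := by
      rw [← hy, exM_coe G p ((G.T p.1).smul_mem _ hv), Exp_smul G p.2 hv]
    set u : Euc N := (fl G ((p.1, v), d)).2 with hu
    have hfl : fl G ((p.1, v), d) = (y.1, u) := by rw [hy1]
    have hyu : (y.1, u) ∈ TS G := by rw [← hfl]; exact hmem
    have hu1 : ‖u‖ = 1 := by rw [hu, norm_fl G hz, hv1]
    -- `p` is `Exp y (-d u)`
    have hpb : Exp G y.1 (d • (-u)) = p.1 := by
      rw [smul_neg, ← neg_smul, Exp_smul G y.2 hyu.2, ← hfl, ← fl_add' G hz, add_neg_cancel,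
        fl_zero]
    obtain ⟨w, hw, hwn, hwq⟩ := hR.exists_Exp y.1 y.2 q.1 q.2
    have hwn' : ‖w‖ = dist y q := hwn
    have hw0 : ‖w‖ ≠ 0 := by rw [hwn']; exact hdq.ne'
    have hq2 : Exp G y.1 (dist y q • (‖w‖⁻¹ • w)) = q.1 := by
      rw [← hwn', smul_smul, mul_inv_cancel₀ hw0, one_smul, hwq]
    have h1 := hR.no_corner y.1 y.2 (-u) ((G.T y.1).neg_mem hyu.2) (‖w‖⁻¹ • w)
      ((G.T y.1).smul_mem _ hw) (by rw [norm_neg, hu1])
      (by rw [norm_smul, norm_inv, norm_norm, inv_mul_cancel₀ hw0]) d (dist y q) hdp hdq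
      (by rw [hpb, hq2]; exact hadd.symm)
    rw [neg_neg] at h1
    rw [h1] at hq2
    apply XM.ext
    rw [exM_coe G p ((G.T p.1).smul_mem _ hv), ← hadd, Exp_smul G p.2 hv, fl_add' G hz, hfl,
      ← Exp_smul G y.2 hyu.2, hq2]

/-- the reduced vector: every tangent vector `ξ` can be replaced by one of norm `≤ π` with the same
`Exp (±ξ)`. -/
lemma exists_reduced {p ξ : Euc N} (hR : Rigid G) (hp : p ∈ S) (hξ : ξ ∈ G.T p) :
    ∃ η ∈ G.T p, ‖η‖ ≤ Real.pi ∧ Exp G p η = Exp G p ξ ∧ Exp G p (-η) = Exp G p (-ξ) := by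
  by_cases h0 : ξ = 0
  · exact ⟨ξ, hξ, by rw [h0, norm_zero]; exact Real.pi_pos.le, rfl, rfl⟩
  have hn0 : ‖ξ‖ ≠ 0 := norm_ne_zero_iff.2 h0
  set v : Euc N := ‖ξ‖⁻¹ • ξ with hv
  have hvT : v ∈ G.T p := (G.T p).smul_mem _ hξ
  have hv1 : ‖v‖ = 1 := by rw [hv, norm_smul, norm_inv, norm_norm, inv_mul_cancel₀ hn0]
  have hξv : ξ = ‖ξ‖ • v := by rw [hv, smul_smul, mul_inv_cancel₀ hn0, one_smul]
  -- reduce `‖ξ‖` modulo `2π` into `(-π, π]`
  set t : ℝ := toIocMod Real.two_pi_pos (-Real.pi) ‖ξ‖ with ht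
  have htmem := toIocMod_mem_Ioc Real.two_pi_pos (-Real.pi) ‖ξ‖
  rw [← ht] at htmem
  have hteq : t = ‖ξ‖ - toIocDiv Real.two_pi_pos (-Real.pi) ‖ξ‖ * (2 * Real.pi) := by
    rw [ht, toIocMod, zsmul_eq_mul]
  set k : ℤ := toIocDiv Real.two_pi_pos (-Real.pi) ‖ξ‖ with hk
  refine ⟨t • v, (G.T p).smul_mem _ hvT, ?_, ?_, ?_⟩
  · rw [norm_smul, hv1, mul_one, Real.norm_eq_abs, abs_le]
    exact ⟨htmem.1.le, by linarith [htmem.2]⟩
  · rw [hξv, ← Exp_periodic_int hR hp hvT hv1 t k]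
    congr 2
    rw [hteq]; ring
  · rw [← neg_smul]
    rw [show -ξ = (-‖ξ‖) • v by rw [neg_smul, ← hξv]]
    rw [← Exp_periodic_int hR hp hvT hv1 (-t) (-k)]
    congr 2
    rw [hteq]; push_cast; ring

open Classical in
/-- the point symmetry. -/
def symM (G : Geo n N κ S) (hR : Rigid G) (x y : XM S) : XM S :=
  exM G x (-(Classical.choose (hR.exists_Exp x.1 x.2 y.1 y.2)))

lemma symM_spec (hR : Rigid G) (x y : XM S) {ξ : Euc N} (hξ : ξ ∈ G.T x.1)
    (hn : ‖ξ‖ ≤ Real.pi) (h : Exp G x.1 ξ = y.1) : (symM G hR x y).1 = Exp G x.1 (-ξ) := by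
  obtain ⟨hη, hηn, hηy⟩ := Classical.choose_spec (hR.exists_Exp x.1 x.2 y.1 y.2)
  unfold symM
  set η := Classical.choose (hR.exists_Exp x.1 x.2 y.1 y.2) with hηdef
  have hηπ : ‖η‖ ≤ Real.pi := by rw [hηn]; exact hR.bl.dist_le _ x.2 _ y.2
  rw [exM_coe G x ((G.T x.1).neg_mem hη)]
  -- the distance is zero
  have h1 := hR.symS x.1 x.2 η hη ξ hξ hηπ hn
  rw [hηy, h, intrinsicDist_self y.2] at h1
  have h2 := chord_le_intrinsicDist (joinedS_of_connected hR.bl.sub hR.bl.conn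
    (Exp_mem G x.2 ((G.T x.1).neg_mem hη)) (Exp_mem G x.2 ((G.T x.1).neg_mem hξ)))
  have h3 := norm_le_zero_iff.1 (h2.trans h1)
  exact (sub_eq_zero.1 h3).symm

include hR in
theorem sym_metric : @SymS (XM S) (Euc N) (metricXM hR.bl.sub hR.bl.conn) _ _
    (fun p => G.T p.1) (exM G) (symM G hR) := by
  let _ := metricXM hR.bl.sub hR.bl.conn
  have hdist : ∀ p q : XM S, dist p q = intrinsicDist S p.1 q.1 := fun _ _ => rfl
  refine ⟨?_, ?_⟩
  · intro x ξ hξ
    obtain ⟨η, hη, hηn, h1, h2⟩ := exists_reduced hR x.2 hξ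
    apply XM.ext
    rw [symM_spec hR x (exM G x ξ) hη hηn (by rw [exM_coe G x hξ, h1]),
      exM_coe G x ((G.T x.1).neg_mem hξ), h2]
  · intro x
    apply Isometry.of_dist_eq
    intro y z
    obtain ⟨ξ, hξ, hξn, hy⟩ := hR.exists_Exp x.1 x.2 y.1 y.2
    obtain ⟨η, hη, hηn, hz⟩ := hR.exists_Exp x.1 x.2 z.1 z.2
    have hξπ : ‖ξ‖ ≤ Real.pi := by rw [hξn]; exact hR.bl.dist_le _ x.2 _ y.2
    have hηπ : ‖η‖ ≤ Real.pi := by rw [hηn]; exact hR.bl.dist_le _ x.2 _ z.2
    rw [hdist, hdist, symM_spec hR x y hξ hξπ hy, symM_spec hR x z hη hηπ hz, ← hy, ← hz]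
    apply le_antisymm
    · exact hR.symS x.1 x.2 ξ hξ η hη hξπ hηπ
    · have := hR.symS x.1 x.2 (-ξ) ((G.T x.1).neg_mem hξ) (-η) ((G.T x.1).neg_mem hη)
        (by rwa [norm_neg]) (by rwa [norm_neg])
      rwa [neg_neg, neg_neg] at this

include hR in
theorem mid_metric : @MidS (XM S) (Euc N) (metricXM hR.bl.sub hR.bl.conn) _ _ Real.pi
    (fun p => G.T p.1) (exM G) := by
  let _ := metricXM hR.bl.sub hR.bl.conn
  have hdist : ∀ p q : XM S, dist p q = intrinsicDist S p.1 q.1 := fun _ _ => rfl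
  intro p v v' hv hv1 hv' hv1' h hne hne'
  have hS : ∀ {c : ℝ} {w : Euc N}, w ∈ G.T p.1 → c • w ∈ G.T p.1 := fun hw =>
    (G.T p.1).smul_mem _ hw
  have h1 : Exp G p.1 (Real.pi • v) = Exp G p.1 (Real.pi • v') := by
    have := congrArg XM.val h
    rwa [exM_coe G p (hS hv), exM_coe G p (hS hv')] at this
  have hne1 : v ≠ -v' := fun h' => hne' (by rw [h', neg_neg])
  have hsum : v + v' ≠ 0 := fun h' => hne1 (eq_neg_of_add_eq_zero_left h')
  have hn0 : ‖v + v'‖ ≠ 0 := norm_ne_zero_iff.2 hsum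
  set u : Euc N := ‖v + v'‖⁻¹ • (v + v') with hu
  have huT : u ∈ G.T p.1 := hS ((G.T p.1).add_mem hv hv')
  have hu1 : ‖u‖ = 1 := by rw [hu, norm_smul, norm_inv, norm_norm, inv_mul_cancel₀ hn0]
  have hlin := hR.lin p.1 p.2 v hv v' hv' hv1 hv1' h1 hne1
  rw [← hu] at hlin
  have hpos : 0 < ‖v + v'‖⁻¹ := inv_pos.2 (norm_pos_iff.2 hsum)
  -- the angles
  have hang1 : InnerProductGeometry.angle v u = InnerProductGeometry.angle u v' := by
    rw [InnerProductGeometry.angle, InnerProductGeometry.angle, hv1, hu1, hv1']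
    congr 1
    rw [hu, inner_smul_right, inner_smul_left, inner_add_right, inner_add_left,
      real_inner_self_eq_norm_sq, real_inner_self_eq_norm_sq, hv1, hv1']
    simp only [conj_trivial, mul_one, div_one]
    ring
  have hang2 : InnerProductGeometry.angle v u + InnerProductGeometry.angle u v'
      = InnerProductGeometry.angle v v' := by
    have e1 : InnerProductGeometry.angle v u = InnerProductGeometry.angle v (v + v') :=
      InnerProductGeometry.angle_smul_right_of_pos _ _ hpos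
    have hv0 : v ≠ 0 := fun h' => by rw [h', norm_zero] at hv1; norm_num at hv1
    have hv0' : v' ≠ 0 := fun h' => by rw [h', norm_zero] at hv1'; norm_num at hv1'
    -- use cosines
    set θ := InnerProductGeometry.angle v u with hθ
    rw [← hang1]
    have hθ0 : 0 ≤ θ := InnerProductGeometry.angle_nonneg _ _
    have hcos : Real.cos θ = ⟪v, u⟫ := by
      rw [hθ, InnerProductGeometry.cos_angle, hv1, hu1, mul_one, div_one]
    have hc1 : ⟪v, v'⟫ = Real.cos (InnerProductGeometry.angle v v') := by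
      rw [InnerProductGeometry.cos_angle, hv1, hv1', mul_one, div_one]
    have hnsq : ‖v + v'‖ ^ 2 = 2 + 2 * ⟪v, v'⟫ := by
      rw [norm_add_sq_real, hv1, hv1']; ring
    have hvu : ⟪v, u⟫ = ‖v + v'‖⁻¹ * (1 + ⟪v, v'⟫) := by
      rw [hu, inner_smul_right, inner_add_right, real_inner_self_eq_norm_sq, hv1]; ring
    have hvu' : ⟪v, u⟫ = ‖v + v'‖ / 2 := by
      rw [hvu]
      have : 1 + ⟪v, v'⟫ = ‖v + v'‖ ^ 2 / 2 := by rw [hnsq]; ring
      rw [this]; field_simp
    have hcpos : 0 < Real.cos θ := by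
      rw [hcos, hvu']; positivity
    have hθ2 : θ < Real.pi / 2 := by
      by_contra hcon
      push Not at hcon
      have := Real.cos_nonpos_of_pi_div_two_le_of_le hcon
        (by linarith [InnerProductGeometry.angle_le_pi v u, Real.pi_pos])
      linarith
    have h2θ : Real.cos (θ + θ) = Real.cos (InnerProductGeometry.angle v v') := by
      rw [← hc1, ← two_mul, Real.cos_two_mul, hcos, hvu', div_pow, hnsq]; ring
    exact Real.injOn_cos ⟨by linarith, by linarith⟩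
      ⟨InnerProductGeometry.angle_nonneg _ _, InnerProductGeometry.angle_le_pi _ _⟩ h2θ
  refine ⟨u, huT, hu1, ?_, ?_, ?_⟩
  · apply XM.ext
    rw [exM_coe G p (hS huT), exM_coe G p (hS hv)]
    exact hlin
  · rw [hdist, hdist, exM_coe G p (hS huT), exM_coe G p (hS hv), exM_coe G p (hS hv'),
      hR.equator p.1 p.2 v hv u huT hv1 hu1 hlin.symm,
      hR.equator p.1 p.2 v hv v' hv' hv1 hv1' h1]
    linarith
  · rw [hdist, hdist, exM_coe G p (hS huT), exM_coe G p (hS hv), exM_coe G p (hS hv'),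
      hR.equator p.1 p.2 u huT v' hv' hu1 hv1' (hlin.trans h1),
      hR.equator p.1 p.2 v hv v' hv' hv1 hv1' h1]
    linarith

include hR in
theorem cut_connected : ∀ p : XM S, @IsPreconnected (XM S)
    (metricXM hR.bl.sub hR.bl.conn).toUniformSpace.toTopologicalSpace
    {w : XM S | (metricXM hR.bl.sub hR.bl.conn).dist p w = Real.pi} := by
  let _ := metricXM hR.bl.sub hR.bl.conn
  have hdist : ∀ p q : XM S, dist p q = intrinsicDist S p.1 q.1 := fun _ _ => rfl
  intro p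
  change IsPreconnected {w : XM S | dist p w = Real.pi}
  have hB := bl_metric hR
  -- the cut locus is the image of the unit sphere of `T p`
  have himg : {w : XM S | dist p w = Real.pi}
      = (fun v : G.T p.1 => exM G p (Real.pi • (v : Euc N))) '' Metric.sphere 0 1 := by
    ext w
    constructor
    · intro hw
      obtain ⟨v, hv, hv1, hvw⟩ := hB.reach p w
      rw [show dist p w = Real.pi from hw] at hvw
      exact ⟨⟨v, hv⟩, by rw [mem_sphere_zero_iff_norm]; exact hv1, hvw⟩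
    · rintro ⟨v, hv, rfl⟩
      rw [mem_sphere_zero_iff_norm] at hv
      exact hB.dist_ray p v v.2 hv Real.pi Real.pi_pos.le le_rfl
  rw [himg]
  -- continuity
  have hcont : Continuous (fun v : G.T p.1 => exM G p (Real.pi • (v : Euc N))) := by
    rw [Metric.continuous_iff']
    intro v ε hε
    have hmem : ∀ w : G.T p.1, Real.pi • (w : Euc N) ∈ G.T p.1 := fun w =>
      (G.T p.1).smul_mem _ w.2
    have hc1 : ContinuousAt (fun w : G.T p.1 => Exp G p.1 (Real.pi • (w : Euc N))) v := by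
      have := (contDiffAt_Exp G p.2 (hmem v)).continuousAt
      exact ContinuousAt.comp (g := fun q : Euc N × Euc N => Exp G q.1 q.2)
        (f := fun w : G.T p.1 => ((p.1, Real.pi • (w : Euc N)) : Euc N × Euc N)) this (by fun_prop)
    have hc2 := continuousOn_intrinsicDist hR.bl.sub hR.bl.cpt hR.bl.conn
      (Exp G p.1 (Real.pi • (v : Euc N)), Exp G p.1 (Real.pi • (v : Euc N)))
      ⟨Exp_mem G p.2 (hmem v), Exp_mem G p.2 (hmem v)⟩
    have hc3 : Tendsto (fun w : G.T p.1 => (Exp G p.1 (Real.pi • (w : Euc N)),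
        Exp G p.1 (Real.pi • (v : Euc N)))) (𝓝 v)
        (𝓝[S ×ˢ S] (Exp G p.1 (Real.pi • (v : Euc N)), Exp G p.1 (Real.pi • (v : Euc N)))) := by
      rw [tendsto_nhdsWithin_iff]
      refine ⟨?_, Eventually.of_forall fun w => ⟨Exp_mem G p.2 (hmem w), Exp_mem G p.2 (hmem v)⟩⟩
      exact (hc1.prodMk continuousAt_const)
    have hc4 := hc2.tendsto.comp hc3
    rw [intrinsicDist_self (Exp_mem G p.2 (hmem v))] at hc4
    filter_upwards [hc4.eventually (gt_mem_nhds hε)] with w hw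
    rw [hdist, exM_coe G p (hmem w), exM_coe G p (hmem v)]
    exact hw
  by_cases hn1 : n = 1
  · -- dimension one: the image is a single point
    have hfr : Module.finrank ℝ (G.T p.1) = 1 := by rw [G.finrank_T p.1 p.2, hn1]
    obtain ⟨v, hv, hv1, -⟩ := hB.reach p p
    have hsub : (fun v : G.T p.1 => exM G p (Real.pi • (v : Euc N))) '' Metric.sphere 0 1
        ⊆ {exM G p (Real.pi • v)} := by
      rintro _ ⟨w, hw, rfl⟩
      rw [mem_sphere_zero_iff_norm] at hw
      obtain ⟨c, hc⟩ := (finrank_eq_one_iff_of_nonzero' (⟨v, hv⟩ : G.T p.1) (by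
        intro h
        have : v = 0 := congrArg Subtype.val h
        rw [this, norm_zero] at hv1; norm_num at hv1)).1 hfr w
      have hc' : (w : Euc N) = c • v := by rw [← hc]; rfl
      have hcn : |c| = 1 := by
        have : ‖(w : Euc N)‖ = 1 := hw
        rw [hc', norm_smul, hv1, mul_one, Real.norm_eq_abs] at this
        exact this
      rw [mem_singleton_iff]
      rcases eq_or_eq_neg_of_abs_eq hcn with h | h
      · simp only [hc', h, one_smul]
      · simp only [hc', h, neg_smul, one_smul, smul_neg]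
        exact hB.ex_neg_D hv hv1
    exact (Set.subsingleton_singleton.anti hsub).isPreconnected
  · have hfr : 1 < Module.finrank ℝ (G.T p.1) := by
      rw [G.finrank_T p.1 p.2]
      have := hR.bl.hn
      omega
    have hrank : 1 < Module.rank ℝ (G.T p.1) := by
      rw [← Module.finrank_eq_rank]
      exact_mod_cast hfr
    exact (isPreconnected_sphere hrank 0 1).image _ hcont.continuousOn

/-- **G7**: the conclusion of S0321 from the geometric facts. -/
theorem two_point_S (hR : Rigid G) : ∀ p q p' q' : S, intrinsicDist S p q = intrinsicDist S p' q' →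
    ∃ Φ : S → S, IsIntrinsicIsometry S Φ ∧ Φ p = p' ∧ Φ q = q' := by
  intro p q p' q' h
  let _ := metricXM hR.bl.sub hR.bl.conn
  obtain ⟨Φ, h1, h2⟩ := two_point (bl_metric hR) (sym_metric hR) (mid_metric hR)
    (cut_connected hR) (⟨p.1, p.2⟩ : XM S) (⟨q.1, q.2⟩ : XM S) (⟨p'.1, p'.2⟩ : XM S)
    (⟨q'.1, q'.2⟩ : XM S) h
  refine ⟨fun x => ⟨(Φ ⟨x.1, x.2⟩).1, (Φ ⟨x.1, x.2⟩).2⟩, ⟨⟨?_, ?_⟩, ?_⟩, ?_, ?_⟩
  · intro x y hxy
    have h3 : Φ ⟨x.1, x.2⟩ = Φ ⟨y.1, y.2⟩ := XM.ext (congrArg Subtype.val hxy)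
    exact Subtype.ext (congrArg XM.val (Φ.injective h3))
  · intro y
    obtain ⟨x, hx⟩ := Φ.surjective ⟨y.1, y.2⟩
    exact ⟨⟨x.1, x.2⟩, Subtype.ext (congrArg XM.val hx)⟩
  · intro x y
    exact Φ.isometry.dist_eq ⟨x.1, x.2⟩ ⟨y.1, y.2⟩
  · exact Subtype.ext (congrArg XM.val h1)
  · exact Subtype.ext (congrArg XM.val h2)

end

end Crest.Agent.R208.M
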