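import Crest.Agent.R208.HS3
import Crest.Agent.R208.G3s
import Crest.Agent.R208.M885b

/-!
R208, block G7 (helper88), file HS4: assembly of the rigid end.  Blaschke data of diameter `π` with
closed geodesics, linked great spheres and the polar metric of the equality case are two-point
homogeneous.
-/

set_option autoImplicit false

open Set Filter Topology
open scoped ContDiff RealInnerProductSpace
open Crest.GeometryTopology.Submanifold
open Crest.Agent.R241.DDefs
open Crest.Agent.R241.D2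

noncomputable section

namespace Crest.Agent.R208.HS

variable {n N : ℕ} {κ : ℝ} {S : Set (Euc N)} {G : Geo n N κ S}

/-- the links of antipodal pairs are great spheres (output of G5) -/
def Links (G : Geo n N κ S) : Prop :=
  ∀ p ∈ S, ∀ q ∈ S, intrinsicDist S p q = Real.pi → ∃ V : Submodule ℝ (Euc N), V ≤ G.T p ∧
    ∀ v, (v ∈ V ∧ ‖v‖ = 1) ↔ (v ∈ G.T p ∧ ‖v‖ = 1 ∧ Exp G p (Real.pi • v) = q)

theorem hyp (h : Bl n N κ S G Real.pi) (hper : Per G)
    (hpol : ∀ p ∈ S, ∀ v ∈ G.T p, ‖v‖ = 1 → PolarAt G p v) : Hyp G where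
  bl := h
  per := hper
  pol := hpol
  reach _ hp _ hq := h.exists_Exp hp hq
  inj _ hp _ hv _ hw h1 h2 h3 := h.Exp_inj hp hv hw h1 h2 h3

theorem rigid (h : Bl n N κ S G Real.pi) (hper : Per G)
    (hpol : ∀ p ∈ S, ∀ v ∈ G.T p, ‖v‖ = 1 → PolarAt G p v) (hlink : Links G) : M.Rigid G := by
  have H := hyp h hper hpol
  have hpi := Real.pi_pos
  have hV : ∀ p ∈ S, ∀ v ∈ G.T p, ∀ w ∈ G.T p, ‖v‖ = 1 → ‖w‖ = 1 →
      Exp G p (Real.pi • v) = Exp G p (Real.pi • w) → ∃ V : Submodule ℝ (Euc N), V ≤ G.T p ∧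
        v ∈ V ∧ w ∈ V ∧ ∀ u ∈ V, ‖u‖ = 1 → Exp G p (Real.pi • u) = Exp G p (Real.pi • v) := by
    intro p hp v hv w hw hv1 hw1 hvw
    have hq : Exp G p (Real.pi • v) ∈ S := Exp_mem G hp ((G.T p).smul_mem _ hv)
    have hd : intrinsicDist S p (Exp G p (Real.pi • v)) = Real.pi := by
      rw [h.dist_Exp hp ((G.T p).smul_mem _ hv) (by
        rw [norm_smul, hv1, mul_one, Real.norm_eq_abs, abs_of_pos hpi]), norm_smul, hv1, mul_one,
        Real.norm_eq_abs, abs_of_pos hpi]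
    obtain ⟨V, hVT, hVi⟩ := hlink p hp _ hq hd
    exact ⟨V, hVT, ((hVi v).2 ⟨hv, hv1, rfl⟩).1, ((hVi w).2 ⟨hw, hw1, hvw.symm⟩).1,
      fun u hu hu1 => ((hVi u).1 ⟨hu, hu1⟩).2.2⟩
  exact
  { bl := h
    dist_Exp := fun p hp v hv hn => h.dist_Exp hp hv hn
    exists_Exp := fun p hp q hq => h.exists_Exp hp hq
    no_corner := by
      intro x hx u hu w hw hu1 hw1 s t hs ht hd
      have hle : s + t ≤ Real.pi := by
        rw [← hd]
        exact h.dist_le _ (Exp_mem G hx ((G.T x).smul_mem _ hu)) _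
          (Exp_mem G hx ((G.T x).smul_mem _ hw))
      exact h.no_corner hx hu hw hu1 hw1 hs ht (by linarith) (by linarith) hd.ge
    Exp_inj := fun p hp v hv w hw h1 h2 h3 => h.Exp_inj hp hv hw h1 h2 h3
    per := hper
    symS := fun p hp ξ hξ η hη _ _ => symS H hp hξ hη
    equator := by
      intro p hp v hv w hw hv1 hw1 hvw
      obtain ⟨V, hVT, hvV, hwV, hVq⟩ := hV p hp v hv w hw hv1 hw1 hvw
      exact equator H hp hVT hVq hvV hwV hv1 hw1
    lin := by
      intro p hp v hv w hw hv1 hw1 hvw hne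
      obtain ⟨V, hVT, hvV, hwV, hVq⟩ := hV p hp v hv w hw hv1 hw1 hvw
      have hsum : v + w ≠ 0 := fun h' => hne (eq_neg_of_add_eq_zero_left h')
      exact hVq _ (V.smul_mem _ (V.add_mem hvV hwV)) (by
        rw [norm_smul, norm_inv, norm_norm, inv_mul_cancel₀ (norm_ne_zero_iff.2 hsum)]) }

/-- **G7**: rigid Blaschke data are two-point homogeneous. -/
theorem hom (h : Bl n N κ S G Real.pi) (hper : Per G)
    (hpol : ∀ p ∈ S, ∀ v ∈ G.T p, ‖v‖ = 1 → PolarAt G p v) (hlink : Links G) : TwoPt S :=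
  M.two_point_S (rigid h hper hpol hlink)

end Crest.Agent.R208.HS
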