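import Crest.Agent.R208.T0b
import Crest.Agent.R208.CM0

/-! Row 208, block RR (helper427), part RR0: forms on the cylinder `Z × ℝ`, fibre integration over
`[0,1]`, horizontal forms. -/

set_option autoImplicit false
set_option linter.unusedSectionVars false
set_option linter.unusedVariables false

open MeasureTheory Set Filter Topology Module
open scoped ContDiff
open Crest.Agent.R208.F Crest.Agent.R208.FI Crest.Agent.R208.CW Crest.Agent.R208.T

noncomputable section

namespace Crest.Agent.R208.RR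

universe u
variable {E : Type u} [NormedAddCommGroup E] [NormedSpace ℝ E] [FiniteDimensional ℝ E]
  {E' : Type*} [NormedAddCommGroup E'] [NormedSpace ℝ E'] [FiniteDimensional ℝ E']
  {d : ℕ} {Z : Set E} {o : E → Ext E} {a b c a' b' : E → Ext E} {x : E}

/-- the cylinder -/
def Cyl (Z : Set E) : Set (E × ℝ) := Z ×ˢ (univ : Set ℝ)

theorem mem_Cyl {q : E × ℝ} : q ∈ Cyl Z ↔ q.1 ∈ Z := by simp [Cyl]

theorem sub_Cyl {n : ℕ} (hZ : Sub n Z) : Sub (n + 1) (Cyl Z) :=
  hZ.prod (sub_open (by simp) isOpen_univ)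

/-- the slice `x ↦ (x, s)` -/
def sl (s : ℝ) (x : E) : E × ℝ := (x, s)

theorem contDiff_sl (s : ℝ) : ContDiff ℝ ∞ (sl (E := E) s) := contDiff_id.prodMk contDiff_const

theorem fderiv_sl (s : ℝ) (x : E) :
    fderiv ℝ (sl (E := E) s) x = ContinuousLinearMap.inl ℝ E ℝ := by
  have hj : HasFDerivAt (fun y : E => (y, s)) (ContinuousLinearMap.inl ℝ E ℝ) x :=
    (hasFDerivAt_id x).prodMk (hasFDerivAt_const s x)
  exact hj.fderiv

theorem smap_sl (s : ℝ) : SMap Z (Cyl Z) (sl s) :=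
  ⟨fun x _ => (contDiff_sl s).contDiffAt, fun x hx => mem_Cyl.2 hx⟩

theorem smap_fst : SMap (Cyl Z) Z (Prod.fst : E × ℝ → E) :=
  ⟨fun x _ => contDiff_fst.contDiffAt, fun x hx => mem_Cyl.1 hx⟩

theorem pull_sl_apply (s : ℝ) (w : E × ℝ → Ext (E × ℝ)) (x : E) :
    F.pull (sl s) w x = pbL (ContinuousLinearMap.inl ℝ E ℝ) (w (x, s)) := by
  rw [F.pull, fderiv_sl]; rfl

/-- fibre integral over `[0,1]` -/
def K (w : E × ℝ → Ext (E × ℝ)) : E → Ext E :=
  hop (ContinuousLinearMap.inl ℝ E ℝ) ((0, 1) : E × ℝ) w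

variable {w w' : E × ℝ → Ext (E × ℝ)}

theorem Sm.K (hw : Sm (Cyl Z) w) : Sm Z (K w) := fun x hx => by
  refine contDiffAt_hop fun t _ => ?_
  rw [jv_inl]
  exact hw _ (mem_Cyl.2 hx)

theorem K_d (hw : Sm (Cyl Z) w) (hx : x ∈ Z) :
    F.d (K w) x + K (F.d w) x = F.pull (sl 1) w x - F.pull (sl 0) w x := by
  have h := d_hop (j := ContinuousLinearMap.inl ℝ E ℝ) (v := ((0, 1) : E × ℝ)) (Om := w) (x := x)
    (fun t _ => by
      rw [jv_inl]
      exact (hw _ (mem_Cyl.2 hx)).of_le (by exact_mod_cast le_top))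
  rw [jv_inl, jv_inl] at h
  rw [pull_sl_apply, pull_sl_apply]
  exact h

theorem integrable_hopg (hw : Sm (Cyl Z) w) (hx : x ∈ Z) :
    IntervalIntegrable (fun t => hopg (ContinuousLinearMap.inl ℝ E ℝ) ((0, 1) : E × ℝ) w (x, t))
      volume 0 1 := by
  refine Continuous.intervalIntegrable ?_ _ _
  refine (hopL _ _).continuous.comp ?_
  rw [continuous_iff_continuousAt]
  intro t
  have h1 : ContinuousAt w ((fun s : ℝ => ((x, s) : E × ℝ)) t) := (hw _ (mem_Cyl.2 hx)).continuousAt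
  have h2 := h1.comp (f := fun s : ℝ => ((x, s) : E × ℝ)) (by fun_prop : Continuous
    (fun s : ℝ => ((x, s) : E × ℝ))).continuousAt
  refine h2.congr (Eventually.of_forall fun s => ?_)
  simp only [Function.comp]
  rw [jv_inl]

theorem K_add (hw : Sm (Cyl Z) w) (hw' : Sm (Cyl Z) w') (hx : x ∈ Z) :
    K (w + w') x = K w x + K w' x := by
  simp only [K, hop, I1]
  rw [← intervalIntegral.integral_add (integrable_hopg hw hx) (integrable_hopg hw' hx)]
  simp only [hopg, Pi.add_apply, map_add]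

theorem K_smul (r : ℝ) : K (r • w) = r • K w := by
  funext x
  simp only [K, hop, I1, Pi.smul_apply]
  rw [← intervalIntegral.integral_smul]
  simp only [hopg, Pi.smul_apply, map_smul]

theorem K_eqv0 (hw : Sm (Cyl Z) w) (h : ResZero (Cyl Z) w) : ResZero Z (K w) := by
  have h1 := resZero_hop (E' := E × ℝ) (j := ContinuousLinearMap.inl ℝ E ℝ)
    (v := ((0, 1) : E × ℝ)) (Fh := fun y => y) (X := Z) (Y := Cyl Z) (η := w)
    (fun x _ t _ => contDiffAt_id) (fun x hx t _ => by rw [jv_inl]; exact mem_Cyl.2 hx)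
    (fun x hx t _ => by rw [jv_inl]; exact (hw _ (mem_Cyl.2 hx)).continuousAt) h
  rwa [show F.pull (fun y : E × ℝ => y) w = w from funext fun y => pull_id w y] at h1

theorem K_eqv (hw : Sm (Cyl Z) w) (hw' : Sm (Cyl Z) w') (h : Eqv (Cyl Z) w w') :
    Eqv Z (K w) (K w') := by
  have h1 := K_eqv0 (hw.sub hw') h
  refine eqv_iff.2 fun x hx => ?_
  have h2 := h1 x hx
  have h3 : K (w - w') x = K w x - K w' x := by
    have h4 : w - w' = w + (-1 : ℝ) • w' := by funext y; simp [sub_eq_add_neg]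
    rw [h4, K_add hw (hw'.smul _) hx, K_smul]
    simp [sub_eq_add_neg]
  rw [h3, map_sub, sub_eq_zero] at h2
  exact h2

theorem K_d_eqv (hw : Sm (Cyl Z) w) :
    Eqv Z (F.d (K w) + K (F.d w)) (F.pull (sl 1) w - F.pull (sl 0) w) :=
  Eqv.of_eq fun _ hx => K_d hw hx

/-! ### integrals -/

theorem Sm.cont (ha : Sm Z a) : ContinuousOn a Z := fun x hx =>
  (ha x hx).continuousAt.continuousWithinAt

theorem J_eqv (hZ : Clo d Z) (h : Eqv Z a b) : J d Z o a = J d Z o b := by
  refine J_congr hZ fun x hx w hw => ?_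
  have h1 := eqv_iff.1 h x hx
  let w' : Fin d → Tan Z x := fun i => ⟨w i, hw i⟩
  have h2 := congrArg (fun c => evA (Tan Z x) d c w') h1
  simp only [evA_pb] at h2
  exact h2

theorem J_add' (hZ : Clo d Z) (ho : Ori d Z o) (ha : Sm Z a) (hb : Sm Z b) :
    J d Z o (a + b) = J d Z o a + J d Z o b := J_add hZ ho (Sm.cont ha) (Sm.cont hb)
theorem J_sub' (hZ : Clo d Z) (ho : Ori d Z o) (ha : Sm Z a) (hb : Sm Z b) :
    J d Z o (a - b) = J d Z o a - J d Z o b := J_sub hZ ho (Sm.cont ha) (Sm.cont hb)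
theorem J_smul' (r : ℝ) : J d Z o (r • a) = r * J d Z o a := J_smul r
theorem J_d' (hZ : Clo d Z) (ho : Ori d Z o) (ha : Sm Z a) : J d Z o (F.d a) = 0 :=
  J_d hZ ho fun x hx => (ha x hx).of_le (by exact_mod_cast le_top)

theorem JK_congr (hZ : Clo d Z) (hw : Sm (Cyl Z) w) (hw' : Sm (Cyl Z) w')
    (h : Eqv (Cyl Z) w w') : J d Z o (K w) = J d Z o (K w') := J_eqv hZ (K_eqv hw hw' h)

theorem JK_add (hZ : Clo d Z) (ho : Ori d Z o) (hw : Sm (Cyl Z) w) (hw' : Sm (Cyl Z) w') :
    J d Z o (K (w + w')) = J d Z o (K w) + J d Z o (K w') := by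
  rw [← J_add' hZ ho (Sm.K hw) (Sm.K hw')]
  exact J_congr' hZ fun x hx => K_add hw hw' hx

theorem JK_smul (r : ℝ) : J d Z o (K (r • w)) = r * J d Z o (K w) := by
  rw [K_smul, J_smul']

/-- Stokes on the cylinder -/
theorem JK_d (hZ : Clo d Z) (ho : Ori d Z o) (hw : Sm (Cyl Z) w) :
    J d Z o (K (F.d w)) = J d Z o (F.pull (sl 1) w) - J d Z o (F.pull (sl 0) w) := by
  have h1 := J_eqv (o := o) hZ (K_d_eqv hw)
  have hK : Sm Z (K w) := Sm.K hw
  have hKd : Sm Z (K (F.d w)) := Sm.K hw.d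
  rw [J_add' hZ ho hK.d hKd, J_d' hZ ho hK, zero_add, J_sub' hZ ho (hw.pull (smap_sl 1))
    (hw.pull (smap_sl 0))] at h1
  exact h1

/-! ### even forms -/

/-- even along `X` -/
def Ev (X : Set E) (a : E → Ext E) : Prop := Eqv X (fun x => F.inv (a x)) a

/-- restriction at a point -/
abbrev Rs (X : Set E) (x : E) : Ext E →ₐ[ℝ] Ext (Tan X x) := pb (Tan X x).subtype

theorem Ev.res {X : Set E} (h : Ev X a) (hx : x ∈ X) : F.inv (Rs X x (a x)) = Rs X x (a x) := by
  rw [← pb_inv]; exact eqv_iff.1 h x hx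

theorem Ev.of_res {X : Set E} (h : ∀ x ∈ X, F.inv (Rs X x (a x)) = Rs X x (a x)) : Ev X a :=
  eqv_iff.2 fun x hx => by
    have := h x hx
    rwa [← pb_inv] at this

theorem Ev.mul {X : Set E} (h : Ev X a) (h' : Ev X b) : Ev X (a * b) := Ev.of_res fun x hx => by
  rw [Pi.mul_apply, map_mul, map_mul, h.res hx, h'.res hx]

theorem Ev.add {X : Set E} (h : Ev X a) (h' : Ev X b) : Ev X (a + b) := Ev.of_res fun x hx => by
  rw [Pi.add_apply, map_add, map_add, h.res hx, h'.res hx]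

theorem Ev.smul {X : Set E} (r : ℝ) (h : Ev X a) : Ev X (r • a) := Ev.of_res fun x hx => by
  rw [Pi.smul_apply, map_smul, map_smul, h.res hx]

theorem Ev.sub {X : Set E} (h : Ev X a) (h' : Ev X b) : Ev X (a - b) := Ev.of_res fun x hx => by
  rw [Pi.sub_apply, map_sub, map_sub, h.res hx, h'.res hx]

theorem Ev.one {X : Set E} : Ev X (1 : E → Ext E) := Ev.of_res fun x hx => by
  rw [Pi.one_apply, map_one, map_one]

theorem Ev.pow {X : Set E} (h : Ev X a) (n : ℕ) : Ev X (a ^ n) := by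
  induction n with
  | zero => rw [pow_zero]; exact Ev.one
  | succ n ih => rw [pow_succ]; exact ih.mul h

theorem Ev.sum {X : Set E} {ι : Type*} (s : Finset ι) {f : ι → E → Ext E} (h : ∀ i ∈ s, Ev X (f i)) :
    Ev X (∑ i ∈ s, f i) := by
  classical
  induction s using Finset.induction_on with
  | empty =>
    rw [Finset.sum_empty]
    exact Ev.of_res fun x hx => by simp
  | insert i s hi ih =>
    rw [Finset.sum_insert hi]
    exact (h i (Finset.mem_insert_self _ _)).add (ih fun j hj => h j (Finset.mem_insert_of_mem hj))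

theorem Ev.comm {X : Set E} (h : Ev X a) (hx : x ∈ X) (y : Ext (Tan X x)) :
    Commute (Rs X x (a x)) y := even_comm (h.res hx) y

theorem Ev.pull {X : Set E} {Y : Set E'} {f : E → E'} {w : E' → Ext E'} (hf : SMap X Y f)
    (h : Ev Y w) : Ev X (F.pull f w) := by
  have h1 : Eqv X (F.pull f (fun y => F.inv (w y))) (F.pull f w) := Eqv.pull hf h
  refine Eqv.trans (Eqv.of_eq fun x hx => ?_) h1
  simp only [F.pull, pb_inv]

/-! ### powers and sums -/

theorem Sm.pow {X : Set E} (h : Sm X a) (n : ℕ) : Sm X (a ^ n) := by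
  induction n with
  | zero => exact fun x hx => by rw [pow_zero]; exact contDiffAt_const
  | succ n ih => rw [pow_succ]; exact ih.mul h

theorem Sm.sum {X : Set E} {ι : Type*} (s : Finset ι) {f : ι → E → Ext E}
    (h : ∀ i ∈ s, Sm X (f i)) : Sm X (∑ i ∈ s, f i) := by
  classical
  induction s using Finset.induction_on with
  | empty => rw [Finset.sum_empty]; exact Sm.zero
  | insert i s hi ih =>
    rw [Finset.sum_insert hi]
    exact (h i (Finset.mem_insert_self _ _)).add (ih fun j hj => h j (Finset.mem_insert_of_mem hj))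

theorem Cl.pow {X : Set E} (hs : Sm X a) (h : Cl X a) (n : ℕ) : Cl X (a ^ n) := by
  induction n with
  | zero => rw [pow_zero]; exact Cl.const 1
  | succ n ih => rw [pow_succ]; exact Cl.mul (Sm.pow hs n) hs ih h

theorem Cl.sum {X : Set E} {ι : Type*} (s : Finset ι) {f : ι → E → Ext E}
    (hs : ∀ i ∈ s, Sm X (f i)) (h : ∀ i ∈ s, Cl X (f i)) : Cl X (∑ i ∈ s, f i) := by
  classical
  induction s using Finset.induction_on with
  | empty => rw [Finset.sum_empty]; exact Cl.const 0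
  | insert i s hi ih =>
    rw [Finset.sum_insert hi]
    exact Cl.add (hs i (Finset.mem_insert_self _ _))
      (Sm.sum s fun j hj => hs j (Finset.mem_insert_of_mem hj))
      (h i (Finset.mem_insert_self _ _))
      (ih (fun j hj => hs j (Finset.mem_insert_of_mem hj))
        fun j hj => h j (Finset.mem_insert_of_mem hj))

theorem pull_pow' (f : E → E') (w : E' → Ext E') (n : ℕ) : F.pull f (w ^ n) = F.pull f w ^ n :=
  funext fun x => by simp only [F.pull, Pi.pow_apply, map_pow]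

theorem pull_one' (f : E → E') : F.pull f (1 : E' → Ext E') = 1 :=
  funext fun x => by simp only [F.pull, Pi.one_apply, map_one]

theorem pull_sum' (f : E → E') {ι : Type*} (s : Finset ι) (w : ι → E' → Ext E') :
    F.pull f (∑ i ∈ s, w i) = ∑ i ∈ s, F.pull f (w i) :=
  funext fun x => by simp only [F.pull, Finset.sum_apply, map_sum]

/-- `d (a * b) ~ (d a) * b` for closed `b` -/
theorem d_mul_cl {X : Set E} (ha : Sm X a) (hb : Sm X b) (hc : Cl X b) :
    Eqv X (F.d (a * b)) (F.d a * b) := by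
  refine (d_mul_eqv ha hb).trans ?_
  have h := (Eqv.refl (X := X) (F.d a * b)).add
    ((Eqv.refl (X := X) (fun x => F.inv (a x))).mul (resZero_iff.1 hc))
  rwa [mul_zero, add_zero] at h

/-! ### horizontal forms -/

/-- `ι_V w = 0` along `X` -/
def Hz (X : Set E) (V : E → E) (w : E → Ext E) : Prop := ∀ x ∈ X, Rs X x (ii (V x) (w x)) = 0

variable {X : Set E} {V : E → E}

theorem res_ii (hV : V x ∈ Tan X x) (c : Ext E) :
    Rs X x (ii (V x) c) = ii (⟨V x, hV⟩ : Tan X x) (Rs X x c) :=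
  (ii_pb (Tan X x).subtype ⟨V x, hV⟩ c).symm

theorem Hz.eqv (hV : ∀ x ∈ X, V x ∈ Tan X x) (h : Eqv X a b) (hb : Hz X V b) : Hz X V a :=
  fun x hx => by
    rw [res_ii (hV x hx), eqv_iff.1 h x hx, ← res_ii (hV x hx)]
    exact hb x hx

theorem Hz.add (h : Hz X V a) (h' : Hz X V b) : Hz X V (a + b) := fun x hx => by
  rw [Pi.add_apply, map_add, map_add, h x hx, h' x hx, add_zero]

theorem Hz.sub (h : Hz X V a) (h' : Hz X V b) : Hz X V (a - b) := fun x hx => by
  rw [Pi.sub_apply, map_sub, map_sub, h x hx, h' x hx, sub_zero]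

theorem Hz.smul (r : ℝ) (h : Hz X V a) : Hz X V (r • a) := fun x hx => by
  rw [Pi.smul_apply, map_smul, map_smul, h x hx, smul_zero]

theorem Hz.mul (h : Hz X V a) (h' : Hz X V b) : Hz X V (a * b) := fun x hx => by
  rw [Pi.mul_apply, ii_mul, map_add, map_mul, map_mul, h x hx, h' x hx, zero_mul, mul_zero,
    add_zero]

theorem Hz.one : Hz X V (1 : E → Ext E) := fun x hx => by
  rw [Pi.one_apply, ii_one, map_zero]

theorem Hz.zero : Hz X V (0 : E → Ext E) := fun x hx => by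
  rw [Pi.zero_apply, map_zero, map_zero]

theorem Hz.pow (h : Hz X V a) (n : ℕ) : Hz X V (a ^ n) := by
  induction n with
  | zero => rw [pow_zero]; exact Hz.one
  | succ n ih => rw [pow_succ]; exact ih.mul h

theorem Hz.sum {ι : Type*} (s : Finset ι) {f : ι → E → Ext E} (h : ∀ i ∈ s, Hz X V (f i)) :
    Hz X V (∑ i ∈ s, f i) := by
  classical
  induction s using Finset.induction_on with
  | empty => rw [Finset.sum_empty]; exact Hz.zero
  | insert i s hi ih =>
    rw [Finset.sum_insert hi]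
    exact (h i (Finset.mem_insert_self _ _)).add (ih fun j hj => h j (Finset.mem_insert_of_mem hj))

/-- top degree horizontal forms have integral zero -/
theorem J_hz (hZ : Clo d Z) (hV : ∀ x ∈ Z, V x ∈ Tan Z x) (hV0 : ∀ x ∈ Z, V x ≠ 0)
    (h : Hz Z V a) : J d Z o a = 0 := by
  refine J_eq_zero hZ fun x hx w hw => ?_
  let w' : Fin d → Tan Z x := fun i => ⟨w i, hw i⟩
  have h1 : evA E d (a x) w = evA (Tan Z x) d (Rs Z x (a x)) w' := by
    rw [Rs, evA_pb]; rfl
  have h2 : ii (⟨V x, hV x hx⟩ : Tan Z x) (Rs Z x (a x)) = 0 := by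
    rw [← res_ii]; exact h x hx
  have hv0 : (⟨V x, hV x hx⟩ : Tan Z x) ≠ 0 := by
    intro h0; exact hV0 x hx (congrArg Subtype.val h0)
  obtain ⟨l, hl⟩ : ∃ l : (Tan Z x) →L[ℝ] ℝ, l ⟨V x, hV x hx⟩ = 1 := SeparatingDual.exists_eq_one hv0
  set v : Tan Z x := ⟨V x, hV x hx⟩
  have h3 : ii v (io ((l : (Tan Z x) →ₗ[ℝ] ℝ) : Module.Dual ℝ (Tan Z x)) * Rs Z x (a x)) =
      Rs Z x (a x) := by
    rw [ii_io_mul, h2, mul_zero, sub_zero]
    change (l v) • _ = _
    rw [hl, one_smul]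
  rw [h1, ← h3, ← evA_ii]
  refine AlternatingMap.map_linearDependent _ _ fun hli => ?_
  have h4 := hli.fintype_card_le_finrank
  rw [hZ.sub.finrank_Tan hx, Fintype.card_fin] at h4
  omega

end Crest.Agent.R208.RR
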