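import Crest.Agent.R208.HW4
import Crest.Agent.R208.VC1
import Crest.Agent.R208.RR0
import Crest.Agent.R208.SO2

/-!
R208, block HW (helper664), part 5: the closed basic form `M = τ Σ h^i e'^(k-i)` on
`X' = X × S^{2k+1}`.
-/

set_option autoImplicit false
set_option linter.unusedSectionVars false
set_option linter.unusedVariables false

open Set Filter Topology Module
open scoped ContDiff RealInnerProductSpace
open Crest.Agent.R208.F Crest.Agent.R208.FI Crest.Agent.R208.T Crest.Agent.R208.CM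
open Crest.Agent.R208.CW (SMap)
open Crest.Agent.R208.SO (inv_of_hom_even inv_of_hom_odd ev_comm resZero_of_gt)

noncomputable section

namespace Crest.Agent.R208.HW

/-! ### connections and horizontal forms -/

section conn

variable {E : Type} [NormedAddCommGroup E] [NormedSpace ℝ E] [FiniteDimensional ℝ E]
  {X : Set E} {φ : ℝ → E → E} {d : ℕ} {m : ℕ} {g : E → Fin m → ℂ} {θ θ' : E → Ext E}

/-- the curvature is horizontal -/
theorem hz_d (h : Cir X φ) (hX : Sub d X) (hθ : Conn X φ θ) :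
    RR.Hz X (gen φ) (F.d θ) := by
  have h1 := VC.Inv.d_iV (φ := φ) (VC.Act.of_cir h) hX hθ.sm hθ.inv
  have h2 : Eqv X (VC.iV φ θ) (fun _ => 1) := Eqv.of_eq fun x hx => hθ.unit x hx
  have h3 : Eqv X (F.d (VC.iV φ θ)) 0 :=
    (Eqv.d hX (VC.Sm.iV (VC.Act.of_cir h) hθ.sm) (fun x _ => contDiffAt_const) h2).trans
      (Eqv.of_eq fun x _ => F.d_const _ _)
  have h4 := (h1.symm.trans h3).neg
  rw [neg_neg, neg_zero] at h4
  intro x hx
  exact (eqv_iff.1 h4 x hx).trans (map_zero _)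

/-- pull-backs from the quotient are horizontal -/
theorem hz_jj (hg : Emb X φ g) (h : Cir X φ) (a : MM m → Ext (MM m)) :
    RR.Hz X (gen φ) (pull (jj g) a) := by
  intro x hx
  have h1 : ((fderiv ℝ (jj g) x : E →L[ℝ] MM m) : E →ₗ[ℝ] MM m) (gen φ x) = 0 :=
    (hg.ker_jj h hx (h.gen_mem hx)).2 ⟨1, (one_smul ℝ _).symm⟩
  rw [F.pull, ii_pb, h1, map_zero, LinearMap.zero_apply, map_zero, map_zero]

/-- the difference of two connections is horizontal -/
theorem hz_sub (hθ : Conn X φ θ) (hθ' : Conn X φ θ') : RR.Hz X (gen φ) (θ - θ') := by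
  intro x hx
  rw [Pi.sub_apply, map_sub, hθ.unit x hx, hθ'.unit x hx, sub_self, map_zero]

theorem inv_one {c : Ext E} (h : IsDeg 1 c) : F.inv c = - c :=
  inv_of_hom_odd (a := fun _ : E => c) (fun _ => h) odd_one 0

theorem sq_zero {c : Ext E} (h : IsDeg 1 c) : c * c = 0 := by
  have h1 := CW.odd_comm (inv_one h) c
  rw [inv_one h, neg_mul] at h1
  have h2 : (2 : ℝ) • (c * c) = 0 := by
    rw [two_smul]; nth_rewrite 1 [h1]; exact neg_add_cancel _
  exact (smul_eq_zero.1 h2).resolve_left two_ne_zero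

end conn

variable {k : ℕ} {E : Type} [NormedAddCommGroup E] [NormedSpace ℝ E] [FiniteDimensional ℝ E]
  {X : Set E} {φ : ℝ → E → E} {n : ℕ} {θ : E → Ext E}

/-- the curvature of the sphere on `X'` -/
def hh (E : Type) [NormedAddCommGroup E] [NormedSpace ℝ E] [FiniteDimensional ℝ E] (k : ℕ) :
    E × U k → Ext (E × U k) := pull Prod.snd (fun _ => kp2 k)

/-- the curvature of the half connection -/
def ee (k : ℕ) (θ : E → Ext E) : E × U k → Ext (E × U k) := (1 / 2 : ℝ) • pull Prod.fst (F.d θ)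

/-- the difference of the two connections -/
def ta (k : ℕ) (θ : E → Ext E) : E × U k → Ext (E × U k) := bb E k - th k θ

/-- the geometric sum -/
def GS (k : ℕ) (θ : E → Ext E) : E × U k → Ext (E × U k) :=
  ∑ i ∈ Finset.range (k + 1), hh E k ^ i * ee k θ ^ (k + 1 - 1 - i)

/-- the closed basic form `M` -/
def MM1 (k : ℕ) (θ : E → Ext E) : E × U k → Ext (E × U k) := ta k θ * GS k θ

theorem hom_hh : Hom 2 (hh E k) := Hom.pull (w := fun _ => kp2 k) (fun _ => isDeg_kp2)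

theorem hom_ee (hθ : Hom 1 θ) : Hom 2 (ee k θ) := (hθ.d.pull).smul _

theorem hom_ta (hθ : Hom 1 θ) : Hom 1 (ta k θ) := (hom_b0.pull).sub ((hθ.pull).smul _)

theorem hom_th (hθ : Hom 1 θ) : Hom 1 (th k θ) := (hθ.pull).smul _

theorem hom_GS (hθ : Hom 1 θ) : Hom (2 * k) (GS k θ) := by
  intro z
  have e : GS k θ z = ∑ i ∈ Finset.range (k + 1), (hh E k ^ i * ee k θ ^ (k + 1 - 1 - i)) z := by
    unfold GS; rw [Finset.sum_apply]
  rw [e]
  refine IsDeg.sum _ fun i hi => ?_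
  have h1 := ((hom_hh (E := E) (k := k)).pow i).mul ((hom_ee (k := k) hθ).pow (k + 1 - 1 - i))
  have h2 : 2 * i + 2 * (k + 1 - 1 - i) = 2 * k := by
    have := Finset.mem_range.1 hi; omega
  rw [h2] at h1
  exact h1 z

theorem sm_hh : Sm (XX X k) (hh E k) :=
  Sm.pull (smap_snd (X := X)) (fun u _ => contDiffAt_const)

theorem sm_ee (hθ : Sm X θ) : Sm (XX X k) (ee k θ) := (hθ.d.pull smap_fst).smul _

theorem sm_bb : Sm (XX X k) (bb E k) := sm_b0.pull smap_snd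

theorem sm_th (hθ : Sm X θ) : Sm (XX X k) (th k θ) := (hθ.pull smap_fst).smul _

theorem sm_ta (hθ : Sm X θ) : Sm (XX X k) (ta k θ) := sm_bb.sub (sm_th hθ)

theorem cl_hh : Cl (XX X k) (hh E k) :=
  Cl.pull (smap_snd (X := X)) (fun u _ => contDiffAt_const) (Cl.const _)

theorem cl_ee (hθ : Sm X θ) : Cl (XX X k) (ee k θ) :=
  Cl.smul _ (hθ.d.pull smap_fst) (Cl.pull smap_fst hθ.d (d_d' hθ))

theorem sm_GS (hθ : Sm X θ) : Sm (XX X k) (GS k θ) :=
  RR.Sm.sum _ fun i _ => (sm_hh.pow i).mul ((sm_ee hθ).pow _)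

theorem cl_GS (hθ : Sm X θ) : Cl (XX X k) (GS k θ) :=
  RR.Cl.sum _ (fun i _ => (sm_hh.pow i).mul ((sm_ee hθ).pow _)) fun i _ =>
    Cl.mul (sm_hh.pow i) ((sm_ee hθ).pow _) (Cl.pow sm_hh cl_hh i) (Cl.pow (sm_ee hθ) (cl_ee hθ) _)

theorem d_ta (hθ : Sm X θ) : Eqv (XX X k) (F.d (ta k θ)) (hh E k - ee k θ) :=
  (d_sub_eqv sm_bb (sm_th hθ)).trans (d_bb.sub (d_th hθ))

theorem geom (hθ : Hom 1 θ) :
    (hh E k - ee k θ) * GS k θ = hh E k ^ (k + 1) - ee k θ ^ (k + 1) := by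
  have hc : Commute (hh E k) (ee k θ) := ev_comm hom_hh even_two _
  exact hc.mul_geom_sum₂ (k + 1)

theorem resZero_hh_pow : ResZero (XX X k) (hh E k ^ (k + 1)) := by
  have h1 : hh E k ^ (k + 1) = pull Prod.snd (fun _ => kp2 k ^ (k + 1)) := by
    funext z
    show pb _ (kp2 k) ^ (k + 1) = pb _ (kp2 k ^ (k + 1))
    rw [map_pow]
  rw [h1]
  exact T.ResZero.pull (smap_snd (X := X)) resZero_kp2_pow

theorem resZero_ee_pow (hX : Sub (n + 1) X) (hθ : Hom 1 θ) (hk : n + 1 < 2 * (k + 1)) :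
    ResZero (XX X k) (ee k θ ^ (k + 1)) := by
  have h1 : ee k θ ^ (k + 1) = (1 / 2 : ℝ) ^ (k + 1) • pull Prod.fst (F.d θ ^ (k + 1)) := by
    rw [ee, smul_pow, pull_pow']
  have h2 : ResZero X (F.d θ ^ (k + 1)) := resZero_of_gt hX (hθ.d.pow (k + 1)) hk
  rw [h1, resZero_iff]
  have h3 := (resZero_iff.1 (T.ResZero.pull (smap_fst (X := X) (k := k)) h2)).smul
    ((1 / 2 : ℝ) ^ (k + 1))
  rwa [smul_zero] at h3

/-- **`M` is closed** -/
theorem cl_MM1 (hX : Sub (n + 1) X) (hθ : Conn X φ θ) (hk : n + 1 < 2 * (k + 1)) :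
    Cl (XX X k) (MM1 k θ) := by
  rw [Cl, resZero_iff]
  refine (RR.d_mul_cl (sm_ta hθ.sm) (sm_GS hθ.sm) (cl_GS hθ.sm)).trans ?_
  refine ((d_ta hθ.sm).mul (Eqv.refl (GS k θ))).trans ?_
  rw [geom hθ.hom]
  have := (resZero_iff.1 (resZero_hh_pow (X := X) (k := k))).sub
    (resZero_iff.1 (resZero_ee_pow hX hθ.hom hk))
  rwa [sub_zero] at this

theorem sm_MM1 (hθ : Sm X θ) : Sm (XX X k) (MM1 k θ) := (sm_ta hθ).mul (sm_GS hθ)

theorem hom_MM1 (hθ : Hom 1 θ) : Hom (1 + 2 * k) (MM1 k θ) := (hom_ta hθ).mul (hom_GS hθ)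

/-- **`M` is horizontal** -/
theorem hz_MM1 (h : Cir X φ) (hX : Clo (n + 1) X) (hθ : Conn X φ θ) :
    RR.Hz (XX X k) (gen (ph k φ)) (MM1 k θ) := by
  have hX' := (clo_XX' (k := k) hX).sub
  have hc := cir_XX (k := k) h
  have hgm : ∀ z ∈ XX X k, gen (ph k φ) z ∈ Tan (XX X k) z := fun z hz => hc.gen_mem hz
  have h1 : RR.Hz (XX X k) (gen (ph k φ)) (ta k θ) := hz_sub (conn_bb h) (conn_th h hθ)
  have h2 : RR.Hz (XX X k) (gen (ph k φ)) (hh E k) :=
    RR.Hz.eqv hgm (d_bb (X := X)).symm (hz_d hc hX' (conn_bb h))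
  have h3 : RR.Hz (XX X k) (gen (ph k φ)) (ee k θ) :=
    RR.Hz.eqv hgm (d_th hθ.sm).symm (hz_d hc hX' (conn_th h hθ))
  exact h1.mul (RR.Hz.sum _ fun i _ => (h2.pow i).mul (h3.pow _))

end Crest.Agent.R208.HW
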