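import Crest.Agent.R208.HW5

/-!
R208, block HW (helper664), part 6: the functional `I'` on `B'` and the **injectivity**
of `p^* : H(B) → H(B')`.
-/

set_option autoImplicit false
set_option linter.unusedSectionVars false
set_option linter.unusedVariables false

open Set Filter Topology Module
open scoped ContDiff RealInnerProductSpace
open Crest.Agent.R208.F Crest.Agent.R208.FI Crest.Agent.R208.T Crest.Agent.R208.CM
open Crest.Agent.R208.CW (SMap)
open Crest.Agent.R208.SO (inv_of_hom_even inv_of_hom_odd ev_comm resZero_of_gt)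

noncomputable section

namespace Crest.Agent.R208.HW

variable {k : ℕ} {E : Type} [NormedAddCommGroup E] [NormedSpace ℝ E] [FiniteDimensional ℝ E]
  {X : Set E} {φ : ℝ → E → E} {n : ℕ} {θ : E → Ext E}

/-- low degree on the sphere kills top degree -/
theorem evA_low {i : ℕ} (hi : i < k) (hX : Clo (n + 1) X) (γ : E → Ext E) (z : E × U k)
    (hz : z ∈ XX X k) (N : ℕ) (hN : N = 2 * k + 1 + (n + 1)) (w : Fin N → E × U k)
    (hw : ∀ j, w j ∈ Tan (XX X k) z) :
    evA (E × U k) N ((bb E k * hh E k ^ i * pull Prod.fst γ : E × U k → Ext (E × U k)) z) w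
      = 0 := by
  obtain ⟨q, hq⟩ : ∃ q, N = 1 + 2 * i + q := ⟨2 * (k - i) + (n + 1), by omega⟩
  have hq' : n + 1 < q := by omega
  have h1 : IsDeg (1 + 2 * i) ((bb E k * hh E k ^ i : E × U k → Ext (E × U k)) z) :=
    (hom_b0.pull.mul ((hom_hh (E := E) (k := k)).pow i)) z
  have h2 : ResZero (XX X k) (pull Prod.fst (dp q γ)) :=
    T.ResZero.pull smap_fst (resZero_of_gt hX.sub (hom_dp q γ) hq')
  have h3 : dpl q (pull (Prod.fst : E × U k → E) γ z) = pull Prod.fst (dp q γ) z := by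
    rw [← dp_pull]; rfl
  subst hq
  have h4 := evA_mul_dpl' h1 q (pull Prod.fst γ z)
  rw [h3] at h4
  rw [Pi.mul_apply, h4]
  exact (ResZero.mul_left h2 (bb E k * hh E k ^ i)).evA hz hw

theorem vv_eq : vv E k = bb E k * hh E k ^ k := by
  funext z
  show pb _ (b0 k z.2 * kp2 k ^ k) = pb _ (b0 k z.2) * (pb _ (kp2 k)) ^ k
  rw [map_mul, map_pow]

theorem th_pull (θ : E → Ext E) : th k θ = pull Prod.fst ((1 / 2 : ℝ) • θ) := by
  rw [pull_smul']; rfl

theorem ee_pull (θ : E → Ext E) : ee k θ = pull Prod.fst ((1 / 2 : ℝ) • F.d θ) := by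
  rw [pull_smul']; rfl

theorem MM1_mul_th (hθ : Hom 1 θ) : MM1 k θ * th k θ = bb E k * GS k θ * th k θ := by
  have h1 : th k θ * GS k θ * th k θ = 0 := by
    rw [← ev_comm (hom_GS hθ) (even_two_mul k) (th k θ), mul_assoc]
    have h2 : th k θ * th k θ = 0 := funext fun z => sq_zero (hom_th hθ z)
    rw [h2, mul_zero]
  rw [MM1, ta, sub_mul, sub_mul, h1, sub_zero]

/-- the forms on `X` -/
def gm (θ β : E → Ext E) (j : ℕ) : E → Ext E :=
  ((1 / 2 : ℝ) • F.d θ) ^ j * (((1 / 2 : ℝ) • θ) * β)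

theorem MU_mul (hθ : Hom 1 θ) (β : E → Ext E) :
    MM1 k θ * th k θ * pull Prod.fst β =
      ∑ i ∈ Finset.range (k + 1), bb E k * hh E k ^ i * pull Prod.fst (gm θ β (k + 1 - 1 - i)) := by
  rw [MM1_mul_th hθ, GS, Finset.mul_sum, Finset.sum_mul, Finset.sum_mul]
  refine Finset.sum_congr rfl fun i _ => ?_
  rw [gm, pull_mul', pull_mul', pull_pow', ← ee_pull, ← th_pull]
  simp only [mul_assoc]

theorem sm_gm (hθ : Sm X θ) {β : E → Ext E} (hβ : Sm X β) (j : ℕ) : Sm X (gm θ β j) :=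
  ((hθ.d.smul _).pow j).mul ((hθ.smul _).mul hβ)

theorem gm_zero (θ β : E → Ext E) : gm θ β 0 = (1 / 2 : ℝ) • (θ * β) := by
  rw [gm, pow_zero, one_mul, smul_mul_assoc]

/-- the integral of `M θ' pr^*β` -/
theorem J_MU (hX : Clo (n + 1) X) (hθs : Sm X θ) (hθ : Hom 1 θ) {oX : E → Ext E}
    (ho : Ori (2 * k + 1 + (n + 1)) (XX X k) (fun z => vv E k z * pull Prod.fst oX z))
    {C : ℝ} (hC : ∀ om : E → Ext E, ContinuousOn om X →
        J (2 * k + 1 + (n + 1)) (XX X k) (fun z => vv E k z * pull Prod.fst oX z)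
          (fun z => vv E k z * pull Prod.fst om z) = C * J (n + 1) X oX om)
    {β : E → Ext E} (hβ : Sm X β) :
    J (2 * k + 1 + (n + 1)) (XX X k) (fun z => vv E k z * pull Prod.fst oX z)
      (MM1 k θ * th k θ * pull Prod.fst β) = (1 / 2) * C * J (n + 1) X oX (θ * β) := by
  have hcl : Clo (2 * k + 1 + (n + 1)) (XX X k) := (subm_fst hX).cloZ
  have hsm : ∀ i, Sm (XX X k) (bb E k * hh E k ^ i * pull Prod.fst (gm θ β (k + 1 - 1 - i))) :=
    fun i => (sm_bb.mul (sm_hh.pow i)).mul ((sm_gm hθs hβ _).pull smap_fst)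
  have h1 : MM1 k θ * th k θ * pull Prod.fst β = fun z => ∑ i ∈ Finset.range (k + 1),
      (bb E k * hh E k ^ i * pull Prod.fst (gm θ β (k + 1 - 1 - i)) :
        E × U k → Ext (E × U k)) z := by
    rw [MU_mul hθ]
    funext z
    rw [Finset.sum_apply]
  rw [h1, J_sum hcl ho _ fun i _ => RR.Sm.cont (hsm i), Finset.sum_range_succ,
    Finset.sum_eq_zero, zero_add]
  · have e : k + 1 - 1 - k = 0 := by omega
    rw [e, gm_zero, pull_smul', ← vv_eq, mul_smul_comm]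
    have h2 : J (2 * k + 1 + (n + 1)) (XX X k) (fun z => vv E k z * pull Prod.fst oX z)
        ((1 / 2 : ℝ) • (vv E k * pull Prod.fst (θ * β))) = (1 / 2) *
        J (2 * k + 1 + (n + 1)) (XX X k) (fun z => vv E k z * pull Prod.fst oX z)
        (fun z => vv E k z * pull Prod.fst (θ * β) z) := J_smul _
    rw [h2, hC _ (RR.Sm.cont (hθs.mul hβ))]
    ring
  · intro i hi
    exact FI.J_eq_zero hcl fun z hz w hw => evA_low (Finset.mem_range.1 hi) hX _ z hz _ rfl w hw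

variable {m m' : ℕ} {g : E → Fin m → ℂ} {g' : E × U k → Fin m' → ℂ} {p : MM m' → MM m}

/-- abstract version: `∫ M α dζ = 0` for closed odd horizontal `M`, horizontal `ζ` and a
connection `α`. -/
theorem J_exact_abs {V : Type} [NormedAddCommGroup V] [NormedSpace ℝ V] [FiniteDimensional ℝ V]
    {Z : Set V} {ψ : ℝ → V → V} {N : ℕ} (hc : Cir Z ψ) (hZ : Clo N Z) {o M α ζ : V → Ext V}
    (ho : Ori N Z o) (hα : Conn Z ψ α) (sM : Sm Z M) (cM : Cl Z M)
    (oM : (fun x => F.inv (M x)) = -M) (zM : RR.Hz Z (gen ψ) M) (sζ : Sm Z ζ)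
    (zζ : RR.Hz Z (gen ψ) ζ) : J N Z o (M * α * F.d ζ) = 0 := by
  have hgm : ∀ z ∈ Z, gen ψ z ∈ Tan Z z := fun z hz => hc.gen_mem hz
  have h1 : Eqv Z (F.d (M * (α * ζ))) (F.d M * (α * ζ) + (fun x => F.inv (M x)) * F.d (α * ζ)) :=
    d_mul_eqv sM (hα.sm.mul sζ)
  have h2 : Eqv Z (F.d (α * ζ)) (F.d α * ζ + (fun x => F.inv (α x)) * F.d ζ) :=
    d_mul_eqv hα.sm sζ
  have h4 : (fun x => F.inv (α x)) = - α := by
    funext x
    exact inv_of_hom_odd hα.hom odd_one x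
  have h6 : Eqv Z (F.d (M * (α * ζ))) (M * α * F.d ζ - M * F.d α * ζ) := by
    refine h1.trans ?_
    have h7 := (resZero_iff.1 cM).mul (Eqv.refl (α * ζ))
    rw [zero_mul] at h7
    rw [oM]
    rw [h4] at h2
    have h8 := h7.add ((Eqv.refl (X := Z) (-M)).mul h2)
    have e : (0 : V → Ext V) + -M * (F.d α * ζ + -α * F.d ζ) =
        M * α * F.d ζ - M * F.d α * ζ := by
      noncomm_ring
    rw [e] at h8
    exact h8
  have h9 : J N Z o (F.d (M * (α * ζ))) = 0 :=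
    J_d hZ ho fun z hz => ((sM.mul (hα.sm.mul sζ)) z hz).of_le (by simp)
  rw [RR.J_eqv hZ h6] at h9
  have h10 : RR.Hz Z (gen ψ) (M * F.d α * ζ) := (zM.mul (hz_d hc hZ.sub hα)).mul zζ
  have h11 : J N Z o (M * F.d α * ζ) = 0 :=
    RR.J_hz hZ hgm (fun z hz => hc.gen_ne hz) h10
  have h12 : J N Z o (fun z => (M * α * F.d ζ) z - (M * F.d α * ζ) z) =
      J N Z o (M * α * F.d ζ) - J N Z o (M * F.d α * ζ) :=
    J_sub hZ ho (RR.Sm.cont ((sM.mul hα.sm).mul sζ.d)) (RR.Sm.cont ((sM.mul hα.sm.d).mul sζ))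
  have h13 : J N Z o (fun z => (M * α * F.d ζ) z - (M * F.d α * ζ) z) = 0 := h9
  rw [h13, h11, sub_zero] at h12
  exact h12.symm

theorem inv_MM1 (hθ : Hom 1 θ) : (fun x => F.inv (MM1 k θ x)) = - MM1 k θ := by
  funext x
  exact inv_of_hom_odd (hom_MM1 hθ) ⟨k, by ring⟩ x

/-- exact forms on `B'` integrate to zero against `M θ'` -/
theorem J_exact (H : HD n k X φ g g' p) (hθ : Conn X φ θ) (hk : n + 1 < 2 * (k + 1))
    {N : ℕ} (hN : N = n + (2 * k + 1) + 1) {o : E × U k → Ext (E × U k)}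
    (ho : Ori N (XX X k) o) {ξ : MM m' → Ext (MM m')} (hξ : Sm (Quo (XX X k) g') ξ) :
    J N (XX X k) o (MM1 k θ * th k θ * pull (jj g') (F.d ξ)) = 0 := by
  subst hN
  have hX' := H.clo'
  have h1 := J_exact_abs H.cir' hX' ho (conn_th H.cir hθ) (sm_MM1 hθ.sm)
    (cl_MM1 (k := k) H.clo.sub hθ hk) (inv_MM1 hθ.hom) (hz_MM1 H.cir H.clo hθ)
    (hξ.pull H.smap_jj') (hz_jj H.emb' H.cir' ξ)
  rw [← h1]
  exact RR.J_eqv hX' ((Eqv.refl _).mul (d_pull_eqv H.smap_jj' hξ).symm)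

/-- the functional -/
def IF (k : ℕ) (X : Set E) (θ : E → Ext E) (g' : E × U k → Fin m' → ℂ) (N : ℕ)
    (o : E × U k → Ext (E × U k)) (a : MM m' → Ext (MM m')) : ℝ :=
  J N (XX X k) o (MM1 k θ * th k θ * pull (jj g') a)

theorem IF_add (H : HD n k X φ g g' p) (hθ : Sm X θ) {N : ℕ} {o : E × U k → Ext (E × U k)}
    (hcl : Clo N (XX X k)) (ho : Ori N (XX X k) o) {a b : MM m' → Ext (MM m')}
    (ha : Sm (Quo (XX X k) g') a) (hb : Sm (Quo (XX X k) g') b) :
    IF k X θ g' N o (a + b) = IF k X θ g' N o a + IF k X θ g' N o b := by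
  have sMT : Sm (XX X k) (MM1 k θ * th k θ) := (sm_MM1 hθ).mul (sm_th hθ)
  rw [IF, pull_add', mul_add]
  exact J_add hcl ho (RR.Sm.cont (sMT.mul (ha.pull H.smap_jj')))
    (RR.Sm.cont (sMT.mul (hb.pull H.smap_jj')))

theorem IF_smul {N : ℕ} {o : E × U k → Ext (E × U k)} (r : ℝ) (a : MM m' → Ext (MM m')) :
    IF k X θ g' N o (r • a) = r * IF k X θ g' N o a := by
  rw [IF, pull_smul', mul_smul_comm]
  exact J_smul r

theorem IF_coh (H : HD n k X φ g g' p) (hθ : Conn X φ θ) (hk : n + 1 < 2 * (k + 1))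
    {N : ℕ} (hN : N = n + (2 * k + 1) + 1) {o : E × U k → Ext (E × U k)}
    (ho : Ori N (XX X k) o) {a b : MM m' → Ext (MM m')}
    (ha : Sm (Quo (XX X k) g') a) (hb : Sm (Quo (XX X k) g') b)
    (hab : Coh (Quo (XX X k) g') a b) : IF k X θ g' N o a = IF k X θ g' N o b := by
  have hcl : Clo N (XX X k) := by rw [hN]; exact H.clo'
  obtain ⟨ξ, h1, h2⟩ := hab
  have h3 : Eqv (XX X k) (MM1 k θ * th k θ * pull (jj g') (a - b))
      (MM1 k θ * th k θ * pull (jj g') (F.d ξ)) := (Eqv.refl _).mul (h2.pull H.smap_jj')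
  have h4 : IF k X θ g' N o (a - b) = 0 := by
    rw [IF, RR.J_eqv hcl h3]
    exact J_exact H hθ hk hN ho h1
  have h5 := IF_add H hθ.sm hcl ho (ha.sub hb) hb
  rw [h4, sub_add_cancel, zero_add] at h5
  exact h5

theorem IF_pull (H : HD n k X φ g g' p) (hθs : Sm X θ) (hθ : Hom 1 θ) {oX : E → Ext E}
    (ho : Ori (2 * k + 1 + (n + 1)) (XX X k) (fun z => vv E k z * pull Prod.fst oX z))
    {C : ℝ} (hC : ∀ om : E → Ext E, ContinuousOn om X →
        J (2 * k + 1 + (n + 1)) (XX X k) (fun z => vv E k z * pull Prod.fst oX z)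
          (fun z => vv E k z * pull Prod.fst om z) = C * J (n + 1) X oX om)
    {b : MM m → Ext (MM m)} (hb : Sm (Quo X g) b) :
    IF k X θ g' (2 * k + 1 + (n + 1)) (fun z => vv E k z * pull Prod.fst oX z) (pull p b) =
      (1 / 2) * C * J (n + 1) X oX (θ * pull (jj g) b) := by
  have hcl : Clo (2 * k + 1 + (n + 1)) (XX X k) := (subm_fst H.clo).cloZ
  have h1 : Eqv (XX X k) (MM1 k θ * th k θ * pull (jj g') (pull p b))
      (MM1 k θ * th k θ * pull Prod.fst (pull (jj g) b)) := (Eqv.refl _).mul (H.pull_pull b)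
  rw [IF, RR.J_eqv hcl h1, J_MU H.clo hθs hθ ho hC (hb.pull H.smap_jj)]

/-- **THE FUNCTIONAL `I'`** on forms on `B'`: linear, only depends on classes, and
`I' (p^* b) = C ∫_B b` with `C > 0`. -/
theorem HD.exists_functional (H : HD n k X φ g g' p) (hc : IsPreconnected X) (hne : X.Nonempty)
    (hθ : Conn X φ θ) (hk : n + 1 < 2 * (k + 1)) {oB : MM m → Ext (MM m)}
    (hoB : Ori n (Quo X g) oB) :
    ∃ I' : (MM m' → Ext (MM m')) → ℝ,
      (∀ a b, Sm (Quo (XX X k) g') a → Sm (Quo (XX X k) g') b → I' (a + b) = I' a + I' b) ∧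
      (∀ (r : ℝ) a, I' (r • a) = r * I' a) ∧
      (∀ a b, Sm (Quo (XX X k) g') a → Sm (Quo (XX X k) g') b → Coh (Quo (XX X k) g') a b →
        I' a = I' b) ∧
      ∃ C : ℝ, 0 < C ∧ ∀ b, Sm (Quo X g) b → I' (pull p b) = C * J n (Quo X g) oB b := by
  have hev : ∀ x ∈ X, evA E 1 (θ x) (fun _ => gen φ x) = 1 := fun x hx => by
    have h1 : (fun _ : Fin 1 => gen φ x) = Matrix.vecCons (gen φ x) (fun i : Fin 0 => 0) := by
      funext i; rw [Fin.fin_one_eq_zero i]; rfl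
    rw [h1, evA_ii, hθ.unit x hx]
    have := evA_zero_algebraMap (E := E) 1 (fun i : Fin 0 => (0 : E))
    rwa [map_one] at this
  have hJf := fun (η : MM m → Ext (MM m)) (hη : ContinuousOn η (Quo X g)) =>
    H.emb.J_fib H.cir H.clo (RR.Sm.cont hθ.sm) (fun x _ => hθ.hom x) hev hoB hη
  have hoX := (hJf 0 continuousOn_const).1
  obtain ⟨ho, C, hC, hJ⟩ := J_prod k H.clo hc hne hoX
  have e : 2 * k + 1 + (n + 1) = n + (2 * k + 1) + 1 := by omega
  have hcl : Clo (2 * k + 1 + (n + 1)) (XX X k) := (subm_fst H.clo).cloZ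
  refine ⟨IF k X θ g' (2 * k + 1 + (n + 1)) (fun z => vv E k z *
    pull Prod.fst (fun x => θ x * pull (jj g) oB x) z),
    fun a b ha hb => IF_add H hθ.sm hcl ho ha hb, fun r a => IF_smul r a,
    fun a b ha hb hab => IF_coh H hθ hk e ho ha hb hab,
    (1 / 2) * C * (2 * Real.pi), by have := Real.pi_pos; positivity, fun b hb => ?_⟩
  rw [IF_pull H hθ.sm hθ.hom ho hJ hb]
  have h2 : J (n + 1) X (fun x => θ x * pull (jj g) oB x) (θ * pull (jj g) b) =
      2 * Real.pi * J n (Quo X g) oB b := (hJf b (RR.Sm.cont hb)).2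
  rw [h2]; ring

/-- **INJECTIVITY (H3)**: if `p^* om` is exact on `B'` then `∫_B om ∧ η = 0` for every closed
`η`. -/
theorem HD.J_eq_zero (H : HD n k X φ g g' p) (hc : IsPreconnected X) (hne : X.Nonempty)
    (hθ : Conn X φ θ) (hk : n + 1 < 2 * (k + 1)) {oB : MM m → Ext (MM m)}
    (hoB : Ori n (Quo X g) oB) {om η : MM m → Ext (MM m)} (hom : Sm (Quo X g) om)
    (hη : Sm (Quo X g) η) (hηc : Cl (Quo X g) η) (h0 : Coh (Quo (XX X k) g') (pull p om) 0) :
    J n (Quo X g) oB (om * η) = 0 := by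
  obtain ⟨I', h1, h2, h3, C, hC, h4⟩ := H.exists_functional hc hne hθ hk hoB
  have hs : Sm (Quo (XX X k) g') (pull p η) := hη.pull H.smap
  have hcl : Cl (Quo (XX X k) g') (pull p η) := Cl.pull H.smap hη hηc
  have h5 : Coh (Quo (XX X k) g') (pull p (om * η)) 0 := by
    rw [pull_mul']
    have := Coh.mul_right hs hcl h0
    rwa [zero_mul] at this
  have h6 := h3 _ _ ((hom.mul hη).pull H.smap) Sm.zero h5
  have h7 : I' 0 = 0 := by
    have := h2 0 0
    rwa [zero_smul, zero_mul] at this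
  rw [h4 _ (hom.mul hη), h7] at h6
  exact (mul_eq_zero.1 h6).resolve_left hC.ne'

end Crest.Agent.R208.HW
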