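import Crest.Agent.R208.HY1
import Crest.Agent.R208.HW1
import Crest.Agent.R208.T2d

/-! Row 208, (8,2), block H2 (helper969).  HY2: cohomology of `X × S^{2k+1}` below degree `2k+1`
is the cohomology of `X`. -/

set_option autoImplicit false
set_option linter.unusedSectionVars false

open MeasureTheory Set Filter Topology Module
open scoped ContDiff RealInnerProductSpace
open Crest.Agent.R208.F Crest.Agent.R208.FI Crest.Agent.R208.CW Crest.Agent.R208.T
open Crest.Agent.R208.HW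

noncomputable section

namespace Crest.Agent.R208.HY

variable {E : Type} [NormedAddCommGroup E] [NormedSpace ℝ E] [FiniteDimensional ℝ E]
  {X : Set E} {d r J k : ℕ} {x : E → Ext E}

/-- the trivial orientation of `ℂ^{k+1}` -/
def W1 (k : ℕ) (_ : E) (I : Fin (k + 1) × Fin 2 → Fin (k + 1) × Fin 2) : ℝ :=
  ((1 : Matrix (Fin (k + 1) × Fin 2) (Fin (k + 1) × Fin 2) ℝ).submatrix I id).det

theorem or_one (X : Set E) (k : ℕ) : OR X (fun _ => (1 : U k →L[ℝ] U k)) (W1 k) := by
  refine ⟨fun _ _ => contDiffAt_const, fun _ _ _ => contDiffAt_const, fun y _ => ?_⟩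
  refine ⟨1, by simp, fun v i => ?_, fun I => rfl⟩
  simp [Matrix.one_apply]

/-- the section `y ↦ (y, u)` of `XX X k → X` -/
theorem smap_sec {u : U k} (hu : ‖u‖ = 1) : SMap X (XX X k) (fun y => ((y, u) : E × U k)) :=
  ⟨fun _ _ => contDiffAt_id.prodMk contDiffAt_const, fun y hy => ⟨⟨hy, by
    simp⟩, hu⟩⟩

theorem smap_fstXX : SMap (XX X k) X (Prod.fst : E × U k → E) := smap_fstS

theorem exists_unit (k : ℕ) : ∃ u : U k, ‖u‖ = 1 :=
  ⟨EuclideanSpace.single (0, 0) 1, by simp⟩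

/-- closed forms of degree `j < 2k + 1` on `X × S^{2k+1}` come from `X` -/
theorem xx_low (hX : Sub d X) (hc : IsPreconnected X) {j : ℕ} (hj : j < 2 * k + 1)
    {b : E × U k → Ext (E × U k)} (hb : Sm (XX X k) b) (hcl : Cl (XX X k) b) (hd : Hom j b) :
    ∃ c : E → Ext E, Sm X c ∧ Cl X c ∧ Hom j c ∧ Coh (XX X k) b (pull Prod.fst c) :=
  sph_low_all hX hc (or_one X k) (by rw [Fintype.card_fin]; omega) hb hcl hd

/-- pull-back to `X × S^{2k+1}` is injective in cohomology -/
theorem coh_of_pull_fst {a b : E → Ext E} (h : Coh (XX X k) (pull Prod.fst a) (pull Prod.fst b)) :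
    Coh X a b := by
  obtain ⟨u, hu⟩ := exists_unit k
  have h1 := h.pull (smap_sec (X := X) hu)
  have h2 : ∀ w : E → Ext E, Eqv X (pull (fun y => ((y, u) : E × U k)) (pull Prod.fst w)) w :=
    fun w => (eqv_pull_pull (smap_sec hu) smap_fstXX (SMap.id X) (fun _ _ => rfl) w).trans
      (Eqv.of_eq fun y _ => F.pull_id w y)
  exact (Coh.of_eqv (h2 a).symm).trans (h1.trans (Coh.of_eqv (h2 b)))

/-- **`Low` for `X × S^{2k+1}`** -/
theorem low_XX (hX : Sub d X) (hc : IsPreconnected X) (hL : Low X x r J) (hJ : J ≤ 2 * k + 1) :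
    Low (XX X k) (pull Prod.fst x) r J := by
  intro j b hj hjJ hb hcl hd
  obtain ⟨c, k1, k2, k3, k4⟩ := xx_low hX hc (by omega) hb hcl hd
  obtain ⟨l, h0, h1⟩ := hL j c hj hjJ k1 k2 k3
  refine ⟨l, h0, k4.trans ?_⟩
  have h2 := h1.pull (smap_fstXX (X := X) (k := k))
  rwa [pull_smul', pull_pow'] at h2

theorem not_coh_XX (h : ¬ Coh X x 0) : ¬ Coh (XX X k) (pull Prod.fst x) 0 := fun h' =>
  h (coh_of_pull_fst (k := k) (by rwa [pull_zero']))

end Crest.Agent.R208.HY
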