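import Crest.Agent.R208.TX2c
import Crest.Agent.R208.T3d

/-! Row 208, block T (helper316).  TX3: the class of the second projection (X1b), the integral over
the unit tangent bundle, `h_m(x₁, x₂) = 0` (X1d), abstract form. -/

set_option autoImplicit false
set_option linter.unusedSectionVars false

open MeasureTheory Set Filter Topology Module
open scoped ContDiff
open Crest.Agent.R208.F Crest.Agent.R208.FI Crest.Agent.R208.CW

noncomputable section

namespace Crest.Agent.R208.T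

universe u u' w w'

section euler
variable {E : Type u} {H : Type w} [NormedAddCommGroup E] [NormedSpace ℝ E] [FiniteDimensional ℝ E]
  [NormedAddCommGroup H] [InnerProductSpace ℝ H] [FiniteDimensional ℝ H]
  {X : Set E} {P : E → H →L[ℝ] H} {R : ℝ} {e : E → Ext E} {τ : E × H → Ext (E × H)}

/-- the Euler form is exact on the sphere bundle -/
theorem euler_sph (hτ : CSF X P R τ) (hR : 0 ≤ R) (h0 : Eqv X (F.pull zs τ) e) :
    Coh (Sph X P) (F.pull Prod.fst e) 0 := by
  have a1 := coh_z0 hτ.smooth hτ.closed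
  have a2 : Eqv (Tot X P) (F.pull (z0 (E := E) (H := H)) τ) (F.pull Prod.fst e) := by
    refine (eqv_pull_pull smap_fst' smap_zs (smap_z0 (X := X) (P := P)) (fun _ _ => rfl)
      τ).symm.trans ?_
    exact h0.pull smap_fst'
  let s : E × H → E × H := fun z => (z.1, (R + 1) • z.2)
  have hsn : ∀ z ∈ Sph X P, ‖(s z).2‖ = R + 1 := fun z hz => by
    change ‖(R + 1) • z.2‖ = R + 1
    rw [norm_smul, hz.2, mul_one, Real.norm_of_nonneg (by linarith)]
  have hs : SMap (Sph X P) (Tot X P) s := by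
    refine ⟨fun z _ => by fun_prop, fun z hz => ⟨hz.1.1, ?_⟩⟩
    change P z.1 ((R + 1) • z.2) = (R + 1) • z.2
    rw [map_smul, hz.1.2]
  have b1 := (a1.trans (Coh.of_eqv a2)).pull hs
  have b2 : Eqv (Sph X P) (F.pull s τ) 0 := Eqv.of_eq fun z hz =>
    pull_of_zero (hτ.supp _ (by rw [hsn z hz]; linarith))
  have b3 : Eqv (Sph X P) (F.pull s (F.pull (Prod.fst : E × H → E) e)) (F.pull Prod.fst e) :=
    eqv_pull_pull hs smap_fst' smap_fstS (fun _ _ => rfl) e
  exact (Coh.of_eqv b3.symm).trans (b1.symm.trans (Coh.of_eqv b2))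

end euler

section classes
variable {E : Type u} {E₂ : Type u'} {H₂ : Type w'}
  [NormedAddCommGroup E] [NormedSpace ℝ E] [FiniteDimensional ℝ E]
  [NormedAddCommGroup E₂] [NormedSpace ℝ E₂] [FiniteDimensional ℝ E₂]
  [NormedAddCommGroup H₂] [InnerProductSpace ℝ H₂] [FiniteDimensional ℝ H₂]
  {S C : Set E} {X : Set E₂} {PX : E₂ → H₂ →L[ℝ] H₂} {p : E}
  {π₁ π₂ : E₂ → E} {ιC : E → E₂} {n k d j : ℕ} {ep : E₂ → Ext E₂} {x e : E → Ext E}

theorem Coh.smul_zero_of_ne {X : Set E} {a : E → Ext E} {t : ℝ} (h : Coh X (t • a) 0)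
    (ht : t ≠ 0) : Coh X a 0 := by
  have := h.smul t⁻¹
  rwa [smul_smul, inv_mul_cancel₀ ht, one_smul, smul_zero] at this

/-- **(X1b)** the class of the second projection -/
theorem snd_class (hπ₁ : SMap X S π₁) (hπ₂ : SMap X S π₂) (hk : 1 ≤ k)
    (sx : Sm S x) (cx : Cl S x) (dx : Hom k x)
    (hF : ∀ b, Sm X b → Cl X b → Hom k b → ∃ s t : ℝ, Coh X b (s • F.pull π₁ x + t • ep))
    (hι : SMap C X ιC) (hCS : C ⊆ S) (hι2 : ∀ q ∈ C, π₂ (ιC q) = q) (hι1 : ∀ q ∈ C, π₁ (ιC q) = p)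
    (hε : Coh C (F.pull ιC ep) e) (hxC : Coh C x e) (hne : ¬ Coh C e 0)
    (hsph : Coh (Sph X PX) (F.pull Prod.fst ep) 0)
    (hhom : Coh (Sph X PX) (F.pull Prod.fst (F.pull π₁ x)) (F.pull Prod.fst (F.pull π₂ x)))
    (hxU : ¬ Coh (Sph X PX) (F.pull Prod.fst (F.pull π₁ x)) 0) :
    Coh X (F.pull π₂ x) (F.pull π₁ x + ep) := by
  obtain ⟨s, t, hst⟩ := hF (F.pull π₂ x) (sx.pull hπ₂) (cx.pull hπ₂ sx) dx.pull
  -- restriction to `C`
  have ht : t = 1 := by
    have a1 := hst.pull hι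
    rw [pull_add', pull_smul', pull_smul'] at a1
    have a2 : Eqv C (F.pull ιC (F.pull π₂ x)) x :=
      (eqv_pull_pull hι hπ₂ ⟨fun _ _ => contDiffAt_id, fun q hq => hCS hq⟩ hι2 x).trans
        (Eqv.of_eq fun q _ => F.pull_id x q)
    have a3 : Eqv C (F.pull ιC (F.pull π₁ x)) 0 := by
      rcases C.eq_empty_or_nonempty with hC | ⟨q₀, hq₀⟩
      · exact Eqv.of_eq fun q hq => by rw [hC] at hq; exact hq.elim
      · have hp : p ∈ S := by rw [← hι1 q₀ hq₀]; exact hπ₁.maps (hι.maps hq₀)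
        refine (eqv_pull_pull (k := fun _ => p) hι hπ₁ ⟨fun _ _ => contDiffAt_const, fun q _ => hp⟩
          hι1 x).trans ?_
        rw [pull_const_map hk dx]; exact Eqv.refl _
    have a4 : Coh C e (t • e) := by
      refine hxC.symm.trans ((Coh.of_eqv a2.symm).trans (a1.trans ?_))
      have := (Coh.of_eqv (a3.smul s)).add (hε.smul t)
      rwa [smul_zero, zero_add] at this
    by_contra hne'
    refine hne ?_
    have a5 := a4.sub (Coh.refl (t • e))
    rw [sub_self] at a5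
    have a6 : e - t • e = (1 - t) • e := by rw [sub_smul, one_smul]
    rw [a6] at a5
    exact a5.smul_zero_of_ne (sub_ne_zero.2 (Ne.symm hne'))
  have hs : s = 1 := by
    have a1 := hst.pull (smap_fstS (X := X) (P := PX))
    rw [pull_add', pull_smul', pull_smul'] at a1
    have a2 := (Coh.refl (X := Sph X PX) (s • F.pull Prod.fst (F.pull π₁ x))).add (hsph.smul t)
    rw [smul_zero, add_zero] at a2
    have a3 := (hhom.trans (a1.trans a2)).sub (Coh.refl (s • F.pull Prod.fst (F.pull π₁ x)))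
    rw [sub_self] at a3
    by_contra hne'
    refine hxU ?_
    have a6 : (F.pull Prod.fst (F.pull π₁ x) : E₂ × H₂ → Ext (E₂ × H₂)) -
        s • F.pull Prod.fst (F.pull π₁ x) = (1 - s) • F.pull Prod.fst (F.pull π₁ x) := by
      rw [sub_smul, one_smul]
    rw [a6] at a3
    exact a3.smul_zero_of_ne (sub_ne_zero.2 (Ne.symm hne'))
  rwa [hs, ht, one_smul, one_smul] at hst

end classes

/-! ### integrals over the unit sphere bundle of `S` -/
section Jgen
variable {E : Type*} [NormedAddCommGroup E] [NormedSpace ℝ E] [FiniteDimensional ℝ E]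
  {U : Set E} {oU a b : E → Ext E} {dU d : ℕ}

theorem Sm.contOn (ha : Sm U a) : ContinuousOn a U := fun x hx =>
  (ha x hx).continuousAt.continuousWithinAt

theorem J_of_eqv (hU : Clo dU U) (h : Eqv U a b) : J dU U oU a = J dU U oU b := by
  refine J_congr hU fun x hx w hw => ?_
  have h1 := eqv_iff.1 h x hx
  let w' : Fin dU → Tan U x := fun i => ⟨w i, hw i⟩
  have h2 := congrArg (fun c => evA (Tan U x) dU c w') h1
  simp only [evA_pb] at h2
  exact h2

theorem J_of_exact (hU : Clo dU U) (ho : Ori dU U oU) (ξ : E → Ext E) (sξ : Sm U ξ)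
    (h : Eqv U a (F.d ξ)) : J dU U oU a = 0 := by
  rw [J_of_eqv hU h]
  exact J_d hU ho fun x hx => (sξ x hx).of_le (by exact_mod_cast le_top)

/-- integrals of exact forms vanish -/
theorem J_exact (hU : Clo dU U) (ho : Ori dU U oU) (h : Coh U b 0) : J dU U oU b = 0 := by
  obtain ⟨ξ, sξ, eξ⟩ := h
  rw [sub_zero] at eξ
  exact J_of_exact hU ho ξ sξ eξ

theorem J_coh (hU : Clo dU U) (ho : Ori dU U oU) (ha : Sm U a) (hb : Sm U b) (h : Coh U a b) :
    J dU U oU a = J dU U oU b := by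
  have h1 := h.sub (Coh.refl b)
  rw [sub_self] at h1
  have h2 := J_exact hU ho h1
  have h3 : J dU U oU (a - b) = J dU U oU a - J dU U oU b := J_sub hU ho ha.contOn hb.contOn
  rw [h3] at h2
  exact sub_eq_zero.1 h2

theorem J_smulT (r : ℝ) : J dU U oU (r • a) = r * J dU U oU a := J_smul r

/-- a smooth form of top degree is closed -/
theorem cl_of_top (hU : FI.Sub dU U) (ha : Hom dU a) : Cl U a :=
  resZero_iff.2 (eqv_of_gt hU ha.d (by omega))

/-- one-dimensional top degree: a form with vanishing integral is exact -/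
theorem exact_of_J (hU : Clo dU U) (ho : Ori dU U oU) (hD : Dim1 U dU) {o : E → Ext E}
    (so : Sm U o) (dO : Hom dU o) (ho' : J dU U oU o ≠ 0) (sb : Sm U b) (db : Hom dU b)
    (hb : J dU U oU b = 0) : Coh U b 0 := by
  obtain ⟨s, t, hst, h⟩ := hD o b so (cl_of_top hU.sub dO) dO sb (cl_of_top hU.sub db) db
  have h1 := J_exact hU ho h
  have h3 : J dU U oU (s • o - t • b) = J dU U oU (s • o) - J dU U oU (t • b) :=
    J_sub hU ho (so.smul s).contOn (sb.smul t).contOn
  rw [h3, J_smulT, J_smulT, hb, mul_zero, sub_zero] at h1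
  have hs : s = 0 := (mul_eq_zero.1 h1).resolve_right ho'
  rw [hs, zero_smul, zero_sub] at h
  have h4 : t ≠ 0 := by
    rcases hst with h5 | h5
    · exact absurd hs h5
    · exact h5
  have h5 := h.neg
  rw [neg_neg, neg_zero] at h5
  exact h5.smul_zero_of_ne h4

end Jgen

section J
variable {E : Type u} {H : Type w} [NormedAddCommGroup E] [NormedSpace ℝ E] [FiniteDimensional ℝ E]
  [NormedAddCommGroup H] [InnerProductSpace ℝ H] [FiniteDimensional ℝ H]
  {S : Set E} {PS : E → H →L[ℝ] H} {R c₀ : ℝ} {e : E → Ext E} {τ τ' b : E × H → Ext (E × H)}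
  {n k m q dU : ℕ} {oU o : E × H → Ext (E × H)} {x : E → Ext E}
  [MeasurableSpace H] [BorelSpace H] (μ : Measure H) [μ.IsAddHaarMeasure]

/-- a form of top degree on the sphere bundle of `S` with vanishing integral has exact fibre
integral, and is exact -/
theorem exact_of_J_sph (hS : Sub n S) (hSc : IsPreconnected S) (hP : PField S n PS)
    (hnN : n ≤ finrank ℝ H) (hT : ThomPair μ S PS n R c₀ e τ τ')
    (hU : Clo dU (Sph S PS)) (ho : Ori dU (Sph S PS) oU) (hdU : dU + 1 = n + n) (hn : 2 ≤ n)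
    (hD : Dim1 S n) (so : Sm (Sph S PS) o) (dO : Hom dU o) (ho' : J dU (Sph S PS) oU o ≠ 0)
    (sb : Sm (Sph S PS) b) (db : Hom dU b) (hb : J dU (Sph S PS) oU b = 0) :
    Coh S (fi μ PS τ' b) 0 ∧ Coh (Sph S PS) b 0 := by
  have cb := cl_of_top hU.sub db
  have co := cl_of_top hU.sub dO
  obtain ⟨f1, f2⟩ := sm_cl_fi μ hS hP hT sb cb
  obtain ⟨g1, g2⟩ := sm_cl_fi μ hS hP hT so co
  obtain ⟨s, t, hst, h⟩ := hD _ _ g1 g2 (hom_fi μ hnN hT.deg' hdU dO) f1 f2
    (hom_fi μ hnN hT.deg' hdU db)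
  have key : ∀ s t : ℝ, Coh S (s • fi μ PS τ' o - t • fi μ PS τ' b) 0 →
      Coh (Sph S PS) (s • o - t • b) 0 := by
    intro s t h
    have e1 := (fi_sub μ hS hP hT (so.smul s) (Cl.smul s so co) (sb.smul t)
        (Cl.smul t sb cb)).trans
      ((fi_smul μ s o hS hP hT so co).sub (fi_smul μ t b hS hP hT sb cb))
    obtain ⟨c, sc, cc, dc, hc⟩ := sph_of_fi μ hS hP hT ((so.smul s).sub (sb.smul t))
      (Cl.sub (so.smul s) (sb.smul t) (Cl.smul s so co) (Cl.smul t sb cb))
      ((dO.smul s).sub (db.smul t)) ((Coh.of_eqv e1).trans h)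
    have h2 := (eqv_of_gt hS dc (by omega)).pull (smap_fstS (X := S) (P := PS))
    rw [pull_zero'] at h2
    exact hc.trans (Coh.of_eqv h2)
  have h1 := J_exact hU ho (key s t h)
  have h3 : J dU (Sph S PS) oU (s • o - t • b) =
      J dU (Sph S PS) oU (s • o) - J dU (Sph S PS) oU (t • b) :=
    J_sub hU ho (so.smul s).contOn (sb.smul t).contOn
  rw [h3, J_smulT, J_smulT, hb, mul_zero, sub_zero] at h1
  have hs : s = 0 := (mul_eq_zero.1 h1).resolve_right ho'
  have h4 : t ≠ 0 := by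
    rcases hst with h5 | h5
    · exact absurd hs h5
    · exact h5
  rw [hs, zero_smul, zero_sub] at h
  have h5 := h.neg
  rw [neg_neg, neg_zero] at h5
  have h6 := key 0 (-1) (by
    rw [zero_smul, zero_sub, neg_smul, neg_neg, one_smul]; exact h5.smul_zero_of_ne h4)
  rw [zero_smul, zero_sub, neg_smul, neg_neg, one_smul] at h6
  exact ⟨h5.smul_zero_of_ne h4, h6⟩

end J

end Crest.Agent.R208.T
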