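import Crest.Agent.R208.HY1
import Crest.Agent.R208.TX3
import Crest.Agent.R208.T2d

/-! Row 208, (8,2), block H2 (helper969).  HY3: closed forms in low degrees on the sphere bundle of
the tangent bundle (abstract form): upper half of the Gysin sequence for oriented fields of any
codimension, degrees `< n + k - 1`. -/

set_option autoImplicit false
set_option linter.unusedSectionVars false

open MeasureTheory Set Filter Topology Module
open scoped ContDiff Matrix
open Crest.Agent.R208.F Crest.Agent.R208.FI Crest.Agent.R208.CW Crest.Agent.R208.T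

noncomputable section

namespace Crest.Agent.R208.HY

variable {n : Type} [Fintype n] [DecidableEq n]
  {E : Type} [NormedAddCommGroup E] [NormedSpace ℝ E] [FiniteDimensional ℝ E]
  {ι : Type} [Fintype ι] [DecidableEq ι]
  {X : Set E} {P : E → EuclideanSpace ℝ n →L[ℝ] EuclideanSpace ℝ n}
  {W : E → (ι × Fin 2 → n) → ℝ} {d : ℕ}

theorem card_le' {ι' : Type} [Fintype ι'] (eq : (ι × Fin 2) ⊕ (ι' × Fin 2) ≃ n) :
    2 * Fintype.card ι ≤ finrank ℝ (EuclideanSpace ℝ n) := by
  rw [finrank_euclideanSpace, ← Fintype.card_congr eq, Fintype.card_sum, Fintype.card_prod,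
    Fintype.card_prod, Fintype.card_fin]
  omega

theorem upper_OR {ι' : Type} [Fintype ι'] [DecidableEq ι'] [Nonempty ι] [Nonempty ι']
    (eq : (ι × Fin 2) ⊕ (ι' × Fin 2) ≃ n) (hX : Sub d X) (hc : IsPreconnected X)
    (hne : X.Nonempty) (h : OR X P W) {i j : ℕ} (hij : j + 1 = i + 2 * Fintype.card ι)
    {b : E × EuclideanSpace ℝ n → Ext (E × EuclideanSpace ℝ n)}
    (hb : Sm (Sph X P) b) (hcl : Cl (Sph X P) b) (hd : Hom j b) :
    ∃ c : E → Ext E, Sm X c ∧ Cl X c ∧ Hom i c ∧ Coh X (c * eR P W) 0 ∧ (Coh X c 0 →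
      ∃ a : E → Ext E, Sm X a ∧ Cl X a ∧ Hom j a ∧ Coh (Sph X P) b (F.pull Prod.fst a)) := by
  obtain ⟨W', c₀, hT⟩ := exists_thomPair thd_holds eq hX hc hne h
  obtain ⟨s, k⟩ := sm_cl_fi (volume : Measure (EuclideanSpace ℝ n)) hX h.pfield hT hb hcl
  refine ⟨_, s, k, hom_fi volume (card_le' eq) hT.deg' hij hd, ?_, fun h0 =>
    sph_of_fi volume hX h.pfield hT hb hcl hd h0⟩
  have h1 := fi_mul_euler (volume : Measure (EuclideanSpace ℝ n)) hX h.pfield hT hb hcl
  rw [mul_smul_comm] at h1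
  exact h1.smul_zero_of_ne two_ne_zero

/-- **upper half of the Gysin sequence**, any codimension -/
theorem upper_all [Nonempty ι] (hX : Sub d X) (hc : IsPreconnected X)
    (h : OR X P W) {i j : ℕ} (hij : j + 1 = i + 2 * Fintype.card ι)
    {b : E × EuclideanSpace ℝ n → Ext (E × EuclideanSpace ℝ n)}
    (hb : Sm (Sph X P) b) (hcl : Cl (Sph X P) b) (hd : Hom j b) :
    ∃ c : E → Ext E, Sm X c ∧ Cl X c ∧ Hom i c ∧ Coh X (c * eR P W) 0 ∧ (Coh X c 0 →
      ∃ a : E → Ext E, Sm X a ∧ Cl X a ∧ Hom j a ∧ Coh (Sph X P) b (F.pull Prod.fst a)) := by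
  rcases X.eq_empty_or_nonempty with rfl | hne
  · exact ⟨0, Sm.zero, fun x hx => hx.elim, Hom.zero, Coh.of_eqv (Eqv.of_eq fun z hz => hz.elim),
      fun _ => ⟨0, Sm.zero, fun x hx => hx.elim, Hom.zero,
        Coh.of_eqv (Eqv.of_eq fun z hz => hz.1.1.elim)⟩⟩
  obtain ⟨q, r, eq, -⟩ := exists_par h hne
  have hS := iM_iso (n := n) (Fin q)
  obtain ⟨c, sc, cc, dc, ec, hca⟩ := upper_OR eq hX hc hne (h.push hS) hij
    (hb.pull (smap_out hS)) (hcl.pull (smap_out hS) hb) hd.pull
  refine ⟨c, sc, cc, dc, (Coh.of_eqv ((Eqv.refl c).mul (eqv_eR_push hS h).symm)).trans ec,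
    fun h0 => ?_⟩
  obtain ⟨a, sa, ca, da, ea⟩ := hca h0
  refine ⟨a, sa, ca, da, ?_⟩
  have e1 := ea.pull (smap_in hS)
  have e2 : Eqv (Sph X P) (F.pull (fun z : E × EuclideanSpace ℝ n =>
        ((z.1, mE (iM n (Fin q)) z.2) : E × EuclideanSpace ℝ (n ⊕ Fin q)))
      (F.pull (fun z : E × EuclideanSpace ℝ (n ⊕ Fin q) =>
        ((z.1, mE (iM n (Fin q))ᵀ z.2) : E × EuclideanSpace ℝ n)) b)) b :=
    (eqv_pull_pull (smap_in hS) (smap_out hS) (SMap.id _) (fun z _ => by
      change (z.1, mE (iM n (Fin q))ᵀ (mE (iM n (Fin q)) z.2)) = z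
      rw [mE_mE, hS, mE_one]) b).trans (Eqv.of_eq fun z _ => F.pull_id b z)
  have e3 := eqv_pull_pull (smap_in (X := X) (P := P) hS) (smap_fstS (X := X)
    (P := pushE (iM n (Fin q)) P)) (smap_fstS (X := X) (P := P)) (fun _ _ => rfl) a
  exact (Coh.of_eqv e2.symm).trans (e1.trans (Coh.of_eqv e3))

/-- the Euler form is exact on the sphere bundle, any codimension -/
theorem euler_all [Nonempty ι] (hX : Sub d X) (hc : IsPreconnected X) (h : OR X P W) :
    Coh (Sph X P) (F.pull Prod.fst (eR P W)) 0 := by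
  have h1 := euler_sph (csf_thomF hX h) (by norm_num) (thomF_zero h)
  rw [pull_smul'] at h1
  exact h1.smul_zero_of_ne two_ne_zero

/-- the real Euler form: smooth, closed, of degree `2 card ι` -/
theorem eR_not_exact_of_top [Nonempty ι] (hX : Sub d X) (hc : IsPreconnected X) (h : OR X P W)
    {y : E → Ext E} (sy : Sm X y) (cy : Cl X y) (dy : Hom (2 * Fintype.card ι) y)
    (hne : ¬ Coh X y 0) (hU : Coh (Sph X P) (F.pull Prod.fst y) 0) : ¬ Coh X (eR P W) 0 := by
  intro he
  obtain ⟨c, sc, cc, dc, ec⟩ := gysin_all hX hc h (j := 0) sy cy (by rwa [zero_add]) hU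
  obtain ⟨t, ht⟩ := const_of_closed hX hc sc cc dc
  refine hne (ec.trans ?_)
  have h1 : Eqv X (c * eR P W) (t • eR P W) := Eqv.of_eq fun x hx => by
    rw [Pi.mul_apply, ht x hx, Pi.smul_apply, Algebra.smul_def]
  have h2 := he.smul t
  rw [smul_zero] at h2
  exact (Coh.of_eqv h1).trans h2

/-- **low degrees on the unit tangent bundle.** -/
theorem low_sph [Nonempty ι] {k m : ℕ} {x : E → Ext E} (hX : Sub m X) (hc : IsPreconnected X)
    (h : OR X P W) (hι : 2 * Fintype.card ι = m) (hk : 2 ≤ k) (hkm : k < m)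
    (h1 : ExactIn X 1) (hD : Dim1 X m)
    (hcl : ∀ (j : ℕ) (b : E → Ext E), 2 ≤ j → j < m → Sm X b → Cl X b → Hom j b →
      ∃ c : ℝ, (¬ k ∣ j → c = 0) ∧ Coh X b (c • x ^ (j / k)))
    (se : Sm X (eR P W)) (ce : Cl X (eR P W)) (de : Hom m (eR P W))
    (hne : ¬ Coh X (eR P W) 0) :
    Low (Sph X P) (F.pull Prod.fst x) k (m + k - 1) := by
  -- pull back of a closed form on the base
  have key : ∀ (j : ℕ) (a : E → Ext E), 0 < j → Sm X a → Cl X a → Hom j a →
      ∃ c : ℝ, (¬ k ∣ j → c = 0) ∧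
        Coh (Sph X P) (F.pull Prod.fst a) (c • (F.pull Prod.fst x) ^ (j / k)) := by
    intro j a hj sa ca da
    have hz : ∀ a : E → Ext E, Coh (Sph X P) (F.pull Prod.fst a) 0 →
        ∃ c : ℝ, (¬ k ∣ j → c = 0) ∧
        Coh (Sph X P) (F.pull Prod.fst a) (c • (F.pull Prod.fst x) ^ (j / k)) := fun a ha =>
      ⟨0, fun _ => rfl, by rwa [zero_smul]⟩
    have hp : ∀ a : E → Ext E, Coh X a 0 → Coh (Sph X P) (F.pull Prod.fst a) 0 := fun a ha => by
      have := ha.pull (smap_fstS (X := X) (P := P))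
      rwa [pull_zero'] at this
    rcases lt_trichotomy j m with hjm | rfl | hjm
    · rcases Nat.lt_or_ge j 2 with h2 | h2
      · obtain rfl : j = 1 := by omega
        exact hz a (hp a (h1 a sa ca da))
      · obtain ⟨c, c0, cc⟩ := hcl j a h2 hjm sa ca da
        refine ⟨c, c0, ?_⟩
        have := cc.pull (smap_fstS (X := X) (P := P))
        rwa [pull_smul', pull_pow'] at this
    · obtain ⟨s, t, hst, hco⟩ := hD a (eR P W) sa ca da se ce de
      have hs : s ≠ 0 := by
        intro hs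
        rw [hs, zero_smul, zero_sub] at hco
        have ht : t ≠ 0 := by
          rcases hst with h' | h'
          · exact absurd hs h'
          · exact h'
        have := hco.neg
        rw [neg_neg, neg_zero] at this
        exact hne (this.smul_zero_of_ne ht)
      have h2 := hp _ hco
      rw [pull_sub', pull_smul', pull_smul'] at h2
      have h3 := (euler_all hX hc h).smul t
      rw [smul_zero] at h3
      have h4 := h2.add h3
      rw [sub_add_cancel, add_zero] at h4
      exact hz a (h4.smul_zero_of_ne hs)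
    · exact hz a (hp a (Coh.of_eqv (eqv_of_gt hX da hjm)))
  intro j b hj hjJ sb cb db
  rcases Nat.lt_or_ge (j + 1) m with h2 | h2
  · obtain ⟨a, sa, ca, da, ea⟩ := sph_low_all hX hc h (by rwa [hι]) sb cb db
    obtain ⟨c, c0, cc⟩ := key j a hj sa ca da
    exact ⟨c, c0, ea.trans cc⟩
  · obtain ⟨i, hi⟩ := Nat.exists_eq_add_of_le' h2
    obtain ⟨c, sc, cc, dc, ec, hca⟩ := upper_all hX hc h (i := i) (by rw [hι]; exact hi) sb cb db
    have h0 : Coh X c 0 := by
      rcases Nat.lt_or_ge i 2 with hi2 | hi2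
      · interval_cases i
        · obtain ⟨t, ht⟩ := const_of_closed hX hc sc cc dc
          have e1 : Eqv X (c * eR P W) (t • eR P W) := Eqv.of_eq fun x hx => by
            rw [Pi.mul_apply, ht x hx, Pi.smul_apply, Algebra.smul_def]
          have e2 : Coh X (t • eR P W) 0 := (Coh.of_eqv e1).symm.trans ec
          have ht0 : t = 0 := by
            by_contra h'
            exact hne (e2.smul_zero_of_ne h')
          refine Coh.of_eqv (Eqv.of_eq fun x hx => ?_)
          rw [ht x hx, ht0, map_zero]; rfl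
        · exact h1 c sc cc dc
      · obtain ⟨t, ht, et⟩ := hcl i c hi2 (by omega) sc cc dc
        have : ¬ k ∣ i := fun hd => by
          have := Nat.le_of_dvd (by omega) hd
          omega
        rwa [ht this, zero_smul] at et
    obtain ⟨a, sa, ca, da, ea⟩ := hca h0
    obtain ⟨c', c0, cc'⟩ := key j a hj sa ca da
    exact ⟨c', c0, ea.trans cc'⟩

end Crest.Agent.R208.HY
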