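import Crest.Agent.R208.HY3
import Crest.Agent.R208.TI5

/-! Row 208, (8,2), block H2 (helper969).  HY4: the instance for Blaschke manifolds: degree one and
top degree of `S`, closed forms on the unit tangent bundle in degrees `< n + k - 1`. -/

set_option autoImplicit false
set_option linter.unusedSectionVars false

open MeasureTheory Set Filter Topology Module
open scoped ContDiff Matrix RealInnerProductSpace
open Crest.GeometryTopology.Submanifold
open Crest.Agent.R241.DDefs
open Crest.Agent.R241.D2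
open Crest.Agent.R208.F Crest.Agent.R208.FI Crest.Agent.R208.CW Crest.Agent.R208.T

noncomputable section

namespace Crest.Agent.R208.HY

section gen
variable {n : Type} [Fintype n] [DecidableEq n]
  {E : Type} [NormedAddCommGroup E] [NormedSpace ℝ E] [FiniteDimensional ℝ E]
  {ι : Type} [Fintype ι] [DecidableEq ι]
  {X : Set E} {P : E → EuclideanSpace ℝ n →L[ℝ] EuclideanSpace ℝ n}
  {W : E → (ι × Fin 2 → n) → ℝ} {d : ℕ}

/-- closed `0`-forms on a sphere bundle are constant -/
theorem conn0_all [Nonempty ι] (hX : Sub d X) (hc : IsPreconnected X) (h : OR X P W) :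
    Conn0 (Sph X P) := by
  intro b hb hcl hd
  have hr : 1 ≤ Fintype.card ι := Fintype.card_pos
  obtain ⟨c, sc, cc, dc, hc'⟩ := sph_low_all hX hc h (j := 0) (by omega) hb hcl hd
  obtain ⟨t, ht⟩ := const_of_closed hX hc sc cc dc
  refine ⟨t, (hc'.eqv_zero hd dc.pull).trans ?_⟩
  have h1 : Eqv X c (fun _ => algebraMap ℝ (Ext E) t) := Eqv.of_eq ht
  have h2 := h1.pull (smap_fstS (X := X) (P := P))
  rwa [pull_const'] at h2

/-- top degree of the sphere bundle over a base without closed forms of that degree -/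
theorem dim1_all [Nonempty ι] (hX : Sub d X) (hc : IsPreconnected X) (hne : X.Nonempty)
    (h : OR X P W) {q : ℕ} (hq : q + 1 = 2 * Fintype.card ι) (h0 : ExactIn X q) :
    Dim1 (Sph X P) q := by
  obtain ⟨q', r, eq, -⟩ := exists_par h hne
  have hS := iM_iso (n := n) (Fin q')
  obtain ⟨W', c₀, hT⟩ := exists_thomPair thd_holds eq hX hc hne (h.push hS)
  have h1 := dim1_sph (volume : Measure (EuclideanSpace ℝ (n ⊕ Fin q'))) hX hc (h.push hS).pfield
    (card_le' eq) hT hq h0
  exact (HRet.of_inv (smap_in hS) (smap_out hS) (fun z _ => by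
    change (z.1, mE (iM n (Fin q'))ᵀ (mE (iM n (Fin q')) z.2)) = z
    rw [mE_mE, hS, mE_one])).dim1 h1

end gen

variable {n N k : ℕ} {κ : ℝ} {S : Set (Euc N)} {G : Geo n N κ S} {p : Euc N}
  {ι : Type} [Fintype ι] [DecidableEq ι] {ι' : Type} [Fintype ι'] [DecidableEq ι']
  {W : Euc N → (ι × Fin 2 → Fin N) → ℝ} {W' : Euc N → (ι' × Fin 2 → Fin N) → ℝ}
  {x : Euc N → Ext (Euc N)}

/-- orientation of the tangent space at a point -/
theorem or_pt (hp : p ∈ S) (hO : OR S G.P W') :
    OR ({p} : Set (Euc N)) (fun _ => G.P p) (fun _ => W' p) :=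
  GP.OR.comp hO (f := fun _ => p) (fun _ _ => contDiffAt_const) fun _ _ => hp

/-- **closed `1`-forms on `S` are exact** -/
theorem exactIn_one_S (h : GT.Bla G k) (hk : 2 ≤ k) (hkn : k < n) (hp : p ∈ S)
    (hι : 2 * Fintype.card ι = k) (hW : OR (GP.Cut S p) (FV.PC h p) W)
    (hι' : 2 * Fintype.card ι' = n) (hO : OR S G.P W') : ExactIn S 1 := by
  have : Nonempty ι' := Fintype.card_pos_iff.1 (by omega)
  obtain ⟨Gt, hG, -⟩ := exists_Tube' h hp
  obtain ⟨U, Λ, hpol, -, -⟩ := GP.exists_polar (G := G) h.bl hp one_pos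
    (by linarith [Real.pi_gt_three])
  refine hG.exactIn_one hpol (conn0_all (sub_point p) isPreconnected_singleton (or_pt hp hO)) ?_
  intro b sb cb db
  obtain ⟨c, c0, hc⟩ := Cut_classes h hk hkn hp hι hW 1 sb cb db
  have h1 : ¬ k ∣ 1 := fun hd => by
    have := Nat.le_of_dvd one_pos hd
    omega
  rwa [c0 h1, zero_smul] at hc

/-- **top degree of `S`** -/
theorem dim1_S (h : GT.Bla G k) (hk : 2 ≤ k) (hkn : k < n) (hp : p ∈ S)
    (hι' : 2 * Fintype.card ι' = n) (hO : OR S G.P W') : Dim1 S n := by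
  have : Nonempty ι' := Fintype.card_pos_iff.1 (by omega)
  obtain ⟨Gt, hG, -⟩ := exists_Tube' h hp
  obtain ⟨U, Λ, hpol, -, -⟩ := GP.exists_polar (G := G) h.bl hp one_pos
    (by linarith [Real.pi_gt_three])
  obtain ⟨i, rfl⟩ : ∃ i, n = i + 1 := ⟨n - 1, by omega⟩
  refine hG.dim1 hpol (dim1_all (sub_point p) isPreconnected_singleton ⟨p, rfl⟩ (or_pt hp hO)
    hι'.symm (exactIn_of_gt (sub_point p) (by omega))) ?_
  exact exactIn_of_gt (FV.sub_Cut h hp) (by omega)

/-- **closed forms on the unit tangent bundle in degrees `0 < j < n + k - 1`** are multiples of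
`x ^ (j / k)`, if the Euler form of `S` is not exact. -/
theorem low_S (h : GT.Bla G k) (hk : 2 ≤ k) (hkn : k < n) (hp : p ∈ S)
    (hι : 2 * Fintype.card ι = k) (hW : OR (GP.Cut S p) (FV.PC h p) W)
    (hι' : 2 * Fintype.card ι' = n) (hO : OR S G.P W')
    (sx : Sm S x) (cx : Cl S x) (dx : Hom k x) (ex : Eqv (GP.Cut S p) x (eR (FV.PC h p) W))
    (hne : ¬ Coh S (eR G.P W') 0) :
    Low (Sph S G.P) (F.pull Prod.fst x) k (n + k - 1) := by
  have : Nonempty ι' := Fintype.card_pos_iff.1 (by omega)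
  have hd : Hom n (eR G.P W') := by
    have h1 : Hom (2 * Fintype.card ι') (eR G.P W') := hom_eR
    intro z
    have h2 := h1 z
    rwa [hι'] at h2
  exact low_sph (FV.sub_S h.bl) h.bl.conn.isPreconnected hO hι' hk hkn
    (exactIn_one_S h hk hkn hp hι hW hι' hO) (dim1_S h hk hkn hp hι' hO)
    (fun j b h1 h2 => S_classes h hk hkn hp hι hW sx cx dx ex j b h1 h2)
    hO.ec_eR.sm hO.ec_eR.cl hd hne

/-- the same with the non-exactness of the Euler form replaced by: `y` (a form of top degree) is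
not exact on `S`, its pull back to the unit tangent bundle is exact. -/
theorem low_S_of_top (h : GT.Bla G k) (hk : 2 ≤ k) (hkn : k < n) (hp : p ∈ S)
    (hι : 2 * Fintype.card ι = k) (hW : OR (GP.Cut S p) (FV.PC h p) W)
    (hι' : 2 * Fintype.card ι' = n) (hO : OR S G.P W')
    (sx : Sm S x) (cx : Cl S x) (dx : Hom k x) (ex : Eqv (GP.Cut S p) x (eR (FV.PC h p) W))
    {y : Euc N → Ext (Euc N)} (sy : Sm S y) (cy : Cl S y) (dy : Hom n y)
    (hy : ¬ Coh S y 0) (hyU : Coh (Sph S G.P) (F.pull Prod.fst y) 0) :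
    Low (Sph S G.P) (F.pull Prod.fst x) k (n + k - 1) := by
  have : Nonempty ι' := Fintype.card_pos_iff.1 (by omega)
  refine low_S h hk hkn hp hι hW hι' hO sx cx dx ex ?_
  have dy' : Hom (2 * Fintype.card ι') y := fun z => by rw [hι']; exact dy z
  exact eR_not_exact_of_top (FV.sub_S h.bl) h.bl.conn.isPreconnected hO sy cy dy' hy hyU

end Crest.Agent.R208.HY
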