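import Crest.Agent.R208.HY2
import Crest.Agent.R208.HG1
import Crest.Agent.R208.HW2

/-! Row 208, (8,2), block H2 (helper969).  HY5: the cohomology of `B = X / S¹` and of
`B' = (X × S^(2k+1)) / S¹` in degrees `< J`, from that of `X`. -/

set_option autoImplicit false
set_option linter.unusedSectionVars false

open MeasureTheory Set Filter Topology Module
open scoped ContDiff
open Crest.Agent.R208.F Crest.Agent.R208.FI Crest.Agent.R208.CW Crest.Agent.R208.T
open Crest.Agent.R208.CM Crest.Agent.R208.HW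

noncomputable section

namespace Crest.Agent.R208.HY

variable {E : Type} [NormedAddCommGroup E] [NormedSpace ℝ E] [FiniteDimensional ℝ E]
  {X : Set E} {φ : ℝ → E → E} {n k m m' r J : ℕ} {g : E → Fin m → ℂ}
  {g' : E × U k → Fin m' → ℂ} {p : MM m' → MM m} {θ : E → Ext E} {x : E → Ext E}
  {eB : MM m → Ext (MM m)} {eB' : MM m' → Ext (MM m')}

/-- closed forms of degree `< J` on `B` are polynomials in `x0` (degree `r`) and `e` (degree 2). -/
structure LowB {V : Type} [NormedAddCommGroup V] [NormedSpace ℝ V] [FiniteDimensional ℝ V]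
    (B : Set V) (e x0 : V → Ext V) (r J : ℕ) : Prop where
  se : Sm B e
  ce : Cl B e
  de : Hom 2 e
  sx : Sm B x0
  cx : Cl B x0
  dx : Hom r x0
  odd : ∀ (j : ℕ) (b : V → Ext V), Odd j → j < J → Sm B b → Cl B b → Hom j b → Coh B b 0
  even : ∀ (j : ℕ) (b : V → Ext V), Even j → j < J → Sm B b → Cl B b → Hom j b →
    ∃ f : ℕ → ℝ, Coh B b (∑ a ∈ Finset.range (j / r + 1),
      f a • (x0 ^ a * e ^ ((j - r * a) / 2)))

theorem Gys.lowB {V : Type} [NormedAddCommGroup V] [NormedSpace ℝ V] [FiniteDimensional ℝ V]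
    {B : Set V} {q : E → V} {e x0 : V → Ext V} {d : ℕ} (hG : Gys X B q e) (hB : Sub d B)
    (hBc : IsPreconnected B) (hr : Even r) (hr0 : 0 < r) (hX : Low X x r J) (sx : Sm X x)
    (cx : Cl X x) (s0 : Sm B x0) (c0 : Cl B x0) (d0 : Hom r x0) (h0 : Coh X x (pull q x0)) :
    LowB B e x0 r J where
  se := hG.sm
  ce := hG.cl
  de := hG.hom
  sx := s0
  cx := c0
  dx := d0
  odd := hG.odd hr hX
  even := hG.even hB hBc hr hr0 hX sx cx s0 c0 d0 h0

theorem preconn_Quo (hg : Emb X φ g) (hc : IsPreconnected X) : IsPreconnected (Quo X g) := by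
  have h1 : Quo X g = jj g '' X := rfl
  rw [h1]
  exact hc.image _ fun z hz => (hg.contDiffAt_jj hz).continuousAt.continuousWithinAt

/-- **(H2) on `B`** -/
theorem lowB_Quo (hg : Emb X φ g) (h : Cir X φ) (hX : Clo (n + 1) X) (hc : IsPreconnected X)
    (hθ : Conn X φ θ) (hF : Curv X g θ eB) (hr : Even r) (hr0 : 0 < r) (hrJ : r ≤ J)
    (hL : Low X x r J) (sx : Sm X x) (cx : Cl X x) (dx : Hom r x) :
    ∃ x0 : MM m → Ext (MM m), LowB (Quo X g) eB x0 r J ∧ Coh X x (pull (jj g) x0) := by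
  have hG := HG.gys hg h hX hθ hF
  obtain ⟨x0, s0, c0, d0, h0⟩ := hG.exists_x0 hr hr0 hrJ hL sx cx dx
  exact ⟨x0, hG.lowB (hg.clo_Quo h hX).sub (preconn_Quo hg hc) hr hr0 hL sx cx s0 c0 d0 h0, h0⟩

/-- **(H2) on `B` and on `B'`** -/
theorem lowB_HD (H : HD n k X φ g g' p) (hc : IsPreconnected X) (hθ : Conn X φ θ)
    (hF : Curv X g θ eB) (hF' : Curv (XX X k) g' (th k θ) eB') (hr : Even r) (hr0 : 0 < r)
    (hrJ : r ≤ J) (hJ : J ≤ 2 * k + 1)
    (hL : Low X x r J) (sx : Sm X x) (cx : Cl X x) (dx : Hom r x) :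
    ∃ x0 : MM m → Ext (MM m), LowB (Quo X g) eB x0 r J ∧ Coh X x (pull (jj g) x0) ∧
      LowB (Quo (XX X k) g') eB' (pull p x0) r J ∧
      Coh (XX X k) (pull Prod.fst x) (pull (jj g') (pull p x0)) := by
  obtain ⟨x0, h1, h2⟩ := lowB_Quo H.emb H.cir H.clo hc hθ hF hr hr0 hrJ hL sx cx dx
  have hG' := HG.gys H.emb' H.cir' H.clo' (conn_th (k := k) H.cir hθ) hF'
  have e1 : Coh (XX X k) (pull Prod.fst x) (pull (jj g') (pull p x0)) :=
    (h2.pull smap_fstXX).trans (Coh.of_eqv (H.pull_pull x0).symm)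
  refine ⟨x0, h1, h2, ?_, e1⟩
  exact hG'.lowB H.cloB'.sub (preconn_Quo H.emb' (isPreconnected_XX hc)) hr hr0
    (low_XX H.clo.sub hc hL hJ) (sx.pull smap_fstXX) (cx.pull smap_fstXX sx) (h1.sx.pull H.smap)
    (h1.cx.pull H.smap h1.sx) h1.dx.pull e1

end Crest.Agent.R208.HY
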