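import Crest.Agent.R208.TX9
import Crest.Agent.R208.CM6b
import Crest.Agent.R208.HY5

/-! Row 208, (8,2), block H2 (helper969).  HY6: (H2) on `B = US / S¹` and on
`B' = (US × S^(2l+1)) / S¹`, with no open hypothesis. -/

set_option autoImplicit false
set_option linter.unusedSectionVars false

open MeasureTheory Set Filter Topology Module
open scoped ContDiff RealInnerProductSpace
open Crest.GeometryTopology.Submanifold
open Crest.Agent.R241.DDefs
open Crest.Agent.R241.D2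
open Crest.Agent.R208.F Crest.Agent.R208.FI Crest.Agent.R208.CW Crest.Agent.R208.T
open Crest.Agent.R208.CM Crest.Agent.R208.HW
open Crest.Agent.R208.L (US)
open Crest.Agent.R208.LB (al)

noncomputable section

namespace Crest.Agent.R208.HY

variable {n N k m m₁ m₂ l : ℕ} {κ : ℝ} {S : Set (Euc N)} {G : Geo n N κ S} {p₀ : Euc N}
  {ι : Type} [Fintype ι] [DecidableEq ι] {W₀ : Euc N × Euc N → (ι × Fin 2 → Fin N) → ℝ}
  {x : Euc N → Ext (Euc N)} {g : Euc N × Euc N → Fin m₁ → ℂ}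
  {g' : (Euc N × Euc N) × U l → Fin m₂ → ℂ} {pr : MM m₂ → MM m₁}
  {Fc : MM m₁ → Ext (MM m₁)} {Fc' : MM m₂ → Ext (MM m₂)}

theorem low_US {h : GT.Bla G k} (D : T.XM h m W₀ p₀ x) :
    Low (US G) (F.pull Prod.fst x) k (n + k - 1) := by
  rw [← FV.Sph_S]
  exact D.low

theorem smap_fst_US : SMap (US G) S (Prod.fst : Euc N × Euc N → Euc N) :=
  ⟨fun _ _ => contDiffAt_fst, fun _ hz => hz.1.1⟩

/-- **(H2) on `B`** -/
theorem lowB_US {h : GT.Bla G k} (D : T.XM h m W₀ p₀ x) (hper : HS.Per G)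
    (hg : Emb (US G) (gf G) g) (hFc : Curv (US G) g al Fc) :
    ∃ x0 : MM m₁ → Ext (MM m₁), LowB (Quo (US G) g) Fc x0 k (n + k - 1) ∧
      Coh (US G) (F.pull Prod.fst x) (F.pull (jj g) x0) := by
  have hX := clo_US' h.bl
  have hc := cir_US h.bl hper
  have h2 := D.two_k
  have hkp := D.hk
  exact lowB_Quo hg hc hX (FV.preconn_US h.bl (by omega)) (conn_al (FV.sub_S h.bl)) hFc D.hke
    (by omega) (by omega) (low_US D) (D.sx.pull smap_fst_US)
    (D.cx.pull smap_fst_US D.sx) D.dx.pull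

/-- **(H2) on `B` and on `B'`**, no open hypothesis -/
theorem lowB_US2 {h : GT.Bla G k} (D : T.XM h m W₀ p₀ x)
    (H : HD (2 * (n - 1)) l (US G) (gf G) g g' pr) (hFc : Curv (US G) g al Fc)
    (hFc' : Curv (XX (US G) l) g' (th l al) Fc') {J : ℕ} (hkJ : k ≤ J) (hJ : J ≤ n + k - 1)
    (hl : J ≤ 2 * l + 1) :
    ∃ x0 : MM m₁ → Ext (MM m₁), LowB (Quo (US G) g) Fc x0 k J ∧
      Coh (US G) (F.pull Prod.fst x) (F.pull (jj g) x0) ∧
      LowB (Quo (XX (US G) l) g') Fc' (F.pull pr x0) k J ∧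
      Coh (XX (US G) l) (F.pull Prod.fst (F.pull Prod.fst x))
        (F.pull (jj g') (F.pull pr x0)) := by
  have h2 := D.two_k
  have hkp := D.hk
  have hL : Low (US G) (F.pull Prod.fst x) k J := fun j b h1 h2 h3 h4 h5 =>
    low_US D j b h1 (by omega) h3 h4 h5
  exact lowB_HD H (FV.preconn_US h.bl (by omega)) (conn_al (FV.sub_S h.bl)) hFc hFc' D.hke
    (by omega) hkJ hl hL (D.sx.pull smap_fst_US) (D.cx.pull smap_fst_US D.sx) D.dx.pull

end Crest.Agent.R208.HY
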