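import Mathlib

/-!
R208, numbers block: HEART for integer `λ` (helper365).

`φ = 1 + L X + X²`.  For a power series `A` with constant coefficient `1` and
`A² (1 + 2 L X)² ≡ φ^(m+1) (mod X^m)` the coefficient of `X^(m-1)` of `A` is
`a(m,L) = [X^(m-1)] φ^((m+1)/2) / (1 + 2 L X)`.  We show: for integer `L` and `m ≥ 2`,
`|a(m,L)| = m (m+1)/2` forces `m = 2, |L| = 6` or `m = 3, |L| = 2`.
-/

set_option autoImplicit false

open PowerSeries Finset

namespace Crest.Agent.R208.Heart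

noncomputable section

/-- coefficients of the square root of a power series with constant coefficient one -/
def sqc (P : ℕ → ℝ) : ℕ → ℝ
  | 0 => 1
  | (n + 1) => (P (n + 1) - ∑ i : Fin n, sqc P (i.1 + 1) * sqc P (n - i.1)) / 2
termination_by n => n
decreasing_by
  all_goals
    have := i.2
    omega

theorem sqc_zero (P : ℕ → ℝ) : sqc P 0 = 1 := by
  rw [sqc]

theorem sqc_succ (P : ℕ → ℝ) (n : ℕ) :
    sqc P (n + 1) = (P (n + 1) - ∑ i : Fin n, sqc P (i.1 + 1) * sqc P (n - i.1)) / 2 := by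
  rw [sqc]

theorem exists_sqrt (P : PowerSeries ℝ) (hP : constantCoeff P = 1) :
    ∃ S : PowerSeries ℝ, S ^ 2 = P ∧ constantCoeff S = 1 := by
  refine ⟨PowerSeries.mk (sqc (fun n => coeff n P)), ?_, by simp [sqc_zero]⟩
  ext n
  rw [sq, coeff_mul,
    Finset.Nat.sum_antidiagonal_eq_sum_range_succ
      (fun i j => coeff i (PowerSeries.mk (sqc (fun n => coeff n P))) *
        coeff j (PowerSeries.mk (sqc (fun n => coeff n P))))]
  simp only [coeff_mk]
  rcases n with _ | n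
  · simp [sqc_zero]
    simpa using hP.symm
  · rw [Finset.sum_range_succ, Finset.sum_range_succ']
    have h1 : ∑ k ∈ Finset.range n, sqc (fun n => coeff n P) (k + 1) *
        sqc (fun n => coeff n P) (n + 1 - (k + 1)) =
        ∑ i : Fin n, sqc (fun n => coeff n P) (i.1 + 1) * sqc (fun n => coeff n P) (n - i.1) := by
      rw [Finset.sum_range]
      refine Finset.sum_congr rfl fun i _ => ?_
      congr 2
      omega
    rw [h1, sqc_zero]
    have h2 := sqc_succ (fun n => coeff n P) n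
    simp only [Nat.sub_zero, Nat.sub_self, sqc_zero]
    rw [h2]
    ring

/-- `φ = 1 + L X + X²` -/
def phi (L : ℝ) : PowerSeries ℝ := 1 + C L * X + X ^ 2

theorem constantCoeff_phi (L : ℝ) : constantCoeff (phi L) = 1 := by
  simp [phi]

theorem coeff_phi_mul_zero (L : ℝ) (F : PowerSeries ℝ) :
    coeff 0 (phi L * F) = coeff 0 F := by
  simp [phi, coeff_mul]

theorem phi_mul (L : ℝ) (F : PowerSeries ℝ) :
    phi L * F = F + C L * (X * F) + X * (X * F) := by
  rw [phi]; ring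

theorem coeff_phi_mul_one (L : ℝ) (F : PowerSeries ℝ) :
    coeff 1 (phi L * F) = coeff 1 F + L * coeff 0 F := by
  rw [phi_mul]
  have h1 : coeff 1 (X * (X * F)) = 0 := by
    rw [show (1 : ℕ) = 0 + 1 from rfl, coeff_succ_X_mul]
    simp
  have h2 : coeff 1 (X * F) = coeff 0 F := by
    rw [show (1 : ℕ) = 0 + 1 from rfl, coeff_succ_X_mul]
  rw [map_add, map_add, coeff_C_mul, h1, h2, add_zero]

theorem coeff_phi_mul (L : ℝ) (F : PowerSeries ℝ) (k : ℕ) :
    coeff (k + 2) (phi L * F) = coeff (k + 2) F + L * coeff (k + 1) F + coeff k F := by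
  rw [phi_mul]
  rw [map_add, map_add, coeff_C_mul]
  rw [show k + 2 = (k + 1) + 1 from rfl, coeff_succ_X_mul, coeff_succ_X_mul, coeff_succ_X_mul]

/-- `(1 + 2 L X) H` coefficients -/
def lin (L : ℝ) : PowerSeries ℝ := 1 + C (2 * L) * X

theorem constantCoeff_lin (L : ℝ) : constantCoeff (lin L) = 1 := by
  simp [lin]

theorem coeff_lin_mul_zero (L : ℝ) (H : PowerSeries ℝ) :
    coeff 0 (lin L * H) = coeff 0 H := by
  simp [lin, coeff_mul]

theorem coeff_lin_mul (L : ℝ) (H : PowerSeries ℝ) (k : ℕ) :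
    coeff (k + 1) (lin L * H) = coeff (k + 1) H + 2 * L * coeff k H := by
  have : lin L * H = H + C (2 * L) * (X * H) := by rw [lin]; ring
  rw [this, map_add, coeff_C_mul, coeff_succ_X_mul]

theorem deriv_phi (L : ℝ) : derivative ℝ (phi L) = C L + 2 * X := by
  rw [phi]
  simp only [map_add, Derivation.leibniz, Derivation.leibniz_pow, derivative_X, derivative_C,
    Derivation.map_one_eq_zero]
  simp

/-- the differential equation of `S^n`, `S² = φ` -/
theorem ode (L : ℝ) (S : PowerSeries ℝ) (hS : S ^ 2 = phi L) (n : ℕ) :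
    2 * (phi L * derivative ℝ (S ^ n)) = (n : PowerSeries ℝ) * ((C L + 2 * X) * S ^ n) := by
  have h1 : C L + 2 * X = 2 * (S * derivative ℝ S) := by
    rw [← deriv_phi, ← hS, Derivation.leibniz_pow]
    simp
  rw [h1, Derivation.leibniz_pow, ← hS]
  rcases n with _ | n
  · simp
  · simp only [Nat.add_sub_cancel, smul_eq_mul, nsmul_eq_mul]
    ring

theorem rec_coeff (L : ℝ) (S : PowerSeries ℝ) (hS : S ^ 2 = phi L) (n k : ℕ) :
    2 * ((k + 2 : ℝ) * coeff (k + 2) (S ^ n) + L * ((k + 1 : ℝ) * coeff (k + 1) (S ^ n))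
      + (k : ℝ) * coeff k (S ^ n)) = (n : ℝ) * (L * coeff (k + 1) (S ^ n) + 2 * coeff k (S ^ n)) := by
  have h := congrArg (coeff (k + 1)) (ode L S hS n)
  have hr : coeff (k + 1) ((n : PowerSeries ℝ) * ((C L + 2 * X) * S ^ n)) =
      (n : ℝ) * (L * coeff (k + 1) (S ^ n) + 2 * coeff k (S ^ n)) := by
    have e : (n : PowerSeries ℝ) * ((C L + 2 * X) * S ^ n) =
        C (n : ℝ) * (C L * S ^ n + C 2 * (X * S ^ n)) := by
      have : (C (2 : ℝ) : PowerSeries ℝ) = 2 := map_ofNat C 2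
      have h3 : (C (n : ℝ) : PowerSeries ℝ) = (n : PowerSeries ℝ) := map_natCast C n
      rw [this, h3]; ring
    rw [e, coeff_C_mul, map_add, coeff_C_mul, coeff_C_mul, coeff_succ_X_mul]
  have hl : coeff (k + 1) (2 * (phi L * derivative ℝ (S ^ n))) =
      2 * ((k + 2 : ℝ) * coeff (k + 2) (S ^ n) + L * ((k + 1 : ℝ) * coeff (k + 1) (S ^ n))
      + (k : ℝ) * coeff k (S ^ n)) := by
    have e : (2 : PowerSeries ℝ) * (phi L * derivative ℝ (S ^ n)) =
        C 2 * (phi L * derivative ℝ (S ^ n)) := by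
      have : (C (2 : ℝ) : PowerSeries ℝ) = 2 := map_ofNat C 2
      rw [this]
    rw [e, coeff_C_mul]
    rcases k with _ | k
    · rw [zero_add, coeff_phi_mul_one, coeff_derivative, coeff_derivative]
      push_cast
      ring
    · rw [show k + 1 + 1 = k + 2 from rfl, coeff_phi_mul, coeff_derivative, coeff_derivative,
        coeff_derivative]
      push_cast
      ring
  rw [← hl, ← hr, h]

/-! ### the recursion in `n` -/

section seq

variable (L : ℝ) (S : PowerSeries ℝ)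

/-- `[X^n] S^n` -/
def uu (n : ℕ) : ℝ := coeff n (S ^ n)

/-- `[X^n] S^(n+1)` -/
def vv (n : ℕ) : ℝ := coeff n (S ^ (n + 1))

/-- `[X^(n+1)] S^n` -/
def xx (n : ℕ) : ℝ := coeff (n + 1) (S ^ n)

variable {L S}

theorem xx_eq (hS : S ^ 2 = phi L) (n : ℕ) :
    2 * ((n : ℝ) + 2) * xx S (n + 1) = - ((n : ℝ) + 1) * L * uu S (n + 1) + 2 * vv S n := by
  have h := rec_coeff L S hS (n + 1) n
  simp only [xx, uu, vv]
  push_cast at h
  rw [show n + 1 + 1 = n + 2 from rfl]
  linarith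

theorem top_eq (hS : S ^ 2 = phi L) (n : ℕ) :
    coeff (n + 2) (S ^ n) = - (L / 2) * xx S n := by
  have h := rec_coeff L S hS n n
  simp only [xx]
  have h0 : ((n : ℝ) + 2) ≠ 0 := by positivity
  have : ((n : ℝ) + 2) * (coeff (n + 2) (S ^ n)) = ((n : ℝ) + 2) * (- (L / 2) * coeff (n + 1) (S ^ n)) := by
    linarith
  exact mul_left_cancel₀ h0 this

theorem pow_add_two (hS : S ^ 2 = phi L) (n : ℕ) : S ^ (n + 2) = phi L * S ^ n := by
  rw [pow_add, hS, mul_comm]

theorem uu_succ (hS : S ^ 2 = phi L) (n : ℕ) :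
    uu S (n + 2) = uu S n + L / 2 * xx S n := by
  rw [uu, pow_add_two hS, coeff_phi_mul, top_eq hS, uu, xx]
  ring

theorem vv_succ (hS : S ^ 2 = phi L) (n : ℕ) :
    vv S (n + 2) = xx S (n + 1) + L * uu S (n + 1) + vv S n := by
  rw [vv, show n + 2 + 1 = (n + 1) + 2 from rfl, pow_add_two hS, coeff_phi_mul, uu, xx, vv]

theorem xx_succ (hS : S ^ 2 = phi L) (n : ℕ) :
    ((n : ℝ) + 4) * xx S (n + 3) = (1 - L ^ 2 / 4) * ((n : ℝ) + 3) * xx S (n + 1) := by
  have h1 := xx_eq hS n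
  have h2 := xx_eq hS (n + 2)
  rw [uu_succ hS (n + 1), vv_succ hS n] at h2
  push_cast at h2
  rw [show n + 2 + 1 = n + 3 from rfl] at h2
  linear_combination (1 / 2 : ℝ) * h2 - (1 / 2 : ℝ) * h1

variable (L S) in
/-- `a_n = [X^n] S^(n+2)/(1+2LX)` -/
def aa (R : PowerSeries ℝ) (n : ℕ) : ℝ := coeff n (S ^ (n + 2) * R)

theorem aa_succ (hS : S ^ 2 = phi L) {R : PowerSeries ℝ} (hR : lin L * R = 1) (n : ℕ) :
    aa S R (n + 2) = (2 * L ^ 2 + 1) * aa S R n + (uu S (n + 2) - L * vv S (n + 1)) := by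
  have h1 : S ^ (n + 2 + 2) * R = phi L * (S ^ (n + 2) * R) := by
    rw [pow_add_two hS, mul_assoc]
  have h2 : S ^ (n + 2) = lin L * (S ^ (n + 2) * R) := by
    rw [← mul_assoc, mul_comm (lin L), mul_assoc, hR, mul_one]
  have h3 : uu S (n + 2) = coeff (n + 2) (S ^ (n + 2) * R) + 2 * L * coeff (n + 1) (S ^ (n + 2) * R) := by
    rw [uu, h2, coeff_lin_mul, ← h2]
  have h4 : vv S (n + 1) = coeff (n + 1) (S ^ (n + 2) * R) + 2 * L * coeff n (S ^ (n + 2) * R) := by
    rw [vv, show n + 1 + 1 = n + 2 from rfl, h2, coeff_lin_mul, ← h2]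
  rw [h3, h4, aa, aa, h1, coeff_phi_mul]
  ring

end seq

/-! ### the explicit sequences -/

/-- `d_k = binom(2k,k) (c/4)^k`, `c = 1 - L²/4` -/
def dd (L : ℝ) : ℕ → ℝ
  | 0 => 1
  | (k + 1) => (1 - L ^ 2 / 4) * ((2 * k + 1) / (2 * k + 2)) * dd L k

/-- `D_(j+1) = Σ_{k ≤ j} d_k` -/
def DD (L : ℝ) : ℕ → ℝ
  | 0 => 1
  | (j + 1) => DD L j + dd L (j + 1)

/-- `Z_(j+1) = D_(j+1) + L² Σ_{i ≤ j} D_i` -/
def ZZ (L : ℝ) : ℕ → ℝ
  | 0 => 1
  | (j + 1) => ZZ L j + dd L (j + 1) + L ^ 2 * DD L j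

/-- `B_(j+1)` -/
def BB (L : ℝ) : ℕ → ℝ
  | 0 => 1
  | (j + 1) => (2 * L ^ 2 + 1) * BB L j + ZZ L (j + 1)

/-- `a(2i+1, L)` -/
def AA (L : ℝ) : ℕ → ℝ
  | 0 => 1
  | (i + 1) => (2 * L ^ 2 + 1) * AA L i + 1 - (i + 1) * L ^ 2

section odd

variable {L : ℝ} {S : PowerSeries ℝ}

theorem coeff_S_one (hS : S ^ 2 = phi L) (h1 : constantCoeff S = 1) : coeff 1 S = L / 2 := by
  have h := rec_coeff L S hS 1 0
  -- use the equation `2 (φ S')_0 = (φ' S)_0` instead
  have h2 := congrArg (coeff 1) hS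
  rw [sq, coeff_mul, Finset.Nat.sum_antidiagonal_eq_sum_range_succ
      (fun i j => coeff i S * coeff j S)] at h2
  simp only [Finset.sum_range_succ, Finset.sum_range_zero] at h2
  have h3 : coeff 0 S = 1 := by simpa using h1
  have h4 : coeff 1 (phi L) = L := by
    have := coeff_phi_mul_one L 1
    rw [mul_one] at this
    rw [this]
    simp [coeff_one]
  simp only [Nat.sub_zero, Nat.sub_self, h3, h4] at h2
  linarith

theorem seq_odd (hS : S ^ 2 = phi L) (h1 : constantCoeff S = 1) (j : ℕ) :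
    uu S (2 * j + 1) = L / 2 * DD L j ∧ xx S (2 * j + 1) = dd L (j + 1) ∧
      uu S (2 * j + 1) - L * vv S (2 * j) = - (L / 2) * ZZ L j := by
  have hc0 : coeff 0 S = 1 := by simpa using h1
  induction j with
  | zero =>
    have hu : uu S 1 = L / 2 := by rw [uu, pow_one, coeff_S_one hS h1]
    have hv : vv S 0 = 1 := by rw [vv, zero_add, pow_one, hc0]
    have hx := xx_eq hS 0
    simp only [zero_add, Nat.cast_zero] at hx
    rw [hu, hv] at hx
    refine ⟨by simp [hu, DD], ?_, by simp only [mul_zero, zero_add, hu, hv, ZZ]; ring⟩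
    simp only [mul_zero, zero_add, dd, Nat.cast_zero]
    linarith
  | succ j ih =>
    obtain ⟨ih1, ih2, ih3⟩ := ih
    have e1 : 2 * (j + 1) + 1 = (2 * j + 1) + 2 := by ring
    have hu : uu S (2 * (j + 1) + 1) = L / 2 * DD L (j + 1) := by
      rw [e1, uu_succ hS, ih1, ih2, DD]; ring
    have hx : xx S (2 * (j + 1) + 1) = dd L (j + 1 + 1) := by
      have := xx_succ hS (2 * j)
      rw [show 2 * (j + 1) + 1 = 2 * j + 3 by ring]
      rw [ih2] at this
      have h0 : ((2 * j : ℕ) : ℝ) + 4 ≠ 0 := by positivity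
      rw [dd, ← mul_right_inj' h0, this]
      push_cast
      have h5 : (2 * ((j : ℝ) + 1) + 2) ≠ 0 := by positivity
      field_simp
      ring
    refine ⟨hu, hx, ?_⟩
    have hv : vv S (2 * (j + 1)) = xx S (2 * j + 1) + L * uu S (2 * j + 1) + vv S (2 * j) := by
      rw [show 2 * (j + 1) = 2 * j + 2 by ring, vv_succ hS]
    rw [hu, hv, ZZ, ih2, DD]
    linear_combination ih3 - (1 + L ^ 2) * ih1

end odd

section even

variable {L : ℝ} {S : PowerSeries ℝ}

theorem coeff_phi_zero' (L : ℝ) : coeff 0 (phi L) = 1 := by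
  have := coeff_phi_mul_zero L 1
  rw [mul_one] at this
  rw [this]; simp

theorem coeff_phi_one (L : ℝ) : coeff 1 (phi L) = L := by
  have := coeff_phi_mul_one L 1
  rw [mul_one] at this
  rw [this]
  simp [coeff_one]

theorem coeff_phi_two (L : ℝ) : coeff 2 (phi L) = 1 := by
  have := coeff_phi_mul L 1 0
  rw [mul_one, zero_add] at this
  rw [this]
  simp [coeff_one]

theorem coeff_phi_three (L : ℝ) : coeff 3 (phi L) = 0 := by
  have := coeff_phi_mul L 1 1
  rw [mul_one] at this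
  rw [show (3 : ℕ) = 1 + 2 from rfl, this]
  simp [coeff_one]

theorem seq_even (hS : S ^ 2 = phi L) (i : ℕ) :
    uu S (2 * i + 2) = 1 ∧ vv S (2 * i + 1) = ((i : ℝ) + 1) * L ∧ xx S (2 * i + 2) = 0 := by
  induction i with
  | zero =>
    refine ⟨?_, ?_, ?_⟩
    · simp only [mul_zero, zero_add, uu]; rw [hS, coeff_phi_two]
    · simp only [mul_zero, zero_add, vv]
      rw [show 1 + 1 = 2 from rfl, hS, coeff_phi_one]; simp
    · simp only [mul_zero, zero_add, xx]; rw [hS, show 2 + 1 = 3 from rfl, coeff_phi_three]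
  | succ i ih =>
    obtain ⟨ih1, ih2, ih3⟩ := ih
    refine ⟨?_, ?_, ?_⟩
    · rw [show 2 * (i + 1) + 2 = (2 * i + 2) + 2 by ring, uu_succ hS, ih1, ih3]; ring
    · rw [show 2 * (i + 1) + 1 = (2 * i + 1) + 2 by ring, vv_succ hS, ih2,
        show 2 * i + 1 + 1 = 2 * i + 2 by ring, ih1, ih3]
      push_cast; ring
    · have := xx_succ hS (2 * i + 1)
      rw [show 2 * i + 1 + 1 = 2 * i + 2 by ring, ih3, mul_zero] at this
      rw [show 2 * (i + 1) + 2 = 2 * i + 1 + 3 by ring]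
      have h0 : ((2 * i + 1 : ℕ) : ℝ) + 4 ≠ 0 := by positivity
      exact (mul_eq_zero.1 this).resolve_left h0

end even

section closed

variable {L : ℝ} {S R : PowerSeries ℝ}

theorem constantCoeff_R (hR : lin L * R = 1) : constantCoeff R = 1 := by
  have := congrArg constantCoeff hR
  rwa [map_mul, constantCoeff_lin, one_mul, map_one] at this

theorem aa_even (hS : S ^ 2 = phi L) (h1 : constantCoeff S = 1) (hR : lin L * R = 1) (i : ℕ) :
    aa S R (2 * i) = AA L i := by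
  induction i with
  | zero =>
    simp only [mul_zero, aa, AA, zero_add, coeff_zero_eq_constantCoeff]
    rw [map_mul, map_pow, h1, constantCoeff_R hR]; simp
  | succ i ih =>
    obtain ⟨e1, e2, -⟩ := seq_even hS i
    rw [show 2 * (i + 1) = 2 * i + 2 by ring, aa_succ hS hR, ih, e1, e2, AA]
    ring

theorem aa_odd (hS : S ^ 2 = phi L) (h1 : constantCoeff S = 1) (hR : lin L * R = 1) (j : ℕ) :
    aa S R (2 * j + 1) = - (L / 2) * BB L j := by
  induction j with
  | zero =>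
    have h2 : S ^ 3 = lin L * (S ^ 3 * R) := by
      rw [← mul_assoc, mul_comm (lin L), mul_assoc, hR, mul_one]
    have h3 := congrArg (coeff 1) h2
    rw [show (1 : ℕ) = 0 + 1 from rfl, coeff_lin_mul, zero_add] at h3
    have h4 : coeff 1 (S ^ 3) = 3 * L / 2 := by
      rw [show (3 : ℕ) = 1 + 2 from rfl, pow_add_two hS, coeff_phi_mul_one, pow_one,
        coeff_S_one hS h1]
      simp only [coeff_zero_eq_constantCoeff, h1]; ring
    have h5 : coeff 0 (S ^ 3 * R) = 1 := by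
      simp only [coeff_zero_eq_constantCoeff]
      rw [map_mul, map_pow, h1, constantCoeff_R hR]; simp
    rw [h4, h5] at h3
    simp only [mul_zero, zero_add, aa, BB]
    rw [show 1 + 2 = 3 from rfl]
    linarith
  | succ j ih =>
    obtain ⟨-, -, e3⟩ := seq_odd hS h1 (j + 1)
    rw [show 2 * (j + 1) + 1 = (2 * j + 1) + 2 by ring, aa_succ hS hR, ih, BB]
    rw [show 2 * (j + 1) + 1 = (2 * j + 1) + 2 by ring,
      show 2 * (j + 1) = 2 * j + 1 + 1 by ring] at e3
    rw [e3]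
    ring

end closed

/-! ### size estimates -/

section size

theorem dd_abs {L : ℝ} (h : 9 ≤ L ^ 2) (k : ℕ) : |dd L k| ≤ (L ^ 2 / 4 - 1) ^ k := by
  induction k with
  | zero => simp [dd]
  | succ k ih =>
    rw [dd, abs_mul, abs_mul, pow_succ (L ^ 2 / 4 - 1) k]
    have h1 : |1 - L ^ 2 / 4| = L ^ 2 / 4 - 1 := by
      rw [abs_of_nonpos (by linarith)]; ring
    have h2 : |(2 * (k : ℝ) + 1) / (2 * k + 2)| ≤ 1 := by
      rw [abs_of_nonneg (by positivity), div_le_one (by positivity)]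
      linarith
    rw [h1]
    have h3 : 0 ≤ L ^ 2 / 4 - 1 := by linarith
    calc (L ^ 2 / 4 - 1) * |(2 * (k : ℝ) + 1) / (2 * k + 2)| * |dd L k|
        ≤ (L ^ 2 / 4 - 1) * 1 * (L ^ 2 / 4 - 1) ^ k := by
          gcongr
      _ = (L ^ 2 / 4 - 1) ^ k * (L ^ 2 / 4 - 1) := by ring

theorem pow_aux {q : ℝ} (hq : 1 ≤ q) (j : ℕ) : (q - 1) ^ (j + 1) ≤ (q - 1) * q ^ j := by
  rw [pow_succ, mul_comm]
  have : (q - 1) ^ j ≤ q ^ j := pow_le_pow_left₀ (by linarith) (by linarith) j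
  exact mul_le_mul_of_nonneg_left this (by linarith)

theorem DD_abs {L : ℝ} (h : 9 ≤ L ^ 2) (j : ℕ) : |DD L j| ≤ (L ^ 2 / 4) ^ j := by
  induction j with
  | zero => simp [DD]
  | succ j ih =>
    rw [DD]
    have h1 := dd_abs h (j + 1)
    have h2 := pow_aux (q := L ^ 2 / 4) (by linarith) j
    have h3 := abs_add_le (DD L j) (dd L (j + 1))
    calc |DD L j + dd L (j + 1)| ≤ (L ^ 2 / 4) ^ j + (L ^ 2 / 4 - 1) * (L ^ 2 / 4) ^ j := by linarith
      _ = (L ^ 2 / 4) ^ (j + 1) := by ring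

theorem ZZ_abs {L : ℝ} (h : 9 ≤ L ^ 2) (j : ℕ) : |ZZ L j| ≤ 9 * (L ^ 2 / 4) ^ j := by
  induction j with
  | zero => simp [ZZ]
  | succ j ih =>
    rw [ZZ]
    have h1 := dd_abs h (j + 1)
    have h2 := pow_aux (q := L ^ 2 / 4) (by linarith) j
    have h3 := abs_add_le (ZZ L j + dd L (j + 1)) (L ^ 2 * DD L j)
    have h4 := abs_add_le (ZZ L j) (dd L (j + 1))
    have h5 : |L ^ 2 * DD L j| ≤ L ^ 2 * (L ^ 2 / 4) ^ j := by
      rw [abs_mul, abs_of_nonneg (sq_nonneg L)]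
      exact mul_le_mul_of_nonneg_left (DD_abs h j) (sq_nonneg L)
    have h6 : 0 < (L ^ 2 / 4) ^ j := pow_pos (by linarith) j
    rw [pow_succ (L ^ 2 / 4) j]
    have h7 : 0 ≤ (L ^ 2 - 9) * (L ^ 2 / 4) ^ j := mul_nonneg (by linarith) h6.le
    nlinarith

theorem BB_big {L : ℝ} (h : 9 ≤ L ^ 2) (j : ℕ) : (7 * (L ^ 2 / 4)) ^ j ≤ BB L j := by
  have hB1 : BB L 1 = 11.5 * (L ^ 2 / 4) + 2.5 := by
    simp only [BB, ZZ, dd, DD]; norm_num; ring
  have key : ∀ j : ℕ, (7 * (L ^ 2 / 4)) ^ (j + 2) ≤ BB L (j + 2) := by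
    intro j
    induction j with
    | zero =>
      have hz := (abs_le.1 (ZZ_abs h 2)).1
      have e : BB L (0 + 2) = (2 * L ^ 2 + 1) * BB L 1 + ZZ L 2 := rfl
      rw [e, hB1]
      nlinarith
    | succ j ih =>
      have hz := (abs_le.1 (ZZ_abs h (j + 3))).1
      have e : BB L (j + 1 + 2) = (2 * L ^ 2 + 1) * BB L (j + 2) + ZZ L (j + 3) := rfl
      rw [e]
      have hq : 0 < L ^ 2 / 4 := by linarith
      set q := L ^ 2 / 4 with hqdef
      have e2 : 2 * L ^ 2 + 1 = 8 * q + 1 := by rw [hqdef]; ring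
      rw [e2]
      have h7 : (49 : ℝ) ≤ 7 ^ (j + 2) := by
        calc (49 : ℝ) = 7 ^ 2 := by norm_num
          _ ≤ 7 ^ (j + 2) := pow_le_pow_right₀ (by norm_num) (by omega)
      have h8 : (8 * q + 1) * (7 * q) ^ (j + 2) ≤ (8 * q + 1) * BB L (j + 2) :=
        mul_le_mul_of_nonneg_left ih (by linarith)
      have h9 : 0 < q ^ (j + 3) := pow_pos hq _
      have h10 : 0 < q ^ (j + 2) := pow_pos hq _
      have e3 : (7 * q) ^ (j + 1 + 2) = 7 * 7 ^ (j + 2) * q ^ (j + 3) := by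
        rw [mul_pow]; ring
      have e4 : (8 * q + 1) * (7 * q) ^ (j + 2) = 8 * 7 ^ (j + 2) * q ^ (j + 3) + 7 ^ (j + 2) * q ^ (j + 2) := by
        rw [mul_pow]; ring
      rw [e3]
      rw [e4] at h8
      have h11 : 0 < 7 ^ (j + 2) * q ^ (j + 2) := by positivity
      have h12 : 9 * q ^ (j + 3) ≤ 7 ^ (j + 2) * q ^ (j + 3) := by
        apply mul_le_mul_of_nonneg_right _ h9.le
        linarith
      nlinarith
  rcases j with _ | _ | j
  · simp [BB]
  · rw [zero_add, hB1, pow_one]; linarith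
  · exact key j

theorem pow15 (j : ℕ) : ((j : ℝ) + 2) * (2 * j + 5) < 3 / 2 * 15 ^ (j + 1) := by
  induction j with
  | zero => norm_num
  | succ j ih =>
    rw [pow_succ]
    push_cast
    nlinarith [(Nat.cast_nonneg j : (0 : ℝ) ≤ j)]

/-- `|L| ≥ 3` -/
theorem BB_three {L : ℝ} (h : 3 ≤ |L|) (j : ℕ) :
    ((j : ℝ) + 2) * (2 * j + 5) < |L| / 2 * BB L (j + 1) := by
  have hL : 9 ≤ L ^ 2 := by
    rw [← sq_abs]; nlinarith
  have h1 := BB_big hL (j + 1)
  have h2 : (15 : ℝ) ^ (j + 1) ≤ (7 * (L ^ 2 / 4)) ^ (j + 1) :=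
    pow_le_pow_left₀ (by norm_num) (by linarith) _
  have h3 := pow15 j
  have h4 : (0 : ℝ) < 15 ^ (j + 1) := by positivity
  nlinarith

/-- `|L| = 2` -/
theorem BB_two {L : ℝ} (h : L ^ 2 = 4) (j : ℕ) :
    ((j : ℝ) + 2) * (2 * j + 5) < BB L (j + 1) := by
  have hd : ∀ k, dd L (k + 1) = 0 := by
    intro k
    rw [dd, h]; norm_num
  have hD : ∀ j, DD L j = 1 := by
    intro j
    induction j with
    | zero => rfl
    | succ j ih => rw [DD, ih, hd]; ring
  have hZ : ∀ j, ZZ L j = 1 + 4 * j := by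
    intro j
    induction j with
    | zero => simp [ZZ]
    | succ j ih => rw [ZZ, ih, hd, hD, h]; push_cast; ring
  induction j with
  | zero =>
    have e : BB L (0 + 1) = (2 * L ^ 2 + 1) * 1 + ZZ L (0 + 1) := rfl
    rw [e, hZ, h]; norm_num
  | succ j ih =>
    have e : BB L (j + 1 + 1) = (2 * L ^ 2 + 1) * BB L (j + 1) + ZZ L (j + 1 + 1) := rfl
    rw [e, hZ, h]
    push_cast
    nlinarith [(Nat.cast_nonneg j : (0 : ℝ) ≤ j)]

/-- `|L| = 1` -/
theorem BB_one {L : ℝ} (h : L ^ 2 = 1) (j : ℕ) :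
    2 * (((j : ℝ) + 5) * (2 * j + 11)) < BB L (j + 4) := by
  have hd : ∀ k, 0 < dd L k := by
    intro k
    induction k with
    | zero => simp [dd]
    | succ k ih => rw [dd, h]; positivity
  have hD : ∀ j, 0 < DD L j := by
    intro j
    induction j with
    | zero => simp [DD]
    | succ j ih => rw [DD]; have := hd (j + 1); linarith
  have hZ : ∀ j, 0 < ZZ L j := by
    intro j
    induction j with
    | zero => simp [ZZ]
    | succ j ih => rw [ZZ, h]; have := hd (j + 1); have := hD j; linarith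
  induction j with
  | zero =>
    simp only [BB, ZZ, DD, dd, h]
    norm_num
  | succ j ih =>
    have e : BB L (j + 1 + 4) = (2 * L ^ 2 + 1) * BB L (j + 4) + ZZ L (j + 1 + 4) := rfl
    rw [e, h]
    have := hZ (j + 1 + 4)
    push_cast
    nlinarith [(Nat.cast_nonneg j : (0 : ℝ) ≤ j)]

theorem int_abs_cases (L : ℤ) : L = 0 ∨ |L| = 1 ∨ |L| = 2 ∨ 3 ≤ |L| := by
  rcases abs_cases L with ⟨h, h'⟩ | ⟨h, h'⟩ <;> rw [h] <;> omega

theorem BB_ne (L : ℤ) (j : ℕ)
    (h : |-((L : ℝ) / 2) * BB (L : ℝ) j| = ((j : ℝ) + 1) * (2 * j + 3)) : j = 0 ∧ |L| = 6 := by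
  rw [abs_mul, abs_neg, abs_div, abs_two] at h
  rcases j with _ | j
  · refine ⟨rfl, ?_⟩
    simp only [BB, Nat.cast_zero, abs_one, mul_one] at h
    have : |(L : ℝ)| = 6 := by linarith
    exact_mod_cast this
  · exfalso
    push_cast at h
    have hpos : (0 : ℝ) < ((j : ℝ) + 1 + 1) * (2 * ((j : ℝ) + 1) + 3) := by positivity
    rcases int_abs_cases L with h0 | h0 | h0 | h0
    · rw [h0] at h
      rw [← h] at hpos
      simp at hpos
    · have h1 : |(L : ℝ)| = 1 := by exact_mod_cast h0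
      have h2 : (L : ℝ) ^ 2 = 1 := by rw [← sq_abs, h1]; norm_num
      rw [h1] at h
      rcases j with _ | _ | _ | j
      · simp only [BB, ZZ, DD, dd, h2] at h
        norm_num [abs_of_pos] at h
      · simp only [BB, ZZ, DD, dd, h2] at h
        norm_num [abs_of_pos] at h
      · simp only [BB, ZZ, DD, dd, h2] at h
        norm_num [abs_of_pos] at h
      · have h3 := BB_one h2 j
        have h4 : (0 : ℝ) < 2 * (((j : ℝ) + 5) * (2 * j + 11)) := by positivity
        rw [show j + 1 + 1 + 1 + 1 = j + 4 by ring, abs_of_pos (by linarith)] at h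
        push_cast at h
        linarith
    · have h1 : |(L : ℝ)| = 2 := by exact_mod_cast h0
      have h2 : (L : ℝ) ^ 2 = 4 := by rw [← sq_abs, h1]; norm_num
      have h3 := BB_two h2 j
      have h4 : (0 : ℝ) < ((j : ℝ) + 2) * (2 * j + 5) := by positivity
      rw [h1, abs_of_pos (by linarith)] at h
      linarith
    · have h1 : (3 : ℝ) ≤ |(L : ℝ)| := by exact_mod_cast h0
      have h3 := BB_three h1 j
      have h5 : (0 : ℝ) < ((j : ℝ) + 2) * (2 * j + 5) := by positivity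
      have h4 : 0 < BB (L : ℝ) (j + 1) := by
        by_contra hc
        have hc := not_lt.1 hc
        have : |(L : ℝ)| / 2 * BB (L : ℝ) (j + 1) ≤ 0 :=
          mul_nonpos_of_nonneg_of_nonpos (by positivity) hc
        linarith
      rw [abs_of_pos h4] at h
      linarith

theorem AA_two {L : ℝ} (h : 4 ≤ L ^ 2) (i : ℕ) :
    (2 * (i : ℝ) + 5) * (i + 3) < AA L (i + 2) := by
  induction i with
  | zero =>
    have e : AA L (0 + 2) = (2 * L ^ 2 + 1) * ((2 * L ^ 2 + 1) * 1 + 1 - (((0 : ℕ) : ℝ) + 1) * L ^ 2)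
      + 1 - (((1 : ℕ) : ℝ) + 1) * L ^ 2 := rfl
    rw [e]
    push_cast
    nlinarith
  | succ i ih =>
    have e : AA L (i + 1 + 2) = (2 * L ^ 2 + 1) * AA L (i + 2) + 1 - (((i + 2 : ℕ) : ℝ) + 1) * L ^ 2 := rfl
    rw [e]
    push_cast
    have hi : (0 : ℝ) ≤ i := Nat.cast_nonneg i
    have h1 : 0 ≤ 2 * AA L (i + 2) - ((i : ℝ) + 3) := by nlinarith
    nlinarith [mul_nonneg (sub_nonneg.2 h) h1]

theorem AA_one {L : ℝ} (h : L ^ 2 = 1) (i : ℕ) :
    (2 * (i : ℝ) + 9) * (i + 5) < AA L (i + 4) := by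
  induction i with
  | zero =>
    simp only [AA, h]
    norm_num
  | succ i ih =>
    have e : AA L (i + 1 + 4) = (2 * L ^ 2 + 1) * AA L (i + 4) + 1 - (((i + 4 : ℕ) : ℝ) + 1) * L ^ 2 := rfl
    rw [e, h]
    push_cast
    nlinarith [(Nat.cast_nonneg i : (0 : ℝ) ≤ i)]

theorem AA_zero {L : ℝ} (h : L ^ 2 = 0) (i : ℕ) : AA L i = i + 1 := by
  induction i with
  | zero => simp [AA]
  | succ i ih => rw [AA, ih, h]; push_cast; ring

theorem AA_ne (L : ℤ) (i : ℕ)
    (h : |AA (L : ℝ) (i + 1)| = (2 * (i : ℝ) + 3) * (i + 2)) : i = 0 ∧ |L| = 2 := by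
  rcases int_abs_cases L with h0 | h0 | h0 | h0
  · exfalso
    rw [AA_zero (by rw [h0]; simp)] at h
    push_cast at h
    rw [abs_of_pos (by positivity)] at h
    nlinarith [(Nat.cast_nonneg i : (0 : ℝ) ≤ i)]
  · exfalso
    have h1 : |(L : ℝ)| = 1 := by exact_mod_cast h0
    have h2 : (L : ℝ) ^ 2 = 1 := by rw [← sq_abs, h1]; norm_num
    rcases i with _ | _ | _ | i
    · simp only [AA, h2] at h
      norm_num [abs_of_pos] at h
    · simp only [AA, h2] at h
      norm_num [abs_of_pos] at h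
    · simp only [AA, h2] at h
      norm_num [abs_of_pos] at h
    · have h3 := AA_one h2 i
      have h4 : (0 : ℝ) < (2 * (i : ℝ) + 9) * (i + 5) := by positivity
      rw [show i + 1 + 1 + 1 + 1 = i + 4 by ring, abs_of_pos (by linarith)] at h
      push_cast at h
      linarith
  all_goals
    have h1 : (2 : ℝ) ≤ |(L : ℝ)| := by
      have : (2 : ℤ) ≤ |L| := by omega
      exact_mod_cast this
    have h2 : 4 ≤ (L : ℝ) ^ 2 := by rw [← sq_abs]; nlinarith
    rcases i with _ | i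
    · refine ⟨rfl, ?_⟩
      have e : AA (L : ℝ) (0 + 1) = (L : ℝ) ^ 2 + 2 := by simp only [AA]; push_cast; ring
      rw [e, abs_of_pos (by positivity)] at h
      push_cast at h
      have h5 : (L : ℝ) ^ 2 = 4 := by linarith
      have h6 : L ^ 2 = 4 := by exact_mod_cast h5
      have h7 : |L| ^ 2 = 2 ^ 2 := by rw [sq_abs, h6]; norm_num
      exact (sq_eq_sq₀ (abs_nonneg L) (by norm_num)).1 h7
    · exfalso
      have h3 := AA_two h2 i
      have h4 : (0 : ℝ) < (2 * (i : ℝ) + 5) * (i + 3) := by positivity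
      rw [abs_of_pos (by rw [show i + 1 + 1 = i + 2 by ring]; linarith)] at h
      rw [show i + 1 + 1 = i + 2 by ring] at h
      push_cast at h
      linarith

end size

/-! ### HEART -/

section final

theorem congr_sqrt {A B Q : PowerSeries ℝ} {m : ℕ} (hA : constantCoeff A = 1)
    (hB : constantCoeff B = 1) (hQ : constantCoeff Q = 1)
    (h : X ^ m ∣ A ^ 2 * Q - B ^ 2 * Q) : X ^ m ∣ A - B := by
  have e : A ^ 2 * Q - B ^ 2 * Q = (A - B) * ((A + B) * Q) := by ring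
  rw [e] at h
  have hu : IsUnit ((A + B) * Q) := by
    rw [isUnit_iff_constantCoeff, map_mul, map_add, hA, hB, hQ]
    norm_num
  exact (IsUnit.dvd_mul_right hu).1 h

theorem coeff_eq_of_dvd {A B : PowerSeries ℝ} {m : ℕ} (h : X ^ m ∣ A - B) {i : ℕ} (hi : i < m) :
    coeff i A = coeff i B := by
  have := (X_pow_dvd_iff.1 h) i hi
  rw [map_sub] at this
  linarith

/-- the value of the coefficient, real `L` -/
theorem coeff_eq_aa (L : ℝ) (m : ℕ) (hm : 1 ≤ m) (A : PowerSeries ℝ) (hA0 : constantCoeff A = 1)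
    (hA : ∀ i < m, coeff i (A ^ 2 * (1 + C (2 * L) * X) ^ 2) =
      coeff i ((1 + C L * X + X ^ 2) ^ (m + 1))) :
    ∃ S R : PowerSeries ℝ, S ^ 2 = phi L ∧ constantCoeff S = 1 ∧ lin L * R = 1 ∧
      coeff (m - 1) A = aa S R (m - 1) := by
  obtain ⟨S, hS, hS1⟩ := exists_sqrt (phi L) (constantCoeff_phi L)
  have hl : constantCoeff (lin L) ≠ 0 := by rw [constantCoeff_lin]; norm_num
  have hR : lin L * (lin L)⁻¹ = 1 := PowerSeries.mul_inv_cancel _ hl
  refine ⟨S, (lin L)⁻¹, hS, hS1, hR, ?_⟩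
  have hB : (S ^ (m + 1) * (lin L)⁻¹) ^ 2 * lin L ^ 2 = phi L ^ (m + 1) := by
    have : (S ^ (m + 1) * (lin L)⁻¹) ^ 2 * lin L ^ 2 =
        (S ^ 2) ^ (m + 1) * (lin L * (lin L)⁻¹) ^ 2 := by
      rw [← pow_mul, mul_comm 2, pow_mul]; ring
    rw [this, hR, hS]; ring
  have hd : X ^ m ∣ A - S ^ (m + 1) * (lin L)⁻¹ := by
    refine congr_sqrt (Q := lin L ^ 2) hA0 ?_ ?_ ?_
    · rw [map_mul, map_pow, hS1, constantCoeff_R hR]; simp
    · rw [map_pow, constantCoeff_lin]; simp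
    · rw [hB, X_pow_dvd_iff]
      intro i hi
      rw [map_sub, phi, lin, hA i hi, sub_self]
  have := coeff_eq_of_dvd hd (i := m - 1) (by omega)
  rw [this, aa]
  congr 3
  omega

/-- HEART for integer `λ = L`: the only solutions are `m = 2, |L| = 6` and `m = 3, |L| = 2`. -/
theorem heart_int (L : ℤ) (m : ℕ) (hm : 2 ≤ m) (A : PowerSeries ℝ) (hA0 : constantCoeff A = 1)
    (hA : ∀ i < m, coeff i (A ^ 2 * (1 + C (2 * (L : ℝ)) * X) ^ 2) =
      coeff i ((1 + C (L : ℝ) * X + X ^ 2) ^ (m + 1)))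
    (h : |coeff (m - 1) A| = (m : ℝ) * (m + 1) / 2) :
    (m = 2 ∧ |L| = 6) ∨ (m = 3 ∧ |L| = 2) := by
  obtain ⟨S, R, hS, hS1, hR, he⟩ := coeff_eq_aa L m (by omega) A hA0 hA
  rw [he] at h
  rcases Nat.even_or_odd' m with ⟨j, hj | hj⟩
  · left
    obtain ⟨j, rfl⟩ : ∃ i, j = i + 1 := ⟨j - 1, by omega⟩
    subst hj
    rw [show 2 * (j + 1) - 1 = 2 * j + 1 by omega, aa_odd hS hS1 hR] at h
    have := BB_ne L j (by rw [h]; push_cast; ring)
    exact ⟨by omega, this.2⟩
  · right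
    obtain ⟨j, rfl⟩ : ∃ i, j = i + 1 := ⟨j - 1, by omega⟩
    subst hj
    rw [show 2 * (j + 1) + 1 - 1 = 2 * (j + 1) by omega, aa_even hS hS1 hR] at h
    have := AA_ne L j (by rw [h]; push_cast; ring)
    exact ⟨by omega, this.2⟩

/-- explicit value, `m = 2 j + 2` even, real `L` -/
theorem coeff_even (L : ℝ) (j : ℕ) (A : PowerSeries ℝ) (hA0 : constantCoeff A = 1)
    (hA : ∀ i < 2 * j + 2, coeff i (A ^ 2 * (1 + C (2 * L) * X) ^ 2) =
      coeff i ((1 + C L * X + X ^ 2) ^ (2 * j + 2 + 1))) :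
    coeff (2 * j + 1) A = -(L / 2) * BB L j := by
  obtain ⟨S, R, hS, hS1, hR, he⟩ := coeff_eq_aa L (2 * j + 2) (by omega) A hA0 hA
  rw [show 2 * j + 2 - 1 = 2 * j + 1 by omega] at he
  rw [he, aa_odd hS hS1 hR]

/-- explicit value, `m = 2 i + 1` odd, real `L` -/
theorem coeff_odd (L : ℝ) (i : ℕ) (A : PowerSeries ℝ) (hA0 : constantCoeff A = 1)
    (hA : ∀ k < 2 * i + 1, coeff k (A ^ 2 * (1 + C (2 * L) * X) ^ 2) =
      coeff k ((1 + C L * X + X ^ 2) ^ (2 * i + 1 + 1))) :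
    coeff (2 * i) A = AA L i := by
  obtain ⟨S, R, hS, hS1, hR, he⟩ := coeff_eq_aa L (2 * i + 1) (by omega) A hA0 hA
  rw [show 2 * i + 1 - 1 = 2 * i by omega] at he
  rw [he, aa_even hS hS1 hR]

/-- closed form of `AA`: `4 L² a(2M-1, L) = (2L²+1)^M - 1 + 2 L² M`, `M = i + 1` -/
theorem AA_closed (L : ℝ) (i : ℕ) :
    4 * L ^ 2 * AA L i = (2 * L ^ 2 + 1) ^ (i + 1) - 1 + 2 * L ^ 2 * (i + 1) := by
  induction i with
  | zero => simp [AA]; ring
  | succ i ih =>
    rw [AA]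
    have : 4 * L ^ 2 * ((2 * L ^ 2 + 1) * AA L i + 1 - ((i : ℝ) + 1) * L ^ 2) =
        (2 * L ^ 2 + 1) * (4 * L ^ 2 * AA L i) + 4 * L ^ 2 * (1 - ((i : ℝ) + 1) * L ^ 2) := by ring
    rw [this, ih]
    push_cast
    ring

end final

/-! ### the case `λ = 0` without denominator (`k ≡ 2 mod 4`) -/

section zero

/-- `ψ = 1 + ε X²` -/
def psi (ε : ℝ) : PowerSeries ℝ := 1 + C ε * X ^ 2

theorem constantCoeff_psi (ε : ℝ) : constantCoeff (psi ε) = 1 := by
  simp [psi]

theorem psi_mul (ε : ℝ) (F : PowerSeries ℝ) : psi ε * F = F + C ε * (X * (X * F)) := by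
  rw [psi]; ring

theorem deriv_psi (ε : ℝ) : derivative ℝ (psi ε) = 2 * (C ε * X) := by
  rw [psi]
  simp only [map_add, Derivation.leibniz, Derivation.leibniz_pow, derivative_X, derivative_C,
    Derivation.map_one_eq_zero]
  simp
  ring

theorem ode_psi (ε : ℝ) (S : PowerSeries ℝ) (hS : S ^ 2 = psi ε) (n : ℕ) :
    psi ε * derivative ℝ (S ^ n) = (n : PowerSeries ℝ) * ((C ε * X) * S ^ n) := by
  have h1 : (2 : PowerSeries ℝ) * (C ε * X) = 2 * (S * derivative ℝ S) := by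
    rw [← deriv_psi, ← hS, Derivation.leibniz_pow]
    simp
  have h2 : (C ε * X) = S * derivative ℝ S := by
    have h0 : (2 : PowerSeries ℝ) ≠ 0 := by
      intro h
      have h6 : constantCoeff (2 : PowerSeries ℝ) = 2 := map_ofNat _ 2
      rw [h, map_zero] at h6
      norm_num at h6
    exact mul_left_cancel₀ h0 h1
  rw [h2, Derivation.leibniz_pow, ← hS]
  rcases n with _ | n
  · simp
  · simp only [Nat.add_sub_cancel, smul_eq_mul, nsmul_eq_mul]
    ring

theorem rec_psi (ε : ℝ) (S : PowerSeries ℝ) (hS : S ^ 2 = psi ε) (n k : ℕ) :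
    (k + 2 : ℝ) * coeff (k + 2) (S ^ n) = ε * ((n : ℝ) - k) * coeff k (S ^ n) := by
  have h := congrArg (coeff (k + 1)) (ode_psi ε S hS n)
  have hr : coeff (k + 1) ((n : PowerSeries ℝ) * ((C ε * X) * S ^ n)) =
      (n : ℝ) * (ε * coeff k (S ^ n)) := by
    have h3 : (C (n : ℝ) : PowerSeries ℝ) = (n : PowerSeries ℝ) := map_natCast C n
    rw [← h3, mul_assoc (C ε), coeff_C_mul, coeff_C_mul, coeff_succ_X_mul]
  have hl : coeff (k + 1) (psi ε * derivative ℝ (S ^ n)) =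
      (k + 2 : ℝ) * coeff (k + 2) (S ^ n) + ε * ((k : ℝ) * coeff k (S ^ n)) := by
    rw [psi_mul, map_add, coeff_C_mul, coeff_succ_X_mul]
    rcases k with _ | k
    · rw [coeff_derivative]
      have h5 : coeff 0 (X * derivative ℝ (S ^ n)) = 0 := by
        rw [coeff_zero_eq_constantCoeff_apply, map_mul, constantCoeff_X, zero_mul]
      rw [h5]
      push_cast
      ring
    · rw [coeff_succ_X_mul, coeff_derivative, coeff_derivative]
      push_cast
      ring
  rw [hr, hl] at h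
  linarith

theorem coeff_one_psi (ε : ℝ) (S : PowerSeries ℝ) (hS : S ^ 2 = psi ε) (n : ℕ) :
    coeff 1 (S ^ n) = 0 := by
  have h := congrArg (coeff 0) (ode_psi ε S hS n)
  rw [psi_mul, map_add] at h
  simp only [coeff_zero_eq_constantCoeff, map_mul, constantCoeff_X, zero_mul, mul_zero,
    add_zero] at h
  rw [← coeff_zero_eq_constantCoeff_apply, coeff_derivative] at h
  simpa using h

theorem odd_psi (ε : ℝ) (S : PowerSeries ℝ) (hS : S ^ 2 = psi ε) (n i : ℕ) :
    coeff (2 * i + 1) (S ^ n) = 0 := by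
  induction i with
  | zero => exact coeff_one_psi ε S hS n
  | succ i ih =>
    have := rec_psi ε S hS n (2 * i + 1)
    rw [ih, mul_zero] at this
    rw [show 2 * (i + 1) + 1 = 2 * i + 1 + 2 by ring]
    have h0 : ((2 * i + 1 : ℕ) : ℝ) + 2 ≠ 0 := by positivity
    exact (mul_eq_zero.1 this).resolve_left h0

theorem even_psi (ε : ℝ) (S : PowerSeries ℝ) (hS : S ^ 2 = psi ε) (hS1 : constantCoeff S = 1)
    (M i : ℕ) (hi : i ≤ M) :
    coeff (2 * i) (S ^ (2 * M)) = ε ^ i * (M.choose i : ℝ) := by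
  induction i with
  | zero => simp [hS1]
  | succ i ih =>
    have := rec_psi ε S hS (2 * M) (2 * i)
    rw [ih (by omega)] at this
    rw [show 2 * (i + 1) = 2 * i + 2 by ring]
    have h0 : ((2 * i : ℕ) : ℝ) + 2 ≠ 0 := by positivity
    apply mul_left_cancel₀ h0
    rw [this]
    have hc : ((M.choose (i + 1) : ℕ) : ℝ) * ((i : ℝ) + 1) = (M.choose i : ℝ) * ((M : ℝ) - i) := by
      have := Nat.choose_succ_right_eq M i
      have h2 := congrArg (Nat.cast : ℕ → ℝ) this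
      push_cast [Nat.cast_sub (show i ≤ M by omega)] at h2
      exact h2
    push_cast
    rw [pow_succ]
    linear_combination (-2 * ε ^ i * ε) * hc

/-- `k ≡ 2 (mod 4)`: no solution for `m ≥ 2`. -/
theorem heart_zero (ε : ℝ) (hε : |ε| ≤ 1) (m : ℕ) (hm : 2 ≤ m) (A : PowerSeries ℝ)
    (hA0 : constantCoeff A = 1)
    (hA : ∀ i < m, coeff i (A ^ 2) = coeff i ((1 + C ε * X ^ 2) ^ (m + 1))) :
    |coeff (m - 1) A| < (m : ℝ) * (m + 1) / 2 := by
  obtain ⟨S, hS, hS1⟩ := exists_sqrt (psi ε) (constantCoeff_psi ε)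
  have hd : X ^ m ∣ A - S ^ (m + 1) := by
    refine congr_sqrt (Q := 1) hA0 ?_ (by simp) ?_
    · rw [map_pow, hS1]; simp
    · rw [X_pow_dvd_iff]
      intro i hi
      have : (S ^ (m + 1)) ^ 2 = psi ε ^ (m + 1) := by
        rw [← pow_mul, mul_comm, pow_mul, hS]
      rw [this, mul_one, mul_one, map_sub, hA i hi, psi, sub_self]
  rw [coeff_eq_of_dvd hd (i := m - 1) (by omega)]
  have hm' : (2 : ℝ) ≤ m := by exact_mod_cast hm
  rcases Nat.even_or_odd' m with ⟨j, hj | hj⟩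
  · obtain ⟨j, rfl⟩ : ∃ i, j = i + 1 := ⟨j - 1, by omega⟩
    rw [hj, show 2 * (j + 1) - 1 = 2 * j + 1 by omega, odd_psi ε S hS, abs_zero]
    positivity
  · obtain ⟨j, rfl⟩ : ∃ i, j = i + 1 := ⟨j - 1, by omega⟩
    rw [hj, show 2 * (j + 1) + 1 - 1 = 2 * (j + 1) by omega,
      show 2 * (j + 1) + 1 + 1 = 2 * (j + 2) by ring, even_psi ε S hS hS1 _ _ (by omega)]
    rw [show j + 2 = (j + 1) + 1 by ring, Nat.choose_succ_self_right, abs_mul, abs_pow]
    have h1 : |ε| ^ (j + 1) ≤ 1 := pow_le_one₀ (abs_nonneg _) hε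
    have h2 : |(((j + 1 + 1 : ℕ) : ℝ))| = (j : ℝ) + 2 := by
      rw [abs_of_nonneg (by positivity)]; push_cast; ring
    rw [h2]
    push_cast
    have h3 : |ε| ^ (j + 1) * ((j : ℝ) + 2) ≤ 1 * ((j : ℝ) + 2) :=
      mul_le_mul_of_nonneg_right h1 (by positivity)
    nlinarith [(Nat.cast_nonneg j : (0 : ℝ) ≤ j)]

end zero

end

end Crest.Agent.R208.Heart
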