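import Crest.Agent.R241.D3c
import Crest.Prelude.Def_SubmanifoldMetric

/-!
R208, block I, file 1: uniform local estimates for the exponential map of a compact submanifold.
-/

set_option autoImplicit false

open Set Filter Topology
open scoped ContDiff RealInnerProductSpace
open Crest.GeometryTopology.Submanifold
open Crest.Agent.R241.DDefs
open Crest.Agent.R241.D2
open Crest.Agent.R241.D3b
open Crest.Agent.R241.D3c

noncomputable section

namespace Crest.Agent.R208.I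

variable {n N : ℕ} {κ : ℝ} {S : Set (Euc N)} (G : Geo n N κ S)

/-- the disc bundle of radius `r` -/
def DS (r : ℝ) : Set (Euc N × Euc N) := {q | q ∈ TS G ∧ ‖q.2‖ ≤ r}

lemma isCompact_DS (hc : IsCompact S) (r : ℝ) : IsCompact (DS G r) := by
  have h1 : DS G r = TS G ∩ (S ×ˢ Metric.closedBall (0 : Euc N) r) := by
    ext q
    constructor
    · rintro ⟨h1, h2⟩
      exact ⟨h1, h1.1, by simpa using h2⟩
    · rintro ⟨h1, _, h2⟩
      exact ⟨h1, by simpa using h2⟩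
  rw [h1]
  exact (hc.prod (isCompact_closedBall _ _)).inter_left (isClosed_TS G)

/-- uniform Lipschitz estimate on the fibres of the disc bundle. -/
lemma lip_fibre (hc : IsCompact S) {W : Type*} [NormedAddCommGroup W] [NormedSpace ℝ W]
    {F : Euc N × Euc N → W} (hF : ∀ q ∈ TS G, ContDiffAt ℝ 1 F q) (r : ℝ) :
    ∃ C : ℝ, 0 ≤ C ∧ ∀ x ∈ S, ∀ u ∈ G.T x, ∀ u' ∈ G.T x, ‖u‖ ≤ r → ‖u'‖ ≤ r →
      ‖F (x, u') - F (x, u)‖ ≤ C * ‖u' - u‖ := by
  have hcont : ContinuousOn (fun q => ‖fderiv ℝ F q‖) (DS G r) := by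
    intro q hq
    have h1 : ContDiffAt ℝ 0 (fderiv ℝ F) q := (hF q hq.1).fderiv_right (by norm_num)
    exact h1.continuousAt.norm.continuousWithinAt
  obtain ⟨C, hC⟩ := (isCompact_DS G hc r).bddAbove_image hcont
  refine ⟨max C 0, le_max_right _ _, fun x hx u hu u' hu' h1 h2 => ?_⟩
  have hsub : ∀ τ ∈ Icc (0 : ℝ) 1, (x, u + τ • (u' - u)) ∈ DS G r := by
    intro τ hτ
    refine ⟨⟨hx, (G.T x).add_mem hu ((G.T x).smul_mem _ ((G.T x).sub_mem hu' hu))⟩, ?_⟩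
    have : u + τ • (u' - u) = (1 - τ) • u + τ • u' := by module
    show ‖u + τ • (u' - u)‖ ≤ r
    rw [this]
    calc ‖(1 - τ) • u + τ • u'‖ ≤ ‖(1 - τ) • u‖ + ‖τ • u'‖ := norm_add_le _ _
      _ = (1 - τ) * ‖u‖ + τ * ‖u'‖ := by
          rw [norm_smul, norm_smul, Real.norm_of_nonneg (sub_nonneg.2 hτ.2),
            Real.norm_of_nonneg hτ.1]
      _ ≤ (1 - τ) * r + τ * r := by
          have := hτ.1; have := hτ.2
          gcongr
      _ = r := by ring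
  have hder : ∀ τ ∈ Icc (0 : ℝ) 1, HasDerivWithinAt (fun τ : ℝ => F (x, u + τ • (u' - u)))
      (fderiv ℝ F (x, u + τ • (u' - u)) (0, u' - u)) (Icc (0 : ℝ) 1) τ := by
    intro τ hτ
    have h3 := ((hF _ (hsub τ hτ).1).differentiableAt (by norm_num)).hasFDerivAt
    have h4 : HasDerivAt (fun τ : ℝ => ((x, u + τ • (u' - u)) : Euc N × Euc N))
        (0, u' - u) τ := by
      refine (hasDerivAt_const τ x).prodMk ?_
      simpa using ((hasDerivAt_id τ).smul_const (u' - u)).const_add u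
    exact (h3.comp_hasDerivAt τ h4).hasDerivWithinAt
  have h5 := norm_image_sub_le_of_norm_deriv_le_segment_01' (C := max C 0 * ‖u' - u‖) hder
    (fun τ hτ => by
      have h6 := hC ⟨_, hsub τ ⟨hτ.1, hτ.2.le⟩, rfl⟩
      calc ‖fderiv ℝ F (x, u + τ • (u' - u)) (0, u' - u)‖
          ≤ ‖fderiv ℝ F (x, u + τ • (u' - u))‖ * ‖((0, u' - u) : Euc N × Euc N)‖ :=
            ContinuousLinearMap.le_opNorm _ _
        _ ≤ max C 0 * ‖u' - u‖ := by
            have h7 : ‖((0, u' - u) : Euc N × Euc N)‖ = ‖u' - u‖ := by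
              simp [Prod.norm_def]
            rw [h7]
            gcongr
            exact h6.trans (le_max_left _ _))
  simpa using h5

/-- uniform boundedness on the disc bundle. -/
lemma bdd_DS (hc : IsCompact S) {W : Type*} [NormedAddCommGroup W]
    {F : Euc N × Euc N → W} (hF : ∀ q ∈ TS G, ContinuousAt F q) (r : ℝ) :
    ∃ C : ℝ, 0 ≤ C ∧ ∀ x ∈ S, ∀ u ∈ G.T x, ‖u‖ ≤ r → ‖F (x, u)‖ ≤ C := by
  have hcont : ContinuousOn (fun q => ‖F q‖) (DS G r) := fun q hq =>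
    (hF q hq.1).norm.continuousWithinAt
  obtain ⟨C, hC⟩ := (isCompact_DS G hc r).bddAbove_image hcont
  exact ⟨max C 0, le_max_right _ _, fun x hx u hu h => (hC ⟨(x, u), ⟨⟨hx, hu⟩, h⟩, rfl⟩).trans
    (le_max_left _ _)⟩

/-- the fibre derivative of `Exp`, jointly smooth. -/
lemma contDiffAt_fderiv_Exp {q : Euc N × Euc N} (hq : q ∈ TS G) :
    ContDiffAt ℝ ∞ (fun q : Euc N × Euc N => fderiv ℝ (Exp G q.1) q.2) q := by
  have h1 := contDiffAt_Exp G (p := q.1) (v := q.2) hq.1 hq.2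
  have h2 : ContDiffAt ℝ ∞
      (Function.uncurry fun (q : Euc N × Euc N) (u : Euc N) => Exp G q.1 u) (q, q.2) := by
    have h3 : ContDiffAt ℝ ∞ (fun z : (Euc N × Euc N) × Euc N => (z.1.1, z.2)) (q, q.2) := by
      fun_prop
    exact ContDiffAt.comp (q, q.2) (g := fun q : Euc N × Euc N => Exp G q.1 q.2) h1 h3
  exact ContDiffAt.fderiv h2 contDiffAt_snd (by simp)

/-- the fibre derivative of `Vel`, jointly smooth. -/
lemma contDiffAt_fderiv_Vel {q : Euc N × Euc N} (hq : q ∈ TS G) :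
    ContDiffAt ℝ ∞ (fun q : Euc N × Euc N => fderiv ℝ (Vel G q.1) q.2) q := by
  have h1 := contDiffAt_Vel G (p := q.1) (v := q.2) hq.1 hq.2
  have h2 : ContDiffAt ℝ ∞
      (Function.uncurry fun (q : Euc N × Euc N) (u : Euc N) => Vel G q.1 u) (q, q.2) := by
    have h3 : ContDiffAt ℝ ∞ (fun z : (Euc N × Euc N) × Euc N => (z.1.1, z.2)) (q, q.2) := by
      fun_prop
    exact ContDiffAt.comp (q, q.2) (g := fun q : Euc N × Euc N => Vel G q.1 q.2) h1 h3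
  exact ContDiffAt.fderiv h2 contDiffAt_snd (by simp)

lemma one_le_top : (1 : WithTop ℕ∞) ≤ ∞ := by
  show ((1 : ℕ∞) : WithTop ℕ∞) ≤ _
  exact WithTop.coe_le_coe.2 le_top

/-- derivative along a segment in the fibre -/
lemma hasDerivAt_Exp_seg {x u w : Euc N} {τ : ℝ} (hx : x ∈ S) (hu : u ∈ G.T x) (hw : w ∈ G.T x) :
    HasDerivAt (fun τ : ℝ => Exp G x (u + τ • w)) (fderiv ℝ (Exp G x) (u + τ • w) w) τ := by
  have h3 := ((contDiffAt_Exp' G hx ((G.T x).add_mem hu ((G.T x).smul_mem τ hw))).differentiableAt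
    (by simp)).hasFDerivAt
  have h4 : HasDerivAt (fun τ : ℝ => u + τ • w) w τ := by
    simpa using ((hasDerivAt_id τ).smul_const w).const_add u
  exact h3.comp_hasDerivAt τ h4

/-- Constants for the local structure of `Exp`: there are `ρ ∈ (0,1]` and `C` such that ... -/
structure LocC (ρ C : ℝ) : Prop where
  ρ_pos : 0 < ρ
  ρ_le : ρ ≤ 1
  C_nonneg : 0 ≤ C
  /-- `dExp` is close to the identity -/
  near : ∀ x ∈ S, ∀ u ∈ G.T x, ‖u‖ ≤ ρ → ∀ w ∈ G.T x, ‖fderiv ℝ (Exp G x) u w - w‖ ≤ 1/2 * ‖w‖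
  /-- Taylor -/
  taylor : ∀ x ∈ S, ∀ u ∈ G.T x, ∀ u' ∈ G.T x, ‖u‖ ≤ ρ → ‖u'‖ ≤ ρ →
    ‖Exp G x u' - Exp G x u - fderiv ℝ (Exp G x) u (u' - u)‖ ≤ C * ‖u' - u‖ ^ 2
  /-- bound for the derivative of `Vel` -/
  vel : ∀ x ∈ S, ∀ u ∈ G.T x, ‖u‖ ≤ ρ → ∀ w ∈ G.T x, ‖fderiv ℝ (Vel G x) u w‖ ≤ C * ‖w‖

lemma seg_mem {x u u' : Euc N} {r : ℝ} (hu : u ∈ G.T x) (hu' : u' ∈ G.T x) (h1 : ‖u‖ ≤ r)
    (h2 : ‖u'‖ ≤ r) {τ : ℝ} (hτ : τ ∈ Icc (0 : ℝ) 1) :
    u + τ • (u' - u) ∈ G.T x ∧ ‖u + τ • (u' - u)‖ ≤ r := by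
  refine ⟨(G.T x).add_mem hu ((G.T x).smul_mem _ ((G.T x).sub_mem hu' hu)), ?_⟩
  have : u + τ • (u' - u) = (1 - τ) • u + τ • u' := by module
  rw [this]
  calc ‖(1 - τ) • u + τ • u'‖ ≤ ‖(1 - τ) • u‖ + ‖τ • u'‖ := norm_add_le _ _
    _ = (1 - τ) * ‖u‖ + τ * ‖u'‖ := by
        rw [norm_smul, norm_smul, Real.norm_of_nonneg (sub_nonneg.2 hτ.2),
          Real.norm_of_nonneg hτ.1]
    _ ≤ (1 - τ) * r + τ * r := by
        have := hτ.1; have := hτ.2
        gcongr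
    _ = r := by ring

theorem exists_LocC (hc : IsCompact S) : ∃ ρ C : ℝ, LocC G ρ C := by
  obtain ⟨C1, hC1, h1⟩ := lip_fibre G hc
    (fun q hq => (contDiffAt_fderiv_Exp G hq).of_le one_le_top) 1
  obtain ⟨C2, hC2, h2⟩ := bdd_DS G hc (F := fun q : Euc N × Euc N => fderiv ℝ (Vel G q.1) q.2)
    (fun q hq => (contDiffAt_fderiv_Vel G hq).continuousAt) 1
  have hρpos : 0 < 1 / (2 * C1 + 1) := by positivity
  refine ⟨min 1 (1 / (2 * C1 + 1)), max C1 C2, lt_min one_pos hρpos, min_le_left _ _,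
    hC1.trans (le_max_left _ _), ?_, ?_, ?_⟩
  · intro x hx u hu hur w hw
    have hu1 : ‖u‖ ≤ 1 := hur.trans (min_le_left _ _)
    have hu2 : ‖u‖ ≤ 1 / (2 * C1 + 1) := hur.trans (min_le_right _ _)
    have h3 := h1 x hx 0 (G.T x).zero_mem u hu (by simp) hu1
    simp only [sub_zero] at h3
    have h4 : fderiv ℝ (Exp G x) u w - w =
        (fderiv ℝ (Exp G x) u - fderiv ℝ (Exp G x) 0) w := by
      rw [_root_.sub_apply, fderiv_Exp_zero G hx hw]
    rw [h4]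
    calc ‖(fderiv ℝ (Exp G x) u - fderiv ℝ (Exp G x) 0) w‖
        ≤ ‖fderiv ℝ (Exp G x) u - fderiv ℝ (Exp G x) 0‖ * ‖w‖ :=
          ContinuousLinearMap.le_opNorm _ _
      _ ≤ (1/2) * ‖w‖ := by
          gcongr
          refine h3.trans ?_
          calc C1 * ‖u‖ ≤ C1 * (1 / (2 * C1 + 1)) := by gcongr
            _ ≤ 1/2 := by
              rw [mul_one_div, div_le_div_iff₀ (by positivity) (by norm_num)]
              linarith
  · intro x hx u hu u' hu' hur hur'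
    have hu1 : ‖u‖ ≤ 1 := hur.trans (min_le_left _ _)
    have hu1' : ‖u'‖ ≤ 1 := hur'.trans (min_le_left _ _)
    have hder : ∀ τ ∈ Icc (0 : ℝ) 1, HasDerivWithinAt
        (fun τ : ℝ => Exp G x (u + τ • (u' - u)) - τ • fderiv ℝ (Exp G x) u (u' - u))
        (fderiv ℝ (Exp G x) (u + τ • (u' - u)) (u' - u) - fderiv ℝ (Exp G x) u (u' - u))
        (Icc (0 : ℝ) 1) τ := by
      intro τ hτ
      have h5 := hasDerivAt_Exp_seg G (τ := τ) hx hu ((G.T x).sub_mem hu' hu)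
      have h6 : HasDerivAt (fun τ : ℝ => τ • fderiv ℝ (Exp G x) u (u' - u))
          (fderiv ℝ (Exp G x) u (u' - u)) τ := by
        simpa using (hasDerivAt_id τ).smul_const (fderiv ℝ (Exp G x) u (u' - u))
      exact (h5.sub h6).hasDerivWithinAt
    have h5 := norm_image_sub_le_of_norm_deriv_le_segment_01' (C := C1 * ‖u' - u‖ ^ 2) hder
      (fun τ hτ => by
        obtain ⟨h6, h7⟩ := seg_mem G hu hu' hu1 hu1' ⟨hτ.1, hτ.2.le⟩
        have h8 := h1 x hx u hu _ h6 hu1 h7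
        rw [← _root_.sub_apply]
        calc ‖(fderiv ℝ (Exp G x) (u + τ • (u' - u)) - fderiv ℝ (Exp G x) u) (u' - u)‖
            ≤ ‖fderiv ℝ (Exp G x) (u + τ • (u' - u)) - fderiv ℝ (Exp G x) u‖ * ‖u' - u‖ :=
              ContinuousLinearMap.le_opNorm _ _
          _ ≤ (C1 * ‖u' - u‖) * ‖u' - u‖ := by
              gcongr
              refine h8.trans ?_
              gcongr
              rw [add_sub_cancel_left, norm_smul, Real.norm_of_nonneg hτ.1]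
              exact mul_le_of_le_one_left (norm_nonneg _) hτ.2.le
          _ = C1 * ‖u' - u‖ ^ 2 := by ring)
    have h9 : ‖Exp G x u' - Exp G x u - fderiv ℝ (Exp G x) u (u' - u)‖ ≤ C1 * ‖u' - u‖ ^ 2 := by
      have h10 : Exp G x (u + (1 : ℝ) • (u' - u)) - (1 : ℝ) • fderiv ℝ (Exp G x) u (u' - u) -
          (Exp G x (u + (0 : ℝ) • (u' - u)) - (0 : ℝ) • fderiv ℝ (Exp G x) u (u' - u)) =
          Exp G x u' - Exp G x u - fderiv ℝ (Exp G x) u (u' - u) := by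
        rw [one_smul, zero_smul, one_smul, zero_smul, add_zero, sub_zero, add_sub_cancel]
        abel
      rw [← h10]
      exact h5
    refine h9.trans ?_
    gcongr
    exact le_max_left _ _
  · intro x hx u hu hur w hw
    have h3 := h2 x hx u hu (hur.trans (min_le_left _ _))
    calc ‖fderiv ℝ (Vel G x) u w‖ ≤ ‖fderiv ℝ (Vel G x) u‖ * ‖w‖ :=
          ContinuousLinearMap.le_opNorm _ _
      _ ≤ max C1 C2 * ‖w‖ := by
          gcongr
          exact h3.trans (le_max_right _ _)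

namespace LocC

variable {G} {ρ C : ℝ} (h : LocC G ρ C)
include h

lemma sub_le {x u u' : Euc N} (hx : x ∈ S) (hu : u ∈ G.T x) (hu' : u' ∈ G.T x)
    (h1 : ‖u‖ ≤ ρ) (h2 : ‖u'‖ ≤ ρ) :
    ‖Exp G x u' - Exp G x u - (u' - u)‖ ≤ 1/2 * ‖u' - u‖ := by
  have hder : ∀ τ ∈ Icc (0 : ℝ) 1, HasDerivWithinAt
      (fun τ : ℝ => Exp G x (u + τ • (u' - u)) - τ • (u' - u))
      (fderiv ℝ (Exp G x) (u + τ • (u' - u)) (u' - u) - (u' - u))
      (Icc (0 : ℝ) 1) τ := by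
    intro τ hτ
    have h5 := hasDerivAt_Exp_seg G (τ := τ) hx hu ((G.T x).sub_mem hu' hu)
    have h6 : HasDerivAt (fun τ : ℝ => τ • (u' - u)) (u' - u) τ := by
      simpa using (hasDerivAt_id τ).smul_const (u' - u)
    exact (h5.sub h6).hasDerivWithinAt
  have h5 := norm_image_sub_le_of_norm_deriv_le_segment_01' (C := 1/2 * ‖u' - u‖) hder
    (fun τ hτ => by
      obtain ⟨h6, h7⟩ := seg_mem G hu hu' h1 h2 ⟨hτ.1, hτ.2.le⟩
      exact h.near x hx _ h6 h7 _ ((G.T x).sub_mem hu' hu))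
  have h10 : Exp G x (u + (1 : ℝ) • (u' - u)) - (1 : ℝ) • (u' - u) -
      (Exp G x (u + (0 : ℝ) • (u' - u)) - (0 : ℝ) • (u' - u)) =
      Exp G x u' - Exp G x u - (u' - u) := by
    rw [one_smul, zero_smul, add_zero, sub_zero, add_sub_cancel]
    abel
  rw [← h10]
  exact h5

/-- `Exp_x` is bi-Lipschitz on the small ball. -/
lemma norm_sub_le {x u u' : Euc N} (hx : x ∈ S) (hu : u ∈ G.T x) (hu' : u' ∈ G.T x)
    (h1 : ‖u‖ ≤ ρ) (h2 : ‖u'‖ ≤ ρ) : ‖u' - u‖ ≤ 2 * ‖Exp G x u' - Exp G x u‖ := by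
  have h3 := h.sub_le hx hu hu' h1 h2
  have h4 : ‖u' - u‖ ≤ ‖Exp G x u' - Exp G x u‖ + ‖Exp G x u' - Exp G x u - (u' - u)‖ := by
    have : u' - u = (Exp G x u' - Exp G x u) - (Exp G x u' - Exp G x u - (u' - u)) := by abel
    calc ‖u' - u‖ = ‖(Exp G x u' - Exp G x u) - (Exp G x u' - Exp G x u - (u' - u))‖ := by
          rw [← this]
      _ ≤ _ := _root_.norm_sub_le _ _
  linarith

lemma inj {x u u' : Euc N} (hx : x ∈ S) (hu : u ∈ G.T x) (hu' : u' ∈ G.T x)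
    (h1 : ‖u‖ ≤ ρ) (h2 : ‖u'‖ ≤ ρ) (he : Exp G x u = Exp G x u') : u = u' := by
  have h3 := h.norm_sub_le hx hu hu' h1 h2
  rw [he, sub_self, norm_zero, mul_zero] at h3
  exact (sub_eq_zero.1 (norm_le_zero_iff.1 h3)).symm

end LocC

end Crest.Agent.R208.I
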