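import Crest.Agent.R208.G3
import Crest.Agent.R208.I1

/-!
R208, block I, file 2: first variation inequality (F1) and no conjugate points before `D` (V4).
-/

set_option autoImplicit false

open Set Filter Topology
open scoped ContDiff RealInnerProductSpace
open Crest.GeometryTopology.Submanifold
open Crest.Agent.R241.DDefs
open Crest.Agent.R241.D2
open Crest.Agent.R241.D3b
open Crest.Agent.R241.D3c

noncomputable section

namespace Crest.Agent.R208.I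

variable {n N : ℕ} {κ : ℝ} {S : Set (Euc N)} {G : Geo n N κ S} {D : ℝ}

/-- `Exp` along a ray is the flow. -/
lemma Exp_smul_unit {p v : Euc N} (hp : p ∈ S) (hv : v ∈ G.T p) (hv0 : v ≠ 0) :
    Exp G p v = (fl G ((p, ‖v‖⁻¹ • v), ‖v‖)).1 := by
  have h1 := Exp_smul G hp ((G.T p).smul_mem ‖v‖⁻¹ hv) ‖v‖
  rwa [smul_smul, mul_inv_cancel₀ (norm_ne_zero_iff.2 hv0), one_smul] at h1

lemma norm_unit {v : Euc N} (hv0 : v ≠ 0) : ‖‖v‖⁻¹ • v‖ = 1 := by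
  rw [norm_smul, norm_inv, norm_norm, inv_mul_cancel₀ (norm_ne_zero_iff.2 hv0)]

section basic

variable (hB : Bl n N κ S G D)
include hB

lemma joined {p q : Euc N} (hp : p ∈ S) (hq : q ∈ S) : JoinedS S p q :=
  joinedS_of_connected hB.sub hB.conn hp hq

lemma tri {p q r : Euc N} (hp : p ∈ S) (hq : q ∈ S) (hr : r ∈ S) :
    intrinsicDist S p r ≤ intrinsicDist S p q + intrinsicDist S q r :=
  intrinsicDist_triangle (joined hB hp hq) (joined hB hq hr)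

lemma dist_Exp {p v : Euc N} (hp : p ∈ S) (hv : v ∈ G.T p) (hvD : ‖v‖ ≤ D) :
    intrinsicDist S p (Exp G p v) = ‖v‖ := by
  by_cases hv0 : v = 0
  · subst hv0
    rw [Exp_zero G hp, norm_zero, intrinsicDist_self hp]
  · have h1 := hB.dist_fl (p, ‖v‖⁻¹ • v) ⟨hp, (G.T p).smul_mem _ hv⟩ (norm_unit hv0) 0 ‖v‖
      (norm_nonneg _) (by simpa using hvD)
    rwa [fl_zero, ← Exp_smul_unit hp hv hv0, sub_zero] at h1

/-- uniform comparison of the two distances at small scale -/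
lemma exists_near {ε : ℝ} (hε : 0 < ε) : ∃ η > 0, ∀ x ∈ S, ∀ y ∈ S, ‖x - y‖ < η →
    intrinsicDist S x y ≤ ε := by
  obtain ⟨δ, hδ, h⟩ := uniform_joinedLen hB.sub hB.cpt zero_lt_one
  refine ⟨min δ (ε / 2), lt_min hδ (by positivity), fun x hx y hy hxy => ?_⟩
  obtain ⟨ℓ, h1, h2⟩ := h x hx y hy (by rw [dist_eq_norm]; exact hxy.trans_le (min_le_left _ _))
  refine (intrinsicDist_le h1).trans (h2.trans ?_)
  rw [norm_sub_rev]
  have := hxy.trans_le (min_le_right δ (ε / 2))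
  linarith

end basic

/-- Hopf–Rinow, as a hypothesis -/
def HR (G : Geo n N κ S) : Prop :=
  ∀ p ∈ S, ∀ q ∈ S, ∃ v ∈ G.T p, ‖v‖ = intrinsicDist S p q ∧ Exp G p v = q

section F1

variable (hB : Bl n N κ S G D) (hHR : HR G) {ρ C : ℝ} (hL : LocC G ρ C)
include hHR hL

/-- local first variation inequality -/
lemma fv_local {x c0 p' : Euc N} (hx : x ∈ S) (hc0 : c0 ∈ G.T x) (h0 : 0 < ‖c0‖)
    (h1 : ‖c0‖ ≤ ρ) (hp' : p' ∈ S) (hd : intrinsicDist S x p' ≤ ρ) :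
    intrinsicDist S x p' ≤ ‖c0‖ + ⟪p' - Exp G x c0, Vel G x c0⟫ / ‖c0‖ +
      (4 * C + 2) / ‖c0‖ * ‖p' - Exp G x c0‖ ^ 2 := by
  obtain ⟨c, hc, hcn, hce⟩ := hHR x hx p' hp'
  rw [← hcn] at hd ⊢
  rw [← hce]
  set p := Exp G x c0 with hpdef
  set p1 := Exp G x c with hp1def
  have h2 := hL.taylor x hx c0 hc0 c hc h1 hd
  have h3 := hL.norm_sub_le hx hc0 hc h1 hd
  have hC := hL.C_nonneg
  rw [← hpdef, ← hp1def] at h2 h3
  have h4 := gauss G hx hc0 ((G.T x).sub_mem hc hc0)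
  have h5 : ‖Vel G x c0‖ = ‖c0‖ := norm_Vel G hx hc0
  have hρ1 := hL.ρ_le
  -- `⟨c0, c - c0⟩`
  have h6 : ⟪c0, c - c0⟫ ≤ ⟪p1 - p, Vel G x c0⟫ + 4 * C * ‖p1 - p‖ ^ 2 := by
    have h7 : ⟪c0, c - c0⟫ = ⟪p1 - p, Vel G x c0⟫ -
        ⟪p1 - p - fderiv ℝ (Exp G x) c0 (c - c0), Vel G x c0⟫ := by
      rw [inner_sub_left (p1 - p), h4]; ring
    have h8 : -⟪p1 - p - fderiv ℝ (Exp G x) c0 (c - c0), Vel G x c0⟫ ≤
        C * ‖c - c0‖ ^ 2 * ‖c0‖ := by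
      have h9 := neg_le_of_abs_le (abs_real_inner_le_norm
        (p1 - p - fderiv ℝ (Exp G x) c0 (c - c0)) (Vel G x c0))
      rw [h5] at h9
      have h10 : ‖p1 - p - fderiv ℝ (Exp G x) c0 (c - c0)‖ * ‖c0‖ ≤
        C * ‖c - c0‖ ^ 2 * ‖c0‖ := by gcongr
      linarith
    have h9 : C * ‖c - c0‖ ^ 2 * ‖c0‖ ≤ 4 * C * ‖p1 - p‖ ^ 2 := by
      have h10 : ‖c - c0‖ ^ 2 ≤ (2 * ‖p1 - p‖) ^ 2 := by gcongr
      calc C * ‖c - c0‖ ^ 2 * ‖c0‖ ≤ C * (2 * ‖p1 - p‖) ^ 2 * 1 := by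
            gcongr
            exact h1.trans hρ1
        _ = 4 * C * ‖p1 - p‖ ^ 2 := by ring
    linarith
  have h7 : ‖c‖ ^ 2 = ‖c0‖ ^ 2 + 2 * ⟪c0, c - c0⟫ + ‖c - c0‖ ^ 2 := by
    have : c = c0 + (c - c0) := by abel
    conv_lhs => rw [this]
    rw [norm_add_sq_real]
  have h8 : ‖c - c0‖ ^ 2 ≤ 4 * ‖p1 - p‖ ^ 2 := by
    have h10 : ‖c - c0‖ ^ 2 ≤ (2 * ‖p1 - p‖) ^ 2 := by gcongr
    linarith [h10, mul_pow 2 ‖p1 - p‖ 2]
  have h9 : ‖c‖ ^ 2 ≤ ‖c0‖ ^ 2 + 2 * ⟪p1 - p, Vel G x c0⟫ + (8 * C + 4) * ‖p1 - p‖ ^ 2 := by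
    nlinarith
  have h10 : 2 * ‖c0‖ * ‖c‖ ≤ ‖c‖ ^ 2 + ‖c0‖ ^ 2 := by nlinarith [sq_nonneg (‖c‖ - ‖c0‖)]
  have h11 : ‖c0‖ * ‖c‖ ≤ ‖c0‖ ^ 2 + ⟪p1 - p, Vel G x c0⟫ + (4 * C + 2) * ‖p1 - p‖ ^ 2 := by
    nlinarith
  have h12 : ‖c‖ = ‖c0‖ * ‖c‖ / ‖c0‖ := by field_simp
  rw [h12]
  have h13 : ‖c0‖ + ⟪p1 - p, Vel G x c0⟫ / ‖c0‖ + (4 * C + 2) / ‖c0‖ * ‖p1 - p‖ ^ 2 =
      (‖c0‖ ^ 2 + ⟪p1 - p, Vel G x c0⟫ + (4 * C + 2) * ‖p1 - p‖ ^ 2) / ‖c0‖ := by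
    field_simp
  rw [h13]
  gcongr

include hB in
/-- uniform first variation inequality from a point at small distance `δ` -/
lemma fv_unif {δ : ℝ} (hδ : 0 < δ) (hδρ : δ ≤ ρ / 2) (hδD : δ ≤ D) :
    ∃ K : ℝ, 0 ≤ K ∧ ∀ x ∈ S, ∀ c0 ∈ G.T x, ‖c0‖ = δ → ∀ p' ∈ S,
      intrinsicDist S x p' ≤ δ + ⟪p' - Exp G x c0, Vel G x c0⟫ / δ +
        K * ‖p' - Exp G x c0‖ ^ 2 := by
  have hρ := hL.ρ_pos
  have hC := hL.C_nonneg
  have hD := hB.D_pos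
  obtain ⟨η, hη, hnear⟩ := exists_near hB (ε := ρ / 2) (by positivity)
  refine ⟨max ((4 * C + 2) / δ) (1 / η + D / η ^ 2), ?_, fun x hx c0 hc0 hn p' hp' => ?_⟩
  · exact le_max_of_le_left (by positivity)
  have hpS : Exp G x c0 ∈ S := Exp_mem G hx hc0
  by_cases hcase : ‖p' - Exp G x c0‖ < η
  · have h1 := hnear p' hp' _ hpS hcase
    have h2 := tri hB hx hpS hp'
    rw [dist_Exp hB hx hc0 (by rw [hn]; exact hδD), hn, intrinsicDist_comm S (Exp G x c0) p'] at h2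
    have h3 := fv_local hHR hL hx hc0 (by rw [hn]; exact hδ) (by rw [hn]; linarith) hp'
      (by linarith)
    rw [hn] at h3
    refine h3.trans ?_
    gcongr
    exact le_max_left _ _
  · rw [not_lt] at hcase
    set t := ‖p' - Exp G x c0‖ with ht
    have h1 : -t ≤ ⟪p' - Exp G x c0, Vel G x c0⟫ / δ := by
      have h2 := neg_le_of_abs_le (abs_real_inner_le_norm (p' - Exp G x c0) (Vel G x c0))
      rw [norm_Vel G hx hc0, hn, ← ht] at h2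
      rw [le_div_iff₀ hδ]
      linarith
    have h2 := hB.dist_le x hx p' hp'
    have h3 : t + D ≤ (1 / η + D / η ^ 2) * t ^ 2 := by
      have h4 : t ≤ 1 / η * t ^ 2 := by
        rw [div_mul_eq_mul_div, le_div_iff₀ hη]
        nlinarith
      have h5 : D ≤ D / η ^ 2 * t ^ 2 := by
        rw [div_mul_eq_mul_div, le_div_iff₀ (by positivity)]
        gcongr
      linarith
    have h4 : (1 / η + D / η ^ 2) * t ^ 2 ≤
        max ((4 * C + 2) / δ) (1 / η + D / η ^ 2) * t ^ 2 := by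
      gcongr
      exact le_max_right _ _
    linarith

end F1

/-- (F1): uniform first variation inequality for geodesics of length in `[D/2, D]`. -/
theorem first_variation (hB : Bl n N κ S G D) (hHR : HR G) :
    ∃ K : ℝ, 0 ≤ K ∧ ∀ z ∈ TS G, ‖z.2‖ = 1 → ∀ l : ℝ, D / 2 ≤ l → l ≤ D →
      ∀ p' ∈ S, ∀ q' ∈ S, intrinsicDist S p' q' ≤ l - ⟪z.2, p' - z.1⟫ +
        ⟪(fl G (z, l)).2, q' - (fl G (z, l)).1⟫ +
        K * (‖p' - z.1‖ ^ 2 + ‖q' - (fl G (z, l)).1‖ ^ 2) := by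
  obtain ⟨ρ, C, hL⟩ := exists_LocC G hB.cpt
  have hρ := hL.ρ_pos
  have hD := hB.D_pos
  set δ := min (ρ / 2) (D / 4) with hδdef
  have hδ : 0 < δ := lt_min (by positivity) (by positivity)
  have hδD : δ ≤ D / 4 := min_le_right _ _
  obtain ⟨K, hK, h⟩ := fv_unif hB hHR hL hδ (min_le_left _ _) (by linarith)
  refine ⟨K, hK, fun z hz hz1 l hl hlD p' hp' q' hq' => ?_⟩
  -- the two intermediate points
  have hx := fl_mem G hz δ
  have hy := fl_mem G hz (l - δ)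
  have hxn : ‖(fl G (z, δ)).2‖ = 1 := by rw [norm_fl G hz, hz1]
  have hyn : ‖(fl G (z, l - δ)).2‖ = 1 := by rw [norm_fl G hz, hz1]
  have hxy : intrinsicDist S (fl G (z, δ)).1 (fl G (z, l - δ)).1 = l - 2 * δ := by
    rw [hB.dist_fl z hz hz1 δ (l - δ) (by linarith) (by linarith)]
    ring
  -- distance from `x` to `p'`
  have h1 : intrinsicDist S (fl G (z, δ)).1 p' ≤
      δ - ⟪z.2, p' - z.1⟫ + K * ‖p' - z.1‖ ^ 2 := by
    have hm : -(fl G (z, δ)).2 ∈ G.T (fl G (z, δ)).1 := (G.T _).neg_mem hx.2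
    have h2 := h (fl G (z, δ)).1 hx.1 (δ • (-(fl G (z, δ)).2)) ((G.T _).smul_mem _ hm)
      (by rw [norm_smul, norm_neg, hxn, mul_one, Real.norm_of_nonneg hδ.le]) p' hp'
    have h3 : fl G (((fl G (z, δ)).1, -(fl G (z, δ)).2), δ) = rev z := by
      have h4 := (fl_rev G (q := fl G (z, δ)) (t := -δ) (complete G hx (-δ))).2
      rw [← fl_add' G hz δ (-δ), add_neg_cancel, fl_zero, neg_neg] at h4
      exact h4
    rw [Exp_smul G hx.1 hm, Vel_smul G hx.1 hm, h3] at h2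
    have h5 : ⟪p' - (rev z).1, δ • (rev z).2⟫ / δ = -⟪z.2, p' - z.1⟫ := by
      show ⟪p' - z.1, δ • (-z.2)⟫ / δ = _
      rw [inner_smul_right, inner_neg_right, real_inner_comm]
      field_simp
    rw [h5] at h2
    have h6 : (rev z).1 = z.1 := rfl
    rw [h6] at h2
    linarith
  have h2 : intrinsicDist S (fl G (z, l - δ)).1 q' ≤
      δ + ⟪(fl G (z, l)).2, q' - (fl G (z, l)).1⟫ + K * ‖q' - (fl G (z, l)).1‖ ^ 2 := by
    have h2 := h (fl G (z, l - δ)).1 hy.1 (δ • (fl G (z, l - δ)).2) ((G.T _).smul_mem _ hy.2)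
      (by rw [norm_smul, hyn, mul_one, Real.norm_of_nonneg hδ.le]) q' hq'
    have h3 : fl G (((fl G (z, l - δ)).1, (fl G (z, l - δ)).2), δ) = fl G (z, l) := by
      rw [← fl_add' G hz (l - δ) δ, sub_add_cancel]
    rw [Exp_smul G hy.1 hy.2, Vel_smul G hy.1 hy.2, h3] at h2
    have h5 : ⟪q' - (fl G (z, l)).1, δ • (fl G (z, l)).2⟫ / δ =
        ⟪(fl G (z, l)).2, q' - (fl G (z, l)).1⟫ := by
      rw [inner_smul_right, real_inner_comm]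
      field_simp
    rw [h5] at h2
    exact h2
  have h3 := tri hB hp' hx.1 hq'
  have h4 := tri hB hx.1 hy.1 hq'
  rw [intrinsicDist_comm S p' (fl G (z, δ)).1] at h3
  rw [hxy] at h4
  linarith

end Crest.Agent.R208.I
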