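import Crest.Agent.R208.G3b
import Crest.Agent.R208.I3
import Crest.Agent.R208.K2

/-!
R208, block I, file 4: the interface `K.Hyp` of block K from the Blaschke data `Bl`.
-/

set_option autoImplicit false

open Set Filter Topology
open scoped ContDiff RealInnerProductSpace
open Crest.GeometryTopology.Submanifold
open Crest.Agent.R241.DDefs
open Crest.Agent.R241.D2
open Crest.Agent.R241.D3b
open Crest.Agent.R241.D3c

noncomputable section

namespace Crest.Agent.R208.I

variable {n N : ℕ} {κ : ℝ} {S : Set (Euc N)} {G : Geo n N κ S} {D : ℝ}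

lemma exists_unit (hB : Bl n N κ S G D) {p : Euc N} (hp : p ∈ S) : ∃ v ∈ G.T p, ‖v‖ = 1 := by
  obtain ⟨fr, hfr⟩ := exists_frame G hp
  refine ⟨fr (stdVec n ⟨0, hB.hn⟩), frame_mem hfr _, ?_⟩
  rw [fr.norm_map]
  simp [stdVec]

theorem hr_of_bl (hB : Bl n N κ S G D) : HR G := fun _ hp _ hq => hB.exists_Exp hp hq

/-- The interface of block K. -/
theorem hyp (hB : Bl n N κ S G D) : K.Hyp G D where
  hD := hB.D_pos
  hn := hB.hn
  cpt := hB.cpt
  ne := hB.conn.nonempty
  sym := fun p _ q _ => intrinsicDist_comm S p q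
  cont := continuousOn_intrinsicDist hB.sub hB.cpt hB.conn
  le := hB.dist_le
  mini := fun z hz t h0 h1 => by
    have := hB.dist_fl z hz.1 hz.2 0 t h0 (by linarith)
    rwa [fl_zero, sub_zero] at this
  hr := fun p hp q hq => by
    obtain ⟨v, hv, hn, he⟩ := hB.exists_Exp hp hq
    by_cases hv0 : v = 0
    · obtain ⟨w, hw, hw1⟩ := exists_unit hB hp
      refine ⟨w, hw, hw1, ?_⟩
      rw [← hn, hv0, norm_zero, fl_zero]
      rw [hv0, Exp_zero G hp] at he
      exact he
    · refine ⟨‖v‖⁻¹ • v, (G.T p).smul_mem _ hv, norm_unit hv0, ?_⟩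
      rw [← hn, ← Exp_smul_unit hp hv hv0, he]
  f1 := by
    obtain ⟨K, hK, h⟩ := first_variation hB (hr_of_bl hB)
    exact ⟨K, hK, fun z hz l h1 h2 p' hp' q' hq' => h z hz.1 hz.2 l h1 h2 p' hp' q' hq'⟩
  v4 := fun z hz t h0 h1 b hb h => no_conj hB hz.1 hz.2 h0 h1 hb h

end Crest.Agent.R208.I
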