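import Mathlib

/-!
R208, block G6b (helper499), file 1: abstract integration of a per-orbit inequality for the mean of
`log D` over a measure preserving flow (inequality and equality case).
-/

set_option autoImplicit false
set_option linter.unusedSectionVars false

open MeasureTheory Set Filter Topology
open scoped ENNReal

noncomputable section

namespace Crest.Agent.R208.I

variable {Ω : Type*} [TopologicalSpace Ω] [T2Space Ω] [SecondCountableTopology Ω]
  [MeasurableSpace Ω] [BorelSpace Ω]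

/-- the orbit mean -/
def om (φ : ℝ → Ω → Ω) (D : Ω → ℝ → ℝ) (P : ℝ) (q : Ω) (t : ℝ) : ℝ :=
  (1 / P) * ∫ s in (0 : ℝ)..P, Real.log (D (φ s q) t)

/-- Data: a finite measure `ν` carried by the compact set `K`, a flow `φ` preserving `ν` and `K`,
a positive function `D` continuous on `K × (0, T)`. -/
structure FlowData (ν : Measure Ω) (K : Set Ω) (φ : ℝ → Ω → Ω) (D : Ω → ℝ → ℝ) (T : ℝ) : Prop where
  fin : IsFiniteMeasure ν
  cpt : IsCompact K
  carr : ν Kᶜ = 0
  mp : ∀ s, MeasurePreserving (φ s) ν ν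
  inv : ∀ s, ∀ q ∈ K, φ s q ∈ K
  cont : ContinuousOn (fun x : Ω × ℝ => φ x.2 x.1) (K ×ˢ univ)
  Dcont : ContinuousOn (fun x : Ω × ℝ => D x.1 x.2) (K ×ˢ Ioo 0 T)
  Dpos : ∀ q ∈ K, ∀ t ∈ Ioo 0 T, 0 < D q t

namespace FlowData

variable {ν : Measure Ω} {K : Set Ω} {φ : ℝ → Ω → Ω} {D : Ω → ℝ → ℝ} {T : ℝ}
  (h : FlowData ν K φ D T)
include h

lemma meas_K : MeasurableSet K := h.cpt.isClosed.measurableSet

lemma ae_K : ∀ᵐ q ∂ν, q ∈ K := by
  rw [ae_iff]
  exact h.carr

lemma restrict_eq : ν.restrict K = ν := Measure.restrict_eq_self_of_ae_mem h.ae_K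

/-- log D at time `t` -/
lemma contOn_D {t : ℝ} (ht : t ∈ Ioo 0 T) : ContinuousOn (fun q => D q t) K := by
  refine h.Dcont.comp (f := fun q => (q, t)) (by fun_prop) ?_
  intro q hq
  exact ⟨hq, ht⟩

lemma contOn_log {t : ℝ} (ht : t ∈ Ioo 0 T) : ContinuousOn (fun q => Real.log (D q t)) K :=
  (h.contOn_D ht).log fun q hq => (h.Dpos q hq t ht).ne'

lemma integrable_of_contOn {g : Ω → ℝ} (hg : ContinuousOn g K) : Integrable g ν := by
  have := h.fin
  rw [← h.restrict_eq]
  exact hg.integrableOn_compact h.cpt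

/-- joint continuity of `log D (φ_s q) t` -/
lemma contOn_orbit : ContinuousOn (fun x : (Ω × ℝ) × ℝ => Real.log (D (φ x.1.2 x.1.1) x.2))
    ((K ×ˢ univ) ×ˢ Ioo 0 T) := by
  have h1 : ContinuousOn (fun x : (Ω × ℝ) × ℝ => ((φ x.1.2 x.1.1, x.2) : Ω × ℝ))
      ((K ×ˢ univ) ×ˢ Ioo 0 T) := by
    refine ContinuousOn.prodMk ?_ (by fun_prop)
    exact h.cont.comp (f := fun x : (Ω × ℝ) × ℝ => x.1) (by fun_prop) fun x hx => hx.1
  have hm : MapsTo (fun x : (Ω × ℝ) × ℝ => ((φ x.1.2 x.1.1, x.2) : Ω × ℝ))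
      ((K ×ˢ univ) ×ˢ Ioo 0 T) (K ×ˢ Ioo 0 T) := fun x hx =>
    ⟨h.inv _ _ hx.1.1, hx.2⟩
  have h2 := h.Dcont.comp h1 hm
  exact h2.log fun x hx => (h.Dpos _ (h.inv _ _ hx.1.1) _ hx.2).ne'

variable {P : ℝ}

lemma contOn_om : ContinuousOn (fun x : Ω × ℝ => om φ D P x.1 x.2) (K ×ˢ Ioo 0 T) := by
  rw [continuousOn_iff_continuous_domRestrict]
  unfold om
  have h1 : Continuous (Function.uncurry fun (x : ↥(K ×ˢ Ioo (0 : ℝ) T)) (s : ℝ) =>
      Real.log (D (φ s x.1.1) x.1.2)) := by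
    have h2 := continuousOn_iff_continuous_domRestrict.1 h.contOn_orbit
    have h3 : Continuous fun y : ↥(K ×ˢ Ioo (0 : ℝ) T) × ℝ =>
        (⟨((y.1.1.1, y.2), y.1.1.2), ⟨⟨y.1.2.1, mem_univ _⟩, y.1.2.2⟩⟩ :
          ↥((K ×ˢ (univ : Set ℝ)) ×ˢ Ioo (0 : ℝ) T)) := by
      refine Continuous.subtype_mk ?_ _
      fun_prop
    exact h2.comp h3
  have h4 := intervalIntegral.continuous_parametric_intervalIntegral_of_continuous'
    (μ := volume) h1 0 P
  exact continuous_const.mul h4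

lemma contOn_om_left {t : ℝ} (ht : t ∈ Ioo 0 T) : ContinuousOn (fun q => om φ D P q t) K := by
  refine (h.contOn_om (P := P)).comp (f := fun q => (q, t)) (by fun_prop) ?_
  intro q hq
  exact ⟨hq, ht⟩

lemma contOn_om_right {q : Ω} (hq : q ∈ K) : ContinuousOn (fun t => om φ D P q t) (Ioo 0 T) := by
  refine (h.contOn_om (P := P)).comp (f := fun t => (q, t)) (by fun_prop) ?_
  intro t ht
  exact ⟨hq, ht⟩

lemma integral_om (hP : 0 < P) {t : ℝ} (ht : t ∈ Ioo 0 T) :
    ∫ q, om φ D P q t ∂ν = ∫ q, Real.log (D q t) ∂ν := by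
  have := h.fin
  unfold om
  rw [integral_const_mul]
  have hint : Integrable (Function.uncurry fun (q : Ω) (s : ℝ) => Real.log (D (φ s q) t))
      (ν.prod (volume.restrict (Ioc 0 P))) := by
    have h1 : ContinuousOn (Function.uncurry fun (q : Ω) (s : ℝ) => Real.log (D (φ s q) t))
        (K ×ˢ Icc 0 P) := by
      refine h.contOn_orbit.comp (f := fun y : Ω × ℝ => (y, t)) (by fun_prop) ?_
      intro y hy
      exact ⟨⟨hy.1, mem_univ _⟩, ht⟩
    have h2 : IntegrableOn (Function.uncurry fun (q : Ω) (s : ℝ) => Real.log (D (φ s q) t))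
        (K ×ˢ Icc 0 P) (ν.prod volume) :=
      h1.integrableOn_compact (h.cpt.prod isCompact_Icc)
    rw [IntegrableOn, ← Measure.prod_restrict, h.restrict_eq] at h2
    refine h2.mono_measure ?_
    exact Measure.prod_mono le_rfl (Measure.restrict_mono Ioc_subset_Icc_self le_rfl)
  have h2 : ∫ q, (∫ s in (0 : ℝ)..P, Real.log (D (φ s q) t)) ∂ν =
      ∫ s in Ioc 0 P, ∫ q, Real.log (D (φ s q) t) ∂ν := by
    have h3 : ∀ q, (∫ s in (0 : ℝ)..P, Real.log (D (φ s q) t)) =
        ∫ s in Ioc 0 P, Real.log (D (φ s q) t) := fun q =>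
      intervalIntegral.integral_of_le hP.le
    simp only [h3]
    exact integral_integral_swap hint
  rw [h2]
  have h4 : ∀ s, ∫ q, Real.log (D (φ s q) t) ∂ν = ∫ q, Real.log (D q t) ∂ν := by
    intro s
    have h5 : AEStronglyMeasurable (fun q => Real.log (D q t)) (Measure.map (φ s) ν) := by
      rw [(h.mp s).map_eq]
      exact (h.integrable_of_contOn (h.contOn_log ht)).aestronglyMeasurable
    have h6 := integral_map (h.mp s).measurable.aemeasurable h5
    rw [(h.mp s).map_eq] at h6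
    exact h6.symm
  simp only [h4]
  rw [integral_const, measureReal_restrict_apply MeasurableSet.univ, univ_inter,
    Real.volume_real_Ioc_of_le hP.le, smul_eq_mul, sub_zero, ← mul_assoc, one_div,
    inv_mul_cancel₀ hP.ne', one_mul]

/-- the lower bound at one time -/
lemma lower (hP : 0 < P) {t : ℝ} (ht : t ∈ Ioo 0 T) (L : ℝ) :
    ENNReal.ofReal (Real.exp L * (ν.real univ + ∫ q, (om φ D P q t - L) ∂ν)) ≤
      ∫⁻ q, ENNReal.ofReal (D q t) ∂ν := by
  have := h.fin
  have hD := h.integrable_of_contOn (h.contOn_D ht)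
  have hl := h.integrable_of_contOn (h.contOn_log ht)
  have ho := h.integrable_of_contOn (h.contOn_om_left (P := P) ht)
  have hpos : 0 ≤ᵐ[ν] fun q => D q t := by
    filter_upwards [h.ae_K] with q hq
    exact (h.Dpos q hq t ht).le
  rw [← ofReal_integral_eq_lintegral_ofReal hD hpos]
  apply ENNReal.ofReal_le_ofReal
  have h1 : Real.exp L * (ν.real univ + ∫ q, (om φ D P q t - L) ∂ν) =
      ∫ q, Real.exp L * (1 + (Real.log (D q t) - L)) ∂ν := by
    have e1 : ∫ q, (1 + (Real.log (D q t) - L)) ∂ν =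
        (∫ q, (1 : ℝ) ∂ν) + ∫ q, (Real.log (D q t) - L) ∂ν :=
      integral_add (integrable_const _) (hl.sub (integrable_const _))
    rw [integral_const_mul, e1, integral_sub hl (integrable_const _),
      integral_sub ho (integrable_const _), h.integral_om hP ht]
    simp
  rw [h1]
  refine integral_mono_ae ?_ hD ?_
  · exact ((integrable_const _).add (hl.sub (integrable_const _))).const_mul _
  · filter_upwards [h.ae_K] with q hq
    have h2 := Real.add_one_le_exp (Real.log (D q t) - L)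
    have h3 : Real.exp L * Real.exp (Real.log (D q t) - L) = D q t := by
      rw [← Real.exp_add, add_sub_cancel, Real.exp_log (h.Dpos q hq t ht)]
    calc Real.exp L * (1 + (Real.log (D q t) - L))
        ≤ Real.exp L * Real.exp (Real.log (D q t) - L) := by
          have := Real.exp_pos L
          gcongr
          linarith
      _ = D q t := h3

lemma lower' (hP : 0 < P) {t : ℝ} (ht : t ∈ Ioo 0 T) {L : ℝ} (hL : ∀ q ∈ K, L ≤ om φ D P q t) :
    ENNReal.ofReal (Real.exp L) * ν univ ≤ ∫⁻ q, ENNReal.ofReal (D q t) ∂ν := by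
  have := h.fin
  refine le_trans ?_ (h.lower hP ht L)
  have h1 : 0 ≤ ∫ q, (om φ D P q t - L) ∂ν := by
    refine integral_nonneg_of_ae ?_
    filter_upwards [h.ae_K] with q hq
    exact sub_nonneg.2 (hL q hq)
  have h2 : ν univ = ENNReal.ofReal (ν.real univ) :=
    (ENNReal.ofReal_toReal (measure_ne_top ν _)).symm
  rw [h2, ← ENNReal.ofReal_mul (Real.exp_pos L).le]
  apply ENNReal.ofReal_le_ofReal
  have := Real.exp_pos L
  gcongr
  linarith

/-- **Integrated inequality.** -/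
theorem ineq (hP : 0 < P) {L : ℝ → ℝ} (hL : ∀ t ∈ Ioo 0 T, ∀ q ∈ K, L t ≤ om φ D P q t) :
    (∫⁻ t in Ioo 0 T, ENNReal.ofReal (Real.exp (L t))) * ν univ ≤
      ∫⁻ t in Ioo 0 T, ∫⁻ q, ENNReal.ofReal (D q t) ∂ν := by
  have := h.fin
  rw [← lintegral_mul_const' _ _ (measure_ne_top ν _)]
  exact setLIntegral_mono' measurableSet_Ioo fun t ht => h.lower' hP ht (hL t ht)

/-- **Equality case.** -/
theorem eq_case (hP : 0 < P) {L : ℝ → ℝ} (hLc : ContinuousOn L (Ioo 0 T))
    (hL : ∀ t ∈ Ioo 0 T, ∀ q ∈ K, L t ≤ om φ D P q t)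
    (hfin : (∫⁻ t in Ioo 0 T, ENNReal.ofReal (Real.exp (L t))) * ν univ ≠ ⊤)
    (hsupp : ∀ q ∈ K, ∀ U ∈ 𝓝[K] q, ν U ≠ 0)
    (heq : ∫⁻ t in Ioo 0 T, ∫⁻ q, ENNReal.ofReal (D q t) ∂ν ≤
      (∫⁻ t in Ioo 0 T, ENNReal.ofReal (Real.exp (L t))) * ν univ) :
    ∀ t ∈ Ioo 0 T, ∀ q ∈ K, om φ D P q t = L t := by
  have := h.fin
  set f : ℝ → ℝ≥0∞ := fun t => ENNReal.ofReal (Real.exp (L t)) * ν univ with hf
  set g : ℝ → ℝ≥0∞ := fun t => ∫⁻ q, ENNReal.ofReal (D q t) ∂ν with hg
  have hfint : ∫⁻ t in Ioo 0 T, f t = (∫⁻ t in Ioo 0 T, ENNReal.ofReal (Real.exp (L t))) * ν univ :=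
    lintegral_mul_const' _ _ (measure_ne_top ν _)
  have hfg : f ≤ᵐ[volume.restrict (Ioo 0 T)] g := by
    refine (ae_restrict_iff' measurableSet_Ioo).2 (Eventually.of_forall fun t ht => ?_)
    exact h.lower' hP ht (hL t ht)
  have hgm : AEMeasurable g (volume.restrict (Ioo 0 T)) := by
    have h1 : AEMeasurable (fun x : ℝ × Ω => ENNReal.ofReal (D x.2 x.1))
        ((volume.restrict (Ioo 0 T)).prod ν) := by
      have h2 : ContinuousOn (fun x : ℝ × Ω => D x.2 x.1) (Ioo 0 T ×ˢ K) := by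
        refine h.Dcont.comp (f := fun x : ℝ × Ω => (x.2, x.1)) (by fun_prop) ?_
        intro x hx
        exact ⟨hx.2, hx.1⟩
      have h3 : AEMeasurable (fun x : ℝ × Ω => D x.2 x.1)
          ((volume.prod ν).restrict (Ioo 0 T ×ˢ K)) :=
        h2.aemeasurable (measurableSet_Ioo.prod h.meas_K)
      rw [← Measure.prod_restrict, h.restrict_eq] at h3
      exact h3.ennreal_ofReal
    exact h1.lintegral_prod_right'
  have hae := ae_eq_of_ae_le_of_lintegral_le hfg (by rw [hfint]; exact hfin) hgm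
    (by rw [hfint]; exact heq)
  -- a.e. `t`: equality for all `q`
  have hae2 : ∀ᵐ t ∂(volume.restrict (Ioo 0 T)), ∀ q ∈ K, om φ D P q t = L t := by
    filter_upwards [hae, ae_restrict_mem measurableSet_Ioo] with t ht htI
    have h1 := h.lower hP htI (L t)
    have h2 : ENNReal.ofReal (Real.exp (L t)) * ν univ = ∫⁻ q, ENNReal.ofReal (D q t) ∂ν := ht
    rw [← h2] at h1
    have h3 : ν univ = ENNReal.ofReal (ν.real univ) :=
      (ENNReal.ofReal_toReal (measure_ne_top ν _)).symm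
    rw [h3, ← ENNReal.ofReal_mul (Real.exp_pos _).le,
      ENNReal.ofReal_le_ofReal_iff (mul_nonneg (Real.exp_pos _).le measureReal_nonneg)] at h1
    have h4 : ∫ q, (om φ D P q t - L t) ∂ν ≤ 0 := by
      have h5 := le_of_mul_le_mul_left h1 (Real.exp_pos _)
      linarith
    have hnn : 0 ≤ᵐ[ν] fun q => om φ D P q t - L t := by
      filter_upwards [h.ae_K] with q hq
      exact sub_nonneg.2 (hL t htI q hq)
    have hint : Integrable (fun q => om φ D P q t - L t) ν :=
      (h.integrable_of_contOn (h.contOn_om_left htI)).sub (integrable_const _)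
    have h6 : (fun q => om φ D P q t - L t) =ᵐ[ν] 0 :=
      (integral_eq_zero_iff_of_nonneg_ae hnn hint).1
        (le_antisymm h4 (integral_nonneg_of_ae hnn))
    intro q hq
    by_contra hne
    have h7 : 0 < om φ D P q t - L t :=
      lt_of_le_of_ne (sub_nonneg.2 (hL t htI q hq)) (fun h8 => hne (by linarith))
    have h8 : ContinuousWithinAt (fun q => om φ D P q t - L t) K q :=
      ((h.contOn_om_left (P := P) htI) q hq).sub continuousWithinAt_const
    have h9 : {q' | 0 < om φ D P q' t - L t} ∈ 𝓝[K] q := h8.eventually (lt_mem_nhds h7)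
    refine hsupp q hq _ h9 ?_
    rw [← nonpos_iff_eq_zero]
    calc ν {q' | 0 < om φ D P q' t - L t} ≤ ν {q' | ¬ (om φ D P q' t - L t) = 0} :=
          measure_mono fun q' hq' => ne_of_gt hq'
      _ = 0 := ae_iff.1 h6
  -- all `t` by continuity
  intro t ht q hq
  have h1 : ∀ᵐ t ∂(volume.restrict (Ioo 0 T)), om φ D P q t = L t :=
    hae2.mono fun t ht => ht q hq
  have h2 := Measure.eqOn_Ioo_of_ae_eq (μ := volume) h1 (h.contOn_om_right hq) hLc
  exact h2 ht

end FlowData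

end Crest.Agent.R208.I
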