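import Crest.Agent.R208.L6

/-!
R208, block G4c (helper971): the Jacobian of the exponential map and polar coordinates on `S`.
-/

set_option autoImplicit false
set_option linter.unusedSectionVars false

open MeasureTheory Measure Set Filter Topology Module Metric
open scoped ContDiff RealInnerProductSpace ENNReal
open Crest.GeometryTopology.Submanifold
open Crest.Agent.R241.DDefs
open Crest.Agent.R241.D2
open Crest.Agent.R241
open Crest.Agent.R241.AF (jac jac_nonneg jac_sq jac_sq_gram finrank_Euc)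

noncomputable section

namespace Crest.Agent.R208.L

section det

variable {n N : ℕ}

/-- Sylvester's identity for linear maps between Euclidean spaces -/
lemma det_one_add_comm (X : Euc n →L[ℝ] Euc N) (Y : Euc N →L[ℝ] Euc n) :
    (1 + X ∘L Y : Euc N →L[ℝ] Euc N).det = (1 + Y ∘L X : Euc n →L[ℝ] Euc n).det := by
  set b := (EuclideanSpace.basisFun (Fin N) ℝ).toBasis with hb
  set c := (EuclideanSpace.basisFun (Fin n) ℝ).toBasis with hc
  have h1 : LinearMap.toMatrix b b (1 + X ∘L Y : Euc N →L[ℝ] Euc N).toLinearMap =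
      1 + LinearMap.toMatrix c b X.toLinearMap * LinearMap.toMatrix b c Y.toLinearMap := by
    rw [← LinearMap.toMatrix_comp, ← LinearMap.toMatrix_one b, ← map_add]
    rfl
  have h2 : LinearMap.toMatrix c c (1 + Y ∘L X : Euc n →L[ℝ] Euc n).toLinearMap =
      1 + LinearMap.toMatrix b c Y.toLinearMap * LinearMap.toMatrix c b X.toLinearMap := by
    rw [← LinearMap.toMatrix_comp, ← LinearMap.toMatrix_one c, ← map_add]
    rfl
  have h3 : (1 + X ∘L Y : Euc N →L[ℝ] Euc N).det =
      LinearMap.det (1 + X ∘L Y : Euc N →L[ℝ] Euc N).toLinearMap := rfl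
  have h4 : (1 + Y ∘L X : Euc n →L[ℝ] Euc n).det =
      LinearMap.det (1 + Y ∘L X : Euc n →L[ℝ] Euc n).toLinearMap := rfl
  rw [h3, h4, ← LinearMap.det_toMatrix b, ← LinearMap.det_toMatrix c, h1, h2,
    Matrix.det_one_add_mul_comm]

/-- the Gram determinant on a subspace -/
lemma det_gram_frame (L P : Euc N →L[ℝ] Euc N) (A : Euc n →L[ℝ] Euc N)
    (hA : ContinuousLinearMap.adjoint A ∘L A = 1) (hP : P = A ∘L ContinuousLinearMap.adjoint A)
    (hL : L ∘L P = L) :
    (ContinuousLinearMap.adjoint L ∘L L + (1 - P)).det = jac (L ∘L A) ^ 2 := by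
  set A' := ContinuousLinearMap.adjoint A with hA'
  set L' := ContinuousLinearMap.adjoint L with hL'
  have hP' : ContinuousLinearMap.adjoint P = P := by
    rw [hP, ContinuousLinearMap.adjoint_comp, hA', ContinuousLinearMap.adjoint_adjoint]
  have hPL : P ∘L L' = L' := by
    have := congrArg ContinuousLinearMap.adjoint hL
    rwa [ContinuousLinearMap.adjoint_comp, hP'] at this
  have h1 : L' ∘L L + (1 - P) = 1 + A ∘L ((A' ∘L L' ∘L L ∘L A - 1) ∘L A') := by
    ext1 z
    have e1 : ∀ z, A (A' z) = P z := fun z => by rw [hP]; rfl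
    have e2 : ∀ z, P (L' z) = L' z := fun z => congrArg (fun M => M z) hPL
    have e3 : ∀ z, L (P z) = L z := fun z => congrArg (fun M => M z) hL
    change L' (L z) + (z - P z) = z + A (A' (L' (L (A (A' z)))) - A' z)
    rw [map_sub, e1, e1, e2, e3]
    abel
  have e4 : ∀ z, A' (A z) = z := fun z => congrArg (fun M => M z) hA
  have h2 : 1 + ((A' ∘L L' ∘L L ∘L A - 1) ∘L A') ∘L A = (A' ∘L L') ∘L (L ∘L A) := by
    ext1 z
    change z + (A' (L' (L (A (A' (A z))))) - A' (A z)) = A' (L' (L (A z)))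
    rw [e4]
    abel
  rw [h1, det_one_add_comm, jac_sq, ContinuousLinearMap.adjoint_comp, h2]

end det

variable {n N : ℕ} {κ : ℝ} {S : Set (Euc N)} (G : Geo n N κ S)

/-- the embedding of the last factor -/
def iL (N : ℕ) : Euc N →L[ℝ] (Euc N × Euc N) × ℝ :=
  (ContinuousLinearMap.inl ℝ (Euc N × Euc N) ℝ) ∘L (ContinuousLinearMap.inr ℝ (Euc N) (Euc N))

/-- the differential of `Exp_p` at `v` composed with the projection onto `T_p`, `q = (p, v)` -/
def LE (q : Euc N × Euc N) : Euc N →L[ℝ] Euc N :=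
  (ContinuousLinearMap.fst ℝ (Euc N) (Euc N)) ∘L (fderiv ℝ (fl G) (q, 1)) ∘L (iL N) ∘L (G.P q.1)

/-- auxiliary function for the Jacobian -/
def jaux (z : (Euc N →L[ℝ] Euc N) × (Euc N →L[ℝ] Euc N)) : ℝ :=
  Real.sqrt (ContinuousLinearMap.adjoint z.1 ∘L z.1 + (1 - z.2)).det

/-- **the Jacobian of the exponential map** `Exp_p : T_p → S` at `v`, `q = (p, v)` -/
def jE (q : Euc N × Euc N) : ℝ := jaux (LE G q, G.P q.1)

lemma jE_nonneg (q : Euc N × Euc N) : 0 ≤ jE G q := Real.sqrt_nonneg _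

lemma fderiv_Exp_eq {q : Euc N × Euc N} (hq : q ∈ TS G) (w : Euc N) :
    fderiv ℝ (Exp G q.1) q.2 w = (fderiv ℝ (fl G) (q, 1) (iL N w)).1 := by
  have h1 := ((contDiffAt_fl' G hq 1).differentiableAt (by simp)).hasFDerivAt
  have h2 : HasFDerivAt (fun v : Euc N => (((q.1, v), (1 : ℝ)) : (Euc N × Euc N) × ℝ)) (iL N) q.2 := by
    have h3 : HasFDerivAt (fun v : Euc N => ((q.1, v) : Euc N × Euc N))
        (ContinuousLinearMap.inr ℝ (Euc N) (Euc N)) q.2 :=
      (hasFDerivAt_const q.1 q.2).prodMk (hasFDerivAt_id q.2)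
    exact h3.prodMk (hasFDerivAt_const (1 : ℝ) q.2)
  have h3 : HasFDerivAt (fun v : Euc N => fl G ((q.1, v), 1))
      ((fderiv ℝ (fl G) (q, 1)).comp (iL N)) q.2 :=
    HasFDerivAt.comp (g := fl G) (f := fun v : Euc N => (((q.1, v), (1 : ℝ)) : (Euc N × Euc N) × ℝ))
      q.2 h1 h2
  have h4 : HasFDerivAt (Exp G q.1) ((ContinuousLinearMap.fst ℝ (Euc N) (Euc N)).comp
      ((fderiv ℝ (fl G) (q, 1)).comp (iL N))) q.2 :=
    (ContinuousLinearMap.fst ℝ (Euc N) (Euc N)).hasFDerivAt.comp q.2 h3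
  rw [h4.fderiv]
  rfl

/-- the Jacobian through an isometric frame -/
theorem jE_eq {q : Euc N × Euc N} (hq : q ∈ TS G) (A : Euc n →L[ℝ] Euc N)
    (hA : ∀ v w, ⟪A v, A w⟫ = ⟪v, w⟫) (hAT : range A = (G.T q.1 : Set (Euc N))) :
    jE G q = jac ((fderiv ℝ (Exp G q.1) q.2).comp A) := by
  have hAA : ContinuousLinearMap.adjoint A ∘L A = 1 := by
    ext1 v
    refine ext_inner_right ℝ fun w => ?_
    rw [ContinuousLinearMap.comp_apply, ContinuousLinearMap.adjoint_inner_left, hA]
    rfl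
  have hmem : ∀ v, A v ∈ G.T q.1 := fun v => by
    have : A v ∈ (G.T q.1 : Set (Euc N)) := by rw [← hAT]; exact ⟨v, rfl⟩
    exact this
  have hP : G.P q.1 = A ∘L ContinuousLinearMap.adjoint A := by
    rw [G.P_eq q.1 hq.1]
    ext1 t
    apply Submodule.eq_starProjection_of_mem_of_inner_eq_zero
    · exact hmem _
    · intro w hw
      have hw' : w ∈ (G.T q.1 : Set (Euc N)) := hw
      rw [← hAT] at hw'
      obtain ⟨y, rfl⟩ := hw'
      rw [ContinuousLinearMap.comp_apply, inner_sub_left, hA,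
        ← ContinuousLinearMap.adjoint_inner_left, sub_self]
  have hL : LE G q ∘L G.P q.1 = LE G q := by
    ext1 z
    simp only [LE, ContinuousLinearMap.comp_apply, P_idem G hq.1]
  have h1 := det_gram_frame (LE G q) (G.P q.1) A hAA hP hL
  have h2 : LE G q ∘L A = (fderiv ℝ (Exp G q.1) q.2).comp A := by
    ext1 v
    rw [ContinuousLinearMap.comp_apply, ContinuousLinearMap.comp_apply, fderiv_Exp_eq G hq]
    simp only [LE, ContinuousLinearMap.comp_apply, (P_eq_self G hq.1).1 (hmem v)]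
    rfl
  rw [h2] at h1
  unfold jE jaux
  simp only
  rw [h1, Real.sqrt_sq (jac_nonneg _)]

lemma contDiffAt_P1 (q : Euc N × Euc N) : ContDiffAt ℝ ∞ (fun q : Euc N × Euc N => G.P q.1) q :=
  (G.contDiff_P.comp contDiff_fst).contDiffAt

lemma continuous_adjoint : Continuous (fun L : Euc N →L[ℝ] Euc N => ContinuousLinearMap.adjoint L) :=
  (ContinuousLinearMap.adjoint : (Euc N →L[ℝ] Euc N) ≃ₗᵢ⋆[ℝ] (Euc N →L[ℝ] Euc N)).continuous

lemma continuous_jaux : Continuous (jaux (N := N)) := by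
  unfold jaux
  refine Real.continuous_sqrt.comp (ContinuousLinearMap.continuous_det.comp ?_)
  refine Continuous.add ?_ (continuous_const.sub continuous_snd)
  exact (continuous_adjoint.comp continuous_fst).clm_comp continuous_fst

lemma measurable_LE : Measurable (LE G) := by
  have h1 : Measurable fun q : Euc N × Euc N => fderiv ℝ (fl G) (q, (1 : ℝ)) :=
    (measurable_fderiv ℝ (fl G)).comp (measurable_id.prodMk measurable_const)
  have h2 : Measurable fun q : Euc N × Euc N => G.P q.1 :=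
    (G.contDiff_P.continuous.comp continuous_fst).measurable
  have h3 : Continuous fun z : ((Euc N × Euc N) × ℝ →L[ℝ] Euc N × Euc N) × (Euc N →L[ℝ] Euc N) =>
      (ContinuousLinearMap.fst ℝ (Euc N) (Euc N)) ∘L z.1 ∘L (iL N) ∘L z.2 := by
    fun_prop
  exact h3.measurable.comp (h1.prodMk h2)

/-- the Jacobian is a Borel function on `ℝ^N × ℝ^N` -/
lemma measurable_jE : Measurable (jE G) := by
  have h2 : Measurable fun q : Euc N × Euc N => G.P q.1 :=
    (G.contDiff_P.continuous.comp continuous_fst).measurable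
  exact (continuous_jaux (N := N)).measurable.comp ((measurable_LE G).prodMk h2)

/-- the Jacobian is continuous at the points of the tangent bundle -/
lemma continuousAt_jE {q : Euc N × Euc N} (hq : q ∈ TS G) : ContinuousAt (jE G) q := by
  have h1 : ContinuousAt (fderiv ℝ (fl G)) (q, (1 : ℝ)) :=
    ((contDiffAt_fl' G hq 1).fderiv_right (m := ∞) (by simp)).continuousAt
  have h2 : ContinuousAt (fun q : Euc N × Euc N => fderiv ℝ (fl G) (q, (1 : ℝ))) q :=
    ContinuousAt.comp (f := fun q : Euc N × Euc N => (q, (1 : ℝ))) h1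
      (continuous_id.prodMk continuous_const).continuousAt
  have h3 : ContinuousAt (fun q : Euc N × Euc N => G.P q.1) q :=
    (G.contDiff_P.continuous.comp continuous_fst).continuousAt
  have h4 : Continuous fun z : ((Euc N × Euc N) × ℝ →L[ℝ] Euc N × Euc N) × (Euc N →L[ℝ] Euc N) =>
      (ContinuousLinearMap.fst ℝ (Euc N) (Euc N)) ∘L z.1 ∘L (iL N) ∘L z.2 := by
    fun_prop
  have h5 : ContinuousAt (LE G) q :=
    ContinuousAt.comp (f := fun q : Euc N × Euc N => (fderiv ℝ (fl G) (q, (1 : ℝ)), G.P q.1))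
      h4.continuousAt (h2.prodMk h3)
  exact ContinuousAt.comp (f := fun q : Euc N × Euc N => (LE G q, G.P q.1)) (g := jaux)
    continuous_jaux.continuousAt (h5.prodMk h3)

/-- existence of isometric frames -/
lemma exists_frame {p : Euc N} (hp : p ∈ S) : ∃ A : Euc n →L[ℝ] Euc N,
    (∀ v w, ⟪A v, A w⟫ = ⟪v, w⟫) ∧ range A = (G.T p : Set (Euc N)) := by
  let e : Euc n ≃ₗᵢ[ℝ] G.T p :=
    ((stdOrthonormalBasis ℝ (G.T p)).reindex (finCongr (G.finrank_T p hp))).repr.symm
  refine ⟨(G.T p).subtypeL.comp e.toContinuousLinearEquiv.toContinuousLinearMap,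
    fun v w => e.inner_map_map v w, ?_⟩
  ext u
  constructor
  · rintro ⟨y, rfl⟩
    exact (e y).2
  · intro hu
    refine ⟨e.symm ⟨u, hu⟩, ?_⟩
    show ((e (e.symm ⟨u, hu⟩) : G.T p) : Euc N) = u
    rw [LinearIsometryEquiv.apply_symm_apply]

/-- **polar coordinates on `S`** -/
theorem vol_polar (hn : 1 ≤ n) {p : Euc N} (hp : p ∈ S) {D : ℝ}
    (hinj : InjOn (Exp G p) {v | v ∈ G.T p ∧ ‖v‖ < D})
    (hsurj : ∀ q ∈ S, ∃ v ∈ G.T p, ‖v‖ ≤ D ∧ Exp G p v = q) :
    μHE[n] S = ∫⁻ u, ∫⁻ t in Ioo 0 D, ENNReal.ofReal (t ^ (n - 1) * jE G (p, t • u))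
      ∂volume ∂(nuF G p) := by
  have hV := nontrivial_Euc hn
  obtain ⟨A, hA, hAT⟩ := exists_frame G hp
  have hnA : ∀ y, ‖A y‖ = ‖y‖ := by
    intro y
    have h3 : ‖A y‖ ^ 2 = ‖y‖ ^ 2 := by
      rw [← real_inner_self_eq_norm_sq, ← real_inner_self_eq_norm_sq, hA]
    exact (sq_eq_sq₀ (norm_nonneg _) (norm_nonneg _)).1 h3
  have hmem : ∀ v, A v ∈ G.T p := fun v => by
    have : A v ∈ (G.T p : Set (Euc N)) := by rw [← hAT]; exact ⟨v, rfl⟩
    exact this
  have hAinj : ∀ v w, A v = A w → v = w := fun v w h => by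
    have h1 : ‖A (v - w)‖ = 0 := by rw [map_sub, h, sub_self, norm_zero]
    rw [hnA, norm_eq_zero, sub_eq_zero] at h1
    exact h1
  set Φ : Euc n → Euc N := fun y => Exp G p (A y) with hΦ
  have hd : ∀ y, HasFDerivAt Φ ((fderiv ℝ (Exp G p) (A y)).comp A) y := by
    intro y
    have h1 : ContDiffAt ℝ ∞ (Exp G p) (A y) := by
      have h2 : ContDiffAt ℝ ∞ (fun u : Euc N => (p, u)) (A y) := by fun_prop
      exact ContDiffAt.comp (g := fun q : Euc N × Euc N => Exp G q.1 q.2) (A y)
        (contDiffAt_Exp G hp (hmem y)) h2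
    exact (h1.differentiableAt (by simp)).hasFDerivAt.comp y A.hasFDerivAt
  -- measure of `S`
  have h1 : S = Φ '' ball 0 D ∪ Φ '' sphere 0 D := by
    apply Subset.antisymm
    · intro q hq
      obtain ⟨v, hv, hvD, rfl⟩ := hsurj q hq
      have hv' : v ∈ (G.T p : Set (Euc N)) := hv
      rw [← hAT] at hv'
      obtain ⟨y, rfl⟩ := hv'
      rw [hnA] at hvD
      rcases lt_or_eq_of_le hvD with h | h
      · exact Or.inl ⟨y, mem_ball_zero_iff.2 h, rfl⟩
      · exact Or.inr ⟨y, mem_sphere_zero_iff_norm.2 h, rfl⟩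
    · rintro _ (⟨y, -, rfl⟩ | ⟨y, -, rfl⟩)
      · exact Exp_mem G hp (hmem y)
      · exact Exp_mem G hp (hmem y)
  have h2 : μHE[n] (Φ '' sphere 0 D) = 0 := by
    have h3 := AF.muHE_image_null (f := Φ) (s := sphere (0 : Euc n) D)
      (fun y _ => (hd y).differentiableAt.differentiableWithinAt) (addHaar_sphere _ _ _)
    rwa [finrank_Euc] at h3
  have h3 : μHE[n] S = μHE[n] (Φ '' ball 0 D) := by
    apply le_antisymm
    · conv_lhs => rw [h1]
      refine (measure_union_le _ _).trans ?_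
      rw [h2, add_zero]
    · exact measure_mono (by conv_rhs => rw [h1]
                             exact subset_union_left)
  have hinjΦ : InjOn Φ (ball 0 D) := by
    intro y hy y' hy' h
    apply hAinj
    refine hinj ⟨hmem y, ?_⟩ ⟨hmem y', ?_⟩ h
    · rw [hnA]; exact mem_ball_zero_iff.1 hy
    · rw [hnA]; exact mem_ball_zero_iff.1 hy'
  have h4 := AF.lintegral_jac_eq_muHE_image (f := Φ) measurableSet_ball
    (fun y _ => (hd y).hasFDerivWithinAt) hinjΦ
  rw [finrank_Euc] at h4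
  rw [h3, ← h4]
  -- polar coordinates
  have hj : ∀ y, jac ((fderiv ℝ (Exp G p) (A y)).comp A) = jE G (p, A y) := fun y =>
    (jE_eq G (q := (p, A y)) ⟨hp, hmem y⟩ A hA hAT).symm
  simp only [hj]
  have hm0 : Measurable fun v : Euc N => ENNReal.ofReal (jE G (p, v)) :=
    ENNReal.measurable_ofReal.comp ((measurable_jE G).comp measurable_prodMk_left)
  have hm : Measurable ((ball (0 : Euc n) D).indicator fun y => ENNReal.ofReal (jE G (p, A y))) :=
    (hm0.comp A.continuous.measurable).indicator measurableSet_ball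
  rw [← lintegral_indicator measurableSet_ball, lintegral_polar hm hV,
    nuF_eq G hn hp A hA hAT, lintegral_map]
  · refine lintegral_congr fun u => ?_
    have hu : ‖(u : Euc n)‖ = 1 := mem_sphere_zero_iff_norm.1 u.2
    rw [finrank_Euc, ← lintegral_indicator measurableSet_Ioi,
      ← lintegral_indicator measurableSet_Ioo]
    refine lintegral_congr fun r => ?_
    by_cases hr : r ∈ Ioo 0 D
    · have hr1 : r ∈ Ioi (0 : ℝ) := hr.1
      have hr2 : r • (u : Euc n) ∈ ball (0 : Euc n) D := by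
        rw [mem_ball_zero_iff, norm_smul, hu, mul_one, Real.norm_of_nonneg (le_of_lt hr.1)]
        exact hr.2
      rw [indicator_of_mem hr1, indicator_of_mem hr2, indicator_of_mem hr,
        ENNReal.ofReal_mul (pow_nonneg (le_of_lt hr.1) _), map_smul]
    · rw [indicator_of_notMem hr]
      by_cases hr1 : r ∈ Ioi (0 : ℝ)
      · have hr2 : r • (u : Euc n) ∉ ball (0 : Euc n) D := by
          rw [mem_ball_zero_iff, norm_smul, hu, mul_one, Real.norm_of_nonneg (le_of_lt hr1)]
          exact fun h => hr ⟨hr1, h⟩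
        rw [indicator_of_mem hr1, indicator_of_notMem hr2, mul_zero]
      · rw [indicator_of_notMem hr1]
  · refine Measurable.lintegral_prod_right' (f := fun z : Euc N × ℝ =>
      ENNReal.ofReal (z.2 ^ (n - 1) * jE G (p, z.2 • z.1))) ?_
    refine ENNReal.measurable_ofReal.comp ((measurable_snd.pow_const _).mul ?_)
    exact (measurable_jE G).comp (measurable_const.prodMk (measurable_snd.smul measurable_fst))
  · exact A.continuous.measurable.comp measurable_subtype_coe

/-- **the square of the volume as an integral over the unit tangent bundle** -/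
theorem vol_sq (hn : 1 ≤ n) {D : ℝ}
    (hinj : ∀ p ∈ S, InjOn (Exp G p) {v | v ∈ G.T p ∧ ‖v‖ < D})
    (hsurj : ∀ p ∈ S, ∀ q ∈ S, ∃ v ∈ G.T p, ‖v‖ ≤ D ∧ Exp G p v = q) :
    μHE[n] S * μHE[n] S = ∫⁻ q, ∫⁻ t in Ioo 0 D,
      ENNReal.ofReal (t ^ (n - 1) * jE G (q.1, t • q.2)) ∂volume ∂(nu G) := by
  have hm : Measurable fun q : Euc N × Euc N => ∫⁻ t in Ioo 0 D,
      ENNReal.ofReal (t ^ (n - 1) * jE G (q.1, t • q.2)) := by
    refine Measurable.lintegral_prod_right' (f := fun z : (Euc N × Euc N) × ℝ =>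
      ENNReal.ofReal (z.2 ^ (n - 1) * jE G (z.1.1, z.2 • z.1.2))) ?_
    refine ENNReal.measurable_ofReal.comp ((measurable_snd.pow_const _).mul ?_)
    exact (measurable_jE G).comp ((measurable_fst.comp measurable_fst).prodMk
      (measurable_snd.smul (measurable_snd.comp measurable_fst)))
  rw [lintegral_nu G hm]
  have h1 : ∀ p ∈ S, ∫⁻ u, ∫⁻ t in Ioo 0 D, ENNReal.ofReal (t ^ (n - 1) * jE G (p, t • u))
      ∂volume ∂(nuF G p) = μHE[n] S := fun p hp =>
    (vol_polar G hn hp (hinj p hp) (hsurj p hp)).symm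
  rw [setLIntegral_congr_fun G.isClosed.measurableSet h1, setLIntegral_const]

end Crest.Agent.R208.L
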