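import Crest.Agent.R208.J5
import Crest.Agent.R208.G3
import Crest.Agent.R208.L7

/-!
R208, block G4a/G6c (helper631), part 6: the density `Dn` and the Jacobian `jE` of block L; the
inequality for one closed geodesic and its equality case, in terms of `Dn`.
-/

set_option autoImplicit false
set_option linter.unusedSectionVars false

open Set Filter Topology Module
open scoped ContDiff RealInnerProductSpace
open Crest.GeometryTopology.Submanifold
open Crest.Agent.R241.DDefs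
open Crest.Agent.R241.D2

noncomputable section

namespace Crest.Agent.R208.J

variable {n N : ℕ} {κ : ℝ} {S : Set (Euc N)} {G : Geo n N κ S} {q : Euc N × Euc N}

/-- the Jacobian of block L in polar coordinates is the density `Dn`. -/
theorem jE_polar (hq : q ∈ TS G) (h1 : ‖q.2‖ = 1) {t : ℝ} (ht : 0 < t) :
    t ^ (n - 1) * L.jE G (q.1, t • q.2) = Dn G q 0 t := by
  obtain ⟨β, hβ⟩ := exists_frame G hq.1
  have hq2 : q.2 ∈ LinearMap.range β.toLinearMap := by rw [hβ]; exact hq.2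
  obtain ⟨u, hu⟩ := hq2
  have hu' : β u = q.2 := hu
  have hu1 : ‖u‖ = 1 := by rw [← β.norm_map, hu', h1]
  have h2 := jac_Exp (G := G) hq.1 β hβ hu1 ht
  rw [hu'] at h2
  have h3 : L.jE G (q.1, t • q.2) =
      Crest.Agent.R241.AF.jac ((fderiv ℝ (Exp G q.1) (t • q.2)).comp β.toContinuousLinearMap) := by
    refine L.jE_eq G (q := (q.1, t • q.2)) ⟨hq.1, (G.T q.1).smul_mem t hq.2⟩ _
      (fun v w => β.inner_map_map v w) ?_
    rw [← hβ]
    rfl
  have h4 : HasFDerivAt (Exp G q.1) (fderiv ℝ (Exp G q.1) (t • q.2)) (β (t • u)) := by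
    have := ((Crest.Agent.R241.D3c.contDiffAt_Exp' G hq.1
      ((G.T q.1).smul_mem t hq.2)).differentiableAt (by simp)).hasFDerivAt
    rwa [map_smul, hu']
  have h5 : fderiv ℝ (fun x => Exp G q.1 (β x)) (t • u) =
      (fderiv ℝ (Exp G q.1) (t • q.2)) ∘L β.toContinuousLinearMap :=
    (h4.comp (t • u) β.toContinuousLinearMap.hasFDerivAt).fderiv
  rw [h3, ← h5, mul_comm, h2]

/-- **the volume inequality for one closed geodesic** -/
theorem core_geodesic (hcore : Crest.Agent.R208.N.CoreStmt) {a : ℕ} (hper : HS.Per G)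
    (hnc : ∀ z ∈ TS G, ‖z.2‖ = 1 → ∀ t, 0 < t → t < Real.pi → ∀ w ∈ G.T z.1,
      fderiv ℝ (Exp G z.1) (t • z.2) w = 0 → w = 0)
    (hmult : ∀ z ∈ TS G, ‖z.2‖ = 1 → finrank ℝ
      (G.T z.1 ⊓ LinearMap.ker (fderiv ℝ (Exp G z.1) (Real.pi • z.2)).toLinearMap :
        Submodule ℝ (Euc N)) = a)
    (hq : q ∈ TS G) (h1 : ‖q.2‖ = 1) {u : ℝ} (hu : 0 < u) (hu' : u < Real.pi) :
    (a : ℝ) * Real.log (Real.sin u) + ((n - 1 - a : ℕ) : ℝ) * Real.log (2 * Real.sin (u / 2)) ≤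
      (1 / (2 * Real.pi)) * ∫ s in (0 : ℝ)..(2 * Real.pi), Real.log (Dn G (fl G (q, s)) 0 u) := by
  obtain ⟨b⟩ := exists_basis (m := n - 1) (by have := finrank_Vp hq h1; omega) hq h1
  have h2 := hcore (n - 1) a (jLoop hper hnc hmult hq h1 b) u hu hu'
  have h3 : ∀ s, |((jLoop hper hnc hmult hq h1 b).A s (s + u)).det| = Dn G (fl G (q, s)) 0 u :=
    fun s => abs_det_jLoop hq h1 b s u
  simp only [h3] at h2
  exact h2

/-- **the equality case for one closed geodesic** -/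
theorem polar_of_eq (heq : Crest.Agent.R208.N.EqStmt) {a : ℕ} (hper : HS.Per G)
    (hnc : ∀ z ∈ TS G, ‖z.2‖ = 1 → ∀ t, 0 < t → t < Real.pi → ∀ w ∈ G.T z.1,
      fderiv ℝ (Exp G z.1) (t • z.2) w = 0 → w = 0)
    (hmult : ∀ z ∈ TS G, ‖z.2‖ = 1 → finrank ℝ
      (G.T z.1 ⊓ LinearMap.ker (fderiv ℝ (Exp G z.1) (Real.pi • z.2)).toLinearMap :
        Submodule ℝ (Euc N)) = a)
    (hq : q ∈ TS G) (h1 : ‖q.2‖ = 1)
    (h : ∀ u : ℝ, 0 < u → u < Real.pi →
      (1 / (2 * Real.pi)) * ∫ s in (0 : ℝ)..(2 * Real.pi), Real.log (Dn G (fl G (q, s)) 0 u) =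
      (a : ℝ) * Real.log (Real.sin u) +
        ((n - 1 - a : ℕ) : ℝ) * Real.log (2 * Real.sin (u / 2))) :
    HS.PolarAt G q.1 q.2 := by
  obtain ⟨b⟩ := exists_basis (m := n - 1) (by have := finrank_Vp hq h1; omega) hq h1
  have h3 : ∀ s u, |((jLoop hper hnc hmult hq h1 b).A s (s + u)).det| =
      Dn G (fl G (q, s)) 0 u := fun s u => abs_det_jLoop hq h1 b s u
  obtain ⟨P, hPt, hPP, -, hA⟩ := heq (n - 1) a (jLoop hper hnc hmult hq h1 b) (by
    intro u hu hu'
    simp only [h3]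
    exact h u hu hu') 0
  refine polarAt hq h1 b hPt hPP fun u hu hu' => ?_
  have := hA u hu hu'
  rw [zero_add] at this
  exact this

end Crest.Agent.R208.J
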