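import Crest.Agent.R208.K5

/-!
R208 (Blaschke), block G5, file K6: `U1` is closed in the unit tangent bundle, hence everything.
-/

set_option autoImplicit false

open Set Filter Topology
open scoped ContDiff RealInnerProductSpace
open Crest.GeometryTopology.Submanifold
open Crest.Agent.R241.DDefs
open Crest.Agent.R241.D2
open Crest.Agent.R241.D3b
open Crest.Agent.R241.D3c

noncomputable section

namespace Crest.Agent.R208.K

variable {n N : ℕ} {κ : ℝ} {S : Set (Euc N)} {G : Geo n N κ S} {D : ℝ}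

lemma tendsto_apply {E F : Type*} [NormedAddCommGroup E] [NormedSpace ℝ E]
    [NormedAddCommGroup F] [NormedSpace ℝ F] {A : ℕ → E →L[ℝ] F} {A0 : E →L[ℝ] F} {b : ℕ → E}
    {b0 : E} (hA : Tendsto A atTop (𝓝 A0)) (hb : Tendsto b atTop (𝓝 b0)) :
    Tendsto (fun j => A j (b j)) atTop (𝓝 (A0 b0)) :=
  ((isBoundedBilinearMap_apply (𝕜 := ℝ) (E := E) (F := F)).continuous.tendsto (A0, b0)).comp
    (hA.prodMk_nhds hb)

/-- joint continuity of the derivative of `Exp`. -/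
lemma tendsto_fderiv_Exp {q w b : ℕ → Euc N} {q0 w0 b0 : Euc N} (hq0 : q0 ∈ S)
    (hw0 : w0 ∈ G.T q0) (hq : ∀ j, q j ∈ S) (hw : ∀ j, w j ∈ G.T (q j))
    (hql : Tendsto q atTop (𝓝 q0)) (hwl : Tendsto w atTop (𝓝 w0))
    (hbl : Tendsto b atTop (𝓝 b0)) :
    Tendsto (fun j => fderiv ℝ (Exp G (q j)) (w j) (b j)) atTop
      (𝓝 (fderiv ℝ (Exp G q0) w0 b0)) := by
  set F : Euc N × Euc N → Euc N := fun x => Exp G x.1 x.2 with hF
  have hkey : ∀ (x y c : Euc N), x ∈ S → y ∈ G.T x →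
      fderiv ℝ (Exp G x) y c = fderiv ℝ F (x, y) (0, c) := by
    intro x y c hx hy
    have h1 : HasFDerivAt F (fderiv ℝ F (x, y)) (x, y) :=
      ((contDiffAt_Exp G hx hy).differentiableAt (by simp)).hasFDerivAt
    have h2 : HasFDerivAt (fun u : Euc N => ((x, u) : Euc N × Euc N))
        (ContinuousLinearMap.inr ℝ (Euc N) (Euc N)) y := hasFDerivAt_prodMk_right x y
    have h3 : HasFDerivAt (Exp G x) ((fderiv ℝ F (x, y)).comp
        (ContinuousLinearMap.inr ℝ (Euc N) (Euc N))) y := h1.comp y h2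
    rw [h3.fderiv]
    rfl
  have h1 : ContinuousAt (fderiv ℝ F) (q0, w0) :=
    ((contDiffAt_Exp G hq0 hw0).fderiv_right (m := 0) (by simp)).continuousAt
  have h2 : Tendsto (fun j => fderiv ℝ F (q j, w j)) atTop (𝓝 (fderiv ℝ F (q0, w0))) :=
    h1.tendsto.comp (hql.prodMk_nhds hwl)
  have h3 : Tendsto (fun j => ((0 : Euc N), b j)) atTop (𝓝 (0, b0)) :=
    tendsto_const_nhds.prodMk_nhds hbl
  have h4 := tendsto_apply h2 h3
  rw [hkey _ _ _ hq0 hw0]
  exact h4.congr fun j => (hkey _ _ _ (hq j) (hw j)).symm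

lemma isClosed_Zs : IsClosed (Zs G D) := by
  refine isSeqClosed_iff_isClosed.1 fun z z0 hz hlim => ?_
  have hz0 : z0 ∈ US G :=
    (isClosed_US G).mem_of_tendsto hlim (Eventually.of_forall fun j => (hz j).1)
  refine ⟨hz0, fun b hb hb0 => ?_⟩
  have h1 : Tendsto (fun j => (z j).1) atTop (𝓝 z0.1) := (continuous_fst.tendsto _).comp hlim
  have h2 : Tendsto (fun j => (z j).2) atTop (𝓝 z0.2) := (continuous_snd.tendsto _).comp hlim
  have hPb : Tendsto (fun j => G.P (z j).1 b) atTop (𝓝 b) := by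
    have h3 : Tendsto (fun j => G.P (z j).1) atTop (𝓝 (G.P z0.1)) :=
      (G.contDiff_P.continuous.tendsto _).comp h1
    have h4 := tendsto_apply h3 (tendsto_const_nhds (x := b))
    rwa [(P_eq_self G hz0.1.1).1 hb] at h4
  set c : ℕ → Euc N := fun j => G.P (z j).1 b - ⟪G.P (z j).1 b, (z j).2⟫ • (z j).2 with hc
  have hcl : Tendsto c atTop (𝓝 b) := by
    have h4 : Tendsto (fun j => ⟪G.P (z j).1 b, (z j).2⟫) atTop (𝓝 ⟪b, z0.2⟫) := hPb.inner h2
    have h3 := hPb.sub (h4.smul h2)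
    rwa [hb0, zero_smul, sub_zero] at h3
  have hcT : ∀ j, c j ∈ G.T (z j).1 := fun j =>
    (G.T _).sub_mem (P_mem G (hz j).1.1.1) ((G.T _).smul_mem _ (hz j).1.1.2)
  have hc0 : ∀ j, ⟪c j, (z j).2⟫ = 0 := by
    intro j
    rw [hc]
    simp only
    rw [inner_sub_left, inner_smul_left, real_inner_self_eq_norm_sq, (hz j).1.2]
    simp
  have h5 := tendsto_fderiv_Exp (G := G) hz0.1.1 ((G.T _).smul_mem (2 * D) hz0.1.2)
    (fun j => (hz j).1.1.1) (fun j => (G.T _).smul_mem (2 * D) (hz j).1.1.2) h1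
    (h2.const_smul (2 * D)) hcl
  exact tendsto_nhds_unique (h5.congr fun j => (hz j).2 (c j) (hcT j) (hc0 j))
    tendsto_const_nhds |>.symm ▸ rfl

namespace Hyp

/-- `U1` is closed. -/
lemma U1_closed (H : Hyp G D) (hmc : MultConst G D) {k : ℕ}
    (hmin : ∀ z ∈ US G, k ≤ Module.finrank ℝ (lin (G.T z.1) (Lk G D z.1 (ep G D z))))
    {z : Euc N × Euc N} (hz : z ∈ closure (U1 G D k)) : z ∈ U1 G D k := by
  have hzU : z ∈ US G := by
    have := closure_minimal (fun x hx => hx.1 : U1 G D k ⊆ US G) (isClosed_US G)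
    exact this hz
  have hsub : U1 G D k ⊆ Zs G D := fun x hx => H.U1_sub_Zs hmin hx
  have hzZ : z ∈ Zs G D := closure_minimal hsub isClosed_Zs hz
  have h1 := hmc z hzZ
  have h2 : ∃ z' ∈ U1 G D k, mult G D z' = mult G D z := by
    have h3 : (𝓝[U1 G D k] z).NeBot := mem_closure_iff_nhdsWithin_neBot.1 hz
    have h4 : ∀ᶠ z' in 𝓝[U1 G D k] z, mult G D z' = mult G D z :=
      h1.filter_mono (nhdsWithin_mono _ hsub)
    obtain ⟨z', h5, h6⟩ := (h4.and self_mem_nhdsWithin).exists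
    exact ⟨z', h6, h5⟩
  obtain ⟨z', hz', he⟩ := h2
  have h3 := H.mult_U1 hmc hmin hz'
  refine ⟨hzU, ?_⟩
  rintro ⟨e, heo, heL⟩
  have h4 := H.card_le_mult hzU.1.1 (ep_mem hzU) (mem_lk_self hzU) heo heL
  have h5 : mult G D (z.1, z.2) = mult G D z := rfl
  omega

/-- preconnected subsets of the unit tangent bundle meeting `U1` are contained in `U1`. -/
lemma preconnected_sub (H : Hyp G D) (hmc : MultConst G D) {k : ℕ}
    (hmin : ∀ z ∈ US G, k ≤ Module.finrank ℝ (lin (G.T z.1) (Lk G D z.1 (ep G D z))))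
    {s : Set (Euc N × Euc N)} (hs : IsPreconnected s) (hsU : s ⊆ US G)
    (hne : (s ∩ U1 G D k).Nonempty) : s ⊆ U1 G D k := by
  set B := {z | z ∈ US G ∧ Star.Bad k (Lk G D z.1 (ep G D z))} with hB
  have hBc : IsOpen Bᶜ := (H.bad_closed (k := k)).isOpen_compl
  have hcl : IsOpen (closure (U1 G D k))ᶜ := isClosed_closure.isOpen_compl
  by_contra hcon
  obtain ⟨x, hxs, hxU⟩ := Set.not_subset.1 hcon
  obtain ⟨y, hys, hyU⟩ := hne
  have h1 := hs Bᶜ (closure (U1 G D k))ᶜ hBc hcl (fun a ha => by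
      by_cases haU : a ∈ U1 G D k
      · exact Or.inl fun h => haU.2 h.2
      · exact Or.inr fun h => haU (H.U1_closed hmc hmin h))
    ⟨y, hys, fun h => hyU.2 h.2⟩ ⟨x, hxs, fun h => hxU (H.U1_closed hmc hmin h)⟩
  obtain ⟨a, has, ha1, ha2⟩ := h1
  exact ha2 (subset_closure ⟨hsU has, fun h => ha1 ⟨hsU has, h⟩⟩)

lemma orbit_sub (H : Hyp G D) (hmc : MultConst G D) {k : ℕ}
    (hmin : ∀ z ∈ US G, k ≤ Module.finrank ℝ (lin (G.T z.1) (Lk G D z.1 (ep G D z))))
    {z : Euc N × Euc N} (hz : z ∈ U1 G D k) (t : ℝ) : fl G (z, t) ∈ U1 G D k := by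
  have hcont : Continuous fun s : ℝ => fl G (z, s) :=
    continuous_iff_continuousAt.2 fun s => (hasDerivAt_fl' G hz.1.1 s).continuousAt
  have h1 := H.preconnected_sub hmc hmin (isPreconnected_range hcont)
    (by rintro _ ⟨s, rfl⟩; exact fl_US G hz.1 s) ⟨z, ⟨0, fl_zero G z⟩, hz⟩
  exact h1 ⟨t, rfl⟩

lemma sphere_sub (H : Hyp G D) (hmc : MultConst G D) {k : ℕ}
    (hmin : ∀ z ∈ US G, k ≤ Module.finrank ℝ (lin (G.T z.1) (Lk G D z.1 (ep G D z))))
    (hk : 1 ≤ k) {p v w : Euc N} (hp : p ∈ S) (hv : ((p, v) : Euc N × Euc N) ∈ U1 G D k)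
    (hw : w ∈ G.T p) (hwn : ‖w‖ = 1) : ((p, w) : Euc N × Euc N) ∈ U1 G D k := by
  have hfin := G.finrank_T p hp
  have hwU : ((p, w) : Euc N × Euc N) ∈ US G := ⟨⟨hp, hw⟩, hwn⟩
  rcases Nat.lt_or_ge 1 n with hn | hn
  · -- the unit sphere of the tangent space is connected
    have hrank : 1 < Module.rank ℝ (G.T p) := by
      rw [← Module.finrank_eq_rank, hfin]
      exact_mod_cast hn
    have h1 : IsPreconnected (Metric.sphere (0 : G.T p) 1) :=
      (isConnected_sphere hrank (0 : G.T p) zero_le_one).isPreconnected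
    have h2 : Continuous fun x : G.T p => ((p, (x : Euc N)) : Euc N × Euc N) := by fun_prop
    have h3 := h1.image _ h2.continuousOn
    have h4 := H.preconnected_sub hmc hmin h3 (by
        rintro _ ⟨x, hx, rfl⟩
        rw [mem_sphere_zero_iff_norm] at hx
        exact ⟨⟨hp, x.2⟩, hx⟩)
      ⟨(p, v), ⟨⟨v, hv.1.1.2⟩, by rw [mem_sphere_zero_iff_norm]; exact hv.1.2, rfl⟩, hv⟩
    exact h4 ⟨⟨w, hw⟩, by rw [mem_sphere_zero_iff_norm]; exact hwn, rfl⟩
  · -- dimension one: no two orthonormal vectors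
    refine ⟨hwU, ?_⟩
    rintro ⟨e, heo, heL⟩
    have h1 := card_le_of_orthonormal heo (L := G.T p) fun i => (heL i).1
    rw [hfin] at h1
    omega

/-- everything is in `U1`. -/
lemma all_U1 (H : Hyp G D) (hmc : MultConst G D) {k : ℕ} (hk : 1 ≤ k)
    (hmin : ∀ z ∈ US G, k ≤ Module.finrank ℝ (lin (G.T z.1) (Lk G D z.1 (ep G D z))))
    (hne : (U1 G D k).Nonempty) {z : Euc N × Euc N} (hz : z ∈ US G) : z ∈ U1 G D k := by
  obtain ⟨⟨p0, v0⟩, hz0⟩ := hne
  have hp0 : p0 ∈ S := hz0.1.1.1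
  have hp : z.1 ∈ S := hz.1.1
  obtain ⟨w, hw, hwn, hwe⟩ := H.hr p0 hp0 z.1 hp
  have h1 := H.sphere_sub hmc hmin hk hp0 hz0 hw hwn
  have h2 := H.orbit_sub hmc hmin h1 (intrinsicDist S p0 z.1)
  set y := fl G ((p0, w), intrinsicDist S p0 z.1) with hy
  have h3 : ((z.1, y.2) : Euc N × Euc N) = y := Prod.ext hwe.symm rfl
  rw [← h3] at h2
  exact H.sphere_sub hmc hmin hk hp h2 hz.1.2 hz.2

/-- OUTPUT: all links are great spheres of the same dimension, all geodesics are closed, and the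
kernel of `dExp` at distance `D` is the tangent space of the link. -/
theorem links (H : Hyp G D) (hmc : MultConst G D) : ∃ k : ℕ, 1 ≤ k ∧ k ≤ n ∧
    (∀ z ∈ US G, fl G (z, 2 * D) = z) ∧
    (∀ p ∈ S, ∀ q ∈ S, intrinsicDist S p q = D → ∃ V : Submodule ℝ (Euc N), V ≤ G.T p ∧
      Module.finrank ℝ V = k ∧
      (∀ v : Euc N, (v ∈ V ∧ ‖v‖ = 1) ↔ (v ∈ G.T p ∧ ‖v‖ = 1 ∧ Exp G p (D • v) = q)) ∧
      (∀ v ∈ V, ‖v‖ = 1 → ∀ b : Euc N, (b ∈ G.T p ∧ fderiv ℝ (Exp G p) (D • v) b = 0) ↔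
        (b ∈ V ∧ ⟪v, b⟫ = 0))) ∧
    (∀ z ∈ US G, mult G D z + 1 = k) := by
  obtain ⟨k, hk, hmin, hne⟩ := H.exists_k
  have hall : ∀ z ∈ US G, z ∈ U1 G D k := fun z hz => H.all_U1 hmc hk hmin hne hz
  have hmult : ∀ z ∈ US G, mult G D z + 1 = k := fun z hz => H.mult_U1 hmc hmin (hall z hz)
  refine ⟨k, hk, ?_, fun z hz => H.periodic_of_U1 hmin (hall z hz), ?_, hmult⟩
  · obtain ⟨z, hz⟩ := hne
    have h1 := (H.linear_of_U1 hmin hz).1
    have h2 : lin (G.T z.1) (Lk G D z.1 (ep G D z)) ≤ G.T z.1 := inf_le_left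
    have h3 := Submodule.finrank_mono h2
    rwa [h1, G.finrank_T _ hz.1.1.1] at h3
  · intro p hp q hq hpq
    have hst : Star (G.T p) (Lk G D p q) := H.star hq hp (by rw [H.sym _ hq _ hp]; exact hpq)
    obtain ⟨u, hu, -⟩ := hst.star 0 (G.T _).zero_mem
    have hzU : ((p, u) : Euc N × Euc N) ∈ US G := lk_US hp hu
    have hepu : ep G D (p, u) = q := hu.2.2
    have hlin := H.linear_of_U1 hmin (hall _ hzU)
    have hlin1 : Module.finrank ℝ (lin (G.T p) (Lk G D p q)) = k := by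
      rw [← hepu]; exact hlin.1
    have hlin2 : ∀ u, u ∈ Lk G D p q ↔ u ∈ lin (G.T p) (Lk G D p q) ∧ ‖u‖ = 1 := by
      rw [← hepu]; exact hlin.2
    set V := lin (G.T p) (Lk G D p q) with hV
    have hVT : V ≤ G.T p := inf_le_left
    have hiff : ∀ v : Euc N, (v ∈ V ∧ ‖v‖ = 1) ↔ (v ∈ G.T p ∧ ‖v‖ = 1 ∧ Exp G p (D • v) = q) := by
      intro v
      rw [← hlin2 v]
      constructor
      · rintro ⟨h1, h2, h3⟩; exact ⟨h1, h2, by rw [Exp_smul G hp h1]; exact h3⟩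
      · rintro ⟨h1, h2, h3⟩; exact ⟨h1, h2, by rw [Exp_smul G hp h1] at h3; exact h3⟩
    refine ⟨V, hVT, hlin1, hiff, fun v hv hvn b => ?_⟩
    have hvL : v ∈ Lk G D p q := (hlin2 v).2 ⟨hv, hvn⟩
    have hvU : ((p, v) : Euc N × Euc N) ∈ US G := lk_US hp hvL
    have hepv : ep G D (p, v) = q := hvL.2.2
    have hle : Mk G D (p, v) ≤ V := by
      have := H.Mk_le hmc hmin (hall _ hvU)
      simp only [hepv] at this
      exact this
    have hin : ∀ c : Euc N, c ∈ Mk G D (p, v) → ⟪v, c⟫ = 0 := fun c hc =>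
      inner_of_Mk hvU H.hD hc
    -- dimension count
    set W : Submodule ℝ (Euc N) := V ⊓ (Submodule.span ℝ {v})ᗮ with hW
    have hMW : Mk G D (p, v) ≤ W := by
      intro c hc
      refine ⟨hle hc, ?_⟩
      rw [SetLike.mem_coe, Submodule.mem_orthogonal_singleton_iff_inner_right]
      exact hin c hc
    have hv0 : v ≠ 0 := by intro h; rw [h, norm_zero] at hvn; norm_num at hvn
    have hWdim : Module.finrank ℝ W ≤ mult G D (p, v) := by
      have h1 : W ⊓ Submodule.span ℝ {v} = ⊥ := by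
        rw [Submodule.eq_bot_iff]
        rintro x ⟨⟨-, hx1⟩, hx2⟩
        obtain ⟨a, rfl⟩ := Submodule.mem_span_singleton.1 hx2
        rw [SetLike.mem_coe, Submodule.mem_orthogonal_singleton_iff_inner_right,
          inner_smul_right, real_inner_self_eq_norm_sq, hvn] at hx1
        have ha : a = 0 := by simpa using hx1
        rw [ha, zero_smul]
      have h2 := Submodule.finrank_sup_add_finrank_inf_eq W (Submodule.span ℝ {v})
      rw [h1, finrank_bot, add_zero, finrank_span_singleton hv0] at h2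
      have h3 : W ⊔ Submodule.span ℝ {v} ≤ V :=
        sup_le inf_le_left ((Submodule.span_singleton_le_iff_mem _ _).2 hv)
      have h4 := Submodule.finrank_mono h3
      rw [h2, hlin1] at h4
      have h5 := hmult _ hvU
      omega
    have hEq : Mk G D (p, v) = W := Submodule.eq_of_le_of_finrank_le hMW hWdim
    constructor
    · rintro ⟨h1, h2⟩
      have h3 : b ∈ Mk G D (p, v) := ⟨h1, h2⟩
      exact ⟨hle h3, hin b h3⟩
    · rintro ⟨h1, h2⟩
      have h3 : b ∈ W := ⟨h1, by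
        rw [SetLike.mem_coe, Submodule.mem_orthogonal_singleton_iff_inner_right]; exact h2⟩
      rw [← hEq] at h3
      exact h3

end Hyp

end Crest.Agent.R208.K
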