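import Crest.Agent.R208.I4
import Crest.Agent.R208.I5
import Crest.Agent.R208.J6
import Crest.Agent.R208.HS4
import Crest.Agent.R208.K6

/-!
R208, block G6b (helper499), file 2: the global inequality `vol S ≥ vol (model)` and the equality
case, for Blaschke data.
-/

set_option autoImplicit false
set_option linter.unusedSectionVars false

open MeasureTheory Measure Set Filter Topology Module Metric
open scoped ContDiff RealInnerProductSpace ENNReal
open Crest.GeometryTopology.Submanifold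
open Crest.Agent.R241.DDefs
open Crest.Agent.R241.D2
open Crest.Agent.R241
open Crest.Agent.R208.L (nu nuF cst volS)

noncomputable section

namespace Crest.Agent.R208.I

variable {n N : ℕ} {κ : ℝ} {S : Set (Euc N)} {G : Geo n N κ S}

/-! ### the model integral -/

/-- logarithm of the model density -/
def L0 (a b : ℕ) (u : ℝ) : ℝ :=
  (a : ℝ) * Real.log (Real.sin u) + (b : ℝ) * Real.log (2 * Real.sin (u / 2))

/-- the model integral `∫_0^π sin^a u (2 sin (u/2))^b du` -/
def IM (a b : ℕ) : ℝ≥0∞ :=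
  ∫⁻ u in Ioo 0 Real.pi, ENNReal.ofReal (Real.sin u ^ a * (2 * Real.sin (u / 2)) ^ b)

lemma sin_pos' {u : ℝ} (hu : u ∈ Ioo 0 Real.pi) : 0 < Real.sin u :=
  Real.sin_pos_of_pos_of_lt_pi hu.1 hu.2

lemma sin_half_pos {u : ℝ} (hu : u ∈ Ioo 0 Real.pi) : 0 < 2 * Real.sin (u / 2) := by
  have := Real.sin_pos_of_pos_of_lt_pi (x := u / 2) (by linarith [hu.1])
    (by linarith [hu.2, hu.1])
  positivity

lemma exp_L0 (a b : ℕ) {u : ℝ} (hu : u ∈ Ioo 0 Real.pi) :
    Real.exp (L0 a b u) = Real.sin u ^ a * (2 * Real.sin (u / 2)) ^ b := by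
  unfold L0
  rw [Real.exp_add, ← Real.log_pow, ← Real.log_pow, Real.exp_log (pow_pos (sin_pos' hu) _),
    Real.exp_log (pow_pos (sin_half_pos hu) _)]

lemma continuousOn_L0 (a b : ℕ) : ContinuousOn (L0 a b) (Ioo 0 Real.pi) := by
  unfold L0
  refine ContinuousOn.add (continuousOn_const.mul (ContinuousOn.log (by fun_prop)
    fun u hu => (sin_pos' hu).ne')) (continuousOn_const.mul (ContinuousOn.log (by fun_prop)
    fun u hu => (sin_half_pos hu).ne'))

lemma lintegral_exp_L0 (a b : ℕ) :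
    ∫⁻ u in Ioo 0 Real.pi, ENNReal.ofReal (Real.exp (L0 a b u)) = IM a b :=
  setLIntegral_congr_fun measurableSet_Ioo fun u hu => by rw [exp_L0 a b hu]

lemma IM_ne_top (a b : ℕ) : IM a b ≠ ⊤ := by
  have h1 : IM a b ≤ ∫⁻ u in Ioo 0 Real.pi, ENNReal.ofReal (2 ^ b) := by
    refine setLIntegral_mono' measurableSet_Ioo fun u hu => ENNReal.ofReal_le_ofReal ?_
    have h2 := sin_pos' hu
    have h3 := sin_half_pos hu
    calc Real.sin u ^ a * (2 * Real.sin (u / 2)) ^ b ≤ 1 ^ a * 2 ^ b := by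
          gcongr
          · exact Real.sin_le_one _
          · linarith [Real.sin_le_one (u / 2)]
      _ = 2 ^ b := by simp
  refine ne_top_of_le_ne_top ?_ h1
  rw [setLIntegral_const]
  exact ENNReal.mul_ne_top ENNReal.ofReal_ne_top (by simp)

/-! ### positivity of the volume -/

lemma jac_pos {U V : Type*} [NormedAddCommGroup U] [InnerProductSpace ℝ U] [FiniteDimensional ℝ U]
    [NormedAddCommGroup V] [InnerProductSpace ℝ V] [FiniteDimensional ℝ V]
    (A : U →L[ℝ] V) (hA : Function.Injective A) : 0 < AF.jac A := by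
  have h1 : Function.Injective (A.adjoint ∘L A : U →L[ℝ] U).toLinearMap := by
    rw [injective_iff_map_eq_zero]
    intro x hx
    have h2 : ⟪A x, A x⟫ = 0 := by
      rw [← ContinuousLinearMap.adjoint_inner_left]
      have h3 : A.adjoint (A x) = 0 := hx
      rw [h3, inner_zero_left]
    have h3 := inner_self_eq_zero.1 h2
    exact (injective_iff_map_eq_zero A).1 hA x h3
  have h2 : (A.adjoint ∘L A : U →L[ℝ] U).det ≠ 0 := by
    have h3 := LinearEquiv.isUnit_det' (LinearEquiv.ofInjectiveEndo _ h1)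
    exact h3.ne_zero
  rw [← AF.jac_sq] at h2
  exact lt_of_le_of_ne (AF.jac_nonneg A) fun h => h2 (by rw [← h]; ring)

/-- open pieces of a submanifold have positive volume -/
theorem muHE_ball_pos (hS : IsSubmanifold n N S) {p : Euc N} (hp : p ∈ S) {r : ℝ} (hr : 0 < r) :
    μHE[n] (ball p r ∩ S) ≠ 0 := by
  obtain ⟨f, V, hf⟩ := hS p hp
  have hcont : ContinuousOn f V := hf.contDiffOn.continuousOn
  have hW : IsOpen (V ∩ f ⁻¹' ball p r) := hcont.isOpen_inter_preimage hf.isOpen isOpen_ball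
  set W := V ∩ f ⁻¹' ball p r with hWdef
  have h0 : (0 : Euc n) ∈ W := ⟨hf.zero_mem, by
    rw [mem_preimage, hf.map_zero]; exact mem_ball_self hr⟩
  have hsub : f '' W ⊆ ball p r ∩ S := by
    rintro _ ⟨x, hx, rfl⟩
    exact ⟨hx.2, Crest.Agent.R241.D.mem_S hf hx.1⟩
  intro h
  have h1 : μHE[n] (f '' W) = 0 := measure_mono_null hsub h
  rw [AF.muHE_image_Euc hf.isOpen inter_subset_left hW.measurableSet
    (hf.contDiffOn.differentiableOn (by simp)) (hf.injOn.mono inter_subset_left)] at h1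
  have hjc : ContinuousOn (fun x => AF.jac (fderiv ℝ f x)) W := by
    have h2 : ContinuousOn (fderiv ℝ f) V :=
      hf.contDiffOn.continuousOn_fderiv_of_isOpen hf.isOpen (by simp)
    exact AF.continuous_jac.comp_continuousOn (h2.mono inter_subset_left)
  have hjm : AEMeasurable (fun x => ENNReal.ofReal (AF.jac (fderiv ℝ f x)))
      (volume.restrict W) := (hjc.aemeasurable hW.measurableSet).ennreal_ofReal
  rw [setLIntegral_eq_zero_iff' hW.measurableSet hjm] at h1
  have h2 : volume W = 0 := by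
    refine measure_mono_null (fun x hx => ?_) (ae_iff.1 h1)
    have h3 := jac_pos _ (hf.injective_fderiv x hx.1)
    simp only [mem_ofPred_eq, Classical.not_imp]
    exact ⟨hx, (ENNReal.ofReal_pos.2 h3).ne'⟩
  exact (hW.measure_pos volume ⟨0, h0⟩).ne' h2

theorem muHE_ne_zero (hB : Bl n N κ S G Real.pi) : μHE[n] S ≠ 0 := by
  obtain ⟨p, hp⟩ := hB.conn.nonempty
  intro h
  exact muHE_ball_pos hB.sub hp one_pos (measure_mono_null inter_subset_right h)

/-- the Liouville measure charges every neighbourhood in the unit tangent bundle -/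
theorem nu_nhds_ne_zero (hn : 1 ≤ n) (hS : IsSubmanifold n N S) {q : Euc N × Euc N}
    (hq : q ∈ L.US G) {U : Set (Euc N × Euc N)} (hU : U ∈ 𝓝[L.US G] q) : nu G U ≠ 0 := by
  obtain ⟨O, hO, hqO, hOU⟩ := mem_nhdsWithin.1 hU
  intro h
  have h1 : nu G O = 0 := by
    have h2 : O ⊆ U ∪ (L.US G)ᶜ := fun x hx => by
      by_cases h3 : x ∈ L.US G
      · exact Or.inl (hOU ⟨hx, h3⟩)
      · exact Or.inr h3
    exact measure_mono_null h2 (measure_union_null h (L.nu_compl_US G hn))
  have hm : Measurable fun z : Euc N × Euc N => (z.1, L.nrm (G.P z.1 z.2)) :=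
    measurable_fst.prodMk (L.measurable_nP G)
  unfold L.nu at h1
  rw [Measure.smul_apply, map_apply hm hO.measurableSet, smul_eq_mul] at h1
  have h3 := (mul_eq_zero.1 h1).resolve_left (L.cst_ne_zero hn)
  -- continuity at `q`
  have hPq : G.P q.1 q.2 = q.2 := (P_eq_self G hq.1.1).1 hq.1.2
  have hq0 : q.2 ≠ 0 := fun h0 => by
    have := hq.2; rw [h0, norm_zero] at this; exact zero_ne_one this
  have hc : ContinuousAt (fun z : Euc N × Euc N => (z.1, L.nrm (G.P z.1 z.2))) q := by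
    refine continuousAt_fst.prodMk ?_
    have h4 : ContinuousAt (fun z : Euc N × Euc N => G.P z.1 z.2) q :=
      ((G.contDiff_P.continuous.comp continuous_fst).clm_apply continuous_snd).continuousAt
    unfold L.nrm
    refine ContinuousAt.smul (ContinuousAt.inv₀ h4.norm ?_) h4
    rw [hPq]; exact norm_ne_zero_iff.2 hq0
  have hval : (fun z : Euc N × Euc N => (z.1, L.nrm (G.P z.1 z.2))) q = q := by
    show (q.1, L.nrm (G.P q.1 q.2)) = q
    rw [hPq]
    have : L.nrm q.2 = q.2 := by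
      unfold L.nrm; rw [hq.2, inv_one, one_smul]
    rw [this]
  have h5 : (fun z : Euc N × Euc N => (z.1, L.nrm (G.P z.1 z.2))) ⁻¹' O ∈ 𝓝 q := by
    apply hc.preimage_mem_nhds
    have h6 : O ∈ 𝓝 ((fun z : Euc N × Euc N => (z.1, L.nrm (G.P z.1 z.2))) q) := by
      rw [hval]
      exact hO.mem_nhds hqO
    exact h6
  obtain ⟨r, hr, hrO⟩ := Metric.mem_nhds_iff.1 h5
  have h6 : ball q.1 r ×ˢ ball q.2 r ⊆ (fun z : Euc N × Euc N => (z.1, L.nrm (G.P z.1 z.2))) ⁻¹' O := by
    rw [ball_prod_same]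
    exact hrO
  have h7 := measure_mono_null h6 h3
  rw [Measure.prod_prod] at h7
  rcases mul_eq_zero.1 h7 with h8 | h8
  · unfold volS at h8
    rw [Measure.restrict_apply measurableSet_ball] at h8
    exact muHE_ball_pos hS hq.1.1 hr h8
  · unfold L.gam at h8
    rw [withDensity_apply _ measurableSet_ball,
      setLIntegral_eq_zero_iff measurableSet_ball (L.measurable_gd _)] at h8
    have h9 : volume (ball q.2 r) = 0 := by
      refine measure_mono_null (fun x hx => ?_) (ae_iff.1 h8)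
      simp only [mem_ofPred_eq, Classical.not_imp]
      refine ⟨hx, ?_⟩
      unfold L.gd
      exact (ENNReal.ofReal_pos.2 (Real.exp_pos _)).ne'
    exact (measure_ball_pos volume q.2 hr).ne' h9

/-! ### the flow data -/

section main

variable (hB : Bl n N κ S G Real.pi)
include hB

lemma hnc : ∀ z ∈ TS G, ‖z.2‖ = 1 → ∀ t, 0 < t → t < Real.pi → ∀ w ∈ G.T z.1,
    fderiv ℝ (Exp G z.1) (t • z.2) w = 0 → w = 0 :=
  fun _ hz hz1 _ h0 h1 _ hw h => no_conj hB hz hz1 h0 h1 hw h

theorem flowData : FlowData (nu G) (L.US G) (fun s q => fl G (q, s))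
    (fun q t => J.Dn G q 0 t) Real.pi where
  fin := L.isFiniteMeasure_nu G hB.sub hB.cpt
  cpt := by
    have h1 : L.US G = DS G 1 ∩ {q | ‖q.2‖ = 1} := by
      ext q
      constructor
      · rintro ⟨h1, h2⟩
        exact ⟨⟨h1, h2.le⟩, h2⟩
      · rintro ⟨h1, h2⟩
        exact ⟨h1.1, h2⟩
    rw [h1]
    exact (isCompact_DS G hB.cpt 1).inter_right (isClosed_eq continuous_snd.norm continuous_const)
  carr := L.nu_compl_US G hB.hn
  mp := fun s => L.measurePreserving_fl G hB.hn hB.sub s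
  inv := fun s q hq => ⟨fl_mem G hq.1 s, by rw [norm_fl G hq.1, hq.2]⟩
  cont := by
    rintro ⟨q, s⟩ ⟨hq, -⟩
    exact (contDiffAt_fl' G hq.1 s).continuousAt.continuousWithinAt
  Dcont := by
    rintro ⟨q, t⟩ ⟨hq, -⟩
    have h1 := J.continuousAt_Dn (G := G) hq.1 0 t
    have h2 : ContinuousAt (fun x : (Euc N × Euc N) × ℝ => (x.1, (0 : ℝ), x.2)) (q, t) := by
      fun_prop
    exact (ContinuousAt.comp (f := fun x : (Euc N × Euc N) × ℝ => (x.1, (0 : ℝ), x.2))
      (g := fun z : (Euc N × Euc N) × ℝ × ℝ => J.Dn G z.1 z.2.1 z.2.2)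
      (x := (q, t)) h1 h2).continuousWithinAt
  Dpos := fun q hq t ht => J.Dn_pos (hnc hB) hq.1 hq.2 ht.1 ht.2

/-- the square of the volume -/
theorem vol_sq' : μHE[n] S * μHE[n] S =
    ∫⁻ t in Ioo 0 Real.pi, ∫⁻ q, ENNReal.ofReal (J.Dn G q 0 t) ∂(nu G) := by
  have hfin := (flowData hB).fin
  have h1 := L.vol_sq G hB.hn (D := Real.pi)
    (fun p hp v hv w hw h => hB.Exp_inj hp hv.1 hw.1 hv.2 hw.2.le h)
    (fun p hp q hq => by
      obtain ⟨v, hv, hvn, he⟩ := hB.exists_Exp hp hq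
      exact ⟨v, hv, by rw [hvn]; exact hB.dist_le p hp q hq, he⟩)
  rw [h1]
  have hm : Measurable (Function.uncurry fun (q : Euc N × Euc N) (t : ℝ) =>
      ENNReal.ofReal (t ^ (n - 1) * L.jE G (q.1, t • q.2))) := by
    refine ENNReal.measurable_ofReal.comp ((measurable_snd.pow_const _).mul ?_)
    exact (L.measurable_jE G).comp ((measurable_fst.comp measurable_fst).prodMk
      (measurable_snd.smul (measurable_snd.comp measurable_fst)))
  rw [lintegral_lintegral_swap hm.aemeasurable]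
  refine setLIntegral_congr_fun measurableSet_Ioo fun t ht => ?_
  refine lintegral_congr_ae ?_
  filter_upwards [L.ae_nu G hB.hn] with q hq
  rw [J.jE_polar hq.1 hq.2 ht.1]

variable {a : ℕ} (hper : HS.Per G)
  (hmult : ∀ z ∈ TS G, ‖z.2‖ = 1 → finrank ℝ
      (G.T z.1 ⊓ LinearMap.ker (fderiv ℝ (Exp G z.1) (Real.pi • z.2)).toLinearMap :
        Submodule ℝ (Euc N)) = a)
include hper hmult

lemma core (hcore : Crest.Agent.R208.N.CoreStmt) : ∀ t ∈ Ioo 0 Real.pi, ∀ q ∈ L.US G,
    L0 a (n - 1 - a) t ≤ om (fun s q => fl G (q, s)) (fun q t => J.Dn G q 0 t)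
      (2 * Real.pi) q t :=
  fun _ ht _ hq => J.core_geodesic hcore hper (hnc hB) hmult hq.1 hq.2 ht.1 ht.2

/-- **The global inequality**: the volume is at least the volume of the model. -/
theorem nck (hcore : Crest.Agent.R208.N.CoreStmt) : cst n * IM a (n - 1 - a) ≤ μHE[n] S := by
  have h1 := (flowData hB).ineq (P := 2 * Real.pi) (by positivity)
    (core hB hper hmult hcore)
  rw [lintegral_exp_L0, L.nu_univ, ← vol_sq' hB, ← mul_assoc, mul_comm (IM a (n - 1 - a))] at h1
  exact (ENNReal.mul_le_mul_iff_left (muHE_ne_zero hB) (L.muHE_lt_top hB.sub hB.cpt).ne).1 h1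

/-- **The equality case.** -/
theorem nck_eq (hcore : Crest.Agent.R208.N.CoreStmt) (heq : Crest.Agent.R208.N.EqStmt)
    (hle : μHE[n] S ≤ cst n * IM a (n - 1 - a)) :
    ∀ p ∈ S, ∀ v ∈ G.T p, ‖v‖ = 1 → HS.PolarAt G p v := by
  intro p hp v hv hv1
  have hV := L.muHE_lt_top hB.sub hB.cpt
  have h1 := (flowData hB).eq_case (P := 2 * Real.pi) (by positivity)
    (continuousOn_L0 a (n - 1 - a)) (core hB hper hmult hcore)
    (by
      rw [lintegral_exp_L0, L.nu_univ]
      exact ENNReal.mul_ne_top (IM_ne_top _ _) (ENNReal.mul_ne_top (L.cst_ne_top n) hV.ne))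
    (fun q hq U hU => nu_nhds_ne_zero hB.hn hB.sub hq hU)
    (by
      rw [lintegral_exp_L0, L.nu_univ, ← vol_sq' hB, ← mul_assoc, mul_comm (IM a (n - 1 - a))]
      gcongr)
  exact J.polar_of_eq heq hper (hnc hB) hmult (q := (p, v)) ⟨hp, hv⟩ hv1 fun u hu hu' =>
    h1 u ⟨hu, hu'⟩ (p, v) ⟨⟨hp, hv⟩, hv1⟩

end main

end Crest.Agent.R208.I
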