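import Crest.Agent.R208.IB1

/-!
R208, block G5 / (I.3): a map, homogeneous of degree 0, all of whose fibres are convex cones
containing a line, has only linear fibres.
-/

set_option autoImplicit false
set_option linter.unusedSectionVars false

open Set Filter Topology
open scoped RealInnerProductSpace

noncomputable section

namespace Crest.Agent.R208.IB

variable {V F : Type*} [NormedAddCommGroup V] [InnerProductSpace ℝ V] [FiniteDimensional ℝ V]
  [NormedAddCommGroup F] [InnerProductSpace ℝ F]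

/-- Degree-0 homogeneous `C²` maps with convex fibres containing lines. -/
structure Cone (e : V → F) : Prop where
  smooth : ∀ v : V, v ≠ 0 → ContDiffAt ℝ 2 e v
  smul : ∀ (t : ℝ) (v : V), 0 < t → e (t • v) = e v
  add : ∀ v w : V, v ≠ 0 → w ≠ 0 → v + w ≠ 0 → e w = e v → e (v + w) = e v
  line : ∀ v : V, v ≠ 0 → ∃ l : V, l ≠ 0 ∧ e l = e v ∧ e (-l) = e v

/-- the fibre through `v` together with `0` -/
def K (e : V → F) (v : V) : Set V := {w | w = 0 ∨ e w = e v}

/-- kernel of the derivative -/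
def T (e : V → F) (v : V) : Submodule ℝ V := LinearMap.ker (fderiv ℝ e v : V →ₗ[ℝ] F)

/-- orthogonal projection on the kernel -/
def P (e : V → F) (v : V) : V →L[ℝ] V := (T e v).starProjection

/-- its dimension -/
def rk (e : V → F) (v : V) : ℕ := Module.finrank ℝ (T e v)

variable {e : V → F}

theorem mem_K_self (v : V) : v ∈ K e v := Or.inr rfl

theorem zero_mem_K (v : V) : (0 : V) ∈ K e v := Or.inl rfl

theorem K_eq {v w : V} (hw : w ∈ K e v) (hw0 : w ≠ 0) : K e w = K e v := by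
  rcases hw with h | h
  · exact absurd h hw0
  · simp only [K, h]

theorem Cone.smul_mem (he : Cone e) {v w : V} (hw : w ∈ K e v) {t : ℝ} (ht : 0 ≤ t) :
    t • w ∈ K e v := by
  rcases ht.eq_or_lt with rfl | ht
  · simp [zero_mem_K]
  · rcases hw with rfl | h
    · simp [zero_mem_K]
    · exact Or.inr (by rw [he.smul t w ht, h])

theorem Cone.add_mem (he : Cone e) {v w₁ w₂ : V} (h1 : w₁ ∈ K e v) (h2 : w₂ ∈ K e v) :
    w₁ + w₂ ∈ K e v := by
  by_cases h10 : w₁ = 0
  · rw [h10, zero_add]; exact h2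
  by_cases h20 : w₂ = 0
  · rw [h20, add_zero]; exact h1
  replace h1 := h1.resolve_left h10
  replace h2 := h2.resolve_left h20
  by_cases h0 : w₁ + w₂ = 0
  · exact Or.inl h0
  · exact Or.inr (by rw [he.add w₁ w₂ h10 h20 h0 (h2.trans h1.symm), h1])

theorem Cone.convex (he : Cone e) (v : V) : Convex ℝ (K e v) := by
  intro x hx y hy a b ha hb _
  exact he.add_mem (he.smul_mem hx ha) (he.smul_mem hy hb)

theorem Cone.cont (he : Cone e) {v : V} (hv : v ≠ 0) : ContinuousAt e v :=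
  (he.smooth v hv).continuousAt

theorem Cone.diff (he : Cone e) {v : V} (hv : v ≠ 0) : HasFDerivAt e (fderiv ℝ e v) v :=
  ((he.smooth v hv).differentiableAt (by norm_num)).hasFDerivAt

theorem Cone.contD (he : Cone e) {v : V} (hv : v ≠ 0) : ContDiffAt ℝ 1 (fderiv ℝ e) v :=
  (he.smooth v hv).fderiv_right (by norm_num)

theorem Cone.mem_of_tendsto (he : Cone e) {v : V} {ι : Type*} {f : Filter ι} [f.NeBot]
    {g : ι → V} {w : V} (hg : Tendsto g f (𝓝 w)) (h : ∀ᶠ i in f, g i ∈ K e v) : w ∈ K e v := by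
  by_cases hw : w = 0
  · exact Or.inl hw
  · right
    have h1 : Tendsto (fun i => e (g i)) f (𝓝 (e w)) := (he.cont hw).tendsto.comp hg
    have h2 : ∀ᶠ i in f, e (g i) = e v := by
      have h3 : ∀ᶠ i in f, g i ≠ 0 := hg.eventually_ne hw
      filter_upwards [h, h3] with i hi hi3
      exact hi.resolve_left hi3
    exact tendsto_nhds_unique (h1.congr' h2) tendsto_const_nhds

theorem Cone.isClosed (he : Cone e) (v : V) : IsClosed (K e v) := by
  rw [← isSeqClosed_iff_isClosed]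
  intro x w hx hw
  exact he.mem_of_tendsto hw (Eventually.of_forall hx)

/-- the fibre cone is contained in the kernel -/
theorem Cone.K_sub_T (he : Cone e) {v w : V} (hv : v ≠ 0) (hw : w ∈ K e v) : w ∈ T e v := by
  have h1 : HasDerivAt (fun t : ℝ => e (v + t • w)) (fderiv ℝ e v w) 0 := by
    have h2 : HasDerivAt (fun t : ℝ => v + t • w) w 0 := by
      simpa using ((hasDerivAt_id (0 : ℝ)).smul_const w).const_add v
    have h3 : HasFDerivAt e (fderiv ℝ e v) (v + (0 : ℝ) • w) := by simpa using he.diff hv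
    exact h3.comp_hasDerivAt (0 : ℝ) h2
  have h4 : ∀ᶠ t in 𝓝[>] (0 : ℝ), e (v + t • w) = e v := by
    have h5 : ∀ᶠ t in 𝓝 (0 : ℝ), v + t • w ≠ 0 := by
      have : Tendsto (fun t : ℝ => v + t • w) (𝓝 0) (𝓝 (v + (0 : ℝ) • w)) := by
        apply Continuous.tendsto; fun_prop
      have h6 : v + (0 : ℝ) • w ≠ 0 := by simpa using hv
      exact this.eventually_ne h6
    filter_upwards [nhdsWithin_le_nhds h5, self_mem_nhdsWithin] with t ht ht0
    have : v + t • w ∈ K e v := he.add_mem (mem_K_self v) (he.smul_mem hw (le_of_lt ht0))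
    exact this.resolve_left ht
  have h7 : HasDerivWithinAt (fun t : ℝ => e (v + t • w)) 0 (Ioi 0) 0 := by
    have h8 : HasDerivWithinAt (fun _ : ℝ => e v) 0 (Ioi 0) 0 := hasDerivWithinAt_const _ _ _
    exact h8.congr_of_eventuallyEq h4 (by simp)
  have h9 := (uniqueDiffWithinAt_Ioi (0 : ℝ)).eq_deriv _ h1.hasDerivWithinAt h7
  exact h9

theorem Cone.K_sub_T' (he : Cone e) {v w x : V} (hw : w ∈ K e v) (hw0 : w ≠ 0)
    (hx : x ∈ K e v) : x ∈ T e w := by
  apply he.K_sub_T hw0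
  rw [K_eq hw hw0]; exact hx

theorem Cone.self_mem_T (he : Cone e) {v : V} (hv : v ≠ 0) : v ∈ T e v :=
  he.K_sub_T hv (mem_K_self v)

theorem P_of_mem {v x : V} (hx : x ∈ T e v) : P e v x = x :=
  Submodule.starProjection_eq_self_iff.2 hx

theorem P_mem (v x : V) : P e v x ∈ T e v := Submodule.starProjection_apply_mem _ _

theorem P_norm_le (v x : V) : ‖P e v x‖ ≤ ‖x‖ := by
  have h := (T e v).starProjection_norm_le
  calc ‖P e v x‖ ≤ ‖(T e v).starProjection‖ * ‖x‖ := ContinuousLinearMap.le_opNorm _ _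
    _ ≤ 1 * ‖x‖ := by gcongr
    _ = ‖x‖ := one_mul _

/-- Semicontinuity of the kernel dimension and smoothness of the projection. -/
theorem Cone.exists_Q (he : Cone e) {v0 : V} (hv0 : v0 ≠ 0) :
    ∃ Q : V → (V →L[ℝ] V), ContDiffAt ℝ 1 Q v0 ∧ ∀ᶠ v in 𝓝 v0,
      rk e v ≤ rk e v0 ∧ (rk e v = rk e v0 → P e v = Q v) :=
  exists_proj (fderiv ℝ e) v0 (he.contD hv0)

/-- regular points: the kernel dimension is locally constant -/
def Reg (e : V → F) (v : V) : Prop := v ≠ 0 ∧ ∀ᶠ w in 𝓝 v, rk e w = rk e v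

theorem Cone.contP (he : Cone e) {v : V} (hv : Reg e v) : ContDiffAt ℝ 1 (P e) v := by
  obtain ⟨Q, hQ, h⟩ := he.exists_Q hv.1
  refine hQ.congr_of_eventuallyEq ?_
  filter_upwards [h, hv.2] with w hw hw2
  exact hw.2 hw2


theorem Reg.mem_nhds {v : V} (hv : Reg e v) : ∀ᶠ w in 𝓝 v, Reg e w := by
  filter_upwards [eventually_eventually_nhds.2 hv.2, isOpen_ne.mem_nhds hv.1, hv.2] with w h1 h2 h3
  refine ⟨h2, ?_⟩
  filter_upwards [h1] with x hx
  rw [hx, h3]

/-- **Uniform relative interior.** Near a regular point the fibre cone contains a ball of the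
kernel, of uniform radius. -/
theorem Cone.uniform (he : Cone e) {v0 : V} (hv0 : Reg e v0) :
    ∃ δ > 0, ∀ᶠ v in 𝓝 v0, ∀ x ∈ T e v, ‖x - v‖ < δ → x ∈ K e v := by
  have hP : ContDiffAt ℝ 1 (P e) v0 := he.contP hv0
  -- the vector field (w,k) ↦ (P w k, 0)
  have hf : ContDiffAt ℝ 1 (fun x : V × V => ((P e x.1 x.2, 0) : V × V)) (v0, 0) := by
    have h1 : ContDiffAt ℝ 1 (fun x : V × V => P e x.1) (v0, (0 : V)) :=
      ContDiffAt.comp (v0, (0:V)) (g := P e) (by exact hP) contDiffAt_fst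
    exact (h1.clm_apply contDiffAt_snd).prodMk contDiffAt_const
  obtain ⟨r0, hr0, ε, hε, hsol⟩ :=
    hf.exists_forall_mem_closedBall_exists_eq_forall_mem_Ioo_hasDerivAt 0
  -- a small ball on which P is nearly constant
  obtain ⟨η, hη, hball⟩ : ∃ η > 0, ∀ w ∈ Metric.ball v0 η, w ≠ 0 ∧ ‖P e w - P e v0‖ ≤ 1 / 8 := by
    have h1 : ∀ᶠ w in 𝓝 v0, ‖P e w - P e v0‖ ≤ 1 / 8 := by
      have h2 : Tendsto (fun w => ‖P e w - P e v0‖) (𝓝 v0) (𝓝 ‖P e v0 - P e v0‖) :=
        ((hP.continuousAt.sub continuousAt_const).norm).tendsto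
      rw [sub_self, norm_zero] at h2
      exact (h2.eventually_lt_const (show (0 : ℝ) < 1 / 8 by norm_num)).mono fun _ h => h.le
    obtain ⟨η, hη, h3⟩ := Metric.eventually_nhds_iff_ball.1 (h1.and (isOpen_ne.mem_nhds hv0.1))
    exact ⟨η, hη, fun w hw => ⟨(h3 w hw).2, (h3 w hw).1⟩⟩
  set t1 : ℝ := min (ε / 2) (η / (4 * r0)) with ht1
  have ht1pos : 0 < t1 := by positivity
  have ht1ε : t1 < ε := lt_of_le_of_lt (min_le_left _ _) (by linarith)
  have ht1η : t1 * r0 ≤ η / 4 := by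
    have : t1 ≤ η / (4 * r0) := min_le_right _ _
    calc t1 * r0 ≤ η / (4 * r0) * r0 := by gcongr
      _ = η / 4 := by field_simp
  set r1 : ℝ := r0 / 2 with hr1
  have hr1pos : 0 < r1 := by positivity
  -- endpoints of the flow
  have key : ∀ v ∈ Metric.ball v0 (min (η / 2) r0), ∀ k ∈ T e v, ‖k‖ ≤ r1 →
      ∃ y ∈ K e v, ‖y - v - t1 • k‖ ≤ t1 * ‖k‖ / 4 := by
    intro v hv k hk hkr
    have hvη : v ∈ Metric.ball v0 (η / 2) := Metric.ball_subset_ball (min_le_left _ _) hv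
    have hvr : dist v v0 < r0 := lt_of_lt_of_le hv (min_le_right _ _)
    have hmem : ((v, k) : V × V) ∈ Metric.closedBall ((v0, 0) : V × V) r0 := by
      rw [Metric.mem_closedBall, Prod.dist_eq]
      apply max_le hvr.le
      rw [dist_zero_right]
      change ‖k‖ ≤ r0
      linarith
    obtain ⟨α, hα0, hα⟩ := hsol (v, k) hmem
    simp only [zero_sub, zero_add] at hα
    have hd1 : ∀ t ∈ Ioo (-ε) ε, HasDerivAt (fun s => (α s).1) (P e (α t).1 (α t).2) t :=
      fun t ht => (hα t ht).fst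
    have hd2 : ∀ t ∈ Ioo (-ε) ε, HasDerivAt (fun s => (α s).2) 0 t :=
      fun t ht => (hα t ht).snd
    have hconst : ∀ t ∈ Ico 0 ε, (α t).2 = k := by
      intro t ht
      have h1 : ∀ s ∈ Icc 0 t, HasDerivWithinAt (fun s => (α s).2) ((fun _ => (0 : V)) s)
          (Icc 0 t) s :=
        fun s hs => (hd2 s ⟨by linarith [hs.1], lt_of_le_of_lt hs.2 ht.2⟩).hasDerivWithinAt
      have h2 := Convex.norm_image_sub_le_of_norm_hasDerivWithin_le (C := 0) h1
        (by intro s _; simp) (convex_Icc 0 t) (left_mem_Icc.2 ht.1) (right_mem_Icc.2 ht.1)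
      have h3 : ‖(α t).2 - (α 0).2‖ = 0 := le_antisymm (by simpa using h2) (norm_nonneg _)
      rw [norm_eq_zero, sub_eq_zero] at h3
      rw [h3, hα0]
    have hd1' : ∀ t ∈ Ico 0 ε, HasDerivAt (fun s => (α s).1) (P e (α t).1 k) t := by
      intro t ht
      have := hd1 t ⟨by linarith [ht.1], ht.2⟩
      rwa [hconst t ht] at this
    have hstay : ∀ t ∈ Icc 0 t1, ‖(α t).1 - v‖ ≤ ‖k‖ * t := by
      intro t ht
      have h1 : ∀ s ∈ Icc 0 t, HasDerivWithinAt (fun s => (α s).1) (P e (α s).1 k)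
          (Icc 0 t) s :=
        fun s hs => (hd1' s ⟨hs.1, by linarith [hs.2, ht.2]⟩).hasDerivWithinAt
      have h2 := Convex.norm_image_sub_le_of_norm_hasDerivWithin_le (C := ‖k‖) h1
        (fun s _ => P_norm_le _ _) (convex_Icc 0 t) (left_mem_Icc.2 ht.1) (right_mem_Icc.2 ht.1)
      rw [hα0] at h2
      simpa [abs_of_nonneg ht.1] using h2
    have hin : ∀ t ∈ Icc 0 t1, (α t).1 ∈ Metric.ball v0 η := by
      intro t ht
      rw [Metric.mem_ball]
      calc dist (α t).1 v0 ≤ dist (α t).1 v + dist v v0 := dist_triangle _ _ _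
        _ < η / 2 + η / 2 := by
          apply add_lt_add_of_le_of_lt _ hvη
          rw [dist_eq_norm]
          calc ‖(α t).1 - v‖ ≤ ‖k‖ * t := hstay t ht
            _ ≤ r1 * t1 := by
              apply mul_le_mul hkr ht.2 ht.1 hr1pos.le
            _ ≤ η / 2 := by rw [hr1]; nlinarith
        _ = η := by ring
    refine ⟨(α t1).1, ?_, ?_⟩
    · right
      have h1 : ∀ s ∈ Icc 0 t1, HasDerivWithinAt (fun s => e (α s).1) ((fun _ => (0 : F)) s)
          (Icc 0 t1) s := by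
        intro s hs
        have h2 := (he.diff (hball _ (hin s hs)).1).comp_hasDerivAt s
          (hd1' s ⟨hs.1, by linarith [hs.2]⟩)
        have h3 : fderiv ℝ e (α s).1 (P e (α s).1 k) = 0 := P_mem (e := e) (α s).1 k
        rw [h3] at h2
        exact h2.hasDerivWithinAt
      have h2 := Convex.norm_image_sub_le_of_norm_hasDerivWithin_le (C := 0) h1
        (by intro s _; simp) (convex_Icc 0 t1) (left_mem_Icc.2 ht1pos.le)
        (right_mem_Icc.2 ht1pos.le)
      have h3 : ‖e (α t1).1 - e (α 0).1‖ = 0 := le_antisymm (by simpa using h2) (norm_nonneg _)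
      rw [norm_eq_zero, sub_eq_zero] at h3
      rw [h3, hα0]
    · have h1 : ∀ s ∈ Icc 0 t1, HasDerivWithinAt (fun s => (α s).1 - s • k)
          (P e (α s).1 k - k) (Icc 0 t1) s := by
        intro s hs
        have h2 : HasDerivAt (fun s => (α s).1 - s • k) (P e (α s).1 k - (1 : ℝ) • k) s :=
          (hd1' s ⟨hs.1, by linarith [hs.2]⟩).sub ((hasDerivAt_id s).smul_const k)
        rw [one_smul] at h2
        exact h2.hasDerivWithinAt
      have h2 : ∀ s ∈ Icc 0 t1, ‖P e (α s).1 k - k‖ ≤ ‖k‖ / 4 := by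
        intro s hs
        have h3 : P e (α s).1 k - k = (P e (α s).1 - P e v0) k - (P e v - P e v0) k := by
          rw [sub_apply, sub_apply, P_of_mem hk]; abel
        have h4 := (hball _ (hin s hs)).2
        have h5 := (hball v (Metric.ball_subset_ball (by linarith) hvη)).2
        rw [h3]
        calc ‖(P e (α s).1 - P e v0) k - (P e v - P e v0) k‖
            ≤ ‖(P e (α s).1 - P e v0) k‖ + ‖(P e v - P e v0) k‖ := norm_sub_le _ _
          _ ≤ ‖P e (α s).1 - P e v0‖ * ‖k‖ + ‖P e v - P e v0‖ * ‖k‖ :=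
            add_le_add (ContinuousLinearMap.le_opNorm _ _) (ContinuousLinearMap.le_opNorm _ _)
          _ ≤ 1 / 8 * ‖k‖ + 1 / 8 * ‖k‖ := by gcongr
          _ = ‖k‖ / 4 := by ring
      have h6 := Convex.norm_image_sub_le_of_norm_hasDerivWithin_le (C := ‖k‖ / 4) h1 h2
        (convex_Icc 0 t1) (left_mem_Icc.2 ht1pos.le) (right_mem_Icc.2 ht1pos.le)
      rw [hα0] at h6
      simp only [zero_smul, sub_zero, Real.norm_eq_abs, abs_of_pos ht1pos] at h6
      calc ‖(α t1).1 - v - t1 • k‖ = ‖(α t1).1 - t1 • k - v‖ := by congr 1; abel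
        _ ≤ ‖k‖ / 4 * t1 := h6
        _ = t1 * ‖k‖ / 4 := by ring
  refine ⟨t1 * r1 / 2, by positivity, ?_⟩
  have hnb : Metric.ball v0 (min (η / 2) r0) ∈ 𝓝 v0 := Metric.ball_mem_nhds _ (by positivity)
  filter_upwards [hnb] with v hv x hx hxv
  have hv0' : v ≠ 0 := (hball v (Metric.ball_subset_ball (by
    have := min_le_left (η / 2) r0; linarith) hv)).1
  by_contra hcon
  -- nearest point
  obtain ⟨z, hz, hzmin⟩ := exists_norm_eq_iInf_of_complete_convex (K := K e v)
    ⟨v, mem_K_self v⟩ (he.isClosed v).isComplete (he.convex v) x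
  rw [norm_eq_iInf_iff_real_inner_le_zero (he.convex v) hz] at hzmin
  have hne : x - z ≠ 0 := by
    intro h; rw [sub_eq_zero] at h; exact hcon (h ▸ hz)
  have hnpos : 0 < ‖x - z‖ := norm_pos_iff.2 hne
  set k : V := (r1 / ‖x - z‖) • (x - z) with hk
  have hkT : k ∈ T e v := (T e v).smul_mem _ ((T e v).sub_mem hx (he.K_sub_T hv0' hz))
  have hknorm : ‖k‖ = r1 := by
    rw [hk, norm_smul, Real.norm_eq_abs, abs_of_pos (by positivity)]
    field_simp
  obtain ⟨y, hy, hyv⟩ := key v hv k hkT hknorm.le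
  have h1 := hzmin y hy
  -- ⟪x - z, y - z⟫ ≤ 0
  set u : V := x - z with hu
  have h2 : ⟪u, y - z⟫ = ⟪u, y - v - t1 • k⟫ + ⟪u, t1 • k⟫ + ⟪u, v - x⟫ + ⟪u, x - z⟫ := by
    rw [← inner_add_right, ← inner_add_right, ← inner_add_right]
    congr 1; abel
  have h3 : -(‖u‖ * (t1 * r1 / 4)) ≤ ⟪u, y - v - t1 • k⟫ := by
    have := abs_real_inner_le_norm u (y - v - t1 • k)
    have h4 : ‖u‖ * ‖y - v - t1 • k‖ ≤ ‖u‖ * (t1 * r1 / 4) := by
      gcongr; rw [hknorm] at hyv; exact hyv
    linarith [neg_abs_le ⟪u, y - v - t1 • k⟫]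
  have h4 : ⟪u, t1 • k⟫ = ‖u‖ * (t1 * r1) := by
    rw [hk, inner_smul_right, inner_smul_right, real_inner_self_eq_norm_sq]
    field_simp
  have h5 : -(‖u‖ * (t1 * r1 / 2)) < ⟪u, v - x⟫ := by
    have := abs_real_inner_le_norm u (v - x)
    have h6 : ‖u‖ * ‖v - x‖ < ‖u‖ * (t1 * r1 / 2) := by
      rw [norm_sub_rev v x]; exact mul_lt_mul_of_pos_left hxv hnpos
    linarith [neg_abs_le ⟪u, v - x⟫]
  have h6 : 0 ≤ ⟪u, x - z⟫ := by rw [← hu]; exact real_inner_self_nonneg
  have h7 : 0 < ‖u‖ * (t1 * r1) := by positivity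
  nlinarith

end Crest.Agent.R208.IB
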