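import Crest.Agent.R208.IB2

/-!
R208, block G5 / (I.3): `no_bad` : all fibres of a degree-0 homogeneous `C²` map with convex
fibres containing lines are linear.
-/

set_option autoImplicit false
set_option linter.unusedSectionVars false

open Set Filter Topology
open scoped RealInnerProductSpace

noncomputable section

namespace Crest.Agent.R208.IB

variable {V F : Type*} [NormedAddCommGroup V] [InnerProductSpace ℝ V] [FiniteDimensional ℝ V]
  [NormedAddCommGroup F] [InnerProductSpace ℝ F] {e : V → F}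

theorem tendsto_clm_apply {E E' : Type*} [NormedAddCommGroup E] [NormedSpace ℝ E]
    [NormedAddCommGroup E'] [NormedSpace ℝ E'] {ι : Type*} {f : Filter ι} {A : ι → E →L[ℝ] E'}
    {A0 : E →L[ℝ] E'} {x : ι → E} {x0 : E} (hA : Tendsto A f (𝓝 A0)) (hx : Tendsto x f (𝓝 x0)) :
    Tendsto (fun i => A i (x i)) f (𝓝 (A0 x0)) :=
  (isBoundedBilinearMap_apply.continuous.tendsto (A0, x0)).comp (hA.prodMk_nhds hx)

/-- At regular points the kernel is spanned by the fibre cone: kernels are constant on fibres. -/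
theorem Cone.T_le (he : Cone e) {v w : V} (hv : Reg e v) (hw : w ∈ K e v) (hw0 : w ≠ 0) :
    T e v ≤ T e w := by
  obtain ⟨δ, hδ, h⟩ := he.uniform hv
  have h1 := h.self_of_nhds
  intro x hx
  by_cases hx0 : x = 0
  · subst hx0; exact (T e w).zero_mem
  have hxpos : 0 < ‖x‖ := norm_pos_iff.2 hx0
  set c : ℝ := δ / (2 * ‖x‖) with hc
  have hcpos : 0 < c := by positivity
  have h2 : v + c • x ∈ K e v := by
    apply h1 _ ((T e v).add_mem (he.self_mem_T hv.1) ((T e v).smul_mem _ hx))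
    rw [add_sub_cancel_left, norm_smul, Real.norm_eq_abs, abs_of_pos hcpos, hc]
    field_simp
    linarith
  have h3 : v + c • x ∈ T e w := he.K_sub_T' hw hw0 h2
  have h4 : v ∈ T e w := he.K_sub_T' hw hw0 (mem_K_self v)
  have h5 : c • x ∈ T e w := by
    have := (T e w).sub_mem h3 h4
    rwa [add_sub_cancel_left] at this
  have h6 := (T e w).smul_mem c⁻¹ h5
  rwa [smul_smul, inv_mul_cancel₀ hcpos.ne', one_smul] at h6

/-- bad vectors of minimal kernel dimension `r` -/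
structure Min (e : V → F) (r : ℕ) (v : V) : Prop where
  ne : v ≠ 0
  bad : e (-v) ≠ e v
  rank : rk e v = r

theorem Cone.bad_nhds (he : Cone e) {v : V} (hv0 : v ≠ 0) (hv : e (-v) ≠ e v) :
    ∀ᶠ w in 𝓝 v, w ≠ 0 ∧ e (-w) ≠ e w := by
  have h1 : Tendsto (fun w => e (-w)) (𝓝 v) (𝓝 (e (-v))) := by
    have := (he.cont (neg_ne_zero.2 hv0)).tendsto
    exact this.comp (continuous_neg.tendsto v)
  have h2 : Tendsto e (𝓝 v) (𝓝 (e v)) := (he.cont hv0).tendsto
  have h3 : Tendsto (fun w => (e (-w), e w)) (𝓝 v) (𝓝 (e (-v), e v)) := h1.prodMk_nhds h2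
  have h4 : IsOpen {p : F × F | p.1 ≠ p.2} := isOpen_ne_fun continuous_fst continuous_snd
  filter_upwards [h3 (h4.mem_nhds hv), isOpen_ne.mem_nhds hv0] with w hw hw0
  exact ⟨hw0, hw⟩

section
variable {r : ℕ} (he : Cone e) (hr : ∀ v : V, v ≠ 0 → e (-v) ≠ e v → r ≤ rk e v)
include he hr

theorem Min.nhds {v : V} (hv : Min e r v) : ∀ᶠ w in 𝓝 v, Min e r w := by
  obtain ⟨Q, _, h⟩ := he.exists_Q hv.ne
  filter_upwards [h, he.bad_nhds hv.ne hv.bad] with w hw hb
  refine ⟨hb.1, hb.2, le_antisymm ?_ (hr w hb.1 hb.2)⟩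
  rw [← hv.rank]; exact hw.1

theorem Min.reg {v : V} (hv : Min e r v) : Reg e v := by
  refine ⟨hv.ne, ?_⟩
  filter_upwards [hv.nhds he hr] with w hw
  rw [hw.rank, hv.rank]

/-- differentiating `e (P v w) = e v` -/
theorem Min.ident {v1 : V} (hv1 : Min e r v1) {w : V} (hw0 : w ≠ 0) (hwT : w ∈ T e v1)
    (hw : ∀ᶠ v in 𝓝 v1, P e v w ∈ K e v) (τ : V) :
    fderiv ℝ e w (fderiv ℝ (P e) v1 τ w) = fderiv ℝ e v1 τ := by
  have hreg := hv1.reg he hr
  have hP := he.contP hreg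
  have hPd : HasFDerivAt (P e) (fderiv ℝ (P e) v1) v1 :=
    (hP.differentiableAt (by norm_num)).hasFDerivAt
  have h1 : HasFDerivAt (fun v => P e v w) ((fderiv ℝ (P e) v1).flip w) v1 := by
    have := hPd.clm_apply (hasFDerivAt_const w v1)
    refine this.congr_fderiv ?_
    ext x
    simp
  have h2 : P e v1 w = w := P_of_mem hwT
  have h3 : HasFDerivAt (fun v => e (P e v w)) ((fderiv ℝ e w).comp ((fderiv ℝ (P e) v1).flip w))
      v1 := by
    have h4 : HasFDerivAt e (fderiv ℝ e w) (P e v1 w) := by rw [h2]; exact he.diff hw0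
    exact h4.comp v1 h1
  have h5 : (fun v => e (P e v w)) =ᶠ[𝓝 v1] e := by
    have h6 : ∀ᶠ v in 𝓝 v1, P e v w ≠ 0 := by
      have : Tendsto (fun v => P e v w) (𝓝 v1) (𝓝 w) := by
        have := h1.continuousAt.tendsto
        rwa [h2] at this
      exact this.eventually_ne hw0
    filter_upwards [hw, h6] with v hv hv6
    exact hv.resolve_left hv6
  have h7 := h3.congr_of_eventuallyEq h5.symm
  have h8 := h7.unique (he.diff hv1.ne)
  rw [← h8]
  simp

/-- elements of the fibre with the identity have maximal rank -/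
theorem Min.rk_le_of_ident {v1 : V} (hv1 : Min e r v1) {w : V}
    (hid : ∀ τ, fderiv ℝ e w (fderiv ℝ (P e) v1 τ w) = fderiv ℝ e v1 τ) : rk e w ≤ r := by
  have h1 : LinearMap.range (fderiv ℝ e v1 : V →ₗ[ℝ] F) ≤
      LinearMap.range (fderiv ℝ e w : V →ₗ[ℝ] F) := by
    rintro _ ⟨τ, rfl⟩
    exact ⟨_, hid τ⟩
  have h2 := Submodule.finrank_mono h1
  have h3 := LinearMap.finrank_range_add_finrank_ker (fderiv ℝ e v1 : V →ₗ[ℝ] F)
  have h4 := LinearMap.finrank_range_add_finrank_ker (fderiv ℝ e w : V →ₗ[ℝ] F)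
  have h5 : Module.finrank ℝ (LinearMap.ker (fderiv ℝ e v1 : V →ₗ[ℝ] F)) = r := hv1.rank
  change Module.finrank ℝ (LinearMap.ker (fderiv ℝ e w : V →ₗ[ℝ] F)) ≤ r
  omega

/-- relative interior points of the cone of a minimal vector are bad. -/
theorem Min.bad_of_int {v1 : V} (hv1 : Min e r v1) {w : V} {ε : ℝ} (hε : 0 < ε) (hwT : w ∈ K e v1)
    (hw : ∀ x ∈ T e v1, ‖x - w‖ < ε → x ∈ K e v1) : w ≠ 0 ∧ e (-w) ≠ e w := by
  have hv1T : v1 ∈ T e v1 := he.self_mem_T hv1.ne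
  have hwT' : w ∈ T e v1 := he.K_sub_T hv1.ne hwT
  have hn : 0 < ‖v1‖ := norm_pos_iff.2 hv1.ne
  -- w - c v1 ∈ K
  have h1 : w - (ε / (2 * ‖v1‖)) • v1 ∈ K e v1 := by
    apply hw _ ((T e v1).sub_mem hwT' ((T e v1).smul_mem _ hv1T))
    rw [sub_sub_cancel_left, norm_neg, norm_smul, Real.norm_eq_abs, abs_of_pos (by positivity)]
    field_simp
    linarith
  have h2 : -w ∉ K e v1 := by
    intro h3
    have h4 := he.add_mem h1 h3
    have h5 : w - (ε / (2 * ‖v1‖)) • v1 + -w = (ε / (2 * ‖v1‖)) • (-v1) := by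
      rw [smul_neg]; abel
    rw [h5] at h4
    have h6 := he.smul_mem h4 (t := (ε / (2 * ‖v1‖))⁻¹) (by positivity)
    rw [smul_smul, inv_mul_cancel₀ (by positivity), one_smul] at h6
    exact hv1.bad (h6.resolve_left (neg_ne_zero.2 hv1.ne))
  constructor
  · rintro rfl
    exact h2 (by simpa using zero_mem_K v1)
  · intro h3
    apply h2
    by_cases hw0 : w = 0
    · subst hw0; simpa using zero_mem_K v1
    · right; rw [h3]; exact hwT.resolve_left hw0


theorem Min.T_eq {v w : V} (hv : Min e r v) (hw : w ∈ K e v) (hwm : rk e w = r) (hw0 : w ≠ 0) :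
    T e w = T e v := by
  have h1 := he.T_le (hv.reg he hr) hw hw0
  symm
  apply Submodule.eq_of_le_of_finrank_eq h1
  exact hv.rank.trans hwm.symm

theorem Min.closure_step {v1 : V} (hv1 : Min e r v1) {ws : V} (hws : ws ∈ T e v1) {ε : ℝ}
    (hε : 0 < ε) (hball : ∀ x ∈ T e v1, ‖x - ws‖ < ε → x ∈ K e v1)
    (hcl : ∀ η > 0, ∃ w ∈ T e v1, ‖w - ws‖ < η ∧ ∀ᶠ v in 𝓝 v1, P e v w ∈ K e v) :
    ∃ δ > 0, ∀ x ∈ T e v1, ‖x - ws‖ < δ → ∀ᶠ v in 𝓝 v1, P e v x ∈ K e v := by
  have hwsK : ws ∈ K e v1 := hball ws hws (by simpa using hε)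
  obtain ⟨hws0, hwsb⟩ := hv1.bad_of_int he hr hε hwsK hball
  have hid : ∀ τ, fderiv ℝ e ws (fderiv ℝ (P e) v1 τ ws) = fderiv ℝ e v1 τ := by
    intro τ
    by_contra hne
    have hc : ContinuousAt (fun w => fderiv ℝ e w (fderiv ℝ (P e) v1 τ w)) ws :=
      (he.contD hws0).continuousAt.clm_apply
        ((fderiv ℝ (P e) v1 τ).continuous.continuousAt)
    have h1 := (hc.eventually_ne hne).and (isOpen_ne.mem_nhds hws0)
    obtain ⟨η, hη, h2⟩ := Metric.eventually_nhds_iff_ball.1 h1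
    obtain ⟨w, hwT, hwη, hw⟩ := hcl η hη
    have h3 := h2 w (by rw [Metric.mem_ball, dist_eq_norm]; exact hwη)
    exact h3.1 (hv1.ident he hr h3.2 hwT hw τ)
  have hmin : Min e r ws := ⟨hws0, hwsb,
    le_antisymm (hv1.rk_le_of_ident he hr hid) (hr ws hws0 hwsb)⟩
  obtain ⟨δs, hδs, hunif⟩ := he.uniform (hmin.reg he hr)
  obtain ⟨η0, hη0, hη⟩ := Metric.eventually_nhds_iff_ball.1 (hunif.and (hmin.nhds he hr))
  obtain ⟨w, hwT, hwη, hw⟩ := hcl (min η0 (δs / 4)) (by positivity)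
  refine ⟨δs / 4, by positivity, fun x hx hxs => ?_⟩
  have hxw : ‖x - w‖ < δs := by
    have h1 : x - w = (x - ws) - (w - ws) := by abel
    have h2 : ‖w - ws‖ < δs / 4 := lt_of_lt_of_le hwη (min_le_right _ _)
    calc ‖x - w‖ ≤ ‖x - ws‖ + ‖w - ws‖ := by rw [h1]; exact norm_sub_le _ _
      _ < δs := by linarith
  have hPc : Tendsto (fun v => P e v w) (𝓝 v1) (𝓝 w) := by
    have h1 : ContinuousAt (fun v => P e v w) v1 :=
      (he.contP (hv1.reg he hr)).continuousAt.clm_apply continuousAt_const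
    have h2 := h1.tendsto
    rwa [P_of_mem hwT] at h2
  have hin : ∀ᶠ v in 𝓝 v1, P e v w ∈ Metric.ball ws η0 := by
    apply hPc
    apply Metric.isOpen_ball.mem_nhds
    rw [Metric.mem_ball, dist_eq_norm]
    exact lt_of_lt_of_le hwη (min_le_left _ _)
  filter_upwards [hw, hin, hv1.nhds he hr] with v hv hvin hvm
  obtain ⟨hU, hM⟩ := hη _ hvin
  have hT : T e (P e v w) = T e v := hvm.T_eq he hr hv hM.rank hM.ne
  have h1 : P e v x ∈ K e (P e v w) := by
    apply hU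
    · rw [hT]; exact P_mem v x
    · rw [← map_sub]
      exact lt_of_le_of_lt (P_norm_le _ _) hxw
  rwa [K_eq hv hM.ne] at h1

/-- the cone of `v` near `v1` contains the projections of relative interior points -/
theorem Min.transport {v1 : V} (hv1 : Min e r v1) {w : V} (hw : w ∈ T e v1) {ε : ℝ}
    (hε : 0 < ε) (hball : ∀ x ∈ T e v1, ‖x - w‖ < ε → x ∈ K e v1) :
    ∀ᶠ v in 𝓝 v1, P e v w ∈ K e v := by
  set s : Set (T e v1) := {y | ∃ ε > 0, ∀ x ∈ T e v1, ‖x - y‖ < ε → x ∈ K e v1} with hs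
  set u : Set (T e v1) := {y | ∃ ε > 0, ∀ x ∈ T e v1, ‖x - y‖ < ε →
    ∀ᶠ v in 𝓝 v1, P e v x ∈ K e v} with hu
  have hsc : Convex ℝ s := by
    rintro y1 ⟨ε1, hε1, h1⟩ y2 ⟨ε2, hε2, h2⟩ a b ha hb hab
    refine ⟨min ε1 ε2, lt_min hε1 hε2, fun x hx hxy => ?_⟩
    set d : V := x - ((a • y1 + b • y2 : T e v1) : V) with hd
    have hdT : d ∈ T e v1 := (T e v1).sub_mem hx (Subtype.mem _)
    have hx1 : (y1 : V) + d ∈ K e v1 := by
      apply h1 _ ((T e v1).add_mem y1.2 hdT)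
      rw [add_sub_cancel_left]; exact lt_of_lt_of_le hxy (min_le_left _ _)
    have hx2 : (y2 : V) + d ∈ K e v1 := by
      apply h2 _ ((T e v1).add_mem y2.2 hdT)
      rw [add_sub_cancel_left]; exact lt_of_lt_of_le hxy (min_le_right _ _)
    have h3 := (he.convex v1) hx1 hx2 ha hb hab
    have h4 : a • ((y1 : V) + d) + b • ((y2 : V) + d) = x := by
      have : a • ((y1 : V) + d) + b • ((y2 : V) + d) = a • (y1 : V) + b • (y2 : V) + (a + b) • d := by
        rw [add_smul, smul_add, smul_add]; abel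
      rw [this, hab, one_smul, hd]
      simp
    rwa [h4] at h3
  have huo : IsOpen u := by
    rw [Metric.isOpen_iff]
    rintro y ⟨ε1, hε1, h1⟩
    refine ⟨ε1 / 2, by positivity, fun z hz => ⟨ε1 / 2, by positivity, fun x hx hxz => ?_⟩⟩
    apply h1 x hx
    rw [Metric.mem_ball, Subtype.dist_eq, dist_eq_norm] at hz
    calc ‖x - y‖ = ‖(x - z) + (z - y)‖ := by congr 1; abel
      _ ≤ ‖x - z‖ + ‖(z : V) - y‖ := norm_add_le _ _
      _ < ε1 := by linarith
  have hself : (⟨v1, he.self_mem_T hv1.ne⟩ : T e v1) ∈ s ∩ u := by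
    obtain ⟨δ, hδ, h⟩ := he.uniform (hv1.reg he hr)
    refine ⟨⟨δ, hδ, fun x hx hx1 => h.self_of_nhds x hx hx1⟩, ⟨δ / 3, by positivity,
      fun x hx hx1 => ?_⟩⟩
    have hx1' : ‖x - v1‖ < δ / 3 := hx1
    have hPc : Tendsto (fun v => P e v x) (𝓝 v1) (𝓝 x) := by
      have h1 : ContinuousAt (fun v => P e v x) v1 :=
        (he.contP (hv1.reg he hr)).continuousAt.clm_apply continuousAt_const
      have h2 := h1.tendsto
      rwa [P_of_mem hx] at h2
    have h3 : ∀ᶠ v in 𝓝 v1, dist (P e v x) x < δ / 3 := hPc.eventually (Metric.ball_mem_nhds _ (by positivity))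
    have h4 : ∀ᶠ v in 𝓝 v1, dist v v1 < δ / 3 := Metric.ball_mem_nhds _ (by positivity)
    filter_upwards [h, h3, h4] with v hv hv3 hv4
    apply hv _ (P_mem v x)
    calc ‖P e v x - v‖ = ‖(P e v x - x) + (x - v1) + (v1 - v)‖ := by congr 1; abel
      _ ≤ ‖P e v x - x‖ + ‖x - v1‖ + ‖v1 - v‖ := norm_add₃_le
      _ < δ := by
        rw [dist_eq_norm] at hv3 hv4
        rw [norm_sub_rev v1 v]
        linarith
  have hsub : s ⊆ u := by
    apply hsc.isPreconnected.subset_of_closure_inter_subset huo ⟨_, hself⟩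
    rintro y ⟨hyc, ε1, hε1, hy⟩
    have := hv1.closure_step he hr y.2 hε1 hy (by
      intro η hη
      obtain ⟨z, hz, hzd⟩ := Metric.mem_closure_iff.1 hyc η hη
      obtain ⟨ε2, hε2, h2⟩ := hz
      refine ⟨z, z.2, ?_, h2 z z.2 (by simpa using hε2)⟩
      rw [dist_comm, Subtype.dist_eq, dist_eq_norm] at hzd
      exact hzd)
    exact this
  obtain ⟨ε2, hε2, h2⟩ := hsub (show (⟨w, hw⟩ : T e v1) ∈ s from ⟨ε, hε, hball⟩)
  exact h2 w hw (by simpa using hε2)

theorem Min.ident_all {v1 : V} (hv1 : Min e r v1) {w : V} (hw : w ∈ K e v1) (hw0 : w ≠ 0) (τ : V) :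
    fderiv ℝ e w (fderiv ℝ (P e) v1 τ w) = fderiv ℝ e v1 τ := by
  have hid : ∀ η : ℝ, 0 < η → fderiv ℝ e (w + η • v1) (fderiv ℝ (P e) v1 τ (w + η • v1)) =
      fderiv ℝ e v1 τ := by
    intro η hη
    obtain ⟨δ, hδ, h⟩ := he.uniform (hv1.reg he hr)
    have h1 := h.self_of_nhds
    have hball : ∀ x ∈ T e v1, ‖x - (w + η • v1)‖ < η * δ → x ∈ K e v1 := by
      intro x hx hxd
      set y : V := η⁻¹ • (x - w) with hy
      have hyT : y ∈ T e v1 := (T e v1).smul_mem _ ((T e v1).sub_mem hx (he.K_sub_T hv1.ne hw))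
      have hyK : y ∈ K e v1 := by
        apply h1 y hyT
        have h2 : y - v1 = η⁻¹ • (x - (w + η • v1)) := by
          rw [hy, smul_sub, smul_sub, smul_add, smul_smul, inv_mul_cancel₀ hη.ne', one_smul]; abel
        rw [h2, norm_smul, Real.norm_eq_abs, abs_of_pos (by positivity)]
        calc η⁻¹ * ‖x - (w + η • v1)‖ < η⁻¹ * (η * δ) := by gcongr
          _ = δ := by field_simp
      have h3 : x = w + η • y := by
        rw [hy, smul_smul, mul_inv_cancel₀ hη.ne', one_smul]; abel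
      rw [h3]
      exact he.add_mem hw (he.smul_mem hyK hη.le)
    have hmem : w + η • v1 ∈ K e v1 := he.add_mem hw (he.smul_mem (mem_K_self v1) hη.le)
    obtain ⟨h0, -⟩ := hv1.bad_of_int he hr (by positivity) hmem hball
    exact hv1.ident he hr h0 (he.K_sub_T hv1.ne hmem)
      (hv1.transport he hr (he.K_sub_T hv1.ne hmem) (by positivity) hball) τ
  have hc : Tendsto (fun η : ℝ => fderiv ℝ e (w + η • v1) (fderiv ℝ (P e) v1 τ (w + η • v1)))
      (𝓝[>] 0) (𝓝 (fderiv ℝ e w (fderiv ℝ (P e) v1 τ w))) := by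
    have h1 : Tendsto (fun η : ℝ => w + η • v1) (𝓝[>] 0) (𝓝 w) := by
      have h2 : Tendsto (fun η : ℝ => w + η • v1) (𝓝 0) (𝓝 (w + (0 : ℝ) • v1)) := by
        apply Continuous.tendsto; fun_prop
      rw [zero_smul, add_zero] at h2
      exact h2.mono_left nhdsWithin_le_nhds
    have hc : ContinuousAt (fun w => fderiv ℝ e w (fderiv ℝ (P e) v1 τ w)) w :=
      (he.contD hw0).continuousAt.clm_apply
        ((fderiv ℝ (P e) v1 τ).continuous.continuousAt)
    exact hc.tendsto.comp h1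
  have hc2 : Tendsto (fun η : ℝ => fderiv ℝ e (w + η • v1) (fderiv ℝ (P e) v1 τ (w + η • v1)))
      (𝓝[>] 0) (𝓝 (fderiv ℝ e v1 τ)) := by
    apply tendsto_const_nhds.congr'
    filter_upwards [self_mem_nhdsWithin] with η hη
    exact (hid η hη).symm
  exact tendsto_nhds_unique hc hc2

theorem Min.fib {v1 : V} (hv1 : Min e r v1) {w : V} (hw : w ∈ K e v1) (hw0 : w ≠ 0) :
    rk e w = r ∧ T e w = T e v1 := by
  have h1 : rk e w ≤ r := hv1.rk_le_of_ident he hr (fun τ => hv1.ident_all he hr hw hw0 τ)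
  have h2 : r ≤ rk e w := by
    rw [← hv1.rank]
    exact Submodule.finrank_mono (he.T_le (hv1.reg he hr) hw hw0)
  have h3 := le_antisymm h1 h2
  exact ⟨h3, hv1.T_eq he hr hw h3 hw0⟩

/-- exit point of a segment -/
theorem Min.exit {v1 : V} (hv1 : Min e r v1) {x : V} (hx : x ∈ T e v1) (hxK : x ∉ K e v1)
    (hxK' : -x ∉ K e v1) : ∃ a : ℝ, 0 < a ∧ ∃ b : ℝ, 0 < b ∧ -(a • v1 + b • x) ∈ K e v1 := by
  set S : Set ℝ := {s | s ∈ Icc (0 : ℝ) 1 ∧ (1 - s) • v1 + s • x ∈ K e v1} with hS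
  have h0S : (0 : ℝ) ∈ S := ⟨by simp, by simpa using mem_K_self v1⟩
  have hSb : BddAbove S := ⟨1, fun s hs => hs.1.2⟩
  have hSc : IsClosed S := by
    apply isClosed_Icc.inter
    exact (he.isClosed v1).preimage (by fun_prop)
  set σ := sSup S with hσ
  have hσS : σ ∈ S := hSc.csSup_mem ⟨0, h0S⟩ hSb
  have hσ1 : σ < 1 := by
    rcases lt_or_eq_of_le hσS.1.2 with h | h
    · exact h
    · exfalso; apply hxK
      have := hσS.2
      rw [h] at this
      simpa using this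
  set y : V := (1 - σ) • v1 + σ • x with hy
  have hyK : y ∈ K e v1 := hσS.2
  -- beyond σ the points are outside
  have hbeyond : ∀ s, σ < s → s ≤ 1 → (1 - s) • v1 + s • x ∉ K e v1 := by
    intro s hs hs1 hk
    have : s ≤ σ := le_csSup hSb ⟨⟨le_trans hσS.1.1 hs.le, hs1⟩, hk⟩
    linarith
  have hnoball : ∀ δ > 0, ¬ ∀ z ∈ T e v1, ‖z - y‖ < δ → z ∈ K e v1 := by
    intro δ hδ hall
    set η : ℝ := min (1 - σ) (δ / (2 * (‖v1‖ + ‖x‖ + 1))) with hη
    have hpos : 0 < ‖v1‖ + ‖x‖ + 1 := by positivity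
    have hηpos : 0 < η := lt_min (by linarith) (by positivity)
    apply hbeyond (σ + η) (by linarith) (by have := min_le_left (1 - σ) (δ / (2 * (‖v1‖ + ‖x‖ + 1))); linarith)
    apply hall
    · exact (T e v1).add_mem ((T e v1).smul_mem _ (he.self_mem_T hv1.ne)) ((T e v1).smul_mem _ hx)
    · have h1 : (1 - (σ + η)) • v1 + (σ + η) • x - y = η • (x - v1) := by
        rw [hy]; module
      rw [h1, norm_smul, Real.norm_eq_abs, abs_of_pos hηpos]
      have h2 : ‖x - v1‖ ≤ ‖v1‖ + ‖x‖ + 1 := by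
        have := norm_sub_le x v1; linarith
      have h3 : η ≤ δ / (2 * (‖v1‖ + ‖x‖ + 1)) := min_le_right _ _
      calc η * ‖x - v1‖ ≤ δ / (2 * (‖v1‖ + ‖x‖ + 1)) * (‖v1‖ + ‖x‖ + 1) := by gcongr
        _ = δ / 2 := by field_simp
        _ < δ := by linarith
  have hσ0 : 0 < σ := by
    rcases hσS.1.1.eq_or_lt with h | h
    · exfalso
      obtain ⟨δ, hδ, hU⟩ := he.uniform (hv1.reg he hr)
      apply hnoball δ hδ
      have : y = v1 := by rw [hy, ← h]; simp
      rw [this]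
      exact hU.self_of_nhds
    · exact h
  have hy0 : y ≠ 0 := by
    intro h
    apply hxK'
    have h1 : -x = ((1 - σ) / σ) • v1 := by
      have h2 : σ • (-x) = (1 - σ) • v1 := by
        rw [smul_neg, neg_eq_iff_add_eq_zero, add_comm]; exact h
      rw [div_eq_inv_mul, mul_smul, ← h2, smul_smul, inv_mul_cancel₀ hσ0.ne', one_smul]
    rw [h1]
    exact he.smul_mem (mem_K_self v1) (div_nonneg (by linarith) hσ0.le)
  have hyf := hv1.fib he hr hyK hy0
  have hgood : e (-y) = e y := by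
    by_contra hb
    have hm : Min e r y := ⟨hy0, hb, hyf.1⟩
    obtain ⟨δ, hδ, hU⟩ := he.uniform (hm.reg he hr)
    apply hnoball δ hδ
    have := hU.self_of_nhds
    rw [hyf.2, K_eq hyK hy0] at this
    exact this
  refine ⟨1 - σ, by linarith, σ, hσ0, ?_⟩
  right
  rw [← hy, hgood]
  exact hyK.resolve_left hy0

/-- the half-space property -/
theorem Min.half {v1 : V} (hv1 : Min e r v1) {x : V} (hx : x ∈ T e v1) :
    x ∈ K e v1 ∨ -x ∈ K e v1 := by
  by_contra hcon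
  rw [not_or] at hcon
  obtain ⟨a, ha, b, hb, h1⟩ := hv1.exit he hr hx hcon.1 hcon.2
  obtain ⟨a', ha', b', hb', h2⟩ := hv1.exit he hr ((T e v1).neg_mem hx) hcon.2
    (by rw [neg_neg]; exact hcon.1)
  have h3 := he.add_mem (he.smul_mem h1 hb'.le) (he.smul_mem h2 hb.le)
  have h4 : b' • -(a • v1 + b • x) + b • -(a' • v1 + b' • -x) = (b' * a + b * a') • (-v1) := by
    module
  rw [h4] at h3
  have h5 : 0 < b' * a + b * a' := by positivity
  have h6 := he.smul_mem h3 (t := (b' * a + b * a')⁻¹) (by positivity)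
  rw [smul_smul, inv_mul_cancel₀ h5.ne', one_smul] at h6
  exact hv1.bad (h6.resolve_left (neg_ne_zero.2 hv1.ne))


end

/-- **All fibres are linear** (helper661 (I.3)). -/
theorem Cone.no_bad (he : Cone e) (v : V) (hv : v ≠ 0) : e (-v) = e v := by
  classical
  by_contra hbad
  -- minimal kernel dimension of a bad vector
  have hex : ∃ r : ℕ, ∃ w : V, w ≠ 0 ∧ e (-w) ≠ e w ∧ rk e w = r := ⟨_, v, hv, hbad, rfl⟩
  set r := Nat.find hex with hrdef
  obtain ⟨v1, hv10, hv1b, hv1r⟩ := Nat.find_spec hex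
  have hr : ∀ v : V, v ≠ 0 → e (-v) ≠ e v → r ≤ rk e v := fun v hv hb =>
    Nat.find_min' hex ⟨v, hv, hb, rfl⟩
  have hv1 : Min e r v1 := ⟨hv10, hv1b, hv1r⟩
  obtain ⟨l, hl0, hl1, hl2⟩ := he.line v1 hv10
  have hlK : l ∈ K e v1 := Or.inr hl1
  have hlK' : -l ∈ K e v1 := Or.inr hl2
  have hlf := hv1.fib he hr hlK hl0
  -- the test vectors
  let w : ℝ → V := fun ε => l - ε • v1
  have hnotK : ∀ ε, 0 < ε → w ε ∉ K e v1 := by
    intro ε hε h
    have h1 := he.add_mem h hlK'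
    have h2 : w ε + -l = ε • (-v1) := by simp only [w]; rw [smul_neg]; abel
    rw [h2] at h1
    have h3 := he.smul_mem h1 (t := ε⁻¹) (by positivity)
    rw [smul_smul, inv_mul_cancel₀ hε.ne', one_smul] at h3
    exact hv1b (h3.resolve_left (neg_ne_zero.2 hv10))
  have hw0 : ∀ ε, 0 < ε → w ε ≠ 0 := fun ε hε h => hnotK ε hε (Or.inl h)
  have hwe : ∀ ε, 0 < ε → e (w ε) ≠ e v1 := fun ε hε h => hnotK ε hε (Or.inr h)
  have hwbad : ∀ ε, 0 < ε → e (-(w ε)) ≠ e (w ε) := by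
    intro ε hε h
    have h1 : -(w ε) ∈ K e v1 := by
      have h2 : -(w ε) = ε • v1 + -l := by simp only [w]; abel
      rw [h2]
      exact he.add_mem (he.smul_mem (mem_K_self v1) hε.le) hlK'
    have h3 := h1.resolve_left (neg_ne_zero.2 (hw0 ε hε))
    exact hwe ε hε (h.symm.trans h3)
  have hwt : Tendsto w (𝓝[>] 0) (𝓝 l) := by
    have h2 : Tendsto w (𝓝 0) (𝓝 (w 0)) := by
      apply Continuous.tendsto
      simp only [w]; fun_prop
    have h3 : w 0 = l := by simp [w]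
    rw [h3] at h2
    exact h2.mono_left nhdsWithin_le_nhds
  obtain ⟨Q, hQ, hQe⟩ := he.exists_Q hl0
  have hwmin : ∀ᶠ ε in 𝓝[>] (0 : ℝ), Min e r (w ε) ∧ P e (w ε) = Q (w ε) := by
    filter_upwards [hwt.eventually hQe, self_mem_nhdsWithin] with ε h1 hε
    have h2 : rk e (w ε) = r := le_antisymm (by rw [← hlf.1]; exact h1.1)
      (hr _ (hw0 ε hε) (hwbad ε hε))
    exact ⟨⟨hw0 ε hε, hwbad ε hε, h2⟩, h1.2 (by rw [h2, hlf.1])⟩
  let y : ℝ → V := fun ε => P e (w ε) v1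
  have hyt : Tendsto y (𝓝[>] 0) (𝓝 v1) := by
    have h1 : Tendsto (fun ε => Q (w ε) v1) (𝓝[>] 0) (𝓝 (Q l v1)) :=
      ((hQ.continuousAt.clm_apply continuousAt_const).tendsto).comp hwt
    have h2 : Q l v1 = v1 := by
      have h3 := hQe.self_of_nhds.2 rfl
      rw [← h3]
      apply P_of_mem
      rw [hlf.2]; exact he.self_mem_T hv10
    rw [h2] at h1
    apply h1.congr'
    filter_upwards [hwmin] with ε h
    simp only [y, h.2]
  have hyneg : ∀ᶠ ε in 𝓝[>] (0 : ℝ), -(y ε) ∉ K e (w ε) := by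
    have h1 : Tendsto (fun ε => e (-(y ε))) (𝓝[>] 0) (𝓝 (e (-v1))) :=
      ((he.cont (neg_ne_zero.2 hv10)).tendsto).comp hyt.neg
    have h2 : Tendsto (fun ε => e (w ε)) (𝓝[>] 0) (𝓝 (e v1)) := by
      have := ((he.cont hl0).tendsto).comp hwt
      rwa [hl1] at this
    have h3 := h1.prodMk_nhds h2
    have h4 : IsOpen {p : F × F | p.1 ≠ p.2} := isOpen_ne_fun continuous_fst continuous_snd
    filter_upwards [h3 (h4.mem_nhds hv1b), hyt.eventually_ne hv10] with ε h5 h6 h7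
    exact h5 (h7.resolve_left (neg_ne_zero.2 h6))
  -- all properties of y
  have hy : ∀ᶠ ε in 𝓝[>] (0 : ℝ), y ε ≠ v1 ∧ P e (y ε) (y ε - v1) = 0 ∧
      (P e (y ε) - P e v1) (w ε) = 0 := by
    filter_upwards [hwmin, hyneg, hyt.eventually_ne hv10, self_mem_nhdsWithin] with ε hm hn hy0 hε
    have h1 : y ε ∈ K e (w ε) := (hm.1.half he hr (P_mem (w ε) v1)).resolve_right hn
    have h2 := hm.1.fib he hr h1 hy0
    have h3 : P e (y ε) = P e (w ε) := by
      unfold P; simp only [h2.2]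
    refine ⟨?_, ?_, ?_⟩
    · intro h4
      have h5 := h1.resolve_left hy0
      rw [h4] at h5
      exact hwe ε hε h5.symm
    · rw [map_sub, h3, P_of_mem (P_mem (w ε) v1)]
      exact sub_self _
    · rw [sub_apply, h3, P_of_mem (he.self_mem_T (hw0 ε hε)), P_of_mem, sub_self]
      exact (T e v1).sub_mem (he.K_sub_T hv10 hlK)
        ((T e v1).smul_mem _ (he.self_mem_T hv10))
  -- a sequence
  obtain ⟨εs, hεs⟩ : ∃ εs : ℕ → ℝ, Tendsto εs atTop (𝓝[>] 0) :=
    ⟨_, tendsto_inv_atTop_nhdsGT_zero.comp tendsto_natCast_atTop_atTop⟩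
  let τ : ℕ → V := fun n => (‖y (εs n) - v1‖)⁻¹ • (y (εs n) - v1)
  have hyn := hεs.eventually hy
  have hτ1 : ∀ᶠ n in atTop, τ n ∈ Metric.sphere (0 : V) 1 := by
    filter_upwards [hyn] with n hn
    have : y (εs n) - v1 ≠ 0 := sub_ne_zero.2 hn.1
    rw [mem_sphere_zero_iff_norm]
    simp only [τ]
    rw [norm_smul, norm_inv, norm_norm, inv_mul_cancel₀ (norm_ne_zero_iff.2 this)]
  obtain ⟨t, ht, φ, hφ, hφt⟩ := (isCompact_sphere (0 : V) 1).tendsto_subseq' hτ1.frequently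
  have hεφ : Tendsto (fun n => εs (φ n)) atTop (𝓝[>] 0) := hεs.comp hφ.tendsto_atTop
  have hyφ : ∀ᶠ n in atTop, y (εs (φ n)) ≠ v1 ∧ P e (y (εs (φ n))) (y (εs (φ n)) - v1) = 0 ∧
      (P e (y (εs (φ n))) - P e v1) (w (εs (φ n))) = 0 := hεφ.eventually hy
  have hPc : ContinuousAt (P e) v1 := (he.contP (hv1.reg he hr)).continuousAt
  have hyl : Tendsto (fun n => y (εs (φ n))) atTop (𝓝 v1) := hyt.comp hεφ
  have htn : ‖t‖ = 1 := by simpa using ht
  -- P v1 t = 0
  have hPt : P e v1 t = 0 := by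
    have h0 : Tendsto (fun n => P e (y (εs (φ n)))) atTop (𝓝 (P e v1)) := hPc.tendsto.comp hyl
    have h1 : Tendsto (fun n => P e (y (εs (φ n))) (τ (φ n))) atTop (𝓝 (P e v1 t)) :=
      tendsto_clm_apply h0 hφt
    have h2 : Tendsto (fun n => P e (y (εs (φ n))) (τ (φ n))) atTop (𝓝 0) := by
      apply tendsto_const_nhds.congr'
      filter_upwards [hyφ] with n hn
      simp only [τ]
      rw [map_smul, hn.2.1, smul_zero]
    exact tendsto_nhds_unique h1 h2
  have hDt : fderiv ℝ e v1 t ≠ 0 := by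
    intro h
    have h1 : t ∈ T e v1 := h
    rw [P_of_mem h1] at hPt
    rw [hPt, norm_zero] at htn
    exact zero_ne_one htn
  -- P' t l = 0
  have hPd : HasFDerivAt (P e) (fderiv ℝ (P e) v1) v1 :=
    ((he.contP (hv1.reg he hr)).differentiableAt (by norm_num)).hasFDerivAt
  have hP' : fderiv ℝ (P e) v1 t l = 0 := by
    have hwl : Tendsto (fun n => w (εs (φ n))) atTop (𝓝 l) := hwt.comp hεφ
    have h1 : Tendsto (fun n => ‖fderiv ℝ (P e) v1 (τ (φ n)) (w (εs (φ n)))‖) atTop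
        (𝓝 ‖fderiv ℝ (P e) v1 t l‖) := by
      have h2 : Tendsto (fun n => fderiv ℝ (P e) v1 (τ (φ n))) atTop (𝓝 (fderiv ℝ (P e) v1 t)) :=
        ((fderiv ℝ (P e) v1).continuous.tendsto t).comp hφt
      exact (tendsto_clm_apply h2 hwl).norm
    have h3 : ∀ c : ℝ, 0 < c → ‖fderiv ℝ (P e) v1 t l‖ ≤ c * ‖l‖ := by
      intro c hc
      have h4 : Tendsto (fun n => c * ‖w (εs (φ n))‖) atTop (𝓝 (c * ‖l‖)) := hwl.norm.const_mul c
      refine le_of_tendsto_of_tendsto h1 h4 ?_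
      filter_upwards [hyl.eventually (hPd.isLittleO.def hc), hyφ] with n hn hn2
      have hne : y (εs (φ n)) - v1 ≠ 0 := sub_ne_zero.2 hn2.1
      have hpos : 0 < ‖y (εs (φ n)) - v1‖ := norm_pos_iff.2 hne
      have h5 : fderiv ℝ (P e) v1 (y (εs (φ n)) - v1) (w (εs (φ n))) =
          -((P e (y (εs (φ n))) - P e v1 - fderiv ℝ (P e) v1 (y (εs (φ n)) - v1)) (w (εs (φ n)))) := by
        rw [sub_apply, hn2.2.2, zero_sub, neg_neg]
      simp only [τ]
      rw [map_smul, smul_apply, norm_smul, norm_inv, norm_norm, h5, norm_neg]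
      calc ‖y (εs (φ n)) - v1‖⁻¹ * ‖(P e (y (εs (φ n))) - P e v1 -
              fderiv ℝ (P e) v1 (y (εs (φ n)) - v1)) (w (εs (φ n)))‖
          ≤ ‖y (εs (φ n)) - v1‖⁻¹ * (‖P e (y (εs (φ n))) - P e v1 -
              fderiv ℝ (P e) v1 (y (εs (φ n)) - v1)‖ * ‖w (εs (φ n))‖) := by
            gcongr; exact ContinuousLinearMap.le_opNorm _ _
        _ ≤ ‖y (εs (φ n)) - v1‖⁻¹ * ((c * ‖y (εs (φ n)) - v1‖) * ‖w (εs (φ n))‖) := by
            gcongr
        _ = c * ‖w (εs (φ n))‖ := by field_simp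
    by_contra hne
    have hp1 : 0 < ‖fderiv ℝ (P e) v1 t l‖ := norm_pos_iff.2 hne
    have hp2 : 0 < ‖l‖ := norm_pos_iff.2 hl0
    have h6 := h3 (‖fderiv ℝ (P e) v1 t l‖ / (2 * ‖l‖)) (by positivity)
    have h7 : ‖fderiv ℝ (P e) v1 t l‖ / (2 * ‖l‖) * ‖l‖ = ‖fderiv ℝ (P e) v1 t l‖ / 2 := by
      field_simp
    linarith
  have hfin := hv1.ident_all he hr hlK hl0 t
  rw [hP', map_zero] at hfin
  exact hDt hfin.symm

theorem Cone.neg_mem (he : Cone e) {v w : V} (hw : w ∈ K e v) : -w ∈ K e v := by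
  by_cases hw0 : w = 0
  · subst hw0; simpa using hw
  · right
    rw [he.no_bad w hw0]
    exact hw.resolve_left hw0

/-- the fibre through `v`, together with `0`, as a subspace -/
def Cone.sub (he : Cone e) (v : V) : Submodule ℝ V where
  carrier := K e v
  add_mem' := fun h1 h2 => he.add_mem h1 h2
  zero_mem' := zero_mem_K v
  smul_mem' := by
    intro c x hx
    rcases le_total 0 c with hc | hc
    · exact he.smul_mem hx hc
    · have h1 := he.neg_mem (he.smul_mem hx (neg_nonneg.2 hc))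
      rwa [neg_smul, neg_neg] at h1

theorem Cone.mem_sub (he : Cone e) {v w : V} (hw0 : w ≠ 0) : w ∈ he.sub v ↔ e w = e v :=
  ⟨fun h => Or.resolve_left h hw0, fun h => Or.inr h⟩

theorem Cone.self_mem_sub (he : Cone e) (v : V) : v ∈ he.sub v := mem_K_self v

theorem Cone.sub_le_T (he : Cone e) {v : V} (hv : v ≠ 0) : he.sub v ≤ T e v :=
  fun _ hx => he.K_sub_T hv hx

/-- at regular points the fibre is the whole kernel -/
theorem Cone.sub_eq_T (he : Cone e) {v : V} (hv : Reg e v) : he.sub v = T e v := by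
  apply le_antisymm (he.sub_le_T hv.1)
  obtain ⟨δ, hδ, h⟩ := he.uniform hv
  have h1 := h.self_of_nhds
  intro x hx
  by_cases hx0 : x = 0
  · subst hx0; exact (he.sub v).zero_mem
  have hxpos : 0 < ‖x‖ := norm_pos_iff.2 hx0
  have hcpos : 0 < δ / (2 * ‖x‖) := by positivity
  have h2 : v + (δ / (2 * ‖x‖)) • x ∈ he.sub v := by
    apply h1 _ ((T e v).add_mem (he.self_mem_T hv.1) ((T e v).smul_mem _ hx))
    rw [add_sub_cancel_left, norm_smul, Real.norm_eq_abs, abs_of_pos hcpos]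
    field_simp
    linarith
  have h3 := (he.sub v).sub_mem h2 (he.self_mem_sub v)
  rw [add_sub_cancel_left] at h3
  have h4 := (he.sub v).smul_mem (δ / (2 * ‖x‖))⁻¹ h3
  rwa [smul_smul, inv_mul_cancel₀ hcpos.ne', one_smul] at h4

/-- **Constant rank implies that fibres are exactly the kernels.** -/
theorem Cone.fibre_of_const_rank (he : Cone e) {k : ℕ} (hk : ∀ v : V, v ≠ 0 → rk e v = k)
    {v w : V} (hv : v ≠ 0) (hw : w ≠ 0) : e w = e v ↔ w ∈ T e v := by
  have hreg : Reg e v := by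
    refine ⟨hv, ?_⟩
    filter_upwards [isOpen_ne.mem_nhds hv] with x hx
    rw [hk x hx, hk v hv]
  rw [← he.mem_sub hw, he.sub_eq_T hreg]

/-- always `dim (fibre) ≤ dim ker`. -/
theorem Cone.finrank_sub_le (he : Cone e) {v : V} (hv : v ≠ 0) :
    Module.finrank ℝ (he.sub v) ≤ rk e v :=
  Submodule.finrank_mono (he.sub_le_T hv)

end Crest.Agent.R208.IB
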