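import Mathlib

/-!
R208, block G5 / (6): crossing lemma.  A continuous family `Q z t` of symmetric operators,
nondegenerate for `t ≠ D`, with negative definite `t`-derivative at `(z0, D)`, has locally
constant nullity at `t = D`.
-/

set_option autoImplicit false
set_option linter.unusedSectionVars false

open Set Filter Topology
open scoped RealInnerProductSpace

noncomputable section

namespace Crest.Agent.R208.IC

variable {E : Type*} [NormedAddCommGroup E] [InnerProductSpace ℝ E] [FiniteDimensional ℝ E]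

/-- Negative semidefinite symmetric forms: null vectors are in the kernel. -/
theorem null_of_nonpos {K0 : Submodule ℝ E} {A : E →L[ℝ] E} (hs : ∀ x y, ⟪A x, y⟫ = ⟪x, A y⟫)
    (hK : ∀ x ∈ K0, A x ∈ K0) (hn : ∀ x ∈ K0, ⟪A x, x⟫ ≤ 0) {x : E} (hx : x ∈ K0)
    (h0 : ⟪A x, x⟫ = 0) : A x = 0 := by
  by_contra hne
  set y := A x with hy
  have hyK : y ∈ K0 := hK x hx
  have hpos : 0 < ⟪y, y⟫ := by
    rw [real_inner_self_eq_norm_sq]
    have := norm_pos_iff.2 hne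
    positivity
  have key : ∀ s : ℝ, 2 * s * ⟪y, y⟫ + s ^ 2 * ⟪A y, y⟫ ≤ 0 := by
    intro s
    have h1 := hn (x + s • y) (K0.add_mem hx (K0.smul_mem _ hyK))
    have h2 : ⟪A (x + s • y), x + s • y⟫ = ⟪A x, x⟫ + 2 * s * ⟪y, y⟫ + s ^ 2 * ⟪A y, y⟫ := by
      rw [map_add, map_smul, inner_add_left, inner_add_right, inner_add_right, inner_smul_left,
        inner_smul_right, inner_smul_left, inner_smul_right, hs y x, ← hy]
      simp only [conj_trivial]
      ring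
    rw [h2, h0] at h1
    linarith
  -- choose small positive s
  set c := |⟪A y, y⟫| with hc
  have hc0 : 0 ≤ c := abs_nonneg _
  set s : ℝ := ⟪y, y⟫ / (c + 1) with hsdef
  have hspos : 0 < s := by positivity
  have h3 := key s
  have h4 : s * c ≤ ⟪y, y⟫ := by
    rw [hsdef, div_mul_eq_mul_div, div_le_iff₀ (by positivity)]
    nlinarith
  have h5 : -c ≤ ⟪A y, y⟫ := neg_abs_le _
  nlinarith [mul_pos hspos hpos, mul_le_mul_of_nonneg_left h4 hspos.le,
    mul_le_mul_of_nonneg_left h5 (sq_nonneg s)]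

/-- one-sided version of the crossing argument -/
theorem half {K0 : Submodule ℝ E} {σ : ℝ → E →L[ℝ] E} {a b : ℝ} (hab : a < b)
    (hc : ContinuousOn σ (Icc a b))
    (hs : ∀ t ∈ Icc a b, ∀ x y, ⟪σ t x, y⟫ = ⟪x, σ t y⟫)
    (hK : ∀ t ∈ Icc a b, ∀ x ∈ K0, σ t x ∈ K0)
    (hinj : ∀ t ∈ Ioc a b, ∀ x ∈ K0, σ t x = 0 → x = 0)
    (hneg : ∀ x ∈ K0, x ≠ 0 → ⟪σ b x, x⟫ < 0) :
    ∀ x ∈ K0, ⟪σ a x, x⟫ ≤ 0 := by
  -- continuity of the form
  have hform : ∀ x : E, ContinuousOn (fun t => ⟪σ t x, x⟫) (Icc a b) := by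
    intro x
    exact (hc.clm_apply continuousOn_const).inner continuousOn_const
  -- limits from the right
  have hlim : ∀ τ ∈ Ico a b, (∀ t ∈ Ioc τ b, ∀ x ∈ K0, x ≠ 0 → ⟪σ t x, x⟫ < 0) →
      ∀ x ∈ K0, ⟪σ τ x, x⟫ ≤ 0 := by
    intro τ hτ h x hx
    by_cases hx0 : x = 0
    · subst hx0; simp
    have h1 : Tendsto (fun t => ⟪σ t x, x⟫) (𝓝[>] τ) (𝓝 ⟪σ τ x, x⟫) := by
      have h2 : ContinuousWithinAt (fun t => ⟪σ t x, x⟫) (Icc a b) τ := hform x τ ⟨hτ.1, hτ.2.le⟩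
      apply h2.mono_of_mem_nhdsWithin
      have : Icc τ b ∈ 𝓝[>] τ := Icc_mem_nhdsGT hτ.2
      exact mem_of_superset this (Icc_subset_Icc_left hτ.1)
    apply le_of_tendsto h1
    filter_upwards [Ioc_mem_nhdsGT hτ.2] with t ht
    exact (h t ht x hx hx0).le
  set B : Set ℝ := {t | t ∈ Icc a b ∧ ∃ x ∈ K0, ‖x‖ = 1 ∧ 0 ≤ ⟪σ t x, x⟫} with hB
  by_cases hcase : ∃ t ∈ B, a < t
  · exfalso
    obtain ⟨t1, ht1, hat1⟩ := hcase
    have hBb : BddAbove B := ⟨b, fun t ht => ht.1.2⟩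
    have hBc : IsClosed B := by
      rw [← isSeqClosed_iff_isClosed]
      intro u t hu hut
      have htI : t ∈ Icc a b := isClosed_Icc.mem_of_tendsto hut (Eventually.of_forall fun n => (hu n).1)
      refine ⟨htI, ?_⟩
      choose x hxK hx1 hx2 using fun n => (hu n).2
      obtain ⟨y, hy, φ, hφ, hφy⟩ := (isCompact_sphere (0 : E) 1).tendsto_subseq
        (x := x) (fun n => by simpa using hx1 n)
      have hK0c : IsClosed (K0 : Set E) := K0.closed_of_finiteDimensional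
      refine ⟨y, hK0c.mem_of_tendsto hφy (Eventually.of_forall fun n => hxK _), by simpa using hy, ?_⟩
      have h1 : Tendsto (fun n => σ (u (φ n))) atTop (𝓝 (σ t)) := by
        have h2 : Tendsto σ (𝓝[Icc a b] t) (𝓝 (σ t)) := hc t htI
        apply h2.comp
        rw [tendsto_nhdsWithin_iff]
        exact ⟨hut.comp hφ.tendsto_atTop, Eventually.of_forall fun n => (hu _).1⟩
      have h3 : Tendsto (fun n => σ (u (φ n)) (x (φ n))) atTop (𝓝 (σ t y)) :=
        (isBoundedBilinearMap_apply.continuous.tendsto (σ t, y)).comp (h1.prodMk_nhds hφy)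
      have h4 : Tendsto (fun n => ⟪σ (u (φ n)) (x (φ n)), x (φ n)⟫) atTop (𝓝 ⟪σ t y, y⟫) :=
        h3.inner hφy
      exact ge_of_tendsto' h4 (fun n => hx2 _)
    set τ := sSup B with hτ
    have hτB : τ ∈ B := hBc.csSup_mem ⟨t1, ht1⟩ hBb
    have hτa : a < τ := lt_of_lt_of_le hat1 (le_csSup hBb ht1)
    obtain ⟨x, hxK, hx1, hx2⟩ := hτB.2
    have hx0 : x ≠ 0 := by
      intro h; rw [h, norm_zero] at hx1; exact zero_ne_one hx1
    have hτb : τ < b := by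
      rcases lt_or_eq_of_le hτB.1.2 with h | h
      · exact h
      · exfalso
        have := hneg x hxK hx0
        rw [← h] at this
        linarith
    have hafter : ∀ t ∈ Ioc τ b, ∀ y ∈ K0, y ≠ 0 → ⟪σ t y, y⟫ < 0 := by
      intro t ht y hy hy0
      by_contra hcon
      rw [not_lt] at hcon
      have hyn : 0 < ‖y‖ := norm_pos_iff.2 hy0
      have : t ∈ B := by
        refine ⟨⟨by linarith [ht.1], ht.2⟩, ‖y‖⁻¹ • y, K0.smul_mem _ hy, ?_, ?_⟩
        · rw [norm_smul, norm_inv, norm_norm, inv_mul_cancel₀ hyn.ne']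
        · rw [map_smul, inner_smul_left, inner_smul_right]
          simp only [conj_trivial]
          positivity
      have h2 := le_csSup hBb this
      linarith [ht.1]
    have hnp := hlim τ ⟨hτa.le, hτb⟩ hafter
    have h0 : ⟪σ τ x, x⟫ = 0 := le_antisymm (hnp x hxK) hx2
    have h1 := null_of_nonpos (hs τ hτB.1) (hK τ hτB.1) hnp hxK h0
    exact hx0 (hinj τ ⟨hτa, hτB.1.2⟩ x hxK h1)
  · push Not at hcase
    apply hlim a ⟨le_rfl, hab⟩
    intro t ht y hy hy0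
    by_contra hcon
    rw [not_lt] at hcon
    have hyn : 0 < ‖y‖ := norm_pos_iff.2 hy0
    have : t ∈ B := by
      refine ⟨⟨by linarith [ht.1], ht.2⟩, ‖y‖⁻¹ • y, K0.smul_mem _ hy, ?_, ?_⟩
      · rw [norm_smul, norm_inv, norm_norm, inv_mul_cancel₀ hyn.ne']
      · rw [map_smul, inner_smul_left, inner_smul_right]
        simp only [conj_trivial]
        positivity
    have h2 := hcase t this
    linarith [ht.1]

/-! ### Schur complement -/

section schur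

variable (K0 : Submodule ℝ E)

/-- projection on `K0` -/
def P0 : E →L[ℝ] E := K0.starProjection

/-- projection on the orthogonal complement -/
def P1 : E →L[ℝ] E := 1 - P0 K0

lemma P0_P0 : P0 K0 * P0 K0 = P0 K0 := K0.isIdempotentElem_starProjection

lemma P0_P1 : P0 K0 * P1 K0 = 0 := by rw [P1, mul_sub, mul_one, P0_P0, sub_self]

lemma P1_P0 : P1 K0 * P0 K0 = 0 := by rw [P1, sub_mul, one_mul, P0_P0, sub_self]

lemma P1_P1 : P1 K0 * P1 K0 = P1 K0 := by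
  conv_lhs => rw [P1]
  rw [sub_mul, one_mul, ← P1, P0_P1, sub_zero]

lemma sa_P0 : IsSelfAdjoint (P0 K0) := isSelfAdjoint_starProjection K0

lemma sa_P1 : IsSelfAdjoint (P1 K0) := by
  rw [P1]; exact (IsSelfAdjoint.one _).sub (sa_P0 K0)

lemma P0_mem (x : E) : P0 K0 x ∈ K0 := Submodule.starProjection_apply_mem _ _

lemma P0_of_mem {x : E} (hx : x ∈ K0) : P0 K0 x = x := Submodule.starProjection_eq_self_iff.2 hx

lemma P1_of_mem {x : E} (hx : x ∈ K0) : P1 K0 x = 0 := by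
  rw [P1, sub_apply, P0_of_mem K0 hx]; simp

lemma mem_of_P1 {x : E} (hx : P1 K0 x = 0) : x ∈ K0 := by
  rw [P1, sub_apply, sub_eq_zero] at hx
  have : x = P0 K0 x := hx
  rw [this]; exact P0_mem K0 x

/-- the block on the complement, extended by the identity -/
def Cm (Q : E →L[ℝ] E) : E →L[ℝ] E := P1 K0 * Q * P1 K0 + P0 K0

/-- Schur complement -/
def Sg (Q : E →L[ℝ] E) : E →L[ℝ] E := Q - Q * P1 K0 * Ring.inverse (Cm K0 Q) * P1 K0 * Q

/-- lifting map -/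
def Lf (Q : E →L[ℝ] E) : E →L[ℝ] E := 1 - P1 K0 * Ring.inverse (Cm K0 Q) * P1 K0 * Q

variable {K0} {Q : E →L[ℝ] E}

lemma Q_Lf : Q * Lf K0 Q = Sg K0 Q := by
  rw [Lf, Sg]; noncomm_ring

lemma Cm_P1 : Cm K0 Q * P1 K0 = P1 K0 * Q * P1 K0 := by
  rw [Cm, add_mul, P0_P1, add_zero, mul_assoc, P1_P1]

lemma P1_Cm : P1 K0 * Cm K0 Q = P1 K0 * Q * P1 K0 := by
  rw [Cm, mul_add, P1_P0, add_zero, ← mul_assoc, ← mul_assoc, P1_P1]

lemma inv_comm (hu : IsUnit (Cm K0 Q)) :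
    Ring.inverse (Cm K0 Q) * P1 K0 = P1 K0 * Ring.inverse (Cm K0 Q) := by
  have h1 : Cm K0 Q * Ring.inverse (Cm K0 Q) = 1 := Ring.mul_inverse_cancel _ hu
  have h2 : Ring.inverse (Cm K0 Q) * Cm K0 Q = 1 := Ring.inverse_mul_cancel _ hu
  calc Ring.inverse (Cm K0 Q) * P1 K0
      = Ring.inverse (Cm K0 Q) * P1 K0 * (Cm K0 Q * Ring.inverse (Cm K0 Q)) := by
        rw [h1, mul_one]
    _ = Ring.inverse (Cm K0 Q) * (P1 K0 * Cm K0 Q) * Ring.inverse (Cm K0 Q) := by noncomm_ring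
    _ = Ring.inverse (Cm K0 Q) * (Cm K0 Q * P1 K0) * Ring.inverse (Cm K0 Q) := by
        rw [P1_Cm, Cm_P1]
    _ = (Ring.inverse (Cm K0 Q) * Cm K0 Q) * P1 K0 * Ring.inverse (Cm K0 Q) := by noncomm_ring
    _ = P1 K0 * Ring.inverse (Cm K0 Q) := by rw [h2, one_mul]

lemma P1_Sg (hu : IsUnit (Cm K0 Q)) : P1 K0 * Sg K0 Q = 0 := by
  have h1 : Cm K0 Q * Ring.inverse (Cm K0 Q) = 1 := Ring.mul_inverse_cancel _ hu
  have h3 : P1 K0 * Q * P1 K0 * Ring.inverse (Cm K0 Q) * P1 K0 = P1 K0 := by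
    calc P1 K0 * Q * P1 K0 * Ring.inverse (Cm K0 Q) * P1 K0
        = Cm K0 Q * (P1 K0 * Ring.inverse (Cm K0 Q)) * P1 K0 := by
          rw [← Cm_P1]; noncomm_ring
      _ = (Cm K0 Q * Ring.inverse (Cm K0 Q)) * P1 K0 * P1 K0 := by
          rw [← inv_comm hu]; noncomm_ring
      _ = P1 K0 := by rw [h1, one_mul, P1_P1]
  calc P1 K0 * Sg K0 Q = P1 K0 * Q - (P1 K0 * Q * P1 K0 * Ring.inverse (Cm K0 Q) * P1 K0) * Q := by
        rw [Sg]; noncomm_ring
    _ = 0 := by rw [h3, sub_self]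

lemma Sg_mem (hu : IsUnit (Cm K0 Q)) (x : E) : Sg K0 Q x ∈ K0 := by
  apply mem_of_P1
  have := congrArg (fun T : E →L[ℝ] E => T x) (P1_Sg hu)
  simpa using this

lemma sa_Cm (hQ : IsSelfAdjoint Q) : IsSelfAdjoint (Cm K0 Q) := by
  rw [Cm]
  refine IsSelfAdjoint.add ?_ (sa_P0 K0)
  have := hQ.conjugate_self (sa_P1 K0)
  exact this

lemma sa_inv (hQ : IsSelfAdjoint Q) : IsSelfAdjoint (Ring.inverse (Cm K0 Q)) := by
  rw [IsSelfAdjoint, ← Ring.inverse_star, (sa_Cm hQ).star_eq]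

lemma sa_Sg (hQ : IsSelfAdjoint Q) : IsSelfAdjoint (Sg K0 Q) := by
  rw [Sg]
  refine hQ.sub ?_
  have h1 := (sa_inv (K0 := K0) hQ).star_eq
  rw [IsSelfAdjoint]
  simp only [star_mul, h1, hQ.star_eq, (sa_P1 K0).star_eq]
  noncomm_ring

lemma Q_of_Sg {x : E} (h : Sg K0 Q x = 0) : Q (Lf K0 Q x) = 0 := by
  rw [← Q_Lf] at h
  exact h

lemma P0_Lf {x : E} (hx : x ∈ K0) : P0 K0 (Lf K0 Q x) = x := by
  have h1 : P0 K0 * Lf K0 Q = P0 K0 := by
    rw [Lf, mul_sub, mul_one]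
    have : P0 K0 * (P1 K0 * Ring.inverse (Cm K0 Q) * P1 K0 * Q) =
        (P0 K0 * P1 K0) * (Ring.inverse (Cm K0 Q) * P1 K0 * Q) := by noncomm_ring
    rw [this, P0_P1, zero_mul, sub_zero]
  have := congrArg (fun T : E →L[ℝ] E => T x) h1
  simp only [mul_apply_eq_comp] at this
  rw [this, P0_of_mem K0 hx]

lemma Sg_inj (hinj : ∀ x, Q x = 0 → x = 0) {x : E} (hx : x ∈ K0) (h : Sg K0 Q x = 0) : x = 0 := by
  have h1 := hinj _ (Q_of_Sg h)
  have h2 := P0_Lf (Q := Q) hx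
  rw [h1, map_zero] at h2
  exact h2.symm

/-- if the Schur complement vanishes on `K0`, then the nullity is `dim K0` -/
lemma finrank_of_Sg (hu : IsUnit (Cm K0 Q)) (h : ∀ x ∈ K0, Sg K0 Q x = 0) :
    Module.finrank ℝ (LinearMap.ker (Q : E →ₗ[ℝ] E)) = Module.finrank ℝ K0 := by
  apply le_antisymm
  · -- P0 is injective on ker Q
    let f : LinearMap.ker (Q : E →ₗ[ℝ] E) →ₗ[ℝ] K0 :=
      LinearMap.codRestrict K0 ((P0 K0 : E →ₗ[ℝ] E) ∘ₗ Submodule.subtype _) (fun x => P0_mem K0 _)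
    apply LinearMap.finrank_le_finrank_of_injective (f := f)
    rw [← LinearMap.ker_eq_bot, LinearMap.ker_eq_bot']
    rintro ⟨w, hw⟩ h0
    have h1 : P0 K0 w = 0 := congrArg Subtype.val h0
    have hw' : Q w = 0 := hw
    have h2 : P1 K0 w = w := by rw [P1, sub_apply, h1]; simp
    have h3 : Cm K0 Q w = 0 := by
      rw [Cm, add_apply, h1, add_zero, mul_apply_eq_comp, mul_apply_eq_comp, h2, hw', map_zero]
    have h4 : w = 0 := by
      have h5 : Ring.inverse (Cm K0 Q) * Cm K0 Q = 1 := Ring.inverse_mul_cancel _ hu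
      have h6 := congrArg (fun T : E →L[ℝ] E => T w) h5
      simp only [mul_apply_eq_comp, h3, map_zero, one_apply_eq_self] at h6
      exact h6.symm
    exact Subtype.ext h4
  · let f : K0 →ₗ[ℝ] LinearMap.ker (Q : E →ₗ[ℝ] E) :=
      LinearMap.codRestrict _ ((Lf K0 Q : E →ₗ[ℝ] E) ∘ₗ Submodule.subtype _)
        (fun x => Q_of_Sg (h x x.2))
    apply LinearMap.finrank_le_finrank_of_injective (f := f)
    rw [← LinearMap.ker_eq_bot, LinearMap.ker_eq_bot']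
    rintro ⟨x, hx⟩ h0
    have h1 : Lf K0 Q x = 0 := congrArg Subtype.val h0
    have h2 := P0_Lf (Q := Q) hx
    rw [h1, map_zero] at h2
    exact Subtype.ext h2.symm

/-- the base point: `K0 = ker Q`. -/
lemma isUnit_Cm_base (hQ : IsSelfAdjoint Q) (hK : K0 = LinearMap.ker (Q : E →ₗ[ℝ] E)) :
    IsUnit (Cm K0 Q) := by
  have hsym : ∀ x y, ⟪Q x, y⟫ = ⟪x, Q y⟫ :=
    fun x y => (ContinuousLinearMap.isSelfAdjoint_iff_isSymmetric.1 hQ) x y
  have hinj : Function.Injective (Cm K0 Q) := by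
    rw [injective_iff_map_eq_zero]
    intro w hw
    have h1 : P0 K0 w = 0 := by
      have h2 : P0 K0 * Cm K0 Q = P0 K0 := by
        rw [Cm, mul_add, P0_P0]
        have : P0 K0 * (P1 K0 * Q * P1 K0) = (P0 K0 * P1 K0) * (Q * P1 K0) := by noncomm_ring
        rw [this, P0_P1, zero_mul, zero_add]
      have h3 := congrArg (fun T : E →L[ℝ] E => T w) h2
      simp only [mul_apply_eq_comp, hw, map_zero] at h3
      exact h3.symm
    have h2 : P1 K0 w = w := by rw [P1, sub_apply, h1]; simp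
    rw [Cm, add_apply, h1, add_zero, mul_apply_eq_comp, mul_apply_eq_comp, h2] at hw
    have h3 : Q w ∈ K0 := mem_of_P1 K0 hw
    have h4 : Q w = 0 := by
      have h5 : Q (Q w) = 0 := by rw [hK] at h3; exact h3
      have h6 : ⟪Q w, Q w⟫ = 0 := by rw [hsym, h5, inner_zero_right]
      exact inner_self_eq_zero.1 h6
    have h5 : w ∈ K0 := by rw [hK]; exact h4
    rw [P0_of_mem K0 h5] at h1
    exact h1
  have hs : Function.Surjective (Cm K0 Q) := by
    have := LinearMap.injective_iff_surjective (f := ((Cm K0 Q) : E →ₗ[ℝ] E))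
    exact this.1 hinj
  let e : E ≃L[ℝ] E :=
    (LinearEquiv.ofBijective ((Cm K0 Q) : E →ₗ[ℝ] E) ⟨hinj, hs⟩).toContinuousLinearEquiv
  refine ⟨⟨Cm K0 Q, e.symm, ?_, ?_⟩, rfl⟩
  · ext x
    change e (e.symm x) = x
    simp
  · ext x
    change e.symm (e x) = x
    simp

lemma Sg_base (hK : K0 = LinearMap.ker (Q : E →ₗ[ℝ] E)) {x : E} (hx : x ∈ K0) :
    Sg K0 Q x = 0 := by
  have h : Q x = 0 := by rw [hK] at hx; exact hx
  rw [Sg, sub_apply, mul_apply_eq_comp, h, map_zero, sub_zero]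

end schur


/-- negative definite forms are uniformly so -/
lemma exists_bound {A : E →L[ℝ] E} (hneg : ∀ x, x ≠ 0 → ⟪A x, x⟫ < 0) :
    ∃ m > 0, ∀ x, ⟪A x, x⟫ ≤ -(m * ‖x‖ ^ 2) := by
  rcases (Metric.sphere (0 : E) 1).eq_empty_or_nonempty with h | h
  · refine ⟨1, one_pos, fun x => ?_⟩
    by_cases hx : x = 0
    · subst hx; simp
    · exfalso
      have : ‖x‖⁻¹ • x ∈ Metric.sphere (0 : E) 1 := by
        rw [mem_sphere_zero_iff_norm, norm_smul, norm_inv, norm_norm,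
          inv_mul_cancel₀ (norm_ne_zero_iff.2 hx)]
      rw [h] at this
      exact this
  · obtain ⟨y, hy, hmax⟩ := (isCompact_sphere (0 : E) 1).exists_isMaxOn h
      (f := fun x => ⟪A x, x⟫) (by fun_prop)
    have hy1 : ‖y‖ = 1 := by simpa using hy
    have hy0 : y ≠ 0 := by
      intro h0; rw [h0, norm_zero] at hy1; exact zero_ne_one hy1
    refine ⟨-⟪A y, y⟫, by have := hneg y hy0; linarith, fun x => ?_⟩
    by_cases hx : x = 0
    · subst hx; simp
    · have hxn : 0 < ‖x‖ := norm_pos_iff.2 hx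
      have h1 : ‖x‖⁻¹ • x ∈ Metric.sphere (0 : E) 1 := by
        rw [mem_sphere_zero_iff_norm, norm_smul, norm_inv, norm_norm,
          inv_mul_cancel₀ hxn.ne']
      have h2 : ⟪A (‖x‖⁻¹ • x), ‖x‖⁻¹ • x⟫ ≤ ⟪A y, y⟫ := hmax h1
      rw [map_smul, inner_smul_left, inner_smul_right] at h2
      simp only [conj_trivial] at h2
      have h3 : ‖x‖ ^ 2 * (‖x‖⁻¹ * (‖x‖⁻¹ * ⟪A x, x⟫)) = ⟪A x, x⟫ := by
        field_simp
      have h4 := mul_le_mul_of_nonneg_left h2 (sq_nonneg ‖x‖)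
      rw [h3] at h4
      linarith

theorem crossing {X : Type*} [TopologicalSpace X] (Q : X → ℝ → (E →L[ℝ] E)) {S : Set X} {z0 : X}
    {D ε : ℝ} (hε : 0 < ε) (hz0 : z0 ∈ S)
    (hsymm : ∀ z ∈ S, ∀ t ∈ Icc (D - ε) (D + ε), IsSelfAdjoint (Q z t))
    (hcont : ∀ z ∈ S, ∀ t ∈ Icc (D - ε) (D + ε), ContinuousAt (fun p : X × ℝ => Q p.1 p.2) (z, t))
    (hinj : ∀ z ∈ S, ∀ t ∈ Icc (D - ε) (D + ε), t ≠ D → ∀ x, Q z t x = 0 → x = 0)
    {Q' : E →L[ℝ] E} (hder : HasDerivAt (Q z0) Q' D) (hneg : ∀ x, x ≠ 0 → ⟪Q' x, x⟫ < 0) :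
    ∀ᶠ z in 𝓝[S] z0, Module.finrank ℝ (LinearMap.ker (Q z D : E →ₗ[ℝ] E)) =
      Module.finrank ℝ (LinearMap.ker (Q z0 D : E →ₗ[ℝ] E)) := by
  set K0 : Submodule ℝ E := LinearMap.ker (Q z0 D : E →ₗ[ℝ] E) with hK0
  have hDI : D ∈ Icc (D - ε) (D + ε) := ⟨by linarith, by linarith⟩
  have hsa0 : IsSelfAdjoint (Q z0 D) := hsymm z0 hz0 D hDI
  have hu0 : IsUnit (Cm K0 (Q z0 D)) := isUnit_Cm_base hsa0 hK0
  -- continuity of Cm and Sg
  have hCmc : ∀ z ∈ S, ∀ t ∈ Icc (D - ε) (D + ε),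
      ContinuousAt (fun p : X × ℝ => Cm K0 (Q p.1 p.2)) (z, t) := by
    intro z hz t ht
    have h1 := hcont z hz t ht
    exact ((continuousAt_const.mul h1).mul continuousAt_const).add continuousAt_const
  have hSgc : ∀ z ∈ S, ∀ t ∈ Icc (D - ε) (D + ε), IsUnit (Cm K0 (Q z t)) →
      ContinuousAt (fun p : X × ℝ => Sg K0 (Q p.1 p.2)) (z, t) := by
    intro z hz t ht hu
    have h1 := hcont z hz t ht
    have h2 : ContinuousAt (fun p : X × ℝ => Ring.inverse (Cm K0 (Q p.1 p.2))) (z, t) := by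
      obtain ⟨u, hu⟩ := hu
      have h3 := NormedRing.inverse_continuousAt u
      rw [hu] at h3
      exact ContinuousAt.comp (g := Ring.inverse) (f := fun p : X × ℝ => Cm K0 (Q p.1 p.2))
        (x := (z, t)) h3 (hCmc z hz t ht)
    exact h1.sub ((((h1.mul continuousAt_const).mul h2).mul continuousAt_const).mul h1)
  -- neighbourhood where Cm is invertible
  have hunit : ∀ᶠ p in 𝓝 (z0, D), IsUnit (Cm K0 (Q p.1 p.2)) :=
    (hCmc z0 hz0 D hDI).eventually (Units.isOpen.mem_nhds hu0)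
  rw [nhds_prod_eq, Filter.eventually_prod_iff] at hunit
  obtain ⟨pa, hpa, pb, hpb, hab⟩ := hunit
  obtain ⟨η1, hη1, hη1b⟩ := Metric.eventually_nhds_iff_ball.1 hpb
  -- derivative of the Schur complement at z0
  have hinvd : DifferentiableAt ℝ (fun t => Ring.inverse (Cm K0 (Q z0 t))) D := by
    have h1 : DifferentiableAt ℝ (fun t => Cm K0 (Q z0 t)) D :=
      (((differentiableAt_const _).mul hder.differentiableAt).mul (differentiableAt_const _)).add
        (differentiableAt_const _)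
    obtain ⟨u, hu⟩ := hu0
    have h2 := (hasFDerivAt_ringInverse (𝕜 := ℝ) u).differentiableAt
    rw [hu] at h2
    exact DifferentiableAt.comp D (g := Ring.inverse) (f := fun t => Cm K0 (Q z0 t)) h2 h1
  have hSgd : DifferentiableAt ℝ (fun t => Sg K0 (Q z0 t)) D := by
    have h1 := hder.differentiableAt
    exact h1.sub ((((h1.mul (differentiableAt_const _)).mul hinvd).mul
      (differentiableAt_const _)).mul h1)
  obtain ⟨σ', hσ'⟩ : ∃ σ' : E →L[ℝ] E, HasDerivAt (fun t => Sg K0 (Q z0 t)) σ' D :=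
    ⟨_, hSgd.hasDerivAt⟩
  have hσ'x : ∀ x ∈ K0, ⟪σ' x, x⟫ = ⟪Q' x, x⟫ := by
    intro x hx
    have hQx : Q z0 D x = 0 := by rw [hK0] at hx; exact hx
    have h1 : HasDerivAt (fun t => ⟪Sg K0 (Q z0 t) x, x⟫) ⟪σ' x, x⟫ D := by
      have := (hσ'.clm_apply (hasDerivAt_const D x)).inner ℝ (hasDerivAt_const D x)
      simpa using this
    -- y t = P1 Q x
    have hQd : HasDerivAt (fun t => Q z0 t x) (Q' x) D := by
      simpa using hder.clm_apply (hasDerivAt_const D x)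
    have hyd : HasDerivAt (fun t => P1 K0 (Q z0 t x)) (P1 K0 (Q' x)) D := by
      simpa using (hasDerivAt_const D (P1 K0)).clm_apply hQd
    have hgy : DifferentiableAt ℝ (fun t => Ring.inverse (Cm K0 (Q z0 t)) (P1 K0 (Q z0 t x))) D :=
      hinvd.clm_apply hyd.differentiableAt
    have hzd : HasDerivAt (fun t => Q z0 t (P1 K0 (Ring.inverse (Cm K0 (Q z0 t))
        (P1 K0 (Q z0 t x))))) (Q z0 D (deriv (fun t => P1 K0 (Ring.inverse (Cm K0 (Q z0 t))
        (P1 K0 (Q z0 t x)))) D)) D := by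
      have h3 : DifferentiableAt ℝ (fun t => P1 K0 (Ring.inverse (Cm K0 (Q z0 t))
        (P1 K0 (Q z0 t x)))) D := (differentiableAt_const _).clm_apply hgy
      have h4 := hder.clm_apply h3.hasDerivAt
      simpa [hQx] using h4
    have h5 : HasDerivAt (fun t => ⟪Sg K0 (Q z0 t) x, x⟫) ⟪Q' x, x⟫ D := by
      have h6 : (fun t => ⟪Sg K0 (Q z0 t) x, x⟫) = fun t => ⟪Q z0 t x, x⟫ -
          ⟪Q z0 t (P1 K0 (Ring.inverse (Cm K0 (Q z0 t)) (P1 K0 (Q z0 t x)))), x⟫ := by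
        ext t
        rw [Sg, sub_apply, inner_sub_left]
        rfl
      rw [h6]
      have h7 := (hQd.inner ℝ (hasDerivAt_const D x)).sub (hzd.inner ℝ (hasDerivAt_const D x))
      refine h7.congr_deriv ?_
      have h8 : ∀ w, ⟪Q z0 D w, x⟫ = 0 := fun w => by
        have h9 : ⟪Q z0 D w, x⟫ = ⟪w, Q z0 D x⟫ :=
          ContinuousLinearMap.isSelfAdjoint_iff_isSymmetric.1 hsa0 w x
        rw [h9, hQx, inner_zero_right]
      simp only [h8, inner_zero_right, zero_add, sub_zero, add_zero]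
    exact h1.unique h5
  obtain ⟨m, hm, hmb⟩ := exists_bound hneg
  -- choose η
  have hlo := hσ'.isLittleO.def (show (0 : ℝ) < m / 2 by positivity)
  obtain ⟨η2, hη2, hη2b⟩ := Metric.eventually_nhds_iff_ball.1 hlo
  set η : ℝ := min ε (min (η1 / 2) (η2 / 2)) with hη
  have hηpos : 0 < η := lt_min hε (lt_min (by positivity) (by positivity))
  have hηε : η ≤ ε := min_le_left _ _
  have hη1' : η < η1 := lt_of_le_of_lt ((min_le_right _ _).trans (min_le_left _ _)) (by linarith)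
  have hη2' : η < η2 := lt_of_le_of_lt ((min_le_right _ _).trans (min_le_right _ _)) (by linarith)
  have hbase : ∀ x ∈ K0, Sg K0 (Q z0 D) x = 0 := fun x hx => Sg_base hK0 hx
  have hup : ∀ x ∈ K0, ⟪Sg K0 (Q z0 (D + η)) x, x⟫ ≤ -(m * η / 2 * ‖x‖ ^ 2) := by
    intro x hx
    have h1 := hη2b (D + η) (by rw [Metric.mem_ball, dist_eq_norm]; simpa [abs_of_pos hηpos] using hη2')
    rw [add_sub_cancel_left, Real.norm_eq_abs, abs_of_pos hηpos] at h1
    have h2 : ⟪Sg K0 (Q z0 (D + η)) x, x⟫ = η * ⟪Q' x, x⟫ +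
        ⟪(Sg K0 (Q z0 (D + η)) - Sg K0 (Q z0 D) - η • σ') x, x⟫ := by
      rw [← hσ'x x hx, sub_apply, sub_apply, hbase x hx, smul_apply, inner_sub_left,
        inner_sub_left, inner_smul_left]
      simp
    have h3 : ⟪(Sg K0 (Q z0 (D + η)) - Sg K0 (Q z0 D) - η • σ') x, x⟫ ≤ m / 2 * η * ‖x‖ ^ 2 := by
      calc _ ≤ ‖(Sg K0 (Q z0 (D + η)) - Sg K0 (Q z0 D) - η • σ') x‖ * ‖x‖ :=
            real_inner_le_norm _ _
        _ ≤ (‖Sg K0 (Q z0 (D + η)) - Sg K0 (Q z0 D) - η • σ'‖ * ‖x‖) * ‖x‖ := by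
            gcongr; exact ContinuousLinearMap.le_opNorm _ _
        _ ≤ (m / 2 * η * ‖x‖) * ‖x‖ := by gcongr
        _ = m / 2 * η * ‖x‖ ^ 2 := by ring
    rw [h2]
    nlinarith [mul_le_mul_of_nonneg_left (hmb x) hηpos.le]
  have hdown : ∀ x ∈ K0, m * η / 2 * ‖x‖ ^ 2 ≤ ⟪Sg K0 (Q z0 (D - η)) x, x⟫ := by
    intro x hx
    have h1 := hη2b (D - η) (by rw [Metric.mem_ball, dist_eq_norm]; simpa [abs_of_pos hηpos] using hη2')
    rw [sub_sub_cancel_left, Real.norm_eq_abs, abs_neg, abs_of_pos hηpos] at h1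
    have h2 : ⟪Sg K0 (Q z0 (D - η)) x, x⟫ = -(η * ⟪Q' x, x⟫) +
        ⟪(Sg K0 (Q z0 (D - η)) - Sg K0 (Q z0 D) - (-η) • σ') x, x⟫ := by
      rw [← hσ'x x hx, sub_apply, sub_apply, hbase x hx, smul_apply, inner_sub_left,
        inner_sub_left, inner_smul_left]
      simp
    have h3 : -(m / 2 * η * ‖x‖ ^ 2) ≤
        ⟪(Sg K0 (Q z0 (D - η)) - Sg K0 (Q z0 D) - (-η) • σ') x, x⟫ := by
      have h4 : |⟪(Sg K0 (Q z0 (D - η)) - Sg K0 (Q z0 D) - (-η) • σ') x, x⟫| ≤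
          m / 2 * η * ‖x‖ ^ 2 := by
        calc _ ≤ ‖(Sg K0 (Q z0 (D - η)) - Sg K0 (Q z0 D) - (-η) • σ') x‖ * ‖x‖ :=
              abs_real_inner_le_norm _ _
          _ ≤ (‖Sg K0 (Q z0 (D - η)) - Sg K0 (Q z0 D) - (-η) • σ'‖ * ‖x‖) * ‖x‖ := by
              gcongr; exact ContinuousLinearMap.le_opNorm _ _
          _ ≤ (m / 2 * η * ‖x‖) * ‖x‖ := by gcongr
          _ = m / 2 * η * ‖x‖ ^ 2 := by ring
      linarith [neg_abs_le ⟪(Sg K0 (Q z0 (D - η)) - Sg K0 (Q z0 D) - (-η) • σ') x, x⟫]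
    rw [h2]
    nlinarith [mul_le_mul_of_nonneg_left (hmb x) hηpos.le]
  have huz : ∀ z, pa z → ∀ t ∈ Icc (D - η) (D + η), IsUnit (Cm K0 (Q z t)) := by
    intro z hz t ht
    apply hab hz
    apply hη1b
    rw [Metric.mem_ball, Real.dist_eq, abs_lt]
    exact ⟨by linarith [ht.1], by linarith [ht.2]⟩
  have hIsub : Icc (D - η) (D + η) ⊆ Icc (D - ε) (D + ε) :=
    Icc_subset_Icc (by linarith) (by linarith)
  have hpaz0 : pa z0 := hpa.self_of_nhds
  -- nearby z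
  have hnear : ∀ t ∈ Icc (D - η) (D + η),
      ∀ᶠ z in 𝓝 z0, ‖Sg K0 (Q z t) - Sg K0 (Q z0 t)‖ < m * η / 4 := by
    intro t ht
    have h1 : ContinuousAt (fun z => Sg K0 (Q z t)) z0 :=
      ContinuousAt.comp (g := fun p : X × ℝ => Sg K0 (Q p.1 p.2)) (f := fun z => (z, t)) (x := z0)
        (hSgc z0 hz0 t (hIsub ht) (huz z0 hpaz0 t ht)) (by fun_prop)
    have h2 : Tendsto (fun z => ‖Sg K0 (Q z t) - Sg K0 (Q z0 t)‖) (𝓝 z0)
        (𝓝 ‖Sg K0 (Q z0 t) - Sg K0 (Q z0 t)‖) := ((h1.sub continuousAt_const).norm).tendsto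
    rw [sub_self, norm_zero] at h2
    exact h2.eventually_lt_const (by positivity)
  have hmem1 : D + η ∈ Icc (D - η) (D + η) := ⟨by linarith, le_rfl⟩
  have hmem2 : D - η ∈ Icc (D - η) (D + η) := ⟨le_rfl, by linarith⟩
  have hpaS : ∀ᶠ z in 𝓝[S] z0, pa z := nhdsWithin_le_nhds hpa
  filter_upwards [hpaS, nhdsWithin_le_nhds (hnear _ hmem1), nhdsWithin_le_nhds (hnear _ hmem2),
    self_mem_nhdsWithin] with z hpz hz1 hz2 hzS
  have hsy : ∀ t ∈ Icc (D - η) (D + η), ∀ x y, ⟪Sg K0 (Q z t) x, y⟫ = ⟪x, Sg K0 (Q z t) y⟫ :=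
    fun t ht x y => ContinuousLinearMap.isSelfAdjoint_iff_isSymmetric.1
      (sa_Sg (hsymm z hzS t (hIsub ht))) x y
  have hcz : ContinuousOn (fun t => Sg K0 (Q z t)) (Icc (D - η) (D + η)) := by
    intro t ht
    exact (ContinuousAt.comp (g := fun p : X × ℝ => Sg K0 (Q p.1 p.2)) (f := fun t => (z, t))
      (x := t) (hSgc z hzS t (hIsub ht) (huz z hpz t ht)) (by fun_prop)).continuousWithinAt
  have hdiff : ∀ t : ℝ, ‖Sg K0 (Q z t) - Sg K0 (Q z0 t)‖ < m * η / 4 → ∀ x : E,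
      |⟪Sg K0 (Q z t) x, x⟫ - ⟪Sg K0 (Q z0 t) x, x⟫| ≤ m * η / 4 * ‖x‖ ^ 2 := by
    intro t ht x
    rw [← inner_sub_left, ← sub_apply]
    calc _ ≤ ‖(Sg K0 (Q z t) - Sg K0 (Q z0 t)) x‖ * ‖x‖ := abs_real_inner_le_norm _ _
      _ ≤ (‖Sg K0 (Q z t) - Sg K0 (Q z0 t)‖ * ‖x‖) * ‖x‖ := by
          gcongr; exact ContinuousLinearMap.le_opNorm _ _
      _ ≤ (m * η / 4 * ‖x‖) * ‖x‖ := by gcongr
      _ = m * η / 4 * ‖x‖ ^ 2 := by ring
  have hA : ∀ x ∈ K0, ⟪Sg K0 (Q z D) x, x⟫ ≤ 0 := by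
    apply half (K0 := K0) (σ := fun t => Sg K0 (Q z t)) (a := D) (b := D + η) (by linarith)
    · exact hcz.mono (Icc_subset_Icc_left (by linarith))
    · exact fun t ht => hsy t ⟨by linarith [ht.1], ht.2⟩
    · exact fun t ht x _ => Sg_mem (huz z hpz t ⟨by linarith [ht.1], ht.2⟩) x
    · intro t ht x hx h
      exact Sg_inj (hinj z hzS t (hIsub ⟨by linarith [ht.1], ht.2⟩) (ne_of_gt ht.1)) hx h
    · intro x hx hx0
      have h1 := hdiff _ hz1 x
      have h2 := hup x hx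
      have h3 : 0 < m * η / 4 * ‖x‖ ^ 2 := by
        have := norm_pos_iff.2 hx0; positivity
      rw [abs_le] at h1
      linarith [h1.2]
  have hB : ∀ x ∈ K0, ⟪(-(Sg K0 (Q z D))) x, x⟫ ≤ 0 := by
    have := half (K0 := K0) (σ := fun t => -(Sg K0 (Q z (-t)))) (a := -D) (b := -(D - η))
      (by linarith) ?_ ?_ ?_ ?_ ?_
    · simpa using this
    · apply ContinuousOn.neg
      exact hcz.comp (by fun_prop) (fun t ht => ⟨by linarith [ht.2], by linarith [ht.1]⟩)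
    · intro t ht x y
      rw [neg_apply, neg_apply, inner_neg_left, inner_neg_right,
        hsy (-t) ⟨by linarith [ht.2], by linarith [ht.1]⟩ x y]
    · intro t ht x _
      rw [neg_apply]
      exact K0.neg_mem (Sg_mem (huz z hpz (-t) ⟨by linarith [ht.2], by linarith [ht.1]⟩) x)
    · intro t ht x hx h
      rw [neg_apply, neg_eq_zero] at h
      exact Sg_inj (hinj z hzS (-t) (hIsub ⟨by linarith [ht.2], by linarith [ht.1]⟩)
        (by intro h2; linarith [ht.1])) hx h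
    · intro x hx hx0
      have h1 := hdiff _ hz2 x
      have h2 := hdown x hx
      have h3 : 0 < m * η / 4 * ‖x‖ ^ 2 := by
        have := norm_pos_iff.2 hx0; positivity
      rw [abs_le] at h1
      simp only [neg_neg]
      rw [neg_apply, inner_neg_left]
      linarith [h1.1]
  have hzero : ∀ x ∈ K0, Sg K0 (Q z D) x = 0 := by
    have hDm : D ∈ Icc (D - η) (D + η) := ⟨by linarith, by linarith⟩
    intro x hx
    apply null_of_nonpos (hsy D hDm) (fun x _ => Sg_mem (huz z hpz D hDm) x) hA hx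
    have h1 := hB x hx
    rw [neg_apply, inner_neg_left] at h1
    exact le_antisymm (hA x hx) (by linarith)
  exact finrank_of_Sg (huz z hpz D ⟨by linarith, by linarith⟩) hzero

end Crest.Agent.R208.IC
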