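import Crest.Agent.R208.J4
import Crest.Agent.R208.HS1

/-!
R208, block G4a (helper631), part 5: the Jacobian of the exponential map, the Jacobi cocycle
`JLoop` of a closed geodesic, and the polar form of the metric from the equality case.
-/

set_option autoImplicit false
set_option linter.unusedSectionVars false

open Set Filter Topology Module
open scoped ContDiff RealInnerProductSpace
open Crest.GeometryTopology.Submanifold
open Crest.Agent.R241.DDefs
open Crest.Agent.R241.D2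

noncomputable section

namespace Crest.Agent.R208.J

/-! ### linear algebra -/

section linalg

variable {V : Type*} [NormedAddCommGroup V] [InnerProductSpace ℝ V] [FiniteDimensional ℝ V]
variable {m : ℕ} {E : Submodule ℝ V} (b : OrthonormalBasis (Fin m) ℝ E)

lemma mat_det_ne_zero {L : V →L[ℝ] V} (h : ∀ x ∈ E, L x ∈ E) (hinj : ∀ x ∈ E, L x = 0 → x = 0) :
    (mat b L).det ≠ 0 := by
  intro h0
  rw [mat_eq_toMatrix b h, LinearMap.det_toMatrix] at h0
  have h1 := LinearMap.bot_lt_ker_of_det_eq_zero h0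
  obtain ⟨x, hx, hx0⟩ := (Submodule.ne_bot_iff _).1 h1.ne'
  apply hx0
  apply Subtype.ext
  apply hinj x x.2
  exact congrArg Subtype.val (LinearMap.mem_ker.1 hx)

lemma rank_mat {L : V →L[ℝ] V} (h : ∀ x ∈ E, L x ∈ E) :
    (mat b L).rank + finrank ℝ (E ⊓ LinearMap.ker L.toLinearMap : Submodule ℝ V) = m := by
  have h1 : (mat b L).rank = finrank ℝ (LinearMap.range (L.toLinearMap.restrict h)) := by
    rw [mat_eq_toMatrix b h, Matrix.rank_eq_finrank_range_toLin _ b.toBasis b.toBasis,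
      Matrix.toLin_toMatrix]
  have h2 : finrank ℝ (LinearMap.ker (L.toLinearMap.restrict h)) =
      finrank ℝ (E ⊓ LinearMap.ker L.toLinearMap : Submodule ℝ V) := by
    have h3 : LinearMap.ker (L.toLinearMap.restrict h) =
        (LinearMap.ker L.toLinearMap).comap E.subtype := by
      ext x
      rw [LinearMap.mem_ker, Submodule.mem_comap, LinearMap.mem_ker, Subtype.ext_iff]
      rfl
    rw [h3, ← Submodule.map_comap_subtype, Submodule.finrank_map_subtype_eq]
  have h4 := LinearMap.finrank_range_add_finrank_ker (L.toLinearMap.restrict h)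
  rw [h1, ← h2, h4, finrank_eq_card_basis b.toBasis, Fintype.card_fin]

/-- stretching one direction. -/
lemma det_stretch {v : V} (hv : ‖v‖ = 1) (t : ℝ) :
    (ContinuousLinearMap.id ℝ V + (t - 1) • (innerSL ℝ v).smulRight v).det = t := by
  have h0 : v ≠ 0 := by intro h; rw [h, norm_zero] at hv; exact zero_ne_one hv
  have h1 : finrank ℝ (ℝ ∙ v) = 1 := finrank_span_singleton h0
  let b : OrthonormalBasis (Fin 1) ℝ (ℝ ∙ v) := (stdOrthonormalBasis ℝ (ℝ ∙ v)).reindex
    (finCongr h1)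
  set Q : V →L[ℝ] V := (innerSL ℝ v).smulRight v with hQ
  have hQa : ∀ x, Q x = ⟪v, x⟫ • v := fun x => rfl
  have h2 := det_extend (A := t • ContinuousLinearMap.id ℝ V) (Q := Q) b
    (fun x hx => by
      obtain ⟨c, rfl⟩ := Submodule.mem_span_singleton.1 hx
      rw [hQa, inner_smul_right, real_inner_self_eq_norm_sq, hv]
      simp)
    (fun x => by rw [hQa]; exact Submodule.smul_mem _ _ (Submodule.mem_span_singleton_self v))
    (fun x hx => Submodule.smul_mem _ _ hx)
  have h3 : ContinuousLinearMap.id ℝ V + (t - 1) • Q =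
      (t • ContinuousLinearMap.id ℝ V) ∘L Q + (ContinuousLinearMap.id ℝ V - Q) := by
    ext1 x
    change x + (t - 1) • Q x = t • Q x + (x - Q x)
    module
  rw [h3, h2, Matrix.det_fin_one, mat_apply]
  change ⟪(b 0 : V), t • (b 0 : V)⟫ = t
  rw [inner_smul_right, real_inner_self_eq_norm_sq]
  have h4 : ‖((b 0 : (ℝ ∙ v)) : V)‖ = 1 := b.orthonormal.1 0
  rw [h4]; simp

end linalg

variable {n N : ℕ} {κ : ℝ} {S : Set (Euc N)} {G : Geo n N κ S} {q : Euc N × Euc N}

/-- the full determinant of the Jacobi tensor is `t` times the one on `v^⊥`. -/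
lemma det_At_T (hq : q ∈ TS G) (h1 : ‖q.2‖ = 1) (t : ℝ) :
    |(At G q 0 t ∘L G.P q.1 + (ContinuousLinearMap.id ℝ (Euc N) - G.P q.1)).det| =
      |t| * Dn G q 0 t := by
  have h2 : At G q 0 t ∘L G.P q.1 + (ContinuousLinearMap.id ℝ (Euc N) - G.P q.1) =
      (At G q 0 t ∘L Pv G q + (ContinuousLinearMap.id ℝ (Euc N) - Pv G q)) ∘L
        (ContinuousLinearMap.id ℝ (Euc N) + (t - 1) • (innerSL ℝ q.2).smulRight q.2) := by
    ext1 x
    have hv : Pv G q q.2 = 0 := by
      rw [Pv_apply, (P_eq_self G hq.1).1 hq.2, real_inner_self_eq_norm_sq, h1]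
      simp
    change At G q 0 t (G.P q.1 x) + (x - G.P q.1 x) =
      At G q 0 t (Pv G q (x + (t - 1) • (⟪q.2, x⟫ • q.2))) +
        ((x + (t - 1) • (⟪q.2, x⟫ • q.2)) - Pv G q (x + (t - 1) • (⟪q.2, x⟫ • q.2)))
    rw [map_add, map_smul, map_smul, hv, smul_zero, smul_zero, add_zero, Pv_apply, map_sub,
      map_smul, At_velocity hq]
    module
  rw [h2]
  have h3 : ∀ A B : Euc N →L[ℝ] Euc N, (A ∘L B).det = A.det * B.det := fun A B =>
    LinearMap.det_comp A.toLinearMap B.toLinearMap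
  rw [h3, det_stretch h1, abs_mul, Dn, mul_comm]

/-- **The Jacobian of the exponential map** in polar coordinates is the density `Dn`. -/
theorem jac_Exp {p : Euc N} (hp : p ∈ S) (β : Euc n →ₗᵢ[ℝ] Euc N)
    (hβ : LinearMap.range β.toLinearMap = G.T p) {u : Euc n} (hu : ‖u‖ = 1) {t : ℝ} (ht : 0 < t) :
    Crest.Agent.R241.AF.jac (fderiv ℝ (fun x => Exp G p (β x)) (t • u)) * t ^ (n - 1) =
      Dn G (p, β u) 0 t := by
  have hβm : ∀ x, β x ∈ G.T p := fun x => by rw [← hβ]; exact ⟨x, rfl⟩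
  have hq : (p, β u) ∈ TS G := ⟨hp, hβm u⟩
  have h1 : ‖(p, β u).2‖ = 1 := by
    change ‖β u‖ = 1
    rw [β.norm_map, hu]
  -- the derivative
  have hd : ∀ x, fderiv ℝ (fun x => Exp G p (β x)) (t • u) x =
      t⁻¹ • PT G (p, β u) t (At G (p, β u) 0 t (β x)) := by
    intro x
    have h4 : HasFDerivAt (Exp G p) (fderiv ℝ (Exp G p) (t • β u)) (β (t • u)) := by
      have := ((Crest.Agent.R241.D3c.contDiffAt_Exp' G hp
        ((G.T p).smul_mem t (hβm u))).differentiableAt (by simp)).hasFDerivAt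
      simpa using this
    have h5 := h4.comp (t • u) β.toContinuousLinearMap.hasFDerivAt
    have h6 : fderiv ℝ (fun x => Exp G p (β x)) (t • u) =
        (fderiv ℝ (Exp G p) (t • β u)) ∘L β.toContinuousLinearMap := h5.fderiv
    rw [h6]
    change fderiv ℝ (Exp G p) (t • β u) (β x) = _
    rw [PT_At_zero hp (hβm u) (hβm x), ← smul_fderiv_Exp hp (hβm u) (hβm x), smul_smul,
      inv_mul_cancel₀ ht.ne', one_smul]
  -- the orthonormal basis of `T_p`
  let e : Euc n ≃ₗᵢ[ℝ] (G.T p) :=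
    LinearIsometryEquiv.ofSurjective
      { toLinearMap := β.toLinearMap.codRestrict (G.T p) hβm
        norm_map' := fun x => β.norm_map x } (by
        rintro ⟨y, hy⟩
        rw [← hβ] at hy
        obtain ⟨x, rfl⟩ := hy
        exact ⟨x, rfl⟩)
  let b0 : OrthonormalBasis (Fin n) ℝ (Euc n) := EuclideanSpace.basisFun (Fin n) ℝ
  let b : OrthonormalBasis (Fin n) ℝ (G.T p) := b0.map e
  have hb : ∀ i, ((b i : G.T p) : Euc N) = β (b0 i) := fun i => by
    rw [OrthonormalBasis.map_apply]; rfl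
  have hA : ∀ x ∈ G.T p, At G (p, β u) 0 t x ∈ G.T p := fun x _ => At_mem hq 0 t x
  have h2 := det_extend (A := At G (p, β u) 0 t) (Q := G.P p) b
    (fun x hx => (P_eq_self G hp).1 hx) (fun x => P_mem G hp) hA
  have h3 := det_At_T hq h1 t
  change |(At G (p, β u) 0 t ∘L G.P p + (ContinuousLinearMap.id ℝ (Euc N) - G.P p)).det| = _ at h3
  rw [h2, abs_of_pos ht] at h3
  -- the Gram matrix
  have h4 := Crest.Agent.R241.AF.jac_sq_gram (fderiv ℝ (fun x => Exp G p (β x)) (t • u)) b0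
  have h5 : (Matrix.of fun i j => inner ℝ (fderiv ℝ (fun x => Exp G p (β x)) (t • u) (b0 i))
      (fderiv ℝ (fun x => Exp G p (β x)) (t • u) (b0 j))) =
      (t⁻¹ ^ 2) • ((mat b (At G (p, β u) 0 t)).transpose * mat b (At G (p, β u) 0 t)) := by
    ext i j
    rw [Matrix.of_apply, hd, hd, inner_smul_left, inner_smul_right, inner_PT hq,
      Matrix.smul_apply, Matrix.mul_apply, ← hb, ← hb]
    have h6 : ∀ x y, x ∈ G.T p → y ∈ G.T p → ⟪x, y⟫ = ∑ k, ⟪(b k : Euc N), x⟫ * ⟪(b k : Euc N), y⟫ := by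
      intro x y hx hy
      conv_lhs => rw [← expand b hx]
      rw [sum_inner]
      refine Finset.sum_congr rfl fun k _ => ?_
      rw [inner_smul_left]
      rfl
    rw [h6 _ _ (At_mem hq 0 t _) (At_mem hq 0 t _)]
    simp only [Matrix.transpose_apply, mat_apply, smul_eq_mul]
    rw [sq]
    simp only [conj_trivial]
    ring
  rw [h5, Matrix.det_smul, Matrix.det_mul, Matrix.det_transpose, Fintype.card_fin] at h4
  have h6 : Crest.Agent.R241.AF.jac (fderiv ℝ (fun x => Exp G p (β x)) (t • u)) =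
      t⁻¹ ^ n * |(mat b (At G (p, β u) 0 t)).det| := by
    have h7 : 0 ≤ t⁻¹ ^ n * |(mat b (At G (p, β u) 0 t)).det| := by positivity
    refine (sq_eq_sq₀ (Crest.Agent.R241.AF.jac_nonneg _) h7).1 ?_
    rw [h4, mul_pow, sq_abs]
    ring
  have hn : t ^ (n - 1) * t = t ^ n := by
    rw [← pow_succ]
    congr 1
    have := finrank_Vp hq h1
    omega
  rw [h6, h3]
  calc t⁻¹ ^ n * (t * Dn G (p, β u) 0 t) * t ^ (n - 1)
      = (t⁻¹ ^ n * (t ^ (n - 1) * t)) * Dn G (p, β u) 0 t := by ring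
    _ = Dn G (p, β u) 0 t := by
      rw [hn, ← mul_pow, inv_mul_cancel₀ ht.ne', one_pow, one_mul]

/-! ### the kernel of the Jacobi tensor -/

/-- critical directions of the exponential map -/
lemma fderiv_Exp_eq_zero_iff (hq : q ∈ TS G) {t : ℝ} (ht : t ≠ 0) {w : Euc N} (hw : w ∈ G.T q.1) :
    fderiv ℝ (Exp G q.1) (t • q.2) w = 0 ↔ At G q 0 t w = 0 := by
  have h1 := smul_fderiv_Exp (G := G) hq.1 hq.2 hw t
  rw [← PT_At_zero hq.1 hq.2 hw t] at h1
  constructor
  · intro h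
    rw [h, smul_zero] at h1
    have h2 : ‖At G q 0 t w‖ = 0 := by
      rw [← norm_PT hq t]
      change ‖PT G (q.1, q.2) t (At G (q.1, q.2) 0 t w)‖ = 0
      rw [← h1, norm_zero]
    exact norm_eq_zero.1 h2
  · intro h
    change t • fderiv ℝ (Exp G q.1) (t • q.2) w = PT G q t (At G q 0 t w) at h1
    rw [h, map_zero] at h1
    exact (smul_eq_zero.1 h1).resolve_left ht

lemma inner_eq_zero_of_At (hq : q ∈ TS G) {s t : ℝ} (ht : t - s ≠ 0) {w : Euc N}
    (h : At G q s t w = 0) : ⟪w, q.2⟫ = 0 := by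
  have h1 := inner_At_velocity hq s t w
  rw [h, inner_zero_left] at h1
  exact (mul_eq_zero.1 h1.symm).resolve_left ht

lemma ker_Exp_eq (hq : q ∈ TS G) {t : ℝ} (ht : t ≠ 0) :
    (G.T q.1 ⊓ LinearMap.ker (fderiv ℝ (Exp G q.1) (t • q.2)).toLinearMap : Submodule ℝ (Euc N)) =
      Vp G q ⊓ LinearMap.ker (At G q 0 t).toLinearMap := by
  ext w
  rw [Submodule.mem_inf, Submodule.mem_inf, LinearMap.mem_ker, LinearMap.mem_ker, mem_Vp]
  change w ∈ G.T q.1 ∧ fderiv ℝ (Exp G q.1) (t • q.2) w = 0 ↔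
    (w ∈ G.T q.1 ∧ ⟪w, q.2⟫ = 0) ∧ At G q 0 t w = 0
  constructor
  · rintro ⟨h1, h2⟩
    have h3 := (fderiv_Exp_eq_zero_iff hq ht h1).1 h2
    exact ⟨⟨h1, inner_eq_zero_of_At hq (by simpa using ht) h3⟩, h3⟩
  · rintro ⟨⟨h1, _⟩, h2⟩
    exact ⟨h1, (fderiv_Exp_eq_zero_iff hq ht h1).2 h2⟩

lemma At_shift_zero (hq : q ∈ TS G) (s t : ℝ) {w : Euc N} (hw : w ∈ G.T (fl G (q, s)).1) :
    At G (fl G (q, s)) 0 t w = PT G q s (At G q s (s + t) (PTi G q s w)) := by
  have := At_shift hq s 0 t hw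
  rwa [add_zero] at this

lemma finrank_ker_shift (hq : q ∈ TS G) (s t : ℝ) :
    finrank ℝ (Vp G q ⊓ LinearMap.ker (At G q s (s + t)).toLinearMap : Submodule ℝ (Euc N)) =
    finrank ℝ (Vp G (fl G (q, s)) ⊓ LinearMap.ker (At G (fl G (q, s)) 0 t).toLinearMap :
      Submodule ℝ (Euc N)) := by
  have hm : ∀ w, w ∈ (Vp G q ⊓ LinearMap.ker (At G q s (s + t)).toLinearMap :
      Submodule ℝ (Euc N)) ↔ PT G q s w ∈ (Vp G (fl G (q, s)) ⊓
        LinearMap.ker (At G (fl G (q, s)) 0 t).toLinearMap : Submodule ℝ (Euc N)) := by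
    intro w
    rw [Submodule.mem_inf, Submodule.mem_inf, velocity_Vp hq, LinearMap.mem_ker,
      LinearMap.mem_ker]
    refine and_congr_right fun h1 => ?_
    change At G q s (s + t) w = 0 ↔ At G (fl G (q, s)) 0 t (PT G q s w) = 0
    rw [At_shift_zero hq s t (PT_mem hq s (mem_Vp.1 h1).1), PTi_PT hq]
    constructor
    · intro h; rw [h, map_zero]
    · intro h
      have := congrArg (PTi G q s) h
      rwa [PTi_PT hq, map_zero] at this
  let e : (Vp G q ⊓ LinearMap.ker (At G q s (s + t)).toLinearMap : Submodule ℝ (Euc N)) ≃ₗ[ℝ]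
      (Vp G (fl G (q, s)) ⊓ LinearMap.ker (At G (fl G (q, s)) 0 t).toLinearMap :
        Submodule ℝ (Euc N)) :=
    { toFun := fun w => ⟨PT G q s w, (hm w).1 w.2⟩
      invFun := fun w => ⟨PTi G q s w, (hm _).2 (by rw [PT_PTi hq]; exact w.2)⟩
      left_inv := fun w => Subtype.ext (PTi_PT hq s w)
      right_inv := fun w => Subtype.ext (PT_PTi hq s w)
      map_add' := fun w u => Subtype.ext (map_add _ _ _)
      map_smul' := fun c w => Subtype.ext (map_smul _ _ _) }
  exact e.finrank_eq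

/-! ### periodicity -/

/-- periodicity of the Jacobi tensor of a closed geodesic. -/
lemma At_periodic (hper : HS.Per G) (hq : q ∈ TS G) (h1 : ‖q.2‖ = 1) (s t : ℝ) {w : Euc N}
    (hw : w ∈ Vp G q) :
    At G q s (t + 2 * Real.pi) w = PTi G q (2 * Real.pi) (At G q s t w) := by
  have hs := fl_mem G hq s
  have hs1 : ‖(fl G (q, s)).2‖ = 1 := by rw [norm_fl G hq, h1]
  have hw1 := (velocity_Vp hq s).2 hw
  rw [mem_Vp] at hw1 hw
  have hPw : G.P q.1 w = w := (P_eq_self G hq.1).1 hw.1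
  have h2 : t + 2 * Real.pi - s = (t - s) + 2 * Real.pi := by ring
  rw [At_apply', At_apply', hPw, h2]
  have h3 : ∀ r, JF G (fl G (q, s)) (0, PT G q s w) r =
      Crest.Agent.R241.D3b.J G (fl G (q, s)).1 (fl G (q, s)).2 (PT G q s w) r :=
    fun r => JF_eq_J hs.1 hs.2 hw1.1 r
  rw [h3, h3, HS.J_periodic hper hs.1 hs.2 hs1 hw1.1 (by rw [real_inner_comm]; exact hw1.2),
    add_comm t, PTi_add hq, hper q hq h1]

/-! ### the Jacobi cocycle -/

lemma hasDerivAt_mat {m : ℕ} {E : Submodule ℝ (Euc N)} (b : OrthonormalBasis (Fin m) ℝ E)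
    {L : ℝ → Euc N →L[ℝ] Euc N} {L' : Euc N →L[ℝ] Euc N} {t : ℝ} (h : HasDerivAt L L' t)
    (i j : Fin m) : HasDerivAt (fun t => mat b (L t) i j) (mat b L' i j) t := by
  have h1 : HasDerivAt (fun t => L t (b j)) (L' (b j)) t := by
    simpa using h.clm_apply (hasDerivAt_const t ((b j : E) : Euc N))
  have h2 : HasDerivAt (fun t => ⟪((b i : E) : Euc N), L t (b j)⟫)
      ⟪((b i : E) : Euc N), L' (b j)⟫ t := by
    have := (hasDerivAt_const t ((b i : E) : Euc N)).inner ℝ h1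
    simpa using this
  exact h2

lemma continuous_mat {m : ℕ} {E : Submodule ℝ (Euc N)} (b : OrthonormalBasis (Fin m) ℝ E)
    {X : Type*} [TopologicalSpace X] {L : X → Euc N →L[ℝ] Euc N} (h : Continuous L) :
    Continuous fun t => mat b (L t) := by
  refine continuous_matrix fun i j => ?_
  have h1 : Continuous fun t => L t (b j) := h.clm_apply continuous_const
  exact continuous_const.inner h1

/-- **the Jacobi cocycle of a closed geodesic.** -/
def jLoop {m a : ℕ} (hper : HS.Per G)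
    (hnc : ∀ z ∈ TS G, ‖z.2‖ = 1 → ∀ t, 0 < t → t < Real.pi → ∀ w ∈ G.T z.1,
      fderiv ℝ (Exp G z.1) (t • z.2) w = 0 → w = 0)
    (hmult : ∀ z ∈ TS G, ‖z.2‖ = 1 → finrank ℝ
      (G.T z.1 ⊓ LinearMap.ker (fderiv ℝ (Exp G z.1) (Real.pi • z.2)).toLinearMap :
        Submodule ℝ (Euc N)) = a)
    (hq : q ∈ TS G) (h1 : ‖q.2‖ = 1) (b : OrthonormalBasis (Fin m) ℝ (Vp G q)) :
    Crest.Agent.R208.N.JLoop m a where
  R := fun t => mat b (Rh G q t)
  Q := mat b (PTi G q (2 * Real.pi))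
  A := fun s t => mat b (At G q s t)
  At := fun s t => mat b (At' G q s t)
  R_cont := continuous_mat b (contDiff_Rh hq).continuous
  R_symm := fun t => mat_transpose b fun x y => inner_Rh hq t x y
  Q_orth := by
    have h2 : (mat b (PTi G q (2 * Real.pi))).transpose = mat b (PT G q (2 * Real.pi)) :=
      mat_transpose b fun x y => inner_PTi_left _ x y
    have h3 : ∀ x ∈ Vp G q, PTi G q (2 * Real.pi) x ∈ Vp G q := by
      intro x hx
      rw [← velocity_Vp hq (2 * Real.pi), PT_PTi hq, hper q hq h1]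
      exact hx
    rw [h2, ← mat_comp b h3]
    exact mat_one_of b fun x _ => PT_PTi hq _ x
  hA := fun s t i j => hasDerivAt_mat b (hasDerivAt_At hq s t) i j
  hAt := fun s t i j => by
    have h2 := hasDerivAt_mat b (hasDerivAt_At' hq s t) i j
    rwa [mat_neg, mat_comp b fun x hx => At_Vp hq s t hx] at h2
  A_diag := fun s => by
    ext i j
    rw [mat_apply, At_self hq]
    simp
  At_diag := fun s => mat_one_of b fun x hx => by
    rw [At'_self hq, (P_eq_self G hq.1).1 (mem_Vp.1 hx).1]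
  per := fun s t => by
    rw [← mat_comp b fun x hx => At_Vp hq s t hx]
    ext i j
    rw [mat_apply, mat_apply, At_periodic hper hq h1 s t (b j).2]
    rfl
  ndeg := fun s t hst hst' => by
    refine mat_det_ne_zero b (fun x hx => At_Vp hq s t hx) fun x hx h0 => ?_
    have hs := fl_mem G hq s
    have hs1 : ‖(fl G (q, s)).2‖ = 1 := by rw [norm_fl G hq, h1]
    have hx1 := (mem_Vp.1 ((velocity_Vp hq s).2 hx)).1
    have h2 : At G (fl G (q, s)) 0 (t - s) (PT G q s x) = 0 := by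
      rw [At_shift_zero hq s (t - s) hx1, PTi_PT hq, add_sub_cancel, h0, map_zero]
    have h3 := hnc _ hs hs1 (t - s) hst hst' _ hx1
      ((fderiv_Exp_eq_zero_iff hs hst.ne' hx1).2 h2)
    have h4 := congrArg (PTi G q s) h3
    rwa [PTi_PT hq, map_zero] at h4
  mult := fun s => by
    have hs := fl_mem G hq s
    have hs1 : ‖(fl G (q, s)).2‖ = 1 := by rw [norm_fl G hq, h1]
    have h2 := rank_mat b (fun x hx => At_Vp hq s (s + Real.pi) hx)
    rw [finrank_ker_shift hq s Real.pi, ← ker_Exp_eq hs Real.pi_ne_zero, hmult _ hs hs1] at h2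
    exact h2

variable {m a : ℕ} {hper : HS.Per G}
  {hnc : ∀ z ∈ TS G, ‖z.2‖ = 1 → ∀ t, 0 < t → t < Real.pi → ∀ w ∈ G.T z.1,
      fderiv ℝ (Exp G z.1) (t • z.2) w = 0 → w = 0}
  {hmult : ∀ z ∈ TS G, ‖z.2‖ = 1 → finrank ℝ
      (G.T z.1 ⊓ LinearMap.ker (fderiv ℝ (Exp G z.1) (Real.pi • z.2)).toLinearMap :
        Submodule ℝ (Euc N)) = a}

lemma jLoop_A (hq : q ∈ TS G) (h1 : ‖q.2‖ = 1) (b : OrthonormalBasis (Fin m) ℝ (Vp G q))
    (s t : ℝ) : (jLoop hper hnc hmult hq h1 b).A s t = mat b (At G q s t) := rfl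

/-- the determinant of the cocycle is the density along the flow -/
lemma abs_det_jLoop (hq : q ∈ TS G) (h1 : ‖q.2‖ = 1) (b : OrthonormalBasis (Fin m) ℝ (Vp G q))
    (s u : ℝ) : |((jLoop hper hnc hmult hq h1 b).A s (s + u)).det| = Dn G (fl G (q, s)) 0 u := by
  rw [jLoop_A, ← Dn_eq hq h1 b, Dn_shift hq h1, add_zero]

/-- positivity of the density before `π`. -/
lemma Dn_pos (hnc : ∀ z ∈ TS G, ‖z.2‖ = 1 → ∀ t, 0 < t → t < Real.pi → ∀ w ∈ G.T z.1,
      fderiv ℝ (Exp G z.1) (t • z.2) w = 0 → w = 0)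
    (hq : q ∈ TS G) (h1 : ‖q.2‖ = 1) {t : ℝ} (ht : 0 < t) (ht' : t < Real.pi) :
    0 < Dn G q 0 t := by
  obtain ⟨b⟩ := exists_basis (m := n - 1) (by have := finrank_Vp hq h1; omega) hq h1
  rw [Dn_eq hq h1 b]
  refine abs_pos.2 (mat_det_ne_zero b (fun x hx => At_Vp hq 0 t hx) fun x hx h0 => ?_)
  have hx1 := (mem_Vp.1 hx).1
  exact hnc _ hq h1 t ht ht' _ hx1 ((fderiv_Exp_eq_zero_iff hq ht.ne' hx1).2 h0)

/-! ### the polar form of the metric -/

lemma mulVec_mat {E : Submodule ℝ (Euc N)} (b : OrthonormalBasis (Fin m) ℝ E)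
    {L : Euc N →L[ℝ] Euc N} {x : Euc N} (hx : x ∈ E) (i : Fin m) :
    (mat b L).mulVec (fun j => ⟪(b j : Euc N), x⟫) i = ⟪(b i : Euc N), L x⟫ := by
  conv_rhs => rw [← expand b hx]
  rw [map_sum, inner_sum, Matrix.mulVec, dotProduct]
  refine Finset.sum_congr rfl fun k _ => ?_
  rw [map_smul, inner_smul_right, mat_apply]
  ring

lemma norm_sq_coord {E : Submodule ℝ (Euc N)} (b : OrthonormalBasis (Fin m) ℝ E) {x : Euc N}
    (hx : x ∈ E) : ‖x‖ ^ 2 = dotProduct (fun j => ⟪(b j : Euc N), x⟫) fun j => ⟪(b j : Euc N), x⟫ := by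
  rw [← real_inner_self_eq_norm_sq]
  conv_lhs => rw [← expand b hx]
  rw [sum_inner, dotProduct]
  refine Finset.sum_congr rfl fun k _ => ?_
  rw [inner_smul_left, expand b hx]
  rfl

/-- **from the equality case to the polar form of the metric.** -/
theorem polarAt (hq : q ∈ TS G) (h1 : ‖q.2‖ = 1) (b : OrthonormalBasis (Fin m) ℝ (Vp G q))
    {P : Matrix (Fin m) (Fin m) ℝ} (hPt : P.transpose = P) (hPP : P * P = P)
    (hA : ∀ u : ℝ, 0 ≤ u → u ≤ Real.pi →
      (mat b (At G q 0 u)).transpose * mat b (At G q 0 u) =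
        (Real.sin u ^ 2) • P + (4 * Real.sin (u / 2) ^ 2) • (1 - P)) :
    HS.PolarAt G q.1 q.2 := by
  classical
  -- coordinates
  let co : Euc N → Fin m → ℝ := fun x j => ⟪(b j : Euc N), x⟫
  let E : Submodule ℝ (Euc N) :=
    { carrier := {x | x ∈ Vp G q ∧ P.mulVec (co x) = co x}
      add_mem' := by
        rintro x y ⟨hx, hx'⟩ ⟨hy, hy'⟩
        refine ⟨Submodule.add_mem _ hx hy, ?_⟩
        have : co (x + y) = co x + co y := by
          funext j; exact inner_add_right _ _ _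
        rw [this, Matrix.mulVec_add, hx', hy']
      zero_mem' := by
        refine ⟨Submodule.zero_mem _, ?_⟩
        have : co 0 = 0 := by funext j; exact inner_zero_right _
        rw [this, Matrix.mulVec_zero]
      smul_mem' := by
        rintro c x ⟨hx, hx'⟩
        refine ⟨Submodule.smul_mem _ _ hx, ?_⟩
        have : co (c • x) = c • co x := by
          funext j
          exact inner_smul_right _ _ _
        rw [this, Matrix.mulVec_smul, hx'] }
  have hE : ∀ x, x ∈ E ↔ x ∈ Vp G q ∧ P.mulVec (co x) = co x := fun x => Iff.rfl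
  refine ⟨E, fun x hx => (mem_Vp.1 ((hE x).1 hx).1).1, fun x hx => ?_, ?_⟩
  · rw [real_inner_comm]; exact (mem_Vp.1 ((hE x).1 hx).1).2
  intro w₁ hw₁ w₂ hw₂ hvw₂ hperp t ht
  have hw₁' := (hE w₁).1 hw₁
  have hw₂v : w₂ ∈ Vp G q := mem_Vp.2 ⟨hw₂, by rw [real_inner_comm]; exact hvw₂⟩
  -- `P` kills `w₂`
  have hPw₂ : P.mulVec (co w₂) = 0 := by
    -- the vector with coordinates `P (co w₂)`
    set y : Euc N := ∑ j, (P.mulVec (co w₂) j) • ((b j : Vp G q) : Euc N) with hy
    have hyV : y ∈ Vp G q := Submodule.sum_mem _ fun j _ => Submodule.smul_mem _ _ (b j).2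
    have hcy : co y = P.mulVec (co w₂) := by
      funext i
      change ⟪(b i : Euc N), y⟫ = _
      rw [hy, inner_sum]
      have h2 : ∀ j, ⟪((b i : Vp G q) : Euc N), (P.mulVec (co w₂) j) • ((b j : Vp G q) : Euc N)⟫ =
          if i = j then P.mulVec (co w₂) j else 0 := by
        intro j
        rw [inner_smul_right]
        have h3 : ⟪((b i : Vp G q) : Euc N), ((b j : Vp G q) : Euc N)⟫ =
            if i = j then (1 : ℝ) else 0 := (orthonormal_iff_ite.1 b.orthonormal) i j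
        rw [h3]
        split_ifs <;> simp
      rw [Finset.sum_congr rfl fun j _ => h2 j]
      simp
    have hyE : y ∈ E := (hE y).2 ⟨hyV, by rw [hcy, Matrix.mulVec_mulVec, hPP]⟩
    have h3 := hperp y hyE
    rw [hy, sum_inner] at h3
    have h4 : dotProduct (P.mulVec (co w₂)) (co w₂) = 0 := by
      rw [dotProduct, ← h3]
      refine Finset.sum_congr rfl fun j _ => ?_
      rw [inner_smul_left]
      rfl
    have h5 : dotProduct (P.mulVec (co w₂)) (P.mulVec (co w₂)) = 0 := by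
      rw [← h4]
      conv_rhs => rw [← hPP, ← Matrix.mulVec_mulVec]
      rw [Matrix.dotProduct_mulVec, ← Matrix.mulVec_transpose, hPt]
    exact dotProduct_self_eq_zero.1 h5
  have hwV : w₁ + w₂ ∈ Vp G q := Submodule.add_mem _ hw₁'.1 hw₂v
  have hco : co (w₁ + w₂) = co w₁ + co w₂ := by
    funext j; exact inner_add_right _ _ _
  -- the norm
  have h2 : ‖Crest.Agent.R241.D3b.J G q.1 q.2 (w₁ + w₂) t‖ ^ 2 = ‖At G q 0 t (w₁ + w₂)‖ ^ 2 := by
    rw [← PT_At_zero hq.1 hq.2 (mem_Vp.1 hwV).1]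
    change ‖PT G q t (At G q 0 t (w₁ + w₂))‖ ^ 2 = _
    rw [norm_PT hq]
  rw [h2, norm_sq_coord b (At_Vp hq 0 t hwV), norm_sq_coord b hw₁'.1, norm_sq_coord b hw₂v]
  have h3 : (fun j => ⟪((b j : Vp G q) : Euc N), At G q 0 t (w₁ + w₂)⟫) =
      (mat b (At G q 0 t)).mulVec (co (w₁ + w₂)) := by
    funext i; exact (mulVec_mat b hwV i).symm
  rw [h3]
  have h4 : dotProduct ((mat b (At G q 0 t)).mulVec (co (w₁ + w₂)))
      ((mat b (At G q 0 t)).mulVec (co (w₁ + w₂))) =
      dotProduct (co (w₁ + w₂)) (((mat b (At G q 0 t)).transpose * mat b (At G q 0 t)).mulVec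
        (co (w₁ + w₂))) := by
    conv_rhs => rw [← Matrix.mulVec_mulVec, Matrix.dotProduct_mulVec, Matrix.vecMul_transpose]
  rw [h4, hA t ht.1 ht.2, hco, Matrix.add_mulVec, Matrix.smul_mulVec, Matrix.smul_mulVec,
    Matrix.sub_mulVec, Matrix.one_mulVec, Matrix.mulVec_add, hw₁'.2, hPw₂, add_zero,
    add_sub_cancel_left]
  -- orthogonality of the coordinates
  have h5 : dotProduct (co w₂) (co w₁) = 0 := by
    conv_lhs => rw [← hw₁'.2]
    rw [Matrix.dotProduct_mulVec, ← Matrix.mulVec_transpose, hPt, hPw₂, zero_dotProduct]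
  have h6 : dotProduct (co w₁) (co w₂) = 0 := by rw [dotProduct_comm]; exact h5
  rw [dotProduct_add, dotProduct_smul, dotProduct_smul, add_dotProduct, add_dotProduct, h5, h6,
    add_zero, zero_add, smul_eq_mul, smul_eq_mul]

end Crest.Agent.R208.J
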