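import Mathlib

/-!
R208 (Blaschke), block G5, file K4: kernel vectors of a map of locally constant rank are velocities
of curves in the fibre.
-/

set_option autoImplicit false

open Set Filter Topology
open scoped ContDiff

noncomputable section

namespace Crest.Agent.R208.K

variable {V F : Type*} [NormedAddCommGroup V] [InnerProductSpace ℝ V] [FiniteDimensional ℝ V]
  [NormedAddCommGroup F] [InnerProductSpace ℝ F] [FiniteDimensional ℝ F]

/-- constant rank: kernel vectors are velocities of curves in the fibre. -/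
theorem fibre_curve {f : V → F} {x0 : V} (hf : ContDiffAt ℝ 1 f x0)
    (hrank : ∀ᶠ x in 𝓝 x0, Module.finrank ℝ (LinearMap.ker (fderiv ℝ f x).toLinearMap) =
      Module.finrank ℝ (LinearMap.ker (fderiv ℝ f x0).toLinearMap))
    {w : V} (hw : fderiv ℝ f x0 w = 0) :
    ∃ c : ℝ → V, c 0 = x0 ∧ HasDerivAt c w 0 ∧ ∀ᶠ t in 𝓝 (0 : ℝ), f (c t) = f x0 := by
  classical
  set B : V →L[ℝ] F := fderiv ℝ f x0 with hB
  set R : Submodule ℝ F := LinearMap.range B.toLinearMap with hR
  set W : Submodule ℝ V := LinearMap.ker B.toLinearMap with hW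
  -- the map `x ↦ (proj_R (f x), proj_W x)`
  set A : V → R × W := fun x => (R.orthogonalProjectionOnto (f x), W.orthogonalProjectionOnto x) with hA
  have hdf : HasStrictFDerivAt f B x0 := hf.hasStrictFDerivAt (by simp)
  set A' : V →L[ℝ] R × W := ((R.orthogonalProjectionOnto : F →L[ℝ] R).comp B).prod
    (W.orthogonalProjectionOnto : V →L[ℝ] W) with hA'
  have hdA : HasStrictFDerivAt A A' x0 :=
    ((R.orthogonalProjectionOnto : F →L[ℝ] R).hasStrictFDerivAt.comp x0 hdf).prodMk
      (W.orthogonalProjectionOnto : V →L[ℝ] W).hasStrictFDerivAt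
  have hinj : Function.Injective A'.toLinearMap := by
    rw [← LinearMap.ker_eq_bot, LinearMap.ker_eq_bot']
    intro x hx
    have hx1 : R.orthogonalProjectionOnto (B x) = 0 := congrArg Prod.fst hx
    have hx2 : W.orthogonalProjectionOnto x = 0 := congrArg Prod.snd hx
    have h1 : B x ∈ R := LinearMap.mem_range_self _ x
    have h2 : B x = 0 := by
      have := Submodule.orthogonalProjectionOnto_mem_subspace_eq_self (⟨B x, h1⟩ : R)
      simp only at this
      rw [hx1] at this
      exact (congrArg Subtype.val this).symm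
    have h3 : x ∈ W := by rw [hW, LinearMap.mem_ker]; exact h2
    have h4 := Submodule.orthogonalProjectionOnto_mem_subspace_eq_self (⟨x, h3⟩ : W)
    simp only at h4
    rw [hx2] at h4
    exact (congrArg Subtype.val h4).symm
  have hdim : Module.finrank ℝ V = Module.finrank ℝ (R × W) := by
    rw [Module.finrank_prod]
    exact (LinearMap.finrank_range_add_finrank_ker B.toLinearMap).symm
  let Ae : V ≃L[ℝ] (R × W) :=
    (LinearEquiv.ofInjectiveOfFinrankEq A'.toLinearMap hinj hdim).toContinuousLinearEquiv
  have hAe : (Ae : V →L[ℝ] R × W) = A' := by ext x <;> rfl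
  have hdA2 : HasStrictFDerivAt A (Ae : V →L[ℝ] R × W) x0 := by rw [hAe]; exact hdA
  set g : R × W → V := hdA2.localInverse A Ae x0 with hg
  have hg1 : HasStrictFDerivAt g (Ae.symm : R × W →L[ℝ] V) (A x0) := hdA2.to_localInverse
  have hg0 : g (A x0) = x0 := hdA2.localInverse_apply_image
  have hgr : ∀ᶠ y in 𝓝 (A x0), A (g y) = y := hdA2.eventually_right_inverse
  have hwW : w ∈ W := by rw [hW, LinearMap.mem_ker]; exact hw
  set l : ℝ → R × W := fun t => A x0 + t • ((0 : R), (⟨w, hwW⟩ : W)) with hl
  have hl0 : l 0 = A x0 := by simp [hl]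
  have hdl : ∀ t, HasDerivAt l ((0 : R), (⟨w, hwW⟩ : W)) t := fun t => by
    have := ((hasDerivAt_id t).smul_const ((0 : R), (⟨w, hwW⟩ : W))).const_add (A x0)
    rw [one_smul] at this
    exact this
  have hlc : Tendsto l (𝓝 0) (𝓝 (A x0)) := by
    rw [← hl0]; exact (hdl 0).continuousAt
  -- `g` is differentiable near `A x0`
  have hgd : ∀ᶠ y in 𝓝 (A x0), DifferentiableAt ℝ g y := by
    have hAc : ContDiffAt ℝ 1 A x0 :=
      ((R.orthogonalProjectionOnto : F →L[ℝ] R).contDiff.contDiffAt.comp x0 hf).prodMk
        (W.orthogonalProjectionOnto : V →L[ℝ] W).contDiff.contDiffAt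
    have h1 : ContDiffAt ℝ 1 g (A x0) := by
      have := hAc.to_localInverse (f' := Ae) hdA2.hasFDerivAt (by simp)
      exact this
    exact (h1.eventually (by simp)).mono fun y hy => hy.differentiableAt (by simp)
  refine ⟨fun t => g (l t), by simp only [hl0, hg0], ?_, ?_⟩
  · have h1 : HasFDerivAt g (Ae.symm : R × W →L[ℝ] V) (l 0) := by rw [hl0]; exact hg1.hasFDerivAt
    have h2 := h1.comp_hasDerivAt (0 : ℝ) (hdl 0)
    have h3 : Ae w = ((0 : R), (⟨w, hwW⟩ : W)) := by
      have h4 : Ae w = A' w := rfl
      rw [h4, hA']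
      refine Prod.ext ?_ ?_
      · show R.orthogonalProjectionOnto (B w) = 0
        rw [hw, map_zero]
      · exact Submodule.orthogonalProjectionOnto_mem_subspace_eq_self (⟨w, hwW⟩ : W)
    have h4 : (Ae.symm : R × W →L[ℝ] V) ((0 : R), (⟨w, hwW⟩ : W)) = w := by
      rw [← h3]
      exact Ae.symm_apply_apply w
    rw [h4] at h2
    exact h2
  -- `f ∘ g ∘ l` has zero derivative near 0
  · have hev : ∀ᶠ t in 𝓝 (0 : ℝ), DifferentiableAt ℝ f (g (l t)) ∧ DifferentiableAt ℝ g (l t) ∧
        (∀ᶠ s in 𝓝 t, A (g (l s)) = l s) ∧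
        Module.finrank ℝ (LinearMap.ker (fderiv ℝ f (g (l t))).toLinearMap) =
          Module.finrank ℝ W ∧
        Function.Injective ((R.orthogonalProjectionOnto : F →L[ℝ] R).comp (fderiv ℝ f (g (l t)))
          |>.prod (W.orthogonalProjectionOnto : V →L[ℝ] W)) := by
      have hgl : Tendsto (fun t => g (l t)) (𝓝 0) (𝓝 x0) := by
        have := hg1.hasFDerivAt.continuousAt.tendsto.comp hlc
        rwa [hg0] at this
      have e1 : ∀ᶠ x in 𝓝 x0, DifferentiableAt ℝ f x :=
        (hf.eventually (by simp)).mono fun y hy => hy.differentiableAt (by simp)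
      have e2 : ∀ᶠ x in 𝓝 x0, Function.Injective
          ((R.orthogonalProjectionOnto : F →L[ℝ] R).comp (fderiv ℝ f x)
          |>.prod (W.orthogonalProjectionOnto : V →L[ℝ] W)) := by
        have hc : ContinuousAt (fun x => ((R.orthogonalProjectionOnto : F →L[ℝ] R).comp
            (fderiv ℝ f x)).prod (W.orthogonalProjectionOnto : V →L[ℝ] W)) x0 := by
          have h5 : ContinuousAt (fderiv ℝ f) x0 :=
            (hf.fderiv_right (m := 0) (by simp)).continuousAt
          have h6 : ContinuousAt (fun x => (R.orthogonalProjectionOnto : F →L[ℝ] R).comp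
            (fderiv ℝ f x)) x0 := continuousAt_const.clm_comp h5
          have h7 : ContinuousAt (fun x => (ContinuousLinearMap.inl ℝ R W).comp
            ((R.orthogonalProjectionOnto : F →L[ℝ] R).comp (fderiv ℝ f x)) +
            (ContinuousLinearMap.inr ℝ R W).comp (W.orthogonalProjectionOnto : V →L[ℝ] W)) x0 :=
            (continuousAt_const.clm_comp h6).add continuousAt_const
          refine h7.congr (Eventually.of_forall fun x => ?_)
          ext v <;> simp
        have hopen := ContinuousLinearMap.isOpen_injective (𝕜 := ℝ) (E := V) (F := R × W)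
        have h8 : ((R.orthogonalProjectionOnto : F →L[ℝ] R).comp (fderiv ℝ f x0)).prod
            (W.orthogonalProjectionOnto : V →L[ℝ] W) ∈ {L : V →L[ℝ] R × W | Function.Injective L} :=
          hinj
        exact hc.eventually (hopen.mem_nhds h8)
      filter_upwards [hgl.eventually e1, hlc.eventually hgd,
        (hlc.eventually hgr).eventually_nhds, hgl.eventually hrank, hgl.eventually e2]
        with t h1 h2 h3 h4 h5
      exact ⟨h1, h2, h3, h4, h5⟩
    obtain ⟨ε, hε, hball⟩ := Metric.eventually_nhds_iff_ball.1 hev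
    have hderiv : ∀ t ∈ Metric.ball (0 : ℝ) ε, HasDerivAt (fun t => f (g (l t))) 0 t := by
      intro t ht
      obtain ⟨h1, h2, h3, h4, h5⟩ := hball t ht
      have hc : HasDerivAt (fun t => g (l t)) (fderiv ℝ g (l t) ((0 : R), (⟨w, hwW⟩ : W))) t :=
        h2.hasFDerivAt.comp_hasDerivAt t (hdl t)
      set c' := fderiv ℝ g (l t) ((0 : R), (⟨w, hwW⟩ : W)) with hc'
      have hfc : HasDerivAt (fun t => f (g (l t))) (fderiv ℝ f (g (l t)) c') t :=
        h1.hasFDerivAt.comp_hasDerivAt t hc
      suffices h : fderiv ℝ f (g (l t)) c' = 0 by rwa [h] at hfc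
      -- projection of the derivative vanishes
      have h6 : R.orthogonalProjectionOnto (fderiv ℝ f (g (l t)) c') = 0 := by
        have h7 : HasDerivAt (fun t => R.orthogonalProjectionOnto (f (g (l t))))
            (R.orthogonalProjectionOnto (fderiv ℝ f (g (l t)) c')) t :=
          (R.orthogonalProjectionOnto : F →L[ℝ] R).hasFDerivAt.comp_hasDerivAt t hfc
        have h8 : (fun s => R.orthogonalProjectionOnto (f (g (l s)))) =ᶠ[𝓝 t]
            fun _ => (A x0).1 := by
          filter_upwards [h3] with s hs
          have : (A (g (l s))).1 = (l s).1 := by rw [hs]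
          simpa [hl] using this
        have h9 := h7.congr_of_eventuallyEq h8.symm
        exact h9.unique (hasDerivAt_const t _)
      -- dimension count: ker (proj ∘ Df) = ker Df
      set Bt : V →L[ℝ] F := fderiv ℝ f (g (l t)) with hBt
      set Ct : V →L[ℝ] R := (R.orthogonalProjectionOnto : F →L[ℝ] R).comp Bt with hCt
      have hle : LinearMap.ker Bt.toLinearMap ≤ LinearMap.ker Ct.toLinearMap := by
        intro x hx
        rw [LinearMap.mem_ker] at hx ⊢
        show R.orthogonalProjectionOnto (Bt x) = 0
        have : Bt x = 0 := hx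
        rw [this, map_zero]
      have hfin : Module.finrank ℝ (LinearMap.ker Ct.toLinearMap) ≤ Module.finrank ℝ W := by
        -- `W.proj` is injective on `ker Ct`
        let φ : LinearMap.ker Ct.toLinearMap →ₗ[ℝ] W :=
          ((W.orthogonalProjectionOnto : V →L[ℝ] W).toLinearMap).comp (Submodule.subtype _)
        have hφ : Function.Injective φ := by
          rw [← LinearMap.ker_eq_bot, LinearMap.ker_eq_bot']
          rintro ⟨x, hx⟩ hx2
          have hx3 : Ct x = 0 := hx
          have hx4 : W.orthogonalProjectionOnto x = 0 := hx2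
          have : x = 0 := by
            apply h5
            rw [map_zero]
            exact Prod.ext hx3 hx4
          exact Subtype.ext this
        exact LinearMap.finrank_le_finrank_of_injective hφ
      have heq : LinearMap.ker Bt.toLinearMap = LinearMap.ker Ct.toLinearMap :=
        Submodule.eq_of_le_of_finrank_le hle (by rw [h4]; exact hfin)
      have : c' ∈ LinearMap.ker Ct.toLinearMap := h6
      rw [← heq] at this
      exact this
    have hconst : ∀ t ∈ Metric.ball (0 : ℝ) ε, f (g (l t)) = f (g (l 0)) := by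
      intro t ht
      have := Convex.norm_image_sub_le_of_norm_hasDerivWithin_le (𝕜 := ℝ)
        (s := Metric.ball (0 : ℝ) ε) (f := fun t => f (g (l t))) (f' := fun _ => 0) (C := 0)
        (fun x hx => (hderiv x hx).hasDerivWithinAt) (fun x _ => by simp)
        (convex_ball _ _) (Metric.mem_ball_self hε) ht
      rw [zero_mul] at this
      exact sub_eq_zero.1 (norm_le_zero_iff.1 this)
    filter_upwards [Metric.ball_mem_nhds (0 : ℝ) hε] with t ht
    rw [hconst t ht, hl0, hg0]

end Crest.Agent.R208.K
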