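import Crest.Agent.R208.K3
import Crest.Agent.R208.K4
import Crest.Agent.R241.D3c

/-!
R208 (Blaschke), block G5, file K5: kernels of `dExp` at distance `D`, the link of a direction in
`U1`, and the closing argument: every link is the unit sphere of a linear subspace of constant
dimension.  The only hypothesis not proved here is `MultConst`.
-/

set_option autoImplicit false

open Set Filter Topology
open scoped ContDiff RealInnerProductSpace
open Crest.GeometryTopology.Submanifold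
open Crest.Agent.R241.DDefs
open Crest.Agent.R241.D2
open Crest.Agent.R241.D3b
open Crest.Agent.R241.D3c

noncomputable section

namespace Crest.Agent.R208.K

variable {n N : ℕ} {κ : ℝ} {S : Set (Euc N)} {G : Geo n N κ S} {D : ℝ}

/-- tangent vectors in the kernel of `dExp` at `D v`. -/
def Mk (G : Geo n N κ S) (D : ℝ) (z : Euc N × Euc N) : Submodule ℝ (Euc N) :=
  G.T z.1 ⊓ LinearMap.ker (fderiv ℝ (Exp G z.1) (D • z.2)).toLinearMap

/-- multiplicity of the conjugate point at time `D`. -/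
def mult (G : Geo n N κ S) (D : ℝ) (z : Euc N × Euc N) : ℕ := Module.finrank ℝ (Mk G D z)

/-- directions all of whose (normal) Jacobi fields vanishing at `0` vanish at `2D`. -/
def Zs (G : Geo n N κ S) (D : ℝ) : Set (Euc N × Euc N) :=
  {z | z ∈ US G ∧ ∀ b ∈ G.T z.1, ⟪b, z.2⟫ = 0 →
    fderiv ℝ (Exp G z.1) ((2 * D) • z.2) b = 0}

/-- local constancy of the multiplicity on `Zs`. -/
def MultConst (G : Geo n N κ S) (D : ℝ) : Prop :=
  ∀ z0 ∈ Zs G D, ∀ᶠ z in 𝓝[Zs G D] z0, mult G D z = mult G D z0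

lemma mem_Mk {z : Euc N × Euc N} {b : Euc N} :
    b ∈ Mk G D z ↔ b ∈ G.T z.1 ∧ fderiv ℝ (Exp G z.1) (D • z.2) b = 0 := Iff.rfl

/-- derivative of the normalised line -/
lemma hasDerivAt_normalize {E : Type*} [NormedAddCommGroup E] [InnerProductSpace ℝ E] {v w : E}
    (hv : ‖v‖ = 1) : HasDerivAt (fun t : ℝ => (‖v + t • w‖⁻¹ : ℝ) • (v + t • w))
      (w - ⟪v, w⟫ • v) 0 := by
  have h1 : HasDerivAt (fun t : ℝ => v + t • w) w 0 := by
    simpa using ((hasDerivAt_id (0 : ℝ)).smul_const w).const_add v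
  have h2 : HasDerivAt (fun t : ℝ => ‖v + t • w‖ ^ 2) (2 * ⟪v + (0:ℝ) • w, w⟫) 0 := h1.norm_sq
  have h3 : HasDerivAt (fun t : ℝ => ‖v + t • w‖) ⟪v, w⟫ 0 := by
    have h4 := h2.sqrt (by simp [hv])
    have h5 : (fun t : ℝ => √(‖v + t • w‖ ^ 2)) = fun t : ℝ => ‖v + t • w‖ := by
      ext t; exact Real.sqrt_sq (norm_nonneg _)
    rw [h5] at h4
    convert h4 using 1
    simp [hv]
  have h6 := (h3.inv (by simp [hv])).smul h1
  have h7 : (fun t : ℝ => (‖v + t • w‖⁻¹ : ℝ) • (v + t • w)) =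
      (fun t : ℝ => ‖v + t • w‖)⁻¹ • fun t : ℝ => v + t • w := rfl
  rw [h7]
  refine h6.congr_deriv ?_
  simp only [zero_smul, add_zero, hv, inv_one, one_smul, one_pow, div_one, Pi.inv_apply]
  rw [neg_smul, sub_eq_add_neg]

lemma normalize_mem {p v w : Euc N} (hv : v ∈ G.T p) (hw : w ∈ G.T p) (t : ℝ) :
    (‖v + t • w‖⁻¹ : ℝ) • (v + t • w) ∈ G.T p :=
  (G.T p).smul_mem _ ((G.T p).add_mem hv ((G.T p).smul_mem t hw))

lemma norm_normalize {E : Type*} [NormedAddCommGroup E] [InnerProductSpace ℝ E] {x : E}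
    (hx : x ≠ 0) : ‖(‖x‖⁻¹ : ℝ) • x‖ = 1 := by
  rw [norm_smul, norm_inv, norm_norm, inv_mul_cancel₀ (norm_ne_zero_iff.2 hx)]

/-- derivative of `Exp (r c(t))`, `c` the normalised line. -/
lemma hasDerivAt_Exp_normalize {p v w : Euc N} (hp : p ∈ S) (hv : v ∈ G.T p) (hvn : ‖v‖ = 1)
    (r : ℝ) : HasDerivAt (fun t : ℝ => Exp G p (r • ((‖v + t • w‖⁻¹ : ℝ) • (v + t • w))))
      (fderiv ℝ (Exp G p) (r • v) (r • (w - ⟪v, w⟫ • v))) 0 := by
  have h1 := (hasDerivAt_normalize (w := w) hvn).const_smul r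
  have h0 : r • ((‖v + (0:ℝ) • w‖⁻¹ : ℝ) • (v + (0:ℝ) • w)) = r • v := by
    simp [hvn]
  have h2 : HasFDerivAt (Exp G p) (fderiv ℝ (Exp G p) (r • v))
      (r • ((‖v + (0:ℝ) • w‖⁻¹ : ℝ) • (v + (0:ℝ) • w))) := by
    rw [h0]
    exact ((contDiffAt_Exp' G hp ((G.T p).smul_mem r hv)).differentiableAt (by simp)).hasFDerivAt
  exact h2.comp_hasDerivAt (0 : ℝ) h1

lemma eventually_ne_zero {v w : Euc N} (hvn : ‖v‖ = 1) :
    ∀ᶠ t in 𝓝 (0 : ℝ), v + t • w ≠ 0 := by
  have h1 : ContinuousAt (fun t : ℝ => v + t • w) 0 := by fun_prop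
  have h2 : v + (0 : ℝ) • w ≠ 0 := by
    rw [zero_smul, add_zero]; intro h; rw [h, norm_zero] at hvn; norm_num at hvn
  exact h1.eventually_ne h2

lemma inner_of_Mk {z : Euc N × Euc N} (hz : z ∈ US G) (hD : 0 < D) {b : Euc N}
    (hb : b ∈ Mk G D z) : ⟪z.2, b⟫ = 0 := by
  have h1 := gauss G hz.1.1 ((G.T z.1).smul_mem D hz.1.2) (w := b) hb.1
  have h2 : fderiv ℝ (Exp G z.1) (D • z.2) b = 0 := hb.2
  rw [h2, inner_zero_left, inner_smul_left] at h1
  simp only [conj_trivial] at h1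
  rcases mul_eq_zero.1 h1.symm with h | h
  · exact absurd h hD.ne'
  · exact h

namespace Hyp

/-- one-sided differentiation along the (spherically convex) link. -/
lemma sub_mem_Mk (H : Hyp G D) {p q v w : Euc N} (hp : p ∈ S) (hq : q ∈ S)
    (hv : v ∈ Lk G D p q) (hw : w ∈ Lk G D p q) : w - ⟪v, w⟫ • v ∈ Mk G D (p, v) := by
  have hpq := H.dist_of_lk hp hv
  have hst : Star (G.T p) (Lk G D p q) := H.star hq hp (by rw [H.sym _ hq _ hp]; exact hpq)
  refine ⟨(G.T p).sub_mem hw.1 ((G.T p).smul_mem _ hv.1), ?_⟩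
  have h1 := hasDerivAt_Exp_normalize (G := G) (w := w) hp hv.1 hv.2.1 D
  have h2 : (fun t : ℝ => Exp G p (D • ((‖v + t • w‖⁻¹ : ℝ) • (v + t • w)))) =ᶠ[𝓝[Ici 0] 0]
      fun _ => q := by
    filter_upwards [nhdsWithin_le_nhds (eventually_ne_zero (w := w) hv.2.1),
      self_mem_nhdsWithin] with t ht ht0
    have h3 : (‖v + t • w‖⁻¹ : ℝ) • (v + t • w) ∈ Lk G D p q := by
      have := hst.conv hv hw (zero_le_one) (mem_Ici.1 ht0) (by rwa [one_smul])
      rwa [one_smul] at this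
    rw [Exp_smul G hp h3.1]
    exact h3.2.2
  have h4 : HasDerivWithinAt (fun _ : ℝ => q)
      (fderiv ℝ (Exp G p) (D • v) (D • (w - ⟪v, w⟫ • v))) (Ici 0) 0 := by
    refine (h1.hasDerivWithinAt (s := Ici 0)).congr_of_eventuallyEq h2.symm ?_
    have := h2.self_of_nhdsWithin (mem_Ici.2 le_rfl)
    exact this.symm
  have h5 := (uniqueDiffWithinAt_Ici (0:ℝ)).eq_deriv _ h4
    ((hasDerivAt_const (0:ℝ) q).hasDerivWithinAt)
  rw [map_smul] at h5
  show fderiv ℝ (Exp G p) (D • v) (w - ⟪v, w⟫ • v) = 0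
  rcases smul_eq_zero.1 h5 with h | h
  · exact absurd h H.hD.ne'
  · exact h

/-- orthonormal vectors of a link bound the multiplicity from below. -/
lemma card_le_mult (H : Hyp G D) {p q v : Euc N} (hp : p ∈ S) (hq : q ∈ S)
    (hv : v ∈ Lk G D p q) {m : ℕ} {e : Fin m → Euc N} (he : Orthonormal ℝ e)
    (hL : ∀ i, e i ∈ Lk G D p q) : m ≤ mult G D (p, v) + 1 := by
  set W : Submodule ℝ (Euc N) := Submodule.span ℝ (range e) with hW
  have hfin : Module.finrank ℝ W = m := by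
    rw [hW, finrank_span_eq_card he.linearIndependent, Fintype.card_fin]
  let L : Euc N →ₗ[ℝ] Euc N := LinearMap.id - (innerₛₗ ℝ v).smulRight v
  have hLx : ∀ x, L x = x - ⟪v, x⟫ • v := fun x => rfl
  have hmem : ∀ x ∈ W, L x ∈ Mk G D (p, v) := by
    intro x hx
    have : W ≤ (Mk G D (p, v)).comap L := by
      rw [hW, Submodule.span_le]
      rintro _ ⟨i, rfl⟩
      exact H.sub_mem_Mk hp hq hv (hL i)
    exact this hx
  let φ : W →ₗ[ℝ] Mk G D (p, v) := (L.comp W.subtype).codRestrict _ fun x => hmem x x.2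
  have h1 := LinearMap.finrank_range_add_finrank_ker φ
  have h2 : Module.finrank ℝ (LinearMap.range φ) ≤ mult G D (p, v) :=
    Submodule.finrank_le _
  have h3 : Module.finrank ℝ (LinearMap.ker φ) ≤ 1 := by
    -- the kernel embeds into `ℝ v`
    let ψ : LinearMap.ker φ →ₗ[ℝ] ℝ :=
      ((innerₛₗ ℝ v).comp W.subtype).comp (Submodule.subtype _)
    have hψ : Function.Injective ψ := by
      rw [← LinearMap.ker_eq_bot, LinearMap.ker_eq_bot']
      rintro ⟨⟨x, hx⟩, hx1⟩ hx2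
      have h4 : x - ⟪v, x⟫ • v = 0 := congrArg Subtype.val hx1
      have h5 : ⟪v, x⟫ = 0 := hx2
      rw [h5, zero_smul, sub_zero] at h4
      exact Subtype.ext (Subtype.ext h4)
    have := LinearMap.finrank_le_finrank_of_injective hψ
    rwa [Module.finrank_self] at this
  omega

/-- `U1 ⊆ Zs`. -/
lemma U1_sub_Zs (H : Hyp G D) {k : ℕ}
    (hmin : ∀ z ∈ US G, k ≤ Module.finrank ℝ (lin (G.T z.1) (Lk G D z.1 (ep G D z))))
    {z : Euc N × Euc N} (hz : z ∈ U1 G D k) : z ∈ Zs G D := by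
  refine ⟨hz.1, fun b hb hb0 => ?_⟩
  obtain ⟨p, v⟩ := z
  have hp : p ∈ S := hz.1.1.1
  have hv : v ∈ G.T p := hz.1.1.2
  have hvn : ‖v‖ = 1 := hz.1.2
  simp only at hb hb0 ⊢
  have h1 := hasDerivAt_Exp_normalize (G := G) (w := b) hp hv hvn (2 * D)
  have hU : ∀ᶠ t in 𝓝 (0 : ℝ),
      ((p, (‖v + t • b‖⁻¹ : ℝ) • (v + t • b)) : Euc N × Euc N) ∈ U1 G D k := by
    have h2 : Tendsto (fun t : ℝ => ((p, (‖v + t • b‖⁻¹ : ℝ) • (v + t • b)) : Euc N × Euc N))
        (𝓝 0) (𝓝 (p, v)) := by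
      have h3 := (hasDerivAt_normalize (w := b) hvn).continuousAt.tendsto
      simp only [zero_smul, add_zero, hvn, inv_one, one_smul] at h3
      exact tendsto_const_nhds.prodMk_nhds h3
    have h4 : ∀ᶠ t in 𝓝 (0 : ℝ),
        ((p, (‖v + t • b‖⁻¹ : ℝ) • (v + t • b)) : Euc N × Euc N) ∈ US G := by
      filter_upwards [eventually_ne_zero (w := b) hvn] with t ht
      exact ⟨⟨hp, normalize_mem hv hb t⟩, norm_normalize ht⟩
    exact (tendsto_nhdsWithin_iff.2 ⟨h2, h4⟩).eventually (H.U1_open hz)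
  have h5 : (fun t : ℝ => Exp G p ((2 * D) • ((‖v + t • b‖⁻¹ : ℝ) • (v + t • b)))) =ᶠ[𝓝 0]
      fun _ => p := by
    filter_upwards [hU] with t ht
    have h6 := H.periodic_of_U1 hmin ht
    rw [Exp_smul G hp ht.1.1.2, h6]
  have h7 := (h1.congr_of_eventuallyEq h5.symm).unique (hasDerivAt_const (0:ℝ) p)
  have hb0' : ⟪v, b⟫ = 0 := by rw [real_inner_comm]; exact hb0
  rw [hb0', zero_smul, sub_zero, map_smul] at h7
  rcases smul_eq_zero.1 h7 with h | h
  · exact absurd h (by have := H.hD; positivity)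
  · exact h

end Hyp

/-- the degree zero extension of `v ↦ Exp (D v)`, on the tangent space. -/
def hom0 (G : Geo n N κ S) (D : ℝ) (p : Euc N) (x : G.T p) : Euc N :=
  Exp G p (D • ((‖(x : Euc N)‖⁻¹ : ℝ) • (x : Euc N)))

lemma contDiffAt_hom0 {p : Euc N} (hp : p ∈ S) {x : G.T p} (hx : x ≠ 0) :
    ContDiffAt ℝ 1 (hom0 G D p) x := by
  have hx' : (x : Euc N) ≠ 0 := fun h => hx (Subtype.ext h)
  have h1 : ContDiffAt ℝ 1 (fun y : G.T p => (y : Euc N)) x :=
    (G.T p).subtypeL.contDiff.contDiffAt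
  have h2 : ContDiffAt ℝ 1 (fun y : G.T p => ‖(y : Euc N)‖) x := h1.norm ℝ hx'
  have h3 : ContDiffAt ℝ 1 (fun y : G.T p => (‖(y : Euc N)‖⁻¹ : ℝ)) x :=
    h2.inv (norm_ne_zero_iff.2 hx')
  have h4 : ContDiffAt ℝ 1 (fun y : G.T p => D • ((‖(y : Euc N)‖⁻¹ : ℝ) • (y : Euc N))) x :=
    (h3.smul h1).const_smul D
  have h5 : ContDiffAt ℝ 1 (Exp G p) (D • ((‖(x : Euc N)‖⁻¹ : ℝ) • (x : Euc N))) :=
    (contDiffAt_Exp' G hp ((G.T p).smul_mem _ ((G.T p).smul_mem _ x.2))).of_le (by simp)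
  exact h5.comp x h4

/-- kernel of the derivative of the degree zero extension. -/
lemma fderiv_hom0 {p : Euc N} (hp : p ∈ S) {x : G.T p} (hx : x ≠ 0) (b : G.T p) :
    fderiv ℝ (hom0 G D p) x b = fderiv ℝ (Exp G p) (D • ((‖(x : Euc N)‖⁻¹ : ℝ) • (x : Euc N)))
      ((D * (‖(x : Euc N)‖⁻¹ : ℝ)) • ((b : Euc N) - ⟪(‖(x : Euc N)‖⁻¹ : ℝ) • (x : Euc N),
        (b : Euc N)⟫ • ((‖(x : Euc N)‖⁻¹ : ℝ) • (x : Euc N)))) := by
  have hx' : (x : Euc N) ≠ 0 := fun h => hx (Subtype.ext h)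
  set r : ℝ := ‖(x : Euc N)‖ with hr
  have hr0 : 0 < r := norm_pos_iff.2 hx'
  set u : Euc N := (r⁻¹ : ℝ) • (x : Euc N) with hu
  have hun : ‖u‖ = 1 := norm_normalize hx'
  have huT : u ∈ G.T p := (G.T p).smul_mem _ x.2
  -- both sides are the derivative of `t ↦ hom0 (x + t b)` at `0`
  have h1 : HasDerivAt (fun t : ℝ => hom0 G D p (x + t • b)) (fderiv ℝ (hom0 G D p) x b) 0 := by
    have h2 : HasDerivAt (fun t : ℝ => x + t • b) b 0 := by
      simpa using ((hasDerivAt_id (0 : ℝ)).smul_const b).const_add x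
    have h3 : HasFDerivAt (hom0 G D p) (fderiv ℝ (hom0 G D p) x) (x + (0:ℝ) • b) := by
      rw [zero_smul, add_zero]
      exact ((contDiffAt_hom0 hp hx).differentiableAt (by simp)).hasFDerivAt
    exact h3.comp_hasDerivAt (0:ℝ) h2
  have h4 := hasDerivAt_Exp_normalize (G := G) (w := (r⁻¹ : ℝ) • (b : Euc N)) hp huT hun D
  have h5 : (fun t : ℝ => hom0 G D p (x + t • b)) = fun t : ℝ =>
      Exp G p (D • ((‖u + t • ((r⁻¹ : ℝ) • (b : Euc N))‖⁻¹ : ℝ) •
        (u + t • ((r⁻¹ : ℝ) • (b : Euc N))))) := by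
    ext1 t
    have h6 : u + t • ((r⁻¹ : ℝ) • (b : Euc N)) = (r⁻¹ : ℝ) • ((x + t • b : G.T p) : Euc N) := by
      rw [hu]
      push_cast
      rw [smul_add, smul_comm t]
    rw [h6, hom0, norm_smul, norm_inv, Real.norm_of_nonneg hr0.le]
    congr 1
    congr 1
    rw [smul_smul, mul_inv, inv_inv, mul_comm r, mul_assoc, mul_inv_cancel₀ hr0.ne', mul_one]
  rw [h5] at h1
  rw [h1.unique h4]
  congr 1
  rw [inner_smul_right, mul_smul, ← smul_smul, smul_sub, smul_sub, smul_sub]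

lemma finrank_ker_hom0 {p : Euc N} (hp : p ∈ S) (hD : 0 < D) {x : G.T p} (hx : x ≠ 0) :
    Module.finrank ℝ (LinearMap.ker (fderiv ℝ (hom0 G D p) x).toLinearMap) =
      mult G D (p, (‖(x : Euc N)‖⁻¹ : ℝ) • (x : Euc N)) + 1 := by
  have hx' : (x : Euc N) ≠ 0 := fun h => hx (Subtype.ext h)
  set u : Euc N := (‖(x : Euc N)‖⁻¹ : ℝ) • (x : Euc N) with hu
  have hun : ‖u‖ = 1 := norm_normalize hx'
  have huT : u ∈ G.T p := (G.T p).smul_mem _ x.2
  have hU : ((p, u) : Euc N × Euc N) ∈ US G := ⟨⟨hp, huT⟩, hun⟩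
  have hker : ∀ b : G.T p, b ∈ LinearMap.ker (fderiv ℝ (hom0 G D p) x).toLinearMap ↔
      (b : Euc N) - ⟪u, (b : Euc N)⟫ • u ∈ Mk G D (p, u) := by
    intro b
    rw [LinearMap.mem_ker, ContinuousLinearMap.coe_coe, fderiv_hom0 hp hx b, ← hu, map_smul,
      smul_eq_zero, mem_Mk]
    have : D * ‖(x : Euc N)‖⁻¹ ≠ 0 := mul_ne_zero hD.ne' (inv_ne_zero (norm_ne_zero_iff.2 hx'))
    constructor
    · rintro (h | h)
      · exact absurd h this
      · exact ⟨(G.T p).sub_mem b.2 ((G.T p).smul_mem _ huT), h⟩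
    · exact fun h => Or.inr h.2
  -- linear equivalence with `Mk × ℝ`
  have huu : ⟪u, u⟫ = 1 := by rw [real_inner_self_eq_norm_sq, hun]; norm_num
  let φ : (Mk G D (p, u)) × ℝ →ₗ[ℝ] LinearMap.ker (fderiv ℝ (hom0 G D p) x).toLinearMap :=
    { toFun := fun m => ⟨⟨(m.1 : Euc N) + m.2 • u,
          (G.T p).add_mem m.1.2.1 ((G.T p).smul_mem _ huT)⟩, by
        rw [hker]
        simp only
        rw [inner_add_right, inner_smul_right, inner_of_Mk hU hD m.1.2, huu, zero_add, mul_one,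
          add_sub_cancel_right]
        exact m.1.2⟩
      map_add' := fun a b => by
        apply Subtype.ext; apply Subtype.ext
        simp only [Prod.fst_add, Prod.snd_add, Submodule.coe_add, add_smul]
        abel
      map_smul' := fun c a => by
        apply Subtype.ext; apply Subtype.ext
        simp only [Prod.smul_fst, Prod.smul_snd, Submodule.coe_smul, smul_eq_mul, mul_smul,
          RingHom.id_apply, smul_add] }
  have hφ : Function.Bijective φ := by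
    constructor
    · rw [← LinearMap.ker_eq_bot, LinearMap.ker_eq_bot']
      rintro ⟨m, t⟩ h
      have h1 : (m : Euc N) + t • u = 0 :=
        congrArg (fun y : LinearMap.ker (fderiv ℝ (hom0 G D p) x).toLinearMap =>
          ((y : G.T p) : Euc N)) h
      have h2 : t = 0 := by
        have := congrArg (fun y => ⟪u, y⟫) h1
        simp only [inner_add_right, inner_smul_right, inner_of_Mk hU hD m.2, huu, zero_add,
          mul_one, inner_zero_right] at this
        exact this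
      rw [h2, zero_smul, add_zero] at h1
      exact Prod.ext (Subtype.ext h1) h2
    · rintro ⟨b, hb⟩
      refine ⟨(⟨(b : Euc N) - ⟪u, (b : Euc N)⟫ • u, (hker b).1 hb⟩, ⟪u, (b : Euc N)⟫), ?_⟩
      apply Subtype.ext; apply Subtype.ext
      show (b : Euc N) - ⟪u, (b : Euc N)⟫ • u + ⟪u, (b : Euc N)⟫ • u = b
      abel
  have h1 := (LinearEquiv.ofBijective φ hφ).finrank_eq
  rw [← h1, Module.finrank_prod, Module.finrank_self]
  rfl

namespace Hyp

/-- in `U1` the kernel is contained in the linear link. -/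
lemma Mk_le (H : Hyp G D) (hmc : MultConst G D) {k : ℕ}
    (hmin : ∀ z ∈ US G, k ≤ Module.finrank ℝ (lin (G.T z.1) (Lk G D z.1 (ep G D z))))
    {z : Euc N × Euc N} (hz : z ∈ U1 G D k) :
    Mk G D z ≤ lin (G.T z.1) (Lk G D z.1 (ep G D z)) := by
  intro b hb
  obtain ⟨p, v⟩ := z
  have hp : p ∈ S := hz.1.1.1
  have hv : v ∈ G.T p := hz.1.1.2
  have hvn : ‖v‖ = 1 := hz.1.2
  have hbT : b ∈ G.T p := hb.1
  set q := ep G D (p, v) with hq
  set V := lin (G.T p) (Lk G D p q) with hV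
  have hlin := (H.linear_of_U1 hmin hz).2
  have hv0 : v ≠ 0 := by intro h; rw [h, norm_zero] at hvn; norm_num at hvn
  set x0 : G.T p := ⟨v, hv⟩ with hx0
  have hx00 : x0 ≠ 0 := fun h => hv0 (congrArg Subtype.val h)
  -- constant rank near `x0`
  have hZ := H.U1_sub_Zs hmin hz
  have hcont : Tendsto (fun x : G.T p => ((p, (‖(x : Euc N)‖⁻¹ : ℝ) • (x : Euc N)) :
      Euc N × Euc N)) (𝓝 x0) (𝓝[US G] (p, v)) := by
    refine tendsto_nhdsWithin_iff.2 ⟨?_, ?_⟩
    · have h1 : ContinuousAt (fun x : G.T p => (‖(x : Euc N)‖⁻¹ : ℝ) • (x : Euc N)) x0 :=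
        ((continuous_subtype_val.norm.continuousAt).inv₀ (by simp [hx0, hvn])).smul
          continuous_subtype_val.continuousAt
      have h2 : (‖(x0 : Euc N)‖⁻¹ : ℝ) • (x0 : Euc N) = v := by simp [hx0, hvn]
      have h3 := h1.tendsto
      rw [h2] at h3
      exact tendsto_const_nhds.prodMk_nhds h3
    · have h1 : ∀ᶠ x in 𝓝 x0, x ≠ 0 := continuousAt_id.eventually_ne hx00
      filter_upwards [h1] with x hx
      exact ⟨⟨hp, (G.T p).smul_mem _ x.2⟩,
        norm_normalize fun h => hx (Subtype.ext h)⟩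
  have hU := hcont.eventually (H.U1_open hz)
  have hrank : ∀ᶠ x in 𝓝 x0,
      Module.finrank ℝ (LinearMap.ker (fderiv ℝ (hom0 G D p) x).toLinearMap) =
      Module.finrank ℝ (LinearMap.ker (fderiv ℝ (hom0 G D p) x0).toLinearMap) := by
    have h1 : ∀ᶠ x in 𝓝 x0, x ≠ 0 := continuousAt_id.eventually_ne hx00
    have h2 : Tendsto (fun x : G.T p => ((p, (‖(x : Euc N)‖⁻¹ : ℝ) • (x : Euc N)) :
        Euc N × Euc N)) (𝓝 x0) (𝓝[Zs G D] (p, v)) :=
      tendsto_nhdsWithin_iff.2 ⟨(tendsto_nhdsWithin_iff.1 hcont).1,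
        hU.mono fun x hx => H.U1_sub_Zs hmin hx⟩
    filter_upwards [h1, h2.eventually (hmc _ hZ)] with x hx hx2
    rw [finrank_ker_hom0 hp H.hD hx, finrank_ker_hom0 hp H.hD hx00, hx2]
    simp [hx0, hvn]
  have hbker : fderiv ℝ (hom0 G D p) x0 ⟨b, hbT⟩ = 0 := by
    rw [fderiv_hom0 hp hx00]
    have h1 : (‖(x0 : Euc N)‖⁻¹ : ℝ) • (x0 : Euc N) = v := by simp [hx0, hvn]
    have h2 := inner_of_Mk hz.1 H.hD hb
    simp only at h2
    rw [h1]
    simp only
    rw [h2, zero_smul, sub_zero, map_smul]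
    have h3 : fderiv ℝ (Exp G p) (D • v) b = 0 := hb.2
    rw [h3, smul_zero]
  obtain ⟨c, hc0, hcd, hcf⟩ := fibre_curve (contDiffAt_hom0 hp hx00) hrank hbker
  -- the curve stays in `V`
  have hval : hom0 G D p x0 = q := by
    rw [hom0]
    have h1 : (‖(x0 : Euc N)‖⁻¹ : ℝ) • (x0 : Euc N) = v := by simp [hx0, hvn]
    rw [h1, Exp_smul G hp hv]
    rfl
  have hcV : ∀ᶠ t in 𝓝 (0 : ℝ), ((c t : G.T p) : Euc N) ∈ V := by
    have h1 : ∀ᶠ t in 𝓝 (0 : ℝ), c t ≠ 0 := by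
      have := hcd.continuousAt
      exact this.eventually_ne (by rw [hc0]; exact hx00)
    filter_upwards [h1, hcf] with t ht1 ht2
    have ht1' : ((c t : G.T p) : Euc N) ≠ 0 := fun h => ht1 (Subtype.ext h)
    rw [hval, hom0, Exp_smul G hp ((G.T p).smul_mem _ (c t).2)] at ht2
    have h2 : (‖((c t : G.T p) : Euc N)‖⁻¹ : ℝ) • ((c t : G.T p) : Euc N) ∈ Lk G D p q :=
      ⟨(G.T p).smul_mem _ (c t).2, norm_normalize ht1', ht2⟩
    have h3 := ((hlin _).1 h2).1
    have h4 := V.smul_mem ‖((c t : G.T p) : Euc N)‖ h3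
    rwa [smul_smul, mul_inv_cancel₀ (norm_ne_zero_iff.2 ht1'), one_smul] at h4
  have hcd' : HasDerivAt (fun t => ((c t : G.T p) : Euc N)) b 0 :=
    (G.T p).subtypeL.hasFDerivAt.comp_hasDerivAt (0:ℝ) hcd
  -- derivative of a curve in a closed subspace
  have h5 : HasDerivAt (fun t => V.starProjection ((c t : G.T p) : Euc N))
      (V.starProjection b) 0 := V.starProjection.hasFDerivAt.comp_hasDerivAt (0:ℝ) hcd'
  have h6 : (fun t => V.starProjection ((c t : G.T p) : Euc N)) =ᶠ[𝓝 0]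
      fun t => ((c t : G.T p) : Euc N) := by
    filter_upwards [hcV] with t ht
    exact Submodule.starProjection_eq_self_iff.2 ht
  have h7 := (h5.congr_of_eventuallyEq h6.symm).unique hcd'
  exact Submodule.starProjection_eq_self_iff.1 h7

/-- the multiplicity on `U1`. -/
lemma mult_U1 (H : Hyp G D) (hmc : MultConst G D) {k : ℕ}
    (hmin : ∀ z ∈ US G, k ≤ Module.finrank ℝ (lin (G.T z.1) (Lk G D z.1 (ep G D z))))
    {z : Euc N × Euc N} (hz : z ∈ U1 G D k) : mult G D z + 1 = k := by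
  obtain ⟨h1, h2⟩ := H.linear_of_U1 hmin hz
  have hle := H.Mk_le hmc hmin hz
  set V := lin (G.T z.1) (Lk G D z.1 (ep G D z)) with hV
  have hzV : z.2 ∈ V := ((h2 z.2).1 (mem_lk_self hz.1)).1
  refine le_antisymm ?_ ?_
  · -- `Mk ⊔ ℝ v ≤ V`, disjoint
    have hz0 : z.2 ≠ 0 := by
      intro h; have := hz.1.2; rw [h, norm_zero] at this; norm_num at this
    have h3 : Mk G D z ⊓ Submodule.span ℝ {z.2} = ⊥ := by
      rw [Submodule.eq_bot_iff]
      rintro x ⟨hx1, hx2⟩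
      obtain ⟨a, rfl⟩ := Submodule.mem_span_singleton.1 hx2
      have := inner_of_Mk hz.1 H.hD hx1
      rw [inner_smul_right, real_inner_self_eq_norm_sq, hz.1.2] at this
      have ha : a = 0 := by simpa using this
      rw [ha, zero_smul]
    have h4 := Submodule.finrank_sup_add_finrank_inf_eq (Mk G D z) (Submodule.span ℝ {z.2})
    rw [h3, finrank_bot, add_zero, finrank_span_singleton hz0] at h4
    have h5 : Mk G D z ⊔ Submodule.span ℝ {z.2} ≤ V := by
      refine sup_le hle ?_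
      rw [Submodule.span_singleton_le_iff_mem]
      exact hzV
    have h6 := Submodule.finrank_mono h5
    rw [h4, h1] at h6
    exact h6
  · -- orthonormal basis of `V`
    set b := stdOrthonormalBasis ℝ V with hb
    have hbo : Orthonormal ℝ (fun i => (b i : Euc N)) :=
      b.orthonormal.comp_linearIsometry V.subtypeₗᵢ
    have hbK : ∀ i, (b i : Euc N) ∈ Lk G D z.1 (ep G D z) := fun i =>
      (h2 _).2 ⟨(b i).2, by rw [← Submodule.coe_norm]; exact b.orthonormal.1 i⟩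
    have := H.card_le_mult hz.1.1.1 (ep_mem hz.1) (mem_lk_self hz.1) hbo hbK
    rw [h1] at this
    exact this

end Hyp

end Crest.Agent.R208.K
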