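import Crest.Agent.R208.IC1
import Crest.Agent.R208.J5
import Crest.Agent.R208.K5

/-!
R208, block G5 / (6): `MultConst`, the multiplicity of the conjugate point at distance `D` is
locally constant on `Zs`.
-/

set_option autoImplicit false
set_option linter.unusedSectionVars false


open Set Filter Topology
open scoped ContDiff RealInnerProductSpace
open Crest.GeometryTopology.Submanifold
open Crest.Agent.R241.DDefs
open Crest.Agent.R241.D2
open Crest.Agent.R208.J
open Crest.Agent.R208.K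

noncomputable section

namespace Crest.Agent.R208.IC

variable {n N : ℕ} {κ : ℝ} {S : Set (Euc N)} {G : Geo n N κ S} {D : ℝ} {q : Euc N × Euc N}

/-- Jacobi tensor, extended to the normal space. -/
def Xe (G : Geo n N κ S) (q : Euc N × Euc N) (s t : ℝ) : Euc N →L[ℝ] Euc N :=
  At G q s t + (t - s) • (1 - G.P q.1)

def Xe' (G : Geo n N κ S) (q : Euc N × Euc N) (s t : ℝ) : Euc N →L[ℝ] Euc N :=
  At' G q s t + (1 - G.P q.1)

lemma Xe_apply (s t : ℝ) (w : Euc N) :
    Xe G q s t w = At G q s t w + (t - s) • (w - G.P q.1 w) := rfl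

lemma Xe'_apply (s t : ℝ) (w : Euc N) :
    Xe' G q s t w = At' G q s t w + (w - G.P q.1 w) := rfl

lemma hasDerivAt_Xe (hq : q ∈ TS G) (s t : ℝ) :
    HasDerivAt (fun t => Xe G q s t) (Xe' G q s t) t := by
  have h0 : HasDerivAt (fun t : ℝ => t - s) 1 t := (hasDerivAt_id t).sub_const s
  have h1 := h0.smul_const (1 - G.P q.1 : Euc N →L[ℝ] Euc N)
  rw [one_smul] at h1
  exact (hasDerivAt_At hq s t).add h1

lemma isJac_Xe (hq : q ∈ TS G) (s : ℝ) (w : Euc N) :
    IsJac (Rh G q) (fun t => Xe G q s t w) (fun t => Xe' G q s t w) := by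
  refine ⟨fun t => ?_, fun t => ?_⟩
  · simpa using (hasDerivAt_Xe hq s t).clm_apply (hasDerivAt_const t w)
  · have h1 := ((isJac_At hq s w).snd t).add_const (w - G.P q.1 w)
    refine h1.congr_deriv ?_
    rw [Xe_apply, map_add, map_smul, map_sub, Rh_P hq, sub_self, smul_zero, add_zero]

lemma Xe_self (hq : q ∈ TS G) (s : ℝ) (w : Euc N) : Xe G q s s w = 0 := by
  rw [Xe_apply, At_self hq, sub_self, zero_smul, add_zero]

lemma Xe'_self (hq : q ∈ TS G) (s : ℝ) (w : Euc N) : Xe' G q s s w = w := by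
  rw [Xe'_apply, At'_self hq]; abel

/-- Wronskian identities -/
lemma wr_self (hq : q ∈ TS G) (s t : ℝ) (w u : Euc N) :
    ⟪Xe' G q s t w, Xe G q s t u⟫ = ⟪Xe G q s t w, Xe' G q s t u⟫ := by
  have h := (isJac_Xe hq s w).wronskian (fun t a b => inner_Rh hq t a b) (isJac_Xe hq s u) s t
  rw [Xe_self hq, Xe_self hq, inner_zero_right, inner_zero_left, sub_zero] at h
  linarith

lemma wr_mixed (hq : q ∈ TS G) (s t : ℝ) (w u : Euc N) :
    ⟪Xe' G q s t w, Xe G q 0 t u⟫ - ⟪Xe G q s t w, Xe' G q 0 t u⟫ = ⟪w, Xe G q 0 s u⟫ := by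
  have h := (isJac_Xe hq s w).wronskian (fun t a b => inner_Rh hq t a b) (isJac_Xe hq 0 u) s t
  rw [Xe_self hq, Xe'_self hq, inner_zero_left, sub_zero] at h
  exact h

/-- kernel of the extended tensor -/
lemma Xe_eq_zero (hq : q ∈ TS G) {s t : ℝ} (hst : t - s ≠ 0) {w : Euc N} :
    Xe G q s t w = 0 ↔ w ∈ G.T q.1 ∧ At G q s t w = 0 := by
  constructor
  · intro h
    rw [Xe_apply] at h
    have h1 : G.P q.1 (At G q s t w) = At G q s t w := (P_eq_self G hq.1).1 (At_mem hq s t w)
    have h2 : At G q s t w = 0 := by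
      have h3 := congrArg (G.P q.1) h
      rw [map_add, map_smul, map_sub, P_idem G hq.1, sub_self, smul_zero, add_zero, h1,
        map_zero] at h3
      exact h3
    rw [h2, zero_add] at h
    have h4 : w - G.P q.1 w = 0 := (smul_eq_zero.1 h).resolve_left hst
    refine ⟨?_, h2⟩
    rw [sub_eq_zero] at h4
    rw [h4]; exact P_mem G hq.1
  · rintro ⟨h1, h2⟩
    rw [Xe_apply, h2, (P_eq_self G hq.1).1 h1, sub_self, smul_zero, add_zero]

/-- no conjugate points before `D`. -/
def NC (G : Geo n N κ S) (D : ℝ) : Prop :=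
  ∀ z ∈ US G, ∀ t, 0 < t → t < D → ∀ b ∈ G.T z.1, fderiv ℝ (Exp G z.1) (t • z.2) b = 0 → b = 0

lemma At_inj (hnc : NC G D) (hq : q ∈ US G) {s t : ℝ} (h0 : 0 < t - s) (hD : t - s < D)
    {w : Euc N} (hw : w ∈ G.T q.1) (h : At G q s t w = 0) : w = 0 := by
  have hs := fl_US G hq s
  have h1 := At_shift_zero hq.1 s (t - s) (w := PT G q s w) (PT_mem hq.1 s hw)
  rw [PTi_PT hq.1, add_sub_cancel, h, map_zero] at h1
  have h2 := (fderiv_Exp_eq_zero_iff hs.1 h0.ne' (PT_mem hq.1 s hw)).2 h1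
  have h3 := hnc _ hs (t - s) h0 hD _ (PT_mem hq.1 s hw) h2
  have h4 := PTi_PT hq.1 s w
  rw [h3, map_zero] at h4
  exact h4.symm

lemma Xe_inj (hnc : NC G D) (hq : q ∈ US G) {s t : ℝ} (h0 : 0 < t - s) (hD : t - s < D)
    {w : Euc N} (h : Xe G q s t w = 0) : w = 0 := by
  obtain ⟨h1, h2⟩ := (Xe_eq_zero hq.1 h0.ne').1 h
  exact At_inj hnc hq h0 hD h1 h2

/-- directions in `Zs` have no conjugate points in `(D, 2D)`. -/
lemma Xe_inj_after (hnc : NC G D) (hq : q ∈ Zs G D) {t : ℝ} (h0 : D < t) (h2D : t < 2 * D)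
    (hD : 0 < D) {w : Euc N} (h : Xe G q 0 t w = 0) : w = 0 := by
  have hqU := hq.1
  obtain ⟨h1, h2⟩ := (Xe_eq_zero hqU.1 (by simp; linarith)).1 h
  have h3 : ⟪w, q.2⟫ = 0 := inner_eq_zero_of_At hqU.1 (by simp; linarith) h2
  have h4 := hq.2 w h1 h3
  have h5 : At G q 0 (2 * D) w = 0 :=
    (fderiv_Exp_eq_zero_iff hqU.1 (by positivity) h1).1 h4
  -- the Jacobi field
  set u : Euc N := At' G q 0 t w with hu
  have huT : u ∈ G.T q.1 := At'_mem hqU.1 0 t w
  have huniq := (isJac_At hqU.1 0 w).unique (contDiff_Rh hqU.1).continuous (isJac_At hqU.1 t u)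
    (t₀ := t) (by simp only [h2, At_self hqU.1])
    (by rw [At'_self hqU.1, (P_eq_self G hqU.1.1).1 huT])
  have h6 : At G q t (2 * D) u = 0 := by rw [← (huniq (2 * D)).1, h5]
  have h7 : u = 0 := At_inj hnc hqU (by linarith) (by linarith) huT h6
  have h8 := (huniq 0).2
  simp only [h7, map_zero, At'_self hqU.1] at h8
  rw [(P_eq_self G hqU.1.1).1 h1] at h8
  exact h8

/-- injective operators are units -/
lemma isUnit_of_inj {B : Euc N →L[ℝ] Euc N} (hB : ∀ x, B x = 0 → x = 0) : IsUnit B := by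
  have hinj : Function.Injective B := (injective_iff_map_eq_zero B).2 hB
  have hs : Function.Surjective B := by
    have := LinearMap.injective_iff_surjective (f := (B : Euc N →ₗ[ℝ] Euc N))
    exact this.1 hinj
  let e : Euc N ≃L[ℝ] Euc N :=
    (LinearEquiv.ofBijective (B : Euc N →ₗ[ℝ] Euc N) ⟨hinj, hs⟩).toContinuousLinearEquiv
  refine ⟨⟨B, e.symm, ?_, ?_⟩, rfl⟩
  · ext1 x
    change e (e.symm x) = x
    simp
  · ext1 x
    change e.symm (e x) = x
    simp

/-- the crossing form -/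
def Qf (G : Geo n N κ S) (s : ℝ) (q : Euc N × Euc N) (t : ℝ) : Euc N →L[ℝ] Euc N :=
  star (Xe G q 0 s) * Ring.inverse (Xe G q s t) * Xe G q 0 t

section alg

variable {A : Type*} [Ring A] [StarRing A]

/-- the algebra behind the crossing form: `X1 = Y'* X - Y* X'`. -/
lemma alg_sa {X X' Y Y' X1 Yi : A} (hX : star X' * X = star X * X') (hY : star Y' * Y = star Y * Y')
    (hm : X1 = star Y' * X - star Y * X') (h1 : Y * Yi = 1) :
    star (star X1 * Yi * X) = star X1 * Yi * X := by
  have h1' : star Yi * star Y = 1 := by rw [← star_mul, h1, star_one]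
  -- M = Y' Yi is self-adjoint
  have hM : star Yi * star Y' = Y' * Yi := by
    calc star Yi * star Y' = star Yi * star Y' * (Y * Yi) := by rw [h1, mul_one]
      _ = star Yi * (star Y' * Y) * Yi := by simp only [mul_assoc]
      _ = star Yi * (star Y * Y') * Yi := by rw [hY]
      _ = (star Yi * star Y) * Y' * Yi := by simp only [mul_assoc]
      _ = Y' * Yi := by rw [h1', one_mul]
  have hm' : star X1 = star X * Y' - star X' * Y := by
    rw [hm, star_sub, star_mul, star_mul, star_star, star_star]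
  have e1 : star X1 * Yi * X = star X * (Y' * Yi) * X - star X' * X := by
    rw [hm', sub_mul, sub_mul]
    have : star X' * Y * Yi * X = star X' * (Y * Yi) * X := by simp only [mul_assoc]
    rw [this, h1, mul_one]
    simp only [mul_assoc]
  have e2 : star (star X1 * Yi * X) = star X * (star Yi * star Y') * X - star X * X' := by
    rw [star_mul, star_mul, star_star, hm, mul_sub, mul_sub]
    have : star X * (star Yi * (star Y * X')) = star X * ((star Yi * star Y) * X') := by
      simp only [mul_assoc]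
    rw [this, h1', one_mul]
    simp only [mul_assoc]
  rw [e2, e1, hM, hX]

lemma alg_der {X X' Y Y' X1 Yi : A} (hY : star Y' * Y = star Y * Y')
    (hm : X1 = star Y' * X - star Y * X') (h1 : Y * Yi = 1) :
    star X1 * (-(Yi * Y' * Yi)) * X + star X1 * Yi * X' = -(star X1 * (Yi * star Yi) * X1) := by
  have h1' : star Yi * star Y = 1 := by rw [← star_mul, h1, star_one]
  have hM : star Yi * star Y' = Y' * Yi := by
    calc star Yi * star Y' = star Yi * star Y' * (Y * Yi) := by rw [h1, mul_one]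
      _ = star Yi * (star Y' * Y) * Yi := by simp only [mul_assoc]
      _ = star Yi * (star Y * Y') * Yi := by rw [hY]
      _ = (star Yi * star Y) * Y' * Yi := by simp only [mul_assoc]
      _ = Y' * Yi := by rw [h1', one_mul]
  have e : star Yi * X1 = Y' * Yi * X - X' := by
    rw [hm, mul_sub, ← mul_assoc, ← mul_assoc, h1', one_mul, hM]
  calc star X1 * (-(Yi * Y' * Yi)) * X + star X1 * Yi * X'
      = -(star X1 * Yi * (Y' * Yi * X - X')) := by noncomm_ring
    _ = -(star X1 * Yi * (star Yi * X1)) := by rw [e]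
    _ = -(star X1 * (Yi * star Yi) * X1) := by simp only [mul_assoc]

end alg

section opE

variable {E : Type*} [NormedAddCommGroup E] [InnerProductSpace ℝ E] [FiniteDimensional ℝ E]

lemma sa_abs {X X' Y Y' X1 : E →L[ℝ] E} (hX : star X' * X = star X * X')
    (hY : star Y' * Y = star Y * Y')
    (hm : X1 = star Y' * X - star Y * X') (hu : IsUnit Y) :
    IsSelfAdjoint (star X1 * Ring.inverse Y * X) := by
  have h1 : Y * Ring.inverse Y = 1 := Ring.mul_inverse_cancel _ hu
  exact alg_sa hX hY hm h1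

lemma der_abs {X Y : ℝ → E →L[ℝ] E} {X' Y' X1 : E →L[ℝ] E} {t : ℝ}
    (hY : star Y' * Y t = star (Y t) * Y')
    (hm : X1 = star Y' * X t - star (Y t) * X') (hu : IsUnit (Y t))
    (hXd : HasDerivAt X X' t) (hYd : HasDerivAt Y Y' t) :
    HasDerivAt (fun t => star X1 * Ring.inverse (Y t) * X t)
      (-(star X1 * (Ring.inverse (Y t) * star (Ring.inverse (Y t))) * X1)) t := by
  have h1 : Y t * Ring.inverse (Y t) = 1 := Ring.mul_inverse_cancel _ hu
  have hinv : HasDerivAt (fun t => Ring.inverse (Y t))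
      (-(Ring.inverse (Y t) * Y' * Ring.inverse (Y t))) t := by
    obtain ⟨u, hu'⟩ := hu
    have h2 := hasFDerivAt_ringInverse (𝕜 := ℝ) u
    have h3 : Ring.inverse (Y t) = (↑u⁻¹ : E →L[ℝ] E) := by
      rw [← hu', Ring.inverse_unit]
    rw [hu'] at h2
    have h4 := h2.comp_hasDerivAt t hYd
    refine h4.congr_deriv ?_
    rw [h3]
    simp
  have h5 := (((hasDerivAt_const t (star X1)).mul hinv).mul hXd)
  have h6 := alg_der hY hm h1
  refine h5.congr_deriv ?_
  rw [zero_mul, zero_add]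
  exact h6

end opE

lemma star_mul_eq_of_inner {A B C D' : Euc N →L[ℝ] Euc N}
    (h : ∀ w u, ⟪A w, B u⟫ = ⟪C w, D' u⟫) : star A * B = star C * D' := by
  ext1 u
  refine ext_inner_left ℝ fun w => ?_
  rw [ContinuousLinearMap.star_eq_adjoint, ContinuousLinearMap.star_eq_adjoint,
    mul_apply_eq_comp, mul_apply_eq_comp, ContinuousLinearMap.adjoint_inner_right,
    ContinuousLinearMap.adjoint_inner_right, h]

lemma op_self (hq : q ∈ TS G) (s t : ℝ) :
    star (Xe' G q s t) * Xe G q s t = star (Xe G q s t) * Xe' G q s t :=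
  star_mul_eq_of_inner (wr_self hq s t)

lemma op_mixed (hq : q ∈ TS G) (s t : ℝ) :
    Xe G q 0 s = star (Xe' G q s t) * Xe G q 0 t - star (Xe G q s t) * Xe' G q 0 t := by
  ext1 u
  refine ext_inner_left ℝ fun w => ?_
  rw [sub_apply, inner_sub_right, ContinuousLinearMap.star_eq_adjoint,
    ContinuousLinearMap.star_eq_adjoint,
    mul_apply_eq_comp, mul_apply_eq_comp, ContinuousLinearMap.adjoint_inner_right,
    ContinuousLinearMap.adjoint_inner_right, wr_mixed hq]


/-- abbreviation of the inverse -/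
def Yi (G : Geo n N κ S) (q : Euc N × Euc N) (s t : ℝ) : Euc N →L[ℝ] Euc N :=
  Ring.inverse (Xe G q s t)

lemma unit_Xe (hnc : NC G D) (hq : q ∈ US G) {s t : ℝ} (h0 : 0 < t - s) (hD : t - s < D) :
    IsUnit (Xe G q s t) := isUnit_of_inj fun _ h => Xe_inj hnc hq h0 hD h

lemma sa_Qf (hnc : NC G D) (hq : q ∈ US G) {s t : ℝ} (h0 : 0 < t - s) (hD : t - s < D) :
    IsSelfAdjoint (Qf G s q t) :=
  sa_abs (op_self hq.1 0 t) (op_self hq.1 s t) (op_mixed hq.1 s t) (unit_Xe hnc hq h0 hD)

lemma hasDerivAt_Qf (hnc : NC G D) (hq : q ∈ US G) {s t : ℝ} (h0 : 0 < t - s) (hD : t - s < D) :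
    HasDerivAt (Qf G s q) (-(star (Xe G q 0 s) * (Yi G q s t * star (Yi G q s t)) * Xe G q 0 s))
      t :=
  der_abs (X := fun t => Xe G q 0 t) (Y := fun t => Xe G q s t) (op_self hq.1 s t)
    (op_mixed hq.1 s t) (unit_Xe hnc hq h0 hD) (hasDerivAt_Xe hq.1 0 t) (hasDerivAt_Xe hq.1 s t)

lemma Qf_zero_iff (hnc : NC G D) (hq : q ∈ US G) {s t : ℝ} (hs : 0 < s) (hsD : s < D)
    (h0 : 0 < t - s) (hD : t - s < D) {x : Euc N} : Qf G s q t x = 0 ↔ Xe G q 0 t x = 0 := by
  have hu := unit_Xe hnc hq h0 hD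
  have hu0 : IsUnit (star (Xe G q 0 s)) :=
    (unit_Xe (s := 0) (t := s) hnc hq (by simpa using hs) (by simpa using hsD)).star
  have hu2 : IsUnit (Ring.inverse (Xe G q s t)) := hu.ringInverse
  constructor
  · intro h
    rw [Qf, mul_apply_eq_comp, mul_apply_eq_comp] at h
    obtain ⟨a, ha⟩ := hu0
    obtain ⟨b, hb⟩ := hu2
    have h1 : Ring.inverse (Xe G q s t) (Xe G q 0 t x) = 0 := by
      have h2 : (↑a⁻¹ : Euc N →L[ℝ] Euc N) * star (Xe G q 0 s) = 1 := by
        rw [← ha]; exact a.inv_mul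
      have h3 := congrArg (fun T : Euc N →L[ℝ] Euc N =>
        T (Ring.inverse (Xe G q s t) (Xe G q 0 t x))) h2
      simp only [mul_apply_eq_comp, h, map_zero, one_apply_eq_self] at h3
      exact h3.symm
    have h2 : (↑b⁻¹ : Euc N →L[ℝ] Euc N) * Ring.inverse (Xe G q s t) = 1 := by
      rw [← hb]; exact b.inv_mul
    have h3 := congrArg (fun T : Euc N →L[ℝ] Euc N => T (Xe G q 0 t x)) h2
    simp only [mul_apply_eq_comp, h1, map_zero, one_apply_eq_self] at h3
    exact h3.symm
  · intro h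
    rw [Qf, mul_apply_eq_comp, h, map_zero]

lemma continuousAt_Xe (hq : q ∈ TS G) (s t : ℝ) :
    ContinuousAt (fun p : (Euc N × Euc N) × ℝ => Xe G p.1 s p.2) (q, t) := by
  have h1 : ContinuousAt (fun p : (Euc N × Euc N) × ℝ => At G p.1 s p.2) (q, t) :=
    ContinuousAt.comp (g := fun z : (Euc N × Euc N) × ℝ × ℝ => At G z.1 z.2.1 z.2.2)
      (f := fun p : (Euc N × Euc N) × ℝ => (p.1, s, p.2)) (x := (q, t))
      (contDiffAt_At hq s t).continuousAt (by fun_prop)
  have h2 : ContinuousAt (fun p : (Euc N × Euc N) × ℝ => G.P p.1.1) (q, t) :=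
    ContinuousAt.comp (g := G.P) (f := fun p : (Euc N × Euc N) × ℝ => p.1.1) (x := (q, t))
      G.contDiff_P.continuous.continuousAt (by fun_prop)
  have h3 : ContinuousAt (fun p : (Euc N × Euc N) × ℝ => (p.2 - s)) (q, t) := by fun_prop
  exact h1.add (h3.smul (continuousAt_const.sub h2))

lemma continuousAt_Qf (hnc : NC G D) (hq : q ∈ US G) {s t : ℝ} (h0 : 0 < t - s)
    (hD : t - s < D) :
    ContinuousAt (fun p : (Euc N × Euc N) × ℝ => Qf G s p.1 p.2) (q, t) := by
  have hu := unit_Xe hnc hq h0 hD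
  have h1 : ContinuousAt (fun p : (Euc N × Euc N) × ℝ => Xe G p.1 0 s) (q, t) :=
    ContinuousAt.comp (g := fun p : (Euc N × Euc N) × ℝ => Xe G p.1 0 p.2)
      (f := fun p : (Euc N × Euc N) × ℝ => (p.1, s)) (x := (q, t))
      (continuousAt_Xe hq.1 0 s) (by fun_prop)
  have h2 : ContinuousAt (fun p : (Euc N × Euc N) × ℝ => Ring.inverse (Xe G p.1 s p.2)) (q, t) := by
    obtain ⟨u, hu⟩ := hu
    have h3 := NormedRing.inverse_continuousAt u
    rw [hu] at h3
    exact ContinuousAt.comp (g := Ring.inverse) (f := fun p : (Euc N × Euc N) × ℝ => Xe G p.1 s p.2)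
      (x := (q, t)) h3 (continuousAt_Xe hq.1 s t)
  have h4 : ContinuousAt (fun p : (Euc N × Euc N) × ℝ => star (Xe G p.1 0 s)) (q, t) :=
    ContinuousAt.comp (g := fun L : Euc N →L[ℝ] Euc N => ContinuousLinearMap.adjoint L)
      (f := fun p : (Euc N × Euc N) × ℝ => Xe G p.1 0 s) (x := (q, t))
      (ContinuousLinearMap.adjoint (𝕜 := ℝ) (E := Euc N) (F := Euc N)).continuous.continuousAt h1
  exact (h4.mul h2).mul (continuousAt_Xe hq.1 0 t)

/-- **(6)**: the multiplicity is locally constant on `Zs`. -/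
theorem multConst (hD : 0 < D) (hnc : NC G D) : MultConst G D := by
  intro z0 hz0
  have hs : 0 < D / 2 := by positivity
  have hsD : D / 2 < D := by linarith
  have hker : ∀ z ∈ Zs G D, Module.finrank ℝ (LinearMap.ker (Qf G (D / 2) z D :
      Euc N →ₗ[ℝ] Euc N)) = mult G D z := by
    intro z hz
    have : LinearMap.ker (Qf G (D / 2) z D : Euc N →ₗ[ℝ] Euc N) = Mk G D z := by
      ext x
      rw [mem_Mk]
      change Qf G (D / 2) z D x = 0 ↔ _
      rw [Qf_zero_iff hnc hz.1 hs hsD (by linarith) (by linarith),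
        Xe_eq_zero hz.1.1 (by simpa using hD.ne')]
      constructor
      · rintro ⟨h1, h2⟩
        exact ⟨h1, (fderiv_Exp_eq_zero_iff hz.1.1 hD.ne' h1).2 h2⟩
      · rintro ⟨h1, h2⟩
        exact ⟨h1, (fderiv_Exp_eq_zero_iff hz.1.1 hD.ne' h1).1 h2⟩
    rw [mult, this]
  have hcr := crossing (E := Euc N) (Qf G (D / 2)) (S := Zs G D) (z0 := z0) (D := D) (ε := D / 4)
    (by positivity) hz0
    (fun z hz t ht => sa_Qf hnc hz.1 (by linarith [ht.1]) (by linarith [ht.2]))
    (fun z hz t ht => continuousAt_Qf hnc hz.1 (by linarith [ht.1]) (by linarith [ht.2]))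
    (fun z hz t ht htD x hx => by
      rw [Qf_zero_iff hnc hz.1 hs hsD (by linarith [ht.1]) (by linarith [ht.2])] at hx
      rcases lt_or_gt_of_ne htD with h | h
      · exact Xe_inj hnc hz.1 (by linarith [ht.1]) (by linarith) hx
      · exact Xe_inj_after hnc hz h (by linarith [ht.2]) hD hx)
    (hasDerivAt_Qf hnc hz0.1 (by linarith) (by linarith))
    (fun x hx => by
      rw [neg_apply, inner_neg_left, neg_lt_zero, mul_apply_eq_comp, mul_apply_eq_comp,
        mul_apply_eq_comp, ContinuousLinearMap.star_eq_adjoint,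
        ContinuousLinearMap.adjoint_inner_left, ← ContinuousLinearMap.adjoint_inner_right,
        ContinuousLinearMap.star_eq_adjoint, real_inner_self_eq_norm_sq]
      have h1 : ContinuousLinearMap.adjoint (Yi G z0 (D / 2) D) (Xe G z0 0 (D / 2) x) ≠ 0 := by
        intro h
        have hu : IsUnit (star (Yi G z0 (D / 2) D)) :=
          (unit_Xe (s := D / 2) (t := D) hnc hz0.1 (by linarith) (by linarith)).ringInverse.star
        obtain ⟨a, ha⟩ := hu
        have h2 : (↑a⁻¹ : Euc N →L[ℝ] Euc N) * star (Yi G z0 (D / 2) D) = 1 := by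
          rw [← ha]; exact a.inv_mul
        have h3 := congrArg (fun T : Euc N →L[ℝ] Euc N => T (Xe G z0 0 (D / 2) x)) h2
        simp only [mul_apply_eq_comp, ContinuousLinearMap.star_eq_adjoint, h, map_zero,
          one_apply_eq_self] at h3
        exact hx (Xe_inj hnc hz0.1 (by linarith) (by linarith) h3.symm)
      have := norm_pos_iff.2 h1
      positivity)
  filter_upwards [hcr, self_mem_nhdsWithin] with z hz hzZ
  rw [← hker z hzZ, ← hker z0 hz0]
  exact hz

end Crest.Agent.R208.IC
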