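import Crest.Agent.R208.CH1
import Crest.Agent.R208.LB1

/-! Row 208, block IM (helper631).  IM1: the thinness of a chain (`CH.Thin`) in terms of kernel
vectors. -/

set_option autoImplicit false
set_option linter.unusedSectionVars false

open Set Filter Topology Module
open scoped ContDiff
open Crest.Agent.R208.F Crest.Agent.R208.FI Crest.Agent.R208.CH

noncomputable section

namespace Crest.Agent.R208.IM

section alg
variable {E F' : Type*} [AddCommGroup E] [Module ℝ E] [AddCommGroup F'] [Module ℝ F']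

/-- a form pulled back by a map with a kernel vector is zero in top degree -/
theorem evA_pb_ker {V : Submodule ℝ E} {n : ℕ} [FiniteDimensional ℝ V] (hV : finrank ℝ V = n)
    {A : E →ₗ[ℝ] F'} {w0 : E}
    (h0V : w0 ∈ V) (h0 : w0 ≠ 0) (hA : A w0 = 0) (c : Ext F') (w : Fin n → E)
    (hw : ∀ i, w i ∈ V) : evA E n (pb A c) w = 0 := by
  rw [evA_pb]
  refine AlternatingMap.map_linearDependent _ _ fun hli => ?_
  have h1 : LinearIndependent ℝ w := hli.of_comp A
  set w' : Fin n → V := fun i => ⟨w i, hw i⟩ with hw'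
  have h2 : LinearIndependent ℝ w' := by
    refine LinearIndependent.of_comp V.subtype ?_
    exact h1
  have h3 := h2.span_eq_top_of_card_eq_finrank' (by rw [Fintype.card_fin, hV])
  have h4 : (⟨w0, h0V⟩ : V) ∈ Submodule.span ℝ (Set.range w') := by rw [h3]; trivial
  obtain ⟨a, ha⟩ := (Submodule.mem_span_range_iff_exists_fun ℝ).1 h4
  have h5 : w0 = ∑ i, a i • w i := by
    have := congrArg V.subtype ha
    rw [map_sum] at this
    simpa [hw'] using this.symm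
  have h6 : ∑ i, a i • A (w i) = 0 := by
    rw [← hA, h5, map_sum]; simp
  have h7 := Fintype.linearIndependent_iff.1 hli a h6
  apply h0
  rw [h5]
  exact Finset.sum_eq_zero fun i _ => by rw [h7 i, zero_smul]

/-- dual covectors of a linearly independent family -/
theorem exists_dual {n : ℕ} {v : Fin n → F'} (h : LinearIndependent ℝ v) :
    ∃ l : Fin n → Module.Dual ℝ F', ∀ i j, l j (v i) = if i = j then 1 else 0 := by
  classical
  obtain ⟨L, hL⟩ := LinearMap.exists_leftInverse_of_injective (Fintype.linearCombination ℝ v)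
    (LinearMap.ker_eq_bot.2 (linearIndependent_iff_injective_fintypeLinearCombination.1 h))
  refine ⟨fun j => LinearMap.proj j ∘ₗ L, fun i j => ?_⟩
  have h1 : Fintype.linearCombination ℝ v (Pi.single i 1) = v i := by
    rw [Fintype.linearCombination_apply_single, one_smul]
  have h2 := congrArg (fun A => A (Pi.single i 1)) hL
  simp only [LinearMap.comp_apply, LinearMap.id_apply] at h2
  rw [h1] at h2
  show (L (v i)) j = _
  rw [h2, Pi.single_apply]
  simp only [eq_comm]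

theorem exists_ker {V : Submodule ℝ E} {n : ℕ} [FiniteDimensional ℝ V] (hV : finrank ℝ V = n)
    {A : E →ₗ[ℝ] F'}
    (h : ∀ c : Ext F', ∀ w : Fin n → E, (∀ i, w i ∈ V) → evA E n (pb A c) w = 0) :
    ∃ w ∈ V, w ≠ 0 ∧ A w = 0 := by
  by_contra hcon
  push Not at hcon
  let b := Module.finBasisOfFinrankEq ℝ V hV
  have h1 : LinearIndependent ℝ (fun i => A (b i : E)) := by
    have h2 : LinearIndependent ℝ (⇑(A ∘ₗ V.subtype) ∘ b) := by
      refine b.linearIndependent.map' _ (LinearMap.ker_eq_bot'.2 fun v hv => ?_)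
      by_contra hv0
      exact hcon v v.2 (fun h0 => hv0 (Subtype.ext h0)) hv
    exact h2
  obtain ⟨l, hl⟩ := exists_dual h1
  have h2 := h (ExteriorAlgebra.ιMulti ℝ n l) (fun i => (b i : E)) (fun i => (b i).2)
  rw [evA_pb, evA_iMulti] at h2
  have h3 : (Matrix.of fun i j => l j (A (b i : E))) = (1 : Matrix (Fin n) (Fin n) ℝ) := by
    ext i j
    rw [Matrix.of_apply, hl, Matrix.one_apply]
  rw [h3, Matrix.det_one] at h2
  exact one_ne_zero h2

theorem exists_ker_bd {V : Submodule ℝ E} {n : ℕ} [FiniteDimensional ℝ V] (hV : finrank ℝ V = n)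
    {A : E →ₗ[ℝ] F'} {ℓ : Module.Dual ℝ E}
    (h : ∀ c : Ext F', ∀ w : Fin n → E, (∀ i, w i ∈ V) → evA E n (io ℓ * pb A c) w = 0) :
    (∀ w ∈ V, ℓ w = 0) ∨ ∃ w ∈ V, w ≠ 0 ∧ ℓ w = 0 ∧ A w = 0 := by
  by_contra hcon
  push Not at hcon
  obtain ⟨⟨u, huV, hu⟩, hcon⟩ := hcon
  set V0 : Submodule ℝ V := LinearMap.ker (ℓ ∘ₗ V.subtype) with hV0
  have hr : finrank ℝ (LinearMap.range (ℓ ∘ₗ V.subtype)) = 1 := by
    have : LinearMap.range (ℓ ∘ₗ V.subtype) = ⊤ := by
      rw [LinearMap.range_eq_top]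
      intro y
      refine ⟨(y / ℓ u) • ⟨u, huV⟩, ?_⟩
      show ℓ ((y / ℓ u) • u) = y
      rw [map_smul, smul_eq_mul, div_mul_cancel₀ _ hu]
    rw [this, finrank_top, Module.finrank_self]
  have hk := (ℓ ∘ₗ V.subtype).finrank_range_add_finrank_ker
  rw [hr, hV] at hk
  obtain ⟨m, rfl⟩ : ∃ m, n = m + 1 := ⟨finrank ℝ V0, by rw [← hk]; ring⟩
  have hm : finrank ℝ V0 = m := by
    have h0 : finrank ℝ V0 = finrank ℝ (LinearMap.ker (ℓ ∘ₗ V.subtype)) := rfl
    omega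
  let b := Module.finBasisOfFinrankEq ℝ V0 hm
  have hbℓ : ∀ i, ℓ ((b i : V) : E) = 0 := fun i => (b i).2
  have h1 : LinearIndependent ℝ (fun i => A ((b i : V) : E)) := by
    have h2 : LinearIndependent ℝ (⇑(A ∘ₗ V.subtype ∘ₗ V0.subtype) ∘ b) := by
      refine b.linearIndependent.map' _ (LinearMap.ker_eq_bot'.2 fun v hv => ?_)
      by_contra hv0
      refine hcon ((v : V) : E) (v : V).2 (fun h0 => hv0 (Subtype.ext (Subtype.ext h0))) ?_ hv
      exact v.2
    exact h2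
  obtain ⟨l, hl⟩ := exists_dual h1
  have h2 := h (ExteriorAlgebra.ιMulti ℝ m l) (Fin.cons u fun i => ((b i : V) : E)) (fun i => by
    refine Fin.cases ?_ (fun i => ?_) i
    · exact huV
    · exact (b i : V).2)
  rw [evA_io_mul, Fin.sum_univ_succ] at h2
  rw [Finset.sum_eq_zero (s := Finset.univ) (f := fun i : Fin m => _) (fun i _ => by
    rw [Fin.cons_succ, hbℓ, mul_zero, zero_mul]), add_zero] at h2
  simp only [Fin.val_zero, pow_zero, one_mul, Fin.cons_zero, Fin.succAbove_zero, Fin.cons_succ]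
    at h2
  rw [evA_pb, evA_iMulti] at h2
  have h3 : (Matrix.of fun i j => l j (A ((b i : V) : E))) = (1 : Matrix (Fin m) (Fin m) ℝ) := by
    ext i j
    rw [Matrix.of_apply, hl, Matrix.one_apply]
  rw [h3, Matrix.det_one, mul_one] at h2
  exact hu h2

theorem evA_io_pb_ker {V : Submodule ℝ E} {n : ℕ} [FiniteDimensional ℝ V]
    (hV : finrank ℝ V = n) {A : E →ₗ[ℝ] F'} {ℓ : Module.Dual ℝ E}
    (h : (∀ w ∈ V, ℓ w = 0) ∨ ∃ w ∈ V, w ≠ 0 ∧ ℓ w = 0 ∧ A w = 0) (c : Ext F') (w : Fin n → E)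
    (hw : ∀ i, w i ∈ V) : evA E n (io ℓ * pb A c) w = 0 := by
  rcases h with h | ⟨w0, h0V, h0, h1, h2⟩
  · exact LB.evA_io_mul_zero n ℓ _ w fun i => h _ (hw i)
  · have e : io ℓ * pb A c = pb (ℓ.prod A) (io (LinearMap.fst ℝ ℝ F') *
        pb (LinearMap.snd ℝ ℝ F') c) := by
      rw [map_mul, pb_io, pb_comp]
      rfl
    rw [e]
    exact evA_pb_ker hV h0V h0 (Prod.ext h1 h2) _ w hw

end alg

variable {E E' : Type*} [NormedAddCommGroup E] [NormedSpace ℝ E] [FiniteDimensional ℝ E]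
  [NormedAddCommGroup E'] [NormedSpace ℝ E'] [FiniteDimensional ℝ E']
  {n : ℕ} {X : Set E} {f : E → E'} {χ : E → ℝ}

/-- **kernel criterion** for thinness -/
theorem thin_of_ker (hX : Sub n X) (hχ : ∀ x ∈ X, ContDiffAt ℝ ∞ χ x)
    (h1 : ∀ x ∈ X, χ x ≠ 0 → χ x ≠ 1 → ∃ w ∈ Tan X x, w ≠ 0 ∧ fderiv ℝ f x w = 0)
    (h2 : ∀ x ∈ X, (∀ w ∈ Tan X x, fderiv ℝ χ x w = 0) ∨
      ∃ w ∈ Tan X x, w ≠ 0 ∧ fderiv ℝ χ x w = 0 ∧ fderiv ℝ f x w = 0) : Thin n X f χ where
  smooth := hχ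
  top := by
    intro x hx h0 h1' c w hw
    obtain ⟨w0, hw0, hne, hk⟩ := h1 x hx h0 h1'
    exact evA_pb_ker (hX.finrank_Tan hx) hw0 hne hk c w hw
  bd := by
    intro x hx c w hw
    exact evA_io_pb_ker (hX.finrank_Tan hx) (h2 x hx) c w hw

theorem thin_ker1 (hX : Sub n X) (h : Thin n X f χ) {x : E} (hx : x ∈ X) (h0 : χ x ≠ 0)
    (h1 : χ x ≠ 1) : ∃ w ∈ Tan X x, w ≠ 0 ∧ fderiv ℝ f x w = 0 :=
  exists_ker (hX.finrank_Tan hx) (h.top x hx h0 h1)

theorem thin_ker2 (hX : Sub n X) (h : Thin n X f χ) {x : E} (hx : x ∈ X) :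
    (∀ w ∈ Tan X x, fderiv ℝ χ x w = 0) ∨
      ∃ w ∈ Tan X x, w ≠ 0 ∧ fderiv ℝ χ x w = 0 ∧ fderiv ℝ f x w = 0 :=
  exists_ker_bd (hX.finrank_Tan hx) (h.bd x hx)

end Crest.Agent.R208.IM
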