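import Crest.Agent.R208.IM9

/-! Row 208, block IM (helper631).  IM10: **the Euler number is an integer** (thin version). -/

set_option autoImplicit false
set_option linter.unusedSectionVars false

open MeasureTheory Set Filter Topology Module Matrix
open scoped ContDiff RealInnerProductSpace
open Crest.Agent.R208.F Crest.Agent.R208.FI Crest.Agent.R208.CW Crest.Agent.R208.T
open Crest.Agent.R208.SN Crest.Agent.R208.CH Crest.Agent.R208.CM

noncomputable section

namespace Crest.Agent.R208.IM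

variable {n ι ι' : Type} [Fintype n] [DecidableEq n] [Fintype ι] [DecidableEq ι]
  [Fintype ι'] [DecidableEq ι']
  {E E₁ E₂ : Type} [NormedAddCommGroup E] [NormedSpace ℝ E] [FiniteDimensional ℝ E]
  [NormedAddCommGroup E₁] [NormedSpace ℝ E₁] [FiniteDimensional ℝ E₁]
  [NormedAddCommGroup E₂] [NormedSpace ℝ E₂] [FiniteDimensional ℝ E₂]
  {X : Set E} {Y : Set E₁} {M : Set E₂} {P : E₁ → EuclideanSpace ℝ n →L[ℝ] EuclideanSpace ℝ n}
  {W : E₁ → (ι × Fin 2 → n) → ℝ}
  {f : E → E₁} {g : E → E₂} {χ : E → ℝ}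
  {dY m : ℕ} {oX : E → Ext E} {oM : E₂ → Ext E₂}

theorem exists_full {κ : Type} [Fintype κ] [DecidableEq κ]
    (hκ : Fintype.card κ * 2 = Fintype.card n) :
    ∃ F₀ : Matrix n (κ × Fin 2) ℝ, F₀ᵀ * F₀ = 1 := by
  have e : κ × Fin 2 ≃ n := Fintype.equivOfCardEq (by
    rw [Fintype.card_prod, Fintype.card_fin, hκ])
  refine ⟨Matrix.of fun i j => if i = e j then 1 else 0, ?_⟩
  ext i j
  rw [Matrix.mul_apply, Matrix.one_apply]
  simp only [transpose_apply, Matrix.of_apply, ite_mul, one_mul, zero_mul, Finset.sum_ite_eq',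
    Finset.mem_univ, if_true, EmbeddingLike.apply_eq_iff_eq]

set_option maxHeartbeats 1600000 in
theorem int_core [Nonempty ι] [Nonempty ι'] (eq : (ι × Fin 2) ⊕ (ι' × Fin 2) ≃ n)
    (hY : Sub dY Y) (hYc : IsPreconnected Y) (h : OR Y P W)
    (hX : Clo (2 * Fintype.card ι + m) X) (hoX : Ori (2 * Fintype.card ι + m) X oX)
    (hoX0 : ∀ x ∈ X, ∀ q < 2 * Fintype.card ι + m, evA E q (oX x) = 0)
    (hf : SMap X Y f) (hg : SMap X M g)
    (hM : Clo m M) (hMc : IsPreconnected M) (hoM : Ori m M oM)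
    (hoM0 : ∀ x ∈ M, ∀ q < m, evA E₂ q (oM x) = 0)
    (hT : Thin (2 * Fintype.card ι + m) X (fun x => (f x, g x)) χ) {x₀ : E} (hx₀ : x₀ ∈ X) :
    ∃ z : ℤ, ∀ μ : E₂ → Ext E₂, Sm M μ → Hom m μ →
      J (2 * Fintype.card ι + m) X oX (fun x => χ x • (F.pull f (eR P W) x * F.pull g μ x)) =
        XF.tau ι * z * J m M oM μ := by
  obtain ⟨W', h'⟩ := OR.compl eq h
  have hy₀ : f x₀ ∈ Y := hf.maps hx₀
  have hne : Y.Nonempty := ⟨_, hy₀⟩
  obtain ⟨c₀, hc₀, hu⟩ := unit_of_pointwise (μ := (volume : Measure (EuclideanSpace ℝ n))) hY hYc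
    hne h.pfield (csf_thomF hY h) (csf_thomF hY h') (fun x hx => thdStmt h h' x hx)
  set τ : E₁ × EuclideanSpace ℝ n → Ext (E₁ × EuclideanSpace ℝ n) := thomF P W with hτ
  set τ' : E₁ × EuclideanSpace ℝ n → Ext (E₁ × EuclideanSpace ℝ n) :=
    thomF (fun y => 1 - P y) W' with hτ'
  set Θ : E₁ × EuclideanSpace ℝ n → Ext (E₁ × EuclideanSpace ℝ n) := thE P τ' τ with hΘ
  have hcard : Fintype.card ι * 2 + Fintype.card ι' * 2 = Fintype.card n := by
    rw [← Fintype.card_congr eq, Fintype.card_sum, Fintype.card_prod, Fintype.card_prod,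
      Fintype.card_fin]
  have hTP : ThomPair (volume : Measure (EuclideanSpace ℝ n)) Y P (2 * Fintype.card ι) 3 c₀
      ((2 : ℝ) • eR P W) τ τ' := by
    refine ⟨csf_thomF hY h, csf_thomF hY h', fun z => thomF_even z, fun z => thomF_deg z,
      fun z => ?_, hu, hc₀, thomF_zero h⟩
    have h2 : finrank ℝ (EuclideanSpace ℝ n) - 2 * Fintype.card ι = 2 * Fintype.card ι' := by
      rw [finrank_euclideanSpace]
      omega
    rw [h2]
    exact thomF_deg z
  have hr : 2 * Fintype.card ι ≤ finrank ℝ (EuclideanSpace ℝ n) := by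
    rw [finrank_euclideanSpace]
    omega
  obtain ⟨L, hL1, hL2, hL3⟩ := exists_L (volume : Measure (EuclideanSpace ℝ n)) hY h.pfield hr hTP
    (by norm_num) (fun z => thomF_even z) hy₀
  rw [← hΘ] at hL3
  have hΘs : Sm (Y ×ˢ (univ : Set (EuclideanSpace ℝ n))) Θ :=
    sm_eta h.pfield hTP.csf'.smooth hTP.csf.smooth
  have hΘv : ∀ z : E₁ × EuclideanSpace ℝ n, 13 < ‖z.2‖ → Θ z = 0 := fun z hz =>
    vt_eta hTP.csf'.supp hTP.csf.supp z (by linarith)
  have hL2' : ∀ z : E₁ × EuclideanSpace ℝ n, 13 < ‖z.2‖ → L z = 0 := fun z hz =>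
    hL2 z (by linarith)
  have hor : OR X (fun x => 1 - P (f x)) (fun x => W' (f x)) := OR_comp h' hf
  have hQ := pfield_compl_f h' hf
  have hoT := ori_SB hX hoX hor (fun x hx => OR_sym hor hx) hoX0
  have hκ : Fintype.card (ι ⊕ ι') * 2 = Fintype.card n := by
    rw [Fintype.card_sum, ← hcard]; ring
  obtain ⟨F₀, hF⟩ := exists_full (n := n) hκ
  obtain ⟨D, hD⟩ := exists_deg hX hoX hoX0 h h' hf hg hM hMc hoM hoM0 hT hF hκ (by
    rw [Fintype.card_sum]; ring)
  have hR27 : (2 : ℝ) * 13 < |(27 : ℝ)| := by norm_num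
  have hR27' : (2 : ℝ) * 13 < |(-27 : ℝ)| := by norm_num
  set C : ℝ := ∫ a in Metric.ball (0 : Eu (Fintype.card (ι ⊕ ι') * 2)) 1,
        top (Fintype.card (ι ⊕ ι') * 2) (F.pull (iE (f x₀) (-27) F₀) Θ a) with hC
  have hCabs : |C| = |kGG ι' * kGG ι| := integral_full h h' hy₀ hF hκ (by norm_num)
  have hk : kGG ι = 2 * XF.tau ι := XF.integral_GG ι
  have hk' : kGG ι' = 2 * XF.tau ι' := XF.integral_GG ι'
  have ht := XF.tau_pos ι
  have ht' := XF.tau_pos ι'
  have hCpos : |kGG ι' * kGG ι| = kGG ι' * kGG ι := abs_of_pos (by rw [hk, hk']; positivity)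
  rw [hCpos] at hCabs
  have main : ∀ μ : E₂ → Ext E₂, Sm M μ → Hom m μ →
      kGG ι' * (2 * J (2 * Fintype.card ι + m) X oX
        (fun x => χ x • (F.pull f (eR P W) x * F.pull g μ x))) = D * (C * J m M oM μ) := by
    intro μ hμ hμm
    rw [← J_T hX hoX hoX0 hY h h' hf hg hμ hμm hT.smooth rfl (R := 27) (by norm_num) hτ' hτ hΘ]
    rw [J_swap hX hQ (fun y hy => (h.sP y hy).differentiableAt (by simp)) hf hg hM.sub hT hoT
      hL1 hL2' hR27 (by norm_num) hμ hμm hc₀ hΘs hΘv hy₀ hL3]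
    have e1 := hD (fun z => up (fun _ : E₂ => f x₀) (-27) Θ z * F.pull pB μ z) ?_
    · rw [J_S hM hoM hoM0 hF hκ hΘs hΘv hR27' (by norm_num) hy₀ hμ hμm] at e1
      rw [← e1]
      refine J_congr' (subm_SB hX hQ (fun x hx => OR_sym hor hx)).cloZ fun z hz => ?_
      rw [pull_Phi (hg.smooth _ hz.1.1.1)]
    · have hfc : SMap M Y (fun _ : E₂ => f x₀) := ⟨fun _ _ => contDiffAt_const, fun _ _ => hy₀⟩
      have su : Sm (SB M (fun _ => (1 : EuclideanSpace ℝ n →L[ℝ] EuclideanSpace ℝ n)))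
        (up (fun _ : E₂ => f x₀) (-27) Θ) := sm_up' hfc hR27' (by norm_num) hΘv hΘs
      have sμ : Sm (SB M (fun _ => (1 : EuclideanSpace ℝ n →L[ℝ] EuclideanSpace ℝ n)))
        (F.pull pB μ) := hμ.pull smap_pB'
      exact fun z hz => ((su.mul sμ) z hz).continuousAt.continuousWithinAt
  have hk'0 : kGG ι' ≠ 0 := by rw [hk']; positivity
  rcases abs_eq (by rw [hk, hk']; positivity : (0 : ℝ) ≤ kGG ι' * kGG ι) |>.1 hCabs with hc | hc
  · refine ⟨D, fun μ hμ hμm => ?_⟩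
    have e := main μ hμ hμm
    rw [hc, hk] at e
    have e2 : kGG ι' * (2 * J (2 * Fintype.card ι + m) X oX
        (fun x => χ x • (F.pull f (eR P W) x * F.pull g μ x)) -
        2 * (XF.tau ι * D * J m M oM μ)) = 0 := by linear_combination e
    have e3 := (mul_eq_zero.1 e2).resolve_left hk'0
    linarith
  · refine ⟨-D, fun μ hμ hμm => ?_⟩
    have e := main μ hμ hμm
    rw [hc, hk] at e
    have e2 : kGG ι' * (2 * J (2 * Fintype.card ι + m) X oX
        (fun x => χ x • (F.pull f (eR P W) x * F.pull g μ x)) +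
        2 * (XF.tau ι * D * J m M oM μ)) = 0 := by linear_combination e
    have e3 := (mul_eq_zero.1 e2).resolve_left hk'0
    push_cast
    linarith

end Crest.Agent.R208.IM
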