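import Crest.Agent.R208.IM11
import Crest.Agent.R208.QT3

/-! Row 208, block IM (helper631).  IM12: 586's hypothesis `QT.IntM` holds. -/

set_option autoImplicit false

namespace Crest.Agent.R208.IM

theorem intM : QT.IntM := fun hY hYc h hX hoX hf hM hMc hoM hg hT =>
  int_thin hY hYc h hX hoX hf hM hMc hoM hg hT

end Crest.Agent.R208.IM
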