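import Crest.Agent.R208.SN5

/-! Row 208, block SN (helper900).  SN6: the fibre integral of `T_R`. -/

set_option autoImplicit false
set_option linter.unusedSectionVars false

open MeasureTheory Set Filter Topology Module Matrix
open scoped ContDiff RealInnerProductSpace
open Crest.Agent.R208.F Crest.Agent.R208.FI Crest.Agent.R208.CW Crest.Agent.R208.T

noncomputable section

namespace Crest.Agent.R208.SN

variable {n ι : Type*} [Fintype n] [DecidableEq n] [Fintype ι] [DecidableEq ι]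

/-! ### the frame as an isometric embedding of `Eu K` -/

/-- `a ↦ Σ a_k f_k` -/
def fA (f : Matrix n (ι × Fin 2) ℝ) : Eu (Fintype.card ι * 2) →L[ℝ] EuclideanSpace ℝ n :=
  LinearMap.toContinuousLinearMap
    { toFun := fun a => WithLp.toLp 2 fun i => ∑ k, f i ((kFin ι).symm k) * a k
      map_add' := fun a b => by
        ext i
        simp only [PiLp.add_apply, mul_add, Finset.sum_add_distrib]
      map_smul' := fun c a => by
        ext i
        simp only [PiLp.smul_apply, smul_eq_mul, RingHom.id_apply, Finset.mul_sum]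
        exact Finset.sum_congr rfl fun k _ => by ring }

/-- coordinates -/
def fL (f : Matrix n (ι × Fin 2) ℝ) : EuclideanSpace ℝ n →L[ℝ] Eu (Fintype.card ι * 2) :=
  LinearMap.toContinuousLinearMap
    { toFun := fun v => WithLp.toLp 2 fun k => ∑ i, f i ((kFin ι).symm k) * v i
      map_add' := fun a b => by
        ext i
        simp only [PiLp.add_apply, mul_add, Finset.sum_add_distrib]
      map_smul' := fun c a => by
        ext i
        simp only [PiLp.smul_apply, smul_eq_mul, RingHom.id_apply, Finset.mul_sum]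
        exact Finset.sum_congr rfl fun k _ => by ring }

@[simp] theorem fA_apply (f : Matrix n (ι × Fin 2) ℝ) (a : Eu (Fintype.card ι * 2)) (i : n) :
    fA f a i = ∑ k, f i ((kFin ι).symm k) * a k := rfl

@[simp] theorem fL_apply (f : Matrix n (ι × Fin 2) ℝ) (v : EuclideanSpace ℝ n)
    (k : Fin (Fintype.card ι * 2)) : fL f v k = ∑ i, f i ((kFin ι).symm k) * v i := rfl

variable {f : Matrix n (ι × Fin 2) ℝ}

theorem fL_fA (hf : fᵀ * f = 1) (a : Eu (Fintype.card ι * 2)) : fL f (fA f a) = a := by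
  ext k
  rw [fL_apply]
  simp only [fA_apply, Finset.mul_sum]
  rw [Finset.sum_comm]
  have h1 : ∀ l, ∑ i, f i ((kFin ι).symm k) * (f i ((kFin ι).symm l) * a l)
      = (if k = l then 1 else 0) * a l := by
    intro l
    have h2 := congrFun (congrFun hf ((kFin ι).symm k)) ((kFin ι).symm l)
    rw [Matrix.mul_apply, Matrix.one_apply] at h2
    simp only [EmbeddingLike.apply_eq_iff_eq] at h2
    rw [← h2, Finset.sum_mul]
    exact Finset.sum_congr rfl fun i _ => by rw [transpose_apply]; ring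
  simp [h1]

theorem fA_fL {A : EuclideanSpace ℝ n →L[ℝ] EuclideanSpace ℝ n}
    (hA : ∀ v i, A v i = ∑ j, (f * fᵀ) i j * v j) (v : EuclideanSpace ℝ n) :
    fA f (fL f v) = A v := by
  ext i
  rw [fA_apply, hA]
  have e1 : ∑ j, (f * fᵀ) i j * v j = ∑ k, f i k * ∑ j, f j k * v j := sum_mul_transpose f i _
  rw [e1]
  exact (kFin ι).symm.sum_comp (fun k => f i k * ∑ j, f j k * v j)

theorem inner_fA (a : Eu (Fintype.card ι * 2)) (v : EuclideanSpace ℝ n) :
    ⟪fA f a, v⟫ = ⟪a, fL f v⟫ := by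
  rw [PiLp.inner_apply, PiLp.inner_apply]
  simp only [fA_apply, fL_apply, RCLike.inner_apply, conj_trivial, Finset.mul_sum]
  rw [Finset.sum_comm]
  refine Finset.sum_congr rfl fun k _ => ?_
  rw [Finset.sum_mul]
  exact Finset.sum_congr rfl fun i _ => by ring

theorem inner_fA_fA (hf : fᵀ * f = 1) (a : Eu (Fintype.card ι * 2)) :
    ⟪fA f a, fA f a⟫ = ⟪a, a⟫ := by rw [inner_fA, fL_fA hf]

theorem norm_fA (hf : fᵀ * f = 1) (a : Eu (Fintype.card ι * 2)) : ‖fA f a‖ = ‖a‖ := by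
  have h := inner_fA_fA hf a
  rw [real_inner_self_eq_norm_sq, real_inner_self_eq_norm_sq] at h
  exact (sq_eq_sq₀ (norm_nonneg _) (norm_nonneg _)).1 h

theorem P_fA (hf : fᵀ * f = 1) {A : EuclideanSpace ℝ n →L[ℝ] EuclideanSpace ℝ n}
    (hA : ∀ v i, A v i = ∑ j, (f * fᵀ) i j * v j) (a : Eu (Fintype.card ι * 2)) :
    A (fA f a) = fA f a := by rw [← fA_fL hA, fL_fA hf]

/-! ### the chart of the upper hemisphere -/
section chart
variable {E : Type*} [NormedAddCommGroup E] [NormedSpace ℝ E] [FiniteDimensional ℝ E]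
  {X : Set E} {P : E → EuclideanSpace ℝ n →L[ℝ] EuclideanSpace ℝ n} {x : E}

/-- the upper hemisphere -/
def jj (f : Matrix n (ι × Fin 2) ℝ) (x : E) (a : Eu (Fintype.card ι * 2)) :
    (E × EuclideanSpace ℝ n) × ℝ := ((x, fA f a), Real.sqrt (1 - ‖a‖ ^ 2))

theorem one_sub_pos {a : Eu (Fintype.card ι * 2)} (ha : a ∈ Metric.ball (0 : Eu _) 1) :
    0 < 1 - ‖a‖ ^ 2 := by
  rw [mem_ball_zero_iff] at ha
  have := norm_nonneg a
  nlinarith

theorem contDiffAt_jj {a : Eu (Fintype.card ι * 2)} (ha : a ∈ Metric.ball (0 : Eu _) 1) :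
    ContDiffAt ℝ ∞ (jj f x : Eu (Fintype.card ι * 2) → (E × EuclideanSpace ℝ n) × ℝ) a := by
  refine (contDiffAt_const.prodMk (fA f).contDiff.contDiffAt).prodMk ?_
  exact ContDiffAt.sqrt (contDiffAt_const.sub (contDiff_norm_sq ℝ).contDiffAt)
    (one_sub_pos ha).ne'

theorem jj_mem (hf : fᵀ * f = 1) (hA : ∀ v i, P x v i = ∑ j, (f * fᵀ) i j * v j) (hx : x ∈ X)
    {a : Eu (Fintype.card ι * 2)} (ha : a ∈ Metric.ball (0 : Eu _) 1) :
    jj f x a ∈ SB X P := by
  refine SB_iff.2 ⟨hx, P_fA hf hA a, ?_⟩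
  show ⟪fA f a, fA f a⟫ + Real.sqrt (1 - ‖a‖ ^ 2) * Real.sqrt (1 - ‖a‖ ^ 2) = 1
  rw [inner_fA_fA hf, Real.mul_self_sqrt (one_sub_pos ha).le, real_inner_self_eq_norm_sq]
  ring

/-- points of the fibre over `x` with positive height are in the image -/
theorem eq_jj (hf : fᵀ * f = 1) (hA : ∀ v i, P x v i = ∑ j, (f * fᵀ) i j * v j)
    {z : (E × EuclideanSpace ℝ n) × ℝ} (hz : z ∈ SB X P ∩ pB ⁻¹' {x}) (h0 : 0 < z.2) :
    fL f z.1.2 ∈ Metric.ball (0 : Eu (Fintype.card ι * 2)) 1 ∧ jj f x (fL f z.1.2) = z := by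
  obtain ⟨⟨x', v⟩, t⟩ := z
  have hx' : x' = x := hz.2
  subst hx'
  obtain ⟨hx, hP, hn⟩ := SB_iff.1 hz.1
  simp only at hx hP hn h0
  have h1 : fA f (fL f v) = v := by rw [fA_fL hA, hP]
  have h2 : ‖fL f v‖ = ‖v‖ := by rw [← norm_fA hf, h1]
  rw [real_inner_self_eq_norm_sq] at hn
  constructor
  · rw [mem_ball_zero_iff]
    show ‖fL f v‖ < 1
    rw [h2]
    have := norm_nonneg v
    nlinarith
  · show ((x', fA f (fL f v)), Real.sqrt (1 - ‖fL f v‖ ^ 2)) = ((x', v), t)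
    rw [h1, h2]
    have : 1 - ‖v‖ ^ 2 = t ^ 2 := by linarith
    rw [this, Real.sqrt_sq h0.le]

theorem chart_jj (hf : fᵀ * f = 1) (hA : ∀ v i, P x v i = ∑ j, (f * fᵀ) i j * v j) (hx : x ∈ X) :
    Chart (Fintype.card ι * 2) (SB X P ∩ pB ⁻¹' {x}) (jj f x) (Metric.ball 0 1) where
  isOpen := Metric.isOpen_ball
  contDiffOn a ha := (contDiffAt_jj ha).contDiffWithinAt
  injOn a _ b _ hab := by
    have h1 : fA f a = fA f b := congrArg (fun z => z.1.2) hab
    rw [← fL_fA hf a, h1, fL_fA hf]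
  inj a ha := by
    have hd : DifferentiableAt ℝ (jj f x : Eu (Fintype.card ι * 2) →
      (E × EuclideanSpace ℝ n) × ℝ) a := (contDiffAt_jj ha).differentiableAt (by simp)
    let L : ((E × EuclideanSpace ℝ n) × ℝ) →L[ℝ] Eu (Fintype.card ι * 2) :=
      (fL f).comp ((ContinuousLinearMap.snd ℝ E (EuclideanSpace ℝ n)).comp
        (ContinuousLinearMap.fst ℝ (E × EuclideanSpace ℝ n) ℝ))
    have h1 : (fun b => L (jj f x b)) = fun b => b := funext fun b => by
      show fL f (fA f b) = b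
      rw [fL_fA hf]
    have h2 : HasFDerivAt (fun b => L (jj f x b)) (L.comp (fderiv ℝ (jj f x) a)) a :=
      L.hasFDerivAt.comp a hd.hasFDerivAt
    rw [h1] at h2
    have h3 := h2.unique (hasFDerivAt_id a)
    intro u v huv
    have h4 := congrArg (fun A => A u) h3
    have h5 := congrArg (fun A => A v) h3
    simp only [ContinuousLinearMap.comp_apply, ContinuousLinearMap.id_apply] at h4 h5
    rw [← h4, ← h5, huv]
  image_open W hW hWo := by
    refine ⟨{z | 0 < z.2 ∧ fL f z.1.2 ∈ W}, ?_, ?_⟩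
    · refine (isOpen_lt continuous_const continuous_snd).inter (hWo.preimage ?_)
      exact (fL f).continuous.comp (continuous_snd.comp continuous_fst)
    · apply Subset.antisymm
      · rintro _ ⟨a, ha, rfl⟩
        refine ⟨⟨jj_mem hf hA hx (hW ha), rfl⟩, ?_, ?_⟩
        · exact Real.sqrt_pos.2 (one_sub_pos (hW ha))
        · show fL f (fA f a) ∈ W
          rw [fL_fA hf]; exact ha
      · rintro z ⟨hz, h0, h1⟩
        exact ⟨_, h1, (eq_jj hf hA hz h0).2⟩

end chart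

/-! ### the fibre integral -/
section fib
variable {T : Submodule ℝ (EuclideanSpace ℝ n)} {C : Set (EuclideanSpace ℝ n)}
  {P : EuclideanSpace ℝ n → EuclideanSpace ℝ n →L[ℝ] EuclideanSpace ℝ n}
  {W : EuclideanSpace ℝ n → (ι × Fin 2 → n) → ℝ} {rho : EuclideanSpace ℝ n → EuclideanSpace ℝ n}
  {E : Type*} [NormedAddCommGroup E] [NormedSpace ℝ E] [FiniteDimensional ℝ E]
  {X : Set E} {φ : E → EuclideanSpace ℝ n} {w : EuclideanSpace ℝ n}
  {g : (E × EuclideanSpace ℝ n) × ℝ → EuclideanSpace ℝ n} {c d : ℕ}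

/-- the linear model of the fibre -/
def iR (q : EuclideanSpace ℝ n) (R : ℝ) (f : Matrix n (ι × Fin 2) ℝ)
    (a : Eu (Fintype.card ι * 2)) : EuclideanSpace ℝ n × EuclideanSpace ℝ n := (q, R • fA f a)

theorem hasFDerivAt_iR (q : EuclideanSpace ℝ n) (R : ℝ) (f : Matrix n (ι × Fin 2) ℝ)
    (a : Eu (Fintype.card ι * 2)) : HasFDerivAt (iR q R f)
      ((ContinuousLinearMap.inr ℝ (EuclideanSpace ℝ n) (EuclideanSpace ℝ n)).comp (R • fA f)) a := by
  have : HasFDerivAt (fun a => (q, (R • fA f) a)) ((0 : Eu (Fintype.card ι * 2) →L[ℝ]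
      EuclideanSpace ℝ n).prod (R • fA f)) a :=
    (hasFDerivAt_const q a).prodMk (R • fA f).hasFDerivAt
  refine this.congr_fderiv ?_
  ext w <;> simp

theorem top_Xi (hf : fᵀ * f = 1) (R : ℝ) :
    top (Fintype.card ι * 2) (pb ((R • fA f : Eu (Fintype.card ι * 2) →L[ℝ] EuclideanSpace ℝ n) :
      Eu (Fintype.card ι * 2) →ₗ[ℝ] EuclideanSpace ℝ n) (Xi f)) = R ^ (Fintype.card ι * 2) := by
  rw [top_pb, Xi, evA_iMulti]
  have : (Matrix.of fun i j => eta f ((kFin ι).symm j)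
      (((R • fA f : Eu (Fintype.card ι * 2) →L[ℝ] EuclideanSpace ℝ n) :
      Eu (Fintype.card ι * 2) →ₗ[ℝ] EuclideanSpace ℝ n) (sb (Fintype.card ι * 2) i)))
      = R • (1 : Matrix (Fin (Fintype.card ι * 2)) (Fin (Fintype.card ι * 2)) ℝ) := by
    ext i j
    rw [Matrix.of_apply, Matrix.smul_apply, Matrix.one_apply, eta_apply]
    have h1 : ∑ a, f a ((kFin ι).symm j) * (((R • fA f :
        Eu (Fintype.card ι * 2) →L[ℝ] EuclideanSpace ℝ n) :
        Eu (Fintype.card ι * 2) →ₗ[ℝ] EuclideanSpace ℝ n) (sb (Fintype.card ι * 2) i)) a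
        = R * (fL f (fA f (sb (Fintype.card ι * 2) i))) j := by
      rw [fL_apply, Finset.mul_sum]
      refine Finset.sum_congr rfl fun a _ => ?_
      show f a ((kFin ι).symm j) * (R * (fA f (sb (Fintype.card ι * 2) i)) a) = _
      ring
    rw [h1, fL_fA hf, smul_eq_mul]
    congr 1
    simp [sb, eq_comm]
  rw [this, det_smul, det_one, mul_one, Fintype.card_fin]

theorem top_iR [Nonempty ι] (h : OR C P W) {q : EuclideanSpace ℝ n} (hq : q ∈ C)
    (hf : fᵀ * f = 1) (hPf : ∀ v i, P q v i = ∑ j, (f * fᵀ) i j * v j)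
    (hWf : ∀ I, W q I = (f.submatrix I id).det) (R : ℝ) (a : Eu (Fintype.card ι * 2)) :
    top (Fintype.card ι * 2) (F.pull (iR q R f) (thomF P W) a)
      = GG ι (‖R • a‖ ^ 2) * R ^ (Fintype.card ι * 2) := by
  have h1 := pb_thomF (W := W) (h.sP q hq) hf hPf hWf (R • fA f a)
  have h2 : P q (R • fA f a) = R • fA f a := by rw [map_smul, P_fA hf hPf]
  rw [h2] at h1
  have h3 := congrArg (pb ((R • fA f : Eu (Fintype.card ι * 2) →L[ℝ] EuclideanSpace ℝ n) :
      Eu (Fintype.card ι * 2) →ₗ[ℝ] EuclideanSpace ℝ n)) h1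
  rw [pb_comp, map_smul] at h3
  have h4 : (((ContinuousLinearMap.inr ℝ (EuclideanSpace ℝ n) (EuclideanSpace ℝ n)).comp (P q) :
        EuclideanSpace ℝ n →L[ℝ] EuclideanSpace ℝ n × EuclideanSpace ℝ n) :
        EuclideanSpace ℝ n →ₗ[ℝ] EuclideanSpace ℝ n × EuclideanSpace ℝ n) ∘ₗ
      ((R • fA f : Eu (Fintype.card ι * 2) →L[ℝ] EuclideanSpace ℝ n) :
      Eu (Fintype.card ι * 2) →ₗ[ℝ] EuclideanSpace ℝ n)
      = ((fderiv ℝ (iR q R f) a : Eu (Fintype.card ι * 2) →L[ℝ] _) :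
        Eu (Fintype.card ι * 2) →ₗ[ℝ] _) := by
    rw [(hasFDerivAt_iR q R f a).fderiv]
    refine LinearMap.ext fun u => ?_
    show ((0 : EuclideanSpace ℝ n), P q (R • fA f u)) = (0, R • fA f u)
    rw [map_smul, P_fA hf hPf]
  rw [h4] at h3
  have h5 : F.pull (iR q R f) (thomF P W) a = GG ι (‖R • fA f a‖ ^ 2) •
    pb ((R • fA f : Eu (Fintype.card ι * 2) →L[ℝ] EuclideanSpace ℝ n) :
      Eu (Fintype.card ι * 2) →ₗ[ℝ] EuclideanSpace ℝ n) (Xi f) := h3
  rw [h5, map_smul, smul_eq_mul, top_Xi hf]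
  congr 3
  rw [norm_smul, norm_smul, norm_fA hf]

theorem GG_zero [Nonempty ι] {s : ℝ} (h : 1 ≤ s) : GG ι s = 0 := GG_of_ge h

/-- the total integral of the model density -/
def kGG (ι : Type*) [Fintype ι] : ℝ := ∫ a : Eu (Fintype.card ι * 2), GG ι (‖a‖ ^ 2)

theorem integral_scaled [Nonempty ι] {R : ℝ} (hR : 1 ≤ R) :
    ∫ a in Metric.ball (0 : Eu (Fintype.card ι * 2)) 1,
      GG ι (‖R • a‖ ^ 2) * R ^ (Fintype.card ι * 2) = kGG ι := by
  have hR0 : 0 < R := by linarith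
  have h1 : ∫ a in Metric.ball (0 : Eu (Fintype.card ι * 2)) 1,
      GG ι (‖R • a‖ ^ 2) * R ^ (Fintype.card ι * 2)
      = ∫ a : Eu (Fintype.card ι * 2), GG ι (‖R • a‖ ^ 2) * R ^ (Fintype.card ι * 2) := by
    refine setIntegral_eq_integral_of_forall_compl_eq_zero fun a ha => ?_
    have h2 : 1 ≤ ‖a‖ := by
      rw [mem_ball_zero_iff] at ha
      exact not_lt.1 ha
    rw [GG_zero, zero_mul]
    rw [norm_smul, Real.norm_of_nonneg hR0.le]
    have : 1 ≤ R * ‖a‖ := by nlinarith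
    nlinarith
  rw [h1, integral_mul_const, Measure.integral_comp_smul volume (fun a => GG ι (‖a‖ ^ 2)) R]
  rw [finrank_euclideanSpace, Fintype.card_fin, smul_eq_mul, abs_of_pos (by positivity)]
  have : R ^ (Fintype.card ι * 2) ≠ 0 := by positivity
  rw [kGG]
  field_simp

/-- **the fibre integral** -/
theorem J_fibre [Nonempty ι] (hC : Sub c C) (hX : Clo d X) {oX : E → Ext E} (hoX : Ori d X oX)
    (hoX0 : ∀ x ∈ X, ∀ q < d, evA E q (oX x) = 0)
    (h : Stp T C P W rho X φ w g) {R : ℝ} (hR1 : 1 ≤ R)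
    (hR : ∀ z ∈ SB X (fun x => P (φ x)), z.2 ≤ 1 / 2 → 3 < ‖R • sv w z‖) {x : E} (hx : x ∈ X) :
    |J (Fintype.card ι * 2) (SB X (fun x => P (φ x)) ∩ pB ⁻¹' {x})
      (oVf (fun x => W (φ x))) (TR R w g P W)| = |kGG ι| := by
  have hor := OR_comp h.spr.or h.hf
  have hS := subm_SB hX (pf h.spr h.hf) (fun x hx => OR_sym hor hx)
  have hoZ := ori_SB hX hoX hor (fun x hx => OR_sym hor hx) hoX0
  have hF := hS.clo_fibre x
  have hoF := hS.fibre_ori (continuousOn_oVf hor) hoZ hoX0 x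
  obtain ⟨f, hf, hPf, hWf⟩ := h.spr.or.fr _ (h.hf.maps hx)
  have hch := chart_jj (P := fun x => P (φ x)) (X := X) (x := x) hf hPf hx
  rw [J_eq_chart hF hch (fun z hz hz2 => by
    have h0 : ¬ 0 < z.2 := fun h0 =>
      hz2 ⟨_, (eq_jj (P := fun x => P (φ x)) hf hPf hz h0).1,
        (eq_jj (P := fun x => P (φ x)) hf hPf hz h0).2⟩
    rw [TR_zero hC h hR hz.1 (by push Not at h0; linarith), map_zero]
    rfl)]
  obtain ⟨ε, hε⟩ := hch.exists_sign hoF (convex_ball (0 : Eu _) 1).isPreconnected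
  have hε1 : |ε| = 1 := by
    have h0 : (0 : Eu (Fintype.card ι * 2)) ∈ Metric.ball (0 : Eu _) 1 := Metric.mem_ball_self one_pos
    have h1 := hε 0 h0
    have h2 := hch.top_ne_zero hoF h0
    rcases lt_or_gt_of_ne h2 with h3 | h3
    · rw [← h1, Real.sign_of_neg h3]; simp
    · rw [← h1, Real.sign_of_pos h3]; simp
  have key : ∀ u ∈ Metric.ball (0 : Eu (Fintype.card ι * 2)) 1,
      top (Fintype.card ι * 2) (F.pull (jj f x) (TR R w g P W) u)
        = GG ι (‖R • u‖ ^ 2) * R ^ (Fintype.card ι * 2) := by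
    intro u hu
    rw [← top_iR h.spr.or (h.hf.maps hx) hf hPf hWf R u]
    congr 1
    have h1 : DifferentiableAt ℝ (jj f x : Eu (Fintype.card ι * 2) →
      (E × EuclideanSpace ℝ n) × ℝ) u := (contDiffAt_jj hu).differentiableAt (by simp)
    have h2 : DifferentiableAt ℝ (sR R w g) (jj f x u) :=
      (smap_sR h R).diff (jj_mem (P := fun x => P (φ x)) hf hPf hx hu)
    rw [TR, F.pull_comp h1 h2]
    refine F.pull_congr ?_
    filter_upwards [Metric.isOpen_ball.mem_nhds hu] with b hb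
    have h3 : jj f x b ∈ SB X (fun x => P (φ x)) := jj_mem (P := fun x => P (φ x)) hf hPf hx hb
    have h4 : 0 < (jj f x b : (E × EuclideanSpace ℝ n) × ℝ).2 := Real.sqrt_pos.2 (one_sub_pos hb)
    show (g (jj f x b), R • sv w (jj f x b)) = (φ x, R • fA f b)
    rw [h.up _ h3 (by linarith), sv_of_ge w (by linarith)]
    rfl
  rw [setIntegral_congr_fun Metric.isOpen_ball.measurableSet (fun u hu => by
    show _ = (GG ι (‖R • u‖ ^ 2) * R ^ (Fintype.card ι * 2)) * ε
    rw [key u hu, hε u hu]), integral_mul_const, integral_scaled hR1, abs_mul, hε1, mul_one]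

end fib

end Crest.Agent.R208.SN
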