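import Crest.Agent.R208.IM1
import Crest.Agent.R208.SN6
import Crest.Agent.R208.CM5

/-! Row 208, block IM (helper631).  IM2: forms on the sphere bundle `SB X Q` which are pulled back
to the upper hemisphere, and their fibre integrals. -/

set_option autoImplicit false
set_option linter.unusedSectionVars false

open MeasureTheory Set Filter Topology Module Matrix
open scoped ContDiff RealInnerProductSpace
open Crest.Agent.R208.F Crest.Agent.R208.FI Crest.Agent.R208.CW Crest.Agent.R208.T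
open Crest.Agent.R208.SN

noncomputable section

namespace Crest.Agent.R208.IM

section up
variable {E E₁ H : Type*} [NormedAddCommGroup E] [NormedSpace ℝ E] [FiniteDimensional ℝ E]
  [NormedAddCommGroup E₁] [NormedSpace ℝ E₁] [FiniteDimensional ℝ E₁]
  [NormedAddCommGroup H] [InnerProductSpace ℝ H] [FiniteDimensional ℝ H]
  {X : Set E} {Y : Set E₁} {Q : E → H →L[ℝ] H} {f : E → E₁} {R R₀ : ℝ}
  {Θ Θ' : E₁ × H → Ext (E₁ × H)}

/-- `(x, u, s) ↦ (f x, R u)` -/
def kf (f : E → E₁) (R : ℝ) (z : (E × H) × ℝ) : E₁ × H := (f z.1.1, R • z.1.2)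

/-- the form on the upper hemisphere -/
def up (f : E → E₁) (R : ℝ) (Θ : E₁ × H → Ext (E₁ × H)) (z : (E × H) × ℝ) :
    Ext ((E × H) × ℝ) := if 0 < z.2 then F.pull (kf f R) Θ z else 0

theorem up_near_pos (f : E → E₁) (R : ℝ) (Θ : E₁ × H → Ext (E₁ × H)) {z : (E × H) × ℝ}
    (hz : 0 < z.2) : up f R Θ =ᶠ[𝓝 z] F.pull (kf f R) Θ := by
  have ho : IsOpen {z : (E × H) × ℝ | 0 < z.2} := isOpen_lt continuous_const continuous_snd
  filter_upwards [ho.mem_nhds hz] with y hy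
  exact if_pos hy

theorem up_near_neg (hR : 2 * R₀ < |R|) (hR₀ : 0 ≤ R₀) (hΘ : ∀ z, R₀ < ‖z.2‖ → Θ z = 0)
    {z : (E × H) × ℝ} (hz : z ∈ SB X Q) (h0 : z.2 ≤ 0) : up f R Θ =ᶠ[𝓝 z] fun _ => 0 := by
  rcases lt_or_eq_of_le h0 with h1 | h1
  · have ho : IsOpen {z : (E × H) × ℝ | z.2 < 0} := isOpen_lt continuous_snd continuous_const
    filter_upwards [ho.mem_nhds h1] with y hy
    exact if_neg (not_lt.2 (le_of_lt hy))
  · have h2 := (SB_iff.1 hz).2.2
    rw [h1, mul_zero, add_zero, real_inner_self_eq_norm_sq] at h2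
    have h3 : ‖z.1.2‖ = 1 := by
      have := norm_nonneg z.1.2
      nlinarith
    have ho : IsOpen {z : (E × H) × ℝ | R₀ < ‖R • z.1.2‖} :=
      isOpen_lt continuous_const (by fun_prop)
    have h4 : R₀ < ‖R • z.1.2‖ := by
      rw [norm_smul, h3, Real.norm_eq_abs]; linarith
    filter_upwards [ho.mem_nhds h4] with y hy
    by_cases h5 : 0 < y.2
    · rw [up, if_pos h5]
      have h6 : Θ (kf f R y) = 0 := hΘ (kf f R y) hy
      rw [F.pull, h6, map_zero]
    · rw [up, if_neg h5]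

/-- near a point of positive height the support condition gives `|u|` small -/
theorem sm_up (hR : 2 * R₀ < |R|) (hR₀ : 0 ≤ R₀) (hΘ : ∀ z, R₀ < ‖z.2‖ → Θ z = 0)
    (hs : ∀ z ∈ SB X Q, ContDiffAt ℝ ∞ (F.pull (kf f R) Θ) z) : Sm (SB X Q) (up f R Θ) := by
  intro z hz
  rcases lt_or_ge 0 z.2 with h | h
  · exact (hs z hz).congr_of_eventuallyEq (up_near_pos f R Θ h)
  · exact contDiffAt_const.congr_of_eventuallyEq (up_near_neg hR hR₀ hΘ hz h)

theorem d_up (hR : 2 * R₀ < |R|) (hR₀ : 0 ≤ R₀) (hΘ : ∀ z, R₀ < ‖z.2‖ → Θ z = 0)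
    {z : (E × H) × ℝ} (hz : z ∈ SB X Q) :
    F.d (E := (E × H) × ℝ) (up f R Θ) z =
      if 0 < z.2 then F.d (E := (E × H) × ℝ) (F.pull (kf f R) Θ) z else 0 := by
  split_ifs with h
  · exact F.d_congr (up_near_pos f R Θ h)
  · rw [F.d_congr (up_near_neg hR hR₀ hΘ hz (not_lt.1 h)), F.d_const]

theorem eqv_up (h : Eqv (SB X Q) (F.pull (kf f R) Θ) (F.pull (kf f R) Θ')) :
    Eqv (SB X Q) (up f R Θ) (up f R Θ') := by
  refine eqv_iff.2 fun z hz => ?_
  have := eqv_iff.1 h z hz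
  unfold up
  split_ifs
  · exact this
  · rfl

end up

section fibre
variable {n ι : Type*} [Fintype n] [DecidableEq n] [Fintype ι] [DecidableEq ι]
  {E E₁ : Type*} [NormedAddCommGroup E] [NormedSpace ℝ E] [FiniteDimensional ℝ E]
  [NormedAddCommGroup E₁] [NormedSpace ℝ E₁] [FiniteDimensional ℝ E₁]
  {X : Set E} {Q : E → EuclideanSpace ℝ n →L[ℝ] EuclideanSpace ℝ n}
  {W : E → (ι × Fin 2 → n) → ℝ} {φ : E → E₁} {R R₀ : ℝ} {d : ℕ}
  {Θ : E₁ × EuclideanSpace ℝ n → Ext (E₁ × EuclideanSpace ℝ n)}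

/-- the linear model of the fibre -/
def iE (q : E₁) (R : ℝ) (f : Matrix n (ι × Fin 2) ℝ) (a : Eu (Fintype.card ι * 2)) :
    E₁ × EuclideanSpace ℝ n := (q, R • fA f a)

/-- the vertical orientation form is positive at the pole -/
theorem top_oVf_pos {x : E} {f : Matrix n (ι × Fin 2) ℝ}
    (hf : fᵀ * f = 1) (hWf : ∀ I, W x I = (f.submatrix I id).det) :
    0 < top (Fintype.card ι * 2) (F.pull (jj f x) (oVf W) (0 : Eu (Fintype.card ι * 2))) := by
  classical
  have hd : HasFDerivAt (jj f x : Eu (Fintype.card ι * 2) → (E × EuclideanSpace ℝ n) × ℝ)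
      (((0 : Eu (Fintype.card ι * 2) →L[ℝ] E).prod (fA f)).prod
        (0 : Eu (Fintype.card ι * 2) →L[ℝ] ℝ)) 0 := by
    have h1 : HasFDerivAt (fun a : Eu (Fintype.card ι * 2) => Real.sqrt (1 - ‖a‖ ^ 2))
        (0 : Eu (Fintype.card ι * 2) →L[ℝ] ℝ) 0 := by
      have h2 : HasFDerivAt (fun a : Eu (Fintype.card ι * 2) => (1 : ℝ) - ‖a‖ ^ 2)
          (0 : Eu (Fintype.card ι * 2) →L[ℝ] ℝ) 0 := by
        have h3 := ((hasStrictFDerivAt_norm_sq (0 : Eu (Fintype.card ι * 2))).hasFDerivAt).const_sub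
          (1 : ℝ)
        refine h3.congr_fderiv ?_
        ext w; simp
      have h4 := h2.sqrt (by simp)
      refine h4.congr_fderiv ?_
      simp
    exact ((hasFDerivAt_const x _).prodMk (fA f).hasFDerivAt).prodMk h1
  have hj : jj f x (0 : Eu (Fintype.card ι * 2)) = ((x, 0), 1) := by
    show ((x, fA f 0), Real.sqrt (1 - ‖(0 : Eu (Fintype.card ι * 2))‖ ^ 2)) = _
    simp
  have e0 : top (Fintype.card ι * 2) (F.pull (jj f x) (oVf W) (0 : Eu (Fintype.card ι * 2)))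
      = evA _ (Fintype.card ι * 2) (oVf W ((x, 0), 1)) (fun i =>
        (((0 : E), fA f (sb (Fintype.card ι * 2) i)), (0 : ℝ))) := by
    rw [F.pull, top_pb, hj, hd.fderiv]
    rfl
  rw [e0, oVf, ← evA_ii, volW_frame hWf]
  set l : Fin (Fintype.card ι * 2 + 1) → Module.Dual ℝ ((E × EuclideanSpace ℝ n) × ℝ) :=
    Fin.append (fun k => eta f ((kFin ι).symm k) ∘ₗ p2) (fun _ : Fin 1 => p3) with hl
  have h1 : pb p2 ((Fintype.card (Equiv.Perm (ι × Fin 2)) : ℝ) • Xi f) *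
      io (p3 (E := E) (n := n))
      = (Fintype.card (Equiv.Perm (ι × Fin 2)) : ℝ) •
        ExteriorAlgebra.ιMulti ℝ (Fintype.card ι * 2 + 1) l := by
    rw [map_smul, smul_mul_assoc, Xi, pb_iMulti]
    congr 1
    have e1 : io (p3 (E := E) (n := n)) = ExteriorAlgebra.ιMulti ℝ 1 (fun _ : Fin 1 => p3) := by
      rw [ExteriorAlgebra.ιMulti_apply]; simp
    rw [e1, ExteriorAlgebra.ιMulti_mul_ιMulti]
  rw [h1, map_smul, AlternatingMap.smul_apply, evA_iMulti, smul_eq_mul]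
  have hc0 : (0 : ℝ) < (Fintype.card (Equiv.Perm (ι × Fin 2)) : ℝ) := by
    exact_mod_cast Fintype.card_pos
  refine mul_pos hc0 ?_
  -- the determinant
  have hM : (Matrix.of fun i j => l j (Matrix.vecCons (rad ((x, (0 : EuclideanSpace ℝ n)), (1 : ℝ)))
      (fun i => (((0 : E), fA f (sb (Fintype.card ι * 2) i)), (0 : ℝ))) i)).det = (-1) ^ (Fintype.card ι * 2) := by
    rw [Matrix.det_succ_row_zero, Finset.sum_eq_single (Fin.last (Fintype.card ι * 2))]
    · have h2 : l (Fin.last (Fintype.card ι * 2)) (rad ((x, (0 : EuclideanSpace ℝ n)), (1 : ℝ))) = 1 := by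
        have : (Fin.last (Fintype.card ι * 2) : Fin ((Fintype.card ι * 2) + 1)) = Fin.natAdd (Fintype.card ι * 2) (0 : Fin 1) := by
          ext; simp
        rw [hl, this, Fin.append_right]
        rfl
      have h3 : (Matrix.submatrix (Matrix.of fun i j => l j (Matrix.vecCons
          (rad ((x, (0 : EuclideanSpace ℝ n)), (1 : ℝ)))
          (fun i => (((0 : E), fA f (sb (Fintype.card ι * 2) i)), (0 : ℝ))) i)) Fin.succ (Fin.last (Fintype.card ι * 2)).succAbove)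
          = (1 : Matrix (Fin (Fintype.card ι * 2)) (Fin (Fintype.card ι * 2)) ℝ) := by
        ext i j
        rw [Matrix.submatrix_apply, Matrix.of_apply, Matrix.cons_val_succ, Fin.succAbove_last]
        have : (Fin.castSucc j : Fin ((Fintype.card ι * 2) + 1)) = Fin.castAdd 1 j := rfl
        rw [hl, this, Fin.append_left, Matrix.one_apply]
        show eta f ((kFin ι).symm j) (fA f (sb (Fintype.card ι * 2) i)) = _
        rw [eta_apply]
        have h4 := congrArg (fun v => v j) (fL_fA hf (sb (Fintype.card ι * 2) i))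
        simp only [fL_apply] at h4
        rw [h4]
        simp [sb, eq_comm]
      rw [h3, Matrix.det_one, mul_one, Matrix.of_apply, Matrix.cons_val_zero, h2, mul_one]
      simp
    · intro j _ hj
      have h2 : l j (rad ((x, (0 : EuclideanSpace ℝ n)), (1 : ℝ))) = 0 := by
        obtain ⟨j', rfl⟩ : ∃ j' : Fin (Fintype.card ι * 2), j = Fin.castAdd 1 j' :=
          ⟨j.castPred hj, (Fin.castSucc_castPred j hj).symm⟩
        rw [hl, Fin.append_left]
        show eta f ((kFin ι).symm j') (0 : EuclideanSpace ℝ n) = 0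
        rw [map_zero]
      rw [Matrix.of_apply, Matrix.cons_val_zero, h2, mul_zero, zero_mul]
    · intro h; exact absurd (Finset.mem_univ _) h
  rw [hM, mul_comm, pow_mul]
  norm_num

theorem hasFDerivAt_iE (q : E₁) (R : ℝ) (f : Matrix n (ι × Fin 2) ℝ)
    (a : Eu (Fintype.card ι * 2)) : HasFDerivAt (iE q R f)
      ((ContinuousLinearMap.inr ℝ E₁ (EuclideanSpace ℝ n)).comp (R • fA f)) a := by
  have : HasFDerivAt (fun a => (q, (R • fA f) a)) ((0 : Eu (Fintype.card ι * 2) →L[ℝ]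
      E₁).prod (R • fA f)) a :=
    (hasFDerivAt_const q a).prodMk (R • fA f).hasFDerivAt
  refine this.congr_fderiv ?_
  ext w <;> simp

/-- **the fibre integral of a form on the upper hemisphere** -/
theorem J_fib_up (hX : Clo d X) {oX : E → Ext E} (hoX : Ori d X oX)
    (hoX0 : ∀ x ∈ X, ∀ q < d, evA E q (oX x) = 0) (h : OR X Q W)
    (hφ : ∀ x ∈ X, ContDiffAt ℝ ∞ φ x) (hR : 2 * R₀ < |R|) (hR₀ : 0 ≤ R₀)
    (hΘ : ∀ z, R₀ < ‖z.2‖ → Θ z = 0) {x : E} (hx : x ∈ X) {f : Matrix n (ι × Fin 2) ℝ}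
    (hf : fᵀ * f = 1) (hQf : ∀ v i, Q x v i = ∑ j, (f * fᵀ) i j * v j)
    (hWf : ∀ I, W x I = (f.submatrix I id).det) :
    J (Fintype.card ι * 2) (SB X Q ∩ pB ⁻¹' {x}) (oVf W) (up φ R Θ)
      = ∫ a in Metric.ball (0 : Eu (Fintype.card ι * 2)) 1,
        top (Fintype.card ι * 2) (F.pull (iE (φ x) R f) Θ a) := by
  have hs : ∀ x ∈ X, ∀ v w, ⟪Q x v, w⟫ = ⟪v, Q x w⟫ := fun x hx => OR_sym h hx
  have hP : PField X (Fintype.card ι * 2) Q := by
    have := h.pfield
    rwa [mul_comm] at this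
  have hS := subm_SB hX hP hs
  have hoZ := ori_SB hX hoX h hs hoX0
  have hF := hS.clo_fibre x
  have hoF := hS.fibre_ori (continuousOn_oVf h) hoZ hoX0 x
  have hch := chart_jj (P := Q) (X := X) (x := x) hf hQf hx
  rw [J_eq_chart hF hch (fun z hz hz2 => by
    have h0 : ¬ 0 < z.2 := fun h0 =>
      hz2 ⟨_, (eq_jj (P := Q) hf hQf hz h0).1, (eq_jj (P := Q) hf hQf hz h0).2⟩
    have h1 : up φ R Θ z = 0 := (up_near_neg hR hR₀ hΘ hz.1 (not_lt.1 h0)).self_of_nhds
    rw [h1, map_zero]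
    rfl)]
  obtain ⟨ε, hε⟩ := hch.exists_sign hoF (convex_ball (0 : Eu _) 1).isPreconnected
  have h0 : (0 : Eu (Fintype.card ι * 2)) ∈ Metric.ball (0 : Eu _) 1 :=
    Metric.mem_ball_self one_pos
  have hε1 : ε = 1 := by
    have h1 := hε 0 h0
    rw [← h1, Real.sign_of_pos (top_oVf_pos hf hWf)]
  refine setIntegral_congr_fun Metric.isOpen_ball.measurableSet (fun u hu => ?_)
  show _ * _ = _
  rw [hε u hu, hε1, mul_one]
  congr 1
  have h1 : DifferentiableAt ℝ (jj f x : Eu (Fintype.card ι * 2) →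
    (E × EuclideanSpace ℝ n) × ℝ) u := (contDiffAt_jj hu).differentiableAt (by simp)
  have h2 : DifferentiableAt ℝ (kf φ R) (jj f x u) := by
    have h3 : DifferentiableAt ℝ φ x := (hφ x hx).differentiableAt (by simp)
    have h4 : DifferentiableAt ℝ (fun z : (E × EuclideanSpace ℝ n) × ℝ => φ z.1.1) (jj f x u) :=
      DifferentiableAt.comp (g := φ) (f := fun z : (E × EuclideanSpace ℝ n) × ℝ => z.1.1)
        (jj f x u) h3 (by fun_prop)
    exact h4.prodMk (by fun_prop)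
  have h3 : F.pull (jj f x) (up φ R Θ) u = F.pull (jj f x) (F.pull (kf φ R) Θ) u := by
    have h4 : up φ R Θ (jj f x u) = F.pull (kf φ R) Θ (jj f x u) :=
      if_pos (Real.sqrt_pos.2 (one_sub_pos hu))
    show pb _ (up φ R Θ (jj f x u)) = pb _ _
    rw [h4]
  rw [h3, F.pull_comp h1 h2]
  rfl

theorem top_pull_iE (q : E₁) (R : ℝ) (f : Matrix n (ι × Fin 2) ℝ)
    (a : Eu (Fintype.card ι * 2)) : top (Fintype.card ι * 2) (F.pull (iE q R f) Θ a)
      = R ^ (Fintype.card ι * 2) * top (Fintype.card ι * 2)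
        (pb ((fA f : Eu (Fintype.card ι * 2) →L[ℝ] EuclideanSpace ℝ n) :
          Eu (Fintype.card ι * 2) →ₗ[ℝ] EuclideanSpace ℝ n)
        (pb ((ContinuousLinearMap.inr ℝ E₁ (EuclideanSpace ℝ n) :
          EuclideanSpace ℝ n →L[ℝ] E₁ × EuclideanSpace ℝ n) :
          EuclideanSpace ℝ n →ₗ[ℝ] E₁ × EuclideanSpace ℝ n) (Θ (q, R • fA f a)))) := by
  rw [F.pull, (hasFDerivAt_iE q R f a).fderiv, top_pb, top_pb, evA_pb]
  have h1 : (fun i => ((((ContinuousLinearMap.inr ℝ E₁ (EuclideanSpace ℝ n)).comp (R • fA f) :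
      Eu (Fintype.card ι * 2) →L[ℝ] E₁ × EuclideanSpace ℝ n)) :
      Eu (Fintype.card ι * 2) →ₗ[ℝ] E₁ × EuclideanSpace ℝ n) (sb (Fintype.card ι * 2) i))
      = fun i => R • (((ContinuousLinearMap.inr ℝ E₁ (EuclideanSpace ℝ n) :
          EuclideanSpace ℝ n →L[ℝ] E₁ × EuclideanSpace ℝ n) :
          EuclideanSpace ℝ n →ₗ[ℝ] E₁ × EuclideanSpace ℝ n)
          (((fA f : Eu (Fintype.card ι * 2) →L[ℝ] EuclideanSpace ℝ n) :
          Eu (Fintype.card ι * 2) →ₗ[ℝ] EuclideanSpace ℝ n) (sb (Fintype.card ι * 2) i))) := by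
    funext i
    show (ContinuousLinearMap.inr ℝ E₁ (EuclideanSpace ℝ n)) (R • fA f _) = R • _
    rw [map_smul]
    rfl
  rw [h1]
  have h2 := (evA (E₁ × EuclideanSpace ℝ n) (Fintype.card ι * 2)
    (Θ (q, R • fA f a))).toMultilinearMap.map_smul_univ (fun _ => R)
    (fun i => (((ContinuousLinearMap.inr ℝ E₁ (EuclideanSpace ℝ n) :
          EuclideanSpace ℝ n →L[ℝ] E₁ × EuclideanSpace ℝ n) :
          EuclideanSpace ℝ n →ₗ[ℝ] E₁ × EuclideanSpace ℝ n)
          (((fA f : Eu (Fintype.card ι * 2) →L[ℝ] EuclideanSpace ℝ n) :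
          Eu (Fintype.card ι * 2) →ₗ[ℝ] EuclideanSpace ℝ n) (sb (Fintype.card ι * 2) i))))
  rw [Finset.prod_const, Finset.card_univ, Fintype.card_fin, smul_eq_mul] at h2
  exact h2

/-- scaling of the integral over the ball -/
theorem integral_ball_scaled {G : Eu (Fintype.card ι * 2) → ℝ} (hR : 2 * R₀ < |R|) (hR₀ : 0 ≤ R₀)
    (hG : ∀ a, R₀ < ‖a‖ → G a = 0) :
    ∫ a in Metric.ball (0 : Eu (Fintype.card ι * 2)) 1, R ^ (Fintype.card ι * 2) * G (R • a)
      = ∫ a, G a := by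
  have hRp : 0 < |R| := by linarith
  have hR0 : R ≠ 0 := abs_pos.1 hRp
  have h1 : ∫ a in Metric.ball (0 : Eu (Fintype.card ι * 2)) 1,
      R ^ (Fintype.card ι * 2) * G (R • a)
      = ∫ a : Eu (Fintype.card ι * 2), R ^ (Fintype.card ι * 2) * G (R • a) := by
    refine setIntegral_eq_integral_of_forall_compl_eq_zero fun a ha => ?_
    have h2 : 1 ≤ ‖a‖ := by
      rw [mem_ball_zero_iff] at ha
      exact not_lt.1 ha
    rw [hG, mul_zero]
    rw [norm_smul, Real.norm_eq_abs]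
    nlinarith
  rw [h1, integral_const_mul, Measure.integral_comp_smul volume G R]
  rw [finrank_euclideanSpace, Fintype.card_fin, smul_eq_mul, ← mul_assoc, abs_inv, abs_pow,
    pow_mul R, pow_mul |R|]
  have h3 : (R ^ Fintype.card ι) ^ 2 = (|R| ^ Fintype.card ι) ^ 2 := by
    rw [← abs_pow, sq_abs]
  rw [h3, mul_inv_cancel₀ (by positivity), one_mul]

end fibre

end Crest.Agent.R208.IM
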