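import Crest.Agent.R208.IM2

/-! Row 208, block IM (helper631).  IM3: the constants. -/

set_option autoImplicit false
set_option linter.unusedSectionVars false

open MeasureTheory Set Filter Topology Module Matrix
open scoped ContDiff RealInnerProductSpace
open Crest.Agent.R208.F Crest.Agent.R208.FI Crest.Agent.R208.CW Crest.Agent.R208.T
open Crest.Agent.R208.SN

noncomputable section

namespace Crest.Agent.R208.IM

section fub
variable {n ι ι' : Type*} [Fintype n] [DecidableEq n] [Fintype ι] [DecidableEq ι]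
  [Fintype ι'] [DecidableEq ι'] {P : EuclideanSpace ℝ n →L[ℝ] EuclideanSpace ℝ n}
  {f : Matrix n (ι × Fin 2) ℝ} {f' : Matrix n (ι' × Fin 2) ℝ}

theorem inner_frames (hf : fᵀ * f = 1) (hf' : f'ᵀ * f' = 1)
    (hP : ∀ v i, P v i = ∑ j, (f * fᵀ) i j * v j)
    (hP' : ∀ v i, (1 - P) v i = ∑ j, (f' * f'ᵀ) i j * v j)
    (b : Eu (Fintype.card ι' * 2)) (a : Eu (Fintype.card ι * 2)) :
    P (fA f a) = fA f a ∧ P (fA f' b) = 0 ∧ ⟪fA f' b, fA f a⟫ = 0 := by
  have h1 : P (fA f a) = fA f a := P_fA hf hP a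
  have h2 : (1 - P) (fA f' b) = fA f' b := P_fA hf' hP' b
  have h3 : P (fA f' b) = 0 := by
    have h4 : fA f' b - P (fA f' b) = fA f' b := h2
    simpa using h4
  refine ⟨h1, h3, ?_⟩
  rw [real_inner_comm, inner_fA]
  have h5 : fL f (fA f' b) = 0 := by
    have h6 : fL f (fA f (fL f (fA f' b))) = fL f (P (fA f' b)) := by rw [fA_fL hP]
    rw [fL_fA hf, h3, map_zero] at h6
    exact h6
  rw [h5, inner_zero_right]

/-- orthogonal splitting -/
def psiL (hf : fᵀ * f = 1) (hf' : f'ᵀ * f' = 1)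
    (hP : ∀ v i, P v i = ∑ j, (f * fᵀ) i j * v j)
    (hP' : ∀ v i, (1 - P) v i = ∑ j, (f' * f'ᵀ) i j * v j) :
    WithLp 2 (Eu (Fintype.card ι' * 2) × Eu (Fintype.card ι * 2)) →ₗᵢ[ℝ] EuclideanSpace ℝ n where
  toFun z := fA f' z.fst + fA f z.snd
  map_add' x y := by
    simp only [WithLp.add_fst, WithLp.add_snd, map_add]
    abel
  map_smul' c x := by
    simp only [WithLp.smul_fst, WithLp.smul_snd, map_smul, RingHom.id_apply, smul_add]
  norm_map' x := by
    show ‖fA f' x.fst + fA f x.snd‖ = ‖x‖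
    have h1 : ‖fA f' x.fst + fA f x.snd‖ ^ 2 = ‖x‖ ^ 2 := by
      rw [norm_add_sq_real, (inner_frames hf hf' hP hP' x.fst x.snd).2.2, norm_fA hf', norm_fA hf,
        WithLp.prod_norm_sq_eq_of_L2]
      ring
    exact (sq_eq_sq₀ (norm_nonneg _) (norm_nonneg _)).1 h1

theorem psiL_apply (hf : fᵀ * f = 1) (hf' : f'ᵀ * f' = 1)
    (hP : ∀ v i, P v i = ∑ j, (f * fᵀ) i j * v j)
    (hP' : ∀ v i, (1 - P) v i = ∑ j, (f' * f'ᵀ) i j * v j) (z) :
    psiL hf hf' hP hP' z = fA f' z.fst + fA f z.snd := rfl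

theorem integral_split (hf : fᵀ * f = 1) (hf' : f'ᵀ * f' = 1)
    (hP : ∀ v i, P v i = ∑ j, (f * fᵀ) i j * v j)
    (hP' : ∀ v i, (1 - P) v i = ∑ j, (f' * f'ᵀ) i j * v j)
    (hN : Fintype.card ι' * 2 + Fintype.card ι * 2 = finrank ℝ (EuclideanSpace ℝ n))
    (g' g : ℝ → ℝ) :
    ∫ k : EuclideanSpace ℝ n, g' (‖k - P k‖ ^ 2) * g (‖P k‖ ^ 2)
      = (∫ b : Eu (Fintype.card ι' * 2), g' (‖b‖ ^ 2)) *
        ∫ a : Eu (Fintype.card ι * 2), g (‖a‖ ^ 2) := by
  have hd : finrank ℝ (WithLp 2 (Eu (Fintype.card ι' * 2) × Eu (Fintype.card ι * 2)))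
      = finrank ℝ (EuclideanSpace ℝ n) := by
    rw [← hN, (WithLp.linearEquiv 2 ℝ _).finrank_eq, finrank_prod]
    simp
  let Ψ := LinearIsometryEquiv.ofSurjective (psiL hf hf' hP hP')
    ((LinearMap.injective_iff_surjective_of_finrank_eq_finrank hd).1
      (psiL hf hf' hP hP').injective)
  have h1 := Ψ.measurePreserving
  have h2 := h1.integral_comp Ψ.toHomeomorph.measurableEmbedding
    (fun k : EuclideanSpace ℝ n => g' (‖k - P k‖ ^ 2) * g (‖P k‖ ^ 2))
  rw [← h2]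
  have h3 : ∀ z : WithLp 2 (Eu (Fintype.card ι' * 2) × Eu (Fintype.card ι * 2)),
      g' (‖Ψ z - P (Ψ z)‖ ^ 2) * g (‖P (Ψ z)‖ ^ 2) = g' (‖z.fst‖ ^ 2) * g (‖z.snd‖ ^ 2) := by
    intro z
    have e1 : Ψ z = fA f' z.fst + fA f z.snd := rfl
    obtain ⟨h4, h5, -⟩ := inner_frames hf hf' hP hP' z.fst z.snd
    have e2 : P (Ψ z) = fA f z.snd := by rw [e1, map_add, h4, h5, zero_add]
    rw [e2, e1, add_sub_cancel_right, norm_fA hf', norm_fA hf]
  simp only [h3]
  have h4 := WithLp.volume_preserving_symm_measurableEquiv_toLp_prod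
    (Eu (Fintype.card ι' * 2)) (Eu (Fintype.card ι * 2))
  have h5 := h4.integral_comp (MeasurableEquiv.measurableEmbedding _)
    (fun z : Eu (Fintype.card ι' * 2) × Eu (Fintype.card ι * 2) =>
      g' (‖z.1‖ ^ 2) * g (‖z.2‖ ^ 2))
  have h6 := integral_prod_mul (μ := (volume : Measure (Eu (Fintype.card ι' * 2))))
    (ν := (volume : Measure (Eu (Fintype.card ι * 2))))
    (fun b => g' (‖b‖ ^ 2)) (fun a => g (‖a‖ ^ 2))
  rw [← h6]
  exact h5

end fub

section full
variable {n ι ι' κ : Type*} [Fintype n] [DecidableEq n] [Fintype ι] [DecidableEq ι]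
  [Fintype ι'] [DecidableEq ι'] [Fintype κ] [DecidableEq κ]
  {f : Matrix n (ι × Fin 2) ℝ} {f' : Matrix n (ι' × Fin 2) ℝ} {F₀ : Matrix n (κ × Fin 2) ℝ}

/-- the determinant of two complementary frames with respect to a full frame -/
theorem abs_top_Xi (hff : f * fᵀ + f' * f'ᵀ = 1) (hF : F₀ᵀ * F₀ = 1)
    (hN : Fintype.card ι' * 2 + Fintype.card ι * 2 = Fintype.card κ * 2) :
    |top (Fintype.card κ * 2) (pb ((fA F₀ : Eu (Fintype.card κ * 2) →L[ℝ] EuclideanSpace ℝ n) :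
      Eu (Fintype.card κ * 2) →ₗ[ℝ] EuclideanSpace ℝ n) (Xi f' * Xi f))| = 1 := by
  rw [top_pb, Xi, Xi, ExteriorAlgebra.ιMulti_mul_ιMulti, ← evA_cast hN, evA_iMulti]
  set A : Matrix (Fin (Fintype.card ι' * 2 + Fintype.card ι * 2)) n ℝ :=
    Matrix.of fun i a => F₀ a ((kFin κ).symm (Fin.cast hN i)) with hA
  set B : Matrix n (Fin (Fintype.card ι' * 2 + Fintype.card ι * 2)) ℝ :=
    Matrix.of fun a j => Fin.append (fun k => f' a ((kFin ι').symm k))
      (fun k => f a ((kFin ι).symm k)) j with hB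
  have h1 : (Matrix.of fun i j => (Fin.append (fun k => eta f' ((kFin ι').symm k))
      (fun k => eta f ((kFin ι).symm k)) j) (((fun i =>
      ((fA F₀ : Eu (Fintype.card κ * 2) →L[ℝ] EuclideanSpace ℝ n) :
      Eu (Fintype.card κ * 2) →ₗ[ℝ] EuclideanSpace ℝ n) (sb (Fintype.card κ * 2) i)) ∘
      Fin.cast hN) i)) = A * B := by
    ext i j
    rw [Matrix.of_apply, Matrix.mul_apply]
    have e1 : ∀ a, (fA F₀ (sb (Fintype.card κ * 2) (Fin.cast hN i))) a =
        F₀ a ((kFin κ).symm (Fin.cast hN i)) := by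
      intro a
      rw [fA_apply]
      simp [sb]
    refine Fin.addCases (fun j => ?_) (fun j => ?_) j
    · rw [Fin.append_left]
      show eta f' ((kFin ι').symm j) (fA F₀ (sb (Fintype.card κ * 2) (Fin.cast hN i))) = _
      rw [eta_apply]
      refine Finset.sum_congr rfl fun a _ => ?_
      rw [e1, hA, hB, Matrix.of_apply, Matrix.of_apply, Fin.append_left, mul_comm]
    · rw [Fin.append_right]
      show eta f ((kFin ι).symm j) (fA F₀ (sb (Fintype.card κ * 2) (Fin.cast hN i))) = _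
      rw [eta_apply]
      refine Finset.sum_congr rfl fun a _ => ?_
      rw [e1, hA, hB, Matrix.of_apply, Matrix.of_apply, Fin.append_right, mul_comm]
  rw [h1]
  have h2 : B * Bᵀ = 1 := by
    rw [← hff]
    ext a b
    rw [Matrix.mul_apply, Fin.sum_univ_add, Matrix.add_apply, add_comm]
    congr 1
    · rw [Matrix.mul_apply]
      simp only [hB, transpose_apply, Matrix.of_apply, Fin.append_right]
      exact (kFin ι).symm.sum_comp (fun k => f a k * f b k)
    · rw [Matrix.mul_apply]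
      simp only [hB, transpose_apply, Matrix.of_apply, Fin.append_left]
      exact (kFin ι').symm.sum_comp (fun k => f' a k * f' b k)
  have h3 : A * Aᵀ = 1 := by
    ext i j
    rw [Matrix.mul_apply, Matrix.one_apply]
    have h4 := congrFun (congrFun hF ((kFin κ).symm (Fin.cast hN i)))
      ((kFin κ).symm (Fin.cast hN j))
    rw [Matrix.mul_apply, Matrix.one_apply] at h4
    simp only [EmbeddingLike.apply_eq_iff_eq] at h4
    have h5 : (Fin.cast hN i = Fin.cast hN j) ↔ i = j := (Fin.cast_injective hN).eq_iff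
    rw [if_congr h5 rfl rfl] at h4
    rw [← h4]
    refine Finset.sum_congr rfl fun a _ => ?_
    rw [hA, transpose_apply, Matrix.of_apply, transpose_apply, Matrix.of_apply]
  have h4 : (A * B) * (A * B)ᵀ = 1 := by
    rw [transpose_mul, Matrix.mul_assoc, ← Matrix.mul_assoc B, h2, Matrix.one_mul, h3]
  have h5 := congrArg Matrix.det h4
  rw [det_mul, det_transpose, det_one] at h5
  have h6 : |(A * B).det| * |(A * B).det| = 1 := by rw [← abs_mul, h5, abs_one]
  nlinarith [abs_nonneg (A * B).det]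

variable {E₁ : Type*} [NormedAddCommGroup E₁] [NormedSpace ℝ E₁] [FiniteDimensional ℝ E₁]
  {Y : Set E₁} {P : E₁ → EuclideanSpace ℝ n →L[ℝ] EuclideanSpace ℝ n}
  {W : E₁ → (ι × Fin 2 → n) → ℝ} {W' : E₁ → (ι' × Fin 2 → n) → ℝ} {R R₀ : ℝ}

/-- the fibre integral of the product of two complementary Thom forms over a full frame -/
theorem integral_full [Nonempty ι] [Nonempty ι'] (h : OR Y P W)
    (h' : OR Y (fun y => 1 - P y) W') {y : E₁} (hy : y ∈ Y) (hF : F₀ᵀ * F₀ = 1)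
    (hκ : Fintype.card κ * 2 = Fintype.card n) (hR : 2 * 2 < |R|) :
    |∫ a in Metric.ball (0 : Eu (Fintype.card κ * 2)) 1,
      top (Fintype.card κ * 2) (F.pull (iE y R F₀)
        (thE P (thomF (fun y => 1 - P y) W') (thomF P W)) a)| = |kGG ι' * kGG ι| := by
  obtain ⟨f, hf, hPf, hWf⟩ := h.fr y hy
  obtain ⟨f', hf', hPf', hWf'⟩ := h'.fr y hy
  have hff : f * fᵀ + f' * f'ᵀ = 1 := by
    ext i j
    have e1 := hPf (EuclideanSpace.single j 1) i
    have e2 := hPf' (EuclideanSpace.single j 1) i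
    have e3 : (1 - P y) (EuclideanSpace.single j (1 : ℝ)) i
        = (EuclideanSpace.single j (1 : ℝ) : EuclideanSpace ℝ n) i
          - P y (EuclideanSpace.single j 1) i := rfl
    rw [e3, e1] at e2
    simp only [PiLp.single_apply, mul_ite, mul_one, mul_zero, Finset.sum_ite_eq',
      Finset.mem_univ, if_true] at e2
    rw [Matrix.add_apply, Matrix.one_apply, ← e2]
    ring
  have hN := finrank_frames hf hf' hff
  have hN' : Fintype.card ι' * 2 + Fintype.card ι * 2 = Fintype.card κ * 2 := by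
    rw [hN, hκ, finrank_euclideanSpace]
  set G : EuclideanSpace ℝ n → ℝ := fun k =>
    GG ι' (‖k - P y k‖ ^ 2) * GG ι (‖P y k‖ ^ 2) with hG
  set δ := top (Fintype.card κ * 2) (pb ((fA F₀ : Eu (Fintype.card κ * 2) →L[ℝ]
    EuclideanSpace ℝ n) : Eu (Fintype.card κ * 2) →ₗ[ℝ] EuclideanSpace ℝ n) (Xi f' * Xi f))
    with hδ
  have hδ1 : |δ| = 1 := abs_top_Xi hff hF hN'
  have h1 : ∀ a : Eu (Fintype.card κ * 2), top (Fintype.card κ * 2) (F.pull (iE y R F₀)
        (thE P (thomF (fun y => 1 - P y) W') (thomF P W)) a)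
      = R ^ (Fintype.card κ * 2) * (fun b => G (fA F₀ b) * δ) (R • a) := by
    intro a
    rw [top_pull_iE]
    congr 1
    have h2 : pb ((ContinuousLinearMap.inr ℝ E₁ (EuclideanSpace ℝ n) :
          EuclideanSpace ℝ n →L[ℝ] E₁ × EuclideanSpace ℝ n) :
          EuclideanSpace ℝ n →ₗ[ℝ] E₁ × EuclideanSpace ℝ n)
        (thE P (thomF (fun y => 1 - P y) W') (thomF P W) (y, R • fA F₀ a))
        = G (fA F₀ (R • a)) • (Xi f' * Xi f) := by
      rw [thE, Pi.mul_apply, _root_.map_mul, gam_eq_bet, pb_inr_pull h hy hf hPf hWf,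
        pb_inr_pull h' hy hf' hPf' hWf', smul_mul_smul_comm, map_smul (fA F₀) R a]
      rfl
    rw [h2, map_smul (pb _), map_smul (top _), smul_eq_mul]
  simp only [h1]
  have hGz : ∀ b : Eu (Fintype.card κ * 2), 2 < ‖b‖ → (fun b => G (fA F₀ b) * δ) b = 0 := by
    intro b hb
    have h2 : G (fA F₀ b) = 0 := by
      rw [← norm_fA hF] at hb
      generalize fA F₀ b = k at hb
      have h2 : ‖k‖ ≤ ‖k - P y k‖ + ‖P y k‖ := by
        have := norm_add_le (k - P y k) (P y k)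
        rwa [sub_add_cancel] at this
      rcases lt_or_ge ‖P y k‖ 1 with h3 | h3
      · have h4 : 1 ≤ ‖k - P y k‖ := by linarith
        simp only [hG]
        rw [GG_of_ge (by nlinarith), zero_mul]
      · simp only [hG]
        rw [GG_of_ge (s := ‖P y k‖ ^ 2) (by nlinarith), mul_zero]
    show G (fA F₀ b) * δ = 0
    rw [h2, zero_mul]
  rw [integral_ball_scaled hR (by norm_num) hGz, integral_mul_const, abs_mul, hδ1, mul_one]
  congr 1
  -- transport to `H`
  let L : Eu (Fintype.card κ * 2) →ₗᵢ[ℝ] EuclideanSpace ℝ n :=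
    ⟨((fA F₀ : Eu (Fintype.card κ * 2) →L[ℝ] EuclideanSpace ℝ n) :
      Eu (Fintype.card κ * 2) →ₗ[ℝ] EuclideanSpace ℝ n), fun a => norm_fA hF a⟩
  have hd : finrank ℝ (Eu (Fintype.card κ * 2)) = finrank ℝ (EuclideanSpace ℝ n) := by
    rw [finrank_euclideanSpace, finrank_euclideanSpace, Fintype.card_fin, hκ]
  let Ψ := LinearIsometryEquiv.ofSurjective L
    ((LinearMap.injective_iff_surjective_of_finrank_eq_finrank hd).1 L.injective)
  have h2 := Ψ.measurePreserving.integral_comp Ψ.toHomeomorph.measurableEmbedding G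
  have h3 : ∫ b : Eu (Fintype.card κ * 2), G (fA F₀ b) = ∫ k, G k := h2
  rw [h3]
  exact integral_split hf hf' hPf hPf' hN (fun s => GG ι' s) (fun s => GG ι s)

/-- the fibre integral of a Thom form over its own frame -/
theorem integral_thom [Nonempty ι] (h : OR Y P W) {y : E₁} (hy : y ∈ Y)
    (hf : fᵀ * f = 1) (hPf : ∀ v i, P y v i = ∑ j, (f * fᵀ) i j * v j)
    (hWf : ∀ I, W y I = (f.submatrix I id).det) (hR : 2 * 1 < |R|) :
    ∫ a in Metric.ball (0 : Eu (Fintype.card ι * 2)) 1,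
      top (Fintype.card ι * 2) (F.pull (iE y R f) (thomF P W) a) = kGG ι := by
  have h1 : ∀ a : Eu (Fintype.card ι * 2), top (Fintype.card ι * 2) (F.pull (iE y R f)
        (thomF P W) a)
      = R ^ (Fintype.card ι * 2) * (fun b => GG ι (‖b‖ ^ 2)) (R • a) := by
    intro a
    rw [top_pull_iE]
    congr 1
    have h2 : P y (R • fA f a) = R • fA f a := by rw [map_smul, P_fA hf hPf]
    have h3 := pb_thomF (W := W) (h.sP y hy) hf hPf hWf (R • fA f a)
    rw [h2] at h3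
    have h4 := congrArg (pb ((fA f : Eu (Fintype.card ι * 2) →L[ℝ] EuclideanSpace ℝ n) :
      Eu (Fintype.card ι * 2) →ₗ[ℝ] EuclideanSpace ℝ n)) h3
    rw [pb_comp, map_smul] at h4
    have h5 : (((ContinuousLinearMap.inr ℝ E₁ (EuclideanSpace ℝ n)).comp (P y) :
        EuclideanSpace ℝ n →L[ℝ] E₁ × EuclideanSpace ℝ n) :
        EuclideanSpace ℝ n →ₗ[ℝ] E₁ × EuclideanSpace ℝ n) ∘ₗ
      ((fA f : Eu (Fintype.card ι * 2) →L[ℝ] EuclideanSpace ℝ n) :
      Eu (Fintype.card ι * 2) →ₗ[ℝ] EuclideanSpace ℝ n)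
      = ((ContinuousLinearMap.inr ℝ E₁ (EuclideanSpace ℝ n) :
          EuclideanSpace ℝ n →L[ℝ] E₁ × EuclideanSpace ℝ n) :
          EuclideanSpace ℝ n →ₗ[ℝ] E₁ × EuclideanSpace ℝ n) ∘ₗ
      ((fA f : Eu (Fintype.card ι * 2) →L[ℝ] EuclideanSpace ℝ n) :
      Eu (Fintype.card ι * 2) →ₗ[ℝ] EuclideanSpace ℝ n) := by
      refine LinearMap.ext fun u => ?_
      show ((0 : E₁), P y (fA f u)) = (0, fA f u)
      rw [P_fA hf hPf]
    rw [h5, ← pb_comp] at h4
    rw [h4, map_smul, smul_eq_mul]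
    have h6 := top_Xi hf 1
    rw [one_smul, one_pow] at h6
    rw [h6, mul_one]
    show GG ι (‖R • fA f a‖ ^ 2) = GG ι (‖R • a‖ ^ 2)
    rw [norm_smul, norm_smul, norm_fA hf]
  rw [setIntegral_congr_fun Metric.isOpen_ball.measurableSet (fun a _ => h1 a)]
  refine (integral_ball_scaled (G := fun b : Eu (Fintype.card ι * 2) => GG ι (‖b‖ ^ 2)) hR
    (by norm_num) (fun a ha => ?_)).trans ?_
  · show GG ι (‖a‖ ^ 2) = 0
    rw [GG_of_ge]
    nlinarith
  · rfl

end full

end Crest.Agent.R208.IM
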