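import Crest.Agent.R208.T1b

/-! Row 208, block T (helper316).  T1: **the Thom lemma** by rotation. -/

set_option autoImplicit false
set_option linter.unusedSectionVars false

open MeasureTheory Set Filter Topology Module
open scoped ContDiff
open Crest.Agent.R208.F Crest.Agent.R208.FI Crest.Agent.R208.CW

noncomputable section

namespace Crest.Agent.R208.T

universe u w

variable {E : Type u} {H : Type w} [NormedAddCommGroup E] [NormedSpace ℝ E] [FiniteDimensional ℝ E]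
  [NormedAddCommGroup H] [InnerProductSpace ℝ H] [FiniteDimensional ℝ H]
  {X : Set E} {P : E → H →L[ℝ] H} {r d : ℕ} {R c₀ : ℝ} {e : E → Ext E}
  {τ τ' om : E × H → Ext (E × H)}

theorem pull_of_zero {F' F'' : Type*} [NormedAddCommGroup F'] [NormedSpace ℝ F']
    [NormedAddCommGroup F''] [NormedSpace ℝ F''] {f : F' → F''}
    {a : F'' → Ext F''} {z : F'} (h : a (f z) = 0) : F.pull f a z = 0 := by
  rw [F.pull, h, map_zero]

/-- `γ^* τ' · β^* τ` -/
def thE (P : E → H →L[ℝ] H) (τ' τ : E × H → Ext (E × H)) : E × H → Ext (E × H) :=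
  F.pull (gam P) τ' * F.pull (bet P) τ

def thE' (P : E → H →L[ℝ] H) (τ' om : E × H → Ext (E × H)) : E × H → Ext (E × H) :=
  F.pull (gam P) τ' * F.pull (nbet P) om

def Tht (P : E → H →L[ℝ] H) (τ' τ om : E × H → Ext (E × H)) : (E × H) × H → Ext ((E × H) × H) :=
  F.pull rho (thE P τ' τ) * F.pull Prod.fst om

theorem vt_eta (hτ' : ∀ z : E × H, R < ‖z.2‖ → τ' z = 0) (hτ : ∀ z : E × H, R < ‖z.2‖ → τ z = 0) :
    Vt (2 * R) (thE P τ' τ) := by
  intro z hz
  have h1 : ‖z.2‖ ≤ ‖z.2 - P z.1 z.2‖ + ‖P z.1 z.2‖ := by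
    have := norm_add_le (z.2 - P z.1 z.2) (P z.1 z.2)
    rwa [sub_add_cancel] at this
  rw [thE, Pi.mul_apply]
  rcases lt_or_ge R ‖z.2 - P z.1 z.2‖ with h | h
  · rw [pull_of_zero (hτ' (gam P z) h), zero_mul]
  · rw [pull_of_zero (f := bet P) (hτ (bet P z) (by change R < ‖P z.1 z.2‖; linarith)), mul_zero]

theorem vt_eta' (hτ' : ∀ z : E × H, R < ‖z.2‖ → τ' z = 0) (hω : ∀ z : E × H, R < ‖z.2‖ → om z = 0) :
    Vt (2 * R) (thE' P τ' om) := by
  intro z hz
  have h1 : ‖z.2‖ ≤ ‖z.2 - P z.1 z.2‖ + ‖P z.1 z.2‖ := by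
    have := norm_add_le (z.2 - P z.1 z.2) (P z.1 z.2)
    rwa [sub_add_cancel] at this
  rw [thE', Pi.mul_apply]
  rcases lt_or_ge R ‖z.2 - P z.1 z.2‖ with h | h
  · rw [pull_of_zero (hτ' (gam P z) h), zero_mul]
  · rw [pull_of_zero (f := nbet P) (hω (nbet P z) (by
      change R < ‖-P z.1 z.2‖; rw [norm_neg]; linarith)), mul_zero]

theorem vt_rho {a : E × H → Ext (E × H)} (h : Vt R a) : Vt R (F.pull (rho (E := E) (H := H)) a) :=
  fun z hz => pull_of_zero (h (rho z) hz)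

/-- support of the rotated form -/
theorem rot_supp (hP : PField X r P) (hτ' : ∀ z : E × H, R < ‖z.2‖ → τ' z = 0)
    (hτ : ∀ z : E × H, R < ‖z.2‖ → τ z = 0) (hω : ∀ z : E × H, R < ‖z.2‖ → om z = 0)
    {z : (E × H) × H} (hz : z ∈ Tot X P ×ˢ (univ : Set H))
    (h : 2 * R < ‖z.1.2‖ ∨ 3 * R < ‖z.2‖) (t : ℝ) : Tht P τ' τ om (rot P (z, t)) = 0 := by
  obtain ⟨⟨x, v⟩, k⟩ := z
  obtain ⟨⟨hx, hv⟩, -⟩ := hz
  change x ∈ X at hx
  change P x v = v at hv
  change 2 * R < ‖v‖ ∨ 3 * R < ‖k‖ at h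
  set c := Real.cos (Real.pi / 2 * t) with hc
  set s := Real.sin (Real.pi / 2 * t) with hs
  have hcs : c ^ 2 + s ^ 2 = 1 := Real.cos_sq_add_sin_sq _
  have hc1 : |c| ≤ 1 := Real.abs_cos_le_one _
  have hs1 : |s| ≤ 1 := Real.abs_sin_le_one _
  have hid := hP.idem x hx
  set w := rot P (((x, v), k), t) with hw
  have w1 : w.1.1 = x := rfl
  have w2 : w.1.2 = c • v - s • P x k := by
    change v + P x ((c - 1) • v - s • k) = _
    rw [map_sub, map_smul, map_smul, hv, sub_smul, one_smul]; abel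
  have w3 : w.2 = k - P x k + (s • v + c • P x k) := by
    change k + P x (s • v + (c - 1) • k) = _
    rw [map_add, map_smul, map_smul, hv, sub_smul, one_smul]; abel
  have w4 : P x w.2 = s • v + c • P x k := by
    rw [w3, map_add, map_sub, hid, sub_self, zero_add, map_add, map_smul, map_smul, hv, hid]
  have w5 : w.2 - P x w.2 = k - P x k := by rw [w4, w3]; abel
  have k1 : v = c • w.1.2 + s • P x w.2 := by
    rw [w2, w4, smul_sub, smul_add, smul_smul, smul_smul, smul_smul, smul_smul]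
    have : (c * c) • v + (s * s) • v = v := by
      rw [← add_smul, show c * c + s * s = 1 by nlinarith, one_smul]
    rw [mul_comm c s]
    nth_rewrite 1 [← this]
    abel
  have k2 : P x k = -(s • w.1.2) + c • P x w.2 := by
    rw [w2, w4, smul_sub, smul_add, smul_smul, smul_smul, smul_smul, smul_smul]
    have : (s * s) • P x k + (c * c) • P x k = P x k := by
      rw [← add_smul, show s * s + c * c = 1 by nlinarith, one_smul]
    rw [mul_comm s c]
    nth_rewrite 1 [← this]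
    abel
  rcases lt_or_ge R ‖w.1.2‖ with a1 | a1
  · rw [Tht, Pi.mul_apply, pull_of_zero (f := Prod.fst) (hω w.1 a1), mul_zero]
  rcases lt_or_ge R ‖w.2 - P x w.2‖ with a2 | a2
  · have : thE P τ' τ (rho w) = 0 := by
      rw [thE, Pi.mul_apply, pull_of_zero (hτ' (gam P (rho w)) a2), zero_mul]
    rw [Tht, Pi.mul_apply, pull_of_zero this, zero_mul]
  rcases lt_or_ge R ‖P x w.2‖ with a3 | a3
  · have : thE P τ' τ (rho w) = 0 := by
      rw [thE, Pi.mul_apply, pull_of_zero (f := bet P) (hτ (bet P (rho w)) a3), mul_zero]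
    rw [Tht, Pi.mul_apply, pull_of_zero this, zero_mul]
  exfalso
  have b1 : ‖v‖ ≤ 2 * R := by
    rw [k1]
    refine (norm_add_le _ _).trans ?_
    rw [norm_smul, norm_smul, Real.norm_eq_abs, Real.norm_eq_abs]
    have e1 : |c| * ‖w.1.2‖ ≤ 1 * R := mul_le_mul hc1 a1 (norm_nonneg _) zero_le_one
    have e2 : |s| * ‖P x w.2‖ ≤ 1 * R := mul_le_mul hs1 a3 (norm_nonneg _) zero_le_one
    linarith
  have b2 : ‖P x k‖ ≤ 2 * R := by
    rw [k2]
    refine (norm_add_le _ _).trans ?_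
    rw [norm_neg, norm_smul, norm_smul, Real.norm_eq_abs, Real.norm_eq_abs]
    have e1 : |s| * ‖w.1.2‖ ≤ 1 * R := mul_le_mul hs1 a1 (norm_nonneg _) zero_le_one
    have e2 : |c| * ‖P x w.2‖ ≤ 1 * R := mul_le_mul hc1 a3 (norm_nonneg _) zero_le_one
    linarith
  have b3 : ‖k‖ ≤ 3 * R := by
    have e1 : k = (k - P x k) + P x k := by abel
    rw [e1]
    refine (norm_add_le _ _).trans ?_
    rw [← w5]
    linarith
  rcases h with h | h <;> linarith

/-- `hop` of a form vanishing along the path -/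
theorem Hop_eq_zero {G G' : Type*} [NormedAddCommGroup G] [NormedSpace ℝ G]
    [FiniteDimensional ℝ G] [NormedAddCommGroup G'] [NormedSpace ℝ G'] [FiniteDimensional ℝ G']
    {Fh : G × ℝ → G'} {a : G' → Ext G'} {z : G} (h : ∀ t, a (Fh (z, t)) = 0) : Hop Fh a z = 0 := by
  have h1 : Hop Fh a z = ∫ t in (0 : ℝ)..1, hopL (ContinuousLinearMap.inl ℝ G ℝ) ((0, 1) : G × ℝ)
    (F.pull Fh a (jv (ContinuousLinearMap.inl ℝ G ℝ) ((0, 1) : G × ℝ) (z, t))) := rfl
  rw [h1]
  have h2 : ∀ t : ℝ, hopL (ContinuousLinearMap.inl ℝ G ℝ) ((0, 1) : G × ℝ)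
    (F.pull Fh a (jv (ContinuousLinearMap.inl ℝ G ℝ) ((0, 1) : G × ℝ) (z, t))) = 0 := by
    intro t
    rw [jv_inl, pull_of_zero (h t), map_zero]
  simp only [h2, intervalIntegral.integral_zero]

/-! ### the lemma -/

theorem sm_eta (hP : PField X r P) (hτ' : Sm (Tot X (fun x => 1 - P x)) τ') (hτ : Sm (Tot X P) τ) :
    Sm (X ×ˢ (univ : Set H)) (thE P τ' τ) := (hτ'.pull (smap_gam hP)).mul (hτ.pull (smap_bet hP))

theorem cl_eta (hP : PField X r P) (hτ' : Sm (Tot X (fun x => 1 - P x)) τ') (hτ : Sm (Tot X P) τ)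
    (cτ' : Cl (Tot X (fun x => 1 - P x)) τ') (cτ : Cl (Tot X P) τ) :
    Cl (X ×ˢ (univ : Set H)) (thE P τ' τ) :=
  Cl.mul (hτ'.pull (smap_gam hP)) (hτ.pull (smap_bet hP)) (cτ'.pull (smap_gam hP) hτ')
    (cτ.pull (smap_bet hP) hτ)

theorem sm_eta' (hP : PField X r P) (hτ' : Sm (Tot X (fun x => 1 - P x)) τ')
    (hω : Sm (Tot X P) om) : Sm (X ×ˢ (univ : Set H)) (thE' P τ' om) :=
  (hτ'.pull (smap_gam hP)).mul (hω.pull (smap_nbet hP))

theorem cl_eta' (hP : PField X r P) (hτ' : Sm (Tot X (fun x => 1 - P x)) τ')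
    (hω : Sm (Tot X P) om) (cτ' : Cl (Tot X (fun x => 1 - P x)) τ') (cω : Cl (Tot X P) om) :
    Cl (X ×ˢ (univ : Set H)) (thE' P τ' om) :=
  Cl.mul (hτ'.pull (smap_gam hP)) (hω.pull (smap_nbet hP)) (cτ'.pull (smap_gam hP) hτ')
    (cω.pull (smap_nbet hP) hω)

theorem smap_rot1 (hP : PField X r P) : SMap (Tot X P ×ˢ (univ : Set H)) (Tot X P ×ˢ (univ : Set H))
    (fun z => rot P (z, 1)) :=
  ⟨fun z hz => (contDiffAt_rot (p := (z, 1)) hP hz.1.1).comp z
    (contDiffAt_id.prodMk contDiffAt_const), fun z hz => rot_mem hP hz 1⟩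

/-- pull back by a composition, up to restriction -/
theorem eqv_pull_pull {E₁ E₂ E₃ : Type*} [NormedAddCommGroup E₁] [NormedSpace ℝ E₁]
    [FiniteDimensional ℝ E₁] [NormedAddCommGroup E₂] [NormedSpace ℝ E₂] [FiniteDimensional ℝ E₂]
    [NormedAddCommGroup E₃] [NormedSpace ℝ E₃] [FiniteDimensional ℝ E₃] {X₁ : Set E₁} {X₂ : Set E₂}
    {X₃ : Set E₃} {f : E₁ → E₂} {g : E₂ → E₃} {k : E₁ → E₃} (hf : SMap X₁ X₂ f) (hg : SMap X₂ X₃ g)
    (hk : SMap X₁ X₃ k) (h : ∀ x ∈ X₁, g (f x) = k x) (w : E₃ → Ext E₃) :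
    Eqv X₁ (F.pull f (F.pull g w)) (F.pull k w) :=
  (Eqv.of_eq fun x hx => F.pull_comp (hf.diff hx) (hg.diff (hf.maps hx))).trans
    (eqv_pull_of_eq w (fun x hx => (hg.comp hf).diff hx) (fun x hx => hk.diff hx) h)

theorem rot1_eqv (hP : PField X r P) (hev : ∀ z, F.inv (τ z) = τ z) :
    Eqv (Tot X P ×ˢ (univ : Set H)) (F.pull (fun z => rot P (z, 1)) (Tht P τ' τ om))
      (F.pull rho (thE' P τ' om) * F.pull Prod.fst τ) := by
  have hr := smap_rot1 hP
  have hrho := smap_rho (X := X) (P := P)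
  have hfst := smap_fst (X := X) (P := P)
  have hid := hP.idem
  have e1 : Eqv (Tot X P ×ˢ (univ : Set H))
      (F.pull (fun z => rot P (z, 1)) (F.pull rho (F.pull (gam P) τ')))
      (F.pull rho (F.pull (gam P) τ')) := by
    refine (Eqv.pull hr (eqv_pull_pull hrho (smap_gam hP) ((smap_gam hP).comp hrho)
      (fun _ _ => rfl) τ')).trans ?_
    refine (eqv_pull_pull hr ((smap_gam hP).comp hrho) ((smap_gam hP).comp hrho) ?_ τ').trans
      (eqv_pull_pull hrho (smap_gam hP) ((smap_gam hP).comp hrho) (fun _ _ => rfl) τ').symm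
    rintro ⟨⟨x, v⟩, k⟩ ⟨⟨hx, hv⟩, -⟩
    change P x v = v at hv
    simp only [rot_one, rho, gam]
    refine Prod.ext rfl ?_
    change k + P x (v - k) - P x (k + P x (v - k)) = k - P x k
    rw [map_add, hid x hx]
    abel
  have e2 : Eqv (Tot X P ×ˢ (univ : Set H))
      (F.pull (fun z => rot P (z, 1)) (F.pull rho (F.pull (bet P) τ))) (F.pull Prod.fst τ) := by
    refine (Eqv.pull hr (eqv_pull_pull hrho (smap_bet hP) ((smap_bet hP).comp hrho)
      (fun _ _ => rfl) τ)).trans ?_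
    refine eqv_pull_pull hr ((smap_bet hP).comp hrho) hfst ?_ τ
    rintro ⟨⟨x, v⟩, k⟩ ⟨⟨hx, hv⟩, -⟩
    change P x v = v at hv
    simp only [rot_one, rho, bet]
    refine Prod.ext rfl ?_
    change P x (k + P x (v - k)) = v
    rw [map_add, hid x hx, map_sub, hv]
    abel
  have e3 : Eqv (Tot X P ×ˢ (univ : Set H))
      (F.pull (fun z => rot P (z, 1)) (F.pull Prod.fst om)) (F.pull rho (F.pull (nbet P) om)) := by
    refine (eqv_pull_pull hr hfst ((smap_nbet hP).comp hrho) ?_ om).trans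
      (eqv_pull_pull hrho (smap_nbet hP) ((smap_nbet hP).comp hrho) (fun _ _ => rfl) om).symm
    rintro ⟨⟨x, v⟩, k⟩ ⟨⟨hx, hv⟩, -⟩
    change P x v = v at hv
    simp only [rot_one, rho, nbet]
    refine Prod.ext rfl ?_
    change v + P x (-v - k) = -P x k
    rw [map_sub, map_neg, hv]
    abel
  have e4 : F.pull (fun z => rot P (z, 1)) (Tht P τ' τ om) =
      (F.pull (fun z => rot P (z, 1)) (F.pull rho (F.pull (gam P) τ')) *
        F.pull (fun z => rot P (z, 1)) (F.pull rho (F.pull (bet P) τ))) *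
        F.pull (fun z => rot P (z, 1)) (F.pull Prod.fst om) := by
    rw [Tht, thE, pull_mul', pull_mul', pull_mul']
  rw [e4]
  refine ((e1.mul e2).mul e3).trans (Eqv.of_eq fun z _ => ?_)
  have hc : F.inv (F.pull (Prod.fst : (E × H) × H → E × H) τ z) = F.pull Prod.fst τ z := by
    rw [F.pull, ← pb_inv, hev]
  rw [thE', pull_mul']
  simp only [Pi.mul_apply]
  rw [mul_assoc, even_mul_comm hc, ← mul_assoc]

set_option maxHeartbeats 1000000 in
/-- **THE THOM LEMMA** (rotation). -/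
theorem thom [MeasurableSpace H] [BorelSpace H] (μ : Measure H) [μ.IsAddHaarMeasure]
    (hX : Sub d X) (hP : PField X r P) (hT : ThomPair μ X P r R c₀ e τ τ') (hR : 0 ≤ R)
    (hω : CSF X P R om) :
    Sm X (pI μ (thE' P τ' om)) ∧ Cl X (pI μ (thE' P τ' om)) ∧
      ∃ L : E × H → Ext (E × H), Sm (Tot X P) L ∧ (∀ z, 2 * R + 1 < ‖z.2‖ → L z = 0) ∧
        Eqv (Tot X P) (c₀ • om - F.pull Prod.fst (pI μ (thE' P τ' om)) * τ) (F.d L) := by
  set N := finrank ℝ H with hN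
  set c' := pI μ (thE' P τ' om) with hc'
  have hsub : Sub (d + r) (Tot X P) := hP.sub_tot hX
  have hsubH : Sub N (univ : Set H) := sub_open rfl isOpen_univ
  have hY : Sub (d + r + N) (Tot X P ×ˢ (univ : Set H)) := hsub.prod hsubH
  have hXH : Sub (d + N) (X ×ˢ (univ : Set H)) := hX.prod hsubH
  have v1 : Vt (2 * R) (thE P τ' τ) := vt_eta hT.csf'.supp hT.csf.supp
  have v2 : Vt (2 * R) (thE' P τ' om) := vt_eta' hT.csf'.supp hω.supp
  have s1 := sm_eta hP hT.csf'.smooth hT.csf.smooth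
  have s2 := sm_eta' hP hT.csf'.smooth hω.smooth
  have sc' : Sm X c' := sm_pI μ v2 s2
  have cc' : Cl X c' := by
    intro x hx
    have h1 := resZero_pI μ v2.d s2.d (cl_eta' hP hT.csf'.smooth hω.smooth hT.csf'.closed
      hω.closed) x hx
    rw [d_pI μ v2 s2 hx, map_smul] at h1
    exact (smul_eq_zero.1 h1).resolve_left (pow_ne_zero _ (by norm_num))
  refine ⟨sc', cc', ?_⟩
  -- the rotated form
  set Th := Tht P τ' τ om with hTh
  set T2 := F.pull rho (thE' P τ' om) * F.pull (Prod.fst : (E × H) × H → E × H) τ with hT2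
  have sTh : Sm (Tot X P ×ˢ (univ : Set H)) Th :=
    (s1.pull smap_rho).mul (hω.smooth.pull smap_fst)
  have cTh : Cl (Tot X P ×ˢ (univ : Set H)) Th :=
    Cl.mul (s1.pull smap_rho) (hω.smooth.pull smap_fst)
      ((cl_eta hP hT.csf'.smooth hT.csf.smooth hT.csf'.closed hT.csf.closed).pull smap_rho s1)
      (hω.closed.pull smap_fst hω.smooth)
  have sT2 : Sm (Tot X P ×ˢ (univ : Set H)) T2 :=
    (s2.pull smap_rho).mul (hT.csf.smooth.pull smap_fst)
  have vTh : Vt (2 * R) Th := (vt_rho v1).mul_right _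
  have vT2 : Vt (2 * R) T2 := (vt_rho v2).mul_right _
  -- the homotopy
  set K := Hop (rot P) Th with hK
  have sK : Sm (Tot X P ×ˢ (univ : Set H)) K := fun z hz =>
    contDiffAt_Hop (fun t _ => contDiffAt_rot (p := (z, t)) hP hz.1.1)
      (fun t _ => sTh _ (rot_mem hP hz t))
  have k1 : Eqv (Tot X P ×ˢ (univ : Set H)) (F.pull (fun z => rot P (z, 1)) Th -
      F.pull (fun z => rot P (z, 0)) Th) (F.d K) :=
    resZero_Hop (fun z hz t _ => (contDiffAt_rot (p := (z, t)) hP hz.1.1).of_le two_le)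
      (fun z hz t _ => rot_mem hP hz t)
      (fun z hz => (sTh z hz).of_le (by exact_mod_cast le_top)) cTh
  have k2 : F.pull (fun z => rot P (z, 0)) Th = Th := by
    have : (fun z => rot P (z, 0)) = fun z => z := funext fun z => rot_zero P z
    rw [this]
    exact funext fun z => F.pull_id Th z
  have k3 := rot1_eqv (τ' := τ') (om := om) hP hT.even
  rw [k2] at k1
  have k4 : Eqv (Tot X P ×ˢ (univ : Set H)) (F.d K) (T2 - Th) :=
    k1.symm.trans (k3.sub (Eqv.refl Th))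
  have k5 : ∀ z ∈ Tot X P ×ˢ (univ : Set H), (2 * R < ‖z.1.2‖ ∨ 3 * R < ‖z.2‖) → K z = 0 :=
    fun z hz h => Hop_eq_zero fun t => rot_supp hP hT.csf'.supp hT.csf.supp hω.supp hz h t
  have h3R : 0 ≤ 3 * R := by linarith
  set Kc := cutH (3 * R) K with hKc
  have sKc : Sm (Tot X P ×ˢ (univ : Set H)) Kc := sK.cutH
  have k6 : Eqv (Tot X P ×ˢ (univ : Set H)) Kc K := eqv_cutH h3R fun z hz h => k5 z hz (Or.inr h)
  have k7 : Eqv (Tot X P ×ˢ (univ : Set H)) (F.d Kc) (T2 - Th) := (k6.d hY sKc sK).trans k4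
  have vKc : Vt (3 * R + 1) Kc := Vt.cutH h3R
  have hle : 2 * R ≤ 3 * R + 1 := by linarith
  have k8 := eqv_pI μ vKc.d sKc.d ((vT2.sub vTh).mono hle) (sT2.sub sTh) k7
  -- evaluation of the integrals
  have i1 : ∀ z ∈ Tot X P, pI μ (F.d Kc) z = (-1 : ℝ) ^ N • F.d (pI μ Kc) z := fun z hz =>
    d_pI μ vKc sKc hz
  have i2 : ∀ z ∈ Tot X P, pI μ (T2 - Th) z = pI μ T2 z - pI μ Th z := fun z hz =>
    pI_sub μ vT2 sT2 vTh sTh hz
  have i3 : ∀ z ∈ Tot X P, pI μ T2 z = F.pull Prod.fst c' z * τ z := fun z hz => by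
    rw [hT2, pI_mul_fst μ (vt_rho v2) (s2.pull smap_rho) hz]
    congr 1
    exact pI_pull μ (f := (Prod.fst : E × H → E)) (y := z) differentiableAt_fst v2
      (fun h => (s2 (z.1, h) ⟨hz.1, mem_univ _⟩).continuousAt)
  have i4 : ∀ z ∈ Tot X P, pI μ Th z = F.pull Prod.fst (pI μ (thE P τ' τ)) z * om z :=
    fun z hz => by
    rw [hTh, Tht, pI_mul_fst μ (vt_rho v1) (s1.pull smap_rho) hz]
    congr 1
    exact pI_pull μ (f := (Prod.fst : E × H → E)) (y := z) differentiableAt_fst v1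
      (fun h => (s1 (z.1, h) ⟨hz.1, mem_univ _⟩).continuousAt)
  have i5 : Eqv (Tot X P) (F.pull Prod.fst (pI μ (thE P τ' τ)) * om) (c₀ • om) := by
    have h1 := (Eqv.pull (smap_fst' (X := X) (P := P)) hT.unit).mul (Eqv.refl om)
    refine h1.trans (Eqv.of_eq fun z _ => ?_)
    simp only [Pi.mul_apply, F.pull, AlgHom.commutes, Pi.smul_apply, Algebra.smul_def]
  -- conclusion
  set L0 := pI μ Kc with hL0
  have sL0 : Sm (Tot X P) L0 := sm_pI μ vKc sKc
  have j1 : Eqv (Tot X P) ((-1 : ℝ) ^ N • F.d L0) (F.pull Prod.fst c' * τ - c₀ • om) := by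
    refine (Eqv.of_eq fun z hz => (i1 z hz).symm).trans (k8.trans ?_)
    refine (Eqv.of_eq (b := F.pull Prod.fst c' * τ - F.pull Prod.fst (pI μ (thE P τ' τ)) * om)
      fun z hz => ?_).trans ((Eqv.refl _).sub i5)
    rw [i2 z hz, i3 z hz, i4 z hz]; rfl
  have l0 : ∀ z ∈ Tot X P, 2 * R < ‖z.2‖ → L0 z = 0 := by
    intro z hz h
    rw [hL0, pI_eq]
    have h2 : ∀ h' : H, Kc (z, h') = 0 := fun h' => by
      have h3 : K (z, h') = 0 := k5 (z, h') ⟨hz, mem_univ _⟩ (Or.inl h)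
      exact (congrArg (fun c => chi (3 * R) h' • c) h3).trans (smul_zero _)
    refine (integral_congr_ae (g := fun _ : H => (0 : Ext (E × H)))
      (Eventually.of_forall fun h' => ?_)).trans (integral_zero _ _)
    exact (congrArg _ (h2 h')).trans (map_zero _)
  have h2R : 0 ≤ 2 * R := by linarith
  refine ⟨(-((-1 : ℝ) ^ N)) • cutH (2 * R) L0, (sL0.cutH).smul _, (Vt.cutH h2R).smul _, ?_⟩
  have j2 : Eqv (Tot X P) (cutH (2 * R) L0) L0 := eqv_cutH h2R l0
  have j3 := j2.d hsub sL0.cutH sL0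
  have j4 : Eqv (Tot X P) (F.d ((-((-1 : ℝ) ^ N)) • cutH (2 * R) L0))
      ((-((-1 : ℝ) ^ N)) • F.d L0) :=
    (d_smul_eqv _ sL0.cutH).trans (j3.smul _)
  refine (j4.trans ?_).symm
  have j5 := j1.neg
  rw [neg_sub] at j5
  rw [neg_smul]
  exact j5

end Crest.Agent.R208.T
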