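import Crest.Agent.R208.IM1
import Crest.Agent.R208.T1
import Crest.Agent.R208.THB3

/-! Row 208, block IM (helper631).  IM4: the Thom form of `P`, times that of `1 - P`, is
compactly supported cohomologous to its value over one point. -/

set_option autoImplicit false
set_option linter.unusedSectionVars false

open MeasureTheory Set Filter Topology Module
open scoped ContDiff
open Crest.Agent.R208.F Crest.Agent.R208.FI Crest.Agent.R208.CW Crest.Agent.R208.T

noncomputable section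

namespace Crest.Agent.R208.IM

universe u w

variable {E : Type u} {H : Type w} [NormedAddCommGroup E] [NormedSpace ℝ E] [FiniteDimensional ℝ E]
  [NormedAddCommGroup H] [InnerProductSpace ℝ H] [FiniteDimensional ℝ H]
  {Y : Set E} {P : E → H →L[ℝ] H} {r d : ℕ} {R c₀ : ℝ} {e : E → Ext E}
  {τ τ' : E × H → Ext (E × H)}

/-- `(y, h) ↦ (y, -h)` -/
def nu (z : E × H) : E × H := (z.1, -z.2)

/-- `(y, h) ↦ (y₀, h)` -/
def cpt (y₀ : E) (z : E × H) : E × H := (y₀, z.2)

/-- the trivial field -/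
def P1 (E : Type u) (H : Type w) [NormedAddCommGroup E] [NormedSpace ℝ E]
    [NormedAddCommGroup H] [InnerProductSpace ℝ H] : E → H →L[ℝ] H := fun _ => 1

theorem pfield_P1 (Y : Set E) : PField Y (finrank ℝ H) (P1 E H) :=
  ⟨fun _ _ => contDiffAt_const, fun _ _ _ => rfl, fun x _ => by
    have : ((P1 E H x : H →L[ℝ] H) : H →ₗ[ℝ] H) = LinearMap.id := rfl
    rw [this, LinearMap.range_id, finrank_top]⟩

theorem tot_P1 (Y : Set E) : Tot Y (P1 E H) = Y ×ˢ (univ : Set H) := by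
  ext z
  exact ⟨fun h => ⟨h.1, trivial⟩, fun h => ⟨h.1, rfl⟩⟩

theorem smap_nu (Y : Set E) : SMap (Y ×ˢ (univ : Set H)) (Y ×ˢ (univ : Set H)) nu :=
  ⟨fun z _ => by unfold nu; fun_prop, fun z hz => ⟨hz.1, trivial⟩⟩

theorem smap_cpt {Z : Set (E × H)} {y₀ : E} (h : y₀ ∈ Y) : SMap Z (Y ×ˢ (univ : Set H)) (cpt y₀) :=
  ⟨fun z _ => by unfold cpt; fun_prop, fun z _ => ⟨h, trivial⟩⟩

/-- cut off function on the zero bundle -/
def tz (z : E × H) : Ext (E × H) := algebraMap ℝ (Ext (E × H)) (chi 1 z.2)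

theorem csf_tz (hR : 2 ≤ R) : CSF Y (fun x => 1 - P1 E H x) R (tz (E := E) (H := H)) where
  smooth z _ := by
    have h1 : ContDiff ℝ ∞ fun z : E × H => chi (H := H) 1 z.2 :=
      (contDiff_chi (H := H) 1).comp contDiff_snd
    have h2 : ContDiff ℝ ∞ fun z : E × H => chi (H := H) 1 z.2 • (1 : Ext (E × H)) :=
      ContDiff.smul (g := fun _ : E × H => (1 : Ext (E × H))) h1 contDiff_const
    have h3 : (tz : E × H → Ext (E × H)) = fun z => chi (H := H) 1 z.2 • (1 : Ext (E × H)) := by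
      funext z
      exact Algebra.algebraMap_eq_smul_one _
    rw [h3]
    exact h2.contDiffAt
  supp z hz := by
    unfold tz
    rw [chi_zero zero_le_one (by linarith), map_zero]
  closed := by
    rintro ⟨y, h⟩ hz
    have h0 : (0 : H) = h := by
      have : (1 - P1 E H y) h = h := hz.2
      have h1 : (1 - P1 E H y) h = 0 := sub_self _
      rw [← this, h1]
    subst h0
    have h1 : tz =ᶠ[𝓝 ((y, 0) : E × H)] fun _ => algebraMap ℝ (Ext (E × H)) 1 := by
      have ho : IsOpen {z : E × H | ‖z.2‖ < 1} := isOpen_lt (by fun_prop) continuous_const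
      filter_upwards [ho.mem_nhds (show ‖(0 : H)‖ < 1 by simp)] with z hz
      unfold tz
      rw [chi_one zero_le_one (le_of_lt hz)]
    rw [F.d_congr h1, F.d_const, map_zero]

theorem thE_P1 (a : E × H → Ext (E × H)) : thE (P1 E H) tz a = a := by
  funext z
  have h1 : F.pull (gam (P1 E H)) tz z = 1 := by
    rw [F.pull]
    have : tz (gam (P1 E H) z) = (1 : Ext (E × H)) := by
      show algebraMap ℝ (Ext (E × H)) (chi 1 (z.2 - z.2)) = 1
      rw [sub_self, chi_one zero_le_one (by simp), map_one]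
    rw [this, map_one]
  have h2 : F.pull (bet (P1 E H)) a z = a z := F.pull_id a z
  rw [thE, Pi.mul_apply, h1, h2, one_mul]

theorem thE'_P1 (a : E × H → Ext (E × H)) : thE' (P1 E H) tz (F.pull nu a) = a := by
  funext z
  have h1 : F.pull (gam (P1 E H)) tz z = 1 := by
    rw [F.pull]
    have : tz (gam (P1 E H) z) = (1 : Ext (E × H)) := by
      show algebraMap ℝ (Ext (E × H)) (chi 1 (z.2 - z.2)) = 1
      rw [sub_self, chi_one zero_le_one (by simp), map_one]
    rw [this, map_one]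
  have h2 : F.pull (nbet (P1 E H)) (F.pull nu a) z = a z := by
    have e1 : nbet (P1 E H) = nu := rfl
    rw [e1, F.pull_comp (by unfold nu; fun_prop) (by unfold nu; fun_prop)]
    have e2 : (nu : E × H → E × H) ∘ nu = fun z => z := by
      funext z
      show (z.1, - -z.2) = z
      rw [neg_neg]
    rw [e2, F.pull_id]
  rw [thE', Pi.mul_apply, h1, h2, one_mul]

variable [MeasurableSpace H] [BorelSpace H] (μ : Measure H) [μ.IsAddHaarMeasure]

theorem exists_L (hY : Sub d Y) (hP : PField Y r P) (hr : r ≤ finrank ℝ H)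
    (hT : ThomPair μ Y P r R c₀ e τ τ')
    (hR : 1 ≤ R) (hev : ∀ z, F.inv (τ' z) = τ' z) {y₀ : E} (hy₀ : y₀ ∈ Y) :
    ∃ L : E × H → Ext (E × H), Sm (Y ×ˢ (univ : Set H)) L ∧
      (∀ z, 2 * (2 * R) + 1 < ‖z.2‖ → L z = 0) ∧
      Eqv (Y ×ˢ (univ : Set H))
        (c₀ • (F.pull nu (thE P τ' τ) - F.pull (cpt y₀) (thE P τ' τ))) (F.d L) := by
  set Ξ := thE P τ' τ with hΞ
  have v1 : Vt (2 * R) Ξ := vt_eta hT.csf'.supp hT.csf.supp
  have s1 : Sm (Y ×ˢ (univ : Set H)) Ξ := sm_eta hP hT.csf'.smooth hT.csf.smooth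
  have c1 : Cl (Y ×ˢ (univ : Set H)) Ξ := cl_eta hP hT.csf'.smooth hT.csf.smooth hT.csf'.closed
    hT.csf.closed
  have hc := smap_cpt (Y := Y) (Z := Y ×ˢ (univ : Set H)) hy₀
  set τ₀ := F.pull (cpt y₀) Ξ with hτ₀
  have sτ : Sm (Y ×ˢ (univ : Set H)) τ₀ := s1.pull hc
  have cτ : Cl (Y ×ˢ (univ : Set H)) τ₀ := c1.pull hc s1
  have vτ : Vt (2 * R) τ₀ := fun z hz => pull_of_zero (v1 (cpt y₀ z) hz)
  have hev1 : ∀ z, F.inv (Ξ z) = Ξ z := by
    intro z
    show F.inv (F.pull (gam P) τ' z * F.pull (bet P) τ z) = F.pull (gam P) τ' z * F.pull (bet P) τ z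
    rw [map_mul, F.pull, F.pull, ← pb_inv, ← pb_inv, hev, hT.even]
  have hdeg : ∀ z, IsDeg (finrank ℝ H) (Ξ z) := by
    intro z
    have h1 : IsDeg ((finrank ℝ H - r) + r) (Ξ z) := isDeg_mul ((hT.deg' _).pb _) ((hT.deg _).pb _)
    rwa [Nat.sub_add_cancel hr] at h1
  have hu : Eqv Y (pI μ Ξ) (fun _ => algebraMap ℝ (Ext E) c₀) := hT.unit
  have hu0 : Eqv Y (pI μ τ₀) (fun _ => algebraMap ℝ (Ext E) c₀) := by
    have h1 : SMap Y Y (fun _ : E => y₀) := ⟨fun _ _ => contDiffAt_const, fun _ _ => hy₀⟩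
    have h2 := hu.pull h1
    refine (Eqv.of_eq fun y hy => ?_).trans (h2.trans (Eqv.of_eq fun y hy => ?_))
    · exact pI_pull μ (f := fun _ : E => y₀) (y := y) (differentiableAt_const _) v1
        (fun h => (s1 (y₀, h) ⟨hy₀, mem_univ _⟩).continuousAt)
    · rw [F.pull, AlgHom.commutes]
  have hT1 : ThomPair μ Y (P1 E H) (finrank ℝ H) (2 * R) c₀ (F.pull (fun x => ((x, 0) : E × H)) τ₀)
      τ₀ tz := by
    refine ⟨⟨?_, vτ, ?_⟩, csf_tz (by linarith), fun z => ?_, fun z => (hdeg _).pb _, fun z => ?_,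
      ?_, hT.ne, Eqv.refl _⟩
    · rw [tot_P1]; exact sτ
    · rw [tot_P1]; exact cτ
    · show F.inv (pb _ (Ξ _)) = pb _ (Ξ _)
      rw [← pb_inv, hev1]
    · rw [Nat.sub_self]
      exact isDeg_algebraMap _
    · have h1 : F.pull (gam (P1 E H)) tz * F.pull (bet (P1 E H)) τ₀ = τ₀ := thE_P1 τ₀
      rw [h1]
      exact hu0
  have hω : CSF Y (P1 E H) (2 * R) (F.pull nu Ξ) := by
    refine ⟨?_, fun z hz => pull_of_zero (v1 (nu z) (by
      show 2 * R < ‖-z.2‖
      rwa [norm_neg])), ?_⟩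
    · rw [tot_P1]; exact s1.pull (smap_nu Y)
    · rw [tot_P1]; exact c1.pull (smap_nu Y) s1
  obtain ⟨-, -, L, hL1, hL2, hL3⟩ := thom μ hY (pfield_P1 Y) hT1 (by linarith) hω
  rw [thE'_P1, tot_P1] at hL3
  rw [tot_P1] at hL1
  refine ⟨L, hL1, hL2, ?_⟩
  have h1 : SMap (Y ×ˢ (univ : Set H)) Y (Prod.fst : E × H → E) :=
    ⟨fun z _ => contDiffAt_fst, fun z hz => hz.1⟩
  have h2 : Eqv (Y ×ˢ (univ : Set H)) (F.pull Prod.fst (pI μ Ξ) * τ₀) (c₀ • τ₀) := by
    refine ((hu.pull h1).mul (Eqv.refl τ₀)).trans (Eqv.of_eq fun z _ => ?_)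
    simp only [Pi.mul_apply, F.pull, AlgHom.commutes, Pi.smul_apply, Algebra.smul_def]
  have h3 := ((Eqv.refl (c₀ • F.pull nu Ξ)).sub h2).symm.trans hL3
  rw [smul_sub]
  exact h3

end Crest.Agent.R208.IM
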