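import Crest.Agent.R208.IM3
import Crest.Agent.R208.IM4
import Crest.Agent.R208.CH2

/-! Row 208, block IM (helper631).  IM5: thinness on the sphere bundle, Stokes. -/

set_option autoImplicit false
set_option linter.unusedSectionVars false

open MeasureTheory Set Filter Topology Module Matrix
open scoped ContDiff RealInnerProductSpace
open Crest.Agent.R208.F Crest.Agent.R208.FI Crest.Agent.R208.CW Crest.Agent.R208.T
open Crest.Agent.R208.SN Crest.Agent.R208.CH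

noncomputable section

namespace Crest.Agent.R208.IM

section thin
variable {E E₁ E₂ H F' : Type*} [NormedAddCommGroup E] [NormedSpace ℝ E] [FiniteDimensional ℝ E]
  [NormedAddCommGroup E₁] [NormedSpace ℝ E₁] [FiniteDimensional ℝ E₁]
  [NormedAddCommGroup E₂] [NormedSpace ℝ E₂] [FiniteDimensional ℝ E₂]
  [NormedAddCommGroup H] [InnerProductSpace ℝ H] [FiniteDimensional ℝ H]
  [NormedAddCommGroup F'] [NormedSpace ℝ F'] [FiniteDimensional ℝ F']
  {X : Set E} {P : E₁ → H →L[ℝ] H} {f : E → E₁} {g : E → E₂} {χ : E → ℝ} {d r : ℕ}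

theorem tan_ker (hX : Sub d X) (hQ : PField X r (fun x => 1 - P (f x))) {x : E} {v : H} {t : ℝ}
    (hz : ((x, v), t) ∈ SB X (fun x => 1 - P (f x))) (hPd : DifferentiableAt ℝ P (f x))
    (hfd : DifferentiableAt ℝ f x) {w : E} (hw : w ∈ Tan X x) (h0 : fderiv ℝ f x w = 0) :
    ((w, (0 : H)), (0 : ℝ)) ∈ Tan (SB X (fun x => 1 - P (f x))) ((x, v), t) := by
  refine (mem_Tan_SB hX hQ hz).2 ⟨⟨hw, ?_⟩, by simp⟩
  have h1 : HasFDerivAt (fun x => 1 - P (f x)) (-((fderiv ℝ P (f x)).comp (fderiv ℝ f x))) x :=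
    (hPd.hasFDerivAt.comp x hfd.hasFDerivAt).const_sub 1
  rw [h1.fderiv]
  have h2 : (-((fderiv ℝ P (f x)).comp (fderiv ℝ f x))) w = 0 := by
    show -(fderiv ℝ P (f x) (fderiv ℝ f x w)) = 0
    rw [h0, map_zero, neg_zero]
  rw [h2, map_zero, sub_zero]
  rfl


theorem hasFDerivAt_pB (z : (E × H) × ℝ) : HasFDerivAt (pB : (E × H) × ℝ → E)
    ((ContinuousLinearMap.fst ℝ E H).comp (ContinuousLinearMap.fst ℝ (E × H) ℝ)) z :=
  ((ContinuousLinearMap.fst ℝ E H).comp (ContinuousLinearMap.fst ℝ (E × H) ℝ)).hasFDerivAt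

theorem fderiv_comp_pB {G : Type*} [NormedAddCommGroup G] [NormedSpace ℝ G] {k : E → G}
    {z : (E × H) × ℝ} (hk : DifferentiableAt ℝ k z.1.1) (w : (E × H) × ℝ) :
    fderiv ℝ (fun z : (E × H) × ℝ => k z.1.1) z w = fderiv ℝ k z.1.1 w.1.1 := by
  have h1 : HasFDerivAt (fun z : (E × H) × ℝ => k z.1.1) ((fderiv ℝ k z.1.1).comp
      ((ContinuousLinearMap.fst ℝ E H).comp (ContinuousLinearMap.fst ℝ (E × H) ℝ))) z :=
    HasFDerivAt.comp (g := k) z hk.hasFDerivAt (hasFDerivAt_pB z)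
  rw [h1.fderiv]
  rfl

/-- thinness of maps of the sphere bundle -/
theorem thin_SB (hX : Sub d X) (hQ : PField X r (fun x => 1 - P (f x)))
    (hP : ∀ x ∈ X, DifferentiableAt ℝ P (f x)) (hf : ∀ x ∈ X, DifferentiableAt ℝ f x)
    (hg : ∀ x ∈ X, DifferentiableAt ℝ g x) (hT : Thin d X (fun x => (f x, g x)) χ)
    {G : (E × H) × ℝ → F'}
    (hG : ∀ z ∈ SB X (fun x => 1 - P (f x)), ∀ w, fderiv ℝ f z.1.1 w = 0 →
      fderiv ℝ g z.1.1 w = 0 → fderiv ℝ G z ((w, (0 : H)), (0 : ℝ)) = 0) :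
    Thin (r + d) (SB X (fun x => 1 - P (f x))) G (fun z => χ z.1.1) := by
  have key : ∀ x ∈ X, ∀ w, fderiv ℝ (fun x => (f x, g x)) x w = 0 →
      fderiv ℝ f x w = 0 ∧ fderiv ℝ g x w = 0 := by
    intro x hx w hw
    rw [(hf x hx).fderiv_prodMk (hg x hx)] at hw
    exact ⟨congrArg Prod.fst hw, congrArg Prod.snd hw⟩
  have hχd : ∀ x ∈ X, DifferentiableAt ℝ χ x := fun x hx =>
    (hT.smooth x hx).differentiableAt (by simp)
  refine thin_of_ker (sub_SB hX hQ) (fun z hz => ?_) (fun z hz h0 h1 => ?_) (fun z hz => ?_)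
  · exact ContDiffAt.comp (g := χ) z (hT.smooth _ hz.1.1.1) (by fun_prop)
  · obtain ⟨w, hw, hne, hk⟩ := thin_ker1 hX hT hz.1.1.1 h0 h1
    obtain ⟨k1, k2⟩ := key _ hz.1.1.1 w hk
    refine ⟨((w, 0), 0), tan_ker hX hQ hz (hP _ hz.1.1.1) (hf _ hz.1.1.1) hw k1, fun h => ?_,
      hG z hz w k1 k2⟩
    exact hne (congrArg (fun y : (E × H) × ℝ => y.1.1) h)
  · rcases thin_ker2 hX hT hz.1.1.1 with h | ⟨w, hw, hne, hl, hk⟩
    · left
      intro w hw
      rw [fderiv_comp_pB (hχd _ hz.1.1.1)]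
      exact h _ ((mem_Tan_SB hX hQ hz).1 hw).1.1
    · right
      obtain ⟨k1, k2⟩ := key _ hz.1.1.1 w hk
      refine ⟨((w, 0), 0), tan_ker hX hQ hz (hP _ hz.1.1.1) (hf _ hz.1.1.1) hw k1, fun h => ?_,
        ?_, hG z hz w k1 k2⟩
      · exact hne (congrArg (fun y : (E × H) × ℝ => y.1.1) h)
      · rw [fderiv_comp_pB (hχd _ hz.1.1.1)]
        exact hl

end thin

end Crest.Agent.R208.IM
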