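import Crest.Agent.R208.IM5

/-! Row 208, block IM (helper631).  IM6: Stokes on the sphere bundle and the exchange of the
Thom form by its value over one point. -/

set_option autoImplicit false
set_option linter.unusedSectionVars false

open MeasureTheory Set Filter Topology Module Matrix
open scoped ContDiff RealInnerProductSpace
open Crest.Agent.R208.F Crest.Agent.R208.FI Crest.Agent.R208.CW Crest.Agent.R208.T
open Crest.Agent.R208.SN Crest.Agent.R208.CH

noncomputable section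

namespace Crest.Agent.R208.IM

section top
variable {E : Type*} [NormedAddCommGroup E] [NormedSpace ℝ E] [FiniteDimensional ℝ E]

/-- a form of top degree is closed -/
theorem cl_top {M : Set E} {m : ℕ} (hM : Sub m M) {μ : E → Ext E} (h : Hom m μ) : Cl M μ := by
  intro x hx
  refine IsDeg.eq_zero (p := m + 1) ((h.d x).pb _) ?_
  rw [hM.finrank_Tan hx]
  exact Nat.lt_succ_self m

end top

section main
variable {E E₁ E₂ H : Type*} [NormedAddCommGroup E] [NormedSpace ℝ E] [FiniteDimensional ℝ E]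
  [NormedAddCommGroup E₁] [NormedSpace ℝ E₁] [FiniteDimensional ℝ E₁]
  [NormedAddCommGroup E₂] [NormedSpace ℝ E₂] [FiniteDimensional ℝ E₂]
  [NormedAddCommGroup H] [InnerProductSpace ℝ H] [FiniteDimensional ℝ H]
  {X : Set E} {Y : Set E₁} {M : Set E₂} {P : E₁ → H →L[ℝ] H} {Q : E → H →L[ℝ] H}
  {f : E → E₁} {g : E → E₂} {χ : E → ℝ}
  {d r m : ℕ} {R R₀ : ℝ} {μ : E₂ → Ext E₂} {oT : (E × H) × ℝ → Ext ((E × H) × ℝ)}
  {L Θ : E₁ × H → Ext (E₁ × H)}

theorem smap_kf (hf : SMap X Y f) (R : ℝ) :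
    SMap (SB X Q) (Y ×ˢ (univ : Set H)) (kf f R) :=
  ⟨fun z hz => ((hf.smooth _ hz.1.1.1).comp (g := f) z (f := fun z : (E × H) × ℝ => z.1.1)
      (by fun_prop)).prodMk (by fun_prop), fun z hz => ⟨hf.maps hz.1.1.1, trivial⟩⟩

theorem smap_pB' : SMap (SB X Q) X (pB : (E × H) × ℝ → E) :=
  ⟨fun z _ => by unfold pB; fun_prop, fun z hz => hz.1.1.1⟩

theorem sm_up' (hf : SMap X Y f) (hR : 2 * R₀ < |R|) (hR₀ : 0 ≤ R₀)
    (hΘ : ∀ z, R₀ < ‖z.2‖ → Θ z = 0) (hs : Sm (Y ×ˢ (univ : Set H)) Θ) :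
    Sm (SB X Q) (up f R Θ) :=
  sm_up hR hR₀ hΘ (hs.pull (smap_kf hf R))

/-- Stokes on the sphere bundle with a thin cut off -/
theorem J_stokes (hX : Clo d X) (hQ : PField X r (fun x => 1 - P (f x)))
    (hP : ∀ y ∈ Y, DifferentiableAt ℝ P y) (hf : SMap X Y f) (hg : SMap X M g) (hM : Sub m M)
    (hT : Thin d X (fun x => (f x, g x)) χ)
    (hoT : Ori (r + d) (SB X (fun x => 1 - P (f x))) oT)
    (hL : Sm (Y ×ˢ (univ : Set H)) L) (hLs : ∀ z, R₀ < ‖z.2‖ → L z = 0) (hR : 2 * R₀ < |R|)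
    (hR₀ : 0 ≤ R₀) (hμ : Sm M μ) (hμm : Hom m μ) :
    J (r + d) (SB X (fun x => 1 - P (f x))) oT
      (fun z => χ z.1.1 • (F.d (E := (E × H) × ℝ) (up f R L) z * F.pull pB (F.pull g μ) z)) = 0 := by
  set T := SB X (fun x => 1 - P (f x)) with hTd
  have hPd : ∀ x ∈ X, DifferentiableAt ℝ P (f x) := fun x hx => hP _ (hf.maps hx)
  have hfd : ∀ x ∈ X, DifferentiableAt ℝ f x := fun x hx => hf.diff hx
  have hgd : ∀ x ∈ X, DifferentiableAt ℝ g x := fun x hx => hg.diff hx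
  have hcT : Clo (r + d) T := clo_SB hX hQ
  set b : (E × H) × ℝ → Ext ((E × H) × ℝ) := F.pull pB (F.pull g μ) with hb
  have sb : Sm T b := (hμ.pull hg).pull smap_pB'
  have cb : Cl T b := ((cl_top hM hμm).pull hg hμ).pull smap_pB' (hμ.pull hg)
  have su : Sm T (up f R L) := sm_up' hf hR hR₀ hLs hL
  have hχ : ∀ z ∈ T, ContDiffAt ℝ ∞ (fun z : (E × H) × ℝ => χ z.1.1) z := fun z hz =>
    ContDiffAt.comp (g := χ) z (hT.smooth _ hz.1.1.1) (by fun_prop)
  -- the derivative of the product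
  have h1 : Eqv T (fun z => F.d (E := (E × H) × ℝ) (up f R L) z * b z)
      (F.d (E := (E × H) × ℝ) fun z => up f R L z * b z) := by
    refine eqv_iff.2 fun z hz => ?_
    have h2 : F.d (E := (E × H) × ℝ) (fun z => up f R L z * b z) z =
        F.d (E := (E × H) × ℝ) (up f R L) z * b z + F.inv (up f R L z) * F.d b z :=
      F.d_mul (su.diff hz) (sb.diff hz)
    have h3 : pb (Tan T z).subtype (F.d b z) = 0 := cb z hz
    rw [h2, map_add, map_mul, map_mul, h3, mul_zero, add_zero]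
  rw [J_eqv' (oX := oT) hcT h1 (fun z => χ z.1.1)]
  have hβ : ∀ z ∈ T, ContDiffAt ℝ ∞ (fun z => up f R L z * b z) z := su.mul sb
  rw [J_cut_d hcT hoT hχ hβ]
  -- thinness
  have hthin : Thin (r + d) T (fun z : (E × H) × ℝ => (kf f R z, g z.1.1)) (fun z => χ z.1.1) := by
    refine thin_SB hX.sub hQ hPd hfd hgd hT fun z hz w h0 h0' => ?_
    have e1 : DifferentiableAt ℝ (fun z : (E × H) × ℝ => f z.1.1) z :=
      DifferentiableAt.comp (g := f) z (hfd _ hz.1.1.1) (by fun_prop)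
    have e2 : DifferentiableAt ℝ (fun z : (E × H) × ℝ => g z.1.1) z :=
      DifferentiableAt.comp (g := g) z (hgd _ hz.1.1.1) (by fun_prop)
    have e3 : HasFDerivAt (fun z : (E × H) × ℝ => R • z.1.2) (R • (ContinuousLinearMap.snd ℝ E H).comp
        (ContinuousLinearMap.fst ℝ (E × H) ℝ)) z :=
      (((ContinuousLinearMap.snd ℝ E H).comp
        (ContinuousLinearMap.fst ℝ (E × H) ℝ)).hasFDerivAt).const_smul R
    have e4 : HasFDerivAt (fun z : (E × H) × ℝ => (kf f R z, g z.1.1)) _ z :=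
      (e1.hasFDerivAt.prodMk e3).prodMk e2.hasFDerivAt
    rw [e4.fderiv]
    have e5 : fderiv ℝ (fun z : (E × H) × ℝ => f z.1.1) z ((w, (0 : H)), (0 : ℝ)) = 0 := by
      rw [fderiv_comp_pB (hfd _ hz.1.1.1)]; exact h0
    have e6 : fderiv ℝ (fun z : (E × H) × ℝ => g z.1.1) z ((w, (0 : H)), (0 : ℝ)) = 0 := by
      rw [fderiv_comp_pB (hgd _ hz.1.1.1)]; exact h0'
    refine Prod.ext (Prod.ext e5 ?_) e6
    show R • (0 : H) = 0
    rw [smul_zero]
  rw [J_eq_zero hcT, neg_zero]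
  intro z hz w hw
  by_cases h0 : 0 < z.2
  · have e0 : DifferentiableAt ℝ (kf f R) z := (smap_kf (Q := fun x => 1 - P (f x)) hf R).diff hz
    have e2 : DifferentiableAt ℝ (fun z : (E × H) × ℝ => g z.1.1) z :=
      DifferentiableAt.comp (g := g) z (hgd _ hz.1.1.1) (by fun_prop)
    have e1 : up f R L z * b z = pb ((fderiv ℝ (fun z : (E × H) × ℝ => (kf f R z, g z.1.1)) z :
        (E × H) × ℝ →L[ℝ] (E₁ × H) × E₂) : (E × H) × ℝ →ₗ[ℝ] (E₁ × H) × E₂)
        (pb (LinearMap.fst ℝ (E₁ × H) E₂) (L (kf f R z)) *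
          pb (LinearMap.snd ℝ (E₁ × H) E₂) (μ (g z.1.1))) := by
      rw [map_mul, pb_comp, pb_comp, e0.fderiv_prodMk e2]
      have e3 : b z = pb ((fderiv ℝ (fun z : (E × H) × ℝ => g z.1.1) z :
          (E × H) × ℝ →L[ℝ] E₂) : (E × H) × ℝ →ₗ[ℝ] E₂) (μ (g z.1.1)) :=
        F.pull_comp (f := (pB : (E × H) × ℝ → E)) (g := g) (om := μ) (x := z)
          (by unfold pB; fun_prop) (hgd _ hz.1.1.1)
      have e4 : up f R L z = pb ((fderiv ℝ (kf f R) z : (E × H) × ℝ →L[ℝ] E₁ × H) :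
          (E × H) × ℝ →ₗ[ℝ] E₁ × H) (L (kf f R z)) := if_pos h0
      rw [e3, e4]
      rfl
    rw [e1]
    exact hthin.bd z hz _ w hw
  · have e1 : up f R L z = 0 := if_neg h0
    rw [e1, zero_mul, mul_zero, map_zero]
    rfl

/-- the Thom form may be replaced by its value over one point -/
theorem J_swap (hX : Clo d X) (hQ : PField X r (fun x => 1 - P (f x)))
    (hP : ∀ y ∈ Y, DifferentiableAt ℝ P y) (hf : SMap X Y f) (hg : SMap X M g) (hM : Sub m M)
    (hT : Thin d X (fun x => (f x, g x)) χ)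
    (hoT : Ori (r + d) (SB X (fun x => 1 - P (f x))) oT)
    (hL : Sm (Y ×ˢ (univ : Set H)) L) (hLs : ∀ z, R₀ < ‖z.2‖ → L z = 0) (hR : 2 * R₀ < |R|)
    (hR₀ : 0 ≤ R₀) (hμ : Sm M μ) (hμm : Hom m μ) {c₀ : ℝ} (hc₀ : c₀ ≠ 0)
    (hΘ : Sm (Y ×ˢ (univ : Set H)) Θ) (hΘs : ∀ z, R₀ < ‖z.2‖ → Θ z = 0) {y₀ : E₁} (hy₀ : y₀ ∈ Y)
    (he : Eqv (Y ×ˢ (univ : Set H)) (c₀ • (F.pull nu Θ - F.pull (cpt y₀) Θ)) (F.d L)) :
    J (r + d) (SB X (fun x => 1 - P (f x))) oT
        (fun z => χ z.1.1 • (up f R Θ z * F.pull pB (F.pull g μ) z)) =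
      J (r + d) (SB X (fun x => 1 - P (f x))) oT
        (fun z => χ z.1.1 • (up (fun _ => y₀) (-R) Θ z * F.pull pB (F.pull g μ) z)) := by
  set T := SB X (fun x => 1 - P (f x)) with hTd
  have hcT : Clo (r + d) T := clo_SB hX hQ
  set b : (E × H) × ℝ → Ext ((E × H) × ℝ) := F.pull pB (F.pull g μ) with hb
  have sb : Sm T b := (hμ.pull hg).pull smap_pB'
  have hR' : 2 * R₀ < |(-R)| := by rwa [abs_neg]
  have hfc : SMap X Y (fun _ : E => y₀) := ⟨fun _ _ => contDiffAt_const, fun _ _ => hy₀⟩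
  have s1 : Sm T (up f R Θ) := sm_up' hf hR hR₀ hΘs hΘ
  have s2 : Sm T (up (fun _ => y₀) (-R) Θ) := sm_up' hfc hR' hR₀ hΘs hΘ
  set A : (E × H) × ℝ → Ext ((E × H) × ℝ) := fun z =>
    c₀ • (up f R Θ z - up (fun _ => y₀) (-R) Θ z) with hA
  have key : Eqv T A (F.d (up f (-R) L)) := by
    have h1 := he.pull (smap_kf (Q := fun x => 1 - P (f x)) hf (-R))
    refine eqv_iff.2 fun z hz => ?_
    rw [d_up hR' hR₀ hLs hz]
    have h2 := eqv_iff.1 h1 z hz
    have hk : DifferentiableAt ℝ (kf f (-R)) z :=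
      (smap_kf (Q := fun x => 1 - P (f x)) hf (-R)).diff hz
    by_cases h0 : 0 < z.2
    · rw [if_pos h0]
      have e1 : F.d (E := (E × H) × ℝ) (F.pull (kf f (-R)) L) z =
          F.pull (kf f (-R)) (F.d L) z :=
        F.d_pull (((smap_kf (Q := fun x => 1 - P (f x)) hf (-R)).smooth z hz).of_le
          two_le_infty) ((hL _ ((smap_kf hf (-R)).maps hz)).differentiableAt
          (by simp))
      rw [e1, ← h2]
      have e2 : F.pull (kf f (-R)) (F.pull nu Θ) z = F.pull (kf f R) Θ z := by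
        rw [F.pull_comp hk (by unfold nu; fun_prop)]
        have : (nu : E₁ × H → E₁ × H) ∘ kf f (-R) = kf f R := by
          funext z
          show (f z.1.1, -(-R • z.1.2)) = (f z.1.1, R • z.1.2)
          rw [neg_smul, neg_neg]
        rw [this]
      have e3 : F.pull (kf f (-R)) (F.pull (cpt y₀) Θ) z = F.pull (kf (fun _ => y₀) (-R)) Θ z := by
        rw [F.pull_comp hk (by unfold cpt; fun_prop)]
        rfl
      have e4 : F.pull (kf f (-R)) (c₀ • (F.pull nu Θ - F.pull (cpt y₀) Θ)) z = A z := by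
        rw [pull_smul', pull_sub']
        show c₀ • (F.pull (kf f (-R)) (F.pull nu Θ) z - F.pull (kf f (-R)) (F.pull (cpt y₀) Θ) z) =
          c₀ • (up f R Θ z - up (fun _ => y₀) (-R) Θ z)
        rw [e2, e3, up, up, if_pos h0, if_pos h0]
      rw [e4]
    · rw [if_neg h0]
      have e4 : A z = 0 := by
        show c₀ • (up f R Θ z - up (fun _ => y₀) (-R) Θ z) = 0
        rw [up, up, if_neg h0, if_neg h0, sub_zero, smul_zero]
      rw [e4]
  have h1 := J_stokes hX hQ hP hf hg hM hT hoT hL hLs hR' hR₀ hμ hμm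
  have h2 : Eqv T (fun z => A z * b z)
      (fun z => F.d (E := (E × H) × ℝ) (up f (-R) L) z * b z) := key.mul (Eqv.refl b)
  rw [← J_eqv' (oX := oT) hcT h2 (fun z => χ z.1.1)] at h1
  have h3 : (fun z : (E × H) × ℝ => χ z.1.1 • (A z * b z))
      = fun z => c₀ • (χ z.1.1 • (up f R Θ z * b z) -
        χ z.1.1 • (up (fun _ => y₀) (-R) Θ z * b z)) := by
    funext z
    show χ z.1.1 • ((c₀ • (up f R Θ z - up (fun _ => y₀) (-R) Θ z)) * b z) = _
    rw [smul_mul_assoc, sub_mul, smul_comm, smul_sub]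
  have hχ : ContinuousOn (fun z : (E × H) × ℝ => χ z.1.1) T := fun z hz =>
    (ContDiffAt.comp (g := χ) z (hT.smooth _ hz.1.1.1)
      (f := fun z : (E × H) × ℝ => z.1.1) (by fun_prop)).continuousAt.continuousWithinAt
  have hc : ∀ {a : (E × H) × ℝ → Ext ((E × H) × ℝ)}, Sm T a →
      ContinuousOn (fun z => χ z.1.1 • (a z * b z)) T := fun ha =>
    hχ.smul (fun z hz => ((ha.mul sb) z hz).continuousAt.continuousWithinAt)
  rw [h3, J_smul, J_sub hcT hoT (hc s1) (hc s2)] at h1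
  exact sub_eq_zero.1 ((mul_eq_zero.1 h1).resolve_left hc₀)

end main

end Crest.Agent.R208.IM
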