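import Crest.Agent.R208.IM6
import Crest.Agent.R208.SN7

/-! Row 208, block IM (helper631).  IM7: evaluation over `SB X (1 - P ∘ f)` and over
`SB M 1`. -/

set_option autoImplicit false
set_option linter.unusedSectionVars false

open MeasureTheory Set Filter Topology Module Matrix
open scoped ContDiff RealInnerProductSpace
open Crest.Agent.R208.F Crest.Agent.R208.FI Crest.Agent.R208.CW Crest.Agent.R208.T
open Crest.Agent.R208.SN Crest.Agent.R208.CH

noncomputable section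

namespace Crest.Agent.R208.IM

section gen
variable {E E₁ E₂ H : Type*} [NormedAddCommGroup E] [NormedSpace ℝ E] [FiniteDimensional ℝ E]
  [NormedAddCommGroup E₁] [NormedSpace ℝ E₁] [FiniteDimensional ℝ E₁]
  [NormedAddCommGroup E₂] [NormedSpace ℝ E₂] [FiniteDimensional ℝ E₂]
  [NormedAddCommGroup H] [InnerProductSpace ℝ H] [FiniteDimensional ℝ H]
  {X : Set E} {Y : Set E₁} {M : Set E₂} {P : E₁ → H →L[ℝ] H}
  {f : E → E₁} {R : ℝ} {r : ℕ}

theorem P_zero_of {z : (E × H) × ℝ}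
    (hz : z ∈ SB X (fun x => 1 - P (f x))) : P (f z.1.1) z.1.2 = 0 := by
  have h1 : (1 - P (f z.1.1)) z.1.2 = z.1.2 := hz.1.1.2
  have h2 : z.1.2 - P (f z.1.1) z.1.2 = z.1.2 := h1
  simpa using h2

theorem smap_kf' (hf : SMap X Y f) (R : ℝ) :
    SMap (SB X (fun x => 1 - P (f x))) (Tot Y (fun y => 1 - P y)) (kf f R) :=
  ⟨(smap_kf hf R).smooth, fun z hz => ⟨hf.maps hz.1.1.1, by
    show (1 - P (f z.1.1)) (R • z.1.2) = R • z.1.2
    rw [map_smul, hz.1.1.2]⟩⟩

theorem contDiffAt_fpB {z : (E × H) × ℝ} (hf : ContDiffAt ℝ ∞ f z.1.1) :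
    ContDiffAt ℝ ∞ (fun z : (E × H) × ℝ => f z.1.1) z := by
  have h1 : ContDiffAt ℝ ∞ (pB : (E × H) × ℝ → E) z := by unfold pB; fun_prop
  exact ContDiffAt.comp (g := f) (f := (pB : (E × H) × ℝ → E)) z hf h1

theorem smap_k3 (hf : SMap X Y f) :
    SMap X (Tot Y P) (fun x : E => ((f x, 0) : E₁ × H)) :=
  ⟨fun x hx => (hf.smooth x hx).prodMk contDiffAt_const, fun _ hx => ⟨hf.maps hx, map_zero _⟩⟩

theorem smap_k2 (hf : SMap X Y f) :
    SMap (SB X (fun x => 1 - P (f x))) (Tot Y P) (fun z : (E × H) × ℝ =>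
      ((f z.1.1, 0) : E₁ × H)) :=
  ⟨fun z hz => (contDiffAt_fpB (hf.smooth _ hz.1.1.1)).prodMk contDiffAt_const,
    fun z hz => ⟨hf.maps hz.1.1.1, map_zero _⟩⟩

/-- the product of the Thom forms on the sphere bundle -/
theorem eqv_up_thE (hP : PField Y r P) (hf : SMap X Y f)
    (τ' τ Θ : E₁ × H → Ext (E₁ × H)) (hΘ : Θ = thE P τ' τ) :
    Eqv (E := (E × H) × ℝ) (SB X (fun x => 1 - P (f x))) (up f R Θ)
      (fun z => up f R τ' z * F.pull pB (F.pull (fun x => ((f x, 0) : E₁ × H)) τ) z) := by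
  set T := SB X (fun x => 1 - P (f x)) with hT
  have k2 := smap_k2 (P := P) hf
  have e1 : Eqv T (F.pull (kf f R) (F.pull (gam P) τ')) (F.pull (kf f R) τ') :=
    eqv_pull_pull (smap_kf hf R) (smap_gam hP) (smap_kf' hf R) (fun z hz => by
      show (f z.1.1, R • z.1.2 - P (f z.1.1) (R • z.1.2)) = (f z.1.1, R • z.1.2)
      rw [map_smul, P_zero_of hz, smul_zero, sub_zero]) τ'
  have e2 : Eqv T (F.pull (kf f R) (F.pull (bet P) τ)) (F.pull _ τ) :=
    eqv_pull_pull (smap_kf hf R) (smap_bet hP) k2 (fun z hz => by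
      show (f z.1.1, P (f z.1.1) (R • z.1.2)) = (f z.1.1, 0)
      rw [map_smul, P_zero_of hz, smul_zero]) τ
  have k3 := smap_k3 (P := P) hf
  have e3 := eqv_pull_pull (smap_pB' (Q := fun x => 1 - P (f x))) k3 k2 (fun _ _ => rfl) τ
  have e4 := e1.mul (e2.trans e3.symm)
  refine eqv_iff.2 fun z hz => ?_
  have e5 := eqv_iff.1 e4 z hz
  by_cases h0 : 0 < z.2
  · have e6 : up f R Θ z = (F.pull (kf f R) (F.pull (gam P) τ') *
        F.pull (kf f R) (F.pull (bet P) τ)) z := by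
      rw [up, if_pos h0, hΘ, thE, pull_mul']
    have e7 : up f R τ' z = F.pull (kf f R) τ' z := if_pos h0
    rw [e6, e5, e7]
    rfl
  · have e6 : up f R Θ z = 0 := if_neg h0
    have e7 : up f R τ' z = 0 := if_neg h0
    rw [e6, e7, zero_mul]

end gen

section tside
variable {n ι ι' : Type*} [Fintype n] [DecidableEq n] [Fintype ι] [DecidableEq ι]
  [Fintype ι'] [DecidableEq ι']
  {E E₁ E₂ : Type*} [NormedAddCommGroup E] [NormedSpace ℝ E] [FiniteDimensional ℝ E]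
  [NormedAddCommGroup E₁] [NormedSpace ℝ E₁] [FiniteDimensional ℝ E₁]
  [NormedAddCommGroup E₂] [NormedSpace ℝ E₂] [FiniteDimensional ℝ E₂]
  {X : Set E} {Y : Set E₁} {M : Set E₂} {P : E₁ → EuclideanSpace ℝ n →L[ℝ] EuclideanSpace ℝ n}
  {W : E₁ → (ι × Fin 2 → n) → ℝ} {W' : E₁ → (ι' × Fin 2 → n) → ℝ}
  {f : E → E₁} {g : E → E₂} {χ : E → ℝ}
  {d dY m : ℕ} {R : ℝ} {μ : E₂ → Ext E₂} {oX : E → Ext E}

theorem pfield_compl_f (h' : OR Y (fun y => 1 - P y) W') (hf : SMap X Y f) :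
    PField X (Fintype.card ι' * 2) (fun x => 1 - P (f x)) := by
  have := (OR_comp h' hf).pfield
  rwa [mul_comm] at this

/-- the fibre integral -/
theorem J_fib_thom [Nonempty ι'] (hX : Clo d X) (hoX : Ori d X oX)
    (hoX0 : ∀ x ∈ X, ∀ q < d, evA E q (oX x) = 0) (hY : Sub dY Y)
    (h' : OR Y (fun y => 1 - P y) W') (hf : SMap X Y f) (hR : 2 * 3 < |R|)
    {τ' : E₁ × EuclideanSpace ℝ n → Ext (E₁ × EuclideanSpace ℝ n)}
    (hτ' : τ' = thomF (fun y => 1 - P y) W') {x : E} (hx : x ∈ X) :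
    J (E := (E × EuclideanSpace ℝ n) × ℝ) (Fintype.card ι' * 2)
      (SB X (fun x => 1 - P (f x)) ∩ pB ⁻¹' {x})
      (oVf (fun x => W' (f x))) (up f R τ') = kGG ι' := by
  obtain ⟨F', hF, hPF, hWF⟩ := h'.fr _ (hf.maps hx)
  have hcs' := csf_thomF hY h'
  rw [← hτ'] at hcs'
  have hsupp := hcs'.supp
  have hor : OR X (fun x => 1 - P (f x)) (fun x => W' (f x)) := OR_comp h' hf
  have e1 := J_fib_up (Q := fun x => 1 - P (f x)) (W := fun x => W' (f x)) (φ := f) (R := R)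
    (R₀ := 3) (Θ := τ') hX hoX hoX0 hor hf.smooth hR (by norm_num) hsupp hx hF hPF hWF
  refine e1.trans ?_
  rw [hτ']
  exact integral_thom h' (hf.maps hx) hF hPF hWF (by linarith)

/-- the form on `X` -/
theorem eqv_om0 (h : OR Y P W) (hf : SMap X Y f)
    {τ : E₁ × EuclideanSpace ℝ n → Ext (E₁ × EuclideanSpace ℝ n)} (hτ : τ = thomF P W) :
    Eqv X (F.pull (fun x => ((f x, 0) : E₁ × EuclideanSpace ℝ n)) τ)
      ((2 : ℝ) • F.pull f (eR P W)) := by
  have k3 := smap_k3 (P := P) hf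
  have e1 : Eqv X (F.pull f (F.pull (zs (E := E₁) (H := EuclideanSpace ℝ n)) τ))
      (F.pull (fun x => ((f x, 0) : E₁ × EuclideanSpace ℝ n)) τ) :=
    eqv_pull_pull hf (smap_zs (P := P)) k3 (fun _ _ => rfl) _
  have e2 : Eqv Y (F.pull (zs (E := E₁) (H := EuclideanSpace ℝ n)) τ)
      ((2 : ℝ) • eR P W) := by
    rw [hτ]; exact thomF_zero h
  have e3 := e2.pull hf
  rw [pull_smul'] at e3
  exact e1.symm.trans e3

set_option maxHeartbeats 1600000 in
/-- **evaluation over `X`** -/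
theorem J_T [Nonempty ι] [Nonempty ι'] (hX : Clo d X) (hoX : Ori d X oX)
    (hoX0 : ∀ x ∈ X, ∀ q < d, evA E q (oX x) = 0) (hY : Sub dY Y)
    (h : OR Y P W) (h' : OR Y (fun y => 1 - P y) W')
    (hf : SMap X Y f) (hg : SMap X M g)
    (hμ : Sm M μ) (hμm : Hom m μ) (hχ : ∀ x ∈ X, ContDiffAt ℝ ∞ χ x)
    (hd : d = 2 * Fintype.card ι + m) (hR : 2 * 3 < |R|)
    {τ' τ Θ : E₁ × EuclideanSpace ℝ n → Ext (E₁ × EuclideanSpace ℝ n)}
    (hτ' : τ' = thomF (fun y => 1 - P y) W') (hτ : τ = thomF P W) (hΘ : Θ = thE P τ' τ) :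
    J (E := (E × EuclideanSpace ℝ n) × ℝ) (Fintype.card ι' * 2 + d)
        (SB X (fun x => 1 - P (f x)))
        (fun z => oVf (fun x => W' (f x)) z * F.pull pB oX z)
        (fun z => χ z.1.1 • (up f R Θ z * F.pull pB (F.pull g μ) z)) =
      kGG ι' * (2 * J d X oX (fun x => χ x • (F.pull f (eR P W) x * F.pull g μ x))) := by
  set T := SB X (fun x => 1 - P (f x)) with hT
  have hor : OR X (fun x => 1 - P (f x)) (fun x => W' (f x)) := OR_comp h' hf
  have hQ := pfield_compl_f h' hf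
  have hS := subm_SB hX hQ (fun x hx => OR_sym hor hx)
  have hoZ := ori_SB hX hoX hor (fun x hx => OR_sym hor hx) hoX0
  have hcs := csf_thomF hY h
  rw [← hτ] at hcs
  have hcs' := csf_thomF hY h'
  rw [← hτ'] at hcs'
  set om0 : E → Ext E := F.pull (fun x => ((f x, 0) : E₁ × EuclideanSpace ℝ n)) τ
    with hom0
  have som0 : Sm X om0 := hcs.smooth.pull (smap_k3 (P := P) hf)
  have sgμ : Sm X (F.pull g μ) := hμ.pull hg
  have heq : Eqv X om0 ((2 : ℝ) • F.pull f (eR P W)) := eqv_om0 h hf hτ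
  have sup' : Sm T (up f R τ') :=
    sm_up hR (by norm_num) hcs'.supp (hcs'.smooth.pull (smap_kf' hf R))
  -- step 1
  have e1 : Eqv (E := (E × EuclideanSpace ℝ n) × ℝ) T
      (fun z => up f R Θ z * F.pull pB (F.pull g μ) z)
      (fun z => (up f R τ' z * F.pull pB om0 z) * F.pull pB (F.pull g μ) z) :=
    (eqv_up_thE h.pfield hf τ' τ Θ hΘ).mul (Eqv.refl (F.pull pB (F.pull g μ)))
  rw [J_eqv' hS.cloZ e1 (fun z => χ z.1.1)]
  have e2 : J (E := (E × EuclideanSpace ℝ n) × ℝ) (Fintype.card ι' * 2 + d) T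
      (fun z => oVf (fun x => W' (f x)) z * F.pull pB oX z)
      (fun z => χ z.1.1 • ((up f R τ' z * F.pull pB om0 z) * F.pull pB (F.pull g μ) z)) =
      J (E := (E × EuclideanSpace ℝ n) × ℝ) (Fintype.card ι' * 2 + d) T
      (fun z => oVf (fun x => W' (f x)) z * F.pull pB oX z)
        (fun z => up f R τ' z * F.pull pB (fun x => χ x • (om0 x * F.pull g μ x)) z) := by
    refine J_congr' hS.cloZ fun z hz => ?_
    have e2 : F.pull (pB : (E × EuclideanSpace ℝ n) × ℝ → E)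
        (fun x => χ x • (om0 x * F.pull g μ x)) z =
        χ z.1.1 • (F.pull pB om0 z * F.pull pB (F.pull g μ) z) := by
      show pb _ (χ z.1.1 • (om0 z.1.1 * F.pull g μ z.1.1)) = _
      rw [map_smul, map_mul]
      rfl
    rw [e2, mul_smul_comm, mul_assoc]
  rw [e2]
  have hdeg : ∀ x ∈ X, ∀ q < d, evA E q (χ x • (om0 x * F.pull g μ x)) = 0 := by
    intro x _ q hq
    have e1 : IsDeg (2 * Fintype.card ι + m) (om0 x * F.pull g μ x) := by
      refine isDeg_mul ?_ ((hμm _).pb _)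
      rw [hom0, hτ]
      exact (thomF_deg _).pb _
    exact (e1.smul (χ x)) q (by omega)
  have e3 := fibre_integration hS (continuousOn_oVf hor) hoZ hoX0
    (η := up f R τ') (om := fun x => χ x • (om0 x * F.pull g μ x))
    (fun z hz => (sup' z hz).continuousAt.continuousWithinAt)
    (fun x hx => ((hχ x hx).continuousAt.smul ((som0.mul sgμ) x hx).continuousAt).continuousWithinAt)
    hdeg
  refine e3.trans ?_
  have s2 : J d X oX (fun x => J (E := (E × EuclideanSpace ℝ n) × ℝ) (Fintype.card ι' * 2)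
      (T ∩ pB ⁻¹' {x}) (oVf (fun x => W' (f x))) (up f R τ') •
      (χ x • (om0 x * F.pull g μ x))) =
      J d X oX (fun x => kGG ι' • (χ x • (om0 x * F.pull g μ x))) :=
    J_congr' hX fun x hx => by rw [J_fib_thom hX hoX hoX0 hY h' hf hR hτ' hx]
  refine s2.trans ?_
  rw [J_smul]
  congr 1
  have e4 : Eqv X (fun x => om0 x * F.pull g μ x)
      (fun x => ((2 : ℝ) • F.pull f (eR P W)) x * F.pull g μ x) :=
    heq.mul (Eqv.refl (F.pull g μ))
  rw [J_eqv' hX e4 χ]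
  have e5 : (fun x => χ x • (((2 : ℝ) • F.pull f (eR P W)) x * F.pull g μ x)) =
      fun x => (2 : ℝ) • (χ x • (F.pull f (eR P W) x * F.pull g μ x)) := by
    funext x
    show χ x • (((2 : ℝ) • F.pull f (eR P W) x) * F.pull g μ x) = _
    rw [smul_mul_assoc, smul_comm]
  rw [e5, J_smul]

end tside

end Crest.Agent.R208.IM
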