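import Crest.Agent.R208.IM7
import Crest.Agent.R208.XF0
import Crest.Agent.R208.T2d
import Crest.Agent.R208.THD3

/-! Row 208, block IM (helper631).  IM8: **the Euler number is an integer** (thin version). -/

set_option autoImplicit false
set_option linter.unusedSectionVars false

open MeasureTheory Set Filter Topology Module Matrix
open scoped ContDiff RealInnerProductSpace
open Crest.Agent.R208.F Crest.Agent.R208.FI Crest.Agent.R208.CW Crest.Agent.R208.T
open Crest.Agent.R208.SN Crest.Agent.R208.CH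

noncomputable section

namespace Crest.Agent.R208.IM

section sside
variable {n κ : Type*} [Fintype n] [DecidableEq n] [Fintype κ] [DecidableEq κ]
  {E₁ E₂ : Type*}
  [NormedAddCommGroup E₁] [NormedSpace ℝ E₁] [FiniteDimensional ℝ E₁]
  [NormedAddCommGroup E₂] [NormedSpace ℝ E₂] [FiniteDimensional ℝ E₂]
  {Y : Set E₁} {M : Set E₂} {F₀ : Matrix n (κ × Fin 2) ℝ}
  {m : ℕ} {R R₀ : ℝ} {μ : E₂ → Ext E₂} {oM : E₂ → Ext E₂}

theorem full_mul (hF : F₀ᵀ * F₀ = 1) (hκ : Fintype.card κ * 2 = Fintype.card n) :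
    F₀ * F₀ᵀ = 1 :=
  (Matrix.mul_eq_one_comm_of_card_eq _ _ _ (by
    rw [Fintype.card_prod, Fintype.card_fin, hκ])).1 hF

theorem or_one (hF : F₀ᵀ * F₀ = 1) (hκ : Fintype.card κ * 2 = Fintype.card n) (M : Set E₂) :
    OR M (fun _ => (1 : EuclideanSpace ℝ n →L[ℝ] EuclideanSpace ℝ n))
      (fun _ I => (F₀.submatrix I id).det) where
  sP _ _ := contDiffAt_const
  sW _ _ _ := contDiffAt_const
  fr x _ := by
    refine ⟨F₀, hF, fun v i => ?_, fun _ => rfl⟩
    rw [full_mul hF hκ]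
    simp [Matrix.one_apply]

set_option maxHeartbeats 1600000 in
/-- evaluation over `M` -/
theorem J_S (hM : Clo m M) (hoM : Ori m M oM) (hoM0 : ∀ x ∈ M, ∀ q < m, evA E₂ q (oM x) = 0)
    (hF : F₀ᵀ * F₀ = 1) (hκ : Fintype.card κ * 2 = Fintype.card n)
    {Θ : E₁ × EuclideanSpace ℝ n → Ext (E₁ × EuclideanSpace ℝ n)}
    (hΘ : Sm (Y ×ˢ (univ : Set (EuclideanSpace ℝ n))) Θ) (hΘs : ∀ z, R₀ < ‖z.2‖ → Θ z = 0)
    (hR : 2 * R₀ < |R|) (hR₀ : 0 ≤ R₀) {y₀ : E₁} (hy₀ : y₀ ∈ Y) (hμ : Sm M μ) (hμm : Hom m μ) :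
    J (E := (E₂ × EuclideanSpace ℝ n) × ℝ) (Fintype.card κ * 2 + m) (SB M (fun _ => 1))
        (fun z => oVf (fun _ I => (F₀.submatrix I id).det) z * F.pull pB oM z)
        (fun z => up (fun _ : E₂ => y₀) R Θ z * F.pull pB μ z) =
      (∫ a in Metric.ball (0 : Eu (Fintype.card κ * 2)) 1,
        top (Fintype.card κ * 2) (F.pull (iE y₀ R F₀) Θ a)) * J m M oM μ := by
  have hor := or_one hF hκ M
  have hQ : PField M (Fintype.card κ * 2)
      (fun _ => (1 : EuclideanSpace ℝ n →L[ℝ] EuclideanSpace ℝ n)) := by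
    have := hor.pfield
    rwa [mul_comm] at this
  have hS := subm_SB hM hQ (fun x hx => OR_sym hor hx)
  have hoZ := ori_SB hM hoM hor (fun x hx => OR_sym hor hx) hoM0
  have hfc : SMap M Y (fun _ : E₂ => y₀) := ⟨fun _ _ => contDiffAt_const, fun _ _ => hy₀⟩
  have su : Sm (SB M (fun _ => (1 : EuclideanSpace ℝ n →L[ℝ] EuclideanSpace ℝ n)))
      (up (fun _ : E₂ => y₀) R Θ) := sm_up' hfc hR hR₀ hΘs hΘ
  have e3 := fibre_integration hS (continuousOn_oVf hor) hoZ hoM0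
    (η := up (fun _ : E₂ => y₀) R Θ) (om := μ)
    (fun z hz => (su z hz).continuousAt.continuousWithinAt)
    (fun x hx => (hμ x hx).continuousAt.continuousWithinAt)
    (fun x _ q hq => hμm x q (by omega))
  refine e3.trans ?_
  have s2 : J m M oM (fun x => J (E := (E₂ × EuclideanSpace ℝ n) × ℝ) (Fintype.card κ * 2)
      (SB M (fun _ => 1) ∩ pB ⁻¹' {x}) (oVf (fun _ I => (F₀.submatrix I id).det))
      (up (fun _ : E₂ => y₀) R Θ) • μ x) =
      J m M oM (fun x => (∫ a in Metric.ball (0 : Eu (Fintype.card κ * 2)) 1,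
        top (Fintype.card κ * 2) (F.pull (iE y₀ R F₀) Θ a)) • μ x) := by
    refine J_congr' hM fun x hx => ?_
    have h2 := full_mul hF hκ
    have e1 := J_fib_up (Q := fun _ : E₂ => (1 : EuclideanSpace ℝ n →L[ℝ] EuclideanSpace ℝ n))
      (W := fun (_ : E₂) I => (F₀.submatrix I id).det) (φ := fun _ : E₂ => y₀) (R := R)
      (R₀ := R₀) (Θ := Θ) hM hoM hoM0 hor hfc.smooth hR hR₀ hΘs hx (f := F₀) hF (fun v i => by
        rw [h2]
        simp [Matrix.one_apply]) (fun _ => rfl)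
    rw [e1]
  refine s2.trans ?_
  rw [J_smul]

end sside

end Crest.Agent.R208.IM
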