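import Crest.Agent.R208.IM8

/-! Row 208, block IM (helper631).  IM9: **the Euler number is an integer** (thin version). -/

set_option autoImplicit false
set_option linter.unusedSectionVars false

open MeasureTheory Set Filter Topology Module Matrix
open scoped ContDiff RealInnerProductSpace
open Crest.Agent.R208.F Crest.Agent.R208.FI Crest.Agent.R208.CW Crest.Agent.R208.T
open Crest.Agent.R208.SN Crest.Agent.R208.CH

noncomputable section

namespace Crest.Agent.R208.IM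

section phi
variable {E E₁ E₂ H : Type*} [NormedAddCommGroup E] [NormedSpace ℝ E] [FiniteDimensional ℝ E]
  [NormedAddCommGroup E₁] [NormedSpace ℝ E₁] [FiniteDimensional ℝ E₁]
  [NormedAddCommGroup E₂] [NormedSpace ℝ E₂] [FiniteDimensional ℝ E₂]
  [NormedAddCommGroup H] [InnerProductSpace ℝ H] [FiniteDimensional ℝ H]
  {X : Set E} {Y : Set E₁} {M : Set E₂} {P : E₁ → H →L[ℝ] H} {Q : E → H →L[ℝ] H}
  {f : E → E₁} {g : E → E₂} {χ : E → ℝ} {d r m : ℕ} {R : ℝ} {μ : E₂ → Ext E₂}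
  {Θ : E₁ × H → Ext (E₁ × H)} {y₀ : E₁}

/-- `(x, u, s) ↦ (g x, u, s)` -/
def Phi (g : E → E₂) (z : (E × H) × ℝ) : (E₂ × H) × ℝ := ((g z.1.1, z.1.2), z.2)

theorem contDiffAt_Phi {z : (E × H) × ℝ} (hg : ContDiffAt ℝ ∞ g z.1.1) :
    ContDiffAt ℝ ∞ (Phi g : (E × H) × ℝ → (E₂ × H) × ℝ) z := by
  have h1 : ContDiffAt ℝ ∞ (fun z : (E × H) × ℝ => z.1.2) z := by fun_prop
  exact ((contDiffAt_fpB hg).prodMk h1).prodMk contDiffAt_snd

theorem maps_Phi (hg : MapsTo g X M) :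
    MapsTo (Phi g : (E × H) × ℝ → (E₂ × H) × ℝ) (SB X Q) (SB M (fun _ => 1)) := fun z hz =>
  SB_iff.2 ⟨hg (SB_iff.1 hz).1, rfl, (SB_iff.1 hz).2.2⟩

theorem thin_Phi (hX : Sub d X) (hQ : PField X r (fun x => 1 - P (f x)))
    (hP : ∀ x ∈ X, DifferentiableAt ℝ P (f x)) (hf : ∀ x ∈ X, DifferentiableAt ℝ f x)
    (hg : ∀ x ∈ X, DifferentiableAt ℝ g x) (hT : Thin d X (fun x => (f x, g x)) χ) :
    Thin (r + d) (SB X (fun x => 1 - P (f x))) (Phi g) (fun z => χ z.1.1) := by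
  refine thin_SB hX hQ hP hf hg hT fun z hz w _ h0 => ?_
  have e2 : DifferentiableAt ℝ (fun z : (E × H) × ℝ => g z.1.1) z :=
    DifferentiableAt.comp (g := g) z (hg _ hz.1.1.1) (by fun_prop)
  have e3 : HasFDerivAt (fun z : (E × H) × ℝ => z.1.2) ((ContinuousLinearMap.snd ℝ E H).comp
      (ContinuousLinearMap.fst ℝ (E × H) ℝ)) z :=
    ((ContinuousLinearMap.snd ℝ E H).comp (ContinuousLinearMap.fst ℝ (E × H) ℝ)).hasFDerivAt
  have e4 : HasFDerivAt (Phi g : (E × H) × ℝ → (E₂ × H) × ℝ) _ z :=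
    (e2.hasFDerivAt.prodMk e3).prodMk hasFDerivAt_snd
  rw [e4.fderiv]
  have e6 : fderiv ℝ (fun z : (E × H) × ℝ => g z.1.1) z ((w, (0 : H)), (0 : ℝ)) = 0 := by
    rw [fderiv_comp_pB (hg _ hz.1.1.1)]; exact h0
  exact Prod.ext (Prod.ext e6 rfl) rfl

theorem pull_Phi_pB {z : (E × H) × ℝ} (hg : ContDiffAt ℝ ∞ g z.1.1) :
    F.pull (E := (E × H) × ℝ) (F := (E₂ × H) × ℝ) (Phi g)
      (F.pull (pB : (E₂ × H) × ℝ → E₂) μ) z =
      F.pull (pB : (E × H) × ℝ → E) (F.pull g μ) z := by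
  have hd : DifferentiableAt ℝ (Phi g : (E × H) × ℝ → (E₂ × H) × ℝ) z :=
    (contDiffAt_Phi hg).differentiableAt (by simp)
  have hp : DifferentiableAt ℝ (pB : (E₂ × H) × ℝ → E₂) (Phi g z) :=
    (hasFDerivAt_pB _).differentiableAt
  have hp' : DifferentiableAt ℝ (pB : (E × H) × ℝ → E) z := (hasFDerivAt_pB _).differentiableAt
  have hgd : DifferentiableAt ℝ g (pB z) := hg.differentiableAt (by simp)
  have e1 := F.pull_comp (om := μ) hd hp
  have e2 := F.pull_comp (om := μ) hp' hgd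
  exact e1.trans e2.symm

theorem pull_Phi_up {z : (E × H) × ℝ} (hg : ContDiffAt ℝ ∞ g z.1.1) :
    F.pull (E := (E × H) × ℝ) (F := (E₂ × H) × ℝ) (Phi g) (up (fun _ : E₂ => y₀) R Θ) z =
      up (fun _ : E => y₀) R Θ z := by
  have hd : DifferentiableAt ℝ (Phi g : (E × H) × ℝ → (E₂ × H) × ℝ) z :=
    (contDiffAt_Phi hg).differentiableAt (by simp)
  by_cases h0 : 0 < z.2
  · have e1 : up (fun _ : E₂ => y₀) R Θ (Phi g z) =
        F.pull (kf (fun _ : E₂ => y₀) R) Θ (Phi g z) := if_pos h0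
    have e3 : up (fun _ : E => y₀) R Θ z = F.pull (kf (fun _ : E => y₀) R) Θ z := if_pos h0
    have hk : DifferentiableAt ℝ (kf (fun _ : E₂ => y₀) R : (E₂ × H) × ℝ → E₁ × H) (Phi g z) := by
      unfold kf
      exact (differentiableAt_const _).prodMk (by fun_prop)
    have e4 := F.pull_comp (om := Θ) hd hk
    rw [e3]
    refine Eq.trans ?_ e4
    exact congrArg (pb ((fderiv ℝ (Phi g : (E × H) × ℝ → (E₂ × H) × ℝ) z :
      (E × H) × ℝ →L[ℝ] (E₂ × H) × ℝ) : (E × H) × ℝ →ₗ[ℝ] (E₂ × H) × ℝ)) e1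
  · have e1 : up (fun _ : E₂ => y₀) R Θ (Phi g z) = 0 := if_neg h0
    have e3 : up (fun _ : E => y₀) R Θ z = 0 := if_neg h0
    rw [e3]
    exact (congrArg (pb ((fderiv ℝ (Phi g : (E × H) × ℝ → (E₂ × H) × ℝ) z :
      (E × H) × ℝ →L[ℝ] (E₂ × H) × ℝ) : (E × H) × ℝ →ₗ[ℝ] (E₂ × H) × ℝ)) e1).trans (map_zero _)

theorem pull_Phi {z : (E × H) × ℝ} (hg : ContDiffAt ℝ ∞ g z.1.1) :
    F.pull (E := (E × H) × ℝ) (F := (E₂ × H) × ℝ) (Phi g)
      (fun z : (E₂ × H) × ℝ => up (fun _ : E₂ => y₀) R Θ z * F.pull pB μ z) z =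
      up (fun _ : E => y₀) R Θ z * F.pull pB (F.pull g μ) z := by
  rw [← pull_Phi_up hg, ← pull_Phi_pB hg]
  exact map_mul _ _ _

end phi

section core
variable {n ι ι' κ : Type} [Fintype n] [DecidableEq n] [Fintype ι] [DecidableEq ι]
  [Fintype ι'] [DecidableEq ι'] [Fintype κ] [DecidableEq κ]
  {E E₁ E₂ : Type} [NormedAddCommGroup E] [NormedSpace ℝ E] [FiniteDimensional ℝ E]
  [NormedAddCommGroup E₁] [NormedSpace ℝ E₁] [FiniteDimensional ℝ E₁]
  [NormedAddCommGroup E₂] [NormedSpace ℝ E₂] [FiniteDimensional ℝ E₂]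
  {X : Set E} {Y : Set E₁} {M : Set E₂} {P : E₁ → EuclideanSpace ℝ n →L[ℝ] EuclideanSpace ℝ n}
  {W : E₁ → (ι × Fin 2 → n) → ℝ} {W' : E₁ → (ι' × Fin 2 → n) → ℝ}
  {f : E → E₁} {g : E → E₂} {χ : E → ℝ} {F₀ : Matrix n (κ × Fin 2) ℝ}
  {d dY m : ℕ} {R : ℝ} {oX : E → Ext E} {oM : E₂ → Ext E₂}

/-- the degree -/
theorem exists_deg (hX : Clo d X) (hoX : Ori d X oX)
    (hoX0 : ∀ x ∈ X, ∀ q < d, evA E q (oX x) = 0)
    (h : OR Y P W) (h' : OR Y (fun y => 1 - P y) W') (hf : SMap X Y f) (hg : SMap X M g)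
    (hM : Clo m M) (hMc : IsPreconnected M) (hoM : Ori m M oM)
    (hoM0 : ∀ x ∈ M, ∀ q < m, evA E₂ q (oM x) = 0)
    (hT : Thin d X (fun x => (f x, g x)) χ) [Nonempty κ]
    (hF : F₀ᵀ * F₀ = 1) (hκ : Fintype.card κ * 2 = Fintype.card n)
    (hN : Fintype.card κ * 2 + m = Fintype.card ι' * 2 + d) :
    ∃ D : ℤ, ∀ om : (E₂ × EuclideanSpace ℝ n) × ℝ → Ext ((E₂ × EuclideanSpace ℝ n) × ℝ),
      ContinuousOn om (SB M (fun _ => 1)) →
      J (E := (E × EuclideanSpace ℝ n) × ℝ) (Fintype.card ι' * 2 + d)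
        (SB X (fun x => 1 - P (f x)))
        (fun z => oVf (fun x => W' (f x)) z * F.pull pB oX z)
        (fun z => χ z.1.1 • F.pull (Phi g) om z) =
      D * J (E := (E₂ × EuclideanSpace ℝ n) × ℝ) (Fintype.card κ * 2 + m) (SB M (fun _ => 1))
        (fun z => oVf (fun _ I => (F₀.submatrix I id).det) z * F.pull pB oM z) om := by
  have hor : OR X (fun x => 1 - P (f x)) (fun x => W' (f x)) := OR_comp h' hf
  have hQ := pfield_compl_f h' hf
  have hST := subm_SB hX hQ (fun x hx => OR_sym hor hx)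
  have hoT := ori_SB hX hoX hor (fun x hx => OR_sym hor hx) hoX0
  have hor1 := or_one hF hκ M
  have hQ1 : PField M (Fintype.card κ * 2)
      (fun _ => (1 : EuclideanSpace ℝ n →L[ℝ] EuclideanSpace ℝ n)) := by
    have := hor1.pfield
    rwa [mul_comm] at this
  have hS1 := subm_SB hM hQ1 (fun x hx => OR_sym hor1 hx)
  have hoS := ori_SB hM hoM hor1 (fun x hx => OR_sym hor1 hx) hoM0
  have hSc : IsPreconnected (SB M (fun _ => (1 : EuclideanSpace ℝ n →L[ℝ] EuclideanSpace ℝ n))) :=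
    preconn_SB hM hMc hQ1 (by
      have : 0 < Fintype.card κ := Fintype.card_pos
      omega)
  have hcS := hS1.cloZ
  rw [hN] at hcS hoS ⊢
  refine Thin.degree hST.cloZ hoT hcS hoS hSc (fun z hz => ?_) (maps_Phi hg.maps)
    (thin_Phi hX.sub hQ (fun x hx => ?_) (fun x hx => hf.diff hx) (fun x hx => hg.diff hx) hT)
  · exact (contDiffAt_Phi (hg.smooth _ hz.1.1.1)).of_le two_le_infty
  · exact (h.sP _ (hf.maps hx)).differentiableAt (by simp)

end core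

end Crest.Agent.R208.IM
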