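import Crest.Agent.R208.J1

/-!
R208, block G4a (helper631), part 2: the curvature operator of a geodesic and the Jacobi equation
(in a parallel frame) for the linearised geodesic flow.
-/

set_option autoImplicit false

open Set Filter Topology
open scoped ContDiff RealInnerProductSpace
open Crest.GeometryTopology.Submanifold
open Crest.Agent.R241.DDefs
open Crest.Agent.R241.D2
open Crest.Agent.Lib.ODEFlow

noncomputable section

namespace Crest.Agent.R208.J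

variable {n N : ℕ} {κ : ℝ} {S : Set (Euc N)} {G : Geo n N κ S}

/-- the second fundamental form is symmetric. -/
lemma dP_comm {x v w : Euc N} (hx : x ∈ S) (hv : v ∈ G.T x) (hw : w ∈ G.T x) :
    dP G (x, v) w = dP G (x, w) v := by
  obtain ⟨α, h0, hα, hS, h1, h2⟩ := G.exists_surface x hx v hv w hw
  have hS' : ∀ᶠ q' in 𝓝 (0 : ℝ × ℝ), α q' ∈ S := hS
  have hα2 : ContDiffAt ℝ 2 α 0 := hα.of_le Crest.Agent.R241.D3b.two_le
  have h3 := Crest.Agent.R241.D3b.snd_deriv G hα2 hS' (1, 0) (0, 1)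
  have h4 := Crest.Agent.R241.D3b.snd_deriv G hα2 hS' (0, 1) (1, 0)
  have hsym : fderiv ℝ (fderiv ℝ α) 0 (1, 0) (0, 1) = fderiv ℝ (fderiv ℝ α) 0 (0, 1) (1, 0) := by
    have h := (hα.isSymmSndFDerivAt (n := ∞) Crest.Agent.R241.D3b.min_le)
    exact h.eq _ _
  rw [h0, h1, h2] at h3 h4
  rw [hsym] at h3
  exact (add_left_cancel (h4.symm.trans h3)).symm

/-- tangent vectors of the tangent bundle -/
def TanTS (G : Geo n N κ S) (q z : Euc N × Euc N) : Prop :=
  ∃ c : ℝ → Euc N × Euc N, c 0 = q ∧ HasDerivAt c z 0 ∧ ∀ᶠ s in 𝓝 (0 : ℝ), c s ∈ TS G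

variable {q z : Euc N × Euc N}

lemma TanTS.mem (h : TanTS G q z) : q ∈ TS G := by
  obtain ⟨c, h0, -, h2⟩ := h
  rw [← h0]
  exact h2.self_of_nhds

lemma TanTS.fst_mem (h : TanTS G q z) : z.1 ∈ G.T q.1 := by
  obtain ⟨c, h0, h1, h2⟩ := h
  have := G.deriv_mem (fun s => (c s).1) z.1 0 (h2.mono fun s hs => hs.1) (hda_fst h1)
  rwa [h0] at this

/-- `η = P η + dP(v) ξ`. -/
lemma TanTS.snd_eq (h : TanTS G q z) : z.2 = G.P q.1 z.2 + dP G q z.1 := by
  have hz := h.fst_mem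
  have hq := h.mem
  obtain ⟨c, h0, h1, h2⟩ := h
  have hP := hasDerivAt_P_comp G (hda_fst h1)
  have h3 := hP.clm_apply (hda_snd h1)
  have h4 : (fun s => G.P (c s).1 (c s).2) =ᶠ[𝓝 0] fun s => (c s).2 := by
    filter_upwards [h2] with s hs
    exact (P_eq_self G hs.1).1 hs.2
  have h5 := (h3.congr_of_eventuallyEq h4.symm).unique (hda_snd h1)
  rw [h0] at h5
  rw [dP_comm hq.1 hz hq.2] at h5
  rw [← h5]
  change _ = G.P q.1 (dP G q z.1 + G.P q.1 z.2) + dP G q z.1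
  have h6 : G.P q.1 (dP G q z.1) = 0 := by
    have := P_dP_P hq.1 hq.2 z.1
    rwa [(P_eq_self G hq.1).1 hz] at this
  rw [map_add, h6, P_idem G hq.1, zero_add, add_comm]

/-- derivative of `P dP P = 0`. -/
lemma TanTS.snd (h : TanTS G q z) (a : Euc N) :
    dP G (q.1, z.1) (dP G q (G.P q.1 a)) + G.P q.1 (fderiv ℝ (dP G) q z (G.P q.1 a)) +
      G.P q.1 (dP G q (dP G (q.1, z.1) a)) = 0 := by
  obtain ⟨c, h0, h1, h2⟩ := h
  have hP := hasDerivAt_P_comp G (hda_fst h1)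
  have hPa : HasDerivAt (fun s => G.P (c s).1 a) (dP G ((c 0).1, z.1) a) 0 := by
    simpa using hP.clm_apply (hasDerivAt_const (0 : ℝ) a)
  have hQ : HasDerivAt (fun s => dP G (c s)) (fderiv ℝ (dP G) (c 0) z) 0 := by
    have := ((contDiff_dP G).differentiable (by simp) (c 0)).hasFDerivAt.comp_hasDerivAt (0 : ℝ) h1
    exact this
  have h3 := hP.clm_apply (hQ.clm_apply hPa)
  have h4 : (fun s => G.P (c s).1 (dP G (c s) (G.P (c s).1 a))) =ᶠ[𝓝 0] fun s => 0 := by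
    filter_upwards [h2] with s hs
    exact P_dP_P hs.1 hs.2 a
  have h5 := (h3.congr_of_eventuallyEq h4.symm).unique (hasDerivAt_const (0 : ℝ) (0 : Euc N))
  rw [h0] at h5
  rw [← h5, map_add]
  abel

/-- the tangent space of `TS` is invariant under the flow. -/
lemma TanTS.flow (h : TanTS G q z) (t : ℝ) :
    TanTS G (fl G (q, t)) (fderiv ℝ (fl G) (q, t) (z, 0)) := by
  have hq := h.mem
  obtain ⟨c, h0, h1, h2⟩ := h
  refine ⟨fun s => fl G (c s, t), by simp only [h0], ?_, h2.mono fun s hs => fl_mem G hs t⟩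
  have h3 : HasDerivAt (fun s => (c s, t)) (z, (0 : ℝ)) 0 := h1.prodMk (hasDerivAt_const _ _)
  have h4 : DifferentiableAt ℝ (fl G) (c 0, t) := by
    rw [h0]; exact (contDiffAt_fl' G hq t).differentiableAt (by simp)
  have h5 := h4.hasFDerivAt.comp_hasDerivAt (0 : ℝ) h3
  rw [h0] at h5
  exact h5

/-- all pairs (position, covariant derivative) are tangent to `TS`. -/
lemma tanTS_of {x v a b : Euc N} (hx : x ∈ S) (hv : v ∈ G.T x) (ha : a ∈ G.T x)
    (hb : b ∈ G.T x) : TanTS G (x, v) (a, dP G (x, v) a + b) := by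
  obtain ⟨c, h0, h1, h2⟩ := exists_curve G hx ha
  refine ⟨fun s => (c s, G.P (c s) (v + s • b)), ?_, ?_, ?_⟩
  · simp [h0, (P_eq_self G hx).1 hv]
  · refine h1.prodMk ?_
    have hP := hasDerivAt_P_comp G h1
    have h3 : HasDerivAt (fun s : ℝ => v + s • b) b 0 := by
      simpa using ((hasDerivAt_id (0 : ℝ)).smul_const b).const_add v
    have h4 := hP.clm_apply h3
    refine h4.congr_deriv ?_
    rw [h0, zero_smul, add_zero, (P_eq_self G hx).1 hb, dP_comm hx ha hv]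
  · filter_upwards [h2] with s hs
    exact ⟨hs, P_mem G hs⟩

lemma tanTS_of' (hq : q ∈ TS G) {a b : Euc N} (ha : a ∈ G.T q.1)
    (hb : b ∈ G.T q.1) : TanTS G q (a, dP G q a + b) := tanTS_of hq.1 hq.2 ha hb

/-! ### the curvature operator -/

variable (G)

/-- the unprojected curvature operator `w ↦ dP(w)(dP(v) v) - dP(v) (dP(v) w)`. -/
def Rm0 (q : Euc N × Euc N) : Euc N →L[ℝ] Euc N :=
  (ContinuousLinearMap.apply ℝ (Euc N) (dP G q q.2)) ∘L (fderiv ℝ G.P q.1) - dP G q ∘L dP G q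

/-- the curvature operator `R(·, v) v` of the tangent vector `q = (x, v)`. -/
def Rm (q : Euc N × Euc N) : Euc N →L[ℝ] Euc N := G.P q.1 ∘L Rm0 G q ∘L G.P q.1

lemma contDiff_Rm0 : ContDiff ℝ ∞ (Rm0 G) := by
  rw [contDiff_clm_apply_iff]
  intro w
  have h1 : ContDiff ℝ ∞ (fun q : Euc N × Euc N => fderiv ℝ G.P q.1) :=
    (G.contDiff_P.fderiv_right (by simp)).comp contDiff_fst
  have h2 := contDiff_dP G
  have h3 : ContDiff ℝ ∞ (fun q : Euc N × Euc N => fderiv ℝ G.P q.1 w (dP G q q.2)) :=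
    (h1.clm_apply contDiff_const).clm_apply (h2.clm_apply contDiff_snd)
  have h4 : ContDiff ℝ ∞ (fun q : Euc N × Euc N => dP G q (dP G q w)) :=
    h2.clm_apply (h2.clm_apply contDiff_const)
  exact h3.sub h4

lemma contDiff_Rm : ContDiff ℝ ∞ (Rm G) := by
  have h2 : ContDiff ℝ ∞ (fun q : Euc N × Euc N => G.P q.1) := G.contDiff_P.comp contDiff_fst
  exact h2.clm_comp ((contDiff_Rm0 G).clm_comp h2)

variable {G}

lemma Rm0_apply (q : Euc N × Euc N) (w : Euc N) :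
    Rm0 G q w = dP G (q.1, w) (dP G q q.2) - dP G q (dP G q w) := rfl

lemma Rm_apply (q : Euc N × Euc N) (w : Euc N) :
    Rm G q w = G.P q.1 (Rm0 G q (G.P q.1 w)) := rfl

lemma dP_tangent_normal (hq : q ∈ TS G) {w : Euc N} (hw : w ∈ G.T q.1) :
    G.P q.1 (dP G q w) = 0 := by
  have := P_dP_P hq.1 hq.2 w
  rwa [(P_eq_self G hq.1).1 hw] at this

lemma P_Rm0 (hq : q ∈ TS G) {w : Euc N} (hw : w ∈ G.T q.1) :
    G.P q.1 (Rm0 G q w) = Rm0 G q w := by
  rw [Rm0_apply, map_sub]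
  have h1 := dP_tangent_normal hq hq.2
  have h2 := dP_tangent_normal hq hw
  rw [P_dP_normal hq.1 hw h1]
  have h3 : G.P q.1 (dP G q (dP G q w)) = dP G q (dP G q w) := P_dP_normal hq.1 hq.2 h2
  rw [h3]

lemma Rm_tangent (hq : q ∈ TS G) {w : Euc N} (hw : w ∈ G.T q.1) :
    Rm G q w = dP G (q.1, w) (dP G q q.2) - dP G q (dP G q w) := by
  rw [Rm_apply, (P_eq_self G hq.1).1 hw, P_Rm0 hq hw, Rm0_apply]

lemma Rm_mem (hq : q ∈ TS G) (w : Euc N) : Rm G q w ∈ G.T q.1 := P_mem G hq.1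

lemma Rm_P (hq : q ∈ TS G) (w : Euc N) : Rm G q (G.P q.1 w) = Rm G q w := by
  rw [Rm_apply, P_idem G hq.1, ← Rm_apply]

/-- Gauss equation -/
lemma inner_Rm_tangent (hq : q ∈ TS G) {w u : Euc N} (hw : w ∈ G.T q.1) :
    ⟪Rm G q w, u⟫ = ⟪dP G q q.2, dP G (q.1, w) u⟫ - ⟪dP G q w, dP G q u⟫ := by
  rw [Rm_tangent hq hw, inner_sub_left, inner_dP hq.1 hw]
  have : ⟪dP G q (dP G q w), u⟫ = ⟪dP G q w, dP G q u⟫ := inner_dP hq.1 hq.2 _ _
  rw [this]

/-- the curvature operator is symmetric -/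
lemma inner_Rm (hq : q ∈ TS G) (w u : Euc N) : ⟪Rm G q w, u⟫ = ⟪w, Rm G q u⟫ := by
  have h1 : ∀ w u : Euc N, ⟪Rm G q w, u⟫ = ⟪Rm G q (G.P q.1 w), G.P q.1 u⟫ := by
    intro w u
    rw [Rm_P hq, ← inner_P_left G hq.1, (P_eq_self G hq.1).1 (Rm_mem hq w)]
  rw [h1, real_inner_comm (Rm G q u) w, h1 u w,
    inner_Rm_tangent hq (P_mem G hq.1),
    inner_Rm_tangent hq (P_mem G hq.1),
    dP_comm hq.1 (P_mem G hq.1) (P_mem G hq.1),
    real_inner_comm (dP G q (G.P q.1 w))]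

/-- the velocity is in the kernel. -/
lemma Rm_velocity (hq : q ∈ TS G) : Rm G q q.2 = 0 := by
  rw [Rm_tangent hq hq.2]
  exact sub_self _

/-! ### the curvature along a geodesic, in a parallel frame -/

variable (G)

/-- curvature operator of the geodesic of `q` at time `t`, pulled back to time `0`. -/
def Rh (q : Euc N × Euc N) (t : ℝ) : Euc N →L[ℝ] Euc N :=
  PTi G q t ∘L Rm G (fl G (q, t)) ∘L PT G q t

variable {G}

lemma Rh_apply (q : Euc N × Euc N) (t : ℝ) (w : Euc N) :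
    Rh G q t w = PTi G q t (Rm G (fl G (q, t)) (PT G q t w)) := rfl

lemma contDiff_fl_t (hq : q ∈ TS G) : ContDiff ℝ ∞ (fun t => fl G (q, t)) := by
  rw [contDiff_iff_contDiffAt]
  intro t
  have h2 : ContDiffAt ℝ ∞ (fun s : ℝ => (q, s)) t := by fun_prop
  exact ContDiffAt.comp t (contDiffAt_fl' G hq t) h2

lemma contDiff_Rh (hq : q ∈ TS G) : ContDiff ℝ ∞ (Rh G q) :=
  (contDiff_PTi hq).clm_comp (((contDiff_Rm G).comp (contDiff_fl_t hq)).clm_comp (contDiff_PT hq))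

lemma inner_Rh (hq : q ∈ TS G) (t : ℝ) (w u : Euc N) : ⟪Rh G q t w, u⟫ = ⟪w, Rh G q t u⟫ := by
  rw [Rh_apply, Rh_apply, inner_PTi_left, inner_PTi_right, inner_Rm (fl_mem G hq t)]

lemma Rh_mem (hq : q ∈ TS G) (t : ℝ) (w : Euc N) : Rh G q t w ∈ G.T q.1 :=
  PTi_mem hq t (Rm_mem (fl_mem G hq t) _)

lemma Rh_P (hq : q ∈ TS G) (t : ℝ) (w : Euc N) : Rh G q t (G.P q.1 w) = Rh G q t w := by
  rw [Rh_apply, ← P_PT hq, Rm_P (fl_mem G hq t), ← Rh_apply]

lemma Rh_velocity (hq : q ∈ TS G) (t : ℝ) : Rh G q t q.2 = 0 := by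
  rw [Rh_apply, PT_velocity hq, Rm_velocity (fl_mem G hq t), map_zero]

lemma inner_Rh_velocity (hq : q ∈ TS G) (t : ℝ) (w : Euc N) : ⟪Rh G q t w, q.2⟫ = 0 := by
  rw [inner_Rh hq, Rh_velocity hq, inner_zero_right]

/-! ### Jacobi fields -/

variable (G)

/-- linearised geodesic flow -/
def Dfl (q : Euc N × Euc N) (t : ℝ) (z : Euc N × Euc N) : Euc N × Euc N :=
  fderiv ℝ (fl G) (q, t) (z, 0)

/-- the Jacobi field with initial data `z ∈ T_q TS`. -/
def JF (q z : Euc N × Euc N) (t : ℝ) : Euc N := (Dfl G q t z).1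

/-- its ambient derivative -/
def JF' (q z : Euc N × Euc N) (t : ℝ) : Euc N := (Dfl G q t z).2

variable {G}

lemma Dfl_zero (z : Euc N × Euc N) : Dfl G q 0 z = z :=
  fderiv_flow_zero isOpen_univ (hX1 G) (mem_univ _) z

lemma JF_zero : JF G q z 0 = z.1 := by rw [JF, Dfl_zero]
lemma JF'_zero : JF' G q z 0 = z.2 := by rw [JF', Dfl_zero]

lemma hasDerivAt_Dfl (hq : q ∈ TS G) (t : ℝ) (z : Euc N × Euc N) :
    HasDerivAt (fun s => Dfl G q s z) (fderiv ℝ (X G) (fl G (q, t)) (Dfl G q t z)) t :=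
  hasDerivAt_fderiv_flow isOpen_univ (((contDiff_X G).of_le
    Crest.Agent.R241.D3b.two_le).contDiffOn) (complete G hq t) z

lemma fderiv_X (p z : Euc N × Euc N) :
    fderiv ℝ (X G) p z = (z.2, fderiv ℝ (dP G) p z p.2 + dP G p z.2) := by
  have h1 : HasFDerivAt (dP G) (fderiv ℝ (dP G) p) p :=
    ((contDiff_dP G).differentiable (by simp) p).hasFDerivAt
  have h2 : HasFDerivAt (fun p : Euc N × Euc N => p.2) (ContinuousLinearMap.snd ℝ (Euc N) (Euc N))
      p := hasFDerivAt_snd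
  have h3 := h2.prodMk (h1.clm_apply h2)
  have h4 : (fun p : Euc N × Euc N => (p.2, dP G p p.2)) = X G := rfl
  rw [h4] at h3
  rw [h3.fderiv]
  refine Prod.ext rfl ?_
  simp [add_comm]

lemma hasDerivAt_JF (hq : q ∈ TS G) (t : ℝ) (z : Euc N × Euc N) :
    HasDerivAt (JF G q z) (JF' G q z t) t := by
  have := hda_fst (hasDerivAt_Dfl hq t z)
  rw [fderiv_X] at this
  exact this

lemma hasDerivAt_JF' (hq : q ∈ TS G) (t : ℝ) (z : Euc N × Euc N) :
    HasDerivAt (JF' G q z) (fderiv ℝ (dP G) (fl G (q, t)) (Dfl G q t z) (fl G (q, t)).2 +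
      dP G (fl G (q, t)) (JF' G q z t)) t := by
  have := hda_snd (hasDerivAt_Dfl hq t z)
  rw [fderiv_X] at this
  exact this

lemma JF_mem (h : TanTS G q z) (t : ℝ) : JF G q z t ∈ G.T (fl G (q, t)).1 := (h.flow t).fst_mem

lemma hasDerivAt_PTi (hq : q ∈ TS G) {u : ℝ → Euc N} {u' : Euc N} {t : ℝ}
    (hu : HasDerivAt u u' t) :
    HasDerivAt (fun t => PTi G q t (u t)) (PTi G q t (u' - Om G (fl G (q, t)) (u t))) t := by
  have h1 : HasDerivAt (PTi G q) ((Om G (fl G (q, t)) ∘L PT G q t).adjoint) t := by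
    have h2 := (ContinuousLinearMap.adjoint (𝕜 := ℝ) (E := Euc N)
      (F := Euc N)).toContinuousLinearEquiv.toContinuousLinearMap.hasFDerivAt.comp_hasDerivAt t
      (hasDerivAt_PT hq t)
    exact h2
  have h3 := h1.clm_apply hu
  refine h3.congr_deriv ?_
  refine ext_inner_right ℝ fun b => ?_
  rw [inner_add_left, ContinuousLinearMap.adjoint_inner_left, ContinuousLinearMap.comp_apply,
    inner_PTi_left, inner_PTi_left, inner_sub_left, inner_Om (fl_mem G hq t)]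
  ring

/-- **Jacobi equation**, first order part. -/
theorem hasDerivAt_W (h : TanTS G q z) (t : ℝ) :
    HasDerivAt (fun t => PTi G q t (JF G q z t))
      (PTi G q t (G.P (fl G (q, t)).1 (JF' G q z t))) t := by
  have hq := h.mem
  have h1 := hasDerivAt_PTi hq (hasDerivAt_JF hq t z)
  refine h1.congr_deriv ?_
  congr 1
  have h2 := (h.flow t).snd_eq
  have hm := fl_mem G hq t
  rw [Om_tangent hm (JF_mem h t)]
  have h3 : JF' G q z t = G.P (fl G (q, t)).1 (JF' G q z t) + dP G (fl G (q, t)) (JF G q z t) := h2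
  nth_rewrite 1 [h3]
  abel

/-- **Jacobi equation**, second order part. -/
theorem hasDerivAt_W' (h : TanTS G q z) (t : ℝ) :
    HasDerivAt (fun t => PTi G q t (G.P (fl G (q, t)).1 (JF' G q z t)))
      (- Rh G q t (PTi G q t (JF G q z t))) t := by
  have hq := h.mem
  have hm := fl_mem G hq t
  set p := fl G (q, t) with hp
  set ξ := JF G q z t with hξ
  set η := JF' G q z t with hη
  have hP := hasDerivAt_P_comp G (hda_fst (hasDerivAt_fl G (complete G hq t)))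
  have h1 := hasDerivAt_PTi hq (hP.clm_apply (hasDerivAt_JF' hq t z))
  refine h1.congr_deriv ?_
  have e0 : dP G ((fl G (q, t)).1, (X G (fl G (q, t))).1) = dP G p := rfl
  rw [e0, ← hp, ← hη, Rh_apply, PT_PTi hq, ← map_neg]
  congr 1
  have hξm : ξ ∈ G.T p.1 := JF_mem h t
  have hs := (h.flow t).snd_eq
  have hz1 : (fderiv ℝ (fl G) (q, t) (z, 0)).1 = ξ := rfl
  have hz2 : (fderiv ℝ (fl G) (q, t) (z, 0)).2 = η := rfl
  rw [hz1, hz2, ← hp] at hs
  have h2 := (h.flow t).snd p.2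
  rw [hz1, ← hp] at h2
  have hpv : G.P p.1 p.2 = p.2 := (P_eq_self G hm.1).1 hm.2
  have hcomm : dP G (p.1, ξ) p.2 = dP G p ξ := dP_comm hm.1 hξm hm.2
  rw [hpv, hcomm] at h2
  have hnξ : G.P p.1 (dP G p ξ) = 0 := dP_tangent_normal hm hξm
  have e1 : G.P p.1 (dP G p (dP G p ξ)) = dP G p (dP G p ξ) := P_dP_normal hm.1 hm.2 hnξ
  have e2 : G.P p.1 (dP G p (G.P p.1 η)) = 0 := P_dP_P hm.1 hm.2 η
  have e3 : Om G p (G.P p.1 η) = dP G p (G.P p.1 η) := Om_tangent hm (P_mem G hm.1)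
  rw [e3, Rm_tangent hm hξm, map_add]
  have hD : Dfl G q t z = fderiv ℝ (fl G) (q, t) (z, 0) := rfl
  rw [hD]
  have e4 : dP G p η = dP G p (G.P p.1 η) + dP G p (dP G p ξ) := by
    rw [← map_add, ← hs]
  have e5 : G.P p.1 (dP G p η) = dP G p (dP G p ξ) := by
    rw [e4, map_add, e2, e1, zero_add]
  rw [e5, e4]
  rw [e1] at h2
  have h3 : G.P p.1 (fderiv ℝ (dP G) p (fderiv ℝ (fl G) (q, t) (z, 0)) p.2) =
      -(dP G (p.1, ξ) (dP G p p.2)) - dP G p (dP G p ξ) := by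
    rw [eq_sub_iff_add_eq, eq_neg_iff_add_eq_zero, ← h2]
    abel
  rw [h3]
  abel

end Crest.Agent.R208.J
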