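import Crest.Agent.R208.J2

/-!
R208, block G4a (helper631), part 3: the Jacobi tensor `At G q s t` of the geodesic of `q` in a
parallel frame (ambient form), its differential equation, smoothness, Wronskian identities.
-/

set_option autoImplicit false

open Set Filter Topology
open scoped ContDiff RealInnerProductSpace
open Crest.GeometryTopology.Submanifold
open Crest.Agent.R241.DDefs
open Crest.Agent.R241.D2
open Crest.Agent.Lib.ODEFlow

noncomputable section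

namespace Crest.Agent.R208.J

/-! ### abstract second order linear equations -/

section abstractODE

variable {E : Type*} [NormedAddCommGroup E] [InnerProductSpace ℝ E]

/-- `j` is a solution of `j'' = - R j` with derivative `j'`. -/
structure IsJac (R : ℝ → E →L[ℝ] E) (j j' : ℝ → E) : Prop where
  fst : ∀ t, HasDerivAt j (j' t) t
  snd : ∀ t, HasDerivAt j' (-(R t (j t))) t

variable {R : ℝ → E →L[ℝ] E} {j j' k k' : ℝ → E}

lemma IsJac.add (h : IsJac R j j') (h2 : IsJac R k k') :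
    IsJac R (fun t => j t + k t) (fun t => j' t + k' t) :=
  ⟨fun t => (h.fst t).add (h2.fst t), fun t => ((h.snd t).add (h2.snd t)).congr_deriv (by
    rw [map_add]; abel)⟩

lemma IsJac.smul (h : IsJac R j j') (c : ℝ) :
    IsJac R (fun t => c • j t) (fun t => c • j' t) :=
  ⟨fun t => (h.fst t).const_smul c, fun t => ((h.snd t).const_smul c).congr_deriv (by
    rw [map_smul, smul_neg])⟩

lemma IsJac.sub (h : IsJac R j j') (h2 : IsJac R k k') :
    IsJac R (fun t => j t - k t) (fun t => j' t - k' t) :=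
  ⟨fun t => (h.fst t).sub (h2.fst t), fun t => ((h.snd t).sub (h2.snd t)).congr_deriv (by
    rw [map_sub]; abel)⟩

/-- uniqueness -/
theorem IsJac.eq_zero (hR : Continuous R) (h : IsJac R j j') {t₀ : ℝ} (h0 : j t₀ = 0)
    (h0' : j' t₀ = 0) (t : ℝ) : j t = 0 ∧ j' t = 0 := by
  obtain ⟨a, ha1, ha2⟩ : ∃ a, a < t₀ ∧ a < t := ⟨min t₀ t - 1, by
    have := min_le_left t₀ t; linarith, by have := min_le_right t₀ t; linarith⟩
  obtain ⟨b, hb1, hb2⟩ : ∃ b, t₀ < b ∧ t < b := ⟨max t₀ t + 1, by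
    have := le_max_left t₀ t; linarith, by have := le_max_right t₀ t; linarith⟩
  obtain ⟨M, hM⟩ := (isCompact_Icc (a := a) (b := b)).exists_bound_of_continuousOn
    hR.continuousOn
  have hM0 : 0 ≤ M := (norm_nonneg _).trans (hM t₀ ⟨ha1.le, hb1.le⟩)
  set K : NNReal := ⟨1 + M, by linarith⟩ with hK
  have hlip : ∀ r ∈ Ioo a b, LipschitzOnWith K (fun x : E × E => (x.2, -(R r x.1))) univ := by
    intro r hr
    refine LipschitzOnWith.of_dist_le_mul fun x _ y _ => ?_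
    have h1 : ‖R r‖ ≤ M := hM r ⟨hr.1.le, hr.2.le⟩
    rw [Prod.dist_eq]
    refine max_le ?_ ?_
    · have h2 : dist x.2 y.2 ≤ dist x y := by rw [Prod.dist_eq]; exact le_max_right _ _
      have h3 : (K : ℝ) = 1 + M := rfl
      rw [h3]
      change dist x.2 y.2 ≤ _
      nlinarith [dist_nonneg (x := x) (y := y)]
    · have h2 : dist x.1 y.1 ≤ dist x y := by rw [Prod.dist_eq]; exact le_max_left _ _
      have h3 : (K : ℝ) = 1 + M := rfl
      rw [h3]
      change dist (-(R r x.1)) (-(R r y.1)) ≤ _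
      rw [dist_neg_neg, dist_eq_norm, ← map_sub]
      refine ((R r).le_opNorm _).trans ?_
      rw [← dist_eq_norm]
      have h4 : ‖R r‖ * dist x.1 y.1 ≤ M * dist x y :=
        mul_le_mul h1 h2 dist_nonneg hM0
      nlinarith [dist_nonneg (x := x) (y := y)]
  have key := ODE_solution_unique_of_mem_Ioo (v := fun r (x : E × E) => (x.2, -(R r x.1)))
    (s := fun _ => univ) (K := K) (f := fun r => (j r, j' r)) (g := fun _ => (0 : E × E))
    (a := a) (b := b) (t₀ := t₀) hlip ⟨ha1, hb1⟩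
    (fun r _ => ⟨(h.fst r).prodMk (h.snd r), mem_univ _⟩)
    (fun r _ => ⟨(hasDerivAt_const r (0 : E × E)).congr_deriv (by
      refine Prod.ext ?_ ?_ <;> simp), mem_univ _⟩)
    (by simp [h0, h0'])
  have h1 := key ⟨ha2, hb2⟩
  simpa [Prod.ext_iff] using h1

theorem IsJac.unique (hR : Continuous R) (h : IsJac R j j') (h2 : IsJac R k k') {t₀ : ℝ}
    (h0 : j t₀ = k t₀) (h0' : j' t₀ = k' t₀) (t : ℝ) : j t = k t ∧ j' t = k' t := by
  have := (h.sub h2).eq_zero hR (t₀ := t₀) (by simp [h0]) (by simp [h0']) t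
  exact ⟨sub_eq_zero.1 this.1, sub_eq_zero.1 this.2⟩

/-- the Wronskian is constant. -/
theorem IsJac.wronskian (hsymm : ∀ t a b, ⟪R t a, b⟫ = ⟪a, R t b⟫) (h : IsJac R j j')
    (h2 : IsJac R k k') (s t : ℝ) :
    ⟪j' t, k t⟫ - ⟪j t, k' t⟫ = ⟪j' s, k s⟫ - ⟪j s, k' s⟫ := by
  have hd : ∀ t, HasDerivAt (fun t => ⟪j' t, k t⟫ - ⟪j t, k' t⟫) 0 t := by
    intro t
    refine (((h.snd t).inner ℝ (h2.fst t)).sub ((h.fst t).inner ℝ (h2.snd t))).congr_deriv ?_
    rw [inner_neg_left, inner_neg_right, hsymm]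
    ring
  exact is_const_of_deriv_eq_zero (fun t => (hd t).differentiableAt) (fun t => (hd t).deriv) t s

end abstractODE

variable {n N : ℕ} {κ : ℝ} {S : Set (Euc N)} {G : Geo n N κ S} {q : Euc N × Euc N}

/-! ### solutions with arbitrary initial data at time `0` -/

/-- the solution of the Jacobi equation in the parallel frame, initial data `a`, `b`. -/
def Wj (G : Geo n N κ S) (q : Euc N × Euc N) (a b : Euc N) (t : ℝ) : Euc N :=
  PTi G q t (JF G q (a, dP G q a + b) t)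

def Wj' (G : Geo n N κ S) (q : Euc N × Euc N) (a b : Euc N) (t : ℝ) : Euc N :=
  PTi G q t (G.P (fl G (q, t)).1 (JF' G q (a, dP G q a + b) t))

lemma PTi_zero_apply (a : Euc N) : PTi G q 0 a = a := by
  refine ext_inner_right ℝ fun b => ?_
  rw [inner_PTi_left, PT_zero]
  rfl

lemma Wj_zero (a b : Euc N) : Wj G q a b 0 = a := by
  rw [Wj, JF_zero, PTi_zero_apply]

lemma Wj'_zero (hq : q ∈ TS G) {a b : Euc N} (ha : a ∈ G.T q.1) (hb : b ∈ G.T q.1) :
    Wj' G q a b 0 = b := by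
  rw [Wj', JF'_zero, PTi_zero_apply, fl_zero, map_add, dP_tangent_normal hq ha,
    (P_eq_self G hq.1).1 hb, zero_add]

lemma isJac_Wj (hq : q ∈ TS G) {a b : Euc N} (ha : a ∈ G.T q.1) (hb : b ∈ G.T q.1) :
    IsJac (Rh G q) (Wj G q a b) (Wj' G q a b) :=
  ⟨fun t => hasDerivAt_W (tanTS_of' hq ha hb) t, fun t => hasDerivAt_W' (tanTS_of' hq ha hb) t⟩

lemma Wj_mem (hq : q ∈ TS G) {a b : Euc N} (ha : a ∈ G.T q.1) (hb : b ∈ G.T q.1) (t : ℝ) :
    Wj G q a b t ∈ G.T q.1 := PTi_mem hq t (JF_mem (tanTS_of' hq ha hb) t)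

lemma Wj'_mem (hq : q ∈ TS G) (a b : Euc N) (t : ℝ) :
    Wj' G q a b t ∈ G.T q.1 := PTi_mem hq t (P_mem G (fl_mem G hq t).1)

/-- the covariant derivative of a Jacobi field. -/
lemma PT_Wj (hq : q ∈ TS G) (a b : Euc N) (t : ℝ) :
    PT G q t (Wj G q a b t) = JF G q (a, dP G q a + b) t := PT_PTi hq t _

lemma PT_Wj' (hq : q ∈ TS G) (a b : Euc N) (t : ℝ) :
    PT G q t (Wj' G q a b t) = G.P (fl G (q, t)).1 (JF' G q (a, dP G q a + b) t) :=
  PT_PTi hq t _

/-- the linearised flow in terms of the frame solutions -/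
lemma Dfl_eq (hq : q ∈ TS G) {a b : Euc N} (ha : a ∈ G.T q.1) (hb : b ∈ G.T q.1) (t : ℝ) :
    Dfl G q t (a, dP G q a + b) = (PT G q t (Wj G q a b t),
      dP G (fl G (q, t)) (PT G q t (Wj G q a b t)) + PT G q t (Wj' G q a b t)) := by
  rw [PT_Wj hq, PT_Wj' hq]
  have h := ((tanTS_of' hq ha hb).flow t).snd_eq
  refine Prod.ext rfl ?_
  change JF' G q (a, dP G q a + b) t = _
  have h2 : JF' G q (a, dP G q a + b) t = G.P (fl G (q, t)).1 (JF' G q (a, dP G q a + b) t) +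
      dP G (fl G (q, t)) (JF G q (a, dP G q a + b) t) := h
  exact h2.trans (add_comm (G.P (fl G (q, t)).1 (JF' G q (a, dP G q a + b) t))
    (dP G (fl G (q, t)) (JF G q (a, dP G q a + b) t)))

/-! ### change of base point -/

lemma PTi_add (hq : q ∈ TS G) (s t : ℝ) (a : Euc N) :
    PTi G q (s + t) a = PTi G q s (PTi G (fl G (q, s)) t a) := by
  refine ext_inner_right ℝ fun b => ?_
  rw [inner_PTi_left, inner_PTi_left, inner_PTi_left, PT_add hq]

lemma Rh_add (hq : q ∈ TS G) (s t : ℝ) (a : Euc N) :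
    Rh G q (s + t) a = PTi G q s (Rh G (fl G (q, s)) t (PT G q s a)) := by
  rw [Rh_apply, Rh_apply, PTi_add hq, PT_add hq, fl_add' G hq]

/-- solutions for the geodesic of `fl (q, s)` give solutions for the geodesic of `q`. -/
lemma IsJac.shift (hq : q ∈ TS G) (s : ℝ) {j j' : ℝ → Euc N}
    (h : IsJac (Rh G (fl G (q, s))) j j') :
    IsJac (Rh G q) (fun t => PTi G q s (j (t - s))) (fun t => PTi G q s (j' (t - s))) := by
  have hsub : ∀ t : ℝ, HasDerivAt (fun t => t - s) 1 t := fun t => (hasDerivAt_id t).sub_const s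
  refine ⟨fun t => ?_, fun t => ?_⟩
  · have h1 := (h.fst (t - s)).scomp t (hsub t)
    rw [one_smul] at h1
    exact (PTi G q s).hasFDerivAt.comp_hasDerivAt t h1
  · have h1 := (h.snd (t - s)).scomp t (hsub t)
    rw [one_smul] at h1
    have h2 := (PTi G q s).hasFDerivAt.comp_hasDerivAt t h1
    refine h2.congr_deriv ?_
    have h3 : t = s + (t - s) := by ring
    have h4 := Rh_add hq s (t - s) (PTi G q s (j (t - s)))
    rw [← h3, PT_PTi hq] at h4
    rw [h4, map_neg]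

/-! ### the Jacobi tensor -/

/-- the inclusion `w ↦ ((0, w), 0)` -/
def L0 (N : ℕ) : Euc N →L[ℝ] (Euc N × Euc N) × ℝ :=
  (ContinuousLinearMap.inl ℝ (Euc N × Euc N) ℝ) ∘L (ContinuousLinearMap.inr ℝ (Euc N) (Euc N))

lemma L0_apply (w : Euc N) : L0 N w = ((0, w), 0) := rfl

/-- Jacobi tensor: `At G q s t w` is, in the parallel frame along the geodesic of `q` (based at
time `0`), the value at time `t` of the Jacobi field which vanishes at time `s` and has derivative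
`w` there. -/
def At (G : Geo n N κ S) (q : Euc N × Euc N) (s t : ℝ) : Euc N →L[ℝ] Euc N :=
  PTi G q t ∘L (ContinuousLinearMap.fst ℝ (Euc N) (Euc N)) ∘L
    (fderiv ℝ (fl G) (fl G (q, s), t - s)) ∘L (L0 N) ∘L (PT G q s) ∘L (G.P q.1)

/-- its derivative in `t` -/
def At' (G : Geo n N κ S) (q : Euc N × Euc N) (s t : ℝ) : Euc N →L[ℝ] Euc N :=
  PTi G q t ∘L (G.P (fl G (q, t)).1) ∘L (ContinuousLinearMap.snd ℝ (Euc N) (Euc N)) ∘L
    (fderiv ℝ (fl G) (fl G (q, s), t - s)) ∘L (L0 N) ∘L (PT G q s) ∘L (G.P q.1)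

lemma At_apply' (q : Euc N × Euc N) (s t : ℝ) (w : Euc N) :
    At G q s t w = PTi G q t (JF G (fl G (q, s)) (0, PT G q s (G.P q.1 w)) (t - s)) := rfl

lemma At'_apply' (q : Euc N × Euc N) (s t : ℝ) (w : Euc N) :
    At' G q s t w = PTi G q t (G.P (fl G (q, t)).1
      (JF' G (fl G (q, s)) (0, PT G q s (G.P q.1 w)) (t - s))) := rfl

lemma At_apply (hq : q ∈ TS G) (s t : ℝ) (w : Euc N) :
    At G q s t w = PTi G q s (Wj G (fl G (q, s)) 0 (PT G q s (G.P q.1 w)) (t - s)) := by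
  have h : t = s + (t - s) := by ring
  rw [At_apply', Wj]
  conv_lhs => rw [h, PTi_add hq]
  rw [← h]
  simp

lemma At'_apply (hq : q ∈ TS G) (s t : ℝ) (w : Euc N) :
    At' G q s t w = PTi G q s (Wj' G (fl G (q, s)) 0 (PT G q s (G.P q.1 w)) (t - s)) := by
  have h : t = s + (t - s) := by ring
  rw [At'_apply', Wj', ← fl_add' G hq, ← h]
  have h1 : PTi G q t = PTi G q (s + (t - s)) := by rw [← h]
  rw [h1, PTi_add hq]
  simp

lemma isJac_At (hq : q ∈ TS G) (s : ℝ) (w : Euc N) :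
    IsJac (Rh G q) (fun t => At G q s t w) (fun t => At' G q s t w) := by
  have hs := fl_mem G hq s
  have h := (isJac_Wj hs (a := 0) (b := PT G q s (G.P q.1 w)) (G.T _).zero_mem
    (PT_mem hq s (P_mem G hq.1))).shift hq s
  have e1 : (fun t => At G q s t w) =
      fun t => PTi G q s (Wj G (fl G (q, s)) 0 (PT G q s (G.P q.1 w)) (t - s)) :=
    funext fun t => At_apply hq s t w
  have e2 : (fun t => At' G q s t w) =
      fun t => PTi G q s (Wj' G (fl G (q, s)) 0 (PT G q s (G.P q.1 w)) (t - s)) :=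
    funext fun t => At'_apply hq s t w
  rw [e1, e2]
  exact h

lemma At_self (hq : q ∈ TS G) (s : ℝ) (w : Euc N) : At G q s s w = 0 := by
  rw [At_apply hq, sub_self, Wj_zero, map_zero]

lemma At'_self (hq : q ∈ TS G) (s : ℝ) (w : Euc N) : At' G q s s w = G.P q.1 w := by
  rw [At'_apply hq, sub_self, Wj'_zero (fl_mem G hq s) (G.T _).zero_mem
    (PT_mem hq s (P_mem G hq.1)), PTi_PT hq]

lemma At_mem (hq : q ∈ TS G) (s t : ℝ) (w : Euc N) : At G q s t w ∈ G.T q.1 := by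
  rw [At_apply hq]
  exact PTi_mem hq s (Wj_mem (fl_mem G hq s) (G.T _).zero_mem (PT_mem hq s (P_mem G hq.1)) _)

lemma At'_mem (hq : q ∈ TS G) (s t : ℝ) (w : Euc N) : At' G q s t w ∈ G.T q.1 := by
  rw [At'_apply hq]
  exact PTi_mem hq s (Wj'_mem (fl_mem G hq s) _ _ _)

lemma At_P (hq : q ∈ TS G) (s t : ℝ) (w : Euc N) : At G q s t (G.P q.1 w) = At G q s t w := by
  rw [At_apply', P_idem G hq.1, ← At_apply']

lemma At'_P (hq : q ∈ TS G) (s t : ℝ) (w : Euc N) : At' G q s t (G.P q.1 w) = At' G q s t w := by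
  rw [At'_apply', P_idem G hq.1, ← At'_apply']

/-- **symmetry**: `A(s,t)* = - A(t,s)`. -/
theorem inner_At (hq : q ∈ TS G) (s t : ℝ) (w u : Euc N) :
    ⟪At G q s t w, u⟫ = - ⟪w, At G q t s u⟫ := by
  have key : ∀ w u : Euc N, w ∈ G.T q.1 → u ∈ G.T q.1 →
      ⟪At G q s t w, u⟫ = - ⟪w, At G q t s u⟫ := by
    intro w u hw hu
    have h := (isJac_At hq s w).wronskian (fun t a b => inner_Rh hq t a b) (isJac_At hq t u) s t
    rw [At_self hq t u, At_self hq s w, At'_self hq, At'_self hq, (P_eq_self G hq.1).1 hw,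
      (P_eq_self G hq.1).1 hu, inner_zero_right, inner_zero_left] at h
    linarith
  have h1 := key (G.P q.1 w) (G.P q.1 u) (P_mem G hq.1) (P_mem G hq.1)
  rw [At_P hq, At_P hq, ← inner_P_left G hq.1, (P_eq_self G hq.1).1 (At_mem hq s t w),
    inner_P_left G hq.1, (P_eq_self G hq.1).1 (At_mem hq t s u)] at h1
  exact h1

/-- the velocity direction -/
lemma At_velocity (hq : q ∈ TS G) (s t : ℝ) : At G q s t q.2 = (t - s) • q.2 := by
  have h2 : IsJac (Rh G q) (fun t => (t - s) • q.2) (fun _ => q.2) := by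
    refine ⟨fun t => ?_, fun t => ?_⟩
    · simpa using ((hasDerivAt_id t).sub_const s).smul_const q.2
    · rw [map_smul, Rh_velocity hq]
      simpa using hasDerivAt_const t q.2
  exact ((isJac_At hq s q.2).unique (contDiff_Rh hq).continuous h2 (t₀ := s)
    (by simp [At_self hq]) (by rw [At'_self hq, (P_eq_self G hq.1).1 hq.2]) t).1

lemma At'_velocity (hq : q ∈ TS G) (s t : ℝ) : At' G q s t q.2 = q.2 := by
  have h2 : IsJac (Rh G q) (fun t => (t - s) • q.2) (fun _ => q.2) := by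
    refine ⟨fun t => ?_, fun t => ?_⟩
    · simpa using ((hasDerivAt_id t).sub_const s).smul_const q.2
    · rw [map_smul, Rh_velocity hq]
      simpa using hasDerivAt_const t q.2
  exact ((isJac_At hq s q.2).unique (contDiff_Rh hq).continuous h2 (t₀ := s)
    (by simp [At_self hq]) (by rw [At'_self hq, (P_eq_self G hq.1).1 hq.2]) t).2

/-- Gauss lemma in the frame -/
lemma inner_At_velocity (hq : q ∈ TS G) (s t : ℝ) (w : Euc N) :
    ⟪At G q s t w, q.2⟫ = (t - s) * ⟪w, q.2⟫ := by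
  rw [inner_At hq, At_velocity hq, inner_smul_right]
  ring

lemma inner_At'_velocity (hq : q ∈ TS G) (s t : ℝ) (w : Euc N) :
    ⟪At' G q s t w, q.2⟫ = ⟪w, q.2⟫ := by
  have h1 : HasDerivAt (fun t => ⟪At G q s t w, q.2⟫) ⟪At' G q s t w, q.2⟫ t := by
    have := ((isJac_At hq s w).fst t).inner ℝ (hasDerivAt_const t q.2)
    simpa using this
  have h2 : HasDerivAt (fun t => ⟪At G q s t w, q.2⟫) ⟪w, q.2⟫ t := by
    have e : (fun t => ⟪At G q s t w, q.2⟫) = fun t => (t - s) * ⟪w, q.2⟫ :=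
      funext fun t => inner_At_velocity hq s t w
    rw [e]
    simpa using ((hasDerivAt_id t).sub_const s).mul_const ⟪w, q.2⟫
  exact h1.unique h2

/-- every solution with values in the tangent space is a combination -/
lemma Wj_eq_At (hq : q ∈ TS G) {b : Euc N} (hb : b ∈ G.T q.1) (t : ℝ) :
    Wj G q 0 b t = At G q 0 t b ∧ Wj' G q 0 b t = At' G q 0 t b := by
  refine (isJac_Wj hq (G.T _).zero_mem hb).unique (contDiff_Rh hq).continuous (isJac_At hq 0 b)
    (t₀ := 0) ?_ ?_ t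
  · rw [Wj_zero, At_self hq]
  · rw [Wj'_zero hq (G.T _).zero_mem hb, At'_self hq, (P_eq_self G hq.1).1 hb]

/-! ### smoothness -/

lemma contDiffAt_PTi (hq : q ∈ TS G) (t : ℝ) :
    ContDiffAt ℝ ∞ (fun z : (Euc N × Euc N) × ℝ => PTi G z.1 z.2) (q, t) := by
  have h1 : ContDiff ℝ ∞ (fun L : Euc N →L[ℝ] Euc N => L.adjoint) :=
    (ContinuousLinearMap.adjoint (𝕜 := ℝ) (E := Euc N) (F := Euc N)).toContinuousLinearEquiv.contDiff
  exact h1.contDiffAt.comp (q, t) (contDiffAt_PT hq t)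

lemma contDiffAt_fst_part (hq : q ∈ TS G) (s t : ℝ) :
    ContDiffAt ℝ ∞ (fun z : (Euc N × Euc N) × ℝ × ℝ =>
      fderiv ℝ (fl G) (fl G (z.1, z.2.1), z.2.2 - z.2.1)) (q, s, t) := by
  have h1 : ContDiffAt ℝ ∞ (fderiv ℝ (fl G)) (fl G (q, s), t - s) :=
    (contDiffAt_fl' G (fl_mem G hq s) (t - s)).fderiv_right (by simp)
  have h2 : ContDiffAt ℝ ∞ (fun z : (Euc N × Euc N) × ℝ × ℝ => (z.1, z.2.1)) (q, s, t) := by
    fun_prop
  have h3 : ContDiffAt ℝ ∞ (fun z : (Euc N × Euc N) × ℝ × ℝ => fl G (z.1, z.2.1)) (q, s, t) :=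
    ContDiffAt.comp (q, s, t) (contDiffAt_fl' G hq s) h2
  have h4 : ContDiffAt ℝ ∞ (fun z : (Euc N × Euc N) × ℝ × ℝ => z.2.2 - z.2.1) (q, s, t) := by
    fun_prop
  exact ContDiffAt.comp (g := fderiv ℝ (fl G)) (q, s, t) h1 (h3.prodMk h4)

lemma contDiffAt_core (hq : q ∈ TS G) (s t : ℝ) :
    ContDiffAt ℝ ∞ (fun z : (Euc N × Euc N) × ℝ × ℝ =>
      (fderiv ℝ (fl G) (fl G (z.1, z.2.1), z.2.2 - z.2.1)).comp
        ((L0 N).comp ((PT G z.1 z.2.1).comp (G.P z.1.1)))) (q, s, t) := by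
  have h2 : ContDiffAt ℝ ∞ (fun z : (Euc N × Euc N) × ℝ × ℝ => (z.1, z.2.1)) (q, s, t) := by
    fun_prop
  have h3 : ContDiffAt ℝ ∞ (fun z : (Euc N × Euc N) × ℝ × ℝ => PT G z.1 z.2.1) (q, s, t) :=
    ContDiffAt.comp (g := fun z : (Euc N × Euc N) × ℝ => PT G z.1 z.2) (q, s, t)
      (contDiffAt_PT hq s) h2
  have h4 : ContDiffAt ℝ ∞ (fun z : (Euc N × Euc N) × ℝ × ℝ => G.P z.1.1) (q, s, t) :=
    (G.contDiff_P.comp (contDiff_fst.comp contDiff_fst)).contDiffAt
  have h5 : ContDiffAt ℝ ∞ (fun z : (Euc N × Euc N) × ℝ × ℝ =>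
      (PT G z.1 z.2.1).comp (G.P z.1.1)) (q, s, t) := h3.clm_comp h4
  have h6 : ContDiffAt ℝ ∞ (fun z : (Euc N × Euc N) × ℝ × ℝ =>
      (L0 N).comp ((PT G z.1 z.2.1).comp (G.P z.1.1))) (q, s, t) :=
    (contDiffAt_const (c := L0 N)).clm_comp h5
  exact (contDiffAt_fst_part hq s t).clm_comp h6

/-- the Jacobi tensor is jointly smooth in `(q, s, t)`. -/
theorem contDiffAt_At (hq : q ∈ TS G) (s t : ℝ) :
    ContDiffAt ℝ ∞ (fun z : (Euc N × Euc N) × ℝ × ℝ => At G z.1 z.2.1 z.2.2) (q, s, t) := by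
  have h2 : ContDiffAt ℝ ∞ (fun z : (Euc N × Euc N) × ℝ × ℝ => (z.1, z.2.2)) (q, s, t) := by
    fun_prop
  have h1 : ContDiffAt ℝ ∞ (fun z : (Euc N × Euc N) × ℝ × ℝ => PTi G z.1 z.2.2) (q, s, t) :=
    ContDiffAt.comp (g := fun z : (Euc N × Euc N) × ℝ => PTi G z.1 z.2)
      (f := fun z : (Euc N × Euc N) × ℝ × ℝ => (z.1, z.2.2)) (q, s, t)
      (contDiffAt_PTi hq t) h2
  have h0 : ContDiffAt ℝ ∞ (fun _ : (Euc N × Euc N) × ℝ × ℝ =>
    ContinuousLinearMap.fst ℝ (Euc N) (Euc N)) (q, s, t) := contDiffAt_const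
  have h3 := h0.clm_comp (contDiffAt_core hq s t)
  have h4 := h1.clm_comp h3
  exact h4

theorem contDiffAt_At' (hq : q ∈ TS G) (s t : ℝ) :
    ContDiffAt ℝ ∞ (fun z : (Euc N × Euc N) × ℝ × ℝ => At' G z.1 z.2.1 z.2.2) (q, s, t) := by
  have h2 : ContDiffAt ℝ ∞ (fun z : (Euc N × Euc N) × ℝ × ℝ => (z.1, z.2.2)) (q, s, t) := by
    fun_prop
  have h1 : ContDiffAt ℝ ∞ (fun z : (Euc N × Euc N) × ℝ × ℝ => PTi G z.1 z.2.2) (q, s, t) :=
    ContDiffAt.comp (g := fun z : (Euc N × Euc N) × ℝ => PTi G z.1 z.2)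
      (f := fun z : (Euc N × Euc N) × ℝ × ℝ => (z.1, z.2.2)) (q, s, t)
      (contDiffAt_PTi hq t) h2
  have h5 : ContDiffAt ℝ ∞ (fun z : (Euc N × Euc N) × ℝ × ℝ => fl G (z.1, z.2.2)) (q, s, t) :=
    ContDiffAt.comp (f := fun z : (Euc N × Euc N) × ℝ × ℝ => (z.1, z.2.2)) (q, s, t)
      (contDiffAt_fl' G hq t) h2
  have h6 : ContDiffAt ℝ ∞ (fun z : (Euc N × Euc N) × ℝ × ℝ => G.P (fl G (z.1, z.2.2)).1)
      (q, s, t) := G.contDiff_P.contDiffAt.comp (q, s, t) h5.fst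
  have h0 : ContDiffAt ℝ ∞ (fun _ : (Euc N × Euc N) × ℝ × ℝ =>
    ContinuousLinearMap.snd ℝ (Euc N) (Euc N)) (q, s, t) := contDiffAt_const
  have h3 := h0.clm_comp (contDiffAt_core hq s t)
  have h4 := h1.clm_comp (h6.clm_comp h3)
  exact h4

/-- smoothness in `(s, t)` -/
lemma contDiff_At (hq : q ∈ TS G) : ContDiff ℝ ∞ (fun z : ℝ × ℝ => At G q z.1 z.2) := by
  rw [contDiff_iff_contDiffAt]
  rintro ⟨s, t⟩
  have h2 : ContDiffAt ℝ ∞ (fun z : ℝ × ℝ => (q, z.1, z.2)) (s, t) := by fun_prop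
  exact ContDiffAt.comp (g := fun z : (Euc N × Euc N) × ℝ × ℝ => At G z.1 z.2.1 z.2.2)
    (f := fun z : ℝ × ℝ => (q, z.1, z.2)) (s, t) (contDiffAt_At hq s t) h2

lemma contDiff_At' (hq : q ∈ TS G) : ContDiff ℝ ∞ (fun z : ℝ × ℝ => At' G q z.1 z.2) := by
  rw [contDiff_iff_contDiffAt]
  rintro ⟨s, t⟩
  have h2 : ContDiffAt ℝ ∞ (fun z : ℝ × ℝ => (q, z.1, z.2)) (s, t) := by fun_prop
  exact ContDiffAt.comp (g := fun z : (Euc N × Euc N) × ℝ × ℝ => At' G z.1 z.2.1 z.2.2)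
    (f := fun z : ℝ × ℝ => (q, z.1, z.2)) (s, t) (contDiffAt_At' hq s t) h2

/-- derivative of an operator valued function from the derivatives at vectors -/
lemma hasDerivAt_clm {L : ℝ → Euc N →L[ℝ] Euc N} {L' : Euc N →L[ℝ] Euc N} {t : ℝ}
    (hd : DifferentiableAt ℝ L t) (h : ∀ w, HasDerivAt (fun t => L t w) (L' w) t) :
    HasDerivAt L L' t := by
  have h1 := hd.hasDerivAt
  have h2 : deriv L t = L' := by
    ext1 w
    have h3 : HasDerivAt (fun t => L t w) (deriv L t w) t := by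
      simpa using h1.clm_apply (hasDerivAt_const t w)
    exact h3.unique (h w)
  rwa [h2] at h1

lemma contDiff_At_right (hq : q ∈ TS G) (s : ℝ) : ContDiff ℝ ∞ (fun t => At G q s t) :=
  ContDiff.comp (g := fun z : ℝ × ℝ => At G q z.1 z.2) (f := fun t : ℝ => (s, t))
    (contDiff_At hq) (contDiff_const.prodMk contDiff_id)

lemma contDiff_At'_right (hq : q ∈ TS G) (s : ℝ) : ContDiff ℝ ∞ (fun t => At' G q s t) :=
  ContDiff.comp (g := fun z : ℝ × ℝ => At' G q z.1 z.2) (f := fun t : ℝ => (s, t))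
    (contDiff_At' hq) (contDiff_const.prodMk contDiff_id)

/-- **Jacobi equation** in operator form. -/
theorem hasDerivAt_At (hq : q ∈ TS G) (s t : ℝ) :
    HasDerivAt (fun t => At G q s t) (At' G q s t) t :=
  hasDerivAt_clm ((contDiff_At_right hq s).differentiable (by simp) t)
    fun w => (isJac_At hq s w).fst t

theorem hasDerivAt_At' (hq : q ∈ TS G) (s t : ℝ) :
    HasDerivAt (fun t => At' G q s t) (-(Rh G q t ∘L At G q s t)) t :=
  hasDerivAt_clm ((contDiff_At'_right hq s).differentiable (by simp) t)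
    fun w => (isJac_At hq s w).snd t

end Crest.Agent.R208.J
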