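import Crest.Agent.R208.JTDefs

/-!
R208, block JT (helper631), part 1: a Lipschitz equivariant map from `ℂ^m` with the scalar action
to a real space of dimension `2m` with a Lipschitz circle action.
-/

set_option autoImplicit false
set_option linter.unusedSectionVars false

open Set Filter Topology Module
open scoped NNReal

noncomputable section

namespace Crest.Agent.R208.JT

/-- a uniform pointwise Lipschitz estimate is a Lipschitz estimate. -/
lemma lipschitzWith_of_eventually {W E : Type*} [NormedAddCommGroup W] [NormedSpace ℝ W]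
    [NormedAddCommGroup E] {f : W → E} {C : ℝ≥0}
    (h : ∀ x, ∀ᶠ y in 𝓝 x, ‖f y - f x‖ ≤ C * ‖y - x‖) : LipschitzWith C f := by
  have hcont : Continuous f := by
    rw [continuous_iff_continuousAt]
    intro x
    rw [ContinuousAt, tendsto_iff_norm_sub_tendsto_zero]
    refine squeeze_zero' (Eventually.of_forall fun _ => norm_nonneg _) (h x) ?_
    have h1 : Tendsto (fun y => (C : ℝ) * ‖y - x‖) (𝓝 x) (𝓝 (C * ‖x - x‖)) :=
      (continuous_const.mul (continuous_id.sub continuous_const).norm).tendsto x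
    simpa using h1
  refine LipschitzWith.of_dist_le_mul fun x y => ?_
  rw [dist_comm, dist_comm x y, dist_eq_norm, dist_eq_norm]
  set γ : ℝ → W := fun t => x + t • (y - x) with hγ
  have hγc : Continuous γ := by fun_prop
  set S : Set ℝ := {t | ‖f (γ t) - f x‖ ≤ C * (t * ‖y - x‖)} with hS
  have hclosed : IsClosed (S ∩ Icc 0 1) := by
    refine IsClosed.inter ?_ isClosed_Icc
    exact isClosed_le ((hcont.comp hγc).sub continuous_const).norm (by fun_prop)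
  have hsub : Icc (0 : ℝ) 1 ⊆ S := by
    refine hclosed.Icc_subset_of_forall_exists_gt ?_ ?_
    · simp [hS, hγ]
    · rintro t ⟨htS, ht⟩ z hz
      have h1 := h (γ t)
      have h2 : ∀ᶠ s in 𝓝 t, ‖f (γ s) - f (γ t)‖ ≤ C * ‖γ s - γ t‖ := hγc.continuousAt.eventually h1
      have h3 : ∀ᶠ s in 𝓝[>] t, ‖f (γ s) - f (γ t)‖ ≤ C * ‖γ s - γ t‖ ∧ s ∈ Ioc t z := by
        have h2' : ∀ᶠ s in 𝓝[>] t, ‖f (γ s) - f (γ t)‖ ≤ C * ‖γ s - γ t‖ := nhdsWithin_le_nhds h2
        have h2'' : ∀ᶠ s in 𝓝[>] t, s ∈ Ioc t z := Ioc_mem_nhdsGT hz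
        exact h2'.and h2''
      obtain ⟨s, hs1, hs2⟩ := h3.exists
      refine ⟨s, ?_, hs2⟩
      have h4 : γ s - γ t = (s - t) • (y - x) := by
        simp only [hγ]; module
      rw [h4, norm_smul, Real.norm_of_nonneg (sub_nonneg.2 hs2.1.le)] at hs1
      have h5 : ‖f (γ t) - f x‖ ≤ C * (t * ‖y - x‖) := htS
      change ‖f (γ s) - f x‖ ≤ C * (s * ‖y - x‖)
      calc ‖f (γ s) - f x‖ ≤ ‖f (γ s) - f (γ t)‖ + ‖f (γ t) - f x‖ := by
            have := norm_add_le (f (γ s) - f (γ t)) (f (γ t) - f x)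
            simpa using this
        _ ≤ C * ((s - t) * ‖y - x‖) + C * (t * ‖y - x‖) := add_le_add hs1 h5
        _ = C * (s * ‖y - x‖) := by ring
  have h6 := hsub (right_mem_Icc.2 zero_le_one)
  have h7 : ‖f (γ 1) - f x‖ ≤ C * (1 * ‖y - x‖) := h6
  have h8 : γ 1 = y := by simp [hγ]
  rwa [h8, one_mul] at h7

/-- a Lipschitz circle action, homogeneous and norm preserving -/
structure Rot {E : Type*} [NormedAddCommGroup E] [NormedSpace ℝ E] (ρ : ℂ → E → E) : Prop where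
  mul : ∀ ζ ξ x, ‖ζ‖ = 1 → ‖ξ‖ = 1 → ρ ζ (ρ ξ x) = ρ (ζ * ξ) x
  one : ∀ x, ρ 1 x = x
  norm : ∀ ζ x, ‖ζ‖ = 1 → ‖ρ ζ x‖ = ‖x‖
  smul : ∀ ζ x (r : ℝ), ‖ζ‖ = 1 → 0 ≤ r → ρ ζ (r • x) = r • ρ ζ x
  lip : ∃ C : ℝ, 0 ≤ C ∧ ∀ ζ x y, ‖ζ‖ = 1 → ‖ρ ζ x - ρ ζ y‖ ≤ C * ‖x - y‖
  lipz : ∃ C : ℝ, 0 ≤ C ∧ ∀ ζ ξ x, ‖ζ‖ = 1 → ‖ξ‖ = 1 → ‖ρ ζ x - ρ ξ x‖ ≤ C * ‖ζ - ξ‖ * ‖x‖

/-- an equivariant Lipschitz map from a complex space -/
structure EqMap {E : Type*} [NormedAddCommGroup E] [NormedSpace ℝ E] (ρ : ℂ → E → E)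
    {W : Type*} [NormedAddCommGroup W] [NormedSpace ℂ W] (Φ : W → E) : Prop where
  lip : ∃ C : ℝ≥0, LipschitzWith C Φ
  equi : ∀ (ζ : ℂ) z, ‖ζ‖ = 1 → Φ (ζ • z) = ρ ζ (Φ z)
  smul : ∀ (r : ℝ) z, 0 ≤ r → Φ ((r : ℂ) • z) = r • Φ z
  ne : ∀ z, Φ z = 0 → z = 0

section step

variable {E : Type*} [NormedAddCommGroup E] [NormedSpace ℝ E] {ρ : ℂ → E → E}
  {W : Type*} [NormedAddCommGroup W] [NormedSpace ℂ W] {Φ : W → E}

lemma Rot.zero (hρ : Rot ρ) {ζ : ℂ} (hζ : ‖ζ‖ = 1) : ρ ζ 0 = 0 := by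
  have := hρ.smul ζ 0 0 hζ le_rfl
  simpa using this

lemma EqMap.zero (h : EqMap ρ Φ) : Φ 0 = 0 := by
  have := h.smul 0 0 le_rfl
  simpa using this

/-- composition with an isomorphism -/
lemma EqMap.comp (h : EqMap ρ Φ) {W' : Type*} [NormedAddCommGroup W'] [NormedSpace ℂ W']
    (e : W' ≃L[ℂ] W) : EqMap ρ (fun z => Φ (e z)) where
  lip := by
    obtain ⟨C, hC⟩ := h.lip
    exact ⟨_, hC.comp e.lipschitz⟩
  equi ζ z hζ := by rw [map_smul, h.equi ζ _ hζ]
  smul r z hr := by rw [map_smul, h.smul r _ hr]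
  ne z hz := by
    have := h.ne _ hz
    simpa using this

/-- the unit complex number in the direction of `w` -/
def un (w : ℂ) : ℂ := ((‖w‖⁻¹ : ℝ) : ℂ) * w

lemma norm_un {w : ℂ} (hw : w ≠ 0) : ‖un w‖ = 1 := by
  rw [un, norm_mul, Complex.norm_real, norm_inv, norm_norm, inv_mul_cancel₀ (norm_ne_zero_iff.2 hw)]

lemma un_mul {ζ w : ℂ} (hζ : ‖ζ‖ = 1) : un (ζ * w) = ζ * un w := by
  rw [un, un, norm_mul, hζ, one_mul]; ring

lemma un_smul {r : ℝ} (hr : 0 < r) (w : ℂ) : un ((r : ℂ) * w) = un w := by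
  rw [un, un, norm_mul, Complex.norm_real, Real.norm_of_nonneg hr.le]
  push_cast
  rw [mul_inv]
  have : ((r : ℂ))⁻¹ * (r : ℂ) = 1 := inv_mul_cancel₀ (by exact_mod_cast hr.ne')
  linear_combination (((‖w‖ : ℂ))⁻¹ * w) * this

lemma un_sub_le {w w' : ℂ} (hw : w ≠ 0) (hw' : w' ≠ 0) :
    ‖un w' - un w‖ ≤ 2 * ‖w' - w‖ / ‖w‖ := by
  have h0 : 0 < ‖w‖ := norm_pos_iff.2 hw
  have h0' : 0 < ‖w'‖ := norm_pos_iff.2 hw'
  have h1 : un w' - un w = ((‖w‖⁻¹ : ℝ) : ℂ) * (w' - w) + ((‖w'‖⁻¹ - ‖w‖⁻¹ : ℝ) : ℂ) * w' := by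
    rw [un, un]; push_cast; ring
  rw [h1]
  refine (norm_add_le _ _).trans ?_
  rw [norm_mul, norm_mul, Complex.norm_real, Complex.norm_real, norm_inv, norm_norm]
  have h2 : ‖(‖w'‖⁻¹ - ‖w‖⁻¹ : ℝ)‖ * ‖w'‖ ≤ ‖w' - w‖ / ‖w‖ := by
    have h3 : (‖w'‖⁻¹ - ‖w‖⁻¹ : ℝ) = (‖w‖ - ‖w'‖) / (‖w‖ * ‖w'‖) := by
      field_simp
    rw [h3, norm_div, norm_mul, norm_norm, norm_norm, div_mul_eq_mul_div, mul_comm ‖w‖ ‖w'‖,
      mul_comm, mul_div_mul_left _ _ h0'.ne']
    gcongr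
    rw [Real.norm_eq_abs]
    have := abs_norm_sub_norm_le w w'
    rwa [norm_sub_rev] at this
  calc ‖w‖⁻¹ * ‖w' - w‖ + ‖(‖w'‖⁻¹ - ‖w‖⁻¹ : ℝ)‖ * ‖w'‖
      ≤ ‖w' - w‖ / ‖w‖ + ‖w' - w‖ / ‖w‖ := by
        gcongr
        rw [div_eq_inv_mul]
    _ = 2 * ‖w' - w‖ / ‖w‖ := by ring

/-- the cut-off `(|w| - |z|/2)^+` -/
def kp (z : W) (w : ℂ) : ℝ := max (‖w‖ - ‖z‖ / 2) 0

lemma kp_nonneg (z : W) (w : ℂ) : 0 ≤ kp z w := le_max_right _ _

lemma kp_le (z : W) (w : ℂ) : kp z w ≤ ‖w‖ :=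
  max_le (by have := norm_nonneg z; linarith) (norm_nonneg _)

lemma kp_sub_le (z z' : W) (w w' : ℂ) : |kp z' w' - kp z w| ≤ ‖w' - w‖ + ‖z' - z‖ := by
  have h1 : |kp z' w' - kp z w| ≤ |(‖w'‖ - ‖z'‖ / 2) - (‖w‖ - ‖z‖ / 2)| := by
    have := abs_max_sub_max_le_abs (‖w'‖ - ‖z'‖ / 2) (‖w‖ - ‖z‖ / 2) 0
    exact this
  refine h1.trans ?_
  have h2 := abs_norm_sub_norm_le w' w
  have h3 := abs_norm_sub_norm_le z' z
  rw [abs_le] at h2 h3 ⊢
  constructor <;> nlinarith [norm_nonneg (z' - z)]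

/-- the extension of an equivariant map by one complex dimension -/
def ext (ρ : ℂ → E → E) (Φ : W → E) (v : E) (p : W × ℂ) : E :=
  if p.2 = 0 then Φ p.1 else ρ (un p.2) (Φ ((un p.2)⁻¹ • p.1) + kp p.1 p.2 • v)

lemma norm_un_inv {w : ℂ} (hw : w ≠ 0) : ‖(un w)⁻¹‖ = 1 := by rw [norm_inv, norm_un hw, inv_one]

lemma un_ne {w : ℂ} (hw : w ≠ 0) : un w ≠ 0 := by
  intro h
  have := norm_un hw
  rw [h, norm_zero] at this
  exact zero_ne_one this

/-- where the cut-off vanishes the extension is `Φ`. -/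
lemma ext_of_kp (hρ : Rot ρ) (h : EqMap ρ Φ) (v : E) {p : W × ℂ} (hk : kp p.1 p.2 = 0) :
    ext ρ Φ v p = Φ p.1 := by
  rw [ext]
  split_ifs with h0
  · rfl
  · rw [hk, zero_smul, add_zero, h.equi _ _ (norm_un_inv h0),
      hρ.mul _ _ _ (norm_un h0) (norm_un_inv h0), mul_inv_cancel₀ (un_ne h0), hρ.one]

theorem EqMap.ext_step (hρ : Rot ρ) (h : EqMap ρ Φ) {v : E} (hv : ∀ z, Φ z ≠ -v) :
    EqMap ρ (ext ρ Φ v) where
  lip := by
    obtain ⟨L, hL⟩ := h.lip
    obtain ⟨C, hC0, hC⟩ := hρ.lip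
    obtain ⟨K, hK0, hK⟩ := hρ.lipz
    have hLb : ∀ z, ‖Φ z‖ ≤ L * ‖z‖ := fun z => by
      have := hL.norm_sub_le z 0
      simpa [h.zero] using this
    -- the constant
    set M : ℝ := L + (C * (5 * L + 2 * ‖v‖) + 2 * K * (2 * L + ‖v‖)) + ‖v‖ with hM
    have hM0 : 0 ≤ M := by positivity
    refine ⟨⟨M, hM0⟩, lipschitzWith_of_eventually fun x => ?_⟩
    change ∀ᶠ y in 𝓝 x, ‖ext ρ Φ v y - ext ρ Φ v x‖ ≤ M * ‖y - x‖
    obtain ⟨z, w⟩ := x
    by_cases hlt : ‖w‖ < ‖z‖ / 2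
    · -- the region where the extension is `Φ`
      have h1 : ∀ᶠ y : W × ℂ in 𝓝 (z, w), ‖y.2‖ < ‖y.1‖ / 2 := by
        have hc1 : Continuous fun y : W × ℂ => ‖y.2‖ := continuous_snd.norm
        have hc2 : Continuous fun y : W × ℂ => ‖y.1‖ / 2 := continuous_fst.norm.div_const 2
        exact (hc1.tendsto (z, w)).eventually_lt (hc2.tendsto (z, w)) hlt
      filter_upwards [h1] with y hy
      have k1 : kp y.1 y.2 = 0 := max_eq_right (by linarith)
      have k2 : kp z w = 0 := max_eq_right (by linarith)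
      rw [ext_of_kp hρ h v k1, ext_of_kp hρ h v (p := (z, w)) k2]
      calc ‖Φ y.1 - Φ z‖ ≤ L * ‖y.1 - z‖ := hL.norm_sub_le _ _
        _ ≤ L * ‖y - (z, w)‖ := by gcongr; exact norm_fst_le (y - (z, w))
        _ ≤ M * ‖y - (z, w)‖ := by
          gcongr
          rw [hM]
          have : 0 ≤ (C * (5 * L + 2 * ‖v‖) + 2 * K * (2 * L + ‖v‖)) + ‖v‖ := by positivity
          linarith
    · push Not at hlt
      by_cases hw : w = 0
      · -- the origin
        have hz : z = 0 := by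
          rw [hw, norm_zero] at hlt
          have := norm_nonneg z
          exact norm_eq_zero.1 (by linarith)
        subst hw; subst hz
        refine Eventually.of_forall fun y => ?_
        have h0 : ext ρ Φ v ((0 : W), (0 : ℂ)) = 0 := by
          rw [ext, if_pos rfl, h.zero]
        have e : ((0 : W), (0 : ℂ)) = 0 := rfl
        rw [h0, sub_zero, e, sub_zero]
        have hy1 : ‖y.1‖ ≤ ‖y‖ := norm_fst_le y
        have hy2 : ‖y.2‖ ≤ ‖y‖ := norm_snd_le y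
        rw [ext]
        split_ifs with h0
        · calc ‖Φ y.1‖ ≤ L * ‖y.1‖ := hLb _
            _ ≤ L * ‖y‖ := by gcongr
            _ ≤ M * ‖y‖ := by
              gcongr
              rw [hM]
              have : 0 ≤ (C * (5 * L + 2 * ‖v‖) + 2 * K * (2 * L + ‖v‖)) + ‖v‖ := by positivity
              linarith
        · rw [hρ.norm _ _ (norm_un h0)]
          calc ‖Φ ((un y.2)⁻¹ • y.1) + kp y.1 y.2 • v‖
              ≤ ‖Φ ((un y.2)⁻¹ • y.1)‖ + ‖kp y.1 y.2 • v‖ := norm_add_le _ _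
            _ ≤ L * ‖(un y.2)⁻¹ • y.1‖ + ‖y.2‖ * ‖v‖ := by
              gcongr
              · exact hLb _
              · rw [norm_smul, Real.norm_of_nonneg (kp_nonneg _ _)]
                gcongr
                exact kp_le _ _
            _ ≤ L * ‖y‖ + ‖y‖ * ‖v‖ := by
              rw [norm_smul, norm_un_inv h0, one_mul]
              gcongr
            _ ≤ M * ‖y‖ := by
              rw [hM]
              have : 0 ≤ (C * (5 * L + 2 * ‖v‖) + 2 * K * (2 * L + ‖v‖)) * ‖y‖ := by positivity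
              nlinarith
      · have hw0 : 0 < ‖w‖ := norm_pos_iff.2 hw
        have h1 : ∀ᶠ y : W × ℂ in 𝓝 (z, w), y.2 ≠ 0 :=
          (continuous_snd.tendsto ((z, w) : W × ℂ)).eventually_ne hw
        filter_upwards [h1] with y hy
        rw [ext, ext, if_neg hy, if_neg hw]
        simp only
        set U₁ := Φ ((un y.2)⁻¹ • y.1) + kp y.1 y.2 • v with hU₁
        set U := Φ ((un w)⁻¹ • z) + kp z w • v with hU
        set δ := ‖y - (z, w)‖ with hδ
        have hd1 : ‖y.1 - z‖ ≤ δ := norm_fst_le (y - (z, w))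
        have hd2 : ‖y.2 - w‖ ≤ δ := norm_snd_le (y - (z, w))
        have hδ0 : 0 ≤ δ := norm_nonneg _
        have hu : ‖un y.2 - un w‖ ≤ 2 * δ / ‖w‖ :=
          (un_sub_le hw hy).trans (by gcongr)
        have hui : ‖(un y.2)⁻¹ - (un w)⁻¹‖ ≤ 2 * δ / ‖w‖ := by
          have e : (un y.2)⁻¹ - (un w)⁻¹ = (un y.2)⁻¹ * (un w - un y.2) * (un w)⁻¹ := by
            have a1 := un_ne hy
            have a2 := un_ne hw
            field_simp
          rw [e, norm_mul, norm_mul, norm_un_inv hy, norm_un_inv hw, one_mul, mul_one,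
            norm_sub_rev]
          exact hu
        have hz2 : ‖z‖ ≤ 2 * ‖w‖ := by linarith
        have hUn : ‖U‖ ≤ (2 * L + ‖v‖) * ‖w‖ := by
          calc ‖U‖ ≤ ‖Φ ((un w)⁻¹ • z)‖ + ‖kp z w • v‖ := norm_add_le _ _
            _ ≤ L * ‖(un w)⁻¹ • z‖ + ‖w‖ * ‖v‖ := by
              gcongr
              · exact hLb _
              · rw [norm_smul, Real.norm_of_nonneg (kp_nonneg _ _)]
                gcongr
                exact kp_le _ _
            _ ≤ L * (2 * ‖w‖) + ‖w‖ * ‖v‖ := by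
              rw [norm_smul, norm_un_inv hw, one_mul]
              gcongr
            _ = (2 * L + ‖v‖) * ‖w‖ := by ring
        have hUU : ‖U₁ - U‖ ≤ (5 * L + 2 * ‖v‖) * δ := by
          have e : U₁ - U = (Φ ((un y.2)⁻¹ • y.1) - Φ ((un w)⁻¹ • z)) +
              (kp y.1 y.2 - kp z w) • v := by
            rw [hU₁, hU, sub_smul]; abel
          rw [e]
          calc _ ≤ ‖Φ ((un y.2)⁻¹ • y.1) - Φ ((un w)⁻¹ • z)‖ + ‖(kp y.1 y.2 - kp z w) • v‖ :=
                norm_add_le _ _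
            _ ≤ L * ‖(un y.2)⁻¹ • y.1 - (un w)⁻¹ • z‖ + (2 * δ) * ‖v‖ := by
              gcongr
              · exact hL.norm_sub_le _ _
              · rw [norm_smul, Real.norm_eq_abs]
                gcongr
                exact (kp_sub_le _ _ _ _).trans (by linarith)
            _ ≤ L * (δ + 4 * δ) + (2 * δ) * ‖v‖ := by
              gcongr
              have e2 : (un y.2)⁻¹ • y.1 - (un w)⁻¹ • z = (un y.2)⁻¹ • (y.1 - z) +
                  ((un y.2)⁻¹ - (un w)⁻¹) • z := by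
                rw [smul_sub, sub_smul]; abel
              rw [e2]
              refine (norm_add_le _ _).trans ?_
              rw [norm_smul, norm_smul, norm_un_inv hy, one_mul]
              have e3 : ‖(un y.2)⁻¹ - (un w)⁻¹‖ * ‖z‖ ≤ (2 * δ / ‖w‖) * (2 * ‖w‖) := by gcongr
              have e4 : (2 * δ / ‖w‖) * (2 * ‖w‖) = 4 * δ := by
                field_simp; ring
              linarith
            _ = (5 * L + 2 * ‖v‖) * δ := by ring
        calc ‖ρ (un y.2) U₁ - ρ (un w) U‖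
            ≤ ‖ρ (un y.2) U₁ - ρ (un y.2) U‖ + ‖ρ (un y.2) U - ρ (un w) U‖ := by
              have := norm_add_le (ρ (un y.2) U₁ - ρ (un y.2) U) (ρ (un y.2) U - ρ (un w) U)
              simpa using this
          _ ≤ C * ‖U₁ - U‖ + K * ‖un y.2 - un w‖ * ‖U‖ :=
              add_le_add (hC _ _ _ (norm_un hy)) (hK _ _ _ (norm_un hy) (norm_un hw))
          _ ≤ C * ((5 * L + 2 * ‖v‖) * δ) + K * (2 * δ / ‖w‖) * ((2 * L + ‖v‖) * ‖w‖) := by
              gcongr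
          _ = (C * (5 * L + 2 * ‖v‖) + 2 * K * (2 * L + ‖v‖)) * δ := by
              field_simp
          _ ≤ M * δ := by
              gcongr
              rw [hM]
              have : 0 ≤ (L : ℝ) := L.2
              have := norm_nonneg v
              linarith
  equi ζ p hζ := by
    have hζ0 : ζ ≠ 0 := by
      intro h; rw [h, norm_zero] at hζ; exact zero_ne_one hζ
    rw [ext, ext]
    simp only [Prod.smul_snd, Prod.smul_fst, smul_eq_mul, mul_eq_zero, hζ0, false_or]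
    split_ifs with h0
    · exact h.equi ζ _ hζ
    · rw [un_mul hζ, hρ.mul _ _ _ hζ (norm_un h0), smul_smul]
      have e1 : (ζ * un p.2)⁻¹ * ζ = (un p.2)⁻¹ := by
        rw [mul_inv]
        field_simp
      have e2 : kp (ζ • p.1) (ζ * p.2) = kp p.1 p.2 := by
        rw [kp, kp, norm_smul, norm_mul, hζ, one_mul, one_mul]
      rw [e1, e2]
  smul r p hr := by
    rcases hr.eq_or_lt with h0 | h0
    · subst h0
      rw [Complex.ofReal_zero, zero_smul, zero_smul]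
      change ext ρ Φ v ((0 : W), (0 : ℂ)) = 0
      rw [ext, if_pos rfl, h.zero]
    · rw [ext, ext]
      have hr0 : (r : ℂ) ≠ 0 := by exact_mod_cast h0.ne'
      simp only [Prod.smul_snd, Prod.smul_fst, smul_eq_mul, mul_eq_zero, hr0, false_or]
      split_ifs with h1
      · exact h.smul r _ hr
      · rw [un_smul h0, ← hρ.smul _ _ r (norm_un h1) hr]
        have e2 : kp ((r : ℂ) • p.1) ((r : ℂ) * p.2) = r * kp p.1 p.2 := by
          rw [kp, kp, norm_smul, norm_mul, Complex.norm_real, Real.norm_of_nonneg hr,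
            mul_max_of_nonneg _ _ hr, mul_zero]
          congr 1
          ring
        rw [e2, smul_comm ((un p.2)⁻¹) (r : ℂ) p.1, h.smul r _ hr, smul_add, smul_smul]
  ne p hp := by
    rw [ext] at hp
    split_ifs at hp with h0
    · exact Prod.ext (h.ne _ hp) h0
    · exfalso
      have h1 : ‖Φ ((un p.2)⁻¹ • p.1) + kp p.1 p.2 • v‖ = 0 := by
        rw [← hρ.norm (un p.2) _ (norm_un h0), hp, norm_zero]
      rw [norm_eq_zero] at h1
      rcases (kp_nonneg p.1 p.2).eq_or_lt with hk | hk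
      · rw [← hk, zero_smul, add_zero] at h1
        have h2 := h.ne _ h1
        rw [smul_eq_zero] at h2
        have h3 : p.1 = 0 := h2.resolve_left (inv_ne_zero (un_ne h0))
        have h4 : kp p.1 p.2 = ‖p.2‖ := by
          rw [kp, h3, norm_zero, zero_div, sub_zero]
          exact max_eq_left (norm_nonneg _)
        rw [← hk] at h4
        exact h0 (norm_eq_zero.1 h4.symm)
      · refine hv ((((kp p.1 p.2)⁻¹ : ℝ) : ℂ) • ((un p.2)⁻¹ • p.1)) ?_
        have h5 := h.smul (kp p.1 p.2)⁻¹ ((un p.2)⁻¹ • p.1) (inv_nonneg.2 hk.le)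
        have h6 : Φ ((un p.2)⁻¹ • p.1) = -(kp p.1 p.2 • v) := eq_neg_of_add_eq_zero_left h1
        rw [h6, smul_neg, smul_smul (kp p.1 p.2)⁻¹ (kp p.1 p.2) v, inv_mul_cancel₀ hk.ne',
          one_smul] at h5
        exact h5

end step

end Crest.Agent.R208.JT
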