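import Crest.Agent.R208.JT9

/-!
R208, block JT (helper631), part 10: the Hopf field, vanishing of the boundary integrand.
-/

set_option autoImplicit false
set_option linter.unusedSectionVars false

open Set Filter Topology Module MeasureTheory
open scoped NNReal ContDiff RealInnerProductSpace

noncomputable section

namespace Crest.Agent.R208.JT

open Crest.Agent.R208.F (Ext io inv pb top ii ii_pb pb_io)
open Crest.Agent.R208.FI (kap)

variable {m : ℕ} (J : JD m)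

/-- the map of the join -/
structure JoinMap (J : JD m) (Φ : Eu (m + m) → Eu (m + m)) : Prop where
  lip : ∃ K : ℝ≥0, LipschitzWith K Φ
  norm : ∀ z, ‖Φ z‖ = ‖z‖
  equi : ∀ ζ z, ‖ζ‖ = 1 → Φ (Rs ζ z) = J.rot ζ (Φ z)

theorem JD.exists_joinMap : ∃ Φ, JoinMap J Φ := by
  obtain ⟨Φ, h1, h2, -, h4⟩ := J.exists_Phi
  exact ⟨Φ, h1, h2, h4⟩

/-- the Hopf field -/
def hopf (z : Eu (m + m)) : Eu (m + m) := (kap m m).symm ((kap m m z).2, -(kap m m z).1)

/-- `cos s + i sin s` -/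
def cis (s : ℝ) : ℂ := ⟨Real.cos s, Real.sin s⟩

@[simp] lemma cis_re (s : ℝ) : (cis s).re = Real.cos s := rfl

@[simp] lemma cis_im (s : ℝ) : (cis s).im = Real.sin s := rfl

lemma norm_cis (s : ℝ) : ‖cis s‖ = 1 := by
  have h : ‖cis s‖ ^ 2 = 1 := by
    rw [Complex.sq_norm, Complex.normSq_apply, cis_re, cis_im]
    nlinarith [Real.sin_sq_add_cos_sq s]
  have h0 := norm_nonneg (cis s)
  nlinarith

lemma cis_mul (s t : ℝ) : cis s * cis t = cis (s + t) := by
  apply Complex.ext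
  · rw [Complex.mul_re, cis_re, cis_im, cis_re, cis_im, cis_re, Real.cos_add]
  · rw [Complex.mul_im, cis_re, cis_im, cis_re, cis_im, cis_im, Real.sin_add]; ring

lemma inner_kap_symm (a b c d : Eu m) :
    ⟪(kap m m).symm (a, b), (kap m m).symm (c, d)⟫ = ⟪a, c⟫ + ⟪b, d⟫ := by
  have h1 := norm_sq_kap_symm (a + c) (b + d)
  have e : (kap m m).symm (a + c, b + d) = (kap m m).symm (a, b) + (kap m m).symm (c, d) := by
    rw [← map_add]; rfl
  rw [e, norm_add_sq_real, norm_sq_kap_symm, norm_sq_kap_symm, norm_add_sq_real,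
    norm_add_sq_real] at h1
  linarith

lemma inner_kap (z w : Eu (m + m)) :
    ⟪z, w⟫ = ⟪(kap m m z).1, (kap m m w).1⟫ + ⟪(kap m m z).2, (kap m m w).2⟫ := by
  rw [← inner_kap_symm]
  simp only [Prod.mk.eta, ContinuousLinearEquiv.symm_apply_apply]

lemma inner_hopf (z : Eu (m + m)) : ⟪z, hopf z⟫ = 0 := by
  rw [inner_kap, hopf, ContinuousLinearEquiv.apply_symm_apply]
  simp only [inner_neg_right]
  rw [real_inner_comm]
  ring

lemma norm_hopf (z : Eu (m + m)) : ‖hopf z‖ = ‖z‖ := by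
  refine (sq_eq_sq₀ (norm_nonneg _) (norm_nonneg _)).1 ?_
  rw [hopf, norm_sq_kap_symm, norm_sq_kap z, norm_neg]
  ring

lemma hasDerivAt_Rs (z : Eu (m + m)) : HasDerivAt (fun s : ℝ => Rs (cis s) z) (hopf z) 0 := by
  have h1 : HasDerivAt (fun s : ℝ => ((Real.cos s • (kap m m z).1 + Real.sin s • (kap m m z).2,
      -Real.sin s • (kap m m z).1 + Real.cos s • (kap m m z).2) : PP m))
      ((kap m m z).2, -(kap m m z).1) 0 := by
    have hc := Real.hasDerivAt_cos 0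
    have hs := Real.hasDerivAt_sin 0
    have k1 := (hc.smul_const (kap m m z).1).add (hs.smul_const (kap m m z).2)
    have k2 := (hs.neg.smul_const (kap m m z).1).add (hc.smul_const (kap m m z).2)
    refine (k1.prodMk k2).congr_deriv ?_
    simp
  exact ((kap m m).symm : PP m →L[ℝ] Eu (m + m)).hasFDerivAt.comp_hasDerivAt 0 h1

lemma JD.hasDerivAt_rot {q : Eu (m + m)} (h1 : (kap m m q).1 ≠ 0) (h2 : (kap m m q).2 ≠ 0) :
    HasDerivAt (fun s : ℝ => J.rot (cis s) q)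
      ((kap m m).symm (J.Z (kap m m q).1 (kap m m q).2, -J.Z (kap m m q).2 (kap m m q).1)) 0 := by
  set X := (kap m m q).1
  set Y := (kap m m q).2
  have k1 := J.hasDeriv X Y h1 h2
  have k2 : HasDerivAt (fun s : ℝ => J.A (-Real.sin s • X) (Real.cos s • Y)) (-J.Z Y X) 0 := by
    have k3 := J.hasDeriv Y X h2 h1
    rw [← neg_zero] at k3
    have k4 := k3.scomp (0 : ℝ) (hasDerivAt_neg (0 : ℝ))
    rw [neg_one_smul] at k4
    refine k4.congr_of_eventuallyEq (Eventually.of_forall fun s => ?_)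
    simp only [Function.comp, Real.cos_neg, Real.sin_neg]
    rw [J.A_comm]
  exact ((kap m m).symm : PP m →L[ℝ] Eu (m + m)).hasFDerivAt.comp_hasDerivAt 0 (k1.prodMk k2)

lemma Rs_one (z : Eu (m + m)) : Rs (cis 0) z = z := by
  rw [Rs]
  simp only [cis_re, cis_im, Real.cos_zero, Real.sin_zero, one_smul, zero_smul, add_zero, neg_zero,
    zero_add]
  exact (kap m m).symm_apply_apply z

variable {J} {Φ : Eu (m + m) → Eu (m + m)}

/-- the differential maps the Hopf field to the generator of the action. -/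
lemma JoinMap.fderiv_hopf (hΦ : JoinMap J Φ) {z : Eu (m + m)} (hd : DifferentiableAt ℝ Φ z)
    (h1 : (kap m m (Φ z)).1 ≠ 0) (h2 : (kap m m (Φ z)).2 ≠ 0) :
    kap m m (fderiv ℝ Φ z (hopf z)) = (J.Z (kap m m (Φ z)).1 (kap m m (Φ z)).2,
      -J.Z (kap m m (Φ z)).2 (kap m m (Φ z)).1) := by
  have k1 : HasDerivAt (fun s : ℝ => Φ (Rs (cis s) z)) (fderiv ℝ Φ z (hopf z)) 0 := by
    have hd' : HasFDerivAt Φ (fderiv ℝ Φ z) (Rs (cis 0) z) := by
      rw [Rs_one]; exact hd.hasFDerivAt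
    exact hd'.comp_hasDerivAt 0 (hasDerivAt_Rs z)
  have k2 := J.hasDerivAt_rot h1 h2
  have e : (fun s : ℝ => Φ (Rs (cis s) z)) = fun s : ℝ => J.rot (cis s) (Φ z) :=
    funext fun s => hΦ.equi _ _ (norm_cis s)
  rw [e] at k1
  rw [k1.unique k2, ContinuousLinearEquiv.apply_symm_apply]

lemma JoinMap.inner_fderiv (hΦ : JoinMap J Φ) {z : Eu (m + m)} (hd : DifferentiableAt ℝ Φ z)
    (v : Eu (m + m)) : ⟪Φ z, fderiv ℝ Φ z v⟫ = ⟪z, v⟫ := by
  have k1 : HasFDerivAt (fun w => ‖Φ w‖ ^ 2) ((2 • innerSL ℝ (Φ z)).comp (fderiv ℝ Φ z)) z :=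
    (hasStrictFDerivAt_norm_sq (Φ z)).hasFDerivAt.comp z hd.hasFDerivAt
  have k2 : HasFDerivAt (fun w : Eu (m + m) => ‖w‖ ^ 2) (2 • innerSL ℝ z) z :=
    (hasStrictFDerivAt_norm_sq z).hasFDerivAt
  have e : (fun w => ‖Φ w‖ ^ 2) = fun w : Eu (m + m) => ‖w‖ ^ 2 := funext fun w => by
    rw [hΦ.norm]
  rw [e] at k1
  have h := congrArg (fun L : Eu (m + m) →L[ℝ] ℝ => L v) (k1.unique k2)
  simp only [ContinuousLinearMap.comp_apply, smul_apply, innerSL_apply_apply, nsmul_eq_mul,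
    Nat.cast_ofNat] at h
  linarith

lemma ii_omA (A : Eu (m + m) →L[ℝ] Eu (m + m)) (M : Eu m →L[ℝ] Eu m →L[ℝ] ℝ)
    (h : Eu (m + m)) : ii h (omA A M) = ioL (Eu (m + m))
      ((tM M (kl m (A h)) - (tM M).flip (kl m (A h))).comp ((kl m).comp A)) := by
  rw [omA, ii_pb]
  change pb _ (ii (kl m (A h)) _) = _
  rw [ii_Om, pb_io]
  rfl

lemma ii_w₀ (h : Eu (m + m)) : ii h (w₀ m) = ioL (Eu (m + m))
      ((tM (M₀ m) (kl m h) - (tM (M₀ m)).flip (kl m h)).comp (kl m)) := by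
  rw [w₀, ii_pb]
  change pb _ (ii (kl m h) _) = _
  rw [ii_Om, pb_io]
  rfl

/-- **the boundary integrand vanishes** -/
theorem JoinMap.Rr_zero (hΦ : JoinMap J Φ) {z : Eu (m + m)} (hd : DifferentiableAt ℝ Φ z)
    (h1 : (kap m m (Φ z)).1 ≠ 0) (h2 : (kap m m (Φ z)).2 ≠ 0) {η : Eu (m + m) → ℝ}
    {c : ℝ} (hη : fderiv ℝ η z = c • innerSL ℝ z) :
    Rr η z (fderiv ℝ Φ z) (fderiv ℝ J.F (kl m (Φ z)))
      (mixH (fderiv ℝ (fderiv ℝ J.F) (kl m (Φ z)))) = 0 := by
  set X := (kap m m (Φ z)).1 with hX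
  set Y := (kap m m (Φ z)).2 with hY
  have hXY : kl m (Φ z) = (X, Y) := rfl
  set A := fderiv ℝ Φ z with hA
  have hAh : kl m (A (hopf z)) = (J.Z X Y, -J.Z Y X) := hΦ.fderiv_hopf hd h1 h2
  have hz0 : z ≠ 0 := by
    intro h
    have h3 : ‖Φ z‖ = 0 := by rw [hΦ.norm, h, norm_zero]
    rw [norm_eq_zero] at h3
    apply h1
    rw [hX, h3, map_zero]; rfl
  have hH : hopf z ≠ 0 := by
    intro h
    have := norm_hopf z
    rw [h, norm_zero] at this
    exact hz0 (norm_eq_zero.1 this.symm)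
  set θ : Module.Dual ℝ (Eu (m + m)) := ((innerSL ℝ z : Eu (m + m) →L[ℝ] ℝ) :
    Eu (m + m) →ₗ[ℝ] ℝ) with hθ
  have hθH : θ (hopf z) = 0 := inner_hopf z
  set β := bA z A (fderiv ℝ J.F (X, Y)) with hβ
  have hβH : β (hopf z) = 0 := by
    rw [hβ, bA]
    change lamL m (fderiv ℝ J.F (X, Y)) (kl m (A (hopf z))) -
      lamL m (fderiv ℝ (F₀ m) (kl m z)) (kl m (hopf z)) = 0
    rw [hAh, lamL_apply, lamL_apply, fderiv_F₀]
    have e1 : kl m (hopf z) = ((kap m m z).2, -(kap m m z).1) := by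
      rw [kl_apply, hopf, ContinuousLinearEquiv.apply_symm_apply]
    rw [e1, L₀_apply, L₀_apply]
    have e2 : fderiv ℝ J.F (X, Y) (0, -J.Z Y X) = -‖X‖ ^ 2 := by
      have : ((0, -J.Z Y X) : PP m) = -(0, J.Z Y X) := by simp
      rw [this, map_neg, J.fderiv_Z' h1 h2]
    have e3 : ‖X‖ ^ 2 + ‖Y‖ ^ 2 = ‖z‖ ^ 2 := by rw [← hΦ.norm z, norm_sq_kap (Φ z)]
    have e4 := norm_sq_kap z
    simp only [kl_apply, inner_neg_right, real_inner_self_eq_norm_sq, inner_zero_left, add_zero,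
      inner_zero_right, zero_add]
    rw [e2, J.fderiv_Z h1 h2]
    linarith
  -- contractions
  have hia : ii (hopf z) (omA A (mixH (fderiv ℝ (fderiv ℝ J.F) (X, Y)))) = io θ := by
    rw [ii_omA, hAh]
    change ioL _ _ = ioL _ (innerSL ℝ z)
    congr 1
    refine ContinuousLinearMap.ext fun v => ?_
    have e5 : (A v : Eu (m + m)) = fderiv ℝ Φ z v := rfl
    rw [ContinuousLinearMap.comp_apply, sub_apply, ContinuousLinearMap.flip_apply,
      ContinuousLinearMap.comp_apply, tM_apply, tM_apply, map_neg, J.mix_Z h1 h2, J.mix_Z' h1 h2,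
      sub_neg_eq_add, innerSL_apply_apply, ← hΦ.inner_fderiv hd v, inner_kap (Φ z), ← e5, ← hX,
      ← hY, kl_apply, add_comm]
  have hic : ii (hopf z) (w₀ m) = io θ := by
    have e1 : kl m (hopf z) = ((kap m m z).2, -(kap m m z).1) := by
      rw [kl_apply, hopf, ContinuousLinearEquiv.apply_symm_apply]
    rw [ii_w₀, e1]
    change ioL _ _ = ioL _ (innerSL ℝ z)
    congr 1
    refine ContinuousLinearMap.ext fun v => ?_
    rw [ContinuousLinearMap.comp_apply, sub_apply, ContinuousLinearMap.flip_apply,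
      tM_apply, tM_apply, M₀_apply, M₀_apply, innerSL_apply_apply, inner_neg_right, inner_kap z v,
      kl_apply, real_inner_comm ((kap m m v).1) ((kap m m z).1)]
    ring
  have key := top_vanish hH hθH (β := (β : Eu (m + m) →ₗ[ℝ] ℝ)) hβH (omA_two A _) w₀_two hia hic m
  rw [Rr, hη, hXY, map_smul, smul_mul_assoc, map_smul, smul_eq_mul]
  refine mul_eq_zero_of_right _ ?_
  exact key

end Crest.Agent.R208.JT
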