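import Crest.Agent.R208.JT10

/-!
R208, block JT (helper631), part 11: null sets, the limit of the cut-off.
-/

set_option autoImplicit false
set_option linter.unusedSectionVars false

open Set Filter Topology Module MeasureTheory
open scoped NNReal ContDiff RealInnerProductSpace

noncomputable section

namespace Crest.Agent.R208.JT

open Crest.Agent.R208.FI (kap)

variable {m : ℕ} {J : JD m} {Φ : Eu (m + m) → Eu (m + m)}

lemma norm_Rs {ζ : ℂ} (hζ : ‖ζ‖ = 1) (z : Eu (m + m)) : ‖Rs ζ z‖ = ‖z‖ := by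
  have hr : ζ.re ^ 2 + ζ.im ^ 2 = 1 := by
    have := Complex.sq_norm ζ
    rw [hζ, Complex.normSq_apply] at this
    linarith
  refine (sq_eq_sq₀ (norm_nonneg _) (norm_nonneg _)).1 ?_
  rw [Rs, norm_sq_kap_symm, norm_sq_kap z, norm_add_sq_real, norm_add_sq_real, norm_smul,
    norm_smul, norm_smul, norm_smul, norm_neg, mul_pow, mul_pow, mul_pow, mul_pow,
    Real.norm_eq_abs, Real.norm_eq_abs, sq_abs, sq_abs, real_inner_smul_left,
    real_inner_smul_right, real_inner_smul_left, real_inner_smul_right]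
  linear_combination (‖(kap m m z).1‖ ^ 2 + ‖(kap m m z).2‖ ^ 2) * hr

/-- the rotation as a linear isometry -/
def RsI (ζ : ℂ) (hζ : ‖ζ‖ = 1) : Eu (m + m) →ₗᵢ[ℝ] Eu (m + m) where
  toFun := Rs ζ
  map_add' x y := by
    rw [Rs, Rs, Rs, ← map_add]
    congr 1
    rw [map_add, Prod.fst_add, Prod.snd_add, Prod.mk_add_mk]
    congr 1 <;> module
  map_smul' r x := by
    rw [Rs, Rs, RingHom.id_apply, ← map_smul, map_smul, Prod.smul_fst, Prod.smul_snd, Prod.smul_mk]
    congr 2 <;> module
  norm_map' z := norm_Rs hζ z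

lemma measurePreserving_Rs {ζ : ℂ} (hζ : ‖ζ‖ = 1) :
    MeasurePreserving (Rs ζ : Eu (m + m) → Eu (m + m)) :=
  ((RsI ζ hζ).toLinearIsometryEquiv rfl).measurePreserving

lemma JD.A_zero_left (J : JD m) (Y : Eu m) : J.A 0 Y = Y := by rw [J.A_comm, J.A_zero]

lemma JoinMap.null_fst (hm : 1 ≤ m) (hΦ : JoinMap J Φ) :
    (volume : Measure (Eu (m + m))) {z | (kap m m (Φ z)).1 = 0} = 0 := by
  obtain ⟨K, hK⟩ := hΦ.lip
  set N : Set (Eu (m + m)) := {z | z ≠ 0 ∧ (kap m m (Φ z)).1 = 0} with hN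
  have hNm : MeasurableSet N := by
    refine (isOpen_ne.measurableSet).inter (IsClosed.measurableSet ?_)
    exact isClosed_eq ((continuous_fst.comp (kap m m).continuous).comp hK.continuous)
      continuous_const
  have hN0 : (volume : Measure (Eu (m + m))) N = 0 := by
    by_contra hne
    set As : Ico (0 : ℝ) Real.pi → Set (Eu (m + m)) := fun s => Rs (cis s) ⁻¹' N with hAs
    have hAm : ∀ s, MeasurableSet (As s) := fun s =>
      (measurePreserving_Rs (norm_cis s)).measurable hNm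
    have hAv : ∀ s, (volume : Measure (Eu (m + m))) (As s) = volume N := fun s =>
      (measurePreserving_Rs (norm_cis s)).measure_preimage hNm.nullMeasurableSet
    have hdisj : Pairwise (Function.onFun Disjoint As) := by
      intro s t hst
      rw [Function.onFun, Set.disjoint_left]
      intro z hs ht
      have hs1 : Rs (cis s) z ≠ 0 := hs.1
      have hs2 : (kap m m (Φ (Rs (cis s) z))).1 = 0 := hs.2
      have ht2 : (kap m m (Φ (Rs (cis t) z))).1 = 0 := ht.2
      have e1 : Φ (Rs (cis t) z) = J.rot (cis (t - s)) (Φ (Rs (cis s) z)) := by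
        rw [hΦ.equi _ _ (norm_cis s), hΦ.equi _ _ (norm_cis t),
          J.rotRot.mul _ _ _ (norm_cis _) (norm_cis _), cis_mul, sub_add_cancel]
      rw [e1, JD.rot, ContinuousLinearEquiv.apply_symm_apply, hs2] at ht2
      simp only [smul_zero] at ht2
      rw [J.A_zero_left, cis_im, smul_eq_zero] at ht2
      rcases ht2 with h | h
      · have h1 := s.2
        have h2 := t.2
        have h3 : (t : ℝ) - s = 0 := by
          by_contra h4
          rcases lt_or_gt_of_ne h4 with h5 | h5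
          · have := Real.sin_neg_of_neg_of_neg_pi_lt h5 (by linarith [h1.1, h1.2, h2.1, h2.2])
            linarith
          · have := Real.sin_pos_of_pos_of_lt_pi h5 (by linarith [h1.1, h1.2, h2.1, h2.2])
            linarith
        exact hst (Subtype.ext (by linarith))
      · have h1 := norm_sq_kap (Φ (Rs (cis s) z))
        rw [hs2, h, norm_zero, hΦ.norm] at h1
        have h2 : ‖Rs (cis s) z‖ = 0 := by nlinarith [norm_nonneg (Rs (cis s) z)]
        exact hs1 (norm_eq_zero.1 h2)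
    have hc := Measure.countable_meas_pos_of_disjoint_iUnion
      (μ := (volume : Measure (Eu (m + m)))) hAm hdisj
    have huniv : {s | 0 < (volume : Measure (Eu (m + m))) (As s)} = univ := by
      ext s
      simp only [mem_ofPred_eq, mem_univ, iff_true]
      rw [hAv]
      exact pos_iff_ne_zero.2 hne
    rw [huniv, Set.countable_univ_iff] at hc
    have h3 : (Ico (0 : ℝ) Real.pi).Countable := hc
    have h4 := h3.measure_zero volume
    rw [Real.volume_Ico, sub_zero] at h4
    have := Real.pi_pos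
    simp at h4
    linarith
  have : Nonempty (Fin (m + m)) := ⟨⟨0, by omega⟩⟩
  have : Nontrivial (Eu (m + m)) := inferInstance
  refine measure_mono_null (t := N ∪ {0}) ?_ (measure_union_null hN0 (measure_singleton 0))
  intro z hz
  by_cases h : z = 0
  · exact Or.inr h
  · exact Or.inl ⟨h, hz⟩

lemma JoinMap.null_snd (hm : 1 ≤ m) (hΦ : JoinMap J Φ) :
    (volume : Measure (Eu (m + m))) {z | (kap m m (Φ z)).2 = 0} = 0 := by
  have h1 := hΦ.null_fst hm
  have h2 := (measurePreserving_Rs (m := m) (norm_cis (Real.pi / 2))).quasiMeasurePreserving.preimage_null h1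
  refine measure_mono_null ?_ h2
  intro z hz
  change (kap m m (Φ (Rs (cis (Real.pi / 2)) z))).1 = 0
  rw [hΦ.equi _ _ (norm_cis _), JD.rot, ContinuousLinearEquiv.apply_symm_apply, cis_re, cis_im,
    Real.cos_pi_div_two, Real.sin_pi_div_two]
  simp only [zero_smul, one_smul]
  rw [J.A_zero_left]
  exact hz

theorem JoinMap.ae_ne (hm : 1 ≤ m) (hΦ : JoinMap J Φ) :
    ∀ᵐ z : Eu (m + m), (kap m m (Φ z)).1 ≠ 0 ∧ (kap m m (Φ z)).2 ≠ 0 := by
  have h1 : ∀ᵐ z : Eu (m + m), (kap m m (Φ z)).1 ≠ 0 := by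
    rw [ae_iff]; simpa using hΦ.null_fst hm
  have h2 : ∀ᵐ z : Eu (m + m), (kap m m (Φ z)).2 ≠ 0 := by
    rw [ae_iff]; simpa using hΦ.null_snd hm
  filter_upwards [h1, h2] with z a b using ⟨a, b⟩

lemma ae_ne_pair (hm : 1 ≤ m) : ∀ᵐ z : Eu (m + m), (kap m m z).1 ≠ 0 ∧ (kap m m z).2 ≠ 0 := by
  have : Nonempty (Fin m) := ⟨⟨0, by omega⟩⟩
  have h0 : ∀ᵐ X : Eu m, X ≠ 0 := by
    rw [ae_iff]; simp
  have h1 : ∀ᵐ p : Eu m × Eu m ∂((volume : Measure (Eu m)).prod volume), p.1 ≠ 0 :=
    Measure.quasiMeasurePreserving_fst.ae h0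
  have h2 : ∀ᵐ p : Eu m × Eu m ∂((volume : Measure (Eu m)).prod volume), p.2 ≠ 0 :=
    Measure.quasiMeasurePreserving_snd.ae h0
  have h3 : ∀ᵐ p : Eu m × Eu m ∂(volume : Measure (Eu m × Eu m)), p.1 ≠ 0 ∧ p.2 ≠ 0 := by
    filter_upwards [h1, h2] with p a b using ⟨a, b⟩
  exact (FI.measurePreserving_kap m m).quasiMeasurePreserving.ae h3

end Crest.Agent.R208.JT
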