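import Crest.Agent.R208.JT11

/-!
R208, block JT (helper631), part 12: the identity `N ∫ η det F_XY = ∫ η`.
-/

set_option autoImplicit false
set_option linter.unusedSectionVars false

open Set Filter Topology Module MeasureTheory
open scoped NNReal ContDiff RealInnerProductSpace

noncomputable section

namespace Crest.Agent.R208.JT

open Crest.Agent.R208.F (top)
open Crest.Agent.R208.FI (kap)

section eta
variable {k : ℕ}

/-- radial cut-off -/
def eta (z : Eu k) : ℝ := Real.smoothTransition (1 - ‖z‖ ^ 2)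

lemma eta_smooth : ContDiff ℝ ∞ (eta (k := k)) :=
  Real.smoothTransition.contDiff.comp (contDiff_const.sub (contDiff_norm_sq ℝ))

lemma eta_zero {z : Eu k} (h : 1 ≤ ‖z‖) : eta z = 0 :=
  Real.smoothTransition.zero_of_nonpos (by nlinarith)

lemma eta_nonneg (z : Eu k) : 0 ≤ eta z := Real.smoothTransition.nonneg _

lemma eta_le_one (z : Eu k) : eta z ≤ 1 := Real.smoothTransition.le_one _

lemma eta_pos {z : Eu k} (h : ‖z‖ < 1) : 0 < eta z :=
  Real.smoothTransition.pos_of_pos (by nlinarith [norm_nonneg z])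

lemma eta_cpt : HasCompactSupport (eta (k := k)) := by
  refine HasCompactSupport.intro (isCompact_closedBall (0 : Eu k) 1) fun z hz => ?_
  rw [mem_closedBall_zero_iff, not_le] at hz
  exact eta_zero hz.le

lemma fderiv_eta (z : Eu k) : ∃ c : ℝ, fderiv ℝ (eta (k := k)) z = c • innerSL ℝ z := by
  set h : ℝ → ℝ := fun t => Real.smoothTransition (1 - t) with hh
  have hs : ContDiff ℝ ∞ h := Real.smoothTransition.contDiff.comp (contDiff_const.sub contDiff_id)
  have h1 : HasDerivAt h (deriv h (‖z‖ ^ 2)) (‖z‖ ^ 2) :=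
    ((hs.differentiable (by simp)) _).hasDerivAt
  have h2 : HasFDerivAt (fun w : Eu k => ‖w‖ ^ 2) (2 • innerSL ℝ z) z :=
    (hasStrictFDerivAt_norm_sq z).hasFDerivAt
  have h3 : HasFDerivAt (eta (k := k)) (deriv h (‖z‖ ^ 2) • (2 • innerSL ℝ z)) z := by
    have h4 := HasDerivAt.comp_hasFDerivAt (h₂ := h) (f := fun w : Eu k => ‖w‖ ^ 2) z h1 h2
    exact h4
  refine ⟨deriv h (‖z‖ ^ 2) * 2, ?_⟩
  rw [h3.fderiv]
  ext v
  simp only [smul_apply, smul_eq_mul, nsmul_eq_mul]
  push_cast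
  ring

lemma fderiv_eta_zero {z : Eu k} (h : 1 < ‖z‖) : fderiv ℝ (eta (k := k)) z = 0 := by
  have h1 : eta (k := k) =ᶠ[𝓝 z] fun _ => 0 := by
    filter_upwards [continuous_norm.continuousAt.eventually (lt_mem_nhds h)] with w hw
    exact eta_zero hw.le
  rw [h1.fderiv_eq]
  exact fderiv_const_apply _

end eta

section detM
variable {m : ℕ}

lemma detM_contDiff : ContDiff ℝ ∞ fun M : Eu m →L[ℝ] Eu m →L[ℝ] ℝ => detM M := by
  have h : (fun M : Eu m →L[ℝ] Eu m →L[ℝ] ℝ => detM M) = fun M =>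
      ∑ σ : Equiv.Perm (Fin m), ((Equiv.Perm.sign σ : ℤ) : ℝ) * ∏ i,
        M (EuclideanSpace.basisFun (Fin m) ℝ (σ i)) (EuclideanSpace.basisFun (Fin m) ℝ i) := by
    funext M
    rw [detM, Matrix.det_apply']
    rfl
  rw [h]
  refine ContDiff.sum fun σ _ => contDiff_const.mul (contDiff_prod fun i _ => ?_)
  exact (contDiff_id.clm_apply contDiff_const).clm_apply contDiff_const

lemma mixH_contDiff {E : Type*} [NormedAddCommGroup E] [NormedSpace ℝ E] {n : WithTop ℕ∞}
    {B : E → PP m →L[ℝ] PP m →L[ℝ] ℝ} {x : E} (hB : ContDiffAt ℝ n B x) :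
    ContDiffAt ℝ n (fun x => mixH (B x)) x := by
  unfold mixH
  exact contDiffAt_const.clm_comp (hB.clm_comp contDiffAt_const)

end detM

section integ
variable {k : ℕ} {Φ : Eu k → Eu k} {K : ℝ≥0}

theorem integrable_comp (hΦ : LipschitzWith K Φ)
    {T : Eu k → Eu k → (Eu k →L[ℝ] Eu k) → ℝ}
    (hc : Continuous fun q : Eu k × Eu k × (Eu k →L[ℝ] Eu k) => T q.1 q.2.1 q.2.2) {R : ℝ}
    (h0 : ∀ z p A, R < ‖z‖ → T z p A = 0) :
    Integrable fun z => T z (Φ z) (fderiv ℝ Φ z) := by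
  have h := approx_moll hΦ
  have hm : AEStronglyMeasurable (fun z => T z (Φ z) (fderiv ℝ Φ z))
      (volume : Measure (Eu k)) := by
    refine aestronglyMeasurable_of_tendsto_ae atTop
      (f := fun n z => T z (moll Φ n z) (fderiv ℝ (moll Φ n) z)) (fun n => ?_) ?_
    · have h1 : Continuous fun z => (z, moll Φ n z, fderiv ℝ (moll Φ n) z) :=
        continuous_id.prodMk ((h.smooth n).continuous.prodMk
          ((h.smooth n).continuous_fderiv (by simp)))
      exact (hc.comp h1).aestronglyMeasurable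
    · filter_upwards [h.limD] with z hz
      have h1 : Tendsto (fun n => (z, moll Φ n z, fderiv ℝ (moll Φ n) z)) atTop
          (𝓝 (z, Φ z, fderiv ℝ Φ z)) :=
        tendsto_const_nhds.prodMk_nhds ((h.lim z).prodMk_nhds hz)
      exact (hc.tendsto _).comp h1
  obtain ⟨R', hR'⟩ := (isCompact_closedBall (0 : Eu k) R).exists_bound_of_continuousOn
    hΦ.continuous.continuousOn
  obtain ⟨M, hM⟩ := ((isCompact_closedBall (0 : Eu k) R).prod
    ((isCompact_closedBall (0 : Eu k) R').prod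
      (isCompact_closedBall (0 : Eu k →L[ℝ] Eu k) K))).exists_bound_of_continuousOn hc.continuousOn
  refine Integrable.mono' (g := (Metric.closedBall (0 : Eu k) R).indicator fun _ => |M|) ?_ hm
    (Eventually.of_forall fun z => ?_)
  · rw [integrable_indicator_iff Metric.isClosed_closedBall.measurableSet]
    exact continuousOn_const.integrableOn_compact (isCompact_closedBall _ _)
  · by_cases hz : z ∈ Metric.closedBall (0 : Eu k) R
    · rw [indicator_of_mem hz]
      refine (hM (z, Φ z, fderiv ℝ Φ z) ⟨hz, ?_, ?_⟩).trans (le_abs_self M)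
      · exact mem_closedBall_zero_iff.2 (hR' z hz)
      · exact mem_closedBall_zero_iff.2 (norm_fderiv_le_lip hΦ z)
    · rw [indicator_of_notMem hz]
      rw [mem_closedBall_zero_iff, not_le] at hz
      rw [h0 z _ _ hz, norm_zero]

end integ

variable {m : ℕ} (J : JD m)

/-- determinant of the mixed Hessian -/
def JD.D (q : Eu (m + m)) : ℝ := detM (mixH (fderiv ℝ (fderiv ℝ J.F) (kl m q)))

/-- cut-off version -/
def JD.Dn (n : ℕ) (q : Eu (m + m)) : ℝ := detM (mixH (fderiv ℝ (fderiv ℝ (J.Fn n)) (kl m q)))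

lemma JD.Dn_smooth (n : ℕ) : ContDiff ℝ ∞ (J.Dn n) := by
  have h1 : ContDiff ℝ ∞ (fderiv ℝ (J.Fn n)) :=
    (J.Fn_smooth n).fderiv_right (m := ∞) (by simp)
  have h2 : ContDiff ℝ ∞ (fderiv ℝ (fderiv ℝ (J.Fn n))) := h1.fderiv_right (m := ∞) (by simp)
  have h3 : ContDiff ℝ ∞ fun q : Eu (m + m) => mixH (fderiv ℝ (fderiv ℝ (J.Fn n)) (kl m q)) :=
    contDiff_iff_contDiffAt.2 fun q => mixH_contDiff (h2.comp (kl m).contDiff).contDiffAt
  exact detM_contDiff.comp h3

lemma JD.Dn_eventually {q : Eu (m + m)} (h1 : (kap m m q).1 ≠ 0) (h2 : (kap m m q).2 ≠ 0) :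
    ∀ᶠ n in atTop, J.Dn n q = J.D q ∧ fderiv ℝ (J.Fn n) (kl m q) = fderiv ℝ J.F (kl m q) ∧
      mixH (fderiv ℝ (fderiv ℝ (J.Fn n)) (kl m q)) = mixH (fderiv ℝ (fderiv ℝ J.F) (kl m q)) := by
  filter_upwards [J.Fn_eventually (p := kl m q) h1 h2] with n hn
  have e1 : fderiv ℝ (J.Fn n) =ᶠ[𝓝 (kl m q)] fderiv ℝ J.F := hn.fderiv (𝕜 := ℝ)
  have e2 : fderiv ℝ (fderiv ℝ (J.Fn n)) (kl m q) = fderiv ℝ (fderiv ℝ J.F) (kl m q) :=
    e1.fderiv_eq (𝕜 := ℝ)
  refine ⟨?_, e1.eq_of_nhds, ?_⟩
  · rw [JD.Dn, JD.D, e2]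
  · rw [e2]

lemma isCompact_ballM (C : ℝ) : IsCompact {M : Eu m →L[ℝ] Eu m →L[ℝ] ℝ | ‖M‖ ≤ C} := by
  have h2 := FiniteDimensional.proper ℝ (Eu m →L[ℝ] Eu m →L[ℝ] ℝ)
  have h3 : {M : Eu m →L[ℝ] Eu m →L[ℝ] ℝ | ‖M‖ ≤ C} = Metric.closedBall 0 C := by
    ext M
    exact (mem_closedBall_zero_iff (E := Eu m →L[ℝ] Eu m →L[ℝ] ℝ)).symm
  rw [h3]
  exact isCompact_closedBall (α := Eu m →L[ℝ] Eu m →L[ℝ] ℝ) _ _

lemma exists_bound_detM (C : ℝ) : ∃ B : ℝ, 0 ≤ B ∧
    ∀ M : Eu m →L[ℝ] Eu m →L[ℝ] ℝ, ‖M‖ ≤ C → |detM M| ≤ B := by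
  obtain ⟨B, hB⟩ := (isCompact_ballM (m := m) C).exists_bound_of_continuousOn
    detM_contDiff.continuous.continuousOn
  exact ⟨|B|, abs_nonneg _, fun M hM => (hB M hM).trans (le_abs_self B)⟩

lemma exists_bound_Rr (K C : ℝ) : ∃ B : ℝ, 0 ≤ B ∧ ∀ (z : Eu (m + m))
    (A : Eu (m + m) →L[ℝ] Eu (m + m)) (l : PP m →L[ℝ] ℝ) (M : Eu m →L[ℝ] Eu m →L[ℝ] ℝ),
    ‖z‖ ≤ 1 → ‖A‖ ≤ K → ‖l‖ ≤ C → ‖M‖ ≤ C → |Rr eta z A l M| ≤ B := by
  have h1 : IsCompact (Metric.closedBall (0 : Eu (m + m)) 1) := isCompact_closedBall _ _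
  have h2 : IsCompact (Metric.closedBall (0 : Eu (m + m) →L[ℝ] Eu (m + m)) K) :=
    isCompact_closedBall _ _
  have h3 : IsCompact (Metric.closedBall (0 : PP m →L[ℝ] ℝ) C) := isCompact_closedBall _ _
  have hc : Continuous fun q : Eu (m + m) × (Eu (m + m) →L[ℝ] Eu (m + m)) × (PP m →L[ℝ] ℝ) ×
      (Eu m →L[ℝ] Eu m →L[ℝ] ℝ) => Rr eta q.1 q.2.1 q.2.2.1 q.2.2.2 :=
    cont_Rr (eta_smooth.of_le (by simp)) continuous_fst (continuous_fst.comp continuous_snd)
      (continuous_fst.comp (continuous_snd.comp continuous_snd))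
      (continuous_snd.comp (continuous_snd.comp continuous_snd))
  obtain ⟨B, hB⟩ := (h1.prod (h2.prod (h3.prod (isCompact_ballM C)))).exists_bound_of_continuousOn
    hc.continuousOn
  refine ⟨|B|, abs_nonneg _, fun z A l M hz hA hl hM => ?_⟩
  exact (hB (z, A, l, M) ⟨mem_closedBall_zero_iff.2 hz, mem_closedBall_zero_iff.2 hA,
    mem_closedBall_zero_iff.2 hl, hM⟩).trans (le_abs_self B)

lemma norm_kl_le (z : Eu (m + m)) : ‖kl m z‖ ≤ ‖z‖ :=
  max_le (norm_fst_kap z) (norm_snd_kap z)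

/-- **the key identity** -/
theorem JD.main_identity (hm : 1 ≤ m) : ∃ N : ℤ,
    (N : ℝ) * ∫ q : Eu (m + m), eta q * J.D q = ∫ q : Eu (m + m), eta q := by
  obtain ⟨Φ, hΦ⟩ := J.exists_joinMap
  obtain ⟨K, hK⟩ := hΦ.lip
  obtain ⟨N, hN⟩ := exists_degree hK hΦ.norm
  refine ⟨N, ?_⟩
  obtain ⟨C, hC0, hC1, hC2⟩ := J.Fn_bound
  have hF1 : ∀ n, Continuous fun p : Eu (m + m) => fderiv ℝ (J.Fn n) (kl m p) := fun n =>
    ((J.Fn_smooth n).continuous_fderiv (by simp)).comp (kl m).continuous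
  have hF2 : ∀ n, Continuous fun p : Eu (m + m) => mixH (fderiv ℝ (fderiv ℝ (J.Fn n)) (kl m p)) := by
    intro n
    have h3 : ContDiff ℝ 1 (fderiv ℝ (J.Fn n)) :=
      (J.Fn_smooth n).fderiv_right (m := 1) (WithTop.coe_le_coe.2 le_top)
    exact cont_mixH ((h3.continuous_fderiv (by norm_num)).comp (kl m).continuous)
  have heta : ∀ z, eta (Φ z) = eta z := fun z => by rw [eta, eta, hΦ.norm]
  set g : ℕ → Eu (m + m) → ℝ := fun n q => eta q * J.Dn n q with hg
  have hgs : ∀ n, ContDiff ℝ ∞ (g n) := fun n => eta_smooth.mul (J.Dn_smooth n)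
  have hgc : ∀ n, HasCompactSupport (g n) := fun n => eta_cpt.mul_right
  set Rn : ℕ → Eu (m + m) → ℝ := fun n z => Rr eta z (fderiv ℝ Φ z)
    (fderiv ℝ (J.Fn n) (kl m (Φ z))) (mixH (fderiv ℝ (fderiv ℝ (J.Fn n)) (kl m (Φ z)))) with hRn
  -- integrability
  have hRi : ∀ n, Integrable (Rn n) := fun n => by
    refine integrable_comp hK (T := fun z p A => Rr eta z A (fderiv ℝ (J.Fn n) (kl m p))
      (mixH (fderiv ℝ (fderiv ℝ (J.Fn n)) (kl m p)))) ?_ (R := 1) ?_
    · exact cont_Rr (eta_smooth.of_le (by simp)) continuous_fst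
        (continuous_snd.comp continuous_snd)
        ((hF1 n).comp (continuous_fst.comp continuous_snd))
        ((hF2 n).comp (continuous_fst.comp continuous_snd))
    · intro z p A hz
      simp only [Rr, fderiv_eta_zero hz, map_zero, zero_mul]
  have hgi : ∀ n, Integrable fun z => g n (Φ z) * (fderiv ℝ Φ z).det := fun n => by
    have h1 := integrable_comp hK (T := fun z p A => eta z * (J.Dn n p * A.det)) (R := 1)
      ((eta_smooth.continuous.comp continuous_fst).mul
        (((J.Dn_smooth n).continuous.comp (continuous_fst.comp continuous_snd)).mul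
          (continuous_det'.comp (continuous_snd.comp continuous_snd))))
      (fun z p A hz => by simp only [eta_zero hz.le, zero_mul])
    refine h1.congr (Eventually.of_forall fun z => ?_)
    simp only [hg, heta]
    ring
  have hei : Integrable (eta (k := m + m)) :=
    eta_smooth.continuous.integrable_of_hasCompactSupport eta_cpt
  have hid : ∀ n, (∫ z, Rn n z) + (c₀ m * (N * ∫ q, g n q) - c₀ m * ∫ z : Eu (m + m), eta z) = 0 := by
    intro n
    have h1 := integral_Tt_lip hK (J.Fn_smooth n) eta_smooth eta_cpt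
    have h2 : ∀ z, Tt eta z (fderiv ℝ Φ z) (fderiv ℝ (J.Fn n) (kl m (Φ z)))
        (mixH (fderiv ℝ (fderiv ℝ (J.Fn n)) (kl m (Φ z)))) =
        Rn n z + (c₀ m * (g n (Φ z) * (fderiv ℝ Φ z).det) - c₀ m * eta z) := by
      intro z
      rw [Tt, omA, top_pb_Om]
      simp only [hRn, hg, heta, JD.Dn]
      ring
    simp only [h2] at h1
    have i1 : Integrable fun z => c₀ m * (g n (Φ z) * (fderiv ℝ Φ z).det) := (hgi n).const_mul _
    have i2 : Integrable fun z : Eu (m + m) => c₀ m * eta z := hei.const_mul _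
    have i3 : Integrable fun z => c₀ m * (g n (Φ z) * (fderiv ℝ Φ z).det) - c₀ m * eta z :=
      i1.sub i2
    rw [integral_add (hRi n) i3, integral_sub i1 i2, integral_const_mul,
      integral_const_mul, hN (g n) (hgs n) (hgc n)] at h1
    exact h1
  -- limits
  obtain ⟨B, hB0, hB⟩ := exists_bound_Rr (m := m) K (2 * C)
  have hR : Tendsto (fun n => ∫ z, Rn n z) atTop (𝓝 0) := by
    have h0 : ∫ _z : Eu (m + m), (0 : ℝ) = 0 := by simp
    rw [← h0]
    refine tendsto_integral_of_dominated_convergence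
      ((Metric.closedBall (0 : Eu (m + m)) 1).indicator fun _ => B)
      (fun n => (hRi n).aestronglyMeasurable) ?_ (fun n => Eventually.of_forall fun z => ?_) ?_
    · rw [integrable_indicator_iff Metric.isClosed_closedBall.measurableSet]
      exact continuousOn_const.integrableOn_compact (isCompact_closedBall _ _)
    · by_cases hz : z ∈ Metric.closedBall (0 : Eu (m + m)) 1
      · rw [indicator_of_mem hz]
        rw [mem_closedBall_zero_iff] at hz
        refine hB z _ _ _ hz (norm_fderiv_le_lip hK z) ?_ ?_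
        · refine (hC2 n _).trans ?_
          have h1 := norm_kl_le (Φ z)
          rw [hΦ.norm] at h1
          have h2 : 2 * C * ‖kl m (Φ z)‖ ≤ 2 * C * 1 := by gcongr; linarith
          linarith
        · exact (hC1 n _).trans (by linarith)
      · rw [indicator_of_notMem hz]
        rw [mem_closedBall_zero_iff, not_le] at hz
        simp only [hRn, Rr, fderiv_eta_zero hz, map_zero, zero_mul, norm_zero, le_refl]
    · have hd : ∀ᵐ z : Eu (m + m), DifferentiableAt ℝ Φ z := hK.ae_differentiableAt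
      filter_upwards [hd, hΦ.ae_ne hm] with z hz hne
      obtain ⟨c, hc⟩ := fderiv_eta z
      refine tendsto_const_nhds.congr' ?_
      filter_upwards [J.Dn_eventually hne.1 hne.2] with n hn
      simp only [hRn]
      rw [hn.2.1, hn.2.2, hΦ.Rr_zero hz hne.1 hne.2 hc]
  obtain ⟨B', hB0', hB'⟩ := exists_bound_detM (m := m) C
  have hG : Tendsto (fun n => ∫ q, g n q) atTop (𝓝 (∫ q, eta q * J.D q)) := by
    refine tendsto_integral_of_dominated_convergence
      ((Metric.closedBall (0 : Eu (m + m)) 1).indicator fun _ => B')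
      (fun n => (hgs n).continuous.aestronglyMeasurable) ?_
      (fun n => Eventually.of_forall fun z => ?_) ?_
    · rw [integrable_indicator_iff Metric.isClosed_closedBall.measurableSet]
      exact continuousOn_const.integrableOn_compact (isCompact_closedBall _ _)
    · by_cases hz : z ∈ Metric.closedBall (0 : Eu (m + m)) 1
      · rw [indicator_of_mem hz]
        simp only [hg]
        rw [norm_mul, Real.norm_of_nonneg (eta_nonneg z), Real.norm_eq_abs]
        have h1 : |J.Dn n z| ≤ B' := hB' _ (hC1 n _)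
        calc eta z * |J.Dn n z| ≤ 1 * B' := by
              gcongr
              exact eta_le_one z
          _ = B' := one_mul _
      · rw [indicator_of_notMem hz]
        rw [mem_closedBall_zero_iff, not_le] at hz
        simp only [hg, eta_zero hz.le, zero_mul, norm_zero, le_refl]
    · filter_upwards [ae_ne_pair hm] with q hq
      refine tendsto_const_nhds.congr' ?_
      filter_upwards [J.Dn_eventually hq.1 hq.2] with n hn
      simp only [hg]
      rw [hn.1]
  have hlim := hR.add (((hG.const_mul (N : ℝ)).const_mul (c₀ m)).sub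
    (tendsto_const_nhds (x := c₀ m * ∫ z : Eu (m + m), eta z)))
  simp only [hid] at hlim
  have h3 := tendsto_nhds_unique hlim tendsto_const_nhds
  have h4 : c₀ m * ((N : ℝ) * (∫ q, eta q * J.D q) - ∫ z : Eu (m + m), eta z) = 0 := by
    linarith
  have h5 := (mul_eq_zero.1 h4).resolve_left (c₀_ne m)
  linarith

end Crest.Agent.R208.JT
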