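import Crest.Agent.R208.JT12

/-!
R208, block JT (helper631), part 13: the integral of the mixed Hessian over one factor.
-/

set_option autoImplicit false
set_option linter.unusedSectionVars false

open Set Filter Topology Module MeasureTheory
open scoped NNReal ContDiff RealInnerProductSpace MatrixOrder

noncomputable section

namespace Crest.Agent.R208.JT

open Crest.Agent.R208.F (sb)
open Crest.Agent.R208.FI (kap)

lemma exists_msqrt {m : ℕ} {A : Matrix (Fin m) (Fin m) ℝ} (hA : A.PosSemidef) :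
    ∃ B : Matrix (Fin m) (Fin m) ℝ, A = B.transpose * B := by
  obtain ⟨B, hB⟩ := CStarAlgebra.nonneg_iff_eq_star_mul_self.mp hA.nonneg
  exact ⟨B, by rw [hB]; rfl⟩

variable {m : ℕ}

/-- the matrix of a bilinear form -/
def matM (g : Eu m →L[ℝ] Eu m →L[ℝ] ℝ) : Matrix (Fin m) (Fin m) ℝ :=
  Matrix.of fun i j =>
    g (EuclideanSpace.basisFun (Fin m) ℝ i) (EuclideanSpace.basisFun (Fin m) ℝ j)

lemma detM_eq (g : Eu m →L[ℝ] Eu m →L[ℝ] ℝ) : detM g = (matM g).det := rfl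

lemma matM_apply (g : Eu m →L[ℝ] Eu m →L[ℝ] ℝ) (i j : Fin m) : matM g i j =
    g (EuclideanSpace.basisFun (Fin m) ℝ i) (EuclideanSpace.basisFun (Fin m) ℝ j) := rfl

lemma g_expand (g : Eu m →L[ℝ] Eu m →L[ℝ] ℝ) (a b : Eu m) :
    g a b = ∑ i, ∑ j, a i * b j * matM g i j := by
  have ha : a = ∑ i, a i • EuclideanSpace.basisFun (Fin m) ℝ i := by
    conv_lhs => rw [← (EuclideanSpace.basisFun (Fin m) ℝ).sum_repr a]
    rfl
  have hb : b = ∑ i, b i • EuclideanSpace.basisFun (Fin m) ℝ i := by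
    conv_lhs => rw [← (EuclideanSpace.basisFun (Fin m) ℝ).sum_repr b]
    rfl
  have h1 : g a b = ∑ i, a i * g (EuclideanSpace.basisFun (Fin m) ℝ i) b := by
    conv_lhs => rw [ha]
    rw [map_sum, sum_apply]
    refine Finset.sum_congr rfl fun i _ => ?_
    rw [map_smul, smul_apply, smul_eq_mul]
  have h2 : ∀ i, g (EuclideanSpace.basisFun (Fin m) ℝ i) b = ∑ j, b j * matM g i j := by
    intro i
    conv_lhs => rw [hb]
    rw [map_sum]
    refine Finset.sum_congr rfl fun j _ => ?_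
    rw [map_smul, smul_eq_mul, matM_apply]
  rw [h1]
  refine Finset.sum_congr rfl fun i _ => ?_
  rw [h2, Finset.mul_sum]
  refine Finset.sum_congr rfl fun j _ => ?_
  ring

lemma posDef_matM {g : Eu m →L[ℝ] Eu m →L[ℝ] ℝ} (hs : ∀ a b, g a b = g b a)
    (hp : ∀ a, a ≠ 0 → 0 < g a a) : (matM g).PosDef := by
  refine Matrix.PosDef.of_dotProduct_mulVec_pos ?_ fun x hx => ?_
  · ext i j
    rw [Matrix.conjTranspose_apply, matM_apply, matM_apply, hs]
    rfl
  · have h1 : (WithLp.toLp 2 x : Eu m) ≠ 0 := by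
      intro h
      apply hx
      have := congrArg WithLp.ofLp h
      simpa using this
    have h2 := hp _ h1
    rw [g_expand] at h2
    refine lt_of_lt_of_eq h2 ?_
    simp only [dotProduct, Matrix.mulVec, Finset.mul_sum, Pi.star_apply, star_trivial]
    refine Finset.sum_congr rfl fun i _ => Finset.sum_congr rfl fun j _ => ?_
    ring

/-- integral of a function of a quadratic form -/
theorem integral_quad {g : Eu m →L[ℝ] Eu m →L[ℝ] ℝ} (hs : ∀ a b, g a b = g b a)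
    (hp : ∀ a, a ≠ 0 → 0 < g a a) (ψ : ℝ → ℝ) : 0 < detM g ∧
      ∫ ξ : Eu m, ψ (‖ξ‖ ^ 2) = Real.sqrt (detM g) * ∫ ξ : Eu m, ψ (g ξ ξ) := by
  have hpd := posDef_matM hs hp
  have hdet : 0 < detM g := hpd.det_pos
  refine ⟨hdet, ?_⟩
  obtain ⟨B, hB⟩ := exists_msqrt hpd.posSemidef
  have hd2 : detM g = B.det ^ 2 := by
    rw [detM_eq, hB, Matrix.det_mul, Matrix.det_transpose, sq]
  set T : Eu m →L[ℝ] Eu m := LinearMap.toContinuousLinearMap (Matrix.toEuclideanLin B) with hT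
  have hTdet : T.det = B.det := by
    rw [ContinuousLinearMap.det, hT, LinearMap.coe_toContinuousLinearMap,
      Matrix.toEuclideanLin_eq_toLin_orthonormal, LinearMap.det_toLin]
  have hTn : ∀ ξ, ‖T ξ‖ ^ 2 = g ξ ξ := by
    intro ξ
    rw [g_expand, hB, EuclideanSpace.norm_sq_eq]
    have h1 : ∀ k, T ξ k = ∑ i, B k i * ξ i := fun k => rfl
    have h2 : ∀ k, ‖T ξ k‖ ^ 2 = ∑ i, ∑ j, (B k i * ξ i) * (B k j * ξ j) := by
      intro k
      rw [h1, Real.norm_eq_abs, sq_abs, sq, Finset.sum_mul_sum]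
    simp only [h2, Matrix.mul_apply, Matrix.transpose_apply, Finset.mul_sum]
    rw [Finset.sum_comm]
    refine Finset.sum_congr rfl fun i _ => ?_
    rw [Finset.sum_comm]
    refine Finset.sum_congr rfl fun j _ => Finset.sum_congr rfl fun k _ => ?_
    ring
  have hinj : Function.Injective T := by
    intro a b hab
    by_contra hne
    have h1 := hp (a - b) (sub_ne_zero.2 hne)
    rw [← hTn, map_sub, hab, sub_self, norm_zero] at h1
    simp at h1
  have hsurj : Function.Surjective T :=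
    (LinearMap.injective_iff_surjective (f := (T : Eu m →ₗ[ℝ] Eu m))).1 hinj
  have h := integral_image_eq_integral_abs_det_fderiv_smul (volume : Measure (Eu m))
    MeasurableSet.univ (f := T) (f' := fun _ => T)
    (fun x _ => T.hasFDerivAt.hasFDerivWithinAt) hinj.injOn (fun x => ψ (‖x‖ ^ 2))
  rw [image_univ, hsurj.range_eq, setIntegral_univ, setIntegral_univ] at h
  rw [h, hd2, Real.sqrt_sq_eq_abs, ← hTdet, ← integral_const_mul]
  simp only [hTn, smul_eq_mul]

lemma detM_comp {g M : Eu m →L[ℝ] Eu m →L[ℝ] ℝ} {L : Eu m →L[ℝ] Eu m}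
    (h : ∀ a b, M a b = g (L a) b) : detM M = L.det * detM g := by
  have h1 : matM M = (LinearMap.toMatrix (sb m) (sb m) (L : Eu m →ₗ[ℝ] Eu m)).transpose *
      matM g := by
    ext i j
    rw [matM_apply, h, Matrix.mul_apply]
    have h2 : L (EuclideanSpace.basisFun (Fin m) ℝ i) = ∑ k,
        L (EuclideanSpace.basisFun (Fin m) ℝ i) k • EuclideanSpace.basisFun (Fin m) ℝ k := by
      conv_lhs => rw [← (EuclideanSpace.basisFun (Fin m) ℝ).sum_repr
        (L (EuclideanSpace.basisFun (Fin m) ℝ i))]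
      rfl
    rw [h2, map_sum, sum_apply]
    refine Finset.sum_congr rfl fun k _ => ?_
    rw [map_smul, smul_apply, smul_eq_mul, Matrix.transpose_apply, LinearMap.toMatrix_apply,
      matM_apply]
    simp
  rw [detM_eq, h1, Matrix.det_mul, Matrix.det_transpose, LinearMap.det_toMatrix, ← detM_eq]

variable (J : JD m)

lemma JD.detG_eq (Y : Eu m) : J.detG Y = detM (J.G Y) := rfl

/-- the mixed Hessian and the differential of `Z Y` -/
lemma JD.mix_eq {X Y : Eu m} (h1 : X ≠ 0) (h2 : Y ≠ 0) :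
    detM (mixH (fderiv ℝ (fderiv ℝ J.F) (X, Y))) =
      (fderiv ℝ (J.Z Y) X).det * J.detG Y := by
  refine detM_comp fun a b => ?_
  rw [(J.hasFDerivAt_Z h2 h1).2 a b, J.mix_sw (p := (X, Y)) h1 h2]
  rfl

lemma JD.detG_pos {Y : Eu m} (h : Y ≠ 0) : 0 < J.detG Y :=
  (integral_quad (fun a b => J.G_symm Y a b) (fun a ha => J.G_pos Y a h ha) fun _ => 0).1

lemma JD.detZ_ne {X Y : Eu m} (h1 : X ≠ 0) (h2 : Y ≠ 0) : (fderiv ℝ (J.Z Y) X).det ≠ 0 := by
  have h3 := J.inj Y X h2 h1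
  intro h
  have h4 : ¬ IsUnit (LinearMap.det ((fderiv ℝ (J.Z Y) X : Eu m →L[ℝ] Eu m) :
      Eu m →ₗ[ℝ] Eu m)) := by
    intro hu
    exact hu.ne_zero h
  apply h4
  rw [← LinearMap.isUnit_iff_isUnit_det, Module.End.isUnit_iff]
  exact ⟨h3, (LinearMap.injective_iff_surjective
    (f := ((fderiv ℝ (J.Z Y) X : Eu m →L[ℝ] Eu m) : Eu m →ₗ[ℝ] Eu m))).1 h3⟩

/-- **integration over one factor** -/
theorem JD.integral_slice (hm : 1 ≤ m) {Y : Eu m} (hY : Y ≠ 0) (ψ : ℝ → ℝ) :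
    ∫ X : Eu m, ψ (‖X‖ ^ 2) * |detM (mixH (fderiv ℝ (fderiv ℝ J.F) (X, Y)))| =
      Real.sqrt (J.detG Y) * ∫ X : Eu m, ψ (‖X‖ ^ 2) := by
  have : Nonempty (Fin m) := ⟨⟨0, by omega⟩⟩
  have hG := J.detG_pos hY
  have hquad := (integral_quad (fun a b => J.G_symm Y a b) (fun a ha => J.G_pos Y a hY ha) ψ).2
  rw [← J.detG_eq] at hquad
  have hms : MeasurableSet {X : Eu m | X ≠ 0} := isOpen_ne.measurableSet
  have hnull : ∀ f : Eu m → ℝ, ∫ X in {X : Eu m | X ≠ 0}, f X = ∫ X, f X := by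
    intro f
    have h1 : {X : Eu m | X ≠ 0} = ({0} : Set (Eu m))ᶜ := rfl
    rw [h1, restrict_compl_singleton]
  have hcv := integral_image_eq_integral_abs_det_fderiv_smul (volume : Measure (Eu m)) hms
    (f := J.Z Y) (f' := fun X => fderiv ℝ (J.Z Y) X)
    (fun X hX => (J.hasFDerivAt_Z hY hX).1.hasFDerivWithinAt) (J.bij Y hY).injOn
    (fun ξ => ψ (J.G Y ξ ξ))
  rw [(J.bij Y hY).image_eq, hnull] at hcv
  have h2 : ∫ X in {X : Eu m | X ≠ 0}, |(fderiv ℝ (J.Z Y) X).det| •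
      ψ (J.G Y (J.Z Y X) (J.Z Y X)) = (J.detG Y)⁻¹ *
      ∫ X : Eu m, ψ (‖X‖ ^ 2) * |detM (mixH (fderiv ℝ (fderiv ℝ J.F) (X, Y)))| := by
    rw [← hnull, ← integral_const_mul]
    refine setIntegral_congr_fun hms fun X hX => ?_
    simp only [smul_eq_mul]
    rw [J.eik Y X hY hX, J.mix_eq hX hY, abs_mul, abs_of_pos hG]
    field_simp
  rw [h2] at hcv
  rw [hquad, hcv]
  have h3 : Real.sqrt (J.detG Y) * Real.sqrt (J.detG Y) = J.detG Y := Real.mul_self_sqrt hG.le
  rw [← mul_assoc, ← mul_assoc, h3, mul_inv_cancel₀ hG.ne', one_mul]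

end Crest.Agent.R208.JT
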