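import Crest.Agent.R208.JT13

/-!
R208, block JT (helper631), part 14: conclusion of the abstract half of the join trick.
-/

set_option autoImplicit false
set_option linter.unusedSectionVars false

open Set Filter Topology Module MeasureTheory
open scoped NNReal ContDiff RealInnerProductSpace

noncomputable section

namespace Crest.Agent.R208.JT

open Crest.Agent.R208.FI (kap)

variable {m : ℕ}

/-- polar coordinates for a homogeneous function times a radial one -/
theorem integral_homog (hm : 1 ≤ m) {s : Eu m → ℝ} (hs : ∀ (r : ℝ) Y, 0 < r → s (r • Y) = s Y)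
    (h : ℝ → ℝ) :
    ∫ Y : Eu m, s Y * h ‖Y‖ =
      (∫ u : Metric.sphere (0 : Eu m) 1, s u ∂(volume : Measure (Eu m)).toSphere) *
        ∫ r : Ioi (0 : ℝ), h r ∂(Measure.volumeIoiPow (finrank ℝ (Eu m) - 1)) := by
  have : Nonempty (Fin m) := ⟨⟨0, by omega⟩⟩
  have : Nontrivial (Eu m) := inferInstance
  calc ∫ Y : Eu m, s Y * h ‖Y‖
      = ∫ x : ({(0)}ᶜ : Set (Eu m)), s x.1 * h ‖x.1‖ ∂((volume : Measure (Eu m)).comap (↑)) := by
        rw [integral_subtype_comap (measurableSet_singleton _).compl fun x => s x * h ‖x‖,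
          restrict_compl_singleton]
    _ = ∫ x, s (x.1 : Eu m) * h (x.2 : ℝ) ∂((volume : Measure (Eu m)).toSphere.prod
          (.volumeIoiPow (finrank ℝ (Eu m) - 1))) := by
        rw [← (volume : Measure (Eu m)).measurePreserving_homeomorphUnitSphereProd.integral_comp
          (Homeomorph.measurableEmbedding _)
          (fun x : Metric.sphere (0 : Eu m) 1 × Ioi (0 : ℝ) => s (x.1 : Eu m) * h (x.2 : ℝ))]
        congr 1
        funext x
        simp only [homeomorphUnitSphereProd_apply_fst_coe, homeomorphUnitSphereProd_apply_snd_coe]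
        rw [hs]
        exact inv_pos.2 (norm_pos_iff.2 x.2)
    _ = _ := integral_prod_mul (fun u : Metric.sphere (0 : Eu m) 1 => s u)
        (fun r : Ioi (0 : ℝ) => h r)

variable (J : JD m)

/-- determinant of the mixed Hessian on pairs -/
def JD.Dp (p : PP m) : ℝ := detM (mixH (fderiv ℝ (fderiv ℝ J.F) p))

lemma JD.Dp_continuousAt {p : PP m} (h1 : p.1 ≠ 0) (h2 : p.2 ≠ 0) : ContinuousAt J.Dp p := by
  have h3 : ContDiffAt ℝ ∞ (fderiv ℝ J.F) p := (J.smoothAt h1 h2).fderiv_right (m := ∞) (by simp)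
  have h4 : ContDiffAt ℝ ∞ (fderiv ℝ (fderiv ℝ J.F)) p := h3.fderiv_right (m := ∞) (by simp)
  have h5 := detM_contDiff.contDiffAt.comp p (mixH_contDiff h4)
  exact h5.continuousAt

lemma JD.Dp_ne {p : PP m} (h1 : p.1 ≠ 0) (h2 : p.2 ≠ 0) : J.Dp p ≠ 0 := by
  have h := J.mix_eq (X := p.1) (Y := p.2) h1 h2
  rw [JD.Dp]
  rw [Prod.mk.eta] at h
  rw [h]
  exact mul_ne_zero (J.detZ_ne h1 h2) (J.detG_pos h2).ne'

lemma JD.Dp_sign (hm : 2 ≤ m) : ∃ σ : ℤ, σ * σ = 1 ∧
    ∀ p : PP m, p.1 ≠ 0 → p.2 ≠ 0 → J.Dp p = σ * |J.Dp p| := by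
  have hrank : 1 < Module.rank ℝ (Eu m) := by
    rw [← Module.finrank_eq_rank, finrank_euclideanSpace, Fintype.card_fin]
    exact_mod_cast hm
  have hc1 : IsPreconnected ({0}ᶜ : Set (Eu m)) :=
    (isConnected_compl_singleton_of_one_lt_rank hrank 0).isPreconnected
  have hc : IsPreconnected (({0}ᶜ : Set (Eu m)) ×ˢ ({0}ᶜ : Set (Eu m))) := hc1.prod hc1
  have hcont : ContinuousOn J.Dp (({0}ᶜ : Set (Eu m)) ×ˢ ({0}ᶜ : Set (Eu m))) := fun p hp =>
    (J.Dp_continuousAt hp.1 hp.2).continuousWithinAt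
  have hord := (hc.image _ hcont).ordConnected
  by_cases hneg : ∃ p : PP m, p.1 ≠ 0 ∧ p.2 ≠ 0 ∧ J.Dp p < 0
  · obtain ⟨p, hp1, hp2, hp⟩ := hneg
    refine ⟨-1, by norm_num, fun q hq1 hq2 => ?_⟩
    have hq : J.Dp q < 0 := by
      by_contra hcon
      push Not at hcon
      have h0 := hord.out ⟨p, ⟨hp1, hp2⟩, rfl⟩ ⟨q, ⟨hq1, hq2⟩, rfl⟩
        (show (0 : ℝ) ∈ Icc (J.Dp p) (J.Dp q) from ⟨hp.le, hcon⟩)
      obtain ⟨r, hr, hr0⟩ := h0
      exact J.Dp_ne hr.1 hr.2 hr0
    rw [abs_of_neg hq]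
    push_cast
    ring
  · push Not at hneg
    refine ⟨1, by norm_num, fun q hq1 hq2 => ?_⟩
    rw [abs_of_nonneg (hneg q hq1 hq2)]
    push_cast
    ring

/-- integrability -/
lemma JD.integrable_eta_D (hm : 1 ≤ m) : Integrable fun q : Eu (m + m) => eta q * J.D q := by
  obtain ⟨C, hC0, hC1, hC2⟩ := J.Fn_bound
  obtain ⟨B', hB0', hB'⟩ := exists_bound_detM (m := m) C
  have hlim : ∀ᵐ q : Eu (m + m), Tendsto (fun n => eta q * J.Dn n q) atTop (𝓝 (eta q * J.D q)) := by
    filter_upwards [ae_ne_pair hm] with q hq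
    refine tendsto_const_nhds.congr' ?_
    filter_upwards [J.Dn_eventually hq.1 hq.2] with n hn
    rw [hn.1]
  have hb : ∀ n (z : Eu (m + m)), ‖eta z * J.Dn n z‖ ≤
      (Metric.closedBall (0 : Eu (m + m)) 1).indicator (fun _ => B') z := by
    intro n z
    by_cases hz : z ∈ Metric.closedBall (0 : Eu (m + m)) 1
    · rw [indicator_of_mem hz]
      rw [norm_mul, Real.norm_of_nonneg (eta_nonneg z), Real.norm_eq_abs]
      have h1 : |J.Dn n z| ≤ B' := hB' _ (hC1 n _)
      calc eta z * |J.Dn n z| ≤ 1 * B' := by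
            gcongr
            exact eta_le_one z
        _ = B' := one_mul _
    · rw [indicator_of_notMem hz]
      rw [mem_closedBall_zero_iff, not_le] at hz
      simp only [eta_zero hz.le, zero_mul, norm_zero, le_refl]
  refine Integrable.mono' (g := (Metric.closedBall (0 : Eu (m + m)) 1).indicator fun _ => B') ?_
    (aestronglyMeasurable_of_tendsto_ae atTop (fun n => ?_) hlim) ?_
  · rw [integrable_indicator_iff Metric.isClosed_closedBall.measurableSet]
    exact continuousOn_const.integrableOn_compact (isCompact_closedBall _ _)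
  · exact (eta_smooth.mul (J.Dn_smooth n)).continuous.aestronglyMeasurable
  · filter_upwards [hlim] with z hz
    exact le_of_tendsto hz.norm (Eventually.of_forall fun n => hb n z)

/-- the radial cut-off on pairs -/
def etap (p : PP m) : ℝ := Real.smoothTransition (1 - ‖p.1‖ ^ 2 - ‖p.2‖ ^ 2)

lemma etap_kap (q : Eu (m + m)) : etap (kap m m q) = eta q := by
  rw [etap, eta, norm_sq_kap q]
  congr 1
  ring

lemma integral_kap (f : PP m → ℝ) : ∫ q : Eu (m + m), f (kap m m q) = ∫ p : PP m, f p :=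
  (FI.measurePreserving_kap m m).integral_comp
    (kap m m).toHomeomorph.measurableEmbedding f

lemma integrable_kap {f : PP m → ℝ} (h : Integrable fun q : Eu (m + m) => f (kap m m q)) :
    Integrable f :=
  ((FI.measurePreserving_kap m m).integrable_comp_emb
    (kap m m).toHomeomorph.measurableEmbedding).1 h

/-- **the abstract half of the join trick** -/
theorem JD.concl (hm : 2 ≤ m) : J.Concl := by
  have hm1 : 1 ≤ m := by omega
  have : Nonempty (Fin m) := ⟨⟨0, by omega⟩⟩
  obtain ⟨N, hN⟩ := J.main_identity hm1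
  obtain ⟨σ, hσ, hsign⟩ := J.Dp_sign hm
  -- abbreviations
  set s : Eu m → ℝ := fun Y => Real.sqrt (J.detG Y) with hs
  have hsh : ∀ (r : ℝ) Y, 0 < r → s (r • Y) = s Y := by
    intro r Y hr
    simp only [hs, JD.detG, J.G_smul r Y hr]
  set H : ℝ → ℝ := fun ρ => ∫ X : Eu m, Real.smoothTransition (1 - ‖X‖ ^ 2 - ρ ^ 2) with hH
  set S1 : ℝ := ∫ u : Metric.sphere (0 : Eu m) 1, (1 : ℝ) ∂(volume : Measure (Eu m)).toSphere
  set Ss : ℝ := ∫ u : Metric.sphere (0 : Eu m) 1, s u ∂(volume : Measure (Eu m)).toSphere with hSs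
  set RH : ℝ := ∫ r : Ioi (0 : ℝ), H r ∂(Measure.volumeIoiPow (finrank ℝ (Eu m) - 1)) with hRH
  set R1 : ℝ := ∫ r : Ioi (0 : ℝ), (Iio (1 : ℝ)).indicator (fun _ => (1 : ℝ)) r
    ∂(Measure.volumeIoiPow (finrank ℝ (Eu m) - 1)) with hR1
  have p1 : ∫ Y : Eu m, s Y * H ‖Y‖ = Ss * RH := integral_homog hm1 hsh H
  have p2 : ∫ Y : Eu m, H ‖Y‖ = S1 * RH := by
    have := integral_homog hm1 (s := fun _ => (1 : ℝ)) (fun _ _ _ => rfl) H
    simp only [one_mul] at this
    exact this
  have ind : ∀ (f : Eu m → ℝ), ∫ Y in Metric.ball (0 : Eu m) 1, f Y =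
      ∫ Y : Eu m, f Y * (Iio (1 : ℝ)).indicator (fun _ => (1 : ℝ)) ‖Y‖ := by
    intro f
    rw [← integral_indicator Metric.isOpen_ball.measurableSet]
    congr 1
    funext Y
    by_cases h : ‖Y‖ < 1
    · rw [indicator_of_mem (mem_ball_zero_iff.2 h), indicator_of_mem (mem_Iio.2 h), mul_one]
    · rw [indicator_of_notMem (fun h' => h (mem_ball_zero_iff.1 h')),
        indicator_of_notMem (fun h' => h (mem_Iio.1 h')), mul_zero]
  have p3 : ∫ Y in Metric.ball (0 : Eu m) 1, s Y = Ss * R1 := by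
    rw [ind, integral_homog hm1 hsh]
  have p4 : (volume (Metric.ball (0 : Eu m) 1)).toReal = S1 * R1 := by
    have h1 : ∫ _Y in Metric.ball (0 : Eu m) 1, (1 : ℝ) = (volume (Metric.ball (0 : Eu m) 1)).toReal := by
      rw [setIntegral_const, smul_eq_mul, mul_one]
      rfl
    rw [← h1, ind, integral_homog hm1 (s := fun _ => (1 : ℝ)) (fun _ _ _ => rfl)]
  -- the two integrals over pairs
  have hi0 : Integrable (eta (k := m + m)) :=
    eta_smooth.continuous.integrable_of_hasCompactSupport eta_cpt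
  have hi1 : Integrable (etap (m := m)) := by
    refine integrable_kap ?_
    simp only [etap_kap]
    exact hi0
  have hi2 : Integrable fun p : PP m => etap p * J.Dp p := by
    refine integrable_kap ?_
    simp only [etap_kap]
    exact J.integrable_eta_D hm1
  have q1 : ∫ q : Eu (m + m), eta q = S1 * RH := by
    have h1 : ∫ q : Eu (m + m), eta q = ∫ p : PP m, etap p := by
      rw [← integral_kap]
      simp only [etap_kap]
    rw [h1, ← p2, Measure.volume_eq_prod, integral_prod_symm _ hi1]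
    rfl
  have hnep : ∀ᵐ p : PP m, p.1 ≠ 0 ∧ p.2 ≠ 0 := by
    have h0 : ∀ᵐ X : Eu m, X ≠ 0 := by
      rw [ae_iff]; simp
    have h1 : ∀ᵐ p : Eu m × Eu m ∂((volume : Measure (Eu m)).prod volume), p.1 ≠ 0 :=
      Measure.quasiMeasurePreserving_fst.ae h0
    have h2 : ∀ᵐ p : Eu m × Eu m ∂((volume : Measure (Eu m)).prod volume), p.2 ≠ 0 :=
      Measure.quasiMeasurePreserving_snd.ae h0
    filter_upwards [h1, h2] with p a b using ⟨a, b⟩
  have q2 : ∫ q : Eu (m + m), eta q * J.D q = σ * (Ss * RH) := by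
    have h1 : ∫ q : Eu (m + m), eta q * J.D q = ∫ p : PP m, etap p * J.Dp p := by
      rw [← integral_kap]
      simp only [etap_kap]
      rfl
    have h2 : ∫ p : PP m, etap p * J.Dp p = σ * ∫ p : PP m, etap p * |J.Dp p| := by
      rw [← integral_const_mul]
      refine integral_congr_ae ?_
      filter_upwards [hnep] with p hp
      nth_rewrite 1 [hsign p hp.1 hp.2]
      ring
    have hi3 : Integrable fun p : PP m => etap p * |J.Dp p| := by
      have h3 : (fun p : PP m => etap p * |J.Dp p|) = fun p => ‖etap p * J.Dp p‖ := by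
        funext p
        have h6 : 0 ≤ etap p := Real.smoothTransition.nonneg _
        rw [norm_mul, Real.norm_eq_abs, Real.norm_eq_abs, abs_of_nonneg h6]
      rw [h3]
      exact hi2.norm
    have h4 : ∫ p : PP m, etap p * |J.Dp p| = ∫ Y : Eu m, s Y * H ‖Y‖ := by
      rw [Measure.volume_eq_prod, integral_prod_symm _ hi3]
      refine integral_congr_ae ?_
      have h0 : ∀ᵐ Y : Eu m, Y ≠ 0 := by
        rw [ae_iff]; simp
      filter_upwards [h0] with Y hY
      have h5 := J.integral_slice hm1 hY fun t => Real.smoothTransition (1 - t - ‖Y‖ ^ 2)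
      exact h5
    rw [h1, h2, h4, p1]
  have q0 : 0 < ∫ q : Eu (m + m), eta q := by
    rw [integral_pos_iff_support_of_nonneg (fun z => eta_nonneg z) hi0]
    refine lt_of_lt_of_le (Metric.measure_ball_pos volume (0 : Eu (m + m)) one_pos)
      (measure_mono fun z hz => ?_)
    exact (eta_pos (mem_ball_zero_iff.1 hz)).ne'
  rw [q1] at q0
  rw [q1, q2] at hN
  have hRH : RH ≠ 0 := by
    intro h
    rw [h, mul_zero] at q0
    exact lt_irrefl _ q0
  have key : (N : ℝ) * σ * Ss = S1 := by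
    have h1 : ((N : ℝ) * σ * Ss) * RH = S1 * RH := by linarith
    exact mul_right_cancel₀ hRH h1
  refine ⟨N * σ, ?_⟩
  rw [p4]
  change ((N * σ : ℤ) : ℝ) * ∫ X in Metric.ball (0 : Eu m) 1, s X = _
  rw [p3, ← key]
  push_cast
  ring

theorem mainStmt : MainStmt := fun _ J hm => J.concl hm

end Crest.Agent.R208.JT
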