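import Crest.Agent.R208.JT14
import Crest.Agent.R208.GZ9

/-!
R208, block JT (helper631), part 15: `VolLe` for the types `k = n` and `k = 1`, without hypothesis.
-/

set_option autoImplicit false

open MeasureTheory Measure
open Crest.GeometryTopology.Submanifold
open Crest.Agent.R241.DDefs
open Crest.Agent.R208.L (cst)
open Crest.Agent.R208.I (IM Typ)

noncomputable section

namespace Crest.Agent.R208.JT

variable {n N : ℕ} {κ : ℝ} {S : Set (Euc N)} {G : Geo n N κ S}

/-- **`VolLe` for `k = n` and `k = 1`** -/
theorem volLe_ends (hB : Bl n N κ S G Real.pi) {k : ℕ}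
    (hT : Typ G k) (hk : k = n ∨ k = 1) : μHE[n] S ≤ cst n * IM (k - 1) (n - k) :=
  GZ.volLe_ends' mainStmt hB hT hk

end Crest.Agent.R208.JT
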