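import Crest.Agent.R208.JT1
import Crest.Agent.R208.FH2

/-!
R208, block JT (helper631), part 2: the equivariant Lipschitz map `Φ` of the join.
-/

set_option autoImplicit false
set_option linter.unusedSectionVars false

open Set Filter Topology Module
open scoped NNReal

noncomputable section

namespace Crest.Agent.R208.JT

open Crest.Agent.R208.FI (kap)

section induction

variable {E : Type*} [NormedAddCommGroup E] [NormedSpace ℝ E] [FiniteDimensional ℝ E]
  {ρ : ℂ → E → E}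

lemma dimH_pi (j : ℕ) : dimH (univ : Set (Fin j → ℂ)) = (2 * j : ℕ) := by
  rw [Real.dimH_univ_eq_finrank]
  rw [Module.finrank_pi_fintype]
  simp [mul_comm]

theorem exists_eqMap (hρ : Rot ρ) (j : ℕ) (hj : 2 * j ≤ finrank ℝ E) :
    ∃ Φ : (Fin j → ℂ) → E, EqMap ρ Φ := by
  induction j with
  | zero =>
    refine ⟨fun _ => 0, ⟨⟨0, LipschitzWith.const 0⟩, ?_, ?_, ?_⟩⟩
    · intro ζ z hζ; rw [hρ.zero hζ]
    · intro r z _; rw [smul_zero]
    · intro z _; exact Subsingleton.elim _ _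
  | succ j ih =>
    obtain ⟨Φ, hΦ⟩ := ih (by omega)
    obtain ⟨C, hC⟩ := hΦ.lip
    have h1 : dimH (range Φ) ≤ (2 * j : ℕ) := by
      refine (hC.dimH_range_le).trans ?_
      rw [dimH_pi]
    have h2 : range Φ ≠ univ := by
      intro h
      rw [h, Real.dimH_univ_eq_finrank] at h1
      have : finrank ℝ E ≤ 2 * j := by exact_mod_cast h1
      omega
    obtain ⟨u, hu⟩ := (ne_univ_iff_exists_notMem _).1 h2
    have h3 := hΦ.ext_step hρ (v := -u) (fun z hz => hu ⟨z, by rw [hz, neg_neg]⟩)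
    have e : (Fin (j + 1) → ℂ) ≃L[ℂ] (Fin j → ℂ) × ℂ := by
      apply ContinuousLinearEquiv.ofFinrankEq
      simp
    exact ⟨_, h3.comp e⟩

end induction

section kappa

lemma norm_sq_kap {m : ℕ} (z : Eu (m + m)) :
    ‖z‖ ^ 2 = ‖(kap m m z).1‖ ^ 2 + ‖(kap m m z).2‖ ^ 2 := by
  rw [EuclideanSpace.norm_sq_eq, EuclideanSpace.norm_sq_eq, EuclideanSpace.norm_sq_eq,
    Fin.sum_univ_add]
  congr 1

lemma norm_sq_kap_symm {m : ℕ} (a b : Eu m) :
    ‖(kap m m).symm (a, b)‖ ^ 2 = ‖a‖ ^ 2 + ‖b‖ ^ 2 := by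
  rw [norm_sq_kap, ContinuousLinearEquiv.apply_symm_apply]

lemma norm_fst_kap {m : ℕ} (z : Eu (m + m)) : ‖(kap m m z).1‖ ≤ ‖z‖ := by
  have h := norm_sq_kap z
  exact (sq_le_sq₀ (norm_nonneg _) (norm_nonneg _)).1 (by nlinarith [sq_nonneg ‖(kap m m z).2‖])

lemma norm_snd_kap {m : ℕ} (z : Eu (m + m)) : ‖(kap m m z).2‖ ≤ ‖z‖ := by
  have h := norm_sq_kap z
  exact (sq_le_sq₀ (norm_nonneg _) (norm_nonneg _)).1 (by nlinarith [sq_nonneg ‖(kap m m z).1‖])

lemma norm_kap_symm_le {m : ℕ} (a b : Eu m) : ‖(kap m m).symm (a, b)‖ ≤ ‖a‖ + ‖b‖ := by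
  have h := norm_sq_kap_symm a b
  exact (sq_le_sq₀ (norm_nonneg _) (add_nonneg (norm_nonneg _) (norm_nonneg _))).1
    (by nlinarith [norm_nonneg a, norm_nonneg b])

end kappa

section rot

variable {m : ℕ} (J : JD m)

lemma JD.F_comm (X Y : Eu m) : J.F (X, Y) = J.F (Y, X) := by
  have h1 := J.norm_A X Y
  have h2 := J.norm_A Y X
  rw [J.A_comm] at h1
  linarith

lemma JD.F_smul_right (r : ℝ) (X Y : Eu m) : J.F (X, r • Y) = r * J.F (X, Y) := by
  rw [J.F_comm, J.F_smul, J.F_comm]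

/-- the circle action on pairs -/
def JD.rot (ζ : ℂ) (z : Eu (m + m)) : Eu (m + m) :=
  (kap m m).symm (J.A (ζ.re • (kap m m z).1) (ζ.im • (kap m m z).2),
    J.A (-ζ.im • (kap m m z).1) (ζ.re • (kap m m z).2))

lemma exists_angle {ζ : ℂ} (hζ : ‖ζ‖ = 1) : ∃ s : ℝ, ζ.re = Real.cos s ∧ ζ.im = Real.sin s := by
  have h0 : ζ ≠ 0 := by
    intro h; rw [h, norm_zero] at hζ; exact zero_ne_one hζ
  refine ⟨ζ.arg, ?_, ?_⟩
  · rw [Complex.cos_arg h0, hζ, div_one]
  · rw [Complex.sin_arg, hζ, div_one]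

theorem JD.rotRot : Rot J.rot where
  mul ζ ξ z hζ hξ := by
    obtain ⟨s, hs1, hs2⟩ := exists_angle hζ
    obtain ⟨t, ht1, ht2⟩ := exists_angle hξ
    have e1 : (ζ * ξ).re = Real.cos (s + t) := by
      rw [Complex.mul_re, hs1, hs2, ht1, ht2, Real.cos_add]
    have e2 : (ζ * ξ).im = Real.sin (s + t) := by
      rw [Complex.mul_im, hs1, hs2, ht1, ht2, Real.sin_add]; ring
    rw [JD.rot, JD.rot, JD.rot, e1, e2, ContinuousLinearEquiv.apply_symm_apply, hs1, hs2, ht1, ht2]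
    simp only
    rw [J.act s t]
    have h2 := J.act (s + Real.pi / 2) t (kap m m z).1 (kap m m z).2
    rw [Real.cos_add_pi_div_two, Real.sin_add_pi_div_two,
      show s + Real.pi / 2 + t = (s + t) + Real.pi / 2 by ring, Real.cos_add_pi_div_two,
      Real.sin_add_pi_div_two] at h2
    rw [h2]
  one z := by
    rw [JD.rot, Complex.one_re, Complex.one_im]
    simp only [one_smul, zero_smul, neg_zero]
    rw [J.A_zero, J.A_comm, J.A_zero]
    exact (kap m m).symm_apply_apply z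
  norm ζ z hζ := by
    have h1 : ζ.re ^ 2 + ζ.im ^ 2 = 1 := by
      have := Complex.sq_norm ζ
      rw [hζ, Complex.normSq_apply] at this
      linarith
    have h2 : ‖J.rot ζ z‖ ^ 2 = ‖z‖ ^ 2 := by
      rw [JD.rot, norm_sq_kap_symm, J.norm_A, J.norm_A, norm_sq_kap z, J.F_smul, J.F_smul,
        J.F_smul_right, J.F_smul_right, norm_smul, norm_smul, norm_smul, norm_smul, norm_neg,
        mul_pow, mul_pow, mul_pow, mul_pow, Real.norm_eq_abs, Real.norm_eq_abs, sq_abs, sq_abs]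
      linear_combination (‖(kap m m z).1‖ ^ 2 + ‖(kap m m z).2‖ ^ 2) * h1
    exact (sq_eq_sq₀ (norm_nonneg _) (norm_nonneg _)).1 h2
  smul ζ z r hζ hr := by
    rw [JD.rot, JD.rot, map_smul, Prod.smul_fst, Prod.smul_snd, smul_comm _ r, smul_comm _ r,
      smul_comm _ r, smul_comm _ r, J.A_smul, J.A_smul, ← Prod.smul_mk, map_smul]
  lip := by
    obtain ⟨C, hC⟩ := J.lip
    refine ⟨2 * C, by positivity, fun ζ x y hζ => ?_⟩
    have hre : |ζ.re| ≤ 1 := hζ ▸ Complex.abs_re_le_norm ζ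
    have him : |ζ.im| ≤ 1 := hζ ▸ Complex.abs_im_le_norm ζ
    have key : ∀ a b : ℝ, |a| ≤ 1 → |b| ≤ 1 →
        ‖J.A (a • (kap m m x).1) (b • (kap m m x).2) -
          J.A (a • (kap m m y).1) (b • (kap m m y).2)‖ ≤ C * ‖x - y‖ := by
      intro a b ha hb
      have h1 := hC.norm_sub_le (a • (kap m m x).1, b • (kap m m x).2)
        (a • (kap m m y).1, b • (kap m m y).2)
      refine h1.trans ?_
      gcongr
      rw [Prod.mk_sub_mk, ← smul_sub, ← smul_sub, Prod.norm_mk]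
      have e1 : (kap m m x).1 - (kap m m y).1 = (kap m m (x - y)).1 := by rw [map_sub]; rfl
      have e2 : (kap m m x).2 - (kap m m y).2 = (kap m m (x - y)).2 := by rw [map_sub]; rfl
      rw [e1, e2, norm_smul, norm_smul]
      refine max_le ?_ ?_
      · calc |a| * ‖(kap m m (x - y)).1‖ ≤ 1 * ‖x - y‖ := by
              gcongr
              exact norm_fst_kap _
          _ = ‖x - y‖ := one_mul _
      · calc |b| * ‖(kap m m (x - y)).2‖ ≤ 1 * ‖x - y‖ := by
              gcongr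
              exact norm_snd_kap _
          _ = ‖x - y‖ := one_mul _
    rw [JD.rot, JD.rot, ← map_sub, Prod.mk_sub_mk]
    refine (norm_kap_symm_le _ _).trans ?_
    have k1 := key ζ.re ζ.im hre him
    have k2 := key (-ζ.im) ζ.re (by rwa [abs_neg]) hre
    linarith
  lipz := by
    obtain ⟨C, hC⟩ := J.lip
    refine ⟨2 * C, by positivity, fun ζ ξ z hζ hξ => ?_⟩
    have hre : |ζ.re - ξ.re| ≤ ‖ζ - ξ‖ := by
      rw [← Complex.sub_re]; exact Complex.abs_re_le_norm _
    have him : |ζ.im - ξ.im| ≤ ‖ζ - ξ‖ := by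
      rw [← Complex.sub_im]; exact Complex.abs_im_le_norm _
    have key : ∀ a b a' b' : ℝ, |a - a'| ≤ ‖ζ - ξ‖ → |b - b'| ≤ ‖ζ - ξ‖ →
        ‖J.A (a • (kap m m z).1) (b • (kap m m z).2) -
          J.A (a' • (kap m m z).1) (b' • (kap m m z).2)‖ ≤ C * (‖ζ - ξ‖ * ‖z‖) := by
      intro a b a' b' ha hb
      have h1 := hC.norm_sub_le (a • (kap m m z).1, b • (kap m m z).2)
        (a' • (kap m m z).1, b' • (kap m m z).2)
      refine h1.trans ?_
      gcongr
      rw [Prod.mk_sub_mk, ← sub_smul, ← sub_smul, Prod.norm_mk, norm_smul, norm_smul]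
      refine max_le ?_ ?_
      · gcongr
        · exact ha
        · exact norm_fst_kap _
      · gcongr
        · exact hb
        · exact norm_snd_kap _
    rw [JD.rot, JD.rot, ← map_sub, Prod.mk_sub_mk]
    refine (norm_kap_symm_le _ _).trans ?_
    have k1 := key ζ.re ζ.im ξ.re ξ.im hre him
    have k2 := key (-ζ.im) ζ.re (-ξ.im) ξ.re (by
      rw [neg_sub_neg, abs_sub_comm]; exact him) hre
    linarith

end rot

section main

variable {m : ℕ}

/-- complex coordinates -/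
def cc (m : ℕ) : Eu (m + m) →L[ℝ] (Fin m → ℂ) :=
  LinearMap.toContinuousLinearMap
    { toFun := fun z i => ((kap m m z).1 i : ℂ) - Complex.I * ((kap m m z).2 i : ℂ)
      map_add' := fun x y => by
        funext i
        simp only [map_add, Prod.fst_add, Prod.snd_add, PiLp.add_apply, Complex.ofReal_add,
          Pi.add_apply]
        ring
      map_smul' := fun r x => by
        funext i
        simp only [map_smul, Prod.smul_fst, Prod.smul_snd, PiLp.smul_apply, smul_eq_mul,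
          Complex.ofReal_mul, RingHom.id_apply, Pi.smul_apply, Complex.real_smul]
        ring }

lemma cc_apply (z : Eu (m + m)) (i : Fin m) :
    cc m z i = ((kap m m z).1 i : ℂ) - Complex.I * ((kap m m z).2 i : ℂ) := rfl

lemma cc_eq_zero {z : Eu (m + m)} (h : cc m z = 0) : z = 0 := by
  have h1 : kap m m z = 0 := by
    refine Prod.ext ?_ ?_
    · ext i
      have := congrArg Complex.re (congrFun h i)
      rw [cc_apply] at this
      simpa using this
    · ext i
      have := congrArg Complex.im (congrFun h i)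
      rw [cc_apply] at this
      simpa using this
  exact (kap m m).injective (by rw [h1, map_zero])

/-- euclidean rotation of pairs -/
def Rs (ζ : ℂ) (z : Eu (m + m)) : Eu (m + m) :=
  (kap m m).symm (ζ.re • (kap m m z).1 + ζ.im • (kap m m z).2,
    -ζ.im • (kap m m z).1 + ζ.re • (kap m m z).2)

lemma cc_Rs (ζ : ℂ) (z : Eu (m + m)) : cc m (Rs ζ z) = ζ • cc m z := by
  funext i
  rw [cc_apply, Pi.smul_apply, cc_apply, Rs, ContinuousLinearEquiv.apply_symm_apply]
  simp only [PiLp.add_apply, PiLp.smul_apply, smul_eq_mul, Complex.ofReal_add, Complex.ofReal_mul,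
    Complex.ofReal_neg]
  conv_rhs => rw [← Complex.re_add_im ζ]
  linear_combination ((ζ.im : ℂ) * ((kap m m z).2 i : ℂ)) * Complex.I_mul_I

/-- **T3**: the equivariant Lipschitz map of the join. -/
theorem JD.exists_Phi (J : JD m) : ∃ Φ : Eu (m + m) → Eu (m + m),
    (∃ C : ℝ≥0, LipschitzWith C Φ) ∧ (∀ z, ‖Φ z‖ = ‖z‖) ∧
    (∀ (r : ℝ) z, 0 ≤ r → Φ (r • z) = r • Φ z) ∧
    (∀ ζ z, ‖ζ‖ = 1 → Φ (Rs ζ z) = J.rot ζ (Φ z)) := by
  obtain ⟨Ψ, hΨ⟩ := exists_eqMap J.rotRot m (by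
    rw [finrank_euclideanSpace, Fintype.card_fin]; omega)
  obtain ⟨L, hL⟩ := hΨ.lip
  -- `Ψ ∘ cc`
  set f : Eu (m + m) → Eu (m + m) := fun z => Ψ (cc m z) with hf
  obtain ⟨K, hK⟩ : ∃ K : ℝ≥0, LipschitzWith K f := ⟨_, hL.comp (cc m).lipschitz⟩
  have f_ne : ∀ z, f z = 0 → z = 0 := fun z hz => cc_eq_zero (hΨ.ne _ hz)
  have f_smul : ∀ (r : ℝ) z, 0 ≤ r → f (r • z) = r • f z := by
    intro r z hr
    simp only [hf]
    rw [map_smul, ← hΨ.smul r _ hr]
    rfl
  have f_zero : f 0 = 0 := by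
    have := f_smul 0 0 le_rfl
    simpa using this
  have f_equi : ∀ ζ z, ‖ζ‖ = 1 → f (Rs ζ z) = J.rot ζ (f z) := by
    intro ζ z hζ
    simp only [hf]
    rw [cc_Rs, hΨ.equi _ _ hζ]
  -- lower bound
  obtain ⟨c, hc0, hc⟩ : ∃ c : ℝ, 0 < c ∧ ∀ z, c * ‖z‖ ≤ ‖f z‖ := by
    by_cases hm : m = 0
    · subst hm
      refine ⟨1, one_pos, fun z => ?_⟩
      have : z = 0 := by ext i; exact i.elim0
      rw [this]; simp
    · have hcpt : IsCompact (Metric.sphere (0 : Eu (m + m)) 1) := isCompact_sphere _ _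
      have : Nonempty (Fin (m + m)) := ⟨⟨0, by omega⟩⟩
      have : Nontrivial (Eu (m + m)) := inferInstance
      have hne : (Metric.sphere (0 : Eu (m + m)) 1).Nonempty :=
        NormedSpace.sphere_nonempty.2 zero_le_one
      obtain ⟨x, hx, hmin⟩ := hcpt.exists_isMinOn hne hK.continuous.norm.continuousOn
      have hx1 : ‖x‖ = 1 := by simpa using hx
      refine ⟨‖f x‖, norm_pos_iff.2 fun h => ?_, fun z => ?_⟩
      · have := f_ne _ h
        rw [this, norm_zero] at hx1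
        exact zero_ne_one hx1
      · rcases eq_or_ne z 0 with hz | hz
        · rw [hz]; simp
        · have hz0 : 0 < ‖z‖ := norm_pos_iff.2 hz
          have h1 : ‖z‖⁻¹ • z ∈ Metric.sphere (0 : Eu (m + m)) 1 := by
            rw [mem_sphere_zero_iff_norm, norm_smul, norm_inv, norm_norm,
              inv_mul_cancel₀ hz0.ne']
          have h2 : ‖f x‖ ≤ ‖f (‖z‖⁻¹ • z)‖ := hmin h1
          rw [f_smul _ _ (by positivity), norm_smul, norm_inv, norm_norm,
            inv_mul_eq_div, le_div_iff₀ hz0] at h2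
          exact h2
  have f_pos : ∀ z, z ≠ 0 → 0 < ‖f z‖ := fun z hz =>
    lt_of_lt_of_le (mul_pos hc0 (norm_pos_iff.2 hz)) (hc z)
  refine ⟨fun z => (‖z‖ / ‖f z‖) • f z, ⟨1 + 2 * K / ⟨c, hc0.le⟩, ?_⟩, ?_, ?_, ?_⟩
  · refine LipschitzWith.of_dist_le_mul fun z w => ?_
    rw [dist_eq_norm, dist_eq_norm]
    push_cast
    change _ ≤ (1 + 2 * K / c) * ‖z - w‖
    have hK0 : (0 : ℝ) ≤ K := K.2
    rcases eq_or_ne z 0 with hz | hz
    · rw [hz, norm_zero, zero_div, zero_smul, zero_sub, zero_sub, norm_neg, norm_neg]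
      rcases eq_or_ne w 0 with hw | hw
      · rw [hw]; simp
      · have hw0 := f_pos w hw
        rw [norm_smul, norm_div, norm_norm, norm_norm, div_mul_cancel₀ _ hw0.ne']
        have : 0 ≤ 2 * K / c * ‖w‖ := by positivity
        linarith
    · rcases eq_or_ne w 0 with hw | hw
      · have hz0 := f_pos z hz
        rw [hw, norm_zero, zero_div, zero_smul, sub_zero, sub_zero,
          norm_smul, norm_div, norm_norm, norm_norm, div_mul_cancel₀ _ hz0.ne']
        have : 0 ≤ 2 * K / c * ‖z‖ := by positivity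
        linarith
      · have hz0 := f_pos z hz
        have hw0 := f_pos w hw
        have e1 : (‖z‖ / ‖f z‖) • f z - (‖w‖ / ‖f w‖) • f w =
            (‖z‖ / ‖f z‖) • (f z - f w) + (‖z‖ * (‖f z‖⁻¹ - ‖f w‖⁻¹)) • f w +
              ((‖z‖ - ‖w‖) / ‖f w‖) • f w := by
          rw [smul_sub, div_eq_mul_inv, div_eq_mul_inv, div_eq_mul_inv]
          module
        rw [e1]
        refine (norm_add₃_le).trans ?_
        have hq : ‖z‖ / ‖f z‖ ≤ 1 / c := by
          rw [div_le_div_iff₀ hz0 hc0, one_mul, mul_comm]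
          exact hc z
        have hfd : ‖f z - f w‖ ≤ K * ‖z - w‖ := hK.norm_sub_le z w
        have t1 : ‖(‖z‖ / ‖f z‖) • (f z - f w)‖ ≤ (1 / c) * (K * ‖z - w‖) := by
          rw [norm_smul, norm_div, norm_norm, norm_norm]
          gcongr
        have t2 : ‖(‖z‖ * (‖f z‖⁻¹ - ‖f w‖⁻¹)) • f w‖ ≤ (1 / c) * (K * ‖z - w‖) := by
          have e2 : ‖z‖ * (‖f z‖⁻¹ - ‖f w‖⁻¹) = (‖z‖ / ‖f z‖) * ((‖f w‖ - ‖f z‖) / ‖f w‖) := by
            field_simp
          rw [norm_smul, e2, norm_mul, norm_div, norm_div, norm_norm, norm_norm, norm_norm,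
            mul_assoc, div_mul_cancel₀ _ hw0.ne']
          have e3 : ‖‖f w‖ - ‖f z‖‖ ≤ K * ‖z - w‖ := by
            have := abs_norm_sub_norm_le (f w) (f z)
            rw [norm_sub_rev] at this
            exact this.trans hfd
          gcongr
        have t3 : ‖((‖z‖ - ‖w‖) / ‖f w‖) • f w‖ ≤ ‖z - w‖ := by
          rw [norm_smul, norm_div, norm_norm, div_mul_cancel₀ _ hw0.ne']
          exact abs_norm_sub_norm_le z w
        have e4 : (1 + 2 * K / c) * ‖z - w‖ = (1 / c) * (K * ‖z - w‖) + (1 / c) * (K * ‖z - w‖) +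
            ‖z - w‖ := by ring
        rw [e4]
        linarith
  · intro z
    change ‖(‖z‖ / ‖f z‖) • f z‖ = ‖z‖
    rcases eq_or_ne z 0 with hz | hz
    · rw [hz]; simp
    · rw [norm_smul, norm_div, norm_norm, norm_norm, div_mul_cancel₀ _ (f_pos z hz).ne']
  · intro r z hr
    change (‖r • z‖ / ‖f (r • z)‖) • f (r • z) = r • (‖z‖ / ‖f z‖) • f z
    rcases hr.eq_or_lt with h | h
    · rw [← h]; simp
    · rw [f_smul r z hr, norm_smul, norm_smul, mul_div_mul_left _ _ (norm_pos_iff.2 h.ne').ne',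
        smul_comm]
  · intro ζ z hζ
    change (‖Rs ζ z‖ / ‖f (Rs ζ z)‖) • f (Rs ζ z) = J.rot ζ ((‖z‖ / ‖f z‖) • f z)
    have h1 : ‖Rs ζ z‖ = ‖z‖ := by
      have hr : ζ.re ^ 2 + ζ.im ^ 2 = 1 := by
        have := Complex.sq_norm ζ
        rw [hζ, Complex.normSq_apply] at this
        linarith
      refine (sq_eq_sq₀ (norm_nonneg _) (norm_nonneg _)).1 ?_
      rw [Rs, norm_sq_kap_symm, norm_sq_kap z, norm_add_sq_real, norm_add_sq_real, norm_smul,
        norm_smul, norm_smul, norm_smul, norm_neg, mul_pow, mul_pow, mul_pow, mul_pow,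
        Real.norm_eq_abs, Real.norm_eq_abs, sq_abs, sq_abs, real_inner_smul_left,
        real_inner_smul_right, real_inner_smul_left, real_inner_smul_right]
      linear_combination (‖(kap m m z).1‖ ^ 2 + ‖(kap m m z).2‖ ^ 2) * hr
    rw [h1, f_equi ζ z hζ, J.rotRot.norm ζ _ hζ, J.rotRot.smul ζ _ _ hζ (by positivity)]

end main

end Crest.Agent.R208.JT
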