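import Crest.Agent.R208.JTDefs
import Crest.Agent.R208.FH9a

/-!
R208, block JT (helper631), part 3: the degree of a smooth proper map by integrals.
-/

set_option autoImplicit false
set_option linter.unusedSectionVars false

open Set Filter Topology Module MeasureTheory
open scoped NNReal ContDiff

noncomputable section

namespace Crest.Agent.R208.JT

open Crest.Agent.R208.F (Ext io inv pb d pull top ii d_pull top_pb_det d_smul contDiffAt_pull)
open Crest.Agent.R208.FI (vol top_io_ii_vol integral_functional_d_eq_zero)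

variable {k : ℕ}

lemma two_le_inf : (2 : WithTop ℕ∞) ≤ ∞ := WithTop.coe_le_coe.2 le_top

/-- smooth and proper -/
structure Sm (f : Eu k → Eu k) : Prop where
  smooth : ContDiff ℝ ∞ f
  proper : ∃ C : ℝ, ∀ z, ‖z‖ ≤ ‖f z‖ + C

/-- integral of a pulled back density -/
def Ig (f : Eu k → Eu k) (g : Eu k → ℝ) : ℝ := ∫ z, g (f z) * (fderiv ℝ f z).det

lemma Sm.cpt {f : Eu k → Eu k} (hf : Sm f) {K : Set (Eu k)} (hK : IsCompact K) :
    IsCompact (f ⁻¹' K) := by
  obtain ⟨C, hC⟩ := hf.proper
  obtain ⟨R, hR⟩ := hK.isBounded.subset_closedBall (0 : Eu k)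
  refine (isCompact_closedBall (0 : Eu k) (R + C)).of_isClosed_subset
    (hK.isClosed.preimage hf.smooth.continuous) fun z hz => ?_
  have h1 := hR hz
  rw [mem_closedBall_zero_iff] at h1 ⊢
  linarith [hC z]

lemma continuous_det' : Continuous fun A : Eu k →L[ℝ] Eu k => A.det :=
  ContinuousLinearMap.continuous_det

lemma Sm.cont_det {f : Eu k → Eu k} (hf : Sm f) : Continuous fun z => (fderiv ℝ f z).det :=
  continuous_det'.comp (hf.smooth.continuous_fderiv (by simp))

/-- integration by parts -/
theorem Sm.Ig_fderiv {f : Eu k → Eu k} (hf : Sm f) {g : Eu k → ℝ} (hg : ContDiff ℝ ∞ g)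
    (hc : HasCompactSupport g) (v : Eu k) : ∫ z, fderiv ℝ g (f z) v * (fderiv ℝ f z).det = 0 := by
  set η : Eu k → Ext (Eu k) := fun y => g y • ii v (vol k) with hη
  have hηs : ContDiff ℝ ∞ η := hg.smul contDiff_const
  have hpull : ContDiff ℝ 1 (pull f η) := contDiff_iff_contDiffAt.2 fun x =>
    contDiffAt_pull (n := 2) (m := 1) ((hf.smooth.of_le two_le_inf).contDiffAt)
      (by norm_num) (hηs.of_le (by simp)).contDiffAt
  have hcs : HasCompactSupport (pull f η) := by
    refine HasCompactSupport.intro (hf.cpt hc) fun z hz => ?_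
    have h1 : g (f z) = 0 := image_eq_zero_of_notMem_tsupport hz
    simp only [pull, hη, h1, zero_smul, map_zero]
  have h := integral_functional_d_eq_zero (volume : Measure (Eu k)) hpull hcs (top k)
  rw [← h]
  congr 1
  funext z
  rw [d_pull ((hf.smooth.of_le two_le_inf).contDiffAt)
    ((hηs.differentiable (by simp)) _), pull, top_pb_det]
  have h2 : d η (f z) = io ((fderiv ℝ g (f z) : Eu k →L[ℝ] ℝ) : Module.Dual ℝ (Eu k)) *
      ii v (vol k) := by
    rw [hη, d_smul ((hg.differentiable (by simp)) _) (differentiableAt_const _), F.d_const,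
      smul_zero, add_zero]
  rw [h2, top_io_ii_vol, mul_comm]
  rfl

/-- translation invariance -/
theorem Sm.Ig_translate {f : Eu k → Eu k} (hf : Sm f) {g : Eu k → ℝ} (hg : ContDiff ℝ ∞ g)
    (hc : HasCompactSupport g) (y : Eu k) :
    ∫ z, g (f z - y) * (fderiv ℝ f z).det = ∫ z, g (f z) * (fderiv ℝ f z).det := by
  set Φ : Eu k → ℝ := fun y => ∫ z, g (f z - y) * (fderiv ℝ f z).det with hΦ
  have hd : ∀ y, HasFDerivAt Φ (0 : Eu k →L[ℝ] ℝ) y := by
    intro y
    obtain ⟨R, hR⟩ := hc.isBounded.subset_closedBall (0 : Eu k)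
    have hK : IsCompact (f ⁻¹' Metric.closedBall 0 (R + ‖y‖ + 1)) :=
      hf.cpt (isCompact_closedBall _ _)
    obtain ⟨M, hM⟩ : ∃ M : ℝ, ∀ x, ‖fderiv ℝ g x‖ ≤ M :=
      (hc.fderiv ℝ).exists_bound_of_continuous (hg.continuous_fderiv (by simp))
    have hM0 : 0 ≤ M := (norm_nonneg _).trans (hM 0)
    have hF' : ∀ y : Eu k, Continuous fun z => -((fderiv ℝ f z).det • fderiv ℝ g (f z - y)) := by
      intro y
      refine ((hf.cont_det).smul ?_).neg
      exact (hg.continuous_fderiv (by simp)).comp (hf.smooth.continuous.sub continuous_const)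
    have hFc : ∀ y : Eu k, Continuous fun z => g (f z - y) * (fderiv ℝ f z).det := fun y =>
      (hg.continuous.comp (hf.smooth.continuous.sub continuous_const)).mul hf.cont_det
    have hFs : ∀ y : Eu k, HasCompactSupport fun z => g (f z - y) * (fderiv ℝ f z).det := by
      intro y
      refine HasCompactSupport.intro (hf.cpt (K := Metric.closedBall 0 (R + ‖y‖))
        (isCompact_closedBall _ _)) fun z hz => ?_
      have h1 : g (f z - y) = 0 := by
        by_contra h
        apply hz
        have h2 := hR (subset_tsupport g (Function.mem_support.2 h))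
        rw [mem_closedBall_zero_iff] at h2
        rw [mem_preimage, mem_closedBall_zero_iff]
        calc ‖f z‖ = ‖(f z - y) + y‖ := by rw [sub_add_cancel]
          _ ≤ ‖f z - y‖ + ‖y‖ := norm_add_le _ _
          _ ≤ R + ‖y‖ := by linarith
      rw [h1, zero_mul]
    have h := hasFDerivAt_integral_of_dominated_of_fderiv_le (μ := (volume : Measure (Eu k)))
      (F := fun y z => g (f z - y) * (fderiv ℝ f z).det)
      (F' := fun y z => -((fderiv ℝ f z).det • fderiv ℝ g (f z - y)))
      (x₀ := y) (s := Metric.ball y 1)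
      (bound := (f ⁻¹' Metric.closedBall 0 (R + ‖y‖ + 1)).indicator
        fun z => |(fderiv ℝ f z).det| * M) (Metric.ball_mem_nhds y one_pos)
      (Eventually.of_forall fun y' => (hFc y').aestronglyMeasurable)
      ((hFc y).integrable_of_hasCompactSupport (hFs y)) (hF' y).aestronglyMeasurable
      (Eventually.of_forall fun z y' hy' => ?_) ?_ (Eventually.of_forall fun z y' _ => ?_)
    · have h2 : (∫ z, -((fderiv ℝ f z).det • fderiv ℝ g (f z - y)) : Eu k →L[ℝ] ℝ) = 0 := by
        ext v
        have hint : Integrable fun z => -((fderiv ℝ f z).det • fderiv ℝ g (f z - y)) := by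
          refine (hF' y).integrable_of_hasCompactSupport ?_
          refine HasCompactSupport.intro (hf.cpt (K := Metric.closedBall 0 (R + ‖y‖))
            (isCompact_closedBall _ _)) fun z hz => ?_
          have h1 : fderiv ℝ g (f z - y) = 0 := by
            by_contra h
            apply hz
            have h2 := hR ((tsupport_fderiv_subset ℝ) (subset_tsupport _ (Function.mem_support.2 h)))
            rw [mem_closedBall_zero_iff] at h2
            rw [mem_preimage, mem_closedBall_zero_iff]
            calc ‖f z‖ = ‖(f z - y) + y‖ := by rw [sub_add_cancel]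
              _ ≤ ‖f z - y‖ + ‖y‖ := norm_add_le _ _
              _ ≤ R + ‖y‖ := by linarith
          rw [h1, smul_zero, neg_zero]
        rw [ContinuousLinearMap.integral_apply hint v]
        set gy : Eu k → ℝ := fun x => g (x - y) with hgy
        have hgys : ContDiff ℝ ∞ gy := hg.comp (contDiff_id.sub contDiff_const)
        have hgyc : HasCompactSupport gy := hc.comp_homeomorph (Homeomorph.subRight y)
        have h3 := hf.Ig_fderiv hgys hgyc v
        have h4 : ∀ x, fderiv ℝ gy x = fderiv ℝ g (x - y) := fun x => by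
          rw [hgy]; exact fderiv_comp_sub y
        simp only [h4] at h3
        rw [zero_apply]
        rw [← neg_eq_zero, ← integral_neg]
        rw [← h3]
        congr 1
        funext z
        simp [mul_comm]
      rw [h2] at h
      exact h
    · by_cases hz : z ∈ f ⁻¹' Metric.closedBall 0 (R + ‖y‖ + 1)
      · rw [indicator_of_mem hz, norm_neg, norm_smul, Real.norm_eq_abs]
        gcongr
        exact hM _
      · rw [indicator_of_notMem hz]
        have h1 : fderiv ℝ g (f z - y') = 0 := by
          by_contra h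
          apply hz
          have h2 := hR ((tsupport_fderiv_subset ℝ) (subset_tsupport _ (Function.mem_support.2 h)))
          rw [mem_closedBall_zero_iff] at h2
          rw [mem_preimage, mem_closedBall_zero_iff]
          have h3 : ‖y' - y‖ < 1 := by rwa [← dist_eq_norm]
          calc ‖f z‖ = ‖(f z - y') + y + (y' - y)‖ := by congr 1; abel
            _ ≤ ‖f z - y'‖ + ‖y‖ + ‖y' - y‖ := norm_add₃_le
            _ ≤ R + ‖y‖ + 1 := by linarith
        rw [h1, smul_zero, neg_zero, norm_zero]
    · rw [integrable_indicator_iff hK.measurableSet]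
      exact ((hf.cont_det.abs.mul continuous_const).continuousOn).integrableOn_compact hK
    · have h1 : HasFDerivAt (fun y : Eu k => g (f z - y))
          ((fderiv ℝ g (f z - y')).comp (-ContinuousLinearMap.id ℝ (Eu k))) y' := by
        have h2 : HasFDerivAt (fun y : Eu k => f z - y) (-ContinuousLinearMap.id ℝ (Eu k)) y' :=
          (hasFDerivAt_id y').const_sub (f z)
        exact ((hg.differentiable (by simp)) _).hasFDerivAt.comp y' h2
      have h2 := h1.mul_const ((fderiv ℝ f z).det)
      refine h2.congr_fderiv ?_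
      ext v
      simp
  have h := is_const_of_fderiv_eq_zero (𝕜 := ℝ) (f := Φ) (fun y => (hd y).differentiableAt)
    (fun y => (hd y).fderiv) y 0
  simp only [hΦ, sub_zero] at h
  exact h

/-- proportionality -/
theorem Sm.Ig_mul {f : Eu k → Eu k} (hf : Sm f) {g h : Eu k → ℝ} (hg : ContDiff ℝ ∞ g)
    (hgc : HasCompactSupport g) (hh : ContDiff ℝ ∞ h) (hhc : HasCompactSupport h) :
    Ig f g * ∫ y, h y = Ig f h * ∫ y, g y := by
  obtain ⟨R, hR⟩ := hgc.isBounded.subset_closedBall (0 : Eu k)
  obtain ⟨R', hR'⟩ := hhc.isBounded.subset_closedBall (0 : Eu k)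
  have key : ∀ {a b : Eu k → ℝ}, ContDiff ℝ ∞ a → HasCompactSupport a → ContDiff ℝ ∞ b →
      HasCompactSupport b → Integrable (Function.uncurry fun y z =>
        b y * (a (f z - y) * (fderiv ℝ f z).det)) ((volume : Measure (Eu k)).prod volume) := by
    intro a b ha hac hb hbc
    obtain ⟨R, hR⟩ := hac.isBounded.subset_closedBall (0 : Eu k)
    obtain ⟨R', hR'⟩ := hbc.isBounded.subset_closedBall (0 : Eu k)
    have hcont : Continuous (Function.uncurry fun y z =>
        b y * (a (f z - y) * (fderiv ℝ f z).det)) := by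
      have e1 : Continuous fun p : Eu k × Eu k => b p.1 := hb.continuous.comp continuous_fst
      have e2 : Continuous fun p : Eu k × Eu k => a (f p.2 - p.1) :=
        ha.continuous.comp ((hf.smooth.continuous.comp continuous_snd).sub continuous_fst)
      exact e1.mul (e2.mul (hf.cont_det.comp continuous_snd))
    refine hcont.integrable_of_hasCompactSupport ?_
    refine HasCompactSupport.intro ((isCompact_closedBall (0 : Eu k) R').prod
      (hf.cpt (K := Metric.closedBall 0 (R + R')) (isCompact_closedBall _ _))) fun p hp => ?_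
    obtain ⟨y, z⟩ := p
    change b y * (a (f z - y) * (fderiv ℝ f z).det) = 0
    by_cases hy : b y = 0
    · rw [hy, zero_mul]
    · by_cases hz : a (f z - y) = 0
      · rw [hz, zero_mul, mul_zero]
      · exfalso
        apply hp
        have h1 := hR' (subset_tsupport _ (Function.mem_support.2 hy))
        have h2 := hR (subset_tsupport _ (Function.mem_support.2 hz))
        rw [mem_closedBall_zero_iff] at h2
        refine ⟨h1, ?_⟩
        rw [mem_closedBall_zero_iff] at h1
        change f z ∈ Metric.closedBall (0 : Eu k) (R + R')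
        rw [mem_closedBall_zero_iff]
        calc ‖f z‖ = ‖(f z - y) + y‖ := by rw [sub_add_cancel]
          _ ≤ ‖f z - y‖ + ‖y‖ := norm_add_le _ _
          _ ≤ R + R' := by linarith
  have side : ∀ {a b : Eu k → ℝ}, ContDiff ℝ ∞ a → HasCompactSupport a → ContDiff ℝ ∞ b →
      HasCompactSupport b → Ig f a * ∫ y, b y =
        ∫ z, ∫ y, b y * (a (f z - y) * (fderiv ℝ f z).det) := by
    intro a b ha hac hb hbc
    rw [← integral_integral_swap (key ha hac hb hbc), mul_comm, ← integral_mul_const]
    congr 1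
    funext y
    rw [integral_const_mul, hf.Ig_translate ha hac, Ig]
  rw [side hg hgc hh hhc, side hh hhc hg hgc]
  congr 1
  funext z
  have e := integral_sub_left_eq_self (fun y => h y * (g (f z - y) * (fderiv ℝ f z).det))
    (volume : Measure (Eu k)) (f z)
  rw [← e]
  congr 1
  funext y
  rw [sub_sub_cancel]
  ring

/-- the set of regular points near which a smooth map is injective -/
lemma Sm.locInj {f : Eu k → Eu k} (hf : Sm f) {z : Eu k} (hz : (fderiv ℝ f z).det ≠ 0) :
    ∃ U : Set (Eu k), IsOpen U ∧ z ∈ U ∧ InjOn f U ∧ (∀ V ⊆ U, IsOpen V → IsOpen (f '' V)) ∧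
      ((∀ x ∈ U, 0 < (fderiv ℝ f x).det) ∨ (∀ x ∈ U, (fderiv ℝ f x).det < 0)) := by
  have hs : HasStrictFDerivAt f (fderiv ℝ f z) z :=
    hf.smooth.contDiffAt.hasStrictFDerivAt (by simp)
  set e : Eu k ≃L[ℝ] Eu k := ContinuousLinearEquiv.ofBijective (fderiv ℝ f z) (by
      have hu : IsUnit (LinearMap.det ((fderiv ℝ f z : Eu k →L[ℝ] Eu k) : Eu k →ₗ[ℝ] Eu k)) :=
        isUnit_iff_ne_zero.2 hz
      have := LinearMap.equivOfIsUnitDet hu
      exact (LinearMap.ker_eq_bot_of_injective ((LinearMap.isUnit_iff_isUnit_det _).2 hu |>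
        fun h => ((Module.End.isUnit_iff _).1 h).1)))
    (by
      have hu : IsUnit (LinearMap.det ((fderiv ℝ f z : Eu k →L[ℝ] Eu k) : Eu k →ₗ[ℝ] Eu k)) :=
        isUnit_iff_ne_zero.2 hz
      exact LinearMap.range_eq_top.2 ((LinearMap.isUnit_iff_isUnit_det _).2 hu |>
        fun h => ((Module.End.isUnit_iff _).1 h).2)) with he
  have hs' : HasStrictFDerivAt f (e : Eu k →L[ℝ] Eu k) z := by
    rw [he, ContinuousLinearEquiv.coe_ofBijective]; exact hs
  set P := hs'.toOpenPartialHomeomorph f with hP
  have hPf : (P : Eu k → Eu k) = f := hs'.toOpenPartialHomeomorph_coe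
  have hPz : z ∈ P.source := hs'.mem_toOpenPartialHomeomorph_source
  have hcont := hf.cont_det
  have hsign : ∃ W : Set (Eu k), IsOpen W ∧ z ∈ W ∧
      ((∀ x ∈ W, 0 < (fderiv ℝ f x).det) ∨ (∀ x ∈ W, (fderiv ℝ f x).det < 0)) := by
    rcases lt_or_gt_of_ne hz with h | h
    · exact ⟨{x | (fderiv ℝ f x).det < 0}, isOpen_lt hcont continuous_const, h,
        Or.inr fun x hx => hx⟩
    · exact ⟨{x | 0 < (fderiv ℝ f x).det}, isOpen_lt continuous_const hcont, h,
        Or.inl fun x hx => hx⟩
  obtain ⟨W, hW, hzW, hWs⟩ := hsign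
  refine ⟨P.source ∩ W, P.open_source.inter hW, ⟨hPz, hzW⟩, ?_, ?_, ?_⟩
  · have := P.injOn
    rw [hPf] at this
    exact this.mono inter_subset_left
  · intro V hV hVo
    have := P.isOpen_image_of_subset_source hVo (hV.trans inter_subset_left)
    rwa [hPf] at this
  · rcases hWs with h | h
    · exact Or.inl fun x hx => h x hx.2
    · exact Or.inr fun x hx => h x hx.2

set_option maxHeartbeats 400000 in
/-- **the degree is an integer** -/
theorem Sm.exists_int {f : Eu k → Eu k} (hf : Sm f) : ∃ N : ℤ, ∀ g : Eu k → ℝ, ContDiff ℝ ∞ g →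
    HasCompactSupport g → Ig f g = N * ∫ y, g y := by
  -- a regular value
  obtain ⟨y, hy⟩ : ∃ y, ∀ z, f z = y → (fderiv ℝ f z).det ≠ 0 := by
    have h1 : (volume : Measure (Eu k)) (f '' {z | (fderiv ℝ f z).det = 0}) = 0 :=
      addHaar_image_eq_zero_of_det_fderivWithin_eq_zero volume
        (fun x _ => ((hf.smooth.differentiable (by simp)) x).hasFDerivAt.hasFDerivWithinAt)
        (fun x hx => hx)
    have h2 : f '' {z | (fderiv ℝ f z).det = 0} ≠ univ := by
      intro h
      rw [h] at h1
      exact (NeZero.ne (volume : Measure (Eu k))) (Measure.measure_univ_eq_zero.1 h1)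
    obtain ⟨y, hy⟩ := (ne_univ_iff_exists_notMem _).1 h2
    exact ⟨y, fun z hz h => hy ⟨z, h, hz⟩⟩
  set S : Set (Eu k) := f ⁻¹' {y} with hS
  have hSc : IsCompact S := hf.cpt isCompact_singleton
  choose! U hUo hUm hUi hUimg hUs using fun z (hz : z ∈ S) => hf.locInj (hy z hz)
  have hSf : S.Finite := by
    obtain ⟨t, ht, hcov⟩ := hSc.elim_nhds_subcover U fun z hz => (hUo z hz).mem_nhds (hUm z hz)
    refine t.finite_toSet.subset fun x hx => ?_
    obtain ⟨z, hz, hxz⟩ := mem_iUnion₂.1 (hcov hx)
    have hzS := ht z hz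
    have : f x = f z := by rw [show f x = y from hx, show f z = y from hzS]
    rw [hUi z hzS hxz (hUm z hzS) this]
    exact hz
  obtain ⟨T, hT, hTd⟩ := hSf.t2_separation
  set W : Eu k → Set (Eu k) := fun z => U z ∩ T z with hW
  have hWo : ∀ z ∈ S, IsOpen (W z) := fun z hz => (hUo z hz).inter (hT z).2
  have hWm : ∀ z ∈ S, z ∈ W z := fun z hz => ⟨hUm z hz, (hT z).1⟩
  -- the radius
  obtain ⟨r, hr0, hr1, hr2, hr3⟩ : ∃ r : ℝ, 0 < r ∧ r ≤ 1 ∧
      (∀ z, f z ∈ Metric.ball y r → ∃ w ∈ S, z ∈ W w) ∧ ∀ w ∈ S, Metric.ball y r ⊆ f '' W w := by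
    have hKc : IsCompact (f ⁻¹' Metric.closedBall y 1 \ ⋃ w ∈ S, W w) :=
      (hf.cpt (isCompact_closedBall _ _)).diff (isOpen_biUnion hWo)
    have h1 : y ∉ f '' (f ⁻¹' Metric.closedBall y 1 \ ⋃ w ∈ S, W w) := by
      rintro ⟨z, hz, hzy⟩
      exact hz.2 (mem_biUnion (show z ∈ S from hzy) (hWm z hzy))
    have h2 : (f '' (f ⁻¹' Metric.closedBall y 1 \ ⋃ w ∈ S, W w))ᶜ ∈ 𝓝 y :=
      (hKc.image hf.smooth.continuous).isClosed.isOpen_compl.mem_nhds h1
    have h3 : ∀ w ∈ S, f '' W w ∈ 𝓝 y := fun w hw =>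
      (hUimg w hw _ inter_subset_left (hWo w hw)).mem_nhds ⟨w, hWm w hw, hw⟩
    have h4 : (⋂ w ∈ S, f '' W w) ∈ 𝓝 y := (biInter_mem hSf).2 h3
    obtain ⟨r, hr, hrs⟩ := Metric.mem_nhds_iff.1 (Filter.inter_mem h2 h4)
    refine ⟨min r 1, lt_min hr one_pos, min_le_right _ _, fun z hz => ?_, fun w hw => ?_⟩
    · have h5 := hrs (Metric.ball_subset_ball (min_le_left _ _) hz)
      have h6 := h5.1
      by_contra hcon
      push Not at hcon
      apply h6
      have h8 : f z ∈ Metric.closedBall y 1 :=
        Metric.ball_subset_closedBall (Metric.ball_subset_ball (min_le_right r 1) hz)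
      refine mem_image_of_mem f ⟨h8, ?_⟩
      · intro h7
        obtain ⟨w, hw, hw2⟩ := mem_iUnion₂.1 h7
        exact hcon w hw hw2
    · intro x hx
      have h5 := hrs (Metric.ball_subset_ball (min_le_left _ _) hx)
      exact mem_iInter₂.1 h5.2 w hw
  -- the bump
  let φ : ContDiffBump y := ⟨r / 4, r / 2, by positivity, by linarith⟩
  set g₀ : Eu k → ℝ := φ.normed volume with hg₀
  have hg₀C : ContDiff ℝ ∞ g₀ := φ.contDiff_normed
  have hg₀s : HasCompactSupport g₀ := φ.hasCompactSupport_normed
  have hg₀i : ∫ x, g₀ x = 1 := φ.integral_normed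
  have hg₀v : ∀ x, x ∉ Metric.ball y r → g₀ x = 0 := by
    intro x hx
    refine image_eq_zero_of_notMem_tsupport fun h => hx ?_
    rw [hg₀, φ.tsupport_normed_eq] at h
    have h1 : dist x y ≤ r / 2 := h
    exact lt_of_le_of_lt h1 (by linarith)
  -- signs
  choose! σ hσ using fun w (hw : w ∈ S) => show ∃ s : ℤ, ∀ x ∈ U w,
      (fderiv ℝ f x).det = s * |(fderiv ℝ f x).det| from by
    rcases hUs w hw with h | h
    · exact ⟨1, fun x hx => by rw [abs_of_pos (h x hx)]; simp⟩
    · exact ⟨-1, fun x hx => by rw [abs_of_neg (h x hx)]; simp⟩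
  set V : Eu k → Set (Eu k) := fun w => W w ∩ f ⁻¹' Metric.ball y r with hV
  have hVm : ∀ w ∈ S, MeasurableSet (V w) := fun w hw =>
    ((hWo w hw).inter (Metric.isOpen_ball.preimage hf.smooth.continuous)).measurableSet
  have hVi : ∀ w ∈ S, ∫ z in V w, g₀ (f z) * (fderiv ℝ f z).det = σ w := by
    intro w hw
    have himg : f '' V w = Metric.ball y r := by
      ext x
      constructor
      · rintro ⟨z, hz, rfl⟩; exact hz.2
      · intro hx
        obtain ⟨z, hz, hzx⟩ := hr3 w hw hx
        exact ⟨z, ⟨hz, by rw [mem_preimage, hzx]; exact hx⟩, hzx⟩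
    have h1 := integral_image_eq_integral_abs_det_fderiv_smul (volume : Measure (Eu k))
      (hVm w hw) (f' := fun z => fderiv ℝ f z)
      (fun x _ => ((hf.smooth.differentiable (by simp)) x).hasFDerivAt.hasFDerivWithinAt)
      ((hUi w hw).mono (inter_subset_left.trans inter_subset_left)) g₀
    rw [himg, setIntegral_eq_integral_of_forall_compl_eq_zero hg₀v, hg₀i] at h1
    calc ∫ z in V w, g₀ (f z) * (fderiv ℝ f z).det
        = ∫ z in V w, (σ w : ℝ) * (|(fderiv ℝ f z).det| • g₀ (f z)) := by
          refine setIntegral_congr_fun (hVm w hw) fun z hz => ?_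
          simp only [smul_eq_mul]
          rw [hσ w hw z hz.1.1, abs_mul, abs_abs]
          have hs : |(σ w : ℝ)| * |(fderiv ℝ f z).det| = |(fderiv ℝ f z).det| := by
            conv_rhs => rw [hσ w hw z hz.1.1]
            rw [abs_mul, abs_abs]
          rw [hs]; ring
      _ = σ w := by rw [integral_const_mul, ← h1, mul_one]
  have hIg : Ig f g₀ = ((∑ w ∈ hSf.toFinset, σ w : ℤ) : ℝ) := by
    have h1 : Ig f g₀ = ∫ z in ⋃ w ∈ hSf.toFinset, V w, g₀ (f z) * (fderiv ℝ f z).det := by
      rw [Ig, setIntegral_eq_integral_of_forall_compl_eq_zero]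
      intro z hz
      by_cases h : f z ∈ Metric.ball y r
      · obtain ⟨w, hw, hzw⟩ := hr2 z h
        exfalso
        apply hz
        simp only [Set.Finite.mem_toFinset]
        exact mem_biUnion hw ⟨hzw, h⟩
      · rw [hg₀v _ h, zero_mul]
    rw [h1, integral_biUnion_finset]
    · push_cast
      refine Finset.sum_congr rfl fun w hw => ?_
      exact hVi w (hSf.mem_toFinset.1 hw)
    · intro w hw
      exact hVm w (hSf.mem_toFinset.1 hw)
    · intro a ha b hb hab
      rw [hSf.coe_toFinset] at ha hb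
      have := hTd ha hb hab
      exact this.mono (inter_subset_left.trans inter_subset_right)
        (inter_subset_left.trans inter_subset_right)
    · intro w hw
      refine Integrable.integrableOn ?_
      refine Continuous.integrable_of_hasCompactSupport
        ((hg₀C.continuous.comp hf.smooth.continuous).mul hf.cont_det) ?_
      refine HasCompactSupport.intro (hf.cpt hg₀s) fun z hz => ?_
      have h1 : g₀ (f z) = 0 := image_eq_zero_of_notMem_tsupport hz
      rw [h1, zero_mul]
  refine ⟨∑ w ∈ hSf.toFinset, σ w, fun g hg hgc => ?_⟩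
  have := hf.Ig_mul hg hgc hg₀C hg₀s
  rw [hg₀i, mul_one, hIg] at this
  exact this

end Crest.Agent.R208.JT
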