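import Crest.Agent.R208.JT3

/-!
R208, block JT (helper631), part 4: mollification of a Lipschitz map; its degree.
-/

set_option autoImplicit false
set_option linter.unusedSectionVars false

open Set Filter Topology Module MeasureTheory ContinuousLinearMap
open scoped NNReal ContDiff Convolution

noncomputable section

namespace Crest.Agent.R208.JT

variable {k : ℕ}

/-- approximation of a Lipschitz map by smooth ones -/
structure Approx (Φ : Eu k → Eu k) (K : ℝ≥0) (f : ℕ → Eu k → Eu k) : Prop where
  smooth : ∀ n, ContDiff ℝ ∞ (f n)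
  near : ∀ n z, ‖f n z - Φ z‖ ≤ K
  lim : ∀ z, Tendsto (fun n => f n z) atTop (𝓝 (Φ z))
  bound : ∀ n z, ‖fderiv ℝ (f n) z‖ ≤ K
  limD : ∀ᵐ z, Tendsto (fun n => fderiv ℝ (f n) z) atTop (𝓝 (fderiv ℝ Φ z))

/-- the mollifier -/
def bmp (k n : ℕ) : ContDiffBump (0 : Eu k) :=
  ⟨1 / (2 * (n + 1)), 1 / (n + 1), by positivity, by
    have : (0 : ℝ) < n + 1 := by positivity
    rw [div_lt_div_iff₀ (by positivity) this]
    linarith⟩

lemma bmp_rOut (n : ℕ) : (bmp k n).rOut = 1 / (n + 1) := rfl

lemma bmp_rIn (n : ℕ) : (bmp k n).rIn = 1 / (2 * (n + 1)) := rfl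

lemma bmp_le (n : ℕ) : (bmp k n).rOut ≤ 1 := by
  rw [bmp_rOut, div_le_one (by positivity)]
  have : (0 : ℝ) ≤ n := n.cast_nonneg
  linarith

lemma bmp_tendsto : Tendsto (fun n => (bmp k n).rOut) atTop (𝓝 0) :=
  tendsto_one_div_add_atTop_nhds_zero_nat

variable {Φ : Eu k → Eu k} {K : ℝ≥0}

/-- mollified map -/
def moll (Φ : Eu k → Eu k) (n : ℕ) : Eu k → Eu k :=
  (bmp k n).normed volume ⋆[lsmul ℝ ℝ, (volume : Measure (Eu k))] Φ

lemma norm_fderiv_le_lip (hΦ : LipschitzWith K Φ) (z : Eu k) : ‖fderiv ℝ Φ z‖ ≤ K :=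
  norm_fderiv_le_of_lipschitz ℝ hΦ

lemma hasFDerivAt_moll (hΦ : LipschitzWith K Φ) (n : ℕ) (x : Eu k) :
    HasFDerivAt (moll Φ n) (((bmp k n).normed volume ⋆[lsmul ℝ ℝ, (volume : Measure (Eu k))]
      fderiv ℝ Φ) x) x := by
  set ψ := (bmp k n).normed (volume : Measure (Eu k)) with hψ
  have hψc : Continuous ψ := (bmp k n).continuous_normed
  have hψs : HasCompactSupport ψ := (bmp k n).hasCompactSupport_normed
  have hψ0 : ∀ t, 0 ≤ ψ t := (bmp k n).nonneg_normed
  have h := hasFDerivAt_integral_of_dominated_loc_of_lip (μ := (volume : Measure (Eu k)))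
    (𝕜 := ℝ) (F := fun x t => ψ t • Φ (x - t)) (F' := fun t => ψ t • fderiv ℝ Φ (x - t))
    (x₀ := x) (s := univ) (bound := fun t => ψ t * K) univ_mem
    (Eventually.of_forall fun x => ?_) ?_ ?_ (Eventually.of_forall fun t => ?_) ?_ ?_
  · exact h.2
  · exact (hψc.smul (hΦ.continuous.comp (continuous_const.sub continuous_id))).aestronglyMeasurable
  · refine Continuous.integrable_of_hasCompactSupport
      (hψc.smul (hΦ.continuous.comp (continuous_const.sub continuous_id))) ?_
    exact hψs.smul_right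
  · refine hψc.aestronglyMeasurable.smul ?_
    exact ((measurable_fderiv ℝ Φ).comp (measurable_const.sub measurable_id)).aestronglyMeasurable
  · refine LipschitzWith.lipschitzOnWith (LipschitzWith.of_dist_le_mul fun a b => ?_)
    rw [dist_eq_norm, ← smul_sub, norm_smul, Real.norm_of_nonneg (hψ0 t), dist_eq_norm,
      Real.coe_nnabs, abs_of_nonneg (mul_nonneg (hψ0 t) K.coe_nonneg), mul_assoc]
    refine mul_le_mul_of_nonneg_left ?_ (hψ0 t)
    have := hΦ.norm_sub_le (a - t) (b - t)
    rwa [sub_sub_sub_cancel_right] at this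
  · exact (hψc.integrable_of_hasCompactSupport hψs).mul_const _
  · have h1 : ∀ᵐ y : Eu k, DifferentiableAt ℝ Φ y := hΦ.ae_differentiableAt
    have h2 : ∀ᵐ t : Eu k, DifferentiableAt ℝ Φ (x - t) :=
      (quasiMeasurePreserving_sub_left_of_right_invariant (volume : Measure (Eu k)) x).ae h1
    filter_upwards [h2] with t ht
    have h3 : HasFDerivAt (fun x : Eu k => Φ (x - t)) (fderiv ℝ Φ (x - t)) x :=
      (hasFDerivAt_comp_sub t).2 ht.hasFDerivAt
    exact h3.const_smul (ψ t)

theorem approx_moll (hΦ : LipschitzWith K Φ) : Approx Φ K (moll Φ) := by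
  have hdist : ∀ n z, ‖moll Φ n z - Φ z‖ ≤ K * (bmp k n).rOut := by
    intro n z
    rw [← dist_eq_norm]
    refine (bmp k n).dist_normed_convolution_le hΦ.continuous.aestronglyMeasurable fun y hy => ?_
    refine (hΦ.dist_le_mul y z).trans ?_
    gcongr
    exact (Metric.mem_ball.1 hy).le
  have hLI : LocallyIntegrable (fderiv ℝ Φ) (volume : Measure (Eu k)) := by
    refine (locallyIntegrable_const (K : ℝ)).mono
      (measurable_fderiv ℝ Φ).aestronglyMeasurable (Eventually.of_forall fun z => ?_)
    rw [Real.norm_of_nonneg K.coe_nonneg]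
    exact norm_fderiv_le_lip hΦ z
  refine ⟨fun n => ?_, fun n z => ?_, fun z => ?_, fun n z => ?_, ?_⟩
  · exact (bmp k n).hasCompactSupport_normed.contDiff_convolution_left _
      (bmp k n).contDiff_normed hΦ.continuous.locallyIntegrable
  · refine (hdist n z).trans ?_
    calc (K : ℝ) * (bmp k n).rOut ≤ K * 1 := by
          gcongr
          exact bmp_le n
      _ = K := mul_one _
  · rw [tendsto_iff_norm_sub_tendsto_zero]
    refine squeeze_zero (fun _ => norm_nonneg _) (fun n => hdist n z) ?_
    have := (bmp_tendsto (k := k)).const_mul (K : ℝ)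
    rwa [mul_zero] at this
  · rw [(hasFDerivAt_moll hΦ n z).fderiv, convolution_def]
    have h1 : ∫ t, (bmp k n).normed (volume : Measure (Eu k)) t * K = K := by
      rw [integral_mul_const, (bmp k n).integral_normed, one_mul]
    refine (norm_integral_le_of_norm_le (g := fun t => (bmp k n).normed volume t * K) ?_
      (Eventually.of_forall fun t => ?_)).trans h1.le
    · exact ((bmp k n).continuous_normed.integrable_of_hasCompactSupport
        (bmp k n).hasCompactSupport_normed).mul_const _
    · rw [lsmul_apply, norm_smul, Real.norm_of_nonneg ((bmp k n).nonneg_normed t)]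
      exact mul_le_mul_of_nonneg_left (norm_fderiv_le_lip hΦ _) ((bmp k n).nonneg_normed t)
  · have h := ContDiffBump.ae_convolution_tendsto_right_of_locallyIntegrable
      (μ := (volume : Measure (Eu k))) (φ := bmp k) (l := atTop) (K := 2) bmp_tendsto
      (Eventually.of_forall fun n => by
        rw [bmp_rOut, bmp_rIn]
        refine le_of_eq ?_
        have : (0 : ℝ) < n + 1 := by positivity
        field_simp) hLI
    filter_upwards [h] with z hz
    refine hz.congr fun n => ?_
    exact (hasFDerivAt_moll hΦ n z).fderiv.symm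

/-- dominated convergence for functionals of the map and its differential -/
theorem Approx.tendsto_integral {f : ℕ → Eu k → Eu k} (h : Approx Φ K f) (hΦ : LipschitzWith K Φ)
    {T : Eu k → Eu k → (Eu k →L[ℝ] Eu k) → ℝ}
    (hc : Continuous fun q : Eu k × Eu k × (Eu k →L[ℝ] Eu k) => T q.1 q.2.1 q.2.2) {R : ℝ}
    (h0 : ∀ z p A, R < ‖z‖ → ‖p - Φ z‖ ≤ K → T z p A = 0) :
    Tendsto (fun n => ∫ z, T z (f n z) (fderiv ℝ (f n) z)) atTop
      (𝓝 (∫ z, T z (Φ z) (fderiv ℝ Φ z))) := by
  -- a bound on the compact set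
  obtain ⟨R', hR'⟩ : ∃ R' : ℝ, ∀ z : Eu k, ‖z‖ ≤ R → ‖Φ z‖ ≤ R' := by
    obtain ⟨C, hC⟩ := (isCompact_closedBall (0 : Eu k) R).exists_bound_of_continuousOn
      hΦ.continuous.continuousOn
    exact ⟨C, fun z hz => hC z (mem_closedBall_zero_iff.2 hz)⟩
  obtain ⟨M, hM⟩ := ((isCompact_closedBall (0 : Eu k) R).prod
    ((isCompact_closedBall (0 : Eu k) (R' + K)).prod
      (isCompact_closedBall (0 : Eu k →L[ℝ] Eu k) K))).exists_bound_of_continuousOn hc.continuousOn
  have hb : ∀ n z, ‖T z (f n z) (fderiv ℝ (f n) z)‖ ≤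
      (Metric.closedBall (0 : Eu k) R).indicator (fun _ => |M|) z := by
    intro n z
    by_cases hz : z ∈ Metric.closedBall (0 : Eu k) R
    · rw [indicator_of_mem hz]
      refine (hM (z, f n z, fderiv ℝ (f n) z) ⟨hz, ?_, ?_⟩).trans (le_abs_self M)
      · rw [mem_closedBall_zero_iff]
        have h1 := hR' z (mem_closedBall_zero_iff.1 hz)
        have h2 := h.near n z
        calc ‖f n z‖ = ‖Φ z + (f n z - Φ z)‖ := by congr 1; abel
          _ ≤ ‖Φ z‖ + ‖f n z - Φ z‖ := norm_add_le _ _
          _ ≤ R' + K := add_le_add h1 h2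
      · rw [mem_closedBall_zero_iff]
        exact h.bound n z
    · rw [indicator_of_notMem hz]
      rw [mem_closedBall_zero_iff, not_le] at hz
      rw [h0 z _ _ hz (h.near n z), norm_zero]
  refine tendsto_integral_of_dominated_convergence
    ((Metric.closedBall (0 : Eu k) R).indicator fun _ => |M|) (fun n => ?_) ?_
    (fun n => Eventually.of_forall (hb n)) ?_
  · have h1 : Continuous fun z => (z, f n z, fderiv ℝ (f n) z) :=
      continuous_id.prodMk ((h.smooth n).continuous.prodMk
        ((h.smooth n).continuous_fderiv (by simp)))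
    exact (hc.comp h1).aestronglyMeasurable
  · rw [integrable_indicator_iff Metric.isClosed_closedBall.measurableSet]
    exact continuousOn_const.integrableOn_compact (isCompact_closedBall _ _)
  · filter_upwards [h.limD] with z hz
    have h1 : Tendsto (fun n => (z, f n z, fderiv ℝ (f n) z)) atTop
        (𝓝 (z, Φ z, fderiv ℝ Φ z)) :=
      tendsto_const_nhds.prodMk_nhds ((h.lim z).prodMk_nhds hz)
    exact (hc.tendsto _).comp h1

/-- **T1**: the degree of a norm preserving Lipschitz map -/
theorem exists_degree (hΦ : LipschitzWith K Φ) (hn : ∀ z, ‖Φ z‖ = ‖z‖) :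
    ∃ N : ℤ, ∀ g : Eu k → ℝ, ContDiff ℝ ∞ g → HasCompactSupport g →
      ∫ z, g (Φ z) * (fderiv ℝ Φ z).det = N * ∫ y, g y := by
  have hA := approx_moll hΦ
  have hsm : ∀ n, Sm (moll Φ n) := fun n => ⟨hA.smooth n, K, fun z => by
    have h1 := hA.near n z
    have h2 := norm_sub_norm_le (Φ z) (moll Φ n z)
    rw [norm_sub_rev] at h2
    rw [hn] at h2
    linarith⟩
  choose N hN using fun n => (hsm n).exists_int
  have hlim : ∀ g : Eu k → ℝ, ContDiff ℝ ∞ g → HasCompactSupport g →
      Tendsto (fun n => (N n : ℝ) * ∫ y, g y) atTop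
        (𝓝 (∫ z, g (Φ z) * (fderiv ℝ Φ z).det)) := by
    intro g hg hgc
    obtain ⟨R, hR⟩ := hgc.isBounded.subset_closedBall (0 : Eu k)
    have h1 := hA.tendsto_integral hΦ (T := fun z p A => g p * A.det) (R := R + K)
      ((hg.continuous.comp (continuous_fst.comp continuous_snd)).mul
        (continuous_det'.comp (continuous_snd.comp continuous_snd))) (fun z p A hz hp => by
          have : g p = 0 := by
            by_contra h
            have h2 := hR (subset_tsupport _ (Function.mem_support.2 h))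
            rw [mem_closedBall_zero_iff] at h2
            have h3 := norm_sub_norm_le (Φ z) p
            rw [norm_sub_rev, hn] at h3
            linarith
          simp only [this, zero_mul])
    refine h1.congr fun n => ?_
    exact hN n g hg hgc
  let φ : ContDiffBump (0 : Eu k) := ⟨1, 2, by norm_num, by norm_num⟩
  have h0 := hlim (φ.normed volume) φ.contDiff_normed φ.hasCompactSupport_normed
  rw [φ.integral_normed] at h0
  simp only [mul_one] at h0
  have h1 : (∫ z, φ.normed volume (Φ z) * (fderiv ℝ Φ z).det) ∈ range ((↑) : ℤ → ℝ) :=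
    Int.isClosedEmbedding_coe_real.isClosed_range.mem_of_tendsto h0
      (Eventually.of_forall fun n => ⟨N n, rfl⟩)
  obtain ⟨M, hM⟩ := h1
  refine ⟨M, fun g hg hgc => ?_⟩
  rw [← hM] at h0
  exact tendsto_nhds_unique (hlim g hg hgc) (h0.mul_const _)

end Crest.Agent.R208.JT
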