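import Crest.Agent.R208.JTDefs
import Crest.Agent.R208.FH9a

/-!
R208, block JT (helper631), part 5: algebra of two-forms, contraction, the mixed Hessian.
-/

set_option autoImplicit false
set_option linter.unusedSectionVars false

open Set Filter Topology Module MeasureTheory
open scoped NNReal ContDiff

noncomputable section

namespace Crest.Agent.R208.JT

open Crest.Agent.R208.F (Ext io inv pb top ii wd io_mul inv_io pb_io ii_mul ii_io_mul ii_io ii_pb
  ii_one wd_apply evA evA_ii)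

section two
variable {E E' : Type*} [AddCommGroup E] [Module ℝ E] [AddCommGroup E'] [Module ℝ E']

variable (E) in
/-- two-forms -/
def Two : Submodule ℝ (Ext E) :=
  Submodule.span ℝ {c | ∃ l l' : Module.Dual ℝ E, c = io l * io l'}

lemma two_io_io (l l' : Module.Dual ℝ E) : io l * io l' ∈ Two E :=
  Submodule.subset_span ⟨l, l', rfl⟩

lemma Two.inv_eq {c : Ext E} (hc : c ∈ Two E) : inv c = c := by
  refine Submodule.span_induction (p := fun c _ => inv c = c) ?_ ?_ ?_ ?_ hc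
  · rintro _ ⟨l, l', rfl⟩
    rw [map_mul, inv_io, inv_io, neg_mul_neg]
  · exact map_zero _
  · intro x y _ _ hx hy; rw [map_add, hx, hy]
  · intro r x _ hx; rw [map_smul, hx]

lemma Two.comm {c : Ext E} (hc : c ∈ Two E) (x : Ext E) : c * x = x * c := by
  refine Submodule.span_induction (p := fun c _ => c * x = x * c) ?_ ?_ ?_ ?_ hc
  · rintro _ ⟨l, l', rfl⟩
    rw [mul_assoc, io_mul l' x, ← mul_assoc, io_mul l (inv x), F.inv_inv, mul_assoc]
  · rw [zero_mul, mul_zero]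
  · intro a b _ _ ha hb; rw [add_mul, mul_add, ha, hb]
  · intro r a _ ha; rw [smul_mul_assoc, mul_smul_comm, ha]

lemma Two.pb {c : Ext E'} (hc : c ∈ Two E') (A : E →ₗ[ℝ] E') : pb A c ∈ Two E := by
  refine Submodule.span_induction (p := fun c _ => F.pb A c ∈ Two E) ?_ ?_ ?_ ?_ hc
  · rintro _ ⟨l, l', rfl⟩
    rw [map_mul, pb_io, pb_io]
    exact two_io_io _ _
  · rw [map_zero]; exact Submodule.zero_mem _
  · intro a b _ _ ha hb; rw [map_add]; exact Submodule.add_mem _ ha hb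
  · intro r a _ ha; rw [map_smul]; exact Submodule.smul_mem _ _ ha

/-- elements whose contraction is divisible by `θ` -/
def Dv (Z : E) (θ : Module.Dual ℝ E) (x : Ext E) : Prop := ∃ s, ii Z x = io θ * s

lemma Dv.one (Z : E) (θ : Module.Dual ℝ E) : Dv Z θ 1 := ⟨0, by rw [ii_one, mul_zero]⟩

lemma Dv.mul {Z : E} {θ : Module.Dual ℝ E} {a x : Ext E} (ha : a ∈ Two E)
    (hθ : ii Z a = io θ) (hx : Dv Z θ x) : Dv Z θ (a * x) := by
  obtain ⟨s, hs⟩ := hx
  refine ⟨x + a * s, ?_⟩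
  rw [ii_mul, hθ, Two.inv_eq ha, hs, mul_add, ← mul_assoc, ← mul_assoc, Two.comm ha (io θ)]

lemma Dv.pow_mul {Z : E} {θ : Module.Dual ℝ E} {a x : Ext E} (ha : a ∈ Two E)
    (hθ : ii Z a = io θ) (hx : Dv Z θ x) (n : ℕ) : Dv Z θ (a ^ n * x) := by
  induction n with
  | zero => rwa [pow_zero, one_mul]
  | succ n ih => rw [pow_succ', mul_assoc]; exact ih.mul ha hθ

lemma Dv.sum {ι : Type*} {Z : E} {θ : Module.Dual ℝ E} {s : Finset ι} {x : ι → Ext E}
    (h : ∀ i ∈ s, Dv Z θ (x i)) : Dv Z θ (∑ i ∈ s, x i) := by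
  choose! t ht using h
  refine ⟨∑ i ∈ s, t i, ?_⟩
  rw [map_sum, Finset.mul_sum]
  exact Finset.sum_congr rfl ht

end two

section topv
variable {k : ℕ}

lemma top_ii (Z : Eu k) (x : Ext (Eu k)) : top k (ii Z x) = 0 := by
  rw [F.top_apply, ← evA_ii]
  exact FI.evA_gt (by omega) _ _

lemma top_eq_zero_of_ii {Z : Eu k} (hZ : Z ≠ 0) {x : Ext (Eu k)} (hx : ii Z x = 0) :
    top k x = 0 := by
  set l : Module.Dual ℝ (Eu k) := ((innerSL ℝ Z : Eu k →L[ℝ] ℝ) : Eu k →ₗ[ℝ] ℝ) with hl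
  have hlZ : l Z ≠ 0 := by
    have : l Z = ‖Z‖ ^ 2 := by rw [hl]; simp
    rw [this]
    exact pow_ne_zero _ (norm_ne_zero_iff.2 hZ)
  have h1 : ii Z (io l * x) = l Z • x := by rw [ii_io_mul, hx, mul_zero, sub_zero]
  have h2 := top_ii Z (io l * x)
  rw [h1, map_smul, smul_eq_mul] at h2
  exact (mul_eq_zero.1 h2).resolve_left hlZ

/-- **the vanishing lemma** -/
theorem top_vanish {Z : Eu k} (hZ : Z ≠ 0) {θ β : Module.Dual ℝ (Eu k)} (hθ : θ Z = 0)
    (hβ : β Z = 0) {a c : Ext (Eu k)} (ha : a ∈ Two (Eu k)) (hc : c ∈ Two (Eu k))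
    (hia : ii Z a = io θ) (hic : ii Z c = io θ) (n : ℕ) :
    top k (io θ * (io β * ∑ i ∈ Finset.range n, a ^ i * c ^ (n - 1 - i))) = 0 := by
  refine top_eq_zero_of_ii hZ ?_
  obtain ⟨s, hs⟩ : Dv Z θ (∑ i ∈ Finset.range n, a ^ i * c ^ (n - 1 - i)) := by
    refine Dv.sum fun i _ => ?_
    have h1 : Dv Z θ (c ^ (n - 1 - i) * 1) := Dv.pow_mul hc hic (Dv.one Z θ) _
    rw [mul_one] at h1
    exact Dv.pow_mul ha hia h1 i
  rw [ii_io_mul, hθ, zero_smul, ii_io_mul, hβ, zero_smul, hs, zero_sub, zero_sub, mul_neg, neg_neg,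
    ← mul_assoc (io β), F.io_anti β θ, neg_mul, mul_neg, ← mul_assoc, ← mul_assoc, F.io_sq,
    zero_mul, zero_mul, neg_zero]

end topv

section wdio
variable {E : Type*} [NormedAddCommGroup E] [NormedSpace ℝ E] [FiniteDimensional ℝ E]

variable (E) in
/-- continuous linear version of `io` -/
def ioL : (E →L[ℝ] ℝ) →L[ℝ] Ext E :=
  LinearMap.toContinuousLinearMap
    { toFun := fun l => io (l : Module.Dual ℝ E)
      map_add' := fun a b => by rw [← map_add]; rfl
      map_smul' := fun r a => by rw [RingHom.id_apply, ← map_smul]; rfl }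

@[simp] lemma ioL_apply (l : E →L[ℝ] ℝ) : ioL E l = io (l : Module.Dual ℝ E) := rfl

lemma wd_io_two (t : E →L[ℝ] (E →L[ℝ] ℝ)) : wd E ((ioL E).comp t) ∈ Two E := by
  rw [wd_apply]
  exact Submodule.sum_mem _ fun i _ => two_io_io _ _

lemma ii_wd_io (t : E →L[ℝ] (E →L[ℝ] ℝ)) (w : E) :
    ii w (wd E ((ioL E).comp t)) =
      io ((t w - t.flip w : E →L[ℝ] ℝ) : Module.Dual ℝ E) := by
  rw [wd_apply, map_sum]
  have h1 : ∀ i, ii w (io ((finBasis ℝ E).coord i) * ((ioL E).comp t) (finBasis ℝ E i)) =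
      (finBasis ℝ E).coord i w • ioL E (t (finBasis ℝ E i)) -
        t (finBasis ℝ E i) w • io ((finBasis ℝ E).coord i) := by
    intro i
    rw [ii_io_mul]
    congr 1
    change io _ * ii w (io _) = _
    rw [ii_io, ← Algebra.commutes, ← Algebra.smul_def]
    rfl
  simp only [h1, Finset.sum_sub_distrib]
  have h2 : ∑ i, (finBasis ℝ E).coord i w • ioL E (t (finBasis ℝ E i)) = ioL E (t w) := by
    conv_rhs => rw [← (finBasis ℝ E).sum_repr w]
    simp only [map_sum, map_smul]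
    rfl
  have h3 : ∑ i, t (finBasis ℝ E i) w • io ((finBasis ℝ E).coord i) =
      io ((t.flip w : E →L[ℝ] ℝ) : Module.Dual ℝ E) := by
    rw [← F.coord_sum (finBasis ℝ E) ((t.flip w : E →L[ℝ] ℝ) : Module.Dual ℝ E)]
    simp only [map_sum, map_smul]
    rfl
  rw [h2, h3, ioL_apply, ← map_sub]
  rfl

lemma wd_io_symm (t : E →L[ℝ] (E →L[ℝ] ℝ)) (h : ∀ u v, t u v = t v u) :
    wd E ((ioL E).comp t) = 0 := by
  rw [wd_apply]
  have h1 : ∀ i, io ((finBasis ℝ E).coord i) * ((ioL E).comp t) (finBasis ℝ E i) =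
      ∑ j, io ((finBasis ℝ E).coord i) * (io ((finBasis ℝ E).coord j) *
        algebraMap ℝ (Ext E) (t (finBasis ℝ E i) (finBasis ℝ E j))) := by
    intro i
    rw [← Finset.mul_sum]
    congr 1
    change io ((t (finBasis ℝ E i) : E →L[ℝ] ℝ) : Module.Dual ℝ E) = _
    rw [← F.coord_sum (finBasis ℝ E) ((t (finBasis ℝ E i) : E →L[ℝ] ℝ) : Module.Dual ℝ E), map_sum]
    refine Finset.sum_congr rfl fun j _ => ?_
    rw [map_smul, ← Algebra.commutes, ← Algebra.smul_def]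
    rfl
  simp only [h1]
  exact F.sum_io_io _ _ fun i j => by rw [h]

end wdio

end Crest.Agent.R208.JT
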