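import Crest.Agent.R208.JT5
import Crest.Agent.R208.JT2

/-!
R208, block JT (helper631), part 6: the mixed Hessian form on `V × V` and its top power.
-/

set_option autoImplicit false
set_option linter.unusedSectionVars false

open Set Filter Topology Module MeasureTheory
open scoped NNReal ContDiff RealInnerProductSpace

noncomputable section

namespace Crest.Agent.R208.JT

open Crest.Agent.R208.F (Ext io inv pb top ii wd io_mul inv_io pb_io ii_mul ii_io_mul ii_io ii_pb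
  ii_one wd_apply evA evA_ii sb top_pb_det pb_comp)
open Crest.Agent.R208.FI (kap)

section pbwd
variable {E E' : Type*} [NormedAddCommGroup E] [NormedSpace ℝ E] [FiniteDimensional ℝ E]
  [NormedAddCommGroup E'] [NormedSpace ℝ E'] [FiniteDimensional ℝ E']

/-- pull-back of a bilinear form -/
def pbt (A : E →L[ℝ] E') (t : E' →L[ℝ] (E' →L[ℝ] ℝ)) : E →L[ℝ] (E →L[ℝ] ℝ) :=
  ((ContinuousLinearMap.compL ℝ E E' ℝ).flip A).comp (t.comp A)

@[simp] lemma pbt_apply (A : E →L[ℝ] E') (t : E' →L[ℝ] (E' →L[ℝ] ℝ)) (u v : E) :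
    pbt A t u v = t (A u) (A v) := rfl

lemma pb_wd_io (A : E →L[ℝ] E') (t : E' →L[ℝ] (E' →L[ℝ] ℝ)) :
    pb (A : E →ₗ[ℝ] E') (wd E' ((ioL E').comp t)) = wd E ((ioL E).comp (pbt A t)) := by
  rw [wd_apply, wd_apply, map_sum]
  set b := finBasis ℝ E'
  set c := finBasis ℝ E
  have h1 : ∀ i, pb (A : E →ₗ[ℝ] E') (io (b.coord i) * ((ioL E').comp t) (b i)) =
      ∑ j, b.coord i (A (c j)) • (io (c.coord j) *
        io (((t (b i)).comp A : E →L[ℝ] ℝ) : Module.Dual ℝ E)) := by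
    intro i
    have e1 : pb (A : E →ₗ[ℝ] E') (((ioL E').comp t) (b i)) =
        io (((t (b i)).comp A : E →L[ℝ] ℝ) : Module.Dual ℝ E) := by
      change pb (A : E →ₗ[ℝ] E') (io _) = _
      rw [pb_io]; rfl
    rw [map_mul, pb_io, e1]
    have e2 : io (b.coord i ∘ₗ (A : E →ₗ[ℝ] E')) =
        ∑ j, b.coord i (A (c j)) • io (c.coord j) := by
      conv_lhs => rw [← F.coord_sum c (b.coord i ∘ₗ (A : E →ₗ[ℝ] E'))]
      simp only [map_sum, map_smul]
      rfl
    rw [e2, Finset.sum_mul]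
    refine Finset.sum_congr rfl fun j _ => ?_
    rw [smul_mul_assoc]
  simp only [h1]
  rw [Finset.sum_comm]
  refine Finset.sum_congr rfl fun j _ => ?_
  have h2 : ((ioL E).comp (pbt A t)) (c j) = ∑ i, b.coord i (A (c j)) •
      io (((t (b i)).comp A : E →L[ℝ] ℝ) : Module.Dual ℝ E) := by
    have e3 : t (A (c j)) = ∑ i, b.coord i (A (c j)) • t (b i) := by
      conv_lhs => rw [← b.sum_repr (A (c j))]
      simp only [map_sum, map_smul]
      rfl
    have e4 : pbt A t (c j) = ∑ i, b.coord i (A (c j)) • (t (b i)).comp A := by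
      ext u
      rw [pbt_apply, e3]
      simp
    rw [ContinuousLinearMap.comp_apply, e4, map_sum]
    refine Finset.sum_congr rfl fun i _ => ?_
    rw [map_smul]; rfl
  rw [h2, Finset.mul_sum]
  refine Finset.sum_congr rfl fun i _ => ?_
  rw [mul_smul_comm]

end pbwd

section mixed
variable {m : ℕ}

/-- pairs -/
abbrev PP (m : ℕ) := Eu m × Eu m

/-- `(a, b) ↦ (a, 0)` -/
def prX (m : ℕ) : PP m →L[ℝ] PP m :=
  (ContinuousLinearMap.inl ℝ (Eu m) (Eu m)).comp (ContinuousLinearMap.fst ℝ (Eu m) (Eu m))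

/-- `(a, b) ↦ (0, b)` -/
def prY (m : ℕ) : PP m →L[ℝ] PP m :=
  (ContinuousLinearMap.inr ℝ (Eu m) (Eu m)).comp (ContinuousLinearMap.snd ℝ (Eu m) (Eu m))

@[simp] lemma prX_apply (u : PP m) : prX m u = (u.1, 0) := rfl

@[simp] lemma prY_apply (u : PP m) : prY m u = (0, u.2) := rfl

lemma prX_add_prY (u : PP m) : (u.1, (0 : Eu m)) + ((0 : Eu m), u.2) = u := by
  ext <;> simp

/-- the antisymmetrised covector -/
def lamL (m : ℕ) : (PP m →L[ℝ] ℝ) →L[ℝ] (PP m →L[ℝ] ℝ) :=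
  (1 / 2 : ℝ) • ((ContinuousLinearMap.compL ℝ (PP m) (PP m) ℝ).flip (prY m) -
    (ContinuousLinearMap.compL ℝ (PP m) (PP m) ℝ).flip (prX m))

lemma lamL_apply (l : PP m →L[ℝ] ℝ) (u : PP m) :
    lamL m l u = (1 / 2 : ℝ) * (l (0, u.2) - l (u.1, 0)) := rfl

/-- the bilinear form `(u, v) ↦ M u₁ v₂` -/
def tM (M : Eu m →L[ℝ] Eu m →L[ℝ] ℝ) : PP m →L[ℝ] (PP m →L[ℝ] ℝ) :=
  ((ContinuousLinearMap.compL ℝ (PP m) (Eu m) ℝ).flip
    (ContinuousLinearMap.snd ℝ (Eu m) (Eu m))).comp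
    (M.comp (ContinuousLinearMap.fst ℝ (Eu m) (Eu m)))

@[simp] lemma tM_apply (M : Eu m →L[ℝ] Eu m →L[ℝ] ℝ) (u v : PP m) : tM M u v = M u.1 v.2 := rfl

/-- the two-form `∑ M(eᵢ, eⱼ) dXᵢ ∧ dYⱼ` -/
def Om (M : Eu m →L[ℝ] Eu m →L[ℝ] ℝ) : Ext (PP m) := wd (PP m) ((ioL (PP m)).comp (tM M))

lemma Om_two (M : Eu m →L[ℝ] Eu m →L[ℝ] ℝ) : Om M ∈ Two (PP m) := wd_io_two _

lemma ii_Om (M : Eu m →L[ℝ] Eu m →L[ℝ] ℝ) (w : PP m) :
    ii w (Om M) = io ((tM M w - (tM M).flip w : PP m →L[ℝ] ℝ) : Module.Dual ℝ (PP m)) :=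
  ii_wd_io _ _

/-- the mixed part of a bilinear form -/
def mixH (B : PP m →L[ℝ] PP m →L[ℝ] ℝ) : Eu m →L[ℝ] Eu m →L[ℝ] ℝ :=
  ((ContinuousLinearMap.compL ℝ (Eu m) (PP m) ℝ).flip
    (ContinuousLinearMap.inr ℝ (Eu m) (Eu m))).comp
    (B.comp (ContinuousLinearMap.inl ℝ (Eu m) (Eu m)))

@[simp] lemma mixH_apply (B : PP m →L[ℝ] PP m →L[ℝ] ℝ) (a b : Eu m) :
    mixH B a b = B (a, 0) (0, b) := rfl

/-- the differential of the antisymmetrised form is the mixed Hessian. -/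
theorem d_lam {f : PP m → ℝ} {p : PP m} (hf : ContDiffAt ℝ 2 f p) :
    F.d (fun q => ioL (PP m) (lamL m (fderiv ℝ f q))) p =
      Om (mixH (fderiv ℝ (fderiv ℝ f) p)) := by
  set B := fderiv ℝ (fderiv ℝ f) p with hB
  have h1 : HasFDerivAt (fderiv ℝ f) B p :=
    ((hf.fderiv_right (m := 1) (by norm_num)).differentiableAt (by norm_num)).hasFDerivAt
  have h2 : HasFDerivAt (fun q => ioL (PP m) (lamL m (fderiv ℝ f q)))
      ((ioL (PP m)).comp ((lamL m).comp B)) p :=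
    (ioL (PP m)).hasFDerivAt.comp p ((lamL m).hasFDerivAt.comp p h1)
  rw [F.d_of_hasFDerivAt h2, Om, ← sub_eq_zero, ← map_sub, ← ContinuousLinearMap.comp_sub]
  refine wd_io_symm _ fun u v => ?_
  have hs : ∀ x y, B x y = B y x := fun x y => F.fderiv_symm hf x y
  have e : ∀ u v : PP m, ((lamL m).comp B - tM (mixH B)) u v =
      (1 / 2 : ℝ) * (B u (0, v.2) - B u (v.1, 0)) - B (u.1, 0) (0, v.2) := fun u v => rfl
  rw [e, e]
  have u1 : B u (0, v.2) = B (u.1, 0) (0, v.2) + B (0, u.2) (0, v.2) := by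
    conv_lhs => rw [← prX_add_prY u, map_add, add_apply]
  have u2 : B u (v.1, 0) = B (u.1, 0) (v.1, 0) + B (0, u.2) (v.1, 0) := by
    conv_lhs => rw [← prX_add_prY u, map_add, add_apply]
  have v1 : B v (0, u.2) = B (v.1, 0) (0, u.2) + B (0, v.2) (0, u.2) := by
    conv_lhs => rw [← prX_add_prY v, map_add, add_apply]
  have v2 : B v (u.1, 0) = B (v.1, 0) (u.1, 0) + B (0, v.2) (u.1, 0) := by
    conv_lhs => rw [← prX_add_prY v, map_add, add_apply]
  rw [u1, u2, v1, v2, hs (0, v.2) (0, u.2), hs (0, v.2) (u.1, 0), hs (v.1, 0) (u.1, 0),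
    hs (0, u.2) (v.1, 0)]
  ring

end mixed

section ring
variable {R : Type*} [Ring R]

lemma add_pow_sq_zero {a S : R} (hc : a * S = S * a) (h : a * a = 0) (k : ℕ) :
    (a + S) ^ (k + 1) = S ^ (k + 1) + (k + 1) * (a * S ^ k) := by
  induction k with
  | zero => simp [add_comm]
  | succ k ih =>
    have hc' : ∀ j, a * S ^ j = S ^ j * a := fun j => ((show Commute a S from hc).pow_right j)
    rw [pow_succ (a + S), ih, add_mul, mul_add, ← pow_succ, mul_add, mul_assoc ((k : R) + 1),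
      mul_assoc ((k : R) + 1), mul_assoc a, mul_assoc a, ← hc' k, ← mul_assoc a a, h, zero_mul,
      mul_zero, zero_add, ← pow_succ, ← hc' (k + 1)]
    push_cast
    noncomm_ring

lemma sum_pow_prod {n : ℕ} (a : Fin n → R) (hc : ∀ i x, a i * x = x * a i)
    (h : ∀ i, a i * a i = 0) :
    (∑ i, a i) ^ n = (n.factorial : R) * (List.ofFn a).prod ∧ (∑ i, a i) ^ (n + 1) = 0 := by
  induction n with
  | zero => simp
  | succ n ih =>
    obtain ⟨h1, h2⟩ := ih (fun i => a i.succ) (fun i => hc i.succ) fun i => h i.succ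
    rw [Fin.sum_univ_succ]
    constructor
    · rw [add_pow_sq_zero (hc 0 _) (h 0), h2, zero_add, h1, List.ofFn_succ, List.prod_cons,
        Nat.factorial_succ]
      push_cast
      have : a 0 * ((n.factorial : R) * (List.ofFn fun i => a i.succ).prod) =
          (n.factorial : R) * (a 0 * (List.ofFn fun i => a i.succ).prod) := by
        rw [← mul_assoc, hc 0, mul_assoc]
      rw [this]
      noncomm_ring
    · rw [add_pow_sq_zero (hc 0 _) (h 0), pow_succ, h2, zero_mul, mul_zero, mul_zero, add_zero]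

end ring

section evl
variable {E : Type*} [AddCommGroup E] [Module ℝ E]

lemma ii_prod_zero (Z : E) {n : ℕ} (l l' : Fin n → Module.Dual ℝ E) (h : ∀ i, l i Z = 0)
    (h' : ∀ i, l' i Z = 0) : ii Z (List.ofFn fun i => io (l i) * io (l' i)).prod = 0 := by
  induction n with
  | zero => simp
  | succ n ih =>
    rw [List.ofFn_succ, List.prod_cons, mul_assoc, ii_io_mul, h 0, zero_smul, ii_io_mul, h' 0,
      zero_smul, ih (fun i => l i.succ) (fun i => l' i.succ) (fun i => h i.succ)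
        (fun i => h' i.succ), mul_zero, sub_zero, mul_zero, sub_zero]

lemma exists_evA_prod {n : ℕ} (l l' : Fin n → Module.Dual ℝ E) (e f : Fin n → E)
    (h1 : ∀ i j, l i (e j) = if i = j then 1 else 0) (h2 : ∀ i j, l' i (f j) = if i = j then 1 else 0)
    (h3 : ∀ i j, l i (f j) = 0) (h4 : ∀ i j, l' i (e j) = 0) :
    ∃ v : Fin (2 * n) → E, evA E (2 * n) (List.ofFn fun i => io (l i) * io (l' i)).prod v = 1 := by
  induction n with
  | zero =>
    refine ⟨fun i => i.elim0, ?_⟩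
    have := F.evA_zero_algebraMap (E := E) 1 (fun i => i.elim0)
    rw [map_one] at this
    simpa using this
  | succ n ih =>
    obtain ⟨v, hv⟩ := ih (fun i => l i.succ) (fun i => l' i.succ) (fun i => e i.succ)
      (fun i => f i.succ) (fun i j => by rw [h1]; simp [Fin.succ_inj])
      (fun i j => by rw [h2]; simp [Fin.succ_inj]) (fun i j => h3 _ _) (fun i j => h4 _ _)
    set P := (List.ofFn fun i : Fin n => io (l i.succ) * io (l' i.succ)).prod with hP
    have e1 : ii (e 0) P = 0 := ii_prod_zero _ _ _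
      (fun i => by rw [h1]; exact if_neg (Fin.succ_ne_zero i)) fun i => h4 _ _
    have e2 : ii (f 0) P = 0 := ii_prod_zero _ _ _ (fun i => h3 _ _)
      (fun i => by rw [h2]; exact if_neg (Fin.succ_ne_zero i))
    refine ⟨(Matrix.vecCons (e 0) (Matrix.vecCons (f 0) v) : Fin (2 * n + 1 + 1) → E), ?_⟩
    change evA E (2 * n + 1 + 1) _ _ = 1
    rw [List.ofFn_succ, List.prod_cons, evA_ii, evA_ii, mul_assoc, ← hP, ii_io_mul, h1, if_pos rfl,
      one_smul, ii_io_mul, h4, zero_smul, e1, mul_zero, sub_zero, mul_zero, sub_zero, ii_io_mul, h2,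
      if_pos rfl, one_smul, e2, mul_zero, sub_zero]
    exact hv

end evl

section topOm
variable {m : ℕ}

/-- determinant of a bilinear form on `ℝ^m` -/
def detM (M : Eu m →L[ℝ] Eu m →L[ℝ] ℝ) : ℝ :=
  (Matrix.of fun i j : Fin m =>
    M (EuclideanSpace.basisFun (Fin m) ℝ i) (EuclideanSpace.basisFun (Fin m) ℝ j)).det

/-- the euclidean form -/
def M₀ (m : ℕ) : Eu m →L[ℝ] Eu m →L[ℝ] ℝ := innerSL ℝ

@[simp] lemma M₀_apply (a b : Eu m) : M₀ m a b = ⟪a, b⟫ := rfl

/-- `κ` as a linear map -/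
def kl (m : ℕ) : Eu (m + m) →L[ℝ] PP m := (kap m m : Eu (m + m) →L[ℝ] PP m)

@[simp] lemma kl_apply (z : Eu (m + m)) : kl m z = kap m m z := rfl

/-- normalisation constant -/
def c₀ (m : ℕ) : ℝ := top (m + m) (pb (kl m : Eu (m + m) →ₗ[ℝ] PP m) (Om (M₀ m)) ^ m)

lemma pb_Om₀ : pb (kl m : Eu (m + m) →ₗ[ℝ] PP m) (Om (M₀ m)) =
    ∑ i : Fin m, io ((sb (m + m)).coord (Fin.castAdd m i)) *
      io ((sb (m + m)).coord (Fin.natAdd m i)) := by
  rw [Om, pb_wd_io, F.wd_basis (sb (m + m)), Fin.sum_univ_add]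
  have h2 : ∀ i : Fin m, io ((sb (m + m)).coord (Fin.natAdd m i)) *
      ((ioL (Eu (m + m))).comp (pbt (kl m) (tM (M₀ m)))) (sb (m + m) (Fin.natAdd m i)) = 0 := by
    intro i
    have : pbt (kl m) (tM (M₀ m)) (sb (m + m) (Fin.natAdd m i)) = 0 := by
      ext u
      rw [pbt_apply, tM_apply, kl_apply, FI.kap_natAdd]
      simp
    rw [ContinuousLinearMap.comp_apply, this, map_zero, mul_zero]
  rw [Finset.sum_eq_zero (fun i _ => h2 i), add_zero]
  refine Finset.sum_congr rfl fun i _ => ?_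
  congr 1
  rw [ContinuousLinearMap.comp_apply, ioL_apply]
  congr 1
  ext u
  change tM (M₀ m) (kl m (sb (m + m) (Fin.castAdd m i))) (kl m u) = _
  rw [tM_apply, kl_apply, FI.kap_castAdd, M₀_apply, kl_apply]
  simp [EuclideanSpace.basisFun_apply, EuclideanSpace.inner_single_left]

lemma top_ne_zero_of_evA {k : ℕ} {c : Ext (Eu k)} {v : Fin k → Eu k} (h : evA (Eu k) k c v ≠ 0) :
    top k c ≠ 0 := by
  intro h0
  apply h
  rw [F.evA_comb k c (sb k) v (Matrix.of fun i j => (sb k).repr (v i) j)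
    (fun i => ((sb k).sum_repr (v i)).symm)]
  rw [F.top_apply] at h0
  rw [h0, mul_zero]

theorem c₀_ne (m : ℕ) : c₀ m ≠ 0 := by
  have hT : ∀ i : Fin m, io ((sb (m + m)).coord (Fin.castAdd m i)) *
      io ((sb (m + m)).coord (Fin.natAdd m i)) ∈ Two (Eu (m + m)) := fun i => two_io_io _ _
  have h1 := (sum_pow_prod (fun i : Fin m => io ((sb (m + m)).coord (Fin.castAdd m i)) *
      io ((sb (m + m)).coord (Fin.natAdd m i))) (fun i x => Two.comm (hT i) x) (fun i => by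
        rw [mul_assoc, ← mul_assoc (io ((sb (m + m)).coord (Fin.natAdd m i))), F.io_anti
          ((sb (m + m)).coord (Fin.natAdd m i)), neg_mul, mul_neg, mul_assoc, F.io_sq, mul_zero,
          mul_zero, neg_zero])).1
  rw [c₀, pb_Om₀, h1]
  have h2 : ((m.factorial : Ext (Eu (m + m)))) * (List.ofFn fun i : Fin m =>
      io ((sb (m + m)).coord (Fin.castAdd m i)) * io ((sb (m + m)).coord (Fin.natAdd m i))).prod =
      (m.factorial : ℝ) • (List.ofFn fun i : Fin m =>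
      io ((sb (m + m)).coord (Fin.castAdd m i)) * io ((sb (m + m)).coord (Fin.natAdd m i))).prod := by
    rw [Algebra.smul_def, map_natCast]
  rw [h2, map_smul, smul_eq_mul]
  refine mul_ne_zero (by exact_mod_cast m.factorial_ne_zero) ?_
  obtain ⟨v, hv⟩ := exists_evA_prod (n := m) (fun i => (sb (m + m)).coord (Fin.castAdd m i))
    (fun i => (sb (m + m)).coord (Fin.natAdd m i)) (fun i => sb (m + m) (Fin.castAdd m i))
    (fun i => sb (m + m) (Fin.natAdd m i))
    (fun i j => by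
      rw [Basis.coord_apply, Basis.repr_self, Finsupp.single_apply]
      simp [Fin.ext_iff, eq_comm])
    (fun i j => by
      rw [Basis.coord_apply, Basis.repr_self, Finsupp.single_apply]
      simp [Fin.ext_iff, eq_comm])
    (fun i j => by
      rw [Basis.coord_apply, Basis.repr_self, Finsupp.single_apply]
      refine if_neg ?_
      intro h
      have := congrArg Fin.val h
      simp at this
      omega)
    (fun i j => by
      rw [Basis.coord_apply, Basis.repr_self, Finsupp.single_apply]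
      refine if_neg ?_
      intro h
      have := congrArg Fin.val h
      simp at this
      omega)
  refine top_ne_zero_of_evA (v := v ∘ Fin.cast (two_mul m).symm) ?_
  rw [FI.evA_cast, hv]
  exact one_ne_zero

/-- the endomorphism of a bilinear form -/
def sM (M : Eu m →L[ℝ] Eu m →L[ℝ] ℝ) : Eu m →L[ℝ] Eu m :=
  ∑ i, (M (EuclideanSpace.basisFun (Fin m) ℝ i)).smulRight (EuclideanSpace.basisFun (Fin m) ℝ i)

lemma sM_inner (M : Eu m →L[ℝ] Eu m →L[ℝ] ℝ) (a b : Eu m) : ⟪a, sM M b⟫ = M a b := by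
  have h := (EuclideanSpace.basisFun (Fin m) ℝ).sum_repr' a
  conv_rhs => rw [← h]
  simp only [sM, sum_apply, ContinuousLinearMap.smulRight_apply, inner_sum,
    inner_smul_right, map_sum, map_smul]
  refine Finset.sum_congr rfl fun i _ => ?_
  rw [smul_apply, smul_eq_mul, real_inner_comm]
  ring

lemma det_sM (M : Eu m →L[ℝ] Eu m →L[ℝ] ℝ) : (sM M).det = detM M := by
  rw [ContinuousLinearMap.det, ← LinearMap.det_toMatrix (sb m), detM]
  congr 1
  ext i j
  rw [LinearMap.toMatrix_apply, Matrix.of_apply, ← sM_inner]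
  simp [EuclideanSpace.inner_single_left]

lemma Om_eq_pb (M : Eu m →L[ℝ] Eu m →L[ℝ] ℝ) : Om M =
    pb (((ContinuousLinearMap.id ℝ (Eu m)).prodMap (sM M) : PP m →L[ℝ] PP m) : PP m →ₗ[ℝ] PP m)
      (Om (M₀ m)) := by
  rw [Om, Om, pb_wd_io]
  congr 2
  ext u v
  all_goals
    simp [sM_inner]

theorem top_pb_Om (A : Eu (m + m) →L[ℝ] Eu (m + m)) (M : Eu m →L[ℝ] Eu m →L[ℝ] ℝ) :
    top (m + m) (pb (((kl m).comp A : Eu (m + m) →L[ℝ] PP m) : Eu (m + m) →ₗ[ℝ] PP m) (Om M) ^ m) =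
      A.det * (detM M * c₀ m) := by
  have h1 : pb (((kl m).comp A : Eu (m + m) →L[ℝ] PP m) : Eu (m + m) →ₗ[ℝ] PP m) (Om M) =
      pb (A : Eu (m + m) →ₗ[ℝ] Eu (m + m)) (pb (kl m : Eu (m + m) →ₗ[ℝ] PP m) (Om M)) := by
    rw [pb_comp]; rfl
  set T : PP m →ₗ[ℝ] PP m :=
    (((ContinuousLinearMap.id ℝ (Eu m)).prodMap (sM M) : PP m →L[ℝ] PP m) : PP m →ₗ[ℝ] PP m) with hT
  set B : Eu (m + m) →ₗ[ℝ] Eu (m + m) :=
    ((kap m m).symm.toLinearEquiv : PP m →ₗ[ℝ] Eu (m + m)) ∘ₗ T ∘ₗ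
      (((kap m m).symm.toLinearEquiv.symm : Eu (m + m) ≃ₗ[ℝ] PP m) : Eu (m + m) →ₗ[ℝ] PP m) with hB
  have h2 : pb (kl m : Eu (m + m) →ₗ[ℝ] PP m) (Om M) =
      pb B (pb (kl m : Eu (m + m) →ₗ[ℝ] PP m) (Om (M₀ m))) := by
    rw [pb_comp, Om_eq_pb M, pb_comp, ← hT]
    have hXY : T ∘ₗ (kl m : Eu (m + m) →ₗ[ℝ] PP m) = (kl m : Eu (m + m) →ₗ[ℝ] PP m) ∘ₗ B := by
      refine LinearMap.ext fun z => ?_
      simp only [LinearMap.comp_apply, hB]
      exact ((kap m m).apply_symm_apply _).symm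
    rw [hXY]
  have hdet : LinearMap.det B = detM M := by
    rw [hB, LinearMap.det_conj, hT, ← det_sM]
    change LinearMap.det ((LinearMap.id : Eu m →ₗ[ℝ] Eu m).prodMap (sM M : Eu m →ₗ[ℝ] Eu m)) = _
    rw [LinearMap.det_prodMap, LinearMap.det_id, one_mul]
  rw [h1, ← map_pow, top_pb_det, h2, ← map_pow, top_pb_det, hdet, c₀]

end topOm

end Crest.Agent.R208.JT
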