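import Crest.Agent.R208.JT6
import Crest.Agent.R208.JT4

/-!
R208, block JT (helper631), part 7: Stokes for the difference of the top powers.
-/

set_option autoImplicit false
set_option linter.unusedSectionVars false

open Set Filter Topology Module MeasureTheory
open scoped NNReal ContDiff RealInnerProductSpace

noncomputable section

namespace Crest.Agent.R208.JT

open Crest.Agent.R208.F (Ext io inv pb top ii wd d pull mulL contDiff_mul d_mul d_smul d_sub
  contDiffAt_pull d_pull)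
open Crest.Agent.R208.FI (kap integral_functional_d_eq_zero)

section cont
variable {E : Type*} [NormedAddCommGroup E] [NormedSpace ℝ E] [FiniteDimensional ℝ E]
  {E' : Type*} [NormedAddCommGroup E'] [NormedSpace ℝ E'] [FiniteDimensional ℝ E']
  {X : Type*} [TopologicalSpace X]

lemma cont_mul {f g : X → Ext E} (hf : Continuous f) (hg : Continuous g) :
    Continuous fun x => f x * g x := by
  have : (fun x => f x * g x) = fun x => mulL E (f x) (g x) := rfl
  rw [this]
  exact ((mulL E).continuous.comp hf).clm_apply hg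

lemma cont_pow {f : X → Ext E} (hf : Continuous f) (n : ℕ) : Continuous fun x => f x ^ n := by
  induction n with
  | zero => simp only [pow_zero]; exact continuous_const
  | succ n ih => simp only [pow_succ]; exact cont_mul ih hf

lemma cont_pbt {A : X → E →L[ℝ] E'} {t : X → E' →L[ℝ] (E' →L[ℝ] ℝ)} (hA : Continuous A)
    (ht : Continuous t) : Continuous fun x => pbt (A x) (t x) := by
  unfold pbt
  exact (((ContinuousLinearMap.compL ℝ E E' ℝ).flip).continuous.comp hA).clm_comp
    (ht.clm_comp hA)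

lemma cont_top {k : ℕ} {f : X → Ext (Eu k)} (hf : Continuous f) :
    Continuous fun x => top k (f x) :=
  (LinearMap.toContinuousLinearMap (top k)).continuous.comp hf

end cont

variable {m : ℕ}

/-- the two form pulled back by `A` -/
def omA (A : Eu (m + m) →L[ℝ] Eu (m + m)) (M : Eu m →L[ℝ] Eu m →L[ℝ] ℝ) : Ext (Eu (m + m)) :=
  pb (((kl m).comp A : Eu (m + m) →L[ℝ] PP m) : Eu (m + m) →ₗ[ℝ] PP m) (Om M)

/-- the euclidean two-form -/
def w₀ (m : ℕ) : Ext (Eu (m + m)) := pb (kl m : Eu (m + m) →ₗ[ℝ] PP m) (Om (M₀ m))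

lemma omA_two (A : Eu (m + m) →L[ℝ] Eu (m + m)) (M : Eu m →L[ℝ] Eu m →L[ℝ] ℝ) :
    omA A M ∈ Two (Eu (m + m)) := Two.pb (Om_two M) _

lemma w₀_two : w₀ m ∈ Two (Eu (m + m)) := Two.pb (Om_two _) _

/-- the euclidean scalar product -/
def F₀ (m : ℕ) (p : PP m) : ℝ := ⟪p.1, p.2⟫

lemma F₀_smooth : ContDiff ℝ ∞ (F₀ m) := contDiff_fst.inner ℝ contDiff_snd

/-- difference of the one-forms -/
def bA (z : Eu (m + m)) (A : Eu (m + m) →L[ℝ] Eu (m + m)) (l : PP m →L[ℝ] ℝ) :
    Eu (m + m) →L[ℝ] ℝ :=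
  (lamL m l).comp ((kl m).comp A) - (lamL m (fderiv ℝ (F₀ m) (kl m z))).comp (kl m)

/-- the boundary integrand -/
def Rr (η : Eu (m + m) → ℝ) (z : Eu (m + m)) (A : Eu (m + m) →L[ℝ] Eu (m + m))
    (l : PP m →L[ℝ] ℝ) (M : Eu m →L[ℝ] Eu m →L[ℝ] ℝ) : ℝ :=
  top (m + m) (ioL _ (fderiv ℝ η z) * (ioL _ (bA z A l) *
    ∑ i ∈ Finset.range m, omA A M ^ i * w₀ m ^ (m - 1 - i)))

/-- the whole integrand -/
def Tt (η : Eu (m + m) → ℝ) (z : Eu (m + m)) (A : Eu (m + m) →L[ℝ] Eu (m + m))
    (l : PP m →L[ℝ] ℝ) (M : Eu m →L[ℝ] Eu m →L[ℝ] ℝ) : ℝ :=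
  Rr η z A l M + η z * (top (m + m) (omA A M ^ m) - c₀ m)

lemma cont_omA {X : Type*} [TopologicalSpace X] {A : X → Eu (m + m) →L[ℝ] Eu (m + m)}
    {M : X → Eu m →L[ℝ] Eu m →L[ℝ] ℝ} (hA : Continuous A) (hM : Continuous M) :
    Continuous fun x => omA (A x) (M x) := by
  have h : (fun x => omA (A x) (M x)) =
      fun x => wd (Eu (m + m)) ((ioL (Eu (m + m))).comp (pbt ((kl m).comp (A x)) (tM (M x)))) := by
    funext q
    rw [omA, Om, pb_wd_io]
  rw [h]
  refine (wd (Eu (m + m))).continuous.comp (continuous_const.clm_comp (cont_pbt ?_ ?_))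
  · exact continuous_const.clm_comp hA
  · unfold tM
    exact continuous_const.clm_comp (hM.clm_comp continuous_const)

lemma cont_Rr {X : Type*} [TopologicalSpace X] {η : Eu (m + m) → ℝ} (hη : ContDiff ℝ 1 η)
    {z : X → Eu (m + m)} {A : X → Eu (m + m) →L[ℝ] Eu (m + m)} {l : X → PP m →L[ℝ] ℝ}
    {M : X → Eu m →L[ℝ] Eu m →L[ℝ] ℝ} (hz : Continuous z) (hA : Continuous A)
    (hl : Continuous l) (hM : Continuous M) :
    Continuous fun q => Rr η (z q) (A q) (l q) (M q) := by
  unfold Rr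
  refine cont_top (cont_mul ?_ (cont_mul ?_ ?_))
  · exact (ioL _).continuous.comp ((hη.continuous_fderiv (by norm_num)).comp hz)
  · refine (ioL _).continuous.comp ?_
    unfold bA
    refine Continuous.sub ?_ ?_
    · exact ((lamL m).continuous.comp hl).clm_comp (continuous_const.clm_comp hA)
    · refine Continuous.clm_comp ((lamL m).continuous.comp ?_) continuous_const
      exact (F₀_smooth.continuous_fderiv (by simp)).comp ((kl m).continuous.comp hz)
  · exact continuous_finsetSum _ fun i _ => cont_mul (cont_pow (cont_omA hA hM) i)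
      continuous_const

lemma cont_Tt {X : Type*} [TopologicalSpace X] {η : Eu (m + m) → ℝ} (hη : ContDiff ℝ 1 η)
    {z : X → Eu (m + m)} {A : X → Eu (m + m) →L[ℝ] Eu (m + m)} {l : X → PP m →L[ℝ] ℝ}
    {M : X → Eu m →L[ℝ] Eu m →L[ℝ] ℝ} (hz : Continuous z) (hA : Continuous A)
    (hl : Continuous l) (hM : Continuous M) :
    Continuous fun q => Tt η (z q) (A q) (l q) (M q) := by
  unfold Tt
  refine (cont_Rr hη hz hA hl hM).add (((hη.continuous).comp hz).mul (Continuous.sub ?_
    continuous_const))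
  exact cont_top (cont_pow (cont_omA hA hM) m)

lemma d_pow_mul {E : Type*} [NormedAddCommGroup E] [NormedSpace ℝ E] [FiniteDimensional ℝ E]
    {a : E → Ext E} (ha : ContDiff ℝ 1 a) (hd : ∀ z, d a z = 0) (c : Ext E) (i : ℕ) :
    ContDiff ℝ 1 (fun z => a z ^ i * c) ∧ ∀ z, d (fun z => a z ^ i * c) z = 0 := by
  induction i with
  | zero =>
    simp only [pow_zero, one_mul]
    exact ⟨contDiff_const, fun z => F.d_const _ _⟩
  | succ i ih =>
    have e : (fun z => a z ^ (i + 1) * c) = fun z => a z * (a z ^ i * c) := by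
      funext z; rw [pow_succ', mul_assoc]
    rw [e]
    refine ⟨contDiff_mul ha ih.1, fun z => ?_⟩
    rw [d_mul (ha.differentiable (by norm_num) z) (ih.1.differentiable (by norm_num) z), hd, ih.2,
      zero_mul, mul_zero, add_zero]

/-- differential of the euclidean product -/
def L₀ (m : ℕ) : PP m →L[ℝ] PP m →L[ℝ] ℝ := tM (M₀ m) + (tM (M₀ m)).flip

lemma L₀_apply (u v : PP m) : L₀ m u v = ⟪u.1, v.2⟫ + ⟪v.1, u.2⟫ := rfl

lemma fderiv_F₀ (p : PP m) : fderiv ℝ (F₀ m) p = L₀ m p := by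
  have h : HasFDerivAt (F₀ m) (L₀ m p) p := by
    have h1 := (hasFDerivAt_fst (𝕜 := ℝ) (p := p)).inner ℝ (hasFDerivAt_snd (𝕜 := ℝ) (p := p))
    refine h1.congr_fderiv ?_
    ext u
    all_goals simp [L₀_apply, fderivInnerCLM_apply, real_inner_comm]
  exact h.fderiv

lemma mixH_F₀ (p : PP m) : mixH (fderiv ℝ (fderiv ℝ (F₀ m)) p) = M₀ m := by
  have h : fderiv ℝ (F₀ m) = fun p => L₀ m p := funext fderiv_F₀
  rw [h, (L₀ m).fderiv]
  ext a b
  rw [mixH_apply, L₀_apply]
  simp

/-- **Stokes** -/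
theorem integral_Tt_smooth {f : Eu (m + m) → Eu (m + m)} (hf : ContDiff ℝ ∞ f) {F₁ : PP m → ℝ}
    (hF : ContDiff ℝ ∞ F₁) {η : Eu (m + m) → ℝ} (hη : ContDiff ℝ ∞ η)
    (hηc : HasCompactSupport η) :
    ∫ z, Tt η z (fderiv ℝ f z) (fderiv ℝ F₁ (kl m (f z)))
      (mixH (fderiv ℝ (fderiv ℝ F₁) (kl m (f z)))) = 0 := by
  have two_le : (2 : WithTop ℕ∞) ≤ ∞ := WithTop.coe_le_coe.2 le_top
  have three_le : (3 : WithTop ℕ∞) ≤ ∞ := WithTop.coe_le_coe.2 le_top
  have smo : ∀ {G : PP m → ℝ}, ContDiff ℝ ∞ G →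
      ContDiff ℝ 3 fun p => ioL (PP m) (lamL m (fderiv ℝ G p)) := fun hG =>
    (ioL (PP m)).contDiff.comp ((lamL m).contDiff.comp
      (hG.fderiv_right (m := 3) (WithTop.coe_le_coe.2 le_top)))
  set g : Eu (m + m) → PP m := fun z => kl m (f z) with hg
  have hgs : ContDiff ℝ ∞ g := (kl m).contDiff.comp hf
  have hgd : ∀ z, fderiv ℝ g z = (kl m).comp (fderiv ℝ f z) := fun z =>
    ((kl m).hasFDerivAt.comp z ((hf.differentiable (by simp)) z).hasFDerivAt).fderiv
  set la : PP m → Ext (PP m) := fun p => ioL (PP m) (lamL m (fderiv ℝ F₁ p)) with hla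
  set la₀ : PP m → Ext (PP m) := fun p => ioL (PP m) (lamL m (fderiv ℝ (F₀ m) p)) with hla₀
  have hlas : ContDiff ℝ 3 la := smo hF
  have hla₀s : ContDiff ℝ 3 la₀ := smo F₀_smooth
  have hdla : ∀ p, d la p = Om (mixH (fderiv ℝ (fderiv ℝ F₁) p)) := fun p =>
    d_lam (hF.of_le two_le).contDiffAt
  have hdla₀ : ∀ p, d la₀ p = Om (M₀ m) := fun p => by
    rw [hla₀, d_lam (F₀_smooth.of_le two_le).contDiffAt, mixH_F₀]
  have hkd : ∀ z, fderiv ℝ (kl m) z = kl m := fun z => (kl m).fderiv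
  set a : Eu (m + m) → Ext (Eu (m + m)) := pull g (d la) with ha
  have haz : ∀ z, a z = omA (fderiv ℝ f z) (mixH (fderiv ℝ (fderiv ℝ F₁) (g z))) := fun z => by
    rw [ha, pull, hgd, hdla]; rfl
  have hdlas : ContDiff ℝ 2 (d la) := contDiff_iff_contDiffAt.2 fun p =>
    F.contDiffAt_d (n := 3) hlas.contDiffAt (by norm_num)
  have has : ContDiff ℝ 1 a := contDiff_iff_contDiffAt.2 fun z =>
    contDiffAt_pull (n := 2) (m := 1) (hgs.of_le two_le).contDiffAt (by norm_num)
      (hdlas.of_le (by norm_num)).contDiffAt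
  have had : ∀ z, d a z = 0 := fun z => by
    rw [ha, d_pull (hgs.of_le two_le).contDiffAt ((hdlas.differentiable (by norm_num)) _), pull,
      F.d_d (hlas.of_le (by norm_num)).contDiffAt, map_zero]
  set b : Eu (m + m) → Ext (Eu (m + m)) := fun z => pull g la z - pull (kl m) la₀ z with hb
  have hp1 : ContDiff ℝ 1 (pull g la) := contDiff_iff_contDiffAt.2 fun z =>
    contDiffAt_pull (n := 2) (m := 1) (hgs.of_le two_le).contDiffAt (by norm_num)
      (hlas.of_le (by norm_num)).contDiffAt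
  have hp0 : ContDiff ℝ 1 (pull (kl m) la₀) := contDiff_iff_contDiffAt.2 fun z =>
    contDiffAt_pull (n := 2) (m := 1) (kl m).contDiff.contDiffAt (by norm_num)
      (hla₀s.of_le (by norm_num)).contDiffAt
  have hbs : ContDiff ℝ 1 b := hp1.sub hp0
  have hbz : ∀ z, b z = ioL _ (bA z (fderiv ℝ f z) (fderiv ℝ F₁ (g z))) := fun z => by
    simp only [hb, bA, map_sub]
    congr 1
    · rw [pull, hgd, hla]
      change pb _ (io _) = io _
      rw [F.pb_io]; rfl
    · rw [pull, hkd, hla₀]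
      change pb _ (io _) = io _
      rw [F.pb_io]; rfl
  have hbd : ∀ z, d b z = a z - w₀ m := fun z => by
    rw [hb, d_sub (hp1.differentiable (by norm_num) z) (hp0.differentiable (by norm_num) z),
      d_pull (hgs.of_le two_le).contDiffAt ((hlas.differentiable (by norm_num)) _),
      d_pull (kl m).contDiff.contDiffAt ((hla₀s.differentiable (by norm_num)) _)]
    congr 1
    rw [pull, hkd, hdla₀]; rfl
  set S : Eu (m + m) → Ext (Eu (m + m)) := fun z =>
    ∑ i ∈ Finset.range m, a z ^ i * w₀ m ^ (m - 1 - i) with hS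
  have hSs : ContDiff ℝ 1 S := ContDiff.sum fun i _ => (d_pow_mul has had _ i).1
  have hSd : ∀ z, d S z = 0 := fun z => by
    rw [hS, F.d_sum _ fun i _ => (d_pow_mul has had (w₀ m ^ (m - 1 - i)) i).1.differentiable
      (by norm_num) z]
    exact Finset.sum_eq_zero fun i _ => (d_pow_mul has had _ i).2 z
  have hbS : ContDiff ℝ 1 fun z => b z * S z := contDiff_mul hbs hSs
  have hbSd : ∀ z, d (fun z => b z * S z) z = a z ^ m - w₀ m ^ m := fun z => by
    rw [d_mul (hbs.differentiable (by norm_num) z) (hSs.differentiable (by norm_num) z), hSd,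
      mul_zero, add_zero, hbd, hS]
    have hcomm : Commute (a z) (w₀ m) := by
      rw [haz]; exact Two.comm (omA_two _ _) _
    exact hcomm.mul_geom_sum₂ m
  have hη1 : ContDiff ℝ 1 η := hη.of_le (by simp)
  have hT : ContDiff ℝ 1 fun z => η z • (b z * S z) := hη1.smul hbS
  have hTc : HasCompactSupport fun z => η z • (b z * S z) := hηc.smul_right
  rw [← integral_functional_d_eq_zero volume hT hTc (top (m + m))]
  congr 1
  funext z
  rw [d_smul (hη1.differentiable (by norm_num) z) (hbS.differentiable (by norm_num) z), hbSd,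
    map_add, map_smul, map_sub, Tt, Rr, smul_eq_mul]
  congr 1
  · rw [← hbz, hS]
    simp only [haz]
    rfl
  · rw [haz]
    rfl

/-- the same for Lipschitz maps -/
theorem integral_Tt_lip {Φ : Eu (m + m) → Eu (m + m)} {K : ℝ≥0} (hΦ : LipschitzWith K Φ)
    {F₁ : PP m → ℝ} (hF : ContDiff ℝ ∞ F₁) {η : Eu (m + m) → ℝ} (hη : ContDiff ℝ ∞ η)
    (hηc : HasCompactSupport η) :
    ∫ z, Tt η z (fderiv ℝ Φ z) (fderiv ℝ F₁ (kl m (Φ z)))
      (mixH (fderiv ℝ (fderiv ℝ F₁) (kl m (Φ z)))) = 0 := by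
  obtain ⟨R, hR⟩ := hηc.isBounded.subset_closedBall (0 : Eu (m + m))
  have two_le : (2 : WithTop ℕ∞) ≤ ∞ := WithTop.coe_le_coe.2 le_top
  have hmix : Continuous fun B : PP m →L[ℝ] PP m →L[ℝ] ℝ => mixH B := by
    unfold mixH
    exact continuous_const.clm_comp (continuous_id.clm_comp continuous_const)
  have h1 : Continuous fun p : Eu (m + m) => fderiv ℝ F₁ (kl m p) :=
    (hF.continuous_fderiv (by simp)).comp (kl m).continuous
  have h2 : Continuous fun p : Eu (m + m) => mixH (fderiv ℝ (fderiv ℝ F₁) (kl m p)) := by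
    have h3 : ContDiff ℝ 1 (fderiv ℝ F₁) := hF.fderiv_right (m := 1) two_le
    exact hmix.comp ((h3.continuous_fderiv (by norm_num)).comp (kl m).continuous)
  have h := (approx_moll hΦ).tendsto_integral hΦ
    (T := fun z p A => Tt η z A (fderiv ℝ F₁ (kl m p)) (mixH (fderiv ℝ (fderiv ℝ F₁) (kl m p))))
    (R := R) (by
      exact cont_Tt (hη.of_le (by simp)) continuous_fst (continuous_snd.comp continuous_snd)
        (h1.comp (continuous_fst.comp continuous_snd))
        (h2.comp (continuous_fst.comp continuous_snd))) (fun z p A hz _ => by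
        have hz' : z ∉ tsupport η := fun h => by
          have := hR h
          rw [mem_closedBall_zero_iff] at this
          linarith
        have e1 : η z = 0 := image_eq_zero_of_notMem_tsupport hz'
        have e2 : fderiv ℝ η z = 0 := by
          by_contra h
          exact hz' ((tsupport_fderiv_subset ℝ) (subset_tsupport _ (Function.mem_support.2 h)))
        simp only [Tt, Rr, e1, e2, map_zero, zero_mul, add_zero])
  refine tendsto_nhds_unique h ?_
  have h6 : ∀ n, ∫ z, Tt η z (fderiv ℝ (moll Φ n) z) (fderiv ℝ F₁ (kl m (moll Φ n z)))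
      (mixH (fderiv ℝ (fderiv ℝ F₁) (kl m (moll Φ n z)))) = 0 := fun n =>
    integral_Tt_smooth ((approx_moll hΦ).smooth n) hF hη hηc
  simp only [h6]
  exact tendsto_const_nhds

end Crest.Agent.R208.JT
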