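import Crest.Agent.R208.JT7

/-!
R208, block JT (helper631), part 8: cutting off the singularities of `F`, uniform bounds.
-/

set_option autoImplicit false
set_option linter.unusedSectionVars false

open Set Filter Topology Module MeasureTheory
open scoped NNReal ContDiff RealInnerProductSpace

noncomputable section

namespace Crest.Agent.R208.JT

open Crest.Agent.R208.FI (kap)

variable {m : ℕ}

/-- cut-off -/
def chi (X : Eu m) : ℝ := Real.smoothTransition (‖X‖ ^ 2 - 1)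

lemma chi_smooth : ContDiff ℝ ∞ (chi (m := m)) :=
  Real.smoothTransition.contDiff.comp ((contDiff_norm_sq ℝ).sub contDiff_const)

lemma chi_zero {X : Eu m} (h : ‖X‖ ^ 2 ≤ 1) : chi X = 0 :=
  Real.smoothTransition.zero_of_nonpos (by linarith)

lemma chi_one {X : Eu m} (h : 2 ≤ ‖X‖ ^ 2) : chi X = 1 :=
  Real.smoothTransition.one_of_one_le (by linarith)

lemma chi_scale {r : ℝ} {X : Eu m} (h : r = 1 ∨ (1 ≤ r ∧ 2 < ‖X‖ ^ 2)) :
    ∀ᶠ X' in 𝓝 X, chi (r • X') = chi X' := by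
  rcases h with h | ⟨h1, h2⟩
  · subst h; simp
  · have h3 : ∀ᶠ X' in 𝓝 X, 2 < ‖X'‖ ^ 2 :=
      (continuous_norm.pow 2).continuousAt.eventually (lt_mem_nhds h2)
    filter_upwards [h3] with X' hX'
    rw [chi_one hX'.le, chi_one]
    rw [norm_smul, mul_pow, Real.norm_eq_abs, sq_abs]
    nlinarith [sq_nonneg ‖X'‖]

/-- cut off scalar product -/
def JD.Fc (J : JD m) (p : PP m) : ℝ := J.F p * (chi p.1 * chi p.2)

lemma JD.Fc_zero_fst (J : JD m) {p : PP m} (h : ‖p.1‖ ^ 2 < 1) : J.Fc =ᶠ[𝓝 p] fun _ => 0 := by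
  have h1 : ∀ᶠ q : PP m in 𝓝 p, ‖q.1‖ ^ 2 < 1 :=
    (continuous_fst.norm.pow 2).continuousAt.eventually (gt_mem_nhds h)
  filter_upwards [h1] with q hq
  rw [JD.Fc, chi_zero hq.le, zero_mul, mul_zero]

lemma JD.Fc_zero_snd (J : JD m) {p : PP m} (h : ‖p.2‖ ^ 2 < 1) : J.Fc =ᶠ[𝓝 p] fun _ => 0 := by
  have h1 : ∀ᶠ q : PP m in 𝓝 p, ‖q.2‖ ^ 2 < 1 :=
    (continuous_snd.norm.pow 2).continuousAt.eventually (gt_mem_nhds h)
  filter_upwards [h1] with q hq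
  rw [JD.Fc, chi_zero hq.le, mul_zero, mul_zero]

lemma JD.Fc_smooth (J : JD m) : ContDiff ℝ ∞ J.Fc := by
  rw [contDiff_iff_contDiffAt]
  intro p
  by_cases h1 : ‖p.1‖ ^ 2 < 1
  · exact contDiffAt_const.congr_of_eventuallyEq (J.Fc_zero_fst h1)
  by_cases h2 : ‖p.2‖ ^ 2 < 1
  · exact contDiffAt_const.congr_of_eventuallyEq (J.Fc_zero_snd h2)
  have h1' : p.1 ≠ 0 := by
    intro h; rw [h] at h1; simp at h1
  have h2' : p.2 ≠ 0 := by
    intro h; rw [h] at h2; simp at h2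
  have h3 : ContDiffAt ℝ ∞ J.F p := J.smooth p.1 p.2 h1' h2'
  exact h3.mul ((chi_smooth.contDiffAt.comp p contDiffAt_fst).mul
    (chi_smooth.contDiffAt.comp p contDiffAt_snd))

lemma JD.F_smul₂ (J : JD m) (r s : ℝ) (X Y : Eu m) : J.F (r • X, s • Y) = r * s * J.F (X, Y) := by
  rw [J.F_smul, J.F_smul_right, mul_assoc]

/-- scaling -/
def sc (r s : ℝ) : PP m →L[ℝ] PP m :=
  (r • ContinuousLinearMap.id ℝ (Eu m)).prodMap (s • ContinuousLinearMap.id ℝ (Eu m))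

@[simp] lemma sc_apply (r s : ℝ) (p : PP m) : sc r s p = (r • p.1, s • p.2) := rfl

lemma JD.Fc_scale (J : JD m) {r s : ℝ} {p : PP m} (hr : r = 1 ∨ (1 ≤ r ∧ 2 < ‖p.1‖ ^ 2))
    (hs : s = 1 ∨ (1 ≤ s ∧ 2 < ‖p.2‖ ^ 2)) :
    (fun q => J.Fc (sc r s q)) =ᶠ[𝓝 p] fun q => (r * s) * J.Fc q := by
  have h1 : ∀ᶠ q : PP m in 𝓝 p, chi (r • q.1) = chi q.1 :=
    continuous_fst.continuousAt.eventually (chi_scale hr)
  have h2 : ∀ᶠ q : PP m in 𝓝 p, chi (s • q.2) = chi q.2 :=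
    continuous_snd.continuousAt.eventually (chi_scale hs)
  filter_upwards [h1, h2] with q hq1 hq2
  rw [JD.Fc, JD.Fc, sc_apply, hq1, hq2, J.F_smul₂]
  ring

/-- second differential under a linear change -/
lemma fderiv2_comp {f : PP m → ℝ} (hf : ContDiff ℝ ∞ f) (S : PP m →L[ℝ] PP m) (p u v : PP m) :
    fderiv ℝ (fderiv ℝ fun q => f (S q)) p u v = fderiv ℝ (fderiv ℝ f) (S p) (S u) (S v) := by
  have h1 : (fderiv ℝ fun q => f (S q)) = fun q => (fderiv ℝ f (S q)).comp S := by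
    funext q
    exact (((hf.differentiable (by simp)) (S q)).hasFDerivAt.comp q S.hasFDerivAt).fderiv
  have h2 : ContDiff ℝ 1 (fderiv ℝ f) := hf.fderiv_right (m := 1) (WithTop.coe_le_coe.2 le_top)
  have h3 : HasFDerivAt (fun q => fderiv ℝ f (S q)) ((fderiv ℝ (fderiv ℝ f) (S p)).comp S) p :=
    ((h2.differentiable (by norm_num)) (S p)).hasFDerivAt.comp p S.hasFDerivAt
  have h4 : HasFDerivAt (fun q => (fderiv ℝ f (S q)).comp S)
      (((ContinuousLinearMap.compL ℝ (PP m) (PP m) ℝ).flip S).comp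
        ((fderiv ℝ (fderiv ℝ f) (S p)).comp S)) p :=
    ((ContinuousLinearMap.compL ℝ (PP m) (PP m) ℝ).flip S).hasFDerivAt.comp p h3
  rw [h1, h4.fderiv]
  rfl

lemma JD.mix_scale (J : JD m) {r s : ℝ} {p : PP m} (hr : r = 1 ∨ (1 ≤ r ∧ 2 < ‖p.1‖ ^ 2))
    (hs : s = 1 ∨ (1 ≤ s ∧ 2 < ‖p.2‖ ^ 2)) :
    mixH (fderiv ℝ (fderiv ℝ J.Fc) (sc r s p)) = mixH (fderiv ℝ (fderiv ℝ J.Fc) p) := by
  have hr0 : r ≠ 0 := by
    rcases hr with h | h
    · rw [h]; exact one_ne_zero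
    · intro h0; rw [h0] at h; linarith [h.1]
  have hs0 : s ≠ 0 := by
    rcases hs with h | h
    · rw [h]; exact one_ne_zero
    · intro h0; rw [h0] at h; linarith [h.1]
  ext a b
  rw [mixH_apply, mixH_apply]
  have h1 := fderiv2_comp J.Fc_smooth (sc r s) p (a, 0) (0, b)
  have h2 : fderiv ℝ (fderiv ℝ fun q => J.Fc (sc r s q)) p =
      (r * s) • fderiv ℝ (fderiv ℝ J.Fc) p := by
    have h3 := (J.Fc_scale hr hs).fderiv (𝕜 := ℝ)
    rw [h3.fderiv_eq]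
    have h4 : (fderiv ℝ fun q => (r * s) * J.Fc q) = fun q => (r * s) • fderiv ℝ J.Fc q := by
      funext q
      exact fderiv_const_mul ((J.Fc_smooth.differentiable (by simp)) q) _
    rw [h4]
    have h5 : ContDiff ℝ 1 (fderiv ℝ J.Fc) :=
      J.Fc_smooth.fderiv_right (m := 1) (WithTop.coe_le_coe.2 le_top)
    exact (((h5.differentiable (by norm_num)) p).hasFDerivAt.const_smul (r * s)).fderiv
  rw [h2] at h1
  simp only [sc_apply, smul_zero] at h1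
  have h6 : fderiv ℝ (fderiv ℝ J.Fc) (r • p.1, s • p.2) (r • a, 0) (0, s • b) =
      (r * s) * fderiv ℝ (fderiv ℝ J.Fc) (r • p.1, s • p.2) (a, 0) (0, b) := by
    have e1 : ((r • a, 0) : PP m) = r • (a, 0) := by simp
    have e2 : ((0, s • b) : PP m) = s • (0, b) := by simp
    rw [e1, e2, map_smul, map_smul, smul_apply, smul_eq_mul, smul_eq_mul]
    ring
  rw [h6, smul_apply, smul_apply, smul_eq_mul] at h1
  exact (mul_left_cancel₀ (mul_ne_zero hr0 hs0) h1).symm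

lemma cont_mixH {X : Type*} [TopologicalSpace X] {B : X → PP m →L[ℝ] PP m →L[ℝ] ℝ}
    (hB : Continuous B) : Continuous fun x => mixH (B x) := by
  unfold mixH
  exact continuous_const.clm_comp (hB.clm_comp continuous_const)

theorem JD.mix_bound (J : JD m) : ∃ C : ℝ, 0 ≤ C ∧
    ∀ p, ‖mixH (fderiv ℝ (fderiv ℝ J.Fc) p)‖ ≤ C := by
  have h5 : ContDiff ℝ 1 (fderiv ℝ J.Fc) :=
    J.Fc_smooth.fderiv_right (m := 1) (WithTop.coe_le_coe.2 le_top)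
  have hc0 : Continuous fun p : PP m => mixH (fderiv ℝ (fderiv ℝ J.Fc) p) :=
    cont_mixH (h5.continuous_fderiv (by norm_num))
  have hn : Continuous fun M : Eu m →L[ℝ] Eu m →L[ℝ] ℝ => ‖M‖ :=
    continuous_norm (E := Eu m →L[ℝ] Eu m →L[ℝ] ℝ)
  have hc : Continuous fun p : PP m => ‖mixH (fderiv ℝ (fderiv ℝ J.Fc) p)‖ := hn.comp hc0
  obtain ⟨C, hC⟩ := (((isCompact_closedBall (0 : Eu m) 3).prod
    (isCompact_closedBall (0 : Eu m) 3)).bddAbove_image hc.continuousOn)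
  have key : ∀ X : Eu m, ∃ (r : ℝ) (X' : Eu m), X = r • X' ∧ ‖X'‖ ≤ 3 ∧
      (r = 1 ∨ (1 ≤ r ∧ 2 < ‖X'‖ ^ 2)) := by
    intro X
    by_cases h : ‖X‖ ≤ 3
    · exact ⟨1, X, (one_smul _ _).symm, h, Or.inl rfl⟩
    · push Not at h
      have h0 : 0 < ‖X‖ := by linarith
      have hn : ‖(3 / ‖X‖) • X‖ = 3 := by
        rw [norm_smul, norm_div, norm_norm, div_mul_cancel₀ _ h0.ne']; norm_num
      refine ⟨‖X‖ / 3, (3 / ‖X‖) • X, ?_, hn.le, Or.inr ⟨?_, ?_⟩⟩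
      · rw [smul_smul]
        have : ‖X‖ / 3 * (3 / ‖X‖) = 1 := by field_simp
        rw [this, one_smul]
      · linarith
      · rw [hn]; norm_num
  have hC' : ∀ q : PP m, ‖q.1‖ ≤ 3 → ‖q.2‖ ≤ 3 →
      ‖mixH (fderiv ℝ (fderiv ℝ J.Fc) q)‖ ≤ |C| := by
    intro q h1 h2
    refine le_trans (hC (mem_image_of_mem _ ?_)) (le_abs_self C)
    exact ⟨mem_closedBall_zero_iff.2 h1, mem_closedBall_zero_iff.2 h2⟩
  refine ⟨|C|, abs_nonneg _, fun p => ?_⟩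
  obtain ⟨r, X, hX, hX3, hr⟩ := key p.1
  obtain ⟨s, Y, hY, hY3, hs⟩ := key p.2
  have hp : p = sc r s (X, Y) := by
    rw [sc_apply, ← hX, ← hY]
  have e := J.mix_scale (p := (X, Y)) hr hs
  rw [hp, e]
  exact hC' (X, Y) hX3 hY3

/-- a bound for the differential from one for the mixed Hessian -/
lemma fderiv_le_of_mix {f : PP m → ℝ} (hf : ContDiff ℝ ∞ f) {C : ℝ}
    (hC : ∀ p, ‖mixH (fderiv ℝ (fderiv ℝ f) p)‖ ≤ C)
    (h1 : ∀ Y : Eu m, f =ᶠ[𝓝 (0, Y)] fun _ => 0) (h2 : ∀ X : Eu m, f =ᶠ[𝓝 (X, 0)] fun _ => 0)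
    (p : PP m) : ‖fderiv ℝ f p‖ ≤ 2 * C * ‖p‖ := by
  have hC0 : 0 ≤ C := (norm_nonneg (mixH (fderiv ℝ (fderiv ℝ f) p))).trans (hC p)
  have h5 : ContDiff ℝ 1 (fderiv ℝ f) := hf.fderiv_right (m := 1) (WithTop.coe_le_coe.2 le_top)
  have hd : ∀ q, HasFDerivAt (fderiv ℝ f) (fderiv ℝ (fderiv ℝ f) q) q := fun q =>
    ((h5.differentiable (by norm_num)) q).hasFDerivAt
  obtain ⟨X, Y⟩ := p
  have hX : ‖X‖ ≤ ‖(X, Y)‖ := norm_fst_le (X, Y)
  have hY : ‖Y‖ ≤ ‖(X, Y)‖ := norm_snd_le (X, Y)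
  have k1 : ∀ b : Eu m, |fderiv ℝ f (X, Y) (0, b)| ≤ C * ‖X‖ * ‖b‖ := by
    intro b
    have hder : ∀ t ∈ Icc (0 : ℝ) 1, HasDerivWithinAt
        (fun t : ℝ => fderiv ℝ f (t • X, Y) (0, b))
        (fderiv ℝ (fderiv ℝ f) (t • X, Y) (X, 0) (0, b)) (Icc 0 1) t := by
      intro t _
      have e1 : HasDerivAt (fun t : ℝ => ((t • X, Y) : PP m)) (X, 0) t := by
        have := ((hasDerivAt_id t).smul_const X).prodMk (hasDerivAt_const t Y)
        simpa using this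
      have e2 := (hd (t • X, Y)).comp_hasDerivAt t e1
      exact (e2.clm_apply (hasDerivAt_const t ((0, b) : PP m))).hasDerivWithinAt.congr_deriv
        (by simp)
    have := norm_image_sub_le_of_norm_deriv_le_segment_01' hder (C := C * ‖X‖ * ‖b‖)
      (fun t _ => by
        have e3 := hC (t • X, Y)
        change ‖mixH (fderiv ℝ (fderiv ℝ f) (t • X, Y)) X b‖ ≤ _
        refine ((mixH (fderiv ℝ (fderiv ℝ f) (t • X, Y))).le_opNorm₂ X b).trans ?_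
        gcongr)
    simp only [one_smul, zero_smul] at this
    have e4 : fderiv ℝ f ((0, Y) : PP m) = 0 := by
      rw [(h1 Y).fderiv_eq]; exact fderiv_const_apply _
    rw [e4, zero_apply, sub_zero] at this
    exact this
  have k2 : ∀ a : Eu m, |fderiv ℝ f (X, Y) (a, 0)| ≤ C * ‖a‖ * ‖Y‖ := by
    intro a
    have hder : ∀ t ∈ Icc (0 : ℝ) 1, HasDerivWithinAt
        (fun t : ℝ => fderiv ℝ f (X, t • Y) (a, 0))
        (fderiv ℝ (fderiv ℝ f) (X, t • Y) (a, 0) (0, Y)) (Icc 0 1) t := by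
      intro t _
      have e1 : HasDerivAt (fun t : ℝ => ((X, t • Y) : PP m)) (0, Y) t := by
        have := (hasDerivAt_const t X).prodMk ((hasDerivAt_id t).smul_const Y)
        simpa using this
      have e2 := (hd (X, t • Y)).comp_hasDerivAt t e1
      have e3 := (e2.clm_apply (hasDerivAt_const t ((a, 0) : PP m)))
      refine e3.hasDerivWithinAt.congr_deriv ?_
      rw [map_zero, add_zero]
      exact F.fderiv_symm (hf.of_le (WithTop.coe_le_coe.2 le_top)).contDiffAt _ _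
    have := norm_image_sub_le_of_norm_deriv_le_segment_01' hder (C := C * ‖a‖ * ‖Y‖)
      (fun t _ => by
        have e3 := hC (X, t • Y)
        change ‖mixH (fderiv ℝ (fderiv ℝ f) (X, t • Y)) a Y‖ ≤ _
        refine ((mixH (fderiv ℝ (fderiv ℝ f) (X, t • Y))).le_opNorm₂ a Y).trans ?_
        gcongr)
    simp only [one_smul, zero_smul] at this
    have e4 : fderiv ℝ f ((X, 0) : PP m) = 0 := by
      rw [(h2 X).fderiv_eq]; exact fderiv_const_apply _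
    rw [e4, zero_apply, sub_zero] at this
    exact this
  refine ContinuousLinearMap.opNorm_le_bound _ (by positivity) fun u => ?_
  have hu1 : ‖u.1‖ ≤ ‖u‖ := norm_fst_le u
  have hu2 : ‖u.2‖ ≤ ‖u‖ := norm_snd_le u
  have e5 : fderiv ℝ f (X, Y) u = fderiv ℝ f (X, Y) (u.1, 0) + fderiv ℝ f (X, Y) (0, u.2) := by
    rw [← map_add, prX_add_prY]
  rw [e5]
  refine (norm_add_le _ _).trans ?_
  have k1' := k1 u.2
  have k2' := k2 u.1
  rw [Real.norm_eq_abs, Real.norm_eq_abs]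
  have e6 : C * ‖X‖ * ‖u.2‖ ≤ C * ‖(X, Y)‖ * ‖u‖ := by gcongr
  have e7 : C * ‖u.1‖ * ‖Y‖ ≤ C * ‖u‖ * ‖(X, Y)‖ := by gcongr
  calc |fderiv ℝ f (X, Y) (u.1, 0)| + |fderiv ℝ f (X, Y) (0, u.2)|
      ≤ C * ‖u‖ * ‖(X, Y)‖ + C * ‖(X, Y)‖ * ‖u‖ := by linarith
    _ = 2 * C * ‖(X, Y)‖ * ‖u‖ := by ring

/-- the approximations -/
def JD.Fn (J : JD m) (n : ℕ) (p : PP m) : ℝ :=
  (((n : ℝ) + 1) * ((n : ℝ) + 1))⁻¹ * J.Fc (sc ((n : ℝ) + 1) ((n : ℝ) + 1) p)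

lemma JD.Fn_smooth (J : JD m) (n : ℕ) : ContDiff ℝ ∞ (J.Fn n) :=
  contDiff_const.mul (J.Fc_smooth.comp (sc ((n : ℝ) + 1) ((n : ℝ) + 1)).contDiff)

lemma JD.Fn_mix (J : JD m) (n : ℕ) (p : PP m) : mixH (fderiv ℝ (fderiv ℝ (J.Fn n)) p) =
    mixH (fderiv ℝ (fderiv ℝ J.Fc) (sc ((n : ℝ) + 1) ((n : ℝ) + 1) p)) := by
  set c : ℝ := (n : ℝ) + 1 with hc
  have hc0 : c ≠ 0 := by positivity
  have hs : ContDiff ℝ ∞ fun q => J.Fc (sc c c q) := J.Fc_smooth.comp (sc c c).contDiff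
  have h1 : fderiv ℝ (J.Fn n) = fun q => (c * c)⁻¹ • fderiv ℝ (fun q => J.Fc (sc c c q)) q := by
    funext q
    exact fderiv_const_mul ((hs.differentiable (by simp)) q) _
  have h5 : ContDiff ℝ 1 (fderiv ℝ fun q => J.Fc (sc c c q)) :=
    hs.fderiv_right (m := 1) (WithTop.coe_le_coe.2 le_top)
  have h2 : fderiv ℝ (fderiv ℝ (J.Fn n)) p =
      (c * c)⁻¹ • fderiv ℝ (fderiv ℝ fun q => J.Fc (sc c c q)) p := by
    rw [h1]
    exact (((h5.differentiable (by norm_num)) p).hasFDerivAt.const_smul (c * c)⁻¹).fderiv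
  ext a b
  rw [mixH_apply, mixH_apply, h2, smul_apply, smul_apply,
    fderiv2_comp J.Fc_smooth]
  have e1 : sc c c ((a, 0) : PP m) = c • (a, 0) := by simp
  have e2 : sc c c ((0, b) : PP m) = c • (0, b) := by simp
  rw [e1, e2, map_smul, map_smul, smul_apply, smul_eq_mul, smul_eq_mul, smul_eq_mul]
  field_simp

lemma JD.Fn_zero_fst (J : JD m) (n : ℕ) (Y : Eu m) : J.Fn n =ᶠ[𝓝 (0, Y)] fun _ => 0 := by
  set c : ℝ := (n : ℝ) + 1 with hc
  have h1 : J.Fc =ᶠ[𝓝 (sc c c ((0, Y) : PP m))] fun _ => 0 := J.Fc_zero_fst (by simp)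
  have h2 := (sc c c).continuous.continuousAt.eventually h1
  filter_upwards [h2] with q hq
  rw [JD.Fn, hq, mul_zero]

lemma JD.Fn_zero_snd (J : JD m) (n : ℕ) (X : Eu m) : J.Fn n =ᶠ[𝓝 (X, 0)] fun _ => 0 := by
  set c : ℝ := (n : ℝ) + 1 with hc
  have h1 : J.Fc =ᶠ[𝓝 (sc c c ((X, 0) : PP m))] fun _ => 0 := J.Fc_zero_snd (by simp)
  have h2 := (sc c c).continuous.continuousAt.eventually h1
  filter_upwards [h2] with q hq
  rw [JD.Fn, hq, mul_zero]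

/-- **uniform bounds** -/
theorem JD.Fn_bound (J : JD m) : ∃ C : ℝ, 0 ≤ C ∧
    (∀ n p, ‖mixH (fderiv ℝ (fderiv ℝ (J.Fn n)) p)‖ ≤ C) ∧
    ∀ n p, ‖fderiv ℝ (J.Fn n) p‖ ≤ 2 * C * ‖p‖ := by
  obtain ⟨C, hC0, hC⟩ := J.mix_bound
  have h1 : ∀ n p, ‖mixH (fderiv ℝ (fderiv ℝ (J.Fn n)) p)‖ ≤ C := fun n p => by
    rw [J.Fn_mix]; exact hC _
  exact ⟨C, hC0, h1, fun n p => fderiv_le_of_mix (J.Fn_smooth n) (h1 n) (J.Fn_zero_fst n)
    (J.Fn_zero_snd n) p⟩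

/-- eventually the cut-off is invisible -/
theorem JD.Fn_eventually (J : JD m) {p : PP m} (h1 : p.1 ≠ 0) (h2 : p.2 ≠ 0) :
    ∀ᶠ n in atTop, J.Fn n =ᶠ[𝓝 p] J.F := by
  have ht : Tendsto (fun n : ℕ => (n : ℝ) + 1) atTop atTop :=
    tendsto_atTop_add_const_right _ _ tendsto_natCast_atTop_atTop
  have k1 : ∀ᶠ n : ℕ in atTop, 2 < ((n : ℝ) + 1) * ‖p.1‖ :=
    (ht.atTop_mul_const (norm_pos_iff.2 h1)).eventually_gt_atTop 2
  have k2 : ∀ᶠ n : ℕ in atTop, 2 < ((n : ℝ) + 1) * ‖p.2‖ :=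
    (ht.atTop_mul_const (norm_pos_iff.2 h2)).eventually_gt_atTop 2
  filter_upwards [k1, k2] with n hn1 hn2
  set c : ℝ := (n : ℝ) + 1 with hc
  have hc0 : 0 < c := by positivity
  have e1 : ∀ᶠ q : PP m in 𝓝 p, 2 < c * ‖q.1‖ :=
    (continuous_const.mul continuous_fst.norm).continuousAt.eventually (lt_mem_nhds hn1)
  have e2 : ∀ᶠ q : PP m in 𝓝 p, 2 < c * ‖q.2‖ :=
    (continuous_const.mul continuous_snd.norm).continuousAt.eventually (lt_mem_nhds hn2)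
  filter_upwards [e1, e2] with q hq1 hq2
  have f1 : chi (c • q.1) = 1 := chi_one (by
    rw [norm_smul, Real.norm_of_nonneg hc0.le]; nlinarith)
  have f2 : chi (c • q.2) = 1 := chi_one (by
    rw [norm_smul, Real.norm_of_nonneg hc0.le]; nlinarith)
  rw [JD.Fn, JD.Fc, ← hc, sc_apply, f1, f2, J.F_smul₂]
  field_simp

end Crest.Agent.R208.JT
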