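import Crest.Agent.R208.JT8

/-!
R208, block JT (helper631), part 9: consequences of the axioms at a point, contraction with the
Hopf field.
-/

set_option autoImplicit false
set_option linter.unusedSectionVars false

open Set Filter Topology Module MeasureTheory
open scoped NNReal ContDiff RealInnerProductSpace

noncomputable section

namespace Crest.Agent.R208.JT

open Crest.Agent.R208.F (Ext io inv pb top ii ii_pb pb_io)
open Crest.Agent.R208.FI (kap)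

variable {m : ℕ} (J : JD m)

lemma eventually_ne_pair {p : PP m} (h1 : p.1 ≠ 0) (h2 : p.2 ≠ 0) :
    ∀ᶠ q : PP m in 𝓝 p, q.1 ≠ 0 ∧ q.2 ≠ 0 :=
  (continuous_fst.continuousAt.eventually_ne h1).and (continuous_snd.continuousAt.eventually_ne h2)

lemma JD.smoothAt {p : PP m} (h1 : p.1 ≠ 0) (h2 : p.2 ≠ 0) : ContDiffAt ℝ ∞ J.F p :=
  J.smooth p.1 p.2 h1 h2

lemma JD.hasFDerivAt {p : PP m} (h1 : p.1 ≠ 0) (h2 : p.2 ≠ 0) :
    HasFDerivAt J.F (fderiv ℝ J.F p) p :=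
  ((J.smoothAt h1 h2).differentiableAt (by simp)).hasFDerivAt

lemma JD.hasFDerivAt2 {p : PP m} (h1 : p.1 ≠ 0) (h2 : p.2 ≠ 0) :
    HasFDerivAt (fderiv ℝ J.F) (fderiv ℝ (fderiv ℝ J.F) p) p :=
  (((J.smoothAt h1 h2).fderiv_right (m := 1)
    (WithTop.coe_le_coe.2 le_top)).differentiableAt (by norm_num)).hasFDerivAt

/-- exchange of the factors -/
def sw (m : ℕ) : PP m →L[ℝ] PP m :=
  (ContinuousLinearMap.snd ℝ (Eu m) (Eu m)).prod (ContinuousLinearMap.fst ℝ (Eu m) (Eu m))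

@[simp] lemma sw_apply (p : PP m) : sw m p = (p.2, p.1) := rfl

lemma JD.F_sw (p : PP m) : J.F (sw m p) = J.F p := by
  rw [sw_apply, J.F_comm]

lemma JD.fderiv_sw {p : PP m} (h1 : p.1 ≠ 0) (h2 : p.2 ≠ 0) (u : PP m) :
    fderiv ℝ J.F p u = fderiv ℝ J.F (sw m p) (sw m u) := by
  have h := (J.hasFDerivAt (p := sw m p) h2 h1).comp p (sw m).hasFDerivAt
  have e : (J.F ∘ sw m) = J.F := funext J.F_sw
  rw [e] at h
  rw [h.fderiv]
  rfl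

lemma JD.mix_sw {p : PP m} (h1 : p.1 ≠ 0) (h2 : p.2 ≠ 0) (a b : Eu m) :
    mixH (fderiv ℝ (fderiv ℝ J.F) p) a b = mixH (fderiv ℝ (fderiv ℝ J.F) (sw m p)) b a := by
  have e : fderiv ℝ J.F =ᶠ[𝓝 p] fun q => (fderiv ℝ J.F (sw m q)).comp (sw m) := by
    filter_upwards [eventually_ne_pair h1 h2] with q hq
    exact ContinuousLinearMap.ext fun u => J.fderiv_sw hq.1 hq.2 u
  have h3 : HasFDerivAt (fun q => fderiv ℝ J.F (sw m q))
      ((fderiv ℝ (fderiv ℝ J.F) (sw m p)).comp (sw m)) p :=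
    (J.hasFDerivAt2 (p := sw m p) h2 h1).comp p (sw m).hasFDerivAt
  have h4 : HasFDerivAt (fun q => (fderiv ℝ J.F (sw m q)).comp (sw m))
      (((ContinuousLinearMap.compL ℝ (PP m) (PP m) ℝ).flip (sw m)).comp
        ((fderiv ℝ (fderiv ℝ J.F) (sw m p)).comp (sw m))) p :=
    ((ContinuousLinearMap.compL ℝ (PP m) (PP m) ℝ).flip (sw m)).hasFDerivAt.comp p h3
  rw [mixH_apply, mixH_apply, e.fderiv_eq, h4.fderiv]
  change fderiv ℝ (fderiv ℝ J.F) (sw m p) (sw m (a, 0)) (sw m (0, b)) = _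
  exact F.fderiv_symm ((J.smoothAt (p := sw m p) h2 h1).of_le (WithTop.coe_le_coe.2 le_top)) _ _

/-- the differential in the second variable -/
lemma JD.fderiv_snd {X Y : Eu m} (h1 : X ≠ 0) (h2 : Y ≠ 0) (b : Eu m) :
    fderiv ℝ J.F (X, Y) (0, b) = J.G Y (J.Z Y X) b := by
  rw [J.fderiv_sw (p := (X, Y)) h1 h2]
  exact J.grad Y X b h2 h1

/-- the metric as an isomorphism -/
lemma JD.G_inj {X : Eu m} (h : X ≠ 0) {a b : Eu m} (hab : J.G X a = J.G X b) : a = b := by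
  by_contra hne
  have h1 := J.G_pos X (a - b) h (sub_ne_zero.2 hne)
  have h2 : J.G X (a - b) = 0 := by rw [map_sub, hab, sub_self]
  rw [h2, zero_apply] at h1
  exact lt_irrefl _ h1

/-- the metric as a linear equivalence -/
def JD.Ge {X : Eu m} (h : X ≠ 0) : Eu m ≃L[ℝ] (Eu m →L[ℝ] ℝ) :=
  ContinuousLinearEquiv.ofBijective (J.G X)
    (LinearMap.ker_eq_bot_of_injective fun _ _ hab => J.G_inj h hab) (by
      have hfin : finrank ℝ (Eu m) = finrank ℝ (Eu m →L[ℝ] ℝ) := by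
        rw [(InnerProductSpace.toDual ℝ (Eu m)).toLinearEquiv.finrank_eq]
      have hinj : Function.Injective ((J.G X : Eu m →L[ℝ] (Eu m →L[ℝ] ℝ)) :
        Eu m →ₗ[ℝ] (Eu m →L[ℝ] ℝ)) := fun _ _ hab => J.G_inj h hab
      exact LinearMap.range_eq_top.2
        ((LinearMap.injective_iff_surjective_of_finrank_eq_finrank hfin).1 hinj))

lemma JD.Ge_apply {X : Eu m} (h : X ≠ 0) (a : Eu m) : J.Ge h a = J.G X a := rfl

/-- `a ↦ (a, 0)` restricted covector -/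
def resX (m : ℕ) : (PP m →L[ℝ] ℝ) →L[ℝ] (Eu m →L[ℝ] ℝ) :=
  (ContinuousLinearMap.compL ℝ (Eu m) (PP m) ℝ).flip (ContinuousLinearMap.inl ℝ (Eu m) (Eu m))

@[simp] lemma resX_apply (l : PP m →L[ℝ] ℝ) (a : Eu m) : resX m l a = l (a, 0) := rfl

lemma JD.Z_eq {X Y : Eu m} (h1 : X ≠ 0) (h2 : Y ≠ 0) :
    J.Z X Y = (J.Ge h1).symm (resX m (fderiv ℝ J.F (X, Y))) := by
  rw [ContinuousLinearEquiv.eq_symm_apply]
  ext1 δ
  exact (J.grad X Y δ h1 h2).symm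

/-- `Z X` is differentiable -/
lemma JD.hasFDerivAt_Z {X Y : Eu m} (h1 : X ≠ 0) (h2 : Y ≠ 0) :
    HasFDerivAt (J.Z X) (fderiv ℝ (J.Z X) Y) Y ∧ ∀ b δ : Eu m,
      J.G X (fderiv ℝ (J.Z X) Y b) δ = mixH (fderiv ℝ (fderiv ℝ J.F) (X, Y)) δ b := by
  have e : J.Z X =ᶠ[𝓝 Y] fun Y' => (J.Ge h1).symm (resX m (fderiv ℝ J.F (X, Y'))) := by
    filter_upwards [isOpen_ne.mem_nhds h2] with Y' hY'
    exact J.Z_eq h1 hY'
  have h3 : HasFDerivAt (fun Y' : Eu m => fderiv ℝ J.F (X, Y'))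
      ((fderiv ℝ (fderiv ℝ J.F) (X, Y)).comp (ContinuousLinearMap.inr ℝ (Eu m) (Eu m))) Y :=
    (J.hasFDerivAt2 (p := (X, Y)) h1 h2).comp Y (hasFDerivAt_prodMk_right X Y)
  have h4 : HasFDerivAt (fun Y' : Eu m => (J.Ge h1).symm (resX m (fderiv ℝ J.F (X, Y'))))
      (((J.Ge h1).symm : (Eu m →L[ℝ] ℝ) →L[ℝ] Eu m).comp ((resX m).comp
        ((fderiv ℝ (fderiv ℝ J.F) (X, Y)).comp (ContinuousLinearMap.inr ℝ (Eu m) (Eu m))))) Y :=
    ((J.Ge h1).symm : (Eu m →L[ℝ] ℝ) →L[ℝ] Eu m).hasFDerivAt.comp Y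
      ((resX m).hasFDerivAt.comp Y h3)
  have h5 := h4.congr_of_eventuallyEq e
  refine ⟨h5.differentiableAt.hasFDerivAt, fun b δ => ?_⟩
  rw [h5.fderiv]
  change J.Ge h1 ((J.Ge h1).symm _) δ = _
  rw [ContinuousLinearEquiv.apply_symm_apply]
  change fderiv ℝ (fderiv ℝ J.F) (X, Y) (0, b) (δ, 0) = _
  rw [mixH_apply]
  exact F.fderiv_symm ((J.smoothAt (p := (X, Y)) h1 h2).of_le (WithTop.coe_le_coe.2 le_top)) _ _

/-- **the mixed Hessian on the plane** -/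
lemma JD.mix_Z {X Y : Eu m} (h1 : X ≠ 0) (h2 : Y ≠ 0) (b : Eu m) :
    mixH (fderiv ℝ (fderiv ℝ J.F) (X, Y)) (J.Z X Y) b = ⟪Y, b⟫ := by
  obtain ⟨hd, hmix⟩ := J.hasFDerivAt_Z h1 h2
  have h3 : HasFDerivAt (fun Y' => J.G X (J.Z X Y')) ((J.G X).comp (fderiv ℝ (J.Z X) Y)) Y :=
    (J.G X).hasFDerivAt.comp Y hd
  have h4 := h3.clm_apply hd
  have h5 : (fun Y' => J.G X (J.Z X Y') (J.Z X Y')) =ᶠ[𝓝 Y] fun Y' => ‖Y'‖ ^ 2 := by
    filter_upwards [isOpen_ne.mem_nhds h2] with Y' hY'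
    exact J.eik X Y' h1 hY'
  have h6 : HasFDerivAt (fun Y' : Eu m => ‖Y'‖ ^ 2) (2 • (innerSL ℝ Y)) Y :=
    (hasStrictFDerivAt_norm_sq Y).hasFDerivAt
  have h7 := (h4.congr_of_eventuallyEq h5.symm).unique h6
  have h8 := congrArg (fun L : Eu m →L[ℝ] ℝ => L b) h7
  simp only [add_apply, ContinuousLinearMap.comp_apply, ContinuousLinearMap.flip_apply,
    smul_apply, innerSL_apply_apply, nsmul_eq_mul, Nat.cast_ofNat] at h8
  rw [J.G_symm X (J.Z X Y), hmix] at h8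
  linarith

lemma JD.mix_Z' {X Y : Eu m} (h1 : X ≠ 0) (h2 : Y ≠ 0) (a : Eu m) :
    mixH (fderiv ℝ (fderiv ℝ J.F) (X, Y)) a (J.Z Y X) = ⟪X, a⟫ := by
  rw [J.mix_sw (p := (X, Y)) h1 h2]
  exact J.mix_Z h2 h1 a

lemma JD.fderiv_Z {X Y : Eu m} (h1 : X ≠ 0) (h2 : Y ≠ 0) :
    fderiv ℝ J.F (X, Y) (J.Z X Y, 0) = ‖Y‖ ^ 2 := by
  rw [J.grad X Y _ h1 h2, J.eik X Y h1 h2]

lemma JD.fderiv_Z' {X Y : Eu m} (h1 : X ≠ 0) (h2 : Y ≠ 0) :
    fderiv ℝ J.F (X, Y) (0, J.Z Y X) = ‖X‖ ^ 2 := by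
  rw [J.fderiv_snd h1 h2, J.eik Y X h2 h1]

end Crest.Agent.R208.JT
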