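import Crest.Agent.R208.SO3

/-! Row 208, block SO (helper638).  SO4: **(S1')**, abstract main theorem. -/

set_option autoImplicit false
set_option linter.unusedSectionVars false

open MeasureTheory Set Filter Topology Module
open scoped ContDiff
open Crest.Agent.R208.F Crest.Agent.R208.FI Crest.Agent.R208.CW Crest.Agent.R208.T

noncomputable section

namespace Crest.Agent.R208.SO

universe u

variable {EZ : Type u} [NormedAddCommGroup EZ] [NormedSpace ℝ EZ] [FiniteDimensional ℝ EZ]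
  {EU : Type*} [NormedAddCommGroup EU] [NormedSpace ℝ EU] [FiniteDimensional ℝ EU]
  {EY : Type*} [NormedAddCommGroup EY] [NormedSpace ℝ EY] [FiniteDimensional ℝ EY]
  {EB : Type*} [NormedAddCommGroup EB] [NormedSpace ℝ EB] [FiniteDimensional ℝ EB]
  {F' : Type*} [NormedAddCommGroup F'] [NormedSpace ℝ F'] [FiniteDimensional ℝ F']

theorem evA_lt_of_hom {E : Type*} [NormedAddCommGroup E] [NormedSpace ℝ E]
    [FiniteDimensional ℝ E] {a : E → Ext E} {p : ℕ} (h : Hom p a) (x : E) (r : ℕ) (hr : r < p) :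
    evA E r (a x) = 0 := h x r hr.ne

theorem eqv_pull_pull' {E₁ E₂ E₃ E₄ : Type*} [NormedAddCommGroup E₁] [NormedSpace ℝ E₁]
    [FiniteDimensional ℝ E₁] [NormedAddCommGroup E₂] [NormedSpace ℝ E₂]
    [FiniteDimensional ℝ E₂] [NormedAddCommGroup E₃] [NormedSpace ℝ E₃] [FiniteDimensional ℝ E₃]
    [NormedAddCommGroup E₄] [NormedSpace ℝ E₄] [FiniteDimensional ℝ E₄]
    {X₁ : Set E₁} {X₂ : Set E₂} {X₃ : Set E₃} {X₄ : Set E₄} {f : E₁ → E₂} {g : E₂ → E₃}
    {f' : E₁ → E₄} {g' : E₄ → E₃} (hf : SMap X₁ X₂ f) (hg : SMap X₂ X₃ g)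
    (hf' : SMap X₁ X₄ f') (hg' : SMap X₄ X₃ g') (h : ∀ x ∈ X₁, g (f x) = g' (f' x))
    (w : E₃ → Ext E₃) : Eqv X₁ (F.pull f (F.pull g w)) (F.pull f' (F.pull g' w)) := by
  have h1 : Eqv X₁ (F.pull f (F.pull g w)) (F.pull (fun x => g (f x)) w) :=
    Eqv.of_eq fun x hx => pull_comp (hf.diff hx) (hg.diff (hf.maps hx))
  have h2 : Eqv X₁ (F.pull f' (F.pull g' w)) (F.pull (fun x => g' (f' x)) w) :=
    Eqv.of_eq fun x hx => pull_comp (hf'.diff hx) (hg'.diff (hf'.maps hx))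
  have h3 : Eqv X₁ (F.pull (fun x => g (f x)) w) (F.pull (fun x => g' (f' x)) w) :=
    eqv_pull_of_eq w (fun x hx => (hg.comp hf).diff hx) (fun x hx => (hg'.comp hf').diff hx) h
  exact (h1.trans h3).trans h2.symm

/-- `fibre_integration_const` in the format used here -/
theorem fib {r d n : ℕ} (hn : n = r + d) {U : Set EU} {Z : Set EZ} {oU : EU → Ext EU}
    {oV : EZ → Ext EZ} {π : EZ → EU}
    (hπ : Subm r d Z U π) (hUc : IsPreconnected U) (hoU : Ori d U oU) (dU : Hom d oU)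
    (hoV : ContinuousOn oV Z) (hoZ : Ori n Z (oV * F.pull π oU)) {η : EZ → Ext EZ}
    (sη : Sm Z η) (cη : Cl Z η) {b : EU → Ext EU} (sb : Sm U b) (db : Hom d b) {y : EU}
    (hy : y ∈ U) :
    J n Z (oV * F.pull π oU) (η * F.pull π b) = J r (Z ∩ π ⁻¹' {y}) oV η * J d U oU b := by
  subst hn
  exact fibre_integration_const hπ hUc hoU hoV hoZ
      (fun z _ r hr => evA_lt_of_hom dU z r hr)
      (fun z hz => (sη z hz).of_le (by simp)) cη (Sm.cont sb)
      (fun z _ r hr => evA_lt_of_hom db z r hr) hy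

set_option maxHeartbeats 1000000 in
/-- **(S1'), abstract form.** -/
theorem main {U : Set EU} {Z : Set EZ} {Y : Set EY} {B : Set EB} {S : Set F'}
    {oU : EU → Ext EU} {oV : EZ → Ext EZ} {π : EZ → EU} {q : EZ → EY} {ρ : EY → EB} {j : EU → EB}
    (hπ : Subm 6 31 Z U π) (hUc : IsPreconnected U) (hoU : Ori 31 U oU) (dU : Hom 31 oU)
    (hoV : ContinuousOn oV Z) (hoZ : Ori 37 Z (oV * F.pull π oU))
    (hY : Sub 36 Y) (hB : Sub 30 B) (hS : Sub 16 S)
    (sq : SMap Z Y q) (sρ : SMap Y B ρ) (sj : SMap U B j) (hc : ∀ z ∈ Z, ρ (q z) = j (π z))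
    {α : EU → Ext EU} (sα : Sm U α) (dα : Hom 1 α) {e x p : EB → Ext EB} (he : CF2 B 2 e)
    (hx : CF2 B 8 x) (hp : CF2 B 12 p) (hα : Eqv U (F.d α) (F.pull j e))
    {w : EY → Ext EY} (hw : CF2 Y 6 w) {l : ℝ}
    (h1 : Coh B ((3 : ℝ) • (x * x) + (l ^ 2) • (e * e * p)) 0)
    (h2 : Coh Y (w * w) (F.pull ρ p))
    {om : F' → Ext F'} (hom : CF2 S 8 om) {fY : EY → F'} (sfY : SMap Y S fY)
    (h3 : Coh Y (F.pull fY om) (F.pull ρ x + l • (F.pull ρ e * w)))
    {f0 : EU → F'} (sf0 : SMap U S f0) {Fh : EZ × ℝ → F'}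
    (hF : ∀ z ∈ Z, ∀ t : ℝ, ContDiffAt ℝ ∞ Fh (z, t)) (hm : ∀ z ∈ Z, ∀ t : ℝ, Fh (z, t) ∈ S)
    (hF0 : ∀ z ∈ Z, Fh (z, 0) = f0 (π z)) (hF1 : ∀ z ∈ Z, Fh (z, 1) = fY (q z))
    {κ : EU → Ext EU} (sκ : Sm U κ) (dκ : Hom 15 κ) (hκ : Eqv U (F.d κ) (F.pull f0 (om * om)))
    {y : EU} (hy : y ∈ U) (hne : J 6 (Z ∩ π ⁻¹' {y}) oV (F.pull q w) ≠ 0) :
    J 31 U oU (F.pull f0 (om * om) * κ) =
      (8 / 3 * l ^ 2) * J 31 U oU (α * F.pull j (e * x * x * p)) := by
  set oZ : EZ → Ext EZ := oV * F.pull π oU with hoZd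
  have sπ : SMap Z U π := ⟨hπ.smooth, hπ.mapsTo⟩
  have cZ : Clo 37 Z := hπ.cloZ
  have oZ' : Ori 37 Z oZ := hoZ
  -- the connection on `Z`
  have hconn : Conn 36 Z oZ Y q (F.pull π α) (F.pull ρ e) :=
    { clo := cZ
      ori := oZ'
      sub := hY
      map := sq
      sα := sα.pull sπ
      hα := dα.pull
      sF := he.sm.pull sρ
      cF := he.cl.pull sρ he.sm
      hF := he.hom.pull
      dα := by
        refine (d_pull_eqv sπ sα).trans ((hα.pull sπ).trans ?_)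
        exact (eqv_pull_pull' sq sρ sπ sj hc e).symm }
  -- classes on `Y`
  have ex : CF2 Y 8 (F.pull ρ x) := hx.pull sρ
  have ee : CF2 Y 2 (F.pull ρ e) := he.pull sρ
  have ep : CF2 Y 12 (F.pull ρ p) := hp.pull sρ
  have h1' : Coh Y ((3 : ℝ) • (F.pull ρ x * F.pull ρ x) +
      (l ^ 2) • (F.pull ρ e * F.pull ρ e * F.pull ρ p)) 0 := by
    have := h1.pull sρ
    rwa [pull_add', pull_smul', pull_smul', pull_mul', pull_mul', pull_mul', pull_zero'] at this
  have ha : CF2 Y 8 (F.pull fY om) := hom.pull sfY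
  set k : EY → Ext EY := (2 / 3 * l ^ 2) • (F.pull ρ e * F.pull ρ p) +
    (2 * l) • (F.pull ρ x * w) with hk
  have ek : CF2 Y 14 k := ((ee.mul ep).smul _).add ((ex.mul hw).smul _)
  have hsq : Coh Y (F.pull fY om * F.pull fY om) (F.pull ρ e * k) :=
    square_class ex ee ep hw ha h1' h2 h3
  have hcu := cube_class ex ee ep hw h1' h2
  -- the Hopf invariant on `Z` at time 1
  obtain ⟨κ₁, s1, d1, j1⟩ := hconn.hopf (i := 14) (j := 6) (by decide) (ha.mul ha).sm ek.sm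
    ek.cl hw.sm hw.cl (ha.mul ha).hom ek.hom hw.hom (by norm_num) (by norm_num) hsq
  -- the Hopf invariant on `Z` at time 0
  have sβ : Sm S (om * om) := (hom.mul hom).sm
  have cβ : Cl S (om * om) := (hom.mul hom).cl
  have hβ2 : ResZero S (om * om * (om * om)) :=
    resZero_of_gt hS ((hom.mul hom).mul (hom.mul hom)).hom (by norm_num)
  have eβ : ∀ y, F.inv ((om * om) y) = (om * om) y :=
    inv_of_hom_even (hom.mul hom).hom (hom.mul hom).even
  have sin : ∀ t : ℝ, SMap Z S (fun z => Fh (z, t)) := fun t =>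
    ⟨fun z hz => ContDiffAt.comp (g := Fh) z (hF z hz t) (contDiffAt_id.prodMk contDiffAt_const),
      fun z hz => hm z hz t⟩
  have g0 : Eqv Z (F.pull (fun z => Fh (z, 0)) (om * om)) (F.pull π (F.pull f0 (om * om))) := by
    refine (eqv_pull_of_eq _ (fun z hz => (sin 0).diff hz)
      (fun z hz => (sf0.comp sπ).diff hz) hF0).trans (Eqv.of_eq fun z hz => ?_)
    exact (pull_comp (sπ.diff hz) (sf0.diff (sπ.maps hz))).symm
  have g1 : Eqv Z (F.pull (fun z => Fh (z, 1)) (om * om)) (F.pull q (F.pull fY (om * om))) := by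
    refine (eqv_pull_of_eq _ (fun z hz => (sin 1).diff hz)
      (fun z hz => (sfY.comp sq).diff hz) hF1).trans (Eqv.of_eq fun z hz => ?_)
    exact (pull_comp (sq.diff hz) (sfY.diff (sq.maps hz))).symm
  have d0' : Eqv Z (F.d (F.pull π κ)) (F.pull (fun z => Fh (z, 0)) (om * om)) :=
    ((d_pull_eqv sπ sκ).trans (hκ.pull sπ)).trans g0.symm
  have d1' : Eqv Z (F.d κ₁) (F.pull (fun z => Fh (z, 1)) (om * om)) := by
    refine d1.trans (Eqv.trans ?_ g1.symm)
    rw [← pull_mul' fY om om]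
    exact Eqv.refl _
  have key := hopf_homotopy (w := F.pull q w) cZ oZ' hF hm sβ cβ hβ2 eβ (sκ.pull sπ) s1 d0' d1'
    (hw.sm.pull sq) (hw.cl.pull sq hw.sm)
  have hev : CF2 Z 6 (F.pull q w) := hw.pull sq
  -- right-hand side
  have r1 : J 37 Z oZ (F.pull (fun z => Fh (z, 0)) (om * om) * F.pull π κ * F.pull q w) =
      J 6 (Z ∩ π ⁻¹' {y}) oV (F.pull q w) * J 31 U oU (F.pull f0 (om * om) * κ) := by
    have e1 : Eqv Z (F.pull (fun z => Fh (z, 0)) (om * om) * F.pull π κ * F.pull q w)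
        (F.pull q w * F.pull π (F.pull f0 (om * om) * κ)) := by
      rw [hev.comm, pull_mul' π]
      exact (g0.mul (Eqv.refl _)).mul (Eqv.refl _)
    rw [J_eqv cZ e1]
    exact fib (by norm_num) hπ hUc hoU dU hoV hoZ hev.sm hev.cl
      (((hom.mul hom).sm.pull sf0).mul sκ) ((hom.mul hom).hom.pull.mul dκ) hy
  -- left-hand side
  have l0 : J 37 Z oZ (F.pull (fun z => Fh (z, 1)) (om * om) * κ₁ * F.pull q w) =
      J 37 Z oZ (F.pull q (F.pull fY om * F.pull fY om) * κ₁ * F.pull q w) := by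
    refine J_eqv cZ (Eqv.mul (Eqv.mul (g1.trans ?_) (Eqv.refl _)) (Eqv.refl _))
    rw [pull_mul' fY]
    exact Eqv.refl _
  have hW : CF2 Y 36 (F.pull ρ e * F.pull ρ x * F.pull ρ x * F.pull ρ p * w) :=
    (((ee.mul ex).mul ex).mul ep).mul hw
  have hV : CF2 Y 36 (F.pull ρ e * F.pull ρ e * F.pull ρ p * F.pull ρ p * F.pull ρ x) :=
    (((ee.mul ee).mul ep).mul ep).mul ex
  have hL : CF2 Y 36 (F.pull ρ e * k * k * w) := ((ee.mul ek).mul ek).mul hw
  have l1 : J 37 Z oZ (F.pull π α * F.pull q (F.pull ρ e * k * k * w)) =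
      J 37 Z oZ (F.pull π α * F.pull q
        ((8 / 3 * l ^ 2) • (F.pull ρ e * F.pull ρ x * F.pull ρ x * F.pull ρ p * w) +
          (8 / 3 * l ^ 3) • (F.pull ρ e * F.pull ρ e * F.pull ρ p * F.pull ρ p * F.pull ρ x))) :=
    hconn.coh hL.sm ((hW.smul _).add (hV.smul _)).sm hL.hom ((hW.smul _).add (hV.smul _)).hom
      (by norm_num) hcu
  have l2 : Eqv Z (F.pull π α * F.pull q
        ((8 / 3 * l ^ 2) • (F.pull ρ e * F.pull ρ x * F.pull ρ x * F.pull ρ p * w) +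
          (8 / 3 * l ^ 3) • (F.pull ρ e * F.pull ρ e * F.pull ρ p * F.pull ρ p * F.pull ρ x)))
      ((8 / 3 * l ^ 2) • (F.pull q w * F.pull π (α * F.pull j (e * x * x * p)))) := by
    have v1 : Eqv Y (F.pull ρ e * F.pull ρ e * F.pull ρ p * F.pull ρ p * F.pull ρ x) 0 := by
      rw [← pull_mul', ← pull_mul', ← pull_mul', ← pull_mul']
      exact resZero_iff.1 (T.ResZero.pull sρ (resZero_of_gt hB
        ((((he.mul he).mul hp).mul hp).mul hx).hom (by norm_num)))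
    have v2 : Eqv Y ((8 / 3 * l ^ 2) • (F.pull ρ e * F.pull ρ x * F.pull ρ x * F.pull ρ p * w) +
          (8 / 3 * l ^ 3) • (F.pull ρ e * F.pull ρ e * F.pull ρ p * F.pull ρ p * F.pull ρ x))
        ((8 / 3 * l ^ 2) • (F.pull ρ (e * x * x * p) * w)) := by
      have := (Eqv.refl (X := Y) ((8 / 3 * l ^ 2) •
        (F.pull ρ e * F.pull ρ x * F.pull ρ x * F.pull ρ p * w))).add (v1.smul (8 / 3 * l ^ 3))
      rw [smul_zero, add_zero] at this
      rwa [pull_mul', pull_mul', pull_mul']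
    have v3 := (Eqv.refl (X := Z) (F.pull π α)).mul (v2.pull sq)
    refine v3.trans ?_
    rw [pull_smul', mul_smul_comm]
    refine Eqv.smul _ ?_
    rw [pull_mul' q, pull_mul' π]
    have c1 : F.pull q w * (F.pull π α * F.pull π (F.pull j (e * x * x * p))) =
        F.pull π α * (F.pull π (F.pull j (e * x * x * p)) * F.pull q w) := by
      rw [hev.comm, mul_assoc]
    rw [c1]
    exact (Eqv.refl _).mul ((eqv_pull_pull' sq sρ sπ sj hc _).mul (Eqv.refl _))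
  have hexxp : CF2 B 30 (e * x * x * p) := ((he.mul hx).mul hx).mul hp
  have l3 : J 37 Z oZ (F.pull q w * F.pull π (α * F.pull j (e * x * x * p))) =
      J 6 (Z ∩ π ⁻¹' {y}) oV (F.pull q w) * J 31 U oU (α * F.pull j (e * x * x * p)) :=
    fib (by norm_num) hπ hUc hoU dU hoV hoZ hev.sm hev.cl
      (sα.mul (hexxp.sm.pull sj)) (dα.mul hexxp.hom.pull) hy
  rw [l0, j1, l1, J_eqv cZ l2, r1] at key
  have l4 : J 37 Z oZ ((8 / 3 * l ^ 2) • (F.pull q w * F.pull π (α * F.pull j (e * x * x * p)))) =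
      (8 / 3 * l ^ 2) * J 37 Z oZ (F.pull q w * F.pull π (α * F.pull j (e * x * x * p))) :=
    J_smul _
  rw [l4, l3] at key
  have : J 6 (Z ∩ π ⁻¹' {y}) oV (F.pull q w) * J 31 U oU (F.pull f0 (om * om) * κ) =
      J 6 (Z ∩ π ⁻¹' {y}) oV (F.pull q w) *
        ((8 / 3 * l ^ 2) * J 31 U oU (α * F.pull j (e * x * x * p))) := by
    rw [← key]; ring
  exact mul_left_cancel₀ hne this

end Crest.Agent.R208.SO
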