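import Crest.Agent.R208.JV1
import Crest.Agent.R208.SN6
import Crest.Agent.R208.SO4
import Crest.Agent.R208.RR0

/-! Row 208, block JV (helper638).  JV2: **the angular form** `kap P W` of an oriented field of even
rank: `d κ = - π^* e` and its fibre integral is `± τ`. -/

set_option autoImplicit false
set_option linter.unusedSectionVars false

open MeasureTheory MeasureTheory.Measure Set Filter Topology Module Matrix
open scoped ContDiff RealInnerProductSpace ENNReal NNReal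
open Crest.Agent.R208.F Crest.Agent.R208.FI Crest.Agent.R208.CW Crest.Agent.R208.T
open Crest.Agent.R208.SN
open Crest.Agent.R208.RRC (Swp)

noncomputable section

namespace Crest.Agent.R208.JV

universe u v
variable {n ι : Type} [Fintype n] [DecidableEq n] [Fintype ι] [DecidableEq ι]
  {E : Type u} [NormedAddCommGroup E] [NormedSpace ℝ E] [FiniteDimensional ℝ E]
  {X : Set E} {P : E → EuclideanSpace ℝ n →L[ℝ] EuclideanSpace ℝ n}
  {W : E → (ι × Fin 2 → n) → ℝ} {d : ℕ}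

/-- cut-off: `0` for `t ≤ 0`, `1` for `t ≥ 1/2` -/
def chi (t : ℝ) : ℝ := Real.smoothTransition (2 * t)

theorem contDiff_chi : ContDiff ℝ ∞ chi :=
  Real.smoothTransition.contDiff.comp (contDiff_const.mul contDiff_id)

theorem chi_of_nonpos {t : ℝ} (h : t ≤ 0) : chi t = 0 :=
  Real.smoothTransition.zero_of_nonpos (by linarith)

theorem chi_of_ge {t : ℝ} (h : 1 / 2 ≤ t) : chi t = 1 :=
  Real.smoothTransition.one_of_one_le (by linarith)

/-- `(x, v, t) ↦ (x, 6 v)` -/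
def sc6 (z : (E × EuclideanSpace ℝ n) × ℝ) : E × EuclideanSpace ℝ n := (z.1.1, (6 : ℝ) • z.1.2)

theorem contDiff_sc6 : ContDiff ℝ ∞ (sc6 : (E × EuclideanSpace ℝ n) × ℝ → _) :=
  contDiff_fst.fst.prodMk (contDiff_fst.snd.const_smul (6 : ℝ))

theorem smap_sc6 : SMap (SB X P) (Tot X P) sc6 :=
  ⟨fun z _ => contDiff_sc6.contDiffAt, fun z hz => by
    obtain ⟨h1, h2, -⟩ := SB_iff.1 hz
    exact ⟨h1, by rw [sc6, map_smul, h2]⟩⟩

/-- the Thom form on `S(V ⊕ ℝ)` -/
def om (P : E → EuclideanSpace ℝ n →L[ℝ] EuclideanSpace ℝ n) (W : E → (ι × Fin 2 → n) → ℝ)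
    (z : (E × EuclideanSpace ℝ n) × ℝ) : Ext ((E × EuclideanSpace ℝ n) × ℝ) :=
  chi z.2 • F.pull sc6 (thomF P W) z

theorem om_eq : om P W = fun z => chi z.2 • F.pull sc6 (thomF P W) z := rfl

theorem pull_zero_of [Nonempty ι] (hX : FI.Sub d X) (h : OR X P W)
    {z : (E × EuclideanSpace ℝ n) × ℝ} (hz : z ∈ SB X P) (h1 : -(1 / 2) ≤ z.2)
    (h2 : z.2 ≤ 1 / 2) : F.pull sc6 (thomF P W) z = 0 := by
  obtain ⟨-, -, h3⟩ := SB_iff.1 hz
  rw [real_inner_self_eq_norm_sq] at h3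
  have h4 : (3 : ℝ) < ‖(sc6 z).2‖ := by
    show (3 : ℝ) < ‖(6 : ℝ) • z.1.2‖
    rw [norm_smul, Real.norm_of_nonneg (by norm_num)]
    have h5 : z.2 * z.2 ≤ 1 / 4 := by nlinarith
    have h6 : 3 / 4 ≤ ‖z.1.2‖ ^ 2 := by linarith
    have h7 := norm_nonneg z.1.2
    nlinarith
  rw [F.pull, (csf_thomF hX h).supp _ h4, map_zero]

theorem sm_om [Nonempty ι] (hX : FI.Sub d X) (h : OR X P W) : Sm (SB X P) (om P W) := fun z hz =>
  (contDiff_chi.comp contDiff_snd).contDiffAt.smul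
    (((csf_thomF hX h).smooth.pull smap_sc6) z hz)

theorem hom_om [Nonempty ι] : Hom (2 * Fintype.card ι) (om P W) := fun z =>
  ((thomF_deg _).pb _).smul _

theorem even_om [Nonempty ι] (z : (E × EuclideanSpace ℝ n) × ℝ) :
    F.inv (om P W z) = om P W z := by
  rw [om, map_smul, F.pull, ← pb_inv, thomF_even]

theorem cl_om [Nonempty ι] (hX : FI.Sub d X) (h : OR X P W) : Cl (SB X P) (om P W) := by
  have c0 : Cl (SB X P) (F.pull sc6 (thomF P W)) :=
    (csf_thomF hX h).closed.pull smap_sc6 (csf_thomF hX h).smooth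
  have s0 : Sm (SB X P) (F.pull sc6 (thomF P W)) := (csf_thomF hX h).smooth.pull smap_sc6
  intro z hz
  have hg : DifferentiableAt ℝ (fun z : (E × EuclideanSpace ℝ n) × ℝ => chi z.2) z :=
    (contDiff_chi.comp contDiff_snd).contDiffAt.differentiableAt (by simp)
  rw [om_eq, F.d_smul hg (s0.diff hz), map_add, map_smul, c0 z hz, smul_zero, add_zero]
  by_cases h1 : -(1 / 2) ≤ z.2 ∧ z.2 ≤ 1 / 2
  · rw [pull_zero_of hX h hz h1.1 h1.2, mul_zero, map_zero]
  · have h2 : fderiv ℝ (fun z : (E × EuclideanSpace ℝ n) × ℝ => chi z.2) z = 0 := by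
      rw [not_and_or, not_le, not_le] at h1
      rcases h1 with h1 | h1
      · have : (fun z : (E × EuclideanSpace ℝ n) × ℝ => chi z.2) =ᶠ[𝓝 z] fun _ => (0 : ℝ) := by
          filter_upwards [(isOpen_lt continuous_snd continuous_const).mem_nhds h1] with y hy
          exact chi_of_nonpos (by have : y.2 < -(1 / 2) := hy; linarith)
        rw [this.fderiv_eq, fderiv_const_apply]
      · have : (fun z : (E × EuclideanSpace ℝ n) × ℝ => chi z.2) =ᶠ[𝓝 z] fun _ => (1 : ℝ) := by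
          filter_upwards [(isOpen_lt continuous_const continuous_snd).mem_nhds h1] with y hy
          exact chi_of_ge (by have : 1 / 2 < y.2 := hy; linarith)
        rw [this.fderiv_eq, fderiv_const_apply]
    rw [h2]
    have h3 : ((0 : (E × EuclideanSpace ℝ n) × ℝ →L[ℝ] ℝ) :
      Module.Dual ℝ ((E × EuclideanSpace ℝ n) × ℝ)) = 0 := rfl
    rw [h3, map_zero, zero_mul, map_zero]

/-! ### the fibre integral of `om` -/

/-- the linear model of the fibre -/
def iR (x : E) (R : ℝ) (f : Matrix n (ι × Fin 2) ℝ)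
    (a : Eu (Fintype.card ι * 2)) : E × EuclideanSpace ℝ n := (x, R • fA f a)

theorem hasFDerivAt_iR (x : E) (R : ℝ) (f : Matrix n (ι × Fin 2) ℝ)
    (a : Eu (Fintype.card ι * 2)) : HasFDerivAt (iR x R f)
      ((ContinuousLinearMap.inr ℝ E (EuclideanSpace ℝ n)).comp (R • fA f)) a := by
  have : HasFDerivAt (fun a => (x, (R • fA f) a)) ((0 : Eu (Fintype.card ι * 2) →L[ℝ] E).prod
      (R • fA f)) a := (hasFDerivAt_const x a).prodMk (R • fA f).hasFDerivAt
  refine this.congr_fderiv ?_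
  ext w <;> simp

theorem top_iR [Nonempty ι] (h : OR X P W) {x : E} (hx : x ∈ X) {f : Matrix n (ι × Fin 2) ℝ}
    (hf : fᵀ * f = 1) (hPf : ∀ v i, P x v i = ∑ j, (f * fᵀ) i j * v j)
    (hWf : ∀ I, W x I = (f.submatrix I id).det) (R : ℝ) (a : Eu (Fintype.card ι * 2)) :
    top (Fintype.card ι * 2) (F.pull (iR x R f) (thomF P W) a)
      = GG ι (‖R • a‖ ^ 2) * R ^ (Fintype.card ι * 2) := by
  have h1 := pb_thomF (W := W) (h.sP x hx) hf hPf hWf (R • fA f a)
  have h2 : P x (R • fA f a) = R • fA f a := by rw [map_smul, P_fA hf hPf]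
  rw [h2] at h1
  have h3 := congrArg (pb ((R • fA f : Eu (Fintype.card ι * 2) →L[ℝ] EuclideanSpace ℝ n) :
      Eu (Fintype.card ι * 2) →ₗ[ℝ] EuclideanSpace ℝ n)) h1
  rw [pb_comp, map_smul] at h3
  have h4 : (((ContinuousLinearMap.inr ℝ E (EuclideanSpace ℝ n)).comp (P x) :
        EuclideanSpace ℝ n →L[ℝ] E × EuclideanSpace ℝ n) :
        EuclideanSpace ℝ n →ₗ[ℝ] E × EuclideanSpace ℝ n) ∘ₗ
      ((R • fA f : Eu (Fintype.card ι * 2) →L[ℝ] EuclideanSpace ℝ n) :
      Eu (Fintype.card ι * 2) →ₗ[ℝ] EuclideanSpace ℝ n)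
      = ((fderiv ℝ (iR x R f) a : Eu (Fintype.card ι * 2) →L[ℝ] _) :
        Eu (Fintype.card ι * 2) →ₗ[ℝ] _) := by
    rw [(hasFDerivAt_iR x R f a).fderiv]
    refine LinearMap.ext fun u => ?_
    show ((0 : E), P x (R • fA f u)) = (0, R • fA f u)
    rw [map_smul, P_fA hf hPf]
  rw [h4] at h3
  have h5 : F.pull (iR x R f) (thomF P W) a = GG ι (‖R • fA f a‖ ^ 2) •
    pb ((R • fA f : Eu (Fintype.card ι * 2) →L[ℝ] EuclideanSpace ℝ n) :
      Eu (Fintype.card ι * 2) →ₗ[ℝ] EuclideanSpace ℝ n) (Xi f) := h3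
  rw [h5, map_smul, smul_eq_mul, top_Xi hf]
  congr 3
  rw [norm_smul, norm_smul, norm_fA hf]

theorem pfR (h : OR X P W) : PField X (Fintype.card ι * 2) P := by
  have := h.pfield
  rwa [mul_comm] at this

theorem J_om [Nonempty ι] (hX : Clo d X) {oX : E → Ext E} (hoX : Ori d X oX)
    (hoX0 : ∀ x ∈ X, ∀ q < d, evA E q (oX x) = 0) (h : OR X P W) {x : E} (hx : x ∈ X) :
    |J (Fintype.card ι * 2) (SB X P ∩ pB ⁻¹' {x}) (oVf W) (om P W)| = |kGG ι| := by
  have hS := subm_SB hX (pfR h) (fun x hx => OR_sym h hx)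
  have hoZ := ori_SB hX hoX h (fun x hx => OR_sym h hx) hoX0
  have hF := hS.clo_fibre x
  have hoF := hS.fibre_ori (continuousOn_oVf h) hoZ hoX0 x
  obtain ⟨f, hf, hPf, hWf⟩ := h.fr _ hx
  have hch := chart_jj (P := P) (X := X) (x := x) hf hPf hx
  rw [J_eq_chart hF hch (fun z hz hz2 => by
    have h0 : ¬ 0 < z.2 := fun h0 =>
      hz2 ⟨_, (eq_jj (P := P) hf hPf hz h0).1, (eq_jj (P := P) hf hPf hz h0).2⟩
    rw [om, chi_of_nonpos (not_lt.1 h0), zero_smul, map_zero]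
    rfl)]
  obtain ⟨ε, hε⟩ := hch.exists_sign hoF (convex_ball (0 : Eu _) 1).isPreconnected
  have hε1 : |ε| = 1 := by
    have h0 : (0 : Eu (Fintype.card ι * 2)) ∈ Metric.ball (0 : Eu _) 1 :=
      Metric.mem_ball_self one_pos
    have h1 := hε 0 h0
    have h2 := hch.top_ne_zero hoF h0
    rcases lt_or_gt_of_ne h2 with h3 | h3
    · rw [← h1, Real.sign_of_neg h3]; simp
    · rw [← h1, Real.sign_of_pos h3]; simp
  have key : ∀ u ∈ Metric.ball (0 : Eu (Fintype.card ι * 2)) 1,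
      top (Fintype.card ι * 2) (F.pull (jj f x) (om P W) u)
        = GG ι (‖(6 : ℝ) • u‖ ^ 2) * 6 ^ (Fintype.card ι * 2) := by
    intro u hu
    have h1 : DifferentiableAt ℝ (jj f x : Eu (Fintype.card ι * 2) →
      (E × EuclideanSpace ℝ n) × ℝ) u := (contDiffAt_jj hu).differentiableAt (by simp)
    have h2 : DifferentiableAt ℝ (sc6 : (E × EuclideanSpace ℝ n) × ℝ → _) (jj f x u) :=
      contDiff_sc6.contDiffAt.differentiableAt (by simp)
    have h3 : F.pull (jj f x) (F.pull sc6 (thomF P W)) u = F.pull (iR x 6 f) (thomF P W) u :=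
      F.pull_comp h1 h2
    have h4 : F.pull (jj f x) (om P W) u =
        chi (jj f x u : (E × EuclideanSpace ℝ n) × ℝ).2 •
          F.pull (jj f x) (F.pull sc6 (thomF P W)) u := by
      rw [F.pull, om, map_smul]; rfl
    rw [h4, map_smul, h3, top_iR h hx hf hPf hWf 6 u, smul_eq_mul]
    rcases le_or_gt (1 / 2) (jj f x u : (E × EuclideanSpace ℝ n) × ℝ).2 with h5 | h5
    · rw [chi_of_ge h5, one_mul]
    · have h6 : 3 / 4 < ‖u‖ ^ 2 := by
        have h7 : Real.sqrt (1 - ‖u‖ ^ 2) < 1 / 2 := h5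
        have h8 := Real.sq_sqrt (one_sub_pos hu).le
        nlinarith [Real.sqrt_nonneg (1 - ‖u‖ ^ 2)]
      have h7 : (1 : ℝ) ≤ ‖(6 : ℝ) • u‖ ^ 2 := by
        rw [norm_smul, Real.norm_of_nonneg (by norm_num), mul_pow]
        nlinarith
      rw [GG_zero h7, zero_mul, mul_zero]
  rw [setIntegral_congr_fun Metric.isOpen_ball.measurableSet (fun u hu => by
    show _ = (GG ι (‖(6 : ℝ) • u‖ ^ 2) * 6 ^ (Fintype.card ι * 2)) * ε
    rw [key u hu, hε u hu]), integral_mul_const, integral_scaled (by norm_num), abs_mul, hε1,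
    mul_one]

end Crest.Agent.R208.JV
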