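import Crest.Agent.R208.RR3
import Crest.Agent.R208.T2b

/-! Row 208, block RR (helper427), part RR4: two families on the same `Z` have the same `D`;
existence of the family (RR3) for 2-forms. -/

set_option autoImplicit false
set_option linter.unusedSectionVars false
set_option linter.unusedVariables false

open MeasureTheory Set Filter Topology Module
open scoped ContDiff
open Crest.Agent.R208.F Crest.Agent.R208.FI Crest.Agent.R208.CW Crest.Agent.R208.T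

noncomputable section

namespace Crest.Agent.R208.RR

universe u
variable {E : Type u} [NormedAddCommGroup E] [NormedSpace ℝ E] [FiniteDimensional ℝ E]
  {d : ℕ} {Z : Set E} {o : E → Ext E} {x : E} {φ : ℝ → E → E}
  {Om : E × ℝ → Ext (E × ℝ)} {m : ℕ} {a b h η a' b' h' η' : E × ℝ → Ext (E × ℝ)}
  {θ θ' : E → Ext E} {c c' : ℝ}

/-- primitives of the same form give the same number -/
theorem D_unique (hZ : Clo d Z) (ho : Ori d Z o) {κ κ' ζ P : E → Ext E} (sκ : Sm Z κ)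
    (sκ' : Sm Z κ') (sζ : Sm Z ζ) (sP : Sm Z P) (hκ : Eqv Z (F.d κ) (F.d κ'))
    (hζ : Eqv Z (F.d ζ) P) (eP : Ev Z P) : J d Z o (κ * P) = J d Z o (κ' * P) := by
  have h1 : Eqv Z (F.d (κ - κ')) 0 := by
    have := (d_sub_eqv sκ sκ').trans (hκ.sub (Eqv.refl (F.d κ')))
    rwa [sub_self] at this
  have h2 : Eqv Z (F.d (ζ * (κ - κ'))) ((κ - κ') * P) := by
    refine (d_mul_cl sζ (sκ.sub sκ') (resZero_iff.2 h1)).trans ?_
    refine eqv_iff.2 fun x hx => ?_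
    have e := eqv_iff.1 hζ x hx
    have cP := eP.comm hx (Rs Z x ((κ - κ') x))
    simp only [rs_mul] at *
    rw [e, cP.eq]
  have h3 : J d Z o ((κ - κ') * P) = 0 := by
    rw [← J_eqv hZ h2]; exact J_d' hZ ho (sζ.mul (sκ.sub sκ'))
  have h4 : J d Z o (κ * P - κ' * P) = 0 := by rw [← sub_mul]; exact h3
  rw [J_sub' hZ ho (sκ.mul sP) (sκ'.mul sP), sub_eq_zero] at h4
  exact h4

/-- **two families on the same `Z`** (the case `h = 1` at `s = 0`) -/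
theorem D_eq (hZ : Clo d Z) (ho : Ori d Z o) {φ' : ℝ → E → E}
    (H : Fam Z (CM.gen φ) m a b h η θ c) (H' : Fam Z (CM.gen φ') m a' b' h' η' θ' c')
    (hφ : CM.Cir Z φ) (hφ' : CM.Cir Z φ') (hc : c ≠ 0) (hc' : c' ≠ 0)
    (ia : Inv Z φ (F.pull (sl 1) a)) (ib : Inv Z φ (F.pull (sl 1) b))
    (ih : Inv Z φ (F.pull (sl 1) h)) (h00 : Eqv Z (F.pull (sl 0) a) (F.pull (sl 0) b))
    (ia' : Inv Z φ' (F.pull (sl 1) a')) (ib' : Inv Z φ' (F.pull (sl 1) b'))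
    (ih' : Inv Z φ' (F.pull (sl 1) h')) (h00' : Eqv Z (F.pull (sl 0) a') (F.pull (sl 0) b'))
    (haa : Eqv Z (F.pull (sl 0) a) (F.pull (sl 0) a'))
    (hh : Eqv Z (F.pull (sl 0) h) (F.pull (sl 0) h'))
    (hex : ∃ ζ : E → Ext E, Sm Z ζ ∧ Eqv Z (F.d ζ) (F.pull (sl 0) a ^ m)) :
    J d Z o (K (h * a ^ m * b ^ m)) = J d Z o (K (h' * a' ^ m * b' ^ m)) := by
  obtain ⟨κ, sκ, dκ, e1⟩ := H.rr2 hZ ho hφ hc ia ib ih h00
  obtain ⟨κ', sκ', dκ', e2⟩ := H'.rr2 hZ ho hφ' hc' ia' ib' ih' h00'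
  obtain ⟨ζ, sζ, dζ⟩ := hex
  have sP : Sm Z (F.pull (sl 0) a ^ m) := Sm.pow (H.sa.pull (smap_sl 0)) m
  have eP : Ev Z (F.pull (sl 0) a ^ m) := Ev.pow (Ev.pull (smap_sl 0) H.ea) m
  have hpow : Eqv Z (F.pull (sl 0) a ^ m) (F.pull (sl 0) a' ^ m) := eqv_iff.2 fun x hx => by
    have e := eqv_iff.1 haa x hx
    simp only [rs_pow]
    rw [e]
  have h1 : Eqv Z (F.d κ) (F.d κ') := dκ.trans ((Eqv.smul _ (hh.mul hpow)).trans dκ'.symm)
  have h2 := D_unique hZ ho sκ sκ' sζ sP h1 dζ eP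
  rw [e1, e2, h2, J_eqv hZ ((Eqv.refl κ').mul hpow)]

/-- homotopy `s ↦ s t` -/
def Ho0 (p : (E × ℝ) × ℝ) : E × ℝ := (p.1.1, p.1.2 * p.2)

theorem contDiff_Ho0 : ContDiff ℝ ∞ (Ho0 (E := E)) := by
  unfold Ho0
  fun_prop

theorem sm_Hop0 (hs : Sm (Cyl Z) Om) : Sm (Cyl Z) (Hop Ho0 Om) := fun y hy =>
  contDiffAt_Hop (fun t _ => contDiff_Ho0.contDiffAt) fun t ht => hs _ hy

theorem fderiv_Ho0_inr (x : E) (s t : ℝ) :
    fderiv ℝ (Ho0 (E := E)) ((x, s), t) ((((0 : E), (0 : ℝ)), (1 : ℝ)) : (E × ℝ) × ℝ) =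
      ((0 : E), s) := by
  have h6 : HasFDerivAt (Ho0 (E := E)) (fderiv ℝ (Ho0 (E := E)) ((x, s), t)) ((x, s), t) :=
    ((contDiff_Ho0 (E := E)).differentiable (by simp) _).hasFDerivAt
  have h7 : HasDerivAt (fun r : ℝ => (((x, s), r) : (E × ℝ) × ℝ))
      (((0, 0), 1) : (E × ℝ) × ℝ) t := (hasDerivAt_const t ((x, s) : E × ℝ)).prodMk
        (hasDerivAt_id t)
  have h8 := h6.comp_hasDerivAt t h7
  have h9 : (Ho0 (E := E)) ∘ (fun r : ℝ => (((x, s), r) : (E × ℝ) × ℝ)) = fun r => (x, s * r) := by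
    funext r; simp [Ho0]
  rw [h9] at h8
  have h10 : HasDerivAt (fun r : ℝ => ((x, s * r) : E × ℝ)) ((0 : E), s) t := by
    refine (hasDerivAt_const t x).prodMk ?_
    simpa using (hasDerivAt_id t).const_mul s
  exact h8.unique h10

theorem fderiv_Ho0_inl (x : E) (t : ℝ) (v : E × ℝ) :
    fderiv ℝ (Ho0 (E := E)) ((x, 1), t) (v, 0) = (v.1, v.2 * t) := by
  have h6 : HasFDerivAt (Ho0 (E := E)) (fderiv ℝ (Ho0 (E := E)) ((x, 1), t)) ((x, 1), t) :=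
    ((contDiff_Ho0 (E := E)).differentiable (by simp) _).hasFDerivAt
  have h7 : HasDerivAt (fun r : ℝ => ((((x, 1) : E × ℝ) + r • v, t) : (E × ℝ) × ℝ))
      ((v, 0) : (E × ℝ) × ℝ) 0 := by
    refine HasDerivAt.prodMk ?_ (hasDerivAt_const 0 t)
    simpa using ((hasDerivAt_id (0 : ℝ)).smul_const v).const_add ((x, 1) : E × ℝ)
  have h6' : HasFDerivAt (Ho0 (E := E)) (fderiv ℝ (Ho0 (E := E)) ((x, 1), t))
      ((((x, 1) : E × ℝ) + (0 : ℝ) • v, t) : (E × ℝ) × ℝ) := by simpa using h6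
  have h8 := h6'.comp_hasDerivAt (0 : ℝ) h7
  have h10 : HasDerivAt ((Ho0 (E := E)) ∘ fun r : ℝ => ((((x, 1) : E × ℝ) + r • v, t) :
      (E × ℝ) × ℝ)) (v.1, v.2 * t) 0 := by
    have : ((Ho0 (E := E)) ∘ fun r : ℝ => ((((x, 1) : E × ℝ) + r • v, t) : (E × ℝ) × ℝ)) =
        fun r : ℝ => ((x + r • v.1, (1 + r * v.2) * t) : E × ℝ) := by
      funext r; simp [Ho0]
    rw [this]
    refine HasDerivAt.prodMk ?_ ?_
    · simpa using ((hasDerivAt_id (0 : ℝ)).smul_const v.1).const_add x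
    · simpa using (((hasDerivAt_id (0 : ℝ)).mul_const v.2).const_add 1).mul_const t
  exact h8.unique h10

/-- the slice at `1` of the primitive is the fibre integral -/
theorem Hop0_one (w : E × ℝ → Ext (E × ℝ)) (hw : Sm (Cyl Z) w) (hx : x ∈ Z) :
    F.pull (sl 1) (Hop Ho0 w) x = K w x := by
  have h1 : Hop Ho0 w (x, 1) = ∫ t in (0 : ℝ)..1,
      hopL (ContinuousLinearMap.inl ℝ (E × ℝ) ℝ) (((0, 0), 1) : (E × ℝ) × ℝ)
        (F.pull Ho0 w ((x, 1), t)) := by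
    rw [Hop, hop, I1]
    simp only [hopg, jv_inl]
    rfl
  have hint : IntervalIntegrable (fun t : ℝ => hopL (ContinuousLinearMap.inl ℝ (E × ℝ) ℝ)
      (((0, 0), 1) : (E × ℝ) × ℝ) (F.pull Ho0 w ((x, 1), t))) volume 0 1 := by
    refine Continuous.intervalIntegrable ?_ _ _
    refine (hopL _ _).continuous.comp ?_
    rw [continuous_iff_continuousAt]
    intro t
    have h1 : ContinuousAt (F.pull Ho0 w) ((fun s : ℝ => (((x, 1), s) : (E × ℝ) × ℝ)) t) :=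
      (contDiffAt_pull (m := ∞) contDiff_Ho0.contDiffAt (by simp)
        (hw (Ho0 ((x, 1), t)) (mem_Cyl.2 (show (Ho0 ((x, 1), t)).1 ∈ Z from hx)))).continuousAt
    exact h1.comp (f := fun s : ℝ => (((x, 1), s) : (E × ℝ) × ℝ)) (by fun_prop : Continuous
      (fun s : ℝ => (((x, 1), s) : (E × ℝ) × ℝ))).continuousAt
  rw [pull_sl_apply, h1, ← ContinuousLinearMap.intervalIntegral_comp_comm _ hint, K, hop, I1]
  refine intervalIntegral.integral_congr fun t _ => ?_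
  simp only [hopg]
  rw [jv_inl, hopL_apply, hopL_apply, F.pull, ii_pb, pbL_apply, pb_comp, pb_comp]
  have e0 : Ho0 ((x, 1), t) = (x, t) := by simp [Ho0]
  have e1 : fderiv ℝ (Ho0 (E := E)) ((x, 1), t) (((0, 0), 1) : (E × ℝ) × ℝ) = ((0 : E), (1 : ℝ)) :=
    fderiv_Ho0_inr x 1 t
  have e2 : (((fderiv ℝ (Ho0 (E := E)) ((x, 1), t) : (E × ℝ) × ℝ →L[ℝ] E × ℝ) :
      (E × ℝ) × ℝ →ₗ[ℝ] E × ℝ) ∘ₗ
      (((ContinuousLinearMap.inl ℝ (E × ℝ) ℝ : E × ℝ →L[ℝ] (E × ℝ) × ℝ) :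
        E × ℝ →ₗ[ℝ] (E × ℝ) × ℝ) ∘ₗ
      ((ContinuousLinearMap.inl ℝ E ℝ : E →L[ℝ] E × ℝ) : E →ₗ[ℝ] E × ℝ))) =
      ((ContinuousLinearMap.inl ℝ E ℝ : E →L[ℝ] E × ℝ) : E →ₗ[ℝ] E × ℝ) := by
    ext v
    · change (fderiv ℝ (Ho0 (E := E)) ((x, 1), t) (((v, 0) : E × ℝ), 0)).1 = v
      rw [fderiv_Ho0_inl]
    · change (fderiv ℝ (Ho0 (E := E)) ((x, 1), t) (((v, 0) : E × ℝ), 0)).2 = 0
      rw [fderiv_Ho0_inl]; simp
  rw [e2, e0]
  change pb _ (ii (fderiv ℝ (Ho0 (E := E)) ((x, 1), t) (((0, 0), 1) : (E × ℝ) × ℝ)) _) = _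
  rw [e1]

/-- primitives with vanishing end at `0` -/
theorem prim_zero (hs : Sm (Cyl Z) Om) (hc : Cl (Cyl Z) Om) (h0 : Eqv Z (F.pull (sl 0) Om) 0) :
    Eqv (Cyl Z) (F.d (Hop Ho0 Om)) Om ∧ Eqv Z (F.pull (sl 0) (Hop Ho0 Om)) 0 ∧
      Eqv Z (F.pull (sl 1) (Hop Ho0 Om)) (K Om) := by
  have hm : ∀ y ∈ Cyl Z, ∀ t ∈ Icc (0 : ℝ) 1, Ho0 (y, t) ∈ Cyl Z := fun y hy t _ => hy
  have h2 := resZero_Hop (X := Cyl Z) (Y := Cyl Z) (Fh := Ho0) (om := Om)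
    (fun y _ t _ => contDiff_Ho0.contDiffAt.of_le two_le) hm
    (fun y hy => (hs y hy).of_le (by exact_mod_cast le_top)) hc
  refine ⟨?_, ?_, Eqv.of_eq fun x hx => Hop0_one Om hs hx⟩
  · refine eqv_iff.2 fun y hy => ?_
    have h3 := h2 y hy
    rw [map_sub, map_sub] at h3
    have h4 : F.pull (fun y : E × ℝ => Ho0 (y, 1)) Om y = Om y := by
      have : (fun y : E × ℝ => Ho0 (y, 1)) = fun y => y := by
        funext q; simp [Ho0]
      rw [this, pull_id]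
    have h5 : pb (Tan (Cyl Z) y).subtype (F.pull (fun y : E × ℝ => Ho0 (y, 0)) Om y) = 0 := by
      have h6 : (fun y : E × ℝ => Ho0 (y, 0)) = fun q : E × ℝ => (q.1, (0 : ℝ)) := by
        funext q; simp [Ho0]
      rw [h6, ← pull_fst_sl 0 hs hy]
      have h7 := Eqv.pull (smap_fst (Z := Z)) h0
      rw [pull_zero'] at h7
      have h8 := eqv_iff.1 h7 y hy
      rw [Pi.zero_apply, map_zero] at h8
      exact h8
    rw [h4, h5, sub_zero, sub_eq_zero] at h3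
    exact h3.symm
  · refine Eqv.of_eq fun x hx => ?_
    have h3 : Hop Ho0 Om (x, 0) = 0 := by
      rw [Hop, hop, I1]
      simp only [hopg, jv_inl]
      have h4 : ∀ t : ℝ, hopL (ContinuousLinearMap.inl ℝ (E × ℝ) ℝ) (((0, 0), 1) : (E × ℝ) × ℝ)
          (F.pull Ho0 Om ((x, 0), t)) = 0 := by
        intro t
        rw [hopL_apply, F.pull, ii_pb]
        change pb _ (pb _ (ii (fderiv ℝ (Ho0 (E := E)) ((x, 0), t)
          (((0, 0), 1) : (E × ℝ) × ℝ)) _)) = 0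
        rw [fderiv_Ho0_inr, show (((0 : E), (0 : ℝ)) : E × ℝ) = 0 from rfl, map_zero,
          LinearMap.zero_apply, map_zero, map_zero]
      have h10 : (((0 : E × ℝ), (1 : ℝ)) : (E × ℝ) × ℝ) = ((0, 0), 1) := rfl
      rw [h10]
      simp only [h4, intervalIntegral.integral_zero]
    rw [pull_sl_apply, h3, map_zero]
    rfl

end Crest.Agent.R208.RR
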