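import Crest.Agent.R208.RRc365B
import Crest.Agent.R208.RR4
import Crest.Agent.R208.FG1b

/-! Row 208, block RR (helper365), piece [RRc], part C: products and naturality of the fibre
integral `RR.K`; **the value of `D^F`** in the names of helper427's `Fam`: `k = 2` (on `US`) and
with a bundle `τ : Z → US` and a closed form `h` on the cylinder (`k = 4`). -/

set_option autoImplicit false
set_option linter.unusedSectionVars false
set_option linter.unusedVariables false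

open MeasureTheory MeasureTheory.Measure Set Filter Topology Module Metric
open scoped ContDiff RealInnerProductSpace
open Crest.GeometryTopology.Submanifold
open Crest.Agent.R241.DDefs
open Crest.Agent.R241.D2
open Crest.Agent.R208.F Crest.Agent.R208.FI Crest.Agent.R208.CW Crest.Agent.R208.T
open Crest.Agent.R208.RR
open Crest.Agent.R208.L (US)

noncomputable section

namespace Crest.Agent.R208.RRC

section alg
universe u v
variable {E : Type u} [NormedAddCommGroup E] [NormedSpace ℝ E] [FiniteDimensional ℝ E]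
  {H : Type v} [NormedAddCommGroup H] [NormedSpace ℝ H] [FiniteDimensional ℝ H]
  {Z : Set E} {Om : E × ℝ → Ext (E × ℝ)} {x : E}

theorem pull_fst_apply' (β : E → Ext E) (p : E × ℝ) : F.pull (Prod.fst : E × ℝ → E) β p =
    pb (ContinuousLinearMap.fst ℝ E ℝ : E × ℝ →ₗ[ℝ] E) (β p.1) := by
  rw [F.pull, hasFDerivAt_fst.fderiv]

theorem hopL_mul_fst (c : Ext (E × ℝ)) (b : Ext E) :
    hopL (ContinuousLinearMap.inl ℝ E ℝ) ((0, 1) : E × ℝ)
      (c * pb (ContinuousLinearMap.fst ℝ E ℝ : E × ℝ →ₗ[ℝ] E) b) =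
      hopL (ContinuousLinearMap.inl ℝ E ℝ) ((0, 1) : E × ℝ) c * b := by
  rw [hopL_apply, hopL_apply, ii_mul, ii_pb]
  have h1 : (ContinuousLinearMap.fst ℝ E ℝ : E × ℝ →ₗ[ℝ] E) ((0, 1) : E × ℝ) = 0 := rfl
  rw [h1, map_zero (ii (E := E)), LinearMap.zero_apply, map_zero, mul_zero, add_zero, map_mul,
    pb_comp]
  congr 1
  exact pb_id b

theorem hopL_fst_mul (c : Ext (E × ℝ)) (b : Ext E) :
    hopL (ContinuousLinearMap.inl ℝ E ℝ) ((0, 1) : E × ℝ)
      (pb (ContinuousLinearMap.fst ℝ E ℝ : E × ℝ →ₗ[ℝ] E) b * c) =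
      F.inv b * hopL (ContinuousLinearMap.inl ℝ E ℝ) ((0, 1) : E × ℝ) c := by
  rw [hopL_apply, hopL_apply, ii_mul, ii_pb]
  have h1 : (ContinuousLinearMap.fst ℝ E ℝ : E × ℝ →ₗ[ℝ] E) ((0, 1) : E × ℝ) = 0 := rfl
  rw [h1, map_zero (ii (E := E)), LinearMap.zero_apply, map_zero, zero_mul, zero_add, map_mul,
    ← pb_inv, pb_comp]
  congr 1
  exact pb_id _

/-- integrability along the slices -/
def IK (Om : E × ℝ → Ext (E × ℝ)) (x : E) : Prop :=
  IntervalIntegrable (fun t => hopL (ContinuousLinearMap.inl ℝ E ℝ) ((0, 1) : E × ℝ) (Om (x, t)))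
    volume 0 1

theorem K_apply (Om : E × ℝ → Ext (E × ℝ)) (x : E) : K Om x = ∫ t in (0 : ℝ)..1,
    hopL (ContinuousLinearMap.inl ℝ E ℝ) ((0, 1) : E × ℝ) (Om (x, t)) := by
  show ∫ t in (0 : ℝ)..1, hopg _ _ _ _ = _
  refine intervalIntegral.integral_congr fun t _ => ?_
  simp only [hopg, jv_inl]

theorem IK.of_sm (hs : Sm (Cyl Z) Om) (hx : x ∈ Z) : IK Om x := by
  have h := integrable_hopg hs hx
  exact h.congr fun t _ => by simp only [hopg, jv_inl]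

/-- `K(Ω ∧ pr^*β) = K(Ω) ∧ β` -/
theorem K_mul_fst (hi : IK Om x) (β : E → Ext E) :
    K (Om * F.pull (Prod.fst : E × ℝ → E) β) x = K Om x * β x := by
  have h1 := ((mulL E).flip (β x)).intervalIntegral_comp_comm hi
  rw [K_apply, K_apply]
  refine Eq.trans ?_ h1
  refine intervalIntegral.integral_congr fun t _ => ?_
  simp only [Pi.mul_apply]
  rw [pull_fst_apply', hopL_mul_fst]
  rfl

/-- `K(pr^*β ∧ Ω) = β^inv ∧ K(Ω)` -/
theorem K_fst_mul (hi : IK Om x) (β : E → Ext E) :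
    K (F.pull (Prod.fst : E × ℝ → E) β * Om) x = F.inv (β x) * K Om x := by
  have h1 := ((mulL E) (F.inv (β x))).intervalIntegral_comp_comm hi
  rw [K_apply, K_apply]
  refine Eq.trans ?_ h1
  refine intervalIntegral.integral_congr fun t _ => ?_
  simp only [Pi.mul_apply]
  rw [pull_fst_apply', hopL_fst_mul]
  rfl

/-- the map `τ × id` -/
def ti (τ : H → E) (p : H × ℝ) : E × ℝ := (τ p.1, p.2)

theorem hasFDerivAt_ti {τ : H → E} {z : H} (hτ : DifferentiableAt ℝ τ z) (t : ℝ) :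
    HasFDerivAt (ti τ) (((fderiv ℝ τ z).comp (ContinuousLinearMap.fst ℝ H ℝ)).prod
      (ContinuousLinearMap.snd ℝ H ℝ)) (z, t) := by
  have h1 : HasFDerivAt (fun p : H × ℝ => τ p.1)
      ((fderiv ℝ τ z).comp (ContinuousLinearMap.fst ℝ H ℝ)) (z, t) :=
    HasFDerivAt.comp (g := τ) (f := fun p : H × ℝ => p.1) (z, t) hτ.hasFDerivAt hasFDerivAt_fst
  exact h1.prodMk hasFDerivAt_snd

/-- naturality of the fibre integral -/
theorem K_pull_ti {τ : H → E} {z : H} (hτ : DifferentiableAt ℝ τ z) (hi : IK Om (τ z)) :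
    K (F.pull (ti τ) Om) z = F.pull τ (K Om) z := by
  have h1 := (pbL (fderiv ℝ τ z)).intervalIntegral_comp_comm hi
  have h2 : F.pull τ (K Om) z = pbL (fderiv ℝ τ z) (∫ t in (0 : ℝ)..1,
      hopL (ContinuousLinearMap.inl ℝ E ℝ) ((0, 1) : E × ℝ) (Om (τ z, t))) := by
    rw [F.pull, K_apply]; rfl
  rw [h2, K_apply, ← h1]
  refine intervalIntegral.integral_congr fun t _ => ?_
  rw [F.pull, (hasFDerivAt_ti hτ t).fderiv, hopL_apply, ii_pb, pb_comp, pbL_apply, hopL_apply,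
    pb_comp]
  have e1 : ((((fderiv ℝ τ z).comp (ContinuousLinearMap.fst ℝ H ℝ)).prod
      (ContinuousLinearMap.snd ℝ H ℝ) : H × ℝ →L[ℝ] E × ℝ) : H × ℝ →ₗ[ℝ] E × ℝ)
      ((0, 1) : H × ℝ) = ((0, 1) : E × ℝ) := by
    simp
  have e2 : ((((fderiv ℝ τ z).comp (ContinuousLinearMap.fst ℝ H ℝ)).prod
      (ContinuousLinearMap.snd ℝ H ℝ) : H × ℝ →L[ℝ] E × ℝ) : H × ℝ →ₗ[ℝ] E × ℝ) ∘ₗ
      ((ContinuousLinearMap.inl ℝ H ℝ : H →L[ℝ] H × ℝ) : H →ₗ[ℝ] H × ℝ) =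
      ((ContinuousLinearMap.inl ℝ E ℝ : E →L[ℝ] E × ℝ) : E →ₗ[ℝ] E × ℝ) ∘ₗ
        (fderiv ℝ τ z : H →ₗ[ℝ] E) := by
    ext v <;> simp
  rw [e1, e2]
  rfl

/-- degree of the fibre integral -/
theorem isDeg_K {p : ℕ} (h : ∀ y, IsDeg (p + 1) (Om y)) (x : E) : IsDeg p (K Om x) := by
  rw [K_apply, intervalIntegral.integral_of_le zero_le_one]
  refine isDeg_integral _ fun t => ?_
  rw [hopL_apply]
  exact ((h _).ii _).pb _

end alg

/-! ### the value of `D^F` -/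

/-- `(p,v,s) ↦ p` -/
def PP {N : ℕ} (z : (Euc N × Euc N) × ℝ) : Euc N := z.1.1

section two
variable {n N : ℕ} {κ : ℝ} {S : Set (Euc N)} {G : Geo n N κ S}
  {oS ξ : Euc N → Ext (Euc N)} {m d : ℕ}

theorem smap_EE : SMap (Cyl (US G)) S (EE G) :=
  ⟨fun y hy => contDiffAt_EE (mem_Cyl.1 hy).1 y.2, fun y hy => EE_mem (mem_Cyl.1 hy).1 y.2⟩

theorem smap_PP : SMap (Cyl (US G)) S PP :=
  ⟨fun y hy => (contDiff_fst.comp contDiff_fst).contDiffAt, fun y hy => (mem_Cyl.1 hy).1.1⟩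

theorem pull_PP (w : Euc N → Ext (Euc N)) : F.pull PP w =
    F.pull (Prod.fst : (Euc N × Euc N) × ℝ → Euc N × Euc N)
      (F.pull (Prod.fst : Euc N × Euc N → Euc N) w) := by
  funext y
  exact (pull_comp (f := (Prod.fst : (Euc N × Euc N) × ℝ → Euc N × Euc N))
    (g := (Prod.fst : Euc N × Euc N → Euc N)) (om := w) differentiableAt_fst
    differentiableAt_fst).symm

/-- `W = E^*w' ∧ p^*w` -/
def W0 (G : Geo n N κ S) (w' w : Euc N → Ext (Euc N)) :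
    (Euc N × Euc N) × ℝ → Ext ((Euc N × Euc N) × ℝ) := F.pull (EE G) w' * F.pull PP w

variable {w w' : Euc N → Ext (Euc N)}

theorem sm_W0 (hw' : Sm S w') (hw : Sm S w) : Sm (Cyl (US G)) (W0 G w' w) :=
  (hw'.pull smap_EE).mul (hw.pull smap_PP)

theorem K_W0 (hw' : Sm S w') {u : Euc N × Euc N} (hu : u ∈ US G) :
    K (W0 G w' w) u = Hop (EE G) w' u * F.pull (Prod.fst : Euc N × Euc N → Euc N) w u := by
  rw [W0, pull_PP, K_mul_fst (IK.of_sm (hw'.pull smap_EE) hu)]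
  rfl

theorem J_K_W0 (hB : Bl n N κ S G Real.pi) (hn : 2 ≤ n) (hd : d + 1 = 2 * n)
    {o : Euc N × Euc N → Ext (Euc N × Euc N)} (ho : Ori d (US G) o) (hoS : Ori n S oS)
    (hw' : Sm S w') (hw : Sm S w) (hw0 : ∀ x ∈ S, ∀ q < n, evA (Euc N) q (w x) = 0) :
    |J d (US G) o (K (W0 G w' w))| = |J n S oS w'| * |J n S oS w| := by
  have hcl : Clo d (US G) := LB.clo_US (FV.sub_S hB) hB.cpt hd
  rw [J_congr' hcl fun u hu => K_W0 hw' hu]
  exact abs_fubini hB hn hd ho hoS (Sm.cont hw') (Sm.cont hw) hw0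

/-- **the value of `D^F` for `k = 2`** -/
theorem DF_two (hB : Bl n N κ S G Real.pi) (hn : 2 ≤ n) (hd : d + 1 = 2 * n)
    {o : Euc N × Euc N → Ext (Euc N × Euc N)} (ho : Ori d (US G) o) (hoS : Ori n S oS)
    (hs : Sm S ξ) (hx0 : ∀ x ∈ S, ∀ q < n, evA (Euc N) q ((ξ ^ m) x) = 0) :
    |J d (US G) o (K (1 * F.pull (EE G) ξ ^ m * F.pull PP ξ ^ m))| = (J n S oS (ξ ^ m)) ^ 2 := by
  rw [one_mul, ← pull_pow', ← pull_pow']
  have h1 := J_K_W0 hB hn hd ho hoS (Sm.pow hs m) (Sm.pow hs m) hx0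
  rw [W0] at h1
  rw [h1, abs_mul_abs_self, sq]

end two

section bundle
universe v
variable {n N : ℕ} {κ : ℝ} {S : Set (Euc N)} {G : Geo n N κ S}
  {oS w w' ξ : Euc N → Ext (Euc N)} {m d r : ℕ}
  {H : Type v} [NormedAddCommGroup H] [NormedSpace ℝ H] [FiniteDimensional ℝ H]
  {Z : Set H} {τ : H → Euc N × Euc N} {oV : H → Ext H}
  {oU : Euc N × Euc N → Ext (Euc N × Euc N)} {h : H × ℝ → Ext (H × ℝ)}

theorem smap_of_subm (hτ : Subm r d Z (US G) τ) : SMap Z (US G) τ := ⟨hτ.smooth, hτ.mapsTo⟩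

theorem smap_ti (hτ : SMap Z (US G) τ) : SMap (Cyl Z) (Cyl (US G)) (ti τ) :=
  ⟨fun y hy => ((hτ.1 _ (mem_Cyl.1 hy)).comp y contDiffAt_fst).prodMk contDiffAt_snd,
    fun y hy => mem_Cyl.2 (hτ.2 (mem_Cyl.1 hy))⟩

theorem hom_W0 (hw' : Hom n w') (hw : Hom n w) : Hom (n + n) (W0 G w' w) := fun y =>
  isDeg_mul ((hw' _).pb _) ((hw _).pb _)

/-- `E_s^*w' ∧ p^*w = 0` on `US` -/
theorem sl_W0 (hB : Bl n N κ S G Real.pi) (hd : d + 1 = 2 * n) (hw' : Hom n w') (hw : Hom n w)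
    (s : ℝ) : Eqv (US G) (F.pull (sl s) (W0 G w' w)) 0 := by
  have hcl : Clo d (US G) := LB.clo_US (FV.sub_S hB) hB.cpt hd
  refine eqv_iff.2 fun u hu => ?_
  have h1 : IsDeg (n + n) (pb (Tan (US G) u).subtype (F.pull (sl s) (W0 G w' w) u)) :=
    ((hom_W0 hw' hw _).pb _).pb _
  rw [h1.eq_zero (by rw [hcl.finrank_Tan hu]; omega), Pi.zero_apply, map_zero]

/-- the slices of `(τ × id)^* W` -/
theorem sl_ti (hτ : SMap Z (US G) τ) {Om : (Euc N × Euc N) × ℝ → Ext ((Euc N × Euc N) × ℝ)}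
    (s : ℝ) (h0 : Eqv (US G) (F.pull (sl s) Om) 0) : Eqv Z (F.pull (sl s) (F.pull (ti τ) Om)) 0 := by
  have h1 := Eqv.pull hτ h0
  rw [pull_zero'] at h1
  refine Eqv.trans (Eqv.of_eq fun z hz => ?_) h1
  have e1 := pull_comp (f := sl (E := H) s) (g := ti τ) (om := Om) (x := z)
    ((contDiff_sl s).contDiffAt.differentiableAt (by simp))
    (hasFDerivAt_ti ((hτ.1 z hz).differentiableAt (by simp)) s).differentiableAt
  have e2 := pull_comp (f := τ) (g := sl (E := Euc N × Euc N) s) (om := Om) (x := z)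
    ((hτ.1 z hz).differentiableAt (by simp)) ((contDiff_sl s).contDiffAt.differentiableAt (by simp))
  rw [e1, e2]
  rfl

/-- **the value of `D^F` on a bundle over `US`** -/
theorem DF_bundle (hB : Bl n N κ S G Real.pi) (hn : 2 ≤ n) (hd : d + 1 = 2 * n)
    (hτ : FG.OSubm r d Z (US G) τ oV oU) (hoS : Ori n S oS) (hw' : Sm S w') (hw : Sm S w)
    (hdw' : Hom n w') (hdw : Hom n w) (cw' : Cl S w') (cw : Cl S w)
    (sh : Sm (Cyl Z) h) (ch : Cl (Cyl Z) h) (eh : Ev (Cyl Z) h)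
    {o : H → Ext H} (ho : Ori (r + d) Z o) (hZc : IsPreconnected Z) {u : Euc N × Euc N}
    (hu : u ∈ US G) :
    |J (r + d) Z o (K (h * F.pull (ti τ) (W0 G w' w)))| =
      |J r (Z ∩ τ ⁻¹' {u}) oV (F.pull (sl 0) h)| * (|J n S oS w'| * |J n S oS w|) := by
  have hZ : Clo (r + d) Z := hτ.subm.cloZ
  have hs := smap_of_subm hτ.subm
  have hst := smap_ti hs
  set W := F.pull (ti τ) (W0 G w' w) with hW
  have sW0 : Sm (Cyl (US G)) (W0 G w' w) := sm_W0 hw' hw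
  have cW0 : Cl (Cyl (US G)) (W0 G w' w) :=
    Cl.mul (hw'.pull smap_EE) (hw.pull smap_PP) (Cl.pull smap_EE hw' cw') (Cl.pull smap_PP hw cw)
  have sW : Sm (Cyl Z) W := sW0.pull hst
  have cW : Cl (Cyl Z) W := Cl.pull hst sW0 cW0
  set h0 := F.pull (sl 0) h with hh0
  have sh0 : Sm Z h0 := sh.pull (smap_sl 0)
  have ch0 : Cl Z h0 := Cl.pull (smap_sl 0) sh ch
  have eh0 : Ev Z h0 := Ev.pull (smap_sl 0) eh
  set P := F.pull (Prod.fst : H × ℝ → H) h0 with hP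
  have sP : Sm (Cyl Z) P := sh0.pull smap_fst
  have cP : Cl (Cyl Z) P := Cl.pull smap_fst sh0 ch0
  -- `h = pr^* h0 + dμ`
  have sOm : Sm (Cyl Z) (h - P) := sh.sub sP
  have cOm : Cl (Cyl Z) (h - P) := Cl.sub sh sP ch cP
  have hOm0 : Eqv Z (F.pull (sl 0) (h - P)) 0 := by
    rw [pull_sub']
    refine Eqv.of_eq fun z hz => ?_
    rw [Pi.sub_apply, hP, pull_sl_fst 0 h0 sh0 hz, hh0, sub_self]
    rfl
  obtain ⟨hμ, -, -⟩ := prim_zero sOm cOm hOm0
  set μ := Hop Ho0 (h - P) with hμd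
  have sμ : Sm (Cyl Z) μ := sm_Hop0 sOm
  have e1 : Eqv (Cyl Z) (h * W) (P * W + F.d (μ * W)) := by
    have a1 := (d_mul_cl sμ sW cW).trans (hμ.mul (Eqv.refl W))
    have a2 := (Eqv.refl (X := Cyl Z) (P * W)).add a1.symm
    have a3 : P * W + (h - P) * W = h * W := by rw [← add_mul, add_sub_cancel]
    rw [a3] at a2
    exact a2
  have hslice : ∀ s : ℝ, J (r + d) Z o (F.pull (sl s) (μ * W)) = 0 := by
    intro s
    have a1 : Eqv Z (F.pull (sl s) (μ * W)) 0 := by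
      rw [pull_mul']
      have a2 := (Eqv.refl (X := Z) (F.pull (sl s) μ)).mul (sl_ti hs s (sl_W0 hB hd hdw' hdw s))
      rwa [mul_zero] at a2
    rw [J_eqv hZ a1]
    exact J_zero
  have e2 : J (r + d) Z o (K (h * W)) = J (r + d) Z o (K (P * W)) := by
    rw [JK_congr hZ (sh.mul sW) ((sP.mul sW).add (sμ.mul sW).d) e1,
      JK_add hZ ho (sP.mul sW) (sμ.mul sW).d, JK_d hZ ho (sμ.mul sW), hslice, hslice, sub_zero,
      add_zero]
  -- the fibre integral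
  have e3 : Eqv Z (K (P * W)) (fun z => h0 z * F.pull τ (K (W0 G w' w)) z) := by
    have a1 : Eqv Z (K (P * W)) ((fun z => F.inv (h0 z)) * F.pull τ (K (W0 G w' w))) :=
      Eqv.of_eq fun z hz => by
        rw [hP, K_fst_mul (IK.of_sm sW hz), hW, K_pull_ti ((hs.1 z hz).differentiableAt (by simp))
          (IK.of_sm sW0 (hs.2 hz))]
        rfl
    exact a1.trans (Eqv.mul eh0 (Eqv.refl _))
  have hom0 : ∀ x ∈ US G, ∀ q < d, evA (Euc N × Euc N) q (K (W0 G w' w) x) = 0 := by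
    intro x _ q hq
    have a1 : IsDeg d (K (W0 G w' w) x) := by
      refine isDeg_K (p := d) (fun y => ?_) x
      have := hom_W0 (G := G) hdw' hdw y
      rwa [show n + n = d + 1 by omega] at this
    exact a1 q (by omega)
  have e4 := fibre_integration_const hτ.subm (FV.preconn_US hB hn) hτ.base hτ.cV hτ.tot hτ.low
    (η := h0) (om := K (W0 G w' w)) (fun z hz => (sh0 z hz).of_le (by simp)) ch0
    (Sm.cont (Sm.K sW0)) hom0 hu
  have e5 := J_K_W0 hB hn hd hτ.base hoS hw' hw fun x _ q hq => hdw x q (by omega)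
  rw [e2, J_eqv hZ e3, ← e5, ← abs_mul, ← e4]
  rcases J_ori_connected hZ hτ.tot ho hZc with a | a
  · rw [a]
  · rw [a, abs_neg]

/-- `D^F` in the names of `Fam`: `a' = (E ∘ (τ × id))^* ξ`, `b' = (p ∘ τ)^* ξ`. -/
theorem DF_fam (hB : Bl n N κ S G Real.pi) (hn : 2 ≤ n) (hd : d + 1 = 2 * n)
    (hτ : FG.OSubm r d Z (US G) τ oV oU) (hoS : Ori n S oS) (hξ : Sm S ξ) (cξ : Cl S ξ)
    (hdξ : Hom n (ξ ^ m)) (sh : Sm (Cyl Z) h) (ch : Cl (Cyl Z) h) (eh : Ev (Cyl Z) h)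
    {a' b' : H × ℝ → Ext (H × ℝ)} (sa : Sm (Cyl Z) a') (sb : Sm (Cyl Z) b')
    (ha : Eqv (Cyl Z) a' (F.pull (fun y : H × ℝ => EE G (τ y.1, y.2)) ξ))
    (hb : Eqv (Cyl Z) b' (F.pull (fun y : H × ℝ => (τ y.1).1) ξ))
    {o : H → Ext H} (ho : Ori (r + d) Z o) (hZc : IsPreconnected Z) {u : Euc N × Euc N}
    (hu : u ∈ US G) :
    |J (r + d) Z o (K (h * a' ^ m * b' ^ m))| =
      |J r (Z ∩ τ ⁻¹' {u}) oV (F.pull (sl 0) h)| * (J n S oS (ξ ^ m)) ^ 2 := by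
  have hZ : Clo (r + d) Z := hτ.subm.cloZ
  have hs := smap_of_subm hτ.subm
  have hst := smap_ti hs
  have hA : ∀ y ∈ Cyl Z, F.pull (fun y : H × ℝ => EE G (τ y.1, y.2)) ξ y =
      F.pull (ti τ) (F.pull (EE G) ξ) y := fun y hy =>
    (pull_comp (f := ti τ) (g := EE G) (om := ξ) (x := y)
      ((hst.1 y hy).differentiableAt (by simp))
      ((smap_EE.1 _ (hst.2 hy)).differentiableAt (by simp))).symm
  have hBp : ∀ y ∈ Cyl Z, F.pull (fun y : H × ℝ => (τ y.1).1) ξ y =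
      F.pull (ti τ) (F.pull PP ξ) y := fun y hy =>
    (pull_comp (f := ti τ) (g := PP) (om := ξ) (x := y)
      ((hst.1 y hy).differentiableAt (by simp))
      (((smap_PP (G := G)).1 _ (hst.2 hy)).differentiableAt (by simp))).symm
  have e1 : Eqv (Cyl Z) (h * a' ^ m * b' ^ m) (h * F.pull (ti τ) (W0 G (ξ ^ m) (ξ ^ m))) := by
    rw [W0, pull_mul', pull_pow', pull_pow', pull_pow', pull_pow', mul_assoc]
    have q1 : Eqv (Cyl Z) (a' ^ m) (F.pull (ti τ) (F.pull (EE G) ξ) ^ m) :=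
      eqv_iff.2 fun y hy => by
        have := eqv_iff.1 (ha.trans (Eqv.of_eq hA)) y hy
        rw [Pi.pow_apply, Pi.pow_apply, map_pow, map_pow, this]
    have q2 : Eqv (Cyl Z) (b' ^ m) (F.pull (ti τ) (F.pull PP ξ) ^ m) :=
      eqv_iff.2 fun y hy => by
        have := eqv_iff.1 (hb.trans (Eqv.of_eq hBp)) y hy
        rw [Pi.pow_apply, Pi.pow_apply, map_pow, map_pow, this]
    exact (Eqv.refl h).mul (q1.mul q2)
  have sW : Sm (Cyl Z) (F.pull (ti τ) (W0 G (ξ ^ m) (ξ ^ m))) :=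
    (sm_W0 (Sm.pow hξ m) (Sm.pow hξ m)).pull hst
  rw [JK_congr hZ ((sh.mul (Sm.pow sa m)).mul (Sm.pow sb m)) (sh.mul sW) e1,
    DF_bundle hB hn hd hτ hoS (Sm.pow hξ m) (Sm.pow hξ m) hdξ hdξ (Cl.pow hξ cξ m)
      (Cl.pow hξ cξ m) sh ch eh ho hZc hu, abs_mul_abs_self, sq (J n S oS (ξ ^ m))]

end bundle

end Crest.Agent.R208.RRC
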