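import Crest.Agent.R208.JV2
import Crest.Agent.R208.SN9
import Crest.Agent.R208.XF0
import Crest.Agent.R208.TY1
import Crest.Agent.R208.RRc365C

/-! Row 208, block JV (helper638).  JV3: **the angular form** `ang P W` of an oriented field of even
rank `2r`: `d κ ~ - π^* e` on the unit sphere bundle, and `∫ κ ∧ π^* b = ± τ ∫ b`. -/

set_option autoImplicit false
set_option linter.unusedSectionVars false

open MeasureTheory MeasureTheory.Measure Set Filter Topology Module Matrix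
open scoped ContDiff RealInnerProductSpace ENNReal NNReal
open Crest.Agent.R208.F Crest.Agent.R208.FI Crest.Agent.R208.CW Crest.Agent.R208.T
open Crest.Agent.R208.SN
open Crest.Agent.R208.RR (Cyl sl K)
open Crest.Agent.R208.RRC (Swp)

noncomputable section

namespace Crest.Agent.R208.JV

universe u v

theorem pull_pull_at {E₁ E₂ E₃ : Type*} [NormedAddCommGroup E₁] [NormedSpace ℝ E₁]
    [FiniteDimensional ℝ E₁] [NormedAddCommGroup E₂] [NormedSpace ℝ E₂] [FiniteDimensional ℝ E₂]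
    [NormedAddCommGroup E₃] [NormedSpace ℝ E₃] [FiniteDimensional ℝ E₃] {f : E₁ → E₂} {g : E₂ → E₃}
    {h : E₁ → E₃} {x : E₁} (hf : DifferentiableAt ℝ f x) (hg : DifferentiableAt ℝ g (f x))
    (he : g ∘ f = h) (w : E₃ → Ext E₃) : F.pull f (F.pull g w) x = F.pull h w x := by
  rw [← he]
  exact F.pull_comp hf hg

section conn
variable {E : Type u} {H : Type v} [NormedAddCommGroup E] [NormedSpace ℝ E]
  [FiniteDimensional ℝ E] [NormedAddCommGroup H] [InnerProductSpace ℝ H] [FiniteDimensional ℝ H]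
  {X : Set E} {P : E → H →L[ℝ] H} {r : ℕ}

/-- the unit sphere bundle is connected (601's AF9 has the same lemma) -/
theorem preconn_Sph (hX : IsCompact X) (hXc : IsPreconnected X) (hP : PField X r P) (hr : 2 ≤ r) :
    IsPreconnected (Sph X P) := by
  have key : ∀ x ∈ X, Sph X P ∩ Prod.fst ⁻¹' {x} =
      (fun v : H => (x, v)) '' {v : H | v ∈ LinearMap.range (P x : H →ₗ[ℝ] H) ∧ ‖v‖ = 1} := by
    intro x hx
    ext ⟨y, v⟩
    constructor
    · rintro ⟨⟨⟨h1, h2⟩, h3⟩, h4⟩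
      obtain rfl : y = x := h4
      exact ⟨v, ⟨⟨v, h2⟩, h3⟩, rfl⟩
    · rintro ⟨w, ⟨⟨u, hu⟩, h3⟩, h4⟩
      obtain ⟨rfl, rfl⟩ := Prod.mk.inj h4
      have hu' : P x u = w := hu
      exact ⟨⟨⟨hx, by show P x w = w; rw [← hu', hP.idem x hx]⟩, h3⟩, rfl⟩
  have hfr : ∀ x ∈ X, 2 ≤ finrank ℝ (LinearMap.range (P x : H →ₗ[ℝ] H)) := fun x hx => by
    rw [hP.rank x hx]; exact hr
  refine FV.preconn_of_fibres (SB.isCompact_Sph hX hP) continuousOn_fst ?_ hXc fun x hx => ?_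
  · refine Subset.antisymm ?_ fun x hx => ?_
    · rintro _ ⟨z, hz, rfl⟩
      exact hz.1.1
    · have : Nontrivial (LinearMap.range (P x : H →ₗ[ℝ] H)) :=
        Module.nontrivial_of_finrank_pos (R := ℝ) (by have := hfr x hx; omega)
      obtain ⟨u, hu⟩ := exists_norm_eq (LinearMap.range (P x : H →ₗ[ℝ] H)) (c := 1) zero_le_one
      have h1 : (x, (u : H)) ∈ Sph X P ∩ Prod.fst ⁻¹' {x} := by
        rw [key x hx]; exact ⟨u, ⟨u.2, hu⟩, rfl⟩
      exact ⟨_, h1.1, rfl⟩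
  · rw [key x hx]
    exact (SN.preconn_sph (hfr x hx)).image _ (by fun_prop)

theorem smap_ER : SMap (Cyl (Sph X P)) (SB X P) ER :=
  ⟨fun _ _ => contDiff_ER.contDiffAt, fun z hz => ER_mem (RR.mem_Cyl.1 hz) z.2⟩

end conn

variable {n ι : Type} [Fintype n] [DecidableEq n] [Fintype ι] [DecidableEq ι]
  {E : Type u} [NormedAddCommGroup E] [NormedSpace ℝ E] [FiniteDimensional ℝ E]
  {X : Set E} {P : E → EuclideanSpace ℝ n →L[ℝ] EuclideanSpace ℝ n}
  {W : E → (ι × Fin 2 → n) → ℝ} {d r : ℕ}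

/-- the Thom form on the meridians -/
def pE (P : E → EuclideanSpace ℝ n →L[ℝ] EuclideanSpace ℝ n) (W : E → (ι × Fin 2 → n) → ℝ) :
    (E × EuclideanSpace ℝ n) × ℝ → Ext ((E × EuclideanSpace ℝ n) × ℝ) :=
  F.pull (ER (E := E) (H := EuclideanSpace ℝ n)) (om P W)

/-- **the angular form** -/
def ang (P : E → EuclideanSpace ℝ n →L[ℝ] EuclideanSpace ℝ n) (W : E → (ι × Fin 2 → n) → ℝ) :
    E × EuclideanSpace ℝ n → Ext (E × EuclideanSpace ℝ n) :=
  (2⁻¹ : ℝ) • K (E := E × EuclideanSpace ℝ n) (pE P W)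

theorem sm_pull_om [Nonempty ι] (hX : FI.Sub d X) (h : OR X P W) :
    Sm (Cyl (Sph X P)) (pE P W) := (sm_om hX h).pull smap_ER

theorem sm_ang [Nonempty ι] (hX : FI.Sub d X) (h : OR X P W) : Sm (Sph X P) (ang P W) :=
  Sm.smul _ (RR.Sm.K (E := E × EuclideanSpace ℝ n) (sm_pull_om hX h))

theorem hom_ang [Nonempty ι] (hr : r + 1 = Fintype.card ι * 2) : Hom r (ang P W) := fun z => by
  have h1 : ∀ y, IsDeg (r + 1) (pE P W y) :=
    fun y => by
      rw [hr, mul_comm]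
      exact (hom_om _).pb _
  exact (RRC.isDeg_K (E := E × EuclideanSpace ℝ n) h1 z).smul _

theorem sl1_pE (P : E → EuclideanSpace ℝ n →L[ℝ] EuclideanSpace ℝ n)
    (W : E → (ι × Fin 2 → n) → ℝ) :
    F.pull (sl (E := E × EuclideanSpace ℝ n) 1) (pE P W) = 0 := by
  funext z
  show pb _ (pb _ (om P W (ER (z, 1)))) = 0
  have : om P W (ER (z, 1)) = 0 := by
    rw [om]
    have h2 : (ER ((z, 1) : (E × EuclideanSpace ℝ n) × ℝ)).2 = -1 := by
      show Real.cos (Real.pi * 1) = -1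
      rw [mul_one, Real.cos_pi]
    rw [h2, chi_of_nonpos (by norm_num), zero_smul]
  rw [this, map_zero, map_zero]

/-- the top section -/
def zt (z : E × EuclideanSpace ℝ n) : (E × EuclideanSpace ℝ n) × ℝ :=
  ((z.1, (0 : EuclideanSpace ℝ n)), (1 : ℝ))

theorem contDiff_zt : ContDiff ℝ ∞ (zt : E × EuclideanSpace ℝ n → _) :=
  (contDiff_fst.prodMk contDiff_const).prodMk contDiff_const

/-- the zero section -/
def zs (x : E) : E × EuclideanSpace ℝ n := (x, 0)

theorem contDiff_zs : ContDiff ℝ ∞ (zs : E → E × EuclideanSpace ℝ n) :=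
  contDiff_id.prodMk contDiff_const

theorem ER_sl0 : (ER ∘ sl (E := E × EuclideanSpace ℝ n) 0 : E × EuclideanSpace ℝ n → _) = zt := by
  funext y
  show ((y.1, Real.sin (Real.pi * 0) • y.2), Real.cos (Real.pi * 0)) = _
  rw [mul_zero, Real.sin_zero, zero_smul, Real.cos_zero]
  rfl

theorem zs_fst : (zs (E := E) (n := n) ∘ Prod.fst : E × EuclideanSpace ℝ n → _)
    = sc6 (E := E) (n := n) ∘ zt (E := E) (n := n) := by
  funext y
  show (y.1, (0 : EuclideanSpace ℝ n)) = (y.1, (6 : ℝ) • (0 : EuclideanSpace ℝ n))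
  rw [smul_zero]

/-- the pulled back Thom form -/
def tF6 (P : E → EuclideanSpace ℝ n →L[ℝ] EuclideanSpace ℝ n) (W : E → (ι × Fin 2 → n) → ℝ) :
    (E × EuclideanSpace ℝ n) × ℝ → Ext ((E × EuclideanSpace ℝ n) × ℝ) :=
  F.pull (sc6 (E := E) (n := n)) (thomF P W)

theorem om_zt (P : E → EuclideanSpace ℝ n →L[ℝ] EuclideanSpace ℝ n)
    (W : E → (ι × Fin 2 → n) → ℝ) (z : E × EuclideanSpace ℝ n) :
    om P W (zt z) = tF6 P W (zt z) := by
  have h6 : (zt z : (E × EuclideanSpace ℝ n) × ℝ).2 = 1 := rfl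
  rw [om, h6, chi_of_ge (by norm_num), one_smul]
  rfl

theorem sl0_pE1 (P : E → EuclideanSpace ℝ n →L[ℝ] EuclideanSpace ℝ n)
    (W : E → (ι × Fin 2 → n) → ℝ) (z : E × EuclideanSpace ℝ n) :
    F.pull (sl (E := E × EuclideanSpace ℝ n) 0) (pE P W) z = F.pull zt (om P W) z :=
  pull_pull_at ((RR.contDiff_sl 0).contDiffAt.differentiableAt (by simp))
    (contDiff_ER.contDiffAt.differentiableAt (by simp)) ER_sl0 _

theorem sl0_pE2a (w : E × EuclideanSpace ℝ n → Ext (E × EuclideanSpace ℝ n))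
    (z : E × EuclideanSpace ℝ n) :
    F.pull (Prod.fst : E × EuclideanSpace ℝ n → E) (F.pull (zs (E := E) (n := n)) w) z =
      F.pull (sc6 (E := E) (n := n) ∘ zt (E := E) (n := n)) w z :=
  pull_pull_at (E₁ := E × EuclideanSpace ℝ n) (E₂ := E) (E₃ := E × EuclideanSpace ℝ n)
    (f := Prod.fst) (g := zs) (h := sc6 ∘ zt) differentiableAt_fst
    (contDiff_zs.contDiffAt.differentiableAt (by simp)) zs_fst w

theorem sl0_pE2b (w : E × EuclideanSpace ℝ n → Ext (E × EuclideanSpace ℝ n))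
    (z : E × EuclideanSpace ℝ n) :
    F.pull (zt (E := E) (n := n)) (F.pull (sc6 (E := E) (n := n)) w) z =
      F.pull (sc6 (E := E) (n := n) ∘ zt (E := E) (n := n)) w z :=
  pull_pull_at (E₁ := E × EuclideanSpace ℝ n) (E₂ := (E × EuclideanSpace ℝ n) × ℝ)
    (E₃ := E × EuclideanSpace ℝ n) (f := zt) (g := sc6) (h := sc6 ∘ zt)
    (contDiff_zt.contDiffAt.differentiableAt (by simp))
    (contDiff_sc6.contDiffAt.differentiableAt (by simp)) rfl w

theorem sl0_pE2 (P : E → EuclideanSpace ℝ n →L[ℝ] EuclideanSpace ℝ n)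
    (W : E → (ι × Fin 2 → n) → ℝ) (z : E × EuclideanSpace ℝ n) :
    F.pull (Prod.fst : E × EuclideanSpace ℝ n → E) (F.pull (zs (E := E) (n := n))
      (thomF P W)) z = F.pull (zt (E := E) (n := n)) (tF6 P W) z :=
  (sl0_pE2a (thomF P W) z).trans (sl0_pE2b (thomF P W) z).symm

theorem pull_of_eq {E₁ E₂ : Type*} [NormedAddCommGroup E₁] [NormedSpace ℝ E₁]
    [FiniteDimensional ℝ E₁] [NormedAddCommGroup E₂] [NormedSpace ℝ E₂] [FiniteDimensional ℝ E₂]
    {f : E₁ → E₂} {a b : E₂ → Ext E₂} {x : E₁} (h : a (f x) = b (f x)) :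
    F.pull f a x = F.pull f b x := by
  rw [F.pull, F.pull, h]

theorem sl0_pE (P : E → EuclideanSpace ℝ n →L[ℝ] EuclideanSpace ℝ n)
    (W : E → (ι × Fin 2 → n) → ℝ) :
    F.pull (sl (E := E × EuclideanSpace ℝ n) 0) (pE P W) =
      F.pull (Prod.fst : E × EuclideanSpace ℝ n → E) (F.pull (zs (E := E) (n := n))
        (thomF P W)) :=
  funext fun z => (sl0_pE1 P W z).trans ((pull_of_eq (om_zt P W z)).trans (sl0_pE2 P W z).symm)

theorem sl0_eqv [Nonempty ι] (h : OR X P W) :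
    Eqv (Sph X P) (F.pull (sl (E := E × EuclideanSpace ℝ n) 0) (pE P W))
      ((2 : ℝ) • F.pull Prod.fst (eR P W)) := by
  rw [sl0_pE]
  have := (thomF_zero h).pull (smap_fstS (X := X) (P := P))
  rwa [pull_smul'] at this

theorem d_KE [Nonempty ι] (hX : FI.Sub d X) (h : OR X P W) :
    Eqv (Sph X P) (F.d (K (E := E × EuclideanSpace ℝ n) (pE P W)))
      (-((2 : ℝ) • F.pull Prod.fst (eR P W))) := by
  have hs := sm_pull_om hX h
  have h0 : Eqv (Sph X P) (K (E := E × EuclideanSpace ℝ n) (F.d (pE P W))) 0 := by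
    refine resZero_iff.1 (RR.K_eqv0 (E := E × EuclideanSpace ℝ n) (Sm.d hs) ?_)
    exact Cl.pull smap_ER (sm_om hX h) (cl_om hX h)
  have h1 := RR.K_d_eqv (E := E × EuclideanSpace ℝ n) (Z := Sph X P) hs
  rw [sl1_pE, zero_sub] at h1
  have h7 := (h1.sub h0).trans (Eqv.trans (Eqv.of_eq fun x _ => by simp) ((sl0_eqv h).neg))
  exact (Eqv.of_eq fun x _ => by simp).trans h7

/-- **`d κ = - π^* e`** -/
theorem d_ang [Nonempty ι] (hX : FI.Sub d X) (h : OR X P W) :
    Eqv (Sph X P) (F.d (ang P W)) (-(F.pull Prod.fst (eR P W))) := by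
  have hs := RR.Sm.K (E := E × EuclideanSpace ℝ n) (sm_pull_om hX h)
  have h8 : Eqv (Sph X P) (F.d (ang P W))
      ((2⁻¹ : ℝ) • F.d (K (E := E × EuclideanSpace ℝ n) (pE P W))) := d_smul_eqv _ hs
  refine h8.trans (((d_KE hX h).smul 2⁻¹).trans (Eqv.of_eq fun x _ => ?_))
  rw [Pi.smul_apply, Pi.neg_apply, Pi.smul_apply, Pi.neg_apply, smul_neg, smul_smul,
    inv_mul_cancel₀ (two_ne_zero' ℝ), one_smul]

end Crest.Agent.R208.JV
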