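import Crest.Agent.R208.KD1
import Crest.Agent.R208.CG1
import Crest.Agent.R208.SO4
import Crest.Agent.R208.DEG2
import Crest.Agent.R208.T3a

/-! Row 208, block JV (helper638).  JV4: the value `(∫_S ξ^m)^2 = |∫_US K(E^*ξ) φ^*(x₂^(m-1) x₁^m)|`. -/

set_option autoImplicit false
set_option linter.unusedSectionVars false

open MeasureTheory MeasureTheory.Measure Set Filter Topology Module Metric
open scoped ContDiff RealInnerProductSpace
open Crest.GeometryTopology.Submanifold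
open Crest.Agent.R241.DDefs
open Crest.Agent.R241.D2
open Crest.Agent.R208.F Crest.Agent.R208.FI Crest.Agent.R208.CW Crest.Agent.R208.T
open Crest.Agent.R208.RR Crest.Agent.R208.RRC
open Crest.Agent.R208.L (US)

noncomputable section

namespace Crest.Agent.R208.JV

universe u v

section homot
variable {E : Type u} [NormedAddCommGroup E] [NormedSpace ℝ E] [FiniteDimensional ℝ E]
  {Z : Set E} {a : E × ℝ → Ext (E × ℝ)} {x : E}

/-- `((z,t),s) ↦ (z, t s)` -/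
def mu (q : (E × ℝ) × ℝ) : E × ℝ := (q.1.1, q.1.2 * q.2)

theorem contDiff_mu : ContDiff ℝ ∞ (mu : (E × ℝ) × ℝ → E × ℝ) :=
  contDiff_fst.fst.prodMk (contDiff_fst.snd.mul contDiff_snd)

theorem smap_mu : SMap (Cyl (Cyl Z)) (Cyl Z) (mu : (E × ℝ) × ℝ → E × ℝ) :=
  ⟨fun _ _ => contDiff_mu.contDiffAt, fun _ hq => ⟨hq.1.1, trivial⟩⟩

/-- `(z,t) ↦ (z,0)` -/
def c0 (q : E × ℝ) : E × ℝ := (q.1, 0)

theorem contDiff_c0 : ContDiff ℝ ∞ (c0 : E × ℝ → E × ℝ) := contDiff_fst.prodMk contDiff_const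

theorem smap_c0 : SMap (Cyl Z) (Cyl Z) (c0 : E × ℝ → E × ℝ) :=
  ⟨fun _ _ => contDiff_c0.contDiffAt, fun _ hq => ⟨hq.1, trivial⟩⟩

/-- the primitive of `a - a|₀` along the cylinder -/
def hp (a : E × ℝ → Ext (E × ℝ)) : E × ℝ → Ext (E × ℝ) := K (E := E × ℝ) (F.pull mu a)

theorem sm_hp (ha : Sm (Cyl Z) a) : Sm (Cyl Z) (hp a) :=
  RR.Sm.K (E := E × ℝ) (T.Sm.pull smap_mu ha)

theorem mu_sl (s : ℝ) : (mu ∘ sl (E := E × ℝ) s : E × ℝ → E × ℝ) = fun q => (q.1, q.2 * s) := rfl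

theorem pull_mu_sl (s : ℝ) (a : E × ℝ → Ext (E × ℝ)) (q : E × ℝ) :
    F.pull (sl (E := E × ℝ) s) (F.pull mu a) q = F.pull (mu ∘ sl (E := E × ℝ) s) a q :=
  F.pull_comp ((contDiff_sl s).contDiffAt.differentiableAt (by simp))
    (contDiff_mu.contDiffAt.differentiableAt (by simp))

theorem pull_mu_one (a : E × ℝ → Ext (E × ℝ)) (q : E × ℝ) :
    F.pull (sl (E := E × ℝ) 1) (F.pull mu a) q = a q := by
  rw [pull_mu_sl]
  have h1 : (mu ∘ sl (E := E × ℝ) 1 : E × ℝ → E × ℝ) = id := by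
    funext q
    rw [mu_sl]
    simp
  rw [h1, F.pull, fderiv_id, ContinuousLinearMap.coe_id]
  exact pb_id _

theorem pull_mu_zero (a : E × ℝ → Ext (E × ℝ)) (q : E × ℝ) :
    F.pull (sl (E := E × ℝ) 0) (F.pull mu a) q = F.pull c0 a q := by
  rw [pull_mu_sl]
  have h1 : (mu ∘ sl (E := E × ℝ) 0 : E × ℝ → E × ℝ) = c0 := by
    funext q
    rw [mu_sl]
    simp [c0]
  rw [h1]

theorem d_hp (hs : Sm (Cyl Z) a) (hc : Cl (Cyl Z) a) :
    Eqv (Cyl Z) (F.d (hp a)) (a - F.pull c0 a) := by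
  have h1 : Sm (Cyl (Cyl Z)) (F.pull mu a) := T.Sm.pull smap_mu hs
  have h2 := RR.K_d_eqv (E := E × ℝ) (Z := Cyl Z) h1
  have h3 : Eqv (Cyl Z) (K (E := E × ℝ) (F.d (F.pull mu a))) 0 :=
    resZero_iff.1 (RR.K_eqv0 (E := E × ℝ) (Sm.d h1) (T.Cl.pull smap_mu hs hc))
  have h4 : F.pull (sl (E := E × ℝ) 1) (F.pull mu a) - F.pull (sl (E := E × ℝ) 0) (F.pull mu a) =
      a - F.pull c0 a := by
    funext q
    rw [Pi.sub_apply, Pi.sub_apply, pull_mu_one, pull_mu_zero]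
  rw [h4] at h2
  have h5 := h2.sub h3
  exact (Eqv.of_eq fun q _ => by simp [hp]).trans (h5.trans (Eqv.of_eq fun q _ => by simp))

theorem sl1_hp (hs : Sm (Cyl Z) a) (hx : x ∈ Z) : F.pull (sl 1) (hp a) x = K a x := by
  have h1 := CG.pull_K (E' := E × ℝ) (f := sl (E := E) 1) (v := F.pull mu a) (Y := Cyl Z) (x := x)
    ((contDiff_sl 1).contDiffAt.differentiableAt (by simp)) (T.Sm.pull smap_mu hs) ⟨hx, trivial⟩
  have h2 : F.pull (CG.fx (sl (E := E) 1) fun t => t) (F.pull mu a) = a := by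
    funext q
    have hd : ContDiff ℝ ∞ (CG.fx (sl (E := E) 1) fun t => t) :=
      (contDiff_fst.prodMk contDiff_const).prodMk contDiff_snd
    rw [F.pull_comp (hd.contDiffAt.differentiableAt (by simp))
      (contDiff_mu.contDiffAt.differentiableAt (by simp))]
    have h3 : (mu ∘ (CG.fx (sl (E := E) 1) fun t => t) : E × ℝ → E × ℝ) = id := by
      funext q
      show (q.1, 1 * q.2) = q
      rw [one_mul]
    rw [h3, F.pull, fderiv_id, ContinuousLinearMap.coe_id]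
    exact pb_id _
  rw [h2] at h1
  exact h1

theorem sl0_hp (hs : Sm (Cyl Z) a) (hx : x ∈ Z) : F.pull (sl 0) (hp a) x = 0 := by
  have h1 := CG.pull_K (E' := E × ℝ) (f := sl (E := E) 0) (v := F.pull mu a) (Y := Cyl Z) (x := x)
    ((contDiff_sl 0).contDiffAt.differentiableAt (by simp)) (T.Sm.pull smap_mu hs) ⟨hx, trivial⟩
  have h2 : F.pull (CG.fx (sl (E := E) 0) fun t => t) (F.pull mu a) =
      F.pull (fun y : E × ℝ => sl (E := E) 0 y.1) a := by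
    funext q
    have hd : ContDiff ℝ ∞ (CG.fx (sl (E := E) 0) fun t => t) :=
      (contDiff_fst.prodMk contDiff_const).prodMk contDiff_snd
    rw [F.pull_comp (hd.contDiffAt.differentiableAt (by simp))
      (contDiff_mu.contDiffAt.differentiableAt (by simp))]
    have h3 : (mu ∘ (CG.fx (sl (E := E) 0) fun t => t) : E × ℝ → E × ℝ) =
        fun y : E × ℝ => sl (E := E) 0 y.1 := by
      funext q
      show (q.1, 0 * q.2) = (q.1, 0)
      rw [zero_mul]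
    rw [h3]
  rw [h2, CG.K_fst ((contDiff_sl 0).contDiffAt.differentiableAt (by simp))] at h1
  exact h1

end homot

section us
variable {n N k : ℕ} {κ : ℝ} {S : Set (Euc N)} {G : Geo n N κ S}
  {oS ξ : Euc N → Ext (Euc N)} {m d : ℕ}

theorem sm_EEx (hξ : Sm S ξ) : Sm (Cyl (US G)) (F.pull (EE G) ξ) := hξ.pull smap_EE
theorem sm_PPx (hξ : Sm S ξ) : Sm (Cyl (US G)) (F.pull PP ξ) := hξ.pull smap_PP

theorem c0_EEx : Eqv (Cyl (US G)) (F.pull c0 (F.pull (EE G) ξ)) (F.pull PP ξ) :=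
  eqv_pull_pull smap_c0 smap_EE smap_PP (fun q hq => by
    show Exp G q.1.1 ((Real.pi * 0) • q.1.2) = q.1.1
    rw [mul_zero, zero_smul]
    exact Crest.Agent.R241.D2.Exp_zero G hq.1.1.1) ξ

theorem ev_of (hk : Even k) (dξ : Hom k ξ) : Ev S ξ := Eqv.of_eq fun x _ => by
  obtain ⟨j, rfl⟩ := hk.two_dvd
  exact inv_of_isDeg (dξ x)

variable (G ξ) in
/-- `η a^m b^(m+1)` -/
def hc (m : ℕ) : (Euc N × Euc N) × ℝ → Ext ((Euc N × Euc N) × ℝ) :=
  hp (F.pull (EE G) ξ) * (F.pull (EE G) ξ ^ m * F.pull (PP (N := N)) ξ ^ (m + 1))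

theorem sm_pw (sξ : Sm S ξ) (i j : ℕ) :
    Sm (Cyl (US G)) (F.pull (EE G) ξ ^ i * F.pull (PP (N := N)) ξ ^ j) :=
  (RR.Sm.pow (sm_EEx sξ) i).mul (RR.Sm.pow (sm_PPx sξ) j)

theorem cl_pw (sξ : Sm S ξ) (cξ : Cl S ξ) (i j : ℕ) :
    Cl (Cyl (US G)) (F.pull (EE G) ξ ^ i * F.pull (PP (N := N)) ξ ^ j) :=
  T.Cl.mul (RR.Sm.pow (sm_EEx sξ) i) (RR.Sm.pow (sm_PPx sξ) j)
    (T.Cl.pow (sm_EEx sξ) (T.Cl.pull smap_EE sξ cξ) i)
    (T.Cl.pow (sm_PPx sξ) (T.Cl.pull smap_PP sξ cξ) j)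

theorem sm_hc (sξ : Sm S ξ) : Sm (Cyl (US G)) (hc G ξ m) :=
  (sm_hp (sm_EEx sξ)).mul (sm_pw sξ m (m + 1))

theorem top_PP (hB : Bl n N κ S G Real.pi) (hn : n < k * m) (dξ : Hom k ξ) :
    Eqv (Cyl (US G)) (F.pull (PP (N := N)) ξ ^ m) 0 := by
  have h1 : Eqv S (ξ ^ m) 0 := resZero_iff.1
    (SO.resZero_of_gt (GP.clo_S hB).sub (KD.hom_pow' dξ m) hn)
  have h2 := h1.pull (smap_PP (G := G))
  rwa [RR.pull_pow', pull_zero'] at h2

theorem comm_alg {C : Type*} [Ring C] {A B : C} (hc : Commute A B) (m : ℕ)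
    (h0 : B ^ (m + 2) = 0) :
    (A - B) * (A ^ m * B ^ (m + 1)) = A ^ (m + 1) * B ^ (m + 1) := by
  have e1 : (A - B) * (A ^ m * B ^ (m + 1)) = A ^ (m + 1) * B ^ (m + 1) -
      A ^ m * (B * B ^ (m + 1)) := by
    rw [sub_mul, ← mul_assoc, ← pow_succ', ← mul_assoc, ← mul_assoc, (hc.pow_left m).eq]
  rw [e1, ← pow_succ', h0, mul_zero, sub_zero]

theorem key_eqv (hB : Bl n N κ S G Real.pi) (hk : Even k) (hn : n < k * (m + 2))
    (sξ : Sm S ξ) (cξ : Cl S ξ) (dξ : Hom k ξ) :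
    Eqv (Cyl (US G)) (F.pull (EE G) ξ ^ (m + 1) * F.pull (PP (N := N)) ξ ^ (m + 1))
      (F.d (hc G ξ m)) := by
  have ea : Ev (Cyl (US G)) (F.pull (EE G) ξ) := Ev.pull smap_EE (ev_of hk dξ)
  have hdη := (d_hp (sm_EEx sξ) (T.Cl.pull smap_EE sξ cξ)).trans
    ((Eqv.refl (F.pull (EE G) ξ)).sub c0_EEx)
  have htop := top_PP hB hn dξ (G := G)
  refine Eqv.symm ((d_mul_cl (sm_hp (sm_EEx sξ)) (sm_pw sξ m (m + 1))
    (cl_pw sξ cξ m (m + 1))).trans ((hdη.mul (Eqv.refl _)).trans ?_))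
  refine eqv_iff.2 fun x hx => ?_
  have h0 := eqv_iff.1 htop x hx
  have hcom := ea.comm hx (Rs (Cyl (US G)) x (F.pull (PP (N := N)) ξ x))
  change Rs (Cyl (US G)) x ((F.pull (PP (N := N)) ξ ^ (m + 2)) x) = Rs (Cyl (US G)) x 0 at h0
  change Rs (Cyl (US G)) x _ = Rs (Cyl (US G)) x _
  simp only [Pi.mul_apply, Pi.pow_apply, Pi.sub_apply, map_mul, map_pow, map_sub,
    map_zero] at h0 hcom ⊢
  exact comm_alg hcom m h0

theorem J_red1 (hB : Bl n N κ S G Real.pi) (hk : Even k) (hn : n < k * (m + 2))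
    (hU : Clo d (US G))
    {o : Euc N × Euc N → Ext (Euc N × Euc N)} (ho : Ori d (US G) o)
    (sξ : Sm S ξ) (cξ : Cl S ξ) (dξ : Hom k ξ) :
    J d (US G) o (K (F.pull (EE G) ξ ^ (m + 1) * F.pull PP ξ ^ (m + 1))) =
      J d (US G) o (F.pull (sl 1) (hc G ξ m)) := by
  have h0 : J d (US G) o (F.pull (sl 0) (hc G ξ m)) = 0 := by
    have : Eqv (US G) (F.pull (sl 0) (hc G ξ m)) 0 := Eqv.of_eq fun x hx => by
      rw [hc, pull_mul', Pi.mul_apply, sl0_hp (sm_EEx sξ) hx, zero_mul, Pi.zero_apply]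
    rw [J_eqv hU this]
    exact J_zero
  have h1 := JK_congr (o := o) hU (sm_pw sξ (m + 1) (m + 1)) (Sm.d (sm_hc sξ))
    (key_eqv hB hk hn sξ cξ dξ)
  have h2 := JK_d hU ho (sm_hc (m := m) sξ)
  rw [h0, sub_zero] at h2
  exact h1.trans h2

theorem sl1_hc (hB : Bl n N κ S G Real.pi) (sξ : Sm S ξ) :
    Eqv (US G) (F.pull (sl 1) (hc G ξ m)) (K (F.pull (EE G) ξ) *
        F.pull (FV.phi G) (F.pull Prod.snd (ξ ^ m) * F.pull Prod.fst (ξ ^ (m + 1)))) := by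
  rw [hc, pull_mul', pull_mul', RR.pull_pow', RR.pull_pow', RR.pull_pow', RR.pull_pow', pull_mul',
    RR.pull_pow', RR.pull_pow']
  refine (Eqv.of_eq fun x hx => sl1_hp (sm_EEx sξ) hx).mul ((Eqv.pow (KD.sl_EE_one hB) m).mul
    (Eqv.pow ((KD.sl_PP 1 sξ).trans ?_) (m + 1)))
  exact (eqv_pull_pull (KD.smap_phi hB) KD.smap_fst_FF KD.smap_fst_US (fun _ _ => rfl) ξ).symm

/-- **the reduction**: `(∫_S ξ^(m+1))^2 = |∫ K(a) φ^*(x₂^m x₁^(m+1))|` -/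
theorem sq_eq (hB : Bl n N κ S G Real.pi) (hn2 : 2 ≤ n) (hk : Even k) (hn : n = k * (m + 1))
    (hk0 : 0 < k) (hd : d + 1 = 2 * n)
    {o : Euc N × Euc N → Ext (Euc N × Euc N)} (ho : Ori d (US G) o) (hoS : Ori n S oS)
    (sξ : Sm S ξ) (cξ : Cl S ξ) (dξ : Hom k ξ) :
    |J d (US G) o (K (F.pull (EE G) ξ) *
        F.pull (FV.phi G) (F.pull Prod.snd (ξ ^ m) * F.pull Prod.fst (ξ ^ (m + 1))))| =
      (J n S oS (ξ ^ (m + 1))) ^ 2 := by
  have hU : Clo d (US G) := by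
    obtain ⟨l, rfl⟩ : ∃ l, n = 1 + l := ⟨n - 1, by omega⟩
    have := (subm_US hB).cloZ
    rwa [show l + (1 + l) = d by omega] at this
  have hdeg : Hom n (ξ ^ (m + 1)) := by
    rw [hn]
    exact KD.hom_pow' dξ (m + 1)
  rw [← DF_two (m := m + 1) hB hn2 hd ho hoS sξ
    (fun x _ q hq => SO.evA_lt_of_hom hdeg x q hq), one_mul,
    J_red1 hB hk (by rw [hn]; nlinarith) hU ho sξ cξ dξ, J_eqv hU (sl1_hc hB sξ)]

end us

end Crest.Agent.R208.JV
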