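import Crest.Agent.R208.JV4
import Crest.Agent.R208.JV3b
import Crest.Agent.R208.TX9
import Crest.Agent.R208.SB2

/-! Row 208, block JV (helper638).  JV5: on `US` the form `K(E^*x)` is cohomologous to the angular
form of `V` (plus a form pulled back from `F`); its integral over the spheres of `V` is `± τ`. -/

set_option autoImplicit false
set_option linter.unusedSectionVars false

open MeasureTheory MeasureTheory.Measure Set Filter Topology Module Metric
open scoped ContDiff RealInnerProductSpace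
open Crest.GeometryTopology.Submanifold
open Crest.Agent.R241.DDefs
open Crest.Agent.R241.D2
open Crest.Agent.R208.F Crest.Agent.R208.FI Crest.Agent.R208.CW Crest.Agent.R208.T
open Crest.Agent.R208.RR (Cyl sl K)
open Crest.Agent.R208.RRC (EE PP smap_EE smap_PP)
open Crest.Agent.R208.L (US)

noncomputable section

namespace Crest.Agent.R208.JV

universe u v

section dif
variable {E : Type u} {E' : Type v} [NormedAddCommGroup E] [NormedSpace ℝ E]
  [FiniteDimensional ℝ E] [NormedAddCommGroup E'] [NormedSpace ℝ E'] [FiniteDimensional ℝ E']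
  {X : Set E} {Z : Set E'} {g : E' → E} {g' : E → E'} {n : ℕ} {o : E' → Ext E'}
  {oX om : E → Ext E}

/-- change of variables, up to sign -/
theorem abs_J_dif (h : SB.Dif Z X g g') (hZ : Clo n Z) (hX : Clo n X) (hZc : IsPreconnected Z)
    (ho : Ori n Z o) (hoX : Ori n X oX) (hom : ContinuousOn om X) :
    |J n Z o (F.pull g om)| = |J n X oX om| := by
  have hb : BijOn g Z X := by
    refine ⟨h.fw.maps, fun z hz z' hz' he => ?_, fun y hy => ⟨g' y, h.inv.maps hy, h.right y hy⟩⟩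
    rw [← h.left z hz, ← h.left z' hz', he]
  have h1 := J_pull hZ hX (fun z hz => h.fw.diff hz) hb hoX hom
  have h2 : Ori n Z (F.pull g oX) := Ori.pull hZ hX
    (fun z hz => (h.fw.smooth z hz).of_le (by simp)) h.fw.maps
    (fun z hz v hv h0 => h.inj hz hv h0) hoX
  rw [← h1]
  exact abs_J_ori hZ hZc h2 ho _

end dif

variable {n N k m : ℕ} {κ : ℝ} {S : Set (Euc N)} {G : Geo n N κ S} {p : Euc N}
  {ι : Type} [Fintype ι] [DecidableEq ι] {W : Euc N × Euc N → (ι × Fin 2 → Fin N) → ℝ}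
  {x : Euc N → Ext (Euc N)}

theorem smap_up (h : GT.Bla G k) : SMap (US G) (Sph (GT.FF S) (FV.PVB h)) (FV.up G) :=
  (SB.dif_US h).fw

variable (G) in
/-- the angular form on `US` -/
def kU (h : GT.Bla G k) (W : Euc N × Euc N → (ι × Fin 2 → Fin N) → ℝ) :
    Euc N × Euc N → Ext (Euc N × Euc N) := F.pull (FV.up G) (ang (FV.PVB h) W)

theorem d_KX (h : GT.Bla G k) (sx : Sm S x) (cx : Cl S x) :
    Eqv (US G) (F.d (K (F.pull (EE G) x)))
      (F.pull (FV.phi G) (F.pull Prod.snd x) - F.pull Prod.fst x) := by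
  have h1 := RR.K_d_eqv (Z := US G) (sm_EEx sx)
  have h2 : Eqv (US G) (K (F.d (F.pull (EE G) x))) 0 :=
    resZero_iff.1 (RR.K_eqv0 (Sm.d (sm_EEx sx)) (T.Cl.pull smap_EE sx cx))
  have h4 : Eqv (US G) (F.pull (sl 1) (F.pull (EE G) x) - F.pull (sl 0) (F.pull (EE G) x))
      (F.pull (FV.phi G) (F.pull Prod.snd x) - F.pull Prod.fst x) :=
    (KD.sl_EE_one (ξ := x) h.bl).sub (KD.sl_EE_zero (ξ := x))
  have h3 := (h1.sub h2).trans ((Eqv.of_eq fun z _ => by rw [Pi.sub_apply, Pi.zero_apply,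
    sub_zero]).trans h4)
  exact (Eqv.of_eq fun z _ => by rw [Pi.sub_apply, Pi.add_apply, add_sub_cancel_right]).trans h3

theorem d_kU [Nonempty ι] {dF : ℕ} (h : GT.Bla G k) (hdF : dF + k = 2 * n)
    (hW : OR (GT.FF S) (FV.PVB h) W) :
    Eqv (US G) (F.d (kU G h W)) (-(F.pull (FV.phi G) (eR (FV.PVB h) W))) := by
  have hF := FV.sub_FF' h hdF
  have h1 := d_pull_eqv (smap_up h) (sm_ang hF hW)
  have h2 := (d_ang hF hW).pull (smap_up h)
  rw [pull_neg'] at h2
  exact (h1.trans h2).trans (eqv_pull_pull (smap_up h) smap_fstS (KD.smap_phi h.bl)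
    (fun _ _ => rfl) _).neg

theorem XM.ne {h : GT.Bla G k} (D : XM h m W p x) : Nonempty ι :=
  Fintype.card_pos_iff.1 (by have := D.hι; have := D.hk; omega)

theorem XM.eF {h : GT.Bla G k} (D : XM h m W p x) : (2 * n - k) + k = 2 * n := by
  have := D.hkn
  omega

/-- `x₂ - (x₁ - ε) ~ dμ` -/
theorem exists_mu {h : GT.Bla G k} (D : XM h m W p x) :
    ∃ μ : Euc N × Euc N → Ext (Euc N × Euc N), Sm (GT.FF S) μ ∧ Hom (k - 1) μ ∧
      Eqv (GT.FF S) (F.pull Prod.snd x - (F.pull Prod.fst x - eR (FV.PVB h) W)) (F.d μ) := by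
  have hk := D.hk
  have e1 : k - 1 + 1 = k := by omega
  have e2 : Coh (GT.FF S) (F.pull Prod.snd x - (F.pull Prod.fst x - eR (FV.PVB h) W)) 0 := by
    have := D.snd_class.sub (Coh.refl (F.pull Prod.fst x - eR (FV.PVB h) W))
    rwa [sub_self] at this
  have e4 : Hom k (eR (FV.PVB h) W) := by
    have := SN.eR_hom (P := FV.PVB h) (W := W)
    rwa [D.hι] at this
  have e3 : Hom (k - 1 + 1) (F.pull Prod.snd x - (F.pull Prod.fst x - eR (FV.PVB h) W)) := by
    rw [e1]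
    exact (D.dx.pull).sub ((D.dx.pull).sub e4)
  exact e2.prim e3

theorem d_phi_mu (h : GT.Bla G k) {μ : Euc N × Euc N → Ext (Euc N × Euc N)}
    (sμ : Sm (GT.FF S) μ)
    (eμ : Eqv (GT.FF S) (F.pull Prod.snd x - (F.pull Prod.fst x - eR (FV.PVB h) W)) (F.d μ)) :
    Eqv (US G) (F.d (F.pull (FV.phi G) μ)) (F.pull (FV.phi G) (F.pull Prod.snd x) -
      (F.pull (FV.phi G) (F.pull Prod.fst x) - F.pull (FV.phi G) (eR (FV.PVB h) W))) := by
  have := (d_pull_eqv (KD.smap_phi h.bl) sμ).trans (eμ.symm.pull (KD.smap_phi h.bl))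
  rwa [pull_sub', pull_sub'] at this

theorem alg_eqv {E : Type*} [NormedAddCommGroup E] [NormedSpace ℝ E] [FiniteDimensional ℝ E]
    {X : Set E} {A B D' e : E → Ext E} (h : Eqv X D' B) :
    Eqv X ((A - B) - (-e + (A - (D' - e)))) 0 := by
  refine eqv_iff.2 fun z hz => ?_
  have g4 := eqv_iff.1 h z hz
  simp only [Pi.sub_apply, Pi.add_apply, Pi.neg_apply, map_sub, map_add, map_neg,
    Pi.zero_apply, map_zero, g4]
  abel

theorem sm_KX (sx : Sm S x) : Sm (US G) (K (F.pull (EE G) x)) := RR.Sm.K (sm_EEx sx)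

theorem sm_kU [Nonempty ι] (h : GT.Bla G k) {dF : ℕ} (hdF : dF + k = 2 * n)
    (hW : OR (GT.FF S) (FV.PVB h) W) : Sm (US G) (kU G h W) :=
  (sm_ang (FV.sub_FF' h hdF) hW).pull (smap_up h)

theorem cl_diff {h : GT.Bla G k} (D : XM h m W p x) {μ : Euc N × Euc N → Ext (Euc N × Euc N)}
    (sμ : Sm (GT.FF S) μ)
    (eμ : Eqv (GT.FF S) (F.pull Prod.snd x - (F.pull Prod.fst x - eR (FV.PVB h) W)) (F.d μ)) :
    Cl (US G) (K (F.pull (EE G) x) - (kU G h W + F.pull (FV.phi G) μ)) := by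
  have := XM.ne D
  have sK : Sm (US G) (K (F.pull (EE G) x)) := sm_KX D.sx
  have sU : Sm (US G) (kU G h W) := sm_kU h (XM.eF D) D.hW
  have sφ : Sm (US G) (F.pull (FV.phi G) μ) := sμ.pull (KD.smap_phi h.bl)
  have d4 : Eqv (US G) (F.pull (FV.phi G) (F.pull Prod.fst x)) (F.pull Prod.fst x) :=
    eqv_pull_pull (KD.smap_phi h.bl) KD.smap_fst_FF KD.smap_fst_US (fun _ _ => rfl) x
  refine resZero_iff.2 ?_
  have f1 := d_KX h D.sx D.cx
  have f2 := d_kU h (XM.eF D) D.hW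
  have f3 : Eqv (US G) (F.d (K (F.pull (EE G) x) - (kU G h W + F.pull (FV.phi G) μ)))
      (F.d (K (F.pull (EE G) x)) - (F.d (kU G h W) + F.d (F.pull (FV.phi G) μ))) :=
    (d_sub_eqv sK (sU.add sφ)).trans ((Eqv.refl _).sub (d_add_eqv sU sφ))
  exact f3.trans ((f1.sub (f2.add (d_phi_mu h sμ eμ))).trans (alg_eqv d4))

theorem hom_diff {h : GT.Bla G k} (D : XM h m W p x) {μ : Euc N × Euc N → Ext (Euc N × Euc N)}
    (dμ : Hom (k - 1) μ) :
    Hom (k - 1) (K (F.pull (EE G) x) - (kU G h W + F.pull (FV.phi G) μ)) := by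
  have := XM.ne D
  have hk := D.hk
  have g1 : ∀ y, IsDeg (k - 1 + 1) (F.pull (EE G) x y) := fun y => by
    rw [show k - 1 + 1 = k by omega]
    exact (D.dx _).pb _
  have g2 : k - 1 + 1 = Fintype.card ι * 2 := by have := D.hι; omega
  have g3 : Hom (k - 1) (ang (FV.PVB h) W) := hom_ang g2
  exact Hom.sub (fun z => RRC.isDeg_K g1 z) (Hom.add g3.pull dμ.pull)

/-- **the primitives `K(E^*x)` and the angular form** -/
theorem exists_kappa {h : GT.Bla G k} (D : XM h m W p x) :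
    ∃ μ : Euc N × Euc N → Ext (Euc N × Euc N), Sm (GT.FF S) μ ∧ Hom (k - 1) μ ∧
      Coh (US G) (K (F.pull (EE G) x)) (kU G h W + F.pull (FV.phi G) μ) := by
  have := XM.ne D
  obtain ⟨μ, sμ, dμ, eμ⟩ := exists_mu D
  refine ⟨μ, sμ, dμ, ?_⟩
  have ex := D.exactIn_US
  rw [FV.Sph_S] at ex
  have sK : Sm (US G) (K (F.pull (EE G) x)) := sm_KX D.sx
  have sU : Sm (US G) (kU G h W) := sm_kU h (XM.eF D) D.hW
  have sφ : Sm (US G) (F.pull (FV.phi G) μ) := sμ.pull (KD.smap_phi h.bl)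
  have c := ex _ (sK.sub (sU.add sφ)) (cl_diff D sμ eμ) (hom_diff D dμ)
  have := c.add (Coh.refl (kU G h W + F.pull (FV.phi G) μ))
  rwa [sub_add_cancel, zero_add] at this

end Crest.Agent.R208.JV
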