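import Crest.Agent.R208.JV5
import Crest.Agent.R208.SB3

/-! Row 208, block JV (helper638).  JV6: `|∫_US K(E^*x) φ^*b| = τ |∫_F b|`, the integral of
`K(E^*x)` over the spheres of `V` is `± τ`, and `|∫_S x^m| = τ |∫_{C_p} x^(m-1)|`. -/

set_option autoImplicit false
set_option linter.unusedSectionVars false

open MeasureTheory MeasureTheory.Measure Set Filter Topology Module Metric
open scoped ContDiff RealInnerProductSpace
open Crest.GeometryTopology.Submanifold
open Crest.Agent.R241.DDefs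
open Crest.Agent.R241.D2
open Crest.Agent.R208.F Crest.Agent.R208.FI Crest.Agent.R208.CW Crest.Agent.R208.T
open Crest.Agent.R208.RR (Cyl sl K)
open Crest.Agent.R208.RRC (EE PP smap_EE smap_PP)
open Crest.Agent.R208.L (US)

noncomputable section

namespace Crest.Agent.R208.JV

variable {n N k m : ℕ} {κ : ℝ} {S : Set (Euc N)} {G : Geo n N κ S} {p : Euc N}
  {ι : Type} [Fintype ι] [DecidableEq ι] {W : Euc N × Euc N → (ι × Fin 2 → Fin N) → ℝ}
  {x : Euc N → Ext (Euc N)} {d dF : ℕ} {oU oF b : Euc N × Euc N → Ext (Euc N × Euc N)}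

theorem cl_top {E : Type*} [NormedAddCommGroup E] [NormedSpace ℝ E] [FiniteDimensional ℝ E]
    {X : Set E} {b : E → Ext E} (hX : FI.Sub d X) (sb : Sm X b) (db : Hom d b) : Cl X b := by
  have h1 : Eqv X (F.d b) (T.dp (d + 1) (F.d b)) := Eqv.of_eq fun x hx => by
    have h2 := dp_d d (sb.diff hx)
    have h3 : T.dp d b = b := db.dp_eq
    rw [h3] at h2
    exact h2.symm
  exact resZero_iff.2 (h1.trans (resZero_iff.1 (SO.resZero_of_gt hX (hom_dp (d + 1) (F.d b))
    (Nat.lt_succ_self d))))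

/-- **total integrals** -/
theorem abs_J_KX {h : GT.Bla G k} (D : XM h m W p x) (hdF : dF + k = 2 * n)
    (hd : d + 1 = 2 * n) (hoU : Ori d (US G) oU) (hoF : Ori dF (GT.FF S) oF)
    (sb : Sm (GT.FF S) b) (db : Hom dF b) :
    |J d (US G) oU (K (F.pull (EE G) x) * F.pull (FV.phi G) b)| =
      XF.tau ι * |J dF (GT.FF S) oF b| := by
  have := XM.ne D
  have hk := D.hk
  have hkn := D.hkn
  obtain ⟨μ, sμ, dμ, hc⟩ := exists_kappa D
  have hU := SB.clo_US h hd
  have hFc := FV.clo_FF' h hdF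
  have cb : Cl (GT.FF S) b := cl_top hFc.sub sb db
  have sB : Sm (US G) (F.pull (FV.phi G) b) := sb.pull (KD.smap_phi h.bl)
  have cB : Cl (US G) (F.pull (FV.phi G) b) := T.Cl.pull (KD.smap_phi h.bl) sb cb
  have sK : Sm (US G) (K (F.pull (EE G) x)) := sm_KX D.sx
  have sU : Sm (US G) (kU G h W) := sm_kU h hdF D.hW
  have sφ : Sm (US G) (F.pull (FV.phi G) μ) := sμ.pull (KD.smap_phi h.bl)
  have h1 : J d (US G) oU (K (F.pull (EE G) x) * F.pull (FV.phi G) b) =
      J d (US G) oU ((kU G h W + F.pull (FV.phi G) μ) * F.pull (FV.phi G) b) :=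
    SO.J_coh hU hoU (sK.mul sB) ((sU.add sφ).mul sB) (Coh.mul_right sB cB hc)
  have h2 : Eqv (US G) ((kU G h W + F.pull (FV.phi G) μ) * F.pull (FV.phi G) b)
      (F.pull (FV.up G) (ang (FV.PVB h) W * F.pull Prod.fst b)) := by
    have e1 : Eqv (US G) (F.pull (FV.phi G) μ * F.pull (FV.phi G) b) 0 := by
      rw [← pull_mul', ← pull_zero' (FV.phi G)]
      refine Eqv.pull (KD.smap_phi h.bl) (resZero_iff.1 (SO.resZero_of_gt hFc.sub
        (p := k - 1 + dF) (fun z => isDeg_mul (dμ z) (db z)) (by omega)))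
    have e2 : Eqv (US G) (F.pull (FV.up G) (F.pull Prod.fst b)) (F.pull (FV.phi G) b) :=
      eqv_pull_pull (smap_up h) smap_fstS (KD.smap_phi h.bl) (fun _ _ => rfl) b
    rw [add_mul, pull_mul']
    exact ((Eqv.refl _).add e1).trans ((Eqv.of_eq fun z _ => by
      rw [Pi.add_apply, Pi.zero_apply, add_zero]).trans ((Eqv.refl (kU G h W)).mul e2.symm))
  have hr : k - 1 + 1 = Fintype.card ι * 2 := by have := D.hι; omega
  have hP := pfr D.hW hr
  have hcl : Clo (k - 1 + dF) (Sph (GT.FF S) (FV.PVB h)) := SB.clo_Sph hFc hP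
  have hd' : k - 1 + dF = d := by omega
  have hoX : Ori (k - 1 + dF) (Sph (GT.FF S) (FV.PVB h))
      (Hop (ER (E := Euc N × Euc N) (H := Euc N)) (oSB W (dp dF oF))) :=
    (swp hFc hP).ori (ori_oSB hFc (ori_dp hoF) (fun x => isDeg_dpl _ _) D.hW hr)
  have h3 := abs_J_ang hFc (FV.preconn_FF' h (by omega)) hoF D.hW hr sb db
    ⟨FV.phi G (Classical.choose (nonempty_UST h D.hp)),
      (KD.smap_phi h.bl).maps (Classical.choose_spec (nonempty_UST h D.hp))⟩ hoX
  rw [h1, SO.J_eqv hU h2, ← h3]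
  rw [hd'] at hcl hoX ⊢
  refine abs_J_dif (SB.dif_US h) hU hcl (FV.preconn_US h.bl (by omega)) hoU hoX ?_
  exact RR.Sm.cont ((sm_ang hFc.sub D.hW).mul (sb.pull smap_fstS))

end Crest.Agent.R208.JV
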