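import Crest.Agent.R208.RRc365C
import Crest.Agent.R208.TX6b
import Crest.Agent.R208.SO1
import Crest.Agent.R208.AF9

/-! Row 208, block (JV4-S) (helper126): `|∫_S x^m| = τ |∫_{C_p} x^(m-1)|`.
JW1: the sweep `U_p × [0,1] → S` gives `|∫_S x^(i+1)| = |∫_{U_p} K(E^*x) (E_1^*x)^i|`, and the
transport to the sphere bundle of `V_{·p}` over the cut locus. -/

set_option autoImplicit false
set_option linter.unusedSectionVars false
set_option linter.unusedVariables false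

open MeasureTheory Set Filter Topology Module
open scoped ContDiff RealInnerProductSpace
open Crest.GeometryTopology.Submanifold
open Crest.Agent.R241.DDefs
open Crest.Agent.R241.D2
open Crest.Agent.R208.F Crest.Agent.R208.FI Crest.Agent.R208.CW Crest.Agent.R208.T
open Crest.Agent.R208.RR
open Crest.Agent.R208.L (US)
open Crest.Agent.R208.RRC (EE)

noncomputable section

namespace Crest.Agent.R208.JW

section gen
universe u
variable {E : Type u} [NormedAddCommGroup E] [NormedSpace ℝ E] [FiniteDimensional ℝ E]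
  {Z : Set E} {d : ℕ} {Om : E × ℝ → Ext (E × ℝ)} {o : E → Ext E}

/-- pulling back by a constant map -/
theorem pull_const_hom {F' : Type*} [NormedAddCommGroup F'] [NormedSpace ℝ F']
    [FiniteDimensional ℝ F'] {c : F'} {b : F' → Ext F'} {j : ℕ} (hj : 1 ≤ j) (hb : Hom j b) :
    F.pull (fun _ : E => c) b = 0 := by
  funext y
  rw [F.pull, fderiv_fun_const]
  refine ext_evA fun q => ?_
  ext v
  by_cases hq : q = j
  · subst hq
    have h1 : evA E q (pb (((0 : E →L[ℝ] F') : E →ₗ[ℝ] F')) (b c)) v =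
        evA F' q (b c) (fun _ => (0 : F')) := by
      rw [evA_pb]; rfl
    have h2 : evA F' q (b c) (fun _ => (0 : F')) = 0 :=
      AlternatingMap.map_coord_zero _ (⟨0, hj⟩ : Fin q) rfl
    change evA E q (pb (((0 : E →L[ℝ] F') : E →ₗ[ℝ] F')) (b c)) v = evA E q 0 v
    rw [h1, h2]
    simp
  · have h1 : IsDeg j (pb (((0 : E →L[ℝ] F') : E →ₗ[ℝ] F')) (b c)) := (hb c).pb _
    change evA E q (pb (((0 : E →L[ℝ] F') : E →ₗ[ℝ] F')) (b c)) v = evA E q 0 v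
    rw [h1 q hq]
    simp

/-- `∫_Z K(Ω^(i+1)) = ∫_Z K(Ω) Ω_1^i`, if `Ω_0 = 0` -/
theorem JK_pow (hZ : Clo d Z) (ho : Ori d Z o) (hs : Sm (Cyl Z) Om) (hc : Cl (Cyl Z) Om)
    (h0 : Eqv Z (F.pull (sl 0) Om) 0) (i : ℕ) :
    J d Z o (K (Om ^ (i + 1))) = J d Z o (K Om * (F.pull (sl 1) Om) ^ i) := by
  obtain ⟨h1, h2, h3⟩ := prim_zero hs hc h0
  set μ := Hop Ho0 Om with hμ
  have sμ : Sm (Cyl Z) μ := sm_Hop0 hs
  have sP : Sm (Cyl Z) (Om ^ i) := T.Sm.pow hs i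
  have cP : Cl (Cyl Z) (Om ^ i) := T.Cl.pow hs hc i
  have e1 : Eqv (Cyl Z) (Om ^ (i + 1)) (F.d (μ * Om ^ i)) := by
    have a1 := (d_mul_cl sμ sP cP).trans (h1.mul (Eqv.refl _))
    rw [pow_succ']
    exact a1.symm
  rw [JK_congr hZ (T.Sm.pow hs _) (sμ.mul sP).d e1, JK_d hZ ho (sμ.mul sP)]
  have e2 : J d Z o (F.pull (sl 0) (μ * Om ^ i)) = 0 := by
    have a1 : Eqv Z (F.pull (sl 0) (μ * Om ^ i)) 0 := by
      rw [pull_mul']
      have := h2.mul (Eqv.refl (X := Z) (F.pull (sl 0) (Om ^ i)))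
      rwa [zero_mul] at this
    rw [J_eqv hZ a1]; exact J_zero
  rw [e2, sub_zero, pull_mul', T.pull_pow']
  exact J_eqv hZ (h3.mul (Eqv.refl _))

end gen

section main
variable {n N k : ℕ} {κ : ℝ} {S : Set (Euc N)} {G : Geo n N κ S} {p : Euc N}
  {x oS : Euc N → Ext (Euc N)}

/-- the unit sphere of `T_p` -/
def Up (G : Geo n N κ S) (p : Euc N) : Set (Euc N × Euc N) := US G ∩ Prod.fst ⁻¹' {p}

/-- the sphere bundle of `V_{·p}` over the cut locus -/
abbrev YC (h : GT.Bla G k) (p : Euc N) : Set (Euc N × Euc N) := Sph (GP.Cut S p) (FV.PC h p)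

theorem Up_eq (hp : p ∈ S) : Up G p = Sph {p} (fun _ : Euc N => G.P p) := by
  ext z
  rw [FV.mem_Sph_pt hp]
  rfl

theorem Up_sub : Up G p ⊆ US G := inter_subset_left

theorem smap_YU (h : GT.Bla G k) (hp : p ∈ S) : SMap (YC h p) (Up G p) (FV.arr G) := by
  rw [Up_eq hp]; exact FV.smap_Sph_Cut h hp

theorem smap_UY (h : GT.Bla G k) (hp : p ∈ S) : SMap (Up G p) (YC h p) (FV.arr G) := by
  rw [Up_eq hp]; exact FV.smap_Sph_pt h hp

theorem bij_YU (h : GT.Bla G k) (hp : p ∈ S) : BijOn (FV.arr G) (YC h p) (Up G p) := by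
  refine ⟨(smap_YU h hp).maps, fun z hz z' hz' e => ?_, fun z hz => ?_⟩
  · rw [← FV.arr_arr_Cut h hp hz, ← FV.arr_arr_Cut h hp hz', e]
  · exact ⟨FV.arr G z, (smap_UY h hp).maps hz, FV.arr_arr hz.1⟩

theorem clo_Up (h : GT.Bla G k) (hn : 2 ≤ n) (p : Euc N) : Clo (n - 1) (Up G p) := by
  obtain ⟨m, rfl⟩ : ∃ m, n = 1 + m := ⟨n - 1, by omega⟩
  have := (RRC.subm_US h.bl).clo_fibre p
  rwa [show 1 + m - 1 = m by omega]

theorem clo_YC (h : GT.Bla G k) (hk : 1 ≤ k) (hkn : k < n) (hp : p ∈ S) :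
    Clo (n - 1) (YC h p) := by
  obtain ⟨r, rfl⟩ : ∃ r, k = r + 1 := ⟨k - 1, by omega⟩
  have := SB.clo_Sph (FV.clo_Cut h hp) (FV.pfield_PC h hp)
  rwa [show r + (n - (r + 1)) = n - 1 by omega] at this

theorem preconn_YC (h : GT.Bla G k) (hk : 2 ≤ k) (hn : 2 ≤ n) (hp : p ∈ S) :
    IsPreconnected (YC h p) :=
  AF.preconn_Sph (FV.clo_Cut h hp).compact (FV.preconn_Cut h.bl h.ty hn hp) (FV.pfield_PC h hp) hk

/-- `K(E^* x)` on `U_p` -/
def kU (G : Geo n N κ S) (x : Euc N → Ext (Euc N)) : Euc N × Euc N → Ext (Euc N × Euc N) :=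
  K (F.pull (EE G) x)

theorem smap_EEU : SMap (Cyl (Up G p)) S (EE G) :=
  ⟨fun y hy => RRC.contDiffAt_EE (mem_Cyl.1 hy).1.1 y.2,
    fun y hy => RRC.EE_mem (mem_Cyl.1 hy).1.1 y.2⟩

theorem smap_E1 : SMap (Up G p) S (fun z => EE G (z, 1)) :=
  smap_EEU.comp (smap_sl 1)

/-- `Ω_0 = 0` on `U_p` -/
theorem slice_zero (hp : p ∈ S) (hk : 1 ≤ k) (dx : Hom k x) :
    Eqv (Up G p) (F.pull (sl 0) (F.pull (EE G) x)) 0 := by
  have hc : SMap (Up G p) S (fun _ => p) := ⟨fun _ _ => contDiffAt_const, fun _ _ => hp⟩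
  have h1 := eqv_pull_pull (smap_sl 0) (smap_EEU (G := G) (p := p)) hc (fun z hz => by
    change Exp G z.1 ((Real.pi * 0) • z.2) = p
    rw [mul_zero, zero_smul, Exp_zero G hz.1.1.1]
    exact hz.2) x
  rwa [pull_const_hom hk dx] at h1

theorem slice_one : Eqv (Up G p) (F.pull (sl 1) (F.pull (EE G) x))
    (F.pull (fun z => EE G (z, 1)) x) :=
  eqv_pull_pull (smap_sl 1) smap_EEU smap_E1 (fun _ _ => rfl) x

/-- **the sweep**: `|∫_S x^(i+1)| = |∫_{U_p} κ (E_1^* x)^i|`, `κ = K(E^*x)` -/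
theorem J_S_eq (h : GT.Bla G k) (hk : 1 ≤ k) (hn : 2 ≤ n) (hp : p ∈ S) (sx : Sm S x) (cx : Cl S x)
    (dx : Hom k x) (hoS : Ori n S oS) (i : ℕ) :
    ∃ oU, Ori (n - 1) (Up G p) oU ∧
      J n S oS (x ^ (i + 1)) =
        J (n - 1) (Up G p) oU (kU G x * (F.pull (fun z => EE G (z, 1)) x) ^ i) := by
  obtain ⟨m, rfl⟩ : ∃ m, n = 1 + m := ⟨n - 1, by omega⟩
  have e : 1 + m - 1 = m := by omega
  rw [e]
  have hsw := RRC.swp h.bl hp
  have hZ : Clo m (Up G p) := hsw.cloZ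
  have hoU := hsw.ori hoS
  refine ⟨_, hoU, ?_⟩
  have h1 := hsw.J_eq hoS (Sm.cont (T.Sm.pow sx (i + 1)))
  have h2 : J m (Up G p) (Hop (EE G) oS) (K (F.pull (EE G) x ^ (i + 1))) =
      J (1 + m) S oS (x ^ (i + 1)) := by
    rw [← T.pull_pow']; exact h1
  rw [← h2]
  have hs : Sm (Cyl (Up G p)) (F.pull (EE G) x) := sx.pull smap_EEU
  have hc : Cl (Cyl (Up G p)) (F.pull (EE G) x) := Cl.pull smap_EEU sx cx
  have h3 := JK_pow hZ hoU hs hc (slice_zero hp hk dx) i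
  refine h3.trans (J_eqv hZ ?_)
  refine (Eqv.refl _).mul ?_
  refine eqv_iff.2 fun z hz => ?_
  have := eqv_iff.1 (slice_one (G := G) (p := p) (x := x)) z hz
  rw [Pi.pow_apply, Pi.pow_apply, map_pow, map_pow, this]

/-- the form `κ` over the sphere bundle of `V_{·p}` -/
def kY (G : Geo n N κ S) (x : Euc N → Ext (Euc N)) : Euc N × Euc N → Ext (Euc N × Euc N) :=
  F.pull (FV.arr G) (kU G x)

theorem sm_kU (sx : Sm S x) : Sm (Up G p) (kU G x) := Sm.K (sx.pull smap_EEU)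

theorem sm_kY (h : GT.Bla G k) (hp : p ∈ S) (sx : Sm S x) : Sm (YC h p) (kY G x) :=
  (sm_kU sx).pull (smap_YU h hp)

theorem smap_fstC (h : GT.Bla G k) : SMap (YC h p) S Prod.fst :=
  ⟨fun _ _ => contDiffAt_fst, fun _ hz => hz.1.1.1⟩

theorem pull_E1_arr (h : GT.Bla G k) (hp : p ∈ S) (b : Euc N → Ext (Euc N)) :
    Eqv (YC h p) (F.pull (FV.arr G) (F.pull (fun z => EE G (z, 1)) b)) (F.pull Prod.fst b) :=
  eqv_pull_pull (smap_YU h hp) smap_E1 (smap_fstC h) (fun z hz => by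
    have h1 : FV.arr G (FV.arr G z) = z := FV.arr_arr_Cut h hp hz
    have h2 : (FV.arr G (FV.arr G z)).1 = z.1 := by rw [h1]
    change Exp G (FV.arr G z).1 ((Real.pi * 1) • (FV.arr G z).2) = z.1
    rw [mul_one]
    exact h2) b

/-- `d κ = pr^* x` over the sphere bundle of `V_{·p}` -/
theorem d_kY (h : GT.Bla G k) (hk : 1 ≤ k) (hp : p ∈ S) (sx : Sm S x) (cx : Cl S x)
    (dx : Hom k x) : Eqv (YC h p) (F.d (kY G x)) (F.pull Prod.fst x) := by
  have hs : Sm (Cyl (Up G p)) (F.pull (EE G) x) := sx.pull smap_EEU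
  have hc : Cl (Cyl (Up G p)) (F.pull (EE G) x) := Cl.pull smap_EEU sx cx
  have h1 := K_d_eqv hs
  have h2 : Eqv (Up G p) (K (F.d (F.pull (EE G) x))) 0 := by
    have h3 := K_eqv hs.d Sm.zero (resZero_iff.1 hc)
    have h4 : K (0 : (Euc N × Euc N) × ℝ → Ext ((Euc N × Euc N) × ℝ)) = 0 := by
      have := K_smul (E := Euc N × Euc N) (w := 0) 0
      rwa [zero_smul, zero_smul] at this
    rwa [h4] at h3
  have h5 : Eqv (Up G p) (F.d (kU G x)) (F.pull (fun z => EE G (z, 1)) x) := by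
    have a1 := ((Eqv.refl (X := Up G p) (F.d (kU G x))).add h2).symm.trans h1
    have a2 := (slice_one (G := G) (p := p) (x := x)).sub (slice_zero hp hk dx)
    rw [add_zero] at a1
    rw [sub_zero] at a2
    exact a1.trans a2
  have h6 : Eqv (YC h p) (F.d (kY G x)) (F.pull (FV.arr G) (F.d (kU G x))) :=
    d_pull_eqv (smap_YU h hp) (sm_kU sx)
  exact h6.trans ((h5.pull (smap_YU h hp)).trans (pull_E1_arr h hp x))

end main

end Crest.Agent.R208.JW
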