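import Crest.Agent.R208.JW2
import Crest.Agent.R208.JV3b
import Crest.Agent.R208.CQ1

/-! Row 208, block (JV4-S) (helper126).  JW3: **the value of `x^m`**:
`|∫_S x^m| = τ |∫_{C_p} x^(m-1)| ≤ τ^m`. -/

set_option autoImplicit false
set_option linter.unusedSectionVars false
set_option linter.unusedVariables false

open MeasureTheory Set Filter Topology Module
open scoped ContDiff RealInnerProductSpace
open Crest.GeometryTopology.Submanifold
open Crest.Agent.R241.DDefs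
open Crest.Agent.R241.D2
open Crest.Agent.R208.F Crest.Agent.R208.FI Crest.Agent.R208.CW Crest.Agent.R208.T
open Crest.Agent.R208.RR
open Crest.Agent.R208.L (US)
open Crest.Agent.R208.RRC (EE)

noncomputable section

namespace Crest.Agent.R208.JW

variable {n N k m : ℕ} {κ : ℝ} {S : Set (Euc N)} {G : Geo n N κ S} {p : Euc N}
  {ι : Type} [Fintype ι] [DecidableEq ι] {W : Euc N × Euc N → (ι × Fin 2 → Fin N) → ℝ}
  {x oS oC : Euc N → Ext (Euc N)}

theorem hom_pow_sub {h : GT.Bla G k} (D : XM h m W p x) : Hom (n - k) (x ^ (m - 1)) := by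
  have h1 := D.dx.pow (m - 1)
  have hn := D.hn
  have hm := D.hm
  have e : k * (m - 1) = n - k := by rw [hn, Nat.mul_sub, mul_one]
  rwa [e] at h1

/-- **(JV4-S)** -/
theorem J_S_eq_tau {h : GT.Bla G k} (D : XM h m W p x) (hoS : Ori n S oS)
    (hoC : Ori (n - k) (GP.Cut S p) oC) :
    |J n S oS (x ^ m)| = XF.tau ι * |J (n - k) (GP.Cut S p) oC (x ^ (m - 1))| := by
  have hk := D.hk
  have hkn := D.hkn
  have hm := D.hm
  have hι := D.hι
  have : Nonempty ι := Fintype.card_pos_iff.1 (by omega)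
  have hOR := OR_Cut h D.hp D.hW
  have hC := FV.clo_Cut h D.hp
  have hr : k - 1 + 1 = Fintype.card ι * 2 := by omega
  have hd : k - 1 + (n - k) = n - 1 := by omega
  have s1 := JV.sm_ang hC.sub hOR
  have s2 := JV.hom_ang (P := FV.PC h p) (W := fun q => W (q, p)) hr
  have s3 : Eqv (YC h p) (F.d (JV.ang (FV.PC h p) (fun q => W (q, p)))) (-(F.pull Prod.fst x)) := by
    refine (JV.d_ang hC.sub hOR).trans (Eqv.neg ?_)
    exact (D.ex.pull (smap_fstS (X := GP.Cut S p) (P := FV.PC h p))).symm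
  have sx' : Sm (GP.Cut S p) (x ^ (m - 1)) := (T.Sm.pow D.sx (m - 1)).mono fun _ hq => hq.1
  have key := J_S_of h hk hkn D.hp D.sx D.cx D.dx hoS s1 s2 s3 (m - 1)
    (c := XF.tau ι * |J (n - k) (GP.Cut S p) oC (x ^ (m - 1))|) (fun oY hoY => by
      have h1 := JV.abs_J_ang hC (FV.preconn_Cut h.bl h.ty (by omega) D.hp) hoC hOR hr sx'
        (hom_pow_sub D) (SN.Cut_nonempty h (by omega) D.hp) (o := oY) (by rwa [hd])
      rwa [hd] at h1)
  rwa [show m - 1 + 1 = m by omega] at key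

/-- the powers of `x` on the cut locus -/
theorem J_Cut_pow {h : GT.Bla G k} (D : XM h m W p x) (hoC : Ori (n - k) (GP.Cut S p) oC) :
    |J (n - k) (GP.Cut S p) oC (x ^ (m - 1))| =
      |J (n - k) (GP.Cut S p) oC (eR (SN.PL h p) (fun c => W (p, c)) ^ (m - 1))| := by
  have hk := D.hk
  have hι := D.hι
  have : Nonempty ι := Fintype.card_pos_iff.1 (by omega)
  have hW' := XM.OR_PL h D.hp D.hW
  have hC := FV.clo_Cut h D.hp
  have sx : Sm (GP.Cut S p) x := fun c hc => D.sx c hc.1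
  have cx : Cl (GP.Cut S p) x := D.cx.mono fun _ hc => hc.1
  have sE : Sm (GP.Cut S p) (eR (SN.PL h p) (fun c => W (p, c))) := hW'.ec_eR.sm
  have cE : Cl (GP.Cut S p) (eR (SN.PL h p) (fun c => W (p, c))) := hW'.ec_eR.cl
  have cE' : Cl (GP.Cut S p) (-eR (SN.PL h p) (fun c => W (p, c))) := by
    have := T.Cl.smul (-1) sE cE
    rwa [neg_one_smul] at this
  have h1 := T.Coh.powT sx cx sE.neg cE' (CQ.restr_PL D D.hp) (m - 1)
  rw [SO.J_coh hC hoC (T.Sm.pow sx _) (T.Sm.pow sE.neg _) h1]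
  rcases Nat.even_or_odd (m - 1) with he | ho
  · rw [he.neg_pow]
  · rw [ho.neg_pow]
    have := J_smul' (d := n - k) (Z := GP.Cut S p) (o := oC)
      (a := eR (SN.PL h p) (fun c => W (p, c)) ^ (m - 1)) (-1 : ℝ)
    rw [neg_one_smul, neg_one_mul] at this
    rw [this, abs_neg]

/-- **`|∫_S x^m| ≤ τ^m`** -/
theorem J_S_le {h : GT.Bla G k} (D : XM h m W p x) (hoS : Ori n S oS) :
    |J n S oS (x ^ m)| ≤ XF.tau ι ^ m := by
  have hk := D.hk
  have hkn := D.hkn
  have hm := D.hm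
  obtain ⟨oC, hoC, -, -⟩ := exists_ori_Cut h hk hkn D.hp
  rw [J_S_eq_tau D hoS hoC, J_Cut_pow D hoC]
  have h1 := SN.abs_J_Cut_le h D.hι (i := m - 1) hk (by
    rw [Nat.sub_add_cancel (by omega : 1 ≤ m)]; exact D.hn) D.hp (XM.OR_PL h D.hp D.hW) hoC
  have h2 : |J (n - k) (GP.Cut S p) oC (eR (SN.PL h p) (fun c => W (p, c)) ^ (m - 1))| ≤
      XF.tau ι ^ (m - 1) := h1
  calc _ ≤ XF.tau ι * XF.tau ι ^ (m - 1) := mul_le_mul_of_nonneg_left h2 (XF.tau_pos ι).le
    _ = XF.tau ι ^ m := by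
      rw [← pow_succ', Nat.sub_add_cancel (by omega : 1 ≤ m)]

/-- `n = 2k`: the value -/
theorem J_S_two {h : GT.Bla G k} (D : XM h 2 W p x) (hoS : Ori n S oS) :
    |J n S oS (x ^ 2)| = XF.tau ι ^ 2 := by
  obtain ⟨oC, hoC, -, -⟩ := exists_ori_Cut h D.hk D.hkn D.hp
  rw [J_S_eq_tau D hoS hoC]
  have h1 := CQ.J_Cut_val D D.hp hoC
  rw [show (2 : ℕ) - 1 = 1 by norm_num, pow_one, h1, sq]

end Crest.Agent.R208.JW
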