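import Crest.Agent.R208.JX1

/-! Row 208 (helper613), part JX2: (JV4-F) from a form `kap` on `Sph F V` with
`d kap = pr^* e_R(V)` (349's shape `SB.exists_kap`). -/

set_option autoImplicit false
set_option linter.unusedSectionVars false
set_option linter.unusedVariables false

open MeasureTheory Set Filter Topology Module
open scoped ContDiff RealInnerProductSpace
open Crest.GeometryTopology.Submanifold
open Crest.Agent.R241.DDefs
open Crest.Agent.R241.D2
open Crest.Agent.R208.F Crest.Agent.R208.FI Crest.Agent.R208.CW Crest.Agent.R208.T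
open Crest.Agent.R208.L (US)
open Crest.Agent.R208.RRC (EE smap_EE)

noncomputable section

namespace Crest.Agent.R208.JX

variable {n N k m : ℕ} {κ : ℝ} {S : Set (Euc N)} {G : Geo n N κ S} {p : Euc N}
  {ι : Type} [Fintype ι] [DecidableEq ι] {W : Euc N × Euc N → (ι × Fin 2 → Fin N) → ℝ}
  {x : Euc N → Ext (Euc N)} {z : Euc N × Euc N}

theorem J_neg' {E : Type*} [NormedAddCommGroup E] [NormedSpace ℝ E] [FiniteDimensional ℝ E]
    {d : ℕ} {Z : Set E} {o a : E → Ext E} : J d Z o (-a) = -J d Z o a := by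
  have h1 := RR.J_smul' (d := d) (Z := Z) (o := o) (a := a) (-1)
  rw [neg_one_smul, neg_one_mul] at h1
  exact h1

/-- **(JV4-F)** from 349's form of (JV3) -/
theorem abs_KE_of {h : GT.Bla G k} (D : XM h m W p x) {τ : ℝ}
    (hK : ∃ kap : (Euc N × Euc N) × Euc N → Ext ((Euc N × Euc N) × Euc N),
      Sm (T.Sph (GT.FF S) (FV.PVB h)) kap ∧ Hom (2 * Fintype.card ι - 1) kap ∧
      Eqv (T.Sph (GT.FF S) (FV.PVB h)) (F.d kap) (F.pull Prod.fst (eR (FV.PVB h) W)) ∧
      ∀ y ∈ GT.FF S, ∀ o, Ori (2 * Fintype.card ι - 1) (T.Sph {y} (FV.PVB h)) o →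
        |J (2 * Fintype.card ι - 1) (T.Sph {y} (FV.PVB h)) o kap| = τ)
    (hz : z ∈ US G) {oF : Euc N × Euc N → Ext (Euc N × Euc N)}
    (ho : Ori (k - 1) (Fb G z) oF) :
    |J (k - 1) (Fb G z) oF (RR.K (F.pull (EE G) x))| = τ := by
  obtain ⟨kap, s1, d1, e1, h1⟩ := hK
  rw [D.hι] at d1 h1
  refine abs_KE D hz s1.neg d1.neg ?_ (fun y hy o hoo => ?_) ho
  · rw [d_neg']; exact e1.neg
  · rw [J_neg', abs_neg]; exact h1 y hy o hoo

end Crest.Agent.R208.JX
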