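import Crest.Agent.R208.SO4

/-! Row 208, block SO (helper638).  SO5: the Hopf invariant of `f₀^*ω²` on `U = US` from the
relations on `F`, and the final form of (S1'). -/

set_option autoImplicit false
set_option linter.unusedSectionVars false

open MeasureTheory Set Filter Topology Module
open scoped ContDiff
open Crest.Agent.R208.F Crest.Agent.R208.FI Crest.Agent.R208.CW Crest.Agent.R208.T

noncomputable section

namespace Crest.Agent.R208.SO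

variable {EU : Type*} [NormedAddCommGroup EU] [NormedSpace ℝ EU] [FiniteDimensional ℝ EU]
  {EF : Type*} [NormedAddCommGroup EF] [NormedSpace ℝ EF] [FiniteDimensional ℝ EF]
  {F' : Type*} [NormedAddCommGroup F'] [NormedSpace ℝ F'] [FiniteDimensional ℝ F']

/-- the Hopf invariant of `f₀^*ω²`: `h₂(x₁, x₂) = dν` on `FF`, `x₁ - x₂ = dθ` on `U`. -/
theorem eval {U : Set EU} {FF : Set EF} {S : Set F'} {oU : EU → Ext EU} {πF : EU → EF}
    {p₁ p₂ : EF → F'} (hU : Clo 31 U) (hoU : Ori 31 U oU) (hFF : Sub 24 FF) (hS : Sub 16 S)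
    (sπ : SMap U FF πF) (s₁ : SMap FF S p₁) (s₂ : SMap FF S p₂)
    {om : F' → Ext F'} (hom : CF2 S 8 om) {ν : EF → Ext EF} (sν : Sm FF ν) (dν : Hom 15 ν)
    (hν : Eqv FF (F.d ν) (F.pull p₁ om * F.pull p₁ om + F.pull p₁ om * F.pull p₂ om +
      F.pull p₂ om * F.pull p₂ om))
    {θ : EU → Ext EU} (sθ : Sm U θ) (dθ : Hom 7 θ)
    (hθ : Eqv U (F.d θ) (F.pull πF (F.pull p₁ om - F.pull p₂ om)))
    {f0 : EU → F'} (sf0 : SMap U S f0) (hf0 : ∀ u ∈ U, f0 u = p₁ (πF u)) :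
    ∃ κ : EU → Ext EU, Sm U κ ∧ Hom 15 κ ∧ Eqv U (F.d κ) (F.pull f0 (om * om)) ∧
      J 31 U oU (F.pull f0 (om * om) * κ) =
        1 / 3 * J 31 U oU (θ * F.pull πF (F.pull p₁ om * F.pull p₁ om * F.pull p₂ om)) := by
  set x₁ : EF → Ext EF := F.pull p₁ om with hx₁
  set x₂ : EF → Ext EF := F.pull p₂ om with hx₂
  have e₁ : CF2 FF 8 x₁ := hom.pull s₁
  have e₂ : CF2 FF 8 x₂ := hom.pull s₂
  have E₁ : CF2 U 8 (F.pull πF x₁) := e₁.pull sπ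
  have E₂ : CF2 U 8 (F.pull πF x₂) := e₂.pull sπ
  have hg : Eqv U (F.pull f0 om) (F.pull πF x₁) := by
    refine (eqv_pull_of_eq om (fun u hu => sf0.diff hu) (fun u hu => (s₁.comp sπ).diff hu)
      hf0).trans (Eqv.of_eq fun u hu => ?_)
    exact (pull_comp (sπ.diff hu) (s₁.diff (sπ.maps hu))).symm
  set X₁ := F.pull πF x₁ with hX₁
  set X₂ := F.pull πF x₂ with hX₂
  have sV : CF2 U 8 ((2 : ℝ) • X₁ + X₂) := (E₁.smul 2).add E₂
  have sPν : Sm U (F.pull πF ν) := sν.pull sπ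
  refine ⟨(1 / 3 : ℝ) • (F.pull πF ν + θ * ((2 : ℝ) • X₁ + X₂)),
    (sPν.add (sθ.mul sV.sm)).smul _, (dν.pull.add (dθ.mul sV.hom)).smul _, ?_, ?_⟩
  · have a1 := d_smul_eqv (1 / 3 : ℝ) (sPν.add (sθ.mul sV.sm))
    have a2 := d_add_eqv sPν (sθ.mul sV.sm)
    have a3 : Eqv U (F.d (F.pull πF ν)) (F.pull πF (x₁ * x₁ + x₁ * x₂ + x₂ * x₂)) :=
      (d_pull_eqv sπ sν).trans (hν.pull sπ)
    have a4 : Eqv U (F.d (θ * ((2 : ℝ) • X₁ + X₂))) (F.d θ * ((2 : ℝ) • X₁ + X₂) +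
        (fun x => F.inv (θ x)) * F.d ((2 : ℝ) • X₁ + X₂)) := d_mul_eqv sθ sV.sm
    have a5 : Eqv U ((fun x => F.inv (θ x)) * F.d ((2 : ℝ) • X₁ + X₂)) 0 := by
      have := (Eqv.refl (X := U) (fun x => F.inv (θ x))).mul (resZero_iff.1 sV.cl)
      rwa [mul_zero] at this
    have a6 : Eqv U (F.d θ * ((2 : ℝ) • X₁ + X₂)) ((X₁ - X₂) * ((2 : ℝ) • X₁ + X₂)) := by
      rw [hX₁, hX₂, ← pull_sub']
      exact hθ.mul (Eqv.refl _)
    have a7 := a3.add (a4.trans (a6.add a5))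
    have a8 := (a1.trans ((a2.trans a7).smul (1 / 3 : ℝ)))
    refine a8.trans ?_
    have c : X₂ * X₁ = X₁ * X₂ := (E₁.comm X₂).symm
    have a9 : (1 / 3 : ℝ) • (F.pull πF (x₁ * x₁ + x₁ * x₂ + x₂ * x₂) +
        ((X₁ - X₂) * ((2 : ℝ) • X₁ + X₂) + 0)) = X₁ * X₁ := by
      rw [pull_add', pull_add', pull_mul', pull_mul', pull_mul', ← hX₁, ← hX₂]
      simp only [sub_mul, mul_add, mul_smul_comm, c]
      module
    rw [a9, pull_mul']
    exact (hg.mul hg).symm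
  · -- the integral
    have b1 : Eqv U (F.pull f0 (om * om) * ((1 / 3 : ℝ) • (F.pull πF ν +
        θ * ((2 : ℝ) • X₁ + X₂)))) ((1 / 3 : ℝ) • (θ * F.pull πF (x₁ * x₁ * x₂))) := by
      have b2 : Eqv U (F.pull f0 (om * om)) (X₁ * X₁) := by
        rw [pull_mul']; exact hg.mul hg
      refine (b2.mul (Eqv.refl _)).trans ?_
      rw [mul_smul_comm]
      refine Eqv.smul _ ?_
      have b3 : X₁ * X₁ * (F.pull πF ν + θ * ((2 : ℝ) • X₁ + X₂)) =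
          F.pull πF (x₁ * x₁ * ν) + (θ * ((2 : ℝ) • (X₁ * X₁ * X₁)) +
            θ * F.pull πF (x₁ * x₁ * x₂)) := by
        have c1 : X₁ * X₁ * θ = θ * (X₁ * X₁) := (E₁.mul E₁).comm θ
        rw [pull_mul', pull_mul', pull_mul', pull_mul', mul_add, ← mul_assoc (X₁ * X₁) θ, c1,
          mul_assoc θ, mul_add (X₁ * X₁), mul_smul_comm, mul_add θ]
      rw [b3]
      have b4 : Eqv U (F.pull πF (x₁ * x₁ * ν)) 0 :=
        resZero_iff.1 (T.ResZero.pull sπ (resZero_of_gt hFF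
          (((e₁.mul e₁).hom).mul dν) (by norm_num)))
      have b5 : Eqv U (X₁ * X₁ * X₁) 0 := by
        have h3 : Eqv FF (x₁ * x₁ * x₁) 0 := by
          rw [hx₁, ← pull_mul', ← pull_mul']
          exact resZero_iff.1 (T.ResZero.pull s₁ (resZero_of_gt hS
            ((hom.mul hom).mul hom).hom (by norm_num)))
        have := h3.pull sπ
        rwa [pull_mul', pull_mul', pull_zero'] at this
      have b6 : Eqv U (θ * ((2 : ℝ) • (X₁ * X₁ * X₁))) 0 := by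
        have := (Eqv.refl (X := U) θ).mul (b5.smul 2)
        rwa [smul_zero, mul_zero] at this
      have := b4.add (b6.add (Eqv.refl (θ * F.pull πF (x₁ * x₁ * x₂))))
      rwa [zero_add, zero_add] at this
    rw [J_eqv hU b1]
    exact J_smul _

universe u

variable {EZ : Type u} [NormedAddCommGroup EZ] [NormedSpace ℝ EZ] [FiniteDimensional ℝ EZ]
  {EY : Type*} [NormedAddCommGroup EY] [NormedSpace ℝ EY] [FiniteDimensional ℝ EY]
  {EB : Type*} [NormedAddCommGroup EB] [NormedSpace ℝ EB] [FiniteDimensional ℝ EB]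

/-- **(S1')**: `8 l² ∫_U α ∧ j^*(e x₀² p₃) = ∫_U θ ∧ x₁² x₂`. -/
theorem final {U : Set EU} {Z : Set EZ} {Y : Set EY} {B : Set EB} {S : Set F'} {FF : Set EF}
    {oU : EU → Ext EU} {oV : EZ → Ext EZ} {π : EZ → EU} {q : EZ → EY} {ρ : EY → EB} {j : EU → EB}
    (hπ : Subm 6 31 Z U π) (hUc : IsPreconnected U) (hoU : Ori 31 U oU) (dU : Hom 31 oU)
    (hoV : ContinuousOn oV Z) (hoZ : Ori 37 Z (oV * F.pull π oU))
    (hY : Sub 36 Y) (hB : Sub 30 B) (hS : Sub 16 S)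
    (sq : SMap Z Y q) (sρ : SMap Y B ρ) (sj : SMap U B j) (hc : ∀ z ∈ Z, ρ (q z) = j (π z))
    {α : EU → Ext EU} (sα : Sm U α) (dα : Hom 1 α) {e x p : EB → Ext EB} (he : CF2 B 2 e)
    (hx : CF2 B 8 x) (hp : CF2 B 12 p) (hα : Eqv U (F.d α) (F.pull j e))
    {w : EY → Ext EY} (hw : CF2 Y 6 w) {l : ℝ}
    (h1 : Coh B ((3 : ℝ) • (x * x) + (l ^ 2) • (e * e * p)) 0)
    (h2 : Coh Y (w * w) (F.pull ρ p))
    {om : F' → Ext F'} (hom : CF2 S 8 om) {fY : EY → F'} (sfY : SMap Y S fY)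
    (h3 : Coh Y (F.pull fY om) (F.pull ρ x + l • (F.pull ρ e * w)))
    {f0 : EU → F'} (sf0 : SMap U S f0) {Fh : EZ × ℝ → F'}
    (hF : ∀ z ∈ Z, ∀ t : ℝ, ContDiffAt ℝ ∞ Fh (z, t)) (hm : ∀ z ∈ Z, ∀ t : ℝ, Fh (z, t) ∈ S)
    (hF0 : ∀ z ∈ Z, Fh (z, 0) = f0 (π z)) (hF1 : ∀ z ∈ Z, Fh (z, 1) = fY (q z))
    {y : EU} (hy : y ∈ U) (hne : J 6 (Z ∩ π ⁻¹' {y}) oV (F.pull q w) ≠ 0)
    (hFF : Sub 24 FF) {πF : EU → EF} {p₁ p₂ : EF → F'}
    (sπF : SMap U FF πF) (s₁ : SMap FF S p₁) (s₂ : SMap FF S p₂)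
    {ν : EF → Ext EF} (sν : Sm FF ν) (dν : Hom 15 ν)
    (hν : Eqv FF (F.d ν) (F.pull p₁ om * F.pull p₁ om + F.pull p₁ om * F.pull p₂ om +
      F.pull p₂ om * F.pull p₂ om))
    {θ : EU → Ext EU} (sθ : Sm U θ) (dθ : Hom 7 θ)
    (hθ : Eqv U (F.d θ) (F.pull πF (F.pull p₁ om - F.pull p₂ om)))
    (hf0 : ∀ u ∈ U, f0 u = p₁ (πF u)) :
    8 * l ^ 2 * J 31 U oU (α * F.pull j (e * x * x * p)) =
      J 31 U oU (θ * F.pull πF (F.pull p₁ om * F.pull p₁ om * F.pull p₂ om)) := by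
  obtain ⟨κ, k1, k2, k3, k4⟩ := eval hπ.cloX hoU hFF hS sπF s₁ s₂ hom sν dν hν sθ dθ hθ sf0 hf0
  have := main hπ hUc hoU dU hoV hoZ hY hB hS sq sρ sj hc sα dα he hx hp hα hw h1 h2 hom sfY h3
    sf0 hF hm hF0 hF1 k1 k2 k3 hy hne
  rw [k4] at this
  linarith

end Crest.Agent.R208.SO
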