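import Crest.Agent.R208.TX9

/-! Row 208, block T (helper316).  TX10: (X1d) with a primitive of degree `n - 1`, both orders. -/

set_option autoImplicit false
set_option linter.unusedSectionVars false

open MeasureTheory Set Filter Topology Module
open scoped ContDiff RealInnerProductSpace Matrix
open Crest.GeometryTopology.Submanifold
open Crest.Agent.R241.DDefs
open Crest.Agent.R241.D2
open Crest.Agent.R208.F Crest.Agent.R208.FI Crest.Agent.R208.CW

noncomputable section

namespace Crest.Agent.R208.T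

variable {n N k m : ℕ} {κ : ℝ} {S : Set (Euc N)} {G : Geo n N κ S} {p : Euc N}
  {ι : Type} [Fintype ι] [DecidableEq ι] {W : Euc N × Euc N → (ι × Fin 2 → Fin N) → ℝ}
  {x : Euc N → Ext (Euc N)}

theorem hm_swap {E : Type*} [NormedAddCommGroup E] [NormedSpace ℝ E] [FiniteDimensional ℝ E]
    {a b : E → Ext E} (h : Commute a b) (m : ℕ) :
    ∑ i ∈ Finset.range (m + 1), b ^ i * a ^ (m - i) =
      ∑ i ∈ Finset.range (m + 1), a ^ i * b ^ (m - i) := by
  rw [← Finset.sum_range_reflect]
  refine Finset.sum_congr rfl fun i hi => ?_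
  have hi' : i ≤ m := Nat.lt_succ_iff.1 (Finset.mem_range.1 hi)
  rw [Nat.add_sub_cancel, Nat.sub_sub_self hi', (h.pow_pow i (m - i)).eq]

/-- **(X1d)** in the order `snd`, `fst` -/
theorem XM.hm_zero' {h : GT.Bla G k} (D : XM h m W p x) :
    Coh (GT.FF S) (∑ i ∈ Finset.range (m + 1),
      F.pull Prod.snd x ^ i * F.pull Prod.fst x ^ (m - i)) 0 := by
  rw [hm_swap ((Hom.pull D.dx).commute D.hke _) m]
  exact D.hm_zero

/-- **(X1d)** with a primitive of degree `n - 1` -/
theorem XM.hm_prim {h : GT.Bla G k} (D : XM h m W p x) :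
    ∃ lam : Euc N × Euc N → Ext (Euc N × Euc N), Sm (GT.FF S) lam ∧ Hom (n - 1) lam ∧
      Eqv (GT.FF S) (∑ i ∈ Finset.range (m + 1),
        F.pull Prod.snd x ^ i * F.pull Prod.fst x ^ (m - i)) (F.d lam) := by
  have h1 := D.two_k
  have h2 := D.hk
  refine D.hm_zero'.prim ?_
  rw [Nat.sub_add_cancel (by omega), D.hn]
  exact hom_hm (D.dx.pull) (D.dx.pull)

/-- **(X1d)** with a primitive of degree `n - 1` -/
theorem XM.hm_prim' {h : GT.Bla G k} (D : XM h m W p x) :
    ∃ lam : Euc N × Euc N → Ext (Euc N × Euc N), Sm (GT.FF S) lam ∧ Hom (n - 1) lam ∧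
      Eqv (GT.FF S) (∑ i ∈ Finset.range (m + 1),
        F.pull Prod.fst x ^ i * F.pull Prod.snd x ^ (m - i)) (F.d lam) := by
  have h1 := D.two_k
  have h2 := D.hk
  refine D.hm_zero.prim ?_
  rw [Nat.sub_add_cancel (by omega), D.hn]
  exact hom_hm (D.dx.pull) (D.dx.pull)

/-- `x^m` on the unit tangent bundle, with a primitive of degree `n - 1` -/
theorem XM.top_prim {h : GT.Bla G k} (D : XM h m W p x) :
    ∃ lam : Euc N × Euc N → Ext (Euc N × Euc N), Sm (Sph S G.P) lam ∧ Hom (n - 1) lam ∧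
      Eqv (Sph S G.P) (F.pull Prod.fst (x ^ m)) (F.d lam) := by
  have h1 := D.two_k
  have h2 := D.hk
  refine D.top_US.prim ?_
  rw [Nat.sub_add_cancel (by omega), D.hn]
  exact (D.dx.pow m).pull

end Crest.Agent.R208.T
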