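import Crest.Agent.R208.AF16
import Crest.Agent.R208.TX10
import Crest.Agent.R208.SN10
import Crest.Agent.R208.EZ1
import Crest.Agent.R208.SO5

/-! Row 208, (JV4-US) (helper88).  JY1: integrals over the unit tangent bundle of
`θ ∧ φ^* b`, `dθ = φ^*(x₁ - x₂)`, over `F`, and over the cut locus. -/

set_option autoImplicit false
set_option linter.unusedSectionVars false

open MeasureTheory Set Filter Topology Module
open scoped ContDiff RealInnerProductSpace
open Crest.GeometryTopology.Submanifold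
open Crest.Agent.R241.DDefs
open Crest.Agent.R241.D2
open Crest.Agent.R208.F Crest.Agent.R208.FI Crest.Agent.R208.CW Crest.Agent.R208.T
open Crest.Agent.R208.L (US)
open Crest.Agent.R208.FG (OSubm)
open Crest.Agent.R208.SB (OPr oV)
open Crest.Agent.R208.FV (phi PVB up dn)
open Crest.Agent.R208.AF (Lv oWf oN)
open Crest.Agent.R208.SO (J_coh J_eqv eqv_zero_of_gt)

noncomputable section

namespace Crest.Agent.R208.JY

variable {n N r d d' : ℕ} {κ : ℝ} {S : Set (Euc N)} {G : Geo n N κ S}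
  {oP : Euc N × Euc N → Ext (Euc N)} {oU oF θ b ka : Euc N × Euc N → Ext (Euc N × Euc N)}

/-- **integration over `US → F`** of a form whose differential comes from `F` -/
theorem fib_top (h : GT.Bla G (r + 1)) (hoP : OPr (GT.FF S) (r + 1) (PVB h) oP)
    (hW : OSubm r d' (US G) (GT.FF S) (phi G) (oWf G oP) oF)
    (L : Lv G d (US G) (fun z => z) oU) (ev : Even (r + 1)) (hr : 1 ≤ r)
    (sθ : Sm (US G) θ) (hd : Eqv (US G) (F.d θ) (F.pull (phi G) ka)) {z₀ : Euc N × Euc N}
    (hz₀ : z₀ ∈ US G) (sb : Sm (GT.FF S) b) (db : Hom d' b) :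
    J (r + d') (US G) (fun z => oWf G oP z * F.pull (phi G) oF z) (θ * F.pull (phi G) b) =
      J r (US G ∩ phi G ⁻¹' {phi G z₀}) (oWf G oP) θ * J d' (GT.FF S) oF b := by
  refine AF.step hW (SO.Sm.cont sθ) (fun x hx => ?_) (SO.Sm.cont sb) db
  have hx' : x ∈ FV.FF G := hx
  rw [FV.FF_eq_image h.bl h.ty] at hx'
  obtain ⟨z, hz, rfl⟩ := hx'
  exact AF.c_const h hoP L ev hr hW sθ hd hz hz₀

end Crest.Agent.R208.JY
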