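import Crest.Agent.R208.JY1
import Crest.Agent.R208.JX2
import Crest.Agent.R208.JV3b
import Crest.Agent.R208.CQ1

/-! Row 208, (JV4-US) (helper88).  JY2: the fibre integrals of `θ`; integrals over `F`; the value
`|∫_US θ ∧ φ^*(x₁² x₂)| = τ²|∫_S x²|` for `n = 2k`. -/

set_option autoImplicit false
set_option linter.unusedSectionVars false

open MeasureTheory Set Filter Topology Module
open scoped ContDiff RealInnerProductSpace
open Crest.GeometryTopology.Submanifold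
open Crest.Agent.R241.DDefs
open Crest.Agent.R241.D2
open Crest.Agent.R208.F Crest.Agent.R208.FI Crest.Agent.R208.CW Crest.Agent.R208.T
open Crest.Agent.R208.L (US)
open Crest.Agent.R208.FG (OSubm)
open Crest.Agent.R208.SB (OPr oV)
open Crest.Agent.R208.FV (phi PVB up dn)
open Crest.Agent.R208.AF (Lv oWf oN)

noncomputable section

namespace Crest.Agent.R208.JY

variable {n N k m d d' : ℕ} {κ : ℝ} {S : Set (Euc N)} {G : Geo n N κ S} {p : Euc N}
  {ι : Type} [Fintype ι] [DecidableEq ι] {W : Euc N × Euc N → (ι × Fin 2 → Fin N) → ℝ}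
  {x : Euc N → Ext (Euc N)} {z : Euc N × Euc N}
  {θ oF oU : Euc N × Euc N → Ext (Euc N × Euc N)} {oS b : Euc N → Ext (Euc N)}

/-- the fibre integrals of `K (E^* x)` over `US → F` -/
theorem abs_KE {h : GT.Bla G k} (D : XM h m W p x) (hz : z ∈ US G)
    (ho : Ori (k - 1) (JX.Fb G z) oF) :
    |J (k - 1) (JX.Fb G z) oF (RR.K (F.pull (RRC.EE G) x))| = XF.tau ι := by
  have hk := D.hk
  have hι := D.hι
  have : Nonempty ι := Fintype.card_pos_iff.1 (by omega)
  have hr : k - 1 + 1 = Fintype.card ι * 2 := by omega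
  have hX : FI.Sub (2 * n - k) (GT.FF S) := by
    have hle := h.ty.le
    exact (FV.clo_FF' h (by omega : (2 * n - k) + k = 2 * n)).sub
  refine JX.abs_KE D hz (JV.sm_ang hX D.hW) (JV.hom_ang hr) (JV.d_ang hX D.hW)
    (fun y hy o ho' => ?_) ho
  have h1 : Sph ({y} : Set (Euc N × Euc N)) (FV.PVB h) =
      Sph (GT.FF S) (FV.PVB h) ∩ (Prod.fst : (Euc N × Euc N) × Euc N → _) ⁻¹' {y} :=
    JV.Sph_point hy
  have h2 := JV.abs_J_ang_fib D.hW hr hy (o := o) (by rw [← h1]; exact ho')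
  rw [← h1] at h2
  exact h2

/-- the fibre integrals of a primitive of `x₁ - x₂` over `US → F` -/
theorem abs_theta {h : GT.Bla G k} (D : XM h m W p x) (hz : z ∈ US G) (sθ : Sm (US G) θ)
    (dθ : Hom (k - 1) θ)
    (hθ : Eqv (US G) (F.d θ) (F.pull (phi G) (F.pull Prod.fst x - F.pull Prod.snd x)))
    (ho : Ori (k - 1) (JX.Fb G z) oF) :
    |J (k - 1) (JX.Fb G z) oF θ| = XF.tau ι := by
  have hk := D.hk
  have e1 := JX.period_eq D (sθ.neg) (JX.sm_KE D.sx) dθ.neg (JX.hom_KE D.dx (by omega))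
    (e := F.pull Prod.snd x - F.pull Prod.fst x) (by
      rw [d_neg']
      have h1 := hθ.neg
      rw [← pull_neg', neg_sub] at h1
      exact h1) (JX.d_KE h D.sx D.cx) (Coh.refl _) (D.dx.pull.sub D.dx.pull)
      (D.dx.pull.sub D.dx.pull) ho
  rw [← abs_KE D hz ho, ← e1, JX.J_neg', abs_neg]

/-- `∫_F x₂ ∧ p^*b = ± τ ∫_S b`, for `n = 2k` -/
theorem abs_J_FF {h : GT.Bla G k} (D : XM h 2 W p x) (hoF : Ori (n - k + n) (GT.FF S) oF)
    (hoS : Ori n S oS) (sb : Sm S b) (db : Hom n b) :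
    |J (n - k + n) (GT.FF S) oF (F.pull Prod.snd x * F.pull Prod.fst b)| =
      XF.tau ι * |J n S oS b| := by
  have hk := D.hk
  have hkn := D.hkn
  have hn : 2 ≤ n := by omega
  have hSc : IsPreconnected S := preconn_S h
  have hcS : Clo n S := GP.clo_S h.bl
  obtain ⟨oS', hoS', -, hdS'⟩ := GP.exists_ori h.bl h.ty hk
  obtain ⟨w, -, hwd, -, hF⟩ := SB.exists_osubm_F h hk hkn hoS' hdS'
  set oV : Euc N × Euc N → Ext (Euc N × Euc N) := fun z =>
    pb (ContinuousLinearMap.snd ℝ (Euc N) (Euc N) : Euc N × Euc N →ₗ[ℝ] Euc N) (w z) with hoV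
  have hclo := hF.subm.cloZ
  have hFc : IsPreconnected (GT.FF S) := FV.preconn_FF' h hn
  have sx2 : Sm (GT.FF S) (F.pull Prod.snd x) := D.sx.pull smap_snd_FF
  have cx2 : Cl (GT.FF S) (F.pull Prod.snd x) := D.cx.pull smap_snd_FF D.sx
  have e1 : J (n - k + n) (GT.FF S) (oV * F.pull Prod.fst oS')
      (F.pull Prod.snd x * F.pull Prod.fst b) =
      J (n - k) (GT.FF S ∩ Prod.fst ⁻¹' {p}) oV (F.pull Prod.snd x) * J n S oS' b :=
    SO.fib rfl hF.subm hSc hF.base hF.dY hF.cV hF.tot sx2 cx2 sb db D.hp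
  have hcf := hF.subm.clo_fibre p
  have hcC := FV.clo_Cut h D.hp
  have hV : Ori (n - k) (GT.FF S ∩ (Prod.fst : Euc N × Euc N → Euc N) ⁻¹' {p}) oV := hF.fib p
  obtain ⟨oC, hoC, -, -⟩ := exists_ori_Cut h hk hkn D.hp
  have hb := FG.bij_fib (S := S) p D.hp
  have hdiff : ∀ x ∈ GT.FF S ∩ (Prod.fst : Euc N × Euc N → Euc N) ⁻¹' {p},
      DifferentiableAt ℝ (Prod.snd : Euc N × Euc N → Euc N) x := fun x _ => differentiableAt_snd
  have hxc : ContinuousOn x (GP.Cut S p) := fun q hq =>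
    (D.sx q hq.1).continuousAt.continuousWithinAt
  have e2 := J_pull hcf hcC hdiff hb hoC hxc
  have hpo : Ori (n - k) (GT.FF S ∩ (Prod.fst : Euc N × Euc N → Euc N) ⁻¹' {p})
      (F.pull Prod.snd oC) := by
    refine Ori.pull hcf hcC (fun x _ => contDiffAt_snd) hb.mapsTo (fun x hx v hv h0 => ?_) hoC
    have h5 : v ∈ Tan (GT.FF S ∩ (Prod.fst : Euc N × Euc N → Euc N) ⁻¹' {Prod.fst x}) x := by
      have : Prod.fst x = p := hx.2
      rw [this]; exact hv
    rw [(FV.subm_fst h).tan_fibre hx.1] at h5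
    have h6 : fderiv ℝ (Prod.fst : Euc N × Euc N → Euc N) x v = 0 := h5.2
    rw [hasFDerivAt_fst.fderiv] at h6
    rw [hasFDerivAt_snd.fderiv] at h0
    exact Prod.ext h6 h0
  have e3 : |J (n - k) (GT.FF S ∩ Prod.fst ⁻¹' {p}) oV (F.pull Prod.snd x)| = XF.tau ι := by
    rw [JV.abs_J_ori hcf (FG.preconn_fib h hn D.hp) hpo hV, e2]
    exact CQ.J_Cut_val D D.hp hoC
  rw [JV.abs_J_ori hclo hFc hF.tot hoF, ← JV.abs_J_ori hcS hSc hoS hoS' b, ← e3, ← abs_mul]
  exact congrArg _ e1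

/-- **(JV4-US), relative form**: `|∫_US θ ∧ φ^*(x₁² x₂)| = τ² |∫_S x²|`, for `n = 2k` -/
theorem abs_val {h : GT.Bla G k} (D : XM h 2 W p x) (hd : d + 1 = 2 * n)
    (hoU : Ori d (US G) oU) (hoS : Ori n S oS) (sθ : Sm (US G) θ)
    (dθ : Hom (k - 1) θ)
    (hθ : Eqv (US G) (F.d θ) (F.pull (phi G) (F.pull Prod.fst x - F.pull Prod.snd x))) :
    |J d (US G) oU (θ * F.pull (phi G) (F.pull Prod.fst x * F.pull Prod.fst x *
      F.pull Prod.snd x))| = XF.tau ι ^ 2 * |J n S oS (x * x)| := by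
  obtain ⟨r, rfl⟩ : ∃ r, k = r + 1 := ⟨k - 1, by have := D.hk; omega⟩
  have hk := D.hk
  have hkn := D.hkn
  have hι := D.hι
  have hnk := D.hn
  have ev : Even (r + 1) := D.hke
  have hn : 2 ≤ n := by omega
  -- orientations
  let φ : ι × Fin 2 ≃ Fin (r + 1) := Fintype.equivOfCardEq (by
    rw [Fintype.card_prod, Fintype.card_fin, Fintype.card_fin]; omega)
  have hoP := SB.opr_of_OR φ D.hW
  set oP : Euc N × Euc N → Ext (Euc N) := fun y => SB.oW φ (W y) with hoPd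
  obtain ⟨oS', hoS', -, hdS'⟩ := GP.exists_ori h.bl h.ty hk
  obtain ⟨w, -, hwd, -, hF⟩ := SB.exists_osubm_F h hk hkn hoS' hdS'
  have hoF := hF.tot
  have hdF : ∀ x, IsDeg (n - (r + 1) + n) ((fun z => pb (ContinuousLinearMap.snd ℝ (Euc N) (Euc N) :
    Euc N × Euc N →ₗ[ℝ] Euc N) (w z) * F.pull Prod.fst oS' z) x) :=
    fun x => isDeg_mul ((hwd x).pb _) ((hdS' _).pb _)
  have hW := AF.osubm_W h hoP (d' := n - (r + 1) + n) (by omega) hoF hdF
  obtain rfl : d = r + (n - (r + 1) + n) := by omega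
  have hoU' := ori_dp hoU
  have L := AF.lv0 h hd hn hoU' (fun x => isDeg_dpl _ _)
  obtain ⟨z₀, hz₀⟩ := nonempty_UST h D.hp
  have e1 : F.pull Prod.fst x * F.pull Prod.fst x * F.pull Prod.snd x =
      F.pull Prod.snd x * F.pull Prod.fst (x * x) := by
    rw [pull_mul']
    exact (SO.ev_comm (D.dx.pull) ev _).symm
  have hxx : Hom n (x * x) := by
    have := D.dx.mul D.dx
    rwa [← two_mul, show 2 * (r + 1) = n by omega] at this
  have hdb : Hom (n - (r + 1) + n) (F.pull Prod.snd x * F.pull Prod.fst (x * x)) := by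
    have := (D.dx.pull (f := (Prod.snd : Euc N × Euc N → Euc N))).mul
      (hxx.pull (f := (Prod.fst : Euc N × Euc N → Euc N)))
    rwa [show r + 1 + n = n - (r + 1) + n by omega] at this
  have sb : Sm (GT.FF S) (F.pull Prod.snd x * F.pull Prod.fst (x * x)) :=
    (D.sx.pull smap_snd_FF).mul ((D.sx.mul D.sx).pull smap_fst_FF)
  have e2 := fib_top h hoP hW L ev (by omega) sθ hθ hz₀ sb hdb
  have hcU := SB.clo_US h hd
  have hUc : IsPreconnected (US G) := FV.preconn_US h.bl hn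
  have hoW : Ori (r + (n - (r + 1) + n)) (US G) (fun z => oWf G oP z * F.pull (phi G)
    (fun z => pb (ContinuousLinearMap.snd ℝ (Euc N) (Euc N) :
    Euc N × Euc N →ₗ[ℝ] Euc N) (w z) * F.pull Prod.fst oS' z) z) := hW.tot
  rw [e1, JV.abs_J_ori hcU hUc hoW hoU, e2, abs_mul, abs_J_FF D hoF hoS (D.sx.mul D.sx) hxx]
  have hof : Ori (r + 1 - 1) (JX.Fb G z₀) (oWf G oP) := by
    rw [Nat.add_sub_cancel]
    exact hW.fib (phi G z₀)
  have h3 := abs_theta D hz₀ sθ dθ hθ hof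
  rw [Nat.add_sub_cancel] at h3
  rw [h3]
  ring

end Crest.Agent.R208.JY
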