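import Crest.Agent.R208.JY2
import Crest.Agent.R208.JW3

/-! Row 208, (JV4-US) (helper88).  JY3: `|∫_US θ ∧ φ^*(x₁² x₂)| = τ⁴`, for `n = 2k`. -/

set_option autoImplicit false
set_option linter.unusedSectionVars false

open MeasureTheory Set Filter Topology Module
open scoped ContDiff RealInnerProductSpace
open Crest.GeometryTopology.Submanifold
open Crest.Agent.R241.DDefs
open Crest.Agent.R241.D2
open Crest.Agent.R208.F Crest.Agent.R208.FI Crest.Agent.R208.CW Crest.Agent.R208.T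
open Crest.Agent.R208.L (US)
open Crest.Agent.R208.FV (phi PVB)

noncomputable section

namespace Crest.Agent.R208.JY

variable {n N k d : ℕ} {κ : ℝ} {S : Set (Euc N)} {G : Geo n N κ S} {p : Euc N}
  {ι : Type} [Fintype ι] [DecidableEq ι] {W : Euc N × Euc N → (ι × Fin 2 → Fin N) → ℝ}
  {x : Euc N → Ext (Euc N)} {θ oU : Euc N × Euc N → Ext (Euc N × Euc N)}

/-- **(JV4-US)**: `|∫_US θ ∧ φ^*(x₁² x₂)| = τ⁴`, for `n = 2k`, `dθ ~ φ^*(x₁ - x₂)` -/
theorem val {h : GT.Bla G k} (D : XM h 2 W p x) (hd : d + 1 = 2 * n)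
    (hoU : Ori d (US G) oU) (sθ : Sm (US G) θ) (dθ : Hom (k - 1) θ)
    (hθ : Eqv (US G) (F.d θ) (F.pull (phi G) (F.pull Prod.fst x - F.pull Prod.snd x))) :
    |J d (US G) oU (θ * F.pull (phi G) (F.pull Prod.fst x * F.pull Prod.fst x *
      F.pull Prod.snd x))| = XF.tau ι ^ 4 := by
  obtain ⟨oS, hoS, -, -⟩ := GP.exists_ori h.bl h.ty D.hk
  rw [abs_val D hd hoU hoS sθ dθ hθ, ← pow_two x, JW.J_S_two D hoS]
  ring

/-- a primitive of `φ^*(x₁ - x₂)` on `US` -/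
theorem exists_theta {h : GT.Bla G k} (D : XM h 2 W p x) :
    ∃ θ : Euc N × Euc N → Ext (Euc N × Euc N), Sm (US G) θ ∧ Hom (k - 1) θ ∧
      Eqv (US G) (F.d θ) (F.pull (phi G) (F.pull Prod.fst x - F.pull Prod.snd x)) := by
  refine ⟨-RR.K (F.pull (RRC.EE G) x), (JX.sm_KE D.sx).neg,
    (JX.hom_KE D.dx (by have := D.hk; omega)).neg, ?_⟩
  have h1 := (JX.d_KE h D.sx D.cx).neg
  rw [← pull_neg', neg_sub] at h1
  rw [d_neg']
  exact h1

end Crest.Agent.R208.JY
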