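import Mathlib

/-!
R208 (Blaschke), block G5, file K1: abstract spherical convexity.

`Star T K`: a set `K` of unit vectors of a finite dimensional subspace `T` such that every
`x ∈ T` is `h u0` plus an element of the polar cone of `K`, `u0 ∈ K`, `h = ⟪x,u0⟫ ≥ 0`.
-/

set_option autoImplicit false

open Set Filter Topology
open scoped RealInnerProductSpace

noncomputable section

namespace Crest.Agent.R208.K

variable {E : Type*} [NormedAddCommGroup E] [InnerProductSpace ℝ E] [FiniteDimensional ℝ E]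

/-- the Moreau property of links. -/
structure Star (T : Submodule ℝ E) (K : Set E) : Prop where
  sub : ∀ u ∈ K, u ∈ T
  unit : ∀ u ∈ K, ‖u‖ = 1
  star : ∀ x ∈ T, ∃ u0 ∈ K, 0 ≤ ⟪x, u0⟫ ∧ ∀ u ∈ K, ⟪u, x - ⟪x, u0⟫ • u0⟫ ≤ 0

/-- the polar cone in `T`. -/
def pol (T : Submodule ℝ E) (K : Set E) : Set E := {y | y ∈ T ∧ ∀ u ∈ K, ⟪u, y⟫ ≤ 0}

/-- lineality space. -/
def lin (T : Submodule ℝ E) (K : Set E) : Submodule ℝ E :=
  T ⊓ (Submodule.span ℝ (pol T K))ᗮ

omit [FiniteDimensional ℝ E] in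
lemma mem_lin {T : Submodule ℝ E} {K : Set E} {x : E} :
    x ∈ lin T K ↔ x ∈ T ∧ ∀ y ∈ pol T K, ⟪y, x⟫ = 0 := by
  rw [lin, Submodule.mem_inf]
  refine and_congr_right fun _ => ?_
  constructor
  · intro h y hy
    exact (Submodule.mem_orthogonal _ _).1 h y (Submodule.subset_span hy)
  · intro h
    rw [Submodule.mem_orthogonal]
    intro u hu
    induction hu using Submodule.span_induction with
    | mem y hy => exact h y hy
    | zero => simp
    | add a b _ _ ha hb => rw [inner_add_left, ha, hb, add_zero]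
    | smul c a _ ha => rw [inner_smul_left, ha, mul_zero]

namespace Star

variable {T : Submodule ℝ E} {K : Set E}

/-- bipolar: vectors which are `≤ 0` against the polar cone are multiples of elements of `K`. -/
lemma mem_of_bipolar (h : Star T K) {x : E} (hx : x ∈ T)
    (hp : ∀ y ∈ pol T K, ⟪x, y⟫ ≤ 0) (h0 : x ≠ 0) : (‖x‖⁻¹ : ℝ) • x ∈ K := by
  obtain ⟨u0, hu0, h1, h2⟩ := h.star x hx
  set c : ℝ := ⟪x, u0⟫ with hc
  have hy : x - c • u0 ∈ pol T K :=
    ⟨T.sub_mem hx (T.smul_mem _ (h.sub u0 hu0)), h2⟩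
  have h3 := hp _ hy
  have hun := h.unit u0 hu0
  have hu2 : ⟪u0, u0⟫ = 1 := by rw [real_inner_self_eq_norm_sq, hun]; norm_num
  have h4 : ‖x‖ ^ 2 ≤ c ^ 2 := by
    rw [inner_sub_right, inner_smul_right, real_inner_self_eq_norm_sq, ← hc] at h3
    nlinarith
  have h5 : ‖x - c • u0‖ ^ 2 ≤ 0 := by
    rw [← real_inner_self_eq_norm_sq, inner_sub_left, inner_sub_right, inner_sub_right,
      inner_smul_left, inner_smul_left, inner_smul_right, inner_smul_right, hu2,
      real_inner_comm x u0, ← hc, real_inner_self_eq_norm_sq]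
    simp only [conj_trivial]
    nlinarith
  have h6 : x = c • u0 := by
    have : ‖x - c • u0‖ = 0 := by nlinarith [norm_nonneg (x - c • u0)]
    exact sub_eq_zero.1 (norm_eq_zero.1 this)
  have hcpos : 0 < c := by
    rcases h1.lt_or_eq with h7 | h7
    · exact h7
    · exfalso; apply h0; rw [h6, ← h7, zero_smul]
  have h7 : ‖x‖ = c := by
    conv_lhs => rw [h6]
    rw [norm_smul, hun, mul_one, Real.norm_of_nonneg hcpos.le]
  have h8 : (c⁻¹ : ℝ) • x = u0 := by
    conv_lhs => rw [h6]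
    rw [smul_smul, inv_mul_cancel₀ hcpos.ne', one_smul]
  rw [h7, h8]
  exact hu0

/-- spherical convexity -/
lemma conv (h : Star T K) {u v : E} (hu : u ∈ K) (hv : v ∈ K) {a b : ℝ} (ha : 0 ≤ a) (hb : 0 ≤ b)
    (h0 : a • u + b • v ≠ 0) : (‖a • u + b • v‖⁻¹ : ℝ) • (a • u + b • v) ∈ K := by
  refine h.mem_of_bipolar (T.add_mem (T.smul_mem _ (h.sub u hu)) (T.smul_mem _ (h.sub v hv)))
    (fun y hy => ?_) h0
  rw [inner_add_left, inner_smul_left, inner_smul_left]
  simp only [conj_trivial]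
  have h1 := hy.2 u hu
  have h2 := hy.2 v hv
  nlinarith [mul_nonneg ha (neg_nonneg.2 h1), mul_nonneg hb (neg_nonneg.2 h2)]

/-- unit vectors of the lineality space are in `K`. -/
lemma lin_sub (h : Star T K) {x : E} (hx : x ∈ lin T K) (hn : ‖x‖ = 1) : x ∈ K := by
  have h1 := mem_lin.1 hx
  have h0 : x ≠ 0 := by
    intro h2; rw [h2, norm_zero] at hn; norm_num at hn
  have := h.mem_of_bipolar h1.1 (fun y hy => by rw [real_inner_comm, h1.2 y hy]) h0
  rwa [hn, inv_one, one_smul] at this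

lemma mem_lin_of_neg (h : Star T K) {x : E} (hx : x ∈ K) (hx' : -x ∈ K) : x ∈ lin T K := by
  refine mem_lin.2 ⟨h.sub x hx, fun y hy => ?_⟩
  have h1 := hy.2 x hx
  have h2 := hy.2 (-x) hx'
  rw [inner_neg_left] at h2
  rw [real_inner_comm]
  linarith

/-- a point of the polar cone which is negative off the lineality space. -/
lemma exists_sep (_h : Star T K) : ∃ x ∈ pol T K, ∀ u ∈ T, (∀ y ∈ pol T K, ⟪u, y⟫ ≤ 0) →
    0 ≤ ⟪u, x⟫ → u ∈ lin T K := by
  have hfg : (Submodule.span ℝ (pol T K)).FG := IsNoetherian.noetherian _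
  obtain ⟨s, hs, hspan⟩ := Submodule.fg_span_iff_fg_span_finset_subset (pol T K) |>.1 hfg
  have hsum : ∑ y ∈ s, y ∈ pol T K := by
    refine ⟨T.sum_mem fun y hy => (hs hy).1, fun u hu => ?_⟩
    rw [inner_sum]
    exact Finset.sum_nonpos fun y hy => (hs hy).2 u hu
  refine ⟨∑ y ∈ s, y, hsum, fun u huT hu h0 => ?_⟩
  rw [inner_sum] at h0
  have hz : ∀ y ∈ s, ⟪u, y⟫ = 0 := by
    have h1 : ∀ y ∈ s, ⟪u, y⟫ ≤ 0 := fun y hy => hu y (hs hy)
    have h2 : ∑ y ∈ s, ⟪u, y⟫ = 0 := le_antisymm (Finset.sum_nonpos h1) h0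
    exact (Finset.sum_eq_zero_iff_of_nonpos h1).1 h2
  rw [lin, Submodule.mem_inf]
  refine ⟨huT, ?_⟩
  rw [hspan, Submodule.mem_orthogonal]
  intro w hw
  induction hw using Submodule.span_induction with
  | mem y hy => rw [real_inner_comm]; exact hz y hy
  | zero => simp
  | add a b _ _ ha hb => rw [inner_add_left, ha, hb, add_zero]
  | smul c a _ ha => rw [inner_smul_left, ha, mul_zero]

lemma nontrivial (h : Star T K) : 1 ≤ Module.finrank ℝ (lin T K) := by
  obtain ⟨x, hx, hsep⟩ := h.exists_sep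
  obtain ⟨u0, hu0, h1, -⟩ := h.star x hx.1
  have h2 : u0 ∈ lin T K := hsep u0 (h.sub u0 hu0) (fun y hy => hy.2 u0 hu0)
    (by rw [real_inner_comm]; exact h1)
  have h3 : u0 ≠ 0 := by
    intro h4; have := h.unit u0 hu0; rw [h4, norm_zero] at this; norm_num at this
  rw [Nat.one_le_iff_ne_zero]
  intro h4
  have := Submodule.finrank_eq_zero.1 h4
  rw [this, Submodule.mem_bot] at h2
  exact h3 h2

/-- `k+1` orthonormal elements of `K`. -/
def Bad (k : ℕ) (K : Set E) : Prop :=
  ∃ e : Fin (k + 1) → E, Orthonormal ℝ e ∧ ∀ i, e i ∈ K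

lemma not_bad_of (hle : ∀ u ∈ K, u ∈ lin T K) {k : ℕ} (hk : Module.finrank ℝ (lin T K) ≤ k) :
    ¬ Bad k K := by
  rintro ⟨e, he, heK⟩
  have h1 : LinearIndependent ℝ e := he.linearIndependent
  have h2 : Submodule.span ℝ (range e) ≤ lin T K := by
    rw [Submodule.span_le]
    rintro _ ⟨i, rfl⟩
    exact hle _ (heK i)
  have h3 := Submodule.finrank_mono h2
  rw [finrank_span_eq_card h1, Fintype.card_fin] at h3
  omega

/-- if `K` has no `k+1` orthonormal vectors and lineality at least `k`, it is the unit sphere of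
its lineality space, which has dimension `k`. -/
lemma linear_of_not_bad (h : Star T K) {k : ℕ} (hk : k ≤ Module.finrank ℝ (lin T K))
    (hb : ¬ Bad k K) : Module.finrank ℝ (lin T K) = k ∧ ∀ u ∈ K, u ∈ lin T K := by
  set L := lin T K with hL
  set b := stdOrthonormalBasis ℝ L with hbdef
  have hbn : ∀ i, (b i : E) ∈ K := fun i =>
    h.lin_sub (b i).2 (by rw [← Submodule.coe_norm]; exact b.orthonormal.1 i)
  have hbo : Orthonormal ℝ (fun i => (b i : E)) :=
    b.orthonormal.comp_linearIsometry L.subtypeₗᵢ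
  have h1 : Module.finrank ℝ L = k := by
    by_contra hne
    have hlt : k + 1 ≤ Module.finrank ℝ L := by omega
    apply hb
    refine ⟨fun i => b (Fin.castLE hlt i), ?_, fun i => hbn _⟩
    exact hbo.comp _ (Fin.castLE_injective hlt)
  refine ⟨h1, fun u hu => ?_⟩
  by_contra hnL
  apply hb
  -- the component orthogonal to `L`
  set w : E := u - L.starProjection u with hw
  have hw0 : w ≠ 0 := by
    intro h2
    apply hnL
    have : u = L.starProjection u := sub_eq_zero.1 h2
    rw [this]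
    exact Submodule.starProjection_apply_mem _ _
  have hwo : ∀ x ∈ L, ⟪x, w⟫ = 0 := fun x hx => by
    have := Submodule.sub_starProjection_mem_orthogonal (K := L) u
    exact (Submodule.mem_orthogonal _ _).1 this x hx
  have hwT : w ∈ T := T.sub_mem (h.sub u hu) (by
    have := Submodule.starProjection_apply_mem L u
    exact (mem_lin.1 this).1)
  have hwK : (‖w‖⁻¹ : ℝ) • w ∈ K := by
    refine h.mem_of_bipolar hwT (fun y hy => ?_) hw0
    rw [hw, inner_sub_left]
    have h3 : ⟪L.starProjection u, y⟫ = 0 := by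
      rw [real_inner_comm]
      exact (mem_lin.1 (Submodule.starProjection_apply_mem L u)).2 y hy
    rw [h3, sub_zero]
    exact hy.2 u hu
  have hwn : ‖w‖ ≠ 0 := norm_ne_zero_iff.2 hw0
  refine ⟨Fin.snoc (α := fun _ => E) (fun i : Fin k => (b (Fin.cast h1.symm i) : E))
    ((‖w‖⁻¹ : ℝ) • w), ?_, ?_⟩
  · rw [orthonormal_iff_ite]
    intro i j
    refine Fin.lastCases ?_ (fun i => ?_) i <;> refine Fin.lastCases ?_ (fun j => ?_) j
    · simp only [Fin.snoc_last, if_true]
      rw [real_inner_self_eq_norm_sq, norm_smul, norm_inv, norm_norm, inv_mul_cancel₀ hwn, one_pow]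
    · simp only [Fin.snoc_last, Fin.snoc_castSucc]
      rw [if_neg (by simp [Fin.ext_iff]; omega), inner_smul_left, real_inner_comm,
        hwo _ (b _).2, mul_zero]
    · simp only [Fin.snoc_last, Fin.snoc_castSucc]
      rw [if_neg (by simp [Fin.ext_iff]; omega), inner_smul_right, hwo _ (b _).2, mul_zero]
    · simp only [Fin.snoc_castSucc]
      have := (orthonormal_iff_ite.1 hbo) (Fin.cast h1.symm i) (Fin.cast h1.symm j)
      rw [this]
      simp [Fin.ext_iff]
  · intro i
    refine Fin.lastCases ?_ (fun i => ?_) i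
    · simpa only [Fin.snoc_last] using hwK
    · simpa only [Fin.snoc_castSucc] using hbn _

end Star

end Crest.Agent.R208.K
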