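import Crest.Agent.R208.K2

/-!
R208 (Blaschke), block G5, file K3: pair isometry, closedness of links, the open set `U1` of
linear links of minimal dimension, periodicity of the geodesics in `U1`.
-/

set_option autoImplicit false

open Set Filter Topology
open scoped ContDiff RealInnerProductSpace
open Crest.GeometryTopology.Submanifold
open Crest.Agent.R241.DDefs
open Crest.Agent.R241.D2

noncomputable section

namespace Crest.Agent.R208.K

variable {n N : ℕ} {κ : ℝ} {S : Set (Euc N)} {G : Geo n N κ S} {D : ℝ}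

namespace Hyp

/-- the pair isometry. -/
lemma inner_lk (H : Hyp G D) {p q v w : Euc N} (hp : p ∈ S) (hv : v ∈ Lk G D p q)
    (hw : w ∈ Lk G D p q) : ⟪v, w⟫ = ⟪(fl G ((p, v), D)).2, (fl G ((p, w), D)).2⟫ := by
  obtain ⟨C, hC, hF⟩ := H.f1
  have hvU := lk_US hp hv
  have hwU := lk_US hp hw
  set cp : ℝ → Euc N := fun s => (fl G ((p, v), s)).1 with hcp
  set cq : ℝ → Euc N := fun s => (fl G ((p, v), D + s)).1 with hcq
  have hcp0 : cp 0 = p := by simp [hcp, fl_zero]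
  have hcq0 : cq 0 = q := by simp only [hcq, add_zero]; exact hv.2.2
  have hdp : HasDerivAt cp v 0 := by
    have := hasDerivAt_fst G hvU.1 0
    rwa [fl_zero] at this
  have hdq : HasDerivAt cq (fl G ((p, v), D)).2 0 := by
    have h1 : HasDerivAt (fun s => (fl G ((p, v), s)).1) (fl G ((p, v), D)).2 (D + 0) := by
      rw [add_zero]; exact hasDerivAt_fst G hvU.1 D
    exact HasDerivAt.comp_const_add D 0 h1
  set g : ℝ → ℝ := fun s => -⟪w, cp s - p⟫ + ⟪(fl G ((p, w), D)).2, cq s - q⟫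
    + C * (‖cp s - p‖ ^ 2 + ‖cq s - q‖ ^ 2) with hg
  have hg0 : g 0 = 0 := by simp [hg, hcp0, hcq0]
  have hgpos : ∀ s, 0 ≤ g s := by
    intro s
    have h1 := hF (p, w) hwU D (by linarith [H.hD]) le_rfl (cp s) (fl_US G hvU s).1.1 (cq s)
      (fl_US G hvU _).1.1
    have h2 : intrinsicDist S (cp s) (cq s) = D := by
      have := H.mini _ (fl_US G hvU s) D H.hD.le le_rfl
      rw [← fl_add' G hvU.1, add_comm s D] at this
      exact this
    rw [h2, hw.2.2] at h1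
    simp only [hg]
    linarith
  have hmin : IsLocalMin g 0 := Eventually.of_forall fun s => by rw [hg0]; exact hgpos s
  have hder : HasDerivAt g (-⟪w, v⟫ + ⟪(fl G ((p, w), D)).2, (fl G ((p, v), D)).2⟫
      + C * (2 * ⟪cp 0 - p, v⟫ + 2 * ⟪cq 0 - q, (fl G ((p, v), D)).2⟫)) 0 := by
    have h1 : HasDerivAt (fun s => cp s - p) v 0 := hdp.sub_const p
    have h2 : HasDerivAt (fun s => cq s - q) (fl G ((p, v), D)).2 0 := hdq.sub_const q
    have h3 : HasDerivAt (fun s => ⟪w, cp s - p⟫) ⟪w, v⟫ 0 := by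
      have := (hasDerivAt_const (0 : ℝ) w).inner ℝ h1
      simpa using this
    have h4 : HasDerivAt (fun s => ⟪(fl G ((p, w), D)).2, cq s - q⟫)
        ⟪(fl G ((p, w), D)).2, (fl G ((p, v), D)).2⟫ 0 := by
      have := (hasDerivAt_const (0 : ℝ) (fl G ((p, w), D)).2).inner ℝ h2
      simpa using this
    exact (h3.neg.add h4).add ((h1.norm_sq.add h2.norm_sq).const_mul C)
  have h0 := hmin.hasDerivAt_eq_zero hder
  rw [hcp0, hcq0, sub_self, sub_self, inner_zero_left, inner_zero_left] at h0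
  rw [real_inner_comm w v, real_inner_comm (fl G ((p, w), D)).2]
  linarith

lemma lk_closed {q p u : ℕ → Euc N} {q0 p0 u0 : Euc N} (hq : ∀ j, q j ∈ S)
    (hu : ∀ j, u j ∈ Lk G D (q j) (p j)) (hql : Tendsto q atTop (𝓝 q0))
    (hpl : Tendsto p atTop (𝓝 p0)) (hul : Tendsto u atTop (𝓝 u0)) :
    q0 ∈ S ∧ u0 ∈ Lk G D q0 p0 := by
  have h1 : Tendsto (fun j => ((q j, u j) : Euc N × Euc N)) atTop (𝓝 (q0, u0)) :=
    hql.prodMk_nhds hul
  have h2 : ((q0, u0) : Euc N × Euc N) ∈ US G :=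
    (isClosed_US G).mem_of_tendsto h1 (Eventually.of_forall fun j => lk_US (hq j) (hu j))
  refine ⟨h2.1.1, h2.1.2, h2.2, ?_⟩
  have h3 : Tendsto (fun j => (fl G ((q j, u j), D)).1) atTop (𝓝 (fl G ((q0, u0), D)).1) :=
    (continuous_fst.tendsto _).comp
      ((continuousAt_fl G h2.1 D).tendsto.comp (h1.prodMk_nhds tendsto_const_nhds))
  exact tendsto_nhds_unique (h3.congr fun j => (hu j).2.2) hpl

/-- limits of orthonormal families in links. -/
lemma frames_limit {k : ℕ} {q p : ℕ → Euc N} {q0 p0 : Euc N} (hq : ∀ j, q j ∈ S)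
    (hql : Tendsto q atTop (𝓝 q0)) (hpl : Tendsto p atTop (𝓝 p0))
    {e : ℕ → Fin (k + 1) → Euc N} (he : ∀ j, Orthonormal ℝ (e j))
    (hL : ∀ j i, e j i ∈ Lk G D (q j) (p j)) :
    ∃ (e0 : Fin (k + 1) → Euc N) (φ : ℕ → ℕ), StrictMono φ ∧ Orthonormal ℝ e0 ∧
      Tendsto (e ∘ φ) atTop (𝓝 e0) ∧ ∀ i, e0 i ∈ Lk G D q0 p0 := by
  have hK : IsCompact (Set.pi univ fun _ : Fin (k + 1) => Metric.closedBall (0 : Euc N) 1) :=
    isCompact_univ_pi fun _ => isCompact_closedBall _ _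
  have hmem : ∀ j, e j ∈ Set.pi univ fun _ : Fin (k + 1) => Metric.closedBall (0 : Euc N) 1 := by
    intro j i _
    rw [Metric.mem_closedBall, dist_zero_right, (he j).1 i]
  obtain ⟨e0, -, φ, hφ, hlim⟩ := hK.tendsto_subseq hmem
  have hi : ∀ i, Tendsto (fun j => e (φ j) i) atTop (𝓝 (e0 i)) := fun i =>
    ((continuous_apply i).tendsto e0).comp hlim
  refine ⟨e0, φ, hφ, ?_, hlim, fun i => ?_⟩
  · rw [orthonormal_iff_ite]
    intro i i'
    have h1 : Tendsto (fun j => ⟪e (φ j) i, e (φ j) i'⟫) atTop (𝓝 ⟪e0 i, e0 i'⟫) :=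
      (hi i).inner (hi i')
    have h2 : ∀ j, ⟪e (φ j) i, e (φ j) i'⟫ = if i = i' then (1 : ℝ) else 0 := fun j =>
      (orthonormal_iff_ite.1 (he (φ j))) i i'
    exact tendsto_nhds_unique (h1.congr h2) tendsto_const_nhds |>.symm ▸ rfl
  · exact (lk_closed (fun j => hq (φ j)) (fun j => hL (φ j) i) (hql.comp hφ.tendsto_atTop)
      (hpl.comp hφ.tendsto_atTop) (hi i)).2

end Hyp

lemma card_le_of_orthonormal {k : ℕ} {L : Submodule ℝ (Euc N)} {e : Fin (k + 1) → Euc N}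
    (he : Orthonormal ℝ e) (h : ∀ i, e i ∈ L) : k + 1 ≤ Module.finrank ℝ L := by
  have h2 : Submodule.span ℝ (range e) ≤ L := by
    rw [Submodule.span_le]
    rintro _ ⟨i, rfl⟩
    exact h i
  have h3 := Submodule.finrank_mono h2
  rwa [finrank_span_eq_card he.linearIndependent, Fintype.card_fin] at h3

/-- end point at time `D`. -/
def ep (G : Geo n N κ S) (D : ℝ) (z : Euc N × Euc N) : Euc N := (fl G (z, D)).1

/-- the set of directions whose link has no `k+1` orthonormal vectors. -/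
def U1 (G : Geo n N κ S) (D : ℝ) (k : ℕ) : Set (Euc N × Euc N) :=
  {z | z ∈ US G ∧ ¬ Star.Bad k (Lk G D z.1 (ep G D z))}

lemma mem_lk_self {z : Euc N × Euc N} (hz : z ∈ US G) : z.2 ∈ Lk G D z.1 (ep G D z) :=
  ⟨hz.1.2, hz.2, rfl⟩

lemma ep_mem {z : Euc N × Euc N} (hz : z ∈ US G) : ep G D z ∈ S := (fl_US G hz D).1.1

namespace Hyp

lemma star' (H : Hyp G D) {z : Euc N × Euc N} (hz : z ∈ US G) :
    Star (G.T z.1) (Lk G D z.1 (ep G D z)) := by
  refine H.star (ep_mem hz) hz.1.1 ?_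
  rw [H.sym _ (ep_mem hz) _ hz.1.1]
  exact H.mini z hz D H.hD.le le_rfl

/-- bad set is closed in the unit tangent bundle. -/
lemma bad_closed (H : Hyp G D) {k : ℕ} :
    IsClosed {z | z ∈ US G ∧ Star.Bad k (Lk G D z.1 (ep G D z))} := by
  refine isSeqClosed_iff_isClosed.1 fun z z0 hz hlim => ?_
  have hz0 : z0 ∈ US G :=
    (isClosed_US G).mem_of_tendsto hlim (Eventually.of_forall fun j => (hz j).1)
  refine ⟨hz0, ?_⟩
  choose e he hL using fun j => (hz j).2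
  have h1 : Tendsto (fun j => (z j).1) atTop (𝓝 z0.1) := (continuous_fst.tendsto _).comp hlim
  have h2 : Tendsto (fun j => ep G D (z j)) atTop (𝓝 (ep G D z0)) :=
    (continuous_fst.tendsto _).comp
      ((continuousAt_fl G hz0.1 D).tendsto.comp (hlim.prodMk_nhds tendsto_const_nhds))
  obtain ⟨e0, φ, -, ho, -, hm⟩ := frames_limit (fun j => (hz j).1.1.1) h1 h2 he hL
  exact ⟨e0, ho, hm⟩

lemma U1_open (H : Hyp G D) {k : ℕ} {z : Euc N × Euc N} (hz : z ∈ U1 G D k) :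
    ∀ᶠ z' in 𝓝[US G] z, z' ∈ U1 G D k := by
  have h1 : {z | z ∈ US G ∧ Star.Bad k (Lk G D z.1 (ep G D z))}ᶜ ∈ 𝓝 z :=
    (H.bad_closed (k := k)).isOpen_compl.mem_nhds fun h => hz.2 h.2
  filter_upwards [self_mem_nhdsWithin, nhdsWithin_le_nhds h1] with z' h2 h3
  exact ⟨h2, fun h => h3 ⟨h2, h⟩⟩

/-- the minimal lineality dimension and the non-empty set of directions where it is attained by
linear links. -/
lemma exists_k (H : Hyp G D) : ∃ k : ℕ, 1 ≤ k ∧
    (∀ z ∈ US G, k ≤ Module.finrank ℝ (lin (G.T z.1) (Lk G D z.1 (ep G D z)))) ∧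
    (U1 G D k).Nonempty := by
  classical
  -- some unit vector
  obtain ⟨p0, hp0⟩ := H.ne
  obtain ⟨v0, hv0, hv0n, -⟩ := H.hr p0 hp0 p0 hp0
  have hz0 : ((p0, v0) : Euc N × Euc N) ∈ US G := ⟨⟨hp0, hv0⟩, hv0n⟩
  set A : Set ℕ := {m | ∃ z ∈ US G, Module.finrank ℝ (lin (G.T z.1) (Lk G D z.1 (ep G D z))) = m}
    with hA
  have hAne : A.Nonempty := ⟨_, (p0, v0), hz0, rfl⟩
  set k := sInf A with hk
  have hmin : ∀ z ∈ US G, k ≤ Module.finrank ℝ (lin (G.T z.1) (Lk G D z.1 (ep G D z))) :=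
    fun z hz => Nat.sInf_le ⟨z, hz, rfl⟩
  obtain ⟨z, hz, hzk⟩ := Nat.sInf_mem hAne
  rw [← hk] at hzk
  have hst := H.star' hz
  refine ⟨k, by rw [← hzk]; exact hst.nontrivial, hmin, ?_⟩
  set q := z.1 with hq
  set p := ep G D z with hp
  have hqS : q ∈ S := hz.1.1
  have hpS : p ∈ S := ep_mem hz
  have hpq : intrinsicDist S p q = D := by
    rw [H.sym _ hpS _ hqS]
    exact H.mini z hz D H.hD.le le_rfl
  obtain ⟨x, hx, hsep⟩ := hst.exists_sep
  obtain ⟨u0, hu0, h0, s, y, hs, hsl, hy, hyl⟩ := H.approach hpS hqS hpq hx.1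
  have h00 : ⟪x, u0⟫ = 0 := le_antisymm (by rw [real_inner_comm]; exact hx.2 u0 hu0) h0
  rw [h00, zero_smul, sub_zero] at hyl
  have hyq : Tendsto y atTop (𝓝 q) := by
    have h1 := (hsl.smul hyl).add_const q
    rw [zero_smul, zero_add] at h1
    refine h1.congr fun j => ?_
    rw [smul_smul, mul_inv_cancel₀ (hs j).ne', one_smul, sub_add_cancel]
  have hex : ∃ j, ¬ Star.Bad k (Lk G D (y j) p) := by
    by_contra hcon
    push_neg at hcon
    choose e he hL using hcon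
    obtain ⟨e0, φ, hφ, ho, hel, hm⟩ := frames_limit (fun j => (hy j).1) hyq
      (tendsto_const_nhds (x := p)) he hL
    obtain ⟨C, hC, hF⟩ := H.f1_lk
    have hin : ∀ i, e0 i ∈ lin (G.T q) (Lk G D q p) := by
      intro i
      refine hsep (e0 i) (hm i).1 (fun y' hy' => hy'.2 _ (hm i)) ?_
      have h1 : ∀ j, -(C * (s (φ j) * ‖(s (φ j))⁻¹ • (y (φ j) - q)‖ ^ 2)) ≤
          ⟪e (φ j) i, (s (φ j))⁻¹ • (y (φ j) - q)⟫ := by
        intro j
        have h2 := hF (y (φ j)) (hy _).1 p hpS (e (φ j) i) (hL _ i) q hqS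
        rw [hpq] at h2
        have h3 : -(C * ‖y (φ j) - q‖ ^ 2) ≤ ⟪e (φ j) i, y (φ j) - q⟫ := by
          rw [← neg_sub (y (φ j)) q, inner_neg_right, norm_neg] at h2
          linarith
        have h4 := mul_le_mul_of_nonneg_left h3 (inv_pos.2 (hs (φ j))).le
        rw [inner_smul_right]
        refine le_trans (le_of_eq ?_) h4
        rw [norm_smul, Real.norm_of_nonneg (inv_pos.2 (hs _)).le]
        have := (hs (φ j)).ne'
        field_simp
      have hφt := hφ.tendsto_atTop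
      have h5 : Tendsto (fun j => ⟪e (φ j) i, (s (φ j))⁻¹ • (y (φ j) - q)⟫) atTop
          (𝓝 ⟪e0 i, x⟫) :=
        (((continuous_apply i).tendsto e0).comp hel).inner (hyl.comp hφt)
      have h6 : Tendsto (fun j => -(C * (s (φ j) * ‖(s (φ j))⁻¹ • (y (φ j) - q)‖ ^ 2))) atTop
          (𝓝 0) := by
        have := (((hsl.comp hφt).mul ((hyl.comp hφt).norm.pow 2)).const_mul C).neg
        rwa [zero_mul, mul_zero, neg_zero] at this
      exact le_of_tendsto_of_tendsto' h6 h5 h1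
    have := card_le_of_orthonormal ho hin
    omega
  obtain ⟨j, hj⟩ := hex
  have hstj := H.star hpS (hy j).1 (hy j).2
  obtain ⟨u, hu, -⟩ := hstj.star 0 (G.T _).zero_mem
  have hzU : ((y j, u) : Euc N × Euc N) ∈ US G := lk_US (hy j).1 hu
  refine ⟨(y j, u), hzU, ?_⟩
  have : ep G D (y j, u) = p := hu.2.2
  rw [this]
  exact hj

/-- in `U1` links are linear. -/
lemma linear_of_U1 (H : Hyp G D) {k : ℕ}
    (hmin : ∀ z ∈ US G, k ≤ Module.finrank ℝ (lin (G.T z.1) (Lk G D z.1 (ep G D z))))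
    {z : Euc N × Euc N} (hz : z ∈ U1 G D k) :
    Module.finrank ℝ (lin (G.T z.1) (Lk G D z.1 (ep G D z))) = k ∧
      ∀ u, u ∈ Lk G D z.1 (ep G D z) ↔ u ∈ lin (G.T z.1) (Lk G D z.1 (ep G D z)) ∧ ‖u‖ = 1 := by
  have hst := H.star' hz.1
  obtain ⟨h1, h2⟩ := hst.linear_of_not_bad (hmin z hz.1) hz.2
  exact ⟨h1, fun u => ⟨fun h => ⟨h2 u h, h.2.1⟩, fun h => hst.lin_sub h.1 h.2⟩⟩

/-- geodesics with antipodal link are closed. -/
lemma periodic_of_neg (H : Hyp G D) {z : Euc N × Euc N} (hz : z ∈ US G)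
    (hneg : -z.2 ∈ Lk G D z.1 (ep G D z)) : fl G (z, 2 * D) = z := by
  have h1 := H.inner_lk hz.1.1 (mem_lk_self (D := D) hz) hneg
  rw [inner_neg_right, real_inner_self_eq_norm_sq, hz.2] at h1
  have hz' : rev z ∈ US G := rev_US G hz
  have ha := (fl_US G hz D).2
  have hb := (fl_US G hz' D).2
  have hzz : ((z.1, z.2) : Euc N × Euc N) = z := rfl
  have hrz : ((z.1, -z.2) : Euc N × Euc N) = rev z := rfl
  rw [hzz, hrz] at h1
  have h2 : (fl G (rev z, D)).2 = -(fl G (z, D)).2 := by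
    have h3 : ‖(fl G (rev z, D)).2 + (fl G (z, D)).2‖ ^ 2 = 0 := by
      rw [norm_add_sq_real, ha, hb, real_inner_comm, ← h1]; norm_num
    have h4 : (fl G (rev z, D)).2 + (fl G (z, D)).2 = 0 := by
      rw [← norm_eq_zero]; exact pow_eq_zero_iff (two_ne_zero) |>.1 h3
    exact eq_neg_of_add_eq_zero_left h4
  have h5 : (fl G (rev z, D)).1 = (fl G (z, D)).1 := hneg.2.2
  have h6 : rev (fl G (rev z, D)) = fl G (z, D) := by
    rw [rev, h5, h2, neg_neg]
  have h7 := fl_rev_back G hz'.1 D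
  rw [h6, rev_rev, ← fl_add' G hz.1] at h7
  rw [two_mul]; exact h7

lemma periodic_of_U1 (H : Hyp G D) {k : ℕ}
    (hmin : ∀ z ∈ US G, k ≤ Module.finrank ℝ (lin (G.T z.1) (Lk G D z.1 (ep G D z))))
    {z : Euc N × Euc N} (hz : z ∈ U1 G D k) : fl G (z, 2 * D) = z := by
  refine H.periodic_of_neg hz.1 ?_
  have h1 := (H.linear_of_U1 hmin hz).2
  have h2 := (h1 z.2).1 (mem_lk_self hz.1)
  exact (h1 (-z.2)).2 ⟨Submodule.neg_mem _ h2.1, by rw [norm_neg]; exact h2.2⟩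

end Hyp

end Crest.Agent.R208.K
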