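import Crest.Agent.R208.K6
import Crest.Agent.R208.G3s
import Crest.Agent.R208.I3
import Crest.Agent.R208.HS4

/-!
R208 (Blaschke), block G5, file K7: wiring, `Bl → Hyp`.
-/

set_option autoImplicit false

open Set Filter Topology
open scoped ContDiff RealInnerProductSpace
open Crest.GeometryTopology.Submanifold
open Crest.Agent.R241.DDefs
open Crest.Agent.R241.D2

noncomputable section

namespace Crest.Agent.R208.K

variable {n N : ℕ} {κ : ℝ} {S : Set (Euc N)} {G : Geo n N κ S} {D : ℝ}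

theorem hyp_of_bl (h : Bl n N κ S G D) : Hyp G D where
  hD := h.D_pos
  hn := h.hn
  cpt := h.cpt
  ne := h.conn.nonempty
  sym p _ q _ := intrinsicDist_comm S p q
  cont := h.continuousOn_dist
  le := h.dist_le
  mini z hz t h0 h1 := by
    have := h.dist_fl z hz.1 hz.2 0 t h0 (by linarith)
    rwa [fl_zero, sub_zero] at this
  hr p hp q hq := by
    obtain ⟨v, hv, hvn, hve⟩ := h.exists_Exp hp hq
    by_cases hv0 : v = 0
    · -- `p = q`: any unit vector
      have hd : intrinsicDist S p q = 0 := by rw [← hvn, hv0, norm_zero]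
      have hfin := G.finrank_T p hp
      have hne : (G.T p) ≠ ⊥ := by
        intro hb
        rw [hb, finrank_bot] at hfin
        have := h.hn
        omega
      obtain ⟨x, hx, hx0⟩ := Submodule.exists_mem_ne_zero_of_ne_bot hne
      refine ⟨(‖x‖⁻¹ : ℝ) • x, (G.T p).smul_mem _ hx, norm_normalize hx0, ?_⟩
      rw [hd, fl_zero]
      rw [hv0, Exp_zero G hp] at hve
      exact hve
    · refine ⟨(‖v‖⁻¹ : ℝ) • v, (G.T p).smul_mem _ hv, norm_normalize hv0, ?_⟩
      have h1 := Exp_smul G hp ((G.T p).smul_mem ‖v‖⁻¹ hv) ‖v‖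
      rw [smul_smul, mul_inv_cancel₀ (norm_ne_zero_iff.2 hv0), one_smul] at h1
      rw [← hvn, ← h1, hve]
  f1 := by
    obtain ⟨K, hK, hF⟩ := I.first_variation h fun p hp q hq => h.exists_Exp hp hq
    exact ⟨K, hK, fun z hz l h1 h2 p' hp' q' hq' => hF z hz.1 hz.2 l h1 h2 p' hp' q' hq'⟩
  v4 z hz t h0 h1 b hb hb0 := I.no_conj h hz.1 hz.2 h0 h1 hb hb0

/-- (G5) for a Blaschke manifold, modulo the local constancy of the multiplicity. -/
theorem links_of_bl (h : Bl n N κ S G D) (hmc : MultConst G D) : ∃ k : ℕ, 1 ≤ k ∧ k ≤ n ∧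
    (∀ z ∈ US G, fl G (z, 2 * D) = z) ∧
    (∀ p ∈ S, ∀ q ∈ S, intrinsicDist S p q = D → ∃ V : Submodule ℝ (Euc N), V ≤ G.T p ∧
      Module.finrank ℝ V = k ∧
      (∀ v : Euc N, (v ∈ V ∧ ‖v‖ = 1) ↔ (v ∈ G.T p ∧ ‖v‖ = 1 ∧ Exp G p (D • v) = q)) ∧
      (∀ v ∈ V, ‖v‖ = 1 → ∀ b : Euc N, (b ∈ G.T p ∧ fderiv ℝ (Exp G p) (D • v) b = 0) ↔
        (b ∈ V ∧ ⟪v, b⟫ = 0))) ∧
    (∀ z ∈ US G, mult G D z + 1 = k) :=
  (hyp_of_bl h).links hmc

/-- closedness of geodesics in the form of G7 (`D = π`). -/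
theorem per_of_bl {G : Geo n N κ S} (h : Bl n N κ S G Real.pi) (hmc : MultConst G Real.pi) :
    HS.Per G := by
  obtain ⟨k, -, -, hper, -, -⟩ := links_of_bl h hmc
  exact fun z hz hz1 => hper z ⟨hz, hz1⟩

/-- links in the form of G7 (`D = π`). -/
theorem hsLinks_of_bl {G : Geo n N κ S} (h : Bl n N κ S G Real.pi) (hmc : MultConst G Real.pi) :
    HS.Links G := by
  obtain ⟨k, -, -, -, hl, -⟩ := links_of_bl h hmc
  intro p hp q hq hpq
  obtain ⟨V, h1, -, h3, -⟩ := hl p hp q hq hpq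
  exact ⟨V, h1, h3⟩

/-- G7 with G5 inserted: the polar metric at every direction gives two-point homogeneity. -/
theorem hom_of_polar {G : Geo n N κ S} (h : Bl n N κ S G Real.pi)
    (hmc : MultConst G Real.pi) (hpol : ∀ p ∈ S, ∀ v ∈ G.T p, ‖v‖ = 1 → HS.PolarAt G p v) :
    TwoPt S :=
  HS.hom h (per_of_bl h hmc) hpol (hsLinks_of_bl h hmc)

end Crest.Agent.R208.K
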