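import Crest.Agent.R208.RE5
import Crest.Agent.R208.RK1
import Crest.Agent.R208.FL6
import Crest.Agent.R208.RS1

/-! Row 208, block RR, piece (KC) (helper613), part KC1: the estimates on the contraction `Af` near
`s = 0` and the inequality of the centres, uniformly on `Sph (US G) PN`. -/

set_option autoImplicit false
set_option linter.unusedSectionVars false
set_option linter.unusedVariables false

open Set Filter Topology MeasureTheory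
open scoped ContDiff RealInnerProductSpace Real
open Crest.GeometryTopology.Submanifold
open Crest.Agent.R241.DDefs Crest.Agent.R241.D Crest.Agent.R241.D2

noncomputable section

namespace Crest.Agent.R208.KC

open Crest.Agent.R208.SV Crest.Agent.R208.MS Crest.Agent.R208.NN Crest.Agent.R208.FL
open Crest.Agent.R208.NB

variable {n N K k : ℕ} {κ : ℝ} {S : Set (Euc N)} {G : Geo n N κ S} {lg : Euc N → Euc N → Euc N}
  {ρ : Euc N → Euc N} {r C r' Kr B w δ : ℝ} {PN : Euc N × Euc N → Wt N K →L[ℝ] Wt N K}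
  {ε E₀ η : ℝ} {J : ℕ}

/-- second order estimate of the retraction -/
theorem rho2 (hR : Retr S ρ r' Kr) (hP : ∀ x ∈ S, fderiv ℝ ρ x = G.P x) {x b : Euc N} (hx : x ∈ S)
    (hb : b ∈ G.T x) (hb' : ‖b‖ < r') : ‖ρ (x + b) - x - b‖ ≤ 2 * Kr * ‖b‖ ^ 2 := by
  have e : x + b - x = b := by abel
  have h1 := hR.taylor x hx (x + b) (by rwa [e])
  have h2 := hR.lip x hx (x + b) (by rwa [e])
  rw [e] at h1 h2
  have h3 : fderiv ℝ ρ x b = b := by rw [hP x hx]; exact (P_eq_self G hx).1 hb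
  have h4 : ‖fderiv ℝ ρ (x + b) b - b‖ ≤ Kr * ‖b‖ ^ 2 := by
    calc ‖fderiv ℝ ρ (x + b) b - b‖ = ‖(fderiv ℝ ρ (x + b) - fderiv ℝ ρ x) b‖ := by
          rw [_root_.sub_apply, h3]
      _ ≤ ‖fderiv ℝ ρ (x + b) - fderiv ℝ ρ x‖ * ‖b‖ := ContinuousLinearMap.le_opNorm _ _
      _ ≤ Kr * ‖b‖ * ‖b‖ := by gcongr
      _ = Kr * ‖b‖ ^ 2 := by ring
  calc ‖ρ (x + b) - x - b‖ = ‖(ρ (x + b) - x - fderiv ℝ ρ (x + b) b) +
        (fderiv ℝ ρ (x + b) b - b)‖ := by congr 1; abel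
    _ ≤ Kr * ‖b‖ ^ 2 + Kr * ‖b‖ ^ 2 := (norm_add_le _ _).trans (add_le_add h1 h4)
    _ = 2 * Kr * ‖b‖ ^ 2 := by ring

/-- every point of the orbit is a point of `[0, 2π]` -/
theorem exists_mod_Af (h : D1 G k K lg ρ r C r' Kr B w δ PN ε J E₀ η)
    {q : (Euc N × Euc N) × Wt N K} (hq : q ∈ FI.Tot (L.US G) PN) (s t : ℝ) :
    ∃ t' ∈ Icc (0 : ℝ) (2 * π), Af G lg ρ w J ε (Ph G K t q, s) =
      Af G lg ρ w J ε (Ph G K t' q, s) := by
  have hl := loop_oc h.cir h.fam (FL.sc_mem (s := s) hq)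
  have hp : Function.Periodic (oc (Ph G K) (f1 G lg ρ w J ε) (FL.sc s q)) (2 * π) := hl.per
  obtain ⟨t', ht', he⟩ := hp.exists_mem_Ico₀ (by positivity) t
  refine ⟨t', ⟨ht'.1, ht'.2.le⟩, ?_⟩
  change f1 G lg ρ w J ε (FL.sc s (Ph G K t q)) = f1 G lg ρ w J ε (FL.sc s (Ph G K t' q))
  rw [← Ph_sc, ← Ph_sc]
  exact he

/-- the geodesic as `Exp` -/
theorem ga_eq {z : Euc N × Euc N} (hz : z ∈ L.US G) (t : ℝ) :
    (fl G (z, t)).1 = Exp G z.1 (t • z.2) := (Exp_smul G hz.1.1 hz.1.2 t).symm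

/-- the constants -/
structure Bd (G : Geo n N κ S) (k K : ℕ) (ρ : Euc N → Euc N) (sg : Euc N → Euc N → Euc N)
    (PN : Euc N × Euc N → Wt N K →L[ℝ] Wt N K) (h : GT.Bla G k) (e0 : ℝ) : Prop where
  pos : 0 < e0
  lt : ∀ q ∈ T.Sph (L.US G) PN, ∀ e, 0 < e → e ≤ e0 →
    intrinsicDist S q.1.1 (ρ (q.1.1 + e • fd G q.1 (nuP K) q.2 0)) < π
  cen : ∀ q ∈ T.Sph (L.US G) PN, ∀ e, 0 < e → e ≤ e0 → ∀ τ ∈ Icc (0 : ℝ) 1,
    ∀ t ∈ Icc (0 : ℝ) (2 * π), intrinsicDist S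
      (Exp G q.1.1 ((1 - τ) • sg q.1.1 (ρ (q.1.1 + e • fd G q.1 (nuP K) q.2 0)) +
        (τ * (π / 2)) • RK.dir h PN q))
      (ρ ((fl G (q.1, t)).1 + e • fd G q.1 (nuP K) q.2 t)) < π

set_option maxHeartbeats 1000000 in
theorem exists_Bd (h : GT.Bla G k) (hkn : k < n) (H : NegB G (k - 1) (nuP K) δ PN)
    (hR : Retr S ρ r' Kr) (hP : ∀ x ∈ S, fderiv ℝ ρ x = G.P x)
    {sg : Euc N → Euc N → Euc N} (hsg : ∀ x ∈ S, ∀ y ∈ S, sg x y ∈ G.T x ∧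
      ‖sg x y‖ = intrinsicDist S x y ∧ Exp G x (sg x y) = y) :
    ∃ e0, Bd G k K ρ sg PN h e0 := by
  have hpi := Real.pi_pos
  have hKr : 0 ≤ Kr := zero_le_one.trans hR.one_le
  have hr' := hR.r_pos
  obtain ⟨κm, hκm, hlow⟩ := RK.lower h hkn H
  obtain ⟨C1, hC1, hfd⟩ := exists_bound_fd h.bl.cpt G (nuP K)
  obtain ⟨K1, hK1, hII⟩ := MS.exists_II_bound (G := G) h.bl.cpt
  have hK1' : 0 ≤ K1 := zero_le_one.trans hK1
  obtain ⟨δ1, hδ1, hδb⟩ := uniform_joinedLen h.bl.sub h.bl.cpt zero_lt_one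
  obtain ⟨D, hD⟩ : ∃ D, D = C1 + 2 * Kr * C1 ^ 2 := ⟨_, rfl⟩
  have hD0 : 0 ≤ D := by rw [hD]; positivity
  obtain ⟨Cc, hCc⟩ : ∃ Cc, Cc = C1 + 2 * Kr * C1 ^ 2 + K1 * (2 * D) ^ 2 := ⟨_, rfl⟩
  have hCc0 : 0 ≤ Cc := by rw [hCc]; positivity
  have hCc1 : C1 ≤ Cc := by
    have : 0 ≤ 2 * Kr * C1 ^ 2 + K1 * (2 * D) ^ 2 := by positivity
    rw [hCc]; linarith
  have hCc2 : 2 * Kr * C1 ^ 2 ≤ Cc := by
    have : 0 ≤ C1 + K1 * (2 * D) ^ 2 := by positivity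
    rw [hCc]; linarith
  have hCc3 : 2 * Kr * C1 ^ 2 + K1 * (2 * D) ^ 2 ≤ Cc := by
    rw [hCc]; linarith
  obtain ⟨ε0, hε0, hε01, hcen⟩ := RE.centre_unif h hCc0 hκm
  obtain ⟨e0, he0, he0ε, he0r, he0δ, he0π⟩ : ∃ e0 : ℝ, 0 < e0 ∧ e0 ≤ ε0 ∧ e0 * C1 < r' ∧
      D * e0 < δ1 ∧ 2 * D * e0 < π := by
    refine ⟨min ε0 (min (r' / (C1 + 1)) (min (δ1 / (D + 1)) (1 / (D + 1)))), by positivity,
      min_le_left _ _, ?_, ?_, ?_⟩
    · have h1 : min ε0 (min (r' / (C1 + 1)) (min (δ1 / (D + 1)) (1 / (D + 1)))) ≤ r' / (C1 + 1) :=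
        (min_le_right _ _).trans (min_le_left _ _)
      calc _ ≤ r' / (C1 + 1) * C1 := by gcongr
        _ < r' := by rw [div_mul_eq_mul_div, div_lt_iff₀ (by positivity)]; nlinarith
    · have h1 : min ε0 (min (r' / (C1 + 1)) (min (δ1 / (D + 1)) (1 / (D + 1)))) ≤ δ1 / (D + 1) :=
        (min_le_right _ _).trans ((min_le_right _ _).trans (min_le_left _ _))
      calc _ ≤ D * (δ1 / (D + 1)) := by gcongr
        _ < δ1 := by rw [← mul_div_assoc, div_lt_iff₀ (by positivity)]; nlinarith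
    · have h1 : min ε0 (min (r' / (C1 + 1)) (min (δ1 / (D + 1)) (1 / (D + 1)))) ≤ 1 / (D + 1) :=
        (min_le_right _ _).trans ((min_le_right _ _).trans (min_le_right _ _))
      calc _ ≤ 2 * D * (1 / (D + 1)) := by gcongr
        _ ≤ 2 := by rw [mul_one_div, div_le_iff₀ (by positivity)]; nlinarith
        _ < π := by linarith [Real.pi_gt_three]
  -- common part
  have key : ∀ q ∈ T.Sph (L.US G) PN, ∀ e, 0 < e → e ≤ e0 → ∀ t : ℝ,
      ‖fd G q.1 (nuP K) q.2 t‖ ≤ C1 ∧ ‖e • fd G q.1 (nuP K) q.2 t‖ < r' ∧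
      (fl G (q.1, t)).1 ∈ S ∧ ρ ((fl G (q.1, t)).1 + e • fd G q.1 (nuP K) q.2 t) ∈ S ∧
      ‖ρ ((fl G (q.1, t)).1 + e • fd G q.1 (nuP K) q.2 t) - (fl G (q.1, t)).1 -
        e • fd G q.1 (nuP K) q.2 t‖ ≤ 2 * Kr * C1 ^ 2 * e ^ 2 := by
    intro q hq e he hee t
    have hq1 : ‖q.2‖ = 1 := hq.2
    have h1 := (hfd q.1 hq.1.1 q.2 t).1
    rw [hq1, mul_one] at h1
    have h2 : ‖e • fd G q.1 (nuP K) q.2 t‖ ≤ e * C1 := by
      rw [norm_smul, Real.norm_of_nonneg he.le]; gcongr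
    have h3 : e * C1 ≤ e0 * C1 := by gcongr
    have h4 : ‖e • fd G q.1 (nuP K) q.2 t‖ < r' := (h2.trans h3).trans_lt he0r
    have h5 : (fl G (q.1, t)).1 ∈ S := (fl_mem G hq.1.1.1 t).1
    refine ⟨h1, h4, h5, hR.mem _ h5 _ (by rwa [add_sub_cancel_left]), ?_⟩
    have h6 := rho2 hR hP h5 ((G.T _).smul_mem e (fd_mem hq.1.1.1 (nuP K) q.2 t)) h4
    refine h6.trans ?_
    calc 2 * Kr * ‖e • fd G q.1 (nuP K) q.2 t‖ ^ 2 ≤ 2 * Kr * (e * C1) ^ 2 := by gcongr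
      _ = 2 * Kr * C1 ^ 2 * e ^ 2 := by ring
  -- the starting point
  have start : ∀ q ∈ T.Sph (L.US G) PN, ∀ e, 0 < e → e ≤ e0 →
      intrinsicDist S q.1.1 (ρ (q.1.1 + e • fd G q.1 (nuP K) q.2 0)) ≤ 2 * D * e := by
    intro q hq e he hee
    obtain ⟨k1, k2, k3, k4, k5⟩ := key q hq e he hee 0
    have h0 : (fl G (q.1, 0)).1 = q.1.1 := by rw [fl_zero G]
    rw [h0] at k3 k4 k5
    have he1 : e ≤ 1 := hee.trans (he0ε.trans hε01)
    have h1 : ‖ρ (q.1.1 + e • fd G q.1 (nuP K) q.2 0) - q.1.1‖ ≤ D * e := by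
      calc ‖ρ (q.1.1 + e • fd G q.1 (nuP K) q.2 0) - q.1.1‖ =
            ‖(ρ (q.1.1 + e • fd G q.1 (nuP K) q.2 0) - q.1.1 - e • fd G q.1 (nuP K) q.2 0) +
              e • fd G q.1 (nuP K) q.2 0‖ := by congr 1; abel
        _ ≤ 2 * Kr * C1 ^ 2 * e ^ 2 + e * C1 := by
            refine (norm_add_le _ _).trans (add_le_add k5 ?_)
            rw [norm_smul, Real.norm_of_nonneg he.le]; gcongr
        _ ≤ 2 * Kr * C1 ^ 2 * e + e * C1 := by
            have h2 : e ^ 2 ≤ e := by nlinarith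
            gcongr
        _ = D * e := by rw [hD]; ring
    have h2 : D * e ≤ D * e0 := by gcongr
    obtain ⟨ℓ, l1, l2⟩ := hδb q.1.1 k3 _ k4 (by
      rw [dist_comm, dist_eq_norm]; exact (h1.trans h2).trans_lt he0δ)
    refine (intrinsicDist_le l1).trans (l2.trans ?_)
    linarith
  refine ⟨e0, he0, fun q hq e he hee => ?_, fun q hq e he hee τ hτ t ht => ?_⟩
  · have h1 := start q hq e he hee
    have h2 : 2 * D * e ≤ 2 * D * e0 := by gcongr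
    linarith
  · have hz := hq.1.1
    have hF := NN.mem_FF h hz
    have hq2 : q.2 ≠ 0 := by
      intro h0
      have := hq.2
      rw [h0, norm_zero] at this
      exact zero_ne_one this
    have hdm : RK.dir h PN q ∈ GT.Vs G q.1.1 (qq G q.1) := RK.dir_mem h hkn hz hq.1.2
    have hdn : ‖RK.dir h PN q‖ = 1 := RK.norm_dir h H hkn hz hq.1.2 hq2
    have hdv : ⟪q.1.2, RK.dir h PN q⟫ = 0 := RK.inner_dir_v h hkn hz hq.1.2
    have hpr := RK.pairing_ar h H hlow hkn hz hq.1.2 hq2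
    rw [hq.2, mul_one] at hpr
    obtain ⟨k1, k2, k3, k4, k5⟩ := key q hq e he hee 0
    have h0 : (fl G (q.1, 0)).1 = q.1.1 := by rw [fl_zero G]
    rw [h0] at k3 k4 k5
    obtain ⟨s1, s2, s3⟩ := hsg q.1.1 k3 _ k4
    refine hcen q.1.1 (qq G q.1) q.1.2 (RK.dir h PN q) hF (NN.mem_Vs hz) hz.2 hdm hdn hdv
      (fd G q.1 (nuP K) q.2) (fun t _ => ((key q hq e he hee t).1).trans hCc1) (fun t ht => ?_)
      hpr e he (hee.trans he0ε) (fun t => ρ ((fl G (q.1, t)).1 + e • fd G q.1 (nuP K) q.2 t))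
      (fun t _ => (key q hq e he hee t).2.2.2.1) (fun t _ => ?_) _ s1 ?_ τ hτ t ht
    · -- Lipschitz
      have h1 : ‖fd G q.1 (nuP K) q.2 t - fd G q.1 (nuP K) q.2 π‖ ≤ C1 * ‖t - π‖ := by
        refine Convex.norm_image_sub_le_of_norm_hasDerivWithin_le (s := univ)
          (f := fd G q.1 (nuP K) q.2) (f' := fd' G q.1 (nuP K) q.2)
          (fun x _ => (hasDerivAt_fd hz.1 (nuP K) q.2 x).hasDerivWithinAt) (fun x _ => ?_)
          convex_univ (mem_univ _) (mem_univ _)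
        have h2 := (hfd q.1 hz q.2 x).2.1
        rwa [hq.2, mul_one] at h2
      refine h1.trans ?_
      rw [Real.norm_eq_abs]
      gcongr
    · rw [← ga_eq hz t]
      refine (key q hq e he hee t).2.2.2.2.trans ?_
      gcongr
    · have h1 := start q hq e he hee
      rw [← s2] at h1
      have h2 := MS.norm_Exp_sub hII hK1' k3 s1
      rw [s3] at h2
      have h3 : ‖sg q.1.1 (ρ (q.1.1 + e • fd G q.1 (nuP K) q.2 0))‖ ^ 2 ≤ (2 * D * e) ^ 2 := by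
        gcongr
      calc ‖sg q.1.1 (ρ (q.1.1 + e • fd G q.1 (nuP K) q.2 0)) - e • fd G q.1 (nuP K) q.2 0‖
          = ‖(ρ (q.1.1 + e • fd G q.1 (nuP K) q.2 0) - q.1.1 - e • fd G q.1 (nuP K) q.2 0) -
            (ρ (q.1.1 + e • fd G q.1 (nuP K) q.2 0) - q.1.1 -
              sg q.1.1 (ρ (q.1.1 + e • fd G q.1 (nuP K) q.2 0)))‖ := by congr 1; abel
        _ ≤ 2 * Kr * C1 ^ 2 * e ^ 2 + K1 * (2 * D * e) ^ 2 := by
            refine (norm_sub_le _ _).trans (add_le_add k5 (h2.trans ?_))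
            gcongr
        _ = (2 * Kr * C1 ^ 2 + K1 * (2 * D) ^ 2) * e ^ 2 := by ring
        _ ≤ Cc * e ^ 2 := by gcongr

end Crest.Agent.R208.KC
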