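import Crest.Agent.R208.SV1
import Crest.Agent.R241.D3c

/-!
Row 208, block KG (helper10), part KG1: smooth rounding of the corners of broken geodesics.
Profile functions; the quadratic comparison `|D Exp_x(u) y|² ≤ |y|² + C (|u|²|y|² - ⟪u,y⟫²)`;
the energy of a rounded corner.
-/

set_option autoImplicit false

open Set Filter Topology MeasureTheory
open scoped ContDiff RealInnerProductSpace Interval
open Crest.GeometryTopology.Submanifold
open Crest.Agent.R241.DDefs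
open Crest.Agent.R241.D2
open Crest.Agent.R241.D3c

noncomputable section

namespace Crest.Agent.R208.KG

/-! ### The profile `th` -/

/-- derivative of the profile -/
def sg (r : ℝ) : ℝ := Real.smoothTransition ((r + 1) / 2)

lemma contDiff_sg : ContDiff ℝ ∞ sg :=
  Real.smoothTransition.contDiff.comp (by fun_prop)

lemma sg_nonneg (r : ℝ) : 0 ≤ sg r := Real.smoothTransition.nonneg _

lemma sg_le_one (r : ℝ) : sg r ≤ 1 := Real.smoothTransition.le_one _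

lemma sg_of_le {r : ℝ} (h : r ≤ -1) : sg r = 0 :=
  Real.smoothTransition.zero_of_nonpos (by linarith)

lemma sg_of_ge {r : ℝ} (h : 1 ≤ r) : sg r = 1 :=
  Real.smoothTransition.one_of_one_le (by linarith)

lemma sg_add_neg (r : ℝ) : sg r + sg (-r) = 1 := by
  unfold sg Real.smoothTransition
  have h1 : 1 - (r + 1) / 2 = (-r + 1) / 2 := by ring
  have h2 : 1 - (-r + 1) / 2 = (r + 1) / 2 := by ring
  rw [h1, h2]
  have h3 : expNegInvGlue ((r + 1) / 2) + expNegInvGlue ((-r + 1) / 2) ≠ 0 := by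
    have := Real.smoothTransition.pos_denom ((r + 1) / 2)
    rw [h1] at this
    exact this.ne'
  rw [add_comm (expNegInvGlue ((-r + 1) / 2)), ← add_div, div_self h3]

/-- the profile: `0` for `s ≤ -1`, `s` for `1 ≤ s`, `0 ≤ th' ≤ 1`, `th s - th (-s) = s` -/
def th (s : ℝ) : ℝ := ∫ r in (-1 : ℝ)..s, sg r

lemma hasDerivAt_th (s : ℝ) : HasDerivAt th (sg s) s :=
  intervalIntegral.integral_hasDerivAt_right (contDiff_sg.continuous.intervalIntegrable _ _)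
    (contDiff_sg.continuous.stronglyMeasurableAtFilter _ _) contDiff_sg.continuous.continuousAt

lemma deriv_th : deriv th = sg := funext fun s => (hasDerivAt_th s).deriv

lemma contDiff_th : ContDiff ℝ ∞ th := by
  rw [contDiff_infty_iff_deriv]
  refine ⟨fun s => (hasDerivAt_th s).differentiableAt, ?_⟩
  rw [deriv_th]
  exact contDiff_sg

lemma th_of_le {s : ℝ} (h : s ≤ -1) : th s = 0 := by
  unfold th
  rw [intervalIntegral.integral_symm, neg_eq_zero]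
  rw [intervalIntegral.integral_congr (g := fun _ => (0 : ℝ)), intervalIntegral.integral_zero]
  intro r hr
  rw [uIcc_of_le h] at hr
  exact sg_of_le hr.2

lemma th_sub_neg (s : ℝ) : th s - th (-s) = s := by
  have h1 : ∀ r, HasDerivAt (fun r => th r - th (-r) - r) 0 r := by
    intro r
    have h2 := (hasDerivAt_th (-r)).scomp r (hasDerivAt_neg r)
    refine (((hasDerivAt_th r).sub h2).sub (hasDerivAt_id r)).congr_deriv ?_
    rw [smul_eq_mul]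
    have := sg_add_neg r
    linarith
  have h2 := is_const_of_deriv_eq_zero (fun r => (h1 r).differentiableAt)
    (fun r => (h1 r).deriv) s 0
  simp only [neg_zero, sub_self] at h2
  linarith

lemma th_of_ge {s : ℝ} (h : 1 ≤ s) : th s = s := by
  have := th_sub_neg s
  rw [th_of_le (s := -s) (by linarith), sub_zero] at this
  exact this

lemma th_mono : Monotone th :=
  monotone_of_deriv_nonneg (fun s => (hasDerivAt_th s).differentiableAt)
    fun s => by rw [(hasDerivAt_th s).deriv]; exact sg_nonneg s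

lemma th_nonneg (s : ℝ) : 0 ≤ th s := by
  rcases le_total s (-1) with h | h
  · rw [th_of_le h]
  · calc (0 : ℝ) = th (-1) := (th_of_le le_rfl).symm
      _ ≤ th s := th_mono h

lemma th_zero_pos : 0 < th 0 := by
  unfold th
  refine intervalIntegral.integral_pos (by norm_num) contDiff_sg.continuous.continuousOn
    (fun r _ => sg_nonneg _) ⟨0, by norm_num, ?_⟩
  have := sg_add_neg 0
  rw [neg_zero] at this
  linarith

lemma th_le_one {s : ℝ} (h : s ≤ 1) : th s ≤ 1 :=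
  (th_mono h).trans (th_of_ge le_rfl).le

/-! ### Taylor's formula with parameters in a compact set -/

theorem taylor2 {Z : Type*} [NormedAddCommGroup Z] [NormedSpace ℝ Z] {K : Set Z}
    (hK : IsCompact K) {f : ℝ × Z → ℝ}
    (hf : ∀ τ ∈ Icc (0 : ℝ) 1, ∀ z ∈ K, ContDiffAt ℝ ∞ f (τ, z))
    (h0 : ∀ z ∈ K, fderiv ℝ f (0, z) (1, 0) = 0) :
    ∃ C : ℝ, 0 ≤ C ∧ ∀ z ∈ K, ∀ τ ∈ Icc (0 : ℝ) 1, f (τ, z) ≤ f (0, z) + C * τ ^ 2 := by
  set f1 : ℝ × Z → ℝ := fun y => fderiv ℝ f y (1, 0) with hf1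
  set f2 : ℝ × Z → ℝ := fun y => fderiv ℝ f1 y (1, 0) with hf2
  have c1 : ∀ τ ∈ Icc (0 : ℝ) 1, ∀ z ∈ K, ContDiffAt ℝ ∞ f1 (τ, z) := fun τ hτ z hz =>
    ((hf τ hτ z hz).fderiv_right (m := ∞) (by simp)).clm_apply contDiffAt_const
  have c2 : ∀ τ ∈ Icc (0 : ℝ) 1, ∀ z ∈ K, ContDiffAt ℝ ∞ f2 (τ, z) := fun τ hτ z hz =>
    ((c1 τ hτ z hz).fderiv_right (m := ∞) (by simp)).clm_apply contDiffAt_const
  obtain ⟨C, hC⟩ := ((isCompact_Icc (a := (0 : ℝ)) (b := 1)).prod hK).exists_bound_of_continuousOn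
    (f := f2) (fun y hy => (c2 y.1 hy.1 y.2 hy.2).continuousAt.continuousWithinAt)
  have hd : ∀ (τ : ℝ) (z : Z), HasDerivAt (fun s : ℝ => ((s, z) : ℝ × Z)) (1, 0) τ := fun τ z =>
    (hasDerivAt_id τ).prodMk (hasDerivAt_const τ z)
  refine ⟨|C|, abs_nonneg _, fun z hz τ hτ => ?_⟩
  have d1 : ∀ s ∈ Icc (0 : ℝ) 1, HasDerivAt (fun s => f (s, z)) (f1 (s, z)) s := fun s hs =>
    HasFDerivAt.comp_hasDerivAt (f := fun s : ℝ => ((s, z) : ℝ × Z)) s
      ((hf s hs z hz).differentiableAt (by simp)).hasFDerivAt (hd s z)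
  have d2 : ∀ s ∈ Icc (0 : ℝ) 1, HasDerivAt (fun s => f1 (s, z)) (f2 (s, z)) s := fun s hs =>
    HasFDerivAt.comp_hasDerivAt (f := fun s : ℝ => ((s, z) : ℝ × Z)) s
      ((c1 s hs z hz).differentiableAt (by simp)).hasFDerivAt (hd s z)
  -- `f1 ≤ |C| s`
  have e1 : ∀ s ∈ Icc (0 : ℝ) 1, f1 (s, z) ≤ |C| * s := by
    intro s hs
    have h1 := (convex_Icc (0 : ℝ) 1).norm_image_sub_le_of_norm_hasDerivWithin_le
      (f := fun s => f1 (s, z)) (C := |C|)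
      (fun r hr => (d2 r hr).hasDerivWithinAt)
      (fun r hr => (hC (r, z) ⟨hr, hz⟩).trans (le_abs_self C))
      (x := 0) (y := s) ⟨le_rfl, zero_le_one⟩ hs
    have h2 : f1 (0, z) = 0 := h0 z hz
    rw [h2, sub_zero, sub_zero, Real.norm_eq_abs, Real.norm_eq_abs, abs_of_nonneg hs.1] at h1
    exact (le_abs_self _).trans h1
  -- integrate
  have m1 : MonotoneOn (fun s => f (0, z) + |C| * s ^ 2 - f (s, z)) (Icc (0 : ℝ) 1) := by
    apply monotoneOn_of_deriv_nonneg (convex_Icc 0 1)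
    · intro s hs
      exact ((continuous_const.add (continuous_const.mul
        (continuous_pow 2))).continuousAt.sub (d1 s hs).continuousAt).continuousWithinAt
    · intro s hs
      rw [interior_Icc] at hs
      exact (((hasDerivAt_const s (f (0, z))).add ((hasDerivAt_pow 2 s).const_mul |C|)).sub
        (d1 s ⟨hs.1.le, hs.2.le⟩)).differentiableAt.differentiableWithinAt
    · intro s hs
      rw [interior_Icc] at hs
      have h3 := ((hasDerivAt_const s (f (0, z))).add ((hasDerivAt_pow 2 s).const_mul |C|)).sub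
        (d1 s ⟨hs.1.le, hs.2.le⟩)
      have h4 : deriv (fun s => f (0, z) + |C| * s ^ 2 - f (s, z)) s = _ := h3.deriv
      rw [h4]
      have h5 := e1 s ⟨hs.1.le, hs.2.le⟩
      have h6 : 0 ≤ |C| * s := mul_nonneg (abs_nonneg _) hs.1.le
      simp only [Nat.cast_ofNat, zero_add, Nat.add_one_sub_one, pow_one]
      linarith
  have m2 := m1 ⟨le_rfl, zero_le_one⟩ hτ hτ.1
  simp only at m2
  nlinarith [m2]

/-! ### The differential of `Exp` to second order -/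

variable {n N : ℕ} {κ : ℝ} {S : Set (Euc N)} {G : Geo n N κ S} {x u v w y a b : Euc N}

lemma hasDerivAt_fdExp (hx : x ∈ S) (hu : u ∈ G.T x) (w : Euc N) (τ : ℝ) :
    HasDerivAt (fun τ : ℝ => fderiv ℝ (Exp G x) (τ • u) w)
      (fderiv ℝ (fderiv ℝ (Exp G x)) (τ • u) u w) τ := by
  have h1 := (((contDiffAt_Exp' G hx ((G.T x).smul_mem τ hu)).fderiv_right
    (m := ∞) (by simp)).differentiableAt (by simp)).hasFDerivAt
  have h2 : HasDerivAt (fun τ : ℝ => τ • u) u τ := by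
    simpa using (hasDerivAt_id τ).smul_const u
  have h3 := h1.comp_hasDerivAt τ h2
  simpa using h3.clm_apply (hasDerivAt_const τ w)

lemma fdExp_self (hx : x ∈ S) (hv : v ∈ G.T x) (τ : ℝ) :
    fderiv ℝ (Exp G x) (τ • v) v = (fl G ((x, v), τ)).2 := by
  have h1 := ((contDiffAt_Exp' G hx ((G.T x).smul_mem τ hv)).differentiableAt
    (by simp)).hasFDerivAt
  have h2 : HasDerivAt (fun τ : ℝ => τ • v) v τ := by
    simpa using (hasDerivAt_id τ).smul_const v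
  have h3 := h1.comp_hasDerivAt τ h2
  have h4 : (Exp G x ∘ fun τ : ℝ => τ • v) = fun τ => (fl G ((x, v), τ)).1 :=
    funext fun τ => Exp_smul G hx hv τ
  rw [h4] at h3
  exact h3.unique (hda_fst (hasDerivAt_fl G (complete G (q := (x, v)) ⟨hx, hv⟩ τ)))

lemma snd_Exp_self (hx : x ∈ S) (hv : v ∈ G.T x) :
    fderiv ℝ (fderiv ℝ (Exp G x)) 0 v v = II G x v v := by
  have h1 := hasDerivAt_fdExp hx hv v 0
  rw [zero_smul] at h1
  have h2 : (fun τ : ℝ => fderiv ℝ (Exp G x) (τ • v) v) = fun τ => (fl G ((x, v), τ)).2 :=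
    funext fun τ => fdExp_self hx hv τ
  rw [h2] at h1
  have h3 := hda_snd (hasDerivAt_fl G (complete G (q := (x, v)) ⟨hx, hv⟩ 0))
  rw [fl_zero] at h3
  exact h1.unique h3

lemma snd_Exp_inner (hx : x ∈ S) (hu : u ∈ G.T x) (hw : w ∈ G.T x) (hy : y ∈ G.T x) :
    ⟪fderiv ℝ (fderiv ℝ (Exp G x)) 0 u w, y⟫ = 0 := by
  have hs : fderiv ℝ (fderiv ℝ (Exp G x)) 0 u w = fderiv ℝ (fderiv ℝ (Exp G x)) 0 w u := by
    have h0 : ContDiffAt ℝ ∞ (Exp G x) 0 := contDiffAt_Exp' G hx (G.T x).zero_mem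
    exact (h0.isSymmSndFDerivAt (n := ∞) Crest.Agent.R241.D3b.min_le).eq u w
  have h1 := snd_Exp_self hx ((G.T x).add_mem hu hw)
  have h2 : (2 : ℝ) • fderiv ℝ (fderiv ℝ (Exp G x)) 0 u w =
      II G x (u + w) (u + w) - II G x u u - II G x w w := by
    rw [← h1, ← snd_Exp_self hx hu, ← snd_Exp_self hx hw]
    simp only [map_add, add_apply]
    rw [← hs, two_smul]
    abel
  have h3 : ⟪(2 : ℝ) • fderiv ℝ (fderiv ℝ (Exp G x)) 0 u w, y⟫ = 0 := by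
    rw [h2, inner_sub_left, inner_sub_left,
      inner_II G hx ((G.T x).add_mem hu hw) ((G.T x).add_mem hu hw) hy,
      inner_II G hx hu hu hy, inner_II G hx hw hw hy]
    simp
  rw [inner_smul_left] at h3
  simpa using h3

/-- `|D Exp_x(u) w|² ≤ (1 + C |u|²) |w|²` -/
theorem exists_Q1 (hS : IsCompact S) (G : Geo n N κ S) :
    ∃ C : ℝ, 0 ≤ C ∧ ∀ x ∈ S, ∀ u ∈ G.T x, ∀ w ∈ G.T x, ‖u‖ ≤ 1 →
      ‖fderiv ℝ (Exp G x) u w‖ ^ 2 ≤ (1 + C * ‖u‖ ^ 2) * ‖w‖ ^ 2 := by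
  set f : ℝ × (Euc N × Euc N × Euc N) → ℝ := fun z =>
    ‖fderiv ℝ (Exp G z.2.1) (z.1 • z.2.2.1) z.2.2.2‖ ^ 2 with hf
  set K : Set (Euc N × Euc N × Euc N) := {z | z.1 ∈ S ∧ (z.2.1 ∈ G.T z.1 ∧ ‖z.2.1‖ ≤ 1) ∧
    (z.2.2 ∈ G.T z.1 ∧ ‖z.2.2‖ ≤ 1)} with hKd
  have hK : IsCompact K := by
    have h1 : K = (S ×ˢ (Metric.closedBall (0 : Euc N) 1 ×ˢ Metric.closedBall (0 : Euc N) 1)) ∩
        ({z | G.P z.1 z.2.1 = z.2.1} ∩ {z | G.P z.1 z.2.2 = z.2.2}) := by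
      ext z
      constructor
      · rintro ⟨h1, ⟨h2, h3⟩, h4, h5⟩
        exact ⟨⟨h1, by simpa using h3, by simpa using h5⟩, (P_eq_self G h1).1 h2,
          (P_eq_self G h1).1 h4⟩
      · rintro ⟨⟨h1, h2, h3⟩, h4, h5⟩
        exact ⟨h1, ⟨(P_eq_self G h1).2 h4, by simpa using h2⟩, (P_eq_self G h1).2 h5,
          by simpa using h3⟩
    rw [h1]
    have hP : Continuous G.P := G.contDiff_P.continuous
    refine (hS.prod ((isCompact_closedBall _ _).prod (isCompact_closedBall _ _))).inter_right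
      ((isClosed_eq ((hP.comp continuous_fst).clm_apply (by fun_prop)) (by fun_prop)).inter
      (isClosed_eq ((hP.comp continuous_fst).clm_apply (by fun_prop)) (by fun_prop)))
  have hmain : ∀ τ : ℝ, ∀ z ∈ K, ContDiffAt ℝ ∞ f (τ, z) := by
    rintro τ ⟨x, u, w⟩ ⟨h1, ⟨h2, h3⟩, h4, h5⟩
    have e1 : ContDiffAt ℝ ∞ (fun z : ℝ × (Euc N × Euc N × Euc N) =>
        fderiv ℝ (Exp G z.2.1) (z.1 • z.2.2.1)) (τ, x, u, w) := by
      refine ContDiffAt.fderiv (f := fun (z : ℝ × (Euc N × Euc N × Euc N)) (v : Euc N) =>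
        Exp G z.2.1 v) (g := fun z => z.1 • z.2.2.1) (n := ∞) ?_ (by fun_prop) (by simp)
      have e2 := contDiffAt_Exp G h1 ((G.T x).smul_mem τ h2)
      exact ContDiffAt.comp (f := fun y : (ℝ × (Euc N × Euc N × Euc N)) × Euc N =>
        (y.1.2.1, y.2)) ((τ, x, u, w), τ • u) e2 (by fun_prop)
    exact (e1.clm_apply (by fun_prop)).norm_sq ℝ
  have hinit : ∀ z ∈ K, f (0, z) = ‖z.2.2‖ ^ 2 := by
    rintro ⟨x, u, w⟩ ⟨h1, ⟨h2, h3⟩, h4, h5⟩
    simp only [hf, zero_smul]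
    rw [fderiv_Exp_zero G h1 h4]
  have hder : ∀ z ∈ K, fderiv ℝ f (0, z) (1, 0) = 0 := by
    rintro ⟨x, u, w⟩ hz
    obtain ⟨h1, ⟨h2, h3⟩, h4, h5⟩ := hz
    have e1 : HasDerivAt (fun s : ℝ => f (s, (x, u, w))) (fderiv ℝ f (0, (x, u, w)) (1, 0)) 0 :=
      HasFDerivAt.comp_hasDerivAt
        (f := fun s : ℝ => ((s, (x, u, w)) : ℝ × (Euc N × Euc N × Euc N))) (0 : ℝ)
        ((hmain 0 _ ⟨h1, ⟨h2, h3⟩, h4, h5⟩).differentiableAt (by simp)).hasFDerivAt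
        ((hasDerivAt_id (0 : ℝ)).prodMk (hasDerivAt_const (0 : ℝ) (x, u, w)))
    have e2 := (hasDerivAt_fdExp h1 h2 w 0).norm_sq
    rw [zero_smul, fderiv_Exp_zero G h1 h4, real_inner_comm, snd_Exp_inner h1 h2 h4 h4,
      mul_zero] at e2
    exact e1.unique e2
  obtain ⟨C, hC0, hC⟩ := taylor2 hK (fun τ _ z hz => hmain τ z hz) hder
  refine ⟨C, hC0, fun x hx u hu w hw hu1 => ?_⟩
  by_cases hu0 : u = 0
  · subst hu0
    rw [fderiv_Exp_zero G hx hw]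
    simp
  by_cases hw0 : w = 0
  · subst hw0
    simp
  have hun : ‖u‖ ≠ 0 := norm_ne_zero_iff.2 hu0
  have hwn : ‖w‖ ≠ 0 := norm_ne_zero_iff.2 hw0
  have h1 := hC (x, (‖u‖⁻¹ • u, ‖w‖⁻¹ • w)) ⟨hx, ⟨(G.T x).smul_mem _ hu, by
    rw [norm_smul, norm_inv, norm_norm, inv_mul_cancel₀ hun]⟩, (G.T x).smul_mem _ hw, by
    rw [norm_smul, norm_inv, norm_norm, inv_mul_cancel₀ hwn]⟩ ‖u‖ ⟨norm_nonneg _, hu1⟩
  rw [hinit _ ⟨hx, ⟨(G.T x).smul_mem _ hu, by
    rw [norm_smul, norm_inv, norm_norm, inv_mul_cancel₀ hun]⟩, (G.T x).smul_mem _ hw, by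
    rw [norm_smul, norm_inv, norm_norm, inv_mul_cancel₀ hwn]⟩] at h1
  simp only [hf, smul_smul, mul_inv_cancel₀ hun, one_smul, map_smul] at h1
  rw [norm_smul, norm_smul, norm_inv, norm_norm, inv_mul_cancel₀ hwn, mul_pow, one_pow] at h1
  have h2 : 0 < ‖w‖ ^ 2 := by positivity
  have h3 : ‖fderiv ℝ (Exp G x) u w‖ ^ 2 =
      (‖w‖⁻¹ ^ 2 * ‖fderiv ℝ (Exp G x) u w‖ ^ 2) * ‖w‖ ^ 2 := by
    field_simp
  rw [h3]
  exact mul_le_mul_of_nonneg_right h1 h2.le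

/-- **(Q)** -/
theorem exists_Q (hS : IsCompact S) (G : Geo n N κ S) :
    ∃ C : ℝ, 0 ≤ C ∧ ∀ x ∈ S, ∀ u ∈ G.T x, ∀ y ∈ G.T x, ‖u‖ ≤ 1 →
      ‖fderiv ℝ (Exp G x) u y‖ ^ 2 ≤ ‖y‖ ^ 2 + C * (‖u‖ ^ 2 * ‖y‖ ^ 2 - ⟪u, y⟫ ^ 2) := by
  obtain ⟨C, hC0, hC⟩ := exists_Q1 hS G
  refine ⟨C, hC0, fun x hx u hu y hy hu1 => ?_⟩
  by_cases hu0 : u = 0
  · subst hu0
    rw [fderiv_Exp_zero G hx hy]
    simp
  have hun : ‖u‖ ^ 2 ≠ 0 := pow_ne_zero 2 (norm_ne_zero_iff.2 hu0)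
  set c : ℝ := ⟪u, y⟫ / ‖u‖ ^ 2 with hc
  set w : Euc N := y - c • u with hw
  have hwT : w ∈ G.T x := (G.T x).sub_mem hy ((G.T x).smul_mem _ hu)
  have huw : ⟪u, w⟫ = 0 := by
    rw [hw, inner_sub_right, inner_smul_right, real_inner_self_eq_norm_sq, hc,
      div_mul_cancel₀ _ hun, sub_self]
  have hyw : y = c • u + w := by rw [hw]; abel
  have h1 : fderiv ℝ (Exp G x) u y = c • Vel G x u + fderiv ℝ (Exp G x) u w := by
    conv_lhs => rw [hyw]
    rw [map_add, map_smul, fderiv_Exp_self G hx hu]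
  have h2 : ⟪c • Vel G x u, fderiv ℝ (Exp G x) u w⟫ = 0 := by
    rw [inner_smul_left, real_inner_comm, gauss G hx hu hwT, huw, mul_zero]
  have h3 : ‖fderiv ℝ (Exp G x) u y‖ ^ 2 =
      c ^ 2 * ‖u‖ ^ 2 + ‖fderiv ℝ (Exp G x) u w‖ ^ 2 := by
    rw [h1, norm_add_sq_real, h2, norm_smul, norm_Vel G hx hu, mul_pow, Real.norm_eq_abs,
      sq_abs]
    ring
  have h4 : ‖y‖ ^ 2 = c ^ 2 * ‖u‖ ^ 2 + ‖w‖ ^ 2 := by
    conv_lhs => rw [hyw]
    rw [norm_add_sq_real, inner_smul_left, huw, norm_smul, mul_pow, Real.norm_eq_abs, sq_abs]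
    simp
  have h5 : ‖u‖ ^ 2 * ‖y‖ ^ 2 - ⟪u, y⟫ ^ 2 = ‖u‖ ^ 2 * ‖w‖ ^ 2 := by
    have : ⟪u, y⟫ = c * ‖u‖ ^ 2 := by rw [hc, div_mul_cancel₀ _ hun]
    rw [this, h4]
    ring
  rw [h3, h5, h4]
  have := hC x hx u hu w hwT hu1
  nlinarith [this]

end Crest.Agent.R208.KG
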