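import Crest.Agent.R208.KG1

/-!
Row 208, block KG (helper10), part KG2: the rounded corner `Exp_x(g(s) b - g(-s) a)` and its
energy.
-/

set_option autoImplicit false

open Set Filter Topology MeasureTheory
open scoped ContDiff RealInnerProductSpace Interval
open Crest.GeometryTopology.Submanifold
open Crest.Agent.R241.DDefs
open Crest.Agent.R241.D2
open Crest.Agent.R241.D3c

noncomputable section

namespace Crest.Agent.R208.KG

/-! ### profiles with parameters -/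

/-- the flat profile at scale one: `0` for `s ≤ 1/4`, `s` for `1 ≤ s` -/
def ph (s : ℝ) : ℝ := s * Real.smoothTransition (2 * s - 1 / 2)

lemma contDiff_ph : ContDiff ℝ ∞ ph :=
  contDiff_id.mul (Real.smoothTransition.contDiff.comp (by fun_prop))

lemma ph_of_le' {s : ℝ} (h : s ≤ 1 / 4) : ph s = 0 := by
  unfold ph; rw [Real.smoothTransition.zero_of_nonpos (by linarith), mul_zero]

lemma ph_of_le {s : ℝ} (h : s ≤ 0) : ph s = 0 := ph_of_le' (by linarith)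

lemma ph_of_ge {s : ℝ} (h : 1 ≤ s) : ph s = s := by
  unfold ph; rw [Real.smoothTransition.one_of_one_le (by linarith), mul_one]

lemma ph_nonneg {s : ℝ} (h : 0 ≤ s) : 0 ≤ ph s := mul_nonneg h (Real.smoothTransition.nonneg _)

lemma ph_le {s : ℝ} (h : 0 ≤ s) : ph s ≤ s := mul_le_of_le_one_right h
  (Real.smoothTransition.le_one _)

/-- the profile at scale `ε`, with homotopy parameter `τ` (`τ = 0`: `th`, `τ = 1`: flat) -/
def gT (ε τ s : ℝ) : ℝ := ε * ((1 - τ) * th (s / ε) + τ * ph (s / ε))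

lemma contDiff_gT (ε : ℝ) : ContDiff ℝ ∞ (fun q : ℝ × ℝ => gT ε q.1 q.2) := by
  have h1 : ContDiff ℝ ∞ (fun q : ℝ × ℝ => q.2 / ε) := contDiff_snd.div_const ε
  exact contDiff_const.mul (((contDiff_const.sub contDiff_fst).mul (contDiff_th.comp h1)).add
    (contDiff_fst.mul (contDiff_ph.comp h1)))

variable {ε τ s : ℝ}

lemma gT_of_le (hε : 0 < ε) (h : s ≤ -ε) : gT ε τ s = 0 := by
  have h1 : s / ε ≤ -1 := by rw [div_le_iff₀ hε]; linarith
  unfold gT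
  rw [th_of_le h1, ph_of_le (by linarith)]
  ring

lemma gT_of_ge (hε : 0 < ε) (h : ε ≤ s) : gT ε τ s = s := by
  have h1 : 1 ≤ s / ε := by rw [le_div_iff₀ hε]; linarith
  unfold gT
  rw [th_of_ge h1, ph_of_ge h1]
  field_simp
  ring

lemma gT_zero (ε s : ℝ) : gT ε 0 s = ε * th (s / ε) := by unfold gT; ring

lemma gT_one (ε s : ℝ) : gT ε 1 s = ε * ph (s / ε) := by unfold gT; ring

lemma gT_one_of_le (hε : 0 < ε) (h : s ≤ 0) : gT ε 1 s = 0 := by
  rw [gT_one, ph_of_le (div_nonpos_of_nonpos_of_nonneg h hε.le), mul_zero]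

lemma gT_one_of_le' (hε : 0 < ε) (h : s ≤ ε / 4) : gT ε 1 s = 0 := by
  rw [gT_one, ph_of_le' (by rw [div_le_iff₀ hε]; linarith), mul_zero]

lemma gT_one_nonneg (hε : 0 < ε) (h : 0 ≤ s) : 0 ≤ gT ε 1 s := by
  rw [gT_one]; exact mul_nonneg hε.le (ph_nonneg (div_nonneg h hε.le))

lemma gT_one_le (hε : 0 < ε) (h : 0 ≤ s) : gT ε 1 s ≤ s := by
  rw [gT_one]
  have h1 := mul_le_mul_of_nonneg_left (ph_le (div_nonneg h hε.le)) hε.le
  have h2 : ε * (s / ε) = s := by field_simp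
  linarith

lemma gT_sub_neg (hε : 0 < ε) (s : ℝ) : gT ε 0 s - gT ε 0 (-s) = s := by
  rw [gT_zero, gT_zero, ← mul_sub, neg_div, th_sub_neg]
  field_simp

lemma gT_nonneg (hε : 0 < ε) (s : ℝ) : 0 ≤ gT ε 0 s := by
  rw [gT_zero]; exact mul_nonneg hε.le (th_nonneg _)

lemma gT_le (hε : 0 < ε) (h : s ≤ ε) : gT ε 0 s ≤ ε := by
  rw [gT_zero]
  have := th_le_one (s := s / ε) (by rw [div_le_iff₀ hε]; linarith)
  nlinarith

lemma hasDerivAt_gT (hε : 0 < ε) (s : ℝ) : HasDerivAt (fun s => gT ε 0 s) (sg (s / ε)) s := by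
  have h1 : HasDerivAt (fun s : ℝ => s / ε) (1 / ε) s := (hasDerivAt_id s).div_const ε
  have h2 := ((hasDerivAt_th (s / ε)).comp s h1).const_mul ε
  have h3 : (fun s => gT ε 0 s) = fun s => ε * (th ∘ fun s => s / ε) s :=
    funext fun s => gT_zero ε s
  rw [h3]
  refine h2.congr_deriv ?_
  field_simp

/-! ### the rounded corner -/

variable {n N : ℕ} {κ : ℝ} {S : Set (Euc N)} {G : Geo n N κ S} {x u v w y a b : Euc N}

/-- the argument of the exponential map -/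
def uu (ε τ : ℝ) (a b : Euc N) (s : ℝ) : Euc N := gT ε τ s • b - gT ε τ (-s) • a

/-- the corner at `x`, incoming velocity `a`, outgoing velocity `b`, rounded -/
def rnd (G : Geo n N κ S) (ε τ : ℝ) (x a b : Euc N) (s : ℝ) : Euc N := Exp G x (uu ε τ a b s)

lemma uu_mem (ha : a ∈ G.T x) (hb : b ∈ G.T x) : uu ε τ a b s ∈ G.T x :=
  (G.T x).sub_mem ((G.T x).smul_mem _ hb) ((G.T x).smul_mem _ ha)

lemma rnd_mem (hx : x ∈ S) (ha : a ∈ G.T x) (hb : b ∈ G.T x) : rnd G ε τ x a b s ∈ S :=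
  Exp_mem G hx (uu_mem ha hb)

lemma uu_of_ge (hε : 0 < ε) (h : ε ≤ s) : uu ε τ a b s = s • b := by
  unfold uu
  rw [gT_of_ge hε h, gT_of_le hε (by linarith), zero_smul, sub_zero]

lemma uu_of_le (hε : 0 < ε) (h : s ≤ -ε) : uu ε τ a b s = s • a := by
  unfold uu
  rw [gT_of_le hε h, gT_of_ge hε (by linarith), zero_smul, zero_sub, neg_smul, neg_neg]

lemma rnd_of_ge (hε : 0 < ε) (hx : x ∈ S) (hb : b ∈ G.T x) (h : ε ≤ s) :
    rnd G ε τ x a b s = (fl G ((x, b), s)).1 := by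
  unfold rnd
  rw [uu_of_ge hε h, Exp_smul G hx hb]

lemma rnd_of_le (hε : 0 < ε) (hx : x ∈ S) (ha : a ∈ G.T x) (h : s ≤ -ε) :
    rnd G ε τ x a b s = (fl G ((x, a), s)).1 := by
  unfold rnd
  rw [uu_of_le hε h, Exp_smul G hx ha]

lemma uu_self (hε : 0 < ε) : uu ε 0 a a s = s • a := by
  unfold uu
  rw [← sub_smul, gT_sub_neg hε]

lemma rnd_self (hε : 0 < ε) (hx : x ∈ S) (ha : a ∈ G.T x) :
    rnd G ε 0 x a a s = (fl G ((x, a), s)).1 := by
  unfold rnd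
  rw [uu_self hε, Exp_smul G hx ha]

/-- the flat profile: outgoing arc -/
lemma rnd_one_of_nonneg (hε : 0 < ε) (hx : x ∈ S) (hb : b ∈ G.T x) (h : 0 ≤ s) :
    rnd G ε 1 x a b s = (fl G ((x, b), gT ε 1 s)).1 := by
  unfold rnd uu
  rw [gT_one_of_le (s := -s) hε (by linarith), zero_smul, sub_zero, Exp_smul G hx hb]

/-- the flat profile: incoming arc -/
lemma rnd_one_of_nonpos (hε : 0 < ε) (hx : x ∈ S) (ha : a ∈ G.T x) (h : s ≤ 0) :
    rnd G ε 1 x a b s = (fl G ((x, a), -gT ε 1 (-s))).1 := by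
  unfold rnd uu
  rw [gT_one_of_le hε h, zero_smul, zero_sub, ← neg_smul, Exp_smul G hx ha]

/-- joint smoothness -/
lemma contDiffAt_rnd (ε : ℝ) {x₀ a₀ b₀ : Euc N} (hx : x₀ ∈ S) (ha : a₀ ∈ G.T x₀)
    (hb : b₀ ∈ G.T x₀) (τ₀ s₀ : ℝ) :
    ContDiffAt ℝ ∞ (fun q : (Euc N × Euc N × Euc N) × ℝ × ℝ =>
      rnd G ε q.2.1 q.1.1 q.1.2.1 q.1.2.2 q.2.2) ((x₀, a₀, b₀), τ₀, s₀) := by
  have h1 := contDiffAt_Exp G hx (uu_mem (ε := ε) (τ := τ₀) (s := s₀) ha hb)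
  have g1 : ContDiff ℝ ∞ (fun q : (Euc N × Euc N × Euc N) × ℝ × ℝ => gT ε q.2.1 q.2.2) :=
    (contDiff_gT ε).comp contDiff_snd
  have g2 : ContDiff ℝ ∞ (fun q : (Euc N × Euc N × Euc N) × ℝ × ℝ => gT ε q.2.1 (-q.2.2)) :=
    (contDiff_gT ε).comp (g := fun q : ℝ × ℝ => gT ε q.1 q.2)
      (f := fun q : (Euc N × Euc N × Euc N) × ℝ × ℝ => (q.2.1, -q.2.2)) (by fun_prop)
  have h2 : ContDiff ℝ ∞ (fun q : (Euc N × Euc N × Euc N) × ℝ × ℝ =>
      ((q.1.1, uu ε q.2.1 q.1.2.1 q.1.2.2 q.2.2) : Euc N × Euc N)) := by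
    unfold uu
    exact (by fun_prop : ContDiff ℝ ∞ (fun q : (Euc N × Euc N × Euc N) × ℝ × ℝ => q.1.1)).prodMk
      ((g1.smul (by fun_prop)).sub (g2.smul (by fun_prop)))
  exact ContDiffAt.comp (f := fun q : (Euc N × Euc N × Euc N) × ℝ × ℝ =>
    ((q.1.1, uu ε q.2.1 q.1.2.1 q.1.2.2 q.2.2) : Euc N × Euc N))
    ((x₀, a₀, b₀), τ₀, s₀) h1 h2.contDiffAt

/-- velocity of the argument -/
def uu' (ε : ℝ) (a b : Euc N) (s : ℝ) : Euc N := sg (s / ε) • b + sg (-s / ε) • a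

lemma uu'_mem (ha : a ∈ G.T x) (hb : b ∈ G.T x) : uu' ε a b s ∈ G.T x :=
  (G.T x).add_mem ((G.T x).smul_mem _ hb) ((G.T x).smul_mem _ ha)

lemma hasDerivAt_uu (hε : 0 < ε) (a b : Euc N) (s : ℝ) :
    HasDerivAt (uu ε 0 a b) (uu' ε a b s) s := by
  have h1 := (hasDerivAt_gT hε s).smul_const b
  have h2 := ((hasDerivAt_gT hε (-s)).scomp s (hasDerivAt_neg s)).smul_const a
  refine (h1.sub h2).congr_deriv ?_
  unfold uu'
  simp

lemma hasDerivAt_rnd (hε : 0 < ε) (hx : x ∈ S) (ha : a ∈ G.T x) (hb : b ∈ G.T x) (s : ℝ) :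
    HasDerivAt (rnd G ε 0 x a b) (fderiv ℝ (Exp G x) (uu ε 0 a b s) (uu' ε a b s)) s :=
  ((contDiffAt_Exp' G hx (uu_mem ha hb)).differentiableAt (by simp)).hasFDerivAt.comp_hasDerivAt s
    (hasDerivAt_uu hε a b s)

lemma norm_uu_le (hε : 0 < ε) (ha : ‖a‖ = 1) (hb : ‖b‖ = 1) (h1 : -ε ≤ s) (h2 : s ≤ ε) :
    ‖uu ε 0 a b s‖ ≤ 2 * ε := by
  unfold uu
  refine (norm_sub_le _ _).trans ?_
  rw [norm_smul, norm_smul, ha, hb, Real.norm_eq_abs, Real.norm_eq_abs,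
    abs_of_nonneg (gT_nonneg hε _), abs_of_nonneg (gT_nonneg hε _)]
  have := gT_le hε h2
  have := gT_le (s := -s) hε (by linarith)
  linarith

lemma norm_uu' (_hε : 0 < ε) (ha : ‖a‖ = 1) (hb : ‖b‖ = 1) (s : ℝ) :
    ‖uu' ε a b s‖ ^ 2 = 1 - sg (s / ε) * sg (-s / ε) * ‖b - a‖ ^ 2 := by
  have h1 := sg_add_neg (s / ε)
  rw [← neg_div] at h1
  unfold uu'
  rw [norm_add_sq_real, norm_sub_sq_real, norm_smul, norm_smul, ha, hb, inner_smul_left,
    inner_smul_right, Real.norm_eq_abs, Real.norm_eq_abs, mul_one, mul_one, sq_abs, sq_abs]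
  simp only [conj_trivial]
  have h2 : sg (-s / ε) = 1 - sg (s / ε) := by linarith
  rw [h2]
  ring

lemma gram_uu (hε : 0 < ε) (ha : ‖a‖ = 1) (hb : ‖b‖ = 1) (h1 : -ε ≤ s) (h2 : s ≤ ε) :
    ‖uu ε 0 a b s‖ ^ 2 * ‖uu' ε a b s‖ ^ 2 - ⟪uu ε 0 a b s, uu' ε a b s⟫ ^ 2 ≤
      ε ^ 2 * ‖b - a‖ ^ 2 := by
  set p := gT ε 0 s with hp
  set q := gT ε 0 (-s) with hq
  set p' := sg (s / ε) with hp'
  set q' := sg (-s / ε) with hq'
  set c := ⟪a, b⟫ with hc
  have e1 : ‖uu ε 0 a b s‖ ^ 2 = p ^ 2 + q ^ 2 - 2 * (p * q) * c := by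
    unfold uu
    rw [norm_sub_sq_real, norm_smul, norm_smul, ha, hb, inner_smul_left, inner_smul_right,
      Real.norm_eq_abs, Real.norm_eq_abs, mul_one, mul_one, sq_abs, sq_abs, real_inner_comm]
    simp only [conj_trivial]
    ring
  have e2 : ‖uu' ε a b s‖ ^ 2 = p' ^ 2 + q' ^ 2 + 2 * (p' * q') * c := by
    unfold uu'
    rw [norm_add_sq_real, norm_smul, norm_smul, ha, hb, inner_smul_left, inner_smul_right,
      Real.norm_eq_abs, Real.norm_eq_abs, mul_one, mul_one, sq_abs, sq_abs, real_inner_comm]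
    simp only [conj_trivial]
    ring
  have e3 : ⟪uu ε 0 a b s, uu' ε a b s⟫ = p * p' - q * q' + (p * q' - q * p') * c := by
    unfold uu uu'
    simp only [inner_sub_left, inner_add_right, inner_smul_left, inner_smul_right, conj_trivial,
      real_inner_self_eq_norm_sq, ha, hb, real_inner_comm a b]
    ring
  have e4 : ‖b - a‖ ^ 2 = 2 - 2 * c := by
    rw [norm_sub_sq_real, ha, hb, real_inner_comm]; ring
  have hcle : |c| ≤ 1 := by
    have := abs_real_inner_le_norm a b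
    rwa [ha, hb, mul_one] at this
  have hc1 := abs_le.1 hcle
  rw [e1, e2, e3, e4]
  have e5 : (p ^ 2 + q ^ 2 - 2 * (p * q) * c) * (p' ^ 2 + q' ^ 2 + 2 * (p' * q') * c) -
      (p * p' - q * q' + (p * q' - q * p') * c) ^ 2 =
      (p * q' + q * p') ^ 2 * ((1 - c) * (1 + c)) := by ring
  rw [e5]
  have f1 : 0 ≤ p := gT_nonneg hε _
  have f2 : 0 ≤ q := gT_nonneg hε _
  have f3 : p ≤ ε := gT_le hε h2
  have f4 : q ≤ ε := gT_le hε (by linarith)
  have f5 : 0 ≤ p' := sg_nonneg _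
  have f6 : 0 ≤ q' := sg_nonneg _
  have f7 : p' + q' = 1 := by
    have h1 := sg_add_neg (s / ε)
    rwa [← neg_div] at h1
  have f8 : p * q' + q * p' ≤ ε := by nlinarith
  have f9 : 0 ≤ p * q' + q * p' := by positivity
  have g1 : (p * q' + q * p') ^ 2 ≤ ε ^ 2 := by nlinarith
  have g2 : 0 ≤ (1 - c) * (1 + c) := mul_nonneg (by linarith [hc1.2]) (by linarith [hc1.1])
  have g3 : (1 - c) * (1 + c) ≤ 2 - 2 * c := by nlinarith [hc1.1, hc1.2]
  calc (p * q' + q * p') ^ 2 * ((1 - c) * (1 + c)) ≤ ε ^ 2 * ((1 - c) * (1 + c)) :=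
        mul_le_mul_of_nonneg_right g1 g2
    _ ≤ ε ^ 2 * (2 - 2 * c) := mul_le_mul_of_nonneg_left g3 (by positivity)

/-- the constant `∫ sg(r) sg(-r)` -/
def a0 : ℝ := ∫ r in (-1 : ℝ)..1, sg r * sg (-r)

lemma cont_sgsg : Continuous fun r : ℝ => sg r * sg (-r) :=
  contDiff_sg.continuous.mul (contDiff_sg.continuous.comp continuous_neg)

lemma a0_pos : 0 < a0 := by
  unfold a0
  refine intervalIntegral.integral_pos (by norm_num) cont_sgsg.continuousOn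
    (fun r _ => mul_nonneg (sg_nonneg _) (sg_nonneg _)) ⟨0, by norm_num, ?_⟩
  have := sg_add_neg 0
  rw [neg_zero] at this ⊢
  have h : sg 0 = 1 / 2 := by linarith
  rw [h]; norm_num

lemma int_sgsg (hε : 0 < ε) : ∫ s in (-ε)..ε, sg (s / ε) * sg (-s / ε) = ε * a0 := by
  have h1 := intervalIntegral.integral_comp_div (a := -ε) (b := ε)
    (fun r : ℝ => sg r * sg (-r)) hε.ne'
  simp only [neg_div, div_self hε.ne', smul_eq_mul] at h1
  unfold a0
  rw [← h1]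
  simp only [neg_div]

/-- **the energy of a rounded corner** -/
theorem exists_eps (hS : IsCompact S) (G : Geo n N κ S) :
    ∃ ε₀ : ℝ, 0 < ε₀ ∧ ε₀ ≤ 1 / 2 ∧ ∀ ε, 0 < ε → ε ≤ ε₀ → ∀ x ∈ S, ∀ a ∈ G.T x, ∀ b ∈ G.T x,
      ‖a‖ = 1 → ‖b‖ = 1 →
      (∀ s ∈ Icc (-ε) ε, ‖deriv (rnd G ε 0 x a b) s‖ ^ 2 ≤
        1 - sg (s / ε) * sg (-s / ε) * ‖b - a‖ ^ 2 + (a0 / 4) * ‖b - a‖ ^ 2) ∧
      ∫ s in (-ε)..ε, ‖deriv (rnd G ε 0 x a b) s‖ ^ 2 ≤ 2 * ε - (ε * a0 / 2) * ‖b - a‖ ^ 2 := by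
  obtain ⟨C, hC0, hC⟩ := exists_Q hS G
  have ha0 := a0_pos
  refine ⟨min (1 / 2) (Real.sqrt (a0 / (4 * (C + 1)))), ?_, min_le_left _ _, ?_⟩
  · have : 0 < a0 / (4 * (C + 1)) := by positivity
    exact lt_min (by norm_num) (Real.sqrt_pos.2 this)
  intro ε hε hε' x hx a ha b hb ha1 hb1
  have k1 : ε ≤ 1 / 2 := hε'.trans (min_le_left _ _)
  have k2 : ε ^ 2 ≤ a0 / (4 * (C + 1)) := by
    have h1 : ε ≤ Real.sqrt (a0 / (4 * (C + 1))) := hε'.trans (min_le_right _ _)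
    have h2 : 0 ≤ a0 / (4 * (C + 1)) := by positivity
    calc ε ^ 2 ≤ Real.sqrt (a0 / (4 * (C + 1))) ^ 2 := by gcongr
      _ = _ := Real.sq_sqrt h2
  have k3 : C * ε ^ 2 ≤ a0 / 4 := by
    calc C * ε ^ 2 ≤ (C + 1) * ε ^ 2 := by nlinarith [sq_nonneg ε]
      _ ≤ (C + 1) * (a0 / (4 * (C + 1))) := by gcongr
      _ = a0 / 4 := by field_simp
  have hpt : ∀ s ∈ Icc (-ε) ε, ‖deriv (rnd G ε 0 x a b) s‖ ^ 2 ≤
      1 - sg (s / ε) * sg (-s / ε) * ‖b - a‖ ^ 2 + (a0 / 4) * ‖b - a‖ ^ 2 := by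
    intro s hs
    rw [(hasDerivAt_rnd hε hx ha hb s).deriv]
    have h1 := hC x hx (uu ε 0 a b s) (uu_mem ha hb) (uu' ε a b s) (uu'_mem ha hb)
      ((norm_uu_le hε ha1 hb1 hs.1 hs.2).trans (by linarith))
    have h2 := gram_uu hε ha1 hb1 hs.1 hs.2
    rw [norm_uu' hε ha1 hb1 s] at h1 h2
    have h3 : C * (‖uu ε 0 a b s‖ ^ 2 * (1 - sg (s / ε) * sg (-s / ε) * ‖b - a‖ ^ 2) -
        ⟪uu ε 0 a b s, uu' ε a b s⟫ ^ 2) ≤ C * (ε ^ 2 * ‖b - a‖ ^ 2) :=
      mul_le_mul_of_nonneg_left h2 hC0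
    have h4 : C * (ε ^ 2 * ‖b - a‖ ^ 2) ≤ a0 / 4 * ‖b - a‖ ^ 2 := by
      rw [← mul_assoc]
      exact mul_le_mul_of_nonneg_right k3 (sq_nonneg _)
    linarith
  refine ⟨hpt, ?_⟩
  have c1 : Continuous fun s => ‖deriv (rnd G ε 0 x a b) s‖ ^ 2 := by
    have h1 : (fun s => deriv (rnd G ε 0 x a b) s) =
        fun s => fderiv ℝ (Exp G x) (uu ε 0 a b s) (uu' ε a b s) :=
      funext fun s => (hasDerivAt_rnd hε hx ha hb s).deriv
    have h2 : Continuous fun s => fderiv ℝ (Exp G x) (uu ε 0 a b s) (uu' ε a b s) := by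
      have h3 : Continuous fun s => fderiv ℝ (Exp G x) (uu ε 0 a b s) := by
        rw [continuous_iff_continuousAt]
        intro s
        have h4 := ((contDiffAt_Exp' G hx (uu_mem (ε := ε) (τ := 0) (s := s) ha hb)).fderiv_right
          (m := ∞) (by simp)).continuousAt
        exact ContinuousAt.comp (f := uu ε 0 a b) h4 (hasDerivAt_uu hε a b s).continuousAt
      refine h3.clm_apply ?_
      unfold uu'
      have h5 := contDiff_sg.continuous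
      fun_prop
    rw [← h1] at h2
    exact h2.norm.pow 2
  have c2 : Continuous fun s : ℝ => 1 - sg (s / ε) * sg (-s / ε) * ‖b - a‖ ^ 2 +
      (a0 / 4) * ‖b - a‖ ^ 2 := by
    have h5 := contDiff_sg.continuous
    fun_prop
  have c3 : Continuous fun s : ℝ => sg (s / ε) * sg (-s / ε) * ‖b - a‖ ^ 2 := by
    have h5 := contDiff_sg.continuous
    fun_prop
  calc ∫ s in (-ε)..ε, ‖deriv (rnd G ε 0 x a b) s‖ ^ 2
      ≤ ∫ s in (-ε)..ε, (1 - sg (s / ε) * sg (-s / ε) * ‖b - a‖ ^ 2 +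
        (a0 / 4) * ‖b - a‖ ^ 2) :=
        intervalIntegral.integral_mono_on (by linarith) (c1.intervalIntegrable _ _)
          (c2.intervalIntegrable _ _) hpt
    _ = 2 * ε - (ε * a0 / 2) * ‖b - a‖ ^ 2 := by
        have i1 : IntervalIntegrable (fun s : ℝ => 1 - sg (s / ε) * sg (-s / ε) * ‖b - a‖ ^ 2)
            volume (-ε) ε := (continuous_const.sub c3).intervalIntegrable _ _
        have i2 : IntervalIntegrable (fun _ : ℝ => (a0 / 4) * ‖b - a‖ ^ 2) volume (-ε) ε :=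
          continuous_const.intervalIntegrable _ _
        have i3 : IntervalIntegrable (fun _ : ℝ => (1 : ℝ)) volume (-ε) ε :=
          continuous_const.intervalIntegrable _ _
        rw [intervalIntegral.integral_add i1 i2,
          intervalIntegral.integral_sub i3 (c3.intervalIntegrable _ _),
          intervalIntegral.integral_mul_const, int_sgsg hε,
          intervalIntegral.integral_const, intervalIntegral.integral_const]
        simp only [smul_eq_mul]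
        ring

end Crest.Agent.R208.KG
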