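import Crest.Agent.R208.KG2
import Crest.Agent.R208.GT1

/-!
Row 208, block KG (helper10), part KG3: closed chains of `m` geodesic arcs of length `π`
(`m` even) with rounded corners.
-/

set_option autoImplicit false

open Set Filter Topology MeasureTheory
open scoped ContDiff RealInnerProductSpace Interval
open Crest.GeometryTopology.Submanifold
open Crest.Agent.R241.DDefs
open Crest.Agent.R241.D2
open Crest.Agent.R241.D3c

noncomputable section

namespace Crest.Agent.R208.KG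

/-! ### indices modulo `m` -/

/-- the residue of `j` -/
def idx (m : ℕ) [NeZero m] (j : ℤ) : Fin m :=
  ⟨(j % (m : ℤ)).toNat, by
    have h0 : (0 : ℤ) < m := by exact_mod_cast Nat.pos_of_ne_zero (NeZero.ne m)
    have h1 := Int.emod_lt_of_pos j h0
    have h2 := Int.emod_nonneg j h0.ne'
    omega⟩

lemma idx_add (m : ℕ) [NeZero m] (j : ℤ) : idx m (j + m) = idx m j := by
  unfold idx
  simp

lemma idx_add_sub (m : ℕ) [NeZero m] (j : ℤ) : idx m (j + m - 1) = idx m (j - 1) := by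
  have h : j + m - 1 = j - 1 + m := by ring
  rw [h, idx_add]

lemma idx_natCast (m : ℕ) [NeZero m] (i : Fin m) : idx m ((i : ℕ) : ℤ) = i := by
  unfold idx
  ext
  have h1 : (((i : ℕ) : ℤ) % (m : ℤ)) = ((i : ℕ) : ℤ) :=
    Int.emod_eq_of_lt (by positivity) (by exact_mod_cast i.2)
  simp only [h1, Int.toNat_natCast]

variable {n N : ℕ} {κ : ℝ} {S : Set (Euc N)} {G : Geo n N κ S}

/-! ### chains -/

/-- closed chains of `m` arcs: points `p` and unit vectors `v i` at `p` with the same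
`Exp_p (π v i)`. Arc `i` is the geodesic of `v i` on `[iπ, (i+1)π]`, `i = 0, …, m-1`. -/
def Km (G : Geo n N κ S) (m : ℕ) : Set (Euc N × (Fin m → Euc N)) :=
  {z | z.1 ∈ S ∧ (∀ i, z.2 i ∈ G.T z.1 ∧ ‖z.2 i‖ = 1) ∧
    ∀ i i', Exp G z.1 (Real.pi • z.2 i) = Exp G z.1 (Real.pi • z.2 i')}

/-- state (point, velocity) of the `i`-th geodesic at time `jπ` -/
def sta (G : Geo n N κ S) {m : ℕ} (z : Euc N × (Fin m → Euc N)) (i : Fin m) (j : ℤ) :
    Euc N × Euc N := fl G ((z.1, z.2 i), j * Real.pi)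

/-- the loop near the `j`-th corner (`s = t - jπ`) -/
def pc (G : Geo n N κ S) (ε : ℝ) {m : ℕ} [NeZero m] (z : Euc N × (Fin m → Euc N)) (τ : ℝ)
    (j : ℤ) (s : ℝ) : Euc N :=
  rnd G ε τ (sta G z (idx m j) j).1 (sta G z (idx m (j - 1)) j).2 (sta G z (idx m j) j).2 s

/-- the loop, of period `mπ` -/
def cc (G : Geo n N κ S) (ε : ℝ) {m : ℕ} [NeZero m] (z : Euc N × (Fin m → Euc N)) (τ t : ℝ) :
    Euc N := pc G ε z τ (round (t / Real.pi)) (t - round (t / Real.pi) * Real.pi)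

variable {m : ℕ} {z : Euc N × (Fin m → Euc N)}

lemma kTS (hz : z ∈ Km G m) (i : Fin m) : (z.1, z.2 i) ∈ TS G := ⟨hz.1, (hz.2.1 i).1⟩

lemma sta_mem (hz : z ∈ Km G m) (i : Fin m) (j : ℤ) : sta G z i j ∈ TS G :=
  fl_mem G (kTS hz i) _

lemma norm_sta (hz : z ∈ Km G m) (i : Fin m) (j : ℤ) : ‖(sta G z i j).2‖ = 1 :=
  (norm_fl G (kTS hz i) _).trans (hz.2.1 i).2

lemma fl_int (hper : HS.Per G) {q : Euc N × Euc N} (hq : q ∈ TS G) (h1 : ‖q.2‖ = 1) (t : ℝ)
    (j : ℤ) : fl G (q, t + 2 * j * Real.pi) = fl G (q, t) := by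
  have key : ∀ (q : Euc N × Euc N), q ∈ TS G → ‖q.2‖ = 1 → ∀ j : ℤ,
      fl G (q, 2 * j * Real.pi) = q := by
    intro q hq h1 j
    induction j with
    | zero => simp [fl_zero]
    | succ i ih =>
      have e : 2 * ((i + 1 : ℤ) : ℝ) * Real.pi = 2 * (i : ℤ) * Real.pi + 2 * Real.pi := by
        push_cast; ring
      rw [e, fl_add' G hq, ih, hper q hq h1]
    | pred i ih =>
      have e : 2 * ((-(i : ℤ) - 1 : ℤ) : ℝ) * Real.pi =
          2 * (-(i : ℤ) : ℤ) * Real.pi + (-(2 * Real.pi)) := by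
        push_cast; ring
      rw [e, fl_add' G hq, ih]
      have h2 := hper q hq h1
      have h3 : fl G (fl G (q, 2 * Real.pi), -(2 * Real.pi)) = q := by
        rw [← fl_add' G hq]; simp [fl_zero]
      rwa [h2] at h3
  have e : t + 2 * j * Real.pi = 2 * j * Real.pi + t := by ring
  rw [e, fl_add' G hq, key q hq h1 j]

lemma sta_even (hper : HS.Per G) (hz : z ∈ Km G m) (i : Fin m) (j : ℤ) :
    sta G z i (2 * j) = (z.1, z.2 i) := by
  unfold sta
  have e : (((2 * j : ℤ) : ℝ)) * Real.pi = 0 + 2 * j * Real.pi := by push_cast; ring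
  rw [e, fl_int hper (kTS hz i) (hz.2.1 i).2, fl_zero]

lemma sta_odd (hper : HS.Per G) (hz : z ∈ Km G m) (i : Fin m) (j : ℤ) :
    sta G z i (2 * j + 1) = fl G ((z.1, z.2 i), Real.pi) := by
  unfold sta
  have e : (((2 * j + 1 : ℤ) : ℝ)) * Real.pi = Real.pi + 2 * j * Real.pi := by push_cast; ring
  rw [e, fl_int hper (kTS hz i) (hz.2.1 i).2]

lemma sta_fst (hper : HS.Per G) (hz : z ∈ Km G m) (i i' : Fin m) (j : ℤ) :
    (sta G z i j).1 = (sta G z i' j).1 := by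
  rcases Int.even_or_odd' j with ⟨k, rfl | rfl⟩
  · rw [sta_even hper hz, sta_even hper hz]
  · rw [sta_odd hper hz, sta_odd hper hz, ← Exp_smul G hz.1 (hz.2.1 i).1,
      ← Exp_smul G hz.1 (hz.2.1 i').1]
    exact hz.2.2 i i'

lemma sta_add (hper : HS.Per G) (hm : Even m) (hz : z ∈ Km G m) (i : Fin m) (j : ℤ) :
    sta G z i (j + m) = sta G z i j := by
  obtain ⟨l, rfl⟩ := hm
  unfold sta
  have e : (((j + ((l + l : ℕ) : ℤ) : ℤ) : ℝ)) * Real.pi =
      j * Real.pi + 2 * (l : ℤ) * Real.pi := by push_cast; ring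
  rw [e, fl_int hper (kTS hz i) (hz.2.1 i).2]

/-- the incoming and outgoing velocities are tangent at the corner -/
lemma sta_snd_mem (hper : HS.Per G) (hz : z ∈ Km G m) (i i' : Fin m) (j : ℤ) :
    (sta G z i' j).2 ∈ G.T (sta G z i j).1 := by
  rw [sta_fst hper hz i i' j]
  exact (sta_mem hz i' j).2

section

variable [NeZero m] {ε τ s t : ℝ} {j : ℤ}

lemma pc_mem (hper : HS.Per G) (hz : z ∈ Km G m) : pc G ε z τ j s ∈ S :=
  rnd_mem (sta_mem hz _ _).1 (sta_snd_mem hper hz _ _ _) (sta_snd_mem hper hz _ _ _)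

lemma pc_ge (hper : HS.Per G) (hε : 0 < ε) (hz : z ∈ Km G m) (hs : ε ≤ s) :
    pc G ε z τ j s = (fl G ((z.1, z.2 (idx m j)), j * Real.pi + s)).1 := by
  unfold pc
  rw [rnd_of_ge hε (sta_mem hz _ _).1 (sta_snd_mem hper hz _ _ _) hs, fl_add' G (kTS hz _)]
  rfl

lemma pc_le (hper : HS.Per G) (hε : 0 < ε) (hz : z ∈ Km G m) (hs : s ≤ -ε) :
    pc G ε z τ j s = (fl G ((z.1, z.2 (idx m (j - 1))), j * Real.pi + s)).1 := by
  unfold pc
  rw [rnd_of_le hε (sta_mem hz _ _).1 (sta_snd_mem hper hz _ _ _) hs, fl_add' G (kTS hz _),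
    sta_fst hper hz (idx m j) (idx m (j - 1)) j]
  rfl

lemma pc_overlap (hper : HS.Per G) (hε : 0 < ε) (hz : z ∈ Km G m) (h1 : ε ≤ s)
    (h2 : s ≤ Real.pi - ε) : pc G ε z τ j s = pc G ε z τ (j + 1) (s - Real.pi) := by
  rw [pc_ge hper hε hz h1, pc_le hper hε hz (by linarith), add_sub_cancel_right]
  congr 3
  push_cast
  ring

/-- the loop near the `j`-th corner -/
theorem cc_eq (hper : HS.Per G) (hε : 0 < ε) (hε1 : ε ≤ 1 / 2) (hz : z ∈ Km G m)
    (h1 : |t - j * Real.pi| ≤ Real.pi - ε) : cc G ε z τ t = pc G ε z τ j (t - j * Real.pi) := by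
  have hpi := Real.pi_gt_three
  set j' := round (t / Real.pi) with hj'
  have h2 : |t - j' * Real.pi| ≤ Real.pi / 2 := by
    have h3 := abs_sub_round (t / Real.pi)
    rw [← hj'] at h3
    have h4 : t - j' * Real.pi = (t / Real.pi - j') * Real.pi := by field_simp
    rw [h4, abs_mul, abs_of_pos Real.pi_pos]
    nlinarith
  obtain ⟨a1, a2⟩ := abs_le.1 h1
  obtain ⟨b1, b2⟩ := abs_le.1 h2
  have c1 : (j' : ℝ) < j + 2 := by nlinarith
  have c2 : (j : ℝ) < j' + 2 := by nlinarith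
  have c1' : j' < j + 2 := by exact_mod_cast c1
  have c2' : j < j' + 2 := by exact_mod_cast c2
  unfold cc
  rw [← hj']
  rcases (by omega : j' = j - 1 ∨ j' = j ∨ j' = j + 1) with h | h | h
  · rw [h] at b1 b2 ⊢
    push_cast at b1 b2 ⊢
    rw [pc_overlap hper hε hz (by linarith) (by linarith)]
    congr 1
    · ring
    · ring
  · rw [h]
  · rw [h] at b1 b2 ⊢
    push_cast at b1 b2 ⊢
    rw [pc_overlap (j := j) (s := t - j * Real.pi) hper hε hz (by linarith) (by linarith)]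
    congr 1
    ring

/-- near every time the loop is given by one corner formula -/
lemma cc_eq_round (hper : HS.Per G) (hε : 0 < ε) (hε1 : ε ≤ 1 / 2) (hz : z ∈ Km G m) {t₀ : ℝ}
    (h1 : |t - t₀| ≤ 1) : cc G ε z τ t =
      pc G ε z τ (round (t₀ / Real.pi)) (t - round (t₀ / Real.pi) * Real.pi) := by
  have hpi := Real.pi_gt_three
  refine cc_eq hper hε hε1 hz ?_
  have h3 := abs_sub_round (t₀ / Real.pi)
  have h4 : t₀ - round (t₀ / Real.pi) * Real.pi =
      (t₀ / Real.pi - round (t₀ / Real.pi)) * Real.pi := by field_simp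
  have h5 : |t₀ - round (t₀ / Real.pi) * Real.pi| ≤ Real.pi / 2 := by
    rw [h4, abs_mul, abs_of_pos Real.pi_pos]
    nlinarith
  have h6 := abs_sub_le t t₀ (round (t₀ / Real.pi) * Real.pi)
  linarith

theorem cc_period (hper : HS.Per G) (hm : Even m) (hz : z ∈ Km G m) (t : ℝ) :
    cc G ε z τ (t + m * Real.pi) = cc G ε z τ t := by
  unfold cc
  have e1 : (t + m * Real.pi) / Real.pi = t / Real.pi + (m : ℕ) := by
    field_simp
  rw [e1, round_add_natCast]
  have e2 : t + m * Real.pi - ((round (t / Real.pi) + (m : ℤ) : ℤ) : ℝ) * Real.pi =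
      t - round (t / Real.pi) * Real.pi := by push_cast; ring
  rw [e2]
  unfold pc
  rw [idx_add, idx_add_sub, sta_add hper hm hz, sta_add hper hm hz]

lemma cc_mem (hper : HS.Per G) (hz : z ∈ Km G m) : cc G ε z τ t ∈ S := pc_mem hper hz

/-- on the diagonal the loop is the geodesic -/
theorem cc_diag (hε : 0 < ε) (hz : z ∈ Km G m) {v : Euc N}
    (hv : ∀ i, z.2 i = v) : cc G ε z 0 t = (fl G ((z.1, v), t)).1 := by
  have h1 : ∀ i, (z.1, z.2 i) = (z.1, v) := fun i => by rw [hv]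
  have h2 : (z.1, v) ∈ TS G := by rw [← h1 (idx m 0)]; exact kTS hz _
  have h3 : ∀ i j, sta G z i j = fl G ((z.1, v), j * Real.pi) := fun i j => by
    unfold sta; rw [h1]
  unfold cc pc
  rw [h3, h3, rnd_self hε (fl_mem G h2 _).1 (fl_mem G h2 _).2]
  have h4 := fl_add' G h2 (round (t / Real.pi) * Real.pi)
    (t - round (t / Real.pi) * Real.pi)
  rw [add_sub_cancel] at h4
  rw [h4]

/-- the corner jump -/
def jmp (G : Geo n N κ S) (z : Euc N × (Fin m → Euc N)) (j : ℤ) : Euc N :=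
  (sta G z (idx m j) j).2 - (sta G z (idx m (j - 1)) j).2

lemma norm_jmp {k : ℕ} (h : GT.Bla G k) (hz : z ∈ Km G m) (j : ℤ) :
    ‖jmp G z j‖ = ‖z.2 (idx m j) - z.2 (idx m (j - 1))‖ := by
  unfold jmp
  have hper := h.ty.per
  rcases Int.even_or_odd' j with ⟨l, hl | hl⟩
  · rw [hl, sta_even hper hz, sta_even hper hz]
  · set i := idx m j
    set i' := idx m (j - 1)
    rw [hl, sta_odd hper hz, sta_odd hper hz]
    have hF := h.mem_FF hz.1 (hz.2.1 i).1 (hz.2.1 i).2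
    have hi : z.2 i ∈ GT.Vs G z.1 (Exp G z.1 (Real.pi • z.2 i)) :=
      GT.mem_Vs (hz.2.1 i).1 (hz.2.1 i).2
    have hi' : z.2 i' ∈ GT.Vs G z.1 (Exp G z.1 (Real.pi • z.2 i)) := by
      rw [hz.2.2 i i']
      exact GT.mem_Vs (hz.2.1 i').1 (hz.2.1 i').2
    have h1 := h.inner_ar hF hi (hz.2.1 i).2 hi' (hz.2.1 i').2
    have h2 := (h.ar_spec hF hi (hz.2.1 i).2).2.1
    have h3 := (h.ar_spec hF hi' (hz.2.1 i').2).2.1
    have h4 : ‖GT.ar G z.1 (z.2 i) - GT.ar G z.1 (z.2 i')‖ ^ 2 = ‖z.2 i - z.2 i'‖ ^ 2 := by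
      rw [norm_sub_sq_real, norm_sub_sq_real, h1, h2, h3, (hz.2.1 i).2, (hz.2.1 i').2]
    have h5 : ‖GT.ar G z.1 (z.2 i) - GT.ar G z.1 (z.2 i')‖ = ‖z.2 i - z.2 i'‖ :=
      (sq_eq_sq₀ (norm_nonneg _) (norm_nonneg _)).1 h4
    rw [← h5]
    unfold GT.ar
    rw [← norm_neg]
    congr 1
    abel

end

end Crest.Agent.R208.KG
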