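import Crest.Agent.R208.KG3
import Crest.Agent.R208.GP0
import Crest.Agent.R208.MSDefs

/-!
Row 208, block KG (helper10), part KG4: the family of rounded chains as a smooth family over
`Km × [0,1] × S¹`.
-/

set_option autoImplicit false

open Set Filter Topology MeasureTheory
open scoped ContDiff RealInnerProductSpace Interval
open Crest.GeometryTopology.Submanifold
open Crest.Agent.R241.DDefs
open Crest.Agent.R241.D2
open Crest.Agent.R241.D3c

noncomputable section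

namespace Crest.Agent.R208.KG

variable {n N : ℕ} {κ : ℝ} {S : Set (Euc N)} {G : Geo n N κ S} {m : ℕ}

theorem isCompact_Km (hS : IsCompact S) (G : Geo n N κ S) (m : ℕ) : IsCompact (Km G m) := by
  set A : Set (Euc N × (Fin m → Euc N)) :=
    {z | z.1 ∈ S ∧ ∀ i, z.2 i ∈ G.T z.1 ∧ ‖z.2 i‖ = 1} with hA
  have hP : Continuous G.P := G.contDiff_P.continuous
  have hAc : IsCompact A := by
    have h1 : A = (S ×ˢ Metric.closedBall (0 : Fin m → Euc N) 1) ∩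
        ⋂ i, ({z | G.P z.1 (z.2 i) = z.2 i} ∩ {z | ‖z.2 i‖ = 1}) := by
      ext z
      simp only [hA, mem_ofPred_eq, mem_inter_iff, mem_iInter, mem_prod,
        Metric.mem_closedBall, dist_zero_right]
      constructor
      · rintro ⟨h1, h2⟩
        exact ⟨⟨h1, (pi_norm_le_iff_of_nonneg zero_le_one).2 fun i => (h2 i).2.le⟩,
          fun i => ⟨(P_eq_self G h1).1 (h2 i).1, (h2 i).2⟩⟩
      · rintro ⟨⟨h1, -⟩, h2⟩
        exact ⟨h1, fun i => ⟨(P_eq_self G h1).2 (h2 i).1, (h2 i).2⟩⟩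
    rw [h1]
    refine (hS.prod (isCompact_closedBall _ _)).inter_right (isClosed_iInter fun i => ?_)
    refine (isClosed_eq ?_ (by fun_prop)).inter (isClosed_eq (by fun_prop) continuous_const)
    exact (hP.comp continuous_fst).clm_apply (by fun_prop)
  have h2 : Km G m = A ∩ ⋂ i, ⋂ i', {z | z ∈ A ∧
      Exp G z.1 (Real.pi • z.2 i) - Exp G z.1 (Real.pi • z.2 i') = 0} := by
    ext z
    simp only [Km, hA, mem_ofPred_eq, mem_inter_iff, mem_iInter]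
    constructor
    · rintro ⟨h1, h2, h3⟩
      exact ⟨⟨h1, h2⟩, fun i i' => ⟨⟨h1, h2⟩, sub_eq_zero.2 (h3 i i')⟩⟩
    · rintro ⟨⟨h1, h2⟩, h3⟩
      exact ⟨h1, h2, fun i i' => sub_eq_zero.1 (h3 i i').2⟩
  rw [h2]
  refine hAc.inter_right (isClosed_iInter fun i => isClosed_iInter fun i' => ?_)
  have hcont : ContinuousOn (fun z : Euc N × (Fin m → Euc N) =>
      Exp G z.1 (Real.pi • z.2 i) - Exp G z.1 (Real.pi • z.2 i')) A := by
    intro z hz
    have key : ∀ i, ContinuousAt (fun z : Euc N × (Fin m → Euc N) =>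
        Exp G z.1 (Real.pi • z.2 i)) z := fun i =>
      ContinuousAt.comp (f := fun z : Euc N × (Fin m → Euc N) => (z.1, Real.pi • z.2 i))
        (contDiffAt_Exp G hz.1 ((G.T z.1).smul_mem _ (hz.2 i).1)).continuousAt (by fun_prop)
    exact ((key i).sub (key i')).continuousWithinAt
  have := hcont.preimage_isClosed_of_isClosed hAc.isClosed (isClosed_singleton (x := (0 : Euc N)))
  exact this

/-- `Km × [0,1] × S¹` -/
def XX (G : Geo n N κ S) (m : ℕ) : Set ((Euc N × (Fin m → Euc N)) × ℝ × ℂ) :=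
  Km G m ×ˢ (Icc (0 : ℝ) 1 ×ˢ Metric.sphere (0 : ℂ) 1)

theorem isCompact_XX (hS : IsCompact S) (G : Geo n N κ S) (m : ℕ) : IsCompact (XX G m) :=
  (isCompact_Km hS G m).prod (isCompact_Icc.prod (isCompact_sphere _ _))

variable [NeZero m]

/-- the family, before the extension -/
def f0 (G : Geo n N κ S) (ε : ℝ) (q : (Euc N × (Fin m → Euc N)) × ℝ × ℂ) : Euc N :=
  cc G ε q.1 q.2.1 ((m : ℝ) / 2 * Complex.arg q.2.2)

lemma contDiffAt_arg {u : ℂ} (h : u ∈ Complex.slitPlane) : ContDiffAt ℝ ∞ Complex.arg u := by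
  have h1 : ContDiffAt ℝ ∞ Complex.log u := (Complex.contDiffAt_log h (n := ∞)).restrict_scalars ℝ
  have h2 : Complex.arg = fun u => Complex.imCLM (Complex.log u) := by
    ext u
    simp [Complex.log_im]
  rw [h2]
  exact Complex.imCLM.contDiff.contDiffAt.comp u h1

omit [NeZero m] in
lemma contDiffAt_sta {z : Euc N × (Fin m → Euc N)} (hz : z ∈ Km G m) (i : Fin m) (j : ℤ) :
    ContDiffAt ℝ ∞ (fun z : Euc N × (Fin m → Euc N) => sta G z i j) z := by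
  have h1 := contDiffAt_fl' G (kTS hz i) (j * Real.pi)
  exact ContDiffAt.comp (f := fun z : Euc N × (Fin m → Euc N) =>
    ((z.1, z.2 i), (j : ℝ) * Real.pi)) z h1 (by fun_prop)

lemma contDiffAt_pc (hper : HS.Per G) {ε : ℝ} {z : Euc N × (Fin m → Euc N)} (hz : z ∈ Km G m)
    (j : ℤ) (τ s : ℝ) :
    ContDiffAt ℝ ∞ (fun q : (Euc N × (Fin m → Euc N)) × ℝ × ℝ =>
      pc G ε q.1 q.2.1 j q.2.2) (z, τ, s) := by
  have h1 := contDiffAt_rnd (G := G) ε (sta_mem hz (idx m j) j).1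
    (sta_snd_mem hper hz (idx m j) (idx m (j - 1)) j)
    (sta_snd_mem hper hz (idx m j) (idx m j) j) τ s
  have h2 : ∀ i, ContDiffAt ℝ ∞ (fun q : (Euc N × (Fin m → Euc N)) × ℝ × ℝ => sta G q.1 i j)
      (z, τ, s) := fun i =>
    ContDiffAt.comp (f := fun q : (Euc N × (Fin m → Euc N)) × ℝ × ℝ => q.1) (z, τ, s)
      (contDiffAt_sta hz i j) contDiffAt_fst
  exact ContDiffAt.comp (f := fun q : (Euc N × (Fin m → Euc N)) × ℝ × ℝ =>
    (((sta G q.1 (idx m j) j).1, (sta G q.1 (idx m (j - 1)) j).2, (sta G q.1 (idx m j) j).2),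
      q.2.1, q.2.2)) (z, τ, s) h1
    (((h2 _).fst.prodMk ((h2 _).snd.prodMk (h2 _).snd)).prodMk contDiffAt_snd)

lemma cc_int (hper : HS.Per G) (hm : Even m) {ε τ : ℝ} {z : Euc N × (Fin m → Euc N)}
    (hz : z ∈ Km G m) (t : ℝ) (l : ℤ) :
    cc G ε z τ (t + l * (m * Real.pi)) = cc G ε z τ t := by
  have h1 : Function.Periodic (cc G ε z τ) (m * Real.pi) := cc_period hper hm hz
  exact (h1.int_mul l) t

lemma cc_arg (hper : HS.Per G) (hm : Even m) {ε τ : ℝ} {z : Euc N × (Fin m → Euc N)}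
    (hz : z ∈ Km G m) {a b : ℝ} (hab : (a : Real.Angle) = b) :
    cc G ε z τ ((m : ℝ) / 2 * a) = cc G ε z τ ((m : ℝ) / 2 * b) := by
  obtain ⟨l, hl⟩ := Real.Angle.angle_eq_iff_two_pi_dvd_sub.1 hab
  have h1 : (m : ℝ) / 2 * a = (m : ℝ) / 2 * b + l * (m * Real.pi) := by
    have : a = b + 2 * Real.pi * l := by linarith
    rw [this]; ring
  rw [h1, cc_int hper hm hz]

theorem exists_FC (hS : IsCompact S) (hper : HS.Per G) (hm : Even m) {ε : ℝ} (hε : 0 < ε)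
    (hε1 : ε ≤ 1 / 2) : ∃ f : (Euc N × (Fin m → Euc N)) × ℝ × ℂ → Euc N,
      (∀ q ∈ XX G m, ContDiffAt ℝ ∞ f q) ∧ ∀ q ∈ XX G m, f q = f0 G ε q := by
  refine GP.exists_extension (isCompact_XX hS G m) ?_
  rintro ⟨z₀, τ₀, u₀⟩ ⟨hz₀, hτ₀, hu₀⟩
  have hu0 : u₀ ≠ 0 := by
    intro h
    rw [h] at hu₀
    simp at hu₀
  set t₀ : ℝ := (m : ℝ) / 2 * Complex.arg u₀ with ht₀
  set j : ℤ := round (t₀ / Real.pi) with hj
  set P : (Euc N × (Fin m → Euc N)) × ℝ × ℂ → Prop := fun q =>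
    q.2.2 / u₀ ∈ Complex.slitPlane ∧ |(m : ℝ) / 2 * Complex.arg (q.2.2 / u₀)| < 1 with hP
  have hone : u₀ / u₀ = 1 := div_self hu0
  have hmem1 : (1 : ℂ) ∈ Complex.slitPlane := Complex.one_mem_slitPlane
  have hev : ∀ᶠ q in 𝓝 ((z₀, τ₀, u₀) : (Euc N × (Fin m → Euc N)) × ℝ × ℂ), P q := by
    have c1 : ContinuousAt (fun q : (Euc N × (Fin m → Euc N)) × ℝ × ℂ => q.2.2 / u₀)
        (z₀, τ₀, u₀) := by fun_prop
    have c2 : ContinuousAt (fun q : (Euc N × (Fin m → Euc N)) × ℝ × ℂ =>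
        |(m : ℝ) / 2 * Complex.arg (q.2.2 / u₀)|) (z₀, τ₀, u₀) := by
      have h1 : ContinuousAt Complex.arg (u₀ / u₀) := by
        rw [hone]; exact Complex.continuousAt_arg hmem1
      exact (continuousAt_const.mul (ContinuousAt.comp
        (f := fun q : (Euc N × (Fin m → Euc N)) × ℝ × ℂ => q.2.2 / u₀) h1 c1)).abs
    refine (c1.eventually_mem (Complex.isOpen_slitPlane.mem_nhds ?_)).and
      (c2.eventually_lt continuousAt_const ?_)
    · change u₀ / u₀ ∈ _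
      rw [hone]; exact hmem1
    · change |(m : ℝ) / 2 * Complex.arg (u₀ / u₀)| < 1
      rw [hone]; simp
  obtain ⟨U, hUP, hUo, hU⟩ := eventually_nhds_iff.1 hev
  refine ⟨U, fun q => pc G ε q.1 q.2.1 j
    ((m : ℝ) / 2 * (Complex.arg u₀ + Complex.arg (q.2.2 / u₀)) - j * Real.pi), hUo, hU, ?_, ?_⟩
  · rintro ⟨z, τ, u⟩ ⟨⟨hz, hτ, hu⟩, hqU⟩
    have hq := hUP _ hqU
    have h1 := contDiffAt_pc (ε := ε) hper hz j τ
      ((m : ℝ) / 2 * (Complex.arg u₀ + Complex.arg (u / u₀)) - j * Real.pi)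
    have h2 : ContDiffAt ℝ ∞ (fun q : (Euc N × (Fin m → Euc N)) × ℝ × ℂ =>
        Complex.arg (q.2.2 / u₀)) (z, τ, u) :=
      ContDiffAt.comp (f := fun q : (Euc N × (Fin m → Euc N)) × ℝ × ℂ => q.2.2 / u₀) (z, τ, u)
        (contDiffAt_arg hq.1) (by fun_prop)
    exact ContDiffAt.comp (f := fun q : (Euc N × (Fin m → Euc N)) × ℝ × ℂ => (q.1, q.2.1,
      (m : ℝ) / 2 * (Complex.arg u₀ + Complex.arg (q.2.2 / u₀)) - j * Real.pi)) (z, τ, u) h1
      (contDiffAt_fst.prodMk (contDiffAt_snd.fst.prodMk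
        ((contDiffAt_const.mul (contDiffAt_const.add h2)).sub contDiffAt_const)))
  · rintro ⟨z, τ, u⟩ ⟨⟨hz, hτ, hu⟩, hqU⟩
    have hq := hUP _ hqU
    have hu1 : u ≠ 0 := by
      intro h
      rw [h] at hu
      simp at hu
    simp only [f0]
    have h1 : ((Complex.arg u : ℝ) : Real.Angle) =
        ((Complex.arg u₀ + Complex.arg (u / u₀) : ℝ) : Real.Angle) := by
      have h2 := Complex.arg_mul_coe_angle hu0 (div_ne_zero hu1 hu0)
      rw [mul_div_cancel₀ _ hu0] at h2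
      rw [h2]
      rfl
    rw [cc_arg hper hm hz h1]
    symm
    rw [hj]
    refine cc_eq_round hper hε hε1 hz ?_
    have h3 : (m : ℝ) / 2 * (Complex.arg u₀ + Complex.arg (u / u₀)) - t₀ =
        (m : ℝ) / 2 * Complex.arg (u / u₀) := by rw [ht₀]; ring
    rw [h3]
    exact hq.2.le

/-- **the family of rounded chains** over `Km × [0,1] × S¹` (homotopy parameter `τ ∈ [0,1]`,
`τ = 0`: energy profile, `τ = 1`: flat profile) -/
def FC (G : Geo n N κ S) (m : ℕ) [NeZero m] (ε : ℝ) :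
    (Euc N × (Fin m → Euc N)) × ℝ × ℂ → Euc N := by
  classical
  exact if h : ∃ f : (Euc N × (Fin m → Euc N)) × ℝ × ℂ → Euc N,
      (∀ q ∈ XX G m, ContDiffAt ℝ ∞ f q) ∧ ∀ q ∈ XX G m, f q = f0 G ε q
    then Classical.choose h else 0

/-- the same with a real time, period `2π` -/
def F (G : Geo n N κ S) (m : ℕ) [NeZero m] (ε : ℝ) (z : Euc N × (Fin m → Euc N)) (τ α : ℝ) :
    Euc N := FC G m ε (z, τ, Complex.exp (α * Complex.I))

/-- standing assumptions -/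
structure OK (G : Geo n N κ S) (m : ℕ) (ε : ℝ) : Prop where
  cpt : IsCompact S
  per : HS.Per G
  even : Even m
  pos : 0 < ε
  le : ε ≤ 1 / 2

variable {ε τ α : ℝ} {z : Euc N × (Fin m → Euc N)}

lemma FC_spec (h : OK G m ε) : (∀ q ∈ XX G m, ContDiffAt ℝ ∞ (FC G m ε) q) ∧
    ∀ q ∈ XX G m, FC G m ε q = f0 G ε q := by
  classical
  have h1 := exists_FC (m := m) h.cpt h.per h.even h.pos h.le
  unfold FC
  rw [dif_pos h1]
  exact Classical.choose_spec h1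

theorem FC_smooth (h : OK G m ε) {q : (Euc N × (Fin m → Euc N)) × ℝ × ℂ} (hq : q ∈ XX G m) :
    ContDiffAt ℝ ∞ (FC G m ε) q := (FC_spec h).1 q hq

lemma exp_mem (α : ℝ) : Complex.exp (α * Complex.I) ∈ Metric.sphere (0 : ℂ) 1 := by
  simp [Complex.norm_exp_ofReal_mul_I]

omit [NeZero m] in
lemma mem_XX (hz : z ∈ Km G m) (hτ : τ ∈ Icc (0 : ℝ) 1) (α : ℝ) :
    (z, τ, Complex.exp (α * Complex.I)) ∈ XX G m := ⟨hz, hτ, exp_mem α⟩

theorem F_eq (h : OK G m ε) (hz : z ∈ Km G m) (hτ : τ ∈ Icc (0 : ℝ) 1) (α : ℝ) :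
    F G m ε z τ α = cc G ε z τ ((m : ℝ) / 2 * α) := by
  unfold F
  rw [(FC_spec h).2 _ (mem_XX hz hτ α)]
  simp only [f0]
  refine cc_arg h.per h.even hz ?_
  rw [Complex.arg_exp_mul_I, Real.Angle.coe_toIocMod]

theorem FC_mem (h : OK G m ε) {q : (Euc N × (Fin m → Euc N)) × ℝ × ℂ} (hq : q ∈ XX G m) :
    FC G m ε q ∈ S := by
  rw [(FC_spec h).2 q hq]
  exact cc_mem h.per hq.1

theorem F_mem (h : OK G m ε) (hz : z ∈ Km G m) (hτ : τ ∈ Icc (0 : ℝ) 1) (α : ℝ) :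
    F G m ε z τ α ∈ S := FC_mem h (mem_XX hz hτ α)

theorem F_per (α : ℝ) : F G m ε z τ (α + 2 * Real.pi) = F G m ε z τ α := by
  unfold F
  have h1 : (((α + 2 * Real.pi : ℝ) : ℂ)) * Complex.I = α * Complex.I + 2 * Real.pi * Complex.I := by
    push_cast; ring
  rw [h1, Complex.exp_periodic]

theorem F_smooth (h : OK G m ε) (hz : z ∈ Km G m) (hτ : τ ∈ Icc (0 : ℝ) 1) (α : ℝ) :
    ContDiffAt ℝ ∞ (fun q : (Euc N × (Fin m → Euc N)) × ℝ × ℝ => F G m ε q.1 q.2.1 q.2.2)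
      (z, τ, α) := by
  unfold F
  have h1 : ContDiff ℝ ∞ (fun a : ℝ => Complex.exp (a * Complex.I)) := by
    have : ContDiff ℝ ∞ Complex.exp := Complex.contDiff_exp
    exact this.comp (Complex.ofRealCLM.contDiff.mul contDiff_const)
  exact ContDiffAt.comp (f := fun q : (Euc N × (Fin m → Euc N)) × ℝ × ℝ =>
    (q.1, q.2.1, Complex.exp (q.2.2 * Complex.I))) (z, τ, α) (FC_smooth h (mem_XX hz hτ α))
    (contDiffAt_fst.prodMk (contDiffAt_snd.fst.prodMk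
      (ContDiffAt.comp (g := fun a : ℝ => Complex.exp (a * Complex.I))
        (f := fun q : (Euc N × (Fin m → Euc N)) × ℝ × ℝ => q.2.2) (z, τ, α)
        (h1.contDiffAt (x := α)) contDiffAt_snd.snd)))

theorem F_smooth_t (h : OK G m ε) (hz : z ∈ Km G m) (hτ : τ ∈ Icc (0 : ℝ) 1) :
    ContDiff ℝ ∞ (F G m ε z τ) := by
  rw [contDiff_iff_contDiffAt]
  intro α
  exact ContDiffAt.comp (g := fun q : (Euc N × (Fin m → Euc N)) × ℝ × ℝ =>
    F G m ε q.1 q.2.1 q.2.2) (f := fun a : ℝ => (z, τ, a)) α (F_smooth h hz hτ α) (by fun_prop)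

theorem loop_F (h : OK G m ε) (hz : z ∈ Km G m) (hτ : τ ∈ Icc (0 : ℝ) 1) :
    MS.Loop S (F G m ε z τ) := ⟨F_smooth_t h hz hτ, F_per, F_mem h hz hτ⟩

theorem F_diag (h : OK G m ε) (hz : z ∈ Km G m) {v : Euc N} (hv : ∀ i, z.2 i = v) (α : ℝ) :
    F G m ε z 0 α = (fl G ((z.1, v), (m : ℝ) / 2 * α)).1 := by
  rw [F_eq h hz ⟨le_rfl, zero_le_one⟩, cc_diag h.pos hz hv]

end Crest.Agent.R208.KG
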