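import Crest.Agent.R208.KG5

/-!
Row 208, block KG (helper10), part KG6: the flat family as a concatenation of arcs; distance to
the diagonal.
-/

set_option autoImplicit false

open Set Filter Topology MeasureTheory
open scoped ContDiff RealInnerProductSpace Interval
open Crest.GeometryTopology.Submanifold
open Crest.Agent.R241.DDefs
open Crest.Agent.R241.D2
open Crest.Agent.R241.D3c

noncomputable section

namespace Crest.Agent.R208.KG

variable {n N : ℕ} {κ : ℝ} {S : Set (Euc N)} {G : Geo n N κ S} {m : ℕ} {ε : ℝ}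

/-! ### the flat reparametrisation -/

/-- `Rf ε (jπ + s) = jπ + gT ε 1 s - gT ε 1 (-s)` -/
def Rj (ε : ℝ) (j : ℤ) (t : ℝ) : ℝ :=
  j * Real.pi + gT ε 1 (t - j * Real.pi) - gT ε 1 (j * Real.pi - t)

/-- smooth, non decreasing, `Rf (t + π) = Rf t + π`, `Rf = jπ` near `jπ`, `Rf t = t` away from
the multiples of `π` -/
def Rf (ε t : ℝ) : ℝ := Rj ε (round (t / Real.pi)) t

lemma contDiff_gT1 (ε τ : ℝ) : ContDiff ℝ ∞ (gT ε τ) :=
  (contDiff_gT ε).comp (contDiff_const.prodMk contDiff_id)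

lemma contDiff_Rj (ε : ℝ) (j : ℤ) : ContDiff ℝ ∞ (Rj ε j) := by
  unfold Rj
  have h := contDiff_gT1 ε 1
  exact (contDiff_const.add (h.comp (by fun_prop))).sub (h.comp (by fun_prop))

lemma Rj_ge (hε : 0 < ε) {j : ℤ} {t : ℝ} (h : ε ≤ t - j * Real.pi) : Rj ε j t = t := by
  unfold Rj
  rw [gT_of_ge hε h, gT_one_of_le hε (by linarith)]
  ring

lemma Rj_le (hε : 0 < ε) {j : ℤ} {t : ℝ} (h : t - j * Real.pi ≤ -ε) : Rj ε j t = t := by
  unfold Rj
  rw [gT_one_of_le hε (by linarith), gT_of_ge hε (by linarith : ε ≤ j * Real.pi - t)]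
  ring

lemma Rf_eq (hε : 0 < ε) (hε1 : ε ≤ 1 / 2) {j : ℤ} {t : ℝ}
    (h1 : |t - j * Real.pi| ≤ Real.pi - ε) : Rf ε t = Rj ε j t := by
  have hpi := Real.pi_gt_three
  set j' := round (t / Real.pi) with hj'
  have h2 : |t - j' * Real.pi| ≤ Real.pi / 2 := by
    have h3 := abs_sub_round (t / Real.pi)
    rw [← hj'] at h3
    have h4 : t - j' * Real.pi = (t / Real.pi - j') * Real.pi := by field_simp
    rw [h4, abs_mul, abs_of_pos Real.pi_pos]
    nlinarith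
  obtain ⟨a1, a2⟩ := abs_le.1 h1
  obtain ⟨b1, b2⟩ := abs_le.1 h2
  have c1 : (j' : ℝ) < j + 2 := by nlinarith
  have c2 : (j : ℝ) < j' + 2 := by nlinarith
  have c1' : j' < j + 2 := by exact_mod_cast c1
  have c2' : j < j' + 2 := by exact_mod_cast c2
  unfold Rf
  rw [← hj']
  rcases (by omega : j' = j - 1 ∨ j' = j ∨ j' = j + 1) with h | h | h
  · rw [h] at b1 b2 ⊢
    push_cast at b1 b2
    rw [Rj_ge hε (by push_cast; linarith), Rj_le hε (by linarith)]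
  · rw [h]
  · rw [h] at b1 b2 ⊢
    push_cast at b1 b2
    rw [Rj_le hε (by push_cast; linarith), Rj_ge hε (by linarith)]

theorem contDiff_Rf (hε : 0 < ε) (hε1 : ε ≤ 1 / 2) : ContDiff ℝ ∞ (Rf ε) := by
  rw [contDiff_iff_contDiffAt]
  intro t₀
  have hpi := Real.pi_gt_three
  refine (contDiff_Rj ε (round (t₀ / Real.pi))).contDiffAt.congr_of_eventuallyEq ?_
  have h3 := abs_sub_round (t₀ / Real.pi)
  have h4 : t₀ - round (t₀ / Real.pi) * Real.pi =
      (t₀ / Real.pi - round (t₀ / Real.pi)) * Real.pi := by field_simp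
  have h5 : |t₀ - round (t₀ / Real.pi) * Real.pi| ≤ Real.pi / 2 := by
    rw [h4, abs_mul, abs_of_pos Real.pi_pos]
    nlinarith
  filter_upwards [Metric.closedBall_mem_nhds t₀ one_pos] with t ht
  rw [Metric.mem_closedBall, Real.dist_eq] at ht
  refine Rf_eq hε hε1 ?_
  have h6 := abs_sub_le t t₀ (round (t₀ / Real.pi) * Real.pi)
  linarith

lemma Rf_add (t : ℝ) (ε : ℝ) : Rf ε (t + Real.pi) = Rf ε t + Real.pi := by
  unfold Rf
  have e1 : (t + Real.pi) / Real.pi = t / Real.pi + 1 := by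
    field_simp
  rw [e1, round_add_one]
  unfold Rj
  push_cast
  have e2 : t + Real.pi - ((round (t / Real.pi) : ℝ) + 1) * Real.pi =
      t - round (t / Real.pi) * Real.pi := by ring
  have e3 : ((round (t / Real.pi) : ℝ) + 1) * Real.pi - (t + Real.pi) =
      round (t / Real.pi) * Real.pi - t := by ring
  rw [e2, e3]
  ring

lemma Rf_near (hε : 0 < ε) (hε1 : ε ≤ 1 / 2) {j : ℤ} {t : ℝ} (h1 : |t - j * Real.pi| ≤ ε / 4) :
    Rf ε t = j * Real.pi := by
  have hpi := Real.pi_gt_three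
  rw [Rf_eq hε hε1 (j := j) (by linarith)]
  obtain ⟨a1, a2⟩ := abs_le.1 h1
  unfold Rj
  rw [gT_one_of_le' hε a2, gT_one_of_le' hε (by linarith)]
  ring

lemma Rf_mem (hε : 0 < ε) (hε1 : ε ≤ 1 / 2) {i : ℤ} {t : ℝ} (h1 : i * Real.pi ≤ t)
    (h2 : t ≤ (i + 1) * Real.pi) : i * Real.pi ≤ Rf ε t ∧ Rf ε t ≤ (i + 1) * Real.pi := by
  have hpi := Real.pi_gt_three
  rcases le_total t (i * Real.pi + Real.pi / 2) with h | h
  · rw [Rf_eq hε hε1 (j := i) (by rw [abs_of_nonneg (by linarith)]; linarith)]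
    unfold Rj
    rw [gT_one_of_le (s := i * Real.pi - t) hε (by linarith)]
    have e1 := gT_one_nonneg (s := t - i * Real.pi) hε (by linarith)
    have e2 := gT_one_le (s := t - i * Real.pi) hε (by linarith)
    constructor <;> linarith
  · rw [Rf_eq hε hε1 (j := i + 1) (by push_cast; rw [abs_of_nonpos (by linarith)]; linarith)]
    unfold Rj
    push_cast
    rw [gT_one_of_le (s := t - ((i : ℝ) + 1) * Real.pi) hε (by linarith)]
    have e1 := gT_one_nonneg (s := ((i : ℝ) + 1) * Real.pi - t) hε (by linarith)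
    have e2 := gT_one_le (s := ((i : ℝ) + 1) * Real.pi - t) hε (by linarith)
    constructor <;> linarith

/-! ### the flat family -/

variable [NeZero m] {z : Euc N × (Fin m → Euc N)}

/-- **the flat loop on the `i`-th arc** -/
theorem cc_flat (hper : HS.Per G) (hε : 0 < ε) (hε1 : ε ≤ 1 / 2) (hz : z ∈ Km G m) {i : ℤ}
    {t : ℝ} (h1 : i * Real.pi ≤ t) (h2 : t ≤ (i + 1) * Real.pi) :
    cc G ε z 1 t = (fl G ((z.1, z.2 (idx m i)), Rf ε t)).1 := by
  have hpi := Real.pi_gt_three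
  rcases le_total t (i * Real.pi + Real.pi / 2) with h | h
  · have h3 : |t - i * Real.pi| ≤ Real.pi - ε := by
      rw [abs_of_nonneg (by linarith)]; linarith
    rw [cc_eq hper hε hε1 hz h3, Rf_eq hε hε1 h3]
    unfold pc Rj
    rw [rnd_one_of_nonneg hε (sta_mem hz _ _).1 (sta_snd_mem hper hz _ _ _) (by linarith),
      gT_one_of_le (s := i * Real.pi - t) hε (by linarith), sub_zero, fl_add' G (kTS hz _)]
    rfl
  · have h3 : |t - ((i + 1 : ℤ) : ℝ) * Real.pi| ≤ Real.pi - ε := by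
      push_cast
      rw [abs_of_nonpos (by linarith)]; linarith
    rw [cc_eq hper hε hε1 hz h3, Rf_eq hε hε1 h3]
    unfold pc Rj
    rw [rnd_one_of_nonpos hε (sta_mem hz _ _).1 (sta_snd_mem hper hz _ _ _)
      (by push_cast; linarith),
      gT_one_of_le (s := t - ((i + 1 : ℤ) : ℝ) * Real.pi) hε (by push_cast; linarith),
      add_zero, sub_eq_add_neg (((i + 1 : ℤ) : ℝ) * Real.pi), fl_add' G (kTS hz _), neg_sub,
      sta_fst hper hz (idx m (i + 1)) (idx m (i + 1 - 1)), add_sub_cancel_right]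
    rfl

theorem F_flat (h : OK G m ε) (hz : z ∈ Km G m) {i : ℤ} {α : ℝ}
    (h1 : i * Real.pi ≤ (m : ℝ) / 2 * α) (h2 : (m : ℝ) / 2 * α ≤ (i + 1) * Real.pi) :
    F G m ε z 1 α = (fl G ((z.1, z.2 (idx m i)), Rf ε ((m : ℝ) / 2 * α))).1 := by
  rw [F_eq h hz ⟨zero_le_one, le_rfl⟩, cc_flat h.per h.pos h.le hz h1 h2]

/-! ### reversed arcs: `F z 1 α = Exp_p (π h ((-1)^i v_i))` -/

/-- the height `0 → 1 → 0 → 1 …` -/
def hfi (ε : ℝ) (i : ℤ) (t : ℝ) : ℝ :=
  if Even i then (Rf ε t - i * Real.pi) / Real.pi else ((i + 1) * Real.pi - Rf ε t) / Real.pi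

/-- the sign of the `i`-th arc -/
def sgi (i : ℤ) : ℝ := if Even i then 1 else -1

omit [NeZero m] in
lemma fl_neg_dir {q : Euc N × Euc N} (hq : q ∈ TS G) (t : ℝ) :
    (fl G ((q.1, -q.2), t)).1 = (fl G (q, -t)).1 := by
  have h1 := fl_scale G (x := q.1) (v := q.2) hq (-1) t
  rw [neg_one_smul, neg_one_mul] at h1
  rw [h1]

theorem F_flat' (h : OK G m ε) (hz : z ∈ Km G m) {i : ℤ} {α : ℝ}
    (h1 : i * Real.pi ≤ (m : ℝ) / 2 * α) (h2 : (m : ℝ) / 2 * α ≤ (i + 1) * Real.pi) :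
    F G m ε z 1 α =
      Exp G z.1 ((Real.pi * hfi ε i ((m : ℝ) / 2 * α)) • (sgi i • z.2 (idx m i))) := by
  have hq := kTS hz (idx m i)
  have hn := (hz.2.1 (idx m i)).2
  have hp0 := Real.pi_ne_zero
  rw [F_flat h hz h1 h2]
  unfold hfi sgi
  by_cases he : Even i
  · rw [if_pos he, if_pos he, one_smul, Exp_smul G hz.1 (hz.2.1 _).1]
    obtain ⟨l, hl⟩ := he
    have e1 := fl_int h.per hq hn (Real.pi * ((Rf ε ((m : ℝ) / 2 * α) - i * Real.pi) / Real.pi)) l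
    have e2 : Real.pi * ((Rf ε ((m : ℝ) / 2 * α) - i * Real.pi) / Real.pi) + 2 * l * Real.pi =
        Rf ε ((m : ℝ) / 2 * α) := by
      rw [hl]; push_cast; field_simp; ring
    rw [e2] at e1
    rw [e1]
  · rw [if_neg he, if_neg he, neg_one_smul, Exp_smul G hz.1 ((G.T z.1).neg_mem (hz.2.1 _).1)]
    have e0 := fl_neg_dir hq (Real.pi * (((i + 1) * Real.pi - Rf ε ((m : ℝ) / 2 * α)) / Real.pi))
    simp only at e0
    rw [e0]
    obtain ⟨l, hl⟩ := Int.not_even_iff_odd.1 he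
    have e1 := fl_int h.per hq hn
      (-(Real.pi * (((i + 1) * Real.pi - Rf ε ((m : ℝ) / 2 * α)) / Real.pi))) (l + 1)
    have e2 : -(Real.pi * (((i + 1) * Real.pi - Rf ε ((m : ℝ) / 2 * α)) / Real.pi)) +
        2 * ((l + 1 : ℤ) : ℝ) * Real.pi = Rf ε ((m : ℝ) / 2 * α) := by
      rw [hl]; push_cast; field_simp; ring
    rw [e2] at e1
    rw [e1]

/-! ### distance to the diagonal -/

omit [NeZero m] in
lemma jsq_nonneg [NeZero m] (z : Euc N × (Fin m → Euc N)) : 0 ≤ jsq z :=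
  Finset.sum_nonneg fun _ _ => sq_nonneg _

/-- `‖v_i - v_0‖² ≤ m Σ ‖v_j - v_{j-1}‖²` -/
theorem norm_sub_le_jsq (z : Euc N × (Fin m → Euc N)) (i : Fin m) :
    ‖z.2 i - z.2 (idx m 0)‖ ^ 2 ≤ m * jsq z := by
  have key : ∀ j : ℕ, j < m → ‖z.2 (idx m (j : ℤ)) - z.2 (idx m 0)‖ ≤
      ∑ l ∈ Finset.range m, ‖z.2 (idx m (l : ℤ)) - z.2 (idx m ((l : ℤ) - 1))‖ := by
    have h1 : ∀ j : ℕ, ‖z.2 (idx m (j : ℤ)) - z.2 (idx m 0)‖ ≤
        ∑ l ∈ Finset.range (j + 1), ‖z.2 (idx m (l : ℤ)) - z.2 (idx m ((l : ℤ) - 1))‖ := by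
      intro j
      induction j with
      | zero => simp
      | succ j ih =>
        rw [Finset.sum_range_succ]
        have e1 : ((j + 1 : ℕ) : ℤ) - 1 = (j : ℤ) := by push_cast; ring
        rw [e1]
        have e2 : z.2 (idx m ((j + 1 : ℕ) : ℤ)) - z.2 (idx m 0) =
            (z.2 (idx m (j : ℤ)) - z.2 (idx m 0)) +
            (z.2 (idx m ((j + 1 : ℕ) : ℤ)) - z.2 (idx m (j : ℤ))) := by abel
        rw [e2]
        exact (norm_add_le _ _).trans (add_le_add ih le_rfl)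
    intro j hj
    refine (h1 j).trans (Finset.sum_le_sum_of_subset_of_nonneg ?_ fun _ _ _ => norm_nonneg _)
    exact Finset.range_subset_range.2 hj
  have h2 := key i i.2
  rw [idx_natCast] at h2
  have h3 := sq_sum_le_card_mul_sum_sq (s := Finset.range m)
    (f := fun l : ℕ => ‖z.2 (idx m (l : ℤ)) - z.2 (idx m ((l : ℤ) - 1))‖)
  rw [Finset.card_range] at h3
  calc ‖z.2 i - z.2 (idx m 0)‖ ^ 2 ≤
      (∑ l ∈ Finset.range m, ‖z.2 (idx m (l : ℤ)) - z.2 (idx m ((l : ℤ) - 1))‖) ^ 2 := by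
        gcongr
    _ ≤ _ := h3

/-- energy gap away from the diagonal -/
theorem exists_En_lt (hS : IsCompact S) (G : Geo n N κ S) {k : ℕ} (hB : GT.Bla G k) (m : ℕ)
    [NeZero m] (hm : Even m) :
    ∃ ε₀ : ℝ, 0 < ε₀ ∧ ∀ ε, 0 < ε → ε ≤ ε₀ → OK G m ε ∧ ∃ c : ℝ, 0 < c ∧
      ∀ z ∈ Km G m, ∀ i, MS.En (F G m ε z 0) ≤
        (m : ℝ) ^ 2 * Real.pi / 4 - c * ‖z.2 i - z.2 (idx m 0)‖ ^ 2 := by
  obtain ⟨ε₀, h1, h2⟩ := exists_En_le hS G hB m hm
  refine ⟨ε₀, h1, fun ε hε hε' => ?_⟩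
  obtain ⟨h3, c, hc, h4⟩ := h2 ε hε hε'
  have hm0 := m_pos (m := m)
  refine ⟨h3, c / m, by positivity, fun z hz i => (h4 z hz).trans ?_⟩
  have h5 := norm_sub_le_jsq z i
  have h6 : c / m * ‖z.2 i - z.2 (idx m 0)‖ ^ 2 ≤ c * jsq z := by
    calc c / m * ‖z.2 i - z.2 (idx m 0)‖ ^ 2 ≤ c / m * (m * jsq z) := by gcongr
      _ = c * jsq z := by field_simp
  linarith

end Crest.Agent.R208.KG
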