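import Crest.Agent.R208.KG8
import Crest.Agent.R208.AK2

/-!
Row 208, block KG (helper10), part KG9: the family of rounded chains near the diagonal in
helper952's format `AK.LFam`, its linearisation, and the negativity of the index form on it.
-/

set_option autoImplicit false

open Set Filter Topology MeasureTheory
open scoped ContDiff RealInnerProductSpace Interval
open Crest.GeometryTopology.Submanifold
open Crest.Agent.R241.DDefs
open Crest.Agent.R241.D2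
open Crest.Agent.R241.D3c
open Crest.Agent.R208.L (dfl)
open Crest.Agent.R208.FV

noncomputable section

namespace Crest.Agent.R208.KG

variable {n N : ℕ} {κ : ℝ} {S : Set (Euc N)} {G : Geo n N κ S} {m k : ℕ} [NeZero m] {ε : ℝ}
  {x : Euc N × Euc N} {ζ : Fin m → Euc N}

/-! ### the field of null directions -/

/-- `ζ 0 = 0`, `ζ i` null: fixed vectors of this field -/
def PZ (h : GT.Bla G k) (m : ℕ) [NeZero m] (x : Euc N × Euc N) :
    (Fin m → Euc N) →L[ℝ] (Fin m → Euc N) :=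
  ContinuousLinearMap.pi fun i => if i = idx m 0 then 0 else
    (PVB h (phi G x) - (innerSL ℝ x.2).smulRight x.2).comp (ContinuousLinearMap.proj i)

lemma PZ_apply (h : GT.Bla G k) (x : Euc N × Euc N) (ζ : Fin m → Euc N) (i : Fin m) :
    PZ h m x ζ i = if i = idx m 0 then 0 else PVB h (phi G x) (ζ i) - ⟪x.2, ζ i⟫ • x.2 := by
  unfold PZ
  rw [ContinuousLinearMap.pi_apply]
  split_ifs
  · rfl
  · simp

lemma mem_Vs_self (hx : x ∈ L.US G) : x.2 ∈ GT.Vs G x.1 (Exp G x.1 (Real.pi • x.2)) :=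
  GT.mem_Vs hx.1.2 hx.2

lemma PVB_eq_self (h : GT.Bla G k) (hx : x ∈ L.US G) {a : Euc N} :
    PVB h (phi G x) a = a ↔ a ∈ GT.Vs G x.1 (Exp G x.1 (Real.pi • x.2)) :=
  PV_eq_self h.bl h.ty (sub_S h.bl) (phi_mem h.bl hx)

lemma PVB_mem (h : GT.Bla G k) (hx : x ∈ L.US G) (a : Euc N) :
    PVB h (phi G x) a ∈ GT.Vs G x.1 (Exp G x.1 (Real.pi • x.2)) :=
  (PVB_eq_self h hx).1 ((pfield_PVB h).idem _ (phi_mem h.bl hx) a)

theorem PZ_iff (h : GT.Bla G k) (hx : x ∈ L.US G) :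
    PZ h m x ζ = ζ ↔ ζ (idx m 0) = 0 ∧ ∀ i, Nul G x (ζ i) := by
  constructor
  · intro hζ
    have h0 : ζ (idx m 0) = 0 := by
      have := congrFun hζ (idx m 0)
      rw [PZ_apply, if_pos rfl] at this
      exact this.symm
    refine ⟨h0, fun i => ?_⟩
    by_cases hi : i = idx m 0
    · rw [hi, h0]; exact Nul.zero
    have h1 := congrFun hζ i
    rw [PZ_apply, if_neg hi] at h1
    have h2 : ζ i ∈ GT.Vs G x.1 (Exp G x.1 (Real.pi • x.2)) := by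
      rw [← h1]
      exact Submodule.sub_mem _ (PVB_mem h hx _) (Submodule.smul_mem _ _ (mem_Vs_self hx))
    refine ⟨h2, ?_⟩
    rw [(PVB_eq_self h hx).2 h2] at h1
    have h3 : ⟪x.2, ζ i⟫ • x.2 = 0 := by
      have := sub_eq_self.1 h1
      exact this
    have h4 := congrArg (fun y => ⟪x.2, y⟫) h3
    simp only [inner_smul_right, real_inner_self_eq_norm_sq, hx.2, inner_zero_right] at h4
    linarith
  · rintro ⟨h0, h1⟩
    funext i
    rw [PZ_apply]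
    by_cases hi : i = idx m 0
    · rw [if_pos hi, hi, h0]
    · rw [if_neg hi, (PVB_eq_self h hx).2 (h1 i).1, (h1 i).2, zero_smul, sub_zero]

/-! ### the family over the tube, period `mπ` -/

/-- period `mπ`, unit speed on the diagonal -/
def FT (G : Geo n N κ S) (m : ℕ) [NeZero m] (ε : ℝ)
    (q : ((Euc N × Euc N) × (Fin m → Euc N)) × ℝ) : Euc N :=
  F G m ε (tub q.1.1 q.1.2) 0 (2 / m * q.2)

lemma two_div_mul (t : ℝ) : (m : ℝ) / 2 * (2 / m * t) = t := by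
  have := m_pos (m := m)
  field_simp

lemma FT_eq (h : GT.Bla G k) (hO : OK G m ε) (hx : x ∈ L.US G) (hζ : ∀ i, Nul G x (ζ i)) (t : ℝ) :
    FT G m ε ((x, ζ), t) = cc G ε (tub x ζ) 0 t := by
  unfold FT
  rw [F_eq hO (tub_mem h hx hζ) ⟨le_rfl, zero_le_one⟩, two_div_mul]

theorem FT_smooth (h : GT.Bla G k) (hO : OK G m ε) (hx : x ∈ L.US G) (hζ : ∀ i, Nul G x (ζ i))
    (t : ℝ) : ContDiffAt ℝ ∞ (FT G m ε) ((x, ζ), t) := by
  have h1 := F_smooth hO (tub_mem h hx hζ) (τ := 0) ⟨le_rfl, zero_le_one⟩ (2 / m * t)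
  have h2 : ContDiffAt ℝ ∞ (fun q : ((Euc N × Euc N) × (Fin m → Euc N)) × ℝ =>
      tub q.1.1 q.1.2) ((x, ζ), t) :=
    ContDiffAt.comp (g := fun q : (Euc N × Euc N) × (Fin m → Euc N) => tub q.1 q.2)
      (f := fun q : ((Euc N × Euc N) × (Fin m → Euc N)) × ℝ => q.1) ((x, ζ), t)
      (contDiffAt_tub hx fun i => (hζ i).2) contDiffAt_fst
  exact ContDiffAt.comp (g := fun q : (Euc N × (Fin m → Euc N)) × ℝ × ℝ => F G m ε q.1 q.2.1 q.2.2)
    (f := fun q : ((Euc N × Euc N) × (Fin m → Euc N)) × ℝ =>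
      (tub q.1.1 q.1.2, (0 : ℝ), 2 / m * q.2)) ((x, ζ), t) h1
    (h2.prodMk (contDiffAt_const.prodMk (by fun_prop)))

theorem lfam_FT (h : GT.Bla G k) (hO : OK G m ε) :
    AK.LFam G (L.US G) (PZ h m) (m * Real.pi) (fun x => x) (FT G m ε) 1 where
  rpos := one_pos
  smooth x hx ζ hζ _ t := FT_smooth h hO hx ((PZ_iff h hx).1 hζ).2 t
  mem x hx ζ hζ _ t := F_mem hO (tub_mem h hx ((PZ_iff h hx).1 hζ).2) ⟨le_rfl, zero_le_one⟩ _
  per x hx ζ hζ _ t := by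
    have hm := m_pos (m := m)
    unfold FT
    have e : 2 / (m : ℝ) * (t + m * Real.pi) = 2 / m * t + 2 * Real.pi := by field_simp
    rw [e, F_per]
  zero x hx t := by
    have h1 : ∀ i : Fin m, Nul G x ((0 : Fin m → Euc N) i) := fun i => Nul.zero
    rw [FT_eq h hO hx h1, tub_zero hx]
    have h2 := tub_mem h hx h1
    rw [tub_zero hx] at h2
    exact cc_diag hO.pos h2 fun _ => rfl

/-- **the linearisation of the family is `AZ`** -/
theorem lA_FT (h : GT.Bla G k) (hO : OK G m ε) (hx : x ∈ L.US G) (hζ : PZ h m x ζ = ζ) :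
    AK.lA (FT G m ε) x ζ = AZ G ε x ζ := by
  funext t
  obtain ⟨h0, h1⟩ := (PZ_iff h hx).1 hζ
  have hd : HasDerivAt (fun r : ℝ => FT G m ε ((x, r • ζ), t)) (AK.lA (FT G m ε) x ζ t) 0 := by
    have e1 : HasDerivAt (fun r : ℝ => (((x, r • ζ), t) : ((Euc N × Euc N) × (Fin m → Euc N)) × ℝ))
        ((0, ζ), 0) 0 := by
      have e2 : HasDerivAt (fun r : ℝ => r • ζ) ζ 0 := by
        simpa using (hasDerivAt_id (0 : ℝ)).smul_const ζ
      exact ((hasDerivAt_const (0 : ℝ) x).prodMk e2).prodMk (hasDerivAt_const (0 : ℝ) t)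
    have e3 : HasFDerivAt (FT G m ε) (fderiv ℝ (FT G m ε) ((x, 0), t)) ((x, (0 : ℝ) • ζ), t) := by
      rw [zero_smul]
      exact ((FT_smooth h hO hx (ζ := (0 : Fin m → Euc N)) (fun i => Nul.zero) t).differentiableAt
        (by simp)).hasFDerivAt
    exact e3.comp_hasDerivAt (0 : ℝ) e1
  have h2 : (fun r : ℝ => FT G m ε ((x, r • ζ), t)) =
      fun r => F G m ε (tub x (r • ζ)) 0 (2 / m * t) := rfl
  rw [h2] at hd
  have h3 := hasDerivAt_F h hO hx h1 (idx m 0) h0 (2 / m * t)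
  rw [two_div_mul] at h3
  exact hd.unique h3

lemma hasDerivAt_AZ (h : GT.Bla G k) (hO : OK G m ε) (hx : x ∈ L.US G) (hζ : PZ h m x ζ = ζ)
    (t : ℝ) : HasDerivAt (AZ G ε x ζ) (AK.lA' (FT G m ε) x ζ t) t := by
  rw [← lA_FT h hO hx hζ]
  exact AK.hasDerivAt_lA ((FT_smooth h hO hx (ζ := (0 : Fin m → Euc N))
    (fun i => Nul.zero) t).of_le AK.three_le) ζ

/-! ### negativity -/

lemma EnT_FT (h : GT.Bla G k) (hO : OK G m ε) (hx : x ∈ L.US G) (hζ : ∀ i, Nul G x (ζ i)) :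
    AK.EnT (m * Real.pi) (fun t => FT G m ε ((x, ζ), t)) =
      2 / m * MS.En (F G m ε (tub x ζ) 0) := by
  have hm := m_pos (m := m)
  have h1 : (fun t => FT G m ε ((x, ζ), t)) = cc G ε (tub x ζ) 0 :=
    funext fun t => FT_eq h hO hx hζ t
  rw [En_F hO (tub_mem h hx hζ)]
  unfold AK.EnT
  rw [h1]
  field_simp
  ring

lemma norm_nv_sub {v a : Euc N} (hv : ‖v‖ = 1) (ha : ⟪v, a⟫ = 0) (h1 : ‖a‖ ≤ 1) :
    ‖a‖ ^ 2 / 4 ≤ ‖nv v a 1 - v‖ ^ 2 := by
  have h2 := norm_nv hv ha 1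
  have h3 := norm_add_smul_sq hv ha 1
  have h4 := norm_add_smul_pos hv ha 1
  set s := ‖v + (1 : ℝ) • a‖ with hs
  have h5 : ⟪nv v a 1, v⟫ = s⁻¹ := by
    unfold nv
    rw [← hs, inner_smul_left, inner_add_left, real_inner_self_eq_norm_sq, hv, one_smul,
      real_inner_comm, ha]
    simp
  have h6 : ‖nv v a 1 - v‖ ^ 2 = 2 - 2 * s⁻¹ := by
    rw [norm_sub_sq_real, h2, hv, h5]; ring
  rw [h6]
  have h7 : ‖a‖ ^ 2 = s ^ 2 - 1 := by rw [h3]; ring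
  have h8 : ‖a‖ ^ 2 ≤ 1 := by
    have := norm_nonneg a
    nlinarith
  have h9 : 1 ≤ s := by
    by_contra hcon
    push Not at hcon
    have : 0 ≤ ‖a‖ ^ 2 := sq_nonneg _
    nlinarith
  have h10 : s ≤ 2 := by nlinarith
  rw [h7]
  have h11 : s * s⁻¹ = 1 := mul_inv_cancel₀ h4.ne'
  have h12 : 0 < s⁻¹ := inv_pos.2 h4
  have h13 : s * (s ^ 2 - 1) ≤ 8 * (s - 1) := by nlinarith
  have h14 : 2 - 2 * s⁻¹ - (s ^ 2 - 1) / 4 = s⁻¹ * (8 * (s - 1) - s * (s ^ 2 - 1)) / 4 := by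
    have : (2 : ℝ) = 2 * (s * s⁻¹) := by rw [h11]; ring
    field_simp
    ring
  have h15 : 0 ≤ s⁻¹ * (8 * (s - 1) - s * (s ^ 2 - 1)) / 4 := by
    have : 0 ≤ 8 * (s - 1) - s * (s ^ 2 - 1) := by linarith
    positivity
  linarith

/-- **the index form is negative on the linearised rounded chains** -/
theorem exists_neg (hS : IsCompact S) (h : GT.Bla G k) (m : ℕ) [NeZero m] (hm : Even m) :
    ∃ ε₀ : ℝ, 0 < ε₀ ∧ ∀ ε, 0 < ε → ε ≤ ε₀ → OK G m ε ∧ ∃ δ : ℝ, 0 < δ ∧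
      ∀ x ∈ L.US G, ∀ ζ : Fin m → Euc N, PZ h m x ζ = ζ →
        SV.ix G x 0 (m * Real.pi) (AK.lA (FT G m ε) x ζ) (AK.lA' (FT G m ε) x ζ)
          (AK.lA (FT G m ε) x ζ) (AK.lA' (FT G m ε) x ζ) ≤ -δ * ‖ζ‖ ^ 2 := by
  obtain ⟨ε₀, h1, h2⟩ := exists_En_lt hS G h m hm
  refine ⟨ε₀, h1, fun ε hε hε' => ?_⟩
  obtain ⟨hO, c, hc, h3⟩ := h2 ε hε hε'
  have hm0 := m_pos (m := m)
  set δ₀ : ℝ := 2 / m * (c / 4) with hδ₀
  have hδ₀p : 0 < δ₀ := by positivity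
  refine ⟨hO, δ₀, hδ₀p, ?_⟩
  obtain ⟨r', hr', hrr', hb⟩ := AK.energy_near (LB.isCompact_US hS) (T := m * Real.pi)
    (by positivity) (fun x hx => hx.1) (lfam_FT h hO) (η := δ₀ / 2) (by positivity)
  intro x hx ζ hζ
  by_cases hζ0 : ζ = 0
  · subst hζ0
    have e1 : AK.lA (FT G m ε) x (0 : Fin m → Euc N) = (0 : ℝ) • (0 : ℝ → Euc N) := by
      funext t
      unfold AK.lA
      have : (((0, 0), 0) : ((Euc N × Euc N) × (Fin m → Euc N)) × ℝ) = 0 := rfl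
      rw [this, map_zero]
      simp
    have e2 : AK.lA' (FT G m ε) x (0 : Fin m → Euc N) = (0 : ℝ) • (0 : ℝ → Euc N) := by
      funext t
      unfold AK.lA'
      have : (((0, 0), 0) : ((Euc N × Euc N) × (Fin m → Euc N)) × ℝ) = 0 := rfl
      rw [this, map_zero]
      simp
    rw [e1, e2, SV.ix_smul_left]
    simp
  -- scale
  have hn : 0 < ‖ζ‖ := norm_pos_iff.2 hζ0
  set s : ℝ := min r' 1 / (2 * ‖ζ‖) with hs
  have hs0 : 0 < s := by positivity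
  set ξ : Fin m → Euc N := s • ζ with hξ
  have hξP : PZ h m x ξ = ξ := by rw [hξ, map_smul, hζ]
  have hξn : ‖ξ‖ = min r' 1 / 2 := by
    rw [hξ, norm_smul, Real.norm_eq_abs, abs_of_pos hs0, hs]
    field_simp
  have hξr : ‖ξ‖ < r' := by
    rw [hξn]
    have := min_le_left r' 1
    have : 0 < min r' 1 := lt_min hr' one_pos
    linarith
  have hξ1 : ‖ξ‖ ≤ 1 := by
    rw [hξn]
    have := min_le_right r' 1
    linarith
  obtain ⟨hξ0, hξN⟩ := (PZ_iff h hx).1 hξP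
  -- energy
  have hE : AK.EnT (m * Real.pi) (fun t => FT G m ε ((x, ξ), t)) ≤
      m * Real.pi / 2 - δ₀ * ‖ξ‖ ^ 2 := by
    rw [EnT_FT h hO hx hξN]
    obtain ⟨i, hi⟩ : ∃ i, ‖ξ i‖ = ‖ξ‖ := by
      have h4 : (Finset.univ : Finset (Fin m)).Nonempty := ⟨idx m 0, Finset.mem_univ _⟩
      obtain ⟨i, -, hi⟩ := Finset.exists_max_image Finset.univ (fun i => ‖ξ i‖) h4
      refine ⟨i, le_antisymm (norm_le_pi_norm ξ i) ?_⟩
      exact (pi_norm_le_iff_of_nonneg (norm_nonneg _)).2 fun j => hi j (Finset.mem_univ j)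
    have h4 := h3 (tub x ξ) (tub_mem h hx hξN) i
    have h5 : (tub x ξ).2 i - (tub x ξ).2 (idx m 0) = nv x.2 (ξ i) 1 - x.2 := by
      unfold tub
      simp only
      rw [hξ0, nv_zero_right hx.2]
    rw [h5] at h4
    have h6 := norm_nv_sub hx.2 (hξN i).2 (by rw [hi]; exact hξ1)
    rw [hi] at h6
    have h7 : MS.En (F G m ε (tub x ξ) 0) ≤ (m : ℝ) ^ 2 * Real.pi / 4 - c * (‖ξ‖ ^ 2 / 4) := by
      have := mul_le_mul_of_nonneg_left h6 hc.le
      linarith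
    calc 2 / (m : ℝ) * MS.En (F G m ε (tub x ξ) 0) ≤
        2 / m * ((m : ℝ) ^ 2 * Real.pi / 4 - c * (‖ξ‖ ^ 2 / 4)) := by gcongr
      _ = m * Real.pi / 2 - δ₀ * ‖ξ‖ ^ 2 := by
        rw [hδ₀]
        field_simp
        ring
  have hg : (1 / 2 : ℝ) * (∫ t in (0:ℝ)..(m * Real.pi), ‖(fl G (x, t)).2‖ ^ 2) =
      m * Real.pi / 2 := by
    have : ∀ t, ‖(fl G (x, t)).2‖ ^ 2 = 1 := fun t => by rw [norm_fl G hx.1, hx.2]; norm_num
    simp_rw [this]
    rw [intervalIntegral.integral_const, smul_eq_mul]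
    ring
  have h8 := (abs_le.1 (hb x hx ξ hξP hξr)).1
  rw [hg] at h8
  have h9 : SV.ix G x 0 (m * Real.pi) (AK.lA (FT G m ε) x ξ) (AK.lA' (FT G m ε) x ξ)
      (AK.lA (FT G m ε) x ξ) (AK.lA' (FT G m ε) x ξ) ≤ -δ₀ * ‖ξ‖ ^ 2 := by
    linarith
  have e1 : AK.lA (FT G m ε) x ξ = s • AK.lA (FT G m ε) x ζ := by
    funext t
    unfold AK.lA
    have : (((0, ξ), 0) : ((Euc N × Euc N) × (Fin m → Euc N)) × ℝ) = s • ((0, ζ), 0) := by
      simp [hξ]
    rw [this, map_smul]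
    rfl
  have e2 : AK.lA' (FT G m ε) x ξ = s • AK.lA' (FT G m ε) x ζ := by
    funext t
    unfold AK.lA'
    have : (((0, ξ), 0) : ((Euc N × Euc N) × (Fin m → Euc N)) × ℝ) = s • ((0, ζ), 0) := by
      simp [hξ]
    rw [this, map_smul]
    rfl
  rw [e1, e2, SV.ix_smul_left, SV.ix_smul_right] at h9
  have h10 : ‖ξ‖ ^ 2 = s ^ 2 * ‖ζ‖ ^ 2 := by
    rw [hξ, norm_smul, mul_pow, Real.norm_eq_abs, sq_abs]
  rw [h10] at h9
  have h11 : 0 < s ^ 2 := by positivity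
  nlinarith [h9, h11]

end Crest.Agent.R208.KG
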