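import Crest.Agent.R208.RR6
import Crest.Agent.R208.SO2
import Crest.Agent.R208.CM3d

/-! Row 208, block RR (helper545), part KP1: **the CM half** of the family (any even `k`):
contraction data with a flip, basic forms, the structure `RR.Pre`. -/

set_option autoImplicit false
set_option linter.unusedSectionVars false
set_option linter.unusedVariables false

open MeasureTheory Set Filter Topology Module
open scoped ContDiff
open Crest.Agent.R208.F Crest.Agent.R208.FI Crest.Agent.R208.CW Crest.Agent.R208.T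
open Crest.Agent.R208.RR

noncomputable section

namespace Crest.Agent.R208.KP


variable {E : Type} [NormedAddCommGroup E] [NormedSpace ℝ E] [FiniteDimensional ℝ E]
  {F' : Type} [NormedAddCommGroup F'] [NormedSpace ℝ F'] [FiniteDimensional ℝ F']
  {Z : Set E} {S : Set F'} {φ : ℝ → E → E} {p : E → F'} {A B : E × ℝ → F'} {f : E → E}
  {ξ : F' → Ext F'} {θ W β μ : E → Ext E} {m d : ℕ}

/-- a contraction: smooth family starting at the foot point, with orbit-constant end -/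
structure Ctr (Z : Set E) (S : Set F') (φ : ℝ → E → E) (p : E → F') (A : E × ℝ → F') : Prop where
  smap : SMap (Cyl Z) S A
  zero : ∀ x ∈ Z, A (x, 0) = p x
  one : ∀ x ∈ Z, ∀ t, A (φ t x, 1) = A (x, 1)

/-- an equivariant involution over the foot point -/
structure Flp (Z : Set E) (φ : ℝ → E → E) (p : E → F') (f : E → E) : Prop where
  smap : SMap Z Z f
  act : ∀ x ∈ Z, ∀ t, f (φ t x) = φ t (f x)
  foot : ∀ x ∈ Z, p (f x) = p x
  inv : ∀ x ∈ Z, f (f x) = x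

/-- basic closed even forms -/
structure Bas (Z : Set E) (φ : ℝ → E → E) (W : E → Ext E) : Prop where
  sm : Sm Z W
  cl : Cl Z W
  ev : Ev Z W
  hz : Hz Z (CM.gen φ) W
  inv : Inv Z φ W

/-- connection forms -/
structure Thd (Z : Set E) (φ : ℝ → E → E) (θ : E → Ext E) : Prop where
  sm : Sm Z θ
  one : ∀ x ∈ Z, Rs Z x (ii (CM.gen φ x) (θ x)) = 1
  hz : Hz Z (CM.gen φ) (F.d θ)

/-- `(x, s) ↦ (f x, s)` -/
def ff (f : E → E) (y : E × ℝ) : E × ℝ := (f y.1, y.2)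

theorem smap_ff (hf : SMap Z Z f) : SMap (Cyl Z) (Cyl Z) (ff f) :=
  ⟨fun y hy => ((hf.1 _ (mem_Cyl.1 hy)).comp y contDiffAt_fst).prodMk contDiffAt_snd,
    fun y hy => mem_Cyl.2 (hf.2 (mem_Cyl.1 hy))⟩

theorem Ctr.flip (hA : Ctr Z S φ p A) (hf : Flp Z φ p f) : Ctr Z S φ p (fun y => A (ff f y)) where
  smap := hA.smap.comp (smap_ff hf.smap)
  zero := fun x hx => (hA.zero _ (hf.smap.2 hx)).trans (hf.foot x hx)
  one := fun x hx t => by
    change A (f (φ t x), 1) = A (f x, 1)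
    rw [hf.act x hx t]
    exact hA.one _ (hf.smap.2 hx) t

/-- maps constant on the orbits -/
theorem fderiv_gen_zero (hφ : CM.Cir Z φ) {g : E → F'} (hg : SMap Z S g)
    (hc : ∀ x ∈ Z, ∀ t, g (φ t x) = g x) {x : E} (hx : x ∈ Z) : fderiv ℝ g x (CM.gen φ x) = 0 := by
  have h1 := hφ.hasDerivAt hx 0
  have h2 : HasFDerivAt g (fderiv ℝ g (φ 0 x)) (φ 0 x) :=
    ((hg.1 _ (hφ.maps 0 hx)).differentiableAt (by simp)).hasFDerivAt
  have h3 : HasDerivAt (fun s => g (φ s x)) (fderiv ℝ g (φ 0 x) (CM.gen φ (φ 0 x))) 0 :=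
    h2.comp_hasDerivAt 0 h1
  have h4 : (fun s => g (φ s x)) = fun _ => g x := funext fun s => hc x hx s
  rw [h4] at h3
  have h5 := h3.unique (hasDerivAt_const 0 (g x))
  rwa [hφ.zero x hx] at h5

theorem hz_pull (hφ : CM.Cir Z φ) {g : E → F'} (hg : SMap Z S g)
    (hc : ∀ x ∈ Z, ∀ t, g (φ t x) = g x) (w : F' → Ext F') : Hz Z (CM.gen φ) (F.pull g w) := by
  intro x hx
  have e : ((fderiv ℝ g x : E →L[ℝ] F') : E →ₗ[ℝ] F') (CM.gen φ x) = 0 :=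
    fderiv_gen_zero hφ hg hc hx
  rw [F.pull, ii_pb, e, map_zero, LinearMap.zero_apply, map_zero, map_zero]

theorem inv_pull (hφ : CM.Cir Z φ) {g : E → F'} (hg : SMap Z S g)
    (hc : ∀ x ∈ Z, ∀ t, g (φ t x) = g x) (w : F' → Ext F') : Inv Z φ (F.pull g w) := fun t =>
  eqv_pull_pull (⟨fun x hx => hφ.smooth_right t hx, hφ.maps t⟩ : SMap Z Z (φ t)) hg hg
    (fun x hx => hc x hx t) w

/-- basic forms from the quotient -/
theorem Bas.pull (hφ : CM.Cir Z φ) {g : E → F'} (hg : SMap Z S g)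
    (hc : ∀ x ∈ Z, ∀ t, g (φ t x) = g x) {w : F' → Ext F'} (sw : Sm S w) (cw : Cl S w)
    (ew : Ev S w) : Bas Z φ (F.pull g w) :=
  ⟨sw.pull hg, Cl.pull hg sw cw, Ev.pull hg ew, hz_pull hφ hg hc w, inv_pull hφ hg hc w⟩

theorem ev_of_hom {S : Set F'} {w : F' → Ext F'} {k : ℕ} (h : Hom k w) (hk : Even k) : Ev S w :=
  Eqv.of_eq fun x _ => SO.inv_of_hom_even h hk x

theorem Thd.of (hφ : CM.Cir Z φ) (ha : CM.Conn Z φ θ) {q : E → F'} (hq : SMap Z S q)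
    (hc : ∀ x ∈ Z, ∀ t, q (φ t x) = q x) {Fc : F' → Ext F'}
    (hF : Eqv Z (F.d θ) (F.pull q Fc)) : Thd Z φ θ :=
  ⟨ha.sm, fun x hx => by rw [ha.unit x hx, map_one],
    Hz.eqv (fun x hx => hφ.gen_mem hx) hF (hz_pull hφ hq hc Fc)⟩

/-- slices -/
theorem sl_pull (hA : SMap (Cyl Z) S A) (s : ℝ) (w : F' → Ext F') :
    Eqv Z (F.pull (sl s) (F.pull A w)) (F.pull (fun x => A (x, s)) w) :=
  eqv_pull_pull (smap_sl s) hA (hA.comp (smap_sl s)) (fun _ _ => rfl) w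

theorem Ctr.smap_one (hA : Ctr Z S φ p A) (s : ℝ) : SMap Z S (fun x => A (x, s)) :=
  hA.smap.comp (smap_sl s)

theorem Ctr.sl_zero (hA : Ctr Z S φ p A) (hp : SMap Z S p) (w : F' → Ext F') :
    Eqv Z (F.pull (sl 0) (F.pull A w)) (F.pull p w) :=
  (sl_pull hA.smap 0 w).trans (eqv_pull_of_eq w
    (fun x hx => ((hA.smap_one 0).1 x hx).differentiableAt (by simp))
    (fun x hx => (hp.1 x hx).differentiableAt (by simp)) hA.zero)

/-- the forms `h = W`, constant in `s` -/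
theorem sl_fst (s : ℝ) (sW : Sm Z W) : Eqv Z (F.pull (sl s) (F.pull Prod.fst W)) W :=
  Eqv.of_eq fun x hx => pull_sl_fst s W sW hx

theorem Inv.eqv' (hφ : CM.Cir Z φ) {a b : E → Ext E} (h : Eqv Z a b) (hb : Inv Z φ b) :
    Inv Z φ a := fun t =>
  (Eqv.pull (⟨fun x hx => hφ.smooth_right t hx, hφ.maps t⟩ : SMap Z Z (φ t)) h).trans
    ((hb t).trans h.symm)

/-- **(2a)** the input structure `Pre` -/
theorem pre (hφ : CM.Cir Z φ) (hp : SMap Z S p) (hA : Ctr Z S φ p A) (hB : Ctr Z S φ p B)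
    (sξ : Sm S ξ) (cξ : Cl S ξ) (eξ : Ev S ξ) (x0 : Eqv S (ξ ^ (m + 1)) 0) (hW : Bas Z φ W)
    (hθ : Thd Z φ θ) :
    Pre Z φ m (F.pull A ξ) (F.pull B ξ) (F.pull Prod.fst W) θ where
  cir := hφ
  sa := sξ.pull hA.smap
  sb := sξ.pull hB.smap
  sh := hW.sm.pull smap_fst
  sθ := hθ.sm
  ca := Cl.pull hA.smap sξ cξ
  cb := Cl.pull hB.smap sξ cξ
  ch := Cl.pull smap_fst hW.sm hW.cl
  ea := Ev.pull hA.smap eξ
  eb := Ev.pull hB.smap eξ
  eh := Ev.pull smap_fst hW.ev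
  a0 := by
    have := Eqv.pull hA.smap x0
    rwa [pull_zero', RR.pull_pow'] at this
  b0 := by
    have := Eqv.pull hB.smap x0
    rwa [pull_zero', RR.pull_pow'] at this
  h00 := (hA.sl_zero hp ξ).trans (hB.sl_zero hp ξ).symm
  a1 := Hz.eqv (fun x hx => hφ.gen_mem hx) (sl_pull hA.smap 1 ξ)
    (hz_pull hφ (hA.smap_one 1) hA.one ξ)
  b1 := Hz.eqv (fun x hx => hφ.gen_mem hx) (sl_pull hB.smap 1 ξ)
    (hz_pull hφ (hB.smap_one 1) hB.one ξ)
  h1 := Hz.eqv (fun x hx => hφ.gen_mem hx) (sl_fst 1 hW.sm) hW.hz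
  ia := Inv.eqv' hφ (sl_pull hA.smap 1 ξ) (inv_pull hφ (hA.smap_one 1) hA.one ξ)
  ib := Inv.eqv' hφ (sl_pull hB.smap 1 ξ) (inv_pull hφ (hB.smap_one 1) hB.one ξ)
  ih := Inv.eqv' hφ (sl_fst 1 hW.sm) hW.inv
  θ1 := hθ.one
  dθ := hθ.hz

/-! ### (2b) horizontal primitives -/

/-- the orbit average of a primitive has constant vertical part -/
theorem exists_const_prim (hφ : CM.Cir Z φ) (hZ : Sub d Z) (hZc : IsPreconnected Z)
    (hβ : Hz Z (CM.gen φ) β) (sμ : Sm Z μ) (dμ : Hom 1 μ) (h : Eqv Z β (F.d μ)) :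
    ∃ (μ₁ : E → Ext E) (c : ℝ), Sm Z μ₁ ∧ Eqv Z β (F.d μ₁) ∧
      ∀ x ∈ Z, Rs Z x (ii (CM.gen φ x) (μ₁ x)) = algebraMap ℝ _ c := by
  have hV : ∀ x ∈ Z, CM.gen φ x ∈ Tan Z x := fun x hx => hφ.gen_mem hx
  have hdμ : Hz Z (CM.gen φ) (F.d μ) := Hz.eqv hV h.symm hβ
  obtain ⟨lam, slam, hlam⟩ := average hφ sμ hdμ
  have sW := Sm.Wp hφ sμ
  have cW : Cl Z (Wp φ μ) := by
    refine resZero_iff.2 ((d_Wp hφ sμ).trans ?_)
    have h4 := (Wp_zero_of_hz hφ sμ.d hdμ).neg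
    rwa [neg_zero] at h4
  obtain ⟨c₀, hc₀⟩ := const_of_closed hZ hZc sW cW (hom_Wp dμ)
  have hπ : (2 * Real.pi) ≠ 0 := by positivity
  refine ⟨μ + F.d lam, c₀ / (2 * Real.pi), sμ.add slam.d, ?_, fun x hx => ?_⟩
  · refine h.trans (Eqv.symm ?_)
    refine (d_add_eqv sμ slam.d).trans ?_
    have h1 := (Eqv.refl (X := Z) (F.d μ)).add (resZero_iff.1 (d_d' slam))
    rwa [add_zero] at h1
  · have h1 := hlam x hx
    rw [hc₀ x hx, Rs, AlgHom.commutes] at h1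
    have h2 : (2 * Real.pi) • Rs Z x (ii (CM.gen φ x) ((μ + F.d lam) x)) =
        (2 * Real.pi) • algebraMap ℝ (Ext (Tan Z x)) (c₀ / (2 * Real.pi)) := by
      rw [Rs, h1, Algebra.algebraMap_eq_smul_one, Algebra.algebraMap_eq_smul_one, smul_smul,
        mul_div_cancel₀ _ hπ]
    exact smul_right_injective _ hπ h2

/-- the vertical part of the pull-back by an equivariant map -/
theorem ii_flip (hφ : CM.Cir Z φ) (hf : SMap Z Z f) (hact : ∀ x ∈ Z, ∀ t, f (φ t x) = φ t (f x))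
    {c : ℝ} (h : ∀ x ∈ Z, Rs Z x (ii (CM.gen φ x) (μ x)) = algebraMap ℝ _ c) {x : E}
    (hx : x ∈ Z) : Rs Z x (ii (CM.gen φ x) (F.pull f μ x)) = algebraMap ℝ _ c := by
  have h1 : fderiv ℝ f x (CM.gen φ x) = CM.gen φ (f x) := by
    have a1 := hφ.hasDerivAt hx 0
    have a2 : HasFDerivAt f (fderiv ℝ f (φ 0 x)) (φ 0 x) :=
      ((hf.1 _ (hφ.maps 0 hx)).differentiableAt (by simp)).hasFDerivAt
    have a3 : HasDerivAt (fun s => f (φ s x)) (fderiv ℝ f (φ 0 x) (CM.gen φ (φ 0 x))) 0 :=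
      a2.comp_hasDerivAt 0 a1
    have a4 : (fun s => f (φ s x)) = fun s => φ s (f x) := funext fun s => hact x hx s
    rw [a4] at a3
    have a5 := a3.unique (hφ.hasDerivAt (hf.2 hx) 0)
    rwa [hφ.zero x hx, hφ.zero _ (hf.2 hx)] at a5
  have hdf : DifferentiableAt ℝ f x := (hf.1 x hx).differentiableAt (by simp)
  have h2 : Rs Z x (pb ((fderiv ℝ f x : E →L[ℝ] E) : E →ₗ[ℝ] E)
      (ii (CM.gen φ (f x)) (μ (f x)) - algebraMap ℝ _ c)) = 0 := by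
    refine pb_pull_eq_zero hdf hf.2 ?_
    rw [map_sub, AlgHom.commutes]
    have := h _ (hf.2 hx)
    rw [Rs] at this
    rw [this, sub_self]
  rw [map_sub, map_sub, sub_eq_zero, AlgHom.commutes, Rs, AlgHom.commutes] at h2
  rw [F.pull, ii_pb]
  have h3 : ((fderiv ℝ f x : E →L[ℝ] E) : E →ₗ[ℝ] E) (CM.gen φ x) = CM.gen φ (f x) := h1
  rw [h3]
  exact h2

/-- **(2b)** antisymmetric basic 2-forms have horizontal primitives -/
theorem exists_hor_prim (hφ : CM.Cir Z φ) (hf : Flp Z φ p f) (hZ : Sub d Z)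
    (hZc : IsPreconnected Z) (hβ : Hz Z (CM.gen φ) β) (hanti : Eqv Z (F.pull f β) (-β))
    (sμ : Sm Z μ) (dμ : Hom 1 μ) (h : Eqv Z β (F.d μ)) :
    ∃ μ' : E → Ext E, Sm Z μ' ∧ Hz Z (CM.gen φ) μ' ∧ Eqv Z β (F.d μ') := by
  obtain ⟨μ₁, c, sμ₁, h1, h2⟩ := exists_const_prim hφ hZ hZc hβ sμ dμ h
  have sf : Sm Z (F.pull f μ₁) := sμ₁.pull hf.smap
  refine ⟨(2 : ℝ)⁻¹ • (μ₁ - F.pull f μ₁), (sμ₁.sub sf).smul _, fun x hx => ?_, ?_⟩
  · rw [Pi.smul_apply, map_smul, map_smul, Pi.sub_apply, map_sub, map_sub, h2 x hx,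
      ii_flip hφ hf.smap hf.act h2 hx, sub_self, smul_zero]
  · refine Eqv.symm ((d_smul_eqv _ (sμ₁.sub sf)).trans ?_)
    have h3 : Eqv Z (F.d (μ₁ - F.pull f μ₁)) (β - -β) :=
      (d_sub_eqv sμ₁ sf).trans (h1.symm.sub ((d_pull_eqv hf.smap sμ₁).trans
        ((Eqv.pull hf.smap h1.symm).trans hanti)))
    have h4 := h3.smul (2 : ℝ)⁻¹
    have h5 : (2 : ℝ)⁻¹ • (β - -β) = β := by
      rw [sub_neg_eq_add, ← two_smul ℝ β, smul_smul, inv_mul_cancel₀ two_ne_zero, one_smul]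
    rwa [h5] at h4

end Crest.Agent.R208.KP
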