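import Crest.Agent.R208.KP1
import Crest.Agent.R208.CG1

/-! Row 208, block RR (helper545), part KP2: antisymmetry under the flip and the existence of the
family for `k = 4`. -/

set_option autoImplicit false
set_option linter.unusedSectionVars false
set_option linter.unusedVariables false

open MeasureTheory Set Filter Topology Module
open scoped ContDiff
open Crest.Agent.R208.F Crest.Agent.R208.FI Crest.Agent.R208.CW Crest.Agent.R208.T
open Crest.Agent.R208.RR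

noncomputable section

namespace Crest.Agent.R208.KP

variable {E : Type} [NormedAddCommGroup E] [NormedSpace ℝ E] [FiniteDimensional ℝ E]
  {F' : Type} [NormedAddCommGroup F'] [NormedSpace ℝ F'] [FiniteDimensional ℝ F']
  {Z : Set E} {S : Set F'} {φ : ℝ → E → E} {p : E → F'} {A B : E × ℝ → F'} {f : E → E}
  {ξ : F' → Ext F'} {θ W β μ κ : E → Ext E} {m d : ℕ}

theorem smap_Fl (hφ : CM.Cir Z φ) : SMap (Cyl Z) Z (Fl φ) :=
  ⟨fun y hy => contDiffAt_Fl hφ (mem_Cyl.1 hy) y.2, fun y hy => Fl_mem hφ (mem_Cyl.1 hy) y.2⟩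

/-- naturality of the orbit integral -/
theorem wp_flip (hφ : CM.Cir Z φ) (hf : SMap Z Z f) (hact : ∀ x ∈ Z, ∀ t, f (φ t x) = φ t (f x))
    (sκ : Sm Z κ) : Eqv Z (F.pull f (Wp φ κ)) (Wp φ (F.pull f κ)) := by
  have hF := smap_Fl hφ
  have hff := smap_ff hf
  have h1 : Eqv Z (F.pull f (Wp φ κ)) (K (E := E) (F.pull (ff f) (F.pull (Fl φ) κ))) :=
    Eqv.of_eq fun x hx => CG.pull_K (v := F.pull (Fl φ) κ)
      ((hf.1 x hx).differentiableAt (by simp)) (sκ.pull hF) (hf.2 hx)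
  have h2 : Eqv (Cyl Z) (F.pull (ff f) (F.pull (Fl φ) κ)) (F.pull (Fl φ) (F.pull f κ)) := by
    have e1 := eqv_pull_pull hff hF (hF.comp hff) (fun _ _ => rfl) κ
    have e2 := eqv_pull_pull hF hf (hF.comp hff) (fun y hy => by
      change f (φ (2 * Real.pi * y.2) y.1) = φ (2 * Real.pi * y.2) (f y.1)
      exact hact _ (mem_Cyl.1 hy) _) κ
    exact e1.trans e2.symm
  exact h1.trans (K_eqv ((sκ.pull hF).pull hff) ((sκ.pull hf).pull hF) h2)

/-- naturality of the fibre integral -/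
theorem k_flip (hf : SMap Z Z f) {w : E × ℝ → Ext (E × ℝ)} (sw : Sm (Cyl Z) w) :
    Eqv Z (F.pull f (K (E := E) w)) (K (E := E) (F.pull (ff f) w)) :=
  Eqv.of_eq fun x hx => CG.pull_K (v := w) ((hf.1 x hx).differentiableAt (by simp)) sw (hf.2 hx)

/-- **antisymmetry** of the orbit integral of the difference -/
theorem anti (hφ : CM.Cir Z φ) (hA : Ctr Z S φ p A) (hf : Flp Z φ p f) (sξ : Sm S ξ) :
    Eqv Z (F.pull f (Wp φ (K (E := E) (F.pull A ξ - F.pull (fun y => A (ff f y)) ξ))))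
      (-(Wp φ (K (E := E) (F.pull A ξ - F.pull (fun y => A (ff f y)) ξ)))) := by
  set a := F.pull A ξ with ha
  set b := F.pull (fun y => A (ff f y)) ξ with hb
  have hB := hA.flip hf
  have hff := smap_ff hf.smap
  have sa : Sm (Cyl Z) a := sξ.pull hA.smap
  have sb : Sm (Cyl Z) b := sξ.pull hB.smap
  have h1 : Eqv (Cyl Z) (F.pull (ff f) a) b :=
    eqv_pull_pull hff hA.smap hB.smap (fun _ _ => rfl) ξ
  have h2 : Eqv (Cyl Z) (F.pull (ff f) b) a :=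
    eqv_pull_pull hff hB.smap hA.smap (fun y hy => by
      change A (f (f y.1), y.2) = A y
      rw [hf.inv _ (mem_Cyl.1 hy)]) ξ
  have h3 : Eqv (Cyl Z) (F.pull (ff f) (a - b)) ((-1 : ℝ) • (a - b)) := by
    rw [pull_sub', neg_one_smul, neg_sub]
    exact h1.sub h2
  have sK := Sm.K (sa.sub sb)
  have h4 : Eqv Z (F.pull f (K (E := E) (a - b))) ((-1 : ℝ) • K (E := E) (a - b)) := by
    refine (k_flip hf.smap (sa.sub sb)).trans ?_
    rw [← K_smul]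
    exact K_eqv ((sa.sub sb).pull hff) ((sa.sub sb).smul _) h3
  refine (wp_flip hφ hf.smap hf.act sK).trans ?_
  refine (Wp_eqv hφ (sK.pull hf.smap) (sK.smul _) h4).trans ?_
  rw [Wp_smul, neg_one_smul]
  exact Eqv.refl _

theorem prim_hom {X : Set E} {b : E → Ext E} {i : ℕ} (h : Coh X b 0) (hd : Hom (i + 1) b) :
    ∃ ζ : E → Ext E, Sm X ζ ∧ Hom i ζ ∧ Eqv X b (F.d ζ) := by
  obtain ⟨ζ, sζ, eζ⟩ := h
  rw [sub_zero] at eζ
  refine ⟨T.dp i ζ, sζ.dp i, hom_dp i ζ, ?_⟩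
  have := eζ.dp (i + 1)
  rw [hd.dp_eq] at this
  exact this.trans (Eqv.of_eq fun y hy => dp_d i (sζ.diff hy))

/-- **(2b), (2d): existence of the family for `k = 4`** -/
theorem exists_fam_four (hφ : CM.Cir Z φ) (hZ : Sub d Z) (hZc : IsPreconnected Z)
    (hp : SMap Z S p) (hA : Ctr Z S φ p A) (hf : Flp Z φ p f) (sξ : Sm S ξ) (cξ : Cl S ξ)
    (dξ : Hom 4 ξ) (x0 : Eqv S (ξ ^ (m + 1)) 0) (hW : Bas Z φ W) (dW : Hom 2 W)
    (hWf : Eqv Z (F.pull f W) (-W)) (hθ : Thd Z φ θ)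
    (hn : ∀ β : E → Ext E, Sm Z β → Cl Z β → Hom 2 β → ∃ c : ℝ, Coh Z β (c • W)) :
    ∃ (c : ℝ) (η : E × ℝ → Ext (E × ℝ)),
      Fam Z (CM.gen φ) m (F.pull A ξ) (F.pull (fun y => A (ff f y)) ξ) (F.pull Prod.fst W) η
        (c • θ) c ∧
      Pre Z φ m (F.pull A ξ) (F.pull (fun y => A (ff f y)) ξ) (F.pull Prod.fst W) θ ∧
      Coh Z (Wp φ (K (E := E) (F.pull A ξ - F.pull (fun y => A (ff f y)) ξ)))
        ((2 * Real.pi * c) • W) := by
  have hB := hA.flip hf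
  have P := pre hφ hp hA hB sξ cξ (ev_of_hom dξ ⟨2, rfl⟩) x0 hW hθ
  set a := F.pull A ξ with ha
  set b := F.pull (fun y => A (ff f y)) ξ with hb
  have sβ : Sm Z (Wp φ (K (E := E) (a - b))) := P.sWK
  have cβ : Cl Z (Wp φ (K (E := E) (a - b))) := P.cl_Wp
  have da : Hom 4 a := Hom.pull dξ
  have db : Hom 4 b := Hom.pull dξ
  have dβ : Hom 2 (Wp φ (K (E := E) (a - b))) := hom_Wp (hom_K (p := 3) (da.sub db))
  obtain ⟨c₁, hc₁⟩ := hn _ sβ cβ dβ
  have hπ : (2 * Real.pi) ≠ 0 := by positivity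
  set c := c₁ / (2 * Real.pi) with hc
  have hcc : 2 * Real.pi * c = c₁ := mul_div_cancel₀ _ hπ
  have hV : ∀ x ∈ Z, CM.gen φ x ∈ Tan Z x := fun x hx => hφ.gen_mem hx
  set γ := Wp φ (K (E := E) (a - b)) - c₁ • W with hγ
  have hγ0 : Coh Z γ 0 := by
    obtain ⟨ζ, sζ, eζ⟩ := hc₁
    exact ⟨ζ, sζ, by rwa [sub_zero]⟩
  obtain ⟨μ, sμ, dμ, eμ⟩ := prim_hom (i := 1) hγ0 (dβ.sub (dW.smul _))
  have hγz : Hz Z (CM.gen φ) γ := (Wp_hz hφ (Sm.K (P.sa.sub P.sb))).sub (hW.hz.smul _)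
  have hanti : Eqv Z (F.pull f γ) (-γ) := by
    rw [hγ, pull_sub', pull_smul', neg_sub]
    have h1 := (anti hφ hA hf sξ).sub (hWf.smul c₁)
    rw [smul_neg, sub_neg_eq_add, neg_add_eq_sub] at h1
    exact h1
  obtain ⟨μ', sμ', zμ', eμ'⟩ := exists_hor_prim hφ hf hZ hZc hγz hanti sμ dμ eμ
  have sμ2 : Sm Z ((2 * Real.pi)⁻¹ • μ') := sμ'.smul _
  have e1 : Eqv Z (F.d ((2 * Real.pi)⁻¹ • μ')) ((2 * Real.pi)⁻¹ • γ) :=
    (d_smul_eqv _ sμ').trans (eμ'.symm.smul _)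
  obtain ⟨η, H⟩ := P.exists_fam (c := c) hZ sμ2 (zμ'.smul _) (by
    have h1 : Eqv Z ((2 * Real.pi) • (c • F.pull (sl 1) (F.pull Prod.fst W) +
        F.d ((2 * Real.pi)⁻¹ • μ'))) ((2 * Real.pi) • (c • W + (2 * Real.pi)⁻¹ • γ)) :=
      (((sl_fst 1 hW.sm).smul c).add e1).smul _
    refine Eqv.symm (h1.trans (Eqv.of_eq fun x _ => ?_))
    rw [smul_add, smul_smul, smul_smul, hcc, mul_inv_cancel₀ hπ, one_smul, hγ, add_sub_cancel])
  refine ⟨c, η, H, P, ?_⟩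
  rw [hcc]
  exact hc₁

end Crest.Agent.R208.KP
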