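import Crest.Agent.R208.KP3
import Crest.Agent.R208.ZH2

/-! Row 208, block RR (helper545), part KP4: **the CM half of `k = 4`**: the family, its constant
and the number, in the form of 385's `ZG.in4_final`. -/

set_option autoImplicit false
set_option linter.unusedSectionVars false
set_option linter.unusedVariables false

open MeasureTheory MeasureTheory.Measure Set Filter Topology Module Metric
open scoped ContDiff RealInnerProductSpace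
open Crest.GeometryTopology.Submanifold
open Crest.Agent.R241.DDefs
open Crest.Agent.R241.D Crest.Agent.R241.D2
open Crest.Agent.R208.F Crest.Agent.R208.FI Crest.Agent.R208.CW Crest.Agent.R208.T

noncomputable section

namespace Crest.Agent.R208.KP

open Crest.Agent.R208.RR (Cyl mem_Cyl smap_fst sl smap_sl Wp Fl Pre Fam Hz Inv Ev J_eqv J_smul'
  K_eqv K_smul Wp_eqv Wp_smul J_sub' J_add' hom_K hom_Wp)
open Crest.Agent.R208.NN (Wt nuP)
open Crest.Agent.R208.FL (Af D1)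
open Crest.Agent.R208.KC (flp)

/-- the number of the family -/
theorem J_Fam {n N k : ℕ} {κ : ℝ} {S : Set (Euc N)} {G : Geo n N κ S}
    {oS ξ : Euc N → Ext (Euc N)} {m d r : ℕ}
    {H : Type} [NormedAddCommGroup H] [NormedSpace ℝ H] [FiniteDimensional ℝ H]
    {Z : Set H} {τ : H → Euc N × Euc N} {oV : H → Ext H}
    {oU : Euc N × Euc N → Ext (Euc N × Euc N)} {φ : ℝ → H → H}
    {a b hh η : H × ℝ → Ext (H × ℝ)} {θ : H → Ext H} {c : ℝ}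
    (h : GT.Bla G k) (hk : 2 ≤ k) (hm : 1 ≤ m) (hn : n = k * m)
    (hd : d + 1 = 2 * n) (hoS : Ori n S oS) (sξ : Sm S ξ) (cξ : Cl S ξ) (dξ : Hom k ξ)
    (hX : Coh (GT.FF S) (KD.hF ξ m) 0) (A : Fam Z (CM.gen φ) m a b hh η θ c)
    (hφ : CM.Cir Z φ) (hc : c ≠ 0)
    (ia : Inv Z φ (F.pull (sl 1) a)) (ib : Inv Z φ (F.pull (sl 1) b))
    (ih : Inv Z φ (F.pull (sl 1) hh)) (h00 : Eqv Z (F.pull (sl 0) a) (F.pull (sl 0) b))
    (hτ : FG.OSubm r d Z (L.US G) τ oV oU)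
    (ha0 : Eqv Z (F.pull (sl 0) a) (F.pull τ (F.pull Prod.fst ξ)))
    {o : H → Ext H} (ho : Ori (r + d) Z o) (hZc : IsPreconnected Z)
    {u : Euc N × Euc N} (hu : u ∈ L.US G) :
    |J (r + d) Z o (θ * (F.d θ ^ (2 * m - 1) * F.pull (sl 1) hh ^ (2 * m + 1)))| =
      ((2 * m).choose m : ℝ) *
        (|J r (Z ∩ τ ⁻¹' {u}) oV (F.pull (sl 0) hh)| * (J n S oS (ξ ^ m)) ^ 2) := by
  rw [A.rr1 hτ.subm.cloZ ho hm, abs_mul, abs_mul, abs_pow, abs_neg, abs_one, one_pow, one_mul,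
    Nat.abs_cast, KD.D_value' h hk hm hn hd hoS sξ cξ dξ hX A hφ hc ia ib ih h00 hτ ha0 ho hZc hu]

section inst
variable {n N K m : ℕ} {κ : ℝ} {S : Set (Euc N)} {G : Geo n N κ S}
  {lg : Euc N → Euc N → Euc N} {ρ : Euc N → Euc N} {r C r' Kr B w δ : ℝ}
  {PN : Euc N × Euc N → Wt N K →L[ℝ] Wt N K} {ε E₀ η₀ : ℝ} {J₀ : ℕ}
  {ξ oS : Euc N → Ext (Euc N)} {W θ : (Euc N × Euc N) × Wt N K → Ext ((Euc N × Euc N) × Wt N K)}
  {oV : (Euc N × Euc N) × Wt N K → Ext ((Euc N × Euc N) × Wt N K)}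
  {oU : Euc N × Euc N → Ext (Euc N × Euc N)} {z : Euc N × Euc N} {τ₀ : ℝ}

set_option maxHeartbeats 1000000 in
/-- **the CM half of `k = 4`** -/
theorem four (h : D1 G 4 K lg ρ r C r' Kr B w δ PN ε J₀ E₀ η₀) (hm : 2 ≤ m) (hn : n = 4 * m)
    (hoS : Ori n S oS) (sξ : Sm S ξ) (cξ : Cl S ξ) (dξ : Hom 4 ξ)
    (hX : Coh (GT.FF S) (KD.hF ξ m) 0)
    (hW : Bas (T.Sph (L.US G) PN) (FL.Ph G K) W) (dW : Hom 2 W)
    (hWf : Eqv (T.Sph (L.US G) PN) (F.pull flp W) (-W))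
    (hθ : Thd (T.Sph (L.US G) PN) (FL.Ph G K) θ)
    (hH : ∀ β : (Euc N × Euc N) × Wt N K → Ext ((Euc N × Euc N) × Wt N K),
      Sm (T.Sph (L.US G) PN) β → Cl (T.Sph (L.US G) PN) β → Hom 2 β →
        ∃ c : ℝ, Coh (T.Sph (L.US G) PN) β (c • W))
    (hτ : FG.OSubm 2 (2 * n - 1) (T.Sph (L.US G) PN) (L.US G) Prod.fst oV oU)
    (hz : z ∈ L.US G) (h0 : 0 < τ₀)
    (hC : |J 2 (T.Sph (L.US G) PN ∩ Prod.fst ⁻¹' {z}) oV
      (Wp (FM.phiF h.bla PN) (F.pull Prod.fst (RR.K (E := Euc N × Euc N)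
        (F.pull (RRC.EE G) ξ))))| = 2 * τ₀)
    (hT : |J n S oS (ξ ^ m)| ≤ τ₀ ^ m) :
    ∃ (c : ℝ) (η : ((Euc N × Euc N) × Wt N K) × ℝ → Ext (((Euc N × Euc N) × Wt N K) × ℝ)),
      c ≠ 0 ∧
      Fam (T.Sph (L.US G) PN) (CM.gen (FL.Ph G K)) m (F.pull (Af G lg ρ w J₀ ε) ξ)
        (F.pull (fun y => Af G lg ρ w J₀ ε (ff flp y)) ξ) (F.pull Prod.fst W) η (c • θ) c ∧
      |Real.pi * c * J 2 (T.Sph (L.US G) PN ∩ Prod.fst ⁻¹' {z}) oV W| = τ₀ ∧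
      (∀ o, Ori (8 * m + 1) (T.Sph (L.US G) PN) o →
        |J (8 * m + 1) (T.Sph (L.US G) PN) o ((c • θ) * (F.d (c • θ) ^ (2 * m - 1) *
          F.pull (sl 1) (F.pull Prod.fst W) ^ (2 * m + 1)))| = ((2 * m).choose m : ℝ) *
          (|J 2 (T.Sph (L.US G) PN ∩ Prod.fst ⁻¹' {z}) oV W| * (J n S oS (ξ ^ m)) ^ 2)) ∧
      (J n S oS (ξ ^ m)) ^ 2 ≤
        (Real.pi * c * J 2 (T.Sph (L.US G) PN ∩ Prod.fst ⁻¹' {z}) oV W) ^ (2 * m) := by
  set Z := T.Sph (L.US G) PN with hZd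
  set ω₀ := J 2 (Z ∩ Prod.fst ⁻¹' {z}) oV W with hω
  have hkn : 4 < n := by omega
  have hφ := cir_Z h
  have hA := ctr_Z h
  have hf := flp_Z h
  have hB := h.bla.bl
  have hn2 : 2 ≤ n := by omega
  have hUc : IsCompact (L.US G) := (LB.clo_US (FV.sub_S hB) hB.cpt (d := 2 * n - 1)
    (by omega)).compact
  have hpf : PField (L.US G) (2 + 1) PN := ⟨h.neg.smooth, fun z _ v => h.neg.idem z v, h.neg.rank⟩
  have hZc : IsPreconnected Z := ZG.preconn_Sph hUc (FV.preconn_US hB hn2) hpf (by norm_num)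
  have hZ : Clo (2 + (2 * n - 1)) Z := hτ.subm.cloZ
  have x0 : Eqv S (ξ ^ (m + 1)) 0 := by
    refine eqv_iff.2 fun u hu => ?_
    have h1 : IsDeg (4 * (m + 1)) (pb (FI.Tan S u).subtype ((ξ ^ (m + 1)) u)) :=
      (KD.hom_pow' dξ (m + 1) u).pb _
    rw [h1.eq_zero (by rw [(FV.sub_S hB).finrank_Tan hu, hn]; omega), Pi.zero_apply, map_zero]
  obtain ⟨c, η, H, P, hcoh⟩ := exists_fam_four hφ hZ.sub hZc smap_ft hA hf sξ cξ dξ x0 hW dW hWf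
    hθ hH
  -- the fibre value
  have hcg := cg_Z h hkn sξ cξ
  have sWK := P.sWK
  have sE : Sm (Cyl (L.US G)) (F.pull (RRC.EE G) ξ) := sξ.pull RRC.smap_EE
  have hP1 : SMap Z (L.US G) (Prod.fst : (Euc N × Euc N) × Wt N K → Euc N × Euc N) :=
    ⟨fun q _ => contDiffAt_fst, fun q hq => hq.1.1⟩
  have sF : Sm Z (Wp (FM.phiF h.bla PN) (F.pull Prod.fst (RR.K (E := Euc N × Euc N)
      (F.pull (RRC.EE G) ξ)))) :=
    RR.Sm.Wp (FM.cir_phiF h.bla h.neg hkn) ((RR.Sm.K sE).pull hP1)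
  have v1 := J_fibre_coh hτ sWK (hW.sm.smul _) hcoh z
  have v2 := J_fibre_coh hτ sWK sF.neg hcg z
  have v3 : 2 * Real.pi * c * ω₀ = J 2 (Z ∩ Prod.fst ⁻¹' {z}) oV
      (-(Wp (FM.phiF h.bla PN) (F.pull Prod.fst (RR.K (E := Euc N × Euc N)
        (F.pull (RRC.EE G) ξ))))) := by
    rw [← v2, v1, J_smul']
  have v4 : |2 * Real.pi * c * ω₀| = 2 * τ₀ := by
    rw [v3, ← hC]
    have e : (-(Wp (FM.phiF h.bla PN) (F.pull Prod.fst (RR.K (E := Euc N × Euc N)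
        (F.pull (RRC.EE G) ξ))))) = (-1 : ℝ) • (Wp (FM.phiF h.bla PN) (F.pull Prod.fst
          (RR.K (E := Euc N × Euc N) (F.pull (RRC.EE G) ξ)))) := by rw [neg_one_smul]
    rw [e, J_smul', abs_mul, abs_neg, abs_one, one_mul]
  have v5 : |Real.pi * c * ω₀| = τ₀ := by
    have : |2 * Real.pi * c * ω₀| = 2 * |Real.pi * c * ω₀| := by
      rw [mul_assoc, mul_assoc, abs_mul, abs_two, ← mul_assoc]
    linarith
  have hc : c ≠ 0 := by
    rintro rfl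
    rw [mul_zero, zero_mul, abs_zero] at v5
    exact h0.ne v5
  refine ⟨c, η, hc, H, v5, fun o ho => ?_, ?_⟩
  · have hdim : 2 + (2 * n - 1) = 8 * m + 1 := by omega
    rw [← hdim] at ho ⊢
    have sl0 : Eqv Z (F.pull (sl 0) (F.pull Prod.fst W)) W := sl_fst 0 hW.sm
    have ha0 : Eqv Z (F.pull (sl 0) (F.pull (Af G lg ρ w J₀ ε) ξ))
        (F.pull Prod.fst (F.pull Prod.fst ξ)) := by
      refine (hA.sl_zero smap_ft ξ).trans (Eqv.symm ?_)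
      exact eqv_pull_pull hP1 KD.smap_fst_US smap_ft (fun _ _ => rfl) ξ
    rw [J_Fam h.bla (by norm_num) (by omega) hn (by omega) hoS sξ cξ dξ hX H hφ hc P.ia P.ib P.ih
      P.h00 hτ ha0 ho hZc hz]
    congr 2
    rw [hω]
    congr 1
    exact J_eqv (hτ.subm.clo_fibre z) (sl0.mono_tan inter_subset_left)
  · rw [pow_mul, ← sq_abs, ← sq_abs (Real.pi * c * ω₀), v5, ← pow_mul, mul_comm 2 m, pow_mul]
    exact pow_le_pow_left₀ (abs_nonneg _) hT 2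

end inst

end Crest.Agent.R208.KP
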