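import Crest.Agent.R208.KP4
import Crest.Agent.R208.HN2
import Crest.Agent.R208.TX10

/-! Row 208, block RR (helper545), part KP5: the form `W` and the connection on `Z = Sph (US G) PN`
pulled back from the quotient; the CM half of `k = 4` with all geometric hypotheses filled. -/

set_option autoImplicit false
set_option linter.unusedSectionVars false
set_option linter.unusedVariables false

open MeasureTheory MeasureTheory.Measure Set Filter Topology Module Metric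
open scoped ContDiff RealInnerProductSpace
open Crest.GeometryTopology.Submanifold
open Crest.Agent.R241.DDefs
open Crest.Agent.R241.D Crest.Agent.R241.D2
open Crest.Agent.R208.F Crest.Agent.R208.FI Crest.Agent.R208.CW Crest.Agent.R208.T

noncomputable section

namespace Crest.Agent.R208.KP

open Crest.Agent.R208.RR (Cyl mem_Cyl smap_fst sl smap_sl Wp Fl Pre Fam Hz Inv Ev J_eqv J_smul'
  K_eqv K_smul Wp_eqv Wp_smul J_sub' J_add' hom_K hom_Wp)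
open Crest.Agent.R208.NN (Wt nuP)
open Crest.Agent.R208.FL (Af D1)
open Crest.Agent.R208.KC (flp)
open Crest.Agent.R208.CM (Cir Rep Triv Emb Quo Qd MM jj Th phR Conn Curv gen)

/-! ### forms pulled back from the sphere bundle below -/

section q
variable {E E' H V : Type} [NormedAddCommGroup E] [NormedSpace ℝ E] [FiniteDimensional ℝ E]
  [NormedAddCommGroup E'] [NormedSpace ℝ E'] [FiniteDimensional ℝ E']
  [NormedAddCommGroup H] [InnerProductSpace ℝ H] [FiniteDimensional ℝ H]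
  [NormedAddCommGroup V] [InnerProductSpace ℝ V] [FiniteDimensional ℝ V]
  {X : Set E} {Y : Set E'} {φ : ℝ → E → E} {q : E → E'} {R : ℝ → H →L[ℝ] H}
  {Tv : E → H →L[ℝ] V} {P : E → H →L[ℝ] H} {P' : E' → V →L[ℝ] V} {r : ℕ}
  {W : E' × V → Ext (E' × V)}

theorem const_Th (hqa : ∀ x ∈ X, ∀ t, q (φ t x) = q x) (hT : Triv X φ R Tv) :
    ∀ z ∈ T.Sph X P, ∀ t, Th q Tv (phR φ R t z) = Th q Tv z := fun z hz t =>
  Prod.ext (hqa _ hz.1.1 t) (hT.equi _ hz.1.1 t z.2)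

/-- **basic forms from the sphere bundle below** -/
theorem bas_Th (hφ : Cir (T.Sph X P) (phR φ R)) (sq : SMap X Y q)
    (hqa : ∀ x ∈ X, ∀ t, q (φ t x) = q x) (hT : Triv X φ R Tv)
    (hd : ∀ x ∈ X, P' (q x) = Qd Tv P x) (sW : Sm (T.Sph Y P') W) (cW : Cl (T.Sph Y P') W)
    (eW : Ev (T.Sph Y P') W) : Bas (T.Sph X P) (phR φ R) (F.pull (Th q Tv) W) :=
  Bas.pull hφ (HN.smap_Th sq hT hd) (const_Th hqa hT) sW cW eW

/-- the fibrewise antipode downstairs and upstairs -/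
theorem flp_Th (sq : SMap X Y q) (hT : Triv X φ R Tv) (hd : ∀ x ∈ X, P' (q x) = Qd Tv P x)
    (hW : Eqv (T.Sph Y P') (F.pull (fun z : E' × V => (z.1, -z.2)) W) (-W)) :
    Eqv (T.Sph X P) (F.pull (fun z : E × H => (z.1, -z.2)) (F.pull (Th q Tv) W))
      (-(F.pull (Th q Tv) W)) := by
  have hs := HN.smap_Th sq hT hd
  have f1 : SMap (T.Sph X P) (T.Sph X P) (fun z : E × H => (z.1, -z.2)) :=
    ⟨fun z _ => contDiffAt_fst.prodMk contDiffAt_snd.neg, fun z hz => ⟨⟨hz.1.1, by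
      change P z.1 (-z.2) = -z.2
      rw [map_neg]; exact congrArg _ hz.1.2⟩, by
      change ‖-z.2‖ = 1
      rw [norm_neg]; exact hz.2⟩⟩
  have f2 : SMap (T.Sph Y P') (T.Sph Y P') (fun z : E' × V => (z.1, -z.2)) :=
    ⟨fun z _ => contDiffAt_fst.prodMk contDiffAt_snd.neg, fun z hz => ⟨⟨hz.1.1, by
      change P' z.1 (-z.2) = -z.2
      rw [map_neg]; exact congrArg _ hz.1.2⟩, by
      change ‖-z.2‖ = 1
      rw [norm_neg]; exact hz.2⟩⟩
  have e1 : Eqv (T.Sph X P) (F.pull (fun z : E × H => (z.1, -z.2)) (F.pull (Th q Tv) W))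
      (F.pull (fun z : E × H => Th q Tv (z.1, -z.2)) W) :=
    eqv_pull_pull f1 hs (hs.comp f1) (fun _ _ => rfl) W
  have e2 : Eqv (T.Sph X P) (F.pull (Th q Tv) (F.pull (fun z : E' × V => (z.1, -z.2)) W))
      (F.pull (fun z : E × H => Th q Tv (z.1, -z.2)) W) :=
    eqv_pull_pull hs f2 (hs.comp f1) (fun z _ => by
      change (q z.1, -(Tv z.1 z.2)) = (q z.1, Tv z.1 (-z.2))
      rw [map_neg]) W
  have e3 := hW.pull hs
  rw [pull_neg'] at e3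
  exact e1.trans (e2.symm.trans e3)

/-- **the fibre number** for any orientation of the fibre -/
theorem abs_fib (sq : SMap X Y q) (hT : Triv X φ R Tv) (hd : ∀ x ∈ X, P' (q x) = Qd Tv P x)
    (hP : PField X (r + 1) P) (hP' : PField Y (r + 1) P') (hr : 1 ≤ r)
    {x : E} (hx : x ∈ X) {o' : E' × V → Ext (E' × V)}
    (ho : Ori r (T.Sph Y P' ∩ (Prod.fst : E' × V → E') ⁻¹' {q x}) o') (sW : Sm (T.Sph Y P') W)
    {o : E × H → Ext (E × H)} (hoX : Ori r (T.Sph X P ∩ (Prod.fst : E × H → E) ⁻¹' {x}) o) :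
    |J r (T.Sph X P ∩ (Prod.fst : E × H → E) ⁻¹' {x}) o (F.pull (Th q Tv) W)| =
      |J r (T.Sph Y P' ∩ (Prod.fst : E' × V → E') ⁻¹' {q x}) o' W| := by
  obtain ⟨h1, h2⟩ := HN.J_fib_pull sq hT hd hP hP' hx ho sW
  rw [← h2]
  rcases J_ori_connected (HN.clo_fib hP hx) hoX h1 (ZG.preconn_fib_Sph hP hr hx) with e | e
  · rw [e]
  · rw [e, abs_neg]

end q

/-! ### the instance -/

section inst
variable {n N K m M : ℕ} {κ : ℝ} {S : Set (Euc N)} {G : Geo n N κ S}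
  {lg : Euc N → Euc N → Euc N} {ρ : Euc N → Euc N} {r C r' Kr B w δ : ℝ}
  {PN : Euc N × Euc N → Wt N K →L[ℝ] Wt N K} {ε E₀ η₀ : ℝ} {J₀ : ℕ}
  {ξ oS : Euc N → Ext (Euc N)} {p₀ : Euc N}
  {ι ι' : Type} [Fintype ι] [DecidableEq ι] [Fintype ι'] [DecidableEq ι'] [Nonempty ι']
  {W₀ : Euc N × Euc N → (ι × Fin 2 → Fin N) → ℝ}
  {p : Type} [Fintype p] [DecidableEq p]
  {g : Euc N × Euc N → Fin M → ℂ} {Tw : Euc N × Euc N → Wt N K →L[ℝ] EuclideanSpace ℝ p}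
  {P' : MM M → EuclideanSpace ℝ p →L[ℝ] EuclideanSpace ℝ p} {oP' : MM M → Ext (EuclideanSpace ℝ p)}
  {Fc : MM M → Ext (MM M)} {z : Euc N × Euc N} {τ₀ : ℝ}

/-- **the connection on `Z`** -/
theorem thd_Z (h : D1 G 4 K lg ρ r C r' Kr B w δ PN ε J₀ E₀ η₀)
    (hg : Emb (L.US G) (CM.gf G) g) (hF : Curv (L.US G) g (LB.al (N := N)) Fc)
    (hT : Triv (L.US G) (CM.gf G) (fun s => NN.Rt (nuP K) s) Tw)
    (hd : ∀ z ∈ L.US G, P' (jj g z) = Qd Tw PN z)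
    (hP' : PField (Quo (L.US G) g) 3 P') :
    CH.CB (2 + 2 * (n - 1)) (T.Sph (L.US G) PN) (FL.Ph G K) (T.Sph (Quo (L.US G) g) P')
      (Th (jj g) Tw) (F.pull Prod.fst (LB.al (N := N))) (F.pull Prod.fst Fc) ∧
    Thd (T.Sph (L.US G) PN) (FL.Ph G K) (F.pull Prod.fst (LB.al (N := N))) := by
  have hB := h.bla.bl
  have hc := UP.cb_sph (r := 2) (n := 2 * (n - 1)) (P := PN) hg (CM.cir_US hB h.bla.ty.per)
    (CM.clo_US' hB) FL.rep_Rt hT (UP.pfield_N h.neg) (fun x hx t w => h.neg.equi x hx t w) hP' hd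
    (CM.conn_al (FV.sub_S hB)) hF
  have hcn := UP.conn_tot (P := PN) (CM.cir_US hB h.bla.ty.per) FL.rep_Rt
    (fun x hx t w => h.neg.equi x hx t w) (CM.conn_al (FV.sub_S hB))
    (Z := T.Sph (L.US G) PN) (fun z hz => hz.1) (cir_Z h).maps
  exact ⟨hc, Thd.of (cir_Z h) hcn ⟨hc.subm.smooth, hc.subm.mapsTo⟩ hc.inv hc.curv⟩

set_option maxHeartbeats 1000000 in
/-- **the Z-side of `k = 4`**: the family, its constant and the number; `ω₀ = 2 tau ι'` -/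
theorem four_B (h : D1 G 4 K lg ρ r C r' Kr B w δ PN ε J₀ E₀ η₀)
    (D : T.XM h.bla m W₀ p₀ ξ) (hoS : Ori n S oS)
    (hg : Emb (L.US G) (CM.gf G) g) (hF : Curv (L.US G) g (LB.al (N := N)) Fc)
    (hT : Triv (L.US G) (CM.gf G) (fun s => NN.Rt (nuP K) s) Tw)
    (hd : ∀ z ∈ L.US G, P' (jj g z) = Qd Tw PN z)
    (ob : SB.OddB ι' (Quo (L.US G) g) 2 P' oP') (hz : z ∈ L.US G) (h0 : 0 < τ₀)
    (hC : ∀ oV, Ori 2 (T.Sph (L.US G) PN ∩ Prod.fst ⁻¹' {z}) oV →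
      |J 2 (T.Sph (L.US G) PN ∩ Prod.fst ⁻¹' {z}) oV
        (Wp (FM.phiF h.bla PN) (F.pull Prod.fst (RR.K (E := Euc N × Euc N)
          (F.pull (RRC.EE G) ξ))))| = 2 * τ₀)
    (hTm : |J n S oS (ξ ^ m)| ≤ τ₀ ^ m) :
    ∃ (c : ℝ) (η : ((Euc N × Euc N) × Wt N K) × ℝ → Ext (((Euc N × Euc N) × Wt N K) × ℝ)),
      c ≠ 0 ∧
      Fam (T.Sph (L.US G) PN) (CM.gen (FL.Ph G K)) m (F.pull (Af G lg ρ w J₀ ε) ξ)
        (F.pull (fun y => Af G lg ρ w J₀ ε (ff flp y)) ξ)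
        (F.pull Prod.fst (F.pull (Th (jj g) Tw) (SB.OddB.eV ι' ob.hr P' oP'))) η
        (c • F.pull Prod.fst (LB.al (N := N))) c ∧
      |Real.pi * c * (2 * XF.tau ι')| = τ₀ ∧
      (∀ o, Ori (8 * m + 1) (T.Sph (L.US G) PN) o →
        |J (8 * m + 1) (T.Sph (L.US G) PN) o ((c • F.pull Prod.fst (LB.al (N := N))) *
          (F.d (c • F.pull Prod.fst (LB.al (N := N))) ^ (2 * m - 1) *
          F.pull (sl 1) (F.pull Prod.fst (F.pull (Th (jj g) Tw)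
            (SB.OddB.eV ι' ob.hr P' oP'))) ^ (2 * m + 1)))| = ((2 * m).choose m : ℝ) *
          (|2 * XF.tau ι'| * (J n S oS (ξ ^ m)) ^ 2)) ∧
      (J n S oS (ξ ^ m)) ^ 2 ≤ (Real.pi * c * (2 * XF.tau ι')) ^ (2 * m) := by
  have hB := h.bla.bl
  have hkn : 4 < n := D.hkn
  have hm := D.hm
  have hn := D.hn
  have hφ := cir_Z h
  obtain ⟨hcb, hθ⟩ := thd_Z h hg hF hT hd ob.pf
  have sq : SMap (L.US G) (Quo (L.US G) g) (jj g) :=
    (TP.qm_jj hg (CM.cir_US hB h.bla.ty.per) (CM.clo_US' hB)).smap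
  have hqa : ∀ x ∈ L.US G, ∀ t, jj g (CM.gf G t x) = jj g x :=
    (TP.qm_jj hg (CM.cir_US hB h.bla.ty.per) (CM.clo_US' hB)).act
  have hev := ob.ec_eV
  have hom : Hom 2 (SB.OddB.eV ι' ob.hr P' oP') := SB.OddB.hom_eV (P := P') (oP := oP') ob.hr
  have hW : Bas (T.Sph (L.US G) PN) (FL.Ph G K)
      (F.pull (Th (jj g) Tw) (SB.OddB.eV ι' ob.hr P' oP')) :=
    bas_Th hφ sq hqa hT hd hev.sm hev.cl (ev_of_hom hom even_two)
  have hWf : Eqv (T.Sph (L.US G) PN)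
      (F.pull flp (F.pull (Th (jj g) Tw) (SB.OddB.eV ι' ob.hr P' oP')))
      (-(F.pull (Th (jj g) Tw) (SB.OddB.eV ι' ob.hr P' oP'))) := flp_Th sq hT hd ob.flip_eV
  -- the submersion
  have hUo : Ori (2 * n - 1) (L.US G) (dp (2 * n - 1) (LB.oUS n N)) :=
    ZG.ori_dpz (LB.ori_US (FV.sub_S hB) hB.cpt hB.hn (by omega))
  obtain ⟨oN, hoN⟩ := SB.exists_opr_N h.bla (by norm_num) hkn h.neg
  have hτ : FG.OSubm 2 (2 * n - 1) (T.Sph (L.US G) PN) (L.US G) Prod.fst (SB.oV oN)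
      (dp (2 * n - 1) (LB.oUS n N)) :=
    SB.osubm_Sph (LB.clo_US (FV.sub_S hB) hB.cpt (by omega)) (UP.pfield_N h.neg) hoN hUo
      fun x => hom_dp _ _ x
  have hfo := hτ.fib z
  -- the fibre number
  have hjz : jj g z ∈ Quo (L.US G) g := sq.maps hz
  have ho' := ob.ori_oV hjz
  rw [← SB.OddB.fibre_eq (X := Quo (L.US G) g) hjz] at ho'
  have hω : |J 2 (T.Sph (L.US G) PN ∩ Prod.fst ⁻¹' {z}) (SB.oV oN)
      (F.pull (Th (jj g) Tw) (SB.OddB.eV ι' ob.hr P' oP'))| = |2 * XF.tau ι'| := by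
    rw [abs_fib sq hT hd (UP.pfield_N h.neg) ob.pf (by norm_num) hz ho' hev.sm hfo,
      ob.J_fibre' hjz]
  obtain ⟨c, η, hc, H, v1, v2, v3⟩ := four h hm hn hoS D.sx D.cx D.dx D.hm_zero' hW hom.pull hWf hθ
    (HN.hn_eV D (by norm_num) hkn h.neg sq hT hd ob) hτ hz h0 (hC _ hfo) hTm
  refine ⟨c, η, hc, H, ?_, fun o ho => ?_, ?_⟩
  · rw [← v1, abs_mul, abs_mul _ (J _ _ _ _), hω]
  · rw [v2 o ho, hω]
  · refine v3.trans (le_of_eq ?_)
    rw [mul_pow, mul_pow _ (2 * XF.tau ι'), pow_mul (J _ _ _ _) 2 m, pow_mul (2 * XF.tau ι') 2 m,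
      ← sq_abs (J _ _ _ _), hω, sq_abs]

end inst

end Crest.Agent.R208.KP
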