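import Mathlib

/-!
R208, block KF (helper844), file KR0: the Wirtinger inequality for antiperiodic functions with
values in a Hilbert space and the positivity of the square wave kernel.
-/

set_option autoImplicit false

open Set Filter Topology MeasureTheory Real
open scoped RealInnerProductSpace Interval

noncomputable section

namespace Crest.Agent.R208.KR

variable {H : Type*} [NormedAddCommGroup H] [InnerProductSpace ℝ H]

/-- Wirtinger on `[0, π]` with one zero. -/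
theorem wirt_half {U U' : ℝ → H} (hd : ∀ t, HasDerivAt U (U' t) t) (hc : Continuous U')
    (h0 : U 0 = 0) : ∫ t in (0:ℝ)..π, ‖U t‖ ^ 2 ≤ 4 * ∫ t in (0:ℝ)..π, ‖U' t‖ ^ 2 := by
  have hUc : Continuous U := continuous_iff_continuousAt.2 fun t => (hd t).continuousAt
  -- bound
  obtain ⟨M, hM⟩ := (isCompact_Icc (a := (0:ℝ)) (b := π)).bddAbove_image hc.norm.continuousOn
  have hM' : ∀ t ∈ Icc (0:ℝ) π, ‖U' t‖ ≤ M := fun t ht => hM ⟨t, ht, rfl⟩
  have hM0 : 0 ≤ M := (norm_nonneg _).trans (hM' 0 ⟨le_rfl, pi_pos.le⟩)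
  have hUb : ∀ t ∈ Icc (0:ℝ) π, ‖U t‖ ≤ M * t := by
    intro t ht
    have := norm_image_sub_le_of_norm_deriv_le_segment' (f := U) (f' := U') (a := 0) (b := t)
      (C := M) (fun x _ => (hd x).hasDerivWithinAt) (fun x hx => hM' x ⟨hx.1, hx.2.le.trans ht.2⟩)
      t ⟨ht.1, le_rfl⟩
    simpa [h0] using this
  -- the key inequality on [ε, π]
  have key : ∀ ε, 0 < ε → ε < π →
      -(2 * (M ^ 2 * ε * (ε / sin (ε / 2)))) ≤
        4 * (∫ t in ε..π, ‖U' t‖ ^ 2) - ∫ t in ε..π, ‖U t‖ ^ 2 := by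
    intro ε hε hεπ
    set F : ℝ → ℝ := fun t => 2 * (cos (t / 2) / sin (t / 2)) * ‖U t‖ ^ 2 with hF
    have hs : ∀ t ∈ Icc ε π, sin (t / 2) ≠ 0 := fun t ht =>
      (sin_pos_of_pos_of_lt_pi (by linarith [ht.1]) (by linarith [ht.2, pi_pos])).ne'
    have hdF : ∀ t ∈ Icc ε π, HasDerivAt F
        (-(‖U t‖ ^ 2 / sin (t / 2) ^ 2) + 4 * (cos (t / 2) / sin (t / 2)) * ⟪U t, U' t⟫) t := by
      intro t ht
      have hst := hs t ht
      have h2 : HasDerivAt (fun t : ℝ => t / 2) (1 / 2) t := by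
        simpa using (hasDerivAt_id t).div_const 2
      have hcos := h2.cos
      have hsin := h2.sin
      have hq := (hcos.div hsin hst).const_mul 2
      have hn : HasDerivAt (fun t => ‖U t‖ ^ 2) (2 * ⟪U t, U' t⟫) t := (hd t).norm_sq
      have := hq.mul hn
      refine this.congr_deriv ?_
      have e1 := sin_sq_add_cos_sq (t / 2)
      have e2 : cos (t / 2) ^ 2 = 1 - sin (t / 2) ^ 2 := by linarith
      simp only [Pi.div_apply]
      field_simp
      rw [e2]
      ring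
    have hcs : ContinuousOn (fun t : ℝ => cos (t / 2) / sin (t / 2)) (Icc ε π) :=
      ContinuousOn.div (by fun_prop) (by fun_prop) hs
    have hcont : ContinuousOn (fun t => -(‖U t‖ ^ 2 / sin (t / 2) ^ 2) +
        4 * (cos (t / 2) / sin (t / 2)) * ⟪U t, U' t⟫) (Icc ε π) := by
      refine ContinuousOn.add (ContinuousOn.neg ?_) ?_
      · exact ContinuousOn.div (by fun_prop) (by fun_prop) fun t ht => pow_ne_zero _ (hs t ht)
      · exact (continuousOn_const.mul hcs).mul (hUc.inner hc).continuousOn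
    have hint := intervalIntegral.integral_eq_sub_of_hasDerivAt (a := ε) (b := π) (f := F)
      (fun t ht => hdF t (by rwa [uIcc_of_le hεπ.le] at ht))
      (by
        refine ContinuousOn.intervalIntegrable ?_
        rw [uIcc_of_le hεπ.le]; exact hcont)
    have hFπ : F π = 0 := by simp [hF]
    have hFε : F ε ≤ 2 * (M ^ 2 * ε * (ε / sin (ε / 2))) := by
      have hsε : 0 < sin (ε / 2) := sin_pos_of_pos_of_lt_pi (by linarith) (by linarith [pi_pos])
      have h1 := hUb ε ⟨hε.le, hεπ.le⟩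
      have h2 : ‖U ε‖ ^ 2 ≤ (M * ε) ^ 2 := by gcongr
      have h3 : cos (ε / 2) ≤ 1 := cos_le_one _
      have h3' : 0 ≤ cos (ε / 2) := cos_nonneg_of_neg_pi_div_two_le_of_le (by linarith [pi_pos])
        (by linarith)
      calc F ε = 2 * (cos (ε / 2) / sin (ε / 2)) * ‖U ε‖ ^ 2 := rfl
        _ ≤ 2 * (1 / sin (ε / 2)) * (M * ε) ^ 2 := by gcongr
        _ = 2 * (M ^ 2 * ε * (ε / sin (ε / 2))) := by ring
    -- pointwise identity
    have hint2 : (4 * (∫ t in ε..π, ‖U' t‖ ^ 2) - ∫ t in ε..π, ‖U t‖ ^ 2) =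
        (∫ t in ε..π, ‖(2:ℝ) • U' t - (cos (t / 2) / sin (t / 2)) • U t‖ ^ 2) +
          ∫ t in ε..π, (-(‖U t‖ ^ 2 / sin (t / 2) ^ 2) +
            4 * (cos (t / 2) / sin (t / 2)) * ⟪U t, U' t⟫) := by
      rw [← intervalIntegral.integral_const_mul, ← intervalIntegral.integral_sub,
        ← intervalIntegral.integral_add]
      · refine intervalIntegral.integral_congr fun t ht => ?_
        rw [uIcc_of_le hεπ.le] at ht
        have hst := hs t ht
        show 4 * ‖U' t‖ ^ 2 - ‖U t‖ ^ 2 = _ + _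
        rw [norm_sub_sq_real, norm_smul, norm_smul, real_inner_smul_left, real_inner_smul_right,
          real_inner_comm (U t) (U' t), mul_pow, mul_pow]
        have e1 := sin_sq_add_cos_sq (t / 2)
        have e2 : cos (t / 2) ^ 2 = 1 - sin (t / 2) ^ 2 := by linarith
        have e3 : ‖cos (t / 2) / sin (t / 2)‖ ^ 2 = (1 - sin (t / 2) ^ 2) / sin (t / 2) ^ 2 := by
          rw [Real.norm_eq_abs, sq_abs, div_pow, e2]
        rw [e3]
        simp only [Real.norm_ofNat]
        field_simp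
        ring
      · refine ContinuousOn.intervalIntegrable ?_
        rw [uIcc_of_le hεπ.le]
        exact ((continuousOn_const.smul hc.continuousOn).sub (hcs.smul hUc.continuousOn)).norm.pow 2
      · refine ContinuousOn.intervalIntegrable ?_
        rw [uIcc_of_le hεπ.le]; exact hcont
      · exact (by fun_prop : Continuous fun t => 4 * ‖U' t‖ ^ 2).intervalIntegrable _ _
      · exact (by fun_prop : Continuous fun t => ‖U t‖ ^ 2).intervalIntegrable _ _
    rw [hint2, hint, hFπ]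
    have hpos : 0 ≤ ∫ t in ε..π, ‖(2:ℝ) • U' t - (cos (t / 2) / sin (t / 2)) • U t‖ ^ 2 :=
      intervalIntegral.integral_nonneg hεπ.le fun t _ => by positivity
    linarith
  -- the limit ε → 0
  have hsl : Tendsto (fun ε : ℝ => ε / sin (ε / 2)) (𝓝[>] 0) (𝓝 2) := by
    have h1 : HasDerivAt (fun t : ℝ => sin (t / 2)) (1 / 2) 0 := by
      have h2 : HasDerivAt (fun t : ℝ => t / 2) (1 / 2) 0 := by
        simpa using (hasDerivAt_id (0:ℝ)).div_const 2
      simpa using h2.sin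
    have h3 := (hasDerivAt_iff_tendsto_slope.1 h1).mono_left
      (nhdsWithin_mono _ (fun x hx => ne_of_gt hx : Ioi (0:ℝ) ⊆ {0}ᶜ))
    have h4 := h3.inv₀ (by norm_num)
    refine (h4.congr fun x => ?_).trans (by norm_num)
    simp [slope_def_field]
  have hlim1 : Tendsto (fun ε : ℝ => -(2 * (M ^ 2 * ε * (ε / sin (ε / 2))))) (𝓝[>] 0) (𝓝 0) := by
    have h1 : Tendsto (fun ε : ℝ => ε) (𝓝[>] 0) (𝓝 0) := tendsto_nhdsWithin_of_tendsto_nhds tendsto_id
    have := (((h1.const_mul (M ^ 2)).mul hsl).const_mul 2).neg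
    simpa using this
  have hlim2 : Tendsto (fun ε : ℝ => 4 * (∫ t in ε..π, ‖U' t‖ ^ 2) - ∫ t in ε..π, ‖U t‖ ^ 2)
      (𝓝[>] 0) (𝓝 (4 * (∫ t in (0:ℝ)..π, ‖U' t‖ ^ 2) - ∫ t in (0:ℝ)..π, ‖U t‖ ^ 2)) := by
    have g1 : Continuous fun ε : ℝ => ∫ t in ε..π, ‖U' t‖ ^ 2 := by
      have : Continuous fun ε : ℝ => ∫ t in π..ε, ‖U' t‖ ^ 2 :=
        intervalIntegral.continuous_primitive
          (fun a b => (by fun_prop : Continuous fun t => ‖U' t‖ ^ 2).intervalIntegrable a b) π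
      refine this.neg.congr fun ε => ?_
      show -(∫ t in π..ε, ‖U' t‖ ^ 2) = _
      rw [← intervalIntegral.integral_symm]
    have g2 : Continuous fun ε : ℝ => ∫ t in ε..π, ‖U t‖ ^ 2 := by
      have : Continuous fun ε : ℝ => ∫ t in π..ε, ‖U t‖ ^ 2 :=
        intervalIntegral.continuous_primitive
          (fun a b => (by fun_prop : Continuous fun t => ‖U t‖ ^ 2).intervalIntegrable a b) π
      refine this.neg.congr fun ε => ?_
      show -(∫ t in π..ε, ‖U t‖ ^ 2) = _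
      rw [← intervalIntegral.integral_symm]
    exact tendsto_nhdsWithin_of_tendsto_nhds ((continuous_const.mul g1).sub g2).continuousAt
  have hfin := le_of_tendsto_of_tendsto hlim1 hlim2 (by
    filter_upwards [Ioo_mem_nhdsGT pi_pos] with ε hε
    exact key ε hε.1 hε.2)
  linarith

/-- Wirtinger for antiperiodic functions. -/
theorem wirtinger {Z Z' : ℝ → H} (hd : ∀ t, HasDerivAt Z (Z' t) t) (hc : Continuous Z')
    (ha : Z (2 * π) = -Z 0) :
    ∫ t in (0:ℝ)..(2 * π), ‖Z t‖ ^ 2 ≤ 4 * ∫ t in (0:ℝ)..(2 * π), ‖Z' t‖ ^ 2 := by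
  have hZc : Continuous Z := continuous_iff_continuousAt.2 fun t => (hd t).continuousAt
  set C : ℝ → H := fun t => cos (t / 2) • Z 0 with hC
  set C' : ℝ → H := fun t => (-sin (t / 2) * (1 / 2)) • Z 0 with hC'
  have h2 : ∀ t : ℝ, HasDerivAt (fun t : ℝ => t / 2) (1 / 2) t := fun t => by
    simpa using (hasDerivAt_id t).div_const 2
  have hdC : ∀ t, HasDerivAt C (C' t) t := fun t => ((h2 t).cos).smul_const (Z 0)
  have hdC' : ∀ t, HasDerivAt C' (-((1:ℝ) / 4) • C t) t := by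
    intro t
    have h3 : HasDerivAt (fun t : ℝ => -sin (t / 2) * (1 / 2)) (-(cos (t / 2) * (1 / 2)) * (1 / 2)) t :=
      ((h2 t).sin.neg).mul_const (1 / 2)
    refine (h3.smul_const (Z 0)).congr_deriv ?_
    simp only [hC, smul_smul]
    congr 1; ring
  set U : ℝ → H := fun t => Z t - C t with hU
  set U' : ℝ → H := fun t => Z' t - C' t with hU'
  have hdU : ∀ t, HasDerivAt U (U' t) t := fun t => (hd t).sub (hdC t)
  have hU0 : U 0 = 0 := by simp [hU, hC]
  have hU2 : U (2 * π) = 0 := by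
    have : 2 * π / 2 = π := by ring
    simp [hU, hC, ha, this]
  have cC' : Continuous C' := by simp only [hC']; fun_prop
  have cC : Continuous C := by simp only [hC]; fun_prop
  have cU' : Continuous U' := hc.sub cC'
  have cU : Continuous U := hZc.sub cC
  -- first half
  have w1 := wirt_half hdU cU' hU0
  -- second half, reflected
  have w2 := wirt_half (U := fun t => U (2 * π - t)) (U' := fun t => -U' (2 * π - t))
    (fun t => by
      have h4 : HasDerivAt (fun t : ℝ => 2 * π - t) (-1) t := by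
        simpa using (hasDerivAt_id t).const_sub (2 * π)
      have := (hdU (2 * π - t)).scomp t h4
      rw [neg_one_smul] at this
      exact this)
    (by fun_prop) (by simpa using hU2)
  have r1 : ∫ t in (0:ℝ)..π, ‖U (2 * π - t)‖ ^ 2 = ∫ t in π..(2 * π), ‖U t‖ ^ 2 := by
    have := intervalIntegral.integral_comp_sub_left (a := 0) (b := π) (fun t => ‖U t‖ ^ 2) (2 * π)
    rw [this]
    congr 1 <;> ring
  have r2 : ∫ t in (0:ℝ)..π, ‖-U' (2 * π - t)‖ ^ 2 = ∫ t in π..(2 * π), ‖U' t‖ ^ 2 := by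
    have := intervalIntegral.integral_comp_sub_left (a := 0) (b := π) (fun t => ‖-U' t‖ ^ 2) (2 * π)
    simp only [norm_neg] at this ⊢
    rw [this]
    congr 1 <;> ring
  rw [r1, r2] at w2
  have ci : ∀ {f : ℝ → ℝ}, Continuous f → ∀ a b : ℝ, IntervalIntegrable f volume a b :=
    fun hf a b => hf.intervalIntegrable a b
  have s1 : (∫ t in (0:ℝ)..π, ‖U t‖ ^ 2) + ∫ t in π..(2 * π), ‖U t‖ ^ 2 =
      ∫ t in (0:ℝ)..(2 * π), ‖U t‖ ^ 2 :=
    intervalIntegral.integral_add_adjacent_intervals (ci (by fun_prop) _ _) (ci (by fun_prop) _ _)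
  have s2 : (∫ t in (0:ℝ)..π, ‖U' t‖ ^ 2) + ∫ t in π..(2 * π), ‖U' t‖ ^ 2 =
      ∫ t in (0:ℝ)..(2 * π), ‖U' t‖ ^ 2 :=
    intervalIntegral.integral_add_adjacent_intervals (ci (by fun_prop) _ _) (ci (by fun_prop) _ _)
  have wU : ∫ t in (0:ℝ)..(2 * π), ‖U t‖ ^ 2 ≤ 4 * ∫ t in (0:ℝ)..(2 * π), ‖U' t‖ ^ 2 := by
    linarith
  -- cross term
  have hx : ∫ t in (0:ℝ)..(2 * π), (4 * ⟪C' t, U' t⟫ - ⟪C t, U t⟫) = 0 := by
    have hdx : ∀ t, HasDerivAt (fun t => 4 * ⟪C' t, U t⟫) (4 * ⟪C' t, U' t⟫ - ⟪C t, U t⟫) t := by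
      intro t
      have := ((hdC' t).inner ℝ (hdU t)).const_mul 4
      refine this.congr_deriv ?_
      have e := real_inner_smul_left (C t) (U t) (-((1:ℝ) / 4))
      linear_combination 4 * e
    rw [intervalIntegral.integral_eq_sub_of_hasDerivAt (fun t _ => hdx t)
      (ci (by fun_prop) _ _), hU0, hU2]
    simp
  have hCC : ∫ t in (0:ℝ)..(2 * π), (4 * ‖C' t‖ ^ 2 - ‖C t‖ ^ 2) = 0 := by
    have hdx : ∀ t, HasDerivAt (fun t => 4 * ⟪C' t, C t⟫) (4 * ‖C' t‖ ^ 2 - ‖C t‖ ^ 2) t := by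
      intro t
      have := ((hdC' t).inner ℝ (hdC t)).const_mul 4
      refine this.congr_deriv ?_
      have e := real_inner_smul_left (C t) (C t) (-((1:ℝ) / 4))
      have e1 := real_inner_self_eq_norm_sq (C t)
      have e2 := real_inner_self_eq_norm_sq (C' t)
      linear_combination 4 * e - e1 + 4 * e2
    rw [intervalIntegral.integral_eq_sub_of_hasDerivAt (fun t _ => hdx t)
      (ci (by fun_prop) _ _)]
    have : 2 * π / 2 = π := by ring
    simp [hC', this]
  have hZU : ∀ t, Z t = C t + U t := fun t => by simp [hU]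
  have hZU' : ∀ t, Z' t = C' t + U' t := fun t => by simp [hU']
  have hfin : (4 * ∫ t in (0:ℝ)..(2 * π), ‖Z' t‖ ^ 2) - ∫ t in (0:ℝ)..(2 * π), ‖Z t‖ ^ 2 =
      (∫ t in (0:ℝ)..(2 * π), (4 * ‖C' t‖ ^ 2 - ‖C t‖ ^ 2)) +
      2 * (∫ t in (0:ℝ)..(2 * π), (4 * ⟪C' t, U' t⟫ - ⟪C t, U t⟫)) +
      ((4 * ∫ t in (0:ℝ)..(2 * π), ‖U' t‖ ^ 2) - ∫ t in (0:ℝ)..(2 * π), ‖U t‖ ^ 2) := by
    rw [← intervalIntegral.integral_const_mul, ← intervalIntegral.integral_sub,
      ← intervalIntegral.integral_const_mul, ← intervalIntegral.integral_const_mul,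
      ← intervalIntegral.integral_sub, ← intervalIntegral.integral_add,
      ← intervalIntegral.integral_add]
    · refine intervalIntegral.integral_congr fun t _ => ?_
      show 4 * ‖Z' t‖ ^ 2 - ‖Z t‖ ^ 2 = 4 * ‖C' t‖ ^ 2 - ‖C t‖ ^ 2 +
        2 * (4 * ⟪C' t, U' t⟫ - ⟪C t, U t⟫) + (4 * ‖U' t‖ ^ 2 - ‖U t‖ ^ 2)
      rw [hZU, hZU', norm_add_sq_real, norm_add_sq_real]
      ring
    all_goals exact ci (by fun_prop) _ _
  rw [hx, hCC] at hfin
  linarith

end Crest.Agent.R208.KR
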