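import Crest.Agent.R208.KR0

/-!
R208, block KF (helper844), file KR1: positivity of the square wave kernel.
-/

set_option autoImplicit false

open Set Filter Topology MeasureTheory Real
open scoped RealInnerProductSpace Interval

noncomputable section

namespace Crest.Agent.R208.KR

section hil
variable {H : Type*} [NormedAddCommGroup H] [InnerProductSpace ℝ H] [CompleteSpace H]

/-- the moving window integral -/
def win (Y : ℝ → H) (t : ℝ) : H := ∫ s in (t - π)..(t + π), Y s

theorem hasDerivAt_win {Y : ℝ → H} (hY : Continuous Y) (t : ℝ) :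
    HasDerivAt (win Y) (Y (t + π) - Y (t - π)) t := by
  have hP : ∀ t, HasDerivAt (fun t => ∫ s in (0:ℝ)..t, Y s) (Y t) t := fun t =>
    intervalIntegral.integral_hasDerivAt_right (hY.intervalIntegrable _ _)
      (hY.stronglyMeasurableAtFilter _ _) hY.continuousAt
  have h1 : HasDerivAt (fun t : ℝ => t + π) 1 t := (hasDerivAt_id t).add_const π
  have h2 : HasDerivAt (fun t : ℝ => t - π) 1 t := (hasDerivAt_id t).sub_const π
  have h3 := (hP (t + π)).scomp t h1
  have h4 := (hP (t - π)).scomp t h2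
  rw [one_smul] at h3 h4
  have h5 := h3.sub h4
  refine h5.congr_of_eventuallyEq (Eventually.of_forall fun s => ?_)
  show win Y s = (∫ u in (0:ℝ)..(s + π), Y u) - ∫ u in (0:ℝ)..(s - π), Y u
  rw [win, intervalIntegral.integral_interval_sub_left (hY.intervalIntegrable _ _)
    (hY.intervalIntegrable _ _)]

theorem continuous_win {Y : ℝ → H} (hY : Continuous Y) : Continuous (win Y) :=
  continuous_iff_continuousAt.2 fun t => (hasDerivAt_win hY t).continuousAt

/-- integral over a period of a `2π`-periodic function -/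
theorem per_shift {f : ℝ → ℝ} (hp : ∀ t, f (t + 2 * π) = f t) (a : ℝ) :
    ∫ t in a..(a + 2 * π), f t = ∫ t in (0:ℝ)..(2 * π), f t := by
  have h : Function.Periodic f (2 * π) := hp
  have := h.intervalIntegral_add_eq a 0
  simpa using this

/-- **The square wave inequality.** -/
theorem sq_wave {Y : ℝ → H} (hY : Continuous Y) (ha : ∀ t, Y (t + 2 * π) = -Y t) :
    ∫ t in (0:ℝ)..(2 * π), ⟪Y t, win Y t⟫ ≤ 4 * (∫ t in (0:ℝ)..(2 * π), ‖Y t‖ ^ 2) -
      (1 / 2) * ∫ t in (0:ℝ)..(2 * π), ‖(2:ℝ) • Y t - ((1:ℝ) / 2) • win Y t‖ ^ 2 := by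
  have hZc := continuous_win hY
  have hd : ∀ t, HasDerivAt (win Y) ((2:ℝ) • Y (t + π)) t := by
    intro t
    refine (hasDerivAt_win hY t).congr_deriv ?_
    have := ha (t - π)
    have e : t - π + 2 * π = t + π := by ring
    rw [e] at this
    rw [two_smul]
    rw [this]
    abel_nf
  have hanti : win Y (2 * π) = -win Y 0 := by
    have h1 : win Y (2 * π) = ∫ s in (0 - π)..(0 + π), Y (s + 2 * π) := by
      rw [intervalIntegral.integral_comp_add_right (fun s => Y s) (2 * π)]
      simp only [win]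
      congr 1 <;> ring
    rw [h1]
    simp only [ha, intervalIntegral.integral_neg, win]
  have hW := wirtinger hd (by fun_prop) hanti
  have hY2 : ∫ t in (0:ℝ)..(2 * π), ‖(2:ℝ) • Y (t + π)‖ ^ 2 =
      4 * ∫ t in (0:ℝ)..(2 * π), ‖Y t‖ ^ 2 := by
    have e : ∀ t, ‖(2:ℝ) • Y (t + π)‖ ^ 2 = 4 * ‖Y (t + π)‖ ^ 2 := fun t => by
      rw [norm_smul, mul_pow]; norm_num
    simp only [e, intervalIntegral.integral_const_mul]
    congr 1
    have := intervalIntegral.integral_comp_add_right (a := 0) (b := 2 * π)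
      (fun t => ‖Y t‖ ^ 2) π
    rw [this]
    have h2 := per_shift (f := fun t => ‖Y t‖ ^ 2) (fun t => by simp only [ha, norm_neg]) π
    rw [← h2]
    congr 1 <;> ring
  rw [hY2] at hW
  have ci : ∀ {f : ℝ → ℝ}, Continuous f → ∀ a b : ℝ, IntervalIntegrable f volume a b :=
    fun hf a b => hf.intervalIntegrable a b
  have hexp : ∫ t in (0:ℝ)..(2 * π), ‖(2:ℝ) • Y t - ((1:ℝ) / 2) • win Y t‖ ^ 2 =
      4 * (∫ t in (0:ℝ)..(2 * π), ‖Y t‖ ^ 2) - 2 * (∫ t in (0:ℝ)..(2 * π), ⟪Y t, win Y t⟫) +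
        (1 / 4) * ∫ t in (0:ℝ)..(2 * π), ‖win Y t‖ ^ 2 := by
    rw [← intervalIntegral.integral_const_mul, ← intervalIntegral.integral_const_mul,
      ← intervalIntegral.integral_const_mul, ← intervalIntegral.integral_sub,
      ← intervalIntegral.integral_add]
    · refine intervalIntegral.integral_congr fun t _ => ?_
      show ‖(2:ℝ) • Y t - ((1:ℝ) / 2) • win Y t‖ ^ 2 = 4 * ‖Y t‖ ^ 2 - 2 * ⟪Y t, win Y t⟫ +
        1 / 4 * ‖win Y t‖ ^ 2
      rw [norm_sub_sq_real, norm_smul, norm_smul, real_inner_smul_left, real_inner_smul_right,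
        mul_pow, mul_pow]
      norm_num
      ring
    all_goals exact ci (by fun_prop) _ _
  rw [hexp]
  linarith

end hil

/-! ### Hilbert space realisation of a positive semidefinite kernel -/

open scoped InnerProduct in
theorem exists_hilbert {X : Type} (k : X → X → ℝ) (hs : ∀ x y, k x y = k y x)
    (hp : ∀ (s : Finset X) (c : X → ℝ), 0 ≤ ∑ i ∈ s, ∑ j ∈ s, c i * c j * k i j) :
    ∃ (H : Type) (_ : NormedAddCommGroup H) (_ : InnerProductSpace ℝ H) (_ : CompleteSpace H)
      (Y : X → H), ∀ x y, ⟪Y x, Y y⟫ = k x y := by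
  classical
  let K : Matrix X X (ℝ →L[ℝ] ℝ) := Matrix.of fun x y => k x y • ContinuousLinearMap.id ℝ ℝ
  have hKa : ∀ x y v, K x y v = k x y * v := fun x y v => by simp [K]
  have hH : K.IsHermitian := by
    refine Matrix.IsHermitian.ext fun i j => ?_
    have : star (K j i) = K j i := by
      rw [ContinuousLinearMap.star_eq_adjoint]
      refine ContinuousLinearMap.ext fun v => ?_
      refine ext_inner_right ℝ fun w => ?_
      rw [ContinuousLinearMap.adjoint_inner_left, hKa, hKa]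
      simp only [RCLike.inner_apply, conj_trivial]
      ring
    rw [this]
    refine ContinuousLinearMap.ext fun v => ?_
    rw [hKa, hKa, hs]
  have hK : K.PosSemidef := by
    have h2 : K.IsHermitian ∧ ∀ (vv : X →₀ ℝ),
      0 ≤ RCLike.re (K := ℝ) (vv.sum fun x w ↦ vv.sum fun x' w' ↦ inner ℝ (K x' x w) w') := by
      refine ⟨hH, fun vv => ?_⟩
      have := hp vv.support vv
      simp only [Finsupp.sum]
      refine this.trans (le_of_eq ?_)
      simp only [RCLike.re_to_real]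
      refine Finset.sum_congr rfl fun i _ => Finset.sum_congr rfl fun j _ => ?_
      rw [hKa]
      simp only [RCLike.inner_apply, conj_trivial]
      rw [hs i j]
      ring
    exact (RKHS.posSemidef_tfae.out 0 2).2 h2
  have : Fact K.PosSemidef := ⟨hK⟩
  refine ⟨RKHS.OfKernel K, inferInstance, inferInstance, inferInstance,
    fun x => RKHS.kerFun (RKHS.OfKernel K) x (1:ℝ), fun x y => ?_⟩
  have h1 := RKHS.kernel_inner (H := RKHS.OfKernel K) y x (1:ℝ) (1:ℝ)
  rw [RKHS.OfKernel.kernel_ofKernel] at h1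
  rw [← h1, hKa]
  simp [hs x y]

/-- **Krein-Fourier inequality for kernels.** -/
theorem kernel_main {k : ℝ → ℝ → ℝ} (hc : Continuous (Function.uncurry k))
    (hs : ∀ x y, k x y = k y x) (ha : ∀ x y, k (x + 2 * π) y = -k x y)
    (hp : ∀ (s : Finset ℝ) (c : ℝ → ℝ), 0 ≤ ∑ i ∈ s, ∑ j ∈ s, c i * c j * k i j) :
    (∫ x in (0:ℝ)..(2 * π), ∫ y in (x - π)..(x + π), k x y ≤
      4 * ∫ x in (0:ℝ)..(2 * π), k x x) ∧
    ((∫ x in (0:ℝ)..(2 * π), ∫ y in (x - π)..(x + π), k x y) = 4 * (∫ x in (0:ℝ)..(2 * π), k x x) →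
      ∃ C : ℝ, ∀ x ∈ Icc (0:ℝ) (2 * π), ∀ y ∈ Icc (0:ℝ) (2 * π),
        k x x + k y y - 2 * k x y ≤ C * (x - y) ^ 2) := by
  obtain ⟨H, i1, i2, i3, Y, hY⟩ := exists_hilbert k hs hp
  have hsub : ∀ x y, ‖Y x - Y y‖ ^ 2 = k x x + k y y - 2 * k x y := by
    intro x y
    rw [norm_sub_sq_real, ← real_inner_self_eq_norm_sq, ← real_inner_self_eq_norm_sq, hY, hY, hY]
    ring
  have hYc : Continuous Y := by
    rw [continuous_iff_continuousAt]
    intro x
    rw [ContinuousAt, tendsto_iff_norm_sub_tendsto_zero]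
    have h1 : Tendsto (fun y => ‖Y y - Y x‖ ^ 2) (𝓝 x) (𝓝 0) := by
      have h2 : Continuous fun y => k y y + k x x - 2 * k y x := by
        have e1 : Continuous fun y : ℝ => k y y := hc.comp (continuous_id.prodMk continuous_id)
        have e2 : Continuous fun y : ℝ => k y x := hc.comp (continuous_id.prodMk continuous_const)
        fun_prop
      have h3 := h2.tendsto x
      simp only [hsub]
      convert h3 using 2
      ring
    have h4 := h1.sqrt
    simpa using h4
  have hYa : ∀ t, Y (t + 2 * π) = -Y t := by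
    intro t
    have h1 : ‖Y (t + 2 * π) + Y t‖ ^ 2 = 0 := by
      rw [norm_add_sq_real, ← real_inner_self_eq_norm_sq, ← real_inner_self_eq_norm_sq, hY, hY, hY,
        ha, ha, hs t, ha]
      ring
    have h2 : Y (t + 2 * π) + Y t = 0 := by
      rw [← norm_eq_zero]; exact pow_eq_zero_iff (two_ne_zero) |>.1 h1
    exact eq_neg_of_add_eq_zero_left h2
  have hwin : ∀ t, ⟪Y t, win Y t⟫ = ∫ y in (t - π)..(t + π), k t y := by
    intro t
    have h1 : ⟪Y t, win Y t⟫ = (innerSL ℝ (Y t)) (∫ s in (t - π)..(t + π), Y s) := rfl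
    rw [h1, ← ContinuousLinearMap.intervalIntegral_comp_comm _ (hYc.intervalIntegrable _ _)]
    exact intervalIntegral.integral_congr fun s _ => hY t s
  have hW := sq_wave hYc hYa
  simp only [hwin] at hW
  have hn : ∀ t, ‖Y t‖ ^ 2 = k t t := fun t => by rw [← real_inner_self_eq_norm_sq, hY]
  simp only [hn] at hW
  have hZc := continuous_win hYc
  have hDc : Continuous fun t => ‖(2:ℝ) • Y t - ((1:ℝ) / 2) • win Y t‖ ^ 2 := by fun_prop
  have hD0 : 0 ≤ ∫ t in (0:ℝ)..(2 * π), ‖(2:ℝ) • Y t - ((1:ℝ) / 2) • win Y t‖ ^ 2 :=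
    intervalIntegral.integral_nonneg (by positivity) fun t _ => by positivity
  refine ⟨by linarith, fun heq => ?_⟩
  have hD : ∫ t in (0:ℝ)..(2 * π), ‖(2:ℝ) • Y t - ((1:ℝ) / 2) • win Y t‖ ^ 2 = 0 := by linarith
  have hzero : ∀ t ∈ Icc (0:ℝ) (2 * π), Y t = ((1:ℝ) / 4) • win Y t := by
    intro t ht
    by_contra hne
    have hpos : 0 < ∫ t in (0:ℝ)..(2 * π), ‖(2:ℝ) • Y t - ((1:ℝ) / 2) • win Y t‖ ^ 2 := by
      refine intervalIntegral.integral_pos (by positivity) hDc.continuousOn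
        (fun t _ => by positivity) ⟨t, ht, ?_⟩
      have : (2:ℝ) • Y t - ((1:ℝ) / 2) • win Y t ≠ 0 := by
        intro h0
        apply hne
        have h1 : ((1:ℝ) / 2) • ((2:ℝ) • Y t - ((1:ℝ) / 2) • win Y t) = 0 := by rw [h0, smul_zero]
        rw [smul_sub, smul_smul, smul_smul] at h1
        norm_num at h1
        rw [sub_eq_zero] at h1
        rw [h1]
      positivity
    linarith
  obtain ⟨M, hM⟩ : ∃ M, ∀ t, ‖Y t‖ ≤ M := by
    obtain ⟨M, hM⟩ := (isCompact_Icc (a := (0:ℝ)) (b := 2 * π)).exists_bound_of_continuousOn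
      hYc.continuousOn
    refine ⟨M, fun t => ?_⟩
    have hper : Function.Periodic (fun t => ‖Y t‖) (2 * π) := fun t => by
      simp only [hYa, norm_neg]
    obtain ⟨y, hy, hy'⟩ := hper.exists_mem_Ico₀ (by positivity) t
    rw [hy']
    exact hM y ⟨hy.1, hy.2.le⟩
  have hM0 : 0 ≤ M := (norm_nonneg _).trans (hM 0)
  refine ⟨(M / 2) ^ 2, fun x hx y hy => ?_⟩
  have hd : ∀ t, HasDerivAt (win Y) ((2:ℝ) • Y (t + π)) t := by
    intro t
    refine (hasDerivAt_win hYc t).congr_deriv ?_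
    have := hYa (t - π)
    have e : t - π + 2 * π = t + π := by ring
    rw [e] at this
    rw [two_smul, this]
    abel_nf
  have hL : ‖win Y y - win Y x‖ ≤ 2 * M * ‖y - x‖ := by
    refine Convex.norm_image_sub_le_of_norm_hasDerivWithin_le (f := win Y)
      (f' := fun t => (2:ℝ) • Y (t + π)) (s := Set.univ) (fun t _ => (hd t).hasDerivWithinAt)
      (fun t _ => ?_) convex_univ (mem_univ _) (mem_univ _)
    rw [norm_smul, Real.norm_eq_abs, abs_two]
    exact mul_le_mul_of_nonneg_left (hM _) two_pos.le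
  rw [← hsub, hzero x hx, hzero y hy, ← smul_sub, norm_smul, mul_pow, norm_sub_rev (win Y x)]
  have h5 : ‖win Y y - win Y x‖ ^ 2 ≤ (2 * M * ‖y - x‖) ^ 2 := by gcongr
  rw [Real.norm_eq_abs] at h5
  have h6 : (2 * M * |y - x|) ^ 2 = 4 * M ^ 2 * (x - y) ^ 2 := by
    rw [mul_pow, sq_abs]; ring
  rw [h6] at h5
  norm_num
  nlinarith [h5]

end Crest.Agent.R208.KR
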