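import Crest.Agent.R208.KR6

/-!
R208, block KF (helper844), file KR11: the explicit angles `tan θ = tan r / ε`, concentrated at
`0` mod `π` as `ε → 0`, and the limit of the weighted integrals.
-/

set_option autoImplicit false

open Set Filter Topology MeasureTheory Real Module
open scoped RealInnerProductSpace Interval ContDiff

noncomputable section

namespace Crest.Agent.R208.KR

/-! ### the angles -/

/-- `tan (θ - r)` for `tan θ = tan r / ε` -/
def gA (ε r : ℝ) : ℝ := (1 - ε) * (sin r * cos r) / (ε * cos r ^ 2 + sin r ^ 2)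

/-- the angle with `tan θ = tan r / ε` -/
def thA (ε r : ℝ) : ℝ := r + arctan (gA ε r)

/-- its derivative -/
def thA' (ε r : ℝ) : ℝ := ε / (ε ^ 2 * cos r ^ 2 + sin r ^ 2)

theorem den_pos {ε : ℝ} (hε : 0 < ε) (r : ℝ) : 0 < ε * cos r ^ 2 + sin r ^ 2 := by
  have h1 := sin_sq_add_cos_sq r
  rcases eq_or_ne (sin r) 0 with h0 | h0
  · rw [h0] at h1 ⊢
    have : cos r ^ 2 = 1 := by linarith
    rw [this]; nlinarith
  · have : 0 < sin r ^ 2 := by positivity
    have h2 : 0 ≤ ε * cos r ^ 2 := by positivity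
    linarith

theorem den_pos' {ε : ℝ} (hε : 0 < ε) (r : ℝ) : 0 < ε ^ 2 * cos r ^ 2 + sin r ^ 2 :=
  den_pos (by positivity) r

theorem alg {ε s c : ℝ} (hcs : s ^ 2 + c ^ 2 = 1) (hD : 0 < ε * c ^ 2 + s ^ 2)
    (hD' : 0 < ε ^ 2 * c ^ 2 + s ^ 2) :
    1 + 1 / (1 + ((1 - ε) * (s * c) / (ε * c ^ 2 + s ^ 2)) ^ 2) *
        (((1 - ε) * (c * c + s * -s) * (ε * c ^ 2 + s ^ 2) -
          (1 - ε) * (s * c) * (ε * (2 * c * -s) + 2 * s * c)) /
          (ε * c ^ 2 + s ^ 2) ^ 2) = ε / (ε ^ 2 * c ^ 2 + s ^ 2) := by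
  set D := ε * c ^ 2 + s ^ 2 with hDd
  set D' := ε ^ 2 * c ^ 2 + s ^ 2 with hDd'
  set M := (1 - ε) * (c * c + s * -s) * D - (1 - ε) * (s * c) * (ε * (2 * c * -s) + 2 * s * c)
    with hM
  have e1 : D ^ 2 + ((1 - ε) * (s * c)) ^ 2 = D' := by
    rw [hDd, hDd']; linear_combination (ε ^ 2 * c ^ 2 + s ^ 2) * hcs
  have e2 : M + D' = ε := by
    rw [hM, hDd, hDd']
    linear_combination (-(ε ^ 2 * c ^ 2 + s ^ 2) + ε * (c ^ 2 + s ^ 2 + 1)) * hcs
  have e3 : 1 + ((1 - ε) * (s * c) / D) ^ 2 = D' / D ^ 2 := by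
    rw [div_pow, ← e1, add_div, div_self (by positivity)]
  rw [e3, one_div_div, div_mul_div_comm, mul_comm (D ^ 2) M, mul_div_mul_right _ _ (by positivity),
    ← e2, add_div, div_self hD'.ne', add_comm]

theorem ang_thA {ε : ℝ} (hε : 0 < ε) : Ang (thA ε) (thA' ε) where
  der r := by
    have hD := den_pos hε r
    have hD' := den_pos' hε r
    have hcs := sin_sq_add_cos_sq r
    have h1 : HasDerivAt (fun r => (1 - ε) * (sin r * cos r))
        ((1 - ε) * (cos r * cos r + sin r * -sin r)) r :=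
      ((hasDerivAt_sin r).mul (hasDerivAt_cos r)).const_mul _
    have h2 : HasDerivAt (fun r => ε * cos r ^ 2 + sin r ^ 2)
        (ε * (2 * cos r * -sin r) + 2 * sin r * cos r) r := by
      have e1 := ((hasDerivAt_cos r).pow 2).const_mul ε
      have e2 := (hasDerivAt_sin r).pow 2
      refine (e1.add e2).congr_deriv ?_
      norm_num
    have h3 := h1.div h2 hD.ne'
    have h4 : HasDerivAt (thA ε) (1 + 1 / (1 + gA ε r ^ 2) *
        (((1 - ε) * (cos r * cos r + sin r * -sin r) * (ε * cos r ^ 2 + sin r ^ 2) -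
          (1 - ε) * (sin r * cos r) * (ε * (2 * cos r * -sin r) + 2 * sin r * cos r)) /
          (ε * cos r ^ 2 + sin r ^ 2) ^ 2)) r := by
      exact (hasDerivAt_id r).add (h3.arctan)
    refine h4.congr_deriv ?_
    exact alg hcs hD hD'
  cont := by
    unfold thA'
    refine continuous_const.div (by fun_prop) fun r => (den_pos' hε r).ne'
  pos r := div_pos hε (den_pos' hε r)
  per r := by
    unfold thA gA
    rw [sin_add_pi, cos_add_pi, neg_mul_neg, neg_sq, neg_sq]
    ring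

/-- for `0 < δ < π/2`, `θ_ε(δ) → π/2` -/
theorem tendsto_thA {δ : ℝ} (h0 : 0 < δ) (h1 : δ < π / 2) :
    Tendsto (fun ε => thA ε δ) (𝓝[>] 0) (𝓝 (π / 2)) := by
  have hs : 0 < sin δ := sin_pos_of_pos_of_lt_pi h0 (by linarith [Real.pi_pos])
  have hg : ContinuousAt (fun ε => gA ε δ) 0 := by
    unfold gA
    refine ContinuousAt.div (by fun_prop) (by fun_prop) ?_
    rw [zero_mul, zero_add]
    positivity
  have h2 : ContinuousAt (fun ε => thA ε δ) 0 := by
    unfold thA
    exact continuousAt_const.add (continuous_arctan.continuousAt.comp hg)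
  have h3 : thA 0 δ = π / 2 := by
    unfold thA gA
    rw [sub_zero, one_mul, zero_mul, zero_add]
    have e1 : sin δ * cos δ / sin δ ^ 2 = tan (π / 2 - δ) := by
      rw [tan_eq_sin_div_cos, sin_pi_div_two_sub, cos_pi_div_two_sub]
      field_simp
    rw [e1, arctan_tan (by linarith) (by linarith)]
    ring
  have h4 := h2.tendsto
  rw [h3] at h4
  exact h4.mono_left nhdsWithin_le_nhds

theorem thA_neg (ε r : ℝ) : thA ε (-r) = -thA ε r := by
  unfold thA gA
  rw [sin_neg, cos_neg, neg_sq]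
  have : (1 - ε) * (-sin r * cos r) / (ε * cos r ^ 2 + sin r ^ 2) =
      -((1 - ε) * (sin r * cos r) / (ε * cos r ^ 2 + sin r ^ 2)) := by ring
  rw [this, arctan_neg]; ring

/-- smoothness of the path of angles -/
theorem contDiff_thA {ε : ℝ} (hε : 0 < ε) : ContDiff ℝ ∞ (thA ε) := by
  unfold thA gA
  refine contDiff_id.add (contDiff_arctan.comp ?_)
  exact ContDiff.div (by fun_prop) (by fun_prop) fun r => (den_pos hε r).ne'

theorem contDiff_thA' {ε : ℝ} (hε : 0 < ε) : ContDiff ℝ ∞ (thA' ε) := by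
  unfold thA'
  exact ContDiff.div contDiff_const (by fun_prop) fun r => (den_pos' hε r).ne'

/-! ### the limit of the inverse -/

/-- the inverse angles tend to `0` on `(-π/2, π/2)` -/
theorem tendsto_inv {ρ : ℝ → ℝ → ℝ} (hρ : ∀ ε > 0, ∀ t, thA ε (ρ ε t) = t) {t : ℝ}
    (ht : t ∈ Ioo (-(π / 2)) (π / 2)) : Tendsto (fun ε => ρ ε t) (𝓝[>] 0) (𝓝 0) := by
  rw [Metric.tendsto_nhds]
  intro δ hδ
  set δ' := min (δ / 2) (π / 4) with hδ'
  have hpi := Real.pi_pos
  have h0 : 0 < δ' := lt_min (by linarith) (by linarith)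
  have h1 : δ' < π / 2 := (min_le_right _ _).trans_lt (by linarith)
  have h2 := tendsto_thA h0 h1
  have hmax : max t (-t) < π / 2 := max_lt ht.2 (by linarith [ht.1])
  filter_upwards [h2.eventually (lt_mem_nhds hmax), self_mem_nhdsWithin] with ε h3 hε
  have hm := (ang_thA hε).strictMono
  have h4 : t < thA ε δ' := (le_max_left _ _).trans_lt h3
  have h5 : -t < thA ε δ' := (le_max_right _ _).trans_lt h3
  have h6 : ρ ε t < δ' := by
    apply hm.lt_iff_lt.1; rw [hρ ε hε]; exact h4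
  have h7 : -δ' < ρ ε t := by
    apply hm.lt_iff_lt.1; rw [hρ ε hε, thA_neg]; linarith
  rw [Real.dist_eq, sub_zero, abs_lt]
  have h8 : δ' ≤ δ / 2 := min_le_left _ _
  exact ⟨by linarith, by linarith⟩

/-- **limit of the weighted integrals, uniformly over a compact space of parameters** -/
theorem limit_unif {κ : Type*} [TopologicalSpace κ] [CompactSpace κ] [Nonempty κ]
    (H : κ → ℝ → ℝ → ℝ) (hH : Continuous fun p : (ℝ × ℝ) × κ => H p.2 p.1.1 p.1.2)
    (hper : ∀ x r t, H x (r + 2 * π) (t + 2 * π) = H x r t) {c₀ : ℝ} (hc : 0 < c₀)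
    (h0 : ∀ x, (∫ t in (-(π / 2))..(π / 2), H x 0 t) +
      (∫ t in (π / 2)..(3 * π / 2), H x π t) ≤ -c₀) :
    ∃ ε₀ > 0, ∀ ε ∈ Ioo (0:ℝ) ε₀, ∀ x, ∫ r in (0:ℝ)..(2 * π), thA' ε r * H x r (thA ε r) ≤ -(c₀ / 2) := by
  classical
  have hpi := Real.pi_pos
  -- the inverse angles
  have hex : ∀ ε > 0, ∃ ρ : ℝ → ℝ, Inv (thA ε) (thA' ε) ρ := fun ε hε => by
    obtain ⟨ρ, g1, g2, g3, g4⟩ := (ang_thA hε).exists_inv
    exact ⟨ρ, ang_thA hε, g1, g2, g3, g4⟩
  choose! ρ hρ using hex
  have hρr : ∀ ε > 0, ∀ t, thA ε (ρ ε t) = t := fun ε hε => (hρ ε hε).right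
  -- the modulus of continuity
  set D : (ℝ × ℝ) × ℝ → ℝ := fun q => ⨆ x : κ, |H x q.1.1 q.2 - H x q.1.2 q.2| with hD
  have hDf : Continuous fun p : ((ℝ × ℝ) × ℝ) × κ => |H p.2 p.1.1.1 p.1.2 - H p.2 p.1.1.2 p.1.2| := by
    have e1 : Continuous fun p : ((ℝ × ℝ) × ℝ) × κ => H p.2 p.1.1.1 p.1.2 :=
      hH.comp (f := fun p : ((ℝ × ℝ) × ℝ) × κ => ((p.1.1.1, p.1.2), p.2)) (by fun_prop)
    have e2 : Continuous fun p : ((ℝ × ℝ) × ℝ) × κ => H p.2 p.1.1.2 p.1.2 :=
      hH.comp (f := fun p : ((ℝ × ℝ) × ℝ) × κ => ((p.1.1.2, p.1.2), p.2)) (by fun_prop)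
    exact (e1.sub e2).abs
  have hDc : Continuous D := by
    have h1 := (isCompact_univ (X := κ)).continuous_sSup
      (f := fun (q : (ℝ × ℝ) × ℝ) (x : κ) => |H x q.1.1 q.2 - H x q.1.2 q.2|) hDf
    simpa only [image_univ, sSup_range] using h1
  have hbd : ∀ q : (ℝ × ℝ) × ℝ, BddAbove (range fun x : κ => |H x q.1.1 q.2 - H x q.1.2 q.2|) := by
    intro q
    have : Continuous fun x : κ => |H x q.1.1 q.2 - H x q.1.2 q.2| :=
      hDf.comp (continuous_const.prodMk continuous_id)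
    have h2 := (isCompact_univ (X := κ)).bddAbove_image this.continuousOn
    rwa [image_univ] at h2
  have hDle : ∀ x r r' t, |H x r t - H x r' t| ≤ D ((r, r'), t) := fun x r r' t =>
    le_ciSup (hbd ((r, r'), t)) x
  have hD0 : ∀ r t, D ((r, r), t) = 0 := fun r t => by
    simp only [hD, sub_self, abs_zero, ciSup_const]
  -- special values
  have hv1 : ∀ ε > 0, ρ ε (-(π / 2)) = -(π / 2) := fun ε hε => by
    have h1 : thA ε (-(π / 2)) = -(π / 2) := by
      unfold thA gA; simp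
    rw [← h1, (hρ ε hε).left, h1]
  have hv2 : ∀ ε > 0, ρ ε (3 * π / 2) = 3 * π / 2 := fun ε hε => by
    have h1 : (3 * π / 2 : ℝ) = -(π / 2) + 2 * π := by ring
    rw [h1, (hρ ε hε).per_two, hv1 ε hε]
  have hmono : ∀ ε > 0, Monotone (ρ ε) := fun ε hε => by
    intro a b hab
    by_contra hlt
    have h1 := (ang_thA hε).strictMono (not_le.1 hlt)
    rw [hρr ε hε, hρr ε hε] at h1
    exact absurd hab (not_le.2 h1)
  have hmem : ∀ ε > 0, ∀ t ∈ Icc (-(π / 2)) (3 * π / 2), ρ ε t ∈ Icc (-(π / 2)) (3 * π / 2) :=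
    fun ε hε t ht => ⟨by rw [← hv1 ε hε]; exact hmono ε hε ht.1,
      by rw [← hv2 ε hε]; exact hmono ε hε ht.2⟩
  -- the bound of `D`
  obtain ⟨M, hM⟩ : ∃ M : ℝ, ∀ r ∈ Icc (-(π / 2)) (3 * π / 2), ∀ r' ∈ Icc (-(π / 2)) (3 * π / 2),
      ∀ t ∈ Icc (-(π / 2)) (3 * π / 2), |D ((r, r'), t)| ≤ M := by
    have hK : IsCompact ((Icc (-(π / 2)) (3 * π / 2) ×ˢ Icc (-(π / 2)) (3 * π / 2)) ×ˢ
        Icc (-(π / 2)) (3 * π / 2) : Set ((ℝ × ℝ) × ℝ)) :=
      (isCompact_Icc.prod isCompact_Icc).prod isCompact_Icc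
    obtain ⟨M, hM⟩ := hK.exists_bound_of_continuousOn hDc.continuousOn
    exact ⟨M, fun r hr r' hr' t ht => hM ((r, r'), t) ⟨⟨hr, hr'⟩, ht⟩⟩
  -- the two limits
  have hlim1 : Tendsto (fun ε => ∫ t in (-(π / 2))..(π / 2), D ((ρ ε t, 0), t)) (𝓝[>] 0) (𝓝 0) := by
    have h1 := intervalIntegral.tendsto_integral_filter_of_dominated_convergence
      (μ := volume) (l := 𝓝[>] (0:ℝ)) (a := -(π / 2)) (b := π / 2)
      (F := fun ε t => D ((ρ ε t, 0), t)) (f := fun _ => (0:ℝ)) (fun _ => M) ?_ ?_ ?_ ?_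
    · simpa using h1
    · filter_upwards [self_mem_nhdsWithin] with ε hε
      exact (hDc.comp (((hρ ε hε).cont.prodMk continuous_const).prodMk
        continuous_id)).aestronglyMeasurable
    · filter_upwards [self_mem_nhdsWithin] with ε hε
      refine Eventually.of_forall fun t ht => ?_
      rw [uIoc_of_le (by linarith)] at ht
      have ht' : t ∈ Icc (-(π / 2)) (3 * π / 2) := ⟨ht.1.le, by linarith [ht.2]⟩
      exact hM _ (hmem ε hε t ht') 0 ⟨by linarith, by linarith⟩ t ht'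
    · exact intervalIntegrable_const
    · have h2 : ∀ᵐ t : ℝ, t ≠ π / 2 := by
        simp [ae_iff, measure_singleton]
      filter_upwards [h2] with t ht2 ht
      rw [uIoc_of_le (by linarith)] at ht
      have h3 := tendsto_inv (fun ε hε => hρr ε hε) (t := t) ⟨ht.1, lt_of_le_of_ne ht.2 ht2⟩
      have h4 : Tendsto (fun ε => ((ρ ε t, (0:ℝ)), t)) (𝓝[>] (0:ℝ)) (𝓝 ((0, 0), t)) :=
        (h3.prodMk_nhds tendsto_const_nhds).prodMk_nhds tendsto_const_nhds
      have h5 := (hDc.tendsto ((0, 0), t)).comp h4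
      rw [hD0] at h5
      exact h5
  have hlim2 : Tendsto (fun ε => ∫ t in (π / 2)..(3 * π / 2), D ((ρ ε t, π), t)) (𝓝[>] 0)
      (𝓝 0) := by
    have h1 := intervalIntegral.tendsto_integral_filter_of_dominated_convergence
      (μ := volume) (l := 𝓝[>] (0:ℝ)) (a := π / 2) (b := 3 * π / 2)
      (F := fun ε t => D ((ρ ε t, π), t)) (f := fun _ => (0:ℝ)) (fun _ => M) ?_ ?_ ?_ ?_
    · simpa using h1
    · filter_upwards [self_mem_nhdsWithin] with ε hε
      exact (hDc.comp (((hρ ε hε).cont.prodMk continuous_const).prodMk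
        continuous_id)).aestronglyMeasurable
    · filter_upwards [self_mem_nhdsWithin] with ε hε
      refine Eventually.of_forall fun t ht => ?_
      rw [uIoc_of_le (by linarith)] at ht
      have ht' : t ∈ Icc (-(π / 2)) (3 * π / 2) := ⟨by linarith [ht.1], by linarith [ht.2]⟩
      exact hM _ (hmem ε hε t ht') π ⟨by linarith, by linarith⟩ t ht'
    · exact intervalIntegrable_const
    · have h2 : ∀ᵐ t : ℝ, t ≠ 3 * π / 2 := by
        simp [ae_iff, measure_singleton]
      filter_upwards [h2] with t ht2 ht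
      rw [uIoc_of_le (by linarith)] at ht
      have h6 : t < 3 * π / 2 := lt_of_le_of_ne ht.2 ht2
      have h3 := tendsto_inv (fun ε hε => hρr ε hε) (t := t - π)
        ⟨by linarith [ht.1], by linarith⟩
      have h3' : Tendsto (fun ε => ρ ε t) (𝓝[>] (0:ℝ)) (𝓝 π) := by
        have h7 := h3.add_const π
        rw [zero_add] at h7
        refine h7.congr' ?_
        filter_upwards [self_mem_nhdsWithin] with ε hε
        rw [← (hρ ε hε).per]; congr 1; ring
      have h4 : Tendsto (fun ε => ((ρ ε t, π), t)) (𝓝[>] (0:ℝ)) (𝓝 ((π, π), t)) :=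
        (h3'.prodMk_nhds tendsto_const_nhds).prodMk_nhds tendsto_const_nhds
      have h5 := (hDc.tendsto ((π, π), t)).comp h4
      rw [hD0] at h5
      exact h5
  have hlim := hlim1.add hlim2
  rw [add_zero] at hlim
  -- choice of `ε₀`
  have hev := hlim.eventually (gt_mem_nhds (show (0:ℝ) < c₀ / 2 by linarith))
  obtain ⟨ε₀, hε₀, hsub⟩ := mem_nhdsGT_iff_exists_Ioo_subset.1 hev
  refine ⟨ε₀, hε₀, fun ε hε x => ?_⟩
  have hlt := hsub hε
  rw [mem_ofPred_eq] at hlt
  have hε' : 0 < ε := hε.1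
  -- substitution
  have hHx : Continuous fun p : ℝ × ℝ => H x p.1 p.2 :=
    hH.comp (continuous_id.prodMk continuous_const)
  have hgc : Continuous fun t => H x (ρ ε t) t :=
    hHx.comp ((hρ ε hε').cont.prodMk continuous_id)
  have hsubst : ∫ r in (0:ℝ)..(2 * π), thA' ε r * H x r (thA ε r) =
      ∫ t in (-(π / 2))..(3 * π / 2), H x (ρ ε t) t := by
    have h1 := intervalIntegral.integral_comp_mul_deriv (a := 0) (b := 2 * π) (f := thA ε)
      (f' := thA' ε) (g := fun t => H x (ρ ε t) t) (fun r _ => (ang_thA hε').der r)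
      (ang_thA hε').cont.continuousOn hgc
    have h2 : thA ε 0 = 0 := by unfold thA gA; simp
    have h3 : thA ε (2 * π) = 2 * π := by
      have := (ang_thA hε').per_two 0
      rw [zero_add, h2, zero_add] at this
      exact this
    rw [h2, h3] at h1
    have h4 : Function.Periodic (fun t => H x (ρ ε t) t) (2 * π) := fun t => by
      change H x (ρ ε (t + 2 * π)) (t + 2 * π) = H x (ρ ε t) t
      rw [(hρ ε hε').per_two, hper]
    have h5 := h4.intervalIntegral_add_eq 0 (-(π / 2))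
    rw [zero_add] at h5
    have h6 : -(π / 2) + 2 * π = 3 * π / 2 := by ring
    rw [h6] at h5
    rw [← h5, ← h1]
    refine intervalIntegral.integral_congr fun r _ => ?_
    simp only [Function.comp, (hρ ε hε').left]
    ring
  rw [hsubst, ← intervalIntegral.integral_add_adjacent_intervals
    (hgc.intervalIntegrable (-(π / 2)) (π / 2)) (hgc.intervalIntegrable (π / 2) (3 * π / 2))]
  have hc1 : Continuous fun t => D ((ρ ε t, 0), t) :=
    hDc.comp (((hρ ε hε').cont.prodMk continuous_const).prodMk continuous_id)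
  have hc2 : Continuous fun t => D ((ρ ε t, π), t) :=
    hDc.comp (((hρ ε hε').cont.prodMk continuous_const).prodMk continuous_id)
  have hc3 : Continuous fun t => H x 0 t := hHx.comp (continuous_const.prodMk continuous_id)
  have hc4 : Continuous fun t => H x π t := hHx.comp (continuous_const.prodMk continuous_id)
  have e1 : ∫ t in (-(π / 2))..(π / 2), H x (ρ ε t) t ≤ (∫ t in (-(π / 2))..(π / 2), H x 0 t) +
      ∫ t in (-(π / 2))..(π / 2), D ((ρ ε t, 0), t) := by
    rw [← intervalIntegral.integral_add (hc3.intervalIntegrable _ _) (hc1.intervalIntegrable _ _)]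
    refine intervalIntegral.integral_mono_on (by linarith) (hgc.intervalIntegrable _ _)
      ((hc3.add hc1).intervalIntegrable _ _) fun t _ => ?_
    have := (abs_le.1 (hDle x (ρ ε t) 0 t)).2
    linarith
  have e2 : ∫ t in (π / 2)..(3 * π / 2), H x (ρ ε t) t ≤ (∫ t in (π / 2)..(3 * π / 2), H x π t) +
      ∫ t in (π / 2)..(3 * π / 2), D ((ρ ε t, π), t) := by
    rw [← intervalIntegral.integral_add (hc4.intervalIntegrable _ _) (hc2.intervalIntegrable _ _)]
    refine intervalIntegral.integral_mono_on (by linarith) (hgc.intervalIntegrable _ _)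
      ((hc4.add hc2).intervalIntegrable _ _) fun t _ => ?_
    have := (abs_le.1 (hDle x (ρ ε t) π t)).2
    linarith
  have e3 := h0 x
  linarith

end Crest.Agent.R208.KR
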