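import Crest.Agent.R208.KR1

/-!
R208, block KF (helper844), file KR2: integral positivity of a continuous kernel implies pointwise
positivity; the shear form of Fubini.
-/

set_option autoImplicit false

open Set Filter Topology MeasureTheory Real
open scoped RealInnerProductSpace Interval ContDiff

noncomputable section

namespace Crest.Agent.R208.KR

/-- integral over a period, shifted -/
theorem per_int {f : ℝ → ℝ} (hp : ∀ t, f (t + 2 * π) = f t) (j : ℝ) :
    ∫ t in (0:ℝ)..(2 * π), f t = ∫ t in (-π)..π, f (t + j) := by
  rw [intervalIntegral.integral_comp_add_right (fun t => f t) j, ← per_shift hp (-π + j)]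
  congr 1; ring

theorem psd_of_int {k : ℝ → ℝ → ℝ} (hc : Continuous (Function.uncurry k))
    (ha : ∀ x y, k (x + 2 * π) y = -k x y) (ha' : ∀ x y, k x (y + 2 * π) = -k x y)
    (hpos : ∀ c : ℝ → ℝ, ContDiff ℝ ∞ c → (∀ x, c (x + 2 * π) = -c x) →
      0 ≤ ∫ x in (0:ℝ)..(2 * π), ∫ y in (0:ℝ)..(2 * π), c x * c y * k x y)
    (s : Finset ℝ) (c : ℝ → ℝ) : 0 ≤ ∑ i ∈ s, ∑ j ∈ s, c i * c j * k i j := by
  have hpi := Real.pi_pos
  set G : ℝ → ℝ → ℝ := fun x y => ∑ i ∈ s, ∑ j ∈ s, c i * c j * k (x + i) (y + j) with hG
  have hGc : Continuous (Function.uncurry G) := by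
    refine continuous_finsetSum _ fun i _ => continuous_finsetSum _ fun j _ => ?_
    have : Continuous fun p : ℝ × ℝ => k (p.1 + i) (p.2 + j) :=
      hc.comp ((continuous_fst.add continuous_const).prodMk (continuous_snd.add continuous_const))
    exact continuous_const.mul this
  -- the antiperiodic test functions
  set φ : ℕ → ℝ → ℝ := fun n x => cos (x / 2) ^ (2 * n + 1) with hφ
  have hφa : ∀ n x, φ n (x + 2 * π) = -φ n x := by
    intro n x
    simp only [hφ]
    have : (x + 2 * π) / 2 = x / 2 + π := by ring
    rw [this, cos_add_pi, Odd.neg_pow ⟨n, rfl⟩]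
  have hφc : ∀ n, Continuous (φ n) := fun n => by simp only [hφ]; fun_prop
  have hφd : ∀ n, ContDiff ℝ ∞ (φ n) := fun n => by simp only [hφ]; fun_prop
  have key : ∀ n, 0 ≤ ∫ x in (-π)..π, ∫ y in (-π)..π, φ n x * φ n y * G x y := by
    intro n
    have h1 := hpos (fun x => ∑ i ∈ s, c i * φ n (x - i))
      (ContDiff.sum fun i _ => contDiff_const.mul ((hφd n).comp (contDiff_id.sub contDiff_const)))
      (fun x => by
        rw [← Finset.sum_neg_distrib]
        refine Finset.sum_congr rfl fun i _ => ?_
        have : x + 2 * π - i = x - i + 2 * π := by ring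
        rw [this, hφa]; ring)
    refine h1.trans (le_of_eq ?_)
    -- inner integral
    have e1 : ∀ x, ∫ y in (0:ℝ)..(2 * π), (∑ i ∈ s, c i * φ n (x - i)) *
        (∑ j ∈ s, c j * φ n (y - j)) * k x y =
        (∑ i ∈ s, c i * φ n (x - i)) * ∑ j ∈ s, c j * ∫ y in (-π)..π, φ n y * k x (y + j) := by
      intro x
      simp only [mul_assoc]
      rw [intervalIntegral.integral_const_mul]
      congr 1
      simp only [Finset.sum_mul]
      have hkc : Continuous fun y => k x y := hc.comp (continuous_const.prodMk continuous_id)
      rw [intervalIntegral.integral_finsetSum]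
      · refine Finset.sum_congr rfl fun j _ => ?_
        simp only [mul_assoc]
        rw [intervalIntegral.integral_const_mul]
        congr 1
        rw [per_int (f := fun y => φ n (y - j) * k x y) (fun t => ?_) j]
        · refine intervalIntegral.integral_congr fun y _ => ?_
          simp only [add_sub_cancel_right]
        · have : t + 2 * π - j = t - j + 2 * π := by ring
          rw [this, hφa, ha']; ring
      · intro j _
        refine Continuous.intervalIntegrable ?_ _ _
        exact (continuous_const.mul ((hφc n).comp (continuous_id.sub continuous_const))).mul hkc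
    simp only [e1]
    -- outer integral
    have hI : ∀ j, Continuous fun x => ∫ y in (-π)..π, φ n y * k x (y + j) := by
      intro j
      refine intervalIntegral.continuous_parametric_intervalIntegral_of_continuous' ?_ _ _
      have : Continuous fun p : ℝ × ℝ => k p.1 (p.2 + j) :=
        hc.comp (continuous_fst.prodMk (continuous_snd.add continuous_const))
      exact ((hφc n).comp continuous_snd).mul this
    have hIa : ∀ j x, ∫ y in (-π)..π, φ n y * k (x + 2 * π) (y + j) =
        -∫ y in (-π)..π, φ n y * k x (y + j) := by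
      intro j x
      rw [← intervalIntegral.integral_neg]
      refine intervalIntegral.integral_congr fun y _ => ?_
      simp only [ha]; ring
    have e2 : ∫ x in (0:ℝ)..(2 * π), (∑ i ∈ s, c i * φ n (x - i)) *
        ∑ j ∈ s, c j * ∫ y in (-π)..π, φ n y * k x (y + j) =
        ∑ i ∈ s, c i * ∫ x in (-π)..π, φ n x *
          ∑ j ∈ s, c j * ∫ y in (-π)..π, φ n y * k (x + i) (y + j) := by
      simp only [Finset.sum_mul]
      have hS : Continuous fun x => ∑ j ∈ s, c j * ∫ y in (-π)..π, φ n y * k x (y + j) :=
        continuous_finsetSum _ fun j _ => continuous_const.mul (hI j)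
      rw [intervalIntegral.integral_finsetSum]
      · refine Finset.sum_congr rfl fun i _ => ?_
        simp only [mul_assoc]
        rw [intervalIntegral.integral_const_mul]
        congr 1
        rw [per_int (f := fun x => φ n (x - i) *
          ∑ j ∈ s, c j * ∫ y in (-π)..π, φ n y * k x (y + j)) (fun t => ?_) i]
        · refine intervalIntegral.integral_congr fun x _ => ?_
          simp only [add_sub_cancel_right]
        · simp only [hIa, mul_neg, Finset.sum_neg_distrib]
          have : t + 2 * π - i = t - i + 2 * π := by ring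
          rw [this, hφa]; ring
      · intro i _
        refine Continuous.intervalIntegrable ?_ _ _
        exact (continuous_const.mul ((hφc n).comp (continuous_id.sub continuous_const))).mul hS
    rw [e2]
    have hI2 : ∀ i j, Continuous fun x => ∫ y in (-π)..π, φ n y * k (x + i) (y + j) :=
      fun i j => (hI j).comp (continuous_id.add continuous_const)
    have e3 : ∀ i, c i * ∫ x in (-π)..π, φ n x *
          ∑ j ∈ s, c j * ∫ y in (-π)..π, φ n y * k (x + i) (y + j) =
        ∫ x in (-π)..π, φ n x * ∑ j ∈ s, c i * (c j * ∫ y in (-π)..π, φ n y * k (x + i) (y + j)) := by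
      intro i
      rw [← intervalIntegral.integral_const_mul]
      refine intervalIntegral.integral_congr fun x _ => ?_
      rw [← Finset.mul_sum]; ring
    simp only [e3]
    rw [← intervalIntegral.integral_finsetSum]
    · refine intervalIntegral.integral_congr fun x _ => ?_
      rw [← Finset.mul_sum]
      have e4 : ∀ i ∈ s, ∀ j ∈ s, c i * (c j * ∫ y in (-π)..π, φ n y * k (x + i) (y + j)) =
          ∫ y in (-π)..π, φ n y * (c i * c j * k (x + i) (y + j)) := by
        intro i _ j _
        rw [← intervalIntegral.integral_const_mul, ← intervalIntegral.integral_const_mul]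
        refine intervalIntegral.integral_congr fun y _ => ?_
        ring
      rw [Finset.sum_congr rfl fun i hi => Finset.sum_congr rfl fun j hj => e4 i hi j hj]
      have hkc : ∀ i j, Continuous fun y => φ n y * (c i * c j * k (x + i) (y + j)) := by
        intro i j
        have : Continuous fun y => k (x + i) (y + j) :=
          hc.comp (continuous_const.prodMk (continuous_id.add continuous_const))
        exact (hφc n).mul (continuous_const.mul this)
      have e5 : ∀ i ∈ s, ∑ j ∈ s, ∫ y in (-π)..π, φ n y * (c i * c j * k (x + i) (y + j)) =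
          ∫ y in (-π)..π, ∑ j ∈ s, φ n y * (c i * c j * k (x + i) (y + j)) := by
        intro i _
        rw [intervalIntegral.integral_finsetSum]
        exact fun j _ => (hkc i j).intervalIntegrable _ _
      rw [Finset.sum_congr rfl e5, ← intervalIntegral.integral_finsetSum]
      · rw [← intervalIntegral.integral_const_mul]
        refine intervalIntegral.integral_congr fun y _ => ?_
        simp only [hG, ← Finset.mul_sum]
        ring
      · intro i _
        exact (continuous_finsetSum _ fun j _ => hkc i j).intervalIntegrable _ _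
    · intro i _
      refine Continuous.intervalIntegrable ?_ _ _
      exact (hφc n).mul (continuous_finsetSum _ fun j _ =>
        continuous_const.mul (continuous_const.mul (hI2 i j)))
  -- the peak functions
  have hpk := tendsto_setIntegral_pow_smul_of_unique_maximum_of_isCompact_of_continuousOn
    (μ := (volume : Measure (ℝ × ℝ))) (s := Icc (-π) π ×ˢ Icc (-π) π) (x₀ := ((0:ℝ), (0:ℝ)))
    (isCompact_Icc.prod isCompact_Icc)
    (c := fun p : ℝ × ℝ => cos (p.1 / 2) ^ 2 * cos (p.2 / 2) ^ 2)
    (g := fun p : ℝ × ℝ => cos (p.1 / 2) * cos (p.2 / 2) * G p.1 p.2)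
    (by fun_prop) ?_ (fun _ _ => by positivity) (by simp) ?_ ?_
  · have h0 : G 0 0 = ∑ i ∈ s, ∑ j ∈ s, c i * c j * k i j := by simp [hG]
    have h1 : cos (((0:ℝ), (0:ℝ)).1 / 2) * cos (((0:ℝ), (0:ℝ)).2 / 2) *
        G ((0:ℝ), (0:ℝ)).1 ((0:ℝ), (0:ℝ)).2 = G 0 0 := by simp
    rw [h1] at hpk
    rw [← h0]
    refine ge_of_tendsto hpk (Eventually.of_forall fun n => ?_)
    rw [smul_eq_mul]
    refine mul_nonneg (inv_nonneg.2 (integral_nonneg fun p => by positivity)) ?_
    refine (key n).trans (le_of_eq ?_)
    rw [Measure.volume_eq_prod, setIntegral_prod]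
    · rw [intervalIntegral.integral_of_le (by linarith), integral_Icc_eq_integral_Ioc]
      refine setIntegral_congr_fun measurableSet_Ioc fun x _ => ?_
      simp only
      rw [intervalIntegral.integral_of_le (by linarith), integral_Icc_eq_integral_Ioc]
      refine setIntegral_congr_fun measurableSet_Ioc fun y _ => ?_
      simp only [hφ, smul_eq_mul, pow_succ, pow_mul, mul_pow]
      ring
    · refine ContinuousOn.integrableOn_compact (isCompact_Icc.prod isCompact_Icc) ?_
      have : Continuous fun p : ℝ × ℝ => G p.1 p.2 := hGc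
      have h2 : Continuous fun p : ℝ × ℝ => (cos (p.1 / 2) ^ 2 * cos (p.2 / 2) ^ 2) ^ n •
          (cos (p.1 / 2) * cos (p.2 / 2) * G p.1 p.2) := by
        simp only [smul_eq_mul]; fun_prop
      exact h2.continuousOn
  · rintro ⟨x, y⟩ ⟨hx, hy⟩ hne
    simp only [mem_Icc] at hx hy
    have hcx : ∀ x : ℝ, -π ≤ x → x ≤ π → x ≠ 0 → cos (x / 2) ^ 2 < 1 := by
      intro x h1 h2 h3
      have h4 : sin (x / 2) ≠ 0 := by
        intro h5
        have := (sin_eq_zero_iff_of_lt_of_lt (by linarith) (by linarith)).1 h5
        exact h3 (by linarith)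
      have h6 := sin_sq_add_cos_sq (x / 2)
      have : 0 < sin (x / 2) ^ 2 := by positivity
      linarith
    have hle : ∀ x : ℝ, cos (x / 2) ^ 2 ≤ 1 := fun x => by
      have h6 := sin_sq_add_cos_sq (x / 2)
      nlinarith [sq_nonneg (sin (x / 2))]
    simp only [zero_div, cos_zero, one_pow, mul_one]
    by_cases hx0 : x = 0
    · have hy0 : y ≠ 0 := fun h => hne (by rw [hx0, h])
      have := hcx y hy.1 hy.2 hy0
      nlinarith [hle x, sq_nonneg (cos (x / 2)), sq_nonneg (cos (y / 2))]
    · have := hcx x hx.1 hx.2 hx0
      nlinarith [hle y, sq_nonneg (cos (x / 2)), sq_nonneg (cos (y / 2))]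
  · rw [interior_prod_eq, interior_Icc]
    refine subset_closure ⟨?_, ?_⟩ <;> simp [hpi]
  · have : Continuous fun p : ℝ × ℝ => G p.1 p.2 := hGc
    exact Continuous.continuousOn (by fun_prop)

/-- **Fubini after a shear.** -/
theorem shear {F : ℝ → ℝ → ℝ} (hF : Continuous (Function.uncurry F))
    (hp : ∀ r t, F (r + 2 * π) (t + 2 * π) = F r t) :
    ∫ t in (0:ℝ)..(2 * π), ∫ r in (t - π)..t, F r t =
      ∫ r in (0:ℝ)..(2 * π), ∫ t in r..(r + π), F r t := by
  have e1 : ∀ t, ∫ r in (t - π)..t, F r t = ∫ σ in (0:ℝ)..π, F (t - σ) t := by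
    intro t
    rw [intervalIntegral.integral_comp_sub_left (fun r => F r t) t, sub_zero]
  have e2 : ∀ r, ∫ t in r..(r + π), F r t = ∫ σ in (0:ℝ)..π, F r (r + σ) := by
    intro r
    rw [intervalIntegral.integral_comp_add_left (fun t => F r t) r, add_zero]
  simp only [e1, e2]
  rw [intervalIntegral_intervalIntegral_swap, intervalIntegral_intervalIntegral_swap
    (F := fun r σ => F r (r + σ))]
  · refine intervalIntegral.integral_congr fun σ _ => ?_
    have h1 : ∫ x in (0:ℝ)..(2 * π), F (x - σ) x = ∫ x in (0:ℝ)..(2 * π), (fun y => F y (y + σ)) (x - σ) := by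
      refine intervalIntegral.integral_congr fun x _ => ?_
      simp only [sub_add_cancel]
    rw [h1, intervalIntegral.integral_comp_sub_right (fun y => F y (y + σ)) σ]
    have h2 := per_shift (f := fun y => F y (y + σ)) (fun y => by
      have : y + 2 * π + σ = y + σ + 2 * π := by ring
      simp only [this, hp]) (0 - σ)
    rw [← h2]
    congr 1; ring
  · refine (Continuous.continuousOn ?_).integrableOn_compact (isCompact_uIcc.prod isCompact_uIcc) |>.mono_set
      (prod_mono uIoc_subset_uIcc uIoc_subset_uIcc)
    exact hF.comp (continuous_fst.prodMk (continuous_fst.add continuous_snd))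
  · refine (Continuous.continuousOn ?_).integrableOn_compact (isCompact_uIcc.prod isCompact_uIcc) |>.mono_set
      (prod_mono uIoc_subset_uIcc uIoc_subset_uIcc)
    exact hF.comp ((continuous_fst.sub continuous_snd).prodMk continuous_fst)

end Crest.Agent.R208.KR
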