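import Crest.Agent.R208.NN4c

/-!
Row 208, block [N], part NN4d (helper589): the index form is nonnegative on the complement of a
`(k-1)`-dimensional negative space of periodic fields.
-/

set_option autoImplicit false

open MeasureTheory Measure Set Filter Topology Module Metric
open scoped ContDiff RealInnerProductSpace
open Crest.GeometryTopology.Submanifold
open Crest.Agent.R241.DDefs
open Crest.Agent.R241.D2
open Crest.Agent.R208.L (om TanTS dfl om_dfl)
open Crest.Agent.R208.FI (Tan Sub)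

noncomputable section

namespace Crest.Agent.R208.NN

variable {n N k K : ℕ} {κ : ℝ} {S : Set (Euc N)} {G : Geo n N κ S} {q z ξ : Euc N × Euc N}
  {a b c : ℝ} {A A' B B' V V' W W' : ℝ → Euc N}

/-- the linear condition `P_{V₀}(x + f' y)` (`x = W(0)`, `y = W(π)`) -/
def lv (G : Geo n N κ S) (z : Euc N × Euc N) (x y : Euc N) : Euc N :=
  (V0 G z).starProjection (x + GT.lf G (qq G z) z.1 y)

theorem lv_mem (x y : Euc N) : lv G z x y ∈ V0 G z := Submodule.starProjection_apply_mem _ _

theorem inner_lv (h : GT.Bla G k) (hz : z ∈ L.US G) (x y : Euc N) {u : Euc N} (hu : u ∈ V0 G z) :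
    ⟪u, lv G z x y⟫ = ⟪u, x⟫ + ⟪GT.lf G z.1 (qq G z) u, y⟫ := by
  rw [lv, ← Submodule.inner_starProjection_left_eq_right,
    Submodule.starProjection_eq_self_iff.2 hu, inner_add_right,
    inner_lf_adj (q := qq G z) h (mem_FF h hz) (mem_V0.1 hu).1]

theorem lv_add (x x' y y' : Euc N) : lv G z (x + x') (y + y') = lv G z x y + lv G z x' y' := by
  unfold lv
  rw [← map_add, map_add (GT.lf G (qq G z) z.1)]
  congr 1
  abel

theorem lv_smul (r : ℝ) (x y : Euc N) : lv G z (r • x) (r • y) = r • lv G z x y := by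
  unfold lv
  rw [map_smul, ← smul_add, map_smul]

/-- periodic broken fields with `l = 0` -/
theorem nonneg_of_lv (h : GT.Bla G k) (hz : z ∈ L.US G)
    (hV : BFld G z 0 (2 * Real.pi) V V') (hper : V (2 * Real.pi) = V 0)
    (hl : lv G z (V 0) (V Real.pi) = 0) :
    0 ≤ SV.ix G z 0 (2 * Real.pi) V V' V V' := by
  refine nonneg_per_b h hz hV hper fun w hw => ?_
  rw [← inner_lv h hz _ _ hw, hl, inner_zero_right]

/-- **the complement of a negative space of dimension `k - 1`** -/
theorem nonneg_compl (h : GT.Bla G k) (hz : z ∈ L.US G) {E : Type*} [AddCommGroup E] [Module ℝ E]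
    [FiniteDimensional ℝ E] (hE : k ≤ finrank ℝ E + 1) (F F' : E →ₗ[ℝ] (ℝ → Euc N))
    (hF : ∀ w, BFld G z 0 (2 * Real.pi) (F w) (F' w)) (hFp : ∀ w, F w (2 * Real.pi) = F w 0)
    (hneg : ∀ w, w ≠ 0 → SV.ix G z 0 (2 * Real.pi) (F w) (F' w) (F w) (F' w) < 0)
    (hW : BFld G z 0 (2 * Real.pi) W W') (hper : W (2 * Real.pi) = W 0)
    (horth : ∀ w, SV.ix G z 0 (2 * Real.pi) (F w) (F' w) W W' = 0) :
    0 ≤ SV.ix G z 0 (2 * Real.pi) W W' W W' := by
  by_contra hcon
  rw [not_le] at hcon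
  have hpi : (0 : ℝ) ≤ 2 * Real.pi := by positivity
  -- the linear map `(w, r) ↦ l (F w + r W)`
  let Λ : E × ℝ →ₗ[ℝ] Euc N :=
    { toFun := fun x => lv G z (F x.1 0 + x.2 • W 0) (F x.1 Real.pi + x.2 • W Real.pi)
      map_add' := fun x y => by
        rw [← lv_add]
        simp only [Prod.fst_add, Prod.snd_add, map_add, Pi.add_apply, add_smul]
        congr 1 <;> abel
      map_smul' := fun r x => by
        rw [RingHom.id_apply, ← lv_smul]
        simp only [Prod.smul_fst, Prod.smul_snd, map_smul, Pi.smul_apply, smul_add, smul_assoc] }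
  have h1 := finrank_ker_ge Λ (V0 G z) (fun x => lv_mem _ _)
  have h2 : finrank ℝ (E × ℝ) = finrank ℝ E + 1 := by
    rw [Module.finrank_prod, Module.finrank_self]
  have h3 := finrank_V0 h hz
  have h4 : LinearMap.ker Λ ≠ ⊥ := by
    intro h0
    rw [h0, finrank_bot, h2] at h1
    omega
  obtain ⟨⟨w, r⟩, hx, hx0⟩ := (Submodule.ne_bot_iff _).1 h4
  have hl : lv G z (F w 0 + r • W 0) (F w Real.pi + r • W Real.pi) = 0 := hx
  have h5 := nonneg_of_lv h hz ((hF w).add (hW.smul r)) (by
    simp only [Pi.add_apply, Pi.smul_apply, hFp, hper]) (by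
    simpa only [Pi.add_apply, Pi.smul_apply] using hl)
  rw [BFld.ix_add_self hpi hz.1 (hF w) (hW.smul r), SV.ix_smul_left, SV.ix_smul_left,
    SV.ix_smul_right, BFld.ix_symm hpi hz.1 hW (hF w), horth w] at h5
  by_cases hw : w = 0
  · have hr : r ≠ 0 := by
      rintro rfl
      exact hx0 (by rw [hw]; rfl)
    have h6 : SV.ix G z 0 (2 * Real.pi) (F w) (F' w) (F w) (F' w) = 0 := by
      have h7 := SV.ix_smul_left (G := G) (q := z) (a := 0) (b := 2 * Real.pi) (A := F w)
        (A' := F' w) (C := F w) (C' := F' w) 0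
      rw [hw, map_zero, map_zero] at h7 ⊢
      simpa using h7
    rw [h6] at h5
    have : 0 < r * r := mul_self_pos.2 hr
    nlinarith
  · have h6 := hneg w hw
    have : 0 ≤ r * r := mul_self_nonneg r
    nlinarith

/-- `fd` as a linear map -/
def fdL (G : Geo n N κ S) (z : Euc N × Euc N) (ν : Fin K → ℝ) : Wt N K →ₗ[ℝ] (ℝ → Euc N) where
  toFun w := fd G z ν w
  map_add' w w' := by ext1 t; simp [fd]
  map_smul' r w := by ext1 t; simp [fd]

/-- `fd'` as a linear map -/
def fdL' (G : Geo n N κ S) (z : Euc N × Euc N) (ν : Fin K → ℝ) : Wt N K →ₗ[ℝ] (ℝ → Euc N) where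
  toFun w := fd' G z ν w
  map_add' w w' := by
    funext t
    simp only [fd', map_add, Pi.add_apply]
    exact add_add_add_comm _ _ _ _
  map_smul' r w := by
    funext t
    simp only [fd', map_smul, Pi.smul_apply, smul_add, RingHom.id_apply]

/-- **the complement of the negative space of `qf`** -/
theorem nonneg_compl_qf (h : GT.Bla G k) (hz : z ∈ L.US G) {Q : Submodule ℝ (Wt N K)}
    (hQ : k ≤ finrank ℝ Q + 1) (hneg : ∀ w ∈ Q, w ≠ 0 → qf G z (nuP K) w < 0)
    (hW : BFld G z 0 (2 * Real.pi) W W') (hper : W (2 * Real.pi) = W 0)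
    (horth : ∀ w ∈ Q, SV.ix G z 0 (2 * Real.pi) (fd G z (nuP K) w) (fd' G z (nuP K) w) W W' = 0) :
    0 ≤ SV.ix G z 0 (2 * Real.pi) W W' W W' := by
  refine nonneg_compl h hz (E := Q) hQ ((fdL G z (nuP K)).comp Q.subtype)
    ((fdL' G z (nuP K)).comp Q.subtype) (fun w => BFld.of_fld (fld_fd hz.1 _ _ _ _))
    (fun w => fd_two_pi h hz _) (fun w hw => ?_) hW hper (fun w => horth w w.2)
  refine (qf_ge G z (nuP K) _).trans_lt (hneg w w.2 fun h0 => hw (Subtype.ext h0))

end Crest.Agent.R208.NN
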