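import Crest.Agent.R208.SV2

/-!
R208, block SV (helper336), part 3: the uniform pointwise second order expansion of
`|D Exp (x,y) (u,w)|^2`.
-/

set_option autoImplicit false

open Set Filter Topology MeasureTheory
open scoped ContDiff RealInnerProductSpace Interval
open Crest.GeometryTopology.Submanifold
open Crest.Agent.R241.DDefs
open Crest.Agent.R241.D2
open Crest.Agent.R208.L (om TanTS dfl)

noncomputable section

namespace Crest.Agent.R208.SV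

variable {n N : ℕ} {κ : ℝ} {S : Set (Euc N)} {G : Geo n N κ S} {q ξ : Euc N × Euc N}

variable (G) in
/-- linearised flow as a function of all its variables -/
def LL (p : ((Euc N × Euc N) × (Euc N × Euc N)) × ℝ) : Euc N × Euc N :=
  fderiv ℝ (fl G) (p.1.1, p.2) (p.1.2, 0)

lemma LL_eq (hq : q ∈ TS G) (ξ : Euc N × Euc N) (s : ℝ) : LL G ((q, ξ), s) = dfl G q s ξ :=
  (L.dfl_apply hq s ξ).symm

lemma contDiffAt_LL (hq : q ∈ TS G) (ξ : Euc N × Euc N) (s : ℝ) :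
    ContDiffAt ℝ ∞ (LL G) ((q, ξ), s) := by
  have h0 : ContDiffAt ℝ ∞ (fderiv ℝ (fl G)) (q, s) :=
    (contDiffAt_fl' G hq s).fderiv_right (m := ∞) (by simp)
  have h1 : ContDiffAt ℝ ∞ (fun p : ((Euc N × Euc N) × (Euc N × Euc N)) × ℝ => (p.1.1, p.2))
      ((q, ξ), s) := by fun_prop
  have h2 : ContDiffAt ℝ ∞ (fun p : ((Euc N × Euc N) × (Euc N × Euc N)) × ℝ => (p.1.2, (0:ℝ)))
      ((q, ξ), s) := by fun_prop
  have h3 : ContDiffAt ℝ ∞ (fun p : ((Euc N × Euc N) × (Euc N × Euc N)) × ℝ =>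
      fderiv ℝ (fl G) (p.1.1, p.2)) ((q, ξ), s) :=
    ContDiffAt.comp (g := fderiv ℝ (fl G)) ((q, ξ), s) h0 h1
  exact h3.clm_apply h2

variable (G) in
def g0 (p : ((Euc N × Euc N) × (Euc N × Euc N)) × ℝ) : ℝ := ‖(LL G p).1‖ ^ 2

variable (G) in
def g1 (p : ((Euc N × Euc N) × (Euc N × Euc N)) × ℝ) : ℝ := 2 * ⟪(LL G p).1, (LL G p).2⟫

variable (G) in
def g2 (p : ((Euc N × Euc N) × (Euc N × Euc N)) × ℝ) : ℝ :=
  2 * ‖(LL G p).2‖ ^ 2 +
    2 * ⟪(LL G p).1, (fderiv ℝ (X G) (fl G (p.1.1, p.2)) (LL G p)).2⟫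

lemma hasDerivAt_g0 (hq : q ∈ TS G) (ξ : Euc N × Euc N) (s : ℝ) :
    HasDerivAt (fun s => g0 G ((q, ξ), s)) (g1 G ((q, ξ), s)) s := by
  have h := hasDerivAt_jf hq ξ s
  have e : (fun s => g0 G ((q, ξ), s)) = fun s => ‖jf G q ξ s‖ ^ 2 := by
    funext r; unfold g0; rw [LL_eq hq]; rfl
  rw [e]
  refine (h.norm_sq).congr_deriv ?_
  unfold g1
  rw [LL_eq hq]
  rfl

lemma hasDerivAt_g1 (hq : q ∈ TS G) (ξ : Euc N × Euc N) (s : ℝ) :
    HasDerivAt (fun s => g1 G ((q, ξ), s)) (g2 G ((q, ξ), s)) s := by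
  have h := hasDerivAt_jf hq ξ s
  have h' := hasDerivAt_jf' hq ξ s
  have e : (fun s => g1 G ((q, ξ), s)) = fun s => 2 * ⟪jf G q ξ s, jf' G q ξ s⟫ := by
    funext r; unfold g1; rw [LL_eq hq]; rfl
  rw [e]
  refine ((h.inner ℝ h').const_mul 2).congr_deriv ?_
  unfold g2
  rw [LL_eq hq]
  change 2 * (⟪jf G q ξ s, _⟫ + ⟪jf' G q ξ s, jf' G q ξ s⟫) =
    2 * ‖jf' G q ξ s‖ ^ 2 + 2 * ⟪jf G q ξ s, _⟫
  rw [real_inner_self_eq_norm_sq]
  ring

lemma contDiffAt_g2 (hq : q ∈ TS G) (ξ : Euc N × Euc N) (s : ℝ) :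
    ContDiffAt ℝ 1 (g2 G) ((q, ξ), s) := by
  have hL : ContDiffAt ℝ ∞ (LL G) ((q, ξ), s) := contDiffAt_LL hq ξ s
  have h0 : ContDiffAt ℝ ∞ (fun p : ((Euc N × Euc N) × (Euc N × Euc N)) × ℝ =>
      fl G (p.1.1, p.2)) ((q, ξ), s) := by
    have h1 : ContDiffAt ℝ ∞ (fun p : ((Euc N × Euc N) × (Euc N × Euc N)) × ℝ => (p.1.1, p.2))
      ((q, ξ), s) := by fun_prop
    exact ContDiffAt.comp (g := fl G) ((q, ξ), s) (contDiffAt_fl' G hq s) h1
  have hX : ContDiff ℝ ∞ (fderiv ℝ (X G)) := (contDiff_X G).fderiv_right (by simp)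
  have h2 : ContDiffAt ℝ ∞ (fun p : ((Euc N × Euc N) × (Euc N × Euc N)) × ℝ =>
      fderiv ℝ (X G) (fl G (p.1.1, p.2)) (LL G p)) ((q, ξ), s) :=
    (hX.contDiffAt.comp _ h0).clm_apply hL
  have h3 : ContDiffAt ℝ ∞ (g2 G) ((q, ξ), s) :=
    (contDiffAt_const.mul (hL.snd.norm_sq ℝ)).add
      (contDiffAt_const.mul (hL.fst.inner ℝ h2.snd))
  exact h3.of_le (by simp)

/-! ### scaling -/

lemma tanTS_scale {x y u w : Euc N} (h : TanTS G (x, y) (u, w)) (s : ℝ) :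
    TanTS G (x, s • y) (u, s • w) := by
  obtain ⟨c, h0, hc, hS⟩ := h
  refine ⟨fun r => ((c r).1, s • (c r).2), by simp [h0], (hda_fst hc).prodMk
    ((hda_snd hc).const_smul s), ?_⟩
  filter_upwards [hS] with r hr
  exact ⟨hr.1, (G.T _).smul_mem s hr.2⟩

lemma dfl_scale {x y u w : Euc N} (h : TanTS G (x, y) (u, w)) (s : ℝ) :
    (dfl G (x, y) s (u, w)).1 = (dfl G (x, s • y) 1 (u, s • w)).1 := by
  have hq := mem_TS h
  have hq' := mem_TS (tanTS_scale h s)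
  obtain ⟨c, h0, hc, hS⟩ := h
  have h1 : HasDerivAt (fun r => (fl G (c r, s)).1) (dfl G (x, y) s (u, w)).1 0 := by
    have h2 : HasFDerivAt (fun y => fl G (y, s)) (dfl G (x, y) s) (c 0) := by
      rw [h0]; exact L.hasFDerivAt_fl_left hq s
    exact hda_fst (h2.comp_hasDerivAt (0 : ℝ) hc)
  have h2 : HasDerivAt (fun r => (fl G (((c r).1, s • (c r).2), 1)).1)
      (dfl G (x, s • y) 1 (u, s • w)).1 0 := by
    have h3 : HasDerivAt (fun r => ((c r).1, s • (c r).2)) (u, s • w) 0 :=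
      (hda_fst hc).prodMk ((hda_snd hc).const_smul s)
    have h4 : HasFDerivAt (fun y => fl G (y, 1)) (dfl G (x, s • y) 1)
        ((c 0).1, s • (c 0).2) := by
      rw [h0]; exact L.hasFDerivAt_fl_left hq' 1
    exact hda_fst (HasFDerivAt.comp_hasDerivAt (f := fun r => ((c r).1, s • (c r).2)) (0 : ℝ) h4 h3)
  refine h1.unique (h2.congr_of_eventuallyEq ?_)
  filter_upwards [hS] with r hr
  exact (Exp_smul G hr.1 hr.2 s).symm

/-! ### the remainder -/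

variable (G) in
/-- the second order remainder -/
def Rr (x y u w : Euc N) : ℝ :=
  ‖(dfl G (x, y) 1 (u, w)).1‖ ^ 2 - ‖u‖ ^ 2 - 2 * ⟪u, w⟫ -
    (‖w‖ ^ 2 - ⟪II G x y y, II G x u u⟫)

variable (G) in
/-- a compact set of tangent data -/
def KK (M : ℝ) : Set ((Euc N × Euc N) × (Euc N × Euc N)) :=
  {z | z.1 ∈ TS G ∧ (z.1.1, z.2.1) ∈ TS G ∧ ‖z.1.2‖ ≤ 1 ∧ ‖z.2.1‖ ≤ 1 ∧ ‖z.2.2‖ ≤ M}

lemma isCompact_KK (hc : IsCompact S) (M : ℝ) : IsCompact (KK G M) := by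
  have h1 : IsCompact ((S ×ˢ Metric.closedBall (0 : Euc N) 1) ×ˢ
      (Metric.closedBall (0 : Euc N) 1 ×ˢ Metric.closedBall (0 : Euc N) M)) :=
    (hc.prod (isCompact_closedBall _ _)).prod
      ((isCompact_closedBall _ _).prod (isCompact_closedBall _ _))
  refine h1.of_isClosed_subset ?_ ?_
  · have c1 : IsClosed {z : (Euc N × Euc N) × (Euc N × Euc N) | z.1 ∈ TS G} :=
      (isClosed_TS G).preimage continuous_fst
    have c2 : IsClosed {z : (Euc N × Euc N) × (Euc N × Euc N) | (z.1.1, z.2.1) ∈ TS G} :=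
      (isClosed_TS G).preimage (by fun_prop)
    have c3 : IsClosed {z : (Euc N × Euc N) × (Euc N × Euc N) | ‖z.1.2‖ ≤ 1} :=
      isClosed_le (by fun_prop) continuous_const
    have c4 : IsClosed {z : (Euc N × Euc N) × (Euc N × Euc N) | ‖z.2.1‖ ≤ 1} :=
      isClosed_le (by fun_prop) continuous_const
    have c5 : IsClosed {z : (Euc N × Euc N) × (Euc N × Euc N) | ‖z.2.2‖ ≤ M} :=
      isClosed_le (by fun_prop) continuous_const
    exact c1.inter (c2.inter (c3.inter (c4.inter c5)))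
  · rintro z ⟨h1, h2, h3, h4, h5⟩
    refine ⟨⟨h1.1, by simpa using h3⟩, by simpa using h4, by simpa using h5⟩

lemma step1 (hc : IsCompact S) (M : ℝ) : ∃ C, 0 ≤ C ∧ ∀ x y u w : Euc N,
    TanTS G (x, y) (u, w) → ‖y‖ ≤ 1 → ‖u‖ ≤ 1 → ‖w‖ ≤ M → ∀ s ∈ Icc (0 : ℝ) 1,
      |Rr G x (s • y) u (s • w)| ≤ C * s ^ 3 := by
  obtain ⟨C, hC0, hC⟩ := taylor2 (isCompact_KK (G := G) hc M) (g0 := g0 G) (g1 := g1 G)
    (g2 := g2 G) (fun z hz s _ => hasDerivAt_g0 hz.1 z.2 s)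
    (fun z hz s _ => hasDerivAt_g1 hz.1 z.2 s) (fun z hz s _ => contDiffAt_g2 hz.1 z.2 s)
  refine ⟨C, hC0, ?_⟩
  intro x y u w h hy hu hw s hs
  have hq := mem_TS h
  have hxu : (x, u) ∈ TS G := ⟨hq.1, h.fst_mem⟩
  have h1 := hC ((x, y), (u, w)) ⟨hq, hxu, hy, hu, hw⟩ s hs
  refine le_trans (le_of_eq ?_) h1
  congr 1
  unfold Rr g0 g1 g2
  rw [LL_eq hq, LL_eq hq, L.dfl_zero hq, dfl_scale h s, fl_zero]
  have e1 : ⟪u, (fderiv ℝ (X G) (x, y) (u, w)).2⟫ = -⟪II G x y y, II G x u u⟫ := by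
    rw [real_inner_comm, L.inner_fderiv_X hq h h.fst_mem]
    rfl
  simp only [e1]
  have e2 : II G x (s • y) (s • y) = (s ^ 2) • II G x y y := by
    unfold II
    rw [map_smul, map_smul, smul_apply, smul_smul, pow_two]
  rw [e2, norm_smul, inner_smul_right, real_inner_smul_left, mul_pow, Real.norm_eq_abs, sq_abs]
  ring

end Crest.Agent.R208.SV
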