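import Crest.Agent.R208.KR2
import Crest.Agent.R208.NN4d
import Crest.Agent.R208.SV3

/-!
R208, block KF (helper844), file KR3: the tangent fields `xi` obtained by integrating a curve of
half Jacobi fields, and their index forms.
-/

set_option autoImplicit false

open Set Filter Topology MeasureTheory Real
open scoped RealInnerProductSpace Interval ContDiff
open Crest.GeometryTopology.Submanifold
open Crest.Agent.R241.DDefs
open Crest.Agent.R241.D2
open Crest.Agent.R208.L (om TanTS dfl om_dfl)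
open Crest.Agent.R208.FI (Tan Sub)

noncomputable section

namespace Crest.Agent.R208.KR

variable {n N k K : ℕ} {κ : ℝ} {S : Set (Euc N)} {G : Geo n N κ S} {z ξ η : Euc N × Euc N}

/-! ### the linearised flow -/

/-- the linearised geodesic equation in operator form -/
theorem hasDerivAt_dfl_op (hz : z ∈ TS G) (t : ℝ) :
    HasDerivAt (fun t => dfl G z t) ((fderiv ℝ (X G) (fl G (z, t))).comp (dfl G z t)) t := by
  have h0 := contDiffAt_fl' G hz t
  have hd : DifferentiableAt ℝ (fderiv ℝ (fl G)) (z, t) :=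
    (h0.fderiv_right (m := ∞) (by simp)).differentiableAt (by simp)
  have h1 : HasDerivAt (fun s : ℝ => ((z, s) : (Euc N × Euc N) × ℝ)) (0, 1) t :=
    (hasDerivAt_const t z).prodMk (hasDerivAt_id t)
  have h2 : HasDerivAt (fun s => fderiv ℝ (fl G) (z, s))
      (fderiv ℝ (fderiv ℝ (fl G)) (z, t) (0, 1)) t := hd.hasFDerivAt.comp_hasDerivAt t h1
  have h3 : HasDerivAt (fun s => (fderiv ℝ (fl G) (z, s)).comp
      (ContinuousLinearMap.inl ℝ (Euc N × Euc N) ℝ))
      ((fderiv ℝ (fderiv ℝ (fl G)) (z, t) (0, 1)).comp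
      (ContinuousLinearMap.inl ℝ (Euc N × Euc N) ℝ)) t := by
    simpa using h2.clm_comp (hasDerivAt_const t (ContinuousLinearMap.inl ℝ (Euc N × Euc N) ℝ))
  have h4 : (fun s => (fderiv ℝ (fl G) (z, s)).comp
      (ContinuousLinearMap.inl ℝ (Euc N × Euc N) ℝ)) = fun s => dfl G z s := by
    funext s
    refine ContinuousLinearMap.ext fun ξ => ?_
    rw [L.dfl_apply hz]; rfl
  rw [h4] at h3
  refine h3.congr_deriv ?_
  refine ContinuousLinearMap.ext fun ξ => ?_
  have h5 : HasDerivAt (fun s => dfl G z s ξ) (((fderiv ℝ (fderiv ℝ (fl G)) (z, t) (0, 1)).comp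
      (ContinuousLinearMap.inl ℝ (Euc N × Euc N) ℝ)) ξ) t := by
    simpa using h3.clm_apply (hasDerivAt_const t ξ)
  exact h5.unique (L.hasDerivAt_dfl hz ξ t)

theorem continuous_dfl (hz : z ∈ TS G) : Continuous fun t => dfl G z t :=
  continuous_iff_continuousAt.2 fun t => (hasDerivAt_dfl_op hz t).continuousAt

/-- cocycle identity -/
theorem dfl_add (hz : z ∈ TS G) (s t : ℝ) (ξ : Euc N × Euc N) :
    dfl G z (s + t) ξ = dfl G (fl G (z, s)) t (dfl G z s ξ) := by
  have hc : ContinuousAt (fun y => (fl G (y, s), t)) z := by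
    have h1 : ContinuousAt (fl G) (z, s) := (contDiffAt_fl' G hz s).continuousAt
    have h2 : ContinuousAt (fun y : Euc N × Euc N => (y, s)) z := by fun_prop
    exact (ContinuousAt.comp (f := fun y : Euc N × Euc N => (y, s)) (x := z) h1 h2).prodMk
      continuousAt_const
  have h1 : (fun y => fl G (y, s + t)) =ᶠ[𝓝 z] fun y => fl G (fl G (y, s), t) := by
    have e1 : ∀ᶠ y in 𝓝 z, (y, s) ∈ fd G := by
      have h2 : ContinuousAt (fun y : Euc N × Euc N => (y, s)) z := by fun_prop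
      exact h2.eventually ((isOpen_fd G).mem_nhds (complete G hz s))
    have e2 : ∀ᶠ y in 𝓝 z, (fl G (y, s), t) ∈ fd G :=
      hc.eventually ((isOpen_fd G).mem_nhds (complete G (fl_mem G hz s) t))
    filter_upwards [e1, e2] with y h3 h4
    exact (fl_add G h3 h4).2
  have h2 : HasFDerivAt (fun y => fl G (fl G (y, s), t))
      ((dfl G (fl G (z, s)) t).comp (dfl G z s)) z :=
    HasFDerivAt.comp (g := fun y => fl G (y, t)) (f := fun y => fl G (y, s)) z
      (L.hasFDerivAt_fl_left (fl_mem G hz s) t) (L.hasFDerivAt_fl_left hz s)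
  have h3 := (L.hasFDerivAt_fl_left hz (s + t)).unique (h2.congr_of_eventuallyEq h1)
  rw [h3]; rfl

theorem dfl_neg (hz : z ∈ TS G) (s : ℝ) (ξ : Euc N × Euc N) :
    dfl G z s (dfl G (fl G (z, s)) (-s) ξ) = ξ := by
  have h0 : fl G (fl G (z, s), -s) = z := by
    rw [← fl_add' G hz, add_neg_cancel, fl_zero]
  have h1 := dfl_add (fl_mem G hz s) (-s) s ξ
  rw [neg_add_cancel, L.dfl_zero (fl_mem G hz s), h0] at h1
  exact h1.symm

/-- periodicity -/
theorem dfl_per (h : GT.Bla G k) (hz : z ∈ L.US G) (hξ : ξ ∈ Tan (L.US G) z) (t : ℝ) :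
    dfl G z (t + 2 * π) ξ = dfl G z t ξ := by
  rw [add_comm, dfl_add hz.1, NN.dfl_two_pi h hz hξ, NN.fl_two_pi h hz]

theorem fl_per (h : GT.Bla G k) (hz : z ∈ L.US G) (t : ℝ) :
    fl G (z, t + 2 * π) = fl G (z, t) := by
  rw [add_comm, fl_add' G hz.1, NN.fl_two_pi h hz]

/-! ### integrals in submodules -/

theorem integral_mem {E : Type*} [NormedAddCommGroup E] [NormedSpace ℝ E] [FiniteDimensional ℝ E]
    {V : Submodule ℝ E} {X : ℝ → E} (hc : Continuous X) (hm : ∀ t, X t ∈ V) (a b : ℝ) :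
    ∫ t in a..b, X t ∈ V := by
  by_contra hcon
  obtain ⟨φ, hφ, hφV⟩ := Submodule.exists_le_ker_of_notMem hcon
  let φ' : E →L[ℝ] ℝ := LinearMap.toContinuousLinearMap φ
  have h1 : φ' (∫ t in a..b, X t) = ∫ t in a..b, φ' (X t) :=
    (φ'.intervalIntegral_comp_comm (hc.intervalIntegrable a b)).symm
  have h2 : ∀ t, φ' (X t) = 0 := fun t => hφV (hm t)
  simp only [h2, intervalIntegral.integral_zero] at h1
  exact hφ h1

/-! ### the fields -/

/-- a continuous curve of Jacobi fields, the `r`-th one vanishing at `r` and `r + π` -/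
structure Crv (G : Geo n N κ S) (z : Euc N × Euc N) (C : ℝ → Euc N × Euc N) : Prop where
  cont : Continuous C
  tan : ∀ r, C r ∈ Tan (L.US G) z
  v0 : ∀ r, SV.jf G z (C r) r = 0
  v1 : ∀ r, SV.jf G z (C r) (r + π) = 0

/-- the tangent field -/
def xi (G : Geo n N κ S) (z : Euc N × Euc N) (C : ℝ → Euc N × Euc N) (t : ℝ) : Euc N :=
  SV.jf G z (∫ r in (t - π)..t, C r) t

/-- its derivative -/
def xi' (G : Geo n N κ S) (z : Euc N × Euc N) (C : ℝ → Euc N × Euc N) (t : ℝ) : Euc N :=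
  SV.jf' G z (∫ r in (t - π)..t, C r) t

variable {C D : ℝ → Euc N × Euc N}

theorem hasDerivAt_pint {E : Type*} [NormedAddCommGroup E] [NormedSpace ℝ E] [CompleteSpace E]
    {Y : ℝ → E} (hY : Continuous Y) (t : ℝ) :
    HasDerivAt (fun t => ∫ r in (t - π)..t, Y r) (Y t - Y (t - π)) t := by
  have hP : ∀ t, HasDerivAt (fun t => ∫ s in (0:ℝ)..t, Y s) (Y t) t := fun t =>
    intervalIntegral.integral_hasDerivAt_right (hY.intervalIntegrable _ _)
      (hY.stronglyMeasurableAtFilter _ _) hY.continuousAt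
  have h2 : HasDerivAt (fun t : ℝ => t - π) 1 t := (hasDerivAt_id t).sub_const π
  have h4 := (hP (t - π)).scomp t h2
  rw [one_smul] at h4
  have h5 := (hP t).sub h4
  refine h5.congr_of_eventuallyEq (Eventually.of_forall fun s => ?_)
  show (∫ r in (s - π)..s, Y r) = (∫ u in (0:ℝ)..s, Y u) - ∫ u in (0:ℝ)..(s - π), Y u
  rw [intervalIntegral.integral_interval_sub_left (hY.intervalIntegrable _ _)
    (hY.intervalIntegrable _ _)]

theorem Crv.hasDerivAt (hX : Crv G z C) (hz : z ∈ TS G) (t : ℝ) :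
    HasDerivAt (xi G z C) (xi' G z C t) t := by
  have h1 := hasDerivAt_pint hX.cont t
  have h2 := hda_fst ((hasDerivAt_dfl_op hz t).clm_apply h1)
  refine h2.congr_deriv ?_
  have h3 : (dfl G z t (C t)).1 = 0 := hX.v0 t
  have h4 : (dfl G z t (C (t - π))).1 = 0 := by
    have := hX.v1 (t - π)
    rwa [sub_add_cancel] at this
  rw [map_sub]
  simp only [Prod.fst_add, Prod.fst_sub, h3, h4, sub_zero, add_zero]
  change (fderiv ℝ (X G) (fl G (z, t)) (dfl G z t _)).1 = _
  rw [L.fderiv_X_fst]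
  rfl

theorem Crv.int_tan (hX : Crv G z C) (a b : ℝ) : ∫ r in a..b, C r ∈ Tan (L.US G) z :=
  integral_mem hX.cont hX.tan a b

theorem Crv.continuous_int (hX : Crv G z C) : Continuous fun t => ∫ r in (t - π)..t, C r :=
  continuous_iff_continuousAt.2 fun t => (hasDerivAt_pint hX.cont t).continuousAt

theorem Crv.continuous_xi' (hX : Crv G z C) (hz : z ∈ TS G) : Continuous (xi' G z C) :=
  ((continuous_dfl hz).clm_apply hX.continuous_int).snd

theorem Crv.mem (h : GT.Bla G k) (hX : Crv G z C) (hz : z ∈ L.US G) (t : ℝ) :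
    xi G z C t ∈ G.T (fl G (z, t)).1 :=
  SV.jf_mem (NN.tanTS_of_Tan h hz (hX.int_tan _ _)) t

theorem Crv.fld (h : GT.Bla G k) (hX : Crv G z C) (hz : z ∈ L.US G) (a b : ℝ) :
    SV.Fld G z a b (xi G z C) (xi' G z C) where
  der t _ := (hX.hasDerivAt hz.1 t).hasDerivWithinAt
  cont := (hX.continuous_xi' hz.1).continuousOn
  mem t _ := hX.mem h hz t

/-- `ε`-periodicity -/
theorem Crv.xi_per (h : GT.Bla G k) (hX : Crv G z C) (hz : z ∈ L.US G) {ε : ℝ}
    (hε : ∀ r, C (r + 2 * π) = ε • C r) (t : ℝ) :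
    xi G z C (t + 2 * π) = ε • xi G z C t ∧ xi' G z C (t + 2 * π) = ε • xi' G z C t := by
  have h1 : ∫ r in (t + 2 * π - π)..(t + 2 * π), C r = ε • ∫ r in (t - π)..t, C r := by
    rw [← intervalIntegral.integral_smul]
    have h2 : ∫ r in (t - π)..t, ε • C r = ∫ r in (t - π)..t, C (r + 2 * π) :=
      intervalIntegral.integral_congr fun r _ => (hε r).symm
    rw [h2, intervalIntegral.integral_comp_add_right (fun r => C r) (2 * π)]
    congr 1; ring
  unfold xi xi' SV.jf SV.jf'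
  rw [h1, dfl_per h hz (Submodule.smul_mem _ _ (hX.int_tan _ _)), map_smul]
  exact ⟨rfl, rfl⟩

/-- a globally defined `C¹` tangent field -/
structure GF (G : Geo n N κ S) (z : Euc N × Euc N) (ε : ℝ) (A A' : ℝ → Euc N) : Prop where
  der : ∀ t, HasDerivAt A (A' t) t
  cont : Continuous A'
  mem : ∀ t, A t ∈ G.T (fl G (z, t)).1
  per : ∀ t, A (t + 2 * π) = ε • A t
  per' : ∀ t, A' (t + 2 * π) = ε • A' t

theorem GF.fld {ε : ℝ} {A A' : ℝ → Euc N} (hA : GF G z ε A A') (a b : ℝ) : SV.Fld G z a b A A' where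
  der t _ := (hA.der t).hasDerivWithinAt
  cont := hA.cont.continuousOn
  mem t _ := hA.mem t

theorem GF.contA {ε : ℝ} {A A' : ℝ → Euc N} (hA : GF G z ε A A') : Continuous A :=
  continuous_iff_continuousAt.2 fun t => (hA.der t).continuousAt

theorem Crv.gf (h : GT.Bla G k) (hX : Crv G z C) (hz : z ∈ L.US G) {ε : ℝ}
    (hε : ∀ r, C (r + 2 * π) = ε • C r) : GF G z ε (xi G z C) (xi' G z C) where
  der := hX.hasDerivAt hz.1
  cont := hX.continuous_xi' hz.1
  mem := hX.mem h hz
  per t := (hX.xi_per h hz hε t).1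
  per' t := (hX.xi_per h hz hε t).2

/-- the integrand of the index form against a fixed field, as a functional of the Jacobi field -/
def fn (G : Geo n N κ S) (z : Euc N × Euc N) (B B' : ℝ → Euc N) (t : ℝ) : Euc N × Euc N →L[ℝ] ℝ :=
  (innerSL ℝ (B' t)).comp ((ContinuousLinearMap.snd ℝ (Euc N) (Euc N)).comp (dfl G z t)) -
  (innerSL ℝ (X G (fl G (z, t))).2).comp
    (((fderiv ℝ G.P (fl G (z, t)).1).flip (B t)).comp
      ((ContinuousLinearMap.fst ℝ (Euc N) (Euc N)).comp (dfl G z t)))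

theorem fn_apply (B B' : ℝ → Euc N) (t : ℝ) (ξ : Euc N × Euc N) :
    fn G z B B' t ξ = SV.ixd G z (SV.jf G z ξ) (SV.jf' G z ξ) B B' t := by
  unfold fn SV.ixd SV.jf SV.jf' II
  rw [real_inner_comm]
  rfl

theorem continuous_fn (hz : z ∈ TS G) {B B' : ℝ → Euc N} (hB : Continuous B) (hB' : Continuous B') :
    Continuous (fn G z B B') := by
  have h1 := SV.continuous_fl (G := G) hz
  have h2 : Continuous fun t => (X G (fl G (z, t))).2 := ((contDiff_X G).continuous.comp h1).snd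
  have h3 : Continuous (fderiv ℝ G.P) := G.contDiff_P.continuous_fderiv (by simp)
  have h4 := continuous_dfl hz
  unfold fn
  have h5 : Continuous fun t => (fderiv ℝ G.P (fl G (z, t)).1).flip :=
    (ContinuousLinearMap.flipₗᵢ ℝ (Euc N) (Euc N) (Euc N)).continuous.comp (h3.comp h1.fst)
  have h6 : Continuous fun t => (fderiv ℝ G.P (fl G (z, t)).1).flip (B t) := h5.clm_apply hB
  have h7 : Continuous fun t => innerSL ℝ (B' t) := (innerSL ℝ).continuous.comp hB'
  have h8 : Continuous fun t => innerSL ℝ (X G (fl G (z, t))).2 := (innerSL ℝ).continuous.comp h2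
  exact (h7.clm_comp (continuous_const.clm_comp h4)).sub
    (h8.clm_comp (h6.clm_comp (continuous_const.clm_comp h4)))

theorem ixd_xi {B B' : ℝ → Euc N} (hC : Continuous C) (t : ℝ) :
    SV.ixd G z (xi G z C) (xi' G z C) B B' t = ∫ r in (t - π)..t, fn G z B B' t (C r) := by
  rw [(fn G z B B' t).intervalIntegral_comp_comm (hC.intervalIntegrable _ _), fn_apply]
  unfold SV.ixd xi xi'
  rfl

theorem fn_per (h : GT.Bla G k) (hz : z ∈ L.US G) {ε : ℝ} (hε1 : ε * ε = 1)
    {B B' : ℝ → Euc N} (hB : GF G z ε B B') (hξ : ξ ∈ Tan (L.US G) z) (t : ℝ) :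
    fn G z B B' (t + 2 * π) (ε • ξ) = fn G z B B' t ξ := by
  have e1 : fn G z B B' (t + 2 * π) ξ = ε * fn G z B B' t ξ := by
    rw [fn_apply, fn_apply]
    unfold SV.ixd SV.jf SV.jf' II
    rw [dfl_per h hz hξ, fl_per h hz, hB.per, hB.per', map_smul, real_inner_smul_right,
      real_inner_smul_right, mul_sub]
  rw [map_smul, smul_eq_mul, e1, ← mul_assoc, hε1, one_mul]

/-- **index form of `xi` against a field.** -/
theorem ix_xi (h : GT.Bla G k) (hz : z ∈ L.US G) (hX : Crv G z C) {ε : ℝ} (hε1 : ε * ε = 1)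
    (hε : ∀ r, C (r + 2 * π) = ε • C r) {B B' : ℝ → Euc N} (hB : GF G z ε B B') :
    SV.ix G z 0 (2 * π) (xi G z C) (xi' G z C) B B' =
      ∫ r in (0:ℝ)..(2 * π), (⟪SV.jf' G z (C r) (r + π), B (r + π)⟫ - ⟪SV.jf' G z (C r) r, B r⟫) := by
  have hpi := Real.pi_pos
  have hfc := continuous_fn hz.1 hB.contA hB.cont
  unfold SV.ix
  rw [intervalIntegral.integral_congr fun t _ => ixd_xi (B := B) (B' := B') hX.cont t]
  rw [shear (F := fun r t => fn G z B B' t (C r))]
  · refine intervalIntegral.integral_congr fun r _ => ?_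
    have := SV.ix_jac (NN.tanTS_of_Tan h hz (hX.tan r)) (a := r) (b := r + π) (by linarith)
      (hB.fld r (r + π))
    rw [← this]
    unfold SV.ix
    exact intervalIntegral.integral_congr fun t _ => fn_apply B B' t (C r)
  · exact (hfc.comp continuous_snd).clm_apply (hX.cont.comp continuous_fst)
  · intro r t
    rw [hε]
    exact fn_per h hz hε1 hB (hX.tan r) t

/-- **index form of two such fields** -/
theorem ix_xi_xi (h : GT.Bla G k) (hz : z ∈ L.US G) (hX : Crv G z C) (hY : Crv G z D) {ε : ℝ}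
    (hε1 : ε * ε = 1) (hε : ∀ r, C (r + 2 * π) = ε • C r) (hε' : ∀ r, D (r + 2 * π) = ε • D r) :
    SV.ix G z 0 (2 * π) (xi G z C) (xi' G z C) (xi G z D) (xi' G z D) =
      ∫ r in (0:ℝ)..(2 * π), (om (C r) (∫ s in r..(r + π), D s) -
        om (C r) (∫ s in (r - π)..r, D s)) := by
  rw [ix_xi h hz hX hε1 hε (hY.gf h hz hε')]
  refine intervalIntegral.integral_congr fun r _ => ?_
  have hTX := NN.tanTS_of_Tan h hz (hX.tan r)
  have h1 : ⟪SV.jf' G z (C r) (r + π), xi G z D (r + π)⟫ = om (C r) (∫ s in r..(r + π), D s) := by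
    rw [← om_dfl hz.1 hTX (NN.tanTS_of_Tan h hz (hY.int_tan r (r + π))) (r + π)]
    unfold xi om
    have h3 : (dfl G z (r + π) (C r)).1 = 0 := hX.v1 r
    rw [h3, inner_zero_right, sub_zero, add_sub_cancel_right]
    rfl
  have h2 : ⟪SV.jf' G z (C r) r, xi G z D r⟫ = om (C r) (∫ s in (r - π)..r, D s) := by
    rw [← om_dfl hz.1 hTX (NN.tanTS_of_Tan h hz (hY.int_tan (r - π) r)) r]
    unfold xi om
    have h3 : (dfl G z r (C r)).1 = 0 := hX.v0 r
    rw [h3, inner_zero_right, sub_zero]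
    rfl
  simp only [h1, h2]

end Crest.Agent.R208.KR
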