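import Crest.Agent.R208.KR4

/-!
R208, block KF (helper844), file KR5: smoothness of `uu`, the Jacobi fields `Jr z r w`.
-/

set_option autoImplicit false

open Set Filter Topology MeasureTheory Real Module
open scoped RealInnerProductSpace Interval ContDiff
open Crest.GeometryTopology.Submanifold
open Crest.Agent.R241.DDefs
open Crest.Agent.R241.D2
open Crest.Agent.R208.L (om TanTS dfl om_dfl)
open Crest.Agent.R208.FI (Tan Sub)
open Crest.Agent.R208.NN (Wt nuP qq V0 fd fd' qf Rt ev ev')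

noncomputable section

namespace Crest.Agent.R208.KR

variable {n N k K : ℕ} {κ : ℝ} {S : Set (Euc N)} {G : Geo n N κ S} {z ξ η : Euc N × Euc N}
  {h : GT.Bla G k} {P : Euc N × Euc N → Wt N K →L[ℝ] Wt N K}

/-! ### smoothness -/

theorem dfl_eq_inl {q : Euc N × Euc N} {t : ℝ} (hq : (q, t) ∈ R241.D2.fd G) :
    dfl G q t = (fderiv ℝ (fl G) (q, t)).comp (ContinuousLinearMap.inl ℝ (Euc N × Euc N) ℝ) := by
  have h1 := ((contDiffAt_fl G hq).differentiableAt (by simp)).hasFDerivAt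
  have h2 : HasFDerivAt (fun y : Euc N × Euc N => (y, t))
      (ContinuousLinearMap.inl ℝ (Euc N × Euc N) ℝ) q :=
    (hasFDerivAt_id q).prodMk (hasFDerivAt_const t q)
  exact (HasFDerivAt.comp (g := fl G) q h1 h2).fderiv

/-- the linearised flow is jointly smooth -/
theorem contDiffAt_dfl {q : Euc N × Euc N} (hq : q ∈ TS G) (t : ℝ) :
    ContDiffAt ℝ ∞ (fun p : (Euc N × Euc N) × ℝ => dfl G p.1 p.2) (q, t) := by
  have h0 : ContDiffAt ℝ ∞ (fderiv ℝ (fl G)) (q, t) :=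
    (contDiffAt_fl' G hq t).fderiv_right (m := ∞) (by simp)
  have h1 : ContDiffAt ℝ ∞ (fun p : (Euc N × Euc N) × ℝ =>
      (fderiv ℝ (fl G) p).comp (ContinuousLinearMap.inl ℝ (Euc N × Euc N) ℝ)) (q, t) :=
    h0.clm_comp contDiffAt_const
  refine h1.congr_of_eventuallyEq ?_
  filter_upwards [(isOpen_fd G).mem_nhds (complete G hq t)] with p hp
  exact dfl_eq_inl hp

theorem contDiffAt_PV0 (h : GT.Bla G k) (hz : z ∈ L.US G) : ContDiffAt ℝ ∞ (PV0 h) z := by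
  unfold PV0
  have h1 : ContDiffAt ℝ ∞ (fun z => FV.PVB h (FV.phi G z)) z :=
    (FV.contDiff_PVB h).contDiffAt.comp z (FV.contDiffAt_phi hz.1)
  have h2 : ContDiffAt ℝ ∞ (fun z : Euc N × Euc N => (innerSL ℝ z.2).smulRight z.2) z := by
    have e1 : ContDiff ℝ ∞ (fun z : Euc N × Euc N => innerSL ℝ z.2) :=
      (innerSL ℝ).contDiff.comp contDiff_snd
    exact (e1.smulRight contDiff_snd).contDiffAt
  exact h1.sub h2

theorem contDiffAt_fo (hz : z ∈ TS G) (t : ℝ) : ContDiffAt ℝ ∞ (fun z => fo G K z t) z := by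
  unfold fo
  have h1 : ContDiffAt ℝ ∞ (fun z => (fl G (z, t)).1) z := by
    have e1 : ContDiffAt ℝ ∞ (fun z : Euc N × Euc N => (z, t)) z := by fun_prop
    exact (ContDiffAt.comp (g := fl G) z (contDiffAt_fl' G hz t) e1).fst
  exact (G.contDiff_P.contDiffAt.comp z h1).clm_comp contDiffAt_const

theorem contDiffAt_De (hz : z ∈ TS G) : ContDiffAt ℝ ∞ (De G) z := by
  unfold De
  have h1 : ContDiffAt ℝ ∞ (fun z => dfl G z π) z := by
    have e1 : ContDiffAt ℝ ∞ (fun z : Euc N × Euc N => (z, π)) z := by fun_prop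
    exact ContDiffAt.comp (g := fun p : (Euc N × Euc N) × ℝ => dfl G p.1 p.2) z
      (contDiffAt_dfl hz π) e1
  exact contDiffAt_const.clm_comp (h1.clm_comp contDiffAt_const)

/-- the adjoint as a continuous linear map -/
theorem contDiff_adjoint {E F : Type*} [NormedAddCommGroup E] [InnerProductSpace ℝ E]
    [CompleteSpace E] [NormedAddCommGroup F] [InnerProductSpace ℝ F] [CompleteSpace F] :
    ContDiff ℝ ∞ (fun T : E →L[ℝ] F => ContinuousLinearMap.adjoint T) := by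
  have h1 : ContDiff ℝ ∞ ((ContinuousLinearMap.adjoint : (E →L[ℝ] F) ≃ₗᵢ⋆[ℝ] (F →L[ℝ] E)) :
      (E →L[ℝ] F) → (F →L[ℝ] E)) := by
    have h2 : IsBoundedLinearMap ℝ ((ContinuousLinearMap.adjoint :
      (E →L[ℝ] F) ≃ₗᵢ⋆[ℝ] (F →L[ℝ] E)) : (E →L[ℝ] F) → (F →L[ℝ] E)) :=
      { map_add := fun x y => map_add _ x y
        map_smul := fun c x => by
          simp
        bound := ⟨1, one_pos, fun x => by rw [one_mul, LinearIsometryEquiv.norm_map]⟩ }
    exact h2.contDiff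
  exact h1

theorem contDiffAt_l1 (h : GT.Bla G k) (hz : z ∈ L.US G) : ContDiffAt ℝ ∞ (l1 h K) z := by
  unfold l1
  have h1 := contDiffAt_PV0 h hz
  have h2 := contDiffAt_fo (K := K) hz.1 0
  have h3 := contDiffAt_fo (K := K) hz.1 π
  have h4 : ContDiffAt ℝ ∞ (fun z => ContinuousLinearMap.adjoint (De G z)) z :=
    contDiff_adjoint.contDiffAt.comp z (contDiffAt_De hz.1)
  exact h1.clm_comp (h2.sub (h4.clm_comp h3))

theorem NegB.contDiffAt_uu (hP : NegB h K P) (hz : z ∈ L.US G) : ContDiffAt ℝ ∞ (uu h P) z := by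
  unfold uu
  have h1 := contDiffAt_l1 (K := K) h hz
  have h2 := hP.smooth z hz
  have h3 : ContDiffAt ℝ ∞ (Gz h P) z := by
    unfold Gz
    have h4 : ContDiffAt ℝ ∞ (fun z => ContinuousLinearMap.adjoint (l1 h K z)) z :=
      contDiff_adjoint.contDiffAt.comp z h1
    exact (h1.clm_comp (h2.clm_comp h4)).add (contDiffAt_const.sub (contDiffAt_PV0 h hz))
  have h5 : ContDiffAt ℝ ∞ (fun z => Ring.inverse (Gz h P z)) z := by
    obtain ⟨v, hv⟩ := hP.isUnit_Gz hz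
    have h6 := contDiffAt_ringInverse (n := ∞) ℝ v
    rw [hv] at h6
    exact h6.comp z h3
  have h7 : ContDiffAt ℝ ∞ (fun z => (Ring.inverse (Gz h P z)).comp ((l1 h K z).comp
      ((P z).comp (NB.Cz G (nuP K) z)))) z :=
    h5.clm_comp (h1.clm_comp (h2.clm_comp (NB.contDiffAt_Cz hz.1)))
  exact h7.const_smul (-(1 / 2 : ℝ))

/-! ### the Jacobi fields `J_r` -/

/-- initial data at time `0` of the Jacobi field `J_r(w)`, vanishing at `r` and `r + π` -/
def Jr (h : GT.Bla G k) (P : Euc N × Euc N → Wt N K →L[ℝ] Wt N K) (z : Euc N × Euc N) (r : ℝ) :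
    Wt N K →L[ℝ] Euc N × Euc N :=
  (dfl G (fl G (z, r)) (-r)).comp ((ContinuousLinearMap.inr ℝ (Euc N) (Euc N)).comp
    ((uu h P (fl G (z, r))).comp (Rt (nuP K) r)))

theorem Jr_apply (z : Euc N × Euc N) (r : ℝ) (w : Wt N K) : Jr h P z r w =
    dfl G (fl G (z, r)) (-r) (0, uu h P (fl G (z, r)) (Rt (nuP K) r w)) := rfl

theorem dfl_back (hz : z ∈ TS G) (r t : ℝ) (ξ : Euc N × Euc N) :
    dfl G z t (dfl G (fl G (z, r)) (-r) ξ) = dfl G (fl G (z, r)) (t - r) ξ := by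
  have h1 := dfl_add (fl_mem G hz r) (-r) t ξ
  have h2 : fl G (fl G (z, r), -r) = z := by
    rw [← fl_add' G hz, add_neg_cancel, fl_zero]
  rw [h2] at h1
  rw [← h1]
  congr 2
  ring

theorem dfl_Jr (hz : z ∈ TS G) (r t : ℝ) (w : Wt N K) : dfl G z t (Jr h P z r w) =
    dfl G (fl G (z, r)) (t - r) (0, uu h P (fl G (z, r)) (Rt (nuP K) r w)) :=
  dfl_back hz r t _

theorem mapsTo_fl (G : Geo n N κ S) (t : ℝ) :
    MapsTo (fun y => fl G (y, t)) (L.US G) (L.US G) := fun _ hy => fl_mem_US hy t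

theorem tan_dfl (hz : z ∈ L.US G) (hξ : ξ ∈ Tan (L.US G) z) (t : ℝ) :
    dfl G z t ξ ∈ Tan (L.US G) (fl G (z, t)) :=
  FV.fderiv_mem_Tan_of_mapsTo (mapsTo_fl G t)
    (L.hasFDerivAt_fl_left hz.1 t).differentiableAt hξ

theorem NegB.Jr_tan (hP : NegB h K P) (hz : z ∈ L.US G) (r : ℝ) (w : Wt N K) :
    Jr h P z r w ∈ Tan (L.US G) z := by
  have h1 := fl_mem_US hz r
  have h2 := tan_dfl h1 (tan_V0 h h1 (hP.uu_mem h1 (Rt (nuP K) r w))) (-r)
  have h3 : fl G (fl G (z, r), -r) = z := by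
    rw [← fl_add' G hz.1, add_neg_cancel, fl_zero]
  rw [h3] at h2
  exact h2

theorem Jr_v0 (hz : z ∈ L.US G) (r : ℝ) (w : Wt N K) :
    SV.jf G z (Jr h P z r w) r = 0 := by
  unfold SV.jf
  rw [dfl_Jr hz.1, sub_self, L.dfl_zero (fl_mem G hz.1 r)]

theorem Jr_d0 (hz : z ∈ L.US G) (r : ℝ) (w : Wt N K) :
    SV.jf' G z (Jr h P z r w) r = uu h P (fl G (z, r)) (Rt (nuP K) r w) := by
  unfold SV.jf'
  rw [dfl_Jr hz.1, sub_self, L.dfl_zero (fl_mem G hz.1 r)]

theorem NegB.Jr_v1 (hP : NegB h K P) (hz : z ∈ L.US G) (r : ℝ) (w : Wt N K) :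
    SV.jf G z (Jr h P z r w) (r + π) = 0 := by
  have h1 := fl_mem_US hz r
  unfold SV.jf
  rw [dfl_Jr hz.1, add_sub_cancel_left]
  exact dfl_V0_fst h h1 (hP.uu_mem h1 _)

/-- **the pairing of `J_r(w)` with the fields of `N`** -/
theorem NegB.pair (hP : NegB h K P) (hz : z ∈ L.US G) (r : ℝ) (w : Wt N K) {w' : Wt N K}
    (hw' : P z w' = w') :
    ⟪SV.jf' G z (Jr h P z r w) (r + π), fd G z (nuP K) w' (r + π)⟫ -
      ⟪SV.jf' G z (Jr h P z r w) r, fd G z (nuP K) w' r⟫ = (1 / 2) * bb G z w w' := by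
  have h1 := fl_mem_US hz r
  set p := fl G (z, r) with hp
  set u := uu h P p (Rt (nuP K) r w) with hu
  have huV : u ∈ V0 G p := hP.uu_mem h1 _
  have e1 : SV.jf' G z (Jr h P z r w) (r + π) = (dfl G p π (0, u)).2 := by
    unfold SV.jf'
    rw [dfl_Jr hz.1, add_sub_cancel_left]
  have e2 : SV.jf' G z (Jr h P z r w) r = u := Jr_d0 hz r w
  have e3 : fd G z (nuP K) w' (r + π) = fd G p (nuP K) (Rt (nuP K) r w') π := by
    rw [hp, fd_shift hz.1, add_comm]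
  have e4 : fd G z (nuP K) w' r = fd G p (nuP K) (Rt (nuP K) r w') 0 := by
    rw [hp, fd_shift hz.1, zero_add]
  have hPw : P p (Rt (nuP K) r w') = Rt (nuP K) r w' := by rw [hp, hP.equi z hz, hw']
  have e5 := inner_l1 h h1 huV (Rt (nuP K) r w')
  rw [hu, hP.inner_uu h1 hPw, hp, bb_flow h hz] at e5
  rw [e1, e2, e3, e4]
  linarith

theorem Rt_per' (r : ℝ) (w : Wt N K) : Rt (nuP K) (r + 2 * π) w = Rt (nuP K) r w := by
  rw [NN.Rt_add, NN.Rt_per]

theorem NegB.Jr_per (hP : NegB h K P) (hz : z ∈ L.US G) (r : ℝ) (w : Wt N K) :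
    Jr h P z (r + 2 * π) w = Jr h P z r w := by
  have h1 := fl_mem_US hz r
  rw [Jr_apply, Jr_apply, fl_per h hz, Rt_per']
  have h2 := dfl_per h h1 (tan_V0 h h1 (hP.uu_mem h1 (Rt (nuP K) r w))) (-(r + 2 * π))
  rw [← h2]
  congr 2
  ring

theorem contDiff_Rt : ContDiff ℝ ∞ (fun s : ℝ => (Rt (nuP K) s : Wt N K →L[ℝ] Wt N K)) :=
  NB.contDiff_Rt _

/-- **joint smoothness** -/
theorem NegB.contDiffAt_Jr (hP : NegB h K P) (hz : z ∈ L.US G) (r : ℝ) :
    ContDiffAt ℝ ∞ (fun p : (Euc N × Euc N) × ℝ => Jr h P p.1 p.2) (z, r) := by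
  unfold Jr
  have h1 := fl_mem_US hz r
  have hfl : ContDiffAt ℝ ∞ (fun p : (Euc N × Euc N) × ℝ => fl G p) (z, r) :=
    contDiffAt_fl' G hz.1 r
  have h2 : ContDiffAt ℝ ∞ (fun p : (Euc N × Euc N) × ℝ => dfl G (fl G (p.1, p.2)) (-p.2))
      (z, r) := by
    have e1 : ContDiffAt ℝ ∞ (fun p : (Euc N × Euc N) × ℝ => (fl G p, -p.2)) (z, r) :=
      hfl.prodMk contDiffAt_snd.neg
    exact ContDiffAt.comp (z, r) (g := fun p : (Euc N × Euc N) × ℝ => dfl G p.1 p.2)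
      (contDiffAt_dfl h1.1 (-r)) e1
  have h3 : ContDiffAt ℝ ∞ (fun p : (Euc N × Euc N) × ℝ => uu h P (fl G (p.1, p.2))) (z, r) :=
    ContDiffAt.comp (z, r) (g := uu h P) (hP.contDiffAt_uu h1) hfl
  have h4 : ContDiffAt ℝ ∞ (fun p : (Euc N × Euc N) × ℝ =>
      (Rt (nuP K) p.2 : Wt N K →L[ℝ] Wt N K)) (z, r) :=
    (contDiff_Rt.comp contDiff_snd).contDiffAt
  exact h2.clm_comp (contDiffAt_const.clm_comp (h3.clm_comp h4))

theorem NegB.continuous_Jr (hP : NegB h K P) (hz : z ∈ L.US G) :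
    Continuous fun r => Jr h P z r := by
  refine continuous_iff_continuousAt.2 fun r => ?_
  have h1 : ContinuousAt (fun r : ℝ => (z, r)) r :=
    continuousAt_const.prodMk continuousAt_id
  have h2 : ContinuousAt (fun p : (Euc N × Euc N) × ℝ => Jr h P p.1 p.2) (z, r) :=
    (hP.contDiffAt_Jr hz r).continuousAt
  exact ContinuousAt.comp (f := fun r : ℝ => (z, r)) (x := r) h2 h1

/-- `uu` is injective on `N` -/
theorem NegB.uu_ne (hP : NegB h K P) (hz : z ∈ L.US G) {w : Wt N K} (hw : P z w = w)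
    (hw0 : w ≠ 0) : uu h P z w ≠ 0 := by
  intro h0
  have h1 := hP.inner_uu hz (w := w) hw
  rw [h0, inner_zero_left] at h1
  have := hP.bb_neg hz hw hw0
  linarith

end Crest.Agent.R208.KR
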