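import Crest.Agent.R208.KR5

/-!
R208, block KF (helper844), file KR6: the kernel of the fields `xi` and its positivity.
-/

set_option autoImplicit false

open Set Filter Topology MeasureTheory Real Module
open scoped RealInnerProductSpace Interval ContDiff
open Crest.GeometryTopology.Submanifold
open Crest.Agent.R241.DDefs
open Crest.Agent.R241.D2
open Crest.Agent.R208.L (om TanTS dfl om_dfl)
open Crest.Agent.R208.FI (Tan Sub)
open Crest.Agent.R208.NN (Wt nuP qq V0 fd fd' qf Rt ev ev')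

noncomputable section

namespace Crest.Agent.R208.KR

/-! ### changes of the angle -/

/-- admissible change of the angle -/
structure Ang (θ θ' : ℝ → ℝ) : Prop where
  der : ∀ r, HasDerivAt θ (θ' r) r
  cont : Continuous θ'
  pos : ∀ r, 0 < θ' r
  per : ∀ r, θ (r + π) = θ r + π

section ang
variable {θ θ' : ℝ → ℝ}

theorem Ang.continuous (hθ : Ang θ θ') : Continuous θ :=
  continuous_iff_continuousAt.2 fun r => (hθ.der r).continuousAt

theorem Ang.per_two (hθ : Ang θ θ') (r : ℝ) : θ (r + 2 * π) = θ r + 2 * π := by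
  have : r + 2 * π = r + π + π := by ring
  rw [this, hθ.per, hθ.per]; ring

theorem Ang.per' (hθ : Ang θ θ') (r : ℝ) : θ' (r + π) = θ' r := by
  have h1 : HasDerivAt (fun r => θ (r + π)) (θ' (r + π)) r := by
    have := (hθ.der (r + π)).comp_add_const r π
    exact this
  have h2 : (fun r => θ (r + π)) = fun r => θ r + π := funext hθ.per
  rw [h2] at h1
  exact h1.unique ((hθ.der r).add_const π)

theorem Ang.per'_two (hθ : Ang θ θ') (r : ℝ) : θ' (r + 2 * π) = θ' r := by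
  have : r + 2 * π = r + π + π := by ring
  rw [this, hθ.per', hθ.per']

theorem Ang.strictMono (hθ : Ang θ θ') : StrictMono θ := by
  refine strictMono_of_deriv_pos fun r => ?_
  rw [(hθ.der r).deriv]; exact hθ.pos r

theorem Ang.nat (hθ : Ang θ θ') (m : ℕ) (r : ℝ) : θ (r + m * π) = θ r + m * π := by
  induction m with
  | zero => simp
  | succ m ih =>
    have : r + ((m + 1 : ℕ) : ℝ) * π = r + m * π + π := by push_cast; ring
    rw [this, hθ.per, ih]; push_cast; ring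

theorem Ang.surj (hθ : Ang θ θ') : Function.Surjective θ := by
  have hpi := Real.pi_pos
  refine hθ.continuous.surjective ?_ ?_
  · refine hθ.strictMono.monotone.tendsto_atTop_atTop fun b => ?_
    obtain ⟨m, hm⟩ := exists_nat_ge ((b - θ 0) / π)
    refine ⟨0 + m * π, ?_⟩
    rw [hθ.nat]
    rw [div_le_iff₀ hpi] at hm
    linarith
  · refine hθ.strictMono.monotone.tendsto_atBot_atBot fun b => ?_
    obtain ⟨m, hm⟩ := exists_nat_ge ((θ 0 - b) / π)
    refine ⟨-(m * π), ?_⟩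
    have h1 := hθ.nat m (-(m * π))
    rw [neg_add_cancel] at h1
    rw [div_le_iff₀ hpi] at hm
    linarith

theorem Ang.exists_inv (hθ : Ang θ θ') : ∃ ρ : ℝ → ℝ, Continuous ρ ∧ (∀ r, ρ (θ r) = r) ∧
    (∀ t, θ (ρ t) = t) ∧ ∀ t, ρ (t + π) = ρ t + π := by
  let e := hθ.strictMono.orderIsoOfSurjective θ hθ.surj
  have h1 : ∀ r, e.symm (θ r) = r := fun r => e.symm_apply_apply r
  have h2 : ∀ t, θ (e.symm t) = t := fun t => e.apply_symm_apply t
  refine ⟨e.symm, e.symm.continuous, h1, h2, fun t => ?_⟩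
  apply hθ.strictMono.injective
  rw [h2, hθ.per, h2]

end ang

variable {n N k K : ℕ} {κ : ℝ} {S : Set (Euc N)} {G : Geo n N κ S} {z ξ η : Euc N × Euc N}
  {h : GT.Bla G k} {P : Euc N × Euc N → Wt N K →L[ℝ] Wt N K} {θ θ' ρ c : ℝ → ℝ} {a b : Wt N K}

/-- the coefficient vector of angle `t` -/
def Nt (a b : Wt N K) (t : ℝ) : Wt N K := cos (t / 2) • a + sin (t / 2) • b

theorem Nt_per (a b : Wt N K) (t : ℝ) : Nt a b (t + 2 * π) = -Nt a b t := by
  unfold Nt
  have : (t + 2 * π) / 2 = t / 2 + π := by ring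
  rw [this, cos_add_pi, sin_add_pi, neg_smul, neg_smul, neg_add]

theorem contDiff_Nt (a b : Wt N K) : ContDiff ℝ ∞ (Nt a b) := by
  unfold Nt; fun_prop

theorem NegB.P_Nt (ha : P z a = a) (hb : P z b = b) (t : ℝ) :
    P z (Nt a b t) = Nt a b t := by
  unfold Nt
  rw [map_add, map_smul, map_smul, ha, hb]

/-- the curve of Jacobi fields -/
def Cc (h : GT.Bla G k) (P : Euc N × Euc N → Wt N K →L[ℝ] Wt N K) (z : Euc N × Euc N)
    (θ θ' c : ℝ → ℝ) (a b : Wt N K) (r : ℝ) : Euc N × Euc N :=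
  (c (θ r) * θ' r) • Jr h P z r (Nt a b (θ r))

theorem jf_smul (r : ℝ) (ξ : Euc N × Euc N) (t : ℝ) : SV.jf G z (r • ξ) t = r • SV.jf G z ξ t := by
  unfold SV.jf; rw [map_smul]; rfl

theorem jf'_smul (r : ℝ) (ξ : Euc N × Euc N) (t : ℝ) :
    SV.jf' G z (r • ξ) t = r • SV.jf' G z ξ t := by
  unfold SV.jf'; rw [map_smul]; rfl

theorem NegB.crv (hP : NegB h K P) (hz : z ∈ L.US G) (hθ : Ang θ θ') (hc : Continuous c) :
    Crv G z (Cc h P z θ θ' c a b) where
  cont := by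
    have h1 := hθ.continuous
    have h2 := hθ.cont
    have h3 : Continuous fun r => Nt a b (θ r) := (contDiff_Nt a b).continuous.comp h1
    exact ((hc.comp h1).mul h2).smul ((hP.continuous_Jr hz).clm_apply h3)
  tan r := Submodule.smul_mem _ _ (hP.Jr_tan hz r _)
  v0 r := by unfold Cc; rw [jf_smul, Jr_v0 hz, smul_zero]
  v1 r := by unfold Cc; rw [jf_smul, hP.Jr_v1 hz, smul_zero]

theorem NegB.Cc_per (hP : NegB h K P) (hz : z ∈ L.US G) (hθ : Ang θ θ') {σ : ℝ}
    (hσ : ∀ t, c (t + 2 * π) = σ * c t) (r : ℝ) :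
    Cc h P z θ θ' c a b (r + 2 * π) = (-σ) • Cc h P z θ θ' c a b r := by
  unfold Cc
  rw [hθ.per_two, hσ, hθ.per'_two, Nt_per, hP.Jr_per hz, map_neg, smul_neg, smul_smul, ← neg_smul]
  congr 1; ring

/-! ### the kernel -/

/-- Jacobi field of angle `t` -/
def JJ (h : GT.Bla G k) (P : Euc N × Euc N → Wt N K →L[ℝ] Wt N K) (z : Euc N × Euc N)
    (ρ : ℝ → ℝ) (a b : Wt N K) (t : ℝ) : Euc N × Euc N := Jr h P z (ρ t) (Nt a b t)

/-- data of an inverse angle -/
structure Inv (θ θ' ρ : ℝ → ℝ) : Prop where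
  ang : Ang θ θ'
  cont : Continuous ρ
  left : ∀ r, ρ (θ r) = r
  right : ∀ t, θ (ρ t) = t
  per : ∀ t, ρ (t + π) = ρ t + π

theorem Inv.per_two (hρ : Inv θ θ' ρ) (t : ℝ) : ρ (t + 2 * π) = ρ t + 2 * π := by
  have : t + 2 * π = t + π + π := by ring
  rw [this, hρ.per, hρ.per]; ring

theorem Inv.int (hρ : Inv θ θ' ρ) (m : ℤ) (t : ℝ) : ρ (t + m * π) = ρ t + m * π := by
  have h0 : Function.Periodic (fun t => ρ t - t) π := fun t => by
    simp only [hρ.per]; ring
  have h1 : ρ (t + m * π) - (t + m * π) = ρ t - t := h0.int_mul m t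
  linarith

theorem NegB.continuous_JJ (hP : NegB h K P) (hz : z ∈ L.US G) (hρ : Inv θ θ' ρ) :
    Continuous (JJ h P z ρ a b) :=
  ((hP.continuous_Jr hz).comp hρ.cont).clm_apply (contDiff_Nt a b).continuous

theorem NegB.JJ_per (hP : NegB h K P) (hz : z ∈ L.US G) (hρ : Inv θ θ' ρ) (t : ℝ) :
    JJ h P z ρ a b (t + 2 * π) = -JJ h P z ρ a b t := by
  unfold JJ
  rw [hρ.per_two, hP.Jr_per hz, Nt_per, map_neg]

/-- all zeros of `J_r` -/
theorem NegB.Jr_zero (hP : NegB h K P) (hz : z ∈ L.US G) (r : ℝ) (w : Wt N K) (m : ℤ) :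
    SV.jf G z (Jr h P z r w) (r + m * π) = 0 := by
  have hper : Function.Periodic (SV.jf G z (Jr h P z r w)) (2 * π) := fun t => by
    unfold SV.jf; rw [dfl_per h hz (hP.Jr_tan hz r w)]
  obtain ⟨j, hj | hj⟩ := Int.even_or_odd' m
  · have h1 := hper.int_mul j r
    have h2 : r + (m : ℝ) * π = r + j * (2 * π) := by rw [hj]; push_cast; ring
    rw [h2, h1]
    exact Jr_v0 hz r w
  · have h1 := hper.int_mul j (r + π)
    have h2 : r + (m : ℝ) * π = r + π + j * (2 * π) := by rw [hj]; push_cast; ring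
    rw [h2, h1]
    exact hP.Jr_v1 hz r w

/-- the symplectic kernel -/
def WW (h : GT.Bla G k) (P : Euc N × Euc N → Wt N K →L[ℝ] Wt N K) (z : Euc N × Euc N)
    (ρ : ℝ → ℝ) (a b : Wt N K) (s t : ℝ) : ℝ := om (JJ h P z ρ a b s) (JJ h P z ρ a b t)

theorem NegB.JJ_tan (hP : NegB h K P) (hz : z ∈ L.US G) (t : ℝ) :
    TanTS G z (JJ h P z ρ a b t) := NN.tanTS_of_Tan h hz (hP.Jr_tan hz _ _)

theorem NegB.WW_eq (hP : NegB h K P) (hz : z ∈ L.US G) (s t : ℝ) :
    WW h P z ρ a b s t = -⟪SV.jf' G z (JJ h P z ρ a b t) (ρ t), SV.jf G z (JJ h P z ρ a b s) (ρ t)⟫ := by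
  unfold WW
  rw [← om_dfl hz.1 (hP.JJ_tan hz s) (hP.JJ_tan hz t) (ρ t)]
  unfold om
  have h3 : (dfl G z (ρ t) (JJ h P z ρ a b t)).1 = 0 := Jr_v0 hz (ρ t) _
  rw [h3, inner_zero_right, zero_sub]
  rfl

theorem NegB.WW_zero (hP : NegB h K P) (hz : z ∈ L.US G) (hρ : Inv θ θ' ρ) {s t : ℝ}
    (hst : sin (t - s) = 0) : WW h P z ρ a b s t = 0 := by
  obtain ⟨m, hm⟩ := sin_eq_zero_iff.1 hst
  have h1 : t = s + m * π := by linarith
  rw [hP.WW_eq hz, h1, hρ.int]
  have h2 : SV.jf G z (JJ h P z ρ a b s) (ρ s + m * π) = 0 := hP.Jr_zero hz _ _ m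
  rw [h2, inner_zero_right, neg_zero]

theorem continuous_om : Continuous fun p : (Euc N × Euc N) × (Euc N × Euc N) => om p.1 p.2 := by
  unfold om; fun_prop

theorem NegB.continuous_WW (hP : NegB h K P) (hz : z ∈ L.US G) (hρ : Inv θ θ' ρ) :
    Continuous (Function.uncurry (WW h P z ρ a b)) := by
  have h1 := hP.continuous_JJ (a := a) (b := b) hz hρ
  have h2 : Continuous fun p : ℝ × ℝ => (JJ h P z ρ a b p.1, JJ h P z ρ a b p.2) := by fun_prop
  exact (continuous_om (N := N)).comp h2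

/-- the signed kernel -/
def kap (h : GT.Bla G k) (P : Euc N × Euc N → Wt N K →L[ℝ] Wt N K) (z : Euc N × Euc N)
    (ρ : ℝ → ℝ) (a b : Wt N K) (s t : ℝ) : ℝ :=
  if 0 ≤ sin (t - s) then WW h P z ρ a b s t else -WW h P z ρ a b s t

theorem NegB.continuous_kap (hP : NegB h K P) (hz : z ∈ L.US G) (hρ : Inv θ θ' ρ) :
    Continuous (Function.uncurry (kap h P z ρ a b)) := by
  have h1 := hP.continuous_WW (a := a) (b := b) hz hρ
  have h2 : Continuous fun p : ℝ × ℝ => WW h P z ρ a b p.1 p.2 := h1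
  refine Continuous.if_le h2 h2.neg continuous_const (by fun_prop) ?_
  rintro ⟨s, t⟩ hst
  have := hP.WW_zero (a := a) (b := b) (s := s) (t := t) hz hρ hst.symm
  simp only [this, neg_zero]

theorem NegB.kap_symm (hP : NegB h K P) (hz : z ∈ L.US G) (hρ : Inv θ θ' ρ) (s t : ℝ) :
    kap h P z ρ a b s t = kap h P z ρ a b t s := by
  have h1 : sin (s - t) = -sin (t - s) := by rw [← sin_neg]; congr 1; ring
  have h2 : WW h P z ρ a b t s = -WW h P z ρ a b s t := L.om_skew _ _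
  unfold kap
  rw [h1, h2]
  rcases lt_trichotomy (sin (t - s)) 0 with h3 | h3 | h3
  · rw [if_neg (not_le.2 h3), if_pos (by linarith)]
  · rw [hP.WW_zero hz hρ h3]; simp
  · rw [if_pos h3.le, if_neg (by linarith), neg_neg]

theorem NegB.WW_per_left (hP : NegB h K P) (hz : z ∈ L.US G) (hρ : Inv θ θ' ρ) (s t : ℝ) :
    WW h P z ρ a b (s + 2 * π) t = -WW h P z ρ a b s t := by
  unfold WW
  rw [hP.JJ_per hz hρ, ← neg_one_smul ℝ (JJ h P z ρ a b s), L.om_smul_left]; ring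

theorem NegB.kap_per (hP : NegB h K P) (hz : z ∈ L.US G) (hρ : Inv θ θ' ρ) (s t : ℝ) :
    kap h P z ρ a b (s + 2 * π) t = -kap h P z ρ a b s t := by
  have h1 : sin (t - (s + 2 * π)) = sin (t - s) := by
    rw [← sin_sub_two_pi (t - s)]; congr 1; ring
  unfold kap
  rw [h1, hP.WW_per_left hz hρ]
  split_ifs <;> ring

theorem kap_of_le {s t : ℝ}
    (h1 : s ≤ t) (h2 : t ≤ s + π) : kap h P z ρ a b s t = WW h P z ρ a b s t := by
  unfold kap
  rw [if_pos (sin_nonneg_of_nonneg_of_le_pi (by linarith) (by linarith))]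

theorem NegB.kap_of_ge (hP : NegB h K P) (hz : z ∈ L.US G) (hρ : Inv θ θ' ρ) {s t : ℝ}
    (h1 : s - π ≤ t) (h2 : t ≤ s) : kap h P z ρ a b s t = -WW h P z ρ a b s t := by
  have h3 : sin (t - s) ≤ 0 := by
    have : 0 ≤ sin (s - t) := sin_nonneg_of_nonneg_of_le_pi (by linarith) (by linarith)
    have h4 : sin (s - t) = -sin (t - s) := by rw [← sin_neg]; congr 1; ring
    linarith
  unfold kap
  rcases h3.lt_or_eq with h4 | h4
  · rw [if_neg (not_le.2 h4)]
  · rw [hP.WW_zero hz hρ h4]; simp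

end Crest.Agent.R208.KR
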