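import Crest.Agent.R208.KR6

/-!
R208, block KF (helper844), file KR7: index forms of the fields `xi` through the kernel, and
**negativity**.
-/

set_option autoImplicit false

open Set Filter Topology MeasureTheory Real Module
open scoped RealInnerProductSpace Interval ContDiff
open Crest.GeometryTopology.Submanifold
open Crest.Agent.R241.DDefs
open Crest.Agent.R241.D2
open Crest.Agent.R208.L (om TanTS dfl om_dfl)
open Crest.Agent.R208.FI (Tan Sub)
open Crest.Agent.R208.NN (Wt nuP qq V0 fd fd' qf Rt ev ev')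

noncomputable section

namespace Crest.Agent.R208.KR

variable {n N k K : ℕ} {κ : ℝ} {S : Set (Euc N)} {G : Geo n N κ S} {z ξ η : Euc N × Euc N}
  {h : GT.Bla G k} {P : Euc N × Euc N → Wt N K →L[ℝ] Wt N K} {θ θ' ρ c : ℝ → ℝ} {a b : Wt N K}

/-! ### integrals -/

theorem cont_left {F : ℝ → ℝ → ℝ} (hF : Continuous (Function.uncurry F)) (s : ℝ) :
    Continuous fun t => F s t := hF.comp (continuous_const.prodMk continuous_id)

theorem cont_shift {F : ℝ → ℝ → ℝ} (hF : Continuous (Function.uncurry F)) :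
    Continuous fun p : ℝ × ℝ => F p.1 (p.1 + p.2) :=
  hF.comp (continuous_fst.prodMk (continuous_fst.add continuous_snd))

theorem cont_mul {F : ℝ → ℝ → ℝ} (hF : Continuous (Function.uncurry F)) {c : ℝ → ℝ}
    (hc : Continuous c) : Continuous (Function.uncurry fun s t => c s * c t * F s t) := by
  have h1 : Continuous fun p : ℝ × ℝ => F p.1 p.2 := hF
  have h2 : Continuous fun p : ℝ × ℝ => c p.1 * c p.2 * F p.1 p.2 := by fun_prop
  exact h2

theorem Inv.int_Cc (hρ : Inv θ θ' ρ) (hP : NegB h K P) (hz : z ∈ L.US G) (hc : Continuous c)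
    (u v : ℝ) : ∫ r in u..v, Cc h P z θ θ' c a b r = ∫ t in θ u..θ v, c t • JJ h P z ρ a b t := by
  have h1 := hP.continuous_JJ (a := a) (b := b) hz hρ
  have h2 := intervalIntegral.integral_deriv_smul_comp (a := u) (b := v) (f := θ) (f' := θ')
    (g := fun t => c t • JJ h P z ρ a b t) (fun x _ => hρ.ang.der x) hρ.ang.cont.continuousOn
    (hc.smul h1)
  rw [← h2]
  refine intervalIntegral.integral_congr fun r _ => ?_
  simp only [Function.comp_apply, Cc, JJ]
  rw [hρ.left, smul_smul, mul_comm]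

theorem om_int {F : ℝ → Euc N × Euc N} (hF : Continuous F) (ξ : Euc N × Euc N) (u v : ℝ) :
    om ξ (∫ t in u..v, F t) = ∫ t in u..v, om ξ (F t) := by
  let A : Euc N × Euc N →L[ℝ] ℝ := LinearMap.toContinuousLinearMap
    { toFun := om ξ
      map_add' := fun x y => L.om_add_right ξ x y
      map_smul' := fun r x => L.om_smul_right r ξ x }
  have h1 : ∀ x, A x = om ξ x := fun x => rfl
  rw [← h1, ← A.intervalIntegral_comp_comm (hF.intervalIntegrable _ _)]
  rfl

/-- the inner integral -/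
def Ph (h : GT.Bla G k) (P : Euc N × Euc N → Wt N K →L[ℝ] Wt N K) (z : Euc N × Euc N)
    (ρ c : ℝ → ℝ) (a b : Wt N K) (s : ℝ) : ℝ :=
  ∫ t in (s - π)..(s + π), c s * c t * kap h P z ρ a b s t

theorem NegB.Ph_eq (hP : NegB h K P) (hz : z ∈ L.US G) (hρ : Inv θ θ' ρ) (hc : Continuous c)
    (s : ℝ) : Ph h P z ρ c a b s = c s * ((∫ t in s..(s + π), c t * WW h P z ρ a b s t) -
      ∫ t in (s - π)..s, c t * WW h P z ρ a b s t) := by
  have hpi := Real.pi_pos
  have hk0 : Continuous fun t => kap h P z ρ a b s t :=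
    cont_left (hP.continuous_kap (a := a) (b := b) hz hρ) s
  have hk : Continuous fun t => c s * c t * kap h P z ρ a b s t :=
    (continuous_const.mul hc).mul hk0
  unfold Ph
  rw [← intervalIntegral.integral_add_adjacent_intervals (b := s)
    (hk.intervalIntegrable _ _) (hk.intervalIntegrable _ _), mul_sub,
    ← intervalIntegral.integral_const_mul, ← intervalIntegral.integral_const_mul]
  have e1 : ∫ t in (s - π)..s, c s * c t * kap h P z ρ a b s t =
      -∫ t in (s - π)..s, c s * (c t * WW h P z ρ a b s t) := by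
    rw [← intervalIntegral.integral_neg]
    refine intervalIntegral.integral_congr fun t ht => ?_
    rw [uIcc_of_le (by linarith)] at ht
    rw [hP.kap_of_ge hz hρ ht.1 ht.2]; ring
  have e2 : ∫ t in s..(s + π), c s * c t * kap h P z ρ a b s t =
      ∫ t in s..(s + π), c s * (c t * WW h P z ρ a b s t) := by
    refine intervalIntegral.integral_congr fun t ht => ?_
    rw [uIcc_of_le (by linarith)] at ht
    rw [kap_of_le ht.1 ht.2]; ring
  rw [e1, e2]; ring

theorem NegB.continuous_Ph (hP : NegB h K P) (hz : z ∈ L.US G) (hρ : Inv θ θ' ρ)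
    (hc : Continuous c) : Continuous (Ph h P z ρ c a b) := by
  have e1 : Ph h P z ρ c a b = fun s => ∫ t in (-π)..π, c s * c (s + t) *
      kap h P z ρ a b s (s + t) := by
    funext s
    unfold Ph
    rw [intervalIntegral.integral_comp_add_left (fun t => c s * c t * kap h P z ρ a b s t) s]
    congr 1
  rw [e1]
  refine intervalIntegral.continuous_parametric_intervalIntegral_of_continuous' ?_ _ _
  exact cont_shift (cont_mul (hP.continuous_kap (a := a) (b := b) hz hρ) hc)

theorem NegB.kap_per_right (hP : NegB h K P) (hz : z ∈ L.US G) (hρ : Inv θ θ' ρ) (s t : ℝ) :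
    kap h P z ρ a b s (t + 2 * π) = -kap h P z ρ a b s t := by
  rw [hP.kap_symm hz hρ, hP.kap_per hz hρ, hP.kap_symm hz hρ]

theorem NegB.Ph_per (hP : NegB h K P) (hz : z ∈ L.US G) (hρ : Inv θ θ' ρ) {σ : ℝ}
    (hσ1 : σ * σ = 1) (hσ : ∀ t, c (t + 2 * π) = σ * c t) (s : ℝ) :
    Ph h P z ρ c a b (s + 2 * π) = Ph h P z ρ c a b s := by
  have e1 : Ph h P z ρ c a b (s + 2 * π) = ∫ t in (s - π)..(s + π), c (s + 2 * π) *
      c (t + 2 * π) * kap h P z ρ a b (s + 2 * π) (t + 2 * π) := by
    rw [intervalIntegral.integral_comp_add_right (fun t => c (s + 2 * π) * c t *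
      kap h P z ρ a b (s + 2 * π) t) (2 * π)]
    unfold Ph
    congr 1 <;> ring
  rw [e1]
  refine intervalIntegral.integral_congr fun t _ => ?_
  rw [hσ, hσ, hP.kap_per hz hρ, hP.kap_per_right hz hρ]
  linear_combination (c s * c t * kap h P z ρ a b s t) * hσ1

/-- **index form through the kernel** -/
theorem NegB.ix_kap (hP : NegB h K P) (hz : z ∈ L.US G) (hρ : Inv θ θ' ρ) (hc : Continuous c)
    {σ : ℝ} (hσ1 : σ * σ = 1) (hσ : ∀ t, c (t + 2 * π) = σ * c t) :
    SV.ix G z 0 (2 * π) (xi G z (Cc h P z θ θ' c a b)) (xi' G z (Cc h P z θ θ' c a b))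
      (xi G z (Cc h P z θ θ' c a b)) (xi' G z (Cc h P z θ θ' c a b)) =
    ∫ s in (0:ℝ)..(2 * π), Ph h P z ρ c a b s := by
  have hC := hP.crv (a := a) (b := b) hz hρ.ang hc
  have hper := hP.Cc_per (a := a) (b := b) hz hρ.ang hσ
  rw [ix_xi_xi h hz hC hC (ε := -σ) (by rw [neg_mul_neg, hσ1]) hper hper]
  have hJ : Continuous fun t => c t • JJ h P z ρ a b t :=
    hc.smul (hP.continuous_JJ (a := a) (b := b) hz hρ)
  have e1 : ∀ r, om (Cc h P z θ θ' c a b r) (∫ s in r..(r + π), Cc h P z θ θ' c a b s) -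
      om (Cc h P z θ θ' c a b r) (∫ s in (r - π)..r, Cc h P z θ θ' c a b s) =
      (Ph h P z ρ c a b ∘ θ) r * θ' r := by
    intro r
    have hm : θ (r - π) = θ r - π := by
      have := hρ.ang.per (r - π)
      rw [sub_add_cancel] at this; linarith
    have e2 : Cc h P z θ θ' c a b r = (c (θ r) * θ' r) • JJ h P z ρ a b (θ r) := by
      unfold Cc JJ; rw [hρ.left]
    rw [hρ.int_Cc hP hz hc, hρ.int_Cc hP hz hc, hρ.ang.per, hm, e2, L.om_smul_left,
      L.om_smul_left, om_int hJ, om_int hJ, Function.comp_apply,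
      hP.Ph_eq hz hρ hc]
    simp only [L.om_smul_right]
    unfold WW
    ring
  rw [intervalIntegral.integral_congr fun r _ => e1 r,
    intervalIntegral.integral_comp_mul_deriv (fun x _ => hρ.ang.der x)
      hρ.ang.cont.continuousOn (hP.continuous_Ph hz hρ hc)]
  have h2 : θ (2 * π) = θ 0 + 2 * π := by
    have := hρ.ang.per_two 0
    rwa [zero_add] at this
  rw [h2, per_shift (hP.Ph_per hz hρ hσ1 hσ)]

/-! ### the pairing with the fields of `N` -/

theorem bb_eq (hz : z ∈ TS G) (w w' : Wt N K) : bb G z w w' = ⟪NB.Cz G (nuP K) z w, w'⟫ :=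
  (inner_Cz hz w w').symm

theorem NegB.ix_fd (hP : NegB h K P) (hz : z ∈ L.US G) (hρ : Inv θ θ' ρ) (hc : Continuous c)
    (hσ : ∀ t, c (t + 2 * π) = -c t) {w : Wt N K} (hw : P z w = w) :
    SV.ix G z 0 (2 * π) (xi G z (Cc h P z θ θ' c a b)) (xi' G z (Cc h P z θ θ' c a b))
      (fd G z (nuP K) w) (fd' G z (nuP K) w) =
    (1 / 2) * bb G z (∫ t in (0:ℝ)..(2 * π), c t • Nt a b t) w := by
  have hC := hP.crv (a := a) (b := b) hz hρ.ang hc
  have hσ' : ∀ t, c (t + 2 * π) = (-1) * c t := fun t => by rw [hσ]; ring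
  have hper := hP.Cc_per (a := a) (b := b) hz hρ.ang hσ'
  have hNc := (contDiff_Nt a b).continuous
  have hcN : Continuous fun t => c t • Nt a b t := hc.smul hNc
  rw [ix_xi h hz hC (ε := 1) (by norm_num) (fun r => by rw [hper, neg_neg]) (gf_fd h hz w)]
  have hΨc : Continuous fun t => c t * bb G z (Nt a b t) w := by
    simp only [bb_eq hz.1]
    exact hc.mul (((NB.Cz G (nuP K) z).continuous.comp hNc).inner continuous_const)
  have e1 : ∀ r, ⟪SV.jf' G z (Cc h P z θ θ' c a b r) (r + π), fd G z (nuP K) w (r + π)⟫ -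
      ⟪SV.jf' G z (Cc h P z θ θ' c a b r) r, fd G z (nuP K) w r⟫ =
      (1 / 2) * (((fun t => c t * bb G z (Nt a b t) w) ∘ θ) r * θ' r) := by
    intro r
    have h1 := hP.pair hz r (Nt a b (θ r)) hw
    unfold Cc
    rw [jf'_smul, jf'_smul, real_inner_smul_left, real_inner_smul_left, ← mul_sub, h1]
    simp only [Function.comp_apply]
    ring
  rw [intervalIntegral.integral_congr fun r _ => e1 r, intervalIntegral.integral_const_mul,
    intervalIntegral.integral_comp_mul_deriv (fun x _ => hρ.ang.der x)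
      hρ.ang.cont.continuousOn hΨc]
  have h2 : θ (2 * π) = θ 0 + 2 * π := by
    have := hρ.ang.per_two 0
    rwa [zero_add] at this
  have h3 : ∀ t, (fun t => c t * bb G z (Nt a b t) w) (t + 2 * π) =
      (fun t => c t * bb G z (Nt a b t) w) t := by
    intro t
    simp only [bb_eq hz.1]
    rw [hσ, Nt_per, map_neg, inner_neg_left]; ring
  rw [h2, per_shift h3]
  congr 1
  have h4 : bb G z (∫ t in (0:ℝ)..(2 * π), c t • Nt a b t) w =
      (innerSL ℝ w) (NB.Cz G (nuP K) z (∫ t in (0:ℝ)..(2 * π), c t • Nt a b t)) := by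
    rw [bb_eq hz.1, real_inner_comm]; rfl
  rw [h4, ← ContinuousLinearMap.comp_apply,
    ← ContinuousLinearMap.intervalIntegral_comp_comm _ (hcN.intervalIntegrable _ _)]
  refine intervalIntegral.integral_congr fun t _ => ?_
  simp only [ContinuousLinearMap.comp_apply, map_smul, smul_eq_mul, innerSL_apply_apply]
  rw [bb_eq hz.1, real_inner_comm]

theorem bb_int (hz : z ∈ TS G) (hc : Continuous c) :
    bb G z (∫ t in (0:ℝ)..(2 * π), c t • Nt a b t) (∫ t in (0:ℝ)..(2 * π), c t • Nt a b t) =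
      ∫ s in (0:ℝ)..(2 * π), ∫ t in (0:ℝ)..(2 * π), c s * c t * bb G z (Nt a b s) (Nt a b t) := by
  have hNc := (contDiff_Nt a b).continuous
  have hcN : Continuous fun t => c t • Nt a b t := hc.smul hNc
  set m := ∫ t in (0:ℝ)..(2 * π), c t • Nt a b t with hm
  have h4 : bb G z m m = (innerSL ℝ m) (NB.Cz G (nuP K) z (∫ t in (0:ℝ)..(2 * π),
      c t • Nt a b t)) := by
    rw [bb_eq hz, real_inner_comm]; rfl
  rw [h4, ← ContinuousLinearMap.comp_apply,
    ← ContinuousLinearMap.intervalIntegral_comp_comm _ (hcN.intervalIntegrable _ _)]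
  refine intervalIntegral.integral_congr fun s _ => ?_
  simp only [ContinuousLinearMap.comp_apply, map_smul, smul_eq_mul, innerSL_apply_apply]
  have h5 : ⟪m, NB.Cz G (nuP K) z (Nt a b s)⟫ = (innerSL ℝ (NB.Cz G (nuP K) z (Nt a b s)))
      (∫ t in (0:ℝ)..(2 * π), c t • Nt a b t) := by
    rw [real_inner_comm]; rfl
  rw [h5, ← ContinuousLinearMap.intervalIntegral_comp_comm _
    (hcN.intervalIntegrable _ _), ← intervalIntegral.integral_const_mul]
  refine intervalIntegral.integral_congr fun t _ => ?_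
  simp only [map_smul, smul_eq_mul, innerSL_apply_apply]
  rw [bb_eq hz]; ring

/-- the full kernel -/
def kk (h : GT.Bla G k) (P : Euc N × Euc N → Wt N K →L[ℝ] Wt N K) (z : Euc N × Euc N)
    (ρ : ℝ → ℝ) (a b : Wt N K) (s t : ℝ) : ℝ :=
  4 * kap h P z ρ a b s t - bb G z (Nt a b s) (Nt a b t)

theorem continuous_bb (hz : z ∈ TS G) :
    Continuous fun p : ℝ × ℝ => bb G z (Nt a b p.1) (Nt a b p.2) := by
  have hNc := (contDiff_Nt a b).continuous
  simp only [bb_eq hz]
  exact ((NB.Cz G (nuP K) z).continuous.comp (hNc.comp continuous_fst)).inner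
    (hNc.comp continuous_snd)

theorem NegB.continuous_kk (hP : NegB h K P) (hz : z ∈ L.US G) (hρ : Inv θ θ' ρ) :
    Continuous (Function.uncurry (kk h P z ρ a b)) :=
  (continuous_const.mul (hP.continuous_kap (a := a) (b := b) hz hρ)).sub (continuous_bb hz.1)

theorem NegB.kk_symm (hP : NegB h K P) (hz : z ∈ L.US G) (hρ : Inv θ θ' ρ) (s t : ℝ) :
    kk h P z ρ a b s t = kk h P z ρ a b t s := by
  unfold kk; rw [hP.kap_symm hz hρ, bb_symm hz.1]

theorem NegB.kk_per (hP : NegB h K P) (hz : z ∈ L.US G) (hρ : Inv θ θ' ρ) (s t : ℝ) :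
    kk h P z ρ a b (s + 2 * π) t = -kk h P z ρ a b s t := by
  unfold kk
  rw [hP.kap_per hz hρ, bb_eq hz.1, Nt_per, map_neg, inner_neg_left, ← bb_eq hz.1]; ring

theorem NegB.kk_per' (hP : NegB h K P) (hz : z ∈ L.US G) (hρ : Inv θ θ' ρ) (s t : ℝ) :
    kk h P z ρ a b s (t + 2 * π) = -kk h P z ρ a b s t := by
  rw [hP.kk_symm hz hρ, hP.kk_per hz hρ, hP.kk_symm hz hρ]

/-- **integral positivity** -/
theorem NegB.kk_pos (hP : NegB h K P) (hz : z ∈ L.US G) (hρ : Inv θ θ' ρ) (ha : P z a = a)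
    (hb : P z b = b) (hc : Continuous c) (hσ : ∀ t, c (t + 2 * π) = -c t) :
    0 ≤ ∫ x in (0:ℝ)..(2 * π), ∫ y in (0:ℝ)..(2 * π), c x * c y * kk h P z ρ a b x y := by
  have hpi := Real.pi_pos
  have h2pi : (0:ℝ) ≤ 2 * π := by positivity
  have hC := hP.crv (a := a) (b := b) hz hρ.ang hc
  have hσ' : ∀ t, c (t + 2 * π) = (-1) * c t := fun t => by rw [hσ]; ring
  have hper : ∀ r, Cc h P z θ θ' c a b (r + 2 * π) = (1:ℝ) • Cc h P z θ θ' c a b r := fun r => by
    rw [hP.Cc_per (a := a) (b := b) hz hρ.ang hσ', neg_neg]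
  have hNc := (contDiff_Nt a b).continuous
  have hcN : Continuous fun t => c t • Nt a b t := hc.smul hNc
  set m := ∫ t in (0:ℝ)..(2 * π), c t • Nt a b t with hm
  have hPm : P z m = m := by
    rw [hm, ← ContinuousLinearMap.intervalIntegral_comp_comm _
      (hcN.intervalIntegrable _ _)]
    refine intervalIntegral.integral_congr fun t _ => ?_
    simp only [map_smul]
    rw [NegB.P_Nt ha hb]
  -- the field
  have hX := hC.fld h hz 0 (2 * π)
  have hY := NN.fld_fd (G := G) hz.1 (nuP K) m 0 (2 * π)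
  have hY2 : SV.Fld G z 0 (2 * π) ((-(1/2:ℝ)) • fd G z (nuP K) m)
      ((-(1/2:ℝ)) • fd' G z (nuP K) m) := hY.smul _
  have hV := hX.add hY2
  have hfdm : ∀ w, P z w = w → SV.ix G z 0 (2 * π) (fd G z (nuP K) w) (fd' G z (nuP K) w)
      (xi G z (Cc h P z θ θ' c a b)) (xi' G z (Cc h P z θ θ' c a b)) = (1 / 2) * bb G z m w := by
    intro w hw
    rw [SV.ix_symm h2pi hz.1 (NN.fld_fd hz.1 _ _ _ _) hX]
    exact hP.ix_fd hz hρ hc hσ hw
  have h0 : 0 ≤ SV.ix G z 0 (2 * π)
      (xi G z (Cc h P z θ θ' c a b) + (-(1/2:ℝ)) • fd G z (nuP K) m)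
      (xi' G z (Cc h P z θ θ' c a b) + (-(1/2:ℝ)) • fd' G z (nuP K) m)
      (xi G z (Cc h P z θ θ' c a b) + (-(1/2:ℝ)) • fd G z (nuP K) m)
      (xi' G z (Cc h P z θ θ' c a b) + (-(1/2:ℝ)) • fd' G z (nuP K) m) := by
    refine NN.nonneg_compl_qf h hz
      (Q := LinearMap.range (P z : Wt N K →ₗ[ℝ] Wt N K)) (by rw [hP.rank z hz])
      (fun w hw hw0 => hP.neg z hz w ((hP.mem_range hz).1 hw) hw0) (NN.BFld.of_fld hV) ?_ ?_
    · have e1 := (hC.xi_per h hz hper 0).1
      rw [zero_add, one_smul] at e1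
      have e2 := NN.fd_two_pi (K := K) h hz m
      simp only [Pi.add_apply, Pi.smul_apply]
      rw [e1, e2]
    · intro w hw
      have hw' := (hP.mem_range hz).1 hw
      rw [SV.ix_add_right h2pi hz.1 (NN.fld_fd hz.1 _ _ _ _) hX hY2, SV.ix_smul_right,
        hfdm w hw']
      change _ + _ * bb G z w m = 0
      rw [bb_symm hz.1 w m]; ring
  rw [SV.ix_add_self h2pi hz.1 hX hY2, SV.ix_smul_left, SV.ix_smul_left, SV.ix_smul_right,
    hfdm m hPm, hP.ix_kap hz hρ hc (σ := -1) (by norm_num) hσ'] at h0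
  change 0 ≤ _ + _ + _ * (_ * bb G z m m) at h0
  have hbb := bb_int (a := a) (b := b) hz.1 hc
  rw [← hm] at hbb
  rw [hbb] at h0
  -- compare
  have e3 : ∀ s, Ph h P z ρ c a b s = ∫ t in (0:ℝ)..(2 * π), c s * c t * kap h P z ρ a b s t := by
    intro s
    unfold Ph
    have h5 := per_shift (f := fun t => c s * c t * kap h P z ρ a b s t) (fun t => by
      rw [hσ, hP.kap_per_right hz hρ]; ring) (s - π)
    rw [← h5]
    congr 1; ring
  simp only [e3] at h0
  have hk1 : Continuous (Function.uncurry fun s t => c s * c t * kap h P z ρ a b s t) :=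
    cont_mul (hP.continuous_kap hz hρ) hc
  have hk2 : Continuous (Function.uncurry fun s t => c s * c t * bb G z (Nt a b s) (Nt a b t)) :=
    cont_mul (F := fun s t => bb G z (Nt a b s) (Nt a b t)) (continuous_bb hz.1) hc
  have e4 : ∀ s, ∫ t in (0:ℝ)..(2 * π), c s * c t * kk h P z ρ a b s t =
      4 * (∫ t in (0:ℝ)..(2 * π), c s * c t * kap h P z ρ a b s t) -
        ∫ t in (0:ℝ)..(2 * π), c s * c t * bb G z (Nt a b s) (Nt a b t) := by
    intro s
    rw [← intervalIntegral.integral_const_mul, ← intervalIntegral.integral_sub]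
    · refine intervalIntegral.integral_congr fun t _ => ?_
      simp only [kk]; ring
    · exact (continuous_const.mul (cont_left hk1 s)).intervalIntegrable _ _
    · exact (cont_left hk2 s).intervalIntegrable _ _
  simp only [e4]
  rw [intervalIntegral.integral_sub, intervalIntegral.integral_const_mul]
  · linarith
  · exact (continuous_const.mul (intervalIntegral.continuous_parametric_intervalIntegral_of_continuous'
      hk1 _ _)).intervalIntegrable _ _
  · exact (intervalIntegral.continuous_parametric_intervalIntegral_of_continuous'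
      hk2 _ _).intervalIntegrable _ _

end Crest.Agent.R208.KR
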