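import Crest.Agent.R208.KR8

/-!
R208, block KF (helper844), file KR9: the hypotheses from the negative bundle of helper537,
linearity, antiperiodicity, `J_{r+π} = -J_r`, equivariance.
-/

set_option autoImplicit false

open Set Filter Topology MeasureTheory Real Module
open scoped RealInnerProductSpace Interval ContDiff
open Crest.GeometryTopology.Submanifold
open Crest.Agent.R241.DDefs
open Crest.Agent.R241.D2
open Crest.Agent.R208.L (om TanTS dfl om_dfl)
open Crest.Agent.R208.FI (Tan Sub)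
open Crest.Agent.R208.NN (Wt nuP qq V0 fd fd' qf Rt ev ev')

noncomputable section

namespace Crest.Agent.R208.KR

variable {n N k K : ℕ} {κ : ℝ} {S : Set (Euc N)} {G : Geo n N κ S} {z ξ η : Euc N × Euc N}
  {h : GT.Bla G k} {P : Euc N × Euc N → Wt N K →L[ℝ] Wt N K} {θ θ' ρ c : ℝ → ℝ}
  {a b a' b' : Wt N K}

/-- the hypotheses from the negative bundle of the block [N] -/
theorem NegB.of_NB (h : GT.Bla G k) {δ : ℝ} (H : NB.NegB G (k - 1) (nuP K) δ P) :
    NegB h K P where
  smooth := H.smooth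
  idem := fun z _ w => H.idem z w
  symm := fun z _ w w' => H.sy z w w'
  equi := H.equi
  rank := fun z hz => by
    have h1 := NN.finrank_V0 h hz
    rw [H.rank z hz]; omega
  neg := fun z hz w hw hw0 => by
    refine (H.neg z hz w hw).trans_lt ?_
    have h1 : 0 < ‖w‖ := norm_pos_iff.2 hw0
    have h2 := H.pos_δ
    have : 0 < δ * ‖w‖ ^ 2 := by positivity
    linarith

/-! ### linearity -/

theorem Nt_addL (a b a' b' : Wt N K) (t : ℝ) :
    Nt (a + a') (b + b') t = Nt a b t + Nt a' b' t := by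
  unfold Nt; module

theorem Nt_smul (r : ℝ) (a b : Wt N K) (t : ℝ) : Nt (r • a) (r • b) t = r • Nt a b t := by
  unfold Nt; module

theorem C1_add (z : Euc N × Euc N) (a b a' b' : Wt N K) (r : ℝ) :
    C1 h P z θ θ' (a + a') (b + b') r = C1 h P z θ θ' a b r + C1 h P z θ θ' a' b' r := by
  unfold C1; rw [Nt_addL, map_add, smul_add]

theorem C1_smul (z : Euc N × Euc N) (s : ℝ) (a b : Wt N K) (r : ℝ) :
    C1 h P z θ θ' (s • a) (s • b) r = s • C1 h P z θ θ' a b r := by
  unfold C1; rw [Nt_smul, map_smul, smul_comm]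

theorem NegB.crv9 (hP : NegB h K P) (hz : z ∈ L.US G) (hθ : Ang θ θ') (a b : Wt N K) :
    Crv G z (C1 h P z θ θ' a b) := by
  rw [C1_eq]; exact hP.crv hz hθ continuous_const

theorem NegB.C1_per9 (hP : NegB h K P) (hz : z ∈ L.US G) (hθ : Ang θ θ') (a b : Wt N K) (r : ℝ) :
    C1 h P z θ θ' a b (r + 2 * π) = (-1 : ℝ) • C1 h P z θ θ' a b r := by
  rw [C1_eq]
  have := hP.Cc_per (a := a) (b := b) (c := fun _ => 1) hz hθ (σ := 1) (fun _ => by ring) r
  exact this

/-- the field is a global antiperiodic `C¹` tangent field -/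
theorem NegB.gf_xi (hP : NegB h K P) (hz : z ∈ L.US G) (hθ : Ang θ θ') (a b : Wt N K) :
    GF G z (-1) (xi G z (C1 h P z θ θ' a b)) (xi' G z (C1 h P z θ θ' a b)) :=
  (hP.crv9 hz hθ a b).gf h hz (hP.C1_per9 hz hθ a b)

theorem NegB.xi_add (hP : NegB h K P) (hz : z ∈ L.US G) (hθ : Ang θ θ') (a b a' b' : Wt N K)
    (t : ℝ) : xi G z (C1 h P z θ θ' (a + a') (b + b')) t =
      xi G z (C1 h P z θ θ' a b) t + xi G z (C1 h P z θ θ' a' b') t := by
  unfold xi SV.jf
  simp only [C1_add]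
  rw [intervalIntegral.integral_add ((hP.crv9 hz hθ a b).cont.intervalIntegrable _ _)
    ((hP.crv9 hz hθ a' b').cont.intervalIntegrable _ _), map_add]
  rfl

theorem xi_smul (z : Euc N × Euc N) (s : ℝ) (a b : Wt N K) (t : ℝ) :
    xi G z (C1 h P z θ θ' (s • a) (s • b)) t = s • xi G z (C1 h P z θ θ' a b) t := by
  unfold xi SV.jf
  simp only [C1_smul]
  rw [intervalIntegral.integral_smul, map_smul]
  rfl

theorem NegB.xi'_add (hP : NegB h K P) (hz : z ∈ L.US G) (hθ : Ang θ θ') (a b a' b' : Wt N K)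
    (t : ℝ) : xi' G z (C1 h P z θ θ' (a + a') (b + b')) t =
      xi' G z (C1 h P z θ θ' a b) t + xi' G z (C1 h P z θ θ' a' b') t := by
  unfold xi' SV.jf'
  simp only [C1_add]
  rw [intervalIntegral.integral_add ((hP.crv9 hz hθ a b).cont.intervalIntegrable _ _)
    ((hP.crv9 hz hθ a' b').cont.intervalIntegrable _ _), map_add]
  rfl

theorem xi'_smul (z : Euc N × Euc N) (s : ℝ) (a b : Wt N K) (t : ℝ) :
    xi' G z (C1 h P z θ θ' (s • a) (s • b)) t = s • xi' G z (C1 h P z θ θ' a b) t := by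
  unfold xi' SV.jf'
  simp only [C1_smul]
  rw [intervalIntegral.integral_smul, map_smul]
  rfl

/-- **FUB for the basic fields** -/
theorem NegB.ix_C1 (hP : NegB h K P) (hz : z ∈ L.US G) (hθ : Ang θ θ') (a b : Wt N K)
    {B B' : ℝ → Euc N} (hB : GF G z (-1) B B') :
    SV.ix G z 0 (2 * π) (xi G z (C1 h P z θ θ' a b)) (xi' G z (C1 h P z θ θ' a b)) B B' =
      ∫ r in (0:ℝ)..(2 * π), θ' r *
        (⟪SV.jf' G z (Jr h P z r (Nt a b (θ r))) (r + π), B (r + π)⟫ -
          ⟪SV.jf' G z (Jr h P z r (Nt a b (θ r))) r, B r⟫) := by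
  rw [ix_xi h hz (hP.crv9 hz hθ a b) (ε := -1) (by norm_num) (hP.C1_per9 hz hθ a b) hB]
  refine intervalIntegral.integral_congr fun r _ => ?_
  unfold C1
  simp only [jf'_smul, real_inner_smul_left, mul_sub]

/-! ### `J_{r+π} = -J_r` -/

theorem V0_of_tan (h : GT.Bla G k) (hz : z ∈ L.US G) {v : Euc N}
    (hv : ((0 : Euc N), v) ∈ Tan (L.US G) z) (h0 : (dfl G z π (0, v)).1 = 0) : v ∈ V0 G z := by
  have h1 := (LB.mem_Tan_US (FV.sub_S h.bl) hz).1 hv
  obtain ⟨-, h2, h3⟩ := h1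
  simp only [map_zero, _root_.zero_apply] at h2 h3
  have hvT : v ∈ G.T z.1 := by
    rw [sub_eq_zero] at h2
    rw [h2]; exact P_mem G hz.1.1
  have hT := NN.tanTS_of_Tan h hz hv
  have h4 := FV.fderiv_phi_eq hz.1 hT
  rw [FV.fderiv_phi_zero hz.1, h0] at h4
  have h5 : fderiv ℝ (Exp G z.1) (π • z.2) (π • v) = 0 := congrArg Prod.snd h4
  rw [map_smul] at h5
  have h6 : fderiv ℝ (Exp G z.1) (π • z.2) v = 0 := (smul_eq_zero.1 h5).resolve_left pi_ne_zero
  have hF := NN.mem_FF h hz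
  have h7 := (h.ker_iff (b := v) hF (NN.mem_Vs hz) hz.2).1 ⟨hvT, h6⟩
  exact NN.mem_V0.2 ⟨h7.1, by rw [real_inner_comm]; exact h7.2⟩

theorem NegB.Jr_unique (hP : NegB h K P) (hz : z ∈ L.US G) {r : ℝ} (hξ : ξ ∈ Tan (L.US G) z)
    (h0 : SV.jf G z ξ r = 0) (h1 : SV.jf G z ξ (r + π) = 0)
    (hp : ∀ w, P z w = w → ⟪SV.jf' G z ξ (r + π), fd G z (nuP K) w (r + π)⟫ -
      ⟪SV.jf' G z ξ r, fd G z (nuP K) w r⟫ = 0) : ξ = 0 := by
  set p := fl G (z, r) with hp'
  have hpU : p ∈ L.US G := fl_mem_US hz r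
  set v := SV.jf' G z ξ r with hv
  have e0 : dfl G z r ξ = (0, v) := Prod.ext h0 rfl
  have e1 : dfl G z (r + π) ξ = dfl G p π (0, v) := by rw [dfl_add hz.1, e0]
  have hvT : ((0 : Euc N), v) ∈ Tan (L.US G) p := by
    rw [← e0]; exact tan_dfl hz hξ r
  have hvV : v ∈ V0 G p := by
    refine V0_of_tan h hpU hvT ?_
    rw [← e1]; exact h1
  have hv0 : v = 0 := by
    obtain ⟨w, hw, hwv⟩ := hP.l1_surj hpU hvV
    -- transport `w` back to `z`
    set w' := Rt (nuP K) (-r) w with hw'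
    have hback : fl G (p, -r) = z := by
      rw [hp', ← fl_add' G hz.1, add_neg_cancel, fl_zero]
    have hPw' : P z w' = w' := by
      have := hP.equi p hpU (-r) w
      rw [hback, hw] at this
      exact this
    have hRw : Rt (nuP K) r w' = w := by
      rw [hw', ← NN.Rt_add, add_neg_cancel, NN.Rt_zero]
    have h2 := hp w' hPw'
    have e3 : fd G z (nuP K) w' (r + π) = fd G p (nuP K) w π := by
      rw [← hRw, hp', fd_shift hz.1, add_comm]
    have e4 : fd G z (nuP K) w' r = fd G p (nuP K) w 0 := by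
      rw [← hRw, hp', fd_shift hz.1, zero_add]
    have e5 : SV.jf' G z ξ (r + π) = (dfl G p π (0, v)).2 := by
      unfold SV.jf'; rw [e1]
    have e6 := inner_l1 h hpU hvV w
    rw [hwv] at e6
    rw [e3, e4, e5] at h2
    have : ⟪v, v⟫ = 0 := by rw [e6]; linarith
    exact inner_self_eq_zero.1 this
  rw [hv0] at e0
  have h3 := dfl_back (G := G) hz.1 r 0 (dfl G z r ξ)
  have h4 : dfl G (fl G (z, r)) (-r) (dfl G z r ξ) = ξ := by
    have h5 := dfl_add (G := G) hz.1 r (-r) ξ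
    rw [add_neg_cancel, L.dfl_zero hz.1] at h5
    exact h5.symm
  rw [← h4, e0]
  exact map_zero _

/-- **`J_{r+π} = -J_r`** -/
theorem NegB.Jr_pi9 (hP : NegB h K P) (hz : z ∈ L.US G) (r : ℝ) (w : Wt N K) :
    Jr h P z (r + π) w = -Jr h P z r w := by
  have hj : ∀ t, SV.jf G z (Jr h P z (r + π) w + Jr h P z r w) t =
      SV.jf G z (Jr h P z (r + π) w) t + SV.jf G z (Jr h P z r w) t := fun t => by
    unfold SV.jf; rw [map_add]; rfl
  have hj' : ∀ t, SV.jf' G z (Jr h P z (r + π) w + Jr h P z r w) t =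
      SV.jf' G z (Jr h P z (r + π) w) t + SV.jf' G z (Jr h P z r w) t := fun t => by
    unfold SV.jf'; rw [map_add]; rfl
  have hper : ∀ t, SV.jf' G z (Jr h P z (r + π) w) (t + 2 * π) =
      SV.jf' G z (Jr h P z (r + π) w) t := fun t => by
    unfold SV.jf'; rw [dfl_per h hz (hP.Jr_tan hz _ w)]
  have hperf : ∀ t, SV.jf G z (Jr h P z (r + π) w) (t + 2 * π) =
      SV.jf G z (Jr h P z (r + π) w) t := fun t => by
    unfold SV.jf; rw [dfl_per h hz (hP.Jr_tan hz _ w)]
  have h1 : Jr h P z (r + π) w + Jr h P z r w = 0 := by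
    refine hP.Jr_unique hz (r := r) (Submodule.add_mem _ (hP.Jr_tan hz _ w) (hP.Jr_tan hz _ w))
      ?_ ?_ ?_
    · have e1 := hP.Jr_v1 hz (r + π) w
      have e2 := hperf r
      have e3 : r + π + π = r + 2 * π := by ring
      rw [e3, e2] at e1
      rw [hj, e1, Jr_v0 hz, add_zero]
    · rw [hj, Jr_v0 hz, hP.Jr_v1 hz, add_zero]
    · intro w' hw'
      have e1 := hP.pair hz (r + π) w hw'
      have e2 := hP.pair hz r w hw'
      have e3 : r + π + π = r + 2 * π := by ring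
      have g1 := gf_fd (K := K) h hz w'
      rw [e3, hper, g1.per, one_smul] at e1
      rw [hj', hj', inner_add_left, inner_add_left]
      linarith
  exact eq_neg_of_add_eq_zero_left h1

/-! ### equivariance for the trivial angle -/

theorem dfl_Jr_flow (hz : z ∈ TS G) (s r : ℝ) (w : Wt N K) :
    dfl G z s (Jr h P z (r + s) w) = Jr h P (fl G (z, s)) r (Rt (nuP K) s w) := by
  rw [dfl_Jr hz, Jr_apply, ← fl_add' G hz, ← NN.Rt_add, add_comm s r]
  congr 2
  ring

theorem Nt_rot (s r : ℝ) (a b : Wt N K) :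
    Nt (Rt (nuP K) s (cos (s / 2) • a + sin (s / 2) • b))
      (Rt (nuP K) s (-sin (s / 2) • a + cos (s / 2) • b)) r =
      Rt (nuP K) s (Nt a b (r + s)) := by
  unfold Nt
  rw [← map_smul, ← map_smul, ← map_add]
  congr 1
  rw [add_div, cos_add, sin_add]
  module

/-- **equivariance** -/
theorem NegB.xi_equi (hP : NegB h K P) (hz : z ∈ L.US G) (a b : Wt N K) (s t : ℝ) :
    xi G (fl G (z, s)) (C1 h P (fl G (z, s)) (fun r => r) (fun _ => 1)
      (Rt (nuP K) s (cos (s / 2) • a + sin (s / 2) • b))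
      (Rt (nuP K) s (-sin (s / 2) • a + cos (s / 2) • b))) t =
    xi G z (C1 h P z (fun r => r) (fun _ => 1) a b) (t + s) := by
  have hang : Ang (fun r : ℝ => r) (fun _ => 1) :=
    ⟨fun r => hasDerivAt_id r, continuous_const, fun _ => one_pos, fun _ => rfl⟩
  have hc := (hP.crv9 hz hang a b).cont
  unfold xi SV.jf
  have e1 : ∀ r, C1 h P (fl G (z, s)) (fun r => r) (fun _ => 1)
      (Rt (nuP K) s (cos (s / 2) • a + sin (s / 2) • b))
      (Rt (nuP K) s (-sin (s / 2) • a + cos (s / 2) • b)) r =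
      dfl G z s (C1 h P z (fun r => r) (fun _ => 1) a b (r + s)) := by
    intro r
    unfold C1
    rw [Nt_rot, map_smul, dfl_Jr_flow hz.1]
  simp only [e1]
  have hc' : Continuous fun r => C1 h P z (fun r => r) (fun _ => 1) a b (r + s) :=
    hc.comp (continuous_id.add continuous_const)
  rw [(dfl G z s).intervalIntegral_comp_comm (hc'.intervalIntegrable _ _),
    intervalIntegral.integral_comp_add_right
      (fun r => C1 h P z (fun r => r) (fun _ => 1) a b r) s, ← dfl_add hz.1]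
  have e2 : t - π + s = t + s - π := by ring
  rw [e2, add_comm s t]

end Crest.Agent.R208.KR
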