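import Mathlib

/-! Row 208, block KF4 (helper589), part KS1: reparametrisations close to a step function. -/

set_option autoImplicit false

open Set Filter Topology MeasureTheory intervalIntegral
open scoped ContDiff Real

noncomputable section

namespace Crest.Agent.R208.KS

/-- bump of `sin²` -/
def wt (δ r : ℝ) : ℝ := Real.smoothTransition (1 - (Real.sin r) ^ 2 / δ)

theorem contDiff_wt (δ : ℝ) : ContDiff ℝ ∞ (wt δ) :=
  Real.smoothTransition.contDiff.comp (contDiff_const.sub ((Real.contDiff_sin.pow 2).div_const δ))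

theorem wt_nonneg (δ r : ℝ) : 0 ≤ wt δ r := Real.smoothTransition.nonneg _

theorem wt_add_pi (δ r : ℝ) : wt δ (r + π) = wt δ r := by
  rw [wt, wt, Real.sin_add_pi, neg_sq]

theorem wt_neg (δ r : ℝ) : wt δ (-r) = wt δ r := by
  rw [wt, wt, Real.sin_neg, neg_sq]

theorem wt_zero (δ : ℝ) : wt δ 0 = 1 := by
  rw [wt, Real.sin_zero]
  exact Real.smoothTransition.one_of_one_le (by simp)

theorem wt_eq_zero {δ r : ℝ} (hδ : 0 < δ) (h : δ ≤ (Real.sin r) ^ 2) : wt δ r = 0 :=
  Real.smoothTransition.zero_of_nonpos (by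
    have : 1 ≤ (Real.sin r) ^ 2 / δ := (one_le_div hδ).2 h
    linarith)

/-- the mass -/
def wI (δ : ℝ) : ℝ := ∫ r in (-(π / 2))..(π / 2), wt δ r

theorem wI_pos (δ : ℝ) : 0 < wI δ := by
  have hπ := Real.pi_pos
  refine intervalIntegral.integral_pos (by linarith) (contDiff_wt δ).continuous.continuousOn
    (fun r _ => wt_nonneg δ r) ⟨0, ⟨by linarith, by linarith⟩, ?_⟩
  rw [wt_zero]
  exact one_pos

/-- the derivative of the reparametrisation -/
def dth (ε δ r : ℝ) : ℝ := (1 - ε) * (π / wI δ) * wt δ r + ε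

theorem contDiff_dth (ε δ : ℝ) : ContDiff ℝ ∞ (dth ε δ) :=
  (contDiff_const.mul (contDiff_wt δ)).add contDiff_const

theorem dth_pos {ε δ : ℝ} (h0 : 0 < ε) (h1 : ε < 1) (r : ℝ) : 0 < dth ε δ r := by
  have h2 : 0 ≤ (1 - ε) * (π / wI δ) * wt δ r :=
    mul_nonneg (mul_nonneg (by linarith) (div_nonneg Real.pi_pos.le (wI_pos δ).le)) (wt_nonneg _ _)
  rw [dth]
  linarith

theorem dth_per (ε δ : ℝ) : Function.Periodic (dth ε δ) π := fun r => by
  rw [dth, dth, wt_add_pi]

theorem dth_neg (ε δ r : ℝ) : dth ε δ (-r) = dth ε δ r := by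
  rw [dth, dth, wt_neg]

/-- the reparametrisation -/
def th (ε δ r : ℝ) : ℝ := ∫ s in (0 : ℝ)..r, dth ε δ s

theorem hasDerivAt_th (ε δ r : ℝ) : HasDerivAt (th ε δ) (dth ε δ r) r :=
  intervalIntegral.integral_hasDerivAt_right
    ((contDiff_dth ε δ).continuous.intervalIntegrable _ _)
    ((contDiff_dth ε δ).continuous.stronglyMeasurableAtFilter _ _)
    (contDiff_dth ε δ).continuous.continuousAt

theorem deriv_th (ε δ : ℝ) : deriv (th ε δ) = dth ε δ := funext fun r => (hasDerivAt_th ε δ r).deriv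

theorem contDiff_th (ε δ : ℝ) : ContDiff ℝ ∞ (th ε δ) := by
  rw [contDiff_infty_iff_deriv, deriv_th]
  exact ⟨fun r => (hasDerivAt_th ε δ r).differentiableAt, contDiff_dth ε δ⟩

theorem integral_dth (ε δ : ℝ) : ∫ r in (-(π / 2))..(π / 2), dth ε δ r = π := by
  have h1 : IntervalIntegrable (fun r => (1 - ε) * (π / wI δ) * wt δ r) volume (-(π / 2)) (π / 2) :=
    ((contDiff_wt δ).continuous.const_mul _).intervalIntegrable _ _
  unfold dth
  rw [intervalIntegral.integral_add h1 intervalIntegrable_const,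
    intervalIntegral.integral_const_mul, intervalIntegral.integral_const]
  change (1 - ε) * (π / wI δ) * wI δ + _ = _
  rw [mul_assoc, div_mul_cancel₀ _ (wI_pos δ).ne', smul_eq_mul]
  ring

theorem th_add_pi (ε δ r : ℝ) : th ε δ (r + π) = th ε δ r + π := by
  have h1 : (∫ s in (0 : ℝ)..r, dth ε δ s) + ∫ s in r..(r + π), dth ε δ s =
      ∫ s in (0 : ℝ)..(r + π), dth ε δ s :=
    intervalIntegral.integral_add_adjacent_intervals
      ((contDiff_dth ε δ).continuous.intervalIntegrable _ _)
      ((contDiff_dth ε δ).continuous.intervalIntegrable _ _)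
  have h2 : ∫ s in r..(r + π), dth ε δ s = π := by
    rw [(dth_per ε δ).intervalIntegral_add_eq r (-(π / 2)),
      show -(π / 2) + π = π / 2 by ring, integral_dth]
  rw [h2] at h1
  exact h1.symm

theorem th_neg (ε δ r : ℝ) : th ε δ (-r) = -th ε δ r := by
  have h1 : ∫ s in (0 : ℝ)..r, dth ε δ (-s) = ∫ s in (-r)..(-0), dth ε δ s :=
    intervalIntegral.integral_comp_neg (fun s => dth ε δ s)
  simp only [dth_neg, neg_zero] at h1
  rw [th, intervalIntegral.integral_symm, ← h1, th]

theorem th_half (ε δ : ℝ) : th ε δ (π / 2) = π / 2 := by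
  have h1 := th_add_pi ε δ (-(π / 2))
  rw [th_neg, show -(π / 2) + π = π / 2 by ring] at h1
  linarith

theorem th_neg_half (ε δ : ℝ) : th ε δ (-(π / 2)) = -(π / 2) := by
  rw [th_neg, th_half]

theorem integral_cos (ε δ : ℝ) :
    ∫ r in (-(π / 2))..(π / 2), dth ε δ r * Real.cos (th ε δ r / 2) = 2 * Real.sqrt 2 := by
  have h1 : ∀ r ∈ uIcc (-(π / 2)) (π / 2), HasDerivAt (fun r => 2 * Real.sin (th ε δ r / 2))
      (dth ε δ r * Real.cos (th ε δ r / 2)) r := by
    intro r _
    have h2 := (((hasDerivAt_th ε δ r).div_const 2).sin).const_mul 2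
    refine h2.congr_deriv ?_
    ring
  rw [intervalIntegral.integral_eq_sub_of_hasDerivAt h1, th_half, th_neg_half]
  · rw [show π / 2 / 2 = π / 4 by ring, show -(π / 2) / 2 = -(π / 4) by ring, Real.sin_neg,
      Real.sin_pi_div_four]
    ring
  · exact ((contDiff_dth ε δ).continuous.mul
      (Real.continuous_cos.comp ((contDiff_th ε δ).continuous.div_const 2))).intervalIntegrable _ _

theorem integral_sin (ε δ : ℝ) :
    ∫ r in (-(π / 2))..(π / 2), dth ε δ r * Real.sin (th ε δ r / 2) = 0 := by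
  have h1 : ∀ r ∈ uIcc (-(π / 2)) (π / 2), HasDerivAt (fun r => -2 * Real.cos (th ε δ r / 2))
      (dth ε δ r * Real.sin (th ε δ r / 2)) r := by
    intro r _
    have h2 := (((hasDerivAt_th ε δ r).div_const 2).cos).const_mul (-2)
    refine h2.congr_deriv ?_
    ring
  rw [intervalIntegral.integral_eq_sub_of_hasDerivAt h1, th_half, th_neg_half]
  · rw [show -(π / 2) / 2 = -(π / 2 / 2) by ring, Real.cos_neg]
    ring
  · exact ((contDiff_dth ε δ).continuous.mul
      (Real.continuous_sin.comp ((contDiff_th ε δ).continuous.div_const 2))).intervalIntegrable _ _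

variable {M : Type*} [TopologicalSpace M] [CompactSpace M]

/-- the measure `θ' dr` concentrates at `0` -/
theorem exists_conc {F : M → ℝ → ℝ} (hF : Continuous fun p : M × ℝ => F p.1 p.2)
    (hz : ∀ m, F m 0 = 0) {η : ℝ} (hη : 0 < η) :
    ∃ ε δ : ℝ, 0 < ε ∧ ε < 1 ∧ 0 < δ ∧
      ∀ m, ∫ r in (-(π / 2))..(π / 2), dth ε δ r * F m r ≤ η := by
  have hπ := Real.pi_pos
  -- uniform smallness near `0`
  obtain ⟨ρ, hρ, hρ2, hsm⟩ : ∃ ρ > 0, ρ ≤ π / 2 ∧ ∀ m r, |r| < ρ → F m r ≤ η / (2 * π) := by
    have hop : IsOpen {p : M × ℝ | F p.1 p.2 < η / (2 * π)} := isOpen_lt hF continuous_const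
    have hsub : (univ : Set M) ×ˢ ({0} : Set ℝ) ⊆ {p : M × ℝ | F p.1 p.2 < η / (2 * π)} := by
      rintro ⟨m, r⟩ ⟨-, hr⟩
      have hr' : r = 0 := hr
      change F m r < _
      rw [hr', hz]
      positivity
    obtain ⟨u, v, hu, hv, h1, h2, h3⟩ := generalized_tube_lemma isCompact_univ
      (isCompact_singleton (x := (0 : ℝ))) hop hsub
    obtain ⟨ρ, hρ, hb⟩ := Metric.isOpen_iff.1 hv 0 (h2 rfl)
    refine ⟨min ρ (π / 2), lt_min hρ (by positivity), min_le_right _ _, fun m r hr => ?_⟩
    have h4 : r ∈ Metric.ball (0 : ℝ) ρ := by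
      rw [mem_ball_zero_iff, Real.norm_eq_abs]
      exact lt_of_lt_of_le hr (min_le_left _ _)
    exact le_of_lt (h3 (⟨h1 (mem_univ m), hb h4⟩ : (m, r) ∈ u ×ˢ v))
  -- bound
  obtain ⟨K, hK⟩ : ∃ K, ∀ m, ∀ r ∈ Icc (-(π / 2)) (π / 2), F m r ≤ K := by
    have hc : IsCompact ((univ : Set M) ×ˢ Icc (-(π / 2)) (π / 2)) := isCompact_univ.prod isCompact_Icc
    obtain ⟨K, hK⟩ := hc.bddAbove_image hF.continuousOn
    exact ⟨K, fun m r hr => hK ⟨(m, r), ⟨mem_univ m, hr⟩, rfl⟩⟩
  set K' := max K 0 + 1 with hK'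
  have hK'0 : 0 < K' := by
    have := le_max_right K 0
    linarith
  set δ := Real.sin ρ ^ 2 with hδ
  have hsρ : 0 < Real.sin ρ := Real.sin_pos_of_pos_of_lt_pi hρ (by linarith)
  have hδ0 : 0 < δ := by positivity
  set ε := min (1 / 2) (η / (2 * π * K')) with hε
  have hε0 : 0 < ε := lt_min (by norm_num) (by positivity)
  have hε1 : ε < 1 := lt_of_le_of_lt (min_le_left _ _) (by norm_num)
  refine ⟨ε, δ, hε0, hε1, hδ0, fun m => ?_⟩
  have hFm : Continuous (F m) := hF.comp (continuous_const.prodMk continuous_id)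
  have hpt : ∀ r ∈ Icc (-(π / 2)) (π / 2), dth ε δ r * F m r ≤
      (1 - ε) * (π / wI δ) * wt δ r * (η / (2 * π)) + ε * K' := by
    intro r hr
    rw [dth, add_mul]
    refine add_le_add ?_ ?_
    · by_cases hr2 : |r| < ρ
      · exact mul_le_mul_of_nonneg_left (hsm m r hr2)
          (mul_nonneg (mul_nonneg (by linarith) (div_nonneg hπ.le (wI_pos δ).le)) (wt_nonneg _ _))
      · have h1 : wt δ r = 0 := by
          refine wt_eq_zero hδ0 ?_
          rw [hδ, ← sq_abs (Real.sin r), Real.abs_sin_eq_sin_abs_of_abs_le_pi (abs_le.2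
            ⟨by linarith [hr.1], by linarith [hr.2]⟩)]
          refine pow_le_pow_left₀ hsρ.le ?_ 2
          exact Real.sin_le_sin_of_le_of_le_pi_div_two (by linarith) (abs_le.2 ⟨by linarith [hr.1],
            hr.2⟩) (not_lt.1 hr2)
        rw [h1, mul_zero, zero_mul, zero_mul]
    · refine mul_le_mul_of_nonneg_left ?_ hε0.le
      have := hK m r hr
      have h2 := le_max_left K 0
      linarith
  have hle : -(π / 2) ≤ π / 2 := by linarith
  have hi1 : IntervalIntegrable (fun r => dth ε δ r * F m r) volume (-(π / 2)) (π / 2) :=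
    ((contDiff_dth ε δ).continuous.mul hFm).intervalIntegrable _ _
  have hi2 : IntervalIntegrable (fun r => (1 - ε) * (π / wI δ) * wt δ r * (η / (2 * π))) volume
      (-(π / 2)) (π / 2) :=
    (((contDiff_wt δ).continuous.const_mul _).mul_const _).intervalIntegrable _ _
  have h3 := intervalIntegral.integral_mono_on hle hi1 (hi2.add intervalIntegrable_const) hpt
  refine h3.trans ?_
  rw [intervalIntegral.integral_add hi2 intervalIntegrable_const,
    intervalIntegral.integral_mul_const, intervalIntegral.integral_const_mul,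
    intervalIntegral.integral_const, smul_eq_mul]
  change (1 - ε) * (π / wI δ) * wI δ * (η / (2 * π)) + _ ≤ _
  rw [mul_assoc (1 - ε), div_mul_cancel₀ _ (wI_pos δ).ne']
  have h4 : ε * K' ≤ η / (2 * π) := by
    have h5 : ε ≤ η / (2 * π * K') := min_le_right _ _
    calc ε * K' ≤ η / (2 * π * K') * K' := mul_le_mul_of_nonneg_right h5 hK'0.le
      _ = η / (2 * π) := by field_simp
  have h6 : (1 - ε) * π * (η / (2 * π)) ≤ η / 2 := by
    have h7 : π * (η / (2 * π)) = η / 2 := by field_simp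
    rw [mul_assoc, h7]
    have : 0 ≤ ε * (η / 2) := by positivity
    nlinarith
  have h8 : (π / 2 - -(π / 2)) * (ε * K') ≤ η / 2 := by
    have h9 : π / 2 - -(π / 2) = π := by ring
    rw [h9]
    calc π * (ε * K') ≤ π * (η / (2 * π)) := mul_le_mul_of_nonneg_left h4 hπ.le
      _ = η / 2 := by field_simp
  linarith

/-- **the analytic step of KF4** -/
theorem exists_theta {A B : M → ℝ → ℝ} (hA : Continuous fun p : M × ℝ => A p.1 p.2)
    (hB : Continuous fun p : M × ℝ => B p.1 p.2) (hAp : ∀ m r, A m (r + 2 * π) = -A m r)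
    (hBp : ∀ m r, B m (r + 2 * π) = -B m r) {c : ℝ} (hc : 0 < c) (h : ∀ m, A m 0 + B m π ≤ -c) :
    ∃ θ : ℝ → ℝ, ContDiff ℝ ∞ θ ∧ (∀ r, 0 < deriv θ r) ∧ (∀ r, θ (r + π) = θ r + π) ∧
      (∀ r, θ (-r) = -θ r) ∧ ∀ m, ∫ r in (0 : ℝ)..(2 * π), deriv θ r *
        (Real.cos (θ r / 2) * A m r + Real.sin (θ r / 2) * B m r) ≤ -(2 * c) := by
  have hπ := Real.pi_pos
  set F : M → ℝ → ℝ := fun m r => (|A m r - A m 0| + |B m (r + π) - B m π|) +
    (|B m r - B m 0| + |A m (r + π) - A m π|) with hFd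
  have hA0 : ∀ c : ℝ, Continuous fun p : M × ℝ => A p.1 c := fun c =>
    hA.comp (continuous_fst.prodMk continuous_const)
  have hB0 : ∀ c : ℝ, Continuous fun p : M × ℝ => B p.1 c := fun c =>
    hB.comp (continuous_fst.prodMk continuous_const)
  have hA1 : Continuous fun p : M × ℝ => A p.1 (p.2 + π) :=
    hA.comp (continuous_fst.prodMk (continuous_snd.add continuous_const))
  have hB1 : Continuous fun p : M × ℝ => B p.1 (p.2 + π) :=
    hB.comp (continuous_fst.prodMk (continuous_snd.add continuous_const))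
  have hF : Continuous fun p : M × ℝ => F p.1 p.2 :=
    (((hA.sub (hA0 0)).abs).add ((hB1.sub (hB0 π)).abs)).add
      (((hB.sub (hB0 0)).abs).add ((hA1.sub (hA0 π)).abs))
  obtain ⟨ε, δ, hε0, hε1, hδ0, hF2⟩ := exists_conc hF (fun m => by simp [hFd]) (show 0 < c / 2 by positivity)
  refine ⟨th ε δ, contDiff_th ε δ, fun r => ?_, th_add_pi ε δ, th_neg ε δ, fun m => ?_⟩
  · rw [deriv_th]
    exact dth_pos hε0 hε1 r
  rw [deriv_th]
  set g : ℝ → ℝ := fun r => dth ε δ r *
    (Real.cos (th ε δ r / 2) * A m r + Real.sin (th ε δ r / 2) * B m r) with hg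
  have cA : Continuous (A m) := hA.comp (continuous_const.prodMk continuous_id)
  have cB : Continuous (B m) := hB.comp (continuous_const.prodMk continuous_id)
  have cd := (contDiff_dth ε δ).continuous
  have cc : Continuous fun r => Real.cos (th ε δ r / 2) :=
    Real.continuous_cos.comp ((contDiff_th ε δ).continuous.div_const 2)
  have cs : Continuous fun r => Real.sin (th ε δ r / 2) :=
    Real.continuous_sin.comp ((contDiff_th ε δ).continuous.div_const 2)
  have cg : Continuous g := cd.mul ((cc.mul cA).add (cs.mul cB))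
  have hth2 : ∀ r, th ε δ (r + 2 * π) = th ε δ r + 2 * π := by
    intro r
    rw [show r + 2 * π = r + π + π by ring, th_add_pi, th_add_pi]
    ring
  have hgp : Function.Periodic g (2 * π) := by
    intro r
    have h1 : dth ε δ (r + 2 * π) = dth ε δ r := by
      rw [show r + 2 * π = r + π + π by ring, dth_per, dth_per]
    simp only [hg]
    rw [h1, hth2, hAp, hBp, show (th ε δ r + 2 * π) / 2 = th ε δ r / 2 + π by ring, Real.cos_add_pi,
      Real.sin_add_pi]
    ring
  have e1 : ∫ r in (0 : ℝ)..(2 * π), g r = ∫ r in (-(π / 2))..(-(π / 2) + 2 * π), g r := by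
    rw [← hgp.intervalIntegral_add_eq 0 (-(π / 2)), zero_add]
  have e2 : ∫ r in (-(π / 2))..(-(π / 2) + 2 * π), g r =
      (∫ r in (-(π / 2))..(π / 2), g r) + ∫ r in (-(π / 2))..(π / 2), g (r + π) := by
    rw [intervalIntegral.integral_comp_add_right,
      show -(π / 2) + π = π / 2 by ring, show π / 2 + π = -(π / 2) + 2 * π by ring]
    exact (intervalIntegral.integral_add_adjacent_intervals (cg.intervalIntegrable _ _)
      (cg.intervalIntegrable _ _)).symm
  have e3 : ∀ r, g (r + π) = dth ε δ r *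
      (-Real.sin (th ε δ r / 2) * A m (r + π) + Real.cos (th ε δ r / 2) * B m (r + π)) := by
    intro r
    simp only [hg]
    rw [dth_per, th_add_pi, show (th ε δ r + π) / 2 = th ε δ r / 2 + π / 2 by ring,
      Real.cos_add_pi_div_two, Real.sin_add_pi_div_two]
  have cA1 : Continuous fun r => A m (r + π) := cA.comp (continuous_id.add continuous_const)
  have cB1 : Continuous fun r => B m (r + π) := cB.comp (continuous_id.add continuous_const)
  have cg1 : Continuous fun r => g (r + π) := cg.comp (continuous_id.add continuous_const)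
  have e4 : ∫ r in (0 : ℝ)..(2 * π), g r = ∫ r in (-(π / 2))..(π / 2), (g r + g (r + π)) := by
    rw [e1, e2, intervalIntegral.integral_add (cg.intervalIntegrable _ _)
      (cg1.intervalIntegrable _ _)]
  have hpt : ∀ r ∈ Icc (-(π / 2)) (π / 2), g r + g (r + π) ≤
      (dth ε δ r * Real.cos (th ε δ r / 2) * (A m 0 + B m π) +
        dth ε δ r * Real.sin (th ε δ r / 2) * (B m 0 - A m π)) + dth ε δ r * F m r := by
    intro r _
    have hd := (dth_pos (δ := δ) hε0 hε1 r).le
    have h1 : g r + g (r + π) = (dth ε δ r * Real.cos (th ε δ r / 2) * (A m 0 + B m π) +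
        dth ε δ r * Real.sin (th ε δ r / 2) * (B m 0 - A m π)) + dth ε δ r *
        (Real.cos (th ε δ r / 2) * ((A m r - A m 0) + (B m (r + π) - B m π)) +
          Real.sin (th ε δ r / 2) * ((B m r - B m 0) - (A m (r + π) - A m π))) := by
      rw [e3]
      simp only [hg]
      ring
    rw [h1]
    refine add_le_add le_rfl (mul_le_mul_of_nonneg_left ?_ hd)
    have h2 : Real.cos (th ε δ r / 2) * ((A m r - A m 0) + (B m (r + π) - B m π)) ≤
        |A m r - A m 0| + |B m (r + π) - B m π| := by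
      refine (le_abs_self _).trans ?_
      rw [abs_mul]
      refine (mul_le_of_le_one_left (abs_nonneg _) (Real.abs_cos_le_one _)).trans (abs_add_le _ _)
    have h3 : Real.sin (th ε δ r / 2) * ((B m r - B m 0) - (A m (r + π) - A m π)) ≤
        |B m r - B m 0| + |A m (r + π) - A m π| := by
      refine (le_abs_self _).trans ?_
      rw [abs_mul]
      refine (mul_le_of_le_one_left (abs_nonneg _) (Real.abs_sin_le_one _)).trans ?_
      rw [sub_eq_add_neg _ (A m (r + π) - A m π)]
      exact (abs_add_le _ _).trans (by rw [abs_neg])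
    exact add_le_add h2 h3
  have hle : -(π / 2) ≤ π / 2 := by linarith
  have cF : Continuous (F m) := hF.comp (continuous_const.prodMk continuous_id)
  have i1 : IntervalIntegrable (fun r => dth ε δ r * Real.cos (th ε δ r / 2) * (A m 0 + B m π))
      volume (-(π / 2)) (π / 2) := ((cd.mul cc).mul_const _).intervalIntegrable _ _
  have i2 : IntervalIntegrable (fun r => dth ε δ r * Real.sin (th ε δ r / 2) * (B m 0 - A m π))
      volume (-(π / 2)) (π / 2) := ((cd.mul cs).mul_const _).intervalIntegrable _ _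
  have i3 : IntervalIntegrable (fun r => dth ε δ r * F m r) volume (-(π / 2)) (π / 2) :=
    (cd.mul cF).intervalIntegrable _ _
  have h5 := intervalIntegral.integral_mono_on hle
    ((cg.add cg1).intervalIntegrable _ _)
    ((i1.add i2).add i3) hpt
  have h6 : ∫ r in (-(π / 2))..(π / 2), ((dth ε δ r * Real.cos (th ε δ r / 2) * (A m 0 + B m π) +
        dth ε δ r * Real.sin (th ε δ r / 2) * (B m 0 - A m π)) + dth ε δ r * F m r) =
      2 * Real.sqrt 2 * (A m 0 + B m π) + ∫ r in (-(π / 2))..(π / 2), dth ε δ r * F m r := by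
    rw [intervalIntegral.integral_add (i1.add i2) i3, intervalIntegral.integral_add i1 i2,
      intervalIntegral.integral_mul_const, intervalIntegral.integral_mul_const, integral_cos,
      integral_sin, zero_mul, add_zero]
  rw [e4]
  refine (h5.trans h6.le).trans ?_
  have h7 := hF2 m
  have h8 := h m
  have h9 : (5 / 4 : ℝ) ≤ Real.sqrt 2 := by
    rw [Real.le_sqrt' (by norm_num : (0 : ℝ) < 5 / 4)]
    norm_num
  have h10 : (0 : ℝ) ≤ 2 * Real.sqrt 2 := by positivity
  have h11 := mul_le_mul_of_nonneg_left h8 h10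
  have h12 : (5 / 4 : ℝ) * c ≤ Real.sqrt 2 * c := mul_le_mul_of_nonneg_right h9 hc.le
  have h13 : (fun r => g r + g (r + π)) = (g + fun r => g (r + π)) := rfl
  linarith

end Crest.Agent.R208.KS
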