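import Crest.Agent.R208.KR8
import Crest.Agent.R208.KS1

/-! Row 208, block KF4 (helper589), part KS2: the fields `xi` for an angle close to a step function
against a given antiperiodic family. -/

set_option autoImplicit false

open Set Filter Topology MeasureTheory Real Module
open scoped RealInnerProductSpace Interval ContDiff
open Crest.GeometryTopology.Submanifold
open Crest.Agent.R241.DDefs
open Crest.Agent.R241.D2
open Crest.Agent.R208.L (om TanTS dfl om_dfl)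
open Crest.Agent.R208.FI (Tan Sub)
open Crest.Agent.R208.NN (Wt nuP qq V0 fd fd' qf Rt ev ev')

noncomputable section

namespace Crest.Agent.R208.KR

variable {n N k K : ℕ} {κ : ℝ} {S : Set (Euc N)} {G : Geo n N κ S} {z : Euc N × Euc N}
  {h : GT.Bla G k} {P : Euc N × Euc N → Wt N K →L[ℝ] Wt N K}

/-! ### `J_{r+π} = - J_r` -/

theorem qq_fl_pi (h : GT.Bla G k) (hz : z ∈ L.US G) : qq G (fl G (z, π)) = z.1 := by
  unfold qq
  rw [← fl_add' G hz.1, ← two_mul, NN.fl_two_pi h hz]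

theorem dfl_V0 (h : GT.Bla G k) (hz : z ∈ L.US G) {u : Euc N} (hu : u ∈ V0 G z) :
    dfl G z π (0, u) = (0, De G z u) := Prod.ext (dfl_V0_fst h hz hu) rfl

theorem De_mem (h : GT.Bla G k) (hz : z ∈ L.US G) {u : Euc N} (hu : u ∈ V0 G z) :
    De G z u ∈ V0 G (fl G (z, π)) := by
  have hF : (z.1, qq G z) ∈ GT.FF S := NN.mem_FF h hz
  have hzV : z.2 ∈ GT.Vs G z.1 (qq G z) := NN.mem_Vs hz
  have huV := (NN.mem_V0.1 hu).1
  rw [NN.mem_V0, qq_fl_pi h hz, De_apply, dfl_V0_snd h hz hu]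
  refine ⟨Submodule.neg_mem _ (h.lf_mem hF _), ?_⟩
  have h3 := h.lf_unit hF hzV hz.2
  have h4 : (fl G (z, π)).2 = -GT.lf G z.1 (qq G z) z.2 := by
    change (fl G ((z.1, z.2), π)).2 = _
    rw [h3, GT.ar, neg_neg]
  rw [h4, inner_neg_left, inner_neg_right, neg_neg, h.inner_lf hF huV hzV]
  exact (NN.mem_V0.1 hu).2

theorem De_De (h : GT.Bla G k) (hz : z ∈ L.US G) {u : Euc N} (hu : u ∈ V0 G z) :
    (dfl G (fl G (z, π)) π (0, De G z u)).2 = u := by
  rw [← dfl_V0 h hz hu, ← dfl_add hz.1, ← two_mul, NN.dfl_two_pi h hz (tan_V0 h hz hu)]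

theorem NegB.uu_pi (hP : NegB h K P) (hz : z ∈ L.US G) (w : Wt N K) :
    uu h P (fl G (z, π)) (Rt (nuP K) π w) = -De G z (uu h P z w) := by
  have hy := fl_mem_US (G := G) hz π
  set y := fl G (z, π) with hyd
  have huV : uu h P z w ∈ V0 G z := hP.uu_mem hz w
  have hdV : uu h P y (Rt (nuP K) π w) + De G z (uu h P z w) ∈ V0 G y :=
    Submodule.add_mem _ (hP.uu_mem hy _) (De_mem h hz huV)
  obtain ⟨w'', hw'', hl⟩ := hP.l1_surj hy hdV
  obtain ⟨w', rfl⟩ : ∃ w', Rt (nuP K) π w' = w'' := by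
    refine ⟨Rt (nuP K) π w'', ?_⟩
    rw [← NN.Rt_add, ← two_mul, NN.Rt_per]
  have hw' : P z w' = w' := by
    have h1 := hP.equi z hz π w'
    rw [← hyd, hw''] at h1
    have h2 := congrArg (Rt (nuP K) π) h1
    rwa [← NN.Rt_add, ← NN.Rt_add, ← two_mul, NN.Rt_per, NN.Rt_per, eq_comm] at h2
  set d := uu h P y (Rt (nuP K) π w) + De G z (uu h P z w) with hd
  have h0 : ⟪d, d⟫ = 0 := by
    nth_rewrite 2 [← hl]
    rw [hd, inner_add_left, hP.inner_uu hy hw'', inner_l1 h hy (De_mem h hz huV), De_De h hz huV,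
      bb_flow h hz, fd_shift hz.1, fd_shift hz.1, zero_add]
    have e1 : fd G z (nuP K) w' (π + π) = fd G z (nuP K) w' 0 := by
      have h5 := (gf_fd h hz w').per 0
      rw [one_smul, zero_add, two_mul] at h5
      exact h5
    have h6 := hP.inner_uu hz (w := w) hw'
    rw [inner_l1 h hz huV, ← De_apply] at h6
    rw [e1]
    linarith
  have h1 := inner_self_eq_zero.1 h0
  rw [hd] at h1
  exact eq_neg_of_add_eq_zero_left h1

theorem NegB.Jr_pi (hP : NegB h K P) (hz : z ∈ L.US G) (w : Wt N K) (r : ℝ) :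
    Jr h P z (r + π) w = -Jr h P z r w := by
  have hy := fl_mem_US (G := G) hz r
  have hu := hP.uu_mem hy (Rt (nuP K) r w)
  have h1 : fl G (z, r + π) = fl G (fl G (z, r), π) := fl_add' G hz.1 r π
  have h2 : Rt (nuP K) (r + π) w = Rt (nuP K) π (Rt (nuP K) r w) := by
    rw [← NN.Rt_add, add_comm]
  rw [Jr_apply, Jr_apply, h1, h2, hP.uu_pi hy]
  have h3 : ((0 : Euc N), -De G (fl G (z, r)) (uu h P (fl G (z, r)) (Rt (nuP K) r w))) =
      -dfl G (fl G (z, r)) π (0, uu h P (fl G (z, r)) (Rt (nuP K) r w)) := by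
    rw [dfl_V0 h hy hu]
    ext1
    · simp
    · rfl
  rw [h3, map_neg]
  congr 1
  have h4 := dfl_add hy.1 π (-(r + π)) (0, uu h P (fl G (z, r)) (Rt (nuP K) r w))
  rw [← h4]
  congr 2
  ring

/-! ### KF4 -/

theorem NegB.crv1 (hP : NegB h K P) (hz : z ∈ L.US G) {θ θ' : ℝ → ℝ} (hθ : Ang θ θ')
    (a b : Wt N K) : Crv G z (C1 h P z θ θ' a b) := by
  rw [C1_eq]
  exact hP.crv hz hθ continuous_const

theorem NegB.C1_per (hP : NegB h K P) (hz : z ∈ L.US G) {θ θ' : ℝ → ℝ} (hθ : Ang θ θ')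
    (a b : Wt N K) (r : ℝ) :
    C1 h P z θ θ' a b (r + 2 * π) = (-1 : ℝ) • C1 h P z θ θ' a b r := by
  rw [C1_eq]
  exact hP.Cc_per hz hθ (σ := 1) (fun _ => (one_mul _).symm) r

/-- the density of the index form of `xi` against `Q` -/
def qd (h : GT.Bla G k) (P : Euc N × Euc N → Wt N K →L[ℝ] Wt N K) (z : Euc N × Euc N)
    (w : Wt N K) (Q : ℝ → Euc N) (r : ℝ) : ℝ :=
  ⟪SV.jf' G z (Jr h P z r w) (r + π), Q (r + π)⟫ - ⟪SV.jf' G z (Jr h P z r w) r, Q r⟫

theorem jf'_add (ξ η : Euc N × Euc N) (t : ℝ) :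
    SV.jf' G z (ξ + η) t = SV.jf' G z ξ t + SV.jf' G z η t := by
  unfold SV.jf'; rw [map_add]; rfl

theorem jf'_neg (ξ : Euc N × Euc N) (t : ℝ) : SV.jf' G z (-ξ) t = -SV.jf' G z ξ t := by
  unfold SV.jf'; rw [map_neg]; rfl

/-- **FUB in terms of `qd`** -/
theorem NegB.ix_xi_eq (hP : NegB h K P) (hz : z ∈ L.US G) {θ θ' : ℝ → ℝ} (hθ : Ang θ θ')
    {a b : Wt N K} {Q Q' : ℝ → Euc N} (hQ : GF G z (-1) Q Q') :
    SV.ix G z 0 (2 * π) (xi G z (C1 h P z θ θ' a b)) (xi' G z (C1 h P z θ θ' a b)) Q Q' =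
      ∫ r in (0:ℝ)..(2 * π), θ' r * (cos (θ r / 2) * qd h P z a Q r +
        sin (θ r / 2) * qd h P z b Q r) := by
  rw [ix_xi h hz (hP.crv1 hz hθ a b) (by norm_num : (-1 : ℝ) * -1 = 1) (hP.C1_per hz hθ a b) hQ]
  refine intervalIntegral.integral_congr fun r _ => ?_
  simp only [C1, Nt, qd, map_add, map_smul, jf'_smul, jf'_add, inner_add_left,
    real_inner_smul_left]
  ring

theorem NegB.qd_per (hP : NegB h K P) (hz : z ∈ L.US G) (w : Wt N K) {Q Q' : ℝ → Euc N}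
    (hQ : GF G z (-1) Q Q') (r : ℝ) : qd h P z w Q (r + 2 * π) = -qd h P z w Q r := by
  have hT := hP.Jr_tan hz r w
  have e1 : ∀ t, SV.jf' G z (Jr h P z r w) (t + 2 * π) = SV.jf' G z (Jr h P z r w) t := by
    intro t
    unfold SV.jf'
    rw [dfl_per h hz hT]
  unfold qd
  rw [hP.Jr_per hz, show r + 2 * π + π = r + π + 2 * π by ring, e1, e1, hQ.per, hQ.per,
    neg_one_smul, neg_one_smul, inner_neg_right, inner_neg_right]
  ring

/-- the limit -/
theorem NegB.qd_lim (hP : NegB h K P) (hz : z ∈ L.US G) (a b : Wt N K) {Q Q' : ℝ → Euc N}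
    (hQ : GF G z (-1) Q Q') : qd h P z a Q 0 + qd h P z b Q π =
      -⟪SV.jf' G z (Jr h P z 0 (a - b)) 0, Q 0⟫ +
        ⟪SV.jf' G z (Jr h P z 0 (a + b)) π, Q π⟫ := by
  have h1 := hP.Jr_pi hz b 0
  rw [zero_add] at h1
  have e1 : SV.jf' G z (Jr h P z 0 b) (2 * π) = SV.jf' G z (Jr h P z 0 b) 0 := by
    have := dfl_per h hz (hP.Jr_tan hz 0 b) 0
    unfold SV.jf'
    rw [zero_add] at this
    rw [this]
  have e2 : Q (2 * π) = -Q 0 := by
    have := hQ.per 0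
    rwa [zero_add, neg_one_smul] at this
  unfold qd
  rw [h1, jf'_neg, jf'_neg, ← two_mul, e1, e2, zero_add, sub_eq_add_neg a b, map_add, map_add,
    map_neg, jf'_add, jf'_add, jf'_neg]
  simp only [inner_add_left, inner_neg_left, inner_neg_right, neg_neg]
  ring

section fam
variable {M : Type*} [TopologicalSpace M] {zz : M → Euc N × Euc N} {a b : M → Wt N K}
  {Q Q' : M → ℝ → Euc N}

theorem NegB.continuous_jf' (hP : NegB h K P) (hz : ∀ m, zz m ∈ L.US G) (hzc : Continuous zz)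
    (ha : Continuous a) {τ : M × ℝ → ℝ} (hτ : Continuous τ) :
    Continuous fun p : M × ℝ => SV.jf' G (zz p.1) (Jr h P (zz p.1) p.2 (a p.1)) (τ p) := by
  refine continuous_iff_continuousAt.2 fun p => ?_
  have h1 : ContinuousAt (fun p : M × ℝ => dfl G (zz p.1) (τ p)) p := by
    have h2 : ContinuousAt (fun q : (Euc N × Euc N) × ℝ => dfl G q.1 q.2) (zz p.1, τ p) :=
      (contDiffAt_dfl (hz p.1).1 (τ p)).continuousAt
    have h3 : Continuous fun p : M × ℝ => (zz p.1, τ p) :=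
      (hzc.comp continuous_fst).prodMk hτ
    exact ContinuousAt.comp (f := fun p : M × ℝ => (zz p.1, τ p)) (x := p) h2 h3.continuousAt
  have h4 : ContinuousAt (fun p : M × ℝ => Jr h P (zz p.1) p.2) p := by
    have h2 : ContinuousAt (fun q : (Euc N × Euc N) × ℝ => Jr h P q.1 q.2) (zz p.1, p.2) :=
      (hP.contDiffAt_Jr (hz p.1) p.2).continuousAt
    have h3 : Continuous fun p : M × ℝ => (zz p.1, p.2) :=
      (hzc.comp continuous_fst).prodMk continuous_snd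
    exact ContinuousAt.comp (f := fun p : M × ℝ => (zz p.1, p.2)) (x := p) h2 h3.continuousAt
  have h5 : ContinuousAt (fun p : M × ℝ => a p.1) p := (ha.comp continuous_fst).continuousAt
  exact (h1.clm_apply (h4.clm_apply h5)).snd

theorem NegB.continuous_qd (hP : NegB h K P) (hz : ∀ m, zz m ∈ L.US G) (hzc : Continuous zz)
    (ha : Continuous a) (hQ : Continuous fun p : M × ℝ => Q p.1 p.2) :
    Continuous fun p : M × ℝ => qd h P (zz p.1) (a p.1) (Q p.1) p.2 := by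
  have h1 := hP.continuous_jf' hz hzc ha (τ := fun p => p.2 + π) (by fun_prop)
  have h2 := hP.continuous_jf' hz hzc ha (τ := fun p => p.2) (by fun_prop)
  have h3 : Continuous fun p : M × ℝ => Q p.1 (p.2 + π) :=
    hQ.comp (f := fun p : M × ℝ => (p.1, p.2 + π)) (by fun_prop)
  exact (h1.inner h3).sub (h2.inner hQ)

/-- **KF4** for a compact family -/
theorem NegB.kf4_fam [CompactSpace M] (hP : NegB h K P) (hz : ∀ m, zz m ∈ L.US G)
    (hzc : Continuous zz) (ha : Continuous a) (hb : Continuous b)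
    (hQ : Continuous fun p : M × ℝ => Q p.1 p.2) (hG : ∀ m, GF G (zz m) (-1) (Q m) (Q' m))
    {c : ℝ} (hc : 0 < c) (hcc : ∀ m, -⟪SV.jf' G (zz m) (Jr h P (zz m) 0 (a m - b m)) 0, Q m 0⟫ +
        ⟪SV.jf' G (zz m) (Jr h P (zz m) 0 (a m + b m)) π, Q m π⟫ ≤ -c) :
    ∃ θ : ℝ → ℝ, ContDiff ℝ ∞ θ ∧ (∀ r, θ (-r) = -θ r) ∧ Ang θ (deriv θ) ∧
      ∀ m, SV.ix G (zz m) 0 (2 * π) (xi G (zz m) (C1 h P (zz m) θ (deriv θ) (a m) (b m)))
        (xi' G (zz m) (C1 h P (zz m) θ (deriv θ) (a m) (b m))) (Q m) (Q' m) ≤ -(2 * c) := by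
  obtain ⟨θ, h1, h2, h3, h4, h5⟩ := KS.exists_theta (hP.continuous_qd hz hzc ha hQ)
    (hP.continuous_qd hz hzc hb hQ) (fun m r => hP.qd_per (hz m) _ (hG m) r)
    (fun m r => hP.qd_per (hz m) _ (hG m) r) hc
    (fun m => by rw [hP.qd_lim (hz m) _ _ (hG m)]; exact hcc m)
  have hθ : Ang θ (deriv θ) :=
    ⟨fun r => (h1.differentiable (by simp) r).hasDerivAt, h1.continuous_deriv (by simp), h2, h3⟩
  exact ⟨θ, h1, h4, hθ, fun m => by
    rw [hP.ix_xi_eq (hz m) hθ (hG m)]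
    exact h5 m⟩

end fam

end Crest.Agent.R208.KR
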