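import Crest.Agent.R208.KS2
import Crest.Agent.R208.AK4

/-! Row 208, block KF4 (helper589), part KS3: KF4 for linear families of fields (helper952's
`AK.LMap`). -/

set_option autoImplicit false

open Set Filter Topology MeasureTheory Real Module
open scoped RealInnerProductSpace Interval ContDiff
open Crest.GeometryTopology.Submanifold
open Crest.Agent.R241.DDefs
open Crest.Agent.R241.D2
open Crest.Agent.R208.L (om TanTS dfl om_dfl)
open Crest.Agent.R208.FI (Tan Sub)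
open Crest.Agent.R208.NN (Wt nuP qq V0 fd fd' qf Rt ev ev')

noncomputable section

namespace Crest.Agent.R208.KR

variable {n N k K : ℕ} {κ : ℝ} {S : Set (Euc N)} {G : Geo n N κ S} {z : Euc N × Euc N}
  {h : GT.Bla G k} {P : Euc N × Euc N → Wt N K →L[ℝ] Wt N K}
  {E V : Type*} [NormedAddCommGroup E] [NormedSpace ℝ E]
  [NormedAddCommGroup V] [NormedSpace ℝ V]
  {X : Set E} {P2 : E → V →L[ℝ] V} {g : E → Euc N × Euc N} {Q : (E × V) × ℝ → Euc N}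

theorem gf_lmap (hQ : AK.LMap G X P2 (2 * π) (-1) g Q) {x : E} (hx : x ∈ X) {ζ : V}
    (hζ : P2 x ζ = ζ) : GF G (g x) (-1) (fun t => Q ((x, ζ), t)) (deriv fun t => Q ((x, ζ), t)) where
  der t := ((hQ.cd hx hζ).differentiable (by simp) t).hasDerivAt
  cont := (hQ.cd hx hζ).continuous_deriv (by simp)
  mem := hQ.tan x hx ζ hζ
  per := hQ.per x hx ζ hζ
  per' t := by
    have h1 : (fun t => Q ((x, ζ), t + 2 * π)) = fun t => (-1 : ℝ) • Q ((x, ζ), t) :=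
      funext (hQ.per x hx ζ hζ)
    have h2 := congrArg (fun f : ℝ → Euc N => deriv f t) h1
    have h3 : deriv (fun t => Q ((x, ζ), t + 2 * π)) t = deriv (fun t => Q ((x, ζ), t)) (t + 2 * π) :=
      deriv_comp_add_const (fun t => Q ((x, ζ), t)) (2 * π) t
    change deriv (fun t => Q ((x, ζ), t + 2 * π)) t = deriv (fun t => (-1 : ℝ) • Q ((x, ζ), t)) t at h2
    rw [h3] at h2
    rw [h2, deriv_fun_const_smul _ ((hQ.cd hx hζ).differentiable (by simp) t)]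

theorem qd_smul (s : ℝ) (w : Wt N K) (Q : ℝ → Euc N) (r : ℝ) :
    qd h P z (s • w) (fun t => s • Q t) r = s ^ 2 * qd h P z w Q r := by
  unfold qd
  simp only [map_smul, jf'_smul, real_inner_smul_left, real_inner_smul_right]
  ring

theorem qd_zero (Q : ℝ → Euc N) (r : ℝ) : qd h P z 0 Q r = 0 := by
  unfold qd
  have : SV.jf' G z 0 = 0 := by
    funext t
    unfold SV.jf'
    rw [map_zero]
    rfl
  rw [map_zero, this]
  simp

/-- **KF4** -/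
theorem NegB.kf4 [FiniteDimensional ℝ V] (hP : NegB h K P) (hX : IsCompact X)
    (hP2 : ContinuousOn P2 X) (hg : ContinuousOn g X) (hgm : ∀ x ∈ X, g x ∈ L.US G)
    {α β : E → V →L[ℝ] Wt N K} (hα : ContinuousOn α X) (hβ : ContinuousOn β X)
    (hQ : AK.LMap G X P2 (2 * π) (-1) g Q) {c : ℝ} (hc : 0 < c)
    (hcc : ∀ x ∈ X, ∀ ζ : V, P2 x ζ = ζ →
      -⟪SV.jf' G (g x) (Jr h P (g x) 0 (α x ζ - β x ζ)) 0, Q ((x, ζ), 0)⟫ +
        ⟪SV.jf' G (g x) (Jr h P (g x) 0 (α x ζ + β x ζ)) π, Q ((x, ζ), π)⟫ ≤ -c * ‖ζ‖ ^ 2) :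
    ∃ θ : ℝ → ℝ, ContDiff ℝ ∞ θ ∧ (∀ r, θ (-r) = -θ r) ∧ Ang θ (deriv θ) ∧
      ∀ x ∈ X, ∀ ζ : V, P2 x ζ = ζ →
        SV.ix G (g x) 0 (2 * π) (xi G (g x) (C1 h P (g x) θ (deriv θ) (α x ζ) (β x ζ)))
          (xi' G (g x) (C1 h P (g x) θ (deriv θ) (α x ζ) (β x ζ))) (fun t => Q ((x, ζ), t))
          (deriv fun t => Q ((x, ζ), t)) ≤ -(2 * c) * ‖ζ‖ ^ 2 := by
  set Ms : Set (E × V) := {p | (p.1 ∈ X ∧ P2 p.1 p.2 = p.2) ∧ ‖p.2‖ = 1} with hMs
  have hMc : IsCompact Ms := by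
    have hK : IsCompact (X ×ˢ Metric.sphere (0 : V) 1) := hX.prod (isCompact_sphere _ _)
    have hcf : ContinuousOn (fun z : E × V => P2 z.1 z.2 - z.2) (X ×ˢ Metric.sphere (0 : V) 1) :=
      ((hP2.comp continuousOn_fst fun z hz => hz.1).clm_apply (by fun_prop)).sub (by fun_prop)
    have heq : Ms = (X ×ˢ Metric.sphere (0 : V) 1) ∩ (fun z : E × V => P2 z.1 z.2 - z.2) ⁻¹' {0} := by
      ext z
      constructor
      · rintro ⟨⟨h1, h2⟩, h3⟩
        exact ⟨⟨h1, by simpa using h3⟩, sub_eq_zero.2 h2⟩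
      · rintro ⟨⟨h1, h3⟩, h2⟩
        exact ⟨⟨h1, sub_eq_zero.1 h2⟩, by simpa using h3⟩
    rw [heq]
    obtain ⟨u, hu, hu2⟩ := continuousOn_iff_isClosed.1 hcf {0} isClosed_singleton
    rw [inter_comm, hu2, inter_comm]
    exact hK.inter_right hu
  have : CompactSpace Ms := isCompact_iff_compactSpace.1 hMc
  have c1 : Continuous fun m : Ms => m.1.1 := continuous_fst.comp continuous_subtype_val
  have c2 : Continuous fun m : Ms => m.1.2 := continuous_snd.comp continuous_subtype_val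
  have cg : Continuous fun m : Ms => g m.1.1 := hg.comp_continuous c1 fun m => m.2.1.1
  have cα : Continuous fun m : Ms => α m.1.1 m.1.2 :=
    (hα.comp_continuous c1 fun m => m.2.1.1).clm_apply c2
  have cβ : Continuous fun m : Ms => β m.1.1 m.1.2 :=
    (hβ.comp_continuous c1 fun m => m.2.1.1).clm_apply c2
  have cQ : Continuous fun p : Ms × ℝ => Q ((p.1.1.1, p.1.1.2), p.2) := by
    refine continuous_iff_continuousAt.2 fun p => ?_
    have h1 := (hQ.smooth _ p.1.2.1.1 _ p.1.2.1.2 p.2).continuousAt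
    have h2 : Continuous fun p : Ms × ℝ => ((p.1.1.1, p.1.1.2), p.2) := by fun_prop
    exact ContinuousAt.comp (f := fun p : Ms × ℝ => ((p.1.1.1, p.1.1.2), p.2)) (x := p) h1
      h2.continuousAt
  obtain ⟨θ, h1, h2, h3, h4⟩ := hP.kf4_fam (M := Ms) (zz := fun m => g m.1.1)
    (a := fun m => α m.1.1 m.1.2) (b := fun m => β m.1.1 m.1.2)
    (Q := fun m t => Q ((m.1.1, m.1.2), t)) (Q' := fun m => deriv fun t => Q ((m.1.1, m.1.2), t))
    (fun m => hgm _ m.2.1.1) cg cα cβ cQ (fun m => gf_lmap hQ m.2.1.1 m.2.1.2) hc (fun m => by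
      have := hcc _ m.2.1.1 _ m.2.1.2
      rwa [m.2.2, one_pow, mul_one] at this)
  refine ⟨θ, h1, h2, h3, fun x hx ζ hζ => ?_⟩
  rw [hP.ix_xi_eq (hgm x hx) h3 (gf_lmap hQ hx hζ)]
  by_cases h0 : ζ = 0
  · subst h0
    simp only [map_zero, qd_zero, mul_zero, add_zero, norm_zero]
    simp
  · have hn : ‖ζ‖ ≠ 0 := norm_ne_zero_iff.2 h0
    set ζ₁ := ‖ζ‖⁻¹ • ζ with hζ₁
    have hζ1 : P2 x ζ₁ = ζ₁ := by rw [hζ₁, map_smul, hζ]
    have hn1 : ‖ζ₁‖ = 1 := by rw [hζ₁, norm_smul, norm_inv, norm_norm, inv_mul_cancel₀ hn]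
    have he : ζ = ‖ζ‖ • ζ₁ := by rw [hζ₁, smul_smul, mul_inv_cancel₀ hn, one_smul]
    have h5 := h4 ⟨(x, ζ₁), ⟨hx, hζ1⟩, hn1⟩
    simp only at h5
    rw [hP.ix_xi_eq (hgm x hx) h3 (gf_lmap hQ hx hζ1)] at h5
    have hQs : (fun t => Q ((x, ζ), t)) = fun t => ‖ζ‖ • Q ((x, ζ₁), t) := by
      funext t
      rw [← hQ.hom x hx ζ₁ hζ1 ‖ζ‖ t, ← he]
    have e1 : ∀ r, deriv θ r * (cos (θ r / 2) * qd h P (g x) (α x ζ) (fun t => Q ((x, ζ), t)) r +
        sin (θ r / 2) * qd h P (g x) (β x ζ) (fun t => Q ((x, ζ), t)) r) =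
        ‖ζ‖ ^ 2 * (deriv θ r * (cos (θ r / 2) * qd h P (g x) (α x ζ₁) (fun t => Q ((x, ζ₁), t)) r +
          sin (θ r / 2) * qd h P (g x) (β x ζ₁) (fun t => Q ((x, ζ₁), t)) r)) := by
      intro r
      have e2 : α x ζ = ‖ζ‖ • α x ζ₁ := by rw [← map_smul, ← he]
      have e3 : β x ζ = ‖ζ‖ • β x ζ₁ := by rw [← map_smul, ← he]
      rw [hQs, e2, e3, qd_smul, qd_smul]
      ring
    simp only [e1]
    rw [intervalIntegral.integral_const_mul]
    have h6 : (0 : ℝ) ≤ ‖ζ‖ ^ 2 := by positivity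
    calc _ ≤ ‖ζ‖ ^ 2 * -(2 * c) := mul_le_mul_of_nonneg_left h5 h6
      _ = _ := by ring

/-- `P ⊕ P` -/
def P22 (P : Euc N × Euc N → Wt N K →L[ℝ] Wt N K) (z : Euc N × Euc N) :
    Wt N K × Wt N K →L[ℝ] Wt N K × Wt N K := (P z).prodMap (P z)

/-- **KF4** over `US G` -/
theorem NegB.kf4_US (hP : NegB h K P) (hX : IsCompact (L.US G))
    {Q : ((Euc N × Euc N) × (Wt N K × Wt N K)) × ℝ → Euc N}
    (hQ : AK.LMap G (L.US G) (P22 P) (2 * π) (-1) id Q) {c : ℝ} (hc : 0 < c)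
    (hcc : ∀ z ∈ L.US G, ∀ a b : Wt N K, P z a = a → P z b = b →
      -⟪SV.jf' G z (Jr h P z 0 (a - b)) 0, Q ((z, (a, b)), 0)⟫ +
        ⟪SV.jf' G z (Jr h P z 0 (a + b)) π, Q ((z, (a, b)), π)⟫ ≤ -c * ‖(a, b)‖ ^ 2) :
    ∃ θ : ℝ → ℝ, ContDiff ℝ ∞ θ ∧ (∀ r, θ (-r) = -θ r) ∧ Ang θ (deriv θ) ∧
      ∀ z ∈ L.US G, ∀ a b : Wt N K, P z a = a → P z b = b →
        SV.ix G z 0 (2 * π) (xi G z (C1 h P z θ (deriv θ) a b))
          (xi' G z (C1 h P z θ (deriv θ) a b)) (fun t => Q ((z, (a, b)), t))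
          (deriv fun t => Q ((z, (a, b)), t)) ≤ -(2 * c) * ‖(a, b)‖ ^ 2 := by
  have hPc : ContinuousOn (P22 P) (L.US G) := fun z hz => by
    have h1 := (hP.smooth z hz).continuousAt
    have h2 : Continuous fun A : (Wt N K →L[ℝ] Wt N K) × (Wt N K →L[ℝ] Wt N K) => A.1.prodMap A.2 :=
      (ContinuousLinearMap.prodMapL ℝ (Wt N K) (Wt N K) (Wt N K) (Wt N K)).continuous
    exact (h2.continuousAt.comp (h1.prodMk h1)).continuousWithinAt
  obtain ⟨θ, h1, h2, h3, h4⟩ := hP.kf4 hX hPc continuousOn_id (fun z hz => hz)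
    (α := fun _ => ContinuousLinearMap.fst ℝ (Wt N K) (Wt N K))
    (β := fun _ => ContinuousLinearMap.snd ℝ (Wt N K) (Wt N K)) continuousOn_const
    continuousOn_const hQ hc (fun z hz ζ hζ => hcc z hz ζ.1 ζ.2 (congrArg Prod.fst hζ)
      (congrArg Prod.snd hζ))
  exact ⟨θ, h1, h2, h3, fun z hz a b ha hb => h4 z hz (a, b) (Prod.ext ha hb)⟩

end Crest.Agent.R208.KR
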