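import Crest.Agent.R208.RK1
import Crest.Agent.R208.TI5
import Crest.Agent.R208.CM0

/-! Row 208, `k = 2` (helper427), part KX1: the rotation by a right angle in the oriented planes
`V_pq` and the circle action `(p, v) ↦ (p, cos t v + sin t J v)` on `US G`. -/

set_option autoImplicit false
set_option linter.unusedSectionVars false
set_option linter.unusedVariables false

open MeasureTheory Set Filter Topology Module
open scoped ContDiff RealInnerProductSpace
open Crest.GeometryTopology.Submanifold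
open Crest.Agent.R241.DDefs
open Crest.Agent.R241.D2
open Crest.Agent.R208.NN Crest.Agent.R208.NB
open Crest.Agent.R208.T (OR)

noncomputable section

namespace Crest.Agent.R208.KX

variable {n N K k r : ℕ} {κ : ℝ} {S : Set (Euc N)} {G : Geo n N κ S} {z : Euc N × Euc N}

section alg

variable {E : Type*} [NormedAddCommGroup E] [NormedSpace ℝ E] [FiniteDimensional ℝ E]
  {X : Set E} {P : E → Euc N →L[ℝ] Euc N} {W : E → (Unit × Fin 2 → Fin N) → ℝ} {x : E}

/-- a pair of indices -/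
def pr (j i : Fin N) : Unit × Fin 2 → Fin N := fun p => if p.2 = 0 then j else i

/-- rotation by a right angle -/
def JJ (W : E → (Unit × Fin 2 → Fin N) → ℝ) (x : E) (v : Euc N) : Euc N :=
  WithLp.toLp 2 fun i => ∑ j, W x (pr j i) * v j

theorem inner_eq (a b : Euc N) : ⟪a, b⟫ = ∑ i, a i * b i := by
  rw [PiLp.inner_apply]
  exact Finset.sum_congr rfl fun i _ => by simp [mul_comm]

theorem exists_fr (hW : OR X P W) (hx : x ∈ X) : ∃ f0 f1 : Euc N, ⟪f0, f0⟫ = 1 ∧ ⟪f1, f1⟫ = 1 ∧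
    ⟪f0, f1⟫ = 0 ∧ (∀ v, P x v = ⟪f0, v⟫ • f0 + ⟪f1, v⟫ • f1) ∧
    ∀ v, JJ W x v = ⟪f0, v⟫ • f1 - ⟪f1, v⟫ • f0 := by
  obtain ⟨f, h1, h2, h3⟩ := hW.fr x hx
  have ho : ∀ a b, ∑ i, f i a * f i b = if a = b then 1 else 0 := by
    intro a b
    have h4 := congrFun (congrFun h1 a) b
    rw [Matrix.mul_apply, Matrix.one_apply] at h4
    simpa [Matrix.transpose_apply] using h4
  refine ⟨WithLp.toLp 2 fun i => f i ((), 0), WithLp.toLp 2 fun i => f i ((), 1), ?_, ?_, ?_,
    ?_, ?_⟩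
  · rw [inner_eq]; simpa using ho ((), 0) ((), 0)
  · rw [inner_eq]; simpa using ho ((), 1) ((), 1)
  · rw [inner_eq]; simpa using ho ((), 0) ((), 1)
  · intro v
    ext i
    rw [h2 v i]
    simp only [PiLp.add_apply, PiLp.smul_apply, smul_eq_mul, inner_eq]
    simp only [Matrix.mul_apply, Matrix.transpose_apply, Fintype.sum_prod_type,
      Finset.univ_unique, Finset.sum_singleton, Fin.sum_univ_two, PUnit.default_eq_unit]
    rw [Finset.sum_mul, Finset.sum_mul, ← Finset.sum_add_distrib]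
    exact Finset.sum_congr rfl fun j _ => by ring
  · intro v
    ext i
    simp only [JJ, PiLp.sub_apply, PiLp.smul_apply, smul_eq_mul, inner_eq]
    rw [Finset.sum_mul, Finset.sum_mul, ← Finset.sum_sub_distrib]
    refine Finset.sum_congr rfl fun j _ => ?_
    rw [h3]
    let e : Fin 2 ≃ Unit × Fin 2 := (Equiv.punitProd (Fin 2)).symm
    rw [← Matrix.det_submatrix_equiv_self e, Matrix.det_fin_two]
    have e0 : e 0 = ((), 0) := rfl
    have e1 : e 1 = ((), 1) := rfl
    simp only [Matrix.submatrix_apply, e0, e1, id, pr]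
    simp
    ring

theorem JJ_mem (hW : OR X P W) (hx : x ∈ X) (v : Euc N) : P x (JJ W x v) = JJ W x v := by
  obtain ⟨f0, f1, a, b, c, hP, hJ⟩ := exists_fr hW hx
  have c' : ⟪f1, f0⟫ = 0 := by rw [real_inner_comm]; exact c
  rw [hJ, hP]
  simp only [inner_sub_right, inner_smul_right, a, b, c, c']
  module

theorem inner_JJ_self (hW : OR X P W) (hx : x ∈ X) (v : Euc N) : ⟪v, JJ W x v⟫ = 0 := by
  obtain ⟨f0, f1, a, b, c, hP, hJ⟩ := exists_fr hW hx
  rw [hJ, inner_sub_right, inner_smul_right, inner_smul_right, real_inner_comm v f0,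
    real_inner_comm v f1]
  ring

theorem norm_JJ (hW : OR X P W) (hx : x ∈ X) {v : Euc N} (hv : P x v = v) :
    ‖JJ W x v‖ = ‖v‖ := by
  obtain ⟨f0, f1, a, b, c, hP, hJ⟩ := exists_fr hW hx
  have c' : ⟪f1, f0⟫ = 0 := by rw [real_inner_comm]; exact c
  have h1 : ⟪v, v⟫ = ⟪f0, v⟫ ^ 2 + ⟪f1, v⟫ ^ 2 := by
    nth_rewrite 1 [← hv]
    rw [hP, inner_add_left, real_inner_smul_left, real_inner_smul_left]
    ring
  have h2 : ⟪JJ W x v, JJ W x v⟫ = ⟪f0, v⟫ ^ 2 + ⟪f1, v⟫ ^ 2 := by
    rw [hJ]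
    simp only [inner_sub_left, inner_sub_right, inner_smul_right, real_inner_smul_left, a, b, c,
      c']
    ring
  have h3 : ‖JJ W x v‖ ^ 2 = ‖v‖ ^ 2 := by
    rw [← real_inner_self_eq_norm_sq, ← real_inner_self_eq_norm_sq, h1, h2]
  exact (pow_left_inj₀ (norm_nonneg _) (norm_nonneg _) two_ne_zero).1 h3

theorem JJ_JJ (hW : OR X P W) (hx : x ∈ X) {v : Euc N} (hv : P x v = v) :
    JJ W x (JJ W x v) = -v := by
  obtain ⟨f0, f1, a, b, c, hP, hJ⟩ := exists_fr hW hx
  have c' : ⟪f1, f0⟫ = 0 := by rw [real_inner_comm]; exact c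
  nth_rewrite 2 [← hv]
  rw [hJ (JJ W x v), hJ v, hP]
  simp only [inner_sub_right, inner_smul_right, a, b, c, c']
  module

theorem JJ_add_smul (x : E) (s t : ℝ) (u v : Euc N) :
    JJ W x (s • u + t • v) = s • JJ W x u + t • JJ W x v := by
  ext i
  simp only [JJ, PiLp.add_apply, PiLp.smul_apply, smul_eq_mul]
  rw [Finset.mul_sum, Finset.mul_sum, ← Finset.sum_add_distrib]
  exact Finset.sum_congr rfl fun j _ => by ring

theorem contDiffAt_JJ (hW : OR X P W) (hx : x ∈ X) (v : Euc N) :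
    ContDiffAt ℝ ∞ (fun q : E × Euc N => JJ W q.1 q.2) (x, v) := by
  have h0 : ContDiffAt ℝ ∞ (fun q : E × Euc N => fun i => ∑ j, W q.1 (pr j i) * q.2 j) (x, v) := by
    rw [contDiffAt_pi]
    intro i
    refine ContDiffAt.sum fun j _ => ?_
    have h1 : ContDiffAt ℝ ∞ (fun q : E × Euc N => W q.1 (pr j i)) (x, v) :=
      ContDiffAt.comp (x, v) (g := fun y => W y (pr j i)) (f := fun q : E × Euc N => q.1)
        (hW.sW x hx _) contDiffAt_fst
    refine h1.mul ?_
    have h2 : ContDiff ℝ ∞ (fun q : E × Euc N => q.2 j) := by fun_prop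
    exact h2.contDiffAt
  exact (PiLp.continuousLinearEquiv 2 ℝ (fun _ : Fin N => ℝ)).symm.contDiff.contDiffAt.comp
    (x, v) h0

end alg

/-! ### on `US G` -/

section us

variable {W : Euc N × Euc N → (Unit × Fin 2 → Fin N) → ℝ}

/-- the direction `J v` -/
def jz (G : Geo n N κ S) (W : Euc N × Euc N → (Unit × Fin 2 → Fin N) → ℝ)
    (z : Euc N × Euc N) : Euc N := JJ W (ph G z) z.2

/-- rotation in `V_pq` -/
def rot (G : Geo n N κ S) (W : Euc N × Euc N → (Unit × Fin 2 → Fin N) → ℝ) (t : ℝ)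
    (z : Euc N × Euc N) : Euc N × Euc N := (z.1, Real.cos t • z.2 + Real.sin t • jz G W z)

variable (h : GT.Bla G k) (hW : OR (GT.FF S) (FV.PVB h) W)

include h in
theorem PV_v (hz : z ∈ L.US G) : FV.PVB h (ph G z) z.2 = z.2 :=
  (FV.vfield_PVB h).PV_eq_self (p := z.1) (q := qq G z) (mem_FF h hz) (mem_Vs hz)

include hW in
theorem contDiffAt_jz (hz : z ∈ L.US G) : ContDiffAt ℝ ∞ (jz G W) z := by
  have h1 := contDiffAt_JJ hW (mem_FF h hz) z.2
  exact ContDiffAt.comp z (g := fun q : (Euc N × Euc N) × Euc N => JJ W q.1 q.2)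
    (f := fun z : Euc N × Euc N => (ph G z, z.2)) h1 ((contDiffAt_ph hz.1).prodMk contDiffAt_snd)

include hW in
theorem jz_mem (hz : z ∈ L.US G) : jz G W z ∈ GT.Vs G z.1 (qq G z) := by
  have h1 : FV.PVB h (ph G z) (jz G W z) = jz G W z := JJ_mem hW (mem_FF h hz) z.2
  rw [← h1]
  exact (FV.vfield_PVB h).PV_mem (p := z.1) (q := qq G z) (mem_FF h hz) _

include hW in
theorem norm_jz (hz : z ∈ L.US G) : ‖jz G W z‖ = 1 :=
  (norm_JJ hW (mem_FF h hz) (PV_v h hz)).trans hz.2

include hW in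
theorem inner_jz (hz : z ∈ L.US G) : ⟪z.2, jz G W z⟫ = 0 := inner_JJ_self hW (mem_FF h hz) z.2

include hW in
theorem norm_rot (hz : z ∈ L.US G) (t : ℝ) :
    ‖Real.cos t • z.2 + Real.sin t • jz G W z‖ = 1 := by
  have h1 : ‖Real.cos t • z.2 + Real.sin t • jz G W z‖ ^ 2 = 1 ^ 2 := by
    rw [← real_inner_self_eq_norm_sq]
    simp only [inner_add_left, inner_add_right, real_inner_smul_left, inner_smul_right,
      inner_jz h hW hz, real_inner_comm z.2 (jz G W z), real_inner_self_eq_norm_sq,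
      norm_jz h hW hz, hz.2]
    have := Real.sin_sq_add_cos_sq t
    nlinarith
  exact (pow_left_inj₀ (norm_nonneg _) zero_le_one two_ne_zero).1 h1

include hW in
theorem rot_mem_Vs (hz : z ∈ L.US G) (t : ℝ) :
    (rot G W t z).2 ∈ GT.Vs G z.1 (qq G z) :=
  Submodule.add_mem _ (Submodule.smul_mem _ _ (mem_Vs hz))
    (Submodule.smul_mem _ _ (jz_mem h hW hz))

include hW in
theorem rot_mem (hz : z ∈ L.US G) (t : ℝ) : rot G W t z ∈ L.US G :=
  ⟨⟨hz.1.1, h.Vs_le (mem_FF h hz) (rot_mem_Vs h hW hz t)⟩, norm_rot h hW hz t⟩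

include hW in
theorem ph_rot (hz : z ∈ L.US G) (t : ℝ) : ph G (rot G W t z) = ph G z := by
  have h1 : qq G (rot G W t z) = qq G z := by
    unfold qq
    rw [phi_pi (rot_mem h hW hz t)]
    exact h.Exp_pi (mem_FF h hz) (rot_mem_Vs h hW hz t) (norm_rot h hW hz t)
  exact Prod.ext rfl h1

include hW in
theorem jz_rot (hz : z ∈ L.US G) (t : ℝ) :
    jz G W (rot G W t z) = -Real.sin t • z.2 + Real.cos t • jz G W z := by
  have h1 : JJ W (ph G z) (jz G W z) = -z.2 := JJ_JJ hW (mem_FF h hz) (PV_v h hz)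
  have h2 : jz G W (rot G W t z) = JJ W (ph G z) (Real.cos t • z.2 + Real.sin t • jz G W z) := by
    unfold jz
    rw [ph_rot h hW hz]
    rfl
  rw [h2, JJ_add_smul, h1]
  change Real.cos t • jz G W z + _ = _
  module

include hW in
/-- **the rotation is a free circle action on `US G`** -/
theorem cir_rot : CM.Cir (L.US G) (rot G W) where
  smooth := fun t z hz => by
    have h1 : ContDiffAt ℝ ∞ (fun q : ℝ × (Euc N × Euc N) => jz G W q.2) (t, z) :=
      ContDiffAt.comp (t, z) (g := jz G W) (f := fun q : ℝ × (Euc N × Euc N) => q.2)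
        (contDiffAt_jz h hW hz) contDiffAt_snd
    have h2 : ContDiff ℝ ∞ (fun q : ℝ × (Euc N × Euc N) => q.2.1) := by fun_prop
    have h3 : ContDiff ℝ ∞ (fun q : ℝ × (Euc N × Euc N) => Real.cos q.1 • q.2.2) :=
      (Real.contDiff_cos.comp contDiff_fst).smul (contDiff_snd.comp contDiff_snd)
    have h4 : ContDiff ℝ ∞ (fun q : ℝ × (Euc N × Euc N) => Real.sin q.1) :=
      Real.contDiff_sin.comp contDiff_fst
    exact h2.contDiffAt.prodMk (h3.contDiffAt.add (h4.contDiffAt.smul h1))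
  maps := fun t z hz => rot_mem h hW hz t
  zero := fun z hz => by simp [rot]
  add := fun s t z hz => by
    refine Prod.ext rfl ?_
    change Real.cos (s + t) • z.2 + Real.sin (s + t) • jz G W z =
      Real.cos s • (Real.cos t • z.2 + Real.sin t • jz G W z) +
        Real.sin s • jz G W (rot G W t z)
    rw [jz_rot h hW hz, Real.cos_add, Real.sin_add]
    module
  per := fun z hz => by simp [rot]
  free := fun t z hz h1 => by
    have h2 : Real.cos t • z.2 + Real.sin t • jz G W z = z.2 := congrArg Prod.snd h1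
    have h3 : ⟪z.2, Real.cos t • z.2 + Real.sin t • jz G W z⟫ = ⟪z.2, z.2⟫ := by rw [h2]
    rw [inner_add_right, inner_smul_right, inner_smul_right, inner_jz h hW hz,
      real_inner_self_eq_norm_sq, hz.2] at h3
    have h4 : Real.cos t = 1 := by nlinarith
    obtain ⟨m, hm⟩ := (Real.cos_eq_one_iff t).1 h4
    exact ⟨m, by rw [← hm]; ring⟩

end us

end Crest.Agent.R208.KX
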