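import Crest.Agent.R208.KX1

/-! Row 208, `k = 2` (helper427), part KX2: the unit section of the negative line field. -/

set_option autoImplicit false
set_option linter.unusedSectionVars false
set_option linter.unusedVariables false

open MeasureTheory Set Filter Topology Module
open scoped ContDiff RealInnerProductSpace
open Crest.GeometryTopology.Submanifold
open Crest.Agent.R241.DDefs
open Crest.Agent.R241.D2
open Crest.Agent.R208.NN Crest.Agent.R208.NB Crest.Agent.R208.RK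
open Crest.Agent.R208.T (OR)

noncomputable section

namespace Crest.Agent.R208.KX

variable {n N K k r : ℕ} {κ : ℝ} {S : Set (Euc N)} {G : Geo n N κ S} {z : Euc N × Euc N}
  {W : Euc N × Euc N → (Unit × Fin 2 → Fin N) → ℝ} {δ : ℝ}
  {PN : Euc N × Euc N → Wt N K →L[ℝ] Wt N K}

theorem one_dim {F : Type*} [NormedAddCommGroup F] [InnerProductSpace ℝ F] {M : Submodule ℝ F}
    (h1 : finrank ℝ M = 1) {u x : F} (hu : u ∈ M) (hu1 : ‖u‖ = 1) (hx : x ∈ M) :
    x = ⟪u, x⟫ • u := by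
  have hu0 : (⟨u, hu⟩ : M) ≠ 0 := by
    intro h0
    have : u = 0 := congrArg Subtype.val h0
    rw [this, norm_zero] at hu1
    exact zero_ne_one hu1
  obtain ⟨c, hc⟩ := (finrank_eq_one_iff_of_nonzero' _ hu0).1 h1 ⟨x, hx⟩
  have hc' : c • u = x := congrArg Subtype.val hc
  have h2 : ⟪u, x⟫ = c := by
    rw [← hc', inner_smul_right, real_inner_self_eq_norm_sq, hu1]; ring
  rw [h2, hc']

/-- the vector representing `w ↦ ⟪J v, l0 w⟫` -/
def sc0 (h : GT.Bla G 2) (PN : Euc N × Euc N → Wt N K →L[ℝ] Wt N K)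
    (W : Euc N × Euc N → (Unit × Fin 2 → Fin N) → ℝ) (z : Euc N × Euc N) : Wt N K :=
  WithLp.toLp 2 fun i => ⟪jz G W z, wL h (nuP K) PN z (EuclideanSpace.single i 1)⟫

/-- the unit section -/
def nsec (h : GT.Bla G 2) (PN : Euc N × Euc N → Wt N K →L[ℝ] Wt N K)
    (W : Euc N × Euc N → (Unit × Fin 2 → Fin N) → ℝ) (z : Euc N × Euc N) : Wt N K :=
  (‖sc0 h PN W z‖⁻¹ : ℝ) • sc0 h PN W z

theorem inner_sc0 (h : GT.Bla G 2) (w : Wt N K) :
    ⟪sc0 h PN W z, w⟫ = ⟪jz G W z, wL h (nuP K) PN z w⟫ := by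
  have h1 : w = ∑ i, w i • EuclideanSpace.single i (1 : ℝ) := by
    ext j
    simp [Finset.sum_apply, Pi.single_apply]
  have h2 : ⟪jz G W z, wL h (nuP K) PN z w⟫ =
      ∑ i, w i * ⟪jz G W z, wL h (nuP K) PN z (EuclideanSpace.single i 1)⟫ := by
    conv_lhs => rw [h1]
    rw [map_sum, inner_sum]
    exact Finset.sum_congr rfl fun i _ => by rw [map_smul, inner_smul_right]
  rw [h2, PiLp.inner_apply]
  exact Finset.sum_congr rfl fun i _ => by simp [sc0]

section

variable (h : GT.Bla G 2) (hn : 2 < n) (H : NegB G 1 (nuP K) δ PN)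
  (hW : OR (GT.FF S) (FV.PVB h) W)

theorem wL_PN (hn : 2 < n) (H : NegB G 1 (nuP K) δ PN) (hz : z ∈ L.US G) (w : Wt N K) :
    wL h (nuP K) PN z (PN z w) = wL h (nuP K) PN z w := by
  rw [wL_eq h hn hz]
  change l0 G z (nuP K) (PN z (PN z w)) = l0 G z (nuP K) (PN z w)
  rw [H.idem]

theorem PN_sc0 (hn : 2 < n) (H : NegB G 1 (nuP K) δ PN) (hz : z ∈ L.US G) :
    PN z (sc0 h PN W z) = sc0 h PN W z := by
  refine ext_inner_right ℝ fun w => ?_
  rw [H.sy z, inner_sc0, inner_sc0, wL_PN h hn H hz]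

include hW in
theorem span_V0 (hz : z ∈ L.US G) {x : Euc N} (hx : x ∈ V0 G z) : x = ⟪jz G W z, x⟫ • jz G W z := by
  have h1 : finrank ℝ (V0 G z) = 1 := by
    have := finrank_V0 h hz
    omega
  exact one_dim h1 (mem_V0.2 ⟨jz_mem h hW hz, by rw [real_inner_comm]; exact inner_jz h hW hz⟩)
    (norm_jz h hW hz) hx

include hW in
theorem sc0_ne (hn : 2 < n) (H : NegB G 1 (nuP K) δ PN) (hz : z ∈ L.US G) :
    sc0 h PN W z ≠ 0 := by
  obtain ⟨w, hw0, hw⟩ : ∃ w : Wt N K, w ≠ 0 ∧ PN z w = w := by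
    have h1 := H.rank z hz
    have h2 : (LinearMap.range (PN z : Wt N K →ₗ[ℝ] Wt N K)) ≠ ⊥ := by
      intro h0
      rw [h0, finrank_bot] at h1
      exact zero_ne_one h1
    obtain ⟨w, hw, hw0⟩ := (Submodule.ne_bot_iff _).1 h2
    obtain ⟨u, rfl⟩ := hw
    exact ⟨_, hw0, H.idem z u⟩
  intro h0
  have h1 := inner_sc0 (W := W) (PN := PN) (z := z) h w
  rw [h0, inner_zero_left, wL_apply h hn hz hw] at h1
  have h2 := span_V0 h hW hz (l0_mem (G := G) (z := z) (nuP K) w)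
  rw [← h1, zero_smul] at h2
  exact hw0 (H.l0_inj h hz hw h2)

include hW in
theorem norm_nsec (hn : 2 < n) (H : NegB G 1 (nuP K) δ PN) (hz : z ∈ L.US G) :
    ‖nsec h PN W z‖ = 1 := by
  have h1 : ‖sc0 h PN W z‖ ≠ 0 := norm_ne_zero_iff.2 (sc0_ne h hW hn H hz)
  rw [nsec, norm_smul, norm_inv, norm_norm, inv_mul_cancel₀ h1]

theorem PN_nsec (hn : 2 < n) (H : NegB G 1 (nuP K) δ PN) (hz : z ∈ L.US G) :
    PN z (nsec h PN W z) = nsec h PN W z := by
  rw [nsec, map_smul, PN_sc0 h hn H hz]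

include hW in
/-- the direction of the section is `J v` -/
theorem dir_nsec (hn : 2 < n) (H : NegB G 1 (nuP K) δ PN) (hz : z ∈ L.US G) :
    dir h PN (z, nsec h PN W z) = jz G W z := by
  have h0 := sc0_ne h hW hn H hz
  have hp := PN_nsec (W := W) h hn H hz
  have hn0 : nsec h PN W z ≠ 0 := by
    intro h1
    have := norm_nsec h hW hn H hz
    rw [h1, norm_zero] at this
    exact zero_ne_one this
  have hd0 : dir h PN (z, nsec h PN W z) ∈ V0 G z := by
    refine mem_V0.2 ⟨dir_mem h hn hz hp, ?_⟩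
    rw [real_inner_comm]; exact inner_dir_v h hn hz hp
  have hd1 := norm_dir h H hn hz hp hn0
  have h2 := span_V0 h hW hz hd0
  have hpos : 0 < ⟪jz G W z, dir h PN (z, nsec h PN W z)⟫ := by
    have h3 : ⟪jz G W z, wL h (nuP K) PN z (nsec h PN W z)⟫ = ‖sc0 h PN W z‖ := by
      rw [← inner_sc0, nsec, inner_smul_right, real_inner_self_eq_norm_sq, pow_two, ← mul_assoc,
        inv_mul_cancel₀ (norm_ne_zero_iff.2 h0), one_mul]
    change 0 < ⟪jz G W z, (‖wL h (nuP K) PN z (nsec h PN W z)‖⁻¹ : ℝ) •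
      wL h (nuP K) PN z (nsec h PN W z)⟫
    rw [inner_smul_right, h3]
    have h4 : 0 < ‖wL h (nuP K) PN z (nsec h PN W z)‖ := norm_pos_iff.2 (wL_ne h H hn hz hp hn0)
    have h5 : 0 < ‖sc0 h PN W z‖ := norm_pos_iff.2 h0
    positivity
  have h3 : |⟪jz G W z, dir h PN (z, nsec h PN W z)⟫| = 1 := by
    have h4 := congrArg norm h2
    rw [hd1, norm_smul, norm_jz h hW hz, mul_one, Real.norm_eq_abs] at h4
    exact h4.symm
  rw [abs_of_pos hpos] at h3
  rw [h2, h3, one_smul]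

include hW in
theorem contDiffAt_nsec (hn : 2 < n) (H : NegB G 1 (nuP K) δ PN) (hz : z ∈ L.US G) :
    ContDiffAt ℝ ∞ (nsec h PN W) z := by
  have h1 : ContDiffAt ℝ ∞ (sc0 h PN W) z := by
    have h2 : ContDiffAt ℝ ∞ (fun z : Euc N × Euc N => fun i : (Fin K × Fin 2) × Fin N =>
        ⟪jz G W z, wL h (nuP K) PN z (EuclideanSpace.single i 1)⟫) z := by
      rw [contDiffAt_pi]
      intro i
      exact (contDiffAt_jz h hW hz).inner ℝ ((contDiffAt_wL h hn H hz).clm_apply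
        contDiffAt_const)
    exact (PiLp.continuousLinearEquiv 2 ℝ (fun _ : (Fin K × Fin 2) × Fin N => ℝ)).symm.contDiff.contDiffAt.comp
      z h2
  have h3 := sc0_ne h hW hn H hz
  exact ((h1.norm ℝ h3).inv (norm_ne_zero_iff.2 h3)).smul h1

include hW in
/-- **equivariance of the section** -/
theorem nsec_fl (hn : 2 < n) (H : NegB G 1 (nuP K) δ PN) (hz : z ∈ L.US G) (t : ℝ) :
    nsec h PN W (fl G (z, t)) = Rt (nuP K) t (nsec h PN W z) := by
  set M := fun t => LinearMap.range (PN (fl G (z, t)) : Wt N K →ₗ[ℝ] Wt N K) with hM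
  have hm := fun t => fl_mem_US hz t
  have m1 : ∀ t, nsec h PN W (fl G (z, t)) ∈ M t := fun t =>
    ⟨_, PN_nsec (W := W) h hn H (hm t)⟩
  have m2 : ∀ t, Rt (nuP K) t (nsec h PN W z) ∈ M t := fun t => by
    refine ⟨Rt (nuP K) t (nsec h PN W z), ?_⟩
    change PN (fl G (z, t)) (Rt (nuP K) t (nsec h PN W z)) = _
    rw [H.equi z hz, PN_nsec h hn H hz]
  have n1 : ∀ t, ‖nsec h PN W (fl G (z, t))‖ = 1 := fun t => norm_nsec h hW hn H (hm t)
  have n2 : ∀ t, ‖Rt (nuP K) t (nsec h PN W z)‖ = 1 := fun t => by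
    rw [norm_Rt]; exact norm_nsec h hW hn H hz
  set f := fun t => ⟪nsec h PN W (fl G (z, t)), Rt (nuP K) t (nsec h PN W z)⟫ with hf
  have e1 : ∀ t, Rt (nuP K) t (nsec h PN W z) = f t • nsec h PN W (fl G (z, t)) := fun t =>
    one_dim (H.rank _ (hm t)) (m1 t) (n1 t) (m2 t)
  have e2 : ∀ t, |f t| = 1 := fun t => by
    have := congrArg norm (e1 t)
    rw [n2, norm_smul, n1, mul_one, Real.norm_eq_abs] at this
    exact this.symm
  have hcf : Continuous f := by
    refine Continuous.inner ?_ ?_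
    · rw [continuous_iff_continuousAt]
      intro t
      exact ContinuousAt.comp (g := nsec h PN W) (f := fun t => fl G (z, t))
        (contDiffAt_nsec h hW hn H (hm t)).continuousAt (continuous_fl_t hz.1).fst.continuousAt
    · exact (contDiff_Rt (nuP K)).continuous.clm_apply continuous_const
  have h0 : f 0 = 1 := by
    change ⟪nsec h PN W (fl G (z, 0)), Rt (nuP K) 0 (nsec h PN W z)⟫ = 1
    rw [fl_zero, Rt_zero, real_inner_self_eq_norm_sq, norm_nsec h hW hn H hz, one_pow]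
  have h1 : ∀ t, f t = 1 := by
    intro t
    by_contra hne
    have h2 : f t = -1 := by
      rcases abs_eq (zero_le_one' ℝ) |>.1 (e2 t) with h3 | h3
      · exact absurd h3 hne
      · exact h3
    have h3 : (0 : ℝ) ∈ Set.Icc (f t) (f 0) := by rw [h2, h0]; constructor <;> norm_num
    obtain ⟨s, hs⟩ : (0 : ℝ) ∈ Set.range f :=
      mem_range_of_exists_le_of_exists_ge hcf ⟨t, h3.1⟩ ⟨0, h3.2⟩
    have h4 := e2 s
    rw [hs, abs_zero] at h4
    exact zero_ne_one h4
  rw [e1 t, h1, one_smul]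

end

end Crest.Agent.R208.KX
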