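import Crest.Agent.R208.RR5
import Crest.Agent.R208.SO2
import Crest.Agent.R208.CM3e

/-! Row 208, block RR (helper427), part KX3: the input data `Pre` from two contractions. -/

set_option autoImplicit false
set_option linter.unusedSectionVars false
set_option linter.unusedVariables false

open MeasureTheory Set Filter Topology Module
open scoped ContDiff
open Crest.Agent.R208.F Crest.Agent.R208.FI Crest.Agent.R208.CW Crest.Agent.R208.T
open Crest.Agent.R208.RR

noncomputable section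

namespace Crest.Agent.R208.KX

universe u v
variable {E : Type} [NormedAddCommGroup E] [NormedSpace ℝ E] [FiniteDimensional ℝ E]
  {H : Type v} [NormedAddCommGroup H] [NormedSpace ℝ H] [FiniteDimensional ℝ H]
  {Z : Set E} {S : Set H} {φ : ℝ → E → E} {θ : E → Ext E} {ξ : H → Ext H}
  {A B : E × ℝ → H} {f : E → H} {m : ℕ} {x : E} {V : E → E}

theorem Hz.one : Hz Z V (1 : E → Ext E) := fun x _ => by
  have h1 : ii (V x) (1 : Ext E) = 0 := ii_one _
  rw [Pi.one_apply, h1, map_zero]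

theorem ev_hom {p : ℕ} (h : Hom p ξ) (hp : Even p) (X : Set H) : Ev X ξ :=
  Eqv.of_eq fun x _ => SO.inv_of_hom_even h hp x

/-- pull back of the slice -/
theorem pull_slice (s : ℝ) (hA : SMap (Cyl Z) S A) :
    Eqv Z (F.pull (sl s) (F.pull A ξ)) (F.pull (fun x => A (x, s)) ξ) := Eqv.of_eq fun x hx =>
  pull_comp (f := sl (E := E) s) (g := A) (om := ξ) (x := x)
    ((contDiff_sl s).contDiffAt.differentiableAt (by simp))
    ((hA.smooth _ (mem_Cyl.2 hx)).differentiableAt (by simp))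

theorem diff_slice (s : ℝ) (hA : SMap (Cyl Z) S A) (hx : x ∈ Z) :
    ContDiffAt ℝ ∞ (fun x => A (x, s)) x :=
  ContDiffAt.comp x (g := A) (f := fun x : E => (x, s)) (hA.smooth (x, s) (mem_Cyl.2 hx))
    (contDiffAt_id.prodMk contDiffAt_const)

/-- the differential of an invariant map kills the generator -/
theorem fderiv_inv (hC : CM.Cir Z φ) (hf : ContDiffAt ℝ ∞ f x) (hx : x ∈ Z)
    (hi : ∀ t, f (φ t x) = f x) : fderiv ℝ f x (CM.gen φ x) = 0 := by
  have h1 : HasDerivAt (fun t => φ t x) (CM.gen φ x) 0 := by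
    have := hC.hasDerivAt hx 0
    rwa [hC.zero x hx] at this
  have h2 : HasFDerivAt f (fderiv ℝ f (φ 0 x)) (φ 0 x) := by
    rw [hC.zero x hx]; exact (hf.differentiableAt (by simp)).hasFDerivAt
  have h3 := h2.comp_hasDerivAt (0 : ℝ) h1
  rw [hC.zero x hx] at h3
  have h4 : f ∘ (fun t => φ t x) = fun _ => f x := funext hi
  rw [h4] at h3
  exact h3.unique (hasDerivAt_const _ _)

theorem hz_pull (hC : CM.Cir Z φ) (hf : ∀ x ∈ Z, ContDiffAt ℝ ∞ f x)
    (hi : ∀ x ∈ Z, ∀ t, f (φ t x) = f x) : Hz Z (CM.gen φ) (F.pull f ξ) := fun x hx => by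
  rw [F.pull, ii_pb]
  change Rs Z x (pb _ (ii (fderiv ℝ f x (CM.gen φ x)) _)) = 0
  rw [fderiv_inv hC (hf x hx) hx (hi x hx), map_zero, LinearMap.zero_apply, map_zero, map_zero]

theorem inv_pull (hC : CM.Cir Z φ) (hf : ∀ x ∈ Z, ContDiffAt ℝ ∞ f x)
    (hi : ∀ x ∈ Z, ∀ t, f (φ t x) = f x) : Inv Z φ (F.pull f ξ) := fun t => by
  have h1 : Eqv Z (F.pull (φ t) (F.pull f ξ)) (F.pull (fun x => f (φ t x)) ξ) :=
    Eqv.of_eq fun x hx => pull_comp (f := φ t) (g := f) (om := ξ) (x := x)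
      ((hC.smooth_right t hx).differentiableAt (by simp))
      ((hf _ (hC.maps t hx)).differentiableAt (by simp))
  refine h1.trans (eqv_pull_of_eq ξ (fun x hx => ?_) (fun x hx =>
    (hf x hx).differentiableAt (by simp)) fun x hx => hi x hx t)
  exact (ContDiffAt.comp x (g := f) (f := φ t) (hf _ (hC.maps t hx))
    (hC.smooth_right t hx)).differentiableAt (by simp)

/-- **the input data from two contractions** -/
theorem pre_of (hC : CM.Cir Z φ) (hcon : CM.Conn Z φ θ) (hdθ : Hz Z (CM.gen φ) (F.d θ))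
    (sξ : Sm S ξ) (cξ : Cl S ξ) (eξ : Ev S ξ) (ξ0 : Eqv S (ξ ^ (m + 1)) 0)
    (hA : SMap (Cyl Z) S A) (hB : SMap (Cyl Z) S B) (h0 : ∀ x ∈ Z, A (x, 0) = B (x, 0))
    (hA1 : ∀ x ∈ Z, ∀ t, A (φ t x, 1) = A (x, 1)) (hB1 : ∀ x ∈ Z, ∀ t, B (φ t x, 1) = B (x, 1)) :
    Pre Z φ m (F.pull A ξ) (F.pull B ξ) 1 θ where
  cir := hC
  sa := sξ.pull hA
  sb := sξ.pull hB
  sh := fun _ _ => contDiffAt_const
  sθ := hcon.sm
  ca := Cl.pull hA sξ cξ
  cb := Cl.pull hB sξ cξ
  ch := resZero_iff.2 (Eqv.of_eq fun x _ => F.d_const (1 : Ext (E × ℝ)) x)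
  ea := Ev.pull hA eξ
  eb := Ev.pull hB eξ
  eh := Ev.one
  a0 := by
    rw [← pull_pow']
    have := Eqv.pull hA ξ0
    rwa [pull_zero'] at this
  b0 := by
    rw [← pull_pow']
    have := Eqv.pull hB ξ0
    rwa [pull_zero'] at this
  h00 := (pull_slice 0 hA).trans ((eqv_pull_of_eq ξ
    (fun x hx => (diff_slice 0 hA hx).differentiableAt (by simp))
    (fun x hx => (diff_slice 0 hB hx).differentiableAt (by simp)) h0).trans
      (pull_slice 0 hB).symm)
  a1 := Hz.eqv (fun x hx => hC.gen_mem hx) (pull_slice 1 hA)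
    (hz_pull hC (fun x hx => diff_slice 1 hA hx) hA1)
  b1 := Hz.eqv (fun x hx => hC.gen_mem hx) (pull_slice 1 hB)
    (hz_pull hC (fun x hx => diff_slice 1 hB hx) hB1)
  h1 := by rw [pull_one']; exact Hz.one
  ia := fun t => by
    have h1 := pull_slice (ξ := ξ) 1 hA
    refine (Eqv.pull ⟨fun x hx => hC.smooth_right t hx, fun x hx => hC.maps t hx⟩ h1).trans ?_
    exact (inv_pull hC (fun x hx => diff_slice 1 hA hx) hA1 t).trans h1.symm
  ib := fun t => by
    have h1 := pull_slice (ξ := ξ) 1 hB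
    refine (Eqv.pull ⟨fun x hx => hC.smooth_right t hx, fun x hx => hC.maps t hx⟩ h1).trans ?_
    exact (inv_pull hC (fun x hx => diff_slice 1 hB hx) hB1 t).trans h1.symm
  ih := by rw [pull_one']; exact Inv.one
  θ1 := fun x hx => by rw [hcon.unit x hx, map_one]
  dθ := hdθ

end Crest.Agent.R208.KX
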