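import Crest.Agent.R208.RR6
import Crest.Agent.R208.TX2

/-! Row 208, block RR (helper427), part RR6b: the case of 2-forms. -/

set_option autoImplicit false
set_option linter.unusedSectionVars false
set_option linter.unusedVariables false

open MeasureTheory Set Filter Topology Module
open scoped ContDiff
open Crest.Agent.R208.F Crest.Agent.R208.FI Crest.Agent.R208.CW Crest.Agent.R208.T

noncomputable section

namespace Crest.Agent.R208.RR

universe u
variable {E : Type u} [NormedAddCommGroup E] [NormedSpace ℝ E] [FiniteDimensional ℝ E]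
  {d : ℕ} {Z : Set E} {o : E → Ext E} {x : E} {φ φ' : ℝ → E → E}
  {m : ℕ} {a b a' b' : E × ℝ → Ext (E × ℝ)} {θ θ' : E → Ext E}

/-- **`k = 2`**: the two circle actions on one `Z`; `a_0 = b_0 = a'_0 = b'_0`; 99's comparison of
the two orbit integrals (`hCG`); then the constants are opposite and the volume of the first
action is computed by the second family. -/
theorem k2_main (hZ : Clo d Z) (ho : Ori d Z o) (hconn : IsPreconnected Z) (hne : Z.Nonempty)
    (hm : 1 ≤ m) (P : Pre Z φ m a b 1 θ) (P' : Pre Z φ' m a' b' 1 θ')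
    (ha : Hom 2 a) (hb : Hom 2 b) (ha' : Hom 2 a') (hb' : Hom 2 b')
    (haa : Eqv Z (F.pull (sl 0) a) (F.pull (sl 0) a'))
    (hex : ∃ ζ : E → Ext E, Sm Z ζ ∧ Eqv Z (F.d ζ) (F.pull (sl 0) a ^ m))
    (hCG : Coh Z (Wp φ (K (a - b)) + Wp φ' (K (a' - b'))) 0) :
    ∃ c : ℝ, Eqv Z (Wp φ' (K (a' - b'))) ((2 * Real.pi * c) • (1 : E → Ext E)) ∧
      Eqv Z (Wp φ (K (a - b))) ((2 * Real.pi * -c) • (1 : E → Ext E)) ∧
      (c ≠ 0 → c ^ (2 * m) * J d Z o (θ * F.d θ ^ (2 * m - 1)) =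
        ((-1) ^ m * ((2 * m).choose m : ℝ)) * J d Z o (K (a' ^ m * b' ^ m))) := by
  obtain ⟨c₁, h1⟩ := P.const0 hZ.sub hconn ha hb
  obtain ⟨c₂, h2⟩ := P'.const0 hZ.sub hconn ha' hb'
  have h3 : Eqv Z (Wp φ (K (a - b)) + Wp φ' (K (a' - b'))) 0 :=
    Coh.eqv_zero hCG ((hom_Wp (hom_K (ha.sub hb))).add (hom_Wp (hom_K (ha'.sub hb')))) Hom.zero
  have h12 : c₁ = -c₂ := by
    obtain ⟨x, hx⟩ := hne
    have h4 := eqv_iff.1 ((h1.symm.add h2.symm).trans h3) x hx
    rw [← add_smul, Pi.smul_apply, Pi.one_apply, map_smul, map_one, Pi.zero_apply, map_zero,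
      ← Algebra.algebraMap_eq_smul_one] at h4
    have h5 := congrArg (fun z => evA (Tan Z x) 0 z Fin.elim0) h4
    simp only [evA_zero_algebraMap, map_zero] at h5
    have h6 : 2 * Real.pi * (c₁ + c₂) = 0 := by rw [mul_add]; simpa using h5
    rcases mul_eq_zero.1 h6 with h7 | h7
    · exact absurd h7 (by positivity)
    · linarith
  refine ⟨c₂, h2, by rw [← h12]; exact h1, fun hc => ?_⟩
  have hc1 : c₁ ≠ 0 := by rw [h12]; exact neg_ne_zero.2 hc
  obtain ⟨η, H⟩ := P.exists_fam_two hZ.sub h1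
  obtain ⟨η', H'⟩ := P'.exists_fam_two hZ.sub h2
  have h4 := two_fam hZ ho hm P P' H H' hc1 hc haa (Eqv.refl _) hex
  rw [J_scale hZ hm P.sθ, pull_one', one_pow, mul_one, one_mul, h12] at h4
  rw [← h4, Even.neg_pow ⟨m, by ring⟩]

end Crest.Agent.R208.RR
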