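import Crest.Agent.R208.KX2
import Crest.Agent.R208.KX3
import Crest.Agent.R208.KC2
import Crest.Agent.R208.CG6
import Crest.Agent.R208.KD1
import Crest.Agent.R208.RR6b

/-! Row 208, `k = 2` (helper427), part KX4: the volume of the unit tangent bundle for `k = 2`. -/

set_option autoImplicit false
set_option linter.unusedSectionVars false
set_option linter.unusedVariables false

open MeasureTheory Set Filter Topology Module
open scoped ContDiff RealInnerProductSpace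
open Crest.GeometryTopology.Submanifold
open Crest.Agent.R241.DDefs
open Crest.Agent.R241.D2
open Crest.Agent.R208.F Crest.Agent.R208.FI Crest.Agent.R208.CW Crest.Agent.R208.T
open Crest.Agent.R208.NN Crest.Agent.R208.NB Crest.Agent.R208.RK
open Crest.Agent.R208.RR Crest.Agent.R208.RRC
open Crest.Agent.R208.LB (al oUS dal)

noncomputable section

namespace Crest.Agent.R208.KX

variable {n N K k r : ℕ} {κ : ℝ} {S : Set (Euc N)} {G : Geo n N κ S} {z : Euc N × Euc N}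
  {W : Euc N × Euc N → (Unit × Fin 2 → Fin N) → ℝ} {δ : ℝ}
  {PN : Euc N × Euc N → Wt N K →L[ℝ] Wt N K}
  {lg : Euc N → Euc N → Euc N} {ρ : Euc N → Euc N} {rr C r' Kr B w ε E₀ η₀ : ℝ} {Jn : ℕ}
  {ξ oS : Euc N → Ext (Euc N)} {m : ℕ}

/-- the section of the sphere bundle -/
def sg (h : GT.Bla G 2) (PN : Euc N × Euc N → Wt N K →L[ℝ] Wt N K)
    (W : Euc N × Euc N → (Unit × Fin 2 → Fin N) → ℝ) (z : Euc N × Euc N) :
    (Euc N × Euc N) × Wt N K := (z, nsec h PN W z)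

section

variable (hW : ∀ h : GT.Bla G 2, OR (GT.FF S) (FV.PVB h) W)

theorem sg_mem (h : GT.Bla G 2) (hn : 2 < n) (H : NegB G 1 (nuP K) δ PN)
    (hW : OR (GT.FF S) (FV.PVB h) W) (hz : z ∈ L.US G) : sg h PN W z ∈ T.Sph (L.US G) PN :=
  ⟨⟨hz, PN_nsec h hn H hz⟩, norm_nsec h hW hn H hz⟩

theorem contDiffAt_sg (h : GT.Bla G 2) (hn : 2 < n) (H : NegB G 1 (nuP K) δ PN)
    (hW : OR (GT.FF S) (FV.PVB h) W) (hz : z ∈ L.US G) : ContDiffAt ℝ ∞ (sg h PN W) z :=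
  contDiffAt_id.prodMk (contDiffAt_nsec h hW hn H hz)

theorem sg_gf (h : GT.Bla G 2) (hn : 2 < n) (H : NegB G 1 (nuP K) δ PN)
    (hW : OR (GT.FF S) (FV.PVB h) W) (hz : z ∈ L.US G) (t : ℝ) :
    sg h PN W (CM.gf G t z) = FL.Ph G K t (sg h PN W z) :=
  Prod.ext rfl (nsec_fl h hW hn H hz t)

/-- a map on `Cyl (Sph)` composed with the section -/
theorem smap_sg (h : GT.Bla G 2) (hn : 2 < n) (H : NegB G 1 (nuP K) δ PN)
    (hW : OR (GT.FF S) (FV.PVB h) W) {f : ((Euc N × Euc N) × Wt N K) × ℝ → Euc N}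
    (hf : ∀ q ∈ T.Sph (L.US G) PN, ∀ s, ContDiffAt ℝ ∞ f (q, s) ∧ f (q, s) ∈ S) :
    SMap (Cyl (L.US G)) S (fun y => f (sg h PN W y.1, y.2)) := by
  refine ⟨fun y hy => ?_, fun y hy => (hf _ (sg_mem h hn H hW (mem_Cyl.1 hy)) _).2⟩
  have hy' := mem_Cyl.1 hy
  have h1 : ContDiffAt ℝ ∞ (fun y : (Euc N × Euc N) × ℝ => sg h PN W y.1) y :=
    ContDiffAt.comp y (g := sg h PN W) (f := fun y : (Euc N × Euc N) × ℝ => y.1)
      (contDiffAt_sg h hn H hW hy') contDiffAt_fst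
  exact ContDiffAt.comp y (g := f) (f := fun y : (Euc N × Euc N) × ℝ => (sg h PN W y.1, y.2))
    (hf _ (sg_mem h hn H hW hy') _).1 (h1.prodMk contDiffAt_snd)

end

/-- **the core of `k = 2`** -/
theorem core (h : GT.Bla G 2) (hm : 2 ≤ m) (hn : n = 2 * m)
    (hW : OR (GT.FF S) (FV.PVB h) W) (sξ : Sm S ξ) (cξ : Cl S ξ) (dξ : Hom 2 ξ)
    (hoS : Ori n S oS) (hX : Coh (GT.FF S) (KD.hF ξ m) 0) :
    ∃ c : ℝ, Eqv (L.US G) (Wp (rot G W) (RR.K (F.pull (EE G) ξ)))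
        ((2 * Real.pi * c) • (1 : Euc N × Euc N → Ext (Euc N × Euc N))) ∧
      (c ≠ 0 → c ^ (2 * m) * |J (2 * n - 1) (L.US G) (oUS n N) (oUS n N)| =
        ((2 * m).choose m : ℝ) * (J n S oS (ξ ^ m)) ^ 2) := by
  have hn2 : 2 < n := by omega
  obtain ⟨lg, ρ, rr, C, r', Kr, K₀, δ, PN, w₀, hw₀, hD0⟩ := FL.exists_D0 h le_rfl
    (by nlinarith [Real.pi_pos] : Real.pi < 4 * Real.pi)
  obtain ⟨ε₀, hε₀, hD1⟩ := (hD0 w₀ hw₀ le_rfl).exists_D1
  obtain ⟨E₀, η₀, -, -, J₀, hJ₀⟩ := hD1 ε₀ hε₀ le_rfl 0 Real.pi_pos 1 one_pos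
  have D := hJ₀ J₀ le_rfl
  have H : NegB G 1 (nuP K₀) δ PN := D.neg
  obtain ⟨cA, cB, hc⟩ := KC.exists_centres D hn2
  -- the maps
  set Af := FL.Af G lg ρ w₀ J₀ ε₀ with hAf
  have hT : ∀ q ∈ T.Sph (L.US G) PN, q ∈ FI.Tot (L.US G) PN := fun q hq => hq.1
  have sA : SMap (Cyl (L.US G)) S (fun y => Af (sg h PN W y.1, y.2)) :=
    smap_sg h hn2 H hW fun q hq s => ⟨D.contDiffAt_Af (hT q hq) s, D.Af_mem (hT q hq) s⟩
  have sB : SMap (Cyl (L.US G)) S (fun y => Af (KC.flp (sg h PN W y.1), y.2)) := by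
    refine smap_sg h hn2 H hW (f := fun p => Af (KC.flp p.1, p.2)) fun q hq s => ⟨?_, ?_⟩
    · exact ContDiffAt.comp (q, s) (g := Af)
        (f := fun x : ((Euc N × Euc N) × Wt N K₀) × ℝ => (KC.flp x.1, x.2))
        (D.contDiffAt_Af (hT _ (KC.flp_mem hq)) s)
        ((KC.contDiff_flp.comp contDiff_fst).prodMk contDiff_snd).contDiffAt
    · exact D.Af_mem (hT _ (KC.flp_mem hq)) s
  have scA : SMap (Cyl (L.US G)) S (fun y => cA (sg h PN W y.1, y.2)) :=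
    smap_sg h hn2 H hW fun q hq s => (hc q hq).1 s
  have scB : SMap (Cyl (L.US G)) S (fun y => cB (sg h PN W y.1, y.2)) :=
    smap_sg h hn2 H hW fun q hq s => (hc q hq).2.1 s
  have hmem := fun {z : Euc N × Euc N} (hz : z ∈ L.US G) => sg_mem h hn2 H hW hz
  have hA0 : ∀ x ∈ L.US G, Af (sg h PN W x, 0) = x.1 := fun x hx =>
    D.Af_zero (hT _ (hmem hx)) le_rfl
  have hB0 : ∀ x ∈ L.US G, Af (KC.flp (sg h PN W x), 0) = x.1 := fun x hx =>
    D.Af_zero (hT _ (KC.flp_mem (hmem hx))) le_rfl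
  have hA1 : ∀ x ∈ L.US G, ∀ t, Af (sg h PN W (CM.gf G t x), 1) = Af (sg h PN W x, 1) := by
    intro x hx t
    rw [sg_gf h hn2 H hW hx]
    exact D.Af_end (hT _ (hmem hx)) (hmem hx).2 (by norm_num) t
  have hB1 : ∀ x ∈ L.US G, ∀ t, Af (KC.flp (sg h PN W (CM.gf G t x)), 1) =
      Af (KC.flp (sg h PN W x), 1) := by
    intro x hx t
    rw [sg_gf h hn2 H hW hx, ← KC.Ph_flp]
    exact D.Af_end (hT _ (KC.flp_mem (hmem hx))) (KC.flp_mem (hmem hx)).2 (by norm_num) t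
  -- the connection
  have hcir := CM.cir_US h.bl h.ty.per
  have hcon := CM.conn_al (G := G) (FV.sub_S h.bl)
  have hdal : Hz (L.US G) (CM.gen (CM.gf G)) (F.d (al (N := N))) := by
    obtain ⟨M, g, Fc, hg, -, hFc⟩ := CM.exists_CM h.bl h.ty.per
    refine Hz.eqv (fun x hx => hcir.gen_mem hx) hFc.pull.symm fun x hx => ?_
    rw [hFc.ii_gen hg hcir x hx, map_zero]
  have hSn : Sub n S := FV.sub_S h.bl
  have P : Pre (L.US G) (CM.gf G) m (F.pull (fun y => Af (sg h PN W y.1, y.2)) ξ)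
      (F.pull (fun y => Af (KC.flp (sg h PN W y.1), y.2)) ξ) 1 al := by
    refine pre_of hcir hcon hdal sξ cξ (ev_hom dξ even_two S) ?_ sA sB
      (fun x hx => (hA0 x hx).trans (hB0 x hx).symm) hA1 hB1
    exact SO.eqv_zero_of_gt hSn (KD.hom_pow' dξ (m + 1)) (by omega)
  -- comparison of the orbit integrals
  have hw : ∀ x ∈ L.US G, jz G W x ∈ GT.Vs G x.1 (Exp G x.1 (Real.pi • x.2)) := fun x hx => by
    rw [← phi_pi hx]; exact jz_mem h hW hx
  have hCG : Coh (L.US G) (Wp (CM.gf G) (K (F.pull (fun y => Af (sg h PN W y.1, y.2)) ξ)) -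
      Wp (CM.gf G) (K (F.pull (fun y => Af (KC.flp (sg h PN W y.1), y.2)) ξ)))
      (-(Wp (rot G W) (K (F.pull (EE G) ξ)))) := by
    refine CG.main (Z := L.US G) (P := fun x => x) (w := jz G W) h
      ⟨fun _ _ => contDiffAt_id, fun _ hx => hx⟩ hcir (cir_rot h hW) (fun x hx t => rfl)
      (fun x hx t => rfl) hw (fun x hx => norm_jz h hW hx) (fun x hx => inner_jz h hW hx) sξ cξ
      sA sB scA scB hA0 hB0 hA1 hB1 (fun x hx => ?_) (fun x hx => ?_) (fun x hx t s hs => ?_)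
      (fun x hx t s hs => ?_)
    · have h1 := (hc _ (hmem hx)).2.2.1 0 le_rfl
      have h2 : dir h PN (sg h PN W x) = jz G W x := dir_nsec h hW hn2 H hx
      rw [h1, h2]
      rfl
    · have h1 := (hc _ (hmem hx)).2.2.2.1 0 le_rfl
      have h2 : dir h PN (sg h PN W x) = jz G W x := dir_nsec h hW hn2 H hx
      rw [h1, h2]
      rfl
    · have h1 := (hc _ (hmem hx)).2.2.2.2.1 s hs.1 t
      rw [← sg_gf h hn2 H hW hx] at h1
      exact h1
    · have h1 := (hc _ (hmem hx)).2.2.2.2.2 s hs.1 t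
      rw [← sg_gf h hn2 H hW hx] at h1
      exact h1
  have sKa := Sm.K P.sa
  have sKb := Sm.K P.sb
  have hsub : Eqv (L.US G) (Wp (CM.gf G) (K (F.pull (fun y => Af (sg h PN W y.1, y.2)) ξ -
      F.pull (fun y => Af (KC.flp (sg h PN W y.1), y.2)) ξ)))
      (Wp (CM.gf G) (K (F.pull (fun y => Af (sg h PN W y.1, y.2)) ξ)) -
      Wp (CM.gf G) (K (F.pull (fun y => Af (KC.flp (sg h PN W y.1), y.2)) ξ))) :=
    (Wp_eqv hcir (Sm.K (P.sa.sub P.sb)) (sKa.sub sKb) (CG.K_sub_eqv P.sa P.sb)).trans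
      (Eqv.of_eq fun x hx => Wp_sub hcir sKa sKb hx)
  have hd : 2 * n - 1 + 1 = 2 * n := by omega
  have hcl : Clo (2 * n - 1) (L.US G) := LB.clo_US hSn h.bl.cpt hd
  have hconn : IsPreconnected (L.US G) := FV.preconn_US h.bl (by omega)
  have ho : Ori (2 * n - 1) (L.US G) (oUS n N) := LB.ori_US hSn h.bl.cpt (by omega) hd
  obtain ⟨c₁, hc₁⟩ := P.const0 hcl.sub hconn (dξ.pull) (dξ.pull)
  have hrot : Eqv (L.US G) (Wp (rot G W) (K (F.pull (EE G) ξ)))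
      ((2 * Real.pi * -c₁) • (1 : Euc N × Euc N → Ext (Euc N × Euc N))) := by
    have h1 : Coh (L.US G) (Wp (CM.gf G) (K (F.pull (fun y => Af (sg h PN W y.1, y.2)) ξ -
      F.pull (fun y => Af (KC.flp (sg h PN W y.1), y.2)) ξ))) (-(Wp (rot G W) (K (F.pull (EE G) ξ)))) :=
      (Coh.of_eqv hsub).trans hCG
    have h2 := Coh.eqv_zero h1 (hom_Wp (hom_K (dξ.pull.sub dξ.pull)))
      (by
        have := (hom_Wp (φ := rot G W) (hom_K (Hom.pull (f := EE G) dξ))).smul (-1)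
        rwa [neg_one_smul] at this)
    have h3 := (h2.symm.trans hc₁).neg
    rw [neg_neg] at h3
    rwa [mul_neg, neg_smul]
  refine ⟨-c₁, hrot, fun hc0 => ?_⟩
  have hc1 : c₁ ≠ 0 := fun h0 => hc0 (by rw [h0, neg_zero])
  obtain ⟨η, Fm⟩ := P.exists_fam_two hcl.sub hc₁
  have hval := KD.J_self h le_rfl (by omega : 1 ≤ m) hn hd ho hoS sξ cξ dξ hX Fm hcir hc1 P.ia P.ib
    P.h00 ((pull_slice 0 sA).trans (eqv_pull_of_eq ξ
      (fun x hx => (diff_slice 0 sA hx).differentiableAt (by simp))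
      (fun x hx => differentiableAt_fst) hA0))
  have hJ := J_scale (o := oUS n N) (c := c₁) (m := m) hcl (by omega) (γ := 1) P.sθ
  rw [mul_one, mul_one] at hJ
  rw [hJ, abs_mul, abs_pow] at hval
  have ho' : al * F.d al ^ (2 * m - 1) = oUS n N := by
    funext z
    rw [Pi.mul_apply, Pi.pow_apply, LB.d_al, oUS, hn]
  rw [ho'] at hval
  have hev : |c₁| ^ (2 * m) = c₁ ^ (2 * m) := by
    rw [← abs_pow, abs_of_nonneg ((even_two_mul m).pow_nonneg c₁)]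
  rw [← hval, (even_two_mul m).neg_pow, hev]

end Crest.Agent.R208.KX
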