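import Crest.Agent.R208.KX1
import Crest.Agent.R208.RR6
import Crest.Agent.R208.CH3c
import Crest.Agent.R208.SB2

/-! Row 208, `k = 2` (helper427), part KX5: the orbit integral of the rotation is the integral over
the unit circle of `V_pq`. -/

set_option autoImplicit false
set_option linter.unusedSectionVars false
set_option linter.unusedVariables false

open MeasureTheory Set Filter Topology Module
open scoped ContDiff RealInnerProductSpace
open Crest.GeometryTopology.Submanifold
open Crest.Agent.R241.DDefs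
open Crest.Agent.R241.D2
open Crest.Agent.R208.F Crest.Agent.R208.FI Crest.Agent.R208.CW Crest.Agent.R208.T
open Crest.Agent.R208.NN Crest.Agent.R208.NB
open Crest.Agent.R208.RR

noncomputable section

namespace Crest.Agent.R208.KX

variable {n N : ℕ} {κ : ℝ} {S : Set (Euc N)} {G : Geo n N κ S} {z : Euc N × Euc N}
  {W : Euc N × Euc N → (Unit × Fin 2 → Fin N) → ℝ}

section

variable (h : GT.Bla G 2) (hW : OR (GT.FF S) (FV.PVB h) W)

theorem gen_rot (z : Euc N × Euc N) : CM.gen (rot G W) z = (0, jz G W z) := by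
  have h1 : HasDerivAt (fun t => rot G W t z)
      ((0 : Euc N), (-Real.sin 0) • z.2 + Real.cos 0 • jz G W z) 0 :=
    (hasDerivAt_const (0 : ℝ) z.1).prodMk
      (((Real.hasDerivAt_cos 0).smul_const z.2).add ((Real.hasDerivAt_sin 0).smul_const _))
  rw [CM.gen, h1.deriv]
  simp

theorem ph_eq (hz : z ∈ L.US G) : FV.phi G z = NB.ph G z := by
  refine Prod.ext rfl ?_
  change Exp G z.1 (Real.pi • z.2) = (fl G (z, Real.pi)).1
  rw [phi_pi hz]

include hW in
/-- the fibre of `US → F` is one orbit -/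
theorem fibre_eq (hz : z ∈ L.US G) :
    L.US G ∩ FV.phi G ⁻¹' {FV.phi G z} = range fun t => rot G W t z := by
  ext y
  constructor
  · rintro ⟨hy, hy'⟩
    have hy1 : NB.ph G y = NB.ph G z := by
      rw [← ph_eq hy, ← ph_eq hz]; exact hy'
    have e1 : y.1 = z.1 := by
      have h0 := congrArg Prod.fst hy1
      exact h0
    have hyV : y.2 ∈ GT.Vs G z.1 (qq G z) := by
      have h2 : y.2 ∈ GT.Vs G y.1 (qq G y) := mem_Vs hy
      rwa [e1, show qq G y = qq G z from congrArg Prod.snd hy1] at h2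
    -- coordinates
    have hspan : y.2 - ⟪z.2, y.2⟫ • z.2 ∈ V0 G z := by
      refine mem_V0.2 ⟨Submodule.sub_mem _ hyV (Submodule.smul_mem _ _ (mem_Vs hz)), ?_⟩
      rw [inner_sub_left, real_inner_smul_left, real_inner_self_eq_norm_sq, hz.2,
        real_inner_comm y.2 z.2]
      ring
    have hfr : finrank ℝ (V0 G z) = 1 := by
      have := finrank_V0 h hz
      omega
    have hj0 : jz G W z ∈ V0 G z :=
      mem_V0.2 ⟨jz_mem h hW hz, by rw [real_inner_comm]; exact inner_jz h hW hz⟩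
    have hj1 := norm_jz h hW hz
    have hne : (⟨jz G W z, hj0⟩ : V0 G z) ≠ 0 := by
      intro h0
      have : jz G W z = 0 := congrArg Subtype.val h0
      rw [this, norm_zero] at hj1
      exact zero_ne_one hj1
    obtain ⟨b, hb⟩ := (finrank_eq_one_iff_of_nonzero' _ hne).1 hfr ⟨_, hspan⟩
    have hb' : b • jz G W z = y.2 - ⟪z.2, y.2⟫ • z.2 := congrArg Subtype.val hb
    set a := ⟪z.2, y.2⟫ with ha
    have hy2 : y.2 = a • z.2 + b • jz G W z := by rw [hb']; abel
    have hab : a ^ 2 + b ^ 2 = 1 := by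
      have h3 : ⟪y.2, y.2⟫ = 1 := by rw [real_inner_self_eq_norm_sq, hy.2, one_pow]
      rw [hy2] at h3
      simp only [inner_add_left, inner_add_right, real_inner_smul_left, inner_smul_right,
        inner_jz h hW hz, real_inner_comm z.2 (jz G W z), real_inner_self_eq_norm_sq, hj1,
        hz.2] at h3
      nlinarith
    obtain ⟨t, ht1, ht2⟩ : ∃ t : ℝ, Real.cos t = a ∧ Real.sin t = b := by
      refine ⟨Complex.arg ⟨a, b⟩, ?_, ?_⟩
      · have hn : ‖(⟨a, b⟩ : ℂ)‖ = 1 := by
          rw [Complex.norm_eq_sqrt_sq_add_sq, hab, Real.sqrt_one]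
        have h0 : (⟨a, b⟩ : ℂ) ≠ 0 := fun h0 => by rw [h0, norm_zero] at hn; exact zero_ne_one hn
        rw [Complex.cos_arg h0, hn, div_one]
      · have hn : ‖(⟨a, b⟩ : ℂ)‖ = 1 := by
          rw [Complex.norm_eq_sqrt_sq_add_sq, hab, Real.sqrt_one]
        rw [Complex.sin_arg, hn, div_one]
    refine ⟨t, Prod.ext e1.symm ?_⟩
    change Real.cos t • z.2 + Real.sin t • jz G W z = y.2
    rw [ht1, ht2, hy2]
  · rintro ⟨t, rfl⟩
    refine ⟨rot_mem h hW hz t, ?_⟩
    change FV.phi G (rot G W t z) = FV.phi G z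
    rw [ph_eq (rot_mem h hW hz t), ph_eq hz, ph_rot h hW hz]

/-- the linear map `u ↦ ⟪u, d v⟫` -/
def Lu (N : ℕ) : Euc N →ₗ[ℝ] Ext (Euc N × Euc N) :=
  io ∘ₗ (LinearMap.snd ℝ (Euc N) (Euc N)).dualMap ∘ₗ innerₗ (Euc N)

theorem evA_Lu (u : Euc N) (v : Fin 1 → Euc N × Euc N) :
    evA (Euc N × Euc N) 1 (Lu N u) v = ⟪u, (v 0).2⟫ := by
  change evA (Euc N × Euc N) 1 (io ((LinearMap.snd ℝ (Euc N) (Euc N)).dualMap (innerₗ (Euc N) u))) v = _
  rw [evA_io]
  rfl

include hW in
/-- **(C2)** -/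
theorem orbit_value (hz : z ∈ L.US G)
    (hO : Clo 1 (L.US G ∩ FV.phi G ⁻¹' {FV.phi G z}))
    {o κ₁ : Euc N × Euc N → Ext (Euc N × Euc N)}
    (ho : Ori 1 (L.US G ∩ FV.phi G ⁻¹' {FV.phi G z}) o) (sκ : Sm (L.US G) κ₁) {r : ℝ}
    (hr : Eqv (L.US G) (Wp (rot G W) κ₁) (r • (1 : Euc N × Euc N → Ext (Euc N × Euc N)))) :
    |J 1 (L.US G ∩ FV.phi G ⁻¹' {FV.phi G z}) o κ₁| = |r| := by
  set O := L.US G ∩ FV.phi G ⁻¹' {FV.phi G z} with hOdef
  have hC := cir_rot h hW
  have hOe : O = range fun t => rot G W t z := fibre_eq h hW hz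
  have hal : ∀ y ∈ O, evA (Euc N × Euc N) 1 (Lu N (jz G W y)) (fun _ => CM.gen (rot G W) y) = 1 := by
    intro y hy
    rw [evA_Lu, gen_rot]
    change ⟪jz G W y, jz G W y⟫ = 1
    rw [real_inner_self_eq_norm_sq, norm_jz h hW hy.1, one_pow]
  have h1 := CH.J_orbit_gen hC hO hz hOe (al := fun y => Lu N (jz G W y)) hal κ₁
  -- the value of the orbit integral
  have h2 : evA (Euc N × Euc N) 0 (Wp (rot G W) κ₁ z) Fin.elim0 =
      ∫ s in (0 : ℝ)..(2 * Real.pi), evA (Euc N × Euc N) 1 (κ₁ (rot G W s z))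
        (fun _ => CM.gen (rot G W) (rot G W s z)) := by
    let L₀ : Ext (Euc N × Euc N) →L[ℝ] ℝ := LinearMap.toContinuousLinearMap
      { toFun := fun c => evA (Euc N × Euc N) 0 c Fin.elim0
        map_add' := fun x y => by rw [map_add]; rfl
        map_smul' := fun r x => by rw [map_smul]; rfl }
    have e0 : evA (Euc N × Euc N) 0 (Wp (rot G W) κ₁ z) Fin.elim0 = L₀ (Wp (rot G W) κ₁ z) := rfl
    rw [e0, Wp_apply, ← ContinuousLinearMap.intervalIntegral_comp_comm _
      (integrable_Wp hC sκ hz)]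
    have e1 : ∀ t : ℝ, L₀ (hopL (ContinuousLinearMap.inl ℝ (Euc N × Euc N) ℝ)
        ((0, 1) : (Euc N × Euc N) × ℝ) (F.pull (Fl (rot G W)) κ₁ (z, t))) =
        (2 * Real.pi) • (fun s => evA (Euc N × Euc N) 1 (κ₁ (rot G W s z))
          (fun _ => CM.gen (rot G W) (rot G W s z))) (2 * Real.pi * t) := by
      intro t
      rw [hopL_Fl hC hz, map_smul]
      congr 1
      change evA (Euc N × Euc N) 0 (pb _ (ii _ _)) Fin.elim0 = _
      rw [evA_pb, ← evA_ii]
      congr 1
      funext i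
      fin_cases i
      rfl
    rw [intervalIntegral.integral_congr (g := fun t => (2 * Real.pi) •
        (fun s => evA (Euc N × Euc N) 1 (κ₁ (rot G W s z))
          (fun _ => CM.gen (rot G W) (rot G W s z))) (2 * Real.pi * t)) (fun t _ => e1 t),
      intervalIntegral.integral_smul]
    have e2 := intervalIntegral.smul_integral_comp_mul_left (a := 0) (b := 1)
      (fun s => evA (Euc N × Euc N) 1 (κ₁ (rot G W s z))
          (fun _ => CM.gen (rot G W) (rot G W s z))) (2 * Real.pi)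
    rw [mul_zero, mul_one] at e2
    exact e2
  have h3 : evA (Euc N × Euc N) 0 (Wp (rot G W) κ₁ z) Fin.elim0 = r := by
    have e0 := congrArg (fun c => evA (Tan (L.US G) z) 0 c Fin.elim0) (eqv_iff.1 hr z hz)
    simp only [evA_pb] at e0
    have e1 : (fun i : Fin 0 => (Tan (L.US G) z).subtype (Fin.elim0 i)) =
        (Fin.elim0 : Fin 0 → Euc N × Euc N) := Subsingleton.elim _ _
    rw [e1] at e0
    rw [e0, Pi.smul_apply, Pi.one_apply, ← Algebra.algebraMap_eq_smul_one, evA_zero_algebraMap]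
  have hconn : IsPreconnected O := by
    rw [hOe]
    refine isPreconnected_range ?_
    rw [continuous_iff_continuousAt]
    exact fun t => (hC.hasDerivAt hz t).continuousAt
  have hCO : CM.Cir O (rot G W) := hC.mono inter_subset_left fun t y hy => by
    refine ⟨rot_mem h hW hy.1 t, ?_⟩
    change FV.phi G (rot G W t y) = FV.phi G z
    rw [ph_eq (rot_mem h hW hy.1 t), ph_rot h hW hy.1, ← ph_eq hy.1]
    exact hy.2
  have hori : Ori 1 O (fun y => Lu N (jz G W y)) := by
    refine ⟨?_, fun y hy => ?_⟩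
    · exact (LinearMap.continuous_of_finiteDimensional (Lu N)).comp_continuousOn
        fun y hy => (contDiffAt_jz h hW hy.1).continuousAt.continuousWithinAt
    · have hfr : finrank ℝ (Tan O y) = 1 := hO.sub.finrank_Tan hy
      have hF := frame_isFrame hfr
      have hg : CM.gen (rot G W) y ∈ Tan O y := hCO.gen_mem hy
      have hg1 : (⟨_, hg⟩ : Tan O y) ≠ 0 := fun h0 =>
        hCO.gen_ne hy (congrArg Subtype.val h0)
      obtain ⟨c, hc⟩ := (finrank_eq_one_iff_of_nonzero' _ hg1).1 hfr ⟨_, hF.2 0⟩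
      have hc' : c • CM.gen (rot G W) y = frame 1 O y 0 := congrArg Subtype.val hc
      have hne : frame 1 O y 0 ≠ 0 := by
        intro h0
        have h5 : ‖toEuclidean (frame 1 O y 0)‖ = 1 := hF.1.1 0
        rw [h0, map_zero, norm_zero] at h5
        exact zero_ne_one h5
      have hc0 : c ≠ 0 := by
        rintro rfl
        rw [zero_smul] at hc'
        exact hne hc'.symm
      rw [evA_Lu, ← hc', gen_rot]
      change ⟪jz G W y, c • jz G W y⟫ ≠ 0
      rw [inner_smul_right, real_inner_self_eq_norm_sq, norm_jz h hW hy.1, one_pow, mul_one]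
      exact hc0
  rcases J_ori_connected hO hori ho hconn with h4 | h4
  · rw [h4, h1, ← h2, h3]
  · rw [h4, h1, ← h2, h3, abs_neg]

end

end Crest.Agent.R208.KX
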