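import Crest.Agent.R208.NU4

/-!
# R208, NU5 (helper742): the endgame of `k = 4` for every sign and size of `α`

`z² = p z (A+B) + q (A-B)²`, `A^(m+1) = B^(m+1) = 0`, `I` antisymmetric under `A ↔ B`.
-/

set_option autoImplicit false

open Polynomial Finset

noncomputable section

namespace Crest.Agent.R208.NU

/-- `v_0 = 1`, `v_1 = p(1+X)`, `v_{N+2} = p(1+X)v_{N+1} + q(1-X)²v_N`. -/
def vp (p q : ℝ) : ℕ → ℝ[X]
  | 0 => 1
  | 1 => C p * (1 + X)
  | (N + 2) => C p * (1 + X) * vp p q (N + 1) + C q * (1 - X) ^ 2 * vp p q N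

/-- the middle coefficient -/
def dm (p q : ℝ) (m : ℕ) : ℝ := (vp p q (2 * m - 2)).coeff (m - 1) - (vp p q (2 * m - 2)).coeff m

lemma vp_neg_one (l : ℝ) (N : ℕ) : vp l (-1) N = up l N := by
  induction N using Nat.strong_induction_on with
  | _ N ih =>
    match N with
    | 0 => simp [up, vp]
    | 1 => simp [up, vp]
    | (N + 2) =>
      rw [up, vp, ih (N + 1) (by omega), ih N (by omega)]
      simp only [map_neg, map_one]
      ring

lemma dm_neg_one (l : ℝ) (m : ℕ) : dm l (-1) m = cm l m := by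
  rw [dm, cm, vp_neg_one]

lemma natDegree_vp (p q : ℝ) : ∀ N, (vp p q N).natDegree ≤ N := by
  intro N
  induction N using Nat.strong_induction_on with
  | _ N ih =>
    match N with
    | 0 => simp [vp]
    | 1 =>
      rw [vp]
      compute_degree
    | (N + 2) =>
      rw [vp]
      have h1 := ih (N + 1) (by omega)
      have h2 := ih N (by omega)
      refine (natDegree_add_le _ _).trans (max_le ?_ ?_)
      · refine natDegree_mul_le.trans ?_
        have : (C p * (1 + X) : ℝ[X]).natDegree ≤ 1 := by compute_degree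
        omega
      · refine natDegree_mul_le.trans ?_
        have : (C q * (1 - X) ^ 2 : ℝ[X]).natDegree ≤ 2 := by compute_degree
        omega

section hom

variable {H : Type*} [CommRing H] [Algebra ℝ H] (A B : H)

lemma z_pow' (p q : ℝ) (z : H) (hz : z ^ 2 = p • (z * (A + B)) + q • (A - B) ^ 2) (N : ℕ) :
    z ^ (N + 2) = hm A B (N + 1) (vp p q (N + 1)) * z
      + q • ((A - B) ^ 2 * hm A B N (vp p q N)) := by
  induction N with
  | zero =>
    rw [vp, vp, hm_C_mul, show (1 + X : ℝ[X]) = (1 + X) * 1 by ring, hm_one_add A B 0 1 (by simp),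
      hm_one_zero, Nat.zero_add, hz]
    simp only [mul_one, smul_mul_assoc, add_left_inj]
    congr 1; ring
  | succ N ih =>
    have h1 : hm A B (N + 1 + 1) (vp p q (N + 1 + 1))
        = p • ((A + B) * hm A B (N + 1) (vp p q (N + 1)))
          + q • ((A - B) ^ 2 * hm A B N (vp p q N)) := by
      rw [vp, hm_add, mul_assoc, mul_assoc, hm_C_mul, hm_C_mul,
        hm_one_add A B (N + 1) _ (natDegree_vp p q _),
        hm_one_sub_sq A B N _ (natDegree_vp p q _)]
    calc z ^ (N + 1 + 2) = z ^ (N + 2) * z := by ring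
      _ = hm A B (N + 1) (vp p q (N + 1)) * z ^ 2
          + q • ((A - B) ^ 2 * hm A B N (vp p q N)) * z := by
        rw [ih]; ring
      _ = _ := by
        rw [hz, h1]
        simp only [Algebra.smul_def]
        ring

end hom

lemma reflect_vp (p q : ℝ) (N : ℕ) : reflect N (vp p q N) = vp p q N := by
  induction N using Nat.strong_induction_on with
  | _ N ih =>
    match N with
    | 0 => simp [vp]
    | 1 => rw [vp, reflect_C_mul, reflect_one_add]
    | (N + 2) =>
      have h1 := ih (N + 1) (by omega)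
      have h2 := ih N (by omega)
      rw [vp, reflect_add, mul_assoc, mul_assoc, reflect_C_mul, reflect_C_mul]
      have d1 : (1 + X : ℝ[X]).natDegree ≤ 1 := by compute_degree
      have d2 : ((1 - X) ^ 2 : ℝ[X]).natDegree ≤ 2 := by compute_degree
      have e1 := reflect_mul (1 + X : ℝ[X]) (vp p q (N + 1)) d1 (natDegree_vp p q (N + 1))
      have e2 := reflect_mul ((1 - X) ^ 2 : ℝ[X]) (vp p q N) d2 (natDegree_vp p q N)
      rw [show N + 2 = 1 + (N + 1) by ring, e1, h1, show 1 + (N + 1) = 2 + N by ring, e2, h2,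
        reflect_one_add, reflect_one_sub_sq]

lemma coeff_vp_symm (p q : ℝ) {N j : ℕ} (hj : j ≤ N) :
    (vp p q N).coeff (N - j) = (vp p q N).coeff j := by
  conv_rhs => rw [← reflect_vp p q N]
  rw [coeff_reflect, revAt_le hj]

section main

variable {H : Type*} [CommRing H] [Algebra ℝ H] (A B : H)

/-- `(A-B) z^(2m-1) = d_m (z A^m B^(m-1) - z A^(m-1) B^m)`. -/
theorem sub_mul_z_pow' (p q : ℝ) (m : ℕ) (hm1 : 1 ≤ m) (z : H) (hA : A ^ (m + 1) = 0)
    (hB : B ^ (m + 1) = 0) (hz : z ^ 2 = p • (z * (A + B)) + q • (A - B) ^ 2) :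
    (A - B) * z ^ (2 * m - 1)
      = dm p q m • (z * (A ^ m * B ^ (m - 1)) - z * (A ^ (m - 1) * B ^ m)) := by
  obtain ⟨c, rfl⟩ : ∃ c, m = c + 1 := ⟨m - 1, by omega⟩
  rcases Nat.eq_zero_or_pos c with rfl | hc
  · simp [dm, vp, coeff_one]
    ring
  obtain ⟨r, rfl⟩ : ∃ r, c = r + 1 := ⟨c - 1, by omega⟩
  rw [show 2 * (r + 1 + 1) - 1 = (2 * r + 1) + 2 by omega, z_pow' A B p q z hz]
  have h1 : (A - B) * hm A B (2 * r + 1 + 1) (vp p q (2 * r + 1 + 1))
      = hm A B (2 * (r + 1 + 1) - 1) ((1 - X) * vp p q (2 * r + 1 + 1)) := by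
    rw [show 2 * (r + 1 + 1) - 1 = (2 * r + 1 + 1) + 1 by omega,
      hm_one_sub A B _ _ (natDegree_vp p q _)]
  have h2 : (A - B) * ((A - B) ^ 2 * hm A B (2 * r + 1) (vp p q (2 * r + 1)))
      = hm A B (2 * (r + 1 + 1)) ((1 - X) * ((1 - X) ^ 2 * vp p q (2 * r + 1))) := by
    rw [show 2 * (r + 1 + 1) = (2 * r + 1 + 2) + 1 by omega,
      hm_one_sub A B _ _ ?_, hm_one_sub_sq A B _ _ (natDegree_vp p q _)]
    refine natDegree_mul_le.trans ?_
    have d2 : ((1 - X) ^ 2 : ℝ[X]).natDegree ≤ 2 := by compute_degree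
    have := natDegree_vp p q (2 * r + 1)
    omega
  have e1 : ((1 - X) * ((1 - X) ^ 2 * vp p q (2 * r + 1)) : ℝ[X]).coeff (r + 1 + 1) = 0 := by
    have h3 : reflect (3 + (2 * r + 1)) ((1 - X) * ((1 - X) ^ 2 * vp p q (2 * r + 1)) : ℝ[X])
        = - ((1 - X) * ((1 - X) ^ 2 * vp p q (2 * r + 1)) : ℝ[X]) := by
      have d3 : ((1 - X) ^ 3 : ℝ[X]).natDegree ≤ 3 := by compute_degree
      have e2 := reflect_mul ((1 - X) ^ 3 : ℝ[X]) (vp p q (2 * r + 1)) d3 (natDegree_vp p q _)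
      have e3 : reflect 3 ((1 - X) ^ 3 : ℝ[X]) = - (1 - X) ^ 3 := by
        have h : ((1 - X) ^ 3 : ℝ[X]) = C 1 * X ^ 0 - C 3 * X ^ 1 + C 3 * X ^ 2 - C 1 * X ^ 3 := by
          simp only [map_one, C_ofNat]; ring
        rw [h, reflect_sub, reflect_add, reflect_sub, reflect_C_mul_X_pow, reflect_C_mul_X_pow,
          reflect_C_mul_X_pow, reflect_C_mul_X_pow]
        simp [revAt_le]
        ring
      rw [show ((1 - X) * ((1 - X) ^ 2 * vp p q (2 * r + 1)) : ℝ[X])
        = (1 - X) ^ 3 * vp p q (2 * r + 1) by ring, e2, e3, reflect_vp]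
      ring
    have h4 := congrArg (fun p : ℝ[X] => p.coeff (r + 1 + 1)) h3
    simp only [coeff_reflect, coeff_neg] at h4
    rw [revAt_le (by omega), show 3 + (2 * r + 1) - (r + 1 + 1) = r + 1 + 1 by omega] at h4
    linarith
  have e2 : ((1 - X) * vp p q (2 * r + 1 + 1) : ℝ[X]).coeff (r + 1 + 1) = - dm p q (r + 1 + 1) := by
    rw [sub_mul, one_mul, coeff_sub, coeff_X_mul, dm]
    rw [show 2 * (r + 1 + 1) - 2 = 2 * r + 1 + 1 by omega, show r + 1 + 1 - 1 = r + 1 by omega]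
    ring
  have e3 : ((1 - X) * vp p q (2 * r + 1 + 1) : ℝ[X]).coeff (r + 1) = dm p q (r + 1 + 1) := by
    rw [sub_mul, one_mul, coeff_sub, coeff_X_mul, dm]
    rw [show 2 * (r + 1 + 1) - 2 = 2 * r + 1 + 1 by omega, show r + 1 + 1 - 1 = r + 1 by omega]
    rw [← coeff_vp_symm p q (show r + 1 + 1 ≤ 2 * r + 1 + 1 by omega)]
    rw [show 2 * r + 1 + 1 - (r + 1 + 1) = r by omega]
  calc (A - B) * (hm A B (2 * r + 1 + 1) (vp p q (2 * r + 1 + 1)) * z
          + q • ((A - B) ^ 2 * hm A B (2 * r + 1) (vp p q (2 * r + 1))))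
      = ((A - B) * hm A B (2 * r + 1 + 1) (vp p q (2 * r + 1 + 1))) * z
        + q • ((A - B) * ((A - B) ^ 2 * hm A B (2 * r + 1) (vp p q (2 * r + 1)))) := by
        simp only [Algebra.smul_def]; ring
    _ = _ := by
      rw [h1, h2, hm_trunc_even A B _ hA hB, hm_trunc_odd A B _ hm1 hA hB, e1, e2,
        show r + 1 + 1 - 1 = r + 1 by omega, e3]
      simp only [Algebra.smul_def, map_neg, map_zero]
      ring

end main

/-! ### positivity of the coefficients -/

/-- `v_N` in terms of `(1+X)^(N-2i) (1-X)^(2i)`. -/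
lemma exists_vp_expand (N : ℕ) : ∃ b : ℕ → ℝ, (∀ i, 0 ≤ b i) ∧ (∀ i, N < 2 * i → b i = 0) ∧
    ∀ p q : ℝ, vp p q N = ∑ i ∈ range (N + 1),
      C (b i * p ^ (N - 2 * i) * q ^ i) * ((1 + X) ^ (N - 2 * i) * (1 - X) ^ (2 * i)) := by
  induction N using Nat.strong_induction_on with
  | _ N ih =>
    match N with
    | 0 =>
      refine ⟨fun i => if i = 0 then 1 else 0, fun i => by dsimp only; split_ifs <;> norm_num, ?_, ?_⟩
      · intro i hi
        have : i ≠ 0 := by omega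
        simp [this]
      · intro p q
        simp [vp]
    | 1 =>
      refine ⟨fun i => if i = 0 then 1 else 0, fun i => by dsimp only; split_ifs <;> norm_num, ?_, ?_⟩
      · intro i hi
        have : i ≠ 0 := by omega
        simp [this]
      · intro p q
        rw [sum_range_succ, sum_range_one]
        simp [vp]
    | (N + 2) =>
      obtain ⟨b1, b1n, b1z, hb1⟩ := ih (N + 1) (by omega)
      obtain ⟨b0, b0n, b0z, hb0⟩ := ih N (by omega)
      refine ⟨fun i => b1 i + if i = 0 then 0 else b0 (i - 1), ?_, ?_, ?_⟩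
      · intro i
        have h1 := b1n i
        have h0 := b0n (i - 1)
        dsimp only
        split_ifs <;> linarith
      · intro i hi
        have h1 := b1z i (by omega)
        dsimp only
        rw [h1, if_neg (by omega), b0z (i - 1) (by omega), add_zero]
      · intro p q
        rw [vp, hb1, hb0, mul_sum, mul_sum]
        have e1 : ∑ i ∈ range (N + 1 + 1), C p * (1 + X) *
            (C (b1 i * p ^ (N + 1 - 2 * i) * q ^ i) *
              ((1 + X) ^ (N + 1 - 2 * i) * (1 - X) ^ (2 * i)))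
            = ∑ i ∈ range (N + 2 + 1), C (b1 i * p ^ (N + 2 - 2 * i) * q ^ i) *
              ((1 + X) ^ (N + 2 - 2 * i) * (1 - X) ^ (2 * i)) := by
          rw [sum_range_succ _ (N + 2), b1z (N + 2) (by omega)]
          simp only [zero_mul, map_zero, add_zero]
          refine sum_congr rfl fun i _ => ?_
          rcases lt_or_ge (N + 1) (2 * i) with h | h
          · rw [b1z i h]; simp
          · have h2 : N + 2 - 2 * i = (N + 1 - 2 * i) + 1 := by omega
            rw [h2, pow_succ, pow_succ]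
            simp only [map_mul]
            ring
        have e2 : ∑ i ∈ range (N + 1), C q * (1 - X) ^ 2 *
            (C (b0 i * p ^ (N - 2 * i) * q ^ i) * ((1 + X) ^ (N - 2 * i) * (1 - X) ^ (2 * i)))
            = ∑ i ∈ range (N + 2 + 1),
              C ((if i = 0 then 0 else b0 (i - 1)) * p ^ (N + 2 - 2 * i) * q ^ i) *
              ((1 + X) ^ (N + 2 - 2 * i) * (1 - X) ^ (2 * i)) := by
          rw [sum_range_succ' _ (N + 2), sum_range_succ _ (N + 1)]
          simp only [if_true, zero_mul, map_zero, add_zero, Nat.add_eq_zero_iff, one_ne_zero,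
            and_false, if_false, Nat.add_sub_cancel]
          rw [b0z (N + 1) (by omega)]
          simp only [zero_mul, map_zero, add_zero]
          refine sum_congr rfl fun i _ => ?_
          have h2 : N + 2 - 2 * (i + 1) = N - 2 * i := by omega
          rw [h2, pow_succ q, show 2 * (i + 1) = 2 * i + 2 by ring, pow_add (1 - X : ℝ[X])]
          simp only [map_mul]
          ring
        rw [e1, e2, ← sum_add_distrib]
        refine sum_congr rfl fun i _ => ?_
        dsimp only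
        rw [add_mul, add_mul, map_add, add_mul]

/-- the middle difference of `(1+X)^(2j) (1-X)^(2i)` -/
def gd (i j : ℕ) : ℝ := ((1 + X) ^ (2 * j) * (1 - X) ^ (2 * i) : ℝ[X]).coeff (i + j)
  - ((1 + X) ^ (2 * j) * (1 - X) ^ (2 * i) : ℝ[X]).coeff (i + j + 1)

lemma gd_rec (i j : ℕ) : gd i (j + 1) = gd (i + 1) j + 4 * gd i j := by
  have h : ((1 + X) ^ (2 * (j + 1)) * (1 - X) ^ (2 * i) : ℝ[X])
      = (1 + X) ^ (2 * j) * (1 - X) ^ (2 * (i + 1))
        + C 4 * (X * ((1 + X) ^ (2 * j) * (1 - X) ^ (2 * i))) := by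
    rw [show 2 * (j + 1) = 2 * j + 2 by ring, show 2 * (i + 1) = 2 * i + 2 by ring, pow_add, pow_add]
    simp only [C_ofNat]
    ring
  have e1 : i + (j + 1) = i + 1 + j := by ring
  have e2 : i + 1 + j = (i + j) + 1 := by ring
  have e3 : i + (j + 1) + 1 = (i + j + 1) + 1 := by ring
  rw [gd, h, coeff_add, coeff_add, coeff_C_mul, coeff_C_mul, gd, gd, e1]
  conv_lhs => rw [show (X * ((1 + X) ^ (2 * j) * (1 - X) ^ (2 * i)) : ℝ[X]).coeff (i + 1 + j)
    = ((1 + X) ^ (2 * j) * (1 - X) ^ (2 * i) : ℝ[X]).coeff (i + j) by rw [e2, coeff_X_mul]]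
  conv_lhs => rw [show (X * ((1 + X) ^ (2 * j) * (1 - X) ^ (2 * i)) : ℝ[X]).coeff (i + 1 + j + 1)
    = ((1 + X) ^ (2 * j) * (1 - X) ^ (2 * i) : ℝ[X]).coeff (i + j + 1) by rw [e2, coeff_X_mul]]
  ring

lemma gd_zero (j : ℕ) : gd 0 j = ((2 * j).factorial : ℝ) / (j.factorial * (j + 1).factorial) := by
  rw [gd, mul_zero, pow_zero, mul_one, zero_add, coeff_one_add_X_pow, coeff_one_add_X_pow]
  have h1 : ((2 * j).choose j : ℝ) = (2 * j).factorial / (j.factorial * j.factorial) := by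
    have := Nat.choose_eq_factorial_div_factorial (show j ≤ 2 * j by omega)
    rw [Nat.cast_choose ℝ (show j ≤ 2 * j by omega), show 2 * j - j = j by omega]
  rcases Nat.eq_zero_or_pos j with rfl | hj
  · simp
  have h2 : ((2 * j).choose (j + 1) : ℝ) = (2 * j).factorial / ((j + 1).factorial * (j - 1).factorial) := by
    rw [Nat.cast_choose ℝ (show j + 1 ≤ 2 * j by omega), show 2 * j - (j + 1) = j - 1 by omega]
  rw [h1, h2]
  obtain ⟨r, rfl⟩ : ∃ r, j = r + 1 := ⟨j - 1, by omega⟩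
  have hf : ((r.factorial : ℕ) : ℝ) ≠ 0 := Nat.cast_ne_zero.2 (Nat.factorial_ne_zero _)
  have hg : (((2 * (r + 1)).factorial : ℕ) : ℝ) ≠ 0 := Nat.cast_ne_zero.2 (Nat.factorial_ne_zero _)
  simp only [Nat.add_sub_cancel, Nat.factorial_succ (r + 1), Nat.factorial_succ r, Nat.cast_mul]
  push_cast
  field_simp
  ring

lemma gd_formula (i : ℕ) : ∀ j, gd i j = (-1) ^ i * ((2 * i + 2).factorial * (2 * j).factorial /
    (2 * (i + 1).factorial * j.factorial * (i + j + 1).factorial) : ℝ) := by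
  induction i with
  | zero =>
    intro j
    rw [gd_zero]
    have hf : ((j.factorial : ℕ) : ℝ) ≠ 0 := Nat.cast_ne_zero.2 (Nat.factorial_ne_zero _)
    have hg : (((j + 1).factorial : ℕ) : ℝ) ≠ 0 := Nat.cast_ne_zero.2 (Nat.factorial_ne_zero _)
    simp only [zero_add, mul_zero, pow_zero, one_mul, Nat.factorial_one, Nat.cast_one]
    norm_num
    field_simp
  | succ i ih =>
    intro j
    have h := gd_rec i j
    have e : gd (i + 1) j = gd i (j + 1) - 4 * gd i j := by linarith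
    rw [e, ih, ih]
    have f1 : ((i.factorial : ℕ) : ℝ) ≠ 0 := Nat.cast_ne_zero.2 (Nat.factorial_ne_zero _)
    have f2 : ((j.factorial : ℕ) : ℝ) ≠ 0 := Nat.cast_ne_zero.2 (Nat.factorial_ne_zero _)
    have f3 : (((i + j).factorial : ℕ) : ℝ) ≠ 0 := Nat.cast_ne_zero.2 (Nat.factorial_ne_zero _)
    have g1 : (2 * (i + 1) + 2).factorial = (2 * i + 4) * ((2 * i + 3) * (2 * i + 2).factorial) := by
      rw [show 2 * (i + 1) + 2 = (2 * i + 3) + 1 by ring, Nat.factorial_succ,
        show 2 * i + 3 = (2 * i + 2) + 1 by ring, Nat.factorial_succ]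
    have g2 : (2 * (j + 1)).factorial = (2 * j + 2) * ((2 * j + 1) * (2 * j).factorial) := by
      rw [show 2 * (j + 1) = (2 * j + 1) + 1 by ring, Nat.factorial_succ, Nat.factorial_succ]
    have g3 : (i + 1 + j + 1).factorial = (i + j + 2) * ((i + j + 1) * (i + j).factorial) := by
      rw [show i + 1 + j + 1 = (i + j + 1) + 1 by ring, Nat.factorial_succ, Nat.factorial_succ]
    have g4 : (i + (j + 1) + 1).factorial = (i + j + 2) * ((i + j + 1) * (i + j).factorial) := by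
      rw [show i + (j + 1) + 1 = (i + j + 1) + 1 by ring, Nat.factorial_succ, Nat.factorial_succ]
    rw [g1, g2, g3, g4, Nat.factorial_succ (i + 1), Nat.factorial_succ i, Nat.factorial_succ j,
      Nat.factorial_succ (i + j)]
    push_cast
    rw [pow_succ]
    field_simp
    ring

lemma gd_nonneg (i j : ℕ) : 0 ≤ (-1) ^ i * gd i j := by
  rw [gd_formula, ← mul_assoc, ← mul_pow]
  norm_num
  positivity

/-- monotonicity: `|d_m(p, q)| ≤ d_m(2, -1)` -/
theorem abs_dm_le (m : ℕ) (hm : 1 ≤ m) (a l : ℝ) (ha : 1 ≤ |a|) (hl : |l| ≤ 2 * |a|) :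
    |dm (-(l / a)) (1 / a) m| ≤ cm 2 m := by
  obtain ⟨n, rfl⟩ : ∃ n, m = n + 1 := ⟨m - 1, by omega⟩
  obtain ⟨b, bn, bz, hb⟩ := exists_vp_expand (2 * n)
  have key : ∀ p q : ℝ, dm p q (n + 1)
      = ∑ i ∈ range (2 * n + 1), b i * p ^ (2 * n - 2 * i) * q ^ i * gd i (n - i) := by
    intro p q
    rw [dm, show 2 * (n + 1) - 2 = 2 * n by omega, show n + 1 - 1 = n by omega, hb p q,
      finsetSum_coeff, finsetSum_coeff, ← sum_sub_distrib]
    refine sum_congr rfl fun i _ => ?_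
    rcases lt_or_ge (2 * n) (2 * i) with h | h
    · rw [bz i h]; simp
    · have h1 : 2 * n - 2 * i = 2 * (n - i) := by omega
      have h2 : i + (n - i) = n := by omega
      rw [coeff_C_mul, coeff_C_mul, ← mul_sub, gd, h2, h1]
  rw [← dm_neg_one, key, key]
  refine (abs_sum_le_sum_abs _ _).trans (sum_le_sum fun i _ => ?_)
  rcases lt_or_ge (2 * n) (2 * i) with h | h
  · rw [bz i h]; simp
  have hg := gd_nonneg i (n - i)
  have h1 : 2 * n - 2 * i = 2 * (n - i) := by omega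
  have ha0 : 0 < |a| := by linarith
  have hgabs : |gd i (n - i)| = (-1) ^ i * gd i (n - i) := by
    rw [← abs_of_nonneg hg, abs_mul, abs_pow, abs_neg, abs_one, one_pow, one_mul]
  have e1 : |b i * (-(l / a)) ^ (2 * n - 2 * i) * (1 / a) ^ i * gd i (n - i)|
      = b i * ((|l| / |a|) ^ (2 * (n - i)) * (1 / |a|) ^ i) * ((-1) ^ i * gd i (n - i)) := by
    rw [abs_mul, hgabs, abs_mul, abs_mul, abs_of_nonneg (bn i), abs_pow, abs_neg, abs_div, abs_pow,
      abs_div, abs_one, h1]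
    ring
  have e2 : b i * 2 ^ (2 * n - 2 * i) * (-1 : ℝ) ^ i * gd i (n - i)
      = b i * (2 ^ (2 * (n - i)) * 1) * ((-1) ^ i * gd i (n - i)) := by
    rw [h1]; ring
  rw [e1, e2]
  refine mul_le_mul_of_nonneg_right (mul_le_mul_of_nonneg_left ?_ (bn i)) hg
  refine mul_le_mul ?_ ?_ (by positivity) (by positivity)
  · refine pow_le_pow_left₀ (by positivity) ?_ _
    rw [div_le_iff₀ ha0]; exact hl
  · refine pow_le_one₀ (by positivity) ?_
    rw [div_le_iff₀ ha0]; linarith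

/-- **endgame for `k = 4`**, `α = a` of any sign, `1 ≤ |a|`, `|l| ≤ 2|a|`. -/
theorem endgame_four_le {H : Type*} [CommRing H] [Algebra ℝ H] (m : ℕ) (hm1 : 1 ≤ m)
    (e w A B : H) (a l : ℝ) (I : H →ₗ[ℝ] ℝ) (h1 : e * w = A - B)
    (h2 : w ^ 2 = a • e ^ 2 + l • (A + B))
    (hA : A ^ (m + 1) = 0) (hB : B ^ (m + 1) = 0)
    (hI : I (e ^ 2 * (A ^ m * B ^ (m - 1))) = - I (e ^ 2 * (A ^ (m - 1) * B ^ m)))
    (hN : |I (w ^ (2 * m + 1) * e ^ (2 * m - 1))| ≤ 2 * ((2 * m).choose m : ℝ))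
    (ha : 1 ≤ |a|) (hla : |l| ≤ 2 * |a|) :
    |I (w * e ^ (4 * m - 1))| ≤ 4 * i0 2 (2 * m) := by
  have ha0 : a ≠ 0 := by
    rintro rfl
    rw [abs_zero] at ha
    linarith
  obtain ⟨c, rfl⟩ : ∃ c, m = c + 1 := ⟨m - 1, by omega⟩
  set v : ℝ := I (e ^ 2 * (A ^ (c + 1) * B ^ (c + 1 - 1))) with hv
  have hz0 : (A - B) ^ 2 = a • (e ^ 2) ^ 2 + l • (e ^ 2 * (A + B)) := by
    rw [← h1, mul_pow, h2]
    simp only [Algebra.smul_def]
    ring
  have hz : (e ^ 2) ^ 2 = (-(l / a)) • (e ^ 2 * (A + B)) + (1 / a) • (A - B) ^ 2 := by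
    rw [hz0]
    simp only [smul_add, smul_smul, neg_smul]
    rw [one_div, inv_mul_cancel₀ ha0, one_smul, show a⁻¹ * l = l / a by ring]
    abel
  have g1 := sub_mul_z_pow' A B (-(l / a)) (1 / a) (c + 1) hm1 (e ^ 2) hA hB hz
  have g2 := sub_pow_mul_z A B (c + 1) hm1 (e ^ 2) hA hB
  have k1 : w * e ^ (4 * (c + 1) - 1) = (A - B) * (e ^ 2) ^ (2 * (c + 1) - 1) := by
    rw [← h1, ← pow_mul]
    have : 4 * (c + 1) - 1 = 1 + 2 * (2 * (c + 1) - 1) := by omega
    rw [this, pow_add]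
    ring
  have k3 : I (e ^ 2 * (A ^ (c + 1) * B ^ (c + 1 - 1)) -
      e ^ 2 * (A ^ (c + 1 - 1) * B ^ (c + 1))) = 2 * v := by
    rw [map_sub]
    linarith [hI]
  have k4 : w ^ (2 * (c + 1) + 1) * e ^ (2 * (c + 1) - 1)
      = a • ((A - B) ^ (2 * (c + 1) - 1) * e ^ 2)
        + l • ((A - B) ^ (2 * (c + 1) - 1) * (A + B)) := by
    have : w ^ (2 * (c + 1) + 1) * e ^ (2 * (c + 1) - 1)
        = (e * w) ^ (2 * (c + 1) - 1) * w ^ 2 := by
      rw [show 2 * (c + 1) + 1 = (2 * (c + 1) - 1) + 2 by omega]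
      ring
    rw [this, h1, h2]
    simp only [Algebra.smul_def]
    ring
  have k5 : (A - B) ^ (2 * (c + 1) - 1) * (A + B) = 0 := by
    have h3 : (A + B) * (A - B) ^ (2 * (c + 1) - 1) = hm A B (2 * (c + 1))
        ((1 + X) * (1 - X) ^ (2 * (c + 1) - 1)) := by
      rw [← hm_pow, show 2 * (c + 1) = (2 * (c + 1) - 1) + 1 by omega,
        show (2 * (c + 1) - 1) + 1 - 1 = 2 * (c + 1) - 1 by omega]
      rw [hm_one_add A B _ _ ?_]
      refine natDegree_pow_le.trans ?_
      have : ((1 - X) : ℝ[X]).natDegree ≤ 1 := by compute_degree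
      nlinarith
    rw [mul_comm, h3, hm_trunc_even A B _ hA hB]
    have h4 : ((1 + X) * (1 - X) ^ (2 * (c + 1) - 1) : ℝ[X]).coeff (c + 1) = 0 := by
      have hcoef : ∀ j, ((1 - X) ^ (2 * (c + 1) - 1) : ℝ[X]).coeff j
          = (-1) ^ j * ((2 * (c + 1) - 1).choose j : ℝ) := coeff_one_sub_X_pow _
      rw [add_mul, one_mul, coeff_add, coeff_X_mul, hcoef, hcoef, pow_succ]
      have : (2 * (c + 1) - 1).choose (c + 1) = (2 * (c + 1) - 1).choose c := by
        rw [show 2 * (c + 1) - 1 = 2 * c + 1 by omega]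
        exact Nat.choose_symm_half c
      rw [this]
      ring
    rw [h4, zero_smul]
  have k6 : I (w ^ (2 * (c + 1) + 1) * e ^ (2 * (c + 1) - 1))
      = a * (((-1 : ℝ) ^ (c + 1 - 1) * ((2 * (c + 1) - 1).choose (c + 1) : ℝ)) * (2 * v)) := by
    rw [k4, k5, smul_zero, add_zero, map_smul, g2, map_smul, k3]
    rfl
  have k7 : I (w * e ^ (4 * (c + 1) - 1)) = dm (-(l / a)) (1 / a) (c + 1) * (2 * v) := by
    rw [k1, g1, map_smul, k3]
    rfl
  have hch : ((2 * (c + 1)).choose (c + 1) : ℝ) = 2 * ((2 * (c + 1) - 1).choose (c + 1) : ℝ) := by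
    rw [show 2 * (c + 1) - 1 = 2 * c + 1 by omega, show 2 * (c + 1) = (2 * c + 1) + 1 by ring,
      Nat.choose_succ_succ]
    have : (2 * c + 1).choose c = (2 * c + 1).choose (c + 1) := (Nat.choose_symm_half c).symm
    rw [this]
    push_cast
    ring
  have hcp : (0 : ℝ) < ((2 * (c + 1) - 1).choose (c + 1) : ℝ) := by
    exact_mod_cast Nat.choose_pos (by omega)
  have hvle : |a| * |v| ≤ 2 := by
    rw [k6, abs_mul, abs_mul, abs_mul, abs_mul, abs_pow, abs_neg, abs_one, one_pow, one_mul,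
      abs_of_pos hcp, hch] at hN
    rw [abs_of_pos (by norm_num : (0 : ℝ) < 2)] at hN
    have : ((2 * (c + 1) - 1).choose (c + 1) : ℝ) * (|a| * |v|)
        ≤ ((2 * (c + 1) - 1).choose (c + 1) : ℝ) * 2 := by linarith
    exact le_of_mul_le_mul_left this hcp
  have hv2 : |v| ≤ 2 := by
    have : 1 * |v| ≤ |a| * |v| := mul_le_mul_of_nonneg_right ha (abs_nonneg v)
    linarith
  rw [k7, abs_mul, abs_mul, abs_of_pos (by norm_num : (0 : ℝ) < 2)]
  have hd := abs_dm_le (c + 1) (by omega) a l ha hla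
  have hc2 : cm 2 (c + 1) = i0 2 (2 * (c + 1)) := i0_two_eq (c + 1) (by omega)
  rw [← hc2]
  have hc0 : 0 ≤ cm 2 (c + 1) := (abs_nonneg _).trans hd
  calc |dm (-(l / a)) (1 / a) (c + 1)| * (2 * |v|) ≤ cm 2 (c + 1) * (2 * 2) :=
        mul_le_mul hd (by linarith) (by positivity) hc0
    _ = 4 * cm 2 (c + 1) := by ring

/-- the arithmetic: `α = c² - λ(2x+c) ≠ 0`, `|λ| ≤ 5` imply `|λ| ≤ 2|α|`. -/
theorem arith_four (l c x a : ℤ) (hl : |l| ≤ 5) (ha : a = c ^ 2 - l * (2 * x + c)) (h0 : a ≠ 0) :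
    1 ≤ |a| ∧ |l| ≤ 2 * |a| := by
  have h1 : 1 ≤ |a| := Int.one_le_abs h0
  refine ⟨h1, ?_⟩
  by_contra hcon
  push Not at hcon
  have h2 : |a| ≤ 2 := by omega
  have hl' := abs_le.1 hl
  have ha' := abs_le.1 h2
  obtain ⟨l1, l2⟩ := hl'
  obtain ⟨a1, a2⟩ := ha'
  have m8 := congrArg (Int.cast : ℤ → ZMod 8) ha
  have m5 := congrArg (Int.cast : ℤ → ZMod 5) ha
  push_cast at m8 m5
  generalize (c : ZMod 8) = c8 at m8
  generalize (x : ZMod 8) = x8 at m8
  generalize (c : ZMod 5) = c5 at m5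
  generalize (x : ZMod 5) = x5 at m5
  clear ha hl h2 h1
  interval_cases l <;> interval_cases a <;>
    first
    | (exfalso; revert hcon; decide)
    | (exfalso; revert h0; decide)
    | (exfalso; revert c8 x8; push_cast; decide)
    | (exfalso; revert c5 x5; push_cast; decide)

end Crest.Agent.R208.NU
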