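import Crest.Agent.R208.ZG1
import Crest.Agent.R208.NU5

/-!
R208, ZG3 (helper385): `Vol4Stmt` and `Vol2Stmt` from the algebra of the manifold of geodesics.
-/

set_option autoImplicit false

open MeasureTheory Measure Set Filter Topology Module Metric
open scoped ContDiff RealInnerProductSpace ENNReal
open Crest.GeometryTopology.Submanifold
open Crest.Agent.R241.DDefs
open Crest.Agent.R241.D2
open Crest.Agent.R208.L (US cst)
open Crest.Agent.R208.LB (oUS)
open Crest.Agent.R208.FI (J)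

noncomputable section

namespace Crest.Agent.R208.ZG

/-- The inputs of `Vol4Stmt` for one manifold (`k = 4`, `n = 4 m`).  `H` = cohomology of the closed
manifold `Y = S(N)/S¹` (`N` the rank 3 negative bundle over the manifold of geodesics `B`), `e` the
class of the circle bundle, `w` the vertical Euler class, `A`, `B` the classes of the two
contractions, `I` the integral over `Y` (normalised). -/
structure In4 {n N : ℕ} {κ : ℝ} {S : Set (Euc N)} (G : Geo n N κ S) (m : ℕ) where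
  H : Type
  [rg : CommRing H]
  [al : Algebra ℝ H]
  e : H
  w : H
  A : H
  B : H
  a : ℝ
  l : ℝ
  I : H →ₗ[ℝ] ℝ
  h1 : e * w = A - B
  h2 : w ^ 2 = a • e ^ 2 + l • (A + B)
  hA : A ^ (m + 1) = 0
  hB : B ^ (m + 1) = 0
  hI : I (e ^ 2 * (A ^ m * B ^ (m - 1))) = -I (e ^ 2 * (A ^ (m - 1) * B ^ m))
  hN : |I (w ^ (2 * m + 1) * e ^ (2 * m - 1))| ≤ 2 * ((2 * m).choose m : ℝ)
  ha : 1 ≤ |a|
  hla : |l| ≤ 2 * |a|
  vol : J (2 * n - 1) (US G) (oUS n N) (oUS n N) ≤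
    (2 * Real.pi) ^ n * (|I (w * e ^ (4 * m - 1))| / 2)

/-- **(Z3)** from its inputs -/
theorem vol4_of (h : ∀ (n N : ℕ) (κ : ℝ) (S : Set (Euc N)) (G : Geo n N κ S), GT.Bla G 4 →
    ∀ m : ℕ, 2 ≤ m → n = 4 * m → Nonempty (In4 G m)) : Vol4Stmt := by
  intro n N κ S G hG m hm hnm
  obtain ⟨D⟩ := h n N κ S G hG m hm hnm
  letI := D.rg
  letI := D.al
  have h1 := NU.endgame_four_le m (by omega) D.e D.w D.A D.B D.a D.l D.I D.h1 D.h2 D.hA D.hB D.hI
    D.hN D.ha D.hla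
  refine D.vol.trans (mul_le_mul_of_nonneg_left ?_ (by positivity))
  linarith

/-- **(Z2)** from its inputs: `427`'s formula with an integer `N`, `|N| ≤ 1`. -/
theorem vol2_of (h : ∀ (n N : ℕ) (κ : ℝ) (S : Set (Euc N)) (G : Geo n N κ S), GT.Bla G 2 →
    ∀ m : ℕ, 2 ≤ m → n = 2 * m → ∃ N₀ : ℝ, |N₀| ≤ 1 ∧
      |J (2 * n - 1) (US G) (oUS n N) (oUS n N)| ≤
        (2 * Real.pi) ^ n * (((2 * m).choose m : ℝ) * N₀ ^ 2)) : Vol2Stmt := by
  intro n N κ S G hG m hm hnm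
  obtain ⟨N₀, h1, h2⟩ := h n N κ S G hG m hm hnm
  refine (le_abs_self _).trans (h2.trans (mul_le_mul_of_nonneg_left ?_ (by positivity)))
  have h3 : N₀ ^ 2 ≤ 1 := by
    rw [← sq_abs]
    exact pow_le_one₀ (abs_nonneg _) h1
  calc ((2 * m).choose m : ℝ) * N₀ ^ 2 ≤ ((2 * m).choose m : ℝ) * 1 :=
        mul_le_mul_of_nonneg_left h3 (by positivity)
    _ = _ := mul_one _

/-- **(Z4)** from `221`'s endgame: the contact volume is `(2π)^16 · 2 |i|`. -/
theorem vol8_of (h : ∀ (N : ℕ) (κ : ℝ) (S : Set (Euc N)) (G : Geo 16 N κ S), GT.Bla G 8 →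
    ∃ i : ℝ, |i| ≤ 39 ∧ J 31 (US G) (oUS 16 N) (oUS 16 N) ≤ (2 * Real.pi) ^ 16 * (2 * |i|)) :
    Vol8Stmt := by
  intro N κ S G hG
  obtain ⟨i, h1, h2⟩ := h N κ S G hG
  refine h2.trans (mul_le_mul_of_nonneg_left ?_ (by positivity))
  linarith

end Crest.Agent.R208.ZG
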