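import Crest.Agent.R208.KX4
import Crest.Agent.R208.KX5
import Crest.Agent.R208.TX10
import Crest.Agent.R208.XF0
import Crest.Agent.R208.ZG3

/-! Row 208, `k = 2` (helper427), part KX6: the bound from the two values. -/

set_option autoImplicit false
set_option linter.unusedSectionVars false
set_option linter.unusedVariables false

open MeasureTheory Set Filter Topology Module
open scoped ContDiff RealInnerProductSpace
open Crest.GeometryTopology.Submanifold
open Crest.Agent.R241.DDefs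
open Crest.Agent.R241.D2
open Crest.Agent.R208.F Crest.Agent.R208.FI Crest.Agent.R208.CW Crest.Agent.R208.T
open Crest.Agent.R208.NN Crest.Agent.R208.NB
open Crest.Agent.R208.RR Crest.Agent.R208.RRC
open Crest.Agent.R208.LB (al oUS dal)

noncomputable section

namespace Crest.Agent.R208.KX

variable {n N : ℕ} {κ : ℝ} {S : Set (Euc N)} {G : Geo n N κ S} {z : Euc N × Euc N}
  {W : Euc N × Euc N → (Unit × Fin 2 → Fin N) → ℝ} {m : ℕ} {p : Euc N}
  {x oS : Euc N → Ext (Euc N)}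

/-- **`k = 2`, the volume from the two values** -/
theorem vol2_XM {h : GT.Bla G 2} (D : T.XM h m W p x) (hoS : Ori n S oS)
    (hz : z ∈ L.US G) (hO : Clo 1 (L.US G ∩ FV.phi G ⁻¹' {FV.phi G z}))
    {o : Euc N × Euc N → Ext (Euc N × Euc N)}
    (ho : Ori 1 (L.US G ∩ FV.phi G ⁻¹' {FV.phi G z}) o)
    (hτ : |J 1 (L.US G ∩ FV.phi G ⁻¹' {FV.phi G z}) o (K (F.pull (EE G) x))| = XF.tau Unit)
    (hJ : |J n S oS (x ^ m)| ≤ XF.tau Unit ^ m) :
    ∃ N₀ : ℝ, |N₀| ≤ 1 ∧ |J (2 * n - 1) (L.US G) (oUS n N) (oUS n N)| ≤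
      (2 * Real.pi) ^ n * (((2 * m).choose m : ℝ) * N₀ ^ 2) := by
  have hτ0 : 0 < XF.tau Unit := XF.tau_pos Unit
  have hπ := Real.pi_pos
  obtain ⟨c, hc1, hc2⟩ := core h D.hm (by have := D.hn; omega) D.hW D.sx D.cx D.dx hoS D.hm_zero'
  have h1 := orbit_value h D.hW hz hO ho (Sm.K (D.sx.pull smap_EE)) hc1
  rw [hτ] at h1
  have hc0 : c ≠ 0 := by
    rintro rfl
    rw [mul_zero, abs_zero] at h1
    exact hτ0.ne' h1
  have h2 := hc2 hc0
  refine ⟨J n S oS (x ^ m) / XF.tau Unit ^ m, ?_, le_of_eq ?_⟩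
  · rw [abs_div, abs_of_pos (pow_pos hτ0 m)]
    exact div_le_one_of_le₀ hJ (pow_pos hτ0 m).le
  · have h3 : XF.tau Unit ^ (2 * m) = (2 * Real.pi) ^ (2 * m) * c ^ (2 * m) := by
      rw [h1, (even_two_mul m).pow_abs, mul_pow]
    have hn : n = 2 * m := by have := D.hn; omega
    have hcp : c ^ (2 * m) ≠ 0 := pow_ne_zero _ hc0
    have h4 : |J (2 * n - 1) (L.US G) (oUS n N) (oUS n N)| =
        ((2 * m).choose m : ℝ) * (J n S oS (x ^ m)) ^ 2 / c ^ (2 * m) := by
      rw [eq_div_iff hcp, mul_comm]; exact h2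
    have h5 : (2 * Real.pi) ^ (2 * m) ≠ 0 := pow_ne_zero _ (by positivity)
    have h6 : (XF.tau Unit ^ m) ^ 2 = (2 * Real.pi) ^ (2 * m) * c ^ (2 * m) := by
      rw [← h3, ← pow_mul, mul_comm m 2]
    have hpn : (2 * Real.pi) ^ n = (2 * Real.pi) ^ (2 * m) := by rw [← hn]
    rw [h4, div_pow, h6, hpn]
    field_simp

end Crest.Agent.R208.KX
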