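import Crest.Agent.R208.KX6
import Crest.Agent.R208.TX9

/-! Row 208, `k = 2` (helper427), part KX7: `Vol2Stmt` from the two values. -/

set_option autoImplicit false
set_option linter.unusedSectionVars false
set_option linter.unusedVariables false

open MeasureTheory Set Filter Topology Module
open scoped ContDiff RealInnerProductSpace
open Crest.GeometryTopology.Submanifold
open Crest.Agent.R241.DDefs
open Crest.Agent.R241.D2
open Crest.Agent.R208.F Crest.Agent.R208.FI Crest.Agent.R208.CW Crest.Agent.R208.T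
open Crest.Agent.R208.NN Crest.Agent.R208.NB
open Crest.Agent.R208.RR Crest.Agent.R208.RRC
open Crest.Agent.R208.LB (al oUS dal)

noncomputable section

namespace Crest.Agent.R208.KX

variable {n N k : ℕ} {κ : ℝ} {S : Set (Euc N)} {G : Geo n N κ S} {z : Euc N × Euc N}

theorem phi_fibre_eq (hz : z ∈ L.US G) :
    L.US G ∩ NB.ph G ⁻¹' {NB.ph G z} = L.US G ∩ FV.phi G ⁻¹' {FV.phi G z} := by
  ext y
  constructor
  · rintro ⟨hy, hy'⟩
    refine ⟨hy, ?_⟩
    change FV.phi G y = FV.phi G z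
    rw [ph_eq hy, ph_eq hz]; exact hy'
  · rintro ⟨hy, hy'⟩
    refine ⟨hy, ?_⟩
    change NB.ph G y = NB.ph G z
    rw [← ph_eq hy, ← ph_eq hz]; exact hy'

/-- the fibres of `US → F` are closed and orientable -/
theorem exists_fib (h : GT.Bla G k) (hk : 2 ≤ k) (hkn : k < n) :
    ∃ o : Euc N × Euc N → Ext (Euc N × Euc N), ∀ z : Euc N × Euc N,
      Clo (k - 1) (L.US G ∩ FV.phi G ⁻¹' {FV.phi G z}) ∧
      Ori (k - 1) (L.US G ∩ FV.phi G ⁻¹' {FV.phi G z}) o := by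
  obtain ⟨oS, hoS, -, hdS⟩ := GP.exists_ori h.bl h.ty hk
  obtain ⟨w, -, hwd, -, hF⟩ := SB.exists_osubm_F h hk hkn hoS hdS
  have hoF := hF.tot
  obtain ⟨oW, -, -, hW⟩ := SB.exists_osubm_phi h hk hkn (d := n - k + n) (by omega) hoF
    (fun x => isDeg_mul ((hwd x).pb _) ((hdS _).pb _))
  exact ⟨oW, fun z => ⟨hW.subm.clo_fibre _, hW.fib _⟩⟩

/-- **`Vol2Stmt` from the two values** -/
theorem vol2_of_values
    (hF : ∀ (n N : ℕ) (κ : ℝ) (S : Set (Euc N)) (G : Geo n N κ S) (h : GT.Bla G 2)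
      (W : Euc N × Euc N → (Unit × Fin 2 → Fin N) → ℝ) (m : ℕ) (p : Euc N)
      (x : Euc N → Ext (Euc N)), T.XM h m W p x → ∀ z ∈ L.US G,
      ∀ o : Euc N × Euc N → Ext (Euc N × Euc N),
      Ori 1 (L.US G ∩ FV.phi G ⁻¹' {FV.phi G z}) o →
      |J 1 (L.US G ∩ FV.phi G ⁻¹' {FV.phi G z}) o (K (F.pull (EE G) x))| = XF.tau Unit)
    (hS : ∀ (n N : ℕ) (κ : ℝ) (S : Set (Euc N)) (G : Geo n N κ S) (h : GT.Bla G 2)
      (W : Euc N × Euc N → (Unit × Fin 2 → Fin N) → ℝ) (m : ℕ) (p : Euc N)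
      (x : Euc N → Ext (Euc N)), T.XM h m W p x → ∀ oS : Euc N → Ext (Euc N),
      Ori n S oS → |J n S oS (x ^ m)| ≤ XF.tau Unit ^ m) : ZG.Vol2Stmt := by
  refine ZG.vol2_of fun n N κ S G h m hm hn => ?_
  have hkn : 2 < n := by omega
  obtain ⟨W, hW⟩ := T.exists_OR_FF (ι := Unit) h le_rfl (by omega) (by simp)
  obtain ⟨p, hp⟩ : S.Nonempty := by
    obtain ⟨z, hz⟩ := FV.nonempty_FF h.bl h.ty
    exact ⟨z.1, hz.1⟩
  obtain ⟨m', x, D⟩ := T.exists_XM h le_rfl hkn (by simp) hW hp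
  obtain rfl : m' = m := by have := D.hn; omega
  obtain ⟨oS, hoS, -, hdS⟩ := GP.exists_ori h.bl h.ty le_rfl
  obtain ⟨z, hz⟩ := T.nonempty_UST h hp
  obtain ⟨o, ho⟩ := exists_fib h le_rfl hkn
  exact vol2_XM D hoS hz (ho z).1 (ho z).2 (hF n N κ S G h W m' p x D z hz o (ho z).2)
    (hS n N κ S G h W m' p x D oS hoS)

end Crest.Agent.R208.KX
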