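import Crest.Agent.R208.L1
import Crest.Agent.R241.AF3
import Crest.Agent.R241.D1

/-!
R208, block G4b, part 2 (helper971): Gaussian measures `gam V = exp(-π|v|²) dv`, their images under
orthogonal projections, Lebesgue measure on a subspace.
-/

set_option autoImplicit false
set_option linter.unusedSectionVars false

open MeasureTheory Measure Set Filter Topology Module
open scoped ContDiff RealInnerProductSpace ENNReal
open Crest.GeometryTopology.Submanifold
open Crest.Agent.R241.DDefs
open Crest.Agent.R241.D2
open Crest.Agent.R241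
open Crest.Agent.R241.AF (jac jac_nonneg jac_sq_gram finrank_Euc)

noncomputable section

namespace Crest.Agent.R208.L

section gauss

variable (V : Type*) [NormedAddCommGroup V] [InnerProductSpace ℝ V] [FiniteDimensional ℝ V]
  [MeasurableSpace V] [BorelSpace V]

/-- the Gaussian density -/
def gd {V : Type*} [NormedAddCommGroup V] (v : V) : ℝ≥0∞ :=
  ENNReal.ofReal (Real.exp (-Real.pi * ‖v‖ ^ 2))

omit [InnerProductSpace ℝ V] [FiniteDimensional ℝ V] in
lemma measurable_gd : Measurable (gd : V → ℝ≥0∞) := by
  unfold gd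
  fun_prop

/-- the Gaussian measure `exp(-π|v|²) dv` -/
def gam : Measure V := volume.withDensity gd

variable {V}

lemma integrable_gauss : Integrable (fun v : V => Real.exp (-Real.pi * ‖v‖ ^ 2)) := by
  by_contra h
  have h1 := integral_undef h
  rw [GaussianFourier.integral_rexp_neg_mul_sq_norm Real.pi_pos, div_self Real.pi_ne_zero,
    Real.one_rpow] at h1
  exact one_ne_zero h1

lemma lintegral_gd : ∫⁻ v : V, gd v = 1 := by
  unfold gd
  rw [← ofReal_integral_eq_lintegral_ofReal integrable_gauss
    (Eventually.of_forall fun v => (Real.exp_pos _).le),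
    GaussianFourier.integral_rexp_neg_mul_sq_norm Real.pi_pos, div_self Real.pi_ne_zero,
    Real.one_rpow, ENNReal.ofReal_one]

instance : IsProbabilityMeasure (gam V) := ⟨by
  unfold gam
  rw [withDensity_apply _ MeasurableSet.univ, setLIntegral_univ, lintegral_gd]⟩

lemma charFun_gam (t : V) : charFun (gam V) t = Complex.exp (-(‖t‖ ^ 2 : ℝ) / (4 * Real.pi)) := by
  have h1 := GaussianFourier.integral_cexp_neg_mul_sq_norm_add (V := V) (b := (Real.pi : ℂ))
    (by simpa using Real.pi_pos) Complex.I t
  rw [div_self (by exact_mod_cast Real.pi_ne_zero), Complex.one_cpow, one_mul, Complex.I_sq] at h1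
  rw [charFun_apply, gam, integral_withDensity_eq_integral_toReal_smul (measurable_gd V)
    (Eventually.of_forall fun v => by simp [gd])]
  have h2 : ∀ v : V, (gd v).toReal • Complex.exp ((⟪v, t⟫ : ℝ) * Complex.I) =
      Complex.exp (-(Real.pi : ℂ) * (‖v‖ : ℂ) ^ 2 + Complex.I * ((⟪t, v⟫ : ℝ) : ℂ)) := by
    intro v
    unfold gd
    rw [ENNReal.toReal_ofReal (Real.exp_pos _).le, Complex.exp_add, Complex.real_smul,
      Complex.ofReal_exp, real_inner_comm]
    push_cast
    ring_nf
  calc ∫ v : V, (gd v).toReal • Complex.exp ((⟪v, t⟫ : ℝ) * Complex.I)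
      = ∫ v : V, Complex.exp (-(Real.pi : ℂ) * (‖v‖ : ℂ) ^ 2 + Complex.I * ((⟪t, v⟫ : ℝ) : ℂ)) :=
        integral_congr_ae (Eventually.of_forall h2)
    _ = Complex.exp (-1 * (‖t‖ : ℂ) ^ 2 / (4 * (Real.pi : ℂ))) := h1
    _ = _ := by
      congr 1
      push_cast
      ring

variable {W : Type*} [NormedAddCommGroup W] [InnerProductSpace ℝ W] [FiniteDimensional ℝ W]
  [MeasurableSpace W] [BorelSpace W]

lemma charFun_map_gam (A : V →L[ℝ] W) {A' : W → V} (hA : ∀ x t, ⟪A x, t⟫ = ⟪x, A' t⟫) (t : W) :
    charFun (Measure.map A (gam V)) t = charFun (gam V) (A' t) := by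
  rw [charFun_apply, charFun_apply, integral_map A.continuous.aemeasurable]
  · simp only [hA]
  · apply Continuous.aestronglyMeasurable
    fun_prop

/-- images of Gaussian measures under linear maps are determined by the norms of the adjoints -/
lemma map_gam_eq {V' : Type*} [NormedAddCommGroup V'] [InnerProductSpace ℝ V']
    [FiniteDimensional ℝ V'] [MeasurableSpace V'] [BorelSpace V'] (A : V →L[ℝ] W) (B : V' →L[ℝ] W)
    {A' : W → V} {B' : W → V'} (hA : ∀ x t, ⟪A x, t⟫ = ⟪x, A' t⟫)
    (hB : ∀ x t, ⟪B x, t⟫ = ⟪x, B' t⟫) (h : ∀ t, ‖A' t‖ = ‖B' t‖) :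
    Measure.map A (gam V) = Measure.map B (gam V') := by
  have : IsFiniteMeasure (Measure.map A (gam V)) := isFiniteMeasure_map _ _
  have : IsFiniteMeasure (Measure.map B (gam V')) := isFiniteMeasure_map _ _
  apply Measure.ext_of_charFun
  funext t
  rw [charFun_map_gam A hA, charFun_map_gam B hB, charFun_gam, charFun_gam, h]

end gauss

section linear

variable {U V : Type*} [NormedAddCommGroup U] [InnerProductSpace ℝ U] [FiniteDimensional ℝ U]
  [NormedAddCommGroup V] [InnerProductSpace ℝ V] [FiniteDimensional ℝ V]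
  [MeasurableSpace U] [BorelSpace U] [MeasurableSpace V] [BorelSpace V]

omit [MeasurableSpace U] [BorelSpace U] [MeasurableSpace V] [BorelSpace V] in
lemma jac_isometry (A : U →L[ℝ] V) (hA : ∀ v w, ⟪A v, A w⟫ = ⟪v, w⟫) : jac A = 1 := by
  have h := jac_sq_gram A (stdOrthonormalBasis ℝ U)
  have h1 : (Matrix.of fun i j => inner ℝ (A (stdOrthonormalBasis ℝ U i))
      (A (stdOrthonormalBasis ℝ U j))) = 1 := by
    ext i j
    rw [Matrix.of_apply, hA, Matrix.one_apply]
    exact orthonormal_iff_ite.1 (stdOrthonormalBasis ℝ U).orthonormal i j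
  rw [h1, Matrix.det_one] at h
  exact (pow_eq_one_iff_of_nonneg (jac_nonneg A) two_ne_zero).1 h

/-- image of Lebesgue measure under a linear map -/
lemma map_smul_volume (B : U →L[ℝ] V) :
    Measure.map B (ENNReal.ofReal (jac B) • (volume : Measure U)) =
      μHE[finrank ℝ U].restrict (range B) := by
  ext s hs
  rw [map_apply B.continuous.measurable hs, Measure.smul_apply, smul_eq_mul,
    ← AF.muHE_linear_image, restrict_apply hs, image_preimage_eq_inter_range]

/-- image of a weighted Lebesgue measure under a linear map -/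
lemma map_withDensity_linear (B : U →L[ℝ] V) {h : V → ℝ≥0∞} (hh : Measurable h) :
    Measure.map B ((volume : Measure U).withDensity fun y => ENNReal.ofReal (jac B) * h (B y)) =
      (μHE[finrank ℝ U].restrict (range B)).withDensity h := by
  rw [← map_smul_volume]
  ext s hs
  rw [map_apply B.continuous.measurable hs, withDensity_apply _ (B.continuous.measurable hs),
    withDensity_apply _ hs, setLIntegral_map hs hh B.continuous.measurable,
    lintegral_const_mul' _ _ ENNReal.ofReal_ne_top, Measure.restrict_smul,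
    lintegral_smul_measure]
  rfl

end linear

section fibre

variable {n N : ℕ}

/-- Lebesgue measure on the image of a linear map, Gaussian version -/
lemma map_starProjection_gam (T : Submodule ℝ (Euc N)) (B : Euc n →L[ℝ] Euc N)
    (hB : range B = (T : Set (Euc N))) (A : Euc n →L[ℝ] Euc N)
    (hA : ∀ v w, ⟪A v, A w⟫ = ⟪v, w⟫) (hAT : range A = (T : Set (Euc N))) :
    Measure.map T.starProjection (gam (Euc N)) =
      Measure.map B ((volume : Measure (Euc n)).withDensity fun y =>
        ENNReal.ofReal (jac B) * gd (B y)) := by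
  have h1 : Measure.map T.starProjection (gam (Euc N)) = Measure.map A (gam (Euc n)) := by
    refine map_gam_eq T.starProjection A (A' := T.starProjection)
      (B' := ContinuousLinearMap.adjoint A)
      (fun x t => Submodule.inner_starProjection_left_eq_right _ _ _)
      (fun x t => (ContinuousLinearMap.adjoint_inner_right A x t).symm) fun t => ?_
    have h2 : T.starProjection t = A (ContinuousLinearMap.adjoint A t) := by
      apply Submodule.eq_starProjection_of_mem_of_inner_eq_zero
      · have : A (ContinuousLinearMap.adjoint A t) ∈ (T : Set (Euc N)) := by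
          rw [← hAT]; exact ⟨_, rfl⟩
        exact this
      · intro w hw
        have hw' : w ∈ (T : Set (Euc N)) := hw
        rw [← hAT] at hw'
        obtain ⟨y, rfl⟩ := hw'
        rw [inner_sub_left, hA, ← ContinuousLinearMap.adjoint_inner_left, sub_self]
    rw [h2]
    have h3 : ‖A (ContinuousLinearMap.adjoint A t)‖ ^ 2 =
        ‖ContinuousLinearMap.adjoint A t‖ ^ 2 := by
      rw [← real_inner_self_eq_norm_sq, ← real_inner_self_eq_norm_sq, hA]
    exact (sq_eq_sq₀ (norm_nonneg _) (norm_nonneg _)).1 h3
  have h4 : gam (Euc n) = (volume : Measure (Euc n)).withDensity fun y =>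
        ENNReal.ofReal (jac A) * gd (A y) := by
    unfold gam
    congr 1
    funext y
    have h5 : ‖A y‖ = ‖y‖ := by
      have h3 : ‖A y‖ ^ 2 = ‖y‖ ^ 2 := by
        rw [← real_inner_self_eq_norm_sq, ← real_inner_self_eq_norm_sq, hA]
      exact (sq_eq_sq₀ (norm_nonneg _) (norm_nonneg _)).1 h3
    unfold gd
    rw [jac_isometry A hA, ENNReal.ofReal_one, one_mul, h5]
  rw [h1, h4, map_withDensity_linear A (measurable_gd _), map_withDensity_linear B
    (measurable_gd _), hB, hAT]

end fibre

end Crest.Agent.R208.L
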