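import Crest.Agent.R208.L2

/-!
R208, block G4b, part 3 (helper971): the Gaussian Liouville measure `Lg` on the tangent bundle and its
density in charts.
-/

set_option autoImplicit false
set_option linter.unusedSectionVars false

open MeasureTheory Measure Set Filter Topology Module
open scoped ContDiff RealInnerProductSpace ENNReal
open Crest.GeometryTopology.Submanifold
open Crest.Agent.R241.DDefs
open Crest.Agent.R241.D2
open Crest.Agent.R241
open Crest.Agent.R241.AF (jac jac_nonneg jac_sq_gram finrank_Euc)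

noncomputable section

namespace Crest.Agent.R208.L

variable {n N : ℕ} {κ : ℝ} {S : Set (Euc N)} (G : Geo n N κ S)

/-- Lebesgue measure on `S` -/
def volS (n N : ℕ) (S : Set (Euc N)) : Measure (Euc N) := μHE[n].restrict S

/-- the map `(p, z) ↦ (p, P_p z)` -/
def prj (z : Euc N × Euc N) : Euc N × Euc N := (z.1, G.P z.1 z.2)

lemma continuous_prj : Continuous (prj G) :=
  continuous_fst.prodMk ((G.contDiff_P.continuous.comp continuous_fst).clm_apply continuous_snd)

lemma measurable_prj : Measurable (prj G) := (continuous_prj G).measurable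

lemma prj_mem {z : Euc N × Euc N} (hz : z.1 ∈ S) : prj G z ∈ TS G := ⟨hz, P_mem G hz⟩

/-- **the Gaussian Liouville measure** on the tangent bundle, as a measure on `ℝ^N × ℝ^N` -/
def Lg : Measure (Euc N × Euc N) := Measure.map (prj G) ((volS n N S).prod (gam (Euc N)))

lemma lintegral_Lg {F : Euc N × Euc N → ℝ≥0∞} (hF : Measurable F) :
    ∫⁻ q, F q ∂(Lg G) = ∫⁻ p in S, ∫⁻ z, F (p, G.P p z) ∂(gam (Euc N)) ∂μHE[n] := by
  unfold Lg
  rw [lintegral_map hF (measurable_prj G)]
  exact lintegral_prod _ (hF.comp (measurable_prj G)).aemeasurable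

lemma Lg_apply {A : Set (Euc N × Euc N)} (hA : MeasurableSet A) :
    Lg G A = ∫⁻ p in S, gam (Euc N) {z | (p, G.P p z) ∈ A} ∂μHE[n] := by
  unfold Lg
  rw [map_apply (measurable_prj G) hA, prod_apply (measurable_prj G hA)]
  rfl

/-- the Gaussian measure of a fibre, in terms of a linear parametrisation of the fibre -/
lemma lintegral_fibre {p : Euc N} (hp : p ∈ S) (B : Euc n →L[ℝ] Euc N)
    (hB : range B = (G.T p : Set (Euc N))) {F : Euc N → ℝ≥0∞} (hF : Measurable F) :
    ∫⁻ z, F (G.P p z) ∂(gam (Euc N)) =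
      ∫⁻ y, ENNReal.ofReal (jac B) * gd (B y) * F (B y) := by
  -- an isometric frame
  let e : Euc n ≃ₗᵢ[ℝ] G.T p :=
    ((stdOrthonormalBasis ℝ (G.T p)).reindex (finCongr (G.finrank_T p hp))).repr.symm
  let A : Euc n →L[ℝ] Euc N := (G.T p).subtypeL.comp e.toContinuousLinearEquiv.toContinuousLinearMap
  have hA : ∀ v w, ⟪A v, A w⟫ = ⟪v, w⟫ := fun v w => e.inner_map_map v w
  have hAT : range A = (G.T p : Set (Euc N)) := by
    ext u
    constructor
    · rintro ⟨y, rfl⟩
      exact (e y).2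
    · intro hu
      refine ⟨e.symm ⟨u, hu⟩, ?_⟩
      show ((e (e.symm ⟨u, hu⟩) : G.T p) : Euc N) = u
      rw [LinearIsometryEquiv.apply_symm_apply]
  have h1 := map_starProjection_gam (G.T p) B hB A hA hAT
  rw [← G.P_eq p hp] at h1
  have h2 : ∫⁻ z, F (G.P p z) ∂(gam (Euc N)) = ∫⁻ u, F u ∂(Measure.map (G.P p) (gam (Euc N))) :=
    (lintegral_map hF (G.P p).continuous.measurable).symm
  rw [h2, h1, lintegral_map hF B.continuous.measurable]
  exact lintegral_withDensity_eq_lintegral_mul _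
    (((measurable_gd _).comp B.continuous.measurable).const_mul _)
    (hF.comp B.continuous.measurable)

section chart

variable {p0 : Euc N} {f : Euc n → Euc N} {V : Set (Euc n)}

/-- the chart of the tangent bundle -/
def Fc (f : Euc n → Euc N) (z : Euc n × Euc n) : Euc N × Euc N := (f z.1, fderiv ℝ f z.1 z.2)

/-- the density of `Lg` in a chart -/
def rho (f : Euc n → Euc N) (z : Euc n × Euc n) : ℝ≥0∞ :=
  ENNReal.ofReal (jac (fderiv ℝ f z.1) ^ 2) * gd (fderiv ℝ f z.1 z.2)

lemma measurable_fderiv_apply (f : Euc n → Euc N) :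
    Measurable (fun z : Euc n × Euc n => fderiv ℝ f z.1 z.2) := by
  have h1 : Measurable (fun z : Euc n × Euc n => (fderiv ℝ f z.1, z.2)) :=
    ((measurable_fderiv ℝ f).comp measurable_fst).prodMk measurable_snd
  have h2 : Continuous (fun y : (Euc n →L[ℝ] Euc N) × Euc n => y.1 y.2) := by fun_prop
  exact h2.measurable.comp h1

lemma measurable_jac (f : Euc n → Euc N) : Measurable (fun x => jac (fderiv ℝ f x)) :=
  AF.continuous_jac.measurable.comp (measurable_fderiv ℝ f)

lemma measurable_rho (f : Euc n → Euc N) : Measurable (rho f) := by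
  unfold rho
  refine Measurable.mul ?_ ((measurable_gd _).comp (measurable_fderiv_apply f))
  exact ENNReal.measurable_ofReal.comp (((measurable_jac f).comp measurable_fst).pow_const 2)

lemma range_T (G : Geo n N κ S) (hT : ∀ p ∈ S, G.T p = D.Tan S p)
    (hf : IsLocalParam n N S p0 f V) {x : Euc n} (hx : x ∈ V) (hxS : f x ∈ S) :
    range (fderiv ℝ f x) = (G.T (f x) : Set (Euc N)) := by
  rw [hT _ hxS, ← D.range_fderiv_eq_Tan hf hx]
  rfl

lemma contDiffOn_Fc (hf : IsLocalParam n N S p0 f V) : ContDiffOn ℝ ∞ (Fc f) (V ×ˢ univ) := by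
  have h1 : ContDiffOn ℝ ∞ (fderiv ℝ f) V := hf.contDiffOn.fderiv_of_isOpen hf.isOpen (by simp)
  have h2 : ContDiffOn ℝ ∞ (fun z : Euc n × Euc n => f z.1) (V ×ˢ univ) :=
    ContDiffOn.comp (g := f) hf.contDiffOn contDiffOn_fst fun z hz => hz.1
  have h3 : ContDiffOn ℝ ∞ (fun z : Euc n × Euc n => fderiv ℝ f z.1) (V ×ˢ univ) :=
    ContDiffOn.comp (g := fderiv ℝ f) h1 contDiffOn_fst fun z hz => hz.1
  exact h2.prodMk (h3.clm_apply contDiffOn_snd)

lemma measurableSet_preimage_Fc (hf : IsLocalParam n N S p0 f V) {A : Set (Euc N × Euc N)}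
    (hA : MeasurableSet A) : MeasurableSet (Fc f ⁻¹' A ∩ V ×ˢ univ) := by
  classical
  have hV : MeasurableSet (V ×ˢ (univ : Set (Euc n))) := hf.isOpen.measurableSet.prod .univ
  obtain ⟨u, u_meas, uf⟩ : ∃ u, Measurable u ∧ EqOn u (Fc f) (V ×ˢ univ) := by
    refine ⟨piecewise (V ×ˢ univ) (Fc f) 0, ?_, piecewise_eqOn _ _ _⟩
    exact ContinuousOn.measurable_piecewise (contDiffOn_Fc hf).continuousOn
      continuous_zero.continuousOn hV
  have h1 : Fc f ⁻¹' A ∩ V ×ˢ univ = u ⁻¹' A ∩ V ×ˢ univ := by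
    ext x
    constructor
    · rintro ⟨h1, h2⟩; exact ⟨by rw [mem_preimage, uf h2]; exact h1, h2⟩
    · rintro ⟨h1, h2⟩; exact ⟨by rw [mem_preimage, ← uf h2]; exact h1, h2⟩
  rw [h1]
  exact (u_meas hA).inter hV

/-- **density of `Lg` in a chart** -/
theorem Lg_chart (hT : ∀ p ∈ S, G.T p = D.Tan S p) (hf : IsLocalParam n N S p0 f V)
    (hfS : ∀ x ∈ V, f x ∈ S) {A : Set (Euc N × Euc N)} (hA : MeasurableSet A)
    (hAV : ∀ q ∈ A, q ∈ TS G → q.1 ∈ f '' V) :
    Lg G A = ∫⁻ z in Fc f ⁻¹' A ∩ V ×ˢ univ, rho f z := by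
  classical
  have hVm : MeasurableSet V := hf.isOpen.measurableSet
  have hder : ∀ x ∈ V, HasFDerivWithinAt f (fderiv ℝ f x) V x := fun x hx =>
    ((hf.contDiffOn.contDiffAt (hf.isOpen.mem_nhds hx)).differentiableAt
      (by simp)).hasFDerivAt.hasFDerivWithinAt
  have hm : MeasurableSet (f '' V) := AF.measurable_image hVm hder hf.injOn
  have hsub : f '' V ⊆ S := by rintro _ ⟨x, hx, rfl⟩; exact hfS x hx
  rw [Lg_apply G hA]
  -- reduce to `f '' V`
  have h1 : ∫⁻ p in S, gam (Euc N) {z | (p, G.P p z) ∈ A} ∂μHE[n] =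
      ∫⁻ p in f '' V, gam (Euc N) {z | (p, G.P p z) ∈ A} ∂μHE[n] := by
    rw [← lintegral_inter_add_sdiff (fun p => gam (Euc N) {z | (p, G.P p z) ∈ A}) S hm,
      inter_eq_self_of_subset_right hsub]
    have h2 : ∫⁻ p in S \ f '' V, gam (Euc N) {z | (p, G.P p z) ∈ A} ∂μHE[n] = 0 := by
      rw [setLIntegral_congr_fun (g := fun _ => 0) (G.isClosed.measurableSet.diff hm)]
      · simp
      · intro p hp
        have : {z | (p, G.P p z) ∈ A} = ∅ := by
          ext z
          simp only [mem_ofPred_eq, mem_empty_iff_false, iff_false]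
          intro hz
          exact hp.2 (hAV _ hz ⟨hp.1, P_mem G hp.1⟩)
        simp only [this, measure_empty]
    rw [h2, add_zero]
  rw [h1]
  have h3 := AF.lintegral_image_eq hVm hder hf.injOn
    (fun p => gam (Euc N) {z | (p, G.P p z) ∈ A})
  rw [finrank_Euc] at h3
  rw [h3]
  -- the fibres
  set A' : Set (Euc n × Euc n) := Fc f ⁻¹' A ∩ V ×ˢ univ with hA'
  have hA'm : MeasurableSet A' := measurableSet_preimage_Fc hf hA
  have h4 : ∀ x ∈ V, ENNReal.ofReal (jac (fderiv ℝ f x)) *
      gam (Euc N) {z | (f x, G.P (f x) z) ∈ A} =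
      ∫⁻ y, A'.indicator (rho f) (x, y) := by
    intro x hx
    have hxm : Measurable (fun v : Euc N => A.indicator (fun _ => (1 : ℝ≥0∞)) (f x, v)) :=
      (measurable_const.indicator hA).comp measurable_prodMk_left
    have h5 := lintegral_fibre G (hfS x hx) (fderiv ℝ f x) (range_T G hT hf hx (hfS x hx)) hxm
    have h6 : ∫⁻ z, A.indicator (fun _ => (1 : ℝ≥0∞)) (f x, G.P (f x) z) ∂(gam (Euc N)) =
        gam (Euc N) {z | (f x, G.P (f x) z) ∈ A} := by
      have h7 : (fun z => A.indicator (fun _ => (1 : ℝ≥0∞)) (f x, G.P (f x) z)) =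
          {z | (f x, G.P (f x) z) ∈ A}.indicator 1 := by
        ext z
        simp only [indicator, mem_ofPred_eq, Pi.one_apply]
      rw [h7, lintegral_indicator_one]
      exact (measurable_prodMk_left.comp (G.P (f x)).continuous.measurable) hA
    rw [← h6, h5, ← lintegral_const_mul' _ _ ENNReal.ofReal_ne_top]
    refine lintegral_congr fun y => ?_
    by_cases hy : Fc f (x, y) ∈ A
    · have h8 : (x, y) ∈ A' := ⟨hy, hx, mem_univ _⟩
      rw [indicator_of_mem h8, indicator_of_mem (by exact hy : (f x, fderiv ℝ f x y) ∈ A),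
        mul_one, ← mul_assoc]
      unfold rho
      rw [sq, ENNReal.ofReal_mul (jac_nonneg _)]
    · have h8 : (x, y) ∉ A' := fun h => hy h.1
      rw [indicator_of_notMem h8, indicator_of_notMem
        (by exact hy : (f x, fderiv ℝ f x y) ∉ A), mul_zero, mul_zero]
  rw [setLIntegral_congr_fun hVm h4, ← lintegral_indicator hA'm]
  rw [volume_eq_prod, lintegral_prod _ ((measurable_rho f).indicator hA'm).aemeasurable,
    ← lintegral_indicator hVm]
  refine lintegral_congr fun x => ?_
  by_cases hx : x ∈ V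
  · rw [indicator_of_mem hx]
  · rw [indicator_of_notMem hx]
    symm
    rw [← lintegral_zero (μ := (volume : Measure (Euc n)))]
    refine lintegral_congr fun y => ?_
    exact indicator_of_notMem (fun h => hx h.2.1) _

end chart

end Crest.Agent.R208.L
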