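import Crest.Agent.R208.L3

/-!
R208, block G4b, part 4 (helper971): maps which preserve `om` and the norm preserve the Gaussian
Liouville measure (local version).
-/

set_option autoImplicit false
set_option linter.unusedSectionVars false

open MeasureTheory Measure Set Filter Topology Module
open scoped ContDiff RealInnerProductSpace ENNReal
open Crest.GeometryTopology.Submanifold
open Crest.Agent.R241.DDefs
open Crest.Agent.R241.D2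
open Crest.Agent.R241
open Crest.Agent.R241.AF (jac jac_nonneg jac_sq_gram finrank_Euc)

noncomputable section

namespace Crest.Agent.R208.L

section alg

variable {n N : ℕ}

/-- the pullback of `om` under a linear map -/
def omL (L : Euc n × Euc n →L[ℝ] Euc N × Euc N) :
    (Euc n × Euc n) →ₗ[ℝ] (Euc n × Euc n) →ₗ[ℝ] ℝ :=
  LinearMap.mk₂ ℝ (fun ξ η => om (L ξ) (L η))
    (fun _ _ _ => by simp only [map_add, om_add_left])
    (fun _ _ _ => by simp only [map_smul, om_smul_left, smul_eq_mul])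
    (fun _ _ _ => by simp only [map_add, om_add_right])
    (fun _ _ _ => by simp only [map_smul, om_smul_right, smul_eq_mul])

/-- the standard basis of `ℝ^n × ℝ^n` -/
def bb (n : ℕ) : Basis (Fin n ⊕ Fin n) ℝ (Euc n × Euc n) :=
  (EuclideanSpace.basisFun (Fin n) ℝ).toBasis.prod (EuclideanSpace.basisFun (Fin n) ℝ).toBasis

lemma bb_inl (i : Fin n) : bb n (Sum.inl i) = (EuclideanSpace.basisFun (Fin n) ℝ i, 0) := by
  unfold bb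
  ext1 <;> simp

lemma bb_inr (i : Fin n) : bb n (Sum.inr i) = (0, EuclideanSpace.basisFun (Fin n) ℝ i) := by
  unfold bb
  ext1 <;> simp

/-- Gram determinant of `om` in a chart -/
lemma det_omL (L : Euc n × Euc n →L[ℝ] Euc N × Euc N) (B C : Euc n →L[ℝ] Euc N)
    (h1 : ∀ b, L (0, b) = (0, B b)) (h2 : ∀ a, L (a, 0) = (B a, C a)) :
    (LinearMap.toMatrix₂ (bb n) (bb n) (omL L)).det ^ 2 = jac B ^ 8 := by
  set e := EuclideanSpace.basisFun (Fin n) ℝ with he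
  set g : Matrix (Fin n) (Fin n) ℝ := Matrix.of fun i j => ⟪B (e i), B (e j)⟫ with hg
  set c : Matrix (Fin n) (Fin n) ℝ :=
    Matrix.of fun i j => om (B (e i), C (e i)) (B (e j), C (e j)) with hc
  have hm : LinearMap.toMatrix₂ (bb n) (bb n) (omL L) = Matrix.fromBlocks c (-g) g 0 := by
    ext i j
    rw [LinearMap.toMatrix₂_apply]
    change om (L (bb n i)) (L (bb n j)) = _
    rcases i with i | i <;> rcases j with j | j
    · rw [bb_inl, bb_inl, h2, h2]; rfl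
    · rw [bb_inl, bb_inr, h2, h1]
      simp [om, hg, he]
      exact real_inner_comm _ _
    · rw [bb_inr, bb_inl, h2, h1]
      simp [om, hg, he]
    · rw [bb_inr, bb_inr, h1, h1]
      simp [om]
  have hJ := Matrix.J_det_mul_J_det (Fin n) ℝ
  have hprod : Matrix.fromBlocks c (-g) g 0 * Matrix.J (Fin n) ℝ =
      Matrix.fromBlocks (-g) (-c) 0 (-g) := by
    rw [Matrix.J, Matrix.fromBlocks_multiply]
    simp
  have h3 : (Matrix.fromBlocks c (-g) g 0).det * (Matrix.J (Fin n) ℝ).det =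
      (-g).det * (-g).det := by
    rw [← Matrix.det_mul, hprod, Matrix.det_fromBlocks_zero₂₁]
  have h4 : (-g).det ^ 2 = g.det ^ 2 := by
    rw [Matrix.det_neg, mul_pow, ← pow_mul, mul_comm (Fintype.card (Fin n)) 2, pow_mul]
    norm_num
  have h5 : jac B ^ 2 = g.det := jac_sq_gram B e
  rw [hm]
  calc (Matrix.fromBlocks c (-g) g 0).det ^ 2
      = ((Matrix.fromBlocks c (-g) g 0).det * (Matrix.J (Fin n) ℝ).det) ^ 2 := by
        rw [mul_pow, sq (Matrix.J (Fin n) ℝ).det, hJ, mul_one]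
    _ = ((-g).det ^ 2) ^ 2 := by rw [h3]; ring
    _ = (g.det ^ 2) ^ 2 := by rw [h4]
    _ = jac B ^ 8 := by rw [← h5]; ring

/-- the determinant of a map preserving the pullbacks of `om` -/
lemma abs_det_mul {L₁ L₂ : Euc n × Euc n →L[ℝ] Euc N × Euc N} {B₁ C₁ B₂ C₂ : Euc n →L[ℝ] Euc N}
    (h11 : ∀ b, L₁ (0, b) = (0, B₁ b)) (h12 : ∀ a, L₁ (a, 0) = (B₁ a, C₁ a))
    (h21 : ∀ b, L₂ (0, b) = (0, B₂ b)) (h22 : ∀ a, L₂ (a, 0) = (B₂ a, C₂ a))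
    {M : Euc n × Euc n →L[ℝ] Euc n × Euc n}
    (hM : ∀ ξ η, om (L₂ (M ξ)) (L₂ (M η)) = om (L₁ ξ) (L₁ η)) :
    |M.det| * jac B₂ ^ 2 = jac B₁ ^ 2 := by
  have h1 : omL L₁ = (omL L₂).compl₁₂ M.toLinearMap M.toLinearMap := by
    ext ξ η <;> exact (hM _ _).symm
  have h2 := det_omL L₁ B₁ C₁ h11 h12
  have h3 := det_omL L₂ B₂ C₂ h21 h22
  rw [h1, LinearMap.toMatrix₂_compl₁₂ (bb n) (bb n), Matrix.det_mul, Matrix.det_mul,
    Matrix.det_transpose, LinearMap.det_toMatrix] at h2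
  have h4 : M.det = LinearMap.det M.toLinearMap := rfl
  rw [← h4] at h2
  have h5 : (|M.det| * jac B₂ ^ 2) ^ 4 = (jac B₁ ^ 2) ^ 4 := by
    have h6 : |M.det| ^ 4 = M.det ^ 4 := by
      rw [show (4 : ℕ) = 2 * 2 from rfl, pow_mul, pow_mul, sq_abs]
    calc (|M.det| * jac B₂ ^ 2) ^ 4 = M.det ^ 4 * jac B₂ ^ 8 := by rw [mul_pow, h6]; ring
      _ = (M.det * (LinearMap.toMatrix₂ (bb n) (bb n) (omL L₂)).det * M.det) ^ 2 := by
        rw [← h3]; ring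
      _ = jac B₁ ^ 8 := h2
      _ = (jac B₁ ^ 2) ^ 4 := by ring
  exact (pow_left_inj₀ (by positivity) (by positivity) four_ne_zero).1 h5

end alg

variable {n N : ℕ} {κ : ℝ} {S : Set (Euc N)} {G : Geo n N κ S}

/-- transformations of the tangent bundle (without zero section) preserving `om` and the norm -/
structure Symp (G : Geo n N κ S) (Ψ : Euc N × Euc N → Euc N × Euc N) : Prop where
  diff : ∀ q ∈ TS0 G, DifferentiableAt ℝ Ψ q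
  mem : ∀ q ∈ TS0 G, Ψ q ∈ TS G
  norm : ∀ q ∈ TS0 G, ‖(Ψ q).2‖ = ‖q.2‖
  inj : InjOn Ψ (TS0 G)
  om : ∀ q ∈ TS0 G, ∀ ξ η, TanTS G q ξ → TanTS G q η →
    om (fderiv ℝ Ψ q ξ) (fderiv ℝ Ψ q η) = om ξ η

section chart

variable {p0 : Euc N} {f : Euc n → Euc N} {V : Set (Euc n)}

lemma hasFDerivAt_Fc (hf : IsLocalParam n N S p0 f V) {z : Euc n × Euc n} (hz : z.1 ∈ V) :
    HasFDerivAt (Fc f) (fderiv ℝ (Fc f) z) z := by
  have hV : IsOpen (V ×ˢ (univ : Set (Euc n))) := hf.isOpen.prod isOpen_univ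
  exact (((contDiffOn_Fc hf).contDiffAt (hV.mem_nhds ⟨hz, mem_univ _⟩)).differentiableAt
    (by simp)).hasFDerivAt

lemma fderiv_Fc_apply (hf : IsLocalParam n N S p0 f V) {z : Euc n × Euc n} (hz : z.1 ∈ V)
    (a b : Euc n) : fderiv ℝ (Fc f) z (a, b) =
      (fderiv ℝ f z.1 a, fderiv ℝ (fderiv ℝ f) z.1 a z.2 + fderiv ℝ f z.1 b) := by
  have hcd : ContDiffAt ℝ ∞ f z.1 := hf.contDiffOn.contDiffAt (hf.isOpen.mem_nhds hz)
  have h1 : HasFDerivAt f (fderiv ℝ f z.1) z.1 := (hcd.differentiableAt (by simp)).hasFDerivAt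
  have h2 : HasFDerivAt (fderiv ℝ f) (fderiv ℝ (fderiv ℝ f) z.1) z.1 :=
    ((hcd.fderiv_right (m := ∞) (by simp)).differentiableAt (by simp)).hasFDerivAt
  have h3 : HasFDerivAt (fun z : Euc n × Euc n => f z.1)
      ((fderiv ℝ f z.1).comp (ContinuousLinearMap.fst ℝ (Euc n) (Euc n))) z :=
    h1.comp z hasFDerivAt_fst
  have h4 : HasFDerivAt (fun z : Euc n × Euc n => fderiv ℝ f z.1)
      ((fderiv ℝ (fderiv ℝ f) z.1).comp (ContinuousLinearMap.fst ℝ (Euc n) (Euc n))) z :=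
    h2.comp z hasFDerivAt_fst
  have h5 := h3.prodMk (h4.clm_apply (hasFDerivAt_snd (𝕜 := ℝ) (p := z)))
  have h6 := (hasFDerivAt_Fc hf hz).unique h5
  rw [h6]
  simp [add_comm]

lemma Fc_mem (hT : ∀ p ∈ S, G.T p = D.Tan S p) (hf : IsLocalParam n N S p0 f V)
    (hfS : ∀ x ∈ V, f x ∈ S) {z : Euc n × Euc n} (hz : z.1 ∈ V) : Fc f z ∈ TS G := by
  refine ⟨hfS _ hz, ?_⟩
  have h1 := range_T G hT hf hz (hfS _ hz)
  have h2 : fderiv ℝ f z.1 z.2 ∈ (G.T (f z.1) : Set (Euc N)) := by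
    rw [← h1]; exact ⟨_, rfl⟩
  exact h2

lemma tanTS_Fc (hT : ∀ p ∈ S, G.T p = D.Tan S p) (hf : IsLocalParam n N S p0 f V)
    (hfS : ∀ x ∈ V, f x ∈ S) {z : Euc n × Euc n} (hz : z.1 ∈ V) (ξ : Euc n × Euc n) :
    TanTS G (Fc f z) (fderiv ℝ (Fc f) z ξ) := by
  have h0 : HasDerivAt (fun s : ℝ => z + s • ξ) ξ 0 := by
    simpa using ((hasDerivAt_id (0 : ℝ)).smul_const ξ).const_add z
  refine ⟨fun s => Fc f (z + s • ξ), by simp, ?_, ?_⟩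
  · have h1 : HasFDerivAt (Fc f) (fderiv ℝ (Fc f) z) (z + (0 : ℝ) • ξ) := by
      simpa using hasFDerivAt_Fc hf hz
    exact h1.comp_hasDerivAt (0 : ℝ) h0
  · have h2 : Tendsto (fun s : ℝ => (z + s • ξ).1) (𝓝 0) (𝓝 z.1) := by
      have h3 : Continuous (fun s : ℝ => (z + s • ξ).1) := by fun_prop
      simpa using h3.tendsto 0
    filter_upwards [h2.eventually (hf.isOpen.mem_nhds hz)] with s hs
    exact Fc_mem hT hf hfS hs

lemma injOn_Fc (hf : IsLocalParam n N S p0 f V) : InjOn (Fc f) (V ×ˢ univ) := by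
  rintro ⟨x, y⟩ ⟨hx, -⟩ ⟨x', y'⟩ ⟨hx', -⟩ h
  have h1 : f x = f x' := congrArg Prod.fst h
  have h2 := hf.injOn hx hx' h1
  subst h2
  have h3 : fderiv ℝ f x y = fderiv ℝ f x y' := congrArg Prod.snd h
  rw [hf.injective_fderiv x hx h3]

lemma exists_Fc_eq (hT : ∀ p ∈ S, G.T p = D.Tan S p) (hf : IsLocalParam n N S p0 f V)
    (hfS : ∀ x ∈ V, f x ∈ S) {q : Euc N × Euc N} (hq : q ∈ TS G) (h : q.1 ∈ f '' V) :
    ∃ z ∈ V ×ˢ (univ : Set (Euc n)), Fc f z = q := by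
  obtain ⟨x, hx, hxq⟩ := h
  have h1 := range_T G hT hf hx (hfS _ hx)
  have h2 : q.2 ∈ (G.T (f x) : Set (Euc N)) := by rw [hxq]; exact hq.2
  rw [← h1] at h2
  obtain ⟨y, hy⟩ := h2
  exact ⟨(x, y), ⟨hx, mem_univ _⟩, Prod.ext hxq hy⟩

/-- the local inverse of `Fc` -/
def Lc (ℓ : Euc N → Euc n) (q : Euc N × Euc N) : Euc n × Euc n := (ℓ q.1, fderiv ℝ ℓ q.1 q.2)

lemma Fc_Lc (hf : IsLocalParam n N S p0 f V) {O : Set (Euc N)} {ℓ : Euc N → Euc n}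
    (hO : IsOpen O) (hℓ : ContDiffOn ℝ ∞ ℓ O) (hℓV : ∀ q ∈ O, ℓ q ∈ V)
    (hℓS : ∀ q ∈ O, q ∈ S → f (ℓ q) = q) {q : Euc N × Euc N} (hq : q ∈ TS G) (hqO : q.1 ∈ O) :
    Fc f (Lc ℓ q) = q := by
  have h0 := hℓS _ hqO hq.1
  refine Prod.ext h0 ?_
  change fderiv ℝ f (ℓ q.1) (fderiv ℝ ℓ q.1 q.2) = q.2
  obtain ⟨c, hc0, hc, hcS⟩ := exists_curve G hq.1 hq.2
  have h1 : HasFDerivAt ℓ (fderiv ℝ ℓ q.1) (c 0) := by
    rw [hc0]
    exact ((hℓ.contDiffAt (hO.mem_nhds hqO)).differentiableAt (by simp)).hasFDerivAt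
  have h2 : HasDerivAt (fun t => ℓ (c t)) (fderiv ℝ ℓ q.1 q.2) 0 := h1.comp_hasDerivAt 0 hc
  have h3 : HasFDerivAt f (fderiv ℝ f (ℓ q.1)) (ℓ (c 0)) := by
    rw [hc0]
    exact ((hf.contDiffOn.contDiffAt (hf.isOpen.mem_nhds (hℓV _ hqO))).differentiableAt
      (by simp)).hasFDerivAt
  have h4 : HasDerivAt (fun t => f (ℓ (c t))) (fderiv ℝ f (ℓ q.1) (fderiv ℝ ℓ q.1 q.2)) 0 :=
    h3.comp_hasDerivAt 0 h2
  have h5 : c =ᶠ[𝓝 0] fun t => f (ℓ (c t)) := by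
    have h6 : Tendsto c (𝓝 0) (𝓝 q.1) := by rw [← hc0]; exact hc.continuousAt
    filter_upwards [hcS, h6.eventually (hO.mem_nhds hqO)] with t h1 h2
    exact (hℓS _ h2 h1).symm
  exact (h4.congr_of_eventuallyEq h5).unique hc

lemma differentiableAt_Lc {O : Set (Euc N)} {ℓ : Euc N → Euc n}
    (hO : IsOpen O) (hℓ : ContDiffOn ℝ ∞ ℓ O) {q : Euc N × Euc N} (hqO : q.1 ∈ O) :
    DifferentiableAt ℝ (Lc ℓ) q := by
  have hcd : ContDiffAt ℝ ∞ ℓ q.1 := hℓ.contDiffAt (hO.mem_nhds hqO)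
  have h1 : DifferentiableAt ℝ ℓ q.1 := hcd.differentiableAt (by simp)
  have h2 : DifferentiableAt ℝ (fderiv ℝ ℓ) q.1 :=
    (hcd.fderiv_right (m := ∞) (by simp)).differentiableAt (by simp)
  have h3 : DifferentiableAt ℝ (fun q : Euc N × Euc N => ℓ q.1) q :=
    DifferentiableAt.comp q h1 differentiableAt_fst
  have h4 : DifferentiableAt ℝ (fun q : Euc N × Euc N => fderiv ℝ ℓ q.1) q :=
    DifferentiableAt.comp q h2 differentiableAt_fst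
  exact h3.prodMk (h4.clm_apply differentiableAt_snd)

end chart

/-- **local invariance of the Gaussian Liouville measure** -/
theorem Symp.local_image (hS : IsSubmanifold n N S) (hT : ∀ p ∈ S, G.T p = D.Tan S p)
    (hfS : ∀ (p : Euc N) (f : Euc n → Euc N) (V : Set (Euc n)), IsLocalParam n N S p f V →
      ∀ x ∈ V, f x ∈ S)
    {Ψ : Euc N × Euc N → Euc N × Euc N} (h : Symp G Ψ) {q₀ : Euc N × Euc N} (hq₀ : q₀ ∈ TS0 G) :
    ∃ O : Set (Euc N × Euc N), IsOpen O ∧ q₀ ∈ O ∧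
      ∀ A ⊆ O ∩ TS0 G, MeasurableSet A → Lg G (Ψ '' A) = Lg G A := by
  obtain ⟨f₁, V₁, hf₁⟩ := hS q₀.1 hq₀.1.1
  obtain ⟨f₂, V₂, hf₂⟩ := hS (Ψ q₀).1 (h.mem _ hq₀).1
  obtain ⟨U₁, hU₁, hUS₁⟩ := hf₁.image_open V₁ le_rfl hf₁.isOpen
  obtain ⟨O₂, ℓ, hO₂, h0O₂, hℓ, hℓV, -, hℓS⟩ := D.exists_coord hf₂ hf₂.zero_mem
  rw [hf₂.map_zero] at h0O₂
  have hfS₁ := hfS _ _ _ hf₁
  have hfS₂ := hfS _ _ _ hf₂
  have hq₀U : q₀.1 ∈ U₁ := by
    have h1 : q₀.1 ∈ f₁ '' V₁ := ⟨0, hf₁.zero_mem, hf₁.map_zero⟩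
    rw [hUS₁] at h1
    exact h1.2
  -- the open set
  have hc : ContinuousAt (fun q => (Ψ q).1) q₀ :=
    continuous_fst.continuousAt.comp (h.diff _ hq₀).continuousAt
  obtain ⟨O, hOsub, hO, hq₀O⟩ : ∃ O ⊆ {q : Euc N × Euc N | (Ψ q).1 ∈ O₂}, IsOpen O ∧ q₀ ∈ O := by
    have h1 : {q : Euc N × Euc N | (Ψ q).1 ∈ O₂} ∈ 𝓝 q₀ := hc (hO₂.mem_nhds h0O₂)
    obtain ⟨O, h2, h3, h4⟩ := mem_nhds_iff.1 h1
    exact ⟨O, h2, h3, h4⟩
  refine ⟨O ∩ {q | q.1 ∈ U₁}, hO.inter (hU₁.preimage continuous_fst), ⟨hq₀O, hq₀U⟩, ?_⟩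
  intro A hA hAm
  have hA0 : ∀ q ∈ A, q ∈ TS0 G := fun q hq => (hA hq).2
  have hAV : ∀ q ∈ A, q.1 ∈ f₁ '' V₁ := fun q hq => by
    rw [hUS₁]; exact ⟨(hA hq).2.1.1, (hA hq).1.2⟩
  have hAO : ∀ q ∈ A, (Ψ q).1 ∈ O₂ := fun q hq => hOsub (hA hq).1.1
  have hΨm : MeasurableSet (Ψ '' A) :=
    hAm.image_of_continuousOn_injOn
      (fun q hq => (h.diff q (hA0 q hq)).continuousAt.continuousWithinAt)
      (h.inj.mono hA0)
  -- both sides in charts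
  rw [Lg_chart G hT hf₁ hfS₁ hAm (fun q hq _ => hAV q hq),
    Lg_chart G hT hf₂ hfS₂ hΨm (by
      rintro _ ⟨q, hq, rfl⟩ _
      exact ⟨ℓ (Ψ q).1, hℓV _ (hAO q hq), hℓS _ (hAO q hq) (h.mem q (hA0 q hq)).1⟩)]
  set A₁ : Set (Euc n × Euc n) := Fc f₁ ⁻¹' A ∩ V₁ ×ˢ univ with hA₁
  set A₂ : Set (Euc n × Euc n) := Fc f₂ ⁻¹' (Ψ '' A) ∩ V₂ ×ˢ univ with hA₂
  have hA₁m : MeasurableSet A₁ := measurableSet_preimage_Fc hf₁ hAm
  set Φ : Euc n × Euc n → Euc n × Euc n := fun z => Lc ℓ (Ψ (Fc f₁ z)) with hΦ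
  have hFΦ : ∀ z ∈ A₁, Fc f₂ (Φ z) = Ψ (Fc f₁ z) := fun z hz =>
    Fc_Lc (G := G) hf₂ hO₂ hℓ hℓV hℓS (h.mem _ (hA0 _ hz.1)) (hAO _ hz.1)
  have hΦV : ∀ z ∈ A₁, Φ z ∈ V₂ ×ˢ (univ : Set (Euc n)) := fun z hz =>
    ⟨hℓV _ (hAO _ hz.1), mem_univ _⟩
  have himg : Φ '' A₁ = A₂ := by
    apply Subset.antisymm
    · rintro _ ⟨z, hz, rfl⟩
      exact ⟨by rw [mem_preimage, hFΦ z hz]; exact ⟨_, hz.1, rfl⟩, hΦV z hz⟩
    · rintro w ⟨⟨q, hq, hqw⟩, hw⟩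
      obtain ⟨z, hz, hzq⟩ := exists_Fc_eq (G := G) hT hf₁ hfS₁ (hA0 q hq).1 (hAV q hq)
      have hzA : z ∈ A₁ := ⟨by rw [mem_preimage, hzq]; exact hq, hz⟩
      refine ⟨z, hzA, ?_⟩
      apply injOn_Fc hf₂ (hΦV z hzA) hw
      rw [hFΦ z hzA, hzq, hqw]
  have hΦinj : InjOn Φ A₁ := by
    intro z hz z' hz' hzz
    have h1 : Ψ (Fc f₁ z) = Ψ (Fc f₁ z') := by rw [← hFΦ z hz, ← hFΦ z' hz', hzz]
    exact injOn_Fc hf₁ hz.2 hz'.2 (h.inj (hA0 _ hz.1) (hA0 _ hz'.1) h1)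
  have hΦd : ∀ z ∈ A₁, DifferentiableAt ℝ Φ z := by
    intro z hz
    have h1 : DifferentiableAt ℝ (Fc f₁) z := (hasFDerivAt_Fc hf₁ hz.2.1).differentiableAt
    have h2 : DifferentiableAt ℝ Ψ (Fc f₁ z) := h.diff _ (hA0 _ hz.1)
    have h3 : DifferentiableAt ℝ (Lc ℓ) (Ψ (Fc f₁ z)) := differentiableAt_Lc hO₂ hℓ (hAO _ hz.1)
    exact DifferentiableAt.comp z h3 (DifferentiableAt.comp z h2 h1)
  have key : ∀ z ∈ A₁, |(fderiv ℝ Φ z).det| * jac (fderiv ℝ f₂ (Φ z).1) ^ 2 =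
      jac (fderiv ℝ f₁ z.1) ^ 2 := by
    intro z hz
    have hz1 : z.1 ∈ V₁ := hz.2.1
    have hw1 : (Φ z).1 ∈ V₂ := (hΦV z hz).1
    -- eventually `Fc f₂ ∘ Φ = Ψ ∘ Fc f₁`
    have hcz : ContinuousAt (Fc f₁) z := (hasFDerivAt_Fc hf₁ hz1).continuousAt
    have hcΨ : ContinuousAt (fun z => Ψ (Fc f₁ z)) z :=
      ContinuousAt.comp (g := Ψ) (h.diff _ (hA0 _ hz.1)).continuousAt hcz
    have hev : (fun z => Fc f₂ (Φ z)) =ᶠ[𝓝 z] fun z => Ψ (Fc f₁ z) := by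
      have e1 : ∀ᶠ z' in 𝓝 z, z'.1 ∈ V₁ :=
        continuous_fst.continuousAt.eventually (hf₁.isOpen.mem_nhds hz1)
      have e2 : ∀ᶠ z' in 𝓝 z, (Fc f₁ z').2 ≠ 0 :=
        (continuous_snd.continuousAt.comp hcz).eventually_ne (hA0 _ hz.1).2
      have e3 : ∀ᶠ z' in 𝓝 z, (Ψ (Fc f₁ z')).1 ∈ O₂ :=
        (continuous_fst.continuousAt.comp hcΨ).eventually (hO₂.mem_nhds (hAO _ hz.1))
      filter_upwards [e1, e2, e3] with z' h1 h2 h3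
      have h4 : Fc f₁ z' ∈ TS0 G := ⟨Fc_mem hT hf₁ hfS₁ h1, h2⟩
      exact Fc_Lc (G := G) hf₂ hO₂ hℓ hℓV hℓS (h.mem _ h4) h3
    have hd1 : HasFDerivAt (fun z => Fc f₂ (Φ z))
        ((fderiv ℝ (Fc f₂) (Φ z)).comp (fderiv ℝ Φ z)) z :=
      (hasFDerivAt_Fc hf₂ hw1).comp z (hΦd z hz).hasFDerivAt
    have hd2 : HasFDerivAt (fun z => Ψ (Fc f₁ z))
        ((fderiv ℝ Ψ (Fc f₁ z)).comp (fderiv ℝ (Fc f₁) z)) z :=
      (h.diff _ (hA0 _ hz.1)).hasFDerivAt.comp z (hasFDerivAt_Fc hf₁ hz1)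
    have hd3 := (hd1.congr_of_eventuallyEq hev.symm).unique hd2
    refine abs_det_mul (L₁ := fderiv ℝ (Fc f₁) z) (L₂ := fderiv ℝ (Fc f₂) (Φ z))
      (C₁ := (fderiv ℝ (fderiv ℝ f₁) z.1).flip z.2)
      (C₂ := (fderiv ℝ (fderiv ℝ f₂) (Φ z).1).flip (Φ z).2) ?_ ?_ ?_ ?_ ?_
    · intro b; rw [fderiv_Fc_apply hf₁ hz1]; simp
    · intro a; rw [fderiv_Fc_apply hf₁ hz1]; simp
    · intro b; rw [fderiv_Fc_apply hf₂ hw1]; simp
    · intro a; rw [fderiv_Fc_apply hf₂ hw1]; simp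
    · intro ξ η
      have e1 : ∀ ξ, fderiv ℝ (Fc f₂) (Φ z) (fderiv ℝ Φ z ξ) =
          fderiv ℝ Ψ (Fc f₁ z) (fderiv ℝ (Fc f₁) z ξ) := fun ξ =>
        congrArg (fun L => L ξ) hd3
      rw [e1, e1]
      exact h.om _ (hA0 _ hz.1) _ _ (tanTS_Fc hT hf₁ hfS₁ hz1 ξ) (tanTS_Fc hT hf₁ hfS₁ hz1 η)
  have hHaar : IsAddHaarMeasure (volume : Measure (Euc n × Euc n)) :=
    prod.instIsAddHaarMeasure volume volume
  rw [← himg, lintegral_image_eq_lintegral_abs_det_fderiv_mul volume hA₁m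
    (fun z hz => (hΦd z hz).hasFDerivAt.hasFDerivWithinAt) hΦinj]
  refine setLIntegral_congr_fun hA₁m fun z hz => ?_
  have h1 : fderiv ℝ f₂ (Φ z).1 (Φ z).2 = (Ψ (Fc f₁ z)).2 := congrArg Prod.snd (hFΦ z hz)
  have h2 : ‖(Ψ (Fc f₁ z)).2‖ = ‖fderiv ℝ f₁ z.1 z.2‖ := h.norm _ (hA0 _ hz.1)
  simp only [rho]
  rw [h1, ← mul_assoc, ← ENNReal.ofReal_mul (abs_nonneg _), key z hz]
  congr 1
  unfold gd
  rw [h2]

end Crest.Agent.R208.L
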