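import Crest.Agent.R208.L4
import Crest.Agent.R208.G1

/-!
R208, block G4b, part 5 (helper971): the geodesic flow and the unit speed geodesic flow preserve the
Gaussian Liouville measure.
-/

set_option autoImplicit false
set_option linter.unusedSectionVars false

open MeasureTheory Measure Set Filter Topology Module
open scoped ContDiff RealInnerProductSpace ENNReal
open Crest.GeometryTopology.Submanifold
open Crest.Agent.R241.DDefs
open Crest.Agent.R241.D2
open Crest.Agent.R241
open Crest.Agent.R241.AF (jac jac_nonneg jac_sq_gram finrank_Euc)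

noncomputable section

namespace Crest.Agent.R208.L

variable {n N : ℕ} {κ : ℝ} {S : Set (Euc N)} {G : Geo n N κ S}

lemma measurableSet_TS (G : Geo n N κ S) : MeasurableSet (TS G) := (isClosed_TS G).measurableSet

lemma TS0_eq (G : Geo n N κ S) : TS0 G = TS G ∩ {q | q.2 ≠ 0} := rfl

lemma measurableSet_TS0 (G : Geo n N κ S) : MeasurableSet (TS0 G) := by
  rw [TS0_eq]
  refine (measurableSet_TS G).inter ?_
  exact (isOpen_ne.preimage continuous_snd).measurableSet

/-- **invariance of the Gaussian Liouville measure** (images of sets) -/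
theorem Symp.Lg_image (hS : IsSubmanifold n N S) {Ψ : Euc N × Euc N → Euc N × Euc N}
    (h : Symp G Ψ) {A : Set (Euc N × Euc N)} (hAm : MeasurableSet A) (hA : A ⊆ TS0 G) :
    Lg G (Ψ '' A) = Lg G A := by
  classical
  rcases (TS0 G).eq_empty_or_nonempty with h0 | h0
  · rw [h0, subset_empty_iff] at hA
    rw [hA, image_empty]
  have hloc : ∀ q ∈ TS0 G, ∃ O : Set (Euc N × Euc N), IsOpen O ∧ q ∈ O ∧
      ∀ A ⊆ O ∩ TS0 G, MeasurableSet A → Lg G (Ψ '' A) = Lg G A := fun q hq =>
    h.local_image hS (fun p hp => T_eq_Tan G hp) (fun p f V hf x hx => D.mem_S hf hx) hq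
  choose! O hO hqO hOA using hloc
  obtain ⟨t, hts, htc, ht⟩ := TopologicalSpace.countable_cover_nhdsWithin (s := TS0 G) (f := O)
    (fun q hq => mem_nhdsWithin_of_mem_nhds ((hO q hq).mem_nhds (hqO q hq)))
  have htne : t.Nonempty := by
    obtain ⟨q, hq⟩ := h0
    obtain ⟨x, hx, -⟩ := mem_iUnion₂.1 (ht hq)
    exact ⟨x, hx⟩
  obtain ⟨e, he⟩ := htc.exists_eq_range htne
  have hmem : ∀ i, e i ∈ TS0 G := fun i => hts (by rw [he]; exact ⟨i, rfl⟩)
  set B : ℕ → Set (Euc N × Euc N) := fun i => O (e i) with hB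
  have hcov : TS0 G ⊆ ⋃ i, B i := by
    intro q hq
    obtain ⟨x, hx, hqx⟩ := mem_iUnion₂.1 (ht hq)
    rw [he] at hx
    obtain ⟨i, rfl⟩ := hx
    exact mem_iUnion.2 ⟨i, hqx⟩
  have hBm : ∀ i, MeasurableSet (B i) := fun i => (hO _ (hmem i)).measurableSet
  have hDm : ∀ i, MeasurableSet (disjointed B i) := fun i => MeasurableSet.disjointed hBm i
  have hAeq : A = ⋃ i, A ∩ disjointed B i := by
    rw [← inter_iUnion, iUnion_disjointed]
    exact (inter_eq_left.2 (hA.trans hcov)).symm
  have hdis : Pairwise (Function.onFun Disjoint fun i => A ∩ disjointed B i) :=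
    pairwise_disjoint_mono (disjoint_disjointed B) fun i => inter_subset_right
  have hcont : ContinuousOn Ψ (TS0 G) := fun q hq =>
    (h.diff q hq).continuousAt.continuousWithinAt
  have h1 : ∀ i, Lg G (Ψ '' (A ∩ disjointed B i)) = Lg G (A ∩ disjointed B i) := fun i =>
    hOA (e i) (hmem i) _ (fun q hq => ⟨disjointed_subset B i hq.2, hA hq.1⟩) (hAm.inter (hDm i))
  conv_lhs => rw [hAeq, image_iUnion]
  conv_rhs => rw [hAeq]
  rw [measure_iUnion, measure_iUnion hdis fun i => hAm.inter (hDm i)]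
  · exact tsum_congr h1
  · intro i j hij
    exact Disjoint.image (hdis hij) h.inj (fun q hq => hA hq.1) (fun q hq => hA hq.1)
  · intro i
    exact (hAm.inter (hDm i)).image_of_continuousOn_injOn
      (hcont.mono fun q hq => hA hq.1) (h.inj.mono fun q hq => hA hq.1)

/-- **invariance of the Gaussian Liouville measure** -/
theorem Symp.map_Lg (hS : IsSubmanifold n N S) {Ψ : Euc N × Euc N → Euc N × Euc N}
    (h : Symp G Ψ) (hm : Measurable Ψ) (himg : Ψ '' (TS0 G) = TS0 G) :
    Measure.map Ψ ((Lg G).restrict (TS0 G)) = (Lg G).restrict (TS0 G) := by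
  ext A hA
  rw [map_apply hm hA, restrict_apply (hm hA), restrict_apply hA]
  have h1 := h.Lg_image hS ((hm hA).inter (measurableSet_TS0 G)) inter_subset_right
  rw [← h1, image_preimage_inter, himg]

/-! ### the flows -/

lemma measurable_fl (G : Geo n N κ S) : Measurable (fl G) := by
  classical
  have h1 : fl G = (fd G).piecewise (fl G) Prod.fst := by
    ext1 q
    by_cases hq : q ∈ fd G
    · rw [piecewise_eq_of_mem _ _ _ hq]
    · rw [piecewise_eq_of_notMem _ _ _ hq]
      exact dif_neg hq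
  rw [h1]
  exact ContinuousOn.measurable_piecewise (contDiffOn_fl G).continuousOn
    continuous_fst.continuousOn (isOpen_fd G).measurableSet

lemma measurable_fl_left (G : Geo n N κ S) (t : ℝ) : Measurable (fun q => fl G (q, t)) :=
  (measurable_fl G).comp (measurable_id.prodMk measurable_const)

lemma measurable_ufl (G : Geo n N κ S) (t : ℝ) : Measurable (ufl G t) := by
  unfold ufl
  refine (measurable_fl G).comp (measurable_id.prodMk ?_)
  exact measurable_const.div measurable_snd.norm

/-- the geodesic flow -/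
theorem symp_fl (G : Geo n N κ S) (t : ℝ) : Symp G (fun q => fl G (q, t)) where
  diff q hq := (hasFDerivAt_fl_left hq.1 t).differentiableAt
  mem q hq := fl_mem G hq.1 t
  norm q hq := norm_fl G hq.1 t
  inj := by
    intro q hq q' hq' h
    have h1 := fl_add' G hq.1 t (-t)
    have h2 := fl_add' G hq'.1 t (-t)
    simp only at h
    rw [add_neg_cancel, fl_zero] at h1 h2
    rw [h1, h2, h]
  om q hq ξ η hξ hη := om_dfl hq.1 hξ hη t

/-- the unit speed geodesic flow -/
theorem symp_ufl (G : Geo n N κ S) (t : ℝ) : Symp G (ufl G t) where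
  diff q hq := by
    obtain ⟨a, ha, -⟩ := hasFDerivAt_ufl hq t
    exact ha.differentiableAt
  mem q hq := ufl_mem hq.1 t
  norm q hq := norm_ufl hq.1 t
  inj := by
    intro q hq q' hq' h
    have h1 := ufl_add hq.1 t (-t)
    have h2 := ufl_add hq'.1 t (-t)
    rw [add_neg_cancel, ufl_zero] at h1 h2
    rw [← h1, ← h2, h]
  om q hq ξ η hξ hη := om_dufl hq hξ hη t

lemma fl_mem0 {q : Euc N × Euc N} (hq : q ∈ TS0 G) (t : ℝ) : fl G (q, t) ∈ TS0 G := by
  refine ⟨fl_mem G hq.1 t, ?_⟩
  rw [← norm_ne_zero_iff, norm_fl G hq.1 t]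
  exact norm_ne_zero_iff.2 hq.2

lemma image_fl (G : Geo n N κ S) (t : ℝ) : (fun q => fl G (q, t)) '' (TS0 G) = TS0 G := by
  apply Subset.antisymm
  · rintro _ ⟨q, hq, rfl⟩
    exact fl_mem0 hq t
  · intro q hq
    refine ⟨fl G (q, -t), fl_mem0 hq (-t), ?_⟩
    have h1 := fl_add' G hq.1 (-t) t
    rw [neg_add_cancel, fl_zero] at h1
    exact h1.symm

lemma image_ufl (G : Geo n N κ S) (t : ℝ) : ufl G t '' (TS0 G) = TS0 G := by
  apply Subset.antisymm
  · rintro _ ⟨q, hq, rfl⟩
    exact ufl_mem0 hq t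
  · intro q hq
    refine ⟨ufl G (-t) q, ufl_mem0 hq (-t), ?_⟩
    have h1 := ufl_add hq.1 (-t) t
    rw [neg_add_cancel, ufl_zero] at h1
    exact h1

/-- **the geodesic flow preserves the Gaussian Liouville measure** -/
theorem map_fl_Lg (hS : IsSubmanifold n N S) (G : Geo n N κ S) (t : ℝ) :
    Measure.map (fun q => fl G (q, t)) ((Lg G).restrict (TS0 G)) = (Lg G).restrict (TS0 G) :=
  (symp_fl G t).map_Lg hS (measurable_fl_left G t) (image_fl G t)

/-- **the unit speed geodesic flow preserves the Gaussian Liouville measure** -/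
theorem map_ufl_Lg (hS : IsSubmanifold n N S) (G : Geo n N κ S) (t : ℝ) :
    Measure.map (ufl G t) ((Lg G).restrict (TS0 G)) = (Lg G).restrict (TS0 G) :=
  (symp_ufl G t).map_Lg hS (measurable_ufl G t) (image_ufl G t)

/-! ### the complement of the set of non-zero tangent vectors is a null set -/

lemma gam_ac (V : Type*) [NormedAddCommGroup V] [InnerProductSpace ℝ V] [FiniteDimensional ℝ V]
    [MeasurableSpace V] [BorelSpace V] : gam V ≪ (volume : Measure V) :=
  withDensity_absolutelyContinuous _ _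

lemma gam_P_zero (hn : 1 ≤ n) (G : Geo n N κ S) {p : Euc N} (hp : p ∈ S) :
    gam (Euc N) {z | G.P p z = 0} = 0 := by
  apply gam_ac
  have h1 : {z | G.P p z = 0} = (LinearMap.ker (G.P p).toLinearMap : Set (Euc N)) := by
    ext z; rfl
  rw [h1]
  apply Measure.addHaar_submodule
  intro h2
  have h3 : G.T p = ⊥ := by
    rw [eq_bot_iff]
    intro v hv
    have h4 : v ∈ LinearMap.ker (G.P p).toLinearMap := by rw [h2]; trivial
    have h5 : G.P p v = 0 := h4
    rw [(P_eq_self G hp).1 hv] at h5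
    exact h5
  have h4 := G.finrank_T p hp
  rw [h3, finrank_bot] at h4
  omega

theorem Lg_compl_TS0 (hn : 1 ≤ n) (G : Geo n N κ S) : Lg G (TS0 G)ᶜ = 0 := by
  rw [Lg_apply G (measurableSet_TS0 G).compl,
    setLIntegral_congr_fun (g := fun _ => 0) G.isClosed.measurableSet]
  · simp
  · intro p hp
    have h1 : {z | (p, G.P p z) ∈ (TS0 G)ᶜ} = {z | G.P p z = 0} := by
      ext z
      simp only [mem_compl_iff, TS0, mem_ofPred_eq, not_and, not_not]
      exact ⟨fun h => h ⟨hp, P_mem G hp⟩, fun h _ => h⟩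
    simp only [h1]
    exact gam_P_zero hn G hp

theorem Lg_restrict_TS0 (hn : 1 ≤ n) (G : Geo n N κ S) : (Lg G).restrict (TS0 G) = Lg G :=
  Measure.restrict_eq_self_of_ae_mem (by
    rw [ae_iff]
    exact Lg_compl_TS0 hn G)

end Crest.Agent.R208.L
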