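import Crest.Agent.R208.LB2

/-!
R208, block LB (helper971), part 3: linear algebra of the contact form in charts of the tangent bundle, and
the measure preserving identification `ℝ^d × ℝ ≃ ℝ^n × ℝ^n`.
-/

set_option autoImplicit false
set_option linter.unusedSectionVars false

open MeasureTheory Measure Set Filter Topology Module
open scoped ContDiff RealInnerProductSpace ENNReal
open Crest.GeometryTopology.Submanifold
open Crest.Agent.R241.DDefs
open Crest.Agent.R241.D2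
open Crest.Agent.R241
open Crest.Agent.R241.AF (jac jac_nonneg jac_sq_gram finrank_Euc)
open Crest.Agent.R208.F
open Crest.Agent.R208.FI (Clo Sub Chart Tan J Ori dens frame)
open Crest.Agent.R208.L (US TS0)

noncomputable section

namespace Crest.Agent.R208.LB

/-! ### bases -/
section bases

/-- interleaving -/
def eqv (n : ℕ) : Fin n ⊕ Fin n ≃ Fin (2 * n) where
  toFun := Sum.elim (fun j => ⟨2 * (j : ℕ) + 1, by omega⟩) (fun j => ⟨2 * (j : ℕ), by omega⟩)
  invFun := fun i => if (i : ℕ) % 2 = 0 then Sum.inr ⟨(i : ℕ) / 2, by omega⟩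
    else Sum.inl ⟨(i : ℕ) / 2, by omega⟩
  left_inv := by
    rintro (j | j)
    · have h1 : ¬ ((2 * (j : ℕ) + 1) % 2 = 0) := by omega
      have h2 : (2 * (j : ℕ) + 1) / 2 = j := by omega
      simp [h2]
    · have h1 : (2 * (j : ℕ)) % 2 = 0 := by omega
      have h2 : (2 * (j : ℕ)) / 2 = j := by omega
      simp
  right_inv := by
    intro i
    by_cases h : (i : ℕ) % 2 = 0
    · simp only [h, if_true, Sum.elim_inr]
      apply Fin.ext
      change 2 * ((i : ℕ) / 2) = i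
      omega
    · simp only [h, if_false, Sum.elim_inl]
      apply Fin.ext
      change 2 * ((i : ℕ) / 2) + 1 = i
      omega

variable {n d : ℕ}

/-- the standard symplectic basis of `ℝ^n × ℝ^n` -/
def b₂ (hd : d + 1 = 2 * n) : Basis (Fin (d + 1)) ℝ (Euc n × Euc n) :=
  (L.bb n).reindex ((eqv n).trans (finCongr hd.symm))

theorem b₂_apply (hd : d + 1 = 2 * n) (i : Fin (d + 1)) :
    b₂ hd i = if (i : ℕ) % 2 = 0 then
      ((0, EuclideanSpace.basisFun (Fin n) ℝ ⟨(i : ℕ) / 2, by omega⟩) : Euc n × Euc n)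
    else (EuclideanSpace.basisFun (Fin n) ℝ ⟨(i : ℕ) / 2, by omega⟩, 0) := by
  rw [b₂, Basis.reindex_apply]
  have h1 : ((eqv n).trans (finCongr hd.symm)).symm i = if (i : ℕ) % 2 = 0 then
      Sum.inr ⟨(i : ℕ) / 2, by omega⟩ else Sum.inl ⟨(i : ℕ) / 2, by omega⟩ := rfl
  rw [h1]
  by_cases h : (i : ℕ) % 2 = 0
  · simp only [h, if_true, L.bb_inr]
  · simp only [h, if_false, L.bb_inl]

theorem om_b₂ (hd : d + 1 = 2 * n) (i j : Fin (d + 1)) :
    L.om (b₂ hd i) (b₂ hd j) = Jm i j := by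
  have hbb : ∀ i j, ⟪EuclideanSpace.basisFun (Fin n) ℝ i, EuclideanSpace.basisFun (Fin n) ℝ j⟫ =
      if i = j then (1 : ℝ) else 0 := fun i j =>
    orthonormal_iff_ite.1 (EuclideanSpace.basisFun (Fin n) ℝ).orthonormal i j
  rw [b₂_apply, b₂_apply]
  unfold L.om Jm
  have hi : (i : ℕ) % 2 = 0 ∨ (i : ℕ) % 2 = 1 := Nat.mod_two_eq_zero_or_one _
  have hj : (j : ℕ) % 2 = 0 ∨ (j : ℕ) % 2 = 1 := Nat.mod_two_eq_zero_or_one _
  rcases hi with hi | hi <;> rcases hj with hj | hj <;>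
    simp only [hi, hj, hbb, Fin.ext_iff, if_true, if_false, one_ne_zero,
      zero_ne_one, inner_zero_left, inner_zero_right, sub_zero, zero_sub, and_true, true_and,
      and_false, false_and] <;>
    by_cases hij : (i : ℕ) / 2 = (j : ℕ) / 2 <;> simp [hij, Ne.symm]

variable (d) in
/-- the basis of `ℝ^d × ℝ`, the last factor first -/
def b₁ : Basis (Fin (d + 1)) ℝ (Eu d × ℝ) :=
  ((sb d).prod (Basis.singleton Unit ℝ)).reindex
    ((finSuccEquiv d).trans (Equiv.optionEquivSumPUnit.{0} (Fin d))).symm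

theorem b₁_zero : b₁ d 0 = (0, 1) := by
  rw [b₁, Basis.reindex_apply]
  have : (((finSuccEquiv d).trans (Equiv.optionEquivSumPUnit.{0} (Fin d))).symm).symm 0 =
    Sum.inr PUnit.unit := by simp
  rw [this]
  ext1 <;> simp

theorem b₁_succ (i : Fin d) : b₁ d i.succ = (sb d i, 0) := by
  rw [b₁, Basis.reindex_apply]
  have : (((finSuccEquiv d).trans (Equiv.optionEquivSumPUnit.{0} (Fin d))).symm).symm i.succ =
    Sum.inl i := by simp
  rw [this]
  ext1 <;> simp

/-- the linear identification -/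
def kap (hd : d + 1 = 2 * n) : (Eu d × ℝ) ≃L[ℝ] Euc n × Euc n :=
  ((b₁ d).equiv (b₂ hd) (Equiv.refl _)).toContinuousLinearEquiv

theorem kap_b₁ (hd : d + 1 = 2 * n) (i : Fin (d + 1)) : kap hd (b₁ d i) = b₂ hd i := by
  change (b₁ d).equiv (b₂ hd) (Equiv.refl _) (b₁ d i) = _
  rw [Basis.equiv_apply]; rfl

theorem kap_symm_b₂ (hd : d + 1 = 2 * n) (i : Fin (d + 1)) :
    (kap hd).symm (b₂ hd i) = b₁ d i := by
  rw [← kap_b₁ hd, ContinuousLinearEquiv.symm_apply_apply]

theorem addHaar_sb (k : ℕ) : (sb k).addHaar = volume :=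
  (EuclideanSpace.basisFun (Fin k) ℝ).addHaar_eq_volume

theorem addHaar_b₂ (hd : d + 1 = 2 * n) : (b₂ hd).addHaar = volume := by
  rw [b₂, Basis.addHaar_reindex, L.bb, Basis.prod_addHaar, OrthonormalBasis.addHaar_eq_volume]
  rfl

theorem addHaar_b₁ : (b₁ d).addHaar = volume := by
  have h1 : (Basis.singleton Unit ℝ).addHaar = (volume : Measure ℝ) := by
    have h2 := (OrthonormalBasis.singleton Unit ℝ).addHaar_eq_volume
    rw [← h2]
    congr 1
    ext i
    simp
  rw [b₁, Basis.addHaar_reindex, Basis.prod_addHaar, h1, addHaar_sb]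
  rfl

theorem measurePreserving_kap (hd : d + 1 = 2 * n) :
    MeasurePreserving (kap hd) volume volume := by
  refine ⟨(kap hd).continuous.measurable, ?_⟩
  rw [← addHaar_b₁, Basis.map_addHaar, ← addHaar_b₂ hd]
  congr 1
  ext i : 1
  rw [Basis.map_apply]
  exact kap_b₁ hd i

end bases

/-! ### the power of `dal` in a chart of the tangent bundle -/
section chart
variable {n N d : ℕ}

/-- an endomorphism compatible with `om` -/
theorem exists_M {B C : Euc n →L[ℝ] Euc N} (hB : Function.Injective B)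
    {L : Euc n × Euc n →L[ℝ] Euc N × Euc N}
    (h1 : ∀ b, L (0, b) = (0, B b)) (h2 : ∀ a, L (a, 0) = (B a, C a)) :
    ∃ M : Euc n × Euc n →L[ℝ] Euc n × Euc n, |M.det| * jac B ^ 2 = 1 ∧
      ∀ ξ η, R208.L.om (L (M ξ)) (L (M η)) = R208.L.om ξ η := by
  -- isometric frame with the same range
  set T : Submodule ℝ (Euc N) := LinearMap.range (B : Euc n →ₗ[ℝ] Euc N) with hT
  have hdim : finrank ℝ T = n := by
    rw [hT, LinearMap.finrank_range_of_inj hB]; simp
  let e : Euc n ≃ₗᵢ[ℝ] T :=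
    ((stdOrthonormalBasis ℝ T).reindex (finCongr hdim)).repr.symm
  let A : Euc n →L[ℝ] Euc N := T.subtypeL.comp e.toContinuousLinearEquiv.toContinuousLinearMap
  have hA : ∀ v w, ⟪A v, A w⟫ = ⟪v, w⟫ := fun v w => e.inner_map_map v w
  have hAT : ∀ v, A v ∈ T := fun v => (e v).2
  -- inverse of `B` on `T`
  let Be : Euc n ≃ₗ[ℝ] T := LinearEquiv.ofInjective (B : Euc n →ₗ[ℝ] Euc N) hB
  let Bi : T →L[ℝ] Euc n := LinearMap.toContinuousLinearMap (Be.symm : T →ₗ[ℝ] Euc n)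
  have hBi : ∀ t : T, B (Bi t) = t := fun t => congrArg Subtype.val (Be.apply_symm_apply t)
  let K : Euc n →L[ℝ] Euc n := Bi.comp e.toContinuousLinearEquiv.toContinuousLinearMap
  have hK : ∀ a, B (K a) = A a := fun a => hBi (e a)
  let π : Euc N →L[ℝ] T := T.orthogonalProjectionOnto
  let H : Euc n →L[ℝ] Euc n := -(Bi.comp (π.comp (C.comp K)))
  have hH : ∀ a, B (H a) = -(π (C (K a)) : Euc N) := fun a => by
    change B (-(Bi (π (C (K a))))) = _
    rw [map_neg, hBi]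
  let M : Euc n × Euc n →L[ℝ] Euc n × Euc n :=
    (K.comp (ContinuousLinearMap.fst ℝ _ _)).prod
      (K.comp (ContinuousLinearMap.snd ℝ _ _) + H.comp (ContinuousLinearMap.fst ℝ _ _))
  have hL : ∀ a b, L (a, b) = (B a, C a + B b) := fun a b => by
    have : ((a, b) : Euc n × Euc n) = (a, 0) + (0, b) := by simp
    rw [this, map_add, h1, h2]; simp
  have hLM : ∀ ξ, L (M ξ) = (A ξ.1, (C (K ξ.1) - (π (C (K ξ.1)) : Euc N)) + A ξ.2) := by
    intro ξ
    change L (K ξ.1, K ξ.2 + H ξ.1) = _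
    rw [hL, hK, map_add, hK, hH]
    congr 1
    abel
  have hnorm : ∀ z : Euc N, ∀ t ∈ T, ⟪z - (π z : Euc N), t⟫ = 0 := fun z t ht =>
    Submodule.starProjection_inner_eq_zero z t ht
  have key : ∀ ξ η, R208.L.om (L (M ξ)) (L (M η)) = R208.L.om ξ η := by
    intro ξ η
    rw [hLM, hLM]
    unfold R208.L.om
    simp only [inner_add_left, hnorm _ _ (hAT _), hA, zero_add]
  refine ⟨M, ?_, key⟩
  have h3 : ∀ ξ, (A.prodMap A) ξ = (A ξ.1, A ξ.2) := fun ξ => rfl
  have h4 := R208.L.abs_det_mul (L₁ := A.prodMap A) (L₂ := L) (B₁ := A) (C₁ := 0) (B₂ := B)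
    (C₂ := C) (fun b => by rw [h3, map_zero]) (fun a => by rw [h3, map_zero]; rfl) h1 h2 (M := M)
    (fun ξ η => by
      rw [key, h3, h3]
      unfold R208.L.om
      simp only [hA])
  rw [h4, R208.L.jac_isometry A hA]
  norm_num

theorem abs_evA_chart (hd : d + 1 = 2 * n) {B C : Euc n →L[ℝ] Euc N} (hB : Function.Injective B)
    {L : Euc n × Euc n →L[ℝ] Euc N × Euc N}
    (h1 : ∀ b, L (0, b) = (0, B b)) (h2 : ∀ a, L (a, 0) = (B a, C a)) :
    |evA _ (d + 1) (dal N ^ n) (fun i => L (b₂ hd i))| = (n.factorial : ℝ) * jac B ^ 2 := by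
  obtain ⟨M, hM, hom⟩ := exists_M hB h1 h2
  have e1 : evA _ (d + 1) (dal N ^ n) (fun i => L (M (b₂ hd i))) = (n.factorial : ℝ) := by
    refine two_dal.evA_pow' hd _ fun i j => ?_
    rw [omB_apply, hom, om_b₂]
  have e2 : evA _ (d + 1) (dal N ^ n) (fun i => L (M (b₂ hd i))) =
      M.det * evA _ (d + 1) (dal N ^ n) (fun i => L (b₂ hd i)) := by
    have h3 := evA_det (b₂ hd) M (F.pb (L : Euc n × Euc n →ₗ[ℝ] Euc N × Euc N) (dal N ^ n))
    rw [evA_pb, evA_pb] at h3
    exact h3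
  rw [e2] at e1
  have h5 : |M.det| * |evA _ (d + 1) (dal N ^ n) (fun i => L (b₂ hd i))| = (n.factorial : ℝ) := by
    rw [← abs_mul, e1, abs_of_nonneg (by positivity)]
  have h6 : |M.det| ≠ 0 := by
    intro h; rw [h, zero_mul] at hM; exact zero_ne_one hM
  have h7 : |M.det| * |evA _ (d + 1) (dal N ^ n) (fun i => L (b₂ hd i))| =
      |M.det| * ((n.factorial : ℝ) * jac B ^ 2) := by
    rw [h5]
    calc (n.factorial : ℝ) = (n.factorial : ℝ) * (|M.det| * jac B ^ 2) := by rw [hM, mul_one]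
      _ = _ := by ring
  exact mul_left_cancel₀ h6 h7

/-- the dilation `(p, v) ↦ (p, r v)` -/
def Dr (r : ℝ) : Euc N × Euc N →L[ℝ] Euc N × Euc N :=
  (ContinuousLinearMap.fst ℝ _ _).prod (r • ContinuousLinearMap.snd ℝ _ _)

theorem Dr_apply (r : ℝ) (ξ : Euc N × Euc N) : Dr r ξ = (ξ.1, r • ξ.2) := rfl

theorem pb_Dr_al (r : ℝ) (q : Euc N × Euc N) :
    F.pb (Dr (N := N) r : Euc N × Euc N →ₗ[ℝ] Euc N × Euc N) (al q) = al q := by
  unfold al
  rw [pb_io]
  rfl

theorem pb_Dr_dal (r : ℝ) :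
    F.pb (Dr (N := N) r : Euc N × Euc N →ₗ[ℝ] Euc N × Euc N) (dal N) = r • dal N := by
  unfold dal
  rw [_root_.map_sum, Finset.smul_sum]
  refine Finset.sum_congr rfl fun i _ => ?_
  rw [map_mul, pb_io, pb_io]
  have h1 : sL (EuclideanSpace.basisFun (Fin N) ℝ i) ∘ₗ
      (Dr (N := N) r : Euc N × Euc N →ₗ[ℝ] Euc N × Euc N) =
      r • sL (EuclideanSpace.basisFun (Fin N) ℝ i) := by
    refine LinearMap.ext fun ξ => ?_
    change ⟪_, r • ξ.2⟫ = r * ⟪_, ξ.2⟫
    rw [inner_smul_right]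
  rw [h1, map_smul, smul_mul_assoc]
  rfl

/-- the cone over a piece of the unit tangent bundle -/
theorem evA_cone {m : ℕ} (hm : m + 1 = n) (q : Euc N × Euc N) (r : ℝ)
    (w : Fin d → Euc N × Euc N) :
    evA _ (d + 1) (dal N ^ n) (Matrix.vecCons ((0, q.2) : Euc N × Euc N) fun i => Dr r (w i)) =
      (n : ℝ) * r ^ m * evA _ d (oUS n N q) w := by
  subst hm
  rw [evA_ii, two_dal.ii_pow, map_smul, AlternatingMap.smul_apply, smul_eq_mul]
  have h1 : omB ((0, q.2) : Euc N × Euc N) = alL q := by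
    refine LinearMap.ext fun η => ?_
    change ⟪q.2, η.1⟫ - ⟪η.2, (0 : Euc N)⟫ = ⟪q.2, η.1⟫
    rw [inner_zero_right, sub_zero]
  rw [h1]
  have h2 := evA_pb d (Dr (N := N) r : Euc N × Euc N →ₗ[ℝ] Euc N × Euc N)
    (io (alL q) * dal N ^ m) w
  have h3 : evA _ d (io (alL q) * dal N ^ m) (fun i => Dr r (w i)) =
      evA _ d (io (alL q) * dal N ^ m)
        (fun i => (Dr (N := N) r : Euc N × Euc N →ₗ[ℝ] Euc N × Euc N) (w i)) := rfl
  rw [h3, ← h2, map_mul, map_pow, pb_Dr_dal]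
  have h4 := pb_Dr_al r q
  unfold al at h4
  rw [h4, smul_pow, mul_smul_comm, map_smul, AlternatingMap.smul_apply, smul_eq_mul]
  unfold oUS al
  rw [Nat.add_sub_cancel]
  push_cast
  ring

end chart

end Crest.Agent.R208.LB
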