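import Crest.Agent.R208.LB3

/-!
R208, block LB (helper971), part 4: the Liouville measure `nu` in a chart of the unit tangent bundle is
given by the contact volume form `al * dal^(n-1)` (times `1/(n-1)!`).
-/

set_option autoImplicit false
set_option linter.unusedSectionVars false

open MeasureTheory Measure Set Filter Topology Module
open scoped ContDiff RealInnerProductSpace ENNReal
open Crest.GeometryTopology.Submanifold
open Crest.Agent.R241.DDefs
open Crest.Agent.R241.D2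
open Crest.Agent.R241
open Crest.Agent.R241.AF (jac jac_nonneg jac_sq_gram finrank_Euc)
open Crest.Agent.R208.F
open Crest.Agent.R208.FI (Clo Sub Chart Tan J Ori dens frame)
open Crest.Agent.R208.L (US TS0 gd gam measurable_gd cst nu Lg dir nrm Fc Lc rho)

noncomputable section

namespace Crest.Agent.R208.LB

/-- normalisation constant of the radial Gaussian -/
def KK (n : ℕ) : ℝ≥0∞ := ∫⁻ r in Ioi (0 : ℝ), ENNReal.ofReal (r ^ (n - 1)) *
    ENNReal.ofReal (Real.exp (-Real.pi * r ^ 2))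

theorem cst_mul_KK {n : ℕ} (hn : 1 ≤ n) : cst n * KK n = 1 := by
  have hV := L.nontrivial_Euc hn
  have h1 : ∫⁻ v : Euc n, gd v = 1 := by
    have h2 : gam (Euc n) univ = 1 := measure_univ
    unfold gam at h2
    rw [withDensity_apply _ MeasurableSet.univ, Measure.restrict_univ] at h2
    exact h2
  rw [L.lintegral_polar (measurable_gd (Euc n)) hV] at h1
  rw [← h1, finrank_Euc]
  have h3 : ∀ u : Metric.sphere (0 : Euc n) 1, ∫⁻ r in Ioi (0 : ℝ), ENNReal.ofReal (r ^ (n - 1)) *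
      gd (r • (u : Euc n)) = KK n := by
    intro u
    have hu : ‖(u : Euc n)‖ = 1 := mem_sphere_zero_iff_norm.1 u.2
    unfold KK
    refine setLIntegral_congr_fun measurableSet_Ioi fun r hr => ?_
    have hr' : (0 : ℝ) < r := hr
    unfold L.gd
    rw [norm_smul, hu, mul_one, Real.norm_of_nonneg hr'.le]
  rw [lintegral_congr h3, lintegral_const, mul_comm]
  rfl

variable {n N d : ℕ} {κ : ℝ} {S : Set (Euc N)} {G : Geo n N κ S}

section cone
variable {g : Eu d → Euc N × Euc N} {W : Set (Eu d)}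

/-- the cone over a chart of the unit tangent bundle -/
def Th (g : Eu d → Euc N × Euc N) (z : Eu d × ℝ) : Euc N × Euc N := ((g z.1).1, z.2 • (g z.1).2)

/-- its derivative -/
def DTh (g : Eu d → Euc N × Euc N) (z : Eu d × ℝ) : Eu d × ℝ →L[ℝ] Euc N × Euc N :=
  ((ContinuousLinearMap.fst ℝ _ _).comp ((fderiv ℝ g z.1).comp (ContinuousLinearMap.fst ℝ _ _))).prod
    (z.2 • ((ContinuousLinearMap.snd ℝ _ _).comp
      ((fderiv ℝ g z.1).comp (ContinuousLinearMap.fst ℝ _ _))) +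
      (ContinuousLinearMap.snd ℝ (Eu d) ℝ).smulRight (g z.1).2)

theorem hasFDerivAt_Th {z : Eu d × ℝ} (hg : DifferentiableAt ℝ g z.1) :
    HasFDerivAt (Th g) (DTh g z) z := by
  have h1 : HasFDerivAt (fun z : Eu d × ℝ => g z.1)
      ((fderiv ℝ g z.1).comp (ContinuousLinearMap.fst ℝ _ _)) z :=
    hg.hasFDerivAt.comp z hasFDerivAt_fst
  have h2 : HasFDerivAt (fun z : Eu d × ℝ => (g z.1).1) _ z :=
    (ContinuousLinearMap.fst ℝ (Euc N) (Euc N)).hasFDerivAt.comp z h1
  have h3 : HasFDerivAt (fun z : Eu d × ℝ => (g z.1).2) _ z :=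
    (ContinuousLinearMap.snd ℝ (Euc N) (Euc N)).hasFDerivAt.comp z h1
  have h4 : HasFDerivAt (fun z : Eu d × ℝ => z.2) (ContinuousLinearMap.snd ℝ (Eu d) ℝ) z :=
    hasFDerivAt_snd
  exact h2.prodMk (h4.smul h3)

theorem DTh_b₁ (z : Eu d × ℝ) :
    (fun i => DTh g z (b₁ d i)) = Matrix.vecCons ((0, (g z.1).2) : Euc N × Euc N)
      fun i => Dr z.2 (fderiv ℝ g z.1 (sb d i)) := by
  funext i
  refine Fin.cases ?_ (fun i => ?_) i
  · rw [b₁_zero]
    simp [DTh]
  · rw [b₁_succ]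
    simp [DTh, Dr_apply]

end cone

/-- **the Liouville measure in a chart of `US`** -/
theorem nu_chart (hn : 1 ≤ n) (hd : d + 1 = 2 * n) {g : Eu d → Euc N × Euc N} {W : Set (Eu d)}
    (hg : Chart d (US G) g W) {p0 : Euc N} {f : Euc n → Euc N} {V : Set (Euc n)}
    (hf : IsLocalParam n N S p0 f V) {O : Set (Euc N)} {ℓ : Euc N → Euc n} (hO : IsOpen O)
    (hℓ : ContDiffOn ℝ ∞ ℓ O) (hℓV : ∀ q ∈ O, ℓ q ∈ V) (hℓS : ∀ q ∈ O, q ∈ S → f (ℓ q) = q)
    {A : Set (Euc N × Euc N)} (hA : MeasurableSet A) (hAg : A ⊆ g '' W) (hAO : ∀ q ∈ A, q.1 ∈ O) :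
    ((n - 1).factorial : ℝ≥0∞) * nu G A =
      ∫⁻ u in g ⁻¹' A ∩ W, ENNReal.ofReal |top d (pull g (oUS n N) u)| := by
  classical
  have hfS : ∀ x ∈ V, f x ∈ S := fun x hx => D.mem_S hf hx
  have hT : ∀ p ∈ S, G.T p = D.Tan S p := fun p hp => T_eq_Tan G hp
  have hAUS : ∀ q ∈ A, q ∈ US G := fun q hq => hg.image_subset (hAg hq)
  -- measurability
  have hVm : MeasurableSet W := hg.isOpen.measurableSet
  have hA₀m : MeasurableSet (g ⁻¹' A ∩ W) := by
    obtain ⟨u, u_meas, uf⟩ : ∃ u, Measurable u ∧ EqOn u g W := by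
      refine ⟨piecewise W g 0, ?_, piecewise_eqOn _ _ _⟩
      exact ContinuousOn.measurable_piecewise hg.contDiffOn.continuousOn
        continuous_zero.continuousOn hVm
    have h1 : g ⁻¹' A ∩ W = u ⁻¹' A ∩ W := by
      ext x
      constructor
      · rintro ⟨h1, h2⟩; exact ⟨by rw [mem_preimage, uf h2]; exact h1, h2⟩
      · rintro ⟨h1, h2⟩; exact ⟨by rw [mem_preimage, ← uf h2]; exact h1, h2⟩
    rw [h1]
    exact (u_meas hA).inter hVm
  set A₀ : Set (Eu d) := g ⁻¹' A ∩ W with hA₀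
  set A' : Set (Euc N × Euc N) := dir ⁻¹' A with hA'
  have hA'm : MeasurableSet A' := L.measurable_dir hA
  -- points of the cone
  have hA'TS : ∀ q ∈ A', q ∈ TS0 G := by
    intro q hq
    have h1 : dir q ∈ US G := hAUS _ hq
    have h2 : q.2 ≠ 0 := by
      intro h
      have h3 : ‖(dir q).2‖ = 1 := h1.2
      have h4 : (dir q).2 = 0 := by
        change nrm q.2 = 0
        rw [h]; unfold L.nrm; rw [smul_zero]
      rw [h4, norm_zero] at h3
      exact zero_ne_one h3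
    refine ⟨⟨h1.1.1, ?_⟩, h2⟩
    have h5 : nrm q.2 ∈ G.T q.1 := h1.1.2
    have h6 : ‖q.2‖ • nrm q.2 = q.2 := by
      unfold L.nrm
      rw [smul_smul, mul_inv_cancel₀ (norm_ne_zero_iff.2 h2), one_smul]
    rw [← h6]
    exact (G.T q.1).smul_mem _ h5
  set B : Set (Eu d × ℝ) := A₀ ×ˢ Ioi (0 : ℝ) with hB
  have hBm : MeasurableSet B := hA₀m.prod measurableSet_Ioi
  set Φ : Eu d × ℝ → Euc n × Euc n := fun z => Lc ℓ (Th g z) with hΦ
  -- facts about the cone
  have hgUS : ∀ u ∈ W, g u ∈ US G := fun u hu => hg.mem hu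
  have hThTS : ∀ z : Eu d × ℝ, z.1 ∈ W → Th g z ∈ TS G := fun z hz =>
    ⟨(hgUS _ hz).1.1, (G.T _).smul_mem _ (hgUS _ hz).1.2⟩
  have hdirTh : ∀ z : Eu d × ℝ, z.1 ∈ W → 0 < z.2 → dir (Th g z) = g z.1 := by
    intro z hz hr
    refine Prod.ext rfl ?_
    exact L.nrm_smul hr (hgUS _ hz).2
  have hThO : ∀ z ∈ B, (Th g z).1 ∈ O := fun z hz => hAO (g z.1) hz.1.1
  have hFΦ : ∀ z ∈ B, Fc f (Φ z) = Th g z := fun z hz =>
    L.Fc_Lc (G := G) hf hO hℓ hℓV hℓS (hThTS z hz.1.2) (hThO z hz)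
  have hΦV : ∀ z ∈ B, Φ z ∈ V ×ˢ (univ : Set (Euc n)) := fun z hz =>
    ⟨hℓV _ (hThO z hz), mem_univ _⟩
  have himg : Φ '' B = Fc f ⁻¹' A' ∩ V ×ˢ univ := by
    apply Subset.antisymm
    · rintro _ ⟨z, hz, rfl⟩
      refine ⟨?_, hΦV z hz⟩
      rw [mem_preimage, hFΦ z hz, hA', mem_preimage, hdirTh z hz.1.2 hz.2]
      exact hz.1.1
    · rintro w ⟨hwA, hw⟩
      have hwA' : dir (Fc f w) ∈ A := hwA
      obtain ⟨u, hu, hgu⟩ := hAg hwA'
      have h0 : (Fc f w).2 ≠ 0 := (hA'TS _ hwA).2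
      have hTh : Th g (u, ‖(Fc f w).2‖) = Fc f w := by
        refine Prod.ext ?_ ?_
        · change (g u).1 = _
          rw [hgu]; rfl
        · change ‖(Fc f w).2‖ • (g u).2 = _
          rw [hgu]
          change ‖(Fc f w).2‖ • (‖(Fc f w).2‖⁻¹ • (Fc f w).2) = _
          rw [smul_smul, mul_inv_cancel₀ (norm_ne_zero_iff.2 h0), one_smul]
      have hzB : (u, ‖(Fc f w).2‖) ∈ B :=
        ⟨⟨by rw [mem_preimage, hgu]; exact hwA', hu⟩, norm_pos_iff.2 h0⟩
      refine ⟨(u, ‖(Fc f w).2‖), hzB, ?_⟩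
      apply L.injOn_Fc hf (hΦV _ hzB) hw
      rw [hFΦ _ hzB, hTh]
  have hΦinj : InjOn Φ B := by
    intro z hz z' hz' hzz
    have h1 : Th g z = Th g z' := by rw [← hFΦ z hz, ← hFΦ z' hz', hzz]
    have h2 : g z.1 = g z'.1 := by
      rw [← hdirTh z hz.1.2 hz.2, ← hdirTh z' hz'.1.2 hz'.2, h1]
    have h3 : z.1 = z'.1 := hg.injOn hz.1.2 hz'.1.2 h2
    have h4 : ‖(Th g z).2‖ = ‖(Th g z').2‖ := by rw [h1]
    change ‖z.2 • (g z.1).2‖ = ‖z'.2 • (g z'.1).2‖ at h4
    rw [norm_smul, norm_smul, (hgUS _ hz.1.2).2, (hgUS _ hz'.1.2).2, mul_one, mul_one,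
      Real.norm_of_nonneg (le_of_lt hz.2), Real.norm_of_nonneg (le_of_lt hz'.2)] at h4
    exact Prod.ext h3 h4
  have hgd : ∀ u ∈ W, DifferentiableAt ℝ g u := fun u hu => hg.differentiableAt hu
  have hΦd : ∀ z ∈ B, DifferentiableAt ℝ Φ z := by
    intro z hz
    have h1 : DifferentiableAt ℝ (Th g) z := (hasFDerivAt_Th (hgd _ hz.1.2)).differentiableAt
    have h3 : DifferentiableAt ℝ (Lc ℓ) (Th g z) := L.differentiableAt_Lc hO hℓ (hThO z hz)
    exact DifferentiableAt.comp z h3 h1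
  -- the derivative of the chart
  set L' : Eu d × ℝ → Euc n × Euc n →L[ℝ] Euc n × Euc n := fun z =>
    (fderiv ℝ Φ z).comp ((kap hd).symm : Euc n × Euc n →L[ℝ] Eu d × ℝ) with hL'
  have hm : n - 1 + 1 = n := by omega
  have key : ∀ z ∈ B, |(L' z).det| * jac (fderiv ℝ f (Φ z).1) ^ 2 * ((n - 1).factorial : ℝ) =
      z.2 ^ (n - 1) * |top d (pull g (oUS n N) z.1)| := by
    intro z hz
    have hw1 : (Φ z).1 ∈ V := (hΦV z hz).1
    have hcTh : ContinuousAt (Th g) z := (hasFDerivAt_Th (hgd _ hz.1.2)).continuousAt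
    have hev : (fun z => Fc f (Φ z)) =ᶠ[𝓝 z] Th g := by
      have e1 : ∀ᶠ z' in 𝓝 z, z'.1 ∈ W :=
        continuous_fst.continuousAt.eventually (hg.isOpen.mem_nhds hz.1.2)
      have e3 : ∀ᶠ z' in 𝓝 z, (Th g z').1 ∈ O :=
        (continuous_fst.continuousAt.comp hcTh).eventually (hO.mem_nhds (hThO z hz))
      filter_upwards [e1, e3] with z' h1 h3
      exact L.Fc_Lc (G := G) hf hO hℓ hℓV hℓS (hThTS z' h1) h3
    have hd1 : HasFDerivAt (fun z => Fc f (Φ z))
        ((fderiv ℝ (Fc f) (Φ z)).comp (fderiv ℝ Φ z)) z :=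
      (L.hasFDerivAt_Fc hf hw1).comp z (hΦd z hz).hasFDerivAt
    have hd3 := (hd1.congr_of_eventuallyEq hev.symm).unique (hasFDerivAt_Th (hgd _ hz.1.2))
    have e1 := evA_det (b₂ hd) (L' z)
      (F.pb (fderiv ℝ (Fc f) (Φ z) : Euc n × Euc n →ₗ[ℝ] Euc N × Euc N) (dal N ^ n))
    rw [evA_pb, evA_pb] at e1
    have e2 : (fun i => (fderiv ℝ (Fc f) (Φ z) : Euc n × Euc n →ₗ[ℝ] Euc N × Euc N)
        (L' z (b₂ hd i))) = fun i => DTh g z (b₁ d i) := by
      funext i
      change fderiv ℝ (Fc f) (Φ z) (fderiv ℝ Φ z ((kap hd).symm (b₂ hd i))) = _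
      rw [kap_symm_b₂, ← hd3]
      rfl
    rw [e2, DTh_b₁, evA_cone hm] at e1
    have e3 := abs_evA_chart (N := N) hd (hf.injective_fderiv _ hw1)
      (B := fderiv ℝ f (Φ z).1) (C := (fderiv ℝ (fderiv ℝ f) (Φ z).1).flip (Φ z).2)
      (L := fderiv ℝ (Fc f) (Φ z))
      (fun b => by rw [L.fderiv_Fc_apply hf hw1]; simp)
      (fun a => by rw [L.fderiv_Fc_apply hf hw1]; simp)
    have e4 : evA _ d (oUS n N (g z.1)) (fun i => fderiv ℝ g z.1 (sb d i)) =
        top d (pull g (oUS n N) z.1) := by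
      unfold pull
      rw [top_pb]
      rfl
    rw [e4] at e1
    have e5 : (n : ℝ) * (z.2 ^ (n - 1) * |top d (pull g (oUS n N) z.1)|) =
        (n : ℝ) * (|(L' z).det| * jac (fderiv ℝ f (Φ z).1) ^ 2 * ((n - 1).factorial : ℝ)) := by
      have e6 : |(n : ℝ) * z.2 ^ (n - 1) * top d (pull g (oUS n N) z.1)| =
          |(L' z).det| * ((n.factorial : ℝ) * jac (fderiv ℝ f (Φ z).1) ^ 2) := by
        rw [e1, abs_mul]
        congr 1
      rw [abs_mul, abs_of_nonneg (mul_nonneg (Nat.cast_nonneg n)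
        (pow_nonneg (le_of_lt hz.2) _))] at e6
      have e7 : (n.factorial : ℝ) = n * ((n - 1).factorial : ℝ) := by
        rw [← Nat.mul_factorial_pred (by omega)]
        push_cast; ring
      rw [e7] at e6
      calc _ = (n : ℝ) * z.2 ^ (n - 1) * |top d (pull g (oUS n N) z.1)| := by ring
        _ = _ := by rw [e6]; ring
    have hn0 : (n : ℝ) ≠ 0 := by
      have : n ≠ 0 := by omega
      exact_mod_cast this
    exact (mul_left_cancel₀ hn0 e5).symm
  -- change of variables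
  have hcv : Lg G A' = ∫⁻ z in B, ENNReal.ofReal |(L' z).det| * rho f (Φ z) := by
    rw [L.Lg_chart G hT hf hfS hA'm (by
      intro q hq _
      have h1 : (dir q).1 ∈ O := hAO _ hq
      have h2 : (dir q).1 ∈ S := (hAUS _ hq).1.1
      exact ⟨ℓ (dir q).1, hℓV _ h1, hℓS _ h1 h2⟩), ← himg]
    have hmp := measurePreserving_kap (n := n) hd
    have himg2 : Φ '' B = (fun y => Φ ((kap hd).symm y)) '' (kap hd '' B) := by
      rw [image_image]
      simp only [ContinuousLinearEquiv.symm_apply_apply]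
    have hme : MeasurableEmbedding (kap (n := n) hd) :=
      (kap (n := n) hd).toHomeomorph.measurableEmbedding
    have hkBm : MeasurableSet (kap (n := n) hd '' B) := hme.measurableSet_image.2 hBm
    have hder : ∀ y ∈ kap hd '' B, HasFDerivWithinAt (fun y => Φ ((kap hd).symm y))
        (L' ((kap hd).symm y)) (kap hd '' B) y := by
      rintro _ ⟨z, hz, rfl⟩
      have h1 : HasFDerivAt Φ (fderiv ℝ Φ z) ((kap hd).symm (kap hd z)) := by
        rw [ContinuousLinearEquiv.symm_apply_apply]; exact (hΦd z hz).hasFDerivAt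
      have h2 := h1.comp (kap hd z) ((kap hd).symm : Euc n × Euc n →L[ℝ] Eu d × ℝ).hasFDerivAt
      rw [hL']
      simp only [ContinuousLinearEquiv.symm_apply_apply]
      exact h2.hasFDerivWithinAt
    have hinj : InjOn (fun y => Φ ((kap hd).symm y)) (kap hd '' B) := by
      rintro _ ⟨z, hz, rfl⟩ _ ⟨z', hz', rfl⟩ h
      simp only [ContinuousLinearEquiv.symm_apply_apply] at h
      rw [hΦinj hz hz' h]
    have hHaar : IsAddHaarMeasure (volume : Measure (Euc n × Euc n)) :=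
      prod.instIsAddHaarMeasure volume volume
    have h3 := lintegral_image_eq_lintegral_abs_det_fderiv_mul volume hkBm hder hinj (rho f)
    rw [himg2, h3]
    have h4 := hmp.setLIntegral_comp_preimage_emb hme
      (fun y => ENNReal.ofReal |(L' ((kap hd).symm y)).det| * rho f (Φ ((kap hd).symm y)))
      (kap hd '' B)
    rw [← h4, (kap (n := n) hd).injective.preimage_image]
    simp only [ContinuousLinearEquiv.symm_apply_apply]
  -- the integrand
  have hint : ∀ z ∈ B, ((n - 1).factorial : ℝ≥0∞) * (ENNReal.ofReal |(L' z).det| * rho f (Φ z)) =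
      ENNReal.ofReal |top d (pull g (oUS n N) z.1)| *
        (ENNReal.ofReal (z.2 ^ (n - 1)) * ENNReal.ofReal (Real.exp (-Real.pi * z.2 ^ 2))) := by
    intro z hz
    have h1 : gd (fderiv ℝ f (Φ z).1 (Φ z).2) = ENNReal.ofReal (Real.exp (-Real.pi * z.2 ^ 2)) := by
      have h2 : fderiv ℝ f (Φ z).1 (Φ z).2 = z.2 • (g z.1).2 := congrArg Prod.snd (hFΦ z hz)
      rw [h2]
      unfold L.gd
      rw [norm_smul, (hgUS _ hz.1.2).2, mul_one, Real.norm_of_nonneg (le_of_lt hz.2)]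
    unfold L.rho
    rw [h1, ← ENNReal.ofReal_natCast, ← mul_assoc, ← mul_assoc, ← mul_assoc,
      ← ENNReal.ofReal_mul (Nat.cast_nonneg _), ← ENNReal.ofReal_mul (by positivity),
      ← ENNReal.ofReal_mul (abs_nonneg _)]
    congr 2
    have := key z hz
    nlinarith [this]
  have hfac : ((n - 1).factorial : ℝ≥0∞) ≠ ⊤ := ENNReal.natCast_ne_top _
  have hLg : ((n - 1).factorial : ℝ≥0∞) * Lg G A' =
      (∫⁻ u in A₀, ENNReal.ofReal |top d (pull g (oUS n N) u)|) * KK n := by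
    rw [hcv, ← lintegral_const_mul' _ _ hfac, setLIntegral_congr_fun hBm hint, volume_eq_prod,
      hB, ← Measure.prod_restrict]
    rw [lintegral_prod_mul (μ := volume.restrict A₀) (ν := volume.restrict (Ioi (0 : ℝ)))
      (f := fun u => ENNReal.ofReal |top d (pull g (oUS n N) u)|)
      (g := fun r => ENNReal.ofReal (r ^ (n - 1)) * ENNReal.ofReal (Real.exp (-Real.pi * r ^ 2)))]
    · rfl
    · have h1 : ContinuousOn (fun u => |top d (pull g (oUS n N) u)|) W :=
        (FI.continuous_top.comp_continuousOn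
          (hg.continuousOn_pull continuous_oUS.continuousOn)).abs
      have h2 : AEMeasurable (fun u => |top d (pull g (oUS n N) u)|) (volume.restrict W) :=
        h1.aemeasurable hVm
      exact (h2.mono_measure (Measure.restrict_mono inter_subset_right le_rfl)).ennreal_ofReal
    · fun_prop
  rw [L.nu_eq, Measure.smul_apply, map_apply L.measurable_dir hA, smul_eq_mul, mul_left_comm,
    hLg, mul_left_comm, cst_mul_KK hn, mul_one]

end Crest.Agent.R208.LB
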