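import Crest.Agent.R208.THD2
import Crest.Agent.R208.SN6
import Crest.Agent.R208.TP2

/-! Row 208, block LC (helper125), part LC1: the fibre integral `push` against a Thom form of the
complement, computed by Fubini in an adapted orthonormal frame. -/

set_option autoImplicit false
set_option linter.unusedSectionVars false
set_option linter.unusedSimpArgs false

open MeasureTheory Set Filter Topology Module Matrix
open scoped ContDiff
open Crest.Agent.R208.F Crest.Agent.R208.FI Crest.Agent.R208.CW Crest.Agent.R208.T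
open Crest.Agent.R208.TP

noncomputable section

namespace Crest.Agent.R208.LC

/-! ### iterated contraction -/
section alg
variable {G : Type*} [NormedAddCommGroup G] [NormedSpace ℝ G] [FiniteDimensional ℝ G]

theorem evA_iisF {n q : ℕ} (v : Fin n → G) (c : Ext G) (w : Fin q → G) :
    evA G q (iis (List.ofFn v) c) w = evA G (n + q) c (Fin.append v w) := by
  induction n generalizing c with
  | zero =>
    rw [List.ofFn_zero, iis_nil]
    have h0 : Fin.append v w = w ∘ Fin.cast (Nat.zero_add q) := Fin.append_left_nil _ _ rfl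
    rw [h0, evA_cast]
  | succ n ih =>
    rw [List.ofFn_succ, iis_cons, ih, ← evA_ii]
    have h1 : Fin.append v w = (Matrix.vecCons (v 0) (Fin.append (fun i => v i.succ) w)) ∘
        Fin.cast (by omega : n + 1 + q = n + q + 1) := by
      have : v = Fin.cons (v 0) (fun i => v i.succ) := by
        funext i; refine Fin.cases ?_ (fun i => ?_) i <;> simp
      conv_lhs => rw [this]
      rw [Fin.append_cons]
      rfl
    rw [h1, evA_cast]

theorem iis_comb {n : ℕ} (v w : Fin n → G) (M : Matrix (Fin n) (Fin n) ℝ)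
    (h : ∀ i, w i = ∑ j, M i j • v j) (c : Ext G) :
    iis (List.ofFn w) c = M.det • iis (List.ofFn v) c := by
  refine ext_evA fun q => ?_
  ext u
  rw [map_smul, AlternatingMap.smul_apply, evA_iisF, evA_iisF, smul_eq_mul]
  have h1 := evA_comb (n + q) c (Fin.append v u) (Fin.append w u)
    ((Matrix.fromBlocks M 0 0 (1 : Matrix (Fin q) (Fin q) ℝ)).submatrix finSumFinEquiv.symm
      finSumFinEquiv.symm) ?_
  · rw [h1, Matrix.det_submatrix_equiv_self, Matrix.det_fromBlocks_zero₂₁, Matrix.det_one, mul_one]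
  · intro i
    refine Fin.addCases (fun i => ?_) (fun i => ?_) i
    · rw [Fin.append_left, h i, Fin.sum_univ_add]
      simp
    · rw [Fin.append_right, Fin.sum_univ_add]
      simp [Matrix.one_apply]

theorem iis_smul_one {n : ℕ} (v : Fin n → G) (s : ℝ) (c : Ext G) :
    iis (List.ofFn fun i => s • v i) c = s ^ n • iis (List.ofFn v) c := by
  have h1 := iis_comb v (fun i => s • v i) (s • (1 : Matrix (Fin n) (Fin n) ℝ)) (fun i => by
    simp [Matrix.one_apply]) c
  rw [h1, Matrix.det_smul, Matrix.det_one, mul_one, Fintype.card_fin]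

end alg

/-! ### the constant `δ(H)` -/
section delta
variable (H : Type*) [NormedAddCommGroup H] [InnerProductSpace ℝ H] [FiniteDimensional ℝ H]

/-- the determinant of `Module.finBasis` in an orthonormal basis -/
def del : ℝ := |(stdOrthonormalBasis ℝ H).toBasis.det (Module.finBasis ℝ H)|

theorem del_pos : 0 < del H := by
  rw [del]
  exact abs_pos.2 ((stdOrthonormalBasis ℝ H).toBasis.isUnit_det (Module.finBasis ℝ H)).ne_zero

variable {H}

theorem abs_det_eq {m : ℕ} (hm : finrank ℝ H = m) (b : OrthonormalBasis (Fin m) ℝ H)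
    {M : Matrix (Fin m) (Fin m) ℝ}
    (hM : ∀ k, Module.finBasis ℝ H (Fin.cast hm.symm k) = ∑ l, M k l • b l) : |M.det| = del H := by
  subst hm
  have h1 : b.toBasis.toMatrix (Module.finBasis ℝ H) = M.transpose := by
    ext i j
    have h2 := hM j
    rw [Fin.cast_eq_self] at h2
    rw [Basis.toMatrix_apply, h2, _root_.map_sum]
    simp only [map_smul, Finsupp.coe_finsetSum, Finset.sum_apply, Finsupp.smul_apply]
    have h3 : ∀ l, (b.toBasis.repr (b l)) i = if l = i then 1 else 0 := by
      intro l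
      have := b.toBasis.repr_self_apply l i
      rwa [OrthonormalBasis.coe_toBasis] at this
    simp [h3, Matrix.transpose_apply]
  have h2 : b.toBasis.toMatrix (stdOrthonormalBasis ℝ H).toBasis *
      (stdOrthonormalBasis ℝ H).toBasis.toMatrix (Module.finBasis ℝ H) =
      b.toBasis.toMatrix (Module.finBasis ℝ H) := Basis.toMatrix_mul_toMatrix _ _ _
  have h3 := congrArg Matrix.det h2
  rw [Matrix.det_mul, h1, Matrix.det_transpose] at h3
  have h4 : |(b.toBasis.toMatrix (stdOrthonormalBasis ℝ H).toBasis).det| = 1 := by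
    have h5 := b.det_to_matrix_orthonormalBasis_real (stdOrthonormalBasis ℝ H)
    rw [Basis.det_apply] at h5
    rw [OrthonormalBasis.coe_toBasis]
    rcases h5 with h5 | h5 <;> rw [h5] <;> simp
  rw [← h3, abs_mul, h4, one_mul]
  rfl

end delta

/-! ### the contraction in an adapted frame -/
section contr
variable {E H G : Type*} [NormedAddCommGroup E] [NormedSpace ℝ E] [FiniteDimensional ℝ E]
  [NormedAddCommGroup H] [InnerProductSpace ℝ H] [FiniteDimensional ℝ H]
  [NormedAddCommGroup G] [NormedSpace ℝ G] [FiniteDimensional ℝ G]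

/-- an orthonormal basis `(f', f)` -/
structure Adp {q r : ℕ} (f' : Fin q → H) (f : Fin r → H) : Prop where
  on : Orthonormal ℝ (Fin.append f' f)
  sp : ⊤ ≤ Submodule.span ℝ (Set.range (Fin.append f' f))

variable {q r : ℕ} {f' : Fin q → H} {f : Fin r → H}

def Adp.basis (h : Adp f' f) : OrthonormalBasis (Fin (q + r)) ℝ H := OrthonormalBasis.mk h.on h.sp

theorem Adp.coe (h : Adp f' f) : (h.basis : Fin (q + r) → H) = Fin.append f' f :=
  OrthonormalBasis.coe_mk _ _

theorem Adp.finrank (h : Adp f' f) : finrank ℝ H = q + r := by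
  rw [Module.finrank_eq_card_basis h.basis.toBasis, Fintype.card_fin]

/-- the change of basis matrix -/
def Adp.mat (h : Adp f' f) : Matrix (Fin (q + r)) (Fin (q + r)) ℝ :=
  Matrix.of fun k l => h.basis.repr (Module.finBasis ℝ H (Fin.cast h.finrank.symm k)) l

theorem Adp.mat_spec (h : Adp f' f) (k : Fin (q + r)) :
    Module.finBasis ℝ H (Fin.cast h.finrank.symm k) = ∑ l, h.mat k l • h.basis l :=
  (h.basis.sum_repr _).symm

theorem Adp.abs_det (h : Adp f' f) : |h.mat.det| = del H := abs_det_eq h.finrank _ h.mat_spec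

theorem cH_eq (h : Adp f' f) (j : E →L[ℝ] G) (i : H →L[ℝ] G) (c : Ext G) :
    cH j i c = h.mat.det • pb (j : E →ₗ[ℝ] G)
      (iis (List.ofFn fun k => i (f k)) (iis (List.ofFn fun k => i (f' k)) c)) := by
  have e1 : vfr i = List.ofFn (fun k : Fin (q + r) => i (Module.finBasis ℝ H
      (Fin.cast h.finrank.symm k))) := by
    rw [vfr, List.map_ofFn]
    exact List.ofFn_congr h.finrank _
  have e2 := iis_comb (fun k => i (h.basis k))
    (fun k : Fin (q + r) => i (Module.finBasis ℝ H (Fin.cast h.finrank.symm k))) h.mat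
    (fun k => by
      rw [h.mat_spec k, _root_.map_sum]
      simp only [map_smul]) c
  have e3 : List.ofFn (fun k => i (h.basis k)) =
      List.ofFn (fun k => i (f' k)) ++ List.ofFn (fun k => i (f k)) := by
    rw [← List.ofFn_fin_append]
    congr 1
    funext k
    rw [h.coe]
    refine Fin.addCases (fun k => ?_) (fun k => ?_) k
    · rw [Fin.append_left, Fin.append_left]
    · rw [Fin.append_right, Fin.append_right]
  rw [cH_apply, e1, e2, e3, iis_append, map_smul]

/-- contraction with the vertical vectors `f`, restricted to the base -/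
def cF (E : Type*) [NormedAddCommGroup E] [NormedSpace ℝ E] [FiniteDimensional ℝ E]
    (f : Fin r → H) : Ext (E × H) →L[ℝ] Ext E :=
  (pbL (ContinuousLinearMap.inl ℝ E H)).comp
    (iisL (List.ofFn fun k => (ContinuousLinearMap.inr ℝ E H) (f k)))

theorem cF_apply (f : Fin r → H) (c : Ext (E × H)) : cF E f c =
    pb (ContinuousLinearMap.inl ℝ E H : E →ₗ[ℝ] E × H)
      (iis (List.ofFn fun k => (ContinuousLinearMap.inr ℝ E H) (f k)) c) := rfl

theorem evA_cF (f : Fin r → H) (c : Ext (E × H)) {p : ℕ} (w : Fin p → E) :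
    evA E p (cF E f c) w = evA (E × H) (r + p) c
      (Fin.append (fun k => ((0 : E), f k)) (fun k => (w k, (0 : H)))) := by
  rw [cF_apply, evA_pb, evA_iisF]
  rfl

/-- **the integrand** in an adapted frame -/
theorem cH_prod (h : Adp f' f) {Ξ : Ext H} {s : ℝ} {B : E × H →L[ℝ] E × H}
    (h1 : ∀ k, B ((0 : E), f' k) = 0) (h2 : ∀ k, B ((0 : E), f k) = s • ((0 : E), f k))
    (h3 : ∀ e : E, B (e, 0) = (e, 0)) (hΞ : IsDeg q Ξ) (w : Ext (E × H)) :
    cH (ContinuousLinearMap.inl ℝ E H) (ContinuousLinearMap.inr ℝ E H)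
      (pb (ContinuousLinearMap.snd ℝ E H : E × H →ₗ[ℝ] H) Ξ * pb (B : E × H →ₗ[ℝ] E × H) w) =
      (h.mat.det * evA H q Ξ f' * s ^ r) • cF E f w := by
  have e1 : iis (List.ofFn fun k => (ContinuousLinearMap.inr ℝ E H) (f' k))
      (pb (ContinuousLinearMap.snd ℝ E H : E × H →ₗ[ℝ] H) Ξ * pb (B : E × H →ₗ[ℝ] E × H) w) =
      evA H q Ξ f' • pb (B : E × H →ₗ[ℝ] E × H) w := by
    rw [iis_mul_horiz, iis_pb, List.map_ofFn]
    · have e2 : iis (List.ofFn (⇑(ContinuousLinearMap.snd ℝ E H : E × H →ₗ[ℝ] H) ∘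
          fun k => (ContinuousLinearMap.inr ℝ E H) (f' k))) Ξ =
          algebraMap ℝ (Ext H) (evA H q Ξ f') := by
        have e3 : (⇑(ContinuousLinearMap.snd ℝ E H : E × H →ₗ[ℝ] H) ∘
          fun k => (ContinuousLinearMap.inr ℝ E H) (f' k)) = f' := by funext k; rfl
        rw [e3, eq_algebraMap_of_isDeg (isDeg_iisF (q := 0) f' (by rwa [zero_add])) ![], evA_iis]
      rw [e2, AlgHom.commutes, ← Algebra.smul_def]
    · intro v hv
      rw [List.mem_ofFn] at hv
      obtain ⟨k, rfl⟩ := hv
      rw [ii_pb]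
      have : (B : E × H →ₗ[ℝ] E × H) ((ContinuousLinearMap.inr ℝ E H) (f' k)) = 0 := h1 k
      rw [this]
      simp
  have e4 : iis (List.ofFn fun k => (ContinuousLinearMap.inr ℝ E H) (f k))
      (pb (B : E × H →ₗ[ℝ] E × H) w) = s ^ r • pb (B : E × H →ₗ[ℝ] E × H)
        (iis (List.ofFn fun k => (ContinuousLinearMap.inr ℝ E H) (f k)) w) := by
    rw [iis_pb, List.map_ofFn]
    have : (⇑(B : E × H →ₗ[ℝ] E × H) ∘ fun k => (ContinuousLinearMap.inr ℝ E H) (f k)) =
        fun k => s • (ContinuousLinearMap.inr ℝ E H) (f k) := by funext k; exact h2 k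
    rw [this, iis_smul_one, map_smul]
  have e5 : (B : E × H →ₗ[ℝ] E × H) ∘ₗ (ContinuousLinearMap.inl ℝ E H : E →ₗ[ℝ] E × H) =
      (ContinuousLinearMap.inl ℝ E H : E →ₗ[ℝ] E × H) := by
    ext e
    · exact congrArg Prod.fst (h3 e)
    · exact congrArg Prod.snd (h3 e)
  rw [cH_eq h, e1, map_smul, e4, map_smul, map_smul, pb_comp, e5, cF_apply, smul_smul, smul_smul]

end contr

/-! ### Fubini in an adapted frame -/
section fub
variable {H : Type*} [NormedAddCommGroup H] [InnerProductSpace ℝ H] [FiniteDimensional ℝ H]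
  {q r : ℕ} {f' : Fin q → H} {f : Fin r → H}

/-- the linear map with columns `f` -/
def cmb (f : Fin r → H) : Eu r →L[ℝ] H :=
  LinearMap.toContinuousLinearMap
    ((Fintype.linearCombination ℝ f) ∘ₗ (EuclideanSpace.equiv (Fin r) ℝ).toLinearMap)

theorem cmb_apply (f : Fin r → H) (a : Eu r) : cmb f a = ∑ k, a k • f k := by
  simp [cmb, Fintype.linearCombination_apply]

theorem cmb_sb (f : Fin r → H) (k : Fin r) : cmb f (sb r k) = f k := by
  rw [cmb_apply]
  simp [EuclideanSpace.basisFun_apply]

theorem norm_cmb (hf : Orthonormal ℝ f) (a : Eu r) : ‖cmb f a‖ = ‖a‖ := by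
  have h1 : ‖cmb f a‖ ^ 2 = ‖a‖ ^ 2 := by
    rw [← real_inner_self_eq_norm_sq, cmb_apply, EuclideanSpace.norm_sq_eq, hf.inner_sum]
    simp [sq]
  exact (pow_left_inj₀ (norm_nonneg _) (norm_nonneg _) two_ne_zero).1 h1

theorem Adp.on' (h : Adp f' f) : Orthonormal ℝ f' := by
  have := h.on.comp (Fin.castAdd r) (Fin.castAdd_injective q r)
  convert this using 1
  funext k; simp

theorem Adp.on'' (h : Adp f' f) : Orthonormal ℝ f := by
  have := h.on.comp (Fin.natAdd q) (Fin.natAdd_injective r q)
  convert this using 1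
  funext k; simp

variable [MeasurableSpace H] [BorelSpace H]

theorem Adp.integral (h : Adp f' f) {Y : Type*} [NormedAddCommGroup Y] [NormedSpace ℝ Y]
    {g : H → Y} {φ : Eu q → ℝ} {Ψ : Eu r → Y}
    (hg : ∀ a b, g (cmb f' a + cmb f b) = φ a • Ψ b) :
    ∫ x, g x = (∫ a, φ a) • ∫ b, Ψ b := by
  have m1 : MeasurePreserving (h.basis.repr.symm : Eu (q + r) → H) := 
    LinearIsometryEquiv.measurePreserving _
  have m2 := measurePreserving_kap q r
  have e1 : ∫ x, g x = ∫ u, g (h.basis.repr.symm u) :=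
    (m1.integral_comp h.basis.repr.symm.toHomeomorph.measurableEmbedding g).symm
  have e2 : ∀ u : Eu (q + r), g (h.basis.repr.symm u) =
      (fun p : Eu q × Eu r => φ p.1 • Ψ p.2) (kap q r u) := by
    intro u
    have h1 : h.basis.repr.symm u = cmb f' (kap q r u).1 + cmb f (kap q r u).2 := by
      have h2 : (h.basis.repr.symm u : H) = ∑ k, u k • h.basis k := by
        have := h.basis.sum_repr_symm u
        exact this.symm
      rw [h2, h.coe, Fin.sum_univ_add, cmb_apply, cmb_apply]
      simp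
    rw [h1, hg]
  rw [e1]
  simp only [e2]
  rw [m2.integral_comp (kap q r).toHomeomorph.measurableEmbedding
    (fun p : Eu q × Eu r => φ p.1 • Ψ p.2), Measure.volume_eq_prod]
  exact integral_prod_smul φ Ψ

end fub

/-! ### frames of projection fields -/
section frames
variable {n ι : Type*} [Fintype n] [DecidableEq n] [Fintype ι] [DecidableEq ι]

/-- the columns of a frame -/
def col (g : Matrix n (ι × Fin 2) ℝ) (k : Fin (Fintype.card ι * 2)) : EuclideanSpace ℝ n :=
  WithLp.toLp 2 fun i => g i ((kFin ι).symm k)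

variable {g : Matrix n (ι × Fin 2) ℝ}

theorem inner_col (g : Matrix n (ι × Fin 2) ℝ) (k : Fin (Fintype.card ι * 2))
    (v : EuclideanSpace ℝ n) : inner ℝ (col g k) v = ∑ i, g i ((kFin ι).symm k) * v i := by
  rw [PiLp.inner_apply]
  refine Finset.sum_congr rfl fun i _ => ?_
  rw [RCLike.inner_apply, conj_trivial, mul_comm]
  rfl

theorem col_inner (hg : gᵀ * g = 1) (k l : Fin (Fintype.card ι * 2)) :
    inner ℝ (col g k) (col g l) = if k = l then (1 : ℝ) else 0 := by
  rw [inner_col]
  have h1 := congrFun (congrFun hg ((kFin ι).symm k)) ((kFin ι).symm l)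
  rw [Matrix.mul_apply, Matrix.one_apply] at h1
  have h2 : (∑ i, g i ((kFin ι).symm k) * col g l i) = ∑ j, gᵀ ((kFin ι).symm k) j *
      g j ((kFin ι).symm l) := rfl
  rw [h2, h1]
  simp

theorem evA_Xi_col (hg : gᵀ * g = 1) :
    evA (EuclideanSpace ℝ n) (Fintype.card ι * 2) (Xi g) (col g) = 1 := by
  rw [Xi, evA_iMulti]
  have : (Matrix.of fun i j => eta g ((kFin ι).symm j) (col g i)) =
      (1 : Matrix (Fin (Fintype.card ι * 2)) (Fin (Fintype.card ι * 2)) ℝ) := by
    ext i j
    rw [Matrix.of_apply, eta_apply, ← inner_col, col_inner hg, Matrix.one_apply]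
    simp [eq_comm]
  rw [this, Matrix.det_one]

theorem proj_col {A : EuclideanSpace ℝ n →L[ℝ] EuclideanSpace ℝ n}
    (hA : ∀ v i, A v i = ∑ j, (g * gᵀ) i j * v j) (v : EuclideanSpace ℝ n) :
    A v = ∑ k, inner ℝ (col g k) v • col g k := by
  ext i
  rw [hA, sum_mul_transpose, ← (kFin ι).symm.sum_comp]
  have e : (∑ k, inner ℝ (col g k) v • col g k : EuclideanSpace ℝ n) i =
      ∑ k, inner ℝ (col g k) v * g i ((kFin ι).symm k) := by
    have h1 := map_sum (EuclideanSpace.proj i : EuclideanSpace ℝ n →L[ℝ] ℝ)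
      (fun k => inner ℝ (col g k) v • col g k) Finset.univ
    simp only [map_smul] at h1
    exact h1
  rw [e]
  refine Finset.sum_congr rfl fun k _ => ?_
  rw [inner_col, mul_comm]

/-- **adapted frames** -/
theorem exists_adp {E : Type*} {r : ℕ} {x : E}
    {P : E → EuclideanSpace ℝ n →L[ℝ] EuclideanSpace ℝ n}
    (hr : finrank ℝ (LinearMap.range (P x : EuclideanSpace ℝ n →ₗ[ℝ] EuclideanSpace ℝ n)) = r)
    (hid : ∀ v, P x (P x v) = P x v) (hg : gᵀ * g = 1)
    (hP : ∀ v i, (1 - P x) v i = ∑ j, (g * gᵀ) i j * v j) :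
    ∃ f : Fin r → EuclideanSpace ℝ n, Adp (col g) f ∧ (∀ k, P x (f k) = f k) ∧
      (∀ k, P x (col g k) = 0) ∧
      ∀ v, P x v = v → ∃ a : Eu r, cmb f a = v := by
  have hp := proj_col hP
  have hc : ∀ k, P x (col g k) = 0 := by
    intro k
    have h1 := hp (col g k)
    simp only [col_inner hg, ite_smul, one_smul, zero_smul, Finset.sum_ite_eq',
      Finset.mem_univ, if_true] at h1
    have h2 : (1 - P x) (col g k) = col g k - P x (col g k) := rfl
    rw [h2] at h1
    simpa using h1
  let b := (stdOrthonormalBasis ℝ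
    (LinearMap.range (P x : EuclideanSpace ℝ n →ₗ[ℝ] EuclideanSpace ℝ n))).reindex (finCongr hr)
  let f : Fin r → EuclideanSpace ℝ n := fun k => (b k : EuclideanSpace ℝ n)
  have hf : ∀ k, P x (f k) = f k := by
    intro k
    obtain ⟨v, hv⟩ := (b k).2
    have : P x v = f k := hv
    rw [← this, hid]
  have hfo : ∀ k l, inner ℝ (f k) (f l) = if k = l then (1 : ℝ) else 0 := by
    intro k l
    exact orthonormal_iff_ite.1 b.orthonormal k l
  have hcf : ∀ k l, inner ℝ (col g k) (f l) = (0 : ℝ) := by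
    intro k l
    have h1 := hp (f l)
    have h2 : (1 - P x) (f l) = 0 := by
      have : (1 - P x) (f l) = f l - P x (f l) := rfl
      rw [this, hf, sub_self]
    rw [h2] at h1
    have h3 := congrArg (fun w => inner ℝ (col g k) w) h1
    simp only [inner_zero_right, inner_sum, inner_smul_right, col_inner hg, mul_ite, mul_one,
      mul_zero, Finset.sum_ite_eq, Finset.mem_univ, if_true] at h3
    exact h3.symm
  have hrep : ∀ v, P x v = ∑ k, b.repr ⟨P x v, ⟨v, rfl⟩⟩ k • f k := by
    intro v
    have h1 := b.sum_repr ⟨P x v, ⟨v, rfl⟩⟩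
    have h2 := congrArg (Submodule.subtype _) h1
    rw [_root_.map_sum] at h2
    exact h2.symm
  refine ⟨f, ⟨?_, ?_⟩, hf, hc, fun v hv => ?_⟩
  · rw [orthonormal_iff_ite]
    intro i j
    refine Fin.addCases (fun i => ?_) (fun i => ?_) i <;>
      refine Fin.addCases (fun j => ?_) (fun j => ?_) j
    · rw [Fin.append_left, Fin.append_left, col_inner hg]
      simp
    · rw [Fin.append_left, Fin.append_right, hcf, if_neg]
      simp [Fin.ext_iff]; omega
    · rw [Fin.append_left, Fin.append_right, real_inner_comm, hcf, if_neg]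
      simp [Fin.ext_iff]; omega
    · rw [Fin.append_right, Fin.append_right, hfo]
      simp
  · intro v _
    have h1 : v = (1 - P x) v + P x v := by
      have : (1 - P x) v = v - P x v := rfl
      rw [this]; abel
    rw [h1, hp v, hrep v]
    refine Submodule.add_mem _ (Submodule.sum_mem _ fun k _ => Submodule.smul_mem _ _
      (Submodule.subset_span ⟨Fin.castAdd r k, Fin.append_left _ _ _⟩))
      (Submodule.sum_mem _ fun k _ => Submodule.smul_mem _ _
      (Submodule.subset_span ⟨Fin.natAdd _ k, Fin.append_right _ _ _⟩))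
  · refine ⟨WithLp.toLp 2 fun k => b.repr ⟨P x v, ⟨v, rfl⟩⟩ k, ?_⟩
    rw [cmb_apply]
    exact (hrep v).symm.trans hv

end frames

end Crest.Agent.R208.LC
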