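import Crest.Agent.R208.T2a
import Crest.Agent.R208.FV1
import Crest.Agent.R208.FG1b

/-! Row 208, block LC (helper125), part LC3: ratio of top degree forms; abstract fibre operators
and **localisation**. -/

set_option autoImplicit false
set_option linter.unusedSectionVars false
set_option linter.unusedSimpArgs false
set_option linter.unusedVariables false

open MeasureTheory Set Filter Topology Module
open scoped ContDiff
open Crest.Agent.R208.F Crest.Agent.R208.FI Crest.Agent.R208.CW Crest.Agent.R208.T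

noncomputable section

namespace Crest.Agent.R208.LC

/-! ### ratio of top degree forms -/
section ratio
variable {G : Type*} [NormedAddCommGroup G] [NormedSpace ℝ G] [FiniteDimensional ℝ G]
  {m : ℕ} {K : Set G} {O Om : G → Ext G}

theorem exists_ratio (hK : Clo m K) (hO : Ori m K O) (sO : Sm K O) (sΩ : Sm K Om) :
    ∃ g : G → ℝ, ContDiff ℝ ∞ g ∧ ∀ z ∈ K, ∀ w : Fin m → G, (∀ i, w i ∈ Tan K z) →
      evA G m (Om z) w = g z * evA G m (O z) w := by
  have hloc : ∀ x ∈ K, ∃ g' : G → ℝ, ContDiffAt ℝ ∞ g' x ∧ g' =ᶠ[𝓝[K] x] fun z =>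
      evA G m (Om z) (frame m K z) / evA G m (O z) (frame m K z) := by
    intro x hx
    obtain ⟨f, V, hf, u, hu, rfl⟩ := hK.chart x hx
    obtain ⟨U, ℓ, hU, hxU, hℓ, hℓV, hℓx, hℓS⟩ := exists_coord hf hu
    have s1 : ∀ w ∈ V, ContDiffAt ℝ ∞ (fun u => top m (pull f Om u) / top m (pull f O u)) w := by
      intro w hw
      have a1 : ContDiffAt ℝ ∞ (pull f Om) w :=
        contDiffAt_pull (hf.contDiffAt hw) (by simp) (sΩ _ (hf.mem hw))
      have a2 : ContDiffAt ℝ ∞ (pull f O) w :=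
        contDiffAt_pull (hf.contDiffAt hw) (by simp) (sO _ (hf.mem hw))
      have L : ContDiff ℝ ∞ (top m) := (LinearMap.toContinuousLinearMap (top m)).contDiff
      exact (L.contDiffAt.comp w a1).div (L.contDiffAt.comp w a2) (hf.top_ne_zero hO hw)
    refine ⟨fun q => (fun u => top m (pull f Om u) / top m (pull f O u)) (ℓ q), ?_, ?_⟩
    · refine ContDiffAt.comp (g := fun u => top m (pull f Om u) / top m (pull f O u)) (f u) ?_
        (hℓ.contDiffAt (hU.mem_nhds hxU))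
      rw [hℓx]
      exact s1 u hu
    · filter_upwards [self_mem_nhdsWithin, nhdsWithin_le_nhds (hU.mem_nhds hxU)] with q hq hqU
      have hV := hℓV q hqU
      have hfq := hℓS q hqU hq
      obtain ⟨M, h1, h2, -⟩ := exists_matrix (frame_isFrame (finrank_Tan_chart hf hV))
        (finrank_Tan_chart hf hV) (A := fderiv ℝ f (ℓ q)) (fun w => hf.fderiv_mem hV w)
      have hM : M.det ≠ 0 := by
        have h3 := hf.top_ne_zero hO hV
        rw [pull, h2] at h3
        exact left_ne_zero_of_mul h3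
      have e1 : top m (pull f Om (ℓ q)) = M.det * evA G m (Om (f (ℓ q))) (frame m K (f (ℓ q))) :=
        h2 _
      have e2 : top m (pull f O (ℓ q)) = M.det * evA G m (O (f (ℓ q))) (frame m K (f (ℓ q))) :=
        h2 _
      change top m (pull f Om (ℓ q)) / top m (pull f O (ℓ q)) = _
      rw [e1, e2, hfq, mul_div_mul_left _ _ hM]
  obtain ⟨g, h1, h2⟩ := FV.exists_glue hK.sub hK.compact.isClosed hloc
  refine ⟨g, h1, fun z hz w hw => ?_⟩
  obtain ⟨δ, h3, -⟩ := hK.exists_det hz hw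
  rw [h3, h3, h2 z hz, div_mul_eq_mul_div]
  rw [mul_comm δ (evA G m (O z) (frame m K z)), ← mul_assoc, mul_div_assoc]
  have := hO.ne z hz
  field_simp

/-- homogeneous forms of top degree are determined by their values on frames -/
theorem pb_eq_of_evA (hK : Clo m K) {z : G} (hz : z ∈ K) {a b : Ext G} (ha : IsDeg m a)
    (hb : IsDeg m b) (h : ∀ w : Fin m → G, (∀ i, w i ∈ Tan K z) → evA G m a w = evA G m b w) :
    pb (Tan K z).subtype a = pb (Tan K z).subtype b := by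
  refine ext_evA fun q => ?_
  ext v
  rw [evA_pb, evA_pb]
  by_cases hq : q = m
  · subst hq
    exact h _ fun i => (v i).2
  · rw [ha q hq, hb q hq]

end ratio

theorem sign_const {Y : Type*} [TopologicalSpace Y] {S : Set Y} (hS : IsPreconnected S) {h : Y → ℝ}
    (hc : ContinuousOn h S) (h0 : ∀ y ∈ S, h y ≠ 0) :
    ∃ s : ℝ, (s = 1 ∨ s = -1) ∧ ∀ y ∈ S, 0 < s * h y := by
  have himg := (hS.image _ hc).ordConnected
  have h1 : (0 : ℝ) ∉ h '' S := by
    rintro ⟨x, hx, h2⟩; exact h0 x hx h2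
  have hsgn : (∀ x ∈ S, 0 < h x) ∨ (∀ x ∈ S, h x < 0) := by
    by_contra hcon
    push Not at hcon
    obtain ⟨⟨x, hx, hx'⟩, y, hy, hy'⟩ := hcon
    exact h1 (himg.out ⟨x, hx, rfl⟩ ⟨y, hy, rfl⟩ ⟨hx', hy'⟩)
  rcases hsgn with h2 | h2
  · exact ⟨1, Or.inl rfl, fun y hy => by rw [one_mul]; exact h2 y hy⟩
  · exact ⟨-1, Or.inr rfl, fun y hy => by have := h2 y hy; linarith⟩

/-! ### fibre operators -/
section fo
variable {E G M : Type*} [NormedAddCommGroup E] [NormedSpace ℝ E] [FiniteDimensional ℝ E]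
  [NormedAddCommGroup G] [NormedSpace ℝ G] [FiniteDimensional ℝ G]
  [NormedAddCommGroup M] [NormedSpace ℝ M] [FiniteDimensional ℝ M]

/-- the fibre of the total space `T` over `x` is `z + L ℝ^r`, on which `pu` integrates -/
structure Fib (r : ℕ) (k : ℝ) (T : Set M) (pT : M → E) (N : M → ℝ)
    (pu : (M → Ext M) → E → Ext E) (x : E) (L : Eu r →L[ℝ] M) (z : M) (κ : ℝ) : Prop where
  abs : |κ| = k
  inj : Function.Injective L
  mem : ∀ c, z + L c ∈ T
  base : ∀ c, pT (z + L c) = x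
  surj : ∀ m ∈ T, pT m = x → ∃ c, z + L c = m
  zero : N z ≤ 0
  conv : ∀ ρ : ℝ, Convex ℝ {c | N (z + L c) < ρ}
  bdd : ∀ c, ‖c‖ ≤ 2 * N (z + L c)
  val : ∀ (β : M → Ext M) (R : ℝ), Sm T β → (∀ z, R < N z → β z = 0) → Hom r β →
    pu β x = algebraMap ℝ (Ext E) (κ * ∫ c, top r (pb (L : Eu r →ₗ[ℝ] M) (β (z + L c))))

/-- a fibre operator of rank `r` with constant `k` -/
structure FO (r : ℕ) (k : ℝ) (X : Set E) (T : Set M) (pT : M → E) (N : M → ℝ)
    (pu : (M → Ext M) → E → Ext E) : Prop where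
  kpos : 0 < k
  smT : SMap T X pT
  contN : Continuous N
  cut : ∀ a b : ℝ, 0 < a → a < b → ∃ χ : M → ℝ, ContDiff ℝ ∞ χ ∧ (∀ z, 0 ≤ χ z) ∧
    (∀ z, N z ≤ a → χ z = 1) ∧ ∀ z, b ≤ N z → χ z = 0
  sm : ∀ {V : M → Ext M} {R : ℝ}, Sm T V → (∀ z, R < N z → V z = 0) → Sm X (pu V)
  congr : ∀ {V V' : M → Ext M} {R : ℝ}, Sm T V → (∀ z, R < N z → V z = 0) → Sm T V' →
    (∀ z, R < N z → V' z = 0) → Eqv T V V' → Eqv X (pu V) (pu V')
  mul : ∀ {V : M → Ext M} {R : ℝ} (y : E → Ext E), Sm T V → (∀ z, R < N z → V z = 0) →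
    ∀ x ∈ X, pu (V * F.pull pT y) x = pu V x * y x
  fib : ∀ x ∈ X, ∃ (L : Eu r →L[ℝ] M) (z : M) (κ : ℝ), Fib r k T pT N pu x L z κ

/-- a fibrewise open embedding of the tube `N < ρ` of `T` into `K` -/
structure Tub (T : Set M) (pT : M → E) (N : M → ℝ) (K : Set G) (pr : G → E) (Ψ : M → G) (ρ : ℝ) :
    Prop where
  pos : 0 < ρ
  smooth : ∀ z ∈ T, N z < ρ → ContDiffAt ℝ ∞ Ψ z
  maps : ∀ z ∈ T, N z < ρ → Ψ z ∈ K
  pr : ∀ z ∈ T, N z < ρ → pr (Ψ z) = pT z
  inj : ∀ z ∈ T, ∀ z' ∈ T, N z < ρ → N z' < ρ → Ψ z = Ψ z' → z = z'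
  imm : ∀ z ∈ T, N z < ρ → ∀ v ∈ Tan T z, fderiv ℝ Ψ z v = 0 → v = 0

/-- a smooth oriented submersion -/
structure OS (r d : ℕ) (K : Set G) (X : Set E) (pr : G → E) (oV : G → Ext G) (oX : E → Ext E) :
    Prop where
  subm : Subm r d K X pr
  sV : Sm K oV
  hV : Hom r oV
  sX : Sm X oX
  hX : Hom d oX
  ori : Ori (r + d) K (fun z => oV z * F.pull pr oX z)

variable {r d : ℕ} {k ρ : ℝ} {X : Set E} {T : Set M} {K : Set G} {pT : M → E} {N : M → ℝ}
  {pu : (M → Ext M) → E → Ext E} {pr : G → E} {Ψ : M → G} {oV : G → Ext G} {oX : E → Ext E}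
  {x : E} {L : Eu r →L[ℝ] M} {z : M} {κ : ℝ}

theorem OS.low (h : OS r d K X pr oV oX) : ∀ x ∈ X, ∀ q < d, evA E q (oX x) = 0 :=
  fun x _ q hq => h.hX x q (by omega)

theorem OS.cV (h : OS r d K X pr oV oX) : ContinuousOn oV K := fun z hz =>
  (h.sV z hz).continuousAt.continuousWithinAt

theorem OS.fib (h : OS r d K X pr oV oX) (x : E) : Ori r (K ∩ pr ⁻¹' {x}) oV :=
  h.subm.fibre_ori h.cV h.ori h.low x

theorem hasFDerivAt_aff (L : Eu r →L[ℝ] M) (z : M) (c : Eu r) :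
    HasFDerivAt (fun c => z + L c) L c := L.hasFDerivAt.const_add z

theorem contDiff_aff (L : Eu r →L[ℝ] M) (z : M) : ContDiff ℝ ∞ (fun c => z + L c) :=
  contDiff_const.add L.contDiff

theorem Fib.isOpen (hF : Fib r k T pT N pu x L z κ) (hN : Continuous N) :
    IsOpen {c : Eu r | N (z + L c) < ρ} :=
  isOpen_lt (hN.comp (contDiff_aff L z).continuous) continuous_const

/-- the orientation in the parametrisation -/
def tV (L : Eu r →L[ℝ] M) (z : M) (Ψ : M → G) (oV : G → Ext G) (c : Eu r) : ℝ :=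
  top r (pb (L : Eu r →ₗ[ℝ] M) (F.pull Ψ oV (z + L c)))

theorem tV_eq {c : Eu r} (hd : DifferentiableAt ℝ Ψ (z + L c)) :
    tV L z Ψ oV c = top r (F.pull (fun c => Ψ (z + L c)) oV c) := by
  have h1 : HasFDerivAt (fun c => Ψ (z + L c)) ((fderiv ℝ Ψ (z + L c)).comp L) c :=
    HasFDerivAt.comp (g := Ψ) (f := fun c => z + L c) c hd.hasFDerivAt (hasFDerivAt_aff L z c)
  rw [tV, F.pull, F.pull, h1.fderiv, ContinuousLinearMap.toLinearMap_comp, ← pb_comp]

theorem Fib.fderiv_eq (hF : Fib r k T pT N pu x L z κ) (hT : Tub T pT N K pr Ψ ρ) {c : Eu r}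
    (hc : N (z + L c) < ρ) :
    HasFDerivAt (fun c => Ψ (z + L c)) ((fderiv ℝ Ψ (z + L c)).comp L) c :=
  HasFDerivAt.comp (g := Ψ) (f := fun c => z + L c) c
    ((hT.smooth _ (hF.mem c) hc).differentiableAt (by simp)).hasFDerivAt (hasFDerivAt_aff L z c)

theorem Fib.maps (hF : Fib r k T pT N pu x L z κ) (hT : Tub T pT N K pr Ψ ρ) {c : Eu r}
    (hc : N (z + L c) < ρ) : Ψ (z + L c) ∈ K ∩ pr ⁻¹' {x} :=
  ⟨hT.maps _ (hF.mem c) hc, by
    have := hT.pr _ (hF.mem c) hc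
    rw [hF.base] at this
    exact this⟩

theorem Fib.mem_tan (hF : Fib r k T pT N pu x L z κ) (hT : Tub T pT N K pr Ψ ρ)
    (hN : Continuous N) {c : Eu r} (hc : N (z + L c) < ρ) (v : Eu r) :
    fderiv ℝ (fun c => Ψ (z + L c)) c v ∈ Tan (K ∩ pr ⁻¹' {x}) (Ψ (z + L c)) := by
  refine fderiv_mem_Tan (h := fun c => Ψ (z + L c)) (hF.fderiv_eq hT hc).differentiableAt ?_ v
  filter_upwards [(hF.isOpen (ρ := ρ) hN).mem_nhds hc] with c' hc' using hF.maps hT hc'

theorem Fib.tan_T (hF : Fib r k T pT N pu x L z κ) (c v : Eu r) : L v ∈ Tan T (z + L c) := by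
  have h1 := fderiv_mem_Tan (h := fun c => z + L c) (X := T) (y := c)
    (hasFDerivAt_aff L z c).differentiableAt (Eventually.of_forall fun c => hF.mem c) v
  rwa [(hasFDerivAt_aff L z c).fderiv] at h1

theorem Fib.inj_fderiv (hF : Fib r k T pT N pu x L z κ) (hT : Tub T pT N K pr Ψ ρ)
    {c : Eu r} (hc : N (z + L c) < ρ) : Function.Injective (fderiv ℝ (fun c => Ψ (z + L c)) c) := by
  rw [(hF.fderiv_eq hT hc).fderiv]
  refine (injective_iff_map_eq_zero _).2 fun v hv => ?_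
  have h1 := hT.imm _ (hF.mem c) hc (L v) (hF.tan_T c v) hv
  exact (injective_iff_map_eq_zero _).1 hF.inj v h1

theorem Fib.tV_ne (hF : Fib r k T pT N pu x L z κ) (hT : Tub T pT N K pr Ψ ρ)
    (hN : Continuous N) (hS : OS r d K X pr oV oX) {c : Eu r} (hc : N (z + L c) < ρ) :
    tV L z Ψ oV c ≠ 0 := by
  rw [tV_eq ((hT.smooth _ (hF.mem c) hc).differentiableAt (by simp))]
  have hm := hF.maps hT hc
  exact (top_ne_zero ((hS.subm.clo_fibre x).finrank_Tan hm) (fun v => hF.mem_tan hT hN hc v)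
    (hF.inj_fderiv hT hc)).2 ((hS.fib x).ne _ hm)

theorem Fib.tV_cont (hF : Fib r k T pT N pu x L z κ) (hT : Tub T pT N K pr Ψ ρ)
    (hS : OS r d K X pr oV oX) :
    ContinuousOn (tV L z Ψ oV) {c | N (z + L c) < ρ} := by
  intro c hc
  have h1 : ContDiffAt ℝ ∞ (F.pull Ψ oV) (z + L c) :=
    contDiffAt_pull (hT.smooth _ (hF.mem c) hc) (by simp) (hS.sV _ (hT.maps _ (hF.mem c) hc))
  have h2 : ContinuousAt (fun c => F.pull Ψ oV (z + L c)) c :=
    ContinuousAt.comp (g := F.pull Ψ oV) (f := fun c => z + L c) h1.continuousAt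
      (contDiff_aff L z).continuous.continuousAt
  exact ((LinearMap.toContinuousLinearMap ((top r) ∘ₗ (pb (L : Eu r →ₗ[ℝ] M)).toLinearMap)
    ).continuous.continuousAt.comp h2).continuousWithinAt

/-- **the fibre integral in the parametrisation** -/
theorem Fib.param (hF : Fib r k T pT N pu x L z κ) (hT : Tub T pT N K pr Ψ ρ)
    (hN : Continuous N) (hS : OS r d K X pr oV oX) :
    ∃ s : ℝ, (s = 1 ∨ s = -1) ∧ (∀ c, N (z + L c) < ρ → 0 < s * tV L z Ψ oV c) ∧
      ∀ g : G → ℝ, (∀ w ∈ K, pr w = x → (¬ ∃ c, N (z + L c) < ρ ∧ Ψ (z + L c) = w) → g w = 0) →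
        J r (K ∩ pr ⁻¹' {x}) oV (fun w => g w • oV w) =
          s * ∫ c in {c | N (z + L c) < ρ}, g (Ψ (z + L c)) * tV L z Ψ oV c := by
  obtain ⟨s, hs, hpos⟩ := sign_const (hF.conv ρ).isPreconnected (hF.tV_cont hT hS)
    (fun c hc => hF.tV_ne hT hN hS hc)
  refine ⟨s, hs, hpos, fun g hg => ?_⟩
  have hclo := hS.subm.clo_fibre x
  set D : Set (Eu r) := {c | N (z + L c) < ρ} with hD
  set Φ : Eu r → G := fun c => Ψ (z + L c) with hΦ
  have e1 := integral_param (X := K ∩ pr ⁻¹' {x}) (o := oV) (om := fun w => g w • oV w)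
    (f := Φ) (A := D) (hF.isOpen hN).measurableSet
    (fun u hu => (hF.fderiv_eq hT hu).differentiableAt)
    (fun u hu v hv huv => hF.inj (add_left_cancel
      (hT.inj _ (hF.mem u) _ (hF.mem v) hu hv huv)))
    (fun u hu => hclo.finrank_Tan (hF.maps hT hu))
    (fun u hu w => hF.mem_tan hT hN hu w)
  have e2 : J r (K ∩ pr ⁻¹' {x}) oV (fun w => g w • oV w) =
      ∫ y in (toEuclidean : G ≃L[ℝ] _) '' (Φ '' D),
        dens r (K ∩ pr ⁻¹' {x}) oV (fun w => g w • oV w) (toEuclidean.symm y) ∂μHE[r] := by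
    refine setIntegral_eq_of_subset_of_forall_sdiff_eq_zero hclo.measurableSet
      (image_mono ?_) ?_
    · rintro _ ⟨c, hc, rfl⟩
      exact hF.maps hT hc
    · rintro _ ⟨⟨w, hw, rfl⟩, hw2⟩
      have hw3 : ¬ ∃ c, N (z + L c) < ρ ∧ Ψ (z + L c) = w := by
        rintro ⟨c, hc, hcw⟩
        exact hw2 ⟨w, ⟨c, hc, hcw⟩, rfl⟩
      have h0 := hg w hw.1 hw.2 hw3
      simp only [ContinuousLinearEquiv.symm_apply_apply, dens, h0, zero_smul, map_zero,
        AlternatingMap.zero_apply, zero_mul]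
  rw [e2, e1, ← integral_const_mul]
  refine setIntegral_congr_fun (hF.isOpen hN).measurableSet fun c hc => ?_
  have e3 : top r (F.pull Φ (fun w => g w • oV w) c) = g (Φ c) * tV L z Ψ oV c := by
    rw [tV_eq ((hT.smooth _ (hF.mem c) hc).differentiableAt (by simp)), F.pull_smul, map_smul,
      smul_eq_mul]
  have e4 : top r (F.pull Φ oV c) = tV L z Ψ oV c :=
    (tV_eq ((hT.smooth _ (hF.mem c) hc).differentiableAt (by simp))).symm
  have e5 : Real.sign (tV L z Ψ oV c) = s := by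
    have h1 := hpos c hc
    rcases hs with rfl | rfl
    · exact Real.sign_of_pos (by linarith)
    · exact Real.sign_of_neg (by linarith)
  simp only [e3, e4, e5]
  ring

/-- the transported orientation times a function -/
def bF (c : M → ℝ) (Ψ : M → G) (oV : G → Ext G) (z : M) : Ext M := c z • F.pull Ψ oV z

theorem hom_bF (hV : Hom r oV) (c : M → ℝ) : Hom r (bF c Ψ oV) := fun z =>
  ((hV (Ψ z)).pb _).smul _

theorem sm_bF (hT : Tub T pT N K pr Ψ ρ) (hN : Continuous N) (sV : Sm K oV) {c : M → ℝ} {b : ℝ}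
    (hb : b < ρ) (hc : ∀ z ∈ T, N z < ρ → ContDiffAt ℝ ∞ c z) (h0 : ∀ z, b ≤ N z → c z = 0) :
    Sm T (bF c Ψ oV) := by
  intro z hz
  rcases lt_or_ge (N z) ρ with h | h
  · exact (hc z hz h).smul (contDiffAt_pull (hT.smooth z hz h) (by simp) (sV _ (hT.maps z hz h)))
  · have h1 : bF c Ψ oV =ᶠ[𝓝 z] fun _ => 0 := by
      have h2 : ∀ᶠ w in 𝓝 z, b < N w := hN.continuousAt.eventually
        (lt_mem_nhds (lt_of_lt_of_le hb h))
      filter_upwards [h2] with w hw
      rw [bF, h0 w hw.le, zero_smul]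
    exact contDiffAt_const.congr_of_eventuallyEq h1

theorem supp_bF {c : M → ℝ} {b : ℝ} (h0 : ∀ z, b ≤ N z → c z = 0) (z : M) (hz : b < N z) :
    bF c Ψ oV z = 0 := by
  rw [bF, h0 z hz.le, zero_smul]

theorem top_bF (c : M → ℝ) (y : Eu r) :
    top r (pb (L : Eu r →ₗ[ℝ] M) (bF c Ψ oV (z + L y))) = c (z + L y) * tV L z Ψ oV y := by
  rw [bF, map_smul, map_smul, smul_eq_mul]
  rfl

/-- **the sign is constant** -/
theorem exists_sign (hO : FO r k X T pT N pu) (hT : Tub T pT N K pr Ψ ρ)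
    (hS : OS r d K X pr oV oX) (hXc : IsPreconnected X) :
    ∃ ε : ℝ, (ε = 1 ∨ ε = -1) ∧ ∀ x ∈ X, ∀ (L : Eu r →L[ℝ] M) (z : M) (κ : ℝ),
      Fib r k T pT N pu x L z κ → ∀ s : ℝ, (s = 1 ∨ s = -1) →
        (∀ c, N (z + L c) < ρ → 0 < s * tV L z Ψ oV c) → κ * s = ε * k := by
  have hρ := hT.pos
  obtain ⟨χ, hχ, hχ0, hχ1, hχz⟩ := hO.cut (ρ / 3) (ρ / 2) (by positivity) (by linarith)
  have hb : ρ / 2 < ρ := by linarith
  set β := bF χ Ψ oV with hβ
  have sβ : Sm T β := sm_bF hT hO.contN hS.sV hb (fun z _ _ => hχ.contDiffAt) hχz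
  have vβ : ∀ z, ρ / 2 < N z → β z = 0 := supp_bF hχz
  have dβ : Hom r β := hom_bF hS.hV χ
  set e : E → ℝ := fun x => evA E 0 (pu β x) ![] with he
  have hec : ContinuousOn e X := by
    intro x hx
    have h1 := (hO.sm sβ vβ x hx).continuousAt
    let Lm : Ext E →ₗ[ℝ] ℝ :=
      { toFun := fun c => evA E 0 c ![]
        map_add' := fun a b => by simp
        map_smul' := fun r a => by simp }
    exact ((LinearMap.toContinuousLinearMap Lm).continuous.continuousAt.comp h1).continuousWithinAt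
  have key : ∀ x ∈ X, ∀ (L : Eu r →L[ℝ] M) (z : M) (κ : ℝ),
      Fib r k T pT N pu x L z κ → ∀ s : ℝ, (s = 1 ∨ s = -1) →
        (∀ c, N (z + L c) < ρ → 0 < s * tV L z Ψ oV c) → 0 < (κ * s) * e x := by
    intro x hx L z κ hF s hs hpos
    have h1 : e x = κ * ∫ c, top r (pb (L : Eu r →ₗ[ℝ] M) (β (z + L c))) := by
      change evA E 0 (pu β x) ![] = _
      rw [hF.val β (ρ / 2) sβ vβ dβ, evA_zero_algebraMap]
    set I := ∫ c, top r (pb (L : Eu r →ₗ[ℝ] M) (β (z + L c))) with hI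
    have hcont : Continuous fun c => s * top r (pb (L : Eu r →ₗ[ℝ] M) (β (z + L c))) := by
      refine continuous_const.mul (continuous_iff_continuousAt.2 fun c => ?_)
      have h2 : ContinuousAt (fun c => β (z + L c)) c :=
        ContinuousAt.comp (g := β) (f := fun c => z + L c) (sβ _ (hF.mem c)).continuousAt
          (contDiff_aff L z).continuous.continuousAt
      exact (LinearMap.toContinuousLinearMap ((top r) ∘ₗ (pb (L : Eu r →ₗ[ℝ] M)).toLinearMap)
        ).continuous.continuousAt.comp h2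
    have hsupp : HasCompactSupport fun c => s * top r (pb (L : Eu r →ₗ[ℝ] M) (β (z + L c))) := by
      refine HasCompactSupport.intro (isCompact_closedBall (0 : Eu r) ρ) fun c hc => ?_
      have h2 : ρ < ‖c‖ := by simpa using hc
      have h3 := hF.bdd c
      rw [vβ (z + L c) (by linarith), map_zero, map_zero, mul_zero]
    have hnn : ∀ c, 0 ≤ s * top r (pb (L : Eu r →ₗ[ℝ] M) (β (z + L c))) := by
      intro c
      rw [hβ, top_bF]
      rcases lt_or_ge (N (z + L c)) ρ with h | h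
      · have h4 := mul_nonneg (hχ0 (z + L c)) (hpos c h).le
        linarith
      · rw [hχz _ (by linarith)]; simp
    have hne : s * top r (pb (L : Eu r →ₗ[ℝ] M) (β (z + L 0))) ≠ 0 := by
      have hz0 : N (z + L 0) ≤ 0 := by rw [map_zero, add_zero]; exact hF.zero
      rw [hβ, top_bF, hχ1 _ (by linarith), one_mul]
      exact (hpos 0 (by linarith)).ne'
    have h5 := hcont.integral_pos_of_hasCompactSupport_nonneg_nonzero (μ := volume) hsupp hnn hne
    rw [integral_const_mul] at h5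
    have hκ : κ ≠ 0 := by
      rintro rfl
      have := hF.abs
      rw [abs_zero] at this
      exact hO.kpos.ne this
    rw [h1]
    have : κ * s * (κ * I) = κ ^ 2 * (s * I) := by ring
    rw [this]
    exact mul_pos (by positivity) h5
  have hne : ∀ x ∈ X, e x ≠ 0 := by
    intro x hx h0
    obtain ⟨L, z, κ, hF⟩ := hO.fib x hx
    obtain ⟨s, hs, hpos, -⟩ := hF.param hT hO.contN hS
    have := key x hx L z κ hF s hs hpos
    rw [h0, mul_zero] at this
    exact lt_irrefl _ this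
  obtain ⟨ε, hε, hεp⟩ := sign_const hXc hec hne
  refine ⟨ε, hε, fun x hx L z κ hF s hs hpos => ?_⟩
  have h1 := key x hx L z κ hF s hs hpos
  have h2 := hεp x hx
  have h3 : |κ * s| = k := by
    rw [abs_mul, hF.abs]
    rcases hs with rfl | rfl <;> simp
  rcases hε with rfl | rfl
  · have h4 : 0 < e x := by linarith
    have h5 : 0 < κ * s := pos_of_mul_pos_left h1 h4.le
    rw [one_mul, ← h3, abs_of_pos h5]
  · have h4 : e x < 0 := by linarith
    have h5 : κ * s < 0 := by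
      by_contra hcon
      push Not at hcon
      have := mul_nonpos_of_nonneg_of_nonpos hcon h4.le
      linarith
    rw [← h3, abs_of_neg h5]; ring

/-- **fibre operators compute fibre integrals** -/
theorem pu_eq (hO : FO r k X T pT N pu) (hT : Tub T pT N K pr Ψ ρ)
    (hS : OS r d K X pr oV oX) (hXc : IsPreconnected X) :
    ∃ ε : ℝ, (ε = 1 ∨ ε = -1) ∧ ∀ (g : G → ℝ) (c : M → ℝ) (b : ℝ), b < ρ →
      (∀ z ∈ T, N z < ρ → ContDiffAt ℝ ∞ c z) → (∀ z, b ≤ N z → c z = 0) →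
      (∀ z ∈ T, N z < ρ → c z = g (Ψ z)) →
      (∀ w ∈ K, (¬ ∃ z ∈ T, N z < ρ ∧ Ψ z = w) → g w = 0) →
      ∀ x ∈ X, pu (bF c Ψ oV) x = algebraMap ℝ (Ext E)
        (ε * k * J r (K ∩ pr ⁻¹' {x}) oV (fun w => g w • oV w)) := by
  obtain ⟨ε, hε, hεk⟩ := exists_sign hO hT hS hXc
  refine ⟨ε, hε, fun g c b hb hc h0 hcg hg x hx => ?_⟩
  obtain ⟨L, z, κ, hF⟩ := hO.fib x hx
  obtain ⟨s, hs, hpos, hJ⟩ := hF.param hT hO.contN hS
  rw [hF.val (bF c Ψ oV) b (sm_bF hT hO.contN hS.sV hb hc h0) (supp_bF h0) (hom_bF hS.hV c)]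
  congr 1
  have h1 := hJ g (fun w hw hwx hne => hg w hw (by
    rintro ⟨m, hm, hmρ, rfl⟩
    have h2 : pT m = x := by rw [← hT.pr m hm hmρ]; exact hwx
    obtain ⟨y, hy⟩ := hF.surj m hm h2
    exact hne ⟨y, by rw [hy]; exact hmρ, by rw [hy]⟩))
  rw [h1]
  have h2 : ∫ y, top r (pb (L : Eu r →ₗ[ℝ] M) (bF c Ψ oV (z + L y))) =
      ∫ y in {y | N (z + L y) < ρ}, g (Ψ (z + L y)) * tV L z Ψ oV y := by
    rw [← setIntegral_eq_integral_of_forall_compl_eq_zero (s := {y | N (z + L y) < ρ})]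
    · refine setIntegral_congr_fun (hF.isOpen hO.contN).measurableSet fun y hy => ?_
      rw [top_bF, hcg _ (hF.mem y) hy]
    · intro y hy
      have hy' : ρ ≤ N (z + L y) := not_lt.1 hy
      rw [top_bF, h0 _ (by linarith), zero_mul]
  rw [h2, ← hεk x hx L z κ hF s hs hpos]
  have hss : s * s = 1 := by rcases hs with rfl | rfl <;> norm_num
  linear_combination (-(κ * ∫ y in {y | N (z + L y) < ρ},
    g (Ψ (z + L y)) * tV L z Ψ oV y)) * hss

theorem OS.sO (h : OS r d K X pr oV oX) : Sm K (oV * F.pull pr oX) :=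
  h.sV.mul (h.sX.pull (⟨h.subm.smooth, h.subm.mapsTo⟩ : SMap K X pr))

set_option maxHeartbeats 1000000 in
/-- **LOCALISATION** -/
theorem loc (hO : FO r k X T pT N pu) (hT : Tub T pT N K pr Ψ ρ)
    (hS : OS r d K X pr oV oX) (hXc : IsPreconnected X) :
    ∃ ε : ℝ, (ε = 1 ∨ ε = -1) ∧ ∀ (V : M → Ext M) (om : G → Ext G) (y : E → Ext E) (a b : ℕ)
      (ρ' : ℝ), ρ' < ρ → Sm T V → (∀ z, ρ' < N z → V z = 0) → Sm K om → Hom a om → Sm X y →
      Hom b y → a + b = r + d → Eqv (T ∩ {z | N z < ρ}) (F.pull Ψ om) V →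
      (∀ w ∈ K, (¬ ∃ z ∈ T, N z ≤ ρ' ∧ Ψ z = w) → pb (Tan K w).subtype (om w) = 0) →
      J d X oX (pu V * y) =
        ε * k * J (r + d) K (fun z => oV z * F.pull pr oX z) (om * F.pull pr y) := by
  obtain ⟨ε, hε, hpu⟩ := pu_eq hO hT hS hXc
  refine ⟨ε, hε, fun V om y a b ρ' hρ' sV vV so ho sy hy hab hVo h0 => ?_⟩
  have hρ := hT.pos
  have hK := hS.subm.cloZ
  have hX := hS.subm.cloX
  have hpr : SMap K X pr := ⟨hS.subm.smooth, hS.subm.mapsTo⟩
  set O : G → Ext G := oV * F.pull pr oX with hOd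
  set Om : G → Ext G := om * F.pull pr y with hOm
  have sOm : Sm K Om := so.mul (sy.pull hpr)
  have dO : Hom (r + d) O := hS.hV.mul hS.hX.pull
  have dOm : Hom (r + d) Om := by rw [← hab]; exact ho.mul hy.pull
  have oriO : Ori (r + d) K O := hS.ori
  obtain ⟨g, hg, hgw⟩ := exists_ratio hK oriO hS.sO sOm
  -- `g` vanishes outside the tube
  have hg0 : ∀ w ∈ K, (¬ ∃ z ∈ T, N z ≤ ρ' ∧ Ψ z = w) → g w = 0 := by
    intro w hw hne
    have hfr := frame_isFrame (hK.finrank_Tan hw)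
    have h1 := hgw w hw _ hfr.2
    have h2 : evA G (r + d) (Om w) (frame (r + d) K w) = 0 := by
      have h3 : pb (Tan K w).subtype (Om w) = 0 := by
        rw [hOm, Pi.mul_apply, _root_.map_mul, h0 w hw hne, zero_mul]
      have h4 := evA_pb (r + d) (Tan K w).subtype (Om w)
        (fun i => (⟨frame (r + d) K w i, hfr.2 i⟩ : Tan K w))
      rw [h3, map_zero] at h4
      exact h4.symm
    rw [h2] at h1
    exact (mul_eq_zero.1 h1.symm).resolve_right (oriO.ne w hw)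
  -- `Om = g O` on `K`
  have hgO : Eqv K Om (fun w => g w • O w) := by
    refine eqv_iff.2 fun w hw => ?_
    refine pb_eq_of_evA hK hw (dOm w) ((dO w).smul _) fun v hv => ?_
    rw [map_smul, AlternatingMap.smul_apply, smul_eq_mul]
    exact hgw w hw v hv
  -- cut-off
  set ρ₁ := max ρ' (ρ / 2) with hρ₁
  have h1ρ : ρ₁ < ρ := max_lt hρ' (by linarith)
  have h1p : 0 < ρ₁ := lt_of_lt_of_le (by linarith) (le_max_right _ _)
  set ρ₂ := (ρ₁ + ρ) / 2 with hρ₂
  have h12 : ρ₁ < ρ₂ := by rw [hρ₂]; linarith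
  have h2ρ : ρ₂ < ρ := by rw [hρ₂]; linarith
  obtain ⟨χ, hχ, -, hχ1, hχz⟩ := hO.cut ρ₁ ρ₂ h1p h12
  set c : M → ℝ := fun z => χ z * g (Ψ z) with hc
  have hcs : ∀ z ∈ T, N z < ρ → ContDiffAt ℝ ∞ c z := fun z hz h =>
    hχ.contDiffAt.mul (hg.contDiffAt.comp z (hT.smooth z hz h))
  have hc0 : ∀ z, ρ₂ ≤ N z → c z = 0 := fun z h => by simp only [hc]; rw [hχz z h, zero_mul]
  have hcg : ∀ z ∈ T, N z < ρ → c z = g (Ψ z) := by
    intro z hz h
    simp only [hc]
    rcases le_or_gt (N z) ρ₁ with h3 | h3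
    · rw [hχ1 z h3, one_mul]
    · have h4 : g (Ψ z) = 0 := by
        refine hg0 _ (hT.maps z hz h) ?_
        rintro ⟨w, hw, hwρ, hwz⟩
        have h5 : w = z := hT.inj w hw z hz (lt_of_le_of_lt hwρ hρ') h hwz
        rw [h5] at hwρ
        exact absurd (lt_of_le_of_lt (hwρ.trans (le_max_left _ _)) h3) (lt_irrefl _)
      rw [h4, mul_zero]
  set β := bF c Ψ oV with hβ
  have sβ : Sm T β := sm_bF hT hO.contN hS.sV h2ρ hcs hc0
  have vβ : ∀ z, ρ < N z → β z = 0 := fun z hz => supp_bF hc0 z (by linarith)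
  have vV' : ∀ z, ρ < N z → V z = 0 := fun z hz => vV z (by linarith)
  have hJx := hpu g c ρ₂ h2ρ hcs hc0 hcg (fun w hw hne => hg0 w hw (by
    rintro ⟨z, hz, hzρ, hzw⟩
    exact hne ⟨z, hz, lt_of_le_of_lt hzρ hρ', hzw⟩))
  -- comparison on the tube
  have hopen : IsOpen {z : M | N z < ρ} := isOpen_lt hO.contN continuous_const
  have hΨ : SMap (T ∩ {z | N z < ρ}) K Ψ :=
    ⟨fun z hz => hT.smooth z hz.1 hz.2, fun z hz => hT.maps z hz.1 hz.2⟩
  have hp : SMap (T ∩ {z | N z < ρ}) X pT :=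
    ⟨fun z hz => hO.smT.smooth z hz.1, fun z hz => hO.smT.maps hz.1⟩
  have hpp : ∀ w : E → Ext E, Eqv (T ∩ {z | N z < ρ}) (F.pull Ψ (F.pull pr w)) (F.pull pT w) :=
    fun w => eqv_pull_pull hΨ hpr hp (fun z hz => hT.pr z hz.1 hz.2) w
  have h1 : Eqv (T ∩ {z | N z < ρ}) (V * F.pull pT y) (β * F.pull pT oX) := by
    have a1 : Eqv (T ∩ {z | N z < ρ}) (V * F.pull pT y) (F.pull Ψ Om) := by
      rw [hOm, pull_mul']
      exact hVo.symm.mul (hpp y).symm
    have a2 := hgO.pull hΨ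
    have a3 : Eqv (T ∩ {z | N z < ρ}) (F.pull Ψ fun w => g w • O w)
        (β * F.pull Ψ (F.pull pr oX)) := by
      refine Eqv.of_eq fun z hz => ?_
      rw [F.pull_smul, hOd, pull_mul', Pi.mul_apply, Pi.mul_apply, hβ, bF, hcg z hz.1 hz.2,
        smul_mul_assoc]
    exact a1.trans (a2.trans (a3.trans ((Eqv.refl β).mul (hpp oX))))
  have h2 : Eqv T (V * F.pull pT y) (β * F.pull pT oX) := by
    refine eqv_iff.2 fun z hz => ?_
    rcases lt_or_ge (N z) ρ with h | h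
    · exact eqv_of_open hopen h1 hz h
    · rw [Pi.mul_apply, Pi.mul_apply, vV z (by linarith), hβ, bF, hc0 z (by linarith), zero_smul,
        zero_mul, zero_mul]
  have h3 := hO.congr (sV.mul (sy.pull hO.smT)) (R := ρ)
    (fun z hz => by rw [Pi.mul_apply, vV' z hz, zero_mul])
    (sβ.mul (hS.sX.pull hO.smT)) (fun z hz => by rw [Pi.mul_apply, vβ z hz, zero_mul]) h2
  -- conclusion
  have e1 : J d X oX (pu V * y) = J d X oX (pu (V * F.pull pT y)) :=
    J_congr' hX fun x hx => (hO.mul y sV vV' x hx).symm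
  have e2 : J d X oX (pu (V * F.pull pT y)) = J d X oX (pu (β * F.pull pT oX)) := by
    refine J_congr hX fun x hx w hw => ?_
    have h4 := h3.evA hx hw
    rw [Pi.sub_apply, map_sub, AlternatingMap.sub_apply, sub_eq_zero] at h4
    exact h4
  have e3 : J d X oX (pu (β * F.pull pT oX)) = J d X oX (fun x => (ε * k) •
      (J r (K ∩ pr ⁻¹' {x}) oV (fun w => g w • oV w) • oX x)) := by
    refine J_congr' hX fun x hx => ?_
    rw [hO.mul oX sβ vβ x hx, hJx x hx, ← Algebra.smul_def, mul_smul]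
  have e4 := fibre_integration (η := fun w => g w • oV w) (om := oX) hS.subm hS.cV hS.ori hS.low
    (fun z hz => ((hg.contDiffAt.smul (hS.sV z hz)).continuousAt.continuousWithinAt))
    (fun x hx => (hS.sX x hx).continuousAt.continuousWithinAt) hS.low
  have e5 : J (r + d) K (fun z => oV z * F.pull pr oX z) (om * F.pull pr y) =
      J (r + d) K (fun z => oV z * F.pull pr oX z) (fun z => (g z • oV z) * F.pull pr oX z) := by
    refine J_congr hK fun z hz w hw => ?_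
    have h4 := hgw z hz w hw
    rw [smul_mul_assoc, map_smul, AlternatingMap.smul_apply, smul_eq_mul]
    exact h4
  rw [e1, e2, e3, J_smul, e5, e4]

end fo

end Crest.Agent.R208.LC
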