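import Crest.Agent.R208.LC3
import Crest.Agent.R208.LC2

/-! Row 208, block LC (helper125), part LC4: `push` and `pu₂` are fibre operators. -/

set_option autoImplicit false
set_option linter.unusedSectionVars false
set_option linter.unusedSimpArgs false
set_option linter.unusedVariables false

open MeasureTheory Set Filter Topology Module Matrix
open scoped ContDiff
open Crest.Agent.R208.F Crest.Agent.R208.FI Crest.Agent.R208.CW Crest.Agent.R208.T
open Crest.Agent.R208.TP Crest.Agent.R208.SN

noncomputable section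

namespace Crest.Agent.R208.LC

theorem kGG_pos (ι : Type*) [Fintype ι] [Nonempty ι] : 0 < kGG ι := by
  obtain ⟨s, hs, hs'⟩ := exists_GG_pos (ι := ι)
  have hc : Continuous fun a : Eu (Fintype.card ι * 2) => GG ι (‖a‖ ^ 2) :=
    GG_continuous.comp (by fun_prop)
  have hcs : HasCompactSupport fun a : Eu (Fintype.card ι * 2) => GG ι (‖a‖ ^ 2) := by
    refine HasCompactSupport.intro (isCompact_closedBall (0 : Eu (Fintype.card ι * 2)) 1)
      fun a ha => ?_
    have h1 : 1 < ‖a‖ := by simpa using ha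
    exact GG_of_ge (by nlinarith)
  have hk : 0 < Fintype.card ι * 2 := by
    have : 0 < Fintype.card ι := Fintype.card_pos
    omega
  have : Nonempty (Fin (Fintype.card ι * 2)) := ⟨⟨0, hk⟩⟩
  refine hc.integral_pos_of_hasCompactSupport_nonneg_nonzero hcs (fun a => GG_nonneg ι _)
    (x := √s • EuclideanSpace.single (⟨0, hk⟩ : Fin (Fintype.card ι * 2)) (1 : ℝ)) ?_
  rw [norm_smul, PiLp.norm_single, norm_one, mul_one, Real.norm_eq_abs, sq_abs,
    Real.sq_sqrt hs.le]
  exact hs'.ne'

/-- evaluation, as a continuous linear functional -/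
def evL {G : Type*} [NormedAddCommGroup G] [NormedSpace ℝ G] [FiniteDimensional ℝ G] (q : ℕ)
    (v : Fin q → G) : Ext G →L[ℝ] ℝ :=
  LinearMap.toContinuousLinearMap
    { toFun := fun c => evA G q c v
      map_add' := fun a b => by simp
      map_smul' := fun r a => by simp }

theorem evL_apply {G : Type*} [NormedAddCommGroup G] [NormedSpace ℝ G] [FiniteDimensional ℝ G]
    (q : ℕ) (v : Fin q → G) (c : Ext G) : evL q v c = evA G q c v := rfl

section formula
variable {n ι : Type*} [Fintype n] [DecidableEq n] [Fintype ι] [DecidableEq ι]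
  {E F' : Type*} [NormedAddCommGroup E] [NormedSpace ℝ E] [FiniteDimensional ℝ E]
  [NormedAddCommGroup F'] [NormedSpace ℝ F'] [FiniteDimensional ℝ F']
  {P : E → EuclideanSpace ℝ n →L[ℝ] EuclideanSpace ℝ n} {W' : E → (ι × Fin 2 → n) → ℝ} {x : E}
  {g : Matrix n (ι × Fin 2) ℝ} {r s : ℕ} {f : Fin r → EuclideanSpace ℝ n}
  {Y : Set F'} {Q : F' → EuclideanSpace ℝ n →L[ℝ] EuclideanSpace ℝ n}
  {τ β : F' × EuclideanSpace ℝ n → Ext (F' × EuclideanSpace ℝ n)} {R R' : ℝ}
  {A : Eu s →L[ℝ] F'} {y₀ : F'}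

theorem hasFDerivAt_up_aff (z : Eu s × EuclideanSpace ℝ n) :
    HasFDerivAt (up (H := EuclideanSpace ℝ n) fun c : Eu s => y₀ + A c)
      (A.prodMap (ContinuousLinearMap.id ℝ (EuclideanSpace ℝ n))) z := by
  have h1 : HasFDerivAt (fun z : Eu s × EuclideanSpace ℝ n => y₀ + A z.1)
      (A.comp (ContinuousLinearMap.fst ℝ (Eu s) (EuclideanSpace ℝ n))) z :=
    (A.comp (ContinuousLinearMap.fst ℝ (Eu s) (EuclideanSpace ℝ n))).hasFDerivAt.const_add y₀
  have h2 : HasFDerivAt (fun z : Eu s × EuclideanSpace ℝ n => z.2)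
      (ContinuousLinearMap.snd ℝ (Eu s) (EuclideanSpace ℝ n)) z := hasFDerivAt_snd
  exact h1.prodMk h2

theorem pull_up_aff (z : Eu s × EuclideanSpace ℝ n) :
    F.pull (up (H := EuclideanSpace ℝ n) fun c : Eu s => y₀ + A c) β z =
      pbL (A.prodMap (ContinuousLinearMap.id ℝ (EuclideanSpace ℝ n))) (β (y₀ + A z.1, z.2)) := by
  rw [F.pull, (hasFDerivAt_up_aff z).fderiv]
  rfl

/-- **the value of `push` on vectors along which the field is constant** -/
theorem push_formula [Nonempty ι] (h : Dat P W' x g f) (hQ : PField Y r Q)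
    (hτ : CSF Y (fun y => 1 - Q y) R τ) (hj : ∀ c : Eu s, y₀ + A c ∈ Y)
    (hQj : ∀ c : Eu s, Q (y₀ + A c) = P x)
    (hτj : F.pull (up (H := EuclideanSpace ℝ n) fun c : Eu s => y₀ + A c) τ =
      F.pull (cst (n := n) (E := E) (Eu s) x) (thomF (fun x => 1 - P x) W'))
    (sβ : Sm (Tot Y Q) β) (vβ : Vt R' β) (c : Eu s) :
    evA F' s (push volume Q τ β (y₀ + A c)) (fun k => A (sb s k)) =
      (kGG ι * (h.adp.mat.det * (-1) ^ r)) * ∫ b : Eu r,
        evA (F' × EuclideanSpace ℝ n) (r + s) (β (y₀ + A c, cmb f b))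
          (Fin.append (fun k => ((0 : F'), f k)) (fun k => (A (sb s k), 0))) := by
  have hjs : SMap (univ : Set (Eu s)) Y (fun c => y₀ + A c) :=
    ⟨fun c _ => (contDiff_const.add A.contDiff).contDiffAt, fun c _ => hj c⟩
  have e1 := push_up volume hQ hjs hτ sβ vβ (mem_univ c)
  rw [hτj] at e1
  have e2 : (fun y : Eu s => Q (y₀ + A y)) = fun _ => P x := funext hQj
  rw [e2, push_const h] at e1
  have e3 : evA (Eu s) s (F.pull (fun c : Eu s => y₀ + A c) (push volume Q τ β) c) (sb s) =
      evA F' s (push volume Q τ β (y₀ + A c)) (fun k => A (sb s k)) := by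
    have h1 : HasFDerivAt (fun c : Eu s => y₀ + A c) A c := A.hasFDerivAt.const_add y₀
    rw [F.pull, h1.fderiv, evA_pb]
    rfl
  rw [← e3, ← e1, map_smul, AlternatingMap.smul_apply, smul_eq_mul]
  congr 1
  have hint : Integrable (fun b : Eu r => cF (Eu s) f
      (F.pull (up (H := EuclideanSpace ℝ n) fun c : Eu s => y₀ + A c) β (c, cmb f b))) := by
    refine (ContinuousLinearMap.integrable_comp _ ?_)
    simp only [pull_up_aff]
    refine (ContinuousLinearMap.integrable_comp _ ?_)
    refine Continuous.integrable_of_hasCompactSupport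
      (continuous_iff_continuousAt.2 fun b => ?_)
      (HasCompactSupport.intro (isCompact_closedBall (0 : Eu r) R') fun b hb => ?_)
    · have h2 : (y₀ + A c, cmb f b) ∈ Tot Y Q := ⟨hj c, by
        change Q (y₀ + A c) (cmb f b) = cmb f b
        rw [hQj, h.P_f]⟩
      exact ContinuousAt.comp (g := β) (f := fun b => (y₀ + A c, cmb f b))
        (sβ _ h2).continuousAt (by fun_prop)
    · have h2 : R' < ‖b‖ := by simpa using hb
      refine vβ _ ?_
      rw [norm_cmb h.adp.on'']
      exact h2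
  have e4 := (evL s (sb s)).integral_comp_comm hint
  rw [evL_apply] at e4
  rw [← e4]
  refine integral_congr_ae (Eventually.of_forall fun b => ?_)
  simp only
  rw [evL_apply, evA_cF, pull_up_aff, pbL_apply, evA_pb]
  congr 1
  funext i
  refine Fin.addCases (fun i => ?_) (fun i => ?_) i
  · rw [Fin.append_left, Fin.append_left]; simp
  · rw [Fin.append_right, Fin.append_right]; simp

end formula

theorem evA_append_nil {G : Type*} [NormedAddCommGroup G] [NormedSpace ℝ G]
    [FiniteDimensional ℝ G] {r : ℕ} (c : Ext G) (v : Fin r → G) (w : Fin 0 → G) :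
    evA G (r + 0) c (Fin.append v w) = evA G r c v := by
  rw [Fin.append_right_nil v w rfl]
  rfl

/-- integrability along a fibre -/
theorem integrable_fib {M : Type*} [NormedAddCommGroup M] [NormedSpace ℝ M]
    [FiniteDimensional ℝ M] {r : ℕ} {T : Set M} {N : M → ℝ} {L : Eu r →L[ℝ] M} {z : M}
    {β : M → Ext M} {R : ℝ} (hm : ∀ c, z + L c ∈ T) (hb : ∀ c, ‖c‖ ≤ 2 * N (z + L c))
    (sβ : Sm T β) (vβ : ∀ z, R < N z → β z = 0) : Integrable (fun c => β (z + L c)) := by
  refine Continuous.integrable_of_hasCompactSupport (continuous_iff_continuousAt.2 fun c => ?_)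
    (HasCompactSupport.intro (isCompact_closedBall (0 : Eu r) (2 * R)) fun c hc => ?_)
  · exact ContinuousAt.comp (g := β) (f := fun c => z + L c) (sβ _ (hm c)).continuousAt
      (contDiff_aff L z).continuous.continuousAt
  · have h2 : 2 * R < ‖c‖ := by simpa using hc
    have h3 := hb c
    exact vβ _ (by linarith)

/-! ### one field -/
section one
variable {n ι : Type*} [Fintype n] [DecidableEq n] [Fintype ι] [DecidableEq ι]
  {E : Type*} [NormedAddCommGroup E] [NormedSpace ℝ E] [FiniteDimensional ℝ E]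
  {X : Set E} {P : E → EuclideanSpace ℝ n →L[ℝ] EuclideanSpace ℝ n}
  {W' : E → (ι × Fin 2 → n) → ℝ} {r d : ℕ}

theorem exists_cut (H : Type*) [NormedAddCommGroup H] [InnerProductSpace ℝ H]
    [FiniteDimensional ℝ H] (a b : ℝ) (ha : 0 < a) (hab : a < b) : ∃ χ : H → ℝ,
    ContDiff ℝ ∞ χ ∧ (∀ h, 0 ≤ χ h) ∧ (∀ h, ‖h‖ ≤ a → χ h = 1) ∧ ∀ h, b ≤ ‖h‖ → χ h = 0 := by
  let F0 : ContDiffBump (0 : H) := ⟨a, b, ha, hab⟩
  refine ⟨F0, F0.contDiff, fun h => F0.nonneg, fun h hh => F0.one_of_mem_closedBall ?_,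
    fun h hh => F0.zero_of_le_dist ?_⟩
  · simpa using hh
  · simpa using hh

theorem zero_up_eq (x : E) : (up (H := EuclideanSpace ℝ n) fun c : Eu 0 =>
    x + (0 : Eu 0 →L[ℝ] E) c) = cst (n := n) (E := E) (Eu 0) x := by
  funext z
  simp [up, cst]

theorem fo_push [Nonempty ι] (hX : Sub d X) (hP : PField X r P)
    (h' : OR X (fun x => 1 - P x) W') :
    FO r (kGG ι * del (EuclideanSpace ℝ n)) X (Tot X P) Prod.fst (fun z => ‖z.2‖)
      (push volume P (thomF (fun x => 1 - P x) W')) where
  kpos := mul_pos (kGG_pos ι) (del_pos _)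
  smT := smap_fst'
  contN := continuous_snd.norm
  cut := fun a b ha hab => by
    obtain ⟨χ, h1, h2, h3, h4⟩ := exists_cut (EuclideanSpace ℝ n) a b ha hab
    exact ⟨fun z => χ z.2, h1.comp contDiff_snd, fun z => h2 _, fun z hz => h3 _ hz,
      fun z hz => h4 _ hz⟩
  sm := fun sV vV => sm_push volume hP (csf_thomF hX h') sV vV
  congr := fun s v s' v' h => push_congr volume hP (csf_thomF hX h') s v s' v' h
  mul := fun y s v x hx => push_mul_fst volume hP (csf_thomF hX h') s v hx
  fib := fun x hx => by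
    obtain ⟨g, f, h⟩ := exists_dat h' hP hx
    have hL : ∀ c, ((x, 0) : E × EuclideanSpace ℝ n) +
        ((ContinuousLinearMap.inr ℝ E (EuclideanSpace ℝ n)).comp (cmb f)) c = (x, cmb f c) := by
      intro c
      ext <;> simp
    refine ⟨(ContinuousLinearMap.inr ℝ E (EuclideanSpace ℝ n)).comp (cmb f), (x, 0),
      kGG ι * (h.adp.mat.det * (-1) ^ r), ?_, ?_, ?_, ?_, ?_, ?_, ?_, ?_, ?_⟩
    · rw [abs_mul, abs_mul, h.adp.abs_det, abs_of_pos (kGG_pos ι), abs_pow, abs_neg, abs_one,
        one_pow, mul_one]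
    · refine (injective_iff_map_eq_zero _).2 fun v hv => ?_
      have h1 : cmb f v = 0 := congrArg Prod.snd hv
      have h2 := norm_cmb h.adp.on'' v
      rw [h1, norm_zero] at h2
      exact norm_eq_zero.1 h2.symm
    · intro c
      rw [hL]
      exact ⟨hx, h.P_f c⟩
    · intro c
      rw [hL]
    · rintro ⟨y, v⟩ ⟨hy, hv⟩ hyx
      change y = x at hyx
      change P y v = v at hv
      subst hyx
      obtain ⟨a, ha⟩ := h.surj v hv
      exact ⟨a, by rw [hL, ha]⟩
    · simp
    · intro ρ
      have : {c : Eu r | ‖(((x, 0) : E × EuclideanSpace ℝ n) +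
        ((ContinuousLinearMap.inr ℝ E (EuclideanSpace ℝ n)).comp (cmb f)) c).2‖ < ρ} =
          Metric.ball 0 ρ := by
        ext c
        rw [mem_ofPred_eq, hL, norm_cmb h.adp.on'', mem_ball_zero_iff]
      rw [this]
      exact convex_ball _ _
    · intro c
      rw [hL, norm_cmb h.adp.on'']
      have := norm_nonneg c
      linarith
    · intro β R sβ vβ dβ
      have e1 := push_formula h hP (csf_thomF hX h') (A := (0 : Eu 0 →L[ℝ] E)) (y₀ := x)
        (fun c => by simpa using hx) (fun c => by simp) (by rw [zero_up_eq]) sβ vβ 0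
      have hq : Fintype.card ι * 2 + r = finrank ℝ (EuclideanSpace ℝ n) := h.adp.finrank.symm
      have e2 : IsDeg 0 (push volume P (thomF (fun x => 1 - P x) W') β x) :=
        hom_push volume (j := 0) (q := Fintype.card ι * 2) (fun z => by
          have := thomF_deg (P := fun x => 1 - P x) (W := W') z
          rwa [mul_comm] at this) (by rwa [zero_add]) hq x
      rw [eq_algebraMap_of_isDeg e2 ![]]
      congr 1
      have e3 : ∀ w : Fin 0 → E, w = ![] := fun w => Subsingleton.elim _ _
      rw [e3 (fun k => (0 : Eu 0 →L[ℝ] E) (sb 0 k))] at e1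
      simp only [_root_.zero_apply, add_zero] at e1
      rw [e1]
      congr 1
      refine integral_congr_ae (Eventually.of_forall fun b => ?_)
      simp only
      rw [evA_append_nil, top_pb, hL]
      congr 1
      funext i
      exact Prod.ext rfl (cmb_sb f i).symm

end one

end Crest.Agent.R208.LC
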