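import Crest.Agent.R208.LC4

/-! Row 208, block LC (helper125), part LC5: `pu₂` is a fibre operator; **localisation** for one and
for two fields. -/

set_option autoImplicit false
set_option linter.unusedSectionVars false
set_option linter.unusedSimpArgs false
set_option linter.unusedVariables false

open MeasureTheory Set Filter Topology Module Matrix
open scoped ContDiff
open Crest.Agent.R208.F Crest.Agent.R208.FI Crest.Agent.R208.CW Crest.Agent.R208.T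
open Crest.Agent.R208.TP Crest.Agent.R208.SN

noncomputable section

namespace Crest.Agent.R208.LC

section kap
variable {r₁ r₂ : ℕ}

theorem kap_norm (c : Eu (r₁ + r₂)) : ‖c‖ ^ 2 = ‖(kap r₁ r₂ c).1‖ ^ 2 + ‖(kap r₁ r₂ c).2‖ ^ 2 := by
  rw [EuclideanSpace.norm_sq_eq, EuclideanSpace.norm_sq_eq, EuclideanSpace.norm_sq_eq,
    Fin.sum_univ_add]
  simp

theorem kap_bdd (c : Eu (r₁ + r₂)) :
    ‖c‖ ≤ 2 * max ‖(kap r₁ r₂ c).2‖ ‖(kap r₁ r₂ c).1‖ := by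
  have h1 := kap_norm c
  set m := max ‖(kap r₁ r₂ c).2‖ ‖(kap r₁ r₂ c).1‖ with hm
  have h2 : ‖(kap r₁ r₂ c).2‖ ≤ m := le_max_left _ _
  have h3 : ‖(kap r₁ r₂ c).1‖ ≤ m := le_max_right _ _
  have h4 : 0 ≤ m := (norm_nonneg _).trans h2
  have h5 := norm_nonneg c
  have h6 := norm_nonneg (kap r₁ r₂ c).1
  have h7 := norm_nonneg (kap r₁ r₂ c).2
  nlinarith

end kap

section two
variable {E : Type*} [NormedAddCommGroup E] [NormedSpace ℝ E] [FiniteDimensional ℝ E]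
  {n₁ n₂ ι₁ ι₂ : Type*} [Fintype n₁] [DecidableEq n₁] [Fintype n₂] [DecidableEq n₂]
  [Fintype ι₁] [DecidableEq ι₁] [Fintype ι₂] [DecidableEq ι₂]
  {X : Set E} {P₁ : E → EuclideanSpace ℝ n₁ →L[ℝ] EuclideanSpace ℝ n₁}
  {P₂ : E → EuclideanSpace ℝ n₂ →L[ℝ] EuclideanSpace ℝ n₂}
  {W₁ : E → (ι₁ × Fin 2 → n₁) → ℝ} {W₂ : E → (ι₂ × Fin 2 → n₂) → ℝ} {r₁ r₂ d : ℕ} {x : E}

/-- the linear map onto the fibre of `P₂ ⊕ P₁` -/
def L2 (E : Type*) [NormedAddCommGroup E] [NormedSpace ℝ E]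
    (f₁ : Fin r₁ → EuclideanSpace ℝ n₁) (f₂ : Fin r₂ → EuclideanSpace ℝ n₂) :
    Eu (r₁ + r₂) →L[ℝ] (E × EuclideanSpace ℝ n₂) × EuclideanSpace ℝ n₁ :=
  (((0 : Eu (r₁ + r₂) →L[ℝ] E).prod ((cmb f₂).comp
    ((ContinuousLinearMap.snd ℝ (Eu r₁) (Eu r₂)).comp
      (kap r₁ r₂ : Eu (r₁ + r₂) →L[ℝ] Eu r₁ × Eu r₂))))).prod
    ((cmb f₁).comp ((ContinuousLinearMap.fst ℝ (Eu r₁) (Eu r₂)).comp
      (kap r₁ r₂ : Eu (r₁ + r₂) →L[ℝ] Eu r₁ × Eu r₂)))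

theorem L2_apply (f₁ : Fin r₁ → EuclideanSpace ℝ n₁) (f₂ : Fin r₂ → EuclideanSpace ℝ n₂)
    (c : Eu (r₁ + r₂)) :
    L2 E f₁ f₂ c = ((0, cmb f₂ (kap r₁ r₂ c).2), cmb f₁ (kap r₁ r₂ c).1) := rfl

theorem add_L2 (x : E) (f₁ : Fin r₁ → EuclideanSpace ℝ n₁) (f₂ : Fin r₂ → EuclideanSpace ℝ n₂)
    (c : Eu (r₁ + r₂)) :
    (((x, 0), 0) : (E × EuclideanSpace ℝ n₂) × EuclideanSpace ℝ n₁) + L2 E f₁ f₂ c =
      ((x, cmb f₂ (kap r₁ r₂ c).2), cmb f₁ (kap r₁ r₂ c).1) := by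
  rw [L2_apply]
  simp

theorem L2_sb (f₁ : Fin r₁ → EuclideanSpace ℝ n₁) (f₂ : Fin r₂ → EuclideanSpace ℝ n₂) :
    (fun i => L2 E f₁ f₂ (sb (r₁ + r₂) i)) =
      Fin.append (fun k => (0, f₁ k)) (fun k => ((0, f₂ k), 0)) := by
  funext i
  refine Fin.addCases (fun i => ?_) (fun i => ?_) i
  · rw [Fin.append_left, L2_apply, kap_castAdd]
    simp only [map_zero, cmb_sb]
    rfl
  · rw [Fin.append_right, L2_apply, kap_natAdd]
    simp only [map_zero, cmb_sb]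

theorem up_up_eq (x : E) (A : Eu r₂ →L[ℝ] EuclideanSpace ℝ n₂) :
    (up (H := EuclideanSpace ℝ n₁) (Prod.fst : E × EuclideanSpace ℝ n₂ → E)) ∘
      (up (H := EuclideanSpace ℝ n₁) fun c : Eu r₂ => ((x, 0) : E × EuclideanSpace ℝ n₂) +
        ((ContinuousLinearMap.inr ℝ E (EuclideanSpace ℝ n₂)).comp A) c) =
      cst (n := n₁) (E := E) (Eu r₂) x := by
  funext z
  simp [up, cst]

theorem pull_up_up (x : E) (A : Eu r₂ →L[ℝ] EuclideanSpace ℝ n₂)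
    (τ : E × EuclideanSpace ℝ n₁ → Ext (E × EuclideanSpace ℝ n₁)) :
    F.pull (up (H := EuclideanSpace ℝ n₁) fun c : Eu r₂ => ((x, 0) : E × EuclideanSpace ℝ n₂) +
        ((ContinuousLinearMap.inr ℝ E (EuclideanSpace ℝ n₂)).comp A) c)
      (F.pull (up (H := EuclideanSpace ℝ n₁) (Prod.fst : E × EuclideanSpace ℝ n₂ → E)) τ) =
      F.pull (cst (n := n₁) (E := E) (Eu r₂) x) τ := by
  funext z
  rw [F.pull_comp (f := up (H := EuclideanSpace ℝ n₁) fun c : Eu r₂ =>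
      ((x, 0) : E × EuclideanSpace ℝ n₂) +
        ((ContinuousLinearMap.inr ℝ E (EuclideanSpace ℝ n₂)).comp A) c)
    (g := up (H := EuclideanSpace ℝ n₁) (Prod.fst : E × EuclideanSpace ℝ n₂ → E)) (om := τ)
    (hasFDerivAt_up_aff z).differentiableAt (by unfold up; fun_prop), up_up_eq]

theorem L2_mem (hx : x ∈ X) {g₁ : Matrix n₁ (ι₁ × Fin 2) ℝ} {f₁ : Fin r₁ → EuclideanSpace ℝ n₁}
    {g₂ : Matrix n₂ (ι₂ × Fin 2) ℝ} {f₂ : Fin r₂ → EuclideanSpace ℝ n₂}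
    (D₁ : Dat P₁ W₁ x g₁ f₁) (D₂ : Dat P₂ W₂ x g₂ f₂) (c : Eu (r₁ + r₂)) :
    (((x, 0), 0) : (E × EuclideanSpace ℝ n₂) × EuclideanSpace ℝ n₁) + L2 E f₁ f₂ c ∈
      TT X P₂ P₁ := by
  rw [add_L2]
  exact ⟨⟨hx, D₂.P_f _⟩, D₁.P_f _⟩

/-- the norm on the total space -/
def N2 (z : (E × EuclideanSpace ℝ n₂) × EuclideanSpace ℝ n₁) : ℝ := max ‖z.1.2‖ ‖z.2‖

theorem N2_add (x : E) {g₁ : Matrix n₁ (ι₁ × Fin 2) ℝ} {f₁ : Fin r₁ → EuclideanSpace ℝ n₁}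
    {g₂ : Matrix n₂ (ι₂ × Fin 2) ℝ} {f₂ : Fin r₂ → EuclideanSpace ℝ n₂}
    (h₁ : Orthonormal ℝ f₁) (h₂ : Orthonormal ℝ f₂) (c : Eu (r₁ + r₂)) :
    N2 ((((x, 0), 0) : (E × EuclideanSpace ℝ n₂) × EuclideanSpace ℝ n₁) + L2 E f₁ f₂ c) =
      max ‖(kap r₁ r₂ c).2‖ ‖(kap r₁ r₂ c).1‖ := by
  rw [add_L2, N2, norm_cmb h₂, norm_cmb h₁]

theorem integrable_top {M : Type*} [NormedAddCommGroup M] [NormedSpace ℝ M]
    [FiniteDimensional ℝ M] {r : ℕ} {T : Set M} {N : M → ℝ} {L : Eu r →L[ℝ] M} {z : M}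
    {β : M → Ext M} {R : ℝ} (hm : ∀ c, z + L c ∈ T) (hb : ∀ c, ‖c‖ ≤ 2 * N (z + L c))
    (sβ : Sm T β) (vβ : ∀ z, R < N z → β z = 0) :
    Integrable (fun c => top r (pb (L : Eu r →ₗ[ℝ] M) (β (z + L c)))) := by
  have h1 := integrable_fib hm hb sβ vβ
  exact (LinearMap.toContinuousLinearMap ((top r) ∘ₗ (pb (L : Eu r →ₗ[ℝ] M)).toLinearMap)
        ).integrable_comp h1

theorem L2_bdd {g₁ : Matrix n₁ (ι₁ × Fin 2) ℝ} {f₁ : Fin r₁ → EuclideanSpace ℝ n₁}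
    {g₂ : Matrix n₂ (ι₂ × Fin 2) ℝ} {f₂ : Fin r₂ → EuclideanSpace ℝ n₂}
    (D₁ : Dat P₁ W₁ x g₁ f₁) (D₂ : Dat P₂ W₂ x g₂ f₂) (c : Eu (r₁ + r₂)) :
    ‖c‖ ≤ 2 * N2 ((((x, 0), 0) : (E × EuclideanSpace ℝ n₂) × EuclideanSpace ℝ n₁) +
      L2 E f₁ f₂ c) := by
  rw [N2_add x (g₁ := g₁) (g₂ := g₂) D₁.adp.on'' D₂.adp.on'']
  exact kap_bdd c

set_option maxHeartbeats 600000 in
/-- the double integral at a point, as an iterated integral -/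
theorem pu₂_formula [Nonempty ι₁] [Nonempty ι₂] (hX : Sub d X) (hP₁ : PField X r₁ P₁)
    (hP₂ : PField X r₂ P₂) (h₁ : OR X (fun x => 1 - P₁ x) W₁) (h₂ : OR X (fun x => 1 - P₂ x) W₂)
    (hx : x ∈ X) {g₁ : Matrix n₁ (ι₁ × Fin 2) ℝ} {f₁ : Fin r₁ → EuclideanSpace ℝ n₁}
    {g₂ : Matrix n₂ (ι₂ × Fin 2) ℝ} {f₂ : Fin r₂ → EuclideanSpace ℝ n₂}
    (D₁ : Dat P₁ W₁ x g₁ f₁) (D₂ : Dat P₂ W₂ x g₂ f₂)
    {β : (E × EuclideanSpace ℝ n₂) × EuclideanSpace ℝ n₁ →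
      Ext ((E × EuclideanSpace ℝ n₂) × EuclideanSpace ℝ n₁)} {R : ℝ}
    (sβ : Sm (TT X P₂ P₁) β) (vβ : ∀ z, R < N2 z → β z = 0)
    (dβ : Hom (r₁ + r₂) β) :
    pu₂ volume volume P₂ (thomF (fun x => 1 - P₂ x) W₂) P₁ (thomF (fun x => 1 - P₁ x) W₁) β x =
      algebraMap ℝ (Ext E) (((kGG ι₂ * (D₂.adp.mat.det * (-1) ^ r₂)) *
        (kGG ι₁ * (D₁.adp.mat.det * (-1) ^ r₁))) * ∫ c : Eu (r₁ + r₂),
          top (r₁ + r₂) (pb (L2 E f₁ f₂ : Eu (r₁ + r₂) →ₗ[ℝ]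
            (E × EuclideanSpace ℝ n₂) × EuclideanSpace ℝ n₁)
            (β (((x, 0), 0) + L2 E f₁ f₂ c)))) := by
  have v₁ : Vt R β := fun z hz => vβ z (lt_max_of_lt_right hz)
  have τ₁ := csf_thomF hX h₁
  have τ₂ := csf_thomF hX h₂
  have s₁ : Sm (Tot X P₂) (pu₁ volume P₁ (thomF (fun x => 1 - P₁ x) W₁) β) :=
    sm_push volume (X := Tot X P₂) (pfield_fst (P₂ := P₂) hP₁) (csf_fst (P₂ := P₂) τ₁) sβ v₁
  have v₂ : Vt R (pu₁ volume P₁ (thomF (fun x => 1 - P₁ x) W₁) β) := fun z hz =>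
    push_eq_zero_pt volume fun h => vβ (z, h) (lt_max_of_lt_left hz)
  have hq₁ : Fintype.card ι₁ * 2 + r₁ = finrank ℝ (EuclideanSpace ℝ n₁) := D₁.adp.finrank.symm
  have hq₂ : Fintype.card ι₂ * 2 + r₂ = finrank ℝ (EuclideanSpace ℝ n₂) := D₂.adp.finrank.symm
  have deg : IsDeg 0 (pu₂ volume volume P₂ (thomF (fun x => 1 - P₂ x) W₂) P₁
      (thomF (fun x => 1 - P₁ x) W₁) β x) :=
    hom_pu₂ volume volume (j := 0) (q₁ := Fintype.card ι₁ * 2) (q₂ := Fintype.card ι₂ * 2)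
      (fun z => by
        have := thomF_deg (P := fun x => 1 - P₁ x) (W := W₁) z
        rwa [mul_comm] at this)
      (fun z => by
        have := thomF_deg (P := fun x => 1 - P₂ x) (W := W₂) z
        rwa [mul_comm] at this) (by rw [zero_add, add_comm]; exact dβ) hq₁ hq₂ x
  have e0 : ∀ w : Fin 0 → E, w = ![] := fun w => Subsingleton.elim _ _
  -- outer integral
  have e1 := push_formula D₂ hP₂ τ₂ (A := (0 : Eu 0 →L[ℝ] E)) (y₀ := x)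
    (fun c => by simpa using hx) (fun c => by simp) (by rw [zero_up_eq]) s₁ v₂ 0
  rw [e0 (fun k => (0 : Eu 0 →L[ℝ] E) (sb 0 k))] at e1
  simp only [_root_.zero_apply, add_zero, evA_append_nil] at e1
  -- inner integral
  have e2 := fun b₂ : Eu r₂ => push_formula (Y := Tot X P₂) (Q := fun z => P₁ z.1) D₁
    (pfield_fst (P₂ := P₂) hP₁) (csf_fst (P₂ := P₂) τ₁)
    (A := (ContinuousLinearMap.inr ℝ E (EuclideanSpace ℝ n₂)).comp (cmb f₂))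
    (y₀ := ((x, 0) : E × EuclideanSpace ℝ n₂))
    (fun c => ⟨by simpa using hx, by
      have := D₂.P_f c
      simpa using this⟩) (fun c => by simp) (pull_up_up x (cmb f₂) _) sβ v₁ b₂
  have hy : ∀ b₂ : Eu r₂, ((x, 0) : E × EuclideanSpace ℝ n₂) +
      ((ContinuousLinearMap.inr ℝ E (EuclideanSpace ℝ n₂)).comp (cmb f₂)) b₂ = (x, cmb f₂ b₂) := by
    intro b₂; ext <;> simp
  have hA : ∀ k, ((ContinuousLinearMap.inr ℝ E (EuclideanSpace ℝ n₂)).comp (cmb f₂)) (sb r₂ k) =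
      (0, f₂ k) := fun k => Prod.ext rfl (cmb_sb f₂ k)
  simp only [hy, hA] at e2
  -- Fubini
  set Fc : Eu (r₁ + r₂) → ℝ := fun c => top (r₁ + r₂) (pb (L2 E f₁ f₂ : Eu (r₁ + r₂) →ₗ[ℝ]
            (E × EuclideanSpace ℝ n₂) × EuclideanSpace ℝ n₁)
            (β (((x, 0), 0) + L2 E f₁ f₂ c))) with hFc
  have hFint : Integrable Fc := integrable_top (L2_mem hx D₁ D₂) (L2_bdd D₁ D₂) sβ vβ
  have hFe : ∀ (b₁ : Eu r₁) (b₂ : Eu r₂), Fc ((kap r₁ r₂).symm (b₁, b₂)) =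
      evA ((E × EuclideanSpace ℝ n₂) × EuclideanSpace ℝ n₁) (r₁ + r₂)
        (β ((x, cmb f₂ b₂), cmb f₁ b₁))
        (Fin.append (fun k => (0, f₁ k)) (fun k => ((0, f₂ k), 0))) := by
    intro b₁ b₂
    rw [← L2_sb (E := E) f₁ f₂]
    simp only [hFc, top_pb, add_L2, ContinuousLinearEquiv.apply_symm_apply,
      ContinuousLinearMap.coe_coe]
  have m := measurePreserving_kap r₁ r₂
  have hemb : MeasurableEmbedding (kap r₁ r₂ : Eu (r₁ + r₂) → Eu r₁ × Eu r₂) :=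
    (kap r₁ r₂).toHomeomorph.measurableEmbedding
  have hF2 : Integrable (fun p : Eu r₁ × Eu r₂ => Fc ((kap r₁ r₂).symm p))
      ((volume : Measure (Eu r₁)).prod (volume : Measure (Eu r₂))) := by
    rw [← Measure.volume_eq_prod, ← m.integrable_comp_emb hemb]
    exact hFint.congr (Eventually.of_forall fun c =>
      (congrArg Fc ((kap r₁ r₂).symm_apply_apply c)).symm)
  have e3 : ∫ c, Fc c = ∫ b₂ : Eu r₂, ∫ b₁ : Eu r₁, Fc ((kap r₁ r₂).symm (b₁, b₂)) := by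
    rw [← integral_prod_symm _ hF2, ← Measure.volume_eq_prod,
      ← m.integral_comp hemb (fun p => Fc ((kap r₁ r₂).symm p))]
    exact integral_congr_ae (Eventually.of_forall fun c =>
      (congrArg Fc ((kap r₁ r₂).symm_apply_apply c)).symm)
  rw [eq_algebraMap_of_isDeg deg ![]]
  congr 1
  rw [pu₂, e1, e3]
  have e4 : ∀ b₂ : Eu r₂, evA (E × EuclideanSpace ℝ n₂) r₂
      (pu₁ volume P₁ (thomF (fun x => 1 - P₁ x) W₁) β (x, cmb f₂ b₂)) (fun k => (0, f₂ k)) =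
      (kGG ι₁ * (D₁.adp.mat.det * (-1) ^ r₁)) *
        ∫ b₁ : Eu r₁, Fc ((kap r₁ r₂).symm (b₁, b₂)) := by
    intro b₂
    rw [pu₁, e2 b₂]
    simp only [hFe]
  simp only [e4]
  rw [integral_const_mul]
  ring

end two

end Crest.Agent.R208.LC
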