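import Mathlib

/-!
R208 (Blaschke), block G7, the METRIC part: if all point symmetries `s_x : exp_x ξ ↦ exp_x (-ξ)` of a
Blaschke manifold are isometries of the distance, and the "equators of the linked spheres" are
geodesic (`MidS`), then the manifold is two-point homogeneous. No manifold theory is used here.
-/

set_option autoImplicit false

namespace Crest.Agent.R208.M

open Set

variable {X E : Type*} [MetricSpace X] [NormedAddCommGroup E] [InnerProductSpace ℝ E]

/-- Metric data of a Blaschke manifold of diameter `D`: `T p` the tangent space, `ex p` the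
exponential map at `p`. -/
structure Bl (D : ℝ) (T : X → Submodule ℝ E) (ex : X → E → X) : Prop where
  D_pos : 0 < D
  dist_le : ∀ p q : X, dist p q ≤ D
  rebase : ∀ p v, v ∈ T p → ‖v‖ = 1 → ∀ s : ℝ, ∃ w ∈ T (ex p (s • v)), ‖w‖ = 1 ∧
    ∀ t : ℝ, ex (ex p (s • v)) (t • w) = ex p ((s + t) • v)
  dist_ray : ∀ p v, v ∈ T p → ‖v‖ = 1 → ∀ r : ℝ, 0 ≤ r → r ≤ D → dist p (ex p (r • v)) = r
  periodic : ∀ p v, v ∈ T p → ‖v‖ = 1 → ∀ t : ℝ, ex p ((t + 2 * D) • v) = ex p (t • v)
  reach : ∀ p q : X, ∃ v ∈ T p, ‖v‖ = 1 ∧ ex p (dist p q • v) = q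
  inj : ∀ p v w, v ∈ T p → ‖v‖ = 1 → w ∈ T p → ‖w‖ = 1 → ∀ r : ℝ, 0 < r → r < D →
    ex p (r • v) = ex p (r • w) → v = w
  no_corner : ∀ p y q v, v ∈ T p → ‖v‖ = 1 → y ≠ p → ex p (dist p y • v) = y →
    dist p y + dist y q = dist p q → ex p (dist p q • v) = q

/-- The point symmetries and the fact that they are isometries. -/
structure SymS (T : X → Submodule ℝ E) (ex : X → E → X) (sym : X → X → X) : Prop where
  sym_ex : ∀ x ξ, ξ ∈ T x → sym x (ex x ξ) = ex x (-ξ)
  sym_iso : ∀ x, Isometry (sym x)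

/-- The equators of the linked spheres are geodesic: if `v`, `v'` are two directions at `p` leading
to the same cut point, not opposite, then there is a third one `u` such that the point on it at
distance `D/2` is the midpoint of the points at distance `D/2` on `v` and `v'`. -/
def MidS (D : ℝ) (T : X → Submodule ℝ E) (ex : X → E → X) : Prop :=
  ∀ p v v', v ∈ T p → ‖v‖ = 1 → v' ∈ T p → ‖v'‖ = 1 → ex p (D • v) = ex p (D • v') →
    v' ≠ v → v' ≠ -v → ∃ u ∈ T p, ‖u‖ = 1 ∧ ex p (D • u) = ex p (D • v) ∧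
      dist (ex p ((D / 2) • v)) (ex p ((D / 2) • u))
        = dist (ex p ((D / 2) • v)) (ex p ((D / 2) • v')) / 2 ∧
      dist (ex p ((D / 2) • u)) (ex p ((D / 2) • v'))
        = dist (ex p ((D / 2) • v)) (ex p ((D / 2) • v')) / 2

variable {D : ℝ} {T : X → Submodule ℝ E} {ex : X → E → X} {sym : X → X → X}

namespace Bl

lemma ex_zero (hB : Bl D T ex) (p : X) : ex p 0 = p := by
  obtain ⟨v, hv, hv1, h⟩ := hB.reach p p
  simpa using h

/-- uniqueness of the point at distance `a` on the way from `p` to `q`. -/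
lemma unique_between (hB : Bl D T ex) {p q y z : X} (hpq : dist p q < D)
    (hy : dist p y + dist y q = dist p q) (hz : dist p z + dist z q = dist p q)
    (h : dist p y = dist p z) : y = z := by
  by_cases hyp : y = p
  · subst hyp
    have : dist y z = 0 := by rw [← h]; simp
    exact dist_eq_zero.mp this
  have hzp : z ≠ p := by
    intro hzp
    subst hzp
    apply hyp
    have : dist z y = 0 := by rw [h]; simp
    exact (dist_eq_zero.mp this).symm
  obtain ⟨v, hv, hv1, hvy⟩ := hB.reach p y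
  obtain ⟨w, hw, hw1, hwz⟩ := hB.reach p z
  have h1 := hB.no_corner p y q v hv hv1 hyp hvy hy
  have h2 := hB.no_corner p z q w hw hw1 hzp hwz hz
  have hpos : 0 < dist p q := by
    have : 0 < dist p y := dist_pos.mpr (Ne.symm hyp)
    have := dist_nonneg (x := y) (y := q)
    linarith
  have hvw : v = w := hB.inj p v w hv hv1 hw hw1 _ hpos hpq (h1.trans h2.symm)
  rw [← hvy, ← hwz, hvw, h]

lemma ex_neg_D (hB : Bl D T ex) {p : X} {v : E} (hv : v ∈ T p) (hv1 : ‖v‖ = 1) :
    ex p (-(D • v)) = ex p (D • v) := by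
  have := hB.periodic p v hv hv1 (-D)
  rw [show (-D + 2 * D) = D by ring] at this
  rw [this, neg_smul]

end Bl

namespace SymS

lemma sym_invol (hB : Bl D T ex) (hS : SymS T ex sym) (x y : X) : sym x (sym x y) = y := by
  obtain ⟨v, hv, hv1, h⟩ := hB.reach x y
  have hmem : dist x y • v ∈ T x := (T x).smul_mem _ hv
  rw [← h, hS.sym_ex x _ hmem, hS.sym_ex x _ ((T x).neg_mem hmem), neg_neg]

lemma sym_self (hB : Bl D T ex) (hS : SymS T ex sym) (x : X) : sym x x = x := by
  have := hS.sym_ex x 0 (T x).zero_mem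
  rwa [neg_zero, hB.ex_zero] at this

lemma sym_cut (hB : Bl D T ex) (hS : SymS T ex sym) {x y : X} (h : dist x y = D) :
    sym x y = y := by
  obtain ⟨v, hv, hv1, hy⟩ := hB.reach x y
  rw [h] at hy
  rw [← hy, hS.sym_ex x _ ((T x).smul_mem _ hv), hB.ex_neg_D hv hv1]

/-- the point symmetry as an isometric equivalence. -/
noncomputable def symE (hB : Bl D T ex) (hS : SymS T ex sym) (x : X) : X ≃ᵢ X where
  toFun := sym x
  invFun := sym x
  left_inv := sym_invol hB hS x
  right_inv := sym_invol hB hS x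
  isometry_toFun := hS.sym_iso x

@[simp] lemma symE_apply (hB : Bl D T ex) (hS : SymS T ex sym) (x y : X) :
    symE hB hS x y = sym x y := rfl

/-- fixed points of `s_x`: `x` itself and the cut locus. -/
lemma eq_or_cut_of_fixed (hB : Bl D T ex) (hS : SymS T ex sym) {x y : X} (h : sym x y = y) :
    y = x ∨ dist x y = D := by
  by_contra hcon
  push Not at hcon
  obtain ⟨hne, hD⟩ := hcon
  obtain ⟨v, hv, hv1, hy⟩ := hB.reach x y
  have hpos : 0 < dist x y := dist_pos.mpr (Ne.symm hne)
  have hlt : dist x y < D := lt_of_le_of_ne (hB.dist_le x y) hD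
  have h1 : ex x (dist x y • v) = ex x (dist x y • (-v)) := by
    rw [smul_neg, ← hS.sym_ex x _ ((T x).smul_mem _ hv), hy, h]
  have h2 := hB.inj x v (-v) hv hv1 ((T x).neg_mem hv) (by rw [norm_neg, hv1]) _ hpos hlt h1
  have : v = 0 := by
    have h3 : v + v = 0 := by nth_rewrite 2 [h2]; simp
    have h4 : (2 : ℝ) • v = 0 := by rw [two_smul]; exact h3
    exact (smul_eq_zero.mp h4).resolve_left (by norm_num)
  rw [this] at hv1
  simp at hv1

/-- `s_m` swaps the points `γ(s-t)` and `γ(s+t)` where `m = γ(s)`. -/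
lemma sym_ray (hB : Bl D T ex) (hS : SymS T ex sym) {p : X} {v : E} (hv : v ∈ T p)
    (hv1 : ‖v‖ = 1) (s t : ℝ) : sym (ex p (s • v)) (ex p ((s + t) • v)) = ex p ((s - t) • v) := by
  obtain ⟨w, hw, hw1, h⟩ := hB.rebase p v hv hv1 s
  rw [← h t, hS.sym_ex _ _ ((T _).smul_mem _ hw), ← neg_smul, h (-t), sub_eq_add_neg]

/-- if `m` is halfway between `x` and `y` then `s_m x = y`. -/
lemma sym_mid (hB : Bl D T ex) (hS : SymS T ex sym) {x y m : X}
    (h1 : dist x m = dist x y / 2) (h2 : dist m y = dist x y / 2) : sym m x = y := by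
  by_cases hxm : m = x
  · subst hxm
    have h3 : dist m y = 0 := by
      have : dist m y / 2 = 0 := by rw [← h1]; simp
      linarith
    have h4 : m = y := dist_eq_zero.mp h3
    subst h4
    exact sym_self hB hS _
  obtain ⟨v, hv, hv1, hm⟩ := hB.reach x m
  have h3 := hB.no_corner x m y v hv hv1 hxm hm (by rw [h1, h2]; ring)
  have h4 := sym_ray hB hS hv hv1 (dist x m) (-(dist x m))
  rw [hm] at h4
  have h5 : dist x m + -dist x m = 0 := by ring
  rw [h5, zero_smul, hB.ex_zero] at h4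
  rw [h4]
  have h6 : dist x m - -dist x m = dist x y := by rw [h1]; ring
  rw [h6, h3]

end SymS

/-- isometric equivalences fixing `p` and mapping `q` to `q'`. -/
def Rel (p q q' : X) : Prop := ∃ Φ : X ≃ᵢ X, Φ p = p ∧ Φ q = q'

lemma Rel.refl (p q : X) : Rel p q q := ⟨IsometryEquiv.refl X, rfl, rfl⟩

lemma Rel.symm {p q q' : X} (h : Rel p q q') : Rel p q' q := by
  obtain ⟨Φ, h1, h2⟩ := h
  refine ⟨Φ.symm, ?_, ?_⟩
  · rw [Φ.symm_apply_eq]; exact h1.symm
  · rw [Φ.symm_apply_eq]; exact h2.symm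

lemma Rel.trans {p q q' q'' : X} (h : Rel p q q') (h' : Rel p q' q'') : Rel p q q'' := by
  obtain ⟨Φ, h1, h2⟩ := h
  obtain ⟨Ψ, h3, h4⟩ := h'
  refine ⟨Φ.trans Ψ, ?_, ?_⟩
  · simp [h1, h3]
  · simp [h2, h4]

open SymS

/-- Step (3): nearby cut points of `p` are related. -/
lemma rel_cut_near (hB : Bl D T ex) (hS : SymS T ex sym) {p w w' : X} (hw : dist p w = D)
    (hw' : dist p w' = D) (h : dist w w' < D) : Rel p w w' := by
  by_cases hww : w = w'
  · subst hww; exact Rel.refl p w
  -- the midpoint `y` of `w` and `w'`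
  obtain ⟨v, hv, hv1, hv2⟩ := hB.reach w w'
  set r := dist w w' with hr
  have hr0 : 0 < r := dist_pos.mpr hww
  set y := ex w ((r / 2) • v) with hy
  have hwy : dist w y = r / 2 := hB.dist_ray w v hv hv1 _ (by positivity) (by linarith)
  have hyw' : dist y w' = r / 2 := by
    obtain ⟨u, hu, hu1, h'⟩ := hB.rebase w v hv hv1 (r / 2)
    have h2 := hB.dist_ray y u hu hu1 (r / 2) (by positivity) (by linarith)
    rw [h' (r / 2), show r / 2 + r / 2 = r by ring, hv2] at h2
    exact h2
  -- `s_p` fixes `w`, `w'`, hence `y`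
  have hpw : sym p w = w := sym_cut hB hS hw
  have hpw' : sym p w' = w' := sym_cut hB hS hw'
  have hfix : sym p y = y := by
    apply hB.unique_between (p := w) (q := w') h
    · have h1 : dist w (sym p y) = dist w y := by
        nth_rewrite 1 [← hpw]; exact (hS.sym_iso p).dist_eq _ _
      have h2 : dist (sym p y) w' = dist y w' := by
        nth_rewrite 1 [← hpw']; exact (hS.sym_iso p).dist_eq _ _
      rw [h1, h2, hwy, hyw']; linarith
    · rw [hwy, hyw']; linarith
    · nth_rewrite 1 [← hpw]; exact (hS.sym_iso p).dist_eq _ _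
  have hyD : dist p y = D := by
    rcases eq_or_cut_of_fixed hB hS hfix with h1 | h1
    · exfalso
      rw [h1, dist_comm, hw] at hwy
      linarith [hB.D_pos]
    · exact h1
  refine ⟨symE hB hS y, ?_, ?_⟩
  · simp only [symE_apply]
    exact sym_cut hB hS (by rw [dist_comm]; exact hyD)
  · simp only [symE_apply]
    exact sym_mid hB hS (by rw [hwy]) (by rw [hyw'])

/-- Step (3): the stabiliser of `p` is transitive on the cut locus. -/
lemma rel_cut (hB : Bl D T ex) (hS : SymS T ex sym)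
    (hconn : ∀ p : X, IsPreconnected {w : X | dist p w = D}) {p w w' : X} (hw : dist p w = D)
    (hw' : dist p w' = D) : Rel p w w' := by
  -- the class of `w` and its complement
  set A : Set X := ⋃ z ∈ {z : X | dist p z = D ∧ Rel p w z}, Metric.ball z D with hA
  set B : Set X := ⋃ z ∈ {z : X | dist p z = D ∧ ¬ Rel p w z}, Metric.ball z D with hBB
  have hAo : IsOpen A := isOpen_biUnion fun z _ => Metric.isOpen_ball
  have hBo : IsOpen B := isOpen_biUnion fun z _ => Metric.isOpen_ball
  by_contra hcon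
  have hsub : {z : X | dist p z = D} ⊆ A ∪ B := by
    intro z hz
    by_cases h : Rel p w z
    · left
      exact mem_biUnion (show z ∈ {z : X | dist p z = D ∧ Rel p w z} from ⟨hz, h⟩)
        (Metric.mem_ball_self hB.D_pos)
    · right
      exact mem_biUnion (show z ∈ {z : X | dist p z = D ∧ ¬ Rel p w z} from ⟨hz, h⟩)
        (Metric.mem_ball_self hB.D_pos)
  have h1 : ({z : X | dist p z = D} ∩ A).Nonempty :=
    ⟨w, hw, mem_biUnion (show w ∈ {z : X | dist p z = D ∧ Rel p w z} from ⟨hw, Rel.refl p w⟩)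
        (Metric.mem_ball_self hB.D_pos)⟩
  have h2 : ({z : X | dist p z = D} ∩ B).Nonempty :=
    ⟨w', hw', mem_biUnion (show w' ∈ {z : X | dist p z = D ∧ ¬ Rel p w z} from ⟨hw', hcon⟩)
        (Metric.mem_ball_self hB.D_pos)⟩
  obtain ⟨z, hz, hzA, hzB⟩ := hconn p A B hAo hBo hsub h1 h2
  simp only [hA, hBB, mem_iUnion, Metric.mem_ball, mem_ofPred_eq, exists_prop] at hzA hzB hz
  obtain ⟨a, ⟨ha1, ha2⟩, ha3⟩ := hzA
  obtain ⟨b, ⟨hb1, hb2⟩, hb3⟩ := hzB
  apply hb2
  have h3 : Rel p a z := rel_cut_near hB hS ha1 hz (by rw [dist_comm]; exact ha3)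
  have h4 : Rel p z b := rel_cut_near hB hS hz hb1 hb3
  exact (ha2.trans h3).trans h4

/-- a unit vector whose `D`-point is the cut point, from a point at distance `r`. -/
lemma exists_dir (hB : Bl D T ex) {p w q : X} (hw : dist p w = D)
    (hq : dist p q + dist q w = D) :
    ∃ v ∈ T p, ‖v‖ = 1 ∧ ex p (D • v) = w ∧ ex p (dist p q • v) = q := by
  by_cases hqp : q = p
  · subst hqp
    obtain ⟨v, hv, hv1, h⟩ := hB.reach q w
    rw [hw] at h
    refine ⟨v, hv, hv1, h, ?_⟩
    rw [dist_self, zero_smul, hB.ex_zero]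
  · obtain ⟨v, hv, hv1, h⟩ := hB.reach p q
    have := hB.no_corner p q w v hv hv1 hqp h (by rw [hw]; exact hq)
    rw [hw] at this
    exact ⟨v, hv, hv1, this, h⟩

/-- Step (4): two directions at `p` with the same cut point are related. -/
lemma rel_dir (hB : Bl D T ex) (hS : SymS T ex sym) (hM : MidS D T ex) {p : X} {v v' : E}
    (hv : v ∈ T p) (hv1 : ‖v‖ = 1) (hv' : v' ∈ T p) (hv1' : ‖v'‖ = 1)
    (h : ex p (D • v) = ex p (D • v')) {r : ℝ} (hr0 : 0 ≤ r) (hr : r < D) :
    Rel p (ex p (r • v)) (ex p (r • v')) := by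
  by_cases h1 : v' = v
  · subst h1; exact Rel.refl _ _
  by_cases h2 : v' = -v
  · subst h2
    refine ⟨symE hB hS p, ?_, ?_⟩
    · exact sym_self hB hS p
    · simp only [symE_apply]
      rw [hS.sym_ex _ _ ((T p).smul_mem _ hv), smul_neg]
  obtain ⟨u, hu, hu1, hu2, hm1, hm2⟩ := hM p v v' hv hv1 hv' hv1' h h1 h2
  set x := ex p ((D / 2) • v) with hx
  set x' := ex p ((D / 2) • v') with hx'
  set z := ex p ((D / 2) • u) with hz
  have hDp := hB.D_pos
  -- `s_z s_x` fixes `p` and maps `x` to `x'`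
  have e1 : sym x p = ex p (D • v) := by
    have := sym_ray hB hS hv hv1 (D / 2) (-(D / 2))
    rw [show D / 2 + -(D / 2) = 0 by ring, zero_smul, hB.ex_zero,
      show D / 2 - -(D / 2) = D by ring] at this
    exact this
  have e2 : sym z (ex p (D • v)) = p := by
    have := sym_ray hB hS hu hu1 (D / 2) (D / 2)
    rw [show D / 2 + (D / 2) = D by ring, show D / 2 - (D / 2) = 0 by ring, zero_smul,
      hB.ex_zero, hu2] at this
    exact this
  have e3 : sym z x = x' := sym_mid hB hS hm1 hm2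
  set Φ : X ≃ᵢ X := (symE hB hS x).trans (symE hB hS z) with hΦ
  have hΦp : Φ p = p := by
    change sym z (sym x p) = p
    rw [e1, e2]
  have hΦx : Φ x = x' := by
    change sym z (sym x x) = x'
    rw [sym_self hB hS, e3]
  refine ⟨Φ, hΦp, ?_⟩
  -- the image of `ex p (r v)`
  set q := ex p (r • v) with hq
  have dpx : dist p x = D / 2 := hB.dist_ray p v hv hv1 _ (by linarith) (by linarith)
  have dpx' : dist p x' = D / 2 := hB.dist_ray p v' hv' hv1' _ (by linarith) (by linarith)
  have dpq : dist p q = r := hB.dist_ray p v hv hv1 _ hr0 hr.le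
  have dpΦq : dist p (Φ q) = r := by
    nth_rewrite 1 [← hΦp]; rw [Φ.isometry.dist_eq, dpq]
  have dxq : dist x (Φ.symm (Φ q)) = dist x' (Φ q) := by
    rw [← hΦx, Φ.isometry.dist_eq, Φ.symm_apply_apply]
  rw [Φ.symm_apply_apply] at dxq
  rcases le_or_gt r (D / 2) with hle | hgt
  · -- `q` lies between `p` and `x`
    have dqx : dist q x = D / 2 - r := by
      obtain ⟨w, hw, hw1, h'⟩ := hB.rebase p v hv hv1 r
      have h2 := hB.dist_ray q w hw hw1 (D / 2 - r) (by linarith) (by linarith)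
      rw [h' (D / 2 - r), show r + (D / 2 - r) = D / 2 by ring] at h2
      exact h2
    have dq'x : dist (ex p (r • v')) x' = D / 2 - r := by
      obtain ⟨w, hw, hw1, h'⟩ := hB.rebase p v' hv' hv1' r
      have h2 := hB.dist_ray _ w hw hw1 (D / 2 - r) (by linarith) (by linarith)
      rw [h' (D / 2 - r), show r + (D / 2 - r) = D / 2 by ring] at h2
      exact h2
    have dpq' : dist p (ex p (r • v')) = r := hB.dist_ray p v' hv' hv1' _ hr0 hr.le
    apply hB.unique_between (p := p) (q := x')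
    · rw [dpx']; linarith
    · rw [dpΦq, dpx', dist_comm (Φ q), ← dxq, dist_comm x, dqx]; ring
    · rw [dpq', dpx', dq'x]; ring
    · rw [dpΦq, dpq']
  · -- `x` lies between `p` and `q`
    have dxq2 : dist x q = r - D / 2 := by
      obtain ⟨w, hw, hw1, h'⟩ := hB.rebase p v hv hv1 (D / 2)
      have h2 := hB.dist_ray x w hw hw1 (r - D / 2) (by linarith) (by linarith)
      rw [h' (r - D / 2), show D / 2 + (r - D / 2) = r by ring] at h2
      exact h2
    have hx'p : x' ≠ p := by
      intro h3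
      rw [h3, dist_self] at dpx'
      linarith
    have h4 := hB.no_corner p x' (Φ q) v' hv' hv1' hx'p (by rw [dpx'])
      (by rw [dpx', ← dxq, dxq2, dpΦq]; ring)
    rw [dpΦq] at h4
    exact h4.symm

/-- **Two-point homogeneity** from the point symmetries. -/
theorem two_point (hB : Bl D T ex) (hS : SymS T ex sym) (hM : MidS D T ex)
    (hconn : ∀ p : X, IsPreconnected {w : X | dist p w = D}) (p q p' q' : X)
    (hd : dist p q = dist p' q') : ∃ Φ : X ≃ᵢ X, Φ p = p' ∧ Φ q = q' := by
  have hDp := hB.D_pos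
  -- reduce to `p = p'`
  suffices H : ∀ q q' : X, dist p q = dist p q' → Rel p q q' by
    obtain ⟨v, hv, hv1, h⟩ := hB.reach p p'
    set m := ex p ((dist p p' / 2) • v) with hm
    have h1 : sym m p = p' := by
      have := sym_ray hB hS hv hv1 (dist p p' / 2) (-(dist p p' / 2))
      rw [show dist p p' / 2 + -(dist p p' / 2) = 0 by ring, zero_smul, hB.ex_zero,
        show dist p p' / 2 - -(dist p p' / 2) = dist p p' by ring, h] at this
      exact this
    have h2 : sym m p' = p := by rw [← h1, sym_invol hB hS]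
    obtain ⟨Φ, h3, h4⟩ := H q (sym m q') (by
      rw [hd, ← (hS.sym_iso m).dist_eq p' q', h2])
    refine ⟨Φ.trans (symE hB hS m), ?_, ?_⟩
    · change sym m (Φ p) = p'
      rw [h3, h1]
    · change sym m (Φ q) = q'
      rw [h4, sym_invol hB hS]
  intro q q' hqq
  by_cases hD : dist p q = D
  · exact rel_cut hB hS hconn hD (by rw [← hqq]; exact hD)
  have hlt : dist p q < D := lt_of_le_of_ne (hB.dist_le p q) hD
  obtain ⟨v, hv, hv1, hvq⟩ := hB.reach p q
  obtain ⟨v', hv', hv1', hvq'⟩ := hB.reach p q'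
  set r := dist p q with hr
  rw [← hqq] at hvq'
  set w := ex p (D • v) with hw
  set w' := ex p (D • v') with hw'
  have dpw : dist p w = D := hB.dist_ray p v hv hv1 _ hDp.le le_rfl
  have dpw' : dist p w' = D := hB.dist_ray p v' hv' hv1' _ hDp.le le_rfl
  obtain ⟨Φ, h1, h2⟩ := rel_cut hB hS hconn dpw dpw'
  -- `Φ q` lies on a geodesic from `p` to `w'`
  have dqw : dist q w = D - r := by
    obtain ⟨u, hu, hu1, h'⟩ := hB.rebase p v hv hv1 r
    have h2 := hB.dist_ray _ u hu hu1 (D - r) (by linarith) (by linarith [dist_nonneg (x := p) (y := q)])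
    rw [h' (D - r), show r + (D - r) = D by ring, hvq] at h2
    exact h2
  have dpΦq : dist p (Φ q) = r := by
    nth_rewrite 1 [← h1]; rw [Φ.isometry.dist_eq]
  have dΦqw : dist (Φ q) w' = D - r := by
    rw [← h2, Φ.isometry.dist_eq, dqw]
  obtain ⟨v'', hv'', hv1'', h3, h4⟩ := exists_dir hB dpw' (q := Φ q) (by rw [dpΦq, dΦqw]; ring)
  rw [dpΦq] at h4
  have h5 : Rel p (ex p (r • v'')) (ex p (r • v')) :=
    rel_dir hB hS hM hv'' hv1'' hv' hv1' h3 dist_nonneg hlt
  rw [h4, hvq'] at h5
  exact Rel.trans ⟨Φ, h1, rfl⟩ h5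

end Crest.Agent.R208.M
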