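import Crest.Agent.R208.MS2a

/-!
R208, block MS (helper286), part MS2b: the inscribed geodesic polygons of a loop and their average.
-/

set_option autoImplicit false

open Set Filter Topology MeasureTheory
open scoped ContDiff RealInnerProductSpace Real
open Crest.GeometryTopology.Submanifold
open Crest.Agent.R241.DDefs Crest.Agent.R241.D Crest.Agent.R241.D2

noncomputable section

namespace Crest.Agent.R208.MS

section gen

variable {H : Type*} [NormedAddCommGroup H] [NormedSpace ℝ H] [CompleteSpace H]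

/-- derivative of a sheared integral whose boundary terms cancel -/
theorem hasDerivAt_shear {P V : ℝ → ℝ → H} (hP : ContDiff ℝ 1 (Function.uncurry P))
    (hV : ∀ s a, HasDerivAt (P s) (V s a) a) (hVc : Continuous (Function.uncurry V)) {w : ℝ}
    (hbd : ∀ t, P (t - w) w = P t 0) (t : ℝ) :
    HasDerivAt (fun t => ∫ a in (0:ℝ)..w, P (t - a) a) (∫ a in (0:ℝ)..w, V (t - a) a) t := by
  set Ps : ℝ → ℝ → H := fun s a => fderiv ℝ (Function.uncurry P) (s, a) (1, 0) with hPs
  have hd : ∀ s a, HasFDerivAt (Function.uncurry P) (fderiv ℝ (Function.uncurry P) (s, a))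
      (s, a) := fun s a => (hP.differentiable (by simp) (s, a)).hasFDerivAt
  have hPsc : Continuous (Function.uncurry Ps) := by
    have h1 : Continuous (fderiv ℝ (Function.uncurry P)) := hP.continuous_fderiv (by simp)
    have h2 : Continuous fun q : ℝ × ℝ => fderiv ℝ (Function.uncurry P) q (1, 0) :=
      h1.clm_apply continuous_const
    exact h2
  have hVe : ∀ s a, fderiv ℝ (Function.uncurry P) (s, a) (0, 1) = V s a := by
    intro s a
    have h1 : HasDerivAt (fun a => ((s, a) : ℝ × ℝ)) ((0, 1) : ℝ × ℝ) a :=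
      (hasDerivAt_const a s).prodMk (hasDerivAt_id a)
    have h2 : HasDerivAt (fun a => Function.uncurry P (s, a))
      (fderiv ℝ (Function.uncurry P) (s, a) (0, 1)) a := (hd s a).comp_hasDerivAt a h1
    exact h2.unique (hV s a)
  have h1 : HasDerivAt (fun t => ∫ a in (0:ℝ)..w, P (t - a) a)
      (∫ a in (0:ℝ)..w, Ps (t - a) a) t := by
    refine hasDerivAt_par (F := fun t a => P (t - a) a) (F' := fun t a => Ps (t - a) a) ?_ ?_ ?_ w t
    · intro t
      have : Continuous fun a => Function.uncurry P (t - a, a) := hP.continuous.comp (by fun_prop)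
      exact this
    · have : Continuous fun q : ℝ × ℝ => Function.uncurry Ps (q.1 - q.2, q.2) :=
        hPsc.comp (by fun_prop)
      exact this
    · intro t a
      have h1 : HasDerivAt (fun t => ((t - a, a) : ℝ × ℝ)) ((1, 0) : ℝ × ℝ) t := by
        have := ((hasDerivAt_id t).sub_const a).prodMk (hasDerivAt_const t a)
        simpa using this
      exact (hd (t - a) a).comp_hasDerivAt t h1
  have h2 : ∫ a in (0:ℝ)..w, (V (t - a) a - Ps (t - a) a) = 0 := by
    have hda : ∀ a, HasDerivAt (fun a => P (t - a) a) (V (t - a) a - Ps (t - a) a) a := by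
      intro a
      have h1 : HasDerivAt (fun a => ((t - a, a) : ℝ × ℝ)) ((-1, 1) : ℝ × ℝ) a := by
        have := ((hasDerivAt_id a).const_sub t).prodMk (hasDerivAt_id a)
        simpa using this
      have h3 : HasDerivAt (fun a => Function.uncurry P (t - a, a))
        (fderiv ℝ (Function.uncurry P) (t - a, a) (-1, 1)) a :=
        HasFDerivAt.comp_hasDerivAt (f := fun a : ℝ => ((t - a, a) : ℝ × ℝ)) a (hd (t - a) a) h1
      have h4 : fderiv ℝ (Function.uncurry P) (t - a, a) (-1, 1) = V (t - a) a - Ps (t - a) a := by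
        have : ((-1, 1) : ℝ × ℝ) = (0, 1) - (1, 0) := by ext <;> simp
        rw [this, map_sub, hVe]
      rw [h4] at h3
      exact h3
    have hc1 : Continuous fun a => V (t - a) a - Ps (t - a) a := by
      have h5 : Continuous fun a : ℝ => Function.uncurry V (t - a, a) := hVc.comp (by fun_prop)
      have h6 : Continuous fun a : ℝ => Function.uncurry Ps (t - a, a) := hPsc.comp (by fun_prop)
      exact h5.sub h6
    rw [intervalIntegral.integral_eq_sub_of_hasDerivAt (fun a _ => hda a)
      (hc1.intervalIntegrable _ _), hbd t, sub_zero, sub_self]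
  have h5 : Continuous fun a : ℝ => V (t - a) a :=
    hVc.comp (f := fun a : ℝ => (t - a, a)) (by fun_prop)
  have h6 : Continuous fun a : ℝ => Ps (t - a) a :=
    hPsc.comp (f := fun a : ℝ => (t - a, a)) (by fun_prop)
  rw [intervalIntegral.integral_sub (h5.intervalIntegrable _ _) (h6.intervalIntegrable _ _)] at h2
  rw [sub_eq_zero.1 h2]
  exact h1

end gen

variable {n N : ℕ} {κ : ℝ} {S : Set (Euc N)} {G : Geo n N κ S} {lg : Euc N → Euc N → Euc N}
  {r C : ℝ} {c : ℝ → Euc N} {w : ℝ}

/-- the geodesic segments -/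
def PP (G : Geo n N κ S) (lg : Euc N → Euc N → Euc N) (w : ℝ) (c : ℝ → Euc N) (s a : ℝ) : Euc N :=
  gd G lg (c s) (c (s + w)) (a / w)

def VV (G : Geo n N κ S) (lg : Euc N → Euc N → Euc N) (w : ℝ) (c : ℝ → Euc N) (s a : ℝ) : Euc N :=
  (1 / w) • gv G lg (c s) (c (s + w)) (a / w)

/-- the deficit of a segment -/
def UU (G : Geo n N κ S) (lg : Euc N → Euc N → Euc N) (w : ℝ) (c : ℝ → Euc N) (s : ℝ) : ℝ :=
  ∫ a in (0:ℝ)..w, ‖VV G lg w c s a - deriv c (s + a)‖ ^ 2

theorem gr_eq (w : ℝ) (c : ℝ → Euc N) :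
    gr G lg w c = (1 / w) * ∫ s in (0:ℝ)..(2 * π), UU G lg w c s := rfl

theorem av_eq (w : ℝ) (c : ℝ → Euc N) (t : ℝ) :
    av G lg w c t = (1 / w) • ∫ a in (0:ℝ)..w, PP G lg w c (t - a) a := by
  unfold av PP
  simp only [show ∀ a, t + w - a = t - a + w from fun a => by ring]

section data

variable (hsg : SG G lg r C) (hc : Loop S c) (hw : 0 < w) (hcl : ∀ s, ‖c s - c (s + w)‖ < r)

include hsg hc hcl in
theorem mem_TS' (s : ℝ) : (c s, lg (c s) (c (s + w))) ∈ TS G :=
  ⟨hc.mem s, hsg.mem _ (hc.mem s) _ (hc.mem _) (hcl s)⟩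

include hsg hc hcl in
theorem contDiff_fl_seg : ContDiff ℝ ∞ fun q : ℝ × ℝ =>
    fl G ((c q.1, lg (c q.1) (c (q.1 + w))), q.2 / w) := by
  rw [contDiff_iff_contDiffAt]
  rintro ⟨s, a⟩
  have h1 := contDiffAt_fl' G (mem_TS' hsg hc hcl s) (a / w)
  have hlg := hsg.smooth _ (hc.mem s) _ (hc.mem (s + w)) (hcl s)
  have hcs : ContDiff ℝ ∞ c := hc.smooth
  have h2 : ContDiffAt ℝ ∞ (fun q : ℝ × ℝ => (c q.1, c (q.1 + w))) (s, a) := by
    apply ContDiff.contDiffAt
    fun_prop
  have h3 : ContDiffAt ℝ ∞ (fun q : ℝ × ℝ => lg (c q.1) (c (q.1 + w))) (s, a) :=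
    ContDiffAt.comp (s, a) (g := fun q : Euc N × Euc N => lg q.1 q.2) hlg h2
  have h4 : ContDiffAt ℝ ∞ (fun q : ℝ × ℝ => ((c q.1, lg (c q.1) (c (q.1 + w))), q.2 / w))
      (s, a) := by
    refine ContDiffAt.prodMk (ContDiffAt.prodMk ?_ h3) ?_
    · exact (hcs.comp contDiff_fst).contDiffAt
    · exact (contDiff_snd.div_const w).contDiffAt
  exact ContDiffAt.comp (s, a) (g := fl G) h1 h4

include hsg hc hcl in
theorem contDiff_PP : ContDiff ℝ ∞ (Function.uncurry (PP G lg w c)) :=
  (contDiff_fl_seg hsg hc hcl).fst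

include hsg hc hcl in
theorem contDiff_VV : ContDiff ℝ ∞ (Function.uncurry (VV G lg w c)) := by
  have h1 : ContDiff ℝ ∞ fun q : ℝ × ℝ =>
    (1 / w) • (fl G ((c q.1, lg (c q.1) (c (q.1 + w))), q.2 / w)).2 :=
    (contDiff_fl_seg hsg hc hcl).snd.const_smul (1 / w)
  exact h1

include hsg hc hcl in
theorem hasDerivAt_PP (s a : ℝ) : HasDerivAt (PP G lg w c s) (VV G lg w c s a) a := by
  have h1 := hasDerivAt_fl G (complete G (mem_TS' hsg hc hcl s) (a / w))
  have h2 : HasDerivAt (fun a : ℝ => a / w) (1 / w) a := (hasDerivAt_id a).div_const w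
  have h3 := (hda_fst h1).scomp a h2
  exact h3

/-- the acceleration -/
def AA (G : Geo n N κ S) (lg : Euc N → Euc N → Euc N) (w : ℝ) (c : ℝ → Euc N) (s a : ℝ) : Euc N :=
  fderiv ℝ G.P (PP G lg w c s a) (VV G lg w c s a) (VV G lg w c s a)

include hsg hc hcl in
theorem hasDerivAt_VV (s a : ℝ) : HasDerivAt (VV G lg w c s) (AA G lg w c s a) a := by
  have h1 := hasDerivAt_fl G (complete G (mem_TS' hsg hc hcl s) (a / w))
  have h2 : HasDerivAt (fun a : ℝ => a / w) (1 / w) a := (hasDerivAt_id a).div_const w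
  have h3 := ((hda_snd h1).scomp a h2).const_smul (1 / w)
  have h4 : AA G lg w c s a = (1 / w) • (1 / w) •
      (X G (fl G ((c s, lg (c s) (c (s + w))), a / w))).2 := by
    simp only [AA, VV, PP, gd, gv, X, map_smul, _root_.smul_apply]
  rw [h4]
  exact h3

include hsg hc hcl in
theorem continuous_AA (s : ℝ) : Continuous (AA G lg w c s) := by
  have h1 : Continuous (PP G lg w c s) :=
    (contDiff_PP hsg hc hcl).continuous.comp (continuous_const.prodMk continuous_id)
  have h2 : Continuous (VV G lg w c s) :=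
    (contDiff_VV hsg hc hcl).continuous.comp (continuous_const.prodMk continuous_id)
  have h3 : Continuous (fderiv ℝ G.P) := G.contDiff_P.continuous_fderiv (by simp)
  exact ((h3.comp h1).clm_apply h2).clm_apply h2

theorem PP_zero (s : ℝ) : PP G lg w c s 0 = c s := by
  simp only [PP, gd, zero_div, fl_zero]

include hsg hc hcl hw in
theorem PP_w (s : ℝ) : PP G lg w c s w = c (s + w) := by
  have := hsg.exp _ (hc.mem s) _ (hc.mem (s + w)) (hcl s)
  simp only [PP, gd, div_self hw.ne']
  exact this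

include hsg hc hcl in
theorem PP_mem (s a : ℝ) : PP G lg w c s a ∈ S := (fl_mem G (mem_TS' hsg hc hcl s) _).1

include hsg hc hcl in
theorem VV_mem (s a : ℝ) : VV G lg w c s a ∈ G.T (PP G lg w c s a) :=
  (G.T _).smul_mem _ (fl_mem G (mem_TS' hsg hc hcl s) _).2

include hsg hc hcl hw in
theorem norm_VV (s a : ℝ) : ‖VV G lg w c s a‖ = ‖lg (c s) (c (s + w))‖ / w := by
  simp only [VV, gv]
  rw [norm_smul, norm_fl G (mem_TS' hsg hc hcl s), Real.norm_eq_abs, abs_of_pos (by positivity)]
  ring

theorem PP_per (hc : Loop S c) (s a : ℝ) : PP G lg w c (s + 2 * π) a = PP G lg w c s a := by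
  simp only [PP]
  rw [hc.per, show s + 2 * π + w = s + w + 2 * π by ring, hc.per]

theorem VV_per (hc : Loop S c) (s a : ℝ) : VV G lg w c (s + 2 * π) a = VV G lg w c s a := by
  simp only [VV]
  rw [hc.per, show s + 2 * π + w = s + w + 2 * π by ring, hc.per]

theorem Loop.continuous_deriv (hc : Loop S c) : Continuous (deriv c) :=
  hc.smooth.continuous_deriv (by simp)

theorem Loop.hasDerivAt (hc : Loop S c) (t : ℝ) : HasDerivAt c (deriv c t) t :=
  (hc.smooth.differentiable (by simp) t).hasDerivAt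

theorem Loop.deriv_per (hc : Loop S c) (t : ℝ) : deriv c (t + 2 * π) = deriv c t := by
  have h1 := hc.hasDerivAt (t + 2 * π)
  have h2 : HasDerivAt (fun s => c (s + 2 * π)) (deriv c (t + 2 * π)) t := by
    have := h1.comp_add_const t (2 * π)
    exact this
  have h3 : (fun s => c (s + 2 * π)) = c := funext hc.per
  rw [h3] at h2
  exact h2.deriv.symm

include hsg hc hcl in
theorem continuous_VVd : Continuous (Function.uncurry fun s a =>
    VV G lg w c s a - deriv c (s + a)) := by
  have h1 := (contDiff_VV hsg hc hcl).continuous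
  have h2 := hc.continuous_deriv
  have h3 : Continuous fun q : ℝ × ℝ => deriv c (q.1 + q.2) := h2.comp (by fun_prop)
  exact h1.sub h3

include hsg hc hcl in
theorem continuous_UU : Continuous (UU G lg w c) := by
  have h1 : Continuous fun q : ℝ × ℝ =>
      ‖(Function.uncurry fun s a => VV G lg w c s a - deriv c (s + a)) q‖ ^ 2 :=
    (continuous_VVd hsg hc hcl).norm.pow 2
  exact continuous_par (F := fun s a => ‖VV G lg w c s a - deriv c (s + a)‖ ^ 2) h1 0 w

include hw in
theorem UU_nonneg (s : ℝ) : 0 ≤ UU G lg w c s :=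
  intervalIntegral.integral_nonneg hw.le fun _ _ => by positivity

/-- the segment inequality -/
theorem seg_ineq (hsg : SG G lg r C) (hc : Loop S c) (hw : 0 < w)
    (hcl : ∀ s, ‖c s - c (s + w)‖ < r) (s : ℝ) (hs : 4 * C * ‖lg (c s) (c (s + w))‖ ^ 2 ≤ 1) :
    (1 / w) * ‖lg (c s) (c (s + w))‖ ^ 2 + (1 / 2) * UU G lg w c s ≤
      ∫ a in (0:ℝ)..w, ‖deriv c (s + a)‖ ^ 2 := by
  have hC : 0 ≤ C := zero_le_one.trans hsg.one_le
  have hshift : ∀ a, HasDerivAt (fun a => c (s + a)) (deriv c (s + a)) a := fun a => by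
    have := (hc.hasDerivAt (s + a)).comp_const_add s a
    exact this
  have hdc : Continuous fun a => deriv c (s + a) :=
    hc.continuous_deriv.comp (continuous_const.add continuous_id)
  have key := segment (c := fun a => c (s + a)) (c' := fun a => deriv c (s + a))
    (p := PP G lg w c s) (p' := VV G lg w c s) (p'' := AA G lg w c s) (w := w)
    (l := ‖lg (c s) (c (s + w))‖ / w) (C := C) hw.le hC hshift hdc
    (hasDerivAt_PP hsg hc hcl s) (hasDerivAt_VV hsg hc hcl s) (continuous_AA hsg hc hcl s)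
    (by rw [PP_zero, add_zero]) (by rw [PP_w hsg hc hw hcl]) ?_ ?_
  · have h1 : ∫ a in (0:ℝ)..w, ‖VV G lg w c s a‖ ^ 2 = (1 / w) * ‖lg (c s) (c (s + w))‖ ^ 2 := by
      simp_rw [norm_VV hsg hc hw hcl]
      rw [intervalIntegral.integral_const, smul_eq_mul, sub_zero]
      field_simp
    rw [h1] at key
    exact key
  · intro a _
    have h1 := hsg.normal _ (PP_mem hsg hc hcl s a) (c (s + a)) (hc.mem _) _
      (VV_mem hsg hc hcl s a)
    rw [norm_VV hsg hc hw hcl] at h1
    have h2 : ⟪AA G lg w c s a, PP G lg w c s a - c (s + a)⟫ =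
        -⟪AA G lg w c s a, c (s + a) - PP G lg w c s a⟫ := by
      rw [← inner_neg_right, neg_sub]
    rw [h2, abs_neg, norm_sub_rev (PP G lg w c s a)]
    exact h1
  · have h1 : 4 * C * (‖lg (c s) (c (s + w))‖ / w) ^ 2 * w ^ 2 =
        4 * C * ‖lg (c s) (c (s + w))‖ ^ 2 := by field_simp
    rw [h1]
    exact hs

/-- derivative of the average -/
theorem hasDerivAt_av (hsg : SG G lg r C) (hc : Loop S c) (hw : 0 < w)
    (hcl : ∀ s, ‖c s - c (s + w)‖ < r) (t : ℝ) :
    HasDerivAt (av G lg w c) ((1 / w) • ∫ a in (0:ℝ)..w, VV G lg w c (t - a) a) t := by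
  have h1 := hasDerivAt_shear (P := PP G lg w c) (V := VV G lg w c)
    ((contDiff_PP hsg hc hcl).of_le (by simp)) (hasDerivAt_PP hsg hc hcl)
    (contDiff_VV hsg hc hcl).continuous (w := w) ?_ t
  · have h2 := h1.const_smul (1 / w)
    refine h2.congr_of_eventuallyEq (Eventually.of_forall fun t => ?_)
    exact av_eq w c t
  · intro t
    rw [PP_w hsg hc hw hcl, PP_zero, sub_add_cancel]


theorem PP_sub_le (hsg : SG G lg r C) (hc : Loop S c)
    (hcl : ∀ s, ‖c s - c (s + w)‖ < r) (s : ℝ) {a : ℝ} (ha : a ∈ Icc 0 w) :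
    ‖PP G lg w c s a - c (s + a)‖ ^ 2 ≤ w * UU G lg w c s := by
  have hshift : ∀ a, HasDerivAt (fun a => c (s + a)) (deriv c (s + a)) a := fun a => by
    have := (hc.hasDerivAt (s + a)).comp_const_add s a
    exact this
  have hV : Continuous fun a => VV G lg w c s a - deriv c (s + a) := by
    have h := continuous_VVd hsg hc hcl
    exact h.comp (f := fun a : ℝ => (s, a)) (by fun_prop)
  have h0 : PP G lg w c s 0 - c (s + 0) = 0 := by rw [PP_zero, add_zero, sub_self]
  have hd : ∀ a, HasDerivAt (fun a => PP G lg w c s a - c (s + a))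
      (VV G lg w c s a - deriv c (s + a)) a := by
    intro a
    have h1 := hasDerivAt_PP hsg hc hcl s a
    exact h1.sub (hshift a)
  have key := norm_sq_le_of_zero (u := fun a => PP G lg w c s a - c (s + a))
    (u' := fun a => VV G lg w c s a - deriv c (s + a)) hV hd h0 ha
  exact key

end data

end Crest.Agent.R208.MS
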