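import Crest.Agent.R208.MS2b
import Crest.Agent.R216.ParamInt

/-!
R208, block MS (helper286), part MS2c: energy estimates for the averaged Birkhoff step.
-/

set_option autoImplicit false

open Set Filter Topology MeasureTheory
open scoped ContDiff RealInnerProductSpace Real
open Crest.GeometryTopology.Submanifold
open Crest.Agent.R241.DDefs Crest.Agent.R241.D Crest.Agent.R241.D2

noncomputable section

namespace Crest.Agent.R208.MS

variable {n N : ℕ} {κ : ℝ} {S : Set (Euc N)} {G : Geo n N κ S} {lg : Euc N → Euc N → Euc N}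
  {r C r' K B : ℝ} {c : ℝ → Euc N} {w : ℝ}

theorem En_nonneg (c : ℝ → Euc N) : 0 ≤ En c := by
  unfold En
  have : 0 ≤ ∫ t in (0:ℝ)..(2 * π), ‖deriv c t‖ ^ 2 :=
    intervalIntegral.integral_nonneg (by positivity) fun _ _ => by positivity
  positivity

theorem int_eq_En (c : ℝ → Euc N) : ∫ t in (0:ℝ)..(2 * π), ‖deriv c t‖ ^ 2 = 2 * En c := by
  unfold En; ring

theorem Loop.int_shift (hc : Loop S c) (s : ℝ) :
    ∫ a in (0:ℝ)..(2 * π), ‖deriv c (s + a)‖ ^ 2 = 2 * En c := by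
  rw [intervalIntegral.integral_comp_add_left (fun t => ‖deriv c t‖ ^ 2) s, add_zero]
  have h2 : Function.Periodic (fun t => ‖deriv c t‖ ^ 2) (2 * π) := fun t => by
    simp only [hc.deriv_per]
  rw [h2.intervalIntegral_add_eq s 0, zero_add, int_eq_En]

theorem Loop.continuous_sq (hc : Loop S c) : Continuous fun t => ‖deriv c t‖ ^ 2 :=
  hc.continuous_deriv.norm.pow 2

theorem Loop.int_seg_le (hc : Loop S c) (hB : En c ≤ B) (s : ℝ) (hw0 : 0 ≤ w) (hw : w ≤ 2 * π) :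
    ∫ a in (0:ℝ)..w, ‖deriv c (s + a)‖ ^ 2 ≤ 2 * B := by
  have h1 : ∫ a in (0:ℝ)..w, ‖deriv c (s + a)‖ ^ 2 ≤
      ∫ a in (0:ℝ)..(2 * π), ‖deriv c (s + a)‖ ^ 2 := by
    refine intervalIntegral.integral_mono_interval le_rfl hw0 hw ?_ ?_
    · exact Eventually.of_forall fun _ => by positivity
    · exact (hc.continuous_sq.comp (continuous_const.add continuous_id)).intervalIntegrable _ _
  rw [hc.int_shift] at h1
  linarith

theorem Loop.dist_le (hc : Loop S c) (hB : En c ≤ B) (s : ℝ) (hw0 : 0 ≤ w) (hw : w ≤ 2 * π) :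
    ‖c s - c (s + w)‖ ^ 2 ≤ 2 * B * w := by
  have hshift : ∀ a, HasDerivAt (fun a => c (s + a)) (deriv c (s + a)) a := fun a => by
    have := (hc.hasDerivAt (s + a)).comp_const_add s a
    exact this
  have hdc : Continuous fun a => deriv c (s + a) :=
    hc.continuous_deriv.comp (continuous_const.add continuous_id)
  have h1 : ∫ a in (0:ℝ)..w, deriv c (s + a) = c (s + w) - c s := by
    rw [intervalIntegral.integral_eq_sub_of_hasDerivAt (fun a _ => hshift a)
      (hdc.intervalIntegrable _ _), add_zero]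
  have h2 := norm_integral_sq_le hdc hw0
  rw [h1, sub_zero, norm_sub_rev] at h2
  refine h2.trans ?_
  have h3 := hc.int_seg_le hB s hw0 hw
  nlinarith

/-- `w` is small for the energy bound `B` -/
structure Small (r C r' K B w : ℝ) : Prop where
  pos : 0 < w
  le_one : w ≤ 1
  s1 : 2 * B * w < r ^ 2
  s2 : 8 * C ^ 3 * B * w ≤ 1
  s3 : 16 * B * w < r' ^ 2
  s4 : 4 * B * w ≤ 1
  s5 : 192 * K ^ 4 * B * C ^ 2 * w ≤ 1

theorem exists_small (hr : 0 < r) (hr' : 0 < r') (C K B : ℝ) :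
    ∃ w₀ > 0, ∀ w, 0 < w → w ≤ w₀ → Small r C r' K B w := by
  have key : ∀ A ε : ℝ, 0 < ε → ∀ᶠ w in 𝓝[>] (0:ℝ), A * w < ε := by
    intro A ε hε
    have h1 : Tendsto (fun w : ℝ => A * w) (𝓝[>] 0) (𝓝 (A * 0)) :=
      (continuous_const.mul continuous_id).continuousAt.tendsto.mono_left nhdsWithin_le_nhds
    rw [mul_zero] at h1
    exact h1.eventually_lt_const hε
  have hall : ∀ᶠ w in 𝓝[>] (0:ℝ), Small r C r' K B w := by
    filter_upwards [self_mem_nhdsWithin, key 1 1 one_pos, key (2 * B) (r ^ 2) (by positivity),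
      key (8 * C ^ 3 * B) 1 one_pos, key (16 * B) (r' ^ 2) (by positivity), key (4 * B) 1 one_pos,
      key (192 * K ^ 4 * B * C ^ 2) 1 one_pos] with w h0 h1 h2 h3 h4 h5 h6
    exact ⟨h0, by linarith, h2, h3.le, h4, h5.le, h6.le⟩
  obtain ⟨w₁, hw₁, h⟩ := mem_nhdsGT_iff_exists_Ioc_subset.1 hall
  exact ⟨w₁, hw₁, fun w h0 h1 => h ⟨h0, h1⟩⟩

theorem Small.le_two_pi (h : Small r C r' K B w) : w ≤ 2 * π :=
  h.le_one.trans (by have := Real.pi_gt_three; linarith)

theorem Small.close (h : Small r C r' K B w) (hr : 0 < r) (hc : Loop S c) (hB : En c ≤ B) (s : ℝ) :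
    ‖c s - c (s + w)‖ < r := by
  have h1 := hc.dist_le hB s h.pos.le h.le_two_pi
  exact lt_of_pow_lt_pow_left₀ 2 hr.le (h1.trans_lt h.s1)

section est

variable (hsg : SG G lg r C) (hc : Loop S c) (hB : En c ≤ B) (hs : Small r C r' K B w)

include hsg hc hB hs in
theorem lg_sq_le (s : ℝ) : ‖lg (c s) (c (s + w))‖ ^ 2 ≤ 2 * B * C ^ 2 * w := by
  have h1 := hsg.norm_le _ (hc.mem s) _ (hc.mem (s + w)) (hs.close hsg.r_pos hc hB s)
  have h2 := hc.dist_le hB s hs.pos.le hs.le_two_pi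
  have hC := hsg.one_le
  have h3 : ‖lg (c s) (c (s + w))‖ ^ 2 ≤ (C * ‖c s - c (s + w)‖) ^ 2 :=
    pow_le_pow_left₀ (norm_nonneg _) h1 2
  rw [mul_pow] at h3
  nlinarith [sq_nonneg C]

include hsg hc hB hs in
theorem seg_ineq' (s : ℝ) : (1 / w) * ‖lg (c s) (c (s + w))‖ ^ 2 + (1 / 2) * UU G lg w c s ≤
      ∫ a in (0:ℝ)..w, ‖deriv c (s + a)‖ ^ 2 := by
  refine seg_ineq hsg hc hs.pos (hs.close hsg.r_pos hc hB) s ?_
  have h1 := lg_sq_le hsg hc hB hs s
  have hC : 0 ≤ C := zero_le_one.trans hsg.one_le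
  have h2 := hs.s2
  have h3 : 4 * C * ‖lg (c s) (c (s + w))‖ ^ 2 ≤ 4 * C * (2 * B * C ^ 2 * w) :=
    mul_le_mul_of_nonneg_left h1 (by positivity)
  nlinarith

include hsg hc hB hs in
theorem UU_le (s : ℝ) : UU G lg w c s ≤ 4 * B := by
  have h1 := seg_ineq' hsg hc hB hs s
  have h2 := hc.int_seg_le hB s hs.pos.le hs.le_two_pi
  have h3 : 0 ≤ (1 / w) * ‖lg (c s) (c (s + w))‖ ^ 2 := by
    have := hs.pos
    positivity
  linarith

include hsg hc hB hs in
/-- `∫ |lg|² / w²` against the energy and the gradient -/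
theorem int_lg_le : (1 / w) * (∫ s in (0:ℝ)..(2 * π), (1 / w) * ‖lg (c s) (c (s + w))‖ ^ 2) +
    (1 / 2) * gr G lg w c ≤ 2 * En c := by
  have hcl := hs.close hsg.r_pos hc hB
  have hw := hs.pos
  have hlg : Continuous fun s => ‖lg (c s) (c (s + w))‖ ^ 2 := by
    have h1 : Continuous fun s : ℝ => VV G lg w c s 0 :=
      (contDiff_VV hsg hc hcl).continuous.comp (f := fun s : ℝ => (s, (0:ℝ))) (by fun_prop)
    have h2 : (fun s => ‖lg (c s) (c (s + w))‖ ^ 2) = fun s => (w * ‖VV G lg w c s 0‖) ^ 2 := by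
      funext s
      rw [norm_VV hsg hc hw hcl]
      field_simp
    rw [h2]
    fun_prop
  have hU := continuous_UU hsg hc hcl
  have hD : Continuous fun s => ∫ a in (0:ℝ)..w, ‖deriv c (s + a)‖ ^ 2 := by
    refine continuous_par (F := fun s a => ‖deriv c (s + a)‖ ^ 2) ?_ 0 w
    exact hc.continuous_sq.comp (continuous_fst.add continuous_snd)
  have h1 : ∫ s in (0:ℝ)..(2 * π), ((1 / w) * ‖lg (c s) (c (s + w))‖ ^ 2 +
      (1 / 2) * UU G lg w c s) ≤ ∫ s in (0:ℝ)..(2 * π), ∫ a in (0:ℝ)..w,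
        ‖deriv c (s + a)‖ ^ 2 := by
    refine intervalIntegral.integral_mono_on (by positivity) ?_ (hD.intervalIntegrable _ _)
      fun s _ => seg_ineq' hsg hc hB hs s
    exact ((hlg.const_mul _).add (hU.const_mul _)).intervalIntegrable _ _
  have h2 : ∫ s in (0:ℝ)..(2 * π), ∫ a in (0:ℝ)..w, ‖deriv c (s + a)‖ ^ 2 = w * (2 * En c) := by
    rw [swap_par (F := fun s a => ‖deriv c (s + a)‖ ^ 2)
      (hc.continuous_sq.comp (continuous_fst.add continuous_snd))]
    have h3 : ∀ a : ℝ, ∫ s in (0:ℝ)..(2 * π), ‖deriv c (s + a)‖ ^ 2 = 2 * En c := by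
      intro a
      rw [← hc.int_shift a]
      simp_rw [add_comm a]
    simp_rw [h3]
    rw [intervalIntegral.integral_const, smul_eq_mul, sub_zero]
  rw [h2, intervalIntegral.integral_add ((hlg.const_mul _).intervalIntegrable _ _)
    ((hU.const_mul _).intervalIntegrable _ _),
    intervalIntegral.integral_const_mul (1 / 2 : ℝ) (UU G lg w c)] at h1
  rw [gr_eq]
  have h4 : (1 / w) * ((∫ s in (0:ℝ)..(2 * π), (1 / w) * ‖lg (c s) (c (s + w))‖ ^ 2) +
      (1 / 2) * ∫ s in (0:ℝ)..(2 * π), UU G lg w c s) ≤ (1 / w) * (w * (2 * En c)) :=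
    mul_le_mul_of_nonneg_left h1 (by positivity)
  have h5 : (1 / w) * (w * (2 * En c)) = 2 * En c := by field_simp
  rw [h5] at h4
  linarith

/-- the velocity of the average -/
def av' (G : Geo n N κ S) (lg : Euc N → Euc N → Euc N) (w : ℝ) (c : ℝ → Euc N) (t : ℝ) : Euc N :=
  (1 / w) • ∫ a in (0:ℝ)..w, VV G lg w c (t - a) a

include hsg hc hB hs in
theorem contDiff_av : ContDiff ℝ ∞ (av G lg w c) := by
  have hcl := hs.close hsg.r_pos hc hB
  have h1 : ContDiff ℝ ∞ fun q : ℝ × ℝ => PP G lg w c (q.1 - q.2) q.2 :=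
    (contDiff_PP hsg hc hcl).comp (f := fun q : ℝ × ℝ => (q.1 - q.2, q.2)) (by fun_prop)
  have h2 := Crest.Agent.R216.contDiff_param_integral (h := fun t a => PP G lg w c (t - a) a)
    (n := ⊤) 0 w h1
  have h3 : av G lg w c = fun t => (1 / w) • ∫ a in (0:ℝ)..w, PP G lg w c (t - a) a :=
    funext fun t => av_eq w c t
  rw [h3]
  exact h2.const_smul (1 / w)

end est

end Crest.Agent.R208.MS
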