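import Crest.Agent.R208.MS2c

/-!
R208, block MS (helper286), part MS2d: the averaged Birkhoff step lowers the energy.
-/

set_option autoImplicit false

open Set Filter Topology MeasureTheory
open scoped ContDiff RealInnerProductSpace Real
open Crest.GeometryTopology.Submanifold
open Crest.Agent.R241.DDefs Crest.Agent.R241.D Crest.Agent.R241.D2

noncomputable section

namespace Crest.Agent.R208.MS

variable {n N : ℕ} {κ : ℝ} {S : Set (Euc N)} {G : Geo n N κ S} {lg : Euc N → Euc N → Euc N}
  {ρ : Euc N → Euc N} {r C r' K B : ℝ} {c : ℝ → Euc N} {w : ℝ}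

/-- local deficit -/
def dd (G : Geo n N κ S) (lg : Euc N → Euc N → Euc N) (w : ℝ) (c : ℝ → Euc N) (t : ℝ) : ℝ :=
  ∫ a in (0:ℝ)..w, UU G lg w c (t - a)

section est

variable (hsg : SG G lg r C) (hc : Loop S c) (hB : En c ≤ B) (hs : Small r C r' K B w)

include hsg hc hB hs in
theorem cPP (t : ℝ) : Continuous fun a => PP G lg w c (t - a) a :=
  (contDiff_PP hsg hc (hs.close hsg.r_pos hc hB)).continuous.comp
    (f := fun a : ℝ => (t - a, a)) (by fun_prop)

include hsg hc hB hs in
theorem cVV (t : ℝ) : Continuous fun a => VV G lg w c (t - a) a :=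
  (contDiff_VV hsg hc (hs.close hsg.r_pos hc hB)).continuous.comp
    (f := fun a : ℝ => (t - a, a)) (by fun_prop)

include hsg hc hB hs in
theorem cUU : Continuous (UU G lg w c) := continuous_UU hsg hc (hs.close hsg.r_pos hc hB)

theorem UU_per (hc : Loop S c) : Function.Periodic (UU G lg w c) (2 * π) := by
  intro s
  unfold UU
  congr 1
  funext a
  rw [VV_per hc, show s + 2 * π + a = s + a + 2 * π by ring, hc.deriv_per]

include hsg hc hB hs in
theorem continuous_dd : Continuous (dd G lg w c) :=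
  continuous_par (F := fun t a => UU G lg w c (t - a))
    ((cUU hsg hc hB hs).comp (continuous_fst.sub continuous_snd)) 0 w

include hs in
theorem dd_nonneg (t : ℝ) : 0 ≤ dd G lg w c t :=
  intervalIntegral.integral_nonneg hs.pos.le fun _ _ => UU_nonneg hs.pos _

include hsg hc hB hs in
theorem dd_le (t : ℝ) : dd G lg w c t ≤ 4 * B * w := by
  have h1 : dd G lg w c t ≤ ∫ a in (0:ℝ)..w, 4 * B := by
    refine intervalIntegral.integral_mono_on hs.pos.le ?_ intervalIntegrable_const
      fun a _ => UU_le hsg hc hB hs _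
    exact ((cUU hsg hc hB hs).comp (continuous_const.sub continuous_id)).intervalIntegrable _ _
  rw [intervalIntegral.integral_const, smul_eq_mul, sub_zero] at h1
  linarith

include hs in
theorem int_UU : ∫ s in (0:ℝ)..(2 * π), UU G lg w c s = w * gr G lg w c := by
  rw [gr_eq]
  have := hs.pos
  field_simp

include hsg hc hB hs in
theorem dd_le_gr (t : ℝ) : dd G lg w c t ≤ w * gr G lg w c := by
  have hU := cUU hsg hc hB hs
  have h1 : dd G lg w c t ≤ ∫ a in (0:ℝ)..(2 * π), UU G lg w c (t - a) := by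
    refine intervalIntegral.integral_mono_interval le_rfl hs.pos.le hs.le_two_pi ?_ ?_
    · exact Eventually.of_forall fun _ => UU_nonneg hs.pos _
    · exact (hU.comp (continuous_const.sub continuous_id)).intervalIntegrable _ _
  have h2 : ∫ a in (0:ℝ)..(2 * π), UU G lg w c (t - a) = ∫ s in (0:ℝ)..(2 * π), UU G lg w c s := by
    rw [intervalIntegral.integral_comp_sub_left (fun s => UU G lg w c s) t, sub_zero]
    have h3 := (UU_per (G := G) (lg := lg) (w := w) hc).intervalIntegral_add_eq (t - 2 * π) 0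
    rw [sub_add_cancel, zero_add] at h3
    exact h3
  rw [h2, int_UU hs] at h1
  exact h1

include hsg hc hB hs in
theorem int_dd : ∫ t in (0:ℝ)..(2 * π), dd G lg w c t = w ^ 2 * gr G lg w c := by
  have hU := cUU hsg hc hB hs
  unfold dd
  have h1 := shear_par (F := fun s _ => UU G lg w c s) (T := 2 * π)
    (hU.comp continuous_fst) (fun s _ => UU_per hc s) w
  rw [h1]
  simp_rw [intervalIntegral.integral_const, smul_eq_mul, sub_zero]
  rw [intervalIntegral.integral_const_mul, int_UU hs]
  ring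

include hsg hc hB hs in
theorem Y_sub_le (t : ℝ) {a : ℝ} (ha : a ∈ Icc 0 w) :
    ‖PP G lg w c (t - a) a - c t‖ ^ 2 ≤ w * UU G lg w c (t - a) := by
  have h1 := PP_sub_le hsg hc (hs.close hsg.r_pos hc hB) (t - a) ha
  rwa [sub_add_cancel] at h1

include hsg hc hB hs in
theorem avg_Y_le (t : ℝ) : (1 / w) * (∫ a in (0:ℝ)..w, ‖PP G lg w c (t - a) a - c t‖ ^ 2) ≤
    dd G lg w c t := by
  have hU := cUU hsg hc hB hs
  have hw := hs.pos
  have h1 : ∫ a in (0:ℝ)..w, ‖PP G lg w c (t - a) a - c t‖ ^ 2 ≤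
      ∫ a in (0:ℝ)..w, w * UU G lg w c (t - a) := by
    refine intervalIntegral.integral_mono_on hs.pos.le ?_ ?_ fun a ha => Y_sub_le hsg hc hB hs t ha
    · have := cPP hsg hc hB hs t
      exact Continuous.intervalIntegrable (by fun_prop) _ _
    · exact ((hU.comp (continuous_const.sub continuous_id)).const_mul w).intervalIntegrable _ _
  rw [intervalIntegral.integral_const_mul] at h1
  have h2 : (1 / w) * (w * ∫ a in (0:ℝ)..w, UU G lg w c (t - a)) = dd G lg w c t := by
    unfold dd; field_simp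
  rw [← h2]
  exact mul_le_mul_of_nonneg_left h1 (by positivity)

include hsg hc hB hs in
theorem av_sub (t : ℝ) : av G lg w c t - c t =
    (1 / w) • ∫ a in (0:ℝ)..w, (PP G lg w c (t - a) a - c t) := by
  have hw := hs.pos
  rw [intervalIntegral.integral_sub ((cPP hsg hc hB hs t).intervalIntegrable _ _)
    intervalIntegrable_const, intervalIntegral.integral_const, sub_zero, smul_sub, av_eq,
    smul_smul, one_div_mul_cancel hw.ne', one_smul]

include hsg hc hB hs in
theorem av_sub_le (t : ℝ) : ‖av G lg w c t - c t‖ ^ 2 ≤ dd G lg w c t := by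
  rw [av_sub hsg hc hB hs]
  have h1 : Continuous fun a => PP G lg w c (t - a) a - c t :=
    (cPP hsg hc hB hs t).sub continuous_const
  exact (norm_avg_sq_le h1 hs.pos).trans (avg_Y_le hsg hc hB hs t)

include hsg hc hB hs in
theorem av_close (hr' : 0 < r') (t : ℝ) : ‖av G lg w c t - c t‖ < r' := by
  have h1 := av_sub_le hsg hc hB hs t
  have h2 := dd_le hsg hc hB hs t
  have h3 := hs.s3
  have hB0 : 0 ≤ B := (En_nonneg c).trans hB
  have h4 : 0 ≤ B * w := mul_nonneg hB0 hs.pos.le
  refine lt_of_pow_lt_pow_left₀ 2 hr'.le ?_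
  nlinarith

include hsg hc hB hs in
theorem av_sub_Y_le (t a : ℝ) :
    ‖av G lg w c t - PP G lg w c (t - a) a‖ ^ 2 ≤
      2 * dd G lg w c t + 2 * ‖PP G lg w c (t - a) a - c t‖ ^ 2 := by
  have h1 := av_sub_le hsg hc hB hs t
  have h2 : ‖av G lg w c t - PP G lg w c (t - a) a‖ ≤
      ‖av G lg w c t - c t‖ + ‖PP G lg w c (t - a) a - c t‖ := by
    have : av G lg w c t - PP G lg w c (t - a) a =
      (av G lg w c t - c t) - (PP G lg w c (t - a) a - c t) := by abel
    rw [this]
    exact norm_sub_le _ _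
  have h3 := pow_le_pow_left₀ (norm_nonneg _) h2 2
  nlinarith [sq_nonneg (‖av G lg w c t - c t‖ - ‖PP G lg w c (t - a) a - c t‖)]

include hsg hc hB hs in
theorem av_close_Y (hr' : 0 < r') (t : ℝ) {a : ℝ} (ha : a ∈ Icc 0 w) :
    ‖av G lg w c t - PP G lg w c (t - a) a‖ < r' := by
  have h1 := av_sub_Y_le hsg hc hB hs t a
  have h2 := dd_le hsg hc hB hs t
  have h3 := Y_sub_le hsg hc hB hs t ha
  have h4 := UU_le hsg hc hB hs (t - a)
  have h5 := hs.s3
  have h6 : w * UU G lg w c (t - a) ≤ w * (4 * B) := mul_le_mul_of_nonneg_left h4 hs.pos.le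
  refine lt_of_pow_lt_pow_left₀ 2 hr'.le ?_
  nlinarith

variable (hR : Retr S ρ r' K)

include hsg hc hB hs hR in
/-- the retraction moves the average by a second order amount -/
theorem ret_sub_le (t : ℝ) : ‖ρ (av G lg w c t) - av G lg w c t‖ ≤ 4 * K * dd G lg w c t := by
  have hw := hs.pos
  have hcl := hs.close hsg.r_pos hc hB
  set q := av G lg w c t with hq
  set Y : ℝ → Euc N := fun a => PP G lg w c (t - a) a with hY
  have hYc : Continuous Y := cPP hsg hc hB hs t
  have hK : 0 ≤ K := zero_le_one.trans hR.one_le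
  have h1 : ρ q - q = (1 / w) • ∫ a in (0:ℝ)..w, (ρ q - Y a - fderiv ℝ ρ q (q - Y a)) := by
    have e1 : (1 / w) • ∫ a in (0:ℝ)..w, (q - Y a) = 0 := by
      rw [intervalIntegral.integral_sub intervalIntegrable_const (hYc.intervalIntegrable _ _),
        intervalIntegral.integral_const, sub_zero, smul_sub, smul_smul,
        one_div_mul_cancel hw.ne', one_smul, hq, av_eq, sub_self]
    have e2 : ∫ a in (0:ℝ)..w, (ρ q - Y a - fderiv ℝ ρ q (q - Y a)) =
        (∫ a in (0:ℝ)..w, (ρ q - q)) + (∫ a in (0:ℝ)..w, (q - Y a)) -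
          fderiv ℝ ρ q (∫ a in (0:ℝ)..w, (q - Y a)) := by
      have hi : IntervalIntegrable (fun a => q - Y a) volume 0 w :=
        (continuous_const.sub hYc).intervalIntegrable _ _
      rw [← ContinuousLinearMap.intervalIntegral_comp_comm _ hi,
        ← intervalIntegral.integral_add intervalIntegrable_const hi,
        ← intervalIntegral.integral_sub]
      · congr 1
        funext a
        abel
      · exact intervalIntegrable_const.add hi
      · exact Continuous.intervalIntegrable
          ((fderiv ℝ ρ q).continuous.comp (continuous_const.sub hYc)) _ _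
    rw [e2, smul_sub, smul_add, ← map_smul, e1, map_zero, sub_zero, add_zero,
      intervalIntegral.integral_const, sub_zero, smul_smul, one_div_mul_cancel hw.ne', one_smul]
  have h2 : ‖∫ a in (0:ℝ)..w, (ρ q - Y a - fderiv ℝ ρ q (q - Y a))‖ ≤
      ∫ a in (0:ℝ)..w, K * (2 * dd G lg w c t + 2 * ‖Y a - c t‖ ^ 2) := by
    refine intervalIntegral.norm_integral_le_of_norm_le hw.le ?_ ?_
    · refine Eventually.of_forall fun a ha => ?_
      have ha' : a ∈ Icc 0 w := ⟨ha.1.le, ha.2⟩
      refine (hR.taylor (Y a) (PP_mem hsg hc hcl _ _) q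
        (av_close_Y hsg hc hB hs hR.r_pos t ha')).trans ?_
      exact mul_le_mul_of_nonneg_left (av_sub_Y_le hsg hc hB hs t a) hK
    · exact Continuous.intervalIntegrable (by fun_prop) _ _
  have h3 : ∫ a in (0:ℝ)..w, K * (2 * dd G lg w c t + 2 * ‖Y a - c t‖ ^ 2) =
      K * (2 * dd G lg w c t * w + 2 * ∫ a in (0:ℝ)..w, ‖Y a - c t‖ ^ 2) := by
    rw [intervalIntegral.integral_const_mul, intervalIntegral.integral_add
      intervalIntegrable_const (Continuous.intervalIntegrable (by fun_prop) _ _),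
      intervalIntegral.integral_const, intervalIntegral.integral_const_mul, smul_eq_mul, sub_zero]
    ring
  have h4 := avg_Y_le hsg hc hB hs t
  rw [h3] at h2
  rw [h1, norm_smul, Real.norm_eq_abs, abs_of_pos (by positivity)]
  have h5 : (1 / w) * ‖∫ a in (0:ℝ)..w, (ρ q - Y a - fderiv ℝ ρ q (q - Y a))‖ ≤
      (1 / w) * (K * (2 * dd G lg w c t * w + 2 * ∫ a in (0:ℝ)..w, ‖Y a - c t‖ ^ 2)) :=
    mul_le_mul_of_nonneg_left h2 (by positivity)
  refine h5.trans ?_
  have h6 : (1 / w) * (K * (2 * dd G lg w c t * w + 2 * ∫ a in (0:ℝ)..w, ‖Y a - c t‖ ^ 2)) =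
      K * (2 * dd G lg w c t + 2 * ((1 / w) * ∫ a in (0:ℝ)..w, ‖Y a - c t‖ ^ 2)) := by
    field_simp
  rw [h6]
  have h7 : K * (2 * dd G lg w c t + 2 * ((1 / w) * ∫ a in (0:ℝ)..w, ‖Y a - c t‖ ^ 2)) ≤
      K * (2 * dd G lg w c t + 2 * dd G lg w c t) := by
    refine mul_le_mul_of_nonneg_left ?_ hK
    linarith
  linarith

end est

end Crest.Agent.R208.MS
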