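import Crest.Agent.R208.MS2d

/-!
R208, block MS (helper286), part MS2e: **the averaged Birkhoff step** (statement `step`).
-/

set_option autoImplicit false

open Set Filter Topology MeasureTheory
open scoped ContDiff RealInnerProductSpace Real
open Crest.GeometryTopology.Submanifold
open Crest.Agent.R241.DDefs Crest.Agent.R241.D Crest.Agent.R241.D2

noncomputable section

namespace Crest.Agent.R208.MS

variable {n N : ℕ} {κ : ℝ} {S : Set (Euc N)} {G : Geo n N κ S} {lg : Euc N → Euc N → Euc N}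
  {ρ : Euc N → Euc N} {r C r' K B : ℝ} {c : ℝ → Euc N} {w : ℝ}

section est

variable (hsg : SG G lg r C) (hR : Retr S ρ r' K) (hc : Loop S c) (hB : En c ≤ B)
  (hs : Small r C r' K B w)

include hsg hc hB hs in
theorem hda_av (t : ℝ) : HasDerivAt (av G lg w c) (av' G lg w c t) t :=
  hasDerivAt_av hsg hc hs.pos (hs.close hsg.r_pos hc hB) t

include hsg hc hB hs in
theorem continuous_av' : Continuous (av' G lg w c) := by
  have h : deriv (av G lg w c) = av' G lg w c := funext fun t => (hda_av hsg hc hB hs t).deriv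
  rw [← h]
  exact (contDiff_av hsg hc hB hs).continuous_deriv (by simp)

include hsg hc hB hs in
theorem mix_close (hr' : 0 < r') {σ : ℝ} (h0 : 0 ≤ σ) (h1 : σ ≤ 1) (t : ℝ) :
    ‖((1 - σ) • c t + σ • av G lg w c t) - c t‖ < r' := by
  have h2 : ((1 - σ) • c t + σ • av G lg w c t) - c t = σ • (av G lg w c t - c t) := by module
  rw [h2, norm_smul, Real.norm_eq_abs, abs_of_nonneg h0]
  refine lt_of_le_of_lt ?_ (av_close hsg hc hB hs hr' t)
  exact mul_le_of_le_one_left (norm_nonneg _) h1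

include hsg hR hc hB hs in
theorem loop_st {σ : ℝ} (h0 : 0 ≤ σ) (h1 : σ ≤ 1) : Loop S (st G lg ρ w σ c) := by
  refine ⟨?_, ?_, ?_⟩
  · rw [contDiff_iff_contDiffAt]
    intro t
    have h2 := hR.smooth (c t) (hc.mem t) _ (mix_close hsg hc hB hs hR.r_pos h0 h1 t)
    have h3 : ContDiff ℝ ∞ fun t => (1 - σ) • c t + σ • av G lg w c t :=
      (hc.smooth.const_smul (1 - σ)).add ((contDiff_av hsg hc hB hs).const_smul σ)
    exact ContDiffAt.comp t h2 h3.contDiffAt
  · intro t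
    have h2 : av G lg w c (t + 2 * π) = av G lg w c t := by
      rw [av_eq, av_eq]
      congr 2
      funext a
      rw [show t + 2 * π - a = t - a + 2 * π by ring, PP_per hc]
    simp only [st, h2, hc.per]
  · intro t
    exact hR.mem (c t) (hc.mem t) _ (mix_close hsg hc hB hs hR.r_pos h0 h1 t)

theorem st_one (t : ℝ) : st G lg ρ w 1 c t = ρ (av G lg w c t) := by
  simp [st]

theorem st_zero (hR : Retr S ρ r' K) (hc : Loop S c) (t : ℝ) : st G lg ρ w 0 c t = c t := by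
  simp only [st, sub_zero, one_smul, zero_smul, add_zero]
  exact hR.eq _ (hc.mem t)

include hsg hR hc hB hs in
theorem hda_st (t : ℝ) : HasDerivAt (st G lg ρ w 1 c)
    (fderiv ℝ ρ (av G lg w c t) (av' G lg w c t)) t := by
  have h1 := hR.smooth (c t) (hc.mem t) _ (av_close hsg hc hB hs hR.r_pos t)
  have h2 := (h1.differentiableAt (by simp)).hasFDerivAt.comp_hasDerivAt t (hda_av hsg hc hB hs t)
  have h3 : st G lg ρ w 1 c = ρ ∘ av G lg w c := funext fun t => st_one t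
  rw [h3]
  exact h2

include hsg hR hc hB hs in
theorem fd_le (t : ℝ) : ‖fderiv ℝ ρ (av G lg w c t)‖ ^ 2 ≤ 1 + 24 * K ^ 4 * dd G lg w c t := by
  have h1 := hR.fd (c t) (hc.mem t) _ (av_close hsg hc hB hs hR.r_pos t)
  have h2 := ret_sub_le hsg hc hB hs hR t
  rw [norm_sub_rev] at h2
  have hK := hR.one_le
  have hd0 := dd_nonneg (G := G) (lg := lg) (c := c) hs t
  have hd1 : dd G lg w c t ≤ 1 := (dd_le hsg hc hB hs t).trans hs.s4
  have h3 : ‖fderiv ℝ ρ (av G lg w c t)‖ ≤ 1 + 4 * K ^ 2 * dd G lg w c t := by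
    refine h1.trans ?_
    have : K * ‖av G lg w c t - ρ (av G lg w c t)‖ ≤ K * (4 * K * dd G lg w c t) :=
      mul_le_mul_of_nonneg_left h2 (by linarith)
    nlinarith
  refine (pow_le_pow_left₀ (norm_nonneg _) h3 2).trans ?_
  have hK2 : (1:ℝ) ≤ K ^ 2 := one_le_pow₀ hK
  have hK4 : K ^ 2 ≤ K ^ 4 := by nlinarith
  set d := dd G lg w c t
  have h4 : d ^ 2 ≤ d := by nlinarith
  have h5 : K ^ 4 * d ^ 2 ≤ K ^ 4 * d := mul_le_mul_of_nonneg_left h4 (by positivity)
  have h6 : K ^ 2 * d ≤ K ^ 4 * d := mul_le_mul_of_nonneg_right hK4 hd0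
  nlinarith

include hsg hc hB hs in
theorem av'_sq_le (t : ℝ) : ‖av' G lg w c t‖ ^ 2 ≤
    (1 / w) * ∫ a in (0:ℝ)..w, ‖VV G lg w c (t - a) a‖ ^ 2 :=
  norm_avg_sq_le (cVV hsg hc hB hs t) hs.pos

include hsg hc hB hs in
theorem av'_sq_le' (t : ℝ) : ‖av' G lg w c t‖ ^ 2 ≤ 2 * B * C ^ 2 / w := by
  have hw := hs.pos
  refine (av'_sq_le hsg hc hB hs t).trans ?_
  have h1 : ∫ a in (0:ℝ)..w, ‖VV G lg w c (t - a) a‖ ^ 2 ≤ ∫ _a in (0:ℝ)..w, 2 * B * C ^ 2 / w := by
    refine intervalIntegral.integral_mono_on hw.le ?_ intervalIntegrable_const fun a _ => ?_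
    · have := cVV hsg hc hB hs t
      exact Continuous.intervalIntegrable (by fun_prop) _ _
    · rw [norm_VV hsg hc hw (hs.close hsg.r_pos hc hB), div_pow, div_le_div_iff₀ (by positivity) hw]
      have := lg_sq_le hsg hc hB hs (t - a)
      nlinarith
  rw [intervalIntegral.integral_const, smul_eq_mul, sub_zero] at h1
  have h2 : (1 / w) * (∫ a in (0:ℝ)..w, ‖VV G lg w c (t - a) a‖ ^ 2) ≤
      (1 / w) * (w * (2 * B * C ^ 2 / w)) := mul_le_mul_of_nonneg_left h1 (by positivity)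
  refine h2.trans (le_of_eq ?_)
  field_simp

include hsg hc hB hs in
theorem int_av'_le : ∫ t in (0:ℝ)..(2 * π), ‖av' G lg w c t‖ ^ 2 ≤
    2 * En c - (1 / 2) * gr G lg w c := by
  have hw := hs.pos
  have hcl := hs.close hsg.r_pos hc hB
  have hVc : Continuous (Function.uncurry fun s a => ‖VV G lg w c s a‖ ^ 2) := by
    have h1 := (contDiff_VV hsg hc hcl).continuous
    have h2 : Continuous fun q : ℝ × ℝ => ‖Function.uncurry (VV G lg w c) q‖ ^ 2 := h1.norm.pow 2
    exact h2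
  have h1 : ∫ t in (0:ℝ)..(2 * π), ‖av' G lg w c t‖ ^ 2 ≤
      ∫ t in (0:ℝ)..(2 * π), (1 / w) * ∫ a in (0:ℝ)..w, ‖VV G lg w c (t - a) a‖ ^ 2 := by
    refine intervalIntegral.integral_mono_on (by positivity) ?_ ?_ fun t _ =>
      av'_sq_le hsg hc hB hs t
    · exact ((continuous_av' hsg hc hB hs).norm.pow 2).intervalIntegrable _ _
    · refine Continuous.intervalIntegrable (Continuous.const_mul ?_ _) _ _
      refine continuous_par (F := fun t a => ‖VV G lg w c (t - a) a‖ ^ 2) ?_ 0 w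
      exact hVc.comp (f := fun q : ℝ × ℝ => (q.1 - q.2, q.2)) (by fun_prop)
  rw [intervalIntegral.integral_const_mul, shear_par (F := fun s a => ‖VV G lg w c s a‖ ^ 2) hVc
    (fun s a => by simp only [VV_per hc]) w] at h1
  have h2 : ∀ s, ∫ a in (0:ℝ)..w, ‖VV G lg w c s a‖ ^ 2 =
      (1 / w) * ‖lg (c s) (c (s + w))‖ ^ 2 := by
    intro s
    simp_rw [norm_VV hsg hc hw hcl]
    rw [intervalIntegral.integral_const, smul_eq_mul, sub_zero]
    field_simp
  simp_rw [h2] at h1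
  have h3 := int_lg_le hsg hc hB hs
  linarith

include hsg hR hc hB hs in
/-- **energy decreases** -/
theorem En_st_le : En (st G lg ρ w 1 c) ≤ En c - gr G lg w c / 8 := by
  have hw := hs.pos
  have hB0 : 0 ≤ B := (En_nonneg c).trans hB
  have hgr0 : 0 ≤ gr G lg w c := by
    rw [gr_eq]
    refine mul_nonneg (by positivity) (intervalIntegral.integral_nonneg (by positivity) fun _ _ => ?_)
    exact UU_nonneg hw _
  have hd : ∀ t, deriv (st G lg ρ w 1 c) t = fderiv ℝ ρ (av G lg w c t) (av' G lg w c t) :=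
    fun t => (hda_st hsg hR hc hB hs t).deriv
  have hL := loop_st hsg hR hc hB hs zero_le_one le_rfl
  have h1 : ∫ t in (0:ℝ)..(2 * π), ‖deriv (st G lg ρ w 1 c) t‖ ^ 2 ≤
      ∫ t in (0:ℝ)..(2 * π), (‖av' G lg w c t‖ ^ 2 +
        (24 * K ^ 4 * (2 * B * C ^ 2 / w)) * dd G lg w c t) := by
    refine intervalIntegral.integral_mono_on (by positivity)
      (hL.continuous_sq.intervalIntegrable _ _) ?_ fun t _ => ?_
    · have e1 := continuous_av' hsg hc hB hs
      have e2 := continuous_dd hsg hc hB hs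
      exact Continuous.intervalIntegrable (by fun_prop) _ _
    · rw [hd]
      have e1 := fd_le hsg hR hc hB hs t
      have e2 := av'_sq_le' hsg hc hB hs t
      have e3 := dd_nonneg (G := G) (lg := lg) (c := c) hs t
      have e4 : ‖fderiv ℝ ρ (av G lg w c t) (av' G lg w c t)‖ ^ 2 ≤
          ‖fderiv ℝ ρ (av G lg w c t)‖ ^ 2 * ‖av' G lg w c t‖ ^ 2 := by
        rw [← mul_pow]
        exact pow_le_pow_left₀ (norm_nonneg _) (ContinuousLinearMap.le_opNorm _ _) 2
      refine e4.trans ?_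
      have e5 : ‖fderiv ℝ ρ (av G lg w c t)‖ ^ 2 * ‖av' G lg w c t‖ ^ 2 ≤
          (1 + 24 * K ^ 4 * dd G lg w c t) * ‖av' G lg w c t‖ ^ 2 :=
        mul_le_mul_of_nonneg_right e1 (by positivity)
      have e6 : 24 * K ^ 4 * dd G lg w c t * ‖av' G lg w c t‖ ^ 2 ≤
          24 * K ^ 4 * dd G lg w c t * (2 * B * C ^ 2 / w) :=
        mul_le_mul_of_nonneg_left e2 (by positivity)
      nlinarith
  have e1 := continuous_av' hsg hc hB hs
  have e2 := continuous_dd hsg hc hB hs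
  rw [intervalIntegral.integral_add (Continuous.intervalIntegrable (by fun_prop) _ _)
    (Continuous.intervalIntegrable (by fun_prop) _ _), intervalIntegral.integral_const_mul,
    int_dd hsg hc hB hs] at h1
  have h2 := int_av'_le hsg hc hB hs
  have h3 : 24 * K ^ 4 * (2 * B * C ^ 2 / w) * (w ^ 2 * gr G lg w c) =
      (192 * K ^ 4 * B * C ^ 2 * w) * (gr G lg w c / 4) := by
    field_simp
    ring
  have h4 : (192 * K ^ 4 * B * C ^ 2 * w) * (gr G lg w c / 4) ≤ 1 * (gr G lg w c / 4) :=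
    mul_le_mul_of_nonneg_right hs.s5 (by positivity)
  rw [h3] at h1
  have h5 := int_eq_En (st G lg ρ w 1 c)
  rw [h5] at h1
  linarith

include hs in
theorem gr_nonneg' : 0 ≤ gr G lg w c := by
  rw [gr_eq]
  have hw := hs.pos
  refine mul_nonneg (by positivity) (intervalIntegral.integral_nonneg (by positivity) fun _ _ => ?_)
  exact UU_nonneg hw _

include hsg hR hc hB hs in
/-- displacement, `C^0` -/
theorem st_sub_le (t : ℝ) : ‖st G lg ρ w 1 c t - c t‖ ^ 2 ≤ 51 * K ^ 4 * gr G lg w c := by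
  have hw := hs.pos
  have hK := hR.one_le
  have h1 := ret_sub_le hsg hc hB hs hR t
  have h2 := av_sub_le hsg hc hB hs t
  have hd0 := dd_nonneg (G := G) (lg := lg) (c := c) hs t
  have hd1 : dd G lg w c t ≤ 1 := (dd_le hsg hc hB hs t).trans hs.s4
  have hdg := dd_le_gr hsg hc hB hs t
  have hg0 := gr_nonneg' (G := G) (lg := lg) (c := c) hs
  have hdg' : dd G lg w c t ≤ gr G lg w c := hdg.trans (mul_le_of_le_one_left hg0 hs.le_one)
  rw [st_one]
  have h3 : ‖ρ (av G lg w c t) - c t‖ ≤ ‖ρ (av G lg w c t) - av G lg w c t‖ +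
      ‖av G lg w c t - c t‖ := by
    have : ρ (av G lg w c t) - c t = (ρ (av G lg w c t) - av G lg w c t) +
      (av G lg w c t - c t) := by abel
    rw [this]
    exact norm_add_le _ _
  set x := ‖ρ (av G lg w c t) - av G lg w c t‖
  set y := ‖av G lg w c t - c t‖
  set d := dd G lg w c t
  have hx0 : 0 ≤ x := norm_nonneg _
  have hK2 : (1:ℝ) ≤ K ^ 2 := one_le_pow₀ hK
  have hK4 : K ^ 2 ≤ K ^ 4 := by nlinarith
  have h4 : x ^ 2 ≤ 16 * K ^ 2 * d := by
    have e1 : x ^ 2 ≤ (4 * K * d) ^ 2 := pow_le_pow_left₀ hx0 h1 2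
    have e2 : d ^ 2 ≤ d := by nlinarith
    have e3 : K ^ 2 * d ^ 2 ≤ K ^ 2 * d := mul_le_mul_of_nonneg_left e2 (by positivity)
    nlinarith
  have h5 : ‖ρ (av G lg w c t) - c t‖ ^ 2 ≤ (x + y) ^ 2 := pow_le_pow_left₀ (norm_nonneg _) h3 2
  have h6 : (x + y) ^ 2 ≤ 2 * x ^ 2 + 2 * y ^ 2 := by nlinarith [sq_nonneg (x - y)]
  have h7 : K ^ 2 * d ≤ K ^ 4 * d := mul_le_mul_of_nonneg_right hK4 hd0
  have h8 : d ≤ K ^ 4 * d := le_mul_of_one_le_left hd0 (hK2.trans hK4)
  have h9 : K ^ 4 * d ≤ K ^ 4 * gr G lg w c := mul_le_mul_of_nonneg_left hdg' (by positivity)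
  have h10 : 0 ≤ K ^ 4 * d := by positivity
  nlinarith

include hsg hc hB hs in
theorem int_av'_sub_le : ∫ t in (0:ℝ)..(2 * π), ‖av' G lg w c t - deriv c t‖ ^ 2 ≤
    gr G lg w c := by
  have hw := hs.pos
  have hcl := hs.close hsg.r_pos hc hB
  set F : ℝ → ℝ → ℝ := fun s a => ‖VV G lg w c s a - deriv c (s + a)‖ ^ 2 with hF
  have hFc : Continuous (Function.uncurry F) := by
    have h1 : Continuous fun q : ℝ × ℝ =>
      ‖(Function.uncurry fun s a => VV G lg w c s a - deriv c (s + a)) q‖ ^ 2 :=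
      (continuous_VVd hsg hc hcl).norm.pow 2
    exact h1
  have h0 : ∀ t, ‖av' G lg w c t - deriv c t‖ ^ 2 ≤ (1 / w) * ∫ a in (0:ℝ)..w, F (t - a) a := by
    intro t
    have e1 : av' G lg w c t - deriv c t =
        (1 / w) • ∫ a in (0:ℝ)..w, (VV G lg w c (t - a) a - deriv c t) := by
      rw [intervalIntegral.integral_sub ((cVV hsg hc hB hs t).intervalIntegrable _ _)
        intervalIntegrable_const, intervalIntegral.integral_const, sub_zero, smul_sub, av',
        smul_smul, one_div_mul_cancel hw.ne', one_smul]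
    have e2 : Continuous fun a => VV G lg w c (t - a) a - deriv c t :=
      (cVV hsg hc hB hs t).sub continuous_const
    rw [e1]
    refine (norm_avg_sq_le e2 hw).trans (le_of_eq ?_)
    simp only [hF, sub_add_cancel]
  have h1 : ∫ t in (0:ℝ)..(2 * π), ‖av' G lg w c t - deriv c t‖ ^ 2 ≤
      ∫ t in (0:ℝ)..(2 * π), (1 / w) * ∫ a in (0:ℝ)..w, F (t - a) a := by
    refine intervalIntegral.integral_mono_on (by positivity) ?_ ?_ fun t _ => h0 t
    · have e1 := continuous_av' hsg hc hB hs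
      have e2 := hc.continuous_deriv
      exact Continuous.intervalIntegrable (by fun_prop) _ _
    · refine Continuous.intervalIntegrable (Continuous.const_mul ?_ _) _ _
      refine continuous_par (F := fun t a => F (t - a) a) ?_ 0 w
      exact hFc.comp (f := fun q : ℝ × ℝ => (q.1 - q.2, q.2)) (by fun_prop)
  rw [intervalIntegral.integral_const_mul, shear_par (F := F) hFc (fun s a => by
    simp only [hF, VV_per hc, show s + 2 * π + a = s + a + 2 * π by ring, hc.deriv_per]) w] at h1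
  exact h1

include hsg hR hc hB hs in
/-- displacement, `H^1` -/
theorem int_st_sub_le : ∫ t in (0:ℝ)..(2 * π), ‖deriv (st G lg ρ w 1 c) t - deriv c t‖ ^ 2 ≤
    51 * K ^ 4 * gr G lg w c := by
  have hw := hs.pos
  have hK := hR.one_le
  have hB0 : 0 ≤ B := (En_nonneg c).trans hB
  have hg0 := gr_nonneg' (G := G) (lg := lg) (c := c) hs
  have hL := loop_st hsg hR hc hB hs zero_le_one le_rfl
  have hK2 : (1:ℝ) ≤ K ^ 2 := one_le_pow₀ hK
  have hK4 : K ^ 2 ≤ K ^ 4 := by nlinarith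
  have hpt : ∀ t, ‖deriv (st G lg ρ w 1 c) t - deriv c t‖ ^ 2 ≤
      50 * K ^ 4 * ‖av' G lg w c t - deriv c t‖ ^ 2 +
        (2 * K ^ 2 * (w * gr G lg w c)) * ‖deriv c t‖ ^ 2 := by
    intro t
    rw [(hda_st hsg hR hc hB hs t).deriv]
    -- `D ρ_c c' = c'`
    have e0 : fderiv ℝ ρ (c t) (deriv c t) = deriv c t := by
      have h1 := hR.smooth (c t) (hc.mem t) (c t) (by rw [sub_self, norm_zero]; exact hR.r_pos)
      have h2 := (h1.differentiableAt (by simp)).hasFDerivAt.comp_hasDerivAt t (hc.hasDerivAt t)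
      have h3 : ρ ∘ c = c := funext fun s => hR.eq _ (hc.mem s)
      rw [h3] at h2
      exact h2.unique (hc.hasDerivAt t)
    set q := av G lg w c t with hq
    have e1 : fderiv ℝ ρ q (av' G lg w c t) - deriv c t =
        fderiv ℝ ρ q (av' G lg w c t - deriv c t) +
          (fderiv ℝ ρ q - fderiv ℝ ρ (c t)) (deriv c t) := by
      rw [_root_.sub_apply, e0, map_sub]
      abel
    have e2 : ‖fderiv ℝ ρ q (av' G lg w c t - deriv c t)‖ ^ 2 ≤
        25 * K ^ 4 * ‖av' G lg w c t - deriv c t‖ ^ 2 := by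
      have f1 : ‖fderiv ℝ ρ q (av' G lg w c t - deriv c t)‖ ^ 2 ≤
          ‖fderiv ℝ ρ q‖ ^ 2 * ‖av' G lg w c t - deriv c t‖ ^ 2 := by
        rw [← mul_pow]
        exact pow_le_pow_left₀ (norm_nonneg _) (ContinuousLinearMap.le_opNorm _ _) 2
      have f2 := fd_le hsg hR hc hB hs t
      have hd1 : dd G lg w c t ≤ 1 := (dd_le hsg hc hB hs t).trans hs.s4
      have f3 : ‖fderiv ℝ ρ q‖ ^ 2 ≤ 25 * K ^ 4 := by
        have : 24 * K ^ 4 * dd G lg w c t ≤ 24 * K ^ 4 * 1 :=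
          mul_le_mul_of_nonneg_left hd1 (by positivity)
        rw [hq]
        nlinarith
      exact f1.trans (mul_le_mul_of_nonneg_right f3 (by positivity))
    have e3 : ‖(fderiv ℝ ρ q - fderiv ℝ ρ (c t)) (deriv c t)‖ ^ 2 ≤
        K ^ 2 * (w * gr G lg w c) * ‖deriv c t‖ ^ 2 := by
      have f1 : ‖(fderiv ℝ ρ q - fderiv ℝ ρ (c t)) (deriv c t)‖ ^ 2 ≤
          ‖fderiv ℝ ρ q - fderiv ℝ ρ (c t)‖ ^ 2 * ‖deriv c t‖ ^ 2 := by
        rw [← mul_pow]
        exact pow_le_pow_left₀ (norm_nonneg _) (ContinuousLinearMap.le_opNorm _ _) 2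
      have f2 := hR.lip (c t) (hc.mem t) q (av_close hsg hc hB hs hR.r_pos t)
      have f3 : ‖fderiv ℝ ρ q - fderiv ℝ ρ (c t)‖ ^ 2 ≤ (K * ‖q - c t‖) ^ 2 :=
        pow_le_pow_left₀ (norm_nonneg _) f2 2
      have f4 : ‖q - c t‖ ^ 2 ≤ w * gr G lg w c :=
        (av_sub_le hsg hc hB hs t).trans (dd_le_gr hsg hc hB hs t)
      have f5 : ‖fderiv ℝ ρ q - fderiv ℝ ρ (c t)‖ ^ 2 ≤ K ^ 2 * (w * gr G lg w c) := by
        refine f3.trans ?_
        rw [mul_pow]
        exact mul_le_mul_of_nonneg_left f4 (by positivity)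
      exact f1.trans (mul_le_mul_of_nonneg_right f5 (by positivity))
    rw [e1]
    set u := fderiv ℝ ρ q (av' G lg w c t - deriv c t)
    set v := (fderiv ℝ ρ q - fderiv ℝ ρ (c t)) (deriv c t)
    have e4 : ‖u + v‖ ^ 2 ≤ 2 * ‖u‖ ^ 2 + 2 * ‖v‖ ^ 2 := by
      have := pow_le_pow_left₀ (norm_nonneg _) (norm_add_le u v) 2
      nlinarith [sq_nonneg (‖u‖ - ‖v‖)]
    nlinarith
  have h1 : ∫ t in (0:ℝ)..(2 * π), ‖deriv (st G lg ρ w 1 c) t - deriv c t‖ ^ 2 ≤
      ∫ t in (0:ℝ)..(2 * π), (50 * K ^ 4 * ‖av' G lg w c t - deriv c t‖ ^ 2 +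
        (2 * K ^ 2 * (w * gr G lg w c)) * ‖deriv c t‖ ^ 2) := by
    have e1 := continuous_av' hsg hc hB hs
    have e2 := hc.continuous_deriv
    have e3 := hL.continuous_deriv
    refine intervalIntegral.integral_mono_on (by positivity)
      (Continuous.intervalIntegrable (by fun_prop) _ _)
      (Continuous.intervalIntegrable (by fun_prop) _ _) fun t _ => hpt t
  have e1 := continuous_av' hsg hc hB hs
  have e2 := hc.continuous_deriv
  rw [intervalIntegral.integral_add (Continuous.intervalIntegrable (by fun_prop) _ _)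
    (Continuous.intervalIntegrable (by fun_prop) _ _), intervalIntegral.integral_const_mul,
    intervalIntegral.integral_const_mul, int_eq_En] at h1
  have h2 := int_av'_sub_le hsg hc hB hs
  have h3 : 50 * K ^ 4 * (∫ t in (0:ℝ)..(2 * π), ‖av' G lg w c t - deriv c t‖ ^ 2) ≤
      50 * K ^ 4 * gr G lg w c := mul_le_mul_of_nonneg_left h2 (by positivity)
  have h4 : 2 * K ^ 2 * (w * gr G lg w c) * (2 * En c) ≤ K ^ 4 * gr G lg w c := by
    have f1 : 2 * K ^ 2 * (w * gr G lg w c) * (2 * En c) ≤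
        2 * K ^ 2 * (w * gr G lg w c) * (2 * B) :=
      mul_le_mul_of_nonneg_left (by linarith) (by positivity)
    have f2 : 2 * K ^ 2 * (w * gr G lg w c) * (2 * B) = (4 * B * w) * (K ^ 2 * gr G lg w c) := by
      ring
    have f3 : (4 * B * w) * (K ^ 2 * gr G lg w c) ≤ 1 * (K ^ 2 * gr G lg w c) :=
      mul_le_mul_of_nonneg_right hs.s4 (by positivity)
    have f4 : K ^ 2 * gr G lg w c ≤ K ^ 4 * gr G lg w c := mul_le_mul_of_nonneg_right hK4 hg0
    linarith
  linarith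

end est

/-- **MS2**: the averaged Birkhoff step -/
theorem step (hsg : SG G lg r C) (hR : Retr S ρ r' K) (B : ℝ) : ∃ w₀ > 0, ∀ w, 0 < w → w ≤ w₀ →
    ∀ c, Loop S c → En c ≤ B →
      (∀ σ, 0 ≤ σ → σ ≤ 1 → Loop S (st G lg ρ w σ c)) ∧ 0 ≤ gr G lg w c ∧
      En (st G lg ρ w 1 c) ≤ En c - gr G lg w c / 8 ∧
      (∀ t, ‖st G lg ρ w 1 c t - c t‖ ^ 2 ≤ 51 * K ^ 4 * gr G lg w c) ∧
      ∫ t in (0:ℝ)..(2 * π), ‖deriv (st G lg ρ w 1 c) t - deriv c t‖ ^ 2 ≤
        51 * K ^ 4 * gr G lg w c := by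
  obtain ⟨w₀, hw₀, h⟩ := exists_small (r := r) (r' := r') hsg.r_pos hR.r_pos C K B
  refine ⟨w₀, hw₀, fun w h0 h1 c hc hB => ?_⟩
  have hs := h w h0 h1
  exact ⟨fun σ hσ0 hσ1 => loop_st hsg hR hc hB hs hσ0 hσ1, gr_nonneg' hs,
    En_st_le hsg hR hc hB hs, st_sub_le hsg hR hc hB hs, int_st_sub_le hsg hR hc hB hs⟩

end Crest.Agent.R208.MS
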