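import Crest.Agent.R208.MSDefs
import Crest.Agent.R208.HS1

/-!
R208, block MS3 (helper378), file MS3a: elementary estimates for loops; continuity of the short
geodesics; the defect `u`.
-/

set_option autoImplicit false

open Set Filter Topology MeasureTheory
open scoped ContDiff RealInnerProductSpace Real
open Crest.GeometryTopology.Submanifold
open Crest.Agent.R241.DDefs Crest.Agent.R241.D Crest.Agent.R241.D2

noncomputable section

namespace Crest.Agent.R208.PS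

open Crest.Agent.R208.MS

variable {n N : ℕ} {κ : ℝ} {S : Set (Euc N)}

/-! ### Cauchy-Schwarz on an interval -/

theorem sq_integral_le {f : ℝ → ℝ} (hf : Continuous f) {a b : ℝ} (hab : a ≤ b) :
    (∫ t in a..b, f t) ^ 2 ≤ (b - a) * ∫ t in a..b, f t ^ 2 := by
  rcases hab.eq_or_lt with rfl | h
  · simp
  have hba : 0 < b - a := sub_pos.2 h
  set I := ∫ t in a..b, f t with hI
  set m := I / (b - a) with hm
  have h0 : 0 ≤ ∫ t in a..b, (f t - m) ^ 2 :=
    intervalIntegral.integral_nonneg hab (fun t _ => sq_nonneg _)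
  have h1 : ∫ t in a..b, (f t - m) ^ 2 =
      (∫ t in a..b, f t ^ 2) - 2 * m * I + m ^ 2 * (b - a) := by
    have h2 : (fun t => (f t - m) ^ 2) = fun t => (f t ^ 2 - 2 * m * f t) + m ^ 2 := by
      funext t; ring
    rw [h2, intervalIntegral.integral_add, intervalIntegral.integral_sub,
      intervalIntegral.integral_const_mul, intervalIntegral.integral_const, smul_eq_mul,
      mul_comm (b - a)]
    all_goals exact Continuous.intervalIntegrable (by fun_prop) _ _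
  rw [h1] at h0
  have h3 : m * (b - a) = I := by rw [hm]; field_simp
  have h4 : 0 ≤ (b - a) * ((∫ t in a..b, f t ^ 2) - 2 * m * I + m ^ 2 * (b - a)) := by positivity
  have h5 : (b - a) * ((∫ t in a..b, f t ^ 2) - 2 * m * I + m ^ 2 * (b - a)) =
      (b - a) * (∫ t in a..b, f t ^ 2) - 2 * (m * (b - a)) * I + (m * (b - a)) ^ 2 := by ring
  rw [h5, h3] at h4
  nlinarith

theorem norm_sub_sq_le {E : Type*} [NormedAddCommGroup E] [NormedSpace ℝ E] [CompleteSpace E]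
    {c c' : ℝ → E} (hd : ∀ t, HasDerivAt c (c' t) t) (hc' : Continuous c')
    {a b : ℝ} (hab : a ≤ b) : ‖c b - c a‖ ^ 2 ≤ (b - a) * ∫ t in a..b, ‖c' t‖ ^ 2 := by
  have h1 : ∫ t in a..b, c' t = c b - c a :=
    intervalIntegral.integral_eq_sub_of_hasDerivAt (fun t _ => hd t)
      (hc'.intervalIntegrable _ _)
  have h2 : ‖c b - c a‖ ≤ ∫ t in a..b, ‖c' t‖ := by
    rw [← h1]
    exact intervalIntegral.norm_integral_le_integral_norm hab
  have h3 := sq_integral_le (hc'.norm) hab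
  refine (pow_le_pow_left₀ (norm_nonneg _) h2 2).trans h3

/-! ### Loops -/

theorem loop_hasDeriv {c : ℝ → Euc N} (h : Loop S c) (t : ℝ) : HasDerivAt c (deriv c t) t :=
  (h.smooth.differentiable (by simp) t).hasDerivAt

theorem loop_cont_deriv {c : ℝ → Euc N} (h : Loop S c) : Continuous (deriv c) :=
  h.smooth.continuous_deriv (by simp)

theorem loop_deriv_per {c : ℝ → Euc N} (h : Loop S c) (t : ℝ) :
    deriv c (t + 2 * π) = deriv c t := by
  have h1 : (fun s => c (s + 2 * π)) = c := funext h.per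
  have h2 : deriv (fun s => c (s + 2 * π)) t = deriv c (t + 2 * π) := deriv_comp_add_const _ _ _
  rw [← h2, h1]

theorem integral_period {f : ℝ → ℝ} (hp : ∀ t, f (t + 2 * π) = f t) (s : ℝ) :
    ∫ t in s..(s + 2 * π), f t = ∫ t in (0:ℝ)..(2 * π), f t := by
  have h := (show Function.Periodic f (2 * π) from hp).intervalIntegral_add_eq s 0
  simpa using h

theorem loop_energy {c : ℝ → Euc N} (_h : Loop S c) :
    ∫ t in (0:ℝ)..(2 * π), ‖deriv c t‖ ^ 2 = 2 * En c := by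
  unfold En
  ring

theorem loop_energy' {c : ℝ → Euc N} (h : Loop S c) (s : ℝ) :
    ∫ t in s..(s + 2 * π), ‖deriv c t‖ ^ 2 = 2 * En c := by
  rw [integral_period (fun t => by rw [(loop_deriv_per h) t]), (loop_energy h)]

theorem loop_int_le {c : ℝ → Euc N} (h : Loop S c) {s t : ℝ}
    (ht : t ≤ s + 2 * π) : ∫ t in s..t, ‖deriv c t‖ ^ 2 ≤ 2 * En c := by
  rw [← (loop_energy' h) s]
  have hc : Continuous (fun t => ‖deriv c t‖ ^ 2) := (loop_cont_deriv h).norm.pow 2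
  rw [← intervalIntegral.integral_add_adjacent_intervals (hc.intervalIntegrable s t)
    (hc.intervalIntegrable t (s + 2 * π))]
  have := intervalIntegral.integral_nonneg (μ := volume) ht
    (fun u _ => by positivity : ∀ u ∈ Icc t (s + 2 * π), 0 ≤ ‖deriv c u‖ ^ 2)
  linarith

theorem loop_holder {c : ℝ → Euc N} (h : Loop S c) {B : ℝ} (hB : En c ≤ B) {s t : ℝ}
    (hst : s ≤ t) (ht : t ≤ s + 2 * π) : ‖c t - c s‖ ^ 2 ≤ 2 * B * (t - s) := by
  have h1 := norm_sub_sq_le (loop_hasDeriv h) (loop_cont_deriv h) hst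
  have h2 := loop_int_le h ht
  have h3 : 0 ≤ t - s := sub_nonneg.2 hst
  nlinarith

/-! ### continuity of the short geodesics -/

section short

variable {G : Geo n N κ S} {lg : Euc N → Euc N → Euc N} {r C : ℝ}

/-- the combined map -/
def GM (G : Geo n N κ S) (lg : Euc N → Euc N → Euc N) (q : (Euc N × Euc N) × ℝ) :
    Euc N × Euc N := fl G ((q.1.1, lg q.1.1 q.1.2), q.2)

/-- pairs at distance `≤ ρ` -/
def KK (S : Set (Euc N)) (ρ : ℝ) : Set (Euc N × Euc N) :=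
  {p | p.1 ∈ S ∧ p.2 ∈ S ∧ ‖p.1 - p.2‖ ^ 2 ≤ ρ}

theorem isCompact_KK (hS : IsCompact S) (ρ : ℝ) : IsCompact (KK S ρ) := by
  have h1 : IsCompact (S ×ˢ S) := hS.prod hS
  have h2 : KK S ρ = (S ×ˢ S) ∩ {p | ‖p.1 - p.2‖ ^ 2 ≤ ρ} := by
    ext p
    simp [KK, and_assoc]
  rw [h2]
  refine h1.inter_right (isClosed_le (by fun_prop) continuous_const)

theorem contDiffAt_GM (h : SG G lg r C) {p : Euc N × Euc N} (h1 : p.1 ∈ S) (h2 : p.2 ∈ S)
    (h3 : ‖p.1 - p.2‖ < r) (τ : ℝ) : ContDiffAt ℝ ∞ (GM G lg) (p, τ) := by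
  have e1 : ContDiffAt ℝ ∞ (fl G) ((p.1, lg p.1 p.2), τ) :=
    contDiffAt_fl' G (q := (p.1, lg p.1 p.2)) ⟨h1, h.mem _ h1 _ h2 h3⟩ τ
  have e2 : ContDiffAt ℝ ∞ (fun q : (Euc N × Euc N) × ℝ => lg q.1.1 q.1.2) (p, τ) :=
    ContDiffAt.comp (p, τ) (h.smooth _ h1 _ h2 h3) contDiffAt_fst
  have e3 : ContDiffAt ℝ ∞ (fun q : (Euc N × Euc N) × ℝ => ((q.1.1, lg q.1.1 q.1.2), q.2))
      (p, τ) := by
    refine ContDiffAt.prodMk (ContDiffAt.prodMk ?_ e2) contDiffAt_snd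
    exact contDiffAt_fst.comp (p, τ) contDiffAt_fst
  exact ContDiffAt.comp (p, τ) e1 e3

theorem lt_of_sq {x r ρ : ℝ} (hr : 0 < r) (hρ : ρ < r ^ 2) (h : x ^ 2 ≤ ρ) : x < r :=
  lt_of_pow_lt_pow_left₀ 2 hr.le (h.trans_lt hρ)

theorem uniform_GM (h : SG G lg r C) (hS : IsCompact S) {ρ : ℝ} (hρ : ρ < r ^ 2) {ε : ℝ}
    (hε : 0 < ε) : ∃ δ > 0, ∀ p ∈ KK S ρ, ∀ q ∈ KK S ρ, ∀ τ ∈ Icc (0 : ℝ) 1,
      ‖p.1 - q.1‖ < δ → ‖p.2 - q.2‖ < δ → ‖GM G lg (p, τ) - GM G lg (q, τ)‖ < ε := by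
  have hK : IsCompact (KK S ρ ×ˢ Icc (0 : ℝ) 1) := (isCompact_KK hS ρ).prod isCompact_Icc
  have hc : ContinuousOn (GM G lg) (KK S ρ ×ˢ Icc (0 : ℝ) 1) := by
    rintro ⟨p, τ⟩ ⟨hp, -⟩
    exact (contDiffAt_GM h hp.1 hp.2.1 (lt_of_sq h.r_pos hρ hp.2.2) τ).continuousAt.continuousWithinAt
  have hu := hK.uniformContinuousOn_of_continuous hc
  obtain ⟨δ, hδ, hδ'⟩ := Metric.uniformContinuousOn_iff.1 hu ε hε
  refine ⟨δ, hδ, fun p hp q hq τ hτ h1 h2 => ?_⟩
  have h3 := hδ' (p, τ) ⟨hp, hτ⟩ (q, τ) ⟨hq, hτ⟩ (by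
    rw [Prod.dist_eq, Prod.dist_eq, dist_self, dist_eq_norm, dist_eq_norm]
    simp only [max_lt_iff]
    exact ⟨⟨h1, h2⟩, hδ⟩)
  rwa [dist_eq_norm] at h3

/-! ### the defect -/

/-- the position defect -/
def uu (G : Geo n N κ S) (lg : Euc N → Euc N → Euc N) (w : ℝ) (c : ℝ → Euc N) (s a : ℝ) : Euc N :=
  gd G lg (c s) (c (s + w)) (a / w) - c (s + a)

/-- its derivative -/
def du (G : Geo n N κ S) (lg : Euc N → Euc N → Euc N) (w : ℝ) (c : ℝ → Euc N) (s a : ℝ) : Euc N :=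
  (1 / w) • gv G lg (c s) (c (s + w)) (a / w) - deriv c (s + a)

theorem gr_eq (w : ℝ) (c : ℝ → Euc N) : gr G lg w c =
    (1 / w) * ∫ s in (0:ℝ)..(2 * π), ∫ a in (0:ℝ)..w, ‖du G lg w c s a‖ ^ 2 := rfl

theorem uu_per {w : ℝ} {c : ℝ → Euc N} (hc : ∀ t, c (t + 2 * π) = c t) (s a : ℝ) :
    uu G lg w c (s + 2 * π) a = uu G lg w c s a := by
  unfold uu
  rw [hc s, show s + 2 * π + w = s + w + 2 * π by ring, hc, show s + 2 * π + a = s + a + 2 * π
    by ring, hc]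

variable (h : SG G lg r C) {w : ℝ} {c : ℝ → Euc N}

theorem uu_zero (s : ℝ) : uu G lg w c s 0 = 0 := by
  simp [uu, gd, fl_zero]

/-- the pair `(c s, c (s + w))` -/
theorem loop_pair (hw : 0 < w) (hw2 : w ≤ 2 * π) (hc : Loop S c) {B : ℝ} (hB : En c ≤ B) (s : ℝ) :
    (c s, c (s + w)) ∈ KK S (2 * B * w) := by
  refine ⟨hc.mem s, hc.mem _, ?_⟩
  have h1 := loop_holder hc hB (s := s) (t := s + w) (by linarith) (by linarith)
  rw [norm_sub_rev]
  simpa using h1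

include h in
theorem continuous_GMc {ρ : ℝ} (hρ : ρ < r ^ 2) (hcc : Continuous c)
    (hK : ∀ s, (c s, c (s + w)) ∈ KK S ρ) :
    Continuous (fun p : ℝ × ℝ => GM G lg ((c p.1, c (p.1 + w)), p.2 / w)) := by
  rw [continuous_iff_continuousAt]
  rintro ⟨s, a⟩
  have h1 := hK s
  have h2 := (contDiffAt_GM h h1.1 h1.2.1 (lt_of_sq h.r_pos hρ h1.2.2) (a / w)).continuousAt
  have h3 : ContinuousAt (fun p : ℝ × ℝ => ((c p.1, c (p.1 + w)), p.2 / w)) (s, a) := by
    refine Continuous.continuousAt ?_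
    fun_prop
  exact ContinuousAt.comp (f := fun p : ℝ × ℝ => ((c p.1, c (p.1 + w)), p.2 / w))
    (x := (s, a)) h2 h3

include h in
theorem continuous_uu {ρ : ℝ} (hρ : ρ < r ^ 2) (hcc : Continuous c)
    (hK : ∀ s, (c s, c (s + w)) ∈ KK S ρ) :
    Continuous (fun p : ℝ × ℝ => uu G lg w c p.1 p.2) := by
  have h1 := (continuous_GMc h hρ hcc hK).fst
  exact h1.sub (by fun_prop)

include h in
theorem continuous_du {ρ : ℝ} (hρ : ρ < r ^ 2) (hcc : Continuous c) (hcd : Continuous (deriv c))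
    (hK : ∀ s, (c s, c (s + w)) ∈ KK S ρ) :
    Continuous (fun p : ℝ × ℝ => du G lg w c p.1 p.2) := by
  have h1 := (continuous_GMc h hρ hcc hK).snd
  have h2 : Continuous (fun p : ℝ × ℝ => deriv c (p.1 + p.2)) :=
    hcd.comp (by fun_prop : Continuous (fun p : ℝ × ℝ => p.1 + p.2))
  exact (h1.const_smul (1 / w : ℝ)).sub h2

include h in
theorem hasDerivAt_uu {ρ : ℝ} (hρ : ρ < r ^ 2) (hc : Loop S c)
    (hK : ∀ s, (c s, c (s + w)) ∈ KK S ρ) (s a : ℝ) :
    HasDerivAt (fun a => uu G lg w c s a) (du G lg w c s a) a := by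
  have h1 := hK s
  have hm := h.mem _ h1.1 _ h1.2.1 (lt_of_sq h.r_pos hρ h1.2.2)
  have hq : ((c s, lg (c s) (c (s + w))) : Euc N × Euc N) ∈ TS G := ⟨h1.1, hm⟩
  have h2 := hasDerivAt_fl G (complete G hq (a / w))
  have h3 : HasDerivAt (fun a : ℝ => a / w) (1 / w) a := by
    simpa using (hasDerivAt_id a).div_const w
  have h4 := (hda_fst h2).scomp a h3
  have h5 : HasDerivAt (fun a => c (s + a)) (deriv c (s + a)) a :=
    ((loop_hasDeriv hc) (s + a)).comp_const_add s a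
  exact h4.sub h5

include h in
theorem norm_uu_sq {ρ : ℝ} (hρ : ρ < r ^ 2) (hc : Loop S c)
    (hK : ∀ s, (c s, c (s + w)) ∈ KK S ρ) (hw : 0 < w) (s : ℝ) {a : ℝ} (ha : a ∈ Icc 0 w) :
    ‖uu G lg w c s a‖ ^ 2 ≤ w * ∫ a in (0:ℝ)..w, ‖du G lg w c s a‖ ^ 2 := by
  have hcu : Continuous (fun a => du G lg w c s a) :=
    (continuous_du h hρ hc.smooth.continuous (loop_cont_deriv hc) hK).comp
      (f := fun a : ℝ => (s, a)) (by fun_prop)
  have h1 := norm_sub_sq_le (c := fun a => uu G lg w c s a) (c' := fun a => du G lg w c s a)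
    (fun a => hasDerivAt_uu h hρ hc hK s a) hcu ha.1
  simp only [uu_zero, sub_zero] at h1
  refine h1.trans ?_
  have hn : 0 ≤ ∫ a in (0:ℝ)..a, ‖du G lg w c s a‖ ^ 2 :=
    intervalIntegral.integral_nonneg ha.1 (fun _ _ => by positivity)
  have h2 : ∫ a in (0:ℝ)..a, ‖du G lg w c s a‖ ^ 2 ≤ ∫ a in (0:ℝ)..w, ‖du G lg w c s a‖ ^ 2 := by
    have hcn : Continuous (fun a => ‖du G lg w c s a‖ ^ 2) := hcu.norm.pow 2
    rw [← intervalIntegral.integral_add_adjacent_intervals (hcn.intervalIntegrable 0 a)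
      (hcn.intervalIntegrable a w)]
    have := intervalIntegral.integral_nonneg (μ := volume) ha.2
      (fun u _ => by positivity : ∀ u ∈ Icc a w, 0 ≤ ‖du G lg w c s u‖ ^ 2)
    linarith
  calc a * ∫ a in (0:ℝ)..a, ‖du G lg w c s a‖ ^ 2 ≤ w * ∫ a in (0:ℝ)..a, ‖du G lg w c s a‖ ^ 2 :=
        mul_le_mul_of_nonneg_right ha.2 hn
    _ ≤ _ := mul_le_mul_of_nonneg_left h2 hw.le

include h in
/-- the position defect is small in `L^2`, for every `a` -/
theorem integral_uu_le {ρ : ℝ} (hρ : ρ < r ^ 2) (hc : Loop S c)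
    (hK : ∀ s, (c s, c (s + w)) ∈ KK S ρ) (hw : 0 < w) {a : ℝ} (ha : a ∈ Icc 0 w) :
    ∫ s in (0:ℝ)..(2 * π), ‖uu G lg w c s a‖ ^ 2 ≤ w ^ 2 * gr G lg w c := by
  have hcu := continuous_uu h hρ hc.smooth.continuous hK
  have hcd := continuous_du h hρ hc.smooth.continuous (loop_cont_deriv hc) hK
  have h1 : Continuous (fun s => ‖uu G lg w c s a‖ ^ 2) :=
    ((hcu.comp (f := fun s : ℝ => (s, a)) (by fun_prop)).norm.pow 2)
  have h2 : Continuous (fun s => w * ∫ a in (0:ℝ)..w, ‖du G lg w c s a‖ ^ 2) := by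
    refine continuous_const.mul ?_
    refine intervalIntegral.continuous_parametric_intervalIntegral_of_continuous' ?_ _ _
    exact hcd.norm.pow 2
  have h3 : ∫ s in (0:ℝ)..(2 * π), ‖uu G lg w c s a‖ ^ 2 ≤
      ∫ s in (0:ℝ)..(2 * π), w * ∫ a in (0:ℝ)..w, ‖du G lg w c s a‖ ^ 2 :=
    intervalIntegral.integral_mono_on Real.two_pi_pos.le (h1.intervalIntegrable _ _)
      (h2.intervalIntegrable _ _) (fun s _ => norm_uu_sq h hρ hc hK hw s ha)
  refine h3.trans (le_of_eq ?_)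
  rw [intervalIntegral.integral_const_mul, gr_eq]
  field_simp

/-- averaging a periodic function over a window -/
theorem avg_window {f : ℝ → ℝ} (hf : Continuous f) (hp : ∀ t, f (t + 2 * π) = f t) (w : ℝ) :
    ∫ s in (0:ℝ)..(2 * π), ∫ a in (0:ℝ)..w, f (s + a) = w * ∫ t in (0:ℝ)..(2 * π), f t := by
  rw [intervalIntegral_intervalIntegral_swap]
  · have h1 : ∀ a : ℝ, ∫ s in (0:ℝ)..(2 * π), f (s + a) = ∫ t in (0:ℝ)..(2 * π), f t := by
      intro a
      rw [intervalIntegral.integral_comp_add_right (fun t => f t), zero_add,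
        add_comm (2 * π) a, integral_period hp]
    simp only [h1, intervalIntegral.integral_const, smul_eq_mul, sub_zero]
  · have hcont : Continuous (Function.uncurry fun s a : ℝ => f (s + a)) :=
      hf.comp (f := fun p : ℝ × ℝ => p.1 + p.2) (by fun_prop)
    exact (hcont.continuousOn.integrableOn_compact (isCompact_uIcc.prod isCompact_uIcc)).mono_set
      (prod_mono uIoc_subset_uIcc uIoc_subset_uIcc)

end short

end Crest.Agent.R208.PS
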