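import Crest.Agent.R208.MS3a

/-!
R208, block MS3 (helper378), file MS3b: a curve all of whose windows of length `w` are short
geodesics is a geodesic; closed geodesics of energy `< 4π`; compactness of loops.
-/

set_option autoImplicit false

open Set Filter Topology MeasureTheory
open scoped ContDiff RealInnerProductSpace Real
open Crest.GeometryTopology.Submanifold
open Crest.Agent.R241.DDefs Crest.Agent.R241.D Crest.Agent.R241.D2

noncomputable section

namespace Crest.Agent.R208.PS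

open Crest.Agent.R208.MS

variable {n N : ℕ} {κ : ℝ} {S : Set (Euc N)}
variable {G : Geo n N κ S} {lg : Euc N → Euc N → Euc N} {r C : ℝ}

/-! ### closed geodesics -/

theorem closed_one (hB : Bl n N κ S G π) (hper : HS.Per G) {q : Euc N × Euc N} (hq : q ∈ TS G)
    (hcl : (fl G (q, 2 * π)).1 = q.1) (h0 : 0 < ‖q.2‖) (h2 : ‖q.2‖ < 2) : ‖q.2‖ = 1 := by
  obtain ⟨x, v⟩ := q
  simp only at h0 h2 hcl ⊢
  set l := ‖v‖ with hl
  have hpi := Real.pi_pos
  have hx : x ∈ S := hq.1
  have hu : l⁻¹ • v ∈ G.T x := (G.T x).smul_mem _ hq.2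
  have hz : ((x, l⁻¹ • v) : Euc N × Euc N) ∈ TS G := ⟨hx, hu⟩
  have hz1 : ‖l⁻¹ • v‖ = 1 := by
    rw [norm_smul, norm_inv, norm_norm, inv_mul_cancel₀ h0.ne']
  have hv : l • (l⁻¹ • v) = v := smul_inv_smul₀ h0.ne' v
  have h3 := fl_scale G hz l (2 * π)
  rw [hv] at h3
  have hT : (fl G ((x, l⁻¹ • v), l * (2 * π))).1 = x := by rw [h3] at hcl; exact hcl
  have hp := hper _ hz hz1
  have hp2 : fl G ((x, l⁻¹ • v), 2 * π + 2 * π) = (x, l⁻¹ • v) := by
    rw [fl_add' G hz, hp, hp]
  have key : ∀ a b : ℝ, (fl G ((x, l⁻¹ • v), a)).1 = x → (fl G ((x, l⁻¹ • v), b)).1 = x →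
      a < b → b - a ≤ π → False := by
    intro a b ha hb hab hba
    have h4 := hB.dist_fl _ hz hz1 a b hab.le hba
    rw [ha, hb, intrinsicDist_self hx] at h4
    linarith
  have e0 : (fl G ((x, l⁻¹ • v), (0 : ℝ))).1 = x := by rw [fl_zero]
  have e2 : (fl G ((x, l⁻¹ • v), 2 * π)).1 = x := by rw [hp]
  have e4 : (fl G ((x, l⁻¹ • v), 2 * π + 2 * π)).1 = x := by rw [hp2]
  by_contra hne
  rcases lt_or_gt_of_ne hne with h | h
  · by_cases h5 : l * (2 * π) ≤ π
    · exact key 0 _ e0 hT (by positivity) (by linarith)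
    · push Not at h5
      exact key _ _ hT e2 (by nlinarith) (by linarith)
  · by_cases h5 : l * (2 * π) ≤ 3 * π
    · exact key _ _ e2 hT (by nlinarith) (by linarith)
    · push Not at h5
      exact key _ _ hT e4 (by nlinarith) (by linarith)

/-! ### local geodesics are geodesics -/

/-- position and velocity -/
def qq (lg : Euc N → Euc N → Euc N) (w : ℝ) (c : ℝ → Euc N) (t : ℝ) : Euc N × Euc N :=
  (c t, (1 / w) • lg (c t) (c (t + w)))

section glob

variable (h : SG G lg r C) {w ρ : ℝ} {c : ℝ → Euc N} (hw : 0 < w) (hρ : ρ < r ^ 2)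
  (hK : ∀ s, (c s, c (s + w)) ∈ KK S ρ)

include h hρ hK in
theorem lg_mem (s : ℝ) : lg (c s) (c (s + w)) ∈ G.T (c s) :=
  h.mem _ (hK s).1 _ (hK s).2.1 (lt_of_sq h.r_pos hρ (hK s).2.2)

include h hρ hK in
theorem qq_mem (s : ℝ) : qq lg w c s ∈ TS G :=
  ⟨(hK s).1, (G.T _).smul_mem _ (lg_mem h hρ hK s)⟩

include h hρ hK in
theorem fl_qq (s a : ℝ) : fl G (qq lg w c s, a) =
    (gd G lg (c s) (c (s + w)) (a / w), (1 / w) • gv G lg (c s) (c (s + w)) (a / w)) := by
  have hq : ((c s, lg (c s) (c (s + w))) : Euc N × Euc N) ∈ TS G :=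
    ⟨(hK s).1, lg_mem h hρ hK s⟩
  have h1 := fl_scale G hq (1 / w) a
  rw [one_div_mul_eq_div] at h1
  exact h1

variable (hg : ∀ s, ∀ a ∈ Icc 0 w, gd G lg (c s) (c (s + w)) (a / w) = c (s + a))

include h hρ hK hg in
theorem fl_fst {s a : ℝ} (ha : a ∈ Icc 0 w) : (fl G (qq lg w c s, a)).1 = c (s + a) := by
  rw [fl_qq h hρ hK]
  exact hg s a ha

include h hρ hK in
theorem hasDerivAt_sh (s t : ℝ) : HasDerivAt (fun x => (fl G (qq lg w c s, x - s)).1)
    (fl G (qq lg w c s, t - s)).2 t := by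
  have h1 := hda_fst (hasDerivAt_fl G (complete G (qq_mem h hρ hK s) (t - s)))
  exact h1.comp_sub_const t s

include h hρ hK hg in
theorem hasDerivAt_c {s a : ℝ} (ha : a ∈ Ioo 0 w) :
    HasDerivAt c (fl G (qq lg w c s, a)).2 (s + a) := by
  have h1 := hasDerivAt_sh h hρ hK s (s + a)
  rw [add_sub_cancel_left] at h1
  refine h1.congr_of_eventuallyEq ?_
  have h2 : Ioo s (s + w) ∈ 𝓝 (s + a) := Ioo_mem_nhds (by linarith [ha.1]) (by linarith [ha.2])
  filter_upwards [h2] with x hx
  rw [fl_fst h hρ hK hg (a := x - s) ⟨by linarith [hx.1], by linarith [hx.2]⟩]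
  congr 1
  ring

include h hw hρ hK hg in
theorem hasDerivAt_c' (t : ℝ) : HasDerivAt c (qq lg w c t).2 t := by
  have h1 := hasDerivAt_c h hρ hK hg (s := t - w / 2) (a := w / 2)
    ⟨by positivity, by linarith⟩
  rw [sub_add_cancel] at h1
  have h2 : HasDerivWithinAt c (qq lg w c t).2 (Icc t (t + w)) t := by
    have h3 := (hasDerivAt_sh h hρ hK t t).hasDerivWithinAt (s := Icc t (t + w))
    rw [sub_self, fl_zero] at h3
    refine h3.congr (fun x hx => ?_) ?_
    · rw [fl_fst h hρ hK hg (a := x - t) ⟨by linarith [hx.1], by linarith [hx.2]⟩]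
      congr 1
      ring
    · rw [sub_self, fl_zero]
      rfl
  have h4 : (qq lg w c t).2 = (fl G (qq lg w c (t - w / 2), w / 2)).2 :=
    (uniqueDiffOn_Icc (by linarith : t < t + w) t ⟨le_refl _, by linarith⟩).eq_deriv _ h2
      h1.hasDerivWithinAt
  rw [h4]
  exact h1

include h hw hρ hK hg in
theorem qq_add {s a : ℝ} (ha : a ∈ Ico 0 w) : qq lg w c (s + a) = fl G (qq lg w c s, a) := by
  rcases eq_or_lt_of_le ha.1 with h0 | h0
  · rw [← h0, add_zero, fl_zero]
  · refine Prod.ext ?_ ?_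
    · exact (fl_fst h hρ hK hg ⟨ha.1, ha.2.le⟩).symm
    · exact (hasDerivAt_c' h hw hρ hK hg (s + a)).unique
        (hasDerivAt_c h hρ hK hg ⟨h0, ha.2⟩)

include h hw hρ hK hg in
theorem qq_add' (s : ℝ) {t : ℝ} (ht : 0 ≤ t) : qq lg w c (s + t) = fl G (qq lg w c s, t) := by
  have h1 : ∀ k : ℕ, ∀ s, qq lg w c (s + k * (w / 2)) = fl G (qq lg w c s, k * (w / 2)) := by
    intro k
    induction k with
    | zero => intro s; simp [fl_zero]
    | succ k ih =>
      intro s
      have e : s + ((k + 1 : ℕ) : ℝ) * (w / 2) = (s + k * (w / 2)) + w / 2 := by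
        push_cast
        ring
      have e' : ((k + 1 : ℕ) : ℝ) * (w / 2) = k * (w / 2) + w / 2 := by
        push_cast
        ring
      rw [e, e', fl_add' G (qq_mem h hρ hK s), ← ih,
        qq_add h hw hρ hK hg ⟨by positivity, by linarith⟩]
  have hw2 : 0 < w / 2 := by positivity
  set k := ⌊t / (w / 2)⌋₊ with hk
  have h2 : (k : ℝ) * (w / 2) ≤ t := by
    have := Nat.floor_le (div_nonneg ht hw2.le)
    rwa [le_div_iff₀ hw2] at this
  have h3 : t < (k + 1) * (w / 2) := by
    have := Nat.lt_floor_add_one (t / (w / 2))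
    rwa [div_lt_iff₀ hw2] at this
  have h4 : t = k * (w / 2) + (t - k * (w / 2)) := by ring
  have h5 : s + t = (s + k * (w / 2)) + (t - k * (w / 2)) := by ring
  rw [h5, qq_add h hw hρ hK hg ⟨by linarith, by nlinarith⟩, h1, ← fl_add' G (qq_mem h hρ hK s),
    ← h4]

include h hw hρ hK hg in
theorem continuous_c : Continuous c :=
  continuous_iff_continuousAt.2 fun t => (hasDerivAt_c' h hw hρ hK hg t).continuousAt

include h hw hρ hK hg in
theorem continuous_c' : Continuous (fun t => (qq lg w c t).2) := by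
  have hc := continuous_c h hw hρ hK hg
  rw [continuous_iff_continuousAt]
  intro t
  have h1 : ContinuousAt (fun q : Euc N × Euc N => lg q.1 q.2) (c t, c (t + w)) :=
    (h.smooth _ (hK t).1 _ (hK t).2.1 (lt_of_sq h.r_pos hρ (hK t).2.2)).continuousAt
  have h2 : ContinuousAt (fun t => (c t, c (t + w))) t := by
    refine Continuous.continuousAt ?_
    fun_prop
  exact (ContinuousAt.comp (f := fun t => (c t, c (t + w))) (x := t) h1 h2).const_smul
    (1 / w : ℝ)

end glob

/-! ### compactness of loops -/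

theorem exists_limit (hS : IsCompact S) {B : ℝ} (c : ℕ → ℝ → Euc N)
    (hc : ∀ j, Loop S (c j)) (hE : ∀ j, En (c j) ≤ B) :
    ∃ (l : Filter ℕ) (d : ℝ → Euc N), l.NeBot ∧ l ≤ atTop ∧ (∀ t, d t ∈ S) ∧
      (∀ t, d (t + 2 * π) = d t) ∧
      (∀ ε > 0, ∀ᶠ j in l, ∀ t, ‖c j t - d t‖ < ε) := by
  have hpi := Real.pi_pos
  set l : Filter ℕ := Ultrafilter.toFilter (hyperfilter ℕ) with hl
  have hlim : ∀ t, ∃ x ∈ S, Tendsto (fun j => c j t) l (𝓝 x) := by
    intro t
    have hev : ∀ᶠ j in l, c j t ∈ S := Eventually.of_forall fun j => (hc j).mem t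
    obtain ⟨x, hx, hx'⟩ := hS.ultrafilter_le_nhds ((hyperfilter ℕ).map (fun j => c j t)) (by
      rw [le_principal_iff]
      exact hev)
    exact ⟨x, hx, hx'⟩
  choose d hdS hd using hlim
  have hper : ∀ t, d (t + 2 * π) = d t := fun t => by
    have h1 := hd (t + 2 * π)
    simp only [fun j => (hc j).per t] at h1
    exact tendsto_nhds_unique h1 (hd t)
  refine ⟨l, d, inferInstance, ?_, hdS, hper, fun ε hε => ?_⟩
  · rw [← Nat.cofinite_eq_atTop]
    exact hyperfilter_le_cofinite
  let F : ℕ → Icc (0 : ℝ) (2 * π) → Euc N := fun j t => c j t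
  have hF : UniformEquicontinuous F := by
    refine Metric.uniformEquicontinuous_of_continuity_modulus (fun x => √(2 * B * x)) ?_ F ?_
    · exact (by fun_prop : Continuous (fun x : ℝ => √(2 * B * x))).tendsto' 0 0 (by simp)
    · intro x y j
      have key : ∀ x y : Icc (0 : ℝ) (2 * π), x ≤ y →
          dist (F j x) (F j y) ≤ √(2 * B * dist x y) := by
        intro x y hxy
        have h1 := loop_holder (hc j) (hE j) (s := x) (t := y) hxy (by
          have := x.2.1
          have := y.2.2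
          linarith)
        have h2 : dist x y = y - x := by
          rw [Subtype.dist_eq, Real.dist_eq, abs_sub_comm, abs_of_nonneg]
          exact sub_nonneg.2 hxy
        rw [h2, dist_eq_norm, norm_sub_rev]
        have h3 := Real.abs_le_sqrt h1
        rwa [abs_of_nonneg (norm_nonneg _)] at h3
      rcases le_total x y with h | h
      · exact key x y h
      · rw [dist_comm (F j x), dist_comm x]
        exact key y x h
  have h1 : Tendsto F l (𝓝 fun t => d t) := tendsto_pi_nhds.2 fun t => hd t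
  have h2 := (hF.equicontinuous.tendsto_uniformFun_iff_pi l (fun t => d t)).2 h1
  rw [UniformFun.tendsto_iff_tendstoUniformly, Metric.tendstoUniformly_iff] at h2
  filter_upwards [h2 ε hε] with j hj t
  -- reduce to `[0, 2π)`
  have hP : Function.Periodic (fun t => (c j t, d t)) (2 * π) := fun t => by
    simp only [(hc j).per t, hper t]
  obtain ⟨t', ht', he⟩ := hP.exists_mem_Ico₀ (by positivity) t
  simp only [Prod.mk.injEq] at he
  rw [he.1, he.2]
  have h3 := hj ⟨t', ht'.1, ht'.2.le⟩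
  rw [dist_comm, dist_eq_norm] at h3
  exact h3

end Crest.Agent.R208.PS
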