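import Crest.Agent.R208.MS2e
import Crest.Agent.R208.CM0
import Crest.Agent.R208.FH10a

/-!
R208, block MS (helper286), part MS5: the averaged Birkhoff step for circle families of loops,
i.e. for maps `f : K → S` where `K` carries a circle action; smooth homotopies of families.
-/

set_option autoImplicit false
set_option linter.unusedSectionVars false

open Set Filter Topology MeasureTheory
open scoped ContDiff RealInnerProductSpace Real
open Crest.GeometryTopology.Submanifold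
open Crest.Agent.R241.DDefs Crest.Agent.R241.D Crest.Agent.R241.D2

noncomputable section

namespace Crest.Agent.R208.MS

variable {E : Type} [NormedAddCommGroup E] [NormedSpace ℝ E] [FiniteDimensional ℝ E]
variable {n N : ℕ} {κ : ℝ} {S : Set (Euc N)} {G : Geo n N κ S} {lg : Euc N → Euc N → Euc N}
  {ρ : Euc N → Euc N} {r C r' K B : ℝ} {w : ℝ} {X : Set E} {φ : ℝ → E → E} {f : E → Euc N}

/-- orbit loop of the family `f` -/
def oc (φ : ℝ → E → E) (f : E → Euc N) (z : E) (t : ℝ) : Euc N := f (φ t z)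

/-- the step, on families -/
def fst (φ : ℝ → E → E) (G : Geo n N κ S) (lg : Euc N → Euc N → Euc N) (ρ : Euc N → Euc N)
    (w σ : ℝ) (f : E → Euc N) (z : E) : Euc N := st G lg ρ w σ (oc φ f z) 0

/-- a smooth family of loops in `S` -/
structure Fam (S : Set (Euc N)) (X : Set E) (f : E → Euc N) : Prop where
  smooth : ∀ z ∈ X, ContDiffAt ℝ ∞ f z
  maps : ∀ z ∈ X, f z ∈ S

theorem loop_oc (hφ : CM.Cir X φ) (hf : Fam S X f) {z : E} (hz : z ∈ X) : Loop S (oc φ f z) := by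
  refine ⟨?_, ?_, ?_⟩
  · rw [contDiff_iff_contDiffAt]
    intro t
    exact ContDiffAt.comp t (hf.smooth _ (hφ.maps t hz)) (hφ.smooth_left t hz)
  · intro t
    unfold oc
    rw [hφ.add_two_pi t hz]
  · intro t
    exact hf.maps _ (hφ.maps t hz)

theorem oc_shift (hφ : CM.Cir X φ) {z : E} (hz : z ∈ X) (s : ℝ) :
    oc φ f (φ s z) = fun t => oc φ f z (t + s) := by
  funext t
  unfold oc
  rw [hφ.add t s z hz]

theorem av_shift (c : ℝ → Euc N) (s t : ℝ) :
    av G lg w (fun u => c (u + s)) t = av G lg w c (t + s) := by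
  unfold av
  congr 2
  funext a
  beta_reduce
  rw [show t - a + s = t + s - a by ring, show t + w - a + s = t + s + w - a by ring]

theorem st_shift (σ : ℝ) (c : ℝ → Euc N) (s t : ℝ) :
    st G lg ρ w σ (fun u => c (u + s)) t = st G lg ρ w σ c (t + s) := by
  unfold st
  rw [av_shift]

/-- the orbit loops of the new family are the new loops -/
theorem oc_fst (hφ : CM.Cir X φ) {z : E} (hz : z ∈ X) (σ : ℝ) :
    oc φ (fst φ G lg ρ w σ f) z = st G lg ρ w σ (oc φ f z) := by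
  funext t
  change fst φ G lg ρ w σ f (φ t z) = _
  unfold fst
  rw [oc_shift hφ hz, st_shift, zero_add]

section smooth

/-- the integrand of the average, rescaled to `[0,1]` -/
def ig (φ : ℝ → E → E) (G : Geo n N κ S) (lg : Euc N → Euc N → Euc N) (w : ℝ) (f : E → Euc N)
    (q : E × ℝ) : Euc N :=
  gd G lg (f (φ (-(w * q.2)) q.1)) (f (φ (w - w * q.2) q.1)) q.2

theorem av_eq_I1 (hw : 0 < w) (z : E) : av G lg w (oc φ f z) 0 = FI.I1 (ig φ G lg w f) z := by
  unfold av FI.I1 ig oc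
  have h1 := intervalIntegral.integral_comp_mul_left
    (f := fun a => gd G lg (f (φ (0 - a) z)) (f (φ (0 + w - a) z)) (a / w)) (a := 0) (b := 1) hw.ne'
  rw [mul_zero, mul_one] at h1
  rw [one_div, ← h1]
  congr 1
  funext a
  rw [zero_sub, zero_add, mul_div_cancel_left₀ _ hw.ne']

theorem contDiffAt_ig (hsg : SG G lg r C) (hφ : CM.Cir X φ) (hf : Fam S X f)
    {z : E} (hz : z ∈ X) (hcl : ∀ s, ‖oc φ f z s - oc φ f z (s + w)‖ < r) (τ : ℝ) :
    ContDiffAt ℝ ∞ (ig φ G lg w f) (z, τ) := by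
  have hx : ∀ s : ℝ, ContDiffAt ℝ ∞ (fun q : E × ℝ => f (φ (s - w * q.2) q.1)) (z, τ) := by
    intro s
    have h1 : ContDiffAt ℝ ∞ (fun q : E × ℝ => (s - w * q.2, q.1)) (z, τ) := by fun_prop
    have h2 : ContDiffAt ℝ ∞ (fun q : E × ℝ => φ (s - w * q.2) q.1) (z, τ) :=
      ContDiffAt.comp (z, τ) (g := fun q : ℝ × E => φ q.1 q.2) (hφ.smooth _ z hz) h1
    exact ContDiffAt.comp (z, τ) (hf.smooth _ (hφ.maps _ hz)) h2
  have hmem : ∀ s, f (φ s z) ∈ S := fun s => hf.maps _ (hφ.maps s hz)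
  have hclose : ‖f (φ (-(w * τ)) z) - f (φ (w - w * τ) z)‖ < r := by
    have h := hcl (-(w * τ))
    unfold oc at h
    rwa [show -(w * τ) + w = w - w * τ by ring] at h
  have h0 := hx 0
  have h1 := hx w
  simp only [zero_sub] at h0
  have h2 : ContDiffAt ℝ ∞ (fun q : E × ℝ => lg (f (φ (-(w * q.2)) q.1))
      (f (φ (w - w * q.2) q.1))) (z, τ) :=
    ContDiffAt.comp (z, τ) (g := fun q : Euc N × Euc N => lg q.1 q.2)
      (hsg.smooth _ (hmem _) _ (hmem _) hclose) (h0.prodMk h1)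
  have h3 : ContDiffAt ℝ ∞ (fun q : E × ℝ => ((f (φ (-(w * q.2)) q.1),
      lg (f (φ (-(w * q.2)) q.1)) (f (φ (w - w * q.2) q.1))), q.2)) (z, τ) :=
    (h0.prodMk h2).prodMk contDiffAt_snd
  have hTS : (f (φ (-(w * τ)) z), lg (f (φ (-(w * τ)) z)) (f (φ (w - w * τ) z))) ∈ TS G :=
    ⟨hmem _, hsg.mem _ (hmem _) _ (hmem _) hclose⟩
  exact (ContDiffAt.comp (z, τ) (g := fl G) (contDiffAt_fl' G hTS τ) h3).fst

theorem contDiffAt_fst (hsg : SG G lg r C) (hR : Retr S ρ r' K) (hφ : CM.Cir X φ)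
    (hf : Fam S X f) (hs : Small r C r' K B w) {z : E} (hz : z ∈ X) (hB : En (oc φ f z) ≤ B)
    {σ : ℝ} (h0 : 0 ≤ σ) (h1 : σ ≤ 1) :
    ContDiffAt ℝ ∞ (fun q : E × ℝ => fst φ G lg ρ w q.2 f q.1) (z, σ) := by
  have hL := loop_oc hφ hf hz
  have hcl := hs.close hsg.r_pos hL hB
  have e1 : ContDiffAt ℝ ∞ (fun z => av G lg w (oc φ f z) 0) z := by
    have : (fun z => av G lg w (oc φ f z) 0) = FI.I1 (ig φ G lg w f) :=
      funext fun z => av_eq_I1 hs.pos z
    rw [this]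
    exact FI.contDiffAt_I1 fun τ _ => contDiffAt_ig hsg hφ hf hz hcl τ
  have e2 : ContDiffAt ℝ ∞ (fun z => oc φ f z 0) z := by
    have := hf.smooth _ (hφ.maps 0 hz)
    exact ContDiffAt.comp z this (hφ.smooth_right 0 hz)
  have e3 : ContDiffAt ℝ ∞ (fun q : E × ℝ => (1 - q.2) • oc φ f q.1 0 +
      q.2 • av G lg w (oc φ f q.1) 0) (z, σ) := by
    have f1 : ContDiffAt ℝ ∞ (fun q : E × ℝ => oc φ f q.1 0) (z, σ) :=
      ContDiffAt.comp (z, σ) (g := fun z => oc φ f z 0) e2 _root_.contDiffAt_fst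
    have f2 : ContDiffAt ℝ ∞ (fun q : E × ℝ => av G lg w (oc φ f q.1) 0) (z, σ) :=
      ContDiffAt.comp (z, σ) (g := fun z => av G lg w (oc φ f z) 0) e1 _root_.contDiffAt_fst
    exact ((contDiffAt_const.sub contDiffAt_snd).smul f1).add (contDiffAt_snd.smul f2)
  have e4 := hR.smooth _ (hL.mem 0) _ (mix_close hsg hL hB hs hR.r_pos h0 h1 0)
  exact ContDiffAt.comp (z, σ) (g := ρ) e4 e3

end smooth

/-- constant loops are not moved -/
theorem st_const (hsg : SG G lg r C) (hR : Retr S ρ r' K) (hw : 0 < w) {x : Euc N} (hx : x ∈ S)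
    (σ t : ℝ) : st G lg ρ w σ (fun _ => x) t = x := by
  have h0 : ‖x - x‖ < r := by rw [sub_self, norm_zero]; exact hsg.r_pos
  have h1 := hsg.norm_le x hx x hx h0
  rw [sub_self, norm_zero, mul_zero] at h1
  have h2 : lg x x = 0 := norm_le_zero_iff.1 h1
  have h3 : ∀ τ : ℝ, gd G lg x x τ = x := by
    intro τ
    have h4 := Exp_smul G hx (G.T x).zero_mem τ
    unfold gd
    rw [h2, ← h4, smul_zero, Exp_zero G hx]
  unfold st av
  simp only [h3]
  rw [intervalIntegral.integral_const, sub_zero, smul_smul (1 / w) w x,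
    one_div_mul_cancel hw.ne', one_smul, ← add_smul, sub_add_cancel, one_smul]
  exact hR.eq x hx

/-- smooth homotopy of families which does not move constant loops -/
structure Homt (S : Set (Euc N)) (X : Set E) (φ : ℝ → E → E) (f f' : E → Euc N)
    (H : E × ℝ → Euc N) : Prop where
  smooth : ∀ z ∈ X, ∀ σ ∈ Icc (0:ℝ) 1, ContDiffAt ℝ ∞ H (z, σ)
  maps : ∀ z ∈ X, ∀ σ ∈ Icc (0:ℝ) 1, H (z, σ) ∈ S
  zero : ∀ z ∈ X, H (z, 0) = f z
  one : ∀ z ∈ X, H (z, 1) = f' z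
  const : ∀ z ∈ X, (∀ t, f (φ t z) = f z) → ∀ σ ∈ Icc (0:ℝ) 1, H (z, σ) = f z

theorem fam_fst (hsg : SG G lg r C) (hR : Retr S ρ r' K) (hφ : CM.Cir X φ)
    (hf : Fam S X f) (hs : Small r C r' K B w) (hB : ∀ z ∈ X, En (oc φ f z) ≤ B) :
    Fam S X (fst φ G lg ρ w 1 f) := by
  refine ⟨fun z hz => ?_, fun z hz => ?_⟩
  · have h1 := contDiffAt_fst hsg hR hφ hf hs hz (hB z hz) zero_le_one le_rfl
    have h2 : ContDiffAt ℝ ∞ (fun z : E => (z, (1:ℝ))) z := contDiffAt_id.prodMk contDiffAt_const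
    exact ContDiffAt.comp z (g := fun q : E × ℝ => fst φ G lg ρ w q.2 f q.1) h1 h2
  · exact (loop_st hsg hR (loop_oc hφ hf hz) (hB z hz) hs zero_le_one le_rfl).mem 0

theorem homt_fst (hsg : SG G lg r C) (hR : Retr S ρ r' K) (hφ : CM.Cir X φ)
    (hf : Fam S X f) (hs : Small r C r' K B w) (hB : ∀ z ∈ X, En (oc φ f z) ≤ B) :
    Homt S X φ f (fst φ G lg ρ w 1 f) (fun q => fst φ G lg ρ w q.2 f q.1) where
  smooth := fun z hz σ hσ => contDiffAt_fst hsg hR hφ hf hs hz (hB z hz) hσ.1 hσ.2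
  maps := fun z hz σ hσ =>
    (loop_st hsg hR (loop_oc hφ hf hz) (hB z hz) hs hσ.1 hσ.2).mem 0
  zero := fun z hz => by
    change st G lg ρ w 0 (oc φ f z) 0 = _
    rw [st_zero hR (loop_oc hφ hf hz)]
    unfold oc
    rw [hφ.zero z hz]
  one := fun z _ => rfl
  const := fun z hz hc σ _ => by
    change st G lg ρ w σ (oc φ f z) 0 = _
    have h1 : oc φ f z = fun _ => f z := funext fun t => hc t
    rw [h1]
    exact st_const hsg hR hs.pos (hf.maps z hz) σ 0

/-- iterated step on families -/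
def itf (φ : ℝ → E → E) (G : Geo n N κ S) (lg : Euc N → Euc N → Euc N) (ρ : Euc N → Euc N)
    (w : ℝ) (j : ℕ) (f : E → Euc N) : E → Euc N := (fst φ G lg ρ w 1)^[j] f

theorem itf_succ (j : ℕ) (f : E → Euc N) :
    itf φ G lg ρ w (j + 1) f = fst φ G lg ρ w 1 (itf φ G lg ρ w j f) :=
  Function.iterate_succ_apply' _ _ _

theorem itf_spec (hsg : SG G lg r C) (hR : Retr S ρ r' K) (hφ : CM.Cir X φ)
    (hf : Fam S X f) (hs : Small r C r' K B w) (hB : ∀ z ∈ X, En (oc φ f z) ≤ B) (j : ℕ) :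
    Fam S X (itf φ G lg ρ w j f) ∧ ∀ z ∈ X, En (oc φ (itf φ G lg ρ w j f) z) ≤ B ∧
      oc φ (itf φ G lg ρ w j f) z = (st G lg ρ w 1)^[j] (oc φ f z) := by
  induction j with
  | zero => exact ⟨hf, fun z hz => ⟨hB z hz, rfl⟩⟩
  | succ j ih =>
    obtain ⟨h1, h2⟩ := ih
    have h3 : ∀ z ∈ X, En (oc φ (itf φ G lg ρ w j f) z) ≤ B := fun z hz => (h2 z hz).1
    rw [itf_succ]
    refine ⟨fam_fst hsg hR hφ h1 hs h3, fun z hz => ⟨?_, ?_⟩⟩
    · rw [oc_fst hφ hz]
      have h4 := En_st_le hsg hR (loop_oc hφ h1 hz) (h3 z hz) hs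
      have h5 := gr_nonneg' (G := G) (lg := lg) (c := oc φ (itf φ G lg ρ w j f) z) hs
      have h6 := h3 z hz
      linarith
    · rw [oc_fst hφ hz, (h2 z hz).2, Function.iterate_succ_apply']

theorem homt_itf (hsg : SG G lg r C) (hR : Retr S ρ r' K) (hφ : CM.Cir X φ)
    (hf : Fam S X f) (hs : Small r C r' K B w) (hB : ∀ z ∈ X, En (oc φ f z) ≤ B) (j : ℕ) :
    Homt S X φ (itf φ G lg ρ w j f) (itf φ G lg ρ w (j + 1) f)
      (fun q => fst φ G lg ρ w q.2 (itf φ G lg ρ w j f) q.1) := by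
  rw [itf_succ]
  have h := itf_spec hsg hR hφ hf hs hB j
  exact homt_fst hsg hR hφ h.1 hs fun z hz => (h.2 z hz).1

end Crest.Agent.R208.MS
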