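import Mathlib

/-!
R208, block G6, N1 (helper537): real linear algebra used by the noncommutative Kazdan inequality:
Minkowski's determinant inequality, the matrix Ptolemy inequality, Cauchy-Schwarz for Gram
determinants, and the trace inequality `tr H ≥ a h^(1/a) + b (det H / h)^(1/b)` with equality case.
-/

set_option autoImplicit false
set_option linter.unusedSectionVars false

open Matrix

namespace Crest.Agent.R208.N

section Basic

variable {n : Type*} [Fintype n] [DecidableEq n]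

/-- spectral theorem for real symmetric matrices, elementary form -/
theorem spec {H : Matrix n n ℝ} (hH : H.IsHermitian) :
    ∃ (U : Matrix n n ℝ), Uᵀ * U = 1 ∧ U * Uᵀ = 1 ∧
      H = U * diagonal hH.eigenvalues * Uᵀ := by
  refine ⟨(hH.eigenvectorUnitary : Matrix n n ℝ), ?_, ?_, ?_⟩
  · have := Unitary.star_mul_self_of_mem hH.eigenvectorUnitary.2
    rwa [star_eq_conjTranspose, conjTranspose_eq_transpose_of_trivial] at this
  · have := Unitary.mul_star_self_of_mem hH.eigenvectorUnitary.2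
    rwa [star_eq_conjTranspose, conjTranspose_eq_transpose_of_trivial] at this
  · have h := hH.spectral_theorem
    rw [Unitary.conjStarAlgAut_apply, star_eq_conjTranspose,
      conjTranspose_eq_transpose_of_trivial] at h
    exact h

/-- a positive definite matrix is `Cᵀ C` with `C` invertible -/
theorem factor {A : Matrix n n ℝ} (hA : A.PosDef) :
    ∃ C : Matrix n n ℝ, IsUnit C.det ∧ A = Cᵀ * C := by
  obtain ⟨U, h1, h2, h3⟩ := spec hA.1
  set d := hA.1.eigenvalues with hd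
  have hdpos : ∀ i, 0 < d i := fun i => hA.eigenvalues_pos i
  refine ⟨diagonal (fun i => Real.sqrt (d i)) * Uᵀ, ?_, ?_⟩
  · rw [det_mul, det_diagonal]
    apply IsUnit.mul
    · rw [isUnit_iff_ne_zero]
      exact Finset.prod_ne_zero_iff.2 fun i _ => (Real.sqrt_pos.2 (hdpos i)).ne'
    · have : (Uᵀ * U).det = 1 := by rw [h1, det_one]
      rw [det_mul] at this
      exact IsUnit.of_mul_eq_one _ this
  · rw [transpose_mul, transpose_transpose, diagonal_transpose]
    calc A = U * diagonal d * Uᵀ := h3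
      _ = U * (diagonal (fun i => Real.sqrt (d i)) * diagonal (fun i => Real.sqrt (d i))) * Uᵀ := by
          rw [diagonal_mul_diagonal]
          congr 3
          funext i
          exact (Real.mul_self_sqrt (hdpos i).le).symm
      _ = _ := by simp only [Matrix.mul_assoc]

/-- simultaneous diagonalisation -/
theorem simdiag {A B : Matrix n n ℝ} (hA : A.PosDef) (hB : B.PosDef) :
    ∃ (C : Matrix n n ℝ) (d : n → ℝ), IsUnit C.det ∧ (∀ i, 0 < d i) ∧
      A = Cᵀ * C ∧ B = Cᵀ * diagonal d * C := by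
  obtain ⟨C, hC, hAC⟩ := factor hA
  have hCt : IsUnit Cᵀ.det := by rwa [det_transpose]
  set K : Matrix n n ℝ := (C⁻¹)ᵀ * B * C⁻¹ with hK
  have hCu : IsUnit C := (isUnit_iff_isUnit_det _).2 hC
  have hKp : K.PosDef := by
    have h1 := hB.conjTranspose_mul_mul_same (B := C⁻¹) (by
      intro x y hxy
      have h2 : C *ᵥ (C⁻¹ *ᵥ x) = C *ᵥ (C⁻¹ *ᵥ y) := by
        change C⁻¹ *ᵥ x = C⁻¹ *ᵥ y at hxy
        rw [hxy]
      rw [mulVec_mulVec, mulVec_mulVec, mul_nonsing_inv _ hC, one_mulVec, one_mulVec] at h2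
      exact h2)
    rwa [conjTranspose_eq_transpose_of_trivial] at h1
  obtain ⟨U, h1, h2, h3⟩ := spec hKp.1
  have hdU : IsUnit U.det := by
    have : (Uᵀ * U).det = 1 := by rw [h1, det_one]
    rw [det_mul] at this
    exact IsUnit.of_mul_eq_one _ (by rw [mul_comm]; exact this)
  refine ⟨Uᵀ * C, hKp.1.eigenvalues, ?_, fun i => hKp.eigenvalues_pos i, ?_, ?_⟩
  · rw [det_mul, det_transpose]
    exact hdU.mul hC
  · rw [transpose_mul, transpose_transpose]
    calc A = Cᵀ * C := hAC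
      _ = Cᵀ * (U * Uᵀ) * C := by rw [h2, Matrix.mul_one]
      _ = _ := by simp only [Matrix.mul_assoc]
  · rw [transpose_mul, transpose_transpose]
    have h4 : B = Cᵀ * K * C := by
      rw [hK]
      have e1 : Cᵀ * (C⁻¹)ᵀ = 1 := by
        rw [← transpose_mul, nonsing_inv_mul _ hC, transpose_one]
      calc B = (Cᵀ * (C⁻¹)ᵀ) * B * (C⁻¹ * C) := by
            rw [e1, nonsing_inv_mul _ hC, Matrix.one_mul, Matrix.mul_one]
        _ = _ := by simp only [Matrix.mul_assoc]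
    calc B = Cᵀ * K * C := h4
      _ = Cᵀ * (U * diagonal hKp.1.eigenvalues * Uᵀ) * C := by rw [← h3]
      _ = _ := by simp only [Matrix.mul_assoc]

omit [DecidableEq n] in
/-- arithmetic-geometric mean inequality with equality case -/
theorem amgm {b : ℕ} (hb : 0 < b) (hcard : Fintype.card n = b) {d : n → ℝ} (hd : ∀ i, 0 < d i) :
    (b : ℝ) * (∏ i, d i) ^ (1 / (b : ℝ)) ≤ ∑ i, d i ∧
      ((∑ i, d i) = (b : ℝ) * (∏ i, d i) ^ (1 / (b : ℝ)) →
        ∀ i, d i = (∏ i, d i) ^ (1 / (b : ℝ))) := by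
  have hb' : (0 : ℝ) < b := by exact_mod_cast hb
  have hP : 0 < ∏ i, d i := Finset.prod_pos fun i _ => hd i
  set g : ℝ := (∏ i, d i) ^ (1 / (b : ℝ)) with hg
  have hgpos : 0 < g := Real.rpow_pos_of_pos hP _
  have hlogg : (b : ℝ) * Real.log g = ∑ i, Real.log (d i) := by
    rw [hg, Real.log_rpow hP, Real.log_prod (fun i _ => (hd i).ne')]
    field_simp
  have hsum0 : ∑ i, Real.log (d i / g) = 0 := by
    have h1 : ∀ i, Real.log (d i / g) = Real.log (d i) - Real.log g := fun i =>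
      Real.log_div (hd i).ne' hgpos.ne'
    simp_rw [h1]
    rw [Finset.sum_sub_distrib, ← hlogg, Finset.sum_const, Finset.card_univ, hcard, nsmul_eq_mul]
    ring
  have hsum1 : ∑ i, (d i / g - 1 - Real.log (d i / g)) = (∑ i, d i) / g - b := by
    rw [Finset.sum_sub_distrib, hsum0, Finset.sum_sub_distrib, Finset.sum_const, Finset.card_univ,
      hcard, nsmul_eq_mul, Finset.sum_div]
    ring
  have hnn : ∀ i, 0 ≤ d i / g - 1 - Real.log (d i / g) := fun i => by
    have := Real.log_le_sub_one_of_pos (div_pos (hd i) hgpos)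
    linarith
  constructor
  · have h2 : 0 ≤ (∑ i, d i) / g - b := by
      rw [← hsum1]
      exact Finset.sum_nonneg fun i _ => hnn i
    have h3 : (b : ℝ) ≤ (∑ i, d i) / g := by linarith
    rwa [le_div_iff₀ hgpos] at h3
  · intro heq i
    have h2 : ∑ i, (d i / g - 1 - Real.log (d i / g)) = 0 := by
      rw [hsum1, heq]
      field_simp
      ring
    have h3 := (Finset.sum_eq_zero_iff_of_nonneg (fun i _ => hnn i)).1 h2 i (Finset.mem_univ i)
    by_contra hne
    have h4 : d i / g ≠ 1 := by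
      intro h5
      apply hne
      rw [div_eq_one_iff_eq hgpos.ne'] at h5
      exact h5
    have h5 := Real.log_lt_sub_one_of_pos (div_pos (hd i) hgpos) h4
    linarith

theorem det_spec {H : Matrix n n ℝ} (hH : H.IsHermitian) : H.det = ∏ i, hH.eigenvalues i := by
  rw [hH.det_eq_prod_eigenvalues]
  simp

theorem trace_spec {H : Matrix n n ℝ} (hH : H.IsHermitian) : H.trace = ∑ i, hH.eigenvalues i := by
  rw [hH.trace_eq_sum_eigenvalues]
  simp

/-- `b (det K)^(1/b) ≤ tr K` with equality case -/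
theorem amgm_trace {b : ℕ} (hb : 0 < b) (hcard : Fintype.card n = b) {K : Matrix n n ℝ}
    (hK : K.PosDef) :
    (b : ℝ) * K.det ^ (1 / (b : ℝ)) ≤ K.trace ∧
      (K.trace = (b : ℝ) * K.det ^ (1 / (b : ℝ)) → K = (K.det ^ (1 / (b : ℝ))) • 1) := by
  have h1 := amgm hb hcard (fun i => hK.eigenvalues_pos i)
  rw [← det_spec hK.1, ← trace_spec hK.1] at h1
  refine ⟨h1.1, fun heq => ?_⟩
  have h2 := h1.2 heq
  obtain ⟨U, hU1, hU2, hU3⟩ := spec hK.1
  set g := K.det ^ (1 / (b : ℝ)) with hg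
  have h3 : hK.1.eigenvalues = fun _ => g := funext h2
  have h4 : (diagonal hK.1.eigenvalues : Matrix n n ℝ) = g • 1 := by
    rw [h3, smul_one_eq_diagonal]
  rw [h4] at hU3
  rw [hU3, Matrix.mul_smul, Matrix.smul_mul, Matrix.mul_one, hU2]

/-- scalar Minkowski: `1 + (∏ d)^(1/b) ≤ (∏ (1+d))^(1/b)` -/
theorem mink_scalar {b : ℕ} (hb : 0 < b) (hcard : Fintype.card n = b) {d : n → ℝ}
    (hd : ∀ i, 0 < d i) :
    1 + (∏ i, d i) ^ (1 / (b : ℝ)) ≤ (∏ i, (1 + d i)) ^ (1 / (b : ℝ)) := by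
  have hb' : (0 : ℝ) < b := by exact_mod_cast hb
  have hd1 : ∀ i, 0 < 1 + d i := fun i => by linarith [hd i]
  have hP : 0 < ∏ i, (1 + d i) := Finset.prod_pos fun i _ => hd1 i
  have hD : 0 < ∏ i, d i := Finset.prod_pos fun i _ => hd i
  have h1 := (amgm hb hcard (d := fun i => 1 / (1 + d i)) (fun i => by
    have := hd1 i; positivity)).1
  have h2 := (amgm hb hcard (d := fun i => d i / (1 + d i)) (fun i => by
    have := hd1 i; have := hd i; positivity)).1
  have h3 : (∑ i, 1 / (1 + d i)) + ∑ i, d i / (1 + d i) = b := by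
    rw [← Finset.sum_add_distrib]
    have : ∀ i, 1 / (1 + d i) + d i / (1 + d i) = 1 := fun i => by
      have := (hd1 i).ne'
      field_simp
    simp_rw [this]
    rw [Finset.sum_const, Finset.card_univ, hcard, nsmul_eq_mul, mul_one]
  have e1 : (∏ i, 1 / (1 + d i)) = 1 / ∏ i, (1 + d i) := by
    rw [Finset.prod_div_distrib, Finset.prod_const_one]
  have e2 : (∏ i, d i / (1 + d i)) = (∏ i, d i) / ∏ i, (1 + d i) := by
    rw [Finset.prod_div_distrib]
  rw [e1, Real.div_rpow zero_le_one hP.le, Real.one_rpow] at h1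
  rw [e2, Real.div_rpow hD.le hP.le] at h2
  set p := (∏ i, (1 + d i)) ^ (1 / (b : ℝ)) with hp
  set q := (∏ i, d i) ^ (1 / (b : ℝ)) with hq
  have hppos : 0 < p := Real.rpow_pos_of_pos hP _
  have h4 : (b : ℝ) * (1 / p + q / p) ≤ b * 1 := by
    rw [mul_add, mul_one]
    linarith
  have h5 : 1 / p + q / p ≤ 1 := le_of_mul_le_mul_left h4 hb'
  rw [← add_div, div_le_one hppos] at h5
  exact h5

/-- **Minkowski's determinant inequality** -/
theorem minkowski_det {b : ℕ} (hb : 0 < b) (hcard : Fintype.card n = b) {A B : Matrix n n ℝ}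
    (hA : A.PosDef) (hB : B.PosDef) :
    A.det ^ (1 / (b : ℝ)) + B.det ^ (1 / (b : ℝ)) ≤ (A + B).det ^ (1 / (b : ℝ)) := by
  obtain ⟨C, d, hC, hd, hAC, hBC⟩ := simdiag hA hB
  have hc : 0 < C.det * C.det := mul_self_pos.2 (isUnit_iff_ne_zero.1 hC)
  have hdA : A.det = C.det * C.det := by rw [hAC, det_mul, det_transpose]
  have hdB : B.det = C.det * C.det * ∏ i, d i := by
    rw [hBC, det_mul, det_mul, det_transpose, det_diagonal]; ring
  have hAB : A + B = Cᵀ * diagonal (fun i => 1 + d i) * C := by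
    have : (diagonal (fun i => 1 + d i) : Matrix n n ℝ) = 1 + diagonal d := by
      rw [← diagonal_one, diagonal_add]
    rw [this, Matrix.mul_add, Matrix.add_mul, Matrix.mul_one, ← hAC, ← hBC]
  have hdAB : (A + B).det = C.det * C.det * ∏ i, (1 + d i) := by
    rw [hAB, det_mul, det_mul, det_transpose, det_diagonal]; ring
  have hP : 0 < ∏ i, (1 + d i) := Finset.prod_pos fun i _ => by linarith [hd i]
  have hD : 0 < ∏ i, d i := Finset.prod_pos fun i _ => hd i
  rw [hdA, hdB, hdAB, Real.mul_rpow hc.le hD.le, Real.mul_rpow hc.le hP.le]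
  have h1 := mink_scalar hb hcard hd
  have h2 : 0 < (C.det * C.det) ^ (1 / (b : ℝ)) := Real.rpow_pos_of_pos hc _
  calc _ = (C.det * C.det) ^ (1 / (b : ℝ)) * (1 + (∏ i, d i) ^ (1 / (b : ℝ))) := by ring
    _ ≤ _ := mul_le_mul_of_nonneg_left h1 h2.le

theorem inv_sub_inv_pos {X T : Matrix n n ℝ} (hX : X.PosDef) (hT : T.PosDef) :
    (T⁻¹ - (X + T)⁻¹).PosDef ∧ (T⁻¹ - (X + T)⁻¹).det = X.det / (T.det * (X + T).det) := by
  have hXT : (X + T).PosDef := hX.add hT
  have uX : IsUnit X.det := isUnit_iff_ne_zero.2 hX.det_pos.ne'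
  have uT : IsUnit T.det := isUnit_iff_ne_zero.2 hT.det_pos.ne'
  have uXT : IsUnit (X + T).det := isUnit_iff_ne_zero.2 hXT.det_pos.ne'
  have e1 : T⁻¹ - (X + T)⁻¹ = T⁻¹ * X * (X + T)⁻¹ := by
    calc T⁻¹ - (X + T)⁻¹ = T⁻¹ * ((X + T) - T) * (X + T)⁻¹ := by
          rw [Matrix.mul_sub, Matrix.sub_mul, nonsing_inv_mul _ uT, Matrix.one_mul,
            Matrix.mul_assoc, mul_nonsing_inv _ uXT, Matrix.mul_one]
      _ = _ := by rw [add_sub_cancel_right]
  have hS : (T + T * X⁻¹ * T).PosDef := by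
    apply hT.add_posSemidef
    have h1 := hX.inv.posSemidef.conjTranspose_mul_mul_same T
    rwa [hT.1.eq] at h1
  have e2 : (T⁻¹ * X * (X + T)⁻¹) * (T + T * X⁻¹ * T) = 1 := by
    have h1 : T + T * X⁻¹ * T = (X + T) * X⁻¹ * T := by
      rw [Matrix.add_mul, mul_nonsing_inv _ uX, Matrix.add_mul, Matrix.one_mul]
    rw [h1]
    calc T⁻¹ * X * (X + T)⁻¹ * ((X + T) * X⁻¹ * T) =
        T⁻¹ * X * ((X + T)⁻¹ * (X + T)) * X⁻¹ * T := by simp only [Matrix.mul_assoc]
      _ = T⁻¹ * (X * X⁻¹) * T := by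
          rw [nonsing_inv_mul _ uXT, Matrix.mul_one]; simp only [Matrix.mul_assoc]
      _ = 1 := by rw [mul_nonsing_inv _ uX, Matrix.mul_one, nonsing_inv_mul _ uT]
  constructor
  · rw [e1]
    have h1 : T⁻¹ * X * (X + T)⁻¹ = (T + T * X⁻¹ * T)⁻¹ := (inv_eq_left_inv e2).symm
    rw [h1]
    exact hS.inv
  · rw [e1, det_mul, det_mul, det_nonsing_inv, det_nonsing_inv]
    have := hT.det_pos.ne'
    have := hXT.det_pos.ne'
    simp only [Ring.inverse_eq_inv']
    field_simp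

/-- **matrix Ptolemy inequality** -/
theorem ptolemy {b : ℕ} (hb : 0 < b) (hcard : Fintype.card n = b) {X Y Z : Matrix n n ℝ}
    (hX : X.PosDef) (hY : Y.PosDef) (hZ : Z.PosDef) :
    (X.det * Z.det) ^ (1 / (b : ℝ)) + (Y.det * (X + Y + Z).det) ^ (1 / (b : ℝ)) ≤
      ((X + Y).det * (Y + Z).det) ^ (1 / (b : ℝ)) := by
  have hYZ := hY.add hZ
  have hXY := hX.add hY
  have hXYZ := hXY.add hZ
  obtain ⟨p1, d1⟩ := inv_sub_inv_pos hX hYZ
  obtain ⟨p2, d2⟩ := inv_sub_inv_pos hY hZ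
  obtain ⟨p3, d3⟩ := inv_sub_inv_pos hXY hZ
  have h1 := minkowski_det hb hcard p1 p2
  have e1 : X + (Y + Z) = X + Y + Z := by rw [add_assoc]
  rw [e1] at h1 d1
  have e2 : (Y + Z)⁻¹ - (X + Y + Z)⁻¹ + (Z⁻¹ - (Y + Z)⁻¹) = Z⁻¹ - (X + Y + Z)⁻¹ := by abel
  rw [e2, d1, d2, d3] at h1
  have q1 := hX.det_pos
  have q2 := hY.det_pos
  have q3 := hZ.det_pos
  have q4 := hYZ.det_pos
  have q5 := hXY.det_pos
  have q6 := hXYZ.det_pos
  set t : ℝ := Z.det * (Y + Z).det * (X + Y + Z).det with ht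
  have htpos : 0 < t := by positivity
  have h2 := mul_le_mul_of_nonneg_left h1 (Real.rpow_nonneg htpos.le (1 / (b : ℝ)))
  rw [mul_add, ← Real.mul_rpow htpos.le (by positivity), ← Real.mul_rpow htpos.le (by positivity),
    ← Real.mul_rpow htpos.le (by positivity)] at h2
  have f1 : t * (X.det / ((Y + Z).det * (X + Y + Z).det)) = X.det * Z.det := by
    rw [ht]; field_simp
  have f2 : t * (Y.det / (Z.det * (Y + Z).det)) = Y.det * (X + Y + Z).det := by
    rw [ht]; field_simp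
  have f3 : t * ((X + Y).det / (Z.det * (X + Y + Z).det)) = (X + Y).det * (Y + Z).det := by
    rw [ht]; field_simp
  rwa [f1, f2, f3] at h2

/-- `det (1 + K) ≥ 1` for positive semidefinite `K` -/
theorem one_le_det_one_add {K : Matrix n n ℝ} (hK : K.PosSemidef) : 1 ≤ (1 + K).det := by
  obtain ⟨U, h1, h2, h3⟩ := spec hK.1
  have h4 : 1 + K = U * (1 + diagonal hK.1.eigenvalues) * Uᵀ := by
    rw [Matrix.mul_add, Matrix.add_mul, Matrix.mul_one, h2, ← h3]
  have h5 : (1 + diagonal hK.1.eigenvalues : Matrix n n ℝ) =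
      diagonal (fun i => 1 + hK.1.eigenvalues i) := by
    rw [← diagonal_one, diagonal_add]
  have h6 : (1 + K).det = ∏ i, (1 + hK.1.eigenvalues i) := by
    rw [h4, h5, det_mul, det_mul, det_diagonal]
    have h7 : U.det * Uᵀ.det = 1 := by rw [← det_mul, h2, det_one]
    linear_combination (∏ i, (1 + hK.1.eigenvalues i)) * h7
  rw [h6]
  calc (1 : ℝ) = ∏ _i : n, (1 : ℝ) := by simp
    _ ≤ ∏ i, (1 + hK.1.eigenvalues i) :=
      Finset.prod_le_prod (fun _ _ => zero_le_one) (fun i _ => by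
        have := hK.eigenvalues_nonneg i
        linarith)

/-- monotonicity of the determinant -/
theorem det_mono {X Y : Matrix n n ℝ} (hX : X.PosSemidef) (hXY : (Y - X).PosSemidef) :
    X.det ≤ Y.det := by
  have hYp : Y.PosSemidef := by
    have := hX.add hXY
    rwa [add_sub_cancel] at this
  by_cases h0 : X.det = 0
  · rw [h0]; exact hYp.det_nonneg
  have hXd : X.PosDef := by
    rw [hX.1.posDef_iff_eigenvalues_pos]
    intro i
    refine lt_of_le_of_ne (hX.eigenvalues_nonneg i) ?_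
    intro h1
    apply h0
    rw [det_spec hX.1]
    exact Finset.prod_eq_zero (Finset.mem_univ i) h1.symm
  obtain ⟨C, hC, hXC⟩ := factor hXd
  have hCt : IsUnit Cᵀ.det := by rwa [det_transpose]
  set K : Matrix n n ℝ := (C⁻¹)ᵀ * (Y - X) * C⁻¹ with hK
  have hKp : K.PosSemidef := by
    have h1 := hXY.conjTranspose_mul_mul_same C⁻¹
    rwa [conjTranspose_eq_transpose_of_trivial] at h1
  have hY : Y = Cᵀ * (1 + K) * C := by
    have e1 : Cᵀ * (C⁻¹)ᵀ = 1 := by
      rw [← transpose_mul, nonsing_inv_mul _ hC, transpose_one]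
    have h1 : Cᵀ * K * C = Y - X := by
      rw [hK]
      calc _ = (Cᵀ * (C⁻¹)ᵀ) * (Y - X) * (C⁻¹ * C) := by simp only [Matrix.mul_assoc]
        _ = Y - X := by rw [e1, nonsing_inv_mul _ hC, Matrix.one_mul, Matrix.mul_one]
    rw [Matrix.mul_add, Matrix.add_mul, h1, Matrix.mul_one, ← hXC]
    abel
  have h2 : Y.det = X.det * (1 + K).det := by
    rw [hY, hXC, det_mul, det_mul, det_mul]; ring
  rw [h2]
  have h3 := one_le_det_one_add hKp
  have h4 := hX.det_nonneg
  nlinarith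

end Basic

section Gram

variable {m a : Type*} [Fintype m] [DecidableEq m] [Fintype a] [DecidableEq a]

omit [DecidableEq m] [DecidableEq a] in
theorem gram_posSemidef (P : Matrix m a ℝ) : (Pᵀ * P).PosSemidef := by
  have := posSemidef_conjTranspose_mul_self P
  rwa [conjTranspose_eq_transpose_of_trivial] at this

/-- if the Gram matrix is invertible then it is positive definite -/
theorem gram_posDef {P : Matrix m a ℝ} (h : (Pᵀ * P).det ≠ 0) : (Pᵀ * P).PosDef := by
  have hX := gram_posSemidef P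
  rw [hX.1.posDef_iff_eigenvalues_pos]
  intro i
  refine lt_of_le_of_ne (hX.eigenvalues_nonneg i) ?_
  intro h1
  apply h
  rw [det_spec hX.1]
  exact Finset.prod_eq_zero (Finset.mem_univ i) h1.symm

theorem gram_det_nonneg (P : Matrix m a ℝ) : 0 ≤ (Pᵀ * P).det := (gram_posSemidef P).det_nonneg

/-- the projection on the range of `P` is at most `1` -/
theorem proj_le_one {P : Matrix m a ℝ} (h : (Pᵀ * P).det ≠ 0) :
    (1 - P * (Pᵀ * P)⁻¹ * Pᵀ : Matrix m m ℝ).PosSemidef := by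
  have hu : IsUnit (Pᵀ * P).det := isUnit_iff_ne_zero.2 h
  set G := Pᵀ * P with hG
  have hGs : Gᵀ = G := by rw [hG, transpose_mul, transpose_transpose]
  set E : Matrix m m ℝ := 1 - P * G⁻¹ * Pᵀ with hE
  have hEs : Eᵀ = E := by
    rw [hE, transpose_sub, transpose_one, transpose_mul, transpose_mul, transpose_transpose,
      transpose_nonsing_inv, hGs, Matrix.mul_assoc]
  have hPP : (P * G⁻¹ * Pᵀ) * (P * G⁻¹ * Pᵀ) = P * G⁻¹ * Pᵀ := by
    calc _ = P * (G⁻¹ * (Pᵀ * P)) * G⁻¹ * Pᵀ := by simp only [Matrix.mul_assoc]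
      _ = _ := by rw [← hG, nonsing_inv_mul _ hu, Matrix.mul_one]
  have hEE : E * E = E := by
    rw [hE, Matrix.mul_sub, Matrix.mul_one, Matrix.sub_mul, Matrix.one_mul, hPP, sub_self, sub_zero]
  have h1 := gram_posSemidef E
  rwa [hEs, hEE] at h1

/-- Cauchy-Schwarz for Gram determinants -/
theorem gram_cs (P Q : Matrix m a ℝ) :
    (Pᵀ * Q).det ^ 2 ≤ (Pᵀ * P).det * (Qᵀ * Q).det := by
  by_cases h : (Pᵀ * P).det = 0
  · -- `P v = 0` for some `v ≠ 0`
    obtain ⟨v, hv, hv0⟩ := exists_mulVec_eq_zero_iff.2 h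
    have h1 : P *ᵥ v = 0 := by
      have h2 : (P *ᵥ v) ⬝ᵥ (P *ᵥ v) = 0 := by
        rw [dotProduct_mulVec, ← mulVec_transpose, mulVec_mulVec, hv0, zero_dotProduct]
      exact dotProduct_self_eq_zero.1 h2
    have h3 : (Qᵀ * P).det = 0 := by
      apply exists_mulVec_eq_zero_iff.1
      exact ⟨v, hv, by rw [← mulVec_mulVec, h1, mulVec_zero]⟩
    have h4 : (Pᵀ * Q).det = 0 := by
      rw [← det_transpose, transpose_mul, transpose_transpose, h3]
    rw [h4, h]
    simp
  · have hu : IsUnit (Pᵀ * P).det := isUnit_iff_ne_zero.2 h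
    have hpd := gram_posDef h
    set G := Pᵀ * P with hG
    have h1 := (proj_le_one h).conjTranspose_mul_mul_same Q
    rw [conjTranspose_eq_transpose_of_trivial, Matrix.mul_sub, Matrix.sub_mul, Matrix.mul_one] at h1
    have h2 : Qᵀ * (P * (Pᵀ * P)⁻¹ * Pᵀ) * Q = (Pᵀ * Q)ᵀ * G⁻¹ * (Pᵀ * Q) := by
      rw [transpose_mul, transpose_transpose, ← hG]
      simp only [Matrix.mul_assoc]
    rw [h2] at h1
    have h3 : ((Pᵀ * Q)ᵀ * G⁻¹ * (Pᵀ * Q)).PosSemidef := by
      have := hpd.inv.posSemidef.conjTranspose_mul_mul_same (Pᵀ * Q)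
      rwa [conjTranspose_eq_transpose_of_trivial] at this
    have h4 := det_mono h3 h1
    have h5 : ((Pᵀ * Q)ᵀ * G⁻¹ * (Pᵀ * Q)).det = (Pᵀ * Q).det ^ 2 / G.det := by
      rw [det_mul, det_mul, det_transpose, det_nonsing_inv]
      simp only [Ring.inverse_eq_inv']
      field_simp
    rw [h5, div_le_iff₀ hpd.det_pos] at h4
    linarith

theorem posDef_of_det_ne_zero {X : Matrix a a ℝ} (hX : X.PosSemidef) (h : X.det ≠ 0) :
    X.PosDef := by
  rw [hX.1.posDef_iff_eigenvalues_pos]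
  intro i
  refine lt_of_le_of_ne (hX.eigenvalues_nonneg i) ?_
  intro h1
  apply h
  rw [det_spec hX.1]
  exact Finset.prod_eq_zero (Finset.mem_univ i) h1.symm

/-- orthogonal complement of a matrix with orthonormal columns -/
theorem exists_compl {b : ℕ} (hcard : Fintype.card a + b = Fintype.card m) {N : Matrix m a ℝ}
    (hN : Nᵀ * N = 1) :
    ∃ N' : Matrix m (Fin b) ℝ, N'ᵀ * N' = 1 ∧ Nᵀ * N' = 0 ∧ N * Nᵀ + N' * N'ᵀ = 1 := by
  classical
  let v : a ⊕ Fin b → EuclideanSpace ℝ m :=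
    Sum.elim (fun i => WithLp.toLp 2 (fun x => N x i)) (fun _ => 0)
  let s : Set (a ⊕ Fin b) := Set.range Sum.inl
  have hv : Orthonormal ℝ (s.domRestrict v) := by
    rw [orthonormal_iff_ite]
    rintro ⟨_, ⟨i, rfl⟩⟩ ⟨_, ⟨j, rfl⟩⟩
    have h1 := congrFun (congrFun hN i) j
    rw [Matrix.mul_apply, Matrix.one_apply] at h1
    simp only [transpose_apply] at h1
    have h2 : inner ℝ (s.domRestrict v ⟨Sum.inl i, ⟨i, rfl⟩⟩) (s.domRestrict v ⟨Sum.inl j, ⟨j, rfl⟩⟩)
        = ∑ x, N x i * N x j := by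
      simp only [Set.domRestrict_apply, v, Sum.elim_inl]
      rw [EuclideanSpace.inner_eq_star_dotProduct]
      simp only [dotProduct, star_trivial]
      exact Finset.sum_congr rfl fun x _ => mul_comm _ _
    rw [h2, h1]
    by_cases hij : i = j
    · subst hij; simp
    · rw [if_neg hij, if_neg]
      intro h3
      exact hij (Sum.inl.inj (congrArg Subtype.val h3))
  have hc : Module.finrank ℝ (EuclideanSpace ℝ m) = Fintype.card (a ⊕ Fin b) := by
    rw [finrank_euclideanSpace, Fintype.card_sum, Fintype.card_fin, hcard]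
  obtain ⟨bas, hbas⟩ := hv.exists_orthonormalBasis_extension_of_card_eq hc
  set N' : Matrix m (Fin b) ℝ := Matrix.of fun x i => bas (Sum.inr i) x with hN'
  have hin : ∀ i x, bas (Sum.inl i) x = N x i := by
    intro i x
    rw [hbas (Sum.inl i) ⟨i, rfl⟩]
    rfl
  have hinner : ∀ i j : a ⊕ Fin b, ∑ x, bas i x * bas j x = if i = j then 1 else 0 := by
    intro i j
    have h1 := (orthonormal_iff_ite.1 bas.orthonormal) i j
    rw [EuclideanSpace.inner_eq_star_dotProduct] at h1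
    simp only [dotProduct, star_trivial] at h1
    rw [← h1]
    exact Finset.sum_congr rfl fun x _ => mul_comm _ _
  have e1 : N'ᵀ * N' = 1 := by
    ext i j
    rw [Matrix.mul_apply, Matrix.one_apply]
    have := hinner (Sum.inr i) (Sum.inr j)
    simpa [hN'] using this
  have e2 : Nᵀ * N' = 0 := by
    ext i j
    rw [Matrix.mul_apply]
    have := hinner (Sum.inl i) (Sum.inr j)
    simpa [hN', hin] using this
  have e3 : N'ᵀ * N = 0 := by
    have := congrArg transpose e2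
    rwa [transpose_mul, transpose_transpose, transpose_zero] at this
  refine ⟨N', e1, e2, ?_⟩
  have h4 : fromRows Nᵀ N'ᵀ * fromCols N N' = 1 := by
    rw [fromRows_mul_fromCols, hN, e1, e2, e3, fromBlocks_one]
  have h5 : fromCols N N' * fromRows Nᵀ N'ᵀ = 1 :=
    (mul_eq_one_comm_of_card_eq (a ⊕ Fin b) m ℝ
      (by rw [Fintype.card_sum, Fintype.card_fin, hcard])).1 h4
  rwa [fromCols_mul_fromRows] at h5

theorem quad_conj {c : Type*} [Fintype c] (B : Matrix a c ℝ) (E : Matrix a a ℝ) (w : c → ℝ) :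
    (B *ᵥ w) ⬝ᵥ (E *ᵥ (B *ᵥ w)) = w ⬝ᵥ ((Bᵀ * E * B) *ᵥ w) := by
  rw [← mulVec_mulVec, ← mulVec_mulVec, dotProduct_mulVec w Bᵀ, vecMul_transpose]

/-- the trace inequality with equality case, orthonormal version -/
theorem trace_ge_aux {p b : ℕ} (hp : 0 < p) (hb : 0 < b) (hcarda : Fintype.card a = p)
    (hcardm : p + b = Fintype.card m) {H : Matrix m m ℝ} (hH : H.PosDef) {N : Matrix m a ℝ}
    (hN : Nᵀ * N = 1) :
    (p : ℝ) * (Nᵀ * H * N).det ^ (1 / (p : ℝ)) +
        (b : ℝ) * (H.det / (Nᵀ * H * N).det) ^ (1 / (b : ℝ)) ≤ H.trace ∧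
      0 < (Nᵀ * H * N).det ∧
      (H.trace = (p : ℝ) * (Nᵀ * H * N).det ^ (1 / (p : ℝ)) +
        (b : ℝ) * (H.det / (Nᵀ * H * N).det) ^ (1 / (b : ℝ)) →
        H = ((Nᵀ * H * N).det ^ (1 / (p : ℝ))) • (N * Nᵀ) +
          ((H.det / (Nᵀ * H * N).det) ^ (1 / (b : ℝ))) • (1 - N * Nᵀ)) := by
  obtain ⟨N', f1, f2, f3⟩ := exists_compl (b := b) (by rw [hcarda, hcardm]) hN
  have f4 : N'ᵀ * N = 0 := by
    have := congrArg transpose f2
    rwa [transpose_mul, transpose_transpose, transpose_zero] at this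
  set W : Matrix m (a ⊕ Fin b) ℝ := fromCols N N' with hW
  have hWt : Wᵀ = fromRows Nᵀ N'ᵀ := transpose_fromCols _ _
  have hW1 : Wᵀ * W = 1 := by
    rw [hWt, hW, fromRows_mul_fromCols, hN, f1, f2, f4, fromBlocks_one]
  have hW2 : W * Wᵀ = 1 := by
    rw [hWt, hW, fromCols_mul_fromRows, f3]
  have hHs : Hᵀ = H := hH.1.eq
  set A := Nᵀ * H * N with hA
  set B := Nᵀ * H * N' with hB
  set D := N'ᵀ * H * N' with hD
  have hBt : Bᵀ = N'ᵀ * H * N := by
    rw [hB, transpose_mul, transpose_mul, transpose_transpose, hHs, Matrix.mul_assoc]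
  have hblk : Wᵀ * H * W = fromBlocks A B Bᵀ D := by
    rw [hWt, hW, fromRows_mul, fromRows_mul_fromCols, ← hA, ← hB, ← hBt, ← hD]
  have hdet : (fromBlocks A B Bᵀ D).det = H.det := by
    rw [← hblk]
    exact det_conj_of_mul_eq_one hW1 hW2
  have htr : H.trace = A.trace + D.trace := by
    have h1 : (Wᵀ * H * W).trace = H.trace := by
      rw [Matrix.mul_assoc, trace_mul_comm, Matrix.mul_assoc, hW2, Matrix.mul_one]
    rw [← h1, hblk, Matrix.trace, Matrix.trace, Matrix.trace, Fintype.sum_sum_type]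
    simp
  have hAp : A.PosDef := by
    have h1 := hH.conjTranspose_mul_mul_same (B := N) (by
      intro x y hxy
      change N *ᵥ x = N *ᵥ y at hxy
      have h2 : Nᵀ *ᵥ (N *ᵥ x) = Nᵀ *ᵥ (N *ᵥ y) := by rw [hxy]
      rwa [mulVec_mulVec, mulVec_mulVec, hN, one_mulVec, one_mulVec] at h2)
    rwa [conjTranspose_eq_transpose_of_trivial] at h1
  have uA : IsUnit A.det := isUnit_iff_ne_zero.2 hAp.det_pos.ne'
  let _ : Invertible A := A.invertibleOfIsUnitDet uA
  have hblkps : (fromBlocks A B Bᵀ D).PosSemidef := by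
    rw [← hblk]
    have := hH.posSemidef.conjTranspose_mul_mul_same W
    rwa [conjTranspose_eq_transpose_of_trivial] at this
  set S := D - Bᵀ * A⁻¹ * B with hS
  have hSps : S.PosSemidef := by
    have h1 := (PosDef.fromBlocks₁₁ B D hAp).1 (by
      rwa [conjTranspose_eq_transpose_of_trivial])
    rwa [conjTranspose_eq_transpose_of_trivial] at h1
  have hdetS : H.det = A.det * S.det := by
    rw [← hdet, det_fromBlocks₁₁, invOf_eq_nonsing_inv]
  have hSd : S.det ≠ 0 := by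
    intro h0
    rw [h0, mul_zero] at hdetS
    exact hH.det_pos.ne' hdetS
  have hSp : S.PosDef := posDef_of_det_ne_zero hSps hSd
  have hSdet : H.det / A.det = S.det := by
    rw [hdetS]
    have := hAp.det_pos.ne'
    field_simp
  have hT : (Bᵀ * A⁻¹ * B).PosSemidef := by
    have := hAp.inv.posSemidef.conjTranspose_mul_mul_same B
    rwa [conjTranspose_eq_transpose_of_trivial] at this
  have hDS : D = S + Bᵀ * A⁻¹ * B := by rw [hS]; abel
  have htrD : D.trace = S.trace + (Bᵀ * A⁻¹ * B).trace := by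
    conv_lhs => rw [hDS]
    rw [trace_add]
  have g1 := amgm_trace hp hcarda hAp
  have g2 := amgm_trace hb (Fintype.card_fin b) hSp
  have g3 := hT.trace_nonneg
  rw [hSdet]
  refine ⟨by rw [htr, htrD]; linarith [g1.1, g2.1], hAp.det_pos, fun heq => ?_⟩
  rw [htr, htrD] at heq
  have k1 : A.trace = (p : ℝ) * A.det ^ (1 / (p : ℝ)) := le_antisymm (by linarith [g2.1]) g1.1
  have k2 : S.trace = (b : ℝ) * S.det ^ (1 / (b : ℝ)) := le_antisymm (by linarith [g1.1]) g2.1
  have k3 : (Bᵀ * A⁻¹ * B).trace = 0 := le_antisymm (by linarith [g1.1, g2.1]) g3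
  have k4 : Bᵀ * A⁻¹ * B = 0 := hT.trace_eq_zero_iff.1 k3
  have k5 : B = 0 := by
    ext i j
    have h1 : (B *ᵥ Pi.single j 1) = 0 := by
      by_contra hne
      have h2 := hAp.inv.dotProduct_mulVec_pos hne
      rw [star_trivial, quad_conj, k4, zero_mulVec, dotProduct_zero] at h2
      exact lt_irrefl _ h2
    have h2 := congrFun h1 i
    simpa using h2
  have k6 := g1.2 k1
  have k7 := g2.2 k2
  have k8 : D = (S.det ^ (1 / (b : ℝ))) • 1 := by rw [hDS, k4, add_zero, ← k7]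
  have h9 : H = W * (Wᵀ * H * W) * Wᵀ := by
    calc H = (W * Wᵀ) * H * (W * Wᵀ) := by rw [hW2, Matrix.one_mul, Matrix.mul_one]
      _ = _ := by simp only [Matrix.mul_assoc]
  have h10 : (1 : Matrix m m ℝ) - N * Nᵀ = N' * N'ᵀ := by rw [← f3]; abel
  rw [h10]
  conv_lhs => rw [h9, hblk, k5, transpose_zero, k6, k8, hWt, hW, fromCols_mul_fromBlocks,
    fromCols_mul_fromRows]
  simp only [Matrix.mul_zero, add_zero, zero_add, Matrix.mul_smul, Matrix.smul_mul, Matrix.mul_one]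

/-- `tr H ≥ p h^(1/p) + b (det H / h)^(1/b)`, `h = det(Mᵀ H M) / det(Mᵀ M)`, with equality case -/
theorem trace_ge {p b : ℕ} (hp : 0 < p) (hb : 0 < b) (hcarda : Fintype.card a = p)
    (hcardm : p + b = Fintype.card m) {H : Matrix m m ℝ} (hH : H.PosDef) (M : Matrix m a ℝ)
    (hM : (Mᵀ * M).det ≠ 0) {h : ℝ} (hh : h = (Mᵀ * H * M).det / (Mᵀ * M).det) :
    0 < h ∧
    (p : ℝ) * h ^ (1 / (p : ℝ)) + (b : ℝ) * (H.det / h) ^ (1 / (b : ℝ)) ≤ H.trace ∧
      (H.trace = (p : ℝ) * h ^ (1 / (p : ℝ)) + (b : ℝ) * (H.det / h) ^ (1 / (b : ℝ)) →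
        ∀ α β : ℝ, 0 < α → 0 < β → h = α ^ p → H.det / h = β ^ b →
          H = α • (M * (Mᵀ * M)⁻¹ * Mᵀ) + β • (1 - M * (Mᵀ * M)⁻¹ * Mᵀ)) := by
  obtain ⟨C, hC, hGC⟩ := factor (gram_posDef hM)
  set N : Matrix m a ℝ := M * C⁻¹ with hN
  have hCt : IsUnit Cᵀ.det := by rwa [det_transpose]
  have e1 : (C⁻¹)ᵀ * Cᵀ = 1 := by rw [← transpose_mul, mul_nonsing_inv _ hC, transpose_one]
  have hNN : Nᵀ * N = 1 := by
    rw [hN, transpose_mul]
    calc (C⁻¹)ᵀ * Mᵀ * (M * C⁻¹) = (C⁻¹)ᵀ * (Mᵀ * M) * C⁻¹ := by simp only [Matrix.mul_assoc]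
      _ = ((C⁻¹)ᵀ * Cᵀ) * (C * C⁻¹) := by rw [hGC]; simp only [Matrix.mul_assoc]
      _ = 1 := by rw [e1, mul_nonsing_inv _ hC, Matrix.one_mul]
  have hNNt : N * Nᵀ = M * (Mᵀ * M)⁻¹ * Mᵀ := by
    rw [hN, transpose_mul, hGC, Matrix.mul_inv_rev, transpose_nonsing_inv]
    simp only [Matrix.mul_assoc]
  have hdet : (Nᵀ * H * N).det = h := by
    have h1 : Nᵀ * H * N = (C⁻¹)ᵀ * (Mᵀ * H * M) * C⁻¹ := by
      rw [hN, transpose_mul]; simp only [Matrix.mul_assoc]
    rw [h1, det_mul, det_mul, det_transpose, det_nonsing_inv, hh, hGC, det_mul, det_transpose]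
    have := isUnit_iff_ne_zero.1 hC
    simp only [Ring.inverse_eq_inv']
    field_simp
  obtain ⟨h1, h2, h3⟩ := trace_ge_aux hp hb hcarda hcardm hH hNN
  rw [hdet] at h1 h2 h3
  refine ⟨h2, h1, fun heq α β hα hβ hαh hβh => ?_⟩
  have h4 := h3 heq
  have k1 : h ^ (1 / (p : ℝ)) = α := by
    rw [hαh, ← Real.rpow_natCast, ← Real.rpow_mul hα.le]
    rw [mul_one_div_cancel (by exact_mod_cast hp.ne'), Real.rpow_one]
  have k2 : (H.det / h) ^ (1 / (b : ℝ)) = β := by
    rw [hβh, ← Real.rpow_natCast, ← Real.rpow_mul hβ.le]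
    rw [mul_one_div_cancel (by exact_mod_cast hb.ne'), Real.rpow_one]
  rw [k1, k2, hNNt] at h4
  exact h4

/-- conversely the trace of `α Π + β (1 - Π)` -/
theorem trace_proj {M : Matrix m a ℝ} (hM : (Mᵀ * M).det ≠ 0) :
    (M * (Mᵀ * M)⁻¹ * Mᵀ).trace = Fintype.card a := by
  rw [Matrix.mul_assoc, trace_mul_comm, Matrix.mul_assoc,
    nonsing_inv_mul _ (isUnit_iff_ne_zero.2 hM), trace_one]

end Gram

section Fin

/-- N1a in the form of #9753 -/
theorem minkowski_det_fin {b : ℕ} (hb : 0 < b) {A B : Matrix (Fin b) (Fin b) ℝ}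
    (hA : A.PosDef) (hB : B.PosDef) :
    A.det ^ (1 / (b : ℝ)) + B.det ^ (1 / (b : ℝ)) ≤ (A + B).det ^ (1 / (b : ℝ)) :=
  minkowski_det hb (Fintype.card_fin b) hA hB

/-- N1b in the form of #9753 -/
theorem ptolemy_fin {b : ℕ} (hb : 0 < b) {X Y Z : Matrix (Fin b) (Fin b) ℝ}
    (hX : X.PosDef) (hY : Y.PosDef) (hZ : Z.PosDef) :
    (X.det * Z.det) ^ (1 / (b : ℝ)) + (Y.det * (X + Y + Z).det) ^ (1 / (b : ℝ)) ≤
      ((X + Y).det * (Y + Z).det) ^ (1 / (b : ℝ)) :=
  ptolemy hb (Fintype.card_fin b) hX hY hZ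

end Fin

end Crest.Agent.R208.N
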