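import Crest.Agent.R208.N2

/-!
R208, block G6 (helper589), part N3: derivative of determinants and inverses (entrywise calculus).
(The Jacobi formula is adapted from R236/MPMat.lean.)
-/

set_option autoImplicit false

open Real Matrix

namespace Crest.Agent.R208.N

variable {ι : Type*} [Fintype ι] [DecidableEq ι]

section jacobi

attribute [local instance] Matrix.normedAddCommGroup Matrix.normedSpace

theorem hasDerivAt_matrix {A : ℝ → Matrix ι ι ℝ} {A' : Matrix ι ι ℝ}
    {t : ℝ} (h : HD A A' t) : HasDerivAt A A' t :=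
  hasDerivAt_pi.2 fun i => hasDerivAt_pi.2 fun j => h i j

omit [DecidableEq ι] in
theorem hasFDerivAt_entry (i j : ι) (A : Matrix ι ι ℝ) :
    ∃ L : Matrix ι ι ℝ →L[ℝ] ℝ, HasFDerivAt (fun B : Matrix ι ι ℝ => B i j)
      L A := by
  have h1 : HasFDerivAt (fun B : Matrix ι ι ℝ => (B i : ι → ℝ))
      (ContinuousLinearMap.proj (R := ℝ) (φ := fun _ : ι => ι → ℝ) i) A :=
    (ContinuousLinearMap.proj (R := ℝ) (φ := fun _ : ι => ι → ℝ) i).hasFDerivAt
  have h2 : HasFDerivAt (fun r : ι → ℝ => r j)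
      (ContinuousLinearMap.proj (R := ℝ) (φ := fun _ : ι => ℝ) j) (A i) :=
    (ContinuousLinearMap.proj (R := ℝ) (φ := fun _ : ι => ℝ) j).hasFDerivAt
  exact ⟨_, (h2.comp A h1 : HasFDerivAt ((fun r : ι → ℝ => r j) ∘
    (fun B : Matrix ι ι ℝ => (B i : ι → ℝ))) _ A)⟩

theorem differentiableAt_det (A : Matrix ι ι ℝ) :
    DifferentiableAt ℝ (fun B : Matrix ι ι ℝ => B.det) A := by
  simp only [Matrix.det_apply]
  refine DifferentiableAt.fun_sum fun σ _ => ?_
  refine DifferentiableAt.fun_const_smul ?_ _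
  choose L hL using fun (i : ι) => hasFDerivAt_entry (σ i) i A
  exact (HasFDerivAt.finsetProd (u := Finset.univ)
    (g := fun i (B : Matrix ι ι ℝ) => B (σ i) i)
    (x := A) (fun i _ => hL i)).differentiableAt

theorem hasDerivAt_det_one_add (B : Matrix ι ι ℝ) :
    HasDerivAt (fun t : ℝ => (1 + t • B).det) B.trace 0 := by
  have h : ∀ t : ℝ, (1 + t • B).det = 1 + B.trace * t
      + (((1 : Matrix ι ι (Polynomial ℝ)) + (Polynomial.X : Polynomial ℝ) •
        B.map Polynomial.C).det.divX.divX.eval t) * t ^ 2 := by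
    intro t; exact Matrix.det_one_add_smul _ _
  simp only [h]
  have h0 : HasDerivAt (fun t : ℝ => t) 1 0 := hasDerivAt_id 0
  have h1 := (((1 : Matrix ι ι (Polynomial ℝ)) + (Polynomial.X : Polynomial ℝ) •
        B.map Polynomial.C).det.divX.divX).hasDerivAt (0 : ℝ)
  have h2 := ((h0.const_mul B.trace).const_add 1).add (h1.mul (h0.pow 2))
  refine h2.congr_deriv ?_
  simp

theorem differentiableAt_det_comp {A : ℝ → Matrix ι ι ℝ} {A' : Matrix ι ι ℝ} {x : ℝ}
    (hA : HD A A' x) : DifferentiableAt ℝ (fun t => (A t).det) x :=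
  ((differentiableAt_det (A x)).hasFDerivAt.comp_hasDerivAt x
    (hasDerivAt_matrix hA)).differentiableAt

theorem hasDerivAt_det {A : ℝ → Matrix ι ι ℝ} {A' : Matrix ι ι ℝ} {x : ℝ}
    (hA : HD A A' x) (hd : IsUnit (A x).det) :
    HasDerivAt (fun t => (A t).det) ((A x).det * ((A x)⁻¹ * A').trace) x := by
  have hA' := hasDerivAt_matrix hA
  have h1 := (differentiableAt_det (A x)).hasFDerivAt
  have h2 := h1.comp_hasDerivAt x hA'
  refine h2.congr_deriv ?_
  -- compute the directional derivative along a line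
  have h3 : HasDerivAt (fun t : ℝ => A x + t • A') A' 0 := by
    have := ((hasDerivAt_id (0 : ℝ)).smul_const A').const_add (A x)
    rw [one_smul] at this
    exact this
  have h4 : HasFDerivAt (fun B : Matrix ι ι ℝ => B.det)
      (fderiv ℝ (fun B : Matrix ι ι ℝ => B.det) (A x)) (A x + (0 : ℝ) • A') := by
    simpa using h1
  have h5 := h4.comp_hasDerivAt (0 : ℝ) h3
  have h6 : ((fun B : Matrix ι ι ℝ => B.det) ∘ fun t : ℝ => A x + t • A')
      = fun t : ℝ => (A x).det * (1 + t • ((A x)⁻¹ * A')).det := by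
    ext t
    simp only [Function.comp]
    rw [← Matrix.det_mul, Matrix.mul_add, Matrix.mul_one, Matrix.mul_smul, ← Matrix.mul_assoc,
      Matrix.mul_nonsing_inv _ hd, Matrix.one_mul]
  rw [h6] at h5
  have h7 := (hasDerivAt_det_one_add ((A x)⁻¹ * A')).const_mul (A x).det
  exact h5.unique h7

end jacobi

/-- derivative of `log |det|` -/
theorem hasDerivAt_log_det {A : ℝ → Matrix ι ι ℝ} {A' : Matrix ι ι ℝ} {x : ℝ}
    (hA : HD A A' x) (hd : (A x).det ≠ 0) :
    HasDerivAt (fun t => Real.log |(A t).det|) ((A x)⁻¹ * A').trace x := by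
  have h := (hasDerivAt_det hA (isUnit_iff_ne_zero.2 hd)).log hd
  simp only [Real.log_abs]
  refine h.congr_deriv ?_
  field_simp

/-- entries of the inverse are differentiable -/
theorem exists_HD_inv {A : ℝ → Matrix ι ι ℝ} {A' : Matrix ι ι ℝ} {x : ℝ}
    (hA : HD A A' x) (hd : (A x).det ≠ 0) : ∃ B', HD (fun t => (A t)⁻¹) B' x := by
  have h : ∀ i j, DifferentiableAt ℝ (fun t => (A t)⁻¹ i j) x := by
    intro i j
    have e : (fun t => (A t)⁻¹ i j) =
        fun t => ((A t).det)⁻¹ * ((A t).updateRow j (Pi.single i 1)).det := by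
      funext t
      rw [Matrix.inv_def, Matrix.smul_apply, Ring.inverse_eq_inv', Matrix.adjugate_apply,
        smul_eq_mul]
    rw [e]
    refine ((differentiableAt_det_comp hA).inv hd).mul ?_
    have h2 : HD (fun t => (A t).updateRow j (Pi.single i 1)) (A'.updateRow j 0) x := by
      intro k l
      by_cases hk : k = j
      · subst hk
        simpa using hasDerivAt_const x ((Pi.single i (1 : ℝ) : ι → ℝ) l)
      · simpa [Matrix.updateRow_ne hk] using hA k l
    exact differentiableAt_det_comp h2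
  refine ⟨fun i j => deriv (fun t => (A t)⁻¹ i j) x, fun i j => (h i j).hasDerivAt⟩

theorem eventually_det_ne {A : ℝ → Matrix ι ι ℝ} {x : ℝ} (hA : ContinuousAt A x)
    (hd : (A x).det ≠ 0) : ∀ᶠ t in nhds x, (A t).det ≠ 0 := by
  have h : ContinuousAt (fun t => (A t).det) x :=
    (Continuous.matrix_det continuous_id).continuousAt.comp hA
  exact h.eventually_ne hd

/-- derivative of the inverse -/
theorem HD.inv {A : ℝ → Matrix ι ι ℝ} {A' : Matrix ι ι ℝ} {x : ℝ}
    (hA : HD A A' x) (hd : (A x).det ≠ 0) :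
    HD (fun t => (A t)⁻¹) (-((A x)⁻¹ * A' * (A x)⁻¹)) x := by
  obtain ⟨B', hB⟩ := exists_HD_inv hA hd
  have hu : IsUnit (A x).det := isUnit_iff_ne_zero.2 hd
  have h1 := hA.mul hB
  have h2 : HD (fun t => A t * (A t)⁻¹) 0 x := by
    intro i j
    have e : (fun t => (A t * (A t)⁻¹) i j) =ᶠ[nhds x] fun _ => (1 : Matrix ι ι ℝ) i j := by
      filter_upwards [eventually_det_ne hA.continuousAt hd] with t ht
      rw [Matrix.mul_nonsing_inv _ (isUnit_iff_ne_zero.2 ht)]
    exact (hasDerivAt_const x _).congr_of_eventuallyEq e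
  have h3 : A' * (A x)⁻¹ + A x * B' = 0 := by
    ext i j; exact (h1 i j).unique (h2 i j)
  refine hB.congr_deriv ?_
  have h4 : (A x)⁻¹ * (A' * (A x)⁻¹ + A x * B') = 0 := by rw [h3, Matrix.mul_zero]
  rw [Matrix.mul_add, ← Matrix.mul_assoc (A x)⁻¹ (A x), Matrix.nonsing_inv_mul _ hu,
    Matrix.one_mul, ← Matrix.mul_assoc] at h4
  exact (neg_eq_of_add_eq_zero_right h4).symm

theorem HD.trace {A : ℝ → Matrix ι ι ℝ} {A' : Matrix ι ι ℝ} {x : ℝ}
    (hA : HD A A' x) : HasDerivAt (fun t => (A t).trace) A'.trace x := by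
  simp only [Matrix.trace, Matrix.diag]
  exact HasDerivAt.fun_sum fun i _ => hA i i

theorem continuousAt_inv' {X : Type*} [TopologicalSpace X] {A : X → Matrix ι ι ℝ} {x : X}
    (hA : ContinuousAt A x) (hd : (A x).det ≠ 0) : ContinuousAt (fun t => (A t)⁻¹) x := by
  have h : ContinuousAt (fun t => (A t).det) x :=
    (Continuous.matrix_det continuous_id).continuousAt.comp hA
  have h2 : ContinuousAt (fun t => (A t).adjugate) x :=
    (Continuous.matrix_adjugate continuous_id).continuousAt.comp hA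
  have e : (fun t => (A t)⁻¹) = fun t => ((A t).det)⁻¹ • (A t).adjugate := by
    funext t; rw [Matrix.inv_def, Ring.inverse_eq_inv']
  rw [e]
  exact (h.inv₀ hd).smul h2

end Crest.Agent.R208.N
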