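import Crest.Agent.R208.N3

/-!
R208, block G6 (helper589), part N4: reduction of the loop by the isotropic space `P` of Jacobi
fields vanishing at `0` and at `π`.
-/

set_option autoImplicit false

open Real Matrix Filter Topology

namespace Crest.Agent.R208.N

/-- orthonormal frame adapted to the kernel of `B` -/
structure Fr {m : ℕ} (B : Matrix (Fin m) (Fin m) ℝ) (α β : Type) [Fintype α] [DecidableEq α]
    [Fintype β] [DecidableEq β] where
  X : Matrix (Fin m) α ℝ
  Y : Matrix (Fin m) β ℝ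
  XX : Xᵀ * X = 1
  YY : Yᵀ * Y = 1
  XY : Xᵀ * Y = 0
  sum : X * Xᵀ + Y * Yᵀ = 1
  BX : B * X = 0
  inj : ∀ y : β → ℝ, B *ᵥ (Y *ᵥ y) = 0 → y = 0

theorem exists_fr {m : ℕ} (B : Matrix (Fin m) (Fin m) ℝ) :
    ∃ (α β : Type) (_ : Fintype α) (_ : DecidableEq α) (_ : Fintype β) (_ : DecidableEq β),
      Fintype.card α + B.rank = m ∧ Fintype.card β = B.rank ∧ Nonempty (Fr B α β) := by
  classical
  have hH : (Bᵀ * B).IsHermitian := by
    have := Matrix.isHermitian_conjTranspose_mul_self B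
    simpa [conjTranspose_eq_transpose_of_trivial] using this
  set l := hH.eigenvalues with hl
  let O : Matrix (Fin m) (Fin m) ℝ := Matrix.of fun i j => hH.eigenvectorBasis j i
  have hO : Oᵀ * O = 1 := by
    ext i j
    have h := orthonormal_iff_ite.1 hH.eigenvectorBasis.orthonormal i j
    rw [EuclideanSpace.inner_eq_star_dotProduct] at h
    simp only [Matrix.mul_apply, transpose_apply, Matrix.one_apply, O, Matrix.of_apply]
    simpa [dotProduct, mul_comm] using h
  have hO' : O * Oᵀ = 1 := mul_eq_one_comm.1 hO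
  have hsub : ∀ {γ δ : Type} (f : γ → Fin m) (g : δ → Fin m),
      (Oᵀ.submatrix f id) * (O.submatrix id g) = (Oᵀ * O).submatrix f g := by
    intro γ δ f g; ext i j; simp [Matrix.mul_apply]
  have hev : ∀ j, (Bᵀ * B) *ᵥ (fun i => O i j) = l j • (fun i => O i j) := by
    intro j
    exact hH.mulVec_eigenvectorBasis j
  let α := {j : Fin m // l j = 0}
  let β := {j : Fin m // l j ≠ 0}
  refine ⟨α, β, inferInstance, inferInstance, inferInstance, inferInstance, ?_, ?_, ⟨⟨
    O.submatrix id Subtype.val, O.submatrix id Subtype.val, ?_, ?_, ?_, ?_, ?_, ?_⟩⟩⟩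
  · have h1 := hH.rank_eq_card_non_zero_eigs
    rw [rank_transpose_mul_self] at h1
    rw [h1]
    have h2 := Fintype.card_subtype_compl (fun j : Fin m => l j = 0)
    have h3 := Fintype.card_subtype_le (fun j : Fin m => l j = 0)
    simp only [Fintype.card_fin] at h2 h3
    show Fintype.card {j : Fin m // l j = 0} + Fintype.card {j : Fin m // ¬ (l j = 0)} = m
    rw [h2]; omega
  · have h1 := hH.rank_eq_card_non_zero_eigs
    rw [rank_transpose_mul_self] at h1
    exact h1.symm
  · rw [transpose_submatrix, hsub, hO]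
    exact submatrix_one _ Subtype.val_injective
  · rw [transpose_submatrix, hsub, hO]
    exact submatrix_one _ Subtype.val_injective
  · rw [transpose_submatrix, hsub, hO]
    ext i j
    have : (i : Fin m) ≠ j := by
      intro h; exact j.2 (h ▸ i.2)
    simp [this]
  · rw [← hO']
    ext i j
    simp only [Matrix.add_apply, Matrix.mul_apply, submatrix_apply, transpose_apply, id]
    exact Fintype.sum_subtype_add_sum_subtype (fun k => l k = 0) (fun k => O i k * O j k)
  · have : ∀ j : α, B *ᵥ (fun i => O i j) = 0 := by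
      intro j
      have h := hev j
      rw [j.2, zero_smul] at h
      rw [← conjTranspose_eq_transpose_of_trivial] at h
      exact (conjTranspose_mul_self_mulVec_eq_zero _ _).1 h
    ext i j
    have h := congrFun (this j) i
    simpa [Matrix.mul_apply, mulVec, dotProduct] using h
  · intro y hy
    have h1 : (Bᵀ * B) *ᵥ ((O.submatrix id (Subtype.val : β → Fin m)) *ᵥ y) = 0 := by
      rw [← mulVec_mulVec, hy, mulVec_zero]
    have h2 : (Bᵀ * B) *ᵥ ((O.submatrix id (Subtype.val : β → Fin m)) *ᵥ y) =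
        (O.submatrix id (Subtype.val : β → Fin m)) *ᵥ (fun j => l j * y j) := by
      rw [mulVec_mulVec]
      ext i
      simp only [mulVec, dotProduct, Matrix.mul_apply, submatrix_apply, id]
      refine Finset.sum_congr rfl fun j _ => ?_
      have h := congrFun (hev j) i
      simp only [mulVec, dotProduct, Matrix.mul_apply, Pi.smul_apply, smul_eq_mul] at h
      rw [h]; ring
    rw [h1] at h2
    have h3 : (O.submatrix id (Subtype.val : β → Fin m))ᵀ *ᵥ
      ((O.submatrix id (Subtype.val : β → Fin m)) *ᵥ (fun j => l j * y j)) = 0 := by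
      rw [← h2, mulVec_zero]
    rw [mulVec_mulVec, transpose_submatrix, hsub, hO,
      submatrix_one _ Subtype.val_injective, one_mulVec] at h3
    ext j
    have h := congrFun h3 j
    simp only [Pi.zero_apply, mul_eq_zero] at h
    exact h.resolve_left j.2


section bord

variable {m : ℕ} {B : Matrix (Fin m) (Fin m) ℝ} {α β : Type} [Fintype α] [DecidableEq α]
    [Fintype β] [DecidableEq β] (F : Fr B α β)

lemma Fr.YX : F.Yᵀ * F.X = 0 := by
  have h := congrArg Matrix.transpose F.XY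
  simpa [transpose_mul] using h

include F in
lemma Fr.card : Fintype.card α + Fintype.card β = m := by
  have h := congrArg Matrix.trace F.sum
  rw [trace_add, trace_mul_comm, trace_mul_comm F.Y, F.XX, F.YY, trace_one, trace_one,
    trace_one, Fintype.card_fin] at h
  exact_mod_cast h

theorem abs_det_bord (N : Matrix (Fin m) (Fin m) ℝ) :
    |(fromBlocks N F.X F.Xᵀ 0).det| = |(F.Yᵀ * N * F.Y).det| := by
  set S : Matrix (Fin m ⊕ α) (Fin m ⊕ α) ℝ := fromBlocks (F.Y * F.Yᵀ) F.X F.Xᵀ 0 with hS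
  have hSS : S * S = 1 := by
    rw [hS, fromBlocks_multiply, ← fromBlocks_one]
    congr 1
    · rw [Matrix.mul_assoc, ← Matrix.mul_assoc F.Yᵀ, F.YY, Matrix.one_mul, add_comm]
      exact F.sum
    · rw [Matrix.mul_assoc, F.YX]; simp
    · rw [← Matrix.mul_assoc, F.XY]; simp
    · rw [F.XX]; simp
  have hdS : |S.det| = 1 := by
    have h := congrArg Matrix.det hSS
    rw [det_mul, det_one] at h
    have h2 : |S.det| * |S.det| = 1 := by rw [← abs_mul, h, abs_one]
    nlinarith [abs_nonneg S.det]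
  have hJS : fromBlocks N F.X F.Xᵀ 0 * S =
      fromBlocks (1 + ((N - 1) * F.Y) * F.Yᵀ) (N * F.X) 0 1 := by
    rw [hS, fromBlocks_multiply]
    congr 1
    · have h := F.sum
      rw [← eq_sub_iff_add_eq] at h
      rw [h, Matrix.sub_mul, Matrix.sub_mul, Matrix.one_mul, Matrix.mul_assoc]
      abel
    · simp
    · rw [← Matrix.mul_assoc, F.XY]; simp
    · rw [F.XX]; simp
  have h1 : |(fromBlocks N F.X F.Xᵀ 0).det| = |(fromBlocks N F.X F.Xᵀ 0 * S).det| := by
    rw [det_mul, abs_mul, hdS, mul_one]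
  rw [h1, hJS, det_fromBlocks_zero₂₁, det_one, mul_one, det_one_add_mul_comm]
  congr 2
  rw [← Matrix.mul_assoc, Matrix.mul_sub, Matrix.sub_mul, Matrix.mul_one, F.YY]
  abel

end bord


lemma dot_mul {ι κ μ : Type*} [Fintype ι] [Fintype κ] [Fintype μ] (A : Matrix μ ι ℝ)
    (B : Matrix μ κ ℝ) (x : ι → ℝ) (y : κ → ℝ) :
    (A *ᵥ x) ⬝ᵥ (B *ᵥ y) = x ⬝ᵥ ((Aᵀ * B) *ᵥ y) := by
  rw [dotProduct_comm, dotProduct_mulVec, ← mulVec_transpose, mulVec_mulVec, dotProduct_comm]

namespace JLoop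

variable {m a : ℕ} (G : JLoop m a) {α β : Type} [Fintype α] [DecidableEq α]
    [Fintype β] [DecidableEq β] (F : Fr (G.V π) α β)

lemma VX_of_sin {s : ℝ} (h : sin s = 0) : G.V s * F.X = 0 := by
  have key : ∀ (f : ℝ → Matrix (Fin m) α ℝ), (∀ s, f (s + 2 * π) = G.Q * f s) →
      ∀ (k : ℤ) (x : ℝ), f x = 0 → f (x + k * (2 * π)) = 0 := by
    intro f hf k
    induction k using Int.induction_on with
    | zero => intro x hx; simpa using hx
    | succ k ih =>
      intro x hx
      have h1 := ih x hx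
      have h2 := hf (x + k * (2 * π))
      have e : x + ((k : ℤ) + 1 : ℤ) * (2 * π) = x + ((k : ℤ) : ℝ) * (2 * π) + 2 * π := by
        push_cast; ring
      rw [e]
      have h1' : f (x + ((k : ℤ) : ℝ) * (2 * π)) = 0 := h1
      rw [hf, h1', Matrix.mul_zero]
    | pred k ih =>
      intro x hx
      have h1 := ih x hx
      have e : x + (-(k : ℤ) : ℤ) * (2 * π) = x + ((-(k : ℤ) - 1 : ℤ) : ℝ) * (2 * π) + 2 * π := by
        push_cast; ring
      rw [e, hf] at h1
      have h3 := congrArg (fun M => (G.Q)ᵀ * M) h1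
      simp only [← Matrix.mul_assoc, G.Q_orth, Matrix.one_mul, Matrix.mul_zero] at h3
      exact h3
  have hper : ∀ s, G.V (s + 2 * π) * F.X = G.Q * (G.V s * F.X) := by
    intro s; rw [G.V_per, Matrix.mul_assoc]
  obtain ⟨n, hn⟩ := sin_eq_zero_iff.1 h
  rcases Int.even_or_odd' n with ⟨k, hk | hk⟩
  · have h0 := key (fun s => G.V s * F.X) hper k 0 (by simp [G.V_zero])
    have e : s = 0 + k * (2 * π) := by rw [← hn, hk]; push_cast; ring
    rw [e]; exact h0
  · have h0 := key (fun s => G.V s * F.X) hper k π F.BX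
    have e : s = π + k * (2 * π) := by rw [← hn, hk]; push_cast; ring
    rw [e]; exact h0

/-- normalised frame of the fields of `P` at `s` -/
noncomputable def Mt (s : ℝ) : Matrix (Fin m) α ℝ :=
  if sin s = 0 then (cos s)⁻¹ • (G.Vd s * F.X) else (sin s)⁻¹ • (G.V s * F.X)

lemma Mt_spec (s : ℝ) : sin s • G.Mt F s = G.V s * F.X := by
  unfold Mt
  split_ifs with h
  · rw [h, zero_smul, G.VX_of_sin F h]
  · rw [smul_smul, mul_inv_cancel₀ h, one_smul]

lemma cos_ne_of_sin {s : ℝ} (h : sin s = 0) : cos s ≠ 0 := by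
  intro h2
  have := sin_sq_add_cos_sq s
  rw [h, h2] at this; norm_num at this

lemma Mt_per (s : ℝ) : G.Mt F (s + 2 * π) = G.Q * G.Mt F s := by
  unfold Mt
  rw [sin_add_two_pi, cos_add_two_pi, G.V_per, G.Vd_per]
  split_ifs <;> simp [Matrix.mul_assoc]

lemma Mt_zero : G.Mt F 0 = F.X := by
  unfold Mt; simp [G.Vd_zero]

lemma continuous_Mt : Continuous (G.Mt F) := by
  refine continuous_iff_continuousAt.2 fun s₀ => ?_
  have hVX : ∀ s, HD (fun s => G.V s * F.X) (G.Vd s * F.X) s := fun s => (G.hV s).mul_const _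
  by_cases h0 : sin s₀ = 0
  · refine continuousAt_pi.2 fun i => continuousAt_pi.2 fun j => ?_
    rw [continuousAt_iff_punctured_nhds]
    have h1 := hasDerivAt_iff_tendsto_slope.1 (hVX s₀ i j)
    have h2 := hasDerivAt_iff_tendsto_slope.1 (hasDerivAt_sin s₀)
    have hc := cos_ne_of_sin h0
    have h3 := h1.div h2 hc
    have hev : ∀ᶠ s in 𝓝[≠] s₀, sin s ≠ 0 := (hasDerivAt_sin s₀).eventually_ne hc
    have e : G.Mt F s₀ i j = (G.Vd s₀ * F.X) i j / cos s₀ := by
      unfold Mt; rw [if_pos h0, Matrix.smul_apply, smul_eq_mul]; ring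
    show Tendsto (fun s => G.Mt F s i j) (𝓝[≠] s₀) (𝓝 (G.Mt F s₀ i j))
    rw [e]
    refine h3.congr' ?_
    filter_upwards [hev, self_mem_nhdsWithin] with s hs hs'
    have hs'' : s - s₀ ≠ 0 := sub_ne_zero.2 hs'
    have hz := G.VX_of_sin F h0
    have e2 : G.Mt F s i j = (sin s)⁻¹ * (G.V s * F.X) i j := by
      unfold Mt; rw [if_neg hs, Matrix.smul_apply, smul_eq_mul]
    rw [Pi.div_apply, slope_def_field, slope_def_field, e2, h0, hz]
    simp only [Matrix.zero_apply, sub_zero]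
    field_simp
  · have h1 : ContinuousAt (fun s => (sin s)⁻¹ • (G.V s * F.X)) s₀ :=
      (continuous_sin.continuousAt.inv₀ h0).smul (hVX s₀).continuousAt
    refine h1.congr ?_
    filter_upwards [continuous_sin.continuousAt.eventually_ne h0] with s hs
    unfold Mt; rw [if_neg hs]

/-- desingularised `V` -/
noncomputable def Vt (s : ℝ) : Matrix (Fin m) (Fin m) ℝ :=
  G.V s * (F.Y * F.Yᵀ) + G.Mt F s * F.Xᵀ

lemma continuous_V : Continuous G.V := continuous_of_HD G.hV
lemma continuous_U : Continuous G.U := continuous_of_HD G.hU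
lemma continuous_Vd : Continuous G.Vd := continuous_of_HD G.hVd
lemma continuous_Ud : Continuous G.Ud := continuous_of_HD G.hUd

lemma continuous_Vt : Continuous (G.Vt F) :=
  (G.continuous_V.matrix_mul continuous_const).add
    ((G.continuous_Mt F).matrix_mul continuous_const)

lemma Vt_X (s : ℝ) : G.Vt F s * F.X = G.Mt F s := by
  rw [Vt, Matrix.add_mul, Matrix.mul_assoc, Matrix.mul_assoc, F.YX, Matrix.mul_assoc, F.XX]
  simp

lemma Vt_Y (s : ℝ) : G.Vt F s * F.Y = G.V s * F.Y := by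
  rw [Vt, Matrix.add_mul, Matrix.mul_assoc, Matrix.mul_assoc, F.YY, Matrix.mul_assoc, F.XY]
  simp

/-- `E s = Y Yᵀ + sin s X Xᵀ` -/
noncomputable def Es (s : ℝ) : Matrix (Fin m) (Fin m) ℝ := F.Y * F.Yᵀ + sin s • (F.X * F.Xᵀ)

lemma V_eq (s : ℝ) : G.V s = G.Vt F s * G.Es F s := by
  rw [Es, Matrix.mul_add, ← Matrix.mul_assoc, Vt_Y, Matrix.mul_smul, ← Matrix.mul_assoc, Vt_X,
    ← Matrix.smul_mul, Mt_spec, Matrix.mul_assoc, Matrix.mul_assoc, ← Matrix.mul_add, add_comm,
    F.sum, Matrix.mul_one]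

lemma Y_Es (s : ℝ) : F.Yᵀ * G.Es F s = F.Yᵀ := by
  rw [Es, Matrix.mul_add, ← Matrix.mul_assoc, F.YY, Matrix.mul_smul, ← Matrix.mul_assoc, F.YX]
  simp

lemma Es_Y (s : ℝ) : G.Es F s * F.Y = F.Y := by
  rw [Es, Matrix.add_mul, Matrix.mul_assoc, F.YY, Matrix.smul_mul, Matrix.mul_assoc, F.XY]
  simp

lemma Es_transpose (s : ℝ) : (G.Es F s)ᵀ = G.Es F s := by
  rw [Es, transpose_add, transpose_smul, transpose_mul, transpose_mul, transpose_transpose,
    transpose_transpose]

lemma det_Vt_ne {s : ℝ} (h0 : 0 < s) (h1 : s < 2 * π) : (G.Vt F s).det ≠ 0 := by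
  by_cases hs : s = π
  · subst hs
    intro hdet
    obtain ⟨z, hz, hz'⟩ := Matrix.exists_mulVec_eq_zero_iff.2 hdet
    apply hz
    -- decompose
    set x := F.X *ᵥ (F.Xᵀ *ᵥ z) with hx
    set p := F.Y *ᵥ (F.Yᵀ *ᵥ z) with hp
    have hzxp : z = x + p := by
      rw [hx, hp, mulVec_mulVec, mulVec_mulVec, ← add_mulVec, F.sum, one_mulVec]
    have hM : G.Mt F π = -(G.Vd π * F.X) := by
      unfold Mt; simp
    have h2 : G.V π *ᵥ p = G.Vd π *ᵥ x := by
      rw [Vt, add_mulVec, hM] at hz'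
      have e1 : (G.V π * (F.Y * F.Yᵀ)) *ᵥ z = G.V π *ᵥ p := by
        rw [hp, mulVec_mulVec, mulVec_mulVec, Matrix.mul_assoc]
      have e2 : (-(G.Vd π * F.X) * F.Xᵀ) *ᵥ z = - (G.Vd π *ᵥ x) := by
        rw [hx, mulVec_mulVec, mulVec_mulVec, Matrix.neg_mul, neg_mulVec]
      rw [e1, e2, ← sub_eq_add_neg, sub_eq_zero] at hz'
      exact hz'
    have hVx : G.V π *ᵥ x = 0 := by
      rw [hx, mulVec_mulVec, F.BX, zero_mulVec]
    have h3 : (G.Vd π *ᵥ x) ⬝ᵥ (G.Vd π *ᵥ x) = 0 := by
      have e : (G.Vd π *ᵥ x) ⬝ᵥ (G.Vd π *ᵥ x) = (G.Vd π *ᵥ x) ⬝ᵥ (G.V π *ᵥ p) := by rw [h2]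
      rw [e, dot_mul, ← G.w_VV, ← dot_mul, hVx, zero_dotProduct]
    have h4 : G.Vd π *ᵥ x = 0 := dotProduct_self_eq_zero.1 h3
    have hx0 : x = 0 := by
      have h5 := congrArg (fun M => M *ᵥ x) (G.w_UV π)
      simp only [sub_mulVec, one_mulVec, ← mulVec_mulVec, h4, hVx, mulVec_zero, sub_zero] at h5
      exact h5.symm
    have hp0 : p = 0 := by
      rw [h4] at h2
      have := F.inj _ (by rw [← hp]; exact h2)
      rw [hp, this, mulVec_zero]
    rw [hzxp, hx0, hp0, add_zero]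
  · have h2 := G.det_ne (s := 0) (t := s) (by linarith) (by linarith) (by simpa using hs)
    have h3 : G.V s = G.Vt F s * G.Es F s := G.V_eq F s
    intro h4
    apply h2
    show (G.V s).det = 0
    rw [h3, det_mul, h4, zero_mul]

end JLoop

end Crest.Agent.R208.N
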