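import Crest.Agent.R208.N4

/-!
R208, block G6 (helper589), part N4b: the chart `KP` of the reduced loop, its monotonicity, the
bordered determinant `DP` and its properties.
-/

set_option autoImplicit false

open Real Matrix Filter Topology Set

namespace Crest.Agent.R208.N
namespace JLoop

variable {m a : ℕ} (G : JLoop m a) {α β : Type} [Fintype α] [DecidableEq α]
    [Fintype β] [DecidableEq β] (F : Fr (G.V π) α β)

/-- the chart of the reduced loop at `Λ_0` -/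
noncomputable def KP (s : ℝ) : Matrix β β ℝ := -(F.Yᵀ * (G.Vt F s)⁻¹ * G.U s * F.Y)

lemma continuousAt_KP {s : ℝ} (h0 : 0 < s) (h1 : s < 2 * π) : ContinuousAt (G.KP F) s := by
  have h2 : ContinuousAt (fun s => (G.Vt F s)⁻¹) s :=
    continuousAt_inv' (G.continuous_Vt F).continuousAt (G.det_Vt_ne F h0 h1)
  unfold KP
  have h3 : ContinuousAt (fun s => F.Yᵀ * (G.Vt F s)⁻¹) s :=
    (Continuous.matrix_mul (continuous_const (y := F.Yᵀ)) continuous_id).continuousAt.comp h2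
  have h4 : ContinuousAt (fun s => F.Yᵀ * (G.Vt F s)⁻¹ * G.U s) s := by
    have : Continuous fun p : Matrix β (Fin m) ℝ × Matrix (Fin m) (Fin m) ℝ => p.1 * p.2 :=
      continuous_fst.matrix_mul continuous_snd
    exact this.continuousAt.comp (h3.prodMk G.continuous_U.continuousAt)
  have h5 : ContinuousAt (fun s => F.Yᵀ * (G.Vt F s)⁻¹ * G.U s * F.Y) s :=
    (Continuous.matrix_mul continuous_id (continuous_const (y := F.Y))).continuousAt.comp h4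
  exact h5.neg

lemma isUnit_Vt {s : ℝ} (h0 : 0 < s) (h1 : s < 2 * π) : IsUnit (G.Vt F s).det :=
  isUnit_iff_ne_zero.2 (G.det_Vt_ne F h0 h1)

/-- `A` in the desingularised frames -/
noncomputable def NN (s t : ℝ) : Matrix (Fin m) (Fin m) ℝ :=
  (G.Vt F t)⁻¹ * G.A s t * ((G.Vt F s)⁻¹)ᵀ

lemma A_eq_NN {s t : ℝ} (hs0 : 0 < s) (hs1 : s < 2 * π) (ht0 : 0 < t) (ht1 : t < 2 * π) :
    G.A s t = G.Vt F t * G.NN F s t * (G.Vt F s)ᵀ := by
  unfold NN
  have e : ((G.Vt F s)⁻¹)ᵀ * (G.Vt F s)ᵀ = 1 := by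
    rw [← transpose_mul, Matrix.mul_nonsing_inv _ (G.isUnit_Vt F hs0 hs1), transpose_one]
  rw [Matrix.mul_assoc, Matrix.mul_assoc, Matrix.mul_assoc, e, Matrix.mul_one,
    ← Matrix.mul_assoc, Matrix.mul_nonsing_inv _ (G.isUnit_Vt F ht0 ht1), Matrix.one_mul]

lemma Y_NN_Y {s t : ℝ} (hs0 : 0 < s) (hs1 : s < 2 * π) (ht0 : 0 < t) (ht1 : t < 2 * π) :
    F.Yᵀ * G.NN F s t * F.Y = G.KP F t - (G.KP F s)ᵀ := by
  have hs := G.isUnit_Vt F hs0 hs1
  have ht := G.isUnit_Vt F ht0 ht1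
  have e1 : (G.Vt F t)⁻¹ * G.V t = G.Es F t := by
    conv_lhs => rw [G.V_eq F t]
    rw [← Matrix.mul_assoc, Matrix.nonsing_inv_mul _ ht, Matrix.one_mul]
  have e2 : (G.V s)ᵀ * ((G.Vt F s)⁻¹)ᵀ = G.Es F s := by
    rw [← transpose_mul]
    conv_lhs => rw [G.V_eq F s]
    rw [← Matrix.mul_assoc, Matrix.nonsing_inv_mul _ hs, Matrix.one_mul, G.Es_transpose]
  have e3 : G.NN F s t = G.Es F t * ((G.U s)ᵀ * ((G.Vt F s)⁻¹)ᵀ)
      - (G.Vt F t)⁻¹ * G.U t * G.Es F s := by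
    unfold NN
    rw [G.A_eq, Matrix.mul_sub, Matrix.sub_mul, ← e1, ← e2]
    simp only [Matrix.mul_assoc]
  rw [e3, Matrix.mul_sub, Matrix.sub_mul, ← Matrix.mul_assoc F.Yᵀ (G.Es F t), G.Y_Es]
  have e4 : F.Yᵀ * ((G.Vt F t)⁻¹ * G.U t * G.Es F s) * F.Y = F.Yᵀ * ((G.Vt F t)⁻¹ * G.U t) * F.Y := by
    rw [Matrix.mul_assoc, Matrix.mul_assoc ((G.Vt F t)⁻¹ * G.U t), G.Es_Y, ← Matrix.mul_assoc]
  rw [e4]
  unfold KP
  simp only [transpose_neg, transpose_mul, transpose_transpose, Matrix.mul_assoc]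
  abel

lemma KP_symm {s : ℝ} (hs0 : 0 < s) (hs1 : s < 2 * π) : (G.KP F s)ᵀ = G.KP F s := by
  have h := G.Y_NN_Y F hs0 hs1 hs0 hs1
  have e : G.NN F s s = 0 := by unfold NN; rw [G.A_diag]; simp
  rw [e] at h
  simp only [Matrix.mul_zero, Matrix.zero_mul] at h
  exact (sub_eq_zero.1 h.symm).symm

lemma hKP {s : ℝ} (hs0 : 0 < s) (hs1 : s < 2 * π) (hs : s ≠ π) :
    HD (G.KP F) (F.Yᵀ * ((G.V s)⁻¹ * ((G.V s)⁻¹)ᵀ) * F.Y) s := by
  have hdet : (G.V s).det ≠ 0 := G.det_ne (s := 0) (by linarith) (by linarith) (by simpa using hs)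
  have hu : IsUnit (G.V s).det := isUnit_iff_ne_zero.2 hdet
  have h1 := ((G.hV s).inv hdet).mul (G.hU s)
  have h2 := ((h1.const_mul F.Yᵀ).mul_const F.Y).neg
  have hev : G.KP F =ᶠ[𝓝 s] fun s => -(F.Yᵀ * ((G.V s)⁻¹ * G.U s) * F.Y) := by
    have hev1 : ∀ᶠ t in 𝓝 s, 0 < t := eventually_gt_nhds hs0
    have hev2 : ∀ᶠ t in 𝓝 s, t < 2 * π := eventually_lt_nhds hs1
    filter_upwards [hev1, hev2, eventually_det_ne G.continuous_V.continuousAt hdet] with t a1 a2 a3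
    have hut : IsUnit (G.V t).det := isUnit_iff_ne_zero.2 a3
    have e1 : (G.Vt F t)⁻¹ * G.V t = G.Es F t := by
      conv_lhs => rw [G.V_eq F t]
      rw [← Matrix.mul_assoc, Matrix.nonsing_inv_mul _ (G.isUnit_Vt F a1 a2), Matrix.one_mul]
    have e2 : F.Yᵀ * (G.Vt F t)⁻¹ = F.Yᵀ * (G.V t)⁻¹ := by
      have e3 : F.Yᵀ * ((G.Vt F t)⁻¹ * G.V t) * (G.V t)⁻¹ = F.Yᵀ * (G.V t)⁻¹ := by
        rw [e1, G.Y_Es]
      rw [← e3, Matrix.mul_assoc, Matrix.mul_assoc, Matrix.mul_nonsing_inv _ hut, Matrix.mul_one]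
    show -(F.Yᵀ * (G.Vt F t)⁻¹ * G.U t * F.Y) = _
    rw [e2, Matrix.mul_assoc F.Yᵀ]
  have h3 : HD (G.KP F) (-(F.Yᵀ * (-((G.V s)⁻¹ * G.Vd s * (G.V s)⁻¹) * G.U s + (G.V s)⁻¹ * G.Ud s)
      * F.Y)) s := by
    intro i j
    refine (h2 i j).congr_of_eventuallyEq ?_
    filter_upwards [hev] with t ht
    rw [ht]
  refine h3.congr_deriv ?_
  have e1 : (G.V s)⁻¹ * G.U s = (G.U s)ᵀ * ((G.V s)⁻¹)ᵀ := by
    have h := (G.sympl s).2.1
    have e : (G.V s)⁻¹ * (G.U s * (G.V s)ᵀ) * ((G.V s)⁻¹)ᵀ =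
        (G.V s)⁻¹ * (G.V s * (G.U s)ᵀ) * ((G.V s)⁻¹)ᵀ := by rw [h]
    rw [← Matrix.mul_assoc, Matrix.mul_assoc ((G.V s)⁻¹ * G.U s), ← transpose_mul,
      Matrix.nonsing_inv_mul _ hu, transpose_one, Matrix.mul_one, ← Matrix.mul_assoc,
      Matrix.nonsing_inv_mul _ hu, Matrix.one_mul] at e
    exact e
  have e2 : G.Vd s * (G.U s)ᵀ * ((G.V s)⁻¹)ᵀ - G.Ud s = ((G.V s)⁻¹)ᵀ := by
    have h := (G.sympl s).2.2.2
    have e : (G.Vd s * (G.U s)ᵀ - G.Ud s * (G.V s)ᵀ) * ((G.V s)⁻¹)ᵀ = 1 * ((G.V s)⁻¹)ᵀ := by rw [h]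
    rw [Matrix.sub_mul, Matrix.mul_assoc (G.Ud s), ← transpose_mul,
      Matrix.nonsing_inv_mul _ hu, transpose_one, Matrix.mul_one, Matrix.one_mul] at e
    exact e
  rw [← Matrix.neg_mul, ← Matrix.mul_neg]
  congr 2
  rw [← e2, Matrix.mul_sub, Matrix.mul_assoc (G.Vd s), ← e1]
  simp only [neg_add_rev, Matrix.neg_mul, neg_neg, Matrix.mul_assoc]
  abel

/-- the quadratic form of `KP` -/
noncomputable def kq (y : β → ℝ) (s : ℝ) : ℝ := y ⬝ᵥ (G.KP F s *ᵥ y)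

lemma kq_eq (y : β → ℝ) (s : ℝ) : G.kq F y s = ∑ i, ∑ j, y i * (G.KP F s i j * y j) := by
  simp only [kq, dotProduct, mulVec, Finset.mul_sum]

lemma continuousAt_kq (y : β → ℝ) {s : ℝ} (h0 : 0 < s) (h1 : s < 2 * π) :
    ContinuousAt (G.kq F y) s := by
  have h := G.continuousAt_KP F h0 h1
  have e : G.kq F y = fun s => ∑ i, ∑ j, y i * (G.KP F s i j * y j) := by
    funext s; exact G.kq_eq F y s
  rw [e]
  refine tendsto_finsetSum _ fun i _ => tendsto_finsetSum _ fun j _ => ?_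
  have h2 : ContinuousAt (fun s => G.KP F s i j) s :=
    continuousAt_pi.1 (continuousAt_pi.1 h i) j
  exact (continuousAt_const.mul (h2.mul continuousAt_const) :)

lemma hasDerivAt_kq (y : β → ℝ) {s : ℝ} (hs0 : 0 < s) (hs1 : s < 2 * π) (hs : s ≠ π) :
    HasDerivAt (G.kq F y)
      ((((G.V s)⁻¹)ᵀ *ᵥ (F.Y *ᵥ y)) ⬝ᵥ (((G.V s)⁻¹)ᵀ *ᵥ (F.Y *ᵥ y))) s := by
  have h := G.hKP F hs0 hs1 hs
  have e : G.kq F y = fun s => ∑ i, ∑ j, y i * (G.KP F s i j * y j) := by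
    funext s; exact G.kq_eq F y s
  rw [e]
  have h2 : HasDerivAt (fun s => ∑ i, ∑ j, y i * (G.KP F s i j * y j))
      (∑ i, ∑ j, y i * ((F.Yᵀ * ((G.V s)⁻¹ * ((G.V s)⁻¹)ᵀ) * F.Y) i j * y j)) s :=
    HasDerivAt.fun_sum fun i _ => HasDerivAt.fun_sum fun j _ =>
      ((h i j).mul_const (y j)).const_mul (y i)
  refine h2.congr_deriv ?_
  have e3 : ∑ i, ∑ j, y i * ((F.Yᵀ * ((G.V s)⁻¹ * ((G.V s)⁻¹)ᵀ) * F.Y) i j * y j) =
      y ⬝ᵥ ((F.Yᵀ * ((G.V s)⁻¹ * ((G.V s)⁻¹)ᵀ) * F.Y) *ᵥ y) := by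
    simp only [dotProduct, mulVec, Finset.mul_sum]
  rw [e3, mulVec_mulVec, dot_mul]
  congr 2
  simp only [transpose_mul, transpose_transpose, Matrix.mul_assoc]

lemma kq_strictMono {y : β → ℝ} (hy : y ≠ 0) : StrictMonoOn (G.kq F y) (Ioo 0 (2 * π)) := by
  have hpos : ∀ s, 0 < s → s < 2 * π → s ≠ π → 0 < deriv (G.kq F y) s := by
    intro s h0 h1 h2
    rw [(G.hasDerivAt_kq F y h0 h1 h2).deriv]
    have hdet : (G.V s).det ≠ 0 :=
      G.det_ne (s := 0) (by linarith) (by linarith) (by simpa using h2)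
    have hu : IsUnit (G.V s).det := isUnit_iff_ne_zero.2 hdet
    have hne : ((G.V s)⁻¹)ᵀ *ᵥ (F.Y *ᵥ y) ≠ 0 := by
      intro h
      apply hy
      have h3 : (F.Yᵀ * (G.V s)ᵀ) *ᵥ (((G.V s)⁻¹)ᵀ *ᵥ (F.Y *ᵥ y)) = 0 := by rw [h, mulVec_zero]
      rw [mulVec_mulVec, mulVec_mulVec, Matrix.mul_assoc F.Yᵀ, ← transpose_mul,
        Matrix.nonsing_inv_mul _ hu, transpose_one, Matrix.mul_one, F.YY, one_mulVec] at h3
      exact h3
    have h4 := dotProduct_star_self_nonneg (((G.V s)⁻¹)ᵀ *ᵥ (F.Y *ᵥ y))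
    have h5 : (((G.V s)⁻¹)ᵀ *ᵥ (F.Y *ᵥ y)) ⬝ᵥ (((G.V s)⁻¹)ᵀ *ᵥ (F.Y *ᵥ y)) ≠ 0 :=
      fun h => hne (dotProduct_self_eq_zero.1 h)
    simp only [star_trivial] at h4
    exact lt_of_le_of_ne h4 (Ne.symm h5)
  have hpi := pi_pos
  have hA : StrictMonoOn (G.kq F y) (Ioc 0 π) := by
    refine strictMonoOn_of_deriv_pos (convex_Ioc _ _) (fun s hs => ?_) (fun s hs => ?_)
    · exact (G.continuousAt_kq F y hs.1 (by linarith [hs.2])).continuousWithinAt
    · rw [interior_Ioc] at hs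
      exact hpos s hs.1 (by linarith [hs.2]) (ne_of_lt hs.2)
  have hB : StrictMonoOn (G.kq F y) (Ico π (2 * π)) := by
    refine strictMonoOn_of_deriv_pos (convex_Ico _ _) (fun s hs => ?_) (fun s hs => ?_)
    · exact (G.continuousAt_kq F y (by linarith [hs.1]) hs.2).continuousWithinAt
    · rw [interior_Ico] at hs
      exact hpos s (by linarith [hs.1]) hs.2 (ne_of_gt hs.1)
  have h := hA.union hB (c := π) ⟨⟨hpi, le_rfl⟩, fun x hx => hx.2⟩
    ⟨⟨le_rfl, by linarith⟩, fun x hx => hx.1⟩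
  rwa [Ioc_union_Ico_eq_Ioo hpi (by linarith)] at h

lemma KP_posDef {s t : ℝ} (hs0 : 0 < s) (hst : s < t) (ht1 : t < 2 * π) :
    (G.KP F t - G.KP F s).PosDef := by
  refine Matrix.PosDef.of_dotProduct_mulVec_pos ?_ fun y hy => ?_
  · rw [Matrix.IsHermitian, conjTranspose_eq_transpose_of_trivial, transpose_sub,
      G.KP_symm F hs0 (by linarith), G.KP_symm F (by linarith) ht1]
  · have h := (G.kq_strictMono F hy) (⟨hs0, by linarith⟩ : s ∈ Ioo 0 (2 * π))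
      (⟨by linarith, ht1⟩ : t ∈ Ioo 0 (2 * π)) hst
    simp only [star_trivial, sub_mulVec, dotProduct_sub]
    have h2 : G.kq F y s < G.kq F y t := h
    unfold kq at h2
    linarith

/-! ### the bordered determinant -/

/-- bordered matrix -/
noncomputable def Bm (s t : ℝ) : Matrix (Fin m ⊕ α) (Fin m ⊕ α) ℝ :=
  fromBlocks (G.A s t) (G.Mt F t) (G.Mt F s)ᵀ 0

/-- Gram determinant of `Mt` -/
noncomputable def gr (s : ℝ) : ℝ := ((G.Mt F s)ᵀ * G.Mt F s).det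

lemma gr_per (s : ℝ) : G.gr F (s + 2 * π) = G.gr F s := by
  unfold gr
  rw [G.Mt_per, transpose_mul, Matrix.mul_assoc, ← Matrix.mul_assoc (G.Q)ᵀ, G.Q_orth,
    Matrix.one_mul]

lemma continuous_gr : Continuous (G.gr F) :=
  ((G.continuous_Mt F).matrix_transpose.matrix_mul (G.continuous_Mt F)).matrix_det

lemma gr_zero : G.gr F 0 = 1 := by
  unfold gr; rw [G.Mt_zero, F.XX, det_one]

lemma X_inj {z : α → ℝ} (h : F.X *ᵥ z = 0) : z = 0 := by
  have h2 : F.Xᵀ *ᵥ (F.X *ᵥ z) = 0 := by rw [h, mulVec_zero]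
  rwa [mulVec_mulVec, F.XX, one_mulVec] at h2

lemma gr_pos_aux {s : ℝ} (h0 : 0 < s) (h1 : s < 2 * π) : 0 < G.gr F s := by
  have hp : ((G.Mt F s)ᵀ * G.Mt F s).PosDef := by
    refine Matrix.PosDef.of_dotProduct_mulVec_pos ?_ fun y hy => ?_
    · rw [Matrix.IsHermitian, conjTranspose_eq_transpose_of_trivial, transpose_mul,
        transpose_transpose]
    · simp only [star_trivial]
      rw [← dot_mul]
      have hne : G.Mt F s *ᵥ y ≠ 0 := by
        intro h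
        rw [← G.Vt_X, ← mulVec_mulVec] at h
        have h2 : (G.Vt F s)⁻¹ *ᵥ (G.Vt F s *ᵥ (F.X *ᵥ y)) = 0 := by rw [h, mulVec_zero]
        rw [mulVec_mulVec, Matrix.nonsing_inv_mul _ (G.isUnit_Vt F h0 h1), one_mulVec] at h2
        exact hy (G.X_inj F h2)
      have h4 := dotProduct_star_self_nonneg (G.Mt F s *ᵥ y)
      simp only [star_trivial] at h4
      exact lt_of_le_of_ne h4 (fun h => hne (dotProduct_self_eq_zero.1 h.symm))
  exact hp.det_pos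

lemma gr_pos (s : ℝ) : 0 < G.gr F s := by
  have hper : Function.Periodic (G.gr F) (2 * π) := G.gr_per F
  obtain ⟨y, hy, hxy⟩ := hper.exists_mem_Ico₀ two_pi_pos s
  rw [hxy]
  rcases eq_or_lt_of_le hy.1 with h | h
  · rw [← h, gr_zero]; exact one_pos
  · exact G.gr_pos_aux F h hy.2

/-- the reduced `D` -/
noncomputable def DP (s t : ℝ) : ℝ := |(G.Bm F s t).det| / (√(G.gr F s) * √(G.gr F t))

lemma DP_nonneg (s t : ℝ) : 0 ≤ G.DP F s t := by unfold DP; positivity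

lemma det_Bm_symm (s t : ℝ) : |(G.Bm F s t).det| = |(G.Bm F t s).det| := by
  have h : G.Bm F t s =
      fromBlocks (-1) 0 0 1 * (G.Bm F s t)ᵀ * fromBlocks 1 0 0 (-1 : Matrix α α ℝ) := by
    unfold Bm
    rw [fromBlocks_transpose, fromBlocks_multiply, fromBlocks_multiply, G.A_transpose]
    simp
  rw [h, det_mul, det_mul, det_transpose, det_fromBlocks_zero₂₁, det_fromBlocks_zero₂₁]
  simp [abs_mul, det_neg]

lemma DP_symm (s t : ℝ) : G.DP F s t = G.DP F t s := by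
  unfold DP; rw [G.det_Bm_symm, mul_comm (√(G.gr F s))]

lemma DP_per (s t : ℝ) : G.DP F s (t + 2 * π) = G.DP F s t := by
  have h : G.Bm F s (t + 2 * π) = fromBlocks G.Q 0 0 1 * G.Bm F s t := by
    unfold Bm
    rw [fromBlocks_multiply, G.per, G.Mt_per]
    simp
  have h2 : |(G.Bm F s (t + 2 * π)).det| = |(G.Bm F s t).det| := by
    rw [h, det_mul, det_fromBlocks_zero₂₁, det_one, mul_one, abs_mul, G.abs_det_Q, one_mul]
  unfold DP; rw [h2, G.gr_per]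

lemma DP_per' (s t : ℝ) : G.DP F (s + 2 * π) t = G.DP F s t := by
  rw [G.DP_symm, G.DP_per, G.DP_symm]

/-- weight -/
noncomputable def wt (s : ℝ) : ℝ := |(G.Vt F s).det| / √(G.gr F s)

lemma wt_pos {s : ℝ} (h0 : 0 < s) (h1 : s < 2 * π) : 0 < G.wt F s :=
  div_pos (abs_pos.2 (G.det_Vt_ne F h0 h1)) (Real.sqrt_pos.2 (G.gr_pos F s))

lemma DP_eq {s t : ℝ} (hs0 : 0 < s) (hs1 : s < 2 * π) (ht0 : 0 < t) (ht1 : t < 2 * π) :
    G.DP F s t = |(G.KP F t - G.KP F s).det| * (G.wt F s * G.wt F t) := by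
  have h : G.Bm F s t = fromBlocks (G.Vt F t) 0 0 1 * fromBlocks (G.NN F s t) F.X F.Xᵀ 0 *
      fromBlocks (G.Vt F s)ᵀ 0 0 1 := by
    unfold Bm
    rw [fromBlocks_multiply, fromBlocks_multiply, G.A_eq_NN F hs0 hs1 ht0 ht1, ← G.Vt_X F t,
      ← G.Vt_X F s]
    simp
  have h2 : |(G.Bm F s t).det| = |(G.Vt F t).det| * |(G.KP F t - G.KP F s).det| *
      |(G.Vt F s).det| := by
    rw [h, det_mul, det_mul, abs_mul, abs_mul, abs_det_bord, det_fromBlocks_zero₂₁,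
      det_fromBlocks_zero₂₁, det_one, mul_one, mul_one, det_transpose,
      G.Y_NN_Y F hs0 hs1 ht0 ht1, G.KP_symm F hs0 hs1]
  unfold DP wt
  rw [h2]; field_simp

lemma DP_zero {t : ℝ} (_ht0 : 0 < t) (_ht1 : t < 2 * π) : G.DP F 0 t = G.wt F t := by
  have h : G.Bm F 0 t = fromBlocks (G.Vt F t) 0 0 1 * fromBlocks (G.Es F t) F.X F.Xᵀ 0 := by
    unfold Bm
    rw [fromBlocks_multiply, G.Mt_zero, ← G.Vt_X F t]
    have : G.A 0 t = G.Vt F t * G.Es F t := G.V_eq F t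
    rw [this]; simp
  have h2 : |(G.Bm F 0 t).det| = |(G.Vt F t).det| := by
    rw [h, det_mul, abs_mul, abs_det_bord, det_fromBlocks_zero₂₁, det_one, mul_one, G.Y_Es, F.YY,
      det_one, abs_one, mul_one]
  unfold DP wt
  rw [h2, G.gr_zero, Real.sqrt_one, one_mul]

lemma DP_pos_aux {s t : ℝ} (hs0 : 0 ≤ s) (hs1 : s < t) (ht1 : t < 2 * π) : 0 < G.DP F s t := by
  rcases eq_or_lt_of_le hs0 with h | h
  · rw [← h, G.DP_zero F (by linarith) ht1]; exact G.wt_pos F (by linarith) ht1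
  · rw [G.DP_eq F h (by linarith) (by linarith) ht1]
    have h1 := (G.KP_posDef F h hs1 ht1).det_pos
    have h2 := G.wt_pos F h (by linarith)
    have h3 := G.wt_pos F (by linarith) ht1
    positivity

lemma DP_shift (s t : ℝ) (k : ℤ) : G.DP F (s + k * (2 * π)) (t + k * (2 * π)) = G.DP F s t := by
  have h1 : ∀ s, Function.Periodic (fun t => G.DP F s t) (2 * π) := fun s t => G.DP_per F s t
  have h2 : ∀ t, Function.Periodic (fun s => G.DP F s t) (2 * π) := fun t s => G.DP_per' F s t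
  have h3 := (h1 (s + k * (2 * π))).int_mul k t
  have h4 := (h2 t).int_mul k s
  rw [h3, h4]

lemma exists_shift (s : ℝ) : ∃ k : ℤ, 0 ≤ s + k * (2 * π) ∧ s + k * (2 * π) < 2 * π := by
  refine ⟨-⌊s / (2 * π)⌋, ?_, ?_⟩
  · have h := Int.floor_le (s / (2 * π))
    rw [le_div_iff₀ two_pi_pos] at h
    push_cast; linarith
  · have h := Int.lt_floor_add_one (s / (2 * π))
    rw [div_lt_iff₀ two_pi_pos] at h
    push_cast; linarith

lemma DP_pos {s t : ℝ} (h0 : 0 < t - s) (h1 : t - s < 2 * π) : 0 < G.DP F s t := by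
  obtain ⟨k, hk0, hk1⟩ := exists_shift s
  rw [← G.DP_shift F s t k]
  set s' := s + k * (2 * π)
  set t' := t + k * (2 * π) with ht'
  have e : t' - s' = t - s := by simp only [s', t']; ring
  by_cases h : t' < 2 * π
  · exact G.DP_pos_aux F hk0 (by linarith) h
  · have h2 : G.DP F s' t' = G.DP F (t' - 2 * π) s' := by
      rw [G.DP_symm F (t' - 2 * π), ← G.DP_per F s' (t' - 2 * π)]
      congr 1; ring
    rw [h2]
    exact G.DP_pos_aux F (by linarith) (by linarith) hk1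

lemma continuous_A : Continuous fun p : ℝ × ℝ => G.A p.1 p.2 := by
  have h : (fun p : ℝ × ℝ => G.A p.1 p.2) =
      fun p => G.V p.2 * (G.U p.1)ᵀ - G.U p.2 * (G.V p.1)ᵀ := by
    funext p; rw [G.A_eq]
  rw [h]
  exact ((G.continuous_V.comp continuous_snd).matrix_mul
    (G.continuous_U.comp continuous_fst).matrix_transpose).sub
    ((G.continuous_U.comp continuous_snd).matrix_mul
    (G.continuous_V.comp continuous_fst).matrix_transpose)

lemma continuous_Bm : Continuous fun p : ℝ × ℝ => G.Bm F p.1 p.2 := by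
  unfold Bm
  exact Continuous.matrix_fromBlocks G.continuous_A ((G.continuous_Mt F).comp continuous_snd)
    ((G.continuous_Mt F).comp continuous_fst).matrix_transpose continuous_const

lemma continuous_DP : Continuous fun p : ℝ × ℝ => G.DP F p.1 p.2 := by
  unfold DP
  refine ((G.continuous_Bm F).matrix_det.abs).div
    ((Real.continuous_sqrt.comp ((G.continuous_gr F).comp continuous_fst)).mul
    (Real.continuous_sqrt.comp ((G.continuous_gr F).comp continuous_snd))) fun p => ?_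
  have h1 := Real.sqrt_pos.2 (G.gr_pos F p.1)
  have h2 := Real.sqrt_pos.2 (G.gr_pos F p.2)
  exact (mul_pos h1 h2).ne'

end JLoop
end Crest.Agent.R208.N
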