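import Mathlib

/-!
# R208 / G6 / N5 : the scalar Ptolemy–Kazdan lemma

`ptolemy_kazdan`: a symmetric, `2π`-periodic, continuous kernel `f` which is positive off the
diagonal, satisfies the (reversed) Ptolemy inequality and has slope at least one along the
diagonal satisfies
`log (2 sin (u/2)) ≤ (1/2π) ∫_0^{2π} log f(s, s+u) ds`.
-/

open Real Set MeasureTheory

namespace Crest.Agent.R208.N

/-- The mean of `log f (s, s+u)` over one period. -/
noncomputable def pkG (f : ℝ → ℝ → ℝ) (u : ℝ) : ℝ :=
  (1 / (2 * π)) * ∫ s in (0:ℝ)..(2 * π), Real.log (f s (s + u))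

/-- Weighted form of convexity of log-sum-exp. -/
lemma pk_logsumexp (a b : ℝ) (l m : ℝ) (hl : 0 < l) (hm : 0 < m) (hlm : l + m = 1) :
    l * (a - Real.log l) + m * (b - Real.log m) ≤ Real.log (Real.exp a + Real.exp b) := by
  have h := Real.geom_mean_le_arith_mean2_weighted (w₁ := l) (w₂ := m)
    (p₁ := Real.exp a / l) (p₂ := Real.exp b / m) hl.le hm.le (by positivity) (by positivity) hlm
  have e1 : l * (Real.exp a / l) + m * (Real.exp b / m) = Real.exp a + Real.exp b := by
    field_simp
  rw [e1] at h
  have hp : 0 < (Real.exp a / l) ^ l * (Real.exp b / m) ^ m := by positivity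
  have h2 := Real.log_le_log hp h
  rw [Real.log_mul (by positivity) (by positivity), Real.log_rpow (by positivity),
    Real.log_rpow (by positivity), Real.log_div (by positivity) (by positivity),
    Real.log_div (by positivity) (by positivity), Real.log_exp, Real.log_exp] at h2
  exact h2

section

variable {f : ℝ → ℝ → ℝ}
  (hpos : ∀ s t, 0 < t - s → t - s < 2 * π → 0 < f s t)
  (hsymm : ∀ s t, f s t = f t s)
  (hper : ∀ s t, f s (t + 2 * π) = f s t)
  (hcont : Continuous fun p : ℝ × ℝ => f p.1 p.2)

include hpos hcont in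
lemma pk_cont (u : ℝ) (h0 : 0 < u) (h1 : u < 2 * π) :
    Continuous fun s => Real.log (f s (s + u)) := by
  have h : Continuous fun s : ℝ => f s (s + u) :=
    hcont.comp (f := fun s : ℝ => (s, s + u)) (by fun_prop)
  exact h.log (fun s => (hpos s (s + u) (by linarith) (by linarith)).ne')

include hsymm hper in
lemma pk_periodic (u : ℝ) : Function.Periodic (fun s => Real.log (f s (s + u))) (2 * π) := by
  intro s
  have : f (s + 2 * π) (s + 2 * π + u) = f s (s + u) := by
    rw [show s + 2 * π + u = (s + u) + 2 * π by ring, hper, hsymm, hper, hsymm]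
  simp only [this]

include hsymm hper in
/-- shift invariance -/
lemma pk_shift (u c : ℝ) :
    ∫ s in (0:ℝ)..(2 * π), Real.log (f (s + c) (s + c + u)) =
      ∫ s in (0:ℝ)..(2 * π), Real.log (f s (s + u)) := by
  have h1 : ∫ s in (0:ℝ)..(2 * π), Real.log (f (s + c) (s + c + u)) =
      ∫ s in (0 + c)..(2 * π + c), Real.log (f s (s + u)) :=
    intervalIntegral.integral_comp_add_right (fun s => Real.log (f s (s + u))) c
  rw [h1]
  have h2 := (pk_periodic hsymm hper u).intervalIntegral_add_eq c 0
  simp only [zero_add] at h2 ⊢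
  rw [add_comm (2 * π) c, h2]

include hpos hcont in
omit hsymm hper in
lemma pk_contG (u a b : ℝ) (ha : 0 < a) (hb : b < 2 * π) (hab : a ≤ b) (_hu : u ∈ Icc a b) :
    ContinuousOn (pkG f) (Icc a b) := by
  -- clamp
  have hc : Continuous (Function.uncurry fun (u s : ℝ) =>
      Real.log (f s (s + max a (min b u)))) := by
    have h : Continuous fun p : ℝ × ℝ => f p.2 (p.2 + max a (min b p.1)) :=
      hcont.comp (f := fun p : ℝ × ℝ => (p.2, p.2 + max a (min b p.1))) (by fun_prop)
    refine h.log (fun p => ?_)
    have h1 : a ≤ max a (min b p.1) := le_max_left _ _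
    have h2 : max a (min b p.1) ≤ b := max_le hab (min_le_left _ _)
    exact (hpos _ _ (by linarith) (by linarith)).ne'
  have hI := intervalIntegral.continuous_parametric_intervalIntegral_of_continuous'
    (μ := volume) hc 0 (2 * π)
  have hG : Continuous fun u => (1 / (2 * π)) *
      ∫ s in (0:ℝ)..(2 * π), Real.log (f s (s + max a (min b u))) := continuous_const.mul hI
  refine hG.continuousOn.congr ?_
  intro x hx
  have : max a (min b x) = x := by
    rw [min_eq_right hx.2, max_eq_right hx.1]
  simp only [pkG, this]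

include hpos hcont in
lemma pk_lower (u c : ℝ) (h0 : 0 < u) (h1 : u < 2 * π) (h : ∀ s, c ≤ Real.log (f s (s + u))) :
    c ≤ pkG f u := by
  have hpi : (0:ℝ) < 2 * π := by positivity
  have : ∫ _s in (0:ℝ)..(2 * π), c ≤ ∫ s in (0:ℝ)..(2 * π), Real.log (f s (s + u)) := by
    apply intervalIntegral.integral_mono_on hpi.le
    · exact intervalIntegrable_const
    · exact (pk_cont hpos hcont u h0 h1).intervalIntegrable _ _
    · intro x _; exact h x
  rw [intervalIntegral.integral_const, smul_eq_mul, sub_zero] at this
  rw [pkG, one_div, ← div_eq_inv_mul, le_div_iff₀ hpi]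
  linarith

include hpos hsymm hper hcont in
/-- the key inequality -/
lemma pk_key
    (hpt : ∀ s t u v, s < t → t < u → u < v → v < s + 2 * π →
      f s t * f u v + f t u * f s v ≤ f s u * f t v)
    (u e : ℝ) (he : 0 < e) (heu : e < u) (hue : u + e < 2 * π) :
    Real.exp (2 * pkG f e) + Real.exp (pkG f (u - e) + pkG f (u + e)) ≤
      Real.exp (2 * pkG f u) := by
  have hpi : (0:ℝ) < 2 * π := by positivity
  set A := 2 * pkG f e with hA
  set B := pkG f (u - e) + pkG f (u + e) with hB
  set S := Real.exp A + Real.exp B with hS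
  have hSpos : 0 < S := by positivity
  set l := Real.exp A / S with hl
  set m := Real.exp B / S with hm
  have hlpos : 0 < l := by positivity
  have hmpos : 0 < m := by positivity
  have hlm : l + m = 1 := by rw [hl, hm, ← add_div]; exact div_self hSpos.ne'
  have hlogl : Real.log l = A - Real.log S := by
    rw [hl, Real.log_div (by positivity) (by positivity), Real.log_exp]
  have hlogm : Real.log m = B - Real.log S := by
    rw [hm, Real.log_div (by positivity) (by positivity), Real.log_exp]
  -- pointwise inequality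
  have hpw : ∀ s : ℝ,
      l * ((Real.log (f s (s + e)) + Real.log (f (s + u) (s + u + e))) - Real.log l) +
      m * ((Real.log (f (s + e) (s + e + (u - e))) + Real.log (f s (s + (u + e)))) - Real.log m) ≤
      Real.log (f s (s + u)) + Real.log (f (s + e) (s + e + u)) := by
    intro s
    have p1 : 0 < f s (s + e) := hpos _ _ (by linarith) (by linarith)
    have p2 : 0 < f (s + u) (s + u + e) := hpos _ _ (by linarith) (by linarith)
    have p3 : 0 < f (s + e) (s + e + (u - e)) := hpos _ _ (by linarith) (by linarith)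
    have p4 : 0 < f s (s + (u + e)) := hpos _ _ (by linarith) (by linarith)
    have p5 : 0 < f s (s + u) := hpos _ _ (by linarith) (by linarith)
    have p6 : 0 < f (s + e) (s + e + u) := hpos _ _ (by linarith) (by linarith)
    refine (pk_logsumexp _ _ l m hlpos hmpos hlm).trans ?_
    rw [← Real.log_mul p1.ne' p2.ne', ← Real.log_mul p3.ne' p4.ne', ← Real.log_mul p5.ne' p6.ne',
      Real.exp_log (mul_pos p1 p2), Real.exp_log (mul_pos p3 p4)]
    apply Real.log_le_log (by positivity)
    have h := hpt s (s + e) (s + u) (s + u + e) (by linarith) (by linarith) (by linarith)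
      (by linarith)
    have e1 : s + e + (u - e) = s + u := by ring
    have e2 : s + (u + e) = s + u + e := by ring
    have e3 : s + e + u = s + u + e := by ring
    rw [e1, e2, e3]
    exact h
  -- integrate
  have c1 := pk_cont hpos hcont e he (by linarith)
  have c2 : Continuous fun s => Real.log (f (s + u) (s + u + e)) :=
    c1.comp (f := fun s : ℝ => s + u) (by fun_prop)
  have c3 : Continuous fun s => Real.log (f (s + e) (s + e + (u - e))) :=
    (pk_cont hpos hcont (u - e) (by linarith) (by linarith)).comp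
      (f := fun s : ℝ => s + e) (by fun_prop)
  have c4 := pk_cont hpos hcont (u + e) (by linarith) (by linarith)
  have c5 := pk_cont hpos hcont u (by linarith) (by linarith)
  have c6 : Continuous fun s => Real.log (f (s + e) (s + e + u)) :=
    c5.comp (f := fun s : ℝ => s + e) (by fun_prop)
  have i1 := c1.intervalIntegrable (μ := volume) 0 (2 * π)
  have i2 := c2.intervalIntegrable (μ := volume) 0 (2 * π)
  have i3 := c3.intervalIntegrable (μ := volume) 0 (2 * π)
  have i4 := c4.intervalIntegrable (μ := volume) 0 (2 * π)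
  have i5 := c5.intervalIntegrable (μ := volume) 0 (2 * π)
  have i6 := c6.intervalIntegrable (μ := volume) 0 (2 * π)
  have hint : ∫ s in (0:ℝ)..(2 * π),
      (l * ((Real.log (f s (s + e)) + Real.log (f (s + u) (s + u + e))) - Real.log l) +
      m * ((Real.log (f (s + e) (s + e + (u - e))) + Real.log (f s (s + (u + e)))) - Real.log m)) ≤
      ∫ s in (0:ℝ)..(2 * π), (Real.log (f s (s + u)) + Real.log (f (s + e) (s + e + u))) := by
    apply intervalIntegral.integral_mono_on hpi.le
    · exact (((c1.add c2).sub continuous_const).const_mul l |>.add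
        ((((c3.add c4).sub continuous_const)).const_mul m)).intervalIntegrable _ _
    · exact (c5.add c6).intervalIntegrable _ _
    · intro x _; exact hpw x
  have s2 := pk_shift hsymm hper e u
  have s3 := pk_shift hsymm hper (u - e) e
  have s6 := pk_shift hsymm hper u e
  rw [intervalIntegral.integral_add (by
        exact ((((c1.add c2).sub continuous_const).const_mul l)).intervalIntegrable _ _) (by
        exact ((((c3.add c4).sub continuous_const)).const_mul m).intervalIntegrable _ _),
    intervalIntegral.integral_const_mul, intervalIntegral.integral_const_mul,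
    intervalIntegral.integral_sub (i1.add i2) intervalIntegrable_const,
    intervalIntegral.integral_sub (i3.add i4) intervalIntegrable_const,
    intervalIntegral.integral_add i1 i2, intervalIntegral.integral_add i3 i4,
    intervalIntegral.integral_add i5 i6, intervalIntegral.integral_const,
    intervalIntegral.integral_const, smul_eq_mul, smul_eq_mul, sub_zero, s2, s3, s6] at hint
  have g1 : ∫ s in (0:ℝ)..(2 * π), Real.log (f s (s + e)) = 2 * π * pkG f e := by
    rw [pkG]; field_simp
  have g2 : ∫ s in (0:ℝ)..(2 * π), Real.log (f s (s + (u - e))) = 2 * π * pkG f (u - e) := by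
    rw [pkG]; field_simp
  have g3 : ∫ s in (0:ℝ)..(2 * π), Real.log (f s (s + (u + e))) = 2 * π * pkG f (u + e) := by
    rw [pkG]; field_simp
  have g4 : ∫ s in (0:ℝ)..(2 * π), Real.log (f s (s + u)) = 2 * π * pkG f u := by
    rw [pkG]; field_simp
  rw [g1, g2, g3, g4, hlogl, hlogm] at hint
  have hfin : Real.log S ≤ 2 * pkG f u := by
    have h7 : 2 * π * (l * (A - (A - Real.log S)) + m * (B - (B - Real.log S))) ≤
        2 * π * (2 * pkG f u) := by
      calc 2 * π * (l * (A - (A - Real.log S)) + m * (B - (B - Real.log S)))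
          = l * (2 * π * pkG f e + 2 * π * pkG f e - 2 * π * (A - Real.log S)) +
            m * (2 * π * pkG f (u - e) + 2 * π * pkG f (u + e) - 2 * π * (B - Real.log S)) := by
              rw [hA, hB]; ring
        _ ≤ 2 * π * pkG f u + 2 * π * pkG f u := hint
        _ = 2 * π * (2 * pkG f u) := by ring
    have h8 := le_of_mul_le_mul_left h7 hpi
    have h9 : l * (A - (A - Real.log S)) + m * (B - (B - Real.log S)) = Real.log S := by
      calc l * (A - (A - Real.log S)) + m * (B - (B - Real.log S))
          = (l + m) * Real.log S := by ring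
        _ = Real.log S := by rw [hlm, one_mul]
    rw [h9] at h8
    exact h8
  calc S = Real.exp (Real.log S) := (Real.exp_log hSpos).symm
    _ ≤ Real.exp (2 * pkG f u) := Real.exp_le_exp.mpr hfin

include hpos hsymm hper hcont in
/-- behaviour at the two ends of `(0, 2π)` -/
lemma pk_ends
    (hdiag : ∀ η < 1, ∃ δ > 0, ∀ s ε, 0 < ε → ε < δ → η * ε ≤ f s (s + ε))
    (c : ℝ) (hc : c < 0) : ∃ δ > 0, δ < π ∧ ∀ e, 0 < e → e < δ →
      (c + Real.log (2 * Real.sin (e / 2)) ≤ pkG f e ∧
       c + Real.log (2 * Real.sin ((2 * π - e) / 2)) ≤ pkG f (2 * π - e)) := by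
  obtain ⟨δ, hδ, H⟩ := hdiag (Real.exp c) (by rw [Real.exp_lt_one_iff]; exact hc)
  refine ⟨min δ (π / 2), lt_min hδ (by positivity), ?_, ?_⟩
  · exact (min_le_right _ _).trans_lt (by linarith [Real.pi_pos])
  intro e he hed
  have hpi := Real.pi_pos
  have he1 : e < δ := hed.trans_le (min_le_left _ _)
  have he2 : e < π / 2 := hed.trans_le (min_le_right _ _)
  have hsin : 0 < Real.sin (e / 2) := Real.sin_pos_of_pos_of_lt_pi (by linarith) (by linarith)
  have hsin2 : 2 * Real.sin (e / 2) ≤ e := by
    have := Real.sin_le (x := e / 2) (by linarith)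
    linarith
  have hlog : c + Real.log (2 * Real.sin (e / 2)) ≤ Real.log (Real.exp c * e) := by
    rw [Real.log_mul (Real.exp_pos c).ne' he.ne', Real.log_exp]
    have := Real.log_le_log (by positivity) hsin2
    linarith
  constructor
  · apply pk_lower hpos hcont e _ he (by linarith)
    intro s
    refine hlog.trans (Real.log_le_log (by positivity) (H s e he he1))
  · apply pk_lower hpos hcont (2 * π - e) _ (by linarith) (by linarith)
    intro s
    have e1 : Real.sin ((2 * π - e) / 2) = Real.sin (e / 2) := by
      rw [show (2 * π - e) / 2 = π - e / 2 by ring, Real.sin_pi_sub]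
    rw [e1]
    have e2 : f s (s + (2 * π - e)) = f (s - e) (s - e + e) := by
      rw [show s + (2 * π - e) = (s - e) + 2 * π by ring, hper, hsymm, sub_add_cancel]
    rw [e2]
    exact hlog.trans (Real.log_le_log (by positivity) (H (s - e) e he he1))

end

lemma pk_sin_id (x y : ℝ) :
    Real.sin x ^ 2 - Real.sin (x - y) * Real.sin (x + y) = Real.sin y ^ 2 := by
  rw [Real.sin_sub, Real.sin_add]
  have h1 := Real.sin_sq_add_cos_sq x
  have h2 := Real.sin_sq_add_cos_sq y
  have h3 : Real.cos y ^ 2 = 1 - Real.sin y ^ 2 := by linarith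
  have h4 : Real.cos x ^ 2 = 1 - Real.sin x ^ 2 := by linarith
  ring_nf
  rw [h3, h4]
  ring

/-- **Ptolemy–Kazdan lemma** (scalar). -/
theorem ptolemy_kazdan (f : ℝ → ℝ → ℝ)
    (hpos : ∀ s t, 0 < t - s → t - s < 2 * π → 0 < f s t)
    (hsymm : ∀ s t, f s t = f t s)
    (hper : ∀ s t, f s (t + 2 * π) = f s t)
    (hcont : Continuous fun p : ℝ × ℝ => f p.1 p.2)
    (hpt : ∀ s t u v, s < t → t < u → u < v → v < s + 2 * π →
      f s t * f u v + f t u * f s v ≤ f s u * f t v)
    (hdiag : ∀ η < 1, ∃ δ > 0, ∀ s ε, 0 < ε → ε < δ → η * ε ≤ f s (s + ε))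
    (u : ℝ) (h0 : 0 < u) (h1 : u < 2 * π) :
    Real.log (2 * Real.sin (u / 2)) ≤
      (1 / (2 * π)) * ∫ s in (0:ℝ)..(2 * π), Real.log (f s (s + u)) := by
  by_contra hcon
  push Not at hcon
  change pkG f u < Real.log (2 * Real.sin (u / 2)) at hcon
  have hpi := Real.pi_pos
  set q : ℝ → ℝ := fun x => pkG f x - Real.log (2 * Real.sin (x / 2)) with hq
  have hqu : q u < 0 := by simp only [hq]; linarith
  obtain ⟨δ, hδ, hδπ, H⟩ := pk_ends hpos hsymm hper hcont hdiag (q u / 2) (by linarith)
  have hsinpos : ∀ x, 0 < x → x < 2 * π → 0 < Real.sin (x / 2) := fun x hx hx' =>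
    Real.sin_pos_of_pos_of_lt_pi (by linarith) (by linarith)
  have H1 : ∀ e, 0 < e → e < δ → q u / 2 ≤ q e := by
    intro e he hed
    have := (H e he hed).1
    simp only [hq] at this ⊢
    linarith
  have H2 : ∀ e, 0 < e → e < δ → q u / 2 ≤ q (2 * π - e) := by
    intro e he hed
    have := (H e he hed).2
    simp only [hq] at this ⊢
    linarith
  -- `u` lies in the compact middle interval
  have hua : δ / 2 ≤ u := by
    by_contra h
    push Not at h
    have := H1 u h0 (by linarith)
    linarith
  have hub : u ≤ 2 * π - δ / 2 := by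
    by_contra h
    push Not at h
    have := H2 (2 * π - u) (by linarith) (by linarith)
    rw [sub_sub_cancel] at this
    linarith
  have hqcont : ContinuousOn q (Icc (δ / 2) (2 * π - δ / 2)) := by
    apply ContinuousOn.sub
    · exact pk_contG hpos hcont u (δ / 2) (2 * π - δ / 2) (by linarith) (by linarith)
        (by linarith) ⟨hua, hub⟩
    · apply ContinuousOn.log
      · fun_prop
      · intro x hx
        have := hsinpos x (by linarith [hx.1]) (by linarith [hx.2])
        positivity
  obtain ⟨u0, hu0, hmin⟩ := isCompact_Icc.exists_isMinOn (⟨u, hua, hub⟩ : (Icc (δ / 2)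
    (2 * π - δ / 2)).Nonempty) hqcont
  have hq0 : q u0 ≤ q u := hmin ⟨hua, hub⟩
  have hu0a : 0 < u0 := by linarith [hu0.1]
  have hu0b : u0 < 2 * π := by linarith [hu0.2]
  have hall : ∀ x, 0 < x → x < 2 * π → q u0 ≤ q x := by
    intro x hx hx'
    by_cases c1 : x < δ / 2
    · have := H1 x hx (by linarith)
      linarith
    · by_cases c2 : 2 * π - δ / 2 < x
      · have := H2 (2 * π - x) (by linarith) (by linarith)
        rw [sub_sub_cancel] at this
        linarith
      · exact hmin ⟨by linarith, by linarith⟩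
  -- choose `e`
  obtain ⟨e, he, he1, he2, he3⟩ : ∃ e, 0 < e ∧ e < δ ∧ e < u0 ∧ u0 + e < 2 * π := by
    refine ⟨min (δ / 2) (min (u0 / 2) ((2 * π - u0) / 2)), ?_, ?_, ?_, ?_⟩
    · exact lt_min (by linarith) (lt_min (by linarith) (by linarith))
    · exact (min_le_left _ _).trans_lt (by linarith)
    · exact ((min_le_right _ _).trans (min_le_left _ _)).trans_lt (by linarith)
    · have := ((min_le_right (δ / 2) (min (u0 / 2) ((2 * π - u0) / 2))).trans (min_le_right _ _))
      linarith
  have hkey := pk_key hpos hsymm hper hcont hpt u0 e he he2 he3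
  have hqe : q u / 2 ≤ q e := H1 e he he1
  have hm := hall (u0 - e) (by linarith) (by linarith)
  have hp := hall (u0 + e) (by linarith) (by linarith)
  -- translate
  have sp0 := hsinpos u0 hu0a hu0b
  have spm := hsinpos (u0 - e) (by linarith) (by linarith)
  have spp := hsinpos (u0 + e) (by linarith) (by linarith)
  have spe := hsinpos e he (by linarith)
  have E0 : Real.exp (2 * pkG f u0) = Real.exp (2 * q u0) * (2 * Real.sin (u0 / 2)) ^ 2 := by
    have : 2 * pkG f u0 = 2 * q u0 + (Real.log (2 * Real.sin (u0 / 2)) +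
        Real.log (2 * Real.sin (u0 / 2))) := by simp only [hq]; ring
    rw [this, Real.exp_add, Real.exp_add, Real.exp_log (by positivity)]; ring
  have E1 : Real.exp (2 * pkG f e) = Real.exp (2 * q e) * (2 * Real.sin (e / 2)) ^ 2 := by
    have : 2 * pkG f e = 2 * q e + (Real.log (2 * Real.sin (e / 2)) +
        Real.log (2 * Real.sin (e / 2))) := by simp only [hq]; ring
    rw [this, Real.exp_add, Real.exp_add, Real.exp_log (by positivity)]; ring
  have E2 : Real.exp (2 * q u0) * ((2 * Real.sin ((u0 - e) / 2)) * (2 * Real.sin ((u0 + e) / 2))) ≤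
      Real.exp (pkG f (u0 - e) + pkG f (u0 + e)) := by
    have : pkG f (u0 - e) + pkG f (u0 + e) = (q (u0 - e) + q (u0 + e)) +
        (Real.log (2 * Real.sin ((u0 - e) / 2)) + Real.log (2 * Real.sin ((u0 + e) / 2))) := by
      simp only [hq]; ring
    rw [this, Real.exp_add (q (u0 - e) + q (u0 + e)),
      Real.exp_add (Real.log (2 * Real.sin ((u0 - e) / 2))), Real.exp_log (by positivity),
      Real.exp_log (by positivity)]
    apply mul_le_mul_of_nonneg_right _ (by positivity)
    exact Real.exp_le_exp.mpr (by linarith)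
  have hid := pk_sin_id (u0 / 2) (e / 2)
  rw [← sub_div, ← add_div] at hid
  have hlt : Real.exp (2 * q u0) < Real.exp (2 * q e) := Real.exp_lt_exp.mpr (by linarith)
  have hE : Real.exp (2 * q e) * (2 * Real.sin (e / 2)) ^ 2 ≤
      Real.exp (2 * q u0) * (2 * Real.sin (e / 2)) ^ 2 := by
    have h3 : Real.exp (2 * q e) * (2 * Real.sin (e / 2)) ^ 2 +
        Real.exp (2 * q u0) * ((2 * Real.sin ((u0 - e) / 2)) * (2 * Real.sin ((u0 + e) / 2))) ≤
        Real.exp (2 * q u0) * (2 * Real.sin (u0 / 2)) ^ 2 := by
      rw [← E0, ← E1]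
      linarith
    have h4 : Real.exp (2 * q u0) * (2 * Real.sin (e / 2)) ^ 2 =
        Real.exp (2 * q u0) * (2 * Real.sin (u0 / 2)) ^ 2 -
        Real.exp (2 * q u0) * ((2 * Real.sin ((u0 - e) / 2)) * (2 * Real.sin ((u0 + e) / 2))) := by
      rw [show (2 * Real.sin (e / 2)) ^ 2 = 4 * Real.sin (e / 2) ^ 2 by ring, ← hid]
      ring
    linarith
  have hsq : 0 < (2 * Real.sin (e / 2)) ^ 2 := by positivity
  have := le_of_mul_le_mul_right hE hsq
  linarith

end Crest.Agent.R208.N
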