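import Crest.Agent.R208.N4b
import Crest.Agent.R208.N1
import Crest.Agent.R208.N5

/-!
R208, block G6 (helper589), part N4c: divided differences, the Ptolemy inequality for `DP` and the
resulting inequality for the mean of `log DP`.
-/

set_option autoImplicit false

open Real Matrix Filter Topology Set

namespace Crest.Agent.R208.N

theorem exists_quot {ι κ : Type} (f f' : ℝ → Matrix ι κ ℝ) (hf : ∀ s, HD f (f' s) s)
    (hc : Continuous f') :
    ∃ q : ℝ → ℝ → Matrix ι κ ℝ, (Continuous fun p : ℝ × ℝ => q p.1 p.2) ∧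
      (∀ s t, f t - f s = (t - s) • q s t) ∧ ∀ s, q s s = f' s := by
  have hcij : ∀ i j, Continuous fun s => f' s i j := fun i j =>
    (continuous_apply j).comp ((continuous_apply i).comp hc)
  refine ⟨fun s t => Matrix.of fun i j => ∫ τ in (0 : ℝ)..1, f' (s + τ * (t - s)) i j,
    ?_, ?_, ?_⟩
  · refine continuous_pi fun i => continuous_pi fun j => ?_
    simp only [Matrix.of_apply]
    refine intervalIntegral.continuous_parametric_intervalIntegral_of_continuous' ?_ _ _
    exact (hcij i j).comp (by fun_prop)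
  · intro s t
    ext i j
    simp only [Matrix.sub_apply, Matrix.smul_apply, smul_eq_mul, Matrix.of_apply]
    have h1 : ∀ τ ∈ Set.uIcc (0 : ℝ) 1,
        HasDerivAt (fun τ => f (s + τ * (t - s)) i j) (f' (s + τ * (t - s)) i j * (t - s)) τ := by
      intro τ _
      have h2 : HasDerivAt (fun τ : ℝ => s + τ * (t - s)) (t - s) τ := by
        simpa using ((hasDerivAt_id τ).mul_const (t - s)).const_add s
      exact (hf (s + τ * (t - s)) i j).comp τ h2
    have h3 := intervalIntegral.integral_eq_sub_of_hasDerivAt h1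
      ((((hcij i j).comp (by fun_prop)).mul continuous_const).intervalIntegrable _ _)
    rw [intervalIntegral.integral_mul_const] at h3
    simp only [one_mul, zero_mul, add_zero, add_sub_cancel] at h3
    rw [← h3, mul_comm]
  · intro s
    ext i j
    simp

lemma unif_lower (g : ℝ → ℝ → ℝ) (hg : Continuous fun p : ℝ × ℝ => g p.1 p.2)
    (hper : ∀ s e, g (s + 2 * π) e = g s e) (η : ℝ) (h : ∀ s, η < g s 0) :
    ∃ δ > 0, ∀ s e, |e| < δ → η < g s e := by
  have h1 : ∀ᶠ e in 𝓝 (0 : ℝ), ∀ s ∈ Icc (0 : ℝ) (2 * π), η < g s e := by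
    refine isCompact_Icc.eventually_forall_of_forall_eventually fun s _ => ?_
    have h2 : ContinuousAt (fun z : ℝ × ℝ => g z.2 z.1) (0, s) :=
      (hg.comp continuous_swap).continuousAt
    exact h2.eventually (lt_mem_nhds (h s))
  obtain ⟨δ, hδ, h2⟩ := Metric.eventually_nhds_iff.1 h1
  refine ⟨δ, hδ, fun s e he => ?_⟩
  have h3 : Function.Periodic (fun s => g s e) (2 * π) := fun s => hper s e
  obtain ⟨y, hy, hxy⟩ := h3.exists_mem_Ico₀ two_pi_pos s
  have h4 : g s e = g y e := hxy
  rw [h4]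
  exact h2 (by simpa [Real.dist_eq] using he) y ⟨hy.1, hy.2.le⟩

lemma det_bord_smul {ι α : Type} [Fintype ι] [DecidableEq ι] [Fintype α] [DecidableEq α]
    {b : ℕ} (hcard : Fintype.card α + b = Fintype.card ι) (N : Matrix ι ι ℝ) (M : Matrix ι α ℝ)
    (M' : Matrix α ι ℝ) {h : ℝ} (hh : h ≠ 0) :
    (fromBlocks (h • N) M M' 0).det = h ^ b * (fromBlocks N M M' 0).det := by
  have e : fromBlocks 1 0 0 (h • (1 : Matrix α α ℝ)) * fromBlocks (h • N) M M' 0 *
      fromBlocks 1 0 0 (h • (1 : Matrix α α ℝ)) = h • fromBlocks N M M' 0 := by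
    rw [fromBlocks_multiply, fromBlocks_multiply, fromBlocks_smul]
    simp
  have e2 := congrArg Matrix.det e
  rw [det_mul, det_mul, det_smul, det_fromBlocks_zero₂₁, det_smul, det_one, det_one,
    Fintype.card_sum, ← hcard] at e2
  have h3 : h ^ (Fintype.card α) ≠ 0 := pow_ne_zero _ hh
  have h4 : (h ^ (Fintype.card α) * h ^ (Fintype.card α)) * (fromBlocks (h • N) M M' 0).det =
      (h ^ (Fintype.card α) * h ^ (Fintype.card α)) * (h ^ b * (fromBlocks N M M' 0).det) := by
    rw [pow_add, pow_add] at e2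
    linear_combination e2
  exact mul_left_cancel₀ (mul_ne_zero h3 h3) h4

namespace JLoop

variable {m a : ℕ} (G : JLoop m a) {α β : Type} [Fintype α] [DecidableEq α]
    [Fintype β] [DecidableEq β] (F : Fr (G.V π) α β)

theorem exists_Aq : ∃ q : ℝ → ℝ → Matrix (Fin m) (Fin m) ℝ,
    (Continuous fun p : ℝ × ℝ => q p.1 p.2) ∧ (∀ s t, G.A s t = (t - s) • q s t) ∧
      ∀ s, q s s = 1 := by
  obtain ⟨qV, hV1, hV2, hV3⟩ := exists_quot G.V G.Vd G.hV G.continuous_Vd
  obtain ⟨qU, hU1, hU2, hU3⟩ := exists_quot G.U G.Ud G.hU G.continuous_Ud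
  refine ⟨fun s t => qV s t * (G.U s)ᵀ - qU s t * (G.V s)ᵀ, ?_, ?_, ?_⟩
  · exact (hV1.matrix_mul (G.continuous_U.comp continuous_fst).matrix_transpose).sub
      (hU1.matrix_mul (G.continuous_V.comp continuous_fst).matrix_transpose)
  · intro s t
    rw [smul_sub, ← Matrix.smul_mul, ← Matrix.smul_mul, ← hV2, ← hU2, G.A_eq]
    have h := (G.sympl s).2.1
    rw [Matrix.sub_mul, Matrix.sub_mul, ← h]
    abel
  · intro s
    show qV s s * (G.U s)ᵀ - qU s s * (G.V s)ᵀ = 1
    rw [hV3, hU3]
    exact (G.sympl s).2.2.2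

theorem exists_Psi : ∃ Ψ : ℝ → ℝ → ℝ, (Continuous fun p : ℝ × ℝ => Ψ p.1 p.2) ∧
    (∀ s t, s ≠ t → G.DP F s t = |t - s| ^ (Fintype.card β) * Ψ s t) ∧ ∀ s, Ψ s s = 1 := by
  obtain ⟨q, hq1, hq2, hq3⟩ := G.exists_Aq
  refine ⟨fun s t => |(fromBlocks (q s t) (G.Mt F t) (G.Mt F s)ᵀ 0).det| /
    (√(G.gr F s) * √(G.gr F t)), ?_, ?_, ?_⟩
  · refine ((Continuous.matrix_fromBlocks hq1 ((G.continuous_Mt F).comp continuous_snd)
      ((G.continuous_Mt F).comp continuous_fst).matrix_transpose
      continuous_const).matrix_det.abs).div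
      ((Real.continuous_sqrt.comp ((G.continuous_gr F).comp continuous_fst)).mul
      (Real.continuous_sqrt.comp ((G.continuous_gr F).comp continuous_snd))) fun p => ?_
    have h1 := Real.sqrt_pos.2 (G.gr_pos F p.1)
    have h2 := Real.sqrt_pos.2 (G.gr_pos F p.2)
    exact (mul_pos h1 h2).ne'
  · intro s t hst
    have h : t - s ≠ 0 := sub_ne_zero.2 (Ne.symm hst)
    unfold DP Bm
    have hc := F.card
    rw [hq2 s t, det_bord_smul (b := Fintype.card β) (by rw [hc, Fintype.card_fin]) _ _ _ h,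
      abs_mul, abs_pow, mul_div_assoc]
  · intro s
    simp only [hq3, det_fromBlocks_one₁₁, zero_sub, det_neg, abs_mul, abs_pow, abs_neg, abs_one,
      one_pow, one_mul]
    have h1 := G.gr_pos F s
    have h2 : ((G.Mt F s)ᵀ * G.Mt F s).det = G.gr F s := rfl
    rw [h2, abs_of_pos h1, Real.mul_self_sqrt h1.le, div_self h1.ne']

/-- the kernel to which the Ptolemy–Kazdan inequality is applied -/
noncomputable def fk (s t : ℝ) : ℝ := G.DP F s t ^ (1 / (Fintype.card β : ℝ))

lemma fk_symm (s t : ℝ) : G.fk F s t = G.fk F t s := by unfold fk; rw [G.DP_symm]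

lemma fk_per (s t : ℝ) : G.fk F s (t + 2 * π) = G.fk F s t := by unfold fk; rw [G.DP_per]

lemma fk_shift (s t : ℝ) (k : ℤ) : G.fk F (s + k * (2 * π)) (t + k * (2 * π)) = G.fk F s t := by
  unfold fk; rw [G.DP_shift]

lemma continuous_fk : Continuous fun p : ℝ × ℝ => G.fk F p.1 p.2 :=
  (G.continuous_DP F).rpow_const fun _ => Or.inr (by positivity)

/-- Ptolemy inequality for four points -/
def Pt (s t u v : ℝ) : Prop :=
  G.fk F s t * G.fk F u v + G.fk F t u * G.fk F s v ≤ G.fk F s u * G.fk F t v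

lemma Pt_rot {s t u v : ℝ} (h : G.Pt F v s t u) : G.Pt F s t u v := by
  unfold Pt at *
  rw [G.fk_symm F v s, G.fk_symm F v u, G.fk_symm F v t] at h
  linarith

lemma Pt_base (hb : 0 < Fintype.card β) {s t u v : ℝ} (hs : 0 < s) (hst : s < t) (htu : t < u)
    (huv : u < v) (hv : v < 2 * π) : G.Pt F s t u v := by
  have hX := G.KP_posDef F hs hst (by linarith)
  have hY := G.KP_posDef F (s := t) (t := u) (by linarith) htu (by linarith)
  have hZ := G.KP_posDef F (s := u) (t := v) (by linarith) huv hv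
  have key := ptolemy hb rfl hX hY hZ
  have e1 : G.KP F t - G.KP F s + (G.KP F u - G.KP F t) = G.KP F u - G.KP F s := by abel
  have e2 : G.KP F u - G.KP F t + (G.KP F v - G.KP F u) = G.KP F v - G.KP F t := by abel
  have e3 : G.KP F u - G.KP F s + (G.KP F v - G.KP F u) = G.KP F v - G.KP F s := by abel
  rw [e1, e2, e3] at key
  set c : ℝ := 1 / (Fintype.card β : ℝ) with hc
  have hpos : ∀ x y : ℝ, 0 < x → x < y → y < 2 * π → 0 < (G.KP F y - G.KP F x).det :=
    fun x y h1 h2 h3 => (G.KP_posDef F h1 h2 h3).det_pos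
  have hfk : ∀ x y : ℝ, 0 < x → x < y → y < 2 * π →
      G.fk F x y = (G.KP F y - G.KP F x).det ^ c * (G.wt F x ^ c * G.wt F y ^ c) := by
    intro x y h1 h2 h3
    have w1 := G.wt_pos F h1 (by linarith)
    have w2 := G.wt_pos F (s := y) (by linarith) h3
    have hd := hpos x y h1 h2 h3
    unfold fk
    rw [G.DP_eq F h1 (by linarith) (by linarith) h3, abs_of_pos hd,
      Real.mul_rpow hd.le (by positivity), Real.mul_rpow w1.le w2.le]
  unfold Pt
  rw [hfk s t hs hst (by linarith), hfk u v (by linarith) huv hv,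
    hfk t u (by linarith) htu (by linarith), hfk s v hs (by linarith) hv,
    hfk s u hs (by linarith) (by linarith), hfk t v (by linarith) (by linarith) hv]
  rw [Real.mul_rpow (hpos s t hs hst (by linarith)).le (hpos u v (by linarith) huv hv).le,
    Real.mul_rpow (hpos t u (by linarith) htu (by linarith)).le
      (hpos s v hs (by linarith) hv).le,
    Real.mul_rpow (hpos s u hs (by linarith) (by linarith)).le
      (hpos t v (by linarith) (by linarith) hv).le] at key
  have hw : 0 ≤ G.wt F s ^ c * G.wt F t ^ c * G.wt F u ^ c * G.wt F v ^ c := by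
    have w1 := G.wt_pos F (s := s) (by linarith) (by linarith)
    have w2 := G.wt_pos F (s := t) (by linarith) (by linarith)
    have w3 := G.wt_pos F (s := u) (by linarith) (by linarith)
    have w4 := G.wt_pos F (s := v) (by linarith) (by linarith)
    positivity
  have := mul_le_mul_of_nonneg_right key hw
  nlinarith [this]

lemma Pt_generic (hb : 0 < Fintype.card β) {s t u v : ℝ} (hst : s < t) (htu : t < u)
    (huv : u < v) (hv : v < s + 2 * π) (g1 : sin (s / 2) ≠ 0) (g2 : sin (t / 2) ≠ 0)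
    (g3 : sin (u / 2) ≠ 0) (g4 : sin (v / 2) ≠ 0) : G.Pt F s t u v := by
  have hpi := pi_pos
  obtain ⟨k, hk0, hk1⟩ := exists_shift s
  have hg : ∀ x : ℝ, sin (x / 2) ≠ 0 → x + k * (2 * π) ≠ 0 ∧ x + k * (2 * π) ≠ 2 * π := by
    intro x hx
    refine ⟨fun h => hx ?_, fun h => hx ?_⟩
    · have : x / 2 = ((-k : ℤ) : ℝ) * π := by push_cast; linarith
      rw [this]; exact sin_int_mul_pi _
    · have : x / 2 = ((1 - k : ℤ) : ℝ) * π := by push_cast; linarith
      rw [this]; exact sin_int_mul_pi _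
  have hinv : G.Pt F (s + k * (2 * π)) (t + k * (2 * π)) (u + k * (2 * π)) (v + k * (2 * π)) →
      G.Pt F s t u v := by
    intro h; unfold Pt at *; simpa only [G.fk_shift] using h
  apply hinv
  have hs := (hg s g1).1
  have ht := (hg t g2).2
  have hu := (hg u g3).2
  have hvv := (hg v g4).2
  set s' := s + k * (2 * π) with hs'
  set t' := t + k * (2 * π) with ht'
  set u' := u + k * (2 * π) with hu'
  set v' := v + k * (2 * π) with hv'
  have hs0 : 0 < s' := lt_of_le_of_ne hk0 (Ne.symm hs)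
  have l1 : s' < t' := by simp only [hs', ht']; linarith
  have l2 : t' < u' := by simp only [hu', ht']; linarith
  have l3 : u' < v' := by simp only [hu', hv']; linarith
  have l4 : v' < s' + 2 * π := by simp only [hs', hv']; linarith
  have p1 : ∀ x y, G.fk F x (y - 2 * π) = G.fk F x y := by
    intro x y; rw [← G.fk_per F x (y - 2 * π)]; congr 1; ring
  have p2 : ∀ x y, G.fk F (x - 2 * π) y = G.fk F x y := by
    intro x y; rw [G.fk_symm, p1, G.fk_symm]
  by_cases c1 : v' < 2 * π
  · exact G.Pt_base F hb hs0 l1 l2 l3 c1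
  have c1' : 2 * π < v' := lt_of_le_of_ne (not_lt.1 c1) (Ne.symm hvv)
  by_cases c2 : u' < 2 * π
  · have h := G.Pt_base F hb (s := v' - 2 * π) (t := s') (u := t') (v := u') (by linarith)
      (by linarith) l1 l2 c2
    apply G.Pt_rot
    unfold Pt at *
    simpa only [p1, p2] using h
  have c2' : 2 * π < u' := lt_of_le_of_ne (not_lt.1 c2) (Ne.symm hu)
  by_cases c3 : t' < 2 * π
  · have h := G.Pt_base F hb (s := u' - 2 * π) (t := v' - 2 * π) (u := s') (v := t') (by linarith)
      (by linarith) (by linarith) l1 c3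
    apply G.Pt_rot
    apply G.Pt_rot
    unfold Pt at *
    simpa only [p1, p2] using h
  have c3' : 2 * π < t' := lt_of_le_of_ne (not_lt.1 c3) (Ne.symm ht)
  have h := G.Pt_base F hb (s := t' - 2 * π) (t := u' - 2 * π) (u := v' - 2 * π) (v := s')
    (by linarith) (by linarith) (by linarith) (by linarith) hk1
  apply G.Pt_rot
  apply G.Pt_rot
  apply G.Pt_rot
  unfold Pt at *
  simpa only [p1, p2] using h

lemma eventually_generic (x : ℝ) : ∀ᶠ ε in 𝓝[≠] (0 : ℝ), sin ((x + ε) / 2) ≠ 0 := by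
  by_cases h : sin (x / 2) = 0
  · have h1 : HasDerivAt (fun ε : ℝ => sin ((x + ε) / 2)) (cos ((x + 0) / 2) * (1 / 2)) 0 := by
      have h2 : HasDerivAt (fun ε : ℝ => (x + ε) / 2) (1 / 2) 0 :=
        ((hasDerivAt_id (0 : ℝ)).const_add x).div_const 2
      exact h2.sin
    refine h1.eventually_ne ?_
    rw [add_zero]
    have := cos_ne_of_sin h
    simpa using this
  · have h1 : ContinuousAt (fun ε : ℝ => sin ((x + ε) / 2)) 0 := by fun_prop
    have h2 : sin ((x + 0) / 2) ≠ 0 := by rwa [add_zero]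
    exact (h1.eventually_ne h2).filter_mono nhdsWithin_le_nhds

lemma Pt_all (hb : 0 < Fintype.card β) {s t u v : ℝ} (hst : s < t) (htu : t < u)
    (huv : u < v) (hv : v < s + 2 * π) : G.Pt F s t u v := by
  set H : ℝ → ℝ := fun ε => G.fk F (s + ε) (u + ε) * G.fk F (t + ε) (v + ε) -
    (G.fk F (s + ε) (t + ε) * G.fk F (u + ε) (v + ε) +
      G.fk F (t + ε) (u + ε) * G.fk F (s + ε) (v + ε)) with hH
  have hcont : ∀ x y : ℝ, Continuous fun ε : ℝ => G.fk F (x + ε) (y + ε) := fun x y =>
    (G.continuous_fk F).comp (f := fun ε : ℝ => ((x + ε, y + ε) : ℝ × ℝ)) (by fun_prop)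
  have hHc : Continuous H :=
    ((hcont s u).mul (hcont t v)).sub
      (((hcont s t).mul (hcont u v)).add ((hcont t u).mul (hcont s v)))
  have h0 : 0 ≤ H 0 := by
    refine ge_of_tendsto (hHc.continuousAt.tendsto.mono_left nhdsWithin_le_nhds :
      Tendsto H (𝓝[≠] 0) (𝓝 (H 0))) ?_
    filter_upwards [eventually_generic s, eventually_generic t, eventually_generic u,
      eventually_generic v] with ε e1 e2 e3 e4
    have := G.Pt_generic F hb (s := s + ε) (t := t + ε) (u := u + ε) (v := v + ε)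
      (by linarith) (by linarith) (by linarith) (by linarith) e1 e2 e3 e4
    unfold Pt at this
    simp only [hH]; linarith
  simp only [hH, add_zero] at h0
  unfold Pt; linarith

/-- **the Ptolemy–Kazdan inequality for the reduced loop** -/
theorem Z_ge (hb : 0 < Fintype.card β) {u : ℝ} (h0 : 0 < u) (h1 : u < 2 * π) :
    (Fintype.card β : ℝ) * log (2 * sin (u / 2)) ≤
      (1 / (2 * π)) * ∫ s in (0 : ℝ)..(2 * π), log (G.DP F s (s + u)) := by
  have hb' : (0 : ℝ) < Fintype.card β := by exact_mod_cast hb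
  have hmain := ptolemy_kazdan (G.fk F)
    (fun s t h1 h2 => Real.rpow_pos_of_pos (G.DP_pos F h1 h2) _)
    (G.fk_symm F) (G.fk_per F) (G.continuous_fk F)
    (fun s t u v h1 h2 h3 h4 => G.Pt_all F hb h1 h2 h3 h4) ?_ u h0 h1
  · have e : ∀ s ∈ Set.uIcc (0 : ℝ) (2 * π), Real.log (G.fk F s (s + u)) =
        (1 / (Fintype.card β : ℝ)) * Real.log (G.DP F s (s + u)) := by
      intro s _
      unfold fk
      rw [Real.log_rpow (G.DP_pos F (by linarith) (by linarith))]
    rw [intervalIntegral.integral_congr e, intervalIntegral.integral_const_mul] at hmain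
    have := mul_le_mul_of_nonneg_left hmain hb'.le
    refine this.trans (le_of_eq ?_)
    field_simp
  · intro η hη
    obtain ⟨Ψ, hΨ1, hΨ2, hΨ3⟩ := G.exists_Psi F
    have hη' : max η 0 ^ (Fintype.card β) < 1 := by
      apply pow_lt_one₀ (le_max_right _ _) (max_lt hη one_pos) hb.ne'
    have hper : ∀ s e : ℝ, Ψ (s + 2 * π) (s + 2 * π + e) = Ψ s (s + e) := by
      intro s e
      by_cases he : e = 0
      · simp only [he, add_zero, hΨ3]
      · have h3 := hΨ2 (s + 2 * π) (s + 2 * π + e) (by intro h; apply he; linarith)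
        have h4 := hΨ2 s (s + e) (by intro h; apply he; linarith)
        have h5 : G.DP F (s + 2 * π) (s + 2 * π + e) = G.DP F s (s + e) := by
          have h6 := G.DP_shift F s (s + e) 1
          simp only [Int.cast_one, one_mul] at h6
          rw [← h6]; congr 1; ring
        rw [h5, h4] at h3
        have e1 : s + 2 * π + e - (s + 2 * π) = e := by ring
        have e2 : s + e - s = e := by ring
        rw [e1, e2] at h3
        have h7 : |e| ^ (Fintype.card β) ≠ 0 := pow_ne_zero _ (abs_ne_zero.2 he)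
        exact (mul_left_cancel₀ h7 h3).symm
    obtain ⟨δ, hδ, h⟩ := unif_lower (fun s e => Ψ s (s + e))
      (hΨ1.comp (f := fun p : ℝ × ℝ => (p.1, p.1 + p.2)) (by fun_prop)) hper
      (max η 0 ^ (Fintype.card β)) (fun s => by simpa only [add_zero, hΨ3] using hη')
    refine ⟨δ, hδ, fun s ε hε hεδ => ?_⟩
    have h3 := h s ε (by rwa [abs_of_pos hε])
    have h4 := hΨ2 s (s + ε) (by linarith)
    unfold fk
    rw [h4, add_sub_cancel_left, abs_of_pos hε]
    have h5 : (max η 0 * ε) ^ (Fintype.card β) ≤ ε ^ (Fintype.card β) * Ψ s (s + ε) := by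
      rw [mul_pow, mul_comm]
      exact mul_le_mul_of_nonneg_left h3.le (by positivity)
    have h6 : max η 0 * ε ≤ (ε ^ (Fintype.card β) * Ψ s (s + ε)) ^
        (1 / (Fintype.card β : ℝ)) := by
      have h7 : ((max η 0 * ε) ^ (Fintype.card β)) ^ (1 / (Fintype.card β : ℝ)) =
          max η 0 * ε := by
        rw [one_div, Real.pow_rpow_inv_natCast (by positivity) hb.ne']
      rw [← h7]
      exact Real.rpow_le_rpow (by positivity) h5 (by positivity)
    exact (mul_le_mul_of_nonneg_right (le_max_left _ _) hε.le).trans h6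

end JLoop
end Crest.Agent.R208.N
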