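import Crest.Agent.R208.N4c

/-!
R208, block G6 (helper589), part N6: the pointwise trace inequality.
-/

set_option autoImplicit false

open Real Matrix Filter Topology Set

namespace Crest.Agent.R208.N

/-- tangent line inequality for `p h^(1/p)` -/
lemma tangent {p : ℕ} (hp : 0 < p) {h : ℝ} (hh : 0 < h) (c : ℝ) :
    p * exp c + exp c * (log h - p * c) ≤ p * h ^ (1 / (p : ℝ)) ∧
    (p * h ^ (1 / (p : ℝ)) = p * exp c + exp c * (log h - p * c) → h = (exp c) ^ p) := by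
  have hp' : (0 : ℝ) < p := by exact_mod_cast hp
  have e1 : h ^ (1 / (p : ℝ)) = exp c * exp (log h / p - c) := by
    rw [Real.rpow_def_of_pos hh, ← exp_add]; congr 1; ring
  have e2 : p * exp c + exp c * (log h - p * c) = p * (exp c * (1 + (log h / p - c))) := by
    field_simp
  rw [e1, e2]
  constructor
  · have h1 := add_one_le_exp (log h / p - c)
    have h2 := exp_pos c
    have h3 : exp c * (1 + (log h / p - c)) ≤ exp c * exp (log h / p - c) :=
      mul_le_mul_of_nonneg_left (by linarith) h2.le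
    exact mul_le_mul_of_nonneg_left h3 hp'.le
  · intro h1
    have h2 : exp (log h / p - c) = 1 + (log h / p - c) :=
      mul_left_cancel₀ (exp_pos c).ne' (mul_left_cancel₀ hp'.ne' h1)
    have h3 : log h / p - c = 0 := by
      by_contra hne
      have := add_one_lt_exp hne
      linarith
    have h4 : log h = p * c := by
      have : log h / p = c := by linarith
      rw [div_eq_iff hp'.ne'] at this; linarith
    rw [← exp_log hh, h4, ← exp_nat_mul]

lemma proj_facts {ι α : Type} [Fintype ι] [DecidableEq ι] [Fintype α] [DecidableEq α]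
    (M : Matrix ι α ℝ) (hM : (Mᵀ * M).det ≠ 0) :
    (M * (Mᵀ * M)⁻¹ * Mᵀ)ᵀ = M * (Mᵀ * M)⁻¹ * Mᵀ ∧
    (M * (Mᵀ * M)⁻¹ * Mᵀ) * (M * (Mᵀ * M)⁻¹ * Mᵀ) = M * (Mᵀ * M)⁻¹ * Mᵀ ∧
    (M * (Mᵀ * M)⁻¹ * Mᵀ).trace = Fintype.card α := by
  have hu : IsUnit (Mᵀ * M).det := isUnit_iff_ne_zero.2 hM
  refine ⟨?_, ?_, ?_⟩
  · rw [transpose_mul, transpose_mul, transpose_transpose, transpose_nonsing_inv, transpose_mul,
      transpose_transpose, Matrix.mul_assoc]
  · have : M * (Mᵀ * M)⁻¹ * Mᵀ * (M * (Mᵀ * M)⁻¹ * Mᵀ) =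
        M * ((Mᵀ * M)⁻¹ * (Mᵀ * M)) * (Mᵀ * M)⁻¹ * Mᵀ := by
      simp only [Matrix.mul_assoc]
    rw [this, Matrix.nonsing_inv_mul _ hu, Matrix.mul_one]
  · rw [trace_mul_comm, ← Matrix.mul_assoc, Matrix.mul_nonsing_inv _ hu, trace_one]

namespace JLoop

variable {m a : ℕ} (G : JLoop m a) {α β : Type} [Fintype α] [DecidableEq α]
    [Fintype β] [DecidableEq β] (F : Fr (G.V π) α β)

/-- `H = A⁻¹ A⁻ᵀ` -/
noncomputable def Hm (s t : ℝ) : Matrix (Fin m) (Fin m) ℝ := (G.A s t)⁻¹ * ((G.A s t)⁻¹)ᵀ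

lemma Hm_posDef {s t : ℝ} (h : (G.A s t).det ≠ 0) : (G.Hm s t).PosDef := by
  have hu : IsUnit (G.A s t).det := isUnit_iff_ne_zero.2 h
  refine Matrix.PosDef.of_dotProduct_mulVec_pos ?_ fun y hy => ?_
  · rw [Matrix.IsHermitian, conjTranspose_eq_transpose_of_trivial, Hm, transpose_mul,
      transpose_transpose]
  · simp only [star_trivial]
    have e : G.Hm s t = (((G.A s t)⁻¹)ᵀ)ᵀ * ((G.A s t)⁻¹)ᵀ := by rw [transpose_transpose]; rfl
    rw [e, ← dot_mul]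
    have hne : ((G.A s t)⁻¹)ᵀ *ᵥ y ≠ 0 := by
      intro h0
      have h2 : (G.A s t)ᵀ *ᵥ (((G.A s t)⁻¹)ᵀ *ᵥ y) = 0 := by rw [h0, mulVec_zero]
      rw [mulVec_mulVec, ← transpose_mul, Matrix.nonsing_inv_mul _ hu, transpose_one,
        one_mulVec] at h2
      exact hy h2
    have h4 := dotProduct_star_self_nonneg (((G.A s t)⁻¹)ᵀ *ᵥ y)
    simp only [star_trivial] at h4
    exact lt_of_le_of_ne h4 (fun h => hne (dotProduct_self_eq_zero.1 h.symm))

lemma det_Hm (s t : ℝ) : (G.Hm s t).det = ((G.A s t).det⁻¹) ^ 2 := by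
  rw [Hm, det_mul, det_transpose, det_nonsing_inv, Ring.inverse_eq_inv']; ring

lemma log_det_Hm {s t : ℝ} : log (G.Hm s t).det = -(2 * log |(G.A s t).det|) := by
  rw [det_Hm, log_pow, log_inv, log_abs]; push_cast; ring

/-- right-hand side of the pointwise inequality -/
noncomputable def rhs (p b : ℕ) (c₁ c₂ z l : ℝ) : ℝ :=
  p * exp c₁ + b * exp c₂ + (exp c₁ - exp c₂) * (2 * z - 2 * l - p * c₁)
    + exp c₂ * (-(2 * l) - p * c₁ - b * c₂)

/-- generic case `0 < p`, `0 < b` -/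
theorem point_ineq (hα : 0 < Fintype.card α) (hβ : 0 < Fintype.card β) {s t : ℝ}
    (hd : (G.A s t).det ≠ 0) (hDP : 0 < G.DP F s t) {c₁ c₂ : ℝ} (hc : c₂ ≤ c₁) :
    rhs (Fintype.card α) (Fintype.card β) c₁ c₂ (log (G.DP F s t)) (log |(G.A s t).det|) ≤
      (G.Hm s t).trace ∧
    ((G.Hm s t).trace = rhs (Fintype.card α) (Fintype.card β) c₁ c₂ (log (G.DP F s t))
        (log |(G.A s t).det|) →
      G.Hm s t = exp c₁ • (G.Mt F s * ((G.Mt F s)ᵀ * G.Mt F s)⁻¹ * (G.Mt F s)ᵀ) +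
        exp c₂ • (1 - G.Mt F s * ((G.Mt F s)ᵀ * G.Mt F s)⁻¹ * (G.Mt F s)ᵀ)) := by
  have hHp := G.Hm_posDef hd
  have hgs := G.gr_pos F s
  have hgt := G.gr_pos F t
  have hM : ((G.Mt F s)ᵀ * G.Mt F s).det ≠ 0 := hgs.ne'
  set h : ℝ := ((G.Mt F s)ᵀ * G.Hm s t * G.Mt F s).det / ((G.Mt F s)ᵀ * G.Mt F s).det with hh
  obtain ⟨hpos, htr, heq⟩ := trace_ge hα hβ rfl
    (by rw [F.card, Fintype.card_fin]) hHp (G.Mt F s) hM hh
  have hDH : 0 < (G.Hm s t).det := hHp.det_pos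
  have hq : 0 < (G.Hm s t).det / h := div_pos hDH hpos
  obtain ⟨t1, t1e⟩ := tangent hα hpos c₁
  obtain ⟨t2, t2e⟩ := tangent hβ hq c₂
  have hlq : log ((G.Hm s t).det / h) = -(2 * log |(G.A s t).det|) - log h := by
    rw [log_div hDH.ne' hpos.ne', log_det_Hm]
  -- lower bound for `log h`
  have hlog : 2 * log (G.DP F s t) - 2 * log |(G.A s t).det| ≤ log h := by
    have hcs := gram_cs (((G.A s t)⁻¹)ᵀ * G.Mt F s) (G.Mt F t)
    have hu : IsUnit (G.A s t).det := isUnit_iff_ne_zero.2 hd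
    have e1 : (((G.A s t)⁻¹)ᵀ * G.Mt F s)ᵀ * G.Mt F t =
        (G.Mt F s)ᵀ * (G.A s t)⁻¹ * G.Mt F t := by
      rw [transpose_mul, transpose_transpose]
    have e2 : (((G.A s t)⁻¹)ᵀ * G.Mt F s)ᵀ * (((G.A s t)⁻¹)ᵀ * G.Mt F s) =
        (G.Mt F s)ᵀ * G.Hm s t * G.Mt F s := by
      rw [transpose_mul, transpose_transpose, Hm]; simp only [Matrix.mul_assoc]
    rw [e1, e2] at hcs
    have e3 : |(G.Bm F s t).det| =
        |(G.A s t).det| * |((G.Mt F s)ᵀ * (G.A s t)⁻¹ * G.Mt F t).det| := by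
      let _ := invertibleOfIsUnitDet _ hu
      rw [Bm, det_fromBlocks₁₁, abs_mul, zero_sub, det_neg, abs_mul, abs_pow, abs_neg, abs_one,
        one_pow, one_mul, invOf_eq_nonsing_inv]
    have hMHM : ((G.Mt F s)ᵀ * G.Hm s t * G.Mt F s).det = h * G.gr F s := by
      rw [hh]; exact (div_mul_cancel₀ _ hM).symm
    rw [hMHM] at hcs
    have hgt' : ((G.Mt F t)ᵀ * G.Mt F t).det = G.gr F t := rfl
    rw [hgt'] at hcs
    have habs : 0 < |(G.A s t).det| := abs_pos.2 hd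
    have hs1 := Real.sqrt_pos.2 hgs
    have hs2 := Real.sqrt_pos.2 hgt
    have e4 : (G.DP F s t / |(G.A s t).det|) ^ 2 =
        ((G.Mt F s)ᵀ * (G.A s t)⁻¹ * G.Mt F t).det ^ 2 / (G.gr F s * G.gr F t) := by
      unfold DP
      rw [e3, div_pow, div_pow, mul_pow, mul_pow, Real.sq_sqrt hgs.le, Real.sq_sqrt hgt.le, sq_abs,
        sq_abs]
      have : (G.A s t).det ^ 2 ≠ 0 := pow_ne_zero _ hd
      field_simp
    have e5 : (G.DP F s t / |(G.A s t).det|) ^ 2 ≤ h := by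
      rw [e4, div_le_iff₀ (mul_pos hgs hgt)]
      linarith
    have e6 := Real.log_le_log (by positivity) e5
    rw [log_pow, log_div hDP.ne' habs.ne'] at e6
    push_cast at e6
    linarith
  have hexp : 0 ≤ exp c₁ - exp c₂ := sub_nonneg.2 (exp_le_exp.2 hc)
  have hmul := mul_le_mul_of_nonneg_left hlog hexp
  have key : rhs (Fintype.card α) (Fintype.card β) c₁ c₂ (log (G.DP F s t))
      (log |(G.A s t).det|) ≤
      (Fintype.card α * exp c₁ + exp c₁ * (log h - Fintype.card α * c₁)) +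
      (Fintype.card β * exp c₂ + exp c₂ * (log ((G.Hm s t).det / h) - Fintype.card β * c₂)) := by
    rw [hlq]; unfold rhs
    nlinarith [hmul]
  refine ⟨by linarith, fun he => ?_⟩
  have a1 : (Fintype.card α : ℝ) * h ^ (1 / (Fintype.card α : ℝ)) =
      Fintype.card α * exp c₁ + exp c₁ * (log h - Fintype.card α * c₁) := by linarith
  have a2 : (Fintype.card β : ℝ) * ((G.Hm s t).det / h) ^ (1 / (Fintype.card β : ℝ)) =
      Fintype.card β * exp c₂ + exp c₂ * (log ((G.Hm s t).det / h) - Fintype.card β * c₂) := by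
    linarith
  have a3 : (G.Hm s t).trace = (Fintype.card α : ℝ) * h ^ (1 / (Fintype.card α : ℝ)) +
      (Fintype.card β : ℝ) * ((G.Hm s t).det / h) ^ (1 / (Fintype.card β : ℝ)) := by linarith
  exact heq a3 (exp c₁) (exp c₂) (exp_pos _) (exp_pos _) (t1e a1) (t2e a2)

end JLoop
end Crest.Agent.R208.N
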