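import Crest.Agent.R208.N6

/-!
R208, block G6 (helper589), part N6b: the pointwise inequality and the inequality for the mean in
one package, all cases.
-/

set_option autoImplicit false

open Real Matrix Filter Topology Set

namespace Crest.Agent.R208.N
namespace JLoop

variable {m a : ℕ} (G : JLoop m a)

lemma abs_det_shift (s t : ℝ) :
    |(G.A (s + 2 * π) (t + 2 * π)).det| = |(G.A s t).det| := by
  rw [G.abs_det_A_per, G.abs_det_A_per1]

lemma DP_shift_one {α β : Type} [Fintype α] [DecidableEq α] [Fintype β] [DecidableEq β]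
    (F : Fr (G.V π) α β) (s t : ℝ) : G.DP F (s + 2 * π) (t + 2 * π) = G.DP F s t := by
  have h := G.DP_shift F s t 1
  simpa using h

/-- the package -/
structure Pack (G : JLoop m a) where
  b : ℕ
  hab : a + b = m
  z : ℝ → ℝ → ℝ
  P : ℝ → Matrix (Fin m) (Fin m) ℝ
  hP : ∀ s, (P s)ᵀ = P s ∧ P s * P s = P s ∧ (P s).trace = a
  z_cont : ∀ u, 0 < u → u < π → Continuous fun s => z s (s + u)
  z_per : ∀ s t, z (s + 2 * π) (t + 2 * π) = z s t
  z_mean : ∀ u, 0 < u → u < π → (b : ℝ) * log (2 * sin (u / 2)) ≤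
    (1 / (2 * π)) * ∫ s in (0 : ℝ)..(2 * π), z s (s + u)
  z_eq : a = 0 → ∀ s t, z s t = log |(G.A s t).det|
  ineq : ∀ s t, 0 < t - s → t - s < π → ∀ c₁ c₂ : ℝ, c₂ ≤ c₁ →
    rhs a b c₁ c₂ (z s t) (log |(G.A s t).det|) ≤ (G.Hm s t).trace ∧
    ((G.Hm s t).trace = rhs a b c₁ c₂ (z s t) (log |(G.A s t).det|) →
      G.Hm s t = exp c₁ • P s + exp c₂ • (1 - P s))

theorem exists_pack : Nonempty (Pack G) := by
  have hpi := pi_pos
  obtain ⟨α, β, _, _, _, _, h1, h2, ⟨F⟩⟩ := exists_fr (G.V π)
  have hmult := G.mult 0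
  have e0 : G.A 0 (0 + π) = G.V π := by rw [zero_add]; rfl
  rw [e0] at hmult
  have hα : Fintype.card α = a := by omega
  have hcard := F.card
  set b := Fintype.card β with hb
  have hab : a + b = m := by omega
  have hDPc : ∀ u, 0 < u → u < π → Continuous fun s => log (G.DP F s (s + u)) := by
    intro u h0 h1
    refine Continuous.log ((G.continuous_DP F).comp
      (f := fun s : ℝ => ((s, s + u) : ℝ × ℝ)) (by fun_prop)) fun s => ?_
    exact (G.DP_pos F (by linarith) (by linarith)).ne'
  rcases Nat.eq_zero_or_pos b with hb0 | hb0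
  · -- `b = 0`
    refine ⟨⟨0, by omega, fun _ _ => 0, fun _ => 1, fun s => ⟨transpose_one, Matrix.one_mul _, ?_⟩,
      fun _ _ _ => continuous_const, fun _ _ => rfl, fun u _ _ => by simp, ?_, ?_⟩⟩
    · rw [trace_one, Fintype.card_fin]; congr 1; omega
    · intro ha s t
      have hm : m = 0 := by omega
      subst hm
      simp
    · intro s t ht0 ht1 c₁ c₂ hc
      have hd := G.ndeg s t ht0 ht1
      have hHp := G.Hm_posDef hd
      rcases Nat.eq_zero_or_pos m with hm | hm
      · have ha : a = 0 := by omega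
        subst hm
        subst ha
        refine ⟨?_, fun _ => Subsingleton.elim _ _⟩
        simp [rhs, Matrix.trace]
      · obtain ⟨t1, t1e⟩ := amgm_trace hm (Fintype.card_fin m) hHp
        obtain ⟨t2, t2e⟩ := tangent hm hHp.det_pos c₁
        have ha : a = m := by omega
        rw [log_det_Hm] at t2 t2e
        have e1 : rhs a 0 c₁ c₂ 0 (log |(G.A s t).det|) =
            m * exp c₁ + exp c₁ * (-(2 * log |(G.A s t).det|) - m * c₁) := by
          have ha' : (a : ℝ) = m := by exact_mod_cast ha
          simp only [rhs, ha']; push_cast; ring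
        rw [e1]
        refine ⟨by linarith, fun he => ?_⟩
        have a1 := t1e (by linarith)
        have a2 := t2e (by linarith)
        rw [a1, a2, one_div, Real.pow_rpow_inv_natCast (exp_pos _).le hm.ne']
        simp
  rcases Nat.eq_zero_or_pos a with ha0 | ha0
  · -- `a = 0`
    have hE : IsEmpty α := Fintype.card_eq_zero_iff.1 (by omega)
    have hDPA : ∀ s t, G.DP F s t = |(G.A s t).det| := by
      intro s t
      have e1 : (G.Bm F s t).submatrix (Equiv.sumEmpty (Fin m) α).symm
          (Equiv.sumEmpty (Fin m) α).symm = G.A s t := by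
        ext i j; simp [Bm]
      have e2 : (G.Bm F s t).det = (G.A s t).det := by
        rw [← e1, det_submatrix_equiv_self]
      have e3 : ∀ s, G.gr F s = 1 := fun s => by unfold gr; exact det_isEmpty
      unfold DP
      rw [e2, e3, e3]; simp
    refine ⟨⟨b, hab, fun s t => log |(G.A s t).det|, fun _ => 0,
      fun s => ⟨transpose_zero, Matrix.mul_zero _, by simp [ha0]⟩, ?_, ?_, ?_, ?_, ?_⟩⟩
    · intro u h0 h1
      have := hDPc u h0 h1
      simpa only [hDPA] using this
    · intro s t; simp only [G.abs_det_shift]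
    · intro u h0 h1
      have := G.Z_ge F hb0 h0 (by linarith)
      simpa only [hDPA] using this
    · intro _ s t; rfl
    · intro s t ht0 ht1 c₁ c₂ hc
      have hd := G.ndeg s t ht0 ht1
      have hHp := G.Hm_posDef hd
      have hm : 0 < m := by omega
      obtain ⟨t1, t1e⟩ := amgm_trace hm (Fintype.card_fin m) hHp
      obtain ⟨t2, t2e⟩ := tangent hm hHp.det_pos c₂
      have hbm : b = m := by omega
      rw [log_det_Hm] at t2 t2e
      have e1 : rhs a b c₁ c₂ (log |(G.A s t).det|) (log |(G.A s t).det|) =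
          m * exp c₂ + exp c₂ * (-(2 * log |(G.A s t).det|) - m * c₂) := by
        have hb' : (b : ℝ) = m := by exact_mod_cast hbm
        have ha' : (a : ℝ) = 0 := by exact_mod_cast ha0
        simp only [rhs, hb', ha']; ring
      rw [e1]
      refine ⟨by linarith, fun he => ?_⟩
      have a1 := t1e (by linarith)
      have a2 := t2e (by linarith)
      rw [a1, a2, one_div, Real.pow_rpow_inv_natCast (exp_pos _).le hm.ne']
      simp
  · -- generic
    refine ⟨⟨b, hab, fun s t => log (G.DP F s t),
      fun s => G.Mt F s * ((G.Mt F s)ᵀ * G.Mt F s)⁻¹ * (G.Mt F s)ᵀ,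
      fun s => ?_, hDPc, ?_, ?_, ?_, ?_⟩⟩
    · have := proj_facts (G.Mt F s) (G.gr_pos F s).ne'
      rwa [hα] at this
    · intro s t; simp only [G.DP_shift_one]
    · intro u h0 h1
      exact G.Z_ge F hb0 h0 (by linarith)
    · intro h; omega
    · intro s t ht0 ht1 c₁ c₂ hc
      have := G.point_ineq F (by omega) hb0 (G.ndeg s t ht0 ht1)
        (G.DP_pos F ht0 (by linarith)) hc
      rwa [hα] at this

end JLoop
end Crest.Agent.R208.N
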