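import Crest.Agent.R208.N4b

/-!
R208, block G6, part N7 (helper286): the mean of `log |det A s (s+u)|` over a closed geodesic is
twice differentiable in `u`, second derivative = minus the mean of `tr (A⁻¹ A⁻ᵀ)`.
-/

set_option autoImplicit false

open Real Matrix Set Filter Topology MeasureTheory

namespace Crest.Agent.R208.N

/-- differentiation of a parametric interval integral -/
theorem hasDerivAt_param (F F' : ℝ → ℝ → ℝ) (a b : ℝ) {u0 : ℝ} (h0 : 0 < u0) (h1 : u0 < π)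
    (hF : ∀ u, 0 < u → u < π → Continuous (F u))
    (hF' : ContinuousOn (fun p : ℝ × ℝ => F' p.1 p.2) (Ioo 0 π ×ˢ univ))
    (hd : ∀ s u, 0 < u → u < π → HasDerivAt (fun u => F u s) (F' u s) u) :
    HasDerivAt (fun u => ∫ s in a..b, F u s) (∫ s in a..b, F' u0 s) u0 := by
  obtain ⟨c, hc0, hcu⟩ := exists_between h0
  obtain ⟨d, hdu, hdp⟩ := exists_between h1
  have hsub : Icc c d ×ˢ uIcc a b ⊆ Ioo 0 π ×ˢ (univ : Set ℝ) := by
    rintro ⟨x, y⟩ ⟨hx, -⟩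
    exact ⟨⟨hc0.trans_le hx.1, hx.2.trans_lt hdp⟩, trivial⟩
  obtain ⟨C, hC⟩ := (isCompact_Icc.prod isCompact_uIcc).exists_bound_of_continuousOn
    (hF'.mono hsub)
  have hcont' : ∀ u, 0 < u → u < π → Continuous (F' u) := by
    intro u hu0 hu1
    rw [← continuousOn_univ]
    exact hF'.comp (f := fun s : ℝ => (u, s)) (by fun_prop) (fun s _ => ⟨⟨hu0, hu1⟩, trivial⟩)
  refine (intervalIntegral.hasDerivAt_integral_of_dominated_loc_of_deriv_le (𝕜 := ℝ)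
    (F := F) (F' := F') (x₀ := u0) (s := Icc c d) (bound := fun _ => C) (Icc_mem_nhds hcu hdu)
    ?_ ((hF u0 h0 h1).intervalIntegrable _ _) (hcont' u0 h0 h1).aestronglyMeasurable ?_
    intervalIntegrable_const ?_).2
  · filter_upwards [Ioo_mem_nhds h0 h1] with x hx
    exact (hF x hx.1 hx.2).aestronglyMeasurable
  · refine ae_of_all _ fun t ht x hx => hC (x, t) ⟨hx, uIoc_subset_uIcc ht⟩
  · refine ae_of_all _ fun t _ x hx => hd t x (hc0.trans_le hx.1) (hx.2.trans_lt hdp)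

namespace JLoop

variable {m a : ℕ} (G : JLoop m a)

lemma continuous_At : Continuous fun p : ℝ × ℝ => G.At p.1 p.2 := by
  have e : (fun p : ℝ × ℝ => G.At p.1 p.2) =
      fun p => G.Vd p.2 * (G.U p.1)ᵀ - G.Ud p.2 * (G.V p.1)ᵀ := by
    funext p; exact G.At_eq p.1 p.2
  rw [e]
  have hV := G.continuous_V
  have hU := G.continuous_U
  have hVd := G.continuous_Vd
  have hUd := G.continuous_Ud
  fun_prop

/-- `tr (A⁻¹ A_t)` -/
noncomputable def TT (s t : ℝ) : ℝ := ((G.A s t)⁻¹ * G.At s t).trace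

noncomputable def trH (s t : ℝ) : ℝ := ((G.A s t)⁻¹ * ((G.A s t)⁻¹)ᵀ).trace

noncomputable def LL (u : ℝ) : ℝ :=
  (1 / (2 * π)) * ∫ s in (0:ℝ)..(2 * π), log |(G.A s (s + u)).det|

noncomputable def LL' (u : ℝ) : ℝ :=
  (1 / (2 * π)) * ∫ s in (0:ℝ)..(2 * π), ((G.A s (s + u))⁻¹ * G.At s (s + u)).trace

lemma det_ne_shift {u : ℝ} (h0 : 0 < u) (h1 : u < π) (s : ℝ) : (G.A s (s + u)).det ≠ 0 :=
  G.ndeg s (s + u) (by linarith) (by linarith)

lemma det_ne_shift' {u : ℝ} (h0 : 0 < u) (h1 : u < π) (s : ℝ) : (G.A (s - u) s).det ≠ 0 :=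
  G.ndeg (s - u) s (by linarith) (by linarith)

lemma continuousAt_TT {p : ℝ × ℝ} (h : (G.A p.1 p.2).det ≠ 0) :
    ContinuousAt (fun p : ℝ × ℝ => G.TT p.1 p.2) p := by
  have hA := G.continuous_A.continuousAt (x := p)
  have hAt := G.continuous_At.continuousAt (x := p)
  have hi := continuousAt_inv' hA h
  have hm : ContinuousAt (fun p : ℝ × ℝ => (G.A p.1 p.2)⁻¹ * G.At p.1 p.2) p := hi.mul hAt
  exact (continuous_id.matrix_trace).continuousAt.comp hm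

lemma continuousAt_trH {p : ℝ × ℝ} (h : (G.A p.1 p.2).det ≠ 0) :
    ContinuousAt (fun p : ℝ × ℝ => G.trH p.1 p.2) p := by
  have hA := G.continuous_A.continuousAt (x := p)
  have hi := continuousAt_inv' hA h
  have hm : ContinuousAt (fun p : ℝ × ℝ => (G.A p.1 p.2)⁻¹ * ((G.A p.1 p.2)⁻¹)ᵀ) p :=
    hi.mul ((continuous_id.matrix_transpose).continuousAt.comp hi)
  exact (continuous_id.matrix_trace).continuousAt.comp hm

lemma A_per2 (s t : ℝ) : G.A (s + 2 * π) (t + 2 * π) = G.Q * G.A s t * (G.Q)ᵀ := by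
  rw [G.A_per1, G.per]

lemma At_per1 (s t : ℝ) : G.At (s + 2 * π) t = G.At s t * (G.Q)ᵀ := by
  rw [G.At_eq, G.At_eq, G.U_per, G.V_per, transpose_mul, transpose_mul, Matrix.sub_mul,
    Matrix.mul_assoc, Matrix.mul_assoc]

lemma At_per2 (s t : ℝ) : G.At (s + 2 * π) (t + 2 * π) = G.Q * G.At s t * (G.Q)ᵀ := by
  rw [G.At_per1, G.At_per]

lemma Q_inv : (G.Q)⁻¹ = (G.Q)ᵀ := Matrix.inv_eq_left_inv G.Q_orth

lemma QT_inv : ((G.Q)ᵀ)⁻¹ = G.Q := Matrix.inv_eq_left_inv G.Q_orth'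

lemma A_inv_per2 (s t : ℝ) :
    (G.A (s + 2 * π) (t + 2 * π))⁻¹ = G.Q * (G.A s t)⁻¹ * (G.Q)ᵀ := by
  rw [G.A_per2, Matrix.mul_inv_rev, Matrix.mul_inv_rev, G.Q_inv, G.QT_inv, Matrix.mul_assoc]

lemma trace_conj (M : Matrix (Fin m) (Fin m) ℝ) : (G.Q * M * (G.Q)ᵀ).trace = M.trace := by
  rw [Matrix.trace_mul_comm, ← Matrix.mul_assoc, G.Q_orth, Matrix.one_mul]

lemma conj_mul (M N : Matrix (Fin m) (Fin m) ℝ) :
    G.Q * M * (G.Q)ᵀ * (G.Q * N * (G.Q)ᵀ) = G.Q * (M * N) * (G.Q)ᵀ := by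
  have : G.Q * M * (G.Q)ᵀ * (G.Q * N * (G.Q)ᵀ) =
      G.Q * M * ((G.Q)ᵀ * G.Q) * N * (G.Q)ᵀ := by
    simp only [Matrix.mul_assoc]
  rw [this, G.Q_orth, Matrix.mul_one]
  simp only [Matrix.mul_assoc]

lemma TT_per (s t : ℝ) : G.TT (s + 2 * π) (t + 2 * π) = G.TT s t := by
  unfold TT
  rw [G.A_inv_per2, G.At_per2, G.conj_mul, G.trace_conj]

lemma trH_per (s t : ℝ) : G.trH (s + 2 * π) (t + 2 * π) = G.trH s t := by
  unfold trH
  rw [G.A_inv_per2]
  have : (G.Q * (G.A s t)⁻¹ * (G.Q)ᵀ)ᵀ = G.Q * ((G.A s t)⁻¹)ᵀ * (G.Q)ᵀ := by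
    rw [transpose_mul, transpose_mul, transpose_transpose, Matrix.mul_assoc]
  rw [this, G.conj_mul, G.trace_conj]

lemma shift_integral (f : ℝ → ℝ → ℝ) (hf : ∀ s t, f (s + 2 * π) (t + 2 * π) = f s t) (u : ℝ) :
    ∫ s in (0:ℝ)..(2 * π), f s (s + u) = ∫ s in (0:ℝ)..(2 * π), f (s - u) s := by
  have hper : Function.Periodic (fun s => f (s - u) s) (2 * π) := by
    intro s
    show f (s + 2 * π - u) (s + 2 * π) = f (s - u) s
    rw [show s + 2 * π - u = s - u + 2 * π by ring, hf]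
  have h1 : ∫ s in (0:ℝ)..(2 * π), f s (s + u) =
      ∫ s in (0 + u)..(2 * π + u), f (s - u) s := by
    rw [← intervalIntegral.integral_comp_add_right (fun s => f (s - u) s) u]
    refine intervalIntegral.integral_congr fun s _ => ?_
    simp
  rw [h1, zero_add, add_comm (2 * π) u, hper.intervalIntegral_add_eq u 0, zero_add]

theorem hasDerivAt_LL {u : ℝ} (h0 : 0 < u) (h1 : u < π) : HasDerivAt G.LL (G.LL' u) u := by
  unfold LL'
  refine HasDerivAt.const_mul (1 / (2 * π)) (d := fun u => ∫ s in (0:ℝ)..(2 * π),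
    log |(G.A s (s + u)).det|) ?_
  refine hasDerivAt_param (fun u s => log |(G.A s (s + u)).det|)
    (fun u s => ((G.A s (s + u))⁻¹ * G.At s (s + u)).trace) _ _ h0 h1 ?_ ?_ ?_
  · intro u hu0 hu1
    have hA : Continuous fun s : ℝ => G.A s (s + u) :=
      G.continuous_A.comp (by fun_prop : Continuous fun s : ℝ => (s, s + u))
    have hd : Continuous fun s : ℝ => |(G.A s (s + u)).det| :=
      continuous_abs.comp (Continuous.matrix_det hA)
    exact hd.log fun s => abs_ne_zero.2 (G.det_ne_shift hu0 hu1 s)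
  · rintro ⟨u, s⟩ ⟨⟨hu0, hu1⟩, -⟩
    have h := G.continuousAt_TT (p := (s, s + u)) (G.det_ne_shift hu0 hu1 s)
    have hc : ContinuousAt (fun p : ℝ × ℝ => ((p.2, p.2 + p.1) : ℝ × ℝ)) (u, s) := by fun_prop
    exact (ContinuousAt.comp (x := ((u, s) : ℝ × ℝ))
      (f := fun p : ℝ × ℝ => ((p.2, p.2 + p.1) : ℝ × ℝ)) h hc).continuousWithinAt
  · intro s u hu0 hu1
    have hHD : HD (fun u => G.A s (s + u)) (G.At s (s + u)) u := fun i j =>
      (G.hA s (s + u) i j).comp_const_add s u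
    exact hasDerivAt_log_det hHD (G.det_ne_shift hu0 hu1 s)

lemma LL'_eq (u : ℝ) : G.LL' u = (1 / (2 * π)) * ∫ s in (0:ℝ)..(2 * π), G.TT (s - u) s := by
  unfold LL'
  rw [← shift_integral G.TT G.TT_per u]
  rfl

lemma hasDerivAt_TT {s t : ℝ} (h : (G.A s t).det ≠ 0) :
    HasDerivAt (fun s => G.TT s t) (G.trH s t) s := by
  have h1 : HD (fun s => (G.A s t)⁻¹) (-((G.A s t)⁻¹ * G.As s t * (G.A s t)⁻¹)) s :=
    (G.hAs s t).inv h
  have h2 := (h1.mul (G.hAts s t)).trace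
  refine h2.congr_deriv ?_
  unfold trH
  rw [G.Ast_eq h, Matrix.trace_add, Matrix.mul_add, Matrix.trace_add, Matrix.neg_mul,
    Matrix.trace_neg]
  have e : ((G.A s t)⁻¹ * (G.At s t * (G.A s t)⁻¹ * G.As s t)).trace =
      ((G.A s t)⁻¹ * G.As s t * (G.A s t)⁻¹ * G.At s t).trace := by
    rw [Matrix.mul_assoc (G.At s t), ← Matrix.mul_assoc (G.A s t)⁻¹ (G.At s t),
      Matrix.trace_mul_comm]
    simp only [Matrix.mul_assoc]
  rw [e]
  ring

theorem hasDerivAt_LL' {u : ℝ} (h0 : 0 < u) (h1 : u < π) :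
    HasDerivAt G.LL' (-((1 / (2 * π)) * ∫ s in (0:ℝ)..(2 * π), G.trH s (s + u))) u := by
  have e : G.LL' = fun u => (1 / (2 * π)) * ∫ s in (0:ℝ)..(2 * π), G.TT (s - u) s := by
    funext u; exact G.LL'_eq u
  rw [e, shift_integral G.trH G.trH_per u, ← mul_neg, ← intervalIntegral.integral_neg]
  refine HasDerivAt.const_mul (1 / (2 * π)) (d := fun u => ∫ s in (0:ℝ)..(2 * π),
    G.TT (s - u) s) ?_
  refine hasDerivAt_param (fun u s => G.TT (s - u) s) (fun u s => -G.trH (s - u) s)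
    _ _ h0 h1 ?_ ?_ ?_
  · intro u hu0 hu1
    rw [continuous_iff_continuousAt]
    intro s
    have h := G.continuousAt_TT (p := (s - u, s)) (G.det_ne_shift' hu0 hu1 s)
    exact ContinuousAt.comp (x := s) (f := fun s : ℝ => ((s - u, s) : ℝ × ℝ)) h (by fun_prop)
  · rintro ⟨u, s⟩ ⟨⟨hu0, hu1⟩, -⟩
    have h := G.continuousAt_trH (p := (s - u, s)) (G.det_ne_shift' hu0 hu1 s)
    exact (ContinuousAt.comp (x := ((u, s) : ℝ × ℝ))
      (f := fun p : ℝ × ℝ => ((p.2 - p.1, p.2) : ℝ × ℝ)) h (by fun_prop)).neg.continuousWithinAt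
  · intro s u hu0 hu1
    exact (G.hasDerivAt_TT (G.det_ne_shift' hu0 hu1 s)).comp_const_sub s u

end JLoop

end Crest.Agent.R208.N
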