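import Mathlib

set_option autoImplicit false

open Real Set Filter Topology

namespace Crest.Agent.R208.N

/-- second derivative test (necessary condition) -/
theorem second_deriv_nonneg_of_min {f f' : ℝ → ℝ} {x0 c : ℝ}
    (hf : ∀ᶠ x in 𝓝 x0, HasDerivAt f (f' x) x) (hf' : HasDerivAt f' c x0)
    (hmin : IsLocalMin f x0) : 0 ≤ c := by
  by_contra hc
  push Not at hc
  have h0 : f' x0 = 0 := hmin.hasDerivAt_eq_zero hf.self_of_nhds
  -- slope of f' is eventually negative
  have hs : ∀ᶠ x in 𝓝[≠] x0, slope f' x0 x < 0 :=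
    (hasDerivAt_iff_tendsto_slope.1 hf').eventually (gt_mem_nhds hc)
  rw [eventually_nhdsWithin_iff] at hs
  obtain ⟨ε, hε, hball⟩ := Metric.eventually_nhds_iff.1 ((hs.and hf).and hmin)
  set x := x0 + ε / 2 with hx
  have hxx : x0 < x := by rw [hx]; linarith
  have hin : ∀ y, x0 ≤ y → y ≤ x → dist y x0 < ε := by
    intro y h1 h2
    rw [Real.dist_eq, abs_of_nonneg (by linarith)]
    rw [hx] at h2; linarith
  obtain ⟨ξ, hξ, hξe⟩ := exists_hasDerivAt_eq_slope f f' hxx
    (fun y hy => ((hball (hin y hy.1 hy.2)).1.2).continuousAt.continuousWithinAt)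
    (fun y hy => (hball (hin y hy.1.le hy.2.le)).1.2)
  have hneg : f' ξ < 0 := by
    have := (hball (hin ξ hξ.1.le hξ.2.le)).1.1 (by simpa using hξ.1.ne')
    rw [slope_def_field, h0, sub_zero] at this
    have hpos : 0 < ξ - x0 := sub_pos.2 hξ.1
    by_contra hcon
    push Not at hcon
    exact absurd this (not_lt.2 (div_nonneg hcon hpos.le))
  have hmn : f x0 ≤ f x := (hball (hin x hxx.le le_rfl)).2
  rw [hξe] at hneg
  have : 0 ≤ (f x - f x0) / (x - x0) := div_nonneg (by linarith) (by linarith)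
  linarith

theorem sin_chord {x y : ℝ} (hx : 0 ≤ x) (hxy : x ≤ y) (hy0 : 0 < y) (hy : y ≤ π) :
    x / y * sin y ≤ sin x := by
  have hle : x / y ≤ 1 := (div_le_one hy0).2 hxy
  have h := strictConcaveOn_sin_Icc.concaveOn.2 (⟨le_rfl, pi_pos.le⟩ : (0 : ℝ) ∈ Icc 0 π)
    (⟨hy0.le, hy⟩ : y ∈ Icc 0 π) (sub_nonneg.2 hle) (div_nonneg hx hy0.le)
    (sub_add_cancel 1 (x / y))
  simp only [smul_eq_mul, mul_zero, zero_add, sin_zero] at h
  rwa [div_mul_cancel₀ _ hy0.ne'] at h

section
variable {T u : ℝ}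

/-- the comparison function -/
noncomputable def phT (T u : ℝ) : ℝ := T / π * sin (π * u / T)

noncomputable def psT (u : ℝ) : ℝ := 2 * sin (u / 2)

theorem phT_pos (hT : 0 < T) (h0 : 0 < u) (h1 : u < T) : 0 < phT T u := by
  unfold phT
  refine mul_pos (div_pos hT pi_pos) (sin_pos_of_pos_of_lt_pi (by positivity) ?_)
  rw [div_lt_iff₀ hT]
  exact mul_lt_mul_of_pos_left h1 pi_pos

theorem psT_pos (h0 : 0 < u) (h1 : u < π) : 0 < psT u := by
  unfold psT
  have := sin_pos_of_pos_of_lt_pi (x := u / 2) (by linarith) (by linarith)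
  linarith

theorem phT_le_sin (hT : 0 < T) (hTp : T ≤ π) (h0 : 0 < u) (h1 : u < T) : phT T u ≤ sin u := by
  unfold phT
  have hy0 : 0 < π * u / T := by positivity
  have hyp : π * u / T ≤ π := by
    rw [div_le_iff₀ hT]
    exact mul_le_mul_of_nonneg_left h1.le pi_pos.le
  have hxy : u ≤ π * u / T := by
    rw [le_div_iff₀ hT]
    nlinarith
  have := sin_chord h0.le hxy hy0 hyp
  have e : u / (π * u / T) = T / π := by
    field_simp
  rwa [e] at this

theorem sin_le_psT (h0 : 0 < u) (h1 : u < π) : sin u ≤ psT u := by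
  unfold psT
  have hs := sin_pos_of_pos_of_lt_pi (x := u / 2) (by linarith) (by linarith)
  have hc := cos_le_one (u / 2)
  have e : sin u = 2 * sin (u / 2) * cos (u / 2) := by
    rw [← sin_two_mul]; congr 1; ring
  rw [e]
  nlinarith

theorem phT_le_self (hT : 0 < T) (h0 : 0 < u) (h1 : u < T) (hTp : T ≤ π) : phT T u ≤ u :=
  (phT_le_sin hT hTp h0 h1).trans (sin_le h0.le)

theorem psT_le_self (h0 : 0 < u) : psT u ≤ u := by
  unfold psT
  have := sin_le (x := u / 2) (by linarith)
  linarith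

theorem hasDerivAt_log_phT (hT : 0 < T) (h0 : 0 < u) (h1 : u < T) :
    HasDerivAt (fun x => log (phT T x)) (cos (π * u / T) / phT T u) u := by
  have hp := phT_pos hT h0 h1
  have hlin : HasDerivAt (fun x : ℝ => π * x / T) (π / T) u := by
    have := ((hasDerivAt_id u).const_mul π).div_const T
    simpa using this
  have h : HasDerivAt (fun x => phT T x) (cos (π * u / T)) u := by
    refine HasDerivAt.congr_deriv (f := fun x => phT T x) ((hlin.sin).const_mul (T / π)) ?_
    have := pi_ne_zero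
    field_simp
  exact h.log hp.ne'

theorem hasDerivAt_log_phT' (hT : 0 < T) (h0 : 0 < u) (h1 : u < T) :
    HasDerivAt (fun x => cos (π * x / T) / phT T x) (-(1 / phT T u ^ 2)) u := by
  have hp := phT_pos hT h0 h1
  have hlin : HasDerivAt (fun x : ℝ => π * x / T) (π / T) u := by
    have := ((hasDerivAt_id u).const_mul π).div_const T
    simpa using this
  have h : HasDerivAt (fun x => phT T x) (cos (π * u / T)) u := by
    refine HasDerivAt.congr_deriv (f := fun x => phT T x) ((hlin.sin).const_mul (T / π)) ?_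
    have := pi_ne_zero
    field_simp
  have hc : HasDerivAt (fun x => cos (π * x / T)) (-sin (π * u / T) * (π / T)) u := hlin.cos
  refine HasDerivAt.congr_deriv (hc.div h hp.ne') ?_
  have e : sin (π * u / T) = π / T * phT T u := by
    unfold phT; field_simp
  have e2 : cos (π * u / T) * cos (π * u / T) = 1 - (π / T * phT T u) ^ 2 := by
    rw [← e]
    have := sin_sq_add_cos_sq (π * u / T)
    nlinarith
  rw [e2, e]
  have hp' := hp.ne'
  field_simp
  ring

theorem hasDerivAt_log_psT (h0 : 0 < u) (h1 : u < π) :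
    HasDerivAt (fun x => log (psT x)) (cos (u / 2) / psT u) u := by
  have hp := psT_pos h0 h1
  have hlin : HasDerivAt (fun x : ℝ => x / 2) (1 / 2) u := (hasDerivAt_id u).div_const 2
  have h : HasDerivAt (fun x => psT x) (cos (u / 2)) u := by
    refine HasDerivAt.congr_deriv (f := fun x => psT x) ((hlin.sin).const_mul 2) ?_
    ring
  exact h.log hp.ne'

theorem hasDerivAt_log_psT' (h0 : 0 < u) (h1 : u < π) :
    HasDerivAt (fun x => cos (x / 2) / psT x) (-(1 / psT u ^ 2)) u := by
  have hp := psT_pos h0 h1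
  have hlin : HasDerivAt (fun x : ℝ => x / 2) (1 / 2) u := (hasDerivAt_id u).div_const 2
  have h : HasDerivAt (fun x => psT x) (cos (u / 2)) u := by
    refine HasDerivAt.congr_deriv (f := fun x => psT x) ((hlin.sin).const_mul 2) ?_
    ring
  have hc : HasDerivAt (fun x => cos (x / 2)) (-sin (u / 2) * (1 / 2)) u := hlin.cos
  refine HasDerivAt.congr_deriv (hc.div h hp.ne') ?_
  have e : sin (u / 2) = psT u / 2 := by unfold psT; ring
  have e2 : cos (u / 2) * cos (u / 2) = 1 - (psT u / 2) ^ 2 := by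
    rw [← e]
    have := sin_sq_add_cos_sq (u / 2)
    nlinarith
  rw [e2, e]
  have hp' := hp.ne'
  field_simp
  ring

end

/-- comparison on `(0,T)` -/
theorem scalar_core_T {a b : ℕ} (ha : 0 < a) (L L' L'' : ℝ → ℝ)
    (h1 : ∀ u, 0 < u → u < π → HasDerivAt L (L' u) u)
    (h2 : ∀ u, 0 < u → u < π → HasDerivAt L' (L'' u) u)
    (h0 : ∀ ε > 0, ∃ δ > 0, ∀ u, 0 < u → u < δ → ((a : ℝ) + b) * log u - ε ≤ L u)
    (hineq : ∀ u, 0 < u → u < π → ∀ c₁ c₂ : ℝ, c₂ ≤ c₁ →
      a * exp c₁ + b * exp c₂ +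
        (exp c₁ - exp c₂) * (2 * (b * log (2 * sin (u / 2))) - 2 * L u - a * c₁)
        + exp c₂ * (-(2 * L u) - a * c₁ - b * c₂) ≤ -(L'' u))
    {T : ℝ} (hT : 0 < T) (hTp : T < π) {u : ℝ} (hu0 : 0 < u) (huT : u < T) :
    a * log (phT T u) + b * log (psT u) ≤ L u := by
  set q : ℝ → ℝ := fun x => L x - (a * log (phT T x) + b * log (psT x)) with hq
  set q' : ℝ → ℝ := fun x => L' x - (a * (cos (π * x / T) / phT T x) +
    b * (cos (x / 2) / psT x)) with hq'
  have hqd : ∀ x, 0 < x → x < T → HasDerivAt q (q' x) x := by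
    intro x hx0 hxT
    exact (h1 x hx0 (hxT.trans hTp)).sub
      (((hasDerivAt_log_phT hT hx0 hxT).const_mul (a : ℝ)).add
        ((hasDerivAt_log_psT hx0 (hxT.trans hTp)).const_mul (b : ℝ)))
  have hqd' : ∀ x, 0 < x → x < T → HasDerivAt q'
      (L'' x - (a * (-(1 / phT T x ^ 2)) + b * (-(1 / psT x ^ 2)))) x := by
    intro x hx0 hxT
    exact (h2 x hx0 (hxT.trans hTp)).sub
      (((hasDerivAt_log_phT' hT hx0 hxT).const_mul (a : ℝ)).add
        ((hasDerivAt_log_psT' hx0 (hxT.trans hTp)).const_mul (b : ℝ)))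
  have hkey : ∀ x, 0 < x → x < T →
      L'' x - (a * (-(1 / phT T x ^ 2)) + b * (-(1 / psT x ^ 2))) ≤ 2 * q x / phT T x ^ 2 := by
    intro x hx0 hxT
    have hxp := hxT.trans hTp
    have hph := phT_pos hT hx0 hxT
    have hps := psT_pos hx0 hxp
    have hle : phT T x ≤ psT x := (phT_le_sin hT hTp.le hx0 hxT).trans (sin_le_psT hx0 hxp)
    have hlog : log (phT T x) ≤ log (psT x) := log_le_log hph hle
    have h := hineq x hx0 hxp (-2 * log (phT T x)) (-2 * log (psT x)) (by linarith)
    have e1 : exp (-2 * log (phT T x)) = 1 / phT T x ^ 2 := by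
      rw [show -2 * log (phT T x) = -(2 * log (phT T x)) by ring, exp_neg,
        show (2 : ℝ) * log (phT T x) = log (phT T x ^ 2) by
          rw [log_pow]; norm_num, exp_log (by positivity), one_div]
    have e2 : exp (-2 * log (psT x)) = 1 / psT x ^ 2 := by
      rw [show -2 * log (psT x) = -(2 * log (psT x)) by ring, exp_neg,
        show (2 : ℝ) * log (psT x) = log (psT x ^ 2) by
          rw [log_pow]; norm_num, exp_log (by positivity), one_div]
    rw [e1, e2] at h
    have e3 : 2 * sin (x / 2) = psT x := rfl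
    rw [e3] at h
    have e4 : 2 * q x / phT T x ^ 2 = (1 / phT T x ^ 2) * (2 * q x) := by ring
    rw [e4, hq]
    nlinarith [h]
  by_contra hcon
  push Not at hcon
  have hqu : q u < 0 := by simp only [hq]; linarith
  -- near 0
  obtain ⟨δ, hδ, hδq⟩ := h0 (-(q u) / 2) (by linarith)
  have hnear0 : ∀ x, 0 < x → x < δ → x < T → q u < q x := by
    intro x hx0 hxδ hxT
    have hxp := hxT.trans hTp
    have a1 := hδq x hx0 hxδ
    have b1 : log (phT T x) ≤ log x :=
      log_le_log (phT_pos hT hx0 hxT) (phT_le_self hT hx0 hxT hTp.le)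
    have b2 : log (psT x) ≤ log x := log_le_log (psT_pos hx0 hxp) (psT_le_self hx0)
    have c1 : (a : ℝ) * log (phT T x) ≤ a * log x :=
      mul_le_mul_of_nonneg_left b1 (Nat.cast_nonneg a)
    have c2 : (b : ℝ) * log (psT x) ≤ b * log x :=
      mul_le_mul_of_nonneg_left b2 (Nat.cast_nonneg b)
    have : q x = L x - (a * log (phT T x) + b * log (psT x)) := rfl
    nlinarith
  -- near T
  have hnearT : ∀ᶠ x in 𝓝[<] T, 0 < q x := by
    have hLc : ContinuousAt L T := (h1 T hT hTp).continuousAt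
    have hLb : ∀ᶠ x in 𝓝[<] T, L T - 1 < L x :=
      (hLc.tendsto.mono_left nhdsWithin_le_nhds).eventually (lt_mem_nhds (by linarith))
    have hpsc : ContinuousAt (fun x => log (psT x)) T :=
      (hasDerivAt_log_psT hT hTp).continuousAt
    have hpsb : ∀ᶠ x in 𝓝[<] T, log (psT x) < log (psT T) + 1 :=
      (hpsc.tendsto.mono_left nhdsWithin_le_nhds).eventually (gt_mem_nhds (by linarith))
    have hphc : Tendsto (fun x => phT T x) (𝓝[<] T) (𝓝[>] 0) := by
      rw [tendsto_nhdsWithin_iff]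
      refine ⟨?_, ?_⟩
      · have hc : Continuous (fun x => phT T x) := by
          unfold phT; fun_prop
        have := hc.tendsto T
        have e : phT T T = 0 := by
          unfold phT
          rw [mul_div_assoc, div_self hT.ne', mul_one, sin_pi, mul_zero]
        rw [e] at this
        exact this.mono_left nhdsWithin_le_nhds
      · have : ∀ᶠ x in 𝓝[<] T, 0 < x ∧ x < T := by
          filter_upwards [self_mem_nhdsWithin, mem_nhdsWithin_of_mem_nhds (lt_mem_nhds hT)]
            with x hx hx'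
          exact ⟨hx', hx⟩
        filter_upwards [this] with x hx
        exact phT_pos hT hx.1 hx.2
    have hlogT : Tendsto (fun x => log (phT T x)) (𝓝[<] T) atBot :=
      tendsto_log_nhdsGT_zero.comp hphc
    have hbig : ∀ᶠ x in 𝓝[<] T,
        log (phT T x) < -(|L T - 1| + b * |log (psT T) + 1| + 1) :=
      hlogT.eventually (eventually_lt_atBot _)
    filter_upwards [hLb, hpsb, hbig] with x hx1 hx2 hx3
    have ha1 : (1 : ℝ) ≤ a := by exact_mod_cast ha
    have hneg : log (phT T x) < 0 := by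
      have : 0 ≤ |L T - 1| + b * |log (psT T) + 1| := by positivity
      linarith
    have c1 : (a : ℝ) * log (phT T x) ≤ log (phT T x) := by nlinarith
    have c2 : (b : ℝ) * log (psT x) ≤ b * |log (psT T) + 1| :=
      mul_le_mul_of_nonneg_left (hx2.le.trans (le_abs_self _)) (Nat.cast_nonneg b)
    have c3 : -|L T - 1| ≤ L T - 1 := neg_abs_le _
    have : q x = L x - (a * log (phT T x) + b * log (psT x)) := rfl
    rw [this]
    linarith
  -- choose the compact interval
  have hlt : ∀ᶠ x in 𝓝[<] T, u < x ∧ x < T ∧ 0 < q x := by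
    filter_upwards [hnearT, self_mem_nhdsWithin, mem_nhdsWithin_of_mem_nhds (lt_mem_nhds huT)]
      with x hx1 hx2 hx3
    exact ⟨hx3, hx2, hx1⟩
  obtain ⟨T', huT', hT'T, hqT'⟩ := hlt.exists
  set s := min (δ / 2) (u / 2) with hs
  have hs0 : 0 < s := lt_min (by linarith) (by linarith)
  have hsu : s < u := (min_le_right _ _).trans_lt (by linarith)
  have hsδ : s < δ := (min_le_left _ _).trans_lt (by linarith)
  have hqs : q u < q s := hnear0 s hs0 hsδ (hsu.trans huT)
  have hcont : ContinuousOn q (Icc s T') := fun x hx =>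
    (hqd x (hs0.trans_le hx.1) (hx.2.trans_lt hT'T)).continuousAt.continuousWithinAt
  obtain ⟨x0, hx0, hmin⟩ := isCompact_Icc.exists_isMinOn
    (nonempty_Icc.2 (hsu.le.trans huT'.le)) hcont
  have hx0u : q x0 ≤ q u := hmin ⟨hsu.le, huT'.le⟩
  have hne1 : x0 ≠ s := by
    rintro rfl
    exact absurd hx0u (not_le.2 hqs)
  have hne2 : x0 ≠ T' := by
    rintro rfl
    linarith
  have hmem : x0 ∈ Ioo s T' := ⟨lt_of_le_of_ne hx0.1 (Ne.symm hne1), lt_of_le_of_ne hx0.2 hne2⟩
  have hx00 : 0 < x0 := hs0.trans hmem.1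
  have hx0T : x0 < T := hmem.2.trans hT'T
  have hloc : IsLocalMin q x0 := hmin.isLocalMin (Icc_mem_nhds hmem.1 hmem.2)
  have hev : ∀ᶠ x in 𝓝 x0, HasDerivAt q (q' x) x := by
    filter_upwards [Ioo_mem_nhds hx00 hx0T] with x hx
    exact hqd x hx.1 hx.2
  have hc := second_deriv_nonneg_of_min hev (hqd' x0 hx00 hx0T) hloc
  have hk := hkey x0 hx00 hx0T
  have hneg : 2 * q x0 / phT T x0 ^ 2 < 0 :=
    div_neg_of_neg_of_pos (by linarith) (pow_pos (phT_pos hT hx00 hx0T) 2)
  linarith

theorem scalar_core {a b : ℕ} (ha : 0 < a) (L L' L'' : ℝ → ℝ)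
    (h1 : ∀ u, 0 < u → u < π → HasDerivAt L (L' u) u)
    (h2 : ∀ u, 0 < u → u < π → HasDerivAt L' (L'' u) u)
    (h0 : ∀ ε > 0, ∃ δ > 0, ∀ u, 0 < u → u < δ → ((a : ℝ) + b) * log u - ε ≤ L u)
    (hineq : ∀ u, 0 < u → u < π → ∀ c₁ c₂ : ℝ, c₂ ≤ c₁ →
      a * exp c₁ + b * exp c₂ +
        (exp c₁ - exp c₂) * (2 * (b * log (2 * sin (u / 2))) - 2 * L u - a * c₁)
        + exp c₂ * (-(2 * L u) - a * c₁ - b * c₂) ≤ -(L'' u))
    (u : ℝ) (hu0 : 0 < u) (hu1 : u < π) :
    a * log (sin u) + b * log (2 * sin (u / 2)) ≤ L u := by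
  have hsin : 0 < sin u := sin_pos_of_pos_of_lt_pi hu0 hu1
  have hten : Tendsto (fun T => a * log (phT T u) + b * log (psT u)) (𝓝[<] π)
      (𝓝 (a * log (sin u) + b * log (2 * sin (u / 2)))) := by
    have hc : ContinuousAt (fun T => phT T u) π := by
      unfold phT
      refine ContinuousAt.mul (by fun_prop) ?_
      refine continuous_sin.continuousAt.comp ?_
      exact ContinuousAt.div (by fun_prop) continuousAt_id pi_ne_zero
    have e : phT π u = sin u := by
      unfold phT
      rw [div_self pi_ne_zero, one_mul, mul_div_assoc, mul_div_cancel₀ _ pi_ne_zero]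
    have hl : ContinuousAt (fun T => log (phT T u)) π := hc.log (by rw [e]; exact hsin.ne')
    have : Tendsto (fun T => log (phT T u)) (𝓝[<] π) (𝓝 (log (sin u))) := by
      have := hl.tendsto
      rw [e] at this
      exact this.mono_left nhdsWithin_le_nhds
    exact (this.const_mul _).add_const _
  refine le_of_tendsto hten ?_
  filter_upwards [self_mem_nhdsWithin, mem_nhdsWithin_of_mem_nhds (lt_mem_nhds hu1)] with T hT huT
  exact scalar_core_T ha L L' L'' h1 h2 h0 hineq (hu0.trans huT) hT hu0 huT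

end Crest.Agent.R208.N
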