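import Crest.Agent.R208.N6b
import Crest.Agent.R208.N7
import Crest.Agent.R208.N8

/-!
R208, block G6 (helper589), part N9: the noncommutative Kazdan inequality for one closed geodesic
(`core : CoreStmt`) and its equality case (`eq_case : EqStmt`).
-/

set_option autoImplicit false

open Real Matrix Filter Topology Set

namespace Crest.Agent.R208.N
namespace JLoop

variable {m a : ℕ} (G : JLoop m a)

lemma continuous_A_diag (u : ℝ) : Continuous fun s => G.A s (s + u) :=
  G.continuous_A.comp (f := fun s : ℝ => ((s, s + u) : ℝ × ℝ)) (by fun_prop)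

lemma continuous_logdet {u : ℝ} (h0 : 0 < u) (h1 : u < π) :
    Continuous fun s => log |(G.A s (s + u)).det| := by
  refine Continuous.log (G.continuous_A_diag u).matrix_det.abs fun s => ?_
  exact abs_ne_zero.2 (G.ndeg s (s + u) (by linarith) (by linarith))

lemma continuous_trHm {u : ℝ} (h0 : 0 < u) (h1 : u < π) :
    Continuous fun s => (G.Hm s (s + u)).trace := by
  have hinv : Continuous fun s => (G.A s (s + u))⁻¹ := continuous_iff_continuousAt.2 fun s =>
    continuousAt_inv' (G.continuous_A_diag u).continuousAt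
      (G.ndeg s (s + u) (by linarith) (by linarith))
  exact (hinv.matrix_mul hinv.matrix_transpose).matrix_trace

lemma LL_lower : ∀ ε > 0, ∃ δ > 0, ∀ u, 0 < u → u < δ → (m : ℝ) * log u - ε ≤ G.LL u := by
  intro ε hε
  obtain ⟨q, hq1, hq2, hq3⟩ := G.exists_Aq
  have hdet : ∀ s e, |(G.A s (s + e)).det| = |e| ^ m * |(q s (s + e)).det| := by
    intro s e
    rw [hq2, det_smul, Fintype.card_fin, abs_mul, abs_pow, add_sub_cancel_left]
  have hper : ∀ s e : ℝ, |(q (s + 2 * π) (s + 2 * π + e)).det| = |(q s (s + e)).det| := by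
    intro s e
    by_cases he : e = 0
    · simp only [he, add_zero, hq3]
    · have h3 := hdet (s + 2 * π) e
      have h4 := hdet s e
      have h5 := G.abs_det_shift s (s + e)
      have e1 : s + e + 2 * π = s + 2 * π + e := by ring
      rw [e1] at h5
      rw [h5, h4] at h3
      exact (mul_left_cancel₀ (pow_ne_zero _ (abs_ne_zero.2 he)) h3).symm
  obtain ⟨δ, hδ, h⟩ := unif_lower (fun s e => |(q s (s + e)).det|)
    ((hq1.comp (f := fun p : ℝ × ℝ => (p.1, p.1 + p.2)) (by fun_prop)).matrix_det.abs) hper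
    (exp (-ε)) (fun s => by simp [hq3, hε])
  refine ⟨min δ π, lt_min hδ pi_pos, fun u h0 h1 => ?_⟩
  have hud : u < δ := lt_of_lt_of_le h1 (min_le_left _ _)
  have hup : u < π := lt_of_lt_of_le h1 (min_le_right _ _)
  have hint := (G.continuous_logdet h0 hup).intervalIntegrable (μ := MeasureTheory.volume)
    0 (2 * π)
  have hmono : ∫ _ in (0:ℝ)..(2 * π), ((m : ℝ) * log u - ε) ≤
      ∫ s in (0:ℝ)..(2 * π), log |(G.A s (s + u)).det| := by
    refine intervalIntegral.integral_mono_on two_pi_pos.le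
      (continuous_const.intervalIntegrable _ _) hint fun s _ => ?_
    have h5 := h s u (by rwa [abs_of_pos h0])
    have hqp : 0 < |(q s (s + u)).det| := (exp_pos _).trans h5
    rw [hdet, log_mul (pow_ne_zero _ (abs_ne_zero.2 h0.ne')) hqp.ne', log_pow, log_abs]
    have h6 := Real.log_lt_log (exp_pos _) h5
    rw [log_exp] at h6
    linarith
  rw [intervalIntegral.integral_const, sub_zero, smul_eq_mul] at hmono
  unfold LL
  have h2 : (0:ℝ) < 1 / (2 * π) := by have := two_pi_pos; positivity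
  have h3 := mul_le_mul_of_nonneg_left hmono h2.le
  refine le_trans (le_of_eq ?_) h3
  have := two_pi_pos.ne'
  field_simp

lemma rhs_eq (p b : ℕ) (c₁ c₂ z l : ℝ) :
    rhs p b c₁ c₂ z l = rhs p b c₁ c₂ 0 0 + (2 * (exp c₁ - exp c₂)) * z - (2 * exp c₁) * l := by
  unfold rhs; ring

variable {G}

lemma Pack.mean_rhs (K : Pack G) {u : ℝ} (h0 : 0 < u) (h1 : u < π) (c₁ c₂ : ℝ) :
    (1 / (2 * π)) * ∫ s in (0:ℝ)..(2 * π), rhs a K.b c₁ c₂ (K.z s (s + u))
      (log |(G.A s (s + u)).det|) =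
    rhs a K.b c₁ c₂ ((1 / (2 * π)) * ∫ s in (0:ℝ)..(2 * π), K.z s (s + u)) (G.LL u) := by
  have hz := (K.z_cont u h0 h1).intervalIntegrable (μ := MeasureTheory.volume) 0 (2 * π)
  have hl := (G.continuous_logdet h0 h1).intervalIntegrable (μ := MeasureTheory.volume) 0 (2 * π)
  have e : ∀ s, rhs a K.b c₁ c₂ (K.z s (s + u)) (log |(G.A s (s + u)).det|) =
      rhs a K.b c₁ c₂ 0 0 + (2 * (exp c₁ - exp c₂)) * K.z s (s + u) -
        (2 * exp c₁) * log |(G.A s (s + u)).det| := fun s => rhs_eq _ _ _ _ _ _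
  simp only [e]
  rw [intervalIntegral.integral_sub ((continuous_const.intervalIntegrable _ _).add
      (hz.const_mul _)) (hl.const_mul _),
    intervalIntegral.integral_add (continuous_const.intervalIntegrable _ _) (hz.const_mul _),
    intervalIntegral.integral_const_mul, intervalIntegral.integral_const_mul,
    intervalIntegral.integral_const, sub_zero, smul_eq_mul, rhs_eq a K.b c₁ c₂ _ (G.LL u)]
  unfold LL
  have := two_pi_pos.ne'
  field_simp

lemma Pack.continuous_rhs (K : Pack G) {u : ℝ} (h0 : 0 < u) (h1 : u < π) (c₁ c₂ : ℝ) :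
    Continuous fun s => rhs a K.b c₁ c₂ (K.z s (s + u)) (log |(G.A s (s + u)).det|) := by
  have e : (fun s => rhs a K.b c₁ c₂ (K.z s (s + u)) (log |(G.A s (s + u)).det|)) =
      fun s => rhs a K.b c₁ c₂ 0 0 + (2 * (exp c₁ - exp c₂)) * K.z s (s + u) -
        (2 * exp c₁) * log |(G.A s (s + u)).det| := by
    funext s; exact rhs_eq _ _ _ _ _ _
  rw [e]
  exact (continuous_const.add ((K.z_cont u h0 h1).const_mul _)).sub
    ((G.continuous_logdet h0 h1).const_mul _)

lemma Pack.rhs_le (K : Pack G) {u : ℝ} (h0 : 0 < u) (h1 : u < π) {c₁ c₂ : ℝ} (hc : c₂ ≤ c₁) :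
    rhs a K.b c₁ c₂ (K.b * log (2 * sin (u / 2))) (G.LL u) ≤
      rhs a K.b c₁ c₂ ((1 / (2 * π)) * ∫ s in (0:ℝ)..(2 * π), K.z s (s + u)) (G.LL u) := by
  rw [rhs_eq, rhs_eq a K.b c₁ c₂ ((1 / (2 * π)) * _)]
  have h := K.z_mean u h0 h1
  have hexp : 0 ≤ 2 * (exp c₁ - exp c₂) := by
    have := exp_le_exp.2 hc; linarith
  have := mul_le_mul_of_nonneg_left h hexp
  linarith

lemma Pack.mean_ineq (K : Pack G) {u : ℝ} (h0 : 0 < u) (h1 : u < π) {c₁ c₂ : ℝ}
    (hc : c₂ ≤ c₁) :
    rhs a K.b c₁ c₂ (K.b * log (2 * sin (u / 2))) (G.LL u) ≤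
      (1 / (2 * π)) * ∫ s in (0:ℝ)..(2 * π), G.trH s (s + u) := by
  refine (K.rhs_le h0 h1 hc).trans ?_
  rw [← K.mean_rhs h0 h1]
  have h2 : (0:ℝ) < 1 / (2 * π) := by have := two_pi_pos; positivity
  refine mul_le_mul_of_nonneg_left ?_ h2.le
  refine intervalIntegral.integral_mono_on two_pi_pos.le
    ((K.continuous_rhs h0 h1 _ _).intervalIntegrable _ _)
    ((G.continuous_trHm h0 h1).intervalIntegrable _ _) fun s _ => ?_
  exact (K.ineq s (s + u) (by linarith) (by linarith) c₁ c₂ hc).1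

end JLoop

open JLoop

/-- **noncommutative Kazdan inequality for one closed geodesic** -/
theorem core : CoreStmt := by
  intro m a G u h0 h1
  obtain ⟨K⟩ := G.exists_pack
  have hb : m - a = K.b := by have := K.hab; omega
  rw [hb]
  rcases Nat.eq_zero_or_pos a with ha | ha
  · have h := K.z_mean u h0 h1
    simp only [K.z_eq ha] at h
    have ha' : (a : ℝ) = 0 := by exact_mod_cast ha
    rw [ha', zero_mul, zero_add]
    exact h
  · refine scalar_core ha G.LL G.LL'
      (fun u => -((1 / (2 * π)) * ∫ s in (0:ℝ)..(2 * π), G.trH s (s + u)))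
      (fun u h0 h1 => G.hasDerivAt_LL h0 h1) (fun u h0 h1 => G.hasDerivAt_LL' h0 h1) ?_ ?_
      u h0 h1
    · intro ε hε
      obtain ⟨δ, hδ, h⟩ := G.LL_lower ε hε
      refine ⟨δ, hδ, fun u h0 h1 => ?_⟩
      have e : (a : ℝ) + K.b = m := by exact_mod_cast K.hab
      rw [e]; exact h u h0 h1
    · intro u h0 h1 c₁ c₂ hc
      have h := K.mean_ineq h0 h1 hc
      unfold rhs at h
      rw [neg_neg]
      exact h

section eqc

variable {m a : ℕ} (G : JLoop m a)

lemma eq_deriv2 {b : ℕ}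
    (h : ∀ u : ℝ, 0 < u → u < π → G.LL u = a * log (sin u) + b * log (2 * sin (u / 2)))
    {u : ℝ} (h0 : 0 < u) (h1 : u < π) :
    (1 / (2 * π)) * ∫ s in (0:ℝ)..(2 * π), G.trH s (s + u) =
      a * (1 / sin u ^ 2) + b * (1 / (4 * sin (u / 2) ^ 2)) := by
  have hs : ∀ u, 0 < u → u < π → 0 < sin u := fun u h0 h1 => sin_pos_of_pos_of_lt_pi h0 h1
  have hs2 : ∀ u, 0 < u → u < π → 0 < sin (u / 2) := fun u h0 h1 =>
    sin_pos_of_pos_of_lt_pi (by linarith) (by linarith)
  have hnhds : ∀ u, 0 < u → u < π → ∀ᶠ v in 𝓝 u, 0 < v ∧ v < π := fun u h0 h1 =>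
    (eventually_gt_nhds h0).and (eventually_lt_nhds h1)
  have hhalf : ∀ u : ℝ, HasDerivAt (fun u : ℝ => sin (u / 2)) (cos (u / 2) * (1 / 2)) u := by
    intro u
    exact ((hasDerivAt_id u).div_const 2).sin
  have hhalfc : ∀ u : ℝ, HasDerivAt (fun u : ℝ => cos (u / 2)) (-sin (u / 2) * (1 / 2)) u := by
    intro u
    exact ((hasDerivAt_id u).div_const 2).cos
  have hL' : ∀ u, 0 < u → u < π →
      G.LL' u = a * (cos u / sin u) + b * (cos (u / 2) / (2 * sin (u / 2))) := by
    intro u h0 h1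
    have e1 := G.hasDerivAt_LL h0 h1
    have e2 : HasDerivAt (fun u : ℝ => (a : ℝ) * log (sin u) + b * log (2 * sin (u / 2)))
        (a * (cos u / sin u) + b * (2 * (cos (u / 2) * (1 / 2)) / (2 * sin (u / 2)))) u :=
      (((hasDerivAt_sin u).log (hs u h0 h1).ne').const_mul _).add
        ((((hhalf u).const_mul 2).log (by have := hs2 u h0 h1; positivity)).const_mul _)
    have e3 : HasDerivAt G.LL
        (a * (cos u / sin u) + b * (2 * (cos (u / 2) * (1 / 2)) / (2 * sin (u / 2)))) u := by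
      refine e2.congr_of_eventuallyEq ?_
      filter_upwards [hnhds u h0 h1] with v hv
      exact h v hv.1 hv.2
    rw [e1.unique e3]
    congr 2; ring
  have e1 := G.hasDerivAt_LL' h0 h1
  have hsu := hs u h0 h1
  have hsu2 := hs2 u h0 h1
  have e2 : HasDerivAt (fun u : ℝ => (a : ℝ) * (cos u / sin u) +
      b * (cos (u / 2) / (2 * sin (u / 2))))
      (a * ((-sin u * sin u - cos u * cos u) / sin u ^ 2) +
        b * (((-sin (u / 2) * (1 / 2)) * (2 * sin (u / 2)) -
          cos (u / 2) * (2 * (cos (u / 2) * (1 / 2)))) / (2 * sin (u / 2)) ^ 2)) u :=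
    (((hasDerivAt_cos u).div (hasDerivAt_sin u) hsu.ne').const_mul _).add
      (((hhalfc u).div ((hhalf u).const_mul 2) (by positivity)).const_mul _)
  have e3 : HasDerivAt G.LL'
      (a * ((-sin u * sin u - cos u * cos u) / sin u ^ 2) +
        b * (((-sin (u / 2) * (1 / 2)) * (2 * sin (u / 2)) -
          cos (u / 2) * (2 * (cos (u / 2) * (1 / 2)))) / (2 * sin (u / 2)) ^ 2)) u := by
    refine e2.congr_of_eventuallyEq ?_
    filter_upwards [hnhds u h0 h1] with v hv
    exact hL' v hv.1 hv.2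
  have e4 := e1.unique e3
  have f1 : -sin u * sin u - cos u * cos u = -1 := by
    have := sin_sq_add_cos_sq u; nlinarith
  have f2 : (-sin (u / 2) * (1 / 2)) * (2 * sin (u / 2)) -
      cos (u / 2) * (2 * (cos (u / 2) * (1 / 2))) = -1 := by
    have := sin_sq_add_cos_sq (u / 2); nlinarith
  rw [f1, f2] at e4
  have e5 := neg_eq_iff_eq_neg.1 e4
  rw [e5]
  field_simp
  ring

lemma Hm_shift (s t : ℝ) : (G.Hm (s + 2 * π) (t + 2 * π)).trace = (G.Hm s t).trace := by
  have hQ1 : (G.Q)⁻¹ = (G.Q)ᵀ := Matrix.inv_eq_left_inv G.Q_orth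
  have hQ2 : ((G.Q)ᵀ)⁻¹ = G.Q := Matrix.inv_eq_left_inv G.Q_orth'
  have e : (G.A (s + 2 * π) (t + 2 * π))⁻¹ = G.Q * (G.A s t)⁻¹ * (G.Q)ᵀ := by
    rw [G.per, G.A_per1, Matrix.mul_inv_rev, Matrix.mul_inv_rev, hQ1, hQ2]
  unfold Hm
  rw [e, transpose_mul, transpose_mul, transpose_transpose]
  have e2 : G.Q * (G.A s t)⁻¹ * (G.Q)ᵀ * (G.Q * (((G.A s t)⁻¹)ᵀ * (G.Q)ᵀ)) =
      G.Q * ((G.A s t)⁻¹ * ((G.Q)ᵀ * G.Q) * ((G.A s t)⁻¹)ᵀ * (G.Q)ᵀ) := by
    simp only [Matrix.mul_assoc]
  rw [e2, trace_mul_comm, G.Q_orth, Matrix.mul_one, Matrix.mul_assoc, G.Q_orth, Matrix.mul_one]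

lemma gram_of_Hm {P : Matrix (Fin m) (Fin m) ℝ} (hP : P * P = P) {s t x y : ℝ} (hx : 0 < x)
    (hy : 0 < y) (hd : (G.A s t).det ≠ 0)
    (h : G.Hm s t = (1 / x) • P + (1 / y) • (1 - P)) :
    (G.A s t)ᵀ * G.A s t = x • P + y • (1 - P) := by
  have hu : IsUnit (G.A s t).det := isUnit_iff_ne_zero.2 hd
  have e1 : G.Hm s t * ((G.A s t)ᵀ * G.A s t) = 1 := by
    have : G.Hm s t * ((G.A s t)ᵀ * G.A s t) =
        (G.A s t)⁻¹ * (((G.A s t)⁻¹)ᵀ * (G.A s t)ᵀ) * G.A s t := by
      unfold Hm; simp only [Matrix.mul_assoc]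
    rw [this, ← transpose_mul, Matrix.mul_nonsing_inv _ hu, transpose_one, Matrix.mul_one,
      Matrix.nonsing_inv_mul _ hu]
  have hP1 : P * (1 - P) = 0 := by rw [Matrix.mul_sub, Matrix.mul_one, hP, sub_self]
  have hP2 : (1 - P) * P = 0 := by rw [Matrix.sub_mul, Matrix.one_mul, hP, sub_self]
  have hP3 : (1 - P) * (1 - P) = 1 - P := by
    rw [Matrix.mul_sub, Matrix.mul_one, hP2, sub_zero]
  have e2 : G.Hm s t * (x • P + y • (1 - P)) = 1 := by
    rw [h, Matrix.add_mul, Matrix.mul_add, Matrix.mul_add]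
    simp only [Matrix.smul_mul, Matrix.mul_smul, hP, hP1, hP2, hP3, smul_zero, add_zero,
      zero_add, smul_smul]
    rw [one_div, one_div, mul_inv_cancel₀ hx.ne', mul_inv_cancel₀ hy.ne', one_smul, one_smul]
    abel
  rw [← Matrix.inv_eq_right_inv e1, ← Matrix.inv_eq_right_inv e2]

end eqc

/-- **the equality case for one closed geodesic** -/
theorem eq_case : EqStmt := by
  intro m a G hyp s₀
  have hpi := pi_pos
  obtain ⟨K⟩ := G.exists_pack
  have hb : m - a = K.b := by have := K.hab; omega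
  have hL : ∀ u : ℝ, 0 < u → u < π →
      G.LL u = a * log (sin u) + K.b * log (2 * sin (u / 2)) := by
    intro u h0 h1
    have := hyp u h0 h1
    rw [hb] at this
    exact this
  refine ⟨K.P s₀, (K.hP s₀).1, (K.hP s₀).2.1, (K.hP s₀).2.2, ?_⟩
  have hopen : ∀ u : ℝ, 0 < u → u < π →
      (G.A s₀ (s₀ + u))ᵀ * G.A s₀ (s₀ + u) =
        (sin u ^ 2) • K.P s₀ + (4 * sin (u / 2) ^ 2) • (1 - K.P s₀) := by
    intro u h0 h1
    have hsu : 0 < sin u := sin_pos_of_pos_of_lt_pi h0 h1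
    have hsu2 : 0 < sin (u / 2) := sin_pos_of_pos_of_lt_pi (by linarith) (by linarith)
    have hcu2 : 0 < cos (u / 2) := cos_pos_of_mem_Ioo ⟨by linarith, by linarith⟩
    have hle : sin u ≤ 2 * sin (u / 2) := by
      have e : sin u = 2 * sin (u / 2) * cos (u / 2) := by
        rw [← sin_two_mul]; congr 1; ring
      rw [e]
      have := cos_le_one (u / 2)
      nlinarith
    set c₁ : ℝ := -(2 * log (sin u)) with hc₁
    set c₂ : ℝ := -(2 * log (2 * sin (u / 2))) with hc₂
    have hc : c₂ ≤ c₁ := by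
      have := Real.log_le_log hsu hle
      rw [hc₁, hc₂]; linarith
    have he1 : exp c₁ = 1 / sin u ^ 2 := by
      have : c₁ = log (1 / sin u ^ 2) := by
        rw [one_div, log_inv, log_pow, hc₁]; push_cast; ring
      rw [this, exp_log (by positivity)]
    have he2 : exp c₂ = 1 / (4 * sin (u / 2) ^ 2) := by
      have e : 4 * sin (u / 2) ^ 2 = (2 * sin (u / 2)) ^ 2 := by ring
      have : c₂ = log (1 / (4 * sin (u / 2) ^ 2)) := by
        rw [e, one_div, log_inv, log_pow, hc₂]; push_cast; ring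
      rw [this, exp_log (by positivity)]
    set g : ℝ → ℝ := fun s => (G.Hm s (s + u)).trace -
      rhs a K.b c₁ c₂ (K.z s (s + u)) (log |(G.A s (s + u)).det|) with hg
    have hgc : Continuous g := (G.continuous_trHm h0 h1).sub (K.continuous_rhs h0 h1 _ _)
    have hg0 : ∀ s, 0 ≤ g s := fun s =>
      sub_nonneg.2 (K.ineq s (s + u) (by linarith) (by linarith) c₁ c₂ hc).1
    have hgper : Function.Periodic g (2 * π) := by
      intro s
      have e : s + 2 * π + u = s + u + 2 * π := by ring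
      simp only [hg, e, Hm_shift, G.abs_det_shift, K.z_per]
    have hgint : ∫ s in (0:ℝ)..(2 * π), g s ≤ 0 := by
      have e1 : ∫ s in (0:ℝ)..(2 * π), g s =
          (∫ s in (0:ℝ)..(2 * π), (G.Hm s (s + u)).trace) -
            ∫ s in (0:ℝ)..(2 * π), rhs a K.b c₁ c₂ (K.z s (s + u))
              (log |(G.A s (s + u)).det|) :=
        intervalIntegral.integral_sub ((G.continuous_trHm h0 h1).intervalIntegrable _ _)
          ((K.continuous_rhs h0 h1 _ _).intervalIntegrable _ _)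
      have e2 := K.mean_rhs h0 h1 c₁ c₂
      have e3 := K.rhs_le h0 h1 hc
      have e4 := eq_deriv2 G hL h0 h1
      have e5 : rhs a K.b c₁ c₂ (K.b * log (2 * sin (u / 2))) (G.LL u) =
          a * (1 / sin u ^ 2) + K.b * (1 / (4 * sin (u / 2) ^ 2)) := by
        rw [hL u h0 h1, ← he1, ← he2]; unfold rhs; rw [hc₁, hc₂]; ring
      rw [e1]
      have h2 : (0:ℝ) < 1 / (2 * π) := by positivity
      have e6 : (1 / (2 * π)) * ((∫ s in (0:ℝ)..(2 * π), (G.Hm s (s + u)).trace) -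
            ∫ s in (0:ℝ)..(2 * π), rhs a K.b c₁ c₂ (K.z s (s + u))
              (log |(G.A s (s + u)).det|)) ≤ 0 := by
        rw [mul_sub, e2]
        have e7 : (1 / (2 * π)) * ∫ s in (0:ℝ)..(2 * π), (G.Hm s (s + u)).trace =
          a * (1 / sin u ^ 2) + K.b * (1 / (4 * sin (u / 2) ^ 2)) := e4
        rw [e7]
        linarith
      by_contra hcon
      push Not at hcon
      have := mul_pos h2 hcon
      linarith
    have hgz : ∀ s, g s = 0 := by
      intro s
      obtain ⟨y, hy, hxy⟩ := hgper.exists_mem_Ico₀ two_pi_pos s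
      rw [hxy]
      by_contra hne
      have hpos : 0 < g y := lt_of_le_of_ne (hg0 y) (Ne.symm hne)
      have := intervalIntegral.integral_pos two_pi_pos hgc.continuousOn
        (fun x _ => hg0 x) ⟨y, ⟨hy.1, hy.2.le⟩, hpos⟩
      linarith
    have hH := (K.ineq s₀ (s₀ + u) (by linarith) (by linarith) c₁ c₂ hc).2
      (sub_eq_zero.1 (hgz s₀))
    rw [he1, he2] at hH
    exact gram_of_Hm G (K.hP s₀).2.1 (by positivity) (by positivity)
      (G.ndeg s₀ (s₀ + u) (by linarith) (by linarith)) hH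
  intro u h0 h1
  have hcl : IsClosed {u : ℝ | (G.A s₀ (s₀ + u))ᵀ * G.A s₀ (s₀ + u) =
        (sin u ^ 2) • K.P s₀ + (4 * sin (u / 2) ^ 2) • (1 - K.P s₀)} := by
    have hA : Continuous fun u : ℝ => G.A s₀ (s₀ + u) :=
      G.continuous_A.comp (f := fun u : ℝ => ((s₀, s₀ + u) : ℝ × ℝ)) (by fun_prop)
    refine isClosed_eq (hA.matrix_transpose.matrix_mul hA) ?_
    exact ((by fun_prop : Continuous fun u : ℝ => sin u ^ 2).smul continuous_const).add
      ((by fun_prop : Continuous fun u : ℝ => 4 * sin (u / 2) ^ 2).smul continuous_const)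
  have hsub : Ioo (0:ℝ) π ⊆ {u : ℝ | (G.A s₀ (s₀ + u))ᵀ * G.A s₀ (s₀ + u) =
        (sin u ^ 2) • K.P s₀ + (4 * sin (u / 2) ^ 2) • (1 - K.P s₀)} :=
    fun u hu => hopen u hu.1 hu.2
  have := (hcl.closure_subset_iff.2 hsub)
  rw [closure_Ioo hpi.ne] at this
  exact this ⟨h0, h1⟩

end Crest.Agent.R208.N
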