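import Crest.Agent.R208.J5
import Crest.Agent.R208.G3

/-! Row 208, block NB (helper537), part NB1: second variation of the energy along the surface
`(ε,t) ↦ Exp (γ t) (ε W t)`, uniformly; non-negativity of the index form on Dirichlet fields of
minimal geodesics. -/

set_option autoImplicit false
set_option linter.unusedSectionVars false
set_option linter.unusedVariables false

open MeasureTheory Set Filter Topology
open scoped ContDiff RealInnerProductSpace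
open Crest.GeometryTopology.Submanifold
open Crest.Agent.R241.DDefs
open Crest.Agent.R241.D2
open Crest.Agent.R208.J

noncomputable section

namespace Crest.Agent.R208.NB

variable {n N : ℕ} {κ : ℝ} {S : Set (Euc N)} {G : Geo n N κ S} {q z : Euc N × Euc N}

/-- the second derivative of `½ ‖JF‖²` -/
def chi (G : Geo n N κ S) (q z : Euc N × Euc N) (ε : ℝ) : ℝ :=
  ‖G.P (fl G (q, ε)).1 (JF' G q z ε)‖ ^ 2 - ⟪Rm G (fl G (q, ε)) (JF G q z ε), JF G q z ε⟫

lemma hasDerivAt_half_sq (h : TanTS G q z) (ε : ℝ) :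
    HasDerivAt (fun ε => (1/2 : ℝ) * ‖JF G q z ε‖ ^ 2)
      ⟪PTi G q ε (G.P (fl G (q, ε)).1 (JF' G q z ε)), PTi G q ε (JF G q z ε)⟫ ε := by
  have hq := h.mem
  have h1 := hasDerivAt_W h ε
  have h2 := (h1.norm_sq).const_mul (1/2 : ℝ)
  have h3 : (fun ε => (1/2 : ℝ) * ‖PTi G q ε (JF G q z ε)‖ ^ 2) =
      fun ε => (1/2 : ℝ) * ‖JF G q z ε‖ ^ 2 := by
    funext ε; rw [norm_PTi hq]
  rw [h3] at h2
  refine h2.congr_deriv ?_
  rw [real_inner_comm]; ring

lemma hasDerivAt_half_sq' (h : TanTS G q z) (ε : ℝ) :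
    HasDerivAt (fun ε => ⟪PTi G q ε (G.P (fl G (q, ε)).1 (JF' G q z ε)),
      PTi G q ε (JF G q z ε)⟫) (chi G q z ε) ε := by
  have hq := h.mem
  have h1 := (hasDerivAt_W' h ε).inner ℝ (hasDerivAt_W h ε)
  refine h1.congr_deriv ?_
  rw [real_inner_self_eq_norm_sq, norm_PTi hq, inner_neg_left, Rh_apply, PT_PTi hq,
    inner_PTi hq, chi]
  ring

lemma chi_zero (h : TanTS G q z) : chi G q z 0 =
    ‖G.P q.1 z.2‖ ^ 2 - ⟪Rm G (q.1, z.1) q.2, q.2⟫ := by
  have hq := h.mem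
  have hz := h.fst_mem
  have hz' : (q.1, z.1) ∈ TS G := ⟨hq.1, hz⟩
  rw [chi, JF_zero, JF'_zero, fl_zero]
  congr 1
  rw [inner_Rm_tangent hq hz, inner_Rm_tangent hz' hq.2]
  have h1 : dP G q z.1 = dP G (q.1, z.1) q.2 := dP_comm hq.1 hq.2 hz
  rw [h1, real_inner_comm]

/-- the elementary Taylor estimate -/
lemma taylor2 {f f' f'' : ℝ → ℝ} {η ε : ℝ} (hε : 0 ≤ ε)
    (h1 : ∀ t, HasDerivAt f (f' t) t) (h2 : ∀ t, HasDerivAt f' (f'' t) t)
    (h3 : ∀ t ∈ Icc 0 ε, |f'' t - f'' 0| ≤ η) :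
    |f ε - f 0 - ε * f' 0 - 1/2 * ε ^ 2 * f'' 0| ≤ η * ε ^ 2 := by
  have hη : 0 ≤ η := (abs_nonneg _).trans (h3 0 ⟨le_rfl, hε⟩)
  have h4 : ∀ t ∈ Icc 0 ε, ‖(f' t - t * f'' 0) - (f' 0 - 0 * f'' 0)‖ ≤ η * (t - 0) := by
    refine norm_image_sub_le_of_norm_deriv_le_segment' (f' := fun t => f'' t - f'' 0) ?_ ?_
    · intro t _
      have := ((hasDerivAt_id t).mul_const (f'' 0))
      have h5 := (h2 t).sub this
      simp only [one_mul] at h5
      exact h5.hasDerivWithinAt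
    · intro t ht
      rw [Real.norm_eq_abs]; exact h3 t ⟨ht.1, ht.2.le⟩
  have h5 : ∀ t ∈ Icc 0 ε, ‖(f t - t * f' 0 - 1/2 * t ^ 2 * f'' 0) -
      (f 0 - 0 * f' 0 - 1/2 * 0 ^ 2 * f'' 0)‖ ≤ (η * ε) * (t - 0) := by
    refine norm_image_sub_le_of_norm_deriv_le_segment'
      (f' := fun t => f' t - f' 0 - t * f'' 0) ?_ ?_
    · intro t _
      have h6 := ((hasDerivAt_id t).mul_const (f' 0))
      have h7 : HasDerivAt (fun t : ℝ => 1/2 * t ^ 2 * f'' 0) (t * f'' 0) t := by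
        have := (((hasDerivAt_pow 2 t).const_mul (1/2 : ℝ)).mul_const (f'' 0))
        refine this.congr_deriv ?_
        simp
      have h8 := ((h1 t).sub h6).sub h7
      simp only [one_mul] at h8
      exact h8.hasDerivWithinAt
    · intro t ht
      have h9 := h4 t ⟨ht.1, ht.2.le⟩
      simp only [zero_mul, sub_zero] at h9
      have h10 : f' t - f' 0 - t * f'' 0 = f' t - t * f'' 0 - f' 0 := by ring
      rw [h10]
      refine h9.trans ?_
      have := ht.2.le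
      nlinarith [ht.1]
  have h6 := h5 ε ⟨hε, le_rfl⟩
  rw [Real.norm_eq_abs] at h6
  have h7 : f ε - ε * f' 0 - 1 / 2 * ε ^ 2 * f'' 0 - (f 0 - 0 * f' 0 - 1 / 2 * 0 ^ 2 * f'' 0) =
    f ε - f 0 - ε * f' 0 - 1/2 * ε ^ 2 * f'' 0 := by ring
  rw [h7] at h6
  refine h6.trans (le_of_eq ?_)
  ring

lemma continuousAt_Dfl {q z : Euc N × Euc N} (hq : q ∈ TS G) (ε : ℝ) :
    ContinuousAt (fun y : ((Euc N × Euc N) × (Euc N × Euc N)) × ℝ => Dfl G y.1.1 y.2 y.1.2)
      ((q, z), ε) := by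
  have h1 : ContDiffAt ℝ 0 (fderiv ℝ (fl G)) (q, ε) :=
    (contDiffAt_fl' G hq ε).fderiv_right (by simp)
  have h2 : ContinuousAt (fun y : ((Euc N × Euc N) × (Euc N × Euc N)) × ℝ =>
      fderiv ℝ (fl G) (y.1.1, y.2)) ((q, z), ε) :=
    ContinuousAt.comp (g := fderiv ℝ (fl G)) (f := fun y : ((Euc N × Euc N) × (Euc N × Euc N)) × ℝ
      => (y.1.1, y.2)) h1.continuousAt (by fun_prop)
  exact h2.clm_apply (by fun_prop)

lemma continuousAt_chi {q z : Euc N × Euc N} (hq : q ∈ TS G) (ε : ℝ) :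
    ContinuousAt (fun y : ((Euc N × Euc N) × (Euc N × Euc N)) × ℝ => chi G y.1.1 y.1.2 y.2)
      ((q, z), ε) := by
  have h0 := continuousAt_Dfl (G := G) (z := z) hq ε
  have hJ : ContinuousAt (fun y : ((Euc N × Euc N) × (Euc N × Euc N)) × ℝ =>
      JF G y.1.1 y.1.2 y.2) ((q, z), ε) := h0.fst
  have hJ' : ContinuousAt (fun y : ((Euc N × Euc N) × (Euc N × Euc N)) × ℝ =>
      JF' G y.1.1 y.1.2 y.2) ((q, z), ε) := h0.snd
  have hf : ContinuousAt (fun y : ((Euc N × Euc N) × (Euc N × Euc N)) × ℝ =>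
      fl G (y.1.1, y.2)) ((q, z), ε) :=
    ContinuousAt.comp (g := fl G) (f := fun y : ((Euc N × Euc N) × (Euc N × Euc N)) × ℝ
      => (y.1.1, y.2)) (contDiffAt_fl' G hq ε).continuousAt (by fun_prop)
  have hP : ContinuousAt (fun y : ((Euc N × Euc N) × (Euc N × Euc N)) × ℝ =>
      G.P (fl G (y.1.1, y.2)).1) ((q, z), ε) :=
    ContinuousAt.comp (g := G.P) (G.contDiff_P.continuous.continuousAt) hf.fst
  have hR : ContinuousAt (fun y : ((Euc N × Euc N) × (Euc N × Euc N)) × ℝ =>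
      Rm G (fl G (y.1.1, y.2))) ((q, z), ε) :=
    ContinuousAt.comp (g := Rm G) ((contDiff_Rm G).continuous.continuousAt) hf
  exact ((hP.clm_apply hJ').norm.pow 2).sub (ContinuousAt.inner (hR.clm_apply hJ) hJ)

/-- **uniform second order expansion** of `½‖JF‖²`. -/
theorem expand_unif {K : Set ((Euc N × Euc N) × (Euc N × Euc N))} (hK : IsCompact K)
    (hKT : ∀ y ∈ K, TanTS G y.1 y.2) {η : ℝ} (hη : 0 < η) :
    ∃ ε₀ > 0, ∀ y ∈ K, ∀ ε ∈ Icc (0 : ℝ) ε₀,
      |1/2 * ‖JF G y.1 y.2 ε‖ ^ 2 - 1/2 * ‖y.2.1‖ ^ 2 - ε * ⟪G.P y.1.1 y.2.2, y.2.1⟫ -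
        1/2 * ε ^ 2 * chi G y.1 y.2 0| ≤ η * ε ^ 2 := by
  have hc : ContinuousOn (fun y : ((Euc N × Euc N) × (Euc N × Euc N)) × ℝ =>
      chi G y.1.1 y.1.2 y.2) (K ×ˢ Icc (0 : ℝ) 1) := fun y hy =>
    (continuousAt_chi (G := G) (q := y.1.1) (z := y.1.2) (hKT _ hy.1).mem y.2).continuousWithinAt
  have hu := (hK.prod (isCompact_Icc (a := (0 : ℝ)) (b := 1))).uniformContinuousOn_of_continuous hc
  rw [Metric.uniformContinuousOn_iff] at hu
  obtain ⟨δ, hδ, hδ'⟩ := hu η hη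
  refine ⟨min 1 (δ / 2), lt_min one_pos (by positivity), fun y hy ε hε => ?_⟩
  have hT := hKT y hy
  have h1 := taylor2 (f := fun ε => (1/2 : ℝ) * ‖JF G y.1 y.2 ε‖ ^ 2) (ε := ε) (η := η)
    (f'' := fun ε => chi G y.1 y.2 ε) hε.1
    (fun t => hasDerivAt_half_sq hT t) (fun t => hasDerivAt_half_sq' hT t) (fun t ht => ?_)
  · simp only [JF_zero, JF'_zero, fl_zero] at h1
    have h2 : ∀ a : Euc N, PTi G y.1 0 a = a := fun a => PTi_zero_apply a
    rw [h2, h2] at h1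
    exact h1
  · have ht1 : t ≤ 1 := ht.2.trans (hε.2.trans (min_le_left _ _))
    have ht2 : t ≤ δ / 2 := ht.2.trans (hε.2.trans (min_le_right _ _))
    have h3 := hδ' (y, t) ⟨hy, ht.1, ht1⟩ (y, 0) ⟨hy, le_rfl, zero_le_one⟩ (by
      rw [Prod.dist_eq, dist_self, Real.dist_eq, sub_zero, abs_of_nonneg ht.1,
        max_eq_right ht.1]
      linarith)
    rw [Real.dist_eq] at h3
    exact h3.le

/-! ### fields along a geodesic, in the parallel frame -/

/-- the tangent vector of `t ↦ (γ t, W t)`, `W = PT w` -/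
def yv (G : Geo n N κ S) (q : Euc N × Euc N) (w w' : ℝ → Euc N) (t : ℝ) :
    (Euc N × Euc N) × (Euc N × Euc N) :=
  (((fl G (q, t)).1, PT G q t (w t)),
    ((fl G (q, t)).2, Om G (fl G (q, t)) (PT G q t (w t)) + PT G q t (w' t)))

variable {w w' : ℝ → Euc N}

lemma hasDerivAt_yv (hq : q ∈ TS G) {t : ℝ} (hw : HasDerivAt w (w' t) t) :
    HasDerivAt (fun t => (yv G q w w' t).1) (yv G q w w' t).2 t := by
  have h1 := hda_fst (hasDerivAt_fl G (complete G hq t))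
  have h2 := (hasDerivAt_PT hq t).clm_apply hw
  exact h1.prodMk h2

lemma yv_mem (hq : q ∈ TS G) (hm : ∀ t, w t ∈ G.T q.1) (t : ℝ) : (yv G q w w' t).1 ∈ TS G :=
  ⟨(fl_mem G hq t).1, PT_mem hq t (hm t)⟩

lemma tanTS_yv (hq : q ∈ TS G) (hm : ∀ t, w t ∈ G.T q.1) {t : ℝ} (hw : HasDerivAt w (w' t) t) :
    TanTS G (yv G q w w' t).1 (yv G q w w' t).2 := by
  refine ⟨fun s => (yv G q w w' (t + s)).1, by simp, ?_, ?_⟩
  · have h1 := hasDerivAt_yv hq hw
    have h3 : HasDerivAt (fun t => (yv G q w w' t).1) (yv G q w w' t).2 (t + 0) := by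
      rw [add_zero]; exact h1
    exact h3.comp_const_add t 0
  · exact Eventually.of_forall fun s => yv_mem hq hm _

lemma w'_mem (hm : ∀ t, w t ∈ G.T q.1) {t : ℝ} (hw : HasDerivAt w (w' t) t) :
    w' t ∈ G.T q.1 := by
  have hcl : IsClosed (G.T q.1 : Set (Euc N)) := Submodule.closed_of_finiteDimensional _
  have h1 := hw.tendsto_slope
  refine hcl.mem_of_tendsto h1 (Eventually.of_forall fun s => ?_)
  rw [slope_def_module]
  exact (G.T q.1).smul_mem _ ((G.T q.1).sub_mem (hm _) (hm _))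

lemma P_yv (hq : q ∈ TS G) (hm : ∀ t, w t ∈ G.T q.1) {t : ℝ} (hw : HasDerivAt w (w' t) t) :
    G.P (yv G q w w' t).1.1 (yv G q w w' t).2.2 = PT G q t (w' t) := by
  have hqt := fl_mem G hq t
  have h1 : PT G q t (w t) ∈ G.T (fl G (q, t)).1 := PT_mem hq t (hm t)
  have h2 : PT G q t (w' t) ∈ G.T (fl G (q, t)).1 := PT_mem hq t (w'_mem hm hw)
  change G.P (fl G (q, t)).1 (Om G (fl G (q, t)) (PT G q t (w t)) + PT G q t (w' t)) = _
  rw [map_add, (P_eq_self G hqt.1).1 h2, Om_tangent hqt h1, dP_tangent_normal hqt h1, zero_add]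

lemma chi_yv (hq : q ∈ TS G) (hm : ∀ t, w t ∈ G.T q.1) {t : ℝ} (hw : HasDerivAt w (w' t) t) :
    chi G (yv G q w w' t).1 (yv G q w w' t).2 0 = ‖w' t‖ ^ 2 - ⟪Rh G q t (w t), w t⟫ := by
  rw [chi_zero (tanTS_yv hq hm hw), P_yv hq hm hw, norm_PT hq, Rh_apply, inner_PTi_left]
  rfl

lemma inner_yv (hq : q ∈ TS G) (hm : ∀ t, w t ∈ G.T q.1) {t : ℝ} (hw : HasDerivAt w (w' t) t) :
    ⟪G.P (yv G q w w' t).1.1 (yv G q w w' t).2.2, (yv G q w w' t).2.1⟫ = ⟪w' t, q.2⟫ := by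
  rw [P_yv hq hm hw]
  change ⟪PT G q t (w' t), (fl G (q, t)).2⟫ = _
  rw [← PT_velocity hq, inner_PT hq]

/-- the varied curve -/
def cur (G : Geo n N κ S) (q : Euc N × Euc N) (w : ℝ → Euc N) (ε t : ℝ) : Euc N :=
  Exp G (fl G (q, t)).1 (ε • PT G q t (w t))

lemma cur_eq (hq : q ∈ TS G) (hm : ∀ t, w t ∈ G.T q.1) (ε t : ℝ) :
    cur G q w ε t = (fl G ((yv G q w w' t).1, ε)).1 := by
  rw [cur, Exp_smul G (fl_mem G hq t).1 (PT_mem hq t (hm t))]
  rfl

lemma hasDerivAt_cur (hq : q ∈ TS G) (hm : ∀ t, w t ∈ G.T q.1) {t : ℝ}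
    (hw : HasDerivAt w (w' t) t) (ε : ℝ) :
    HasDerivAt (cur G q w ε) (JF G (yv G q w w' t).1 (yv G q w w' t).2 ε) t := by
  have h0 : cur G q w ε = fun t => (fl G ((yv G q w w' t).1, ε)).1 :=
    funext fun t => cur_eq hq hm ε t
  rw [h0]
  have h1 : HasDerivAt (fun t => ((yv G q w w' t).1, ε)) ((yv G q w w' t).2, (0 : ℝ)) t :=
    (hasDerivAt_yv hq hw).prodMk (hasDerivAt_const _ _)
  have h2 : DifferentiableAt ℝ (fl G) ((yv G q w w' t).1, ε) :=
    (contDiffAt_fl' G (yv_mem hq hm t) ε).differentiableAt (by simp)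
  have h3 := h2.hasFDerivAt.comp_hasDerivAt t h1
  exact hda_fst h3

lemma cur_mem (hq : q ∈ TS G) (hm : ∀ t, w t ∈ G.T q.1) (ε t : ℝ) : cur G q w ε t ∈ S :=
  Exp_mem G (fl_mem G hq t).1 ((G.T _).smul_mem _ (PT_mem hq t (hm t)))

lemma continuous_yv (hq : q ∈ TS G) (hw : Continuous w) (hw' : Continuous w') :
    Continuous (yv G q w w') := by
  have h1 := (contDiff_fl_t hq).continuous
  have h2 := (contDiff_PT hq).continuous
  have h3 : Continuous fun t => Om G (fl G (q, t)) := (contDiff_Om G).continuous.comp h1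
  exact ((h1.fst.prodMk (h2.clm_apply hw))).prodMk (h1.snd.prodMk
    ((h3.clm_apply (h2.clm_apply hw)).add (h2.clm_apply hw')))

/-- the index form on `[a,b]` -/
def Ind (G : Geo n N κ S) (q : Euc N × Euc N) (w w' : ℝ → Euc N) (a b : ℝ) : ℝ :=
  ∫ t in a..b, (‖w' t‖ ^ 2 - ⟪Rh G q t (w t), w t⟫)

lemma continuous_JFyv (hq : q ∈ TS G) (hm : ∀ t, w t ∈ G.T q.1) (hwc : Continuous w)
    (hw' : Continuous w') (ε : ℝ) :
    Continuous fun t => JF G (yv G q w w' t).1 (yv G q w w' t).2 ε := by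
  rw [continuous_iff_continuousAt]
  intro t
  have h1 := (continuousAt_Dfl (G := G) (z := (yv G q w w' t).2) (yv_mem (w' := w') hq hm t) ε).fst
  have h2 : ContinuousAt (fun t => (yv G q w w' t, ε)) t :=
    ((continuous_yv hq hwc hw').continuousAt).prodMk continuousAt_const
  exact ContinuousAt.comp (f := fun t => (yv G q w w' t, ε))
    (g := fun y : ((Euc N × Euc N) × (Euc N × Euc N)) × ℝ => JF G y.1.1 y.1.2 y.2) h1 h2

/-- **second variation of the energy** -/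
theorem energy_expand (hq : q ∈ TS G) (h1 : ‖q.2‖ = 1) (hw : ∀ t, HasDerivAt w (w' t) t)
    (hw' : Continuous w') (hm : ∀ t, w t ∈ G.T q.1) {a b : ℝ} (hab : a ≤ b)
    (hbd : ⟪w b, q.2⟫ = ⟪w a, q.2⟫) {η : ℝ} (hη : 0 < η) :
    ∃ ε₀ > 0, ∀ ε ∈ Icc (0 : ℝ) ε₀,
      |(∫ t in a..b, 1/2 * ‖JF G (yv G q w w' t).1 (yv G q w w' t).2 ε‖ ^ 2) - (b - a) / 2 -
        1/2 * ε ^ 2 * Ind G q w w' a b| ≤ η * ε ^ 2 := by
  have hwc : Continuous w := continuous_iff_continuousAt.2 fun t => (hw t).continuousAt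
  set K : Set ((Euc N × Euc N) × (Euc N × Euc N)) := yv G q w w' '' Icc a b with hK
  have hKc : IsCompact K := isCompact_Icc.image (continuous_yv hq hwc hw')
  obtain ⟨ε₀, hε₀, h⟩ := expand_unif (G := G) hKc (by
    rintro _ ⟨t, -, rfl⟩; exact tanTS_yv hq hm (hw t)) (η := η / (b - a + 1))
    (by have : 0 < b - a + 1 := by linarith
        positivity)
  refine ⟨ε₀, hε₀, fun ε hε => ?_⟩
  have hcE := continuous_JFyv hq hm hwc hw' ε
  have hRc : Continuous fun t => ⟪Rh G q t (w t), w t⟫ :=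
    (((contDiff_Rh hq).continuous.clm_apply hwc)).inner hwc
  have i1 : IntervalIntegrable (fun t => 1/2 * ‖JF G (yv G q w w' t).1 (yv G q w w' t).2 ε‖ ^ 2)
      volume a b := (continuous_const.mul (hcE.norm.pow 2)).intervalIntegrable _ _
  have i3 : IntervalIntegrable (fun t => ε * ⟪w' t, q.2⟫) volume a b :=
    (continuous_const.mul (hw'.inner continuous_const)).intervalIntegrable _ _
  have i4 : IntervalIntegrable (fun t => 1/2 * ε ^ 2 * (‖w' t‖ ^ 2 - ⟪Rh G q t (w t), w t⟫))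
      volume a b := (continuous_const.mul ((hw'.norm.pow 2).sub hRc)).intervalIntegrable _ _
  have hFTC : ∫ t in a..b, ε * ⟪w' t, q.2⟫ = 0 := by
    rw [intervalIntegral.integral_const_mul]
    have h2 : ∀ t, HasDerivAt (fun t => ⟪w t, q.2⟫) ⟪w' t, q.2⟫ t := fun t => by
      simpa using (hw t).inner ℝ (hasDerivAt_const t q.2)
    rw [intervalIntegral.integral_eq_sub_of_hasDerivAt (fun t _ => h2 t)
      ((hw'.inner continuous_const).intervalIntegrable _ _), hbd, sub_self, mul_zero]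
  have hkey : (∫ t in a..b, 1/2 * ‖JF G (yv G q w w' t).1 (yv G q w w' t).2 ε‖ ^ 2) -
      (b - a) / 2 - 1/2 * ε ^ 2 * Ind G q w w' a b =
      ∫ t in a..b, (1/2 * ‖JF G (yv G q w w' t).1 (yv G q w w' t).2 ε‖ ^ 2 - 1/2 -
        ε * ⟪w' t, q.2⟫ - 1/2 * ε ^ 2 * (‖w' t‖ ^ 2 - ⟪Rh G q t (w t), w t⟫)) := by
    rw [intervalIntegral.integral_sub ((i1.sub intervalIntegrable_const).sub i3) i4,
      intervalIntegral.integral_sub (i1.sub intervalIntegrable_const) i3,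
      intervalIntegral.integral_sub i1 intervalIntegrable_const, hFTC,
      intervalIntegral.integral_const, intervalIntegral.integral_const_mul, Ind]
    simp
    ring
  rw [hkey, ← Real.norm_eq_abs]
  have hb : ∀ t ∈ uIoc a b, ‖(1/2 * ‖JF G (yv G q w w' t).1 (yv G q w w' t).2 ε‖ ^ 2 - 1/2 -
        ε * ⟪w' t, q.2⟫ - 1/2 * ε ^ 2 * (‖w' t‖ ^ 2 - ⟪Rh G q t (w t), w t⟫))‖ ≤
        η / (b - a + 1) * ε ^ 2 := by
    intro t ht
    rw [uIoc_of_le hab] at ht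
    have h3 := h (yv G q w w' t) ⟨t, Ioc_subset_Icc_self ht, rfl⟩ ε hε
    rw [inner_yv hq hm (hw t), chi_yv hq hm (hw t)] at h3
    have h4 : ‖(yv G q w w' t).2.1‖ = 1 := by
      change ‖(fl G (q, t)).2‖ = 1
      rw [norm_fl G hq, h1]
    rw [h4] at h3
    rw [Real.norm_eq_abs]
    convert h3 using 3
    norm_num
  refine (intervalIntegral.norm_integral_le_of_norm_le_const hb).trans ?_
  rw [abs_of_nonneg (sub_nonneg.2 hab)]
  have h5 : 0 < b - a + 1 := by linarith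
  rw [div_mul_eq_mul_div, div_mul_eq_mul_div, div_le_iff₀ h5]
  have h6 : 0 ≤ η * ε ^ 2 := by positivity
  nlinarith

/-- **the index form is non-negative on Dirichlet fields of minimal geodesics** -/
theorem dirichlet (hB : Bl n N κ S G Real.pi) (hq : q ∈ TS G) (h1 : ‖q.2‖ = 1)
    (hw : ∀ t, HasDerivAt w (w' t) t) (hw' : Continuous w') (hm : ∀ t, w t ∈ G.T q.1) {a : ℝ}
    (ha : w a = 0) (hb : w (a + Real.pi) = 0) : 0 ≤ Ind G q w w' a (a + Real.pi) := by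
  have hπ := Real.pi_pos
  have hwc : Continuous w := continuous_iff_continuousAt.2 fun t => (hw t).continuousAt
  have hab : a ≤ a + Real.pi := by linarith
  refine le_of_forall_pos_le_add fun η hη => ?_
  obtain ⟨ε₀, hε₀, h⟩ := energy_expand hq h1 hw hw' hm hab (by rw [ha, hb])
    (η := η / 2) (by positivity)
  have h2 := h ε₀ ⟨hε₀.le, le_rfl⟩
  have hcE := continuous_JFyv hq hm hwc hw' ε₀
  have h3 := (intrinsicDist_le_integral hB.sub hB.cpt hab
    (c := cur G q w ε₀) (c' := fun t => JF G (yv G q w w' t).1 (yv G q w w' t).2 ε₀)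
    (fun t _ => cur_mem hq hm ε₀ t)
    (fun t _ => (hasDerivAt_cur hq hm (hw t) ε₀).hasDerivWithinAt) hcE.continuousOn).2
  have e1 : cur G q w ε₀ a = (fl G (q, a)).1 := by
    rw [cur, ha, map_zero, smul_zero, Exp_zero G (fl_mem G hq a).1]
  have e2 : cur G q w ε₀ (a + Real.pi) = (fl G (q, a + Real.pi)).1 := by
    rw [cur, hb, map_zero, smul_zero, Exp_zero G (fl_mem G hq _).1]
  rw [e1, e2, hB.dist_fl q hq h1 a (a + Real.pi) hab (by linarith)] at h3
  have h4 : ∫ t in a..(a + Real.pi), ‖JF G (yv G q w w' t).1 (yv G q w w' t).2 ε₀‖ ≤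
      ∫ t in a..(a + Real.pi),
        (1/2 + 1/2 * ‖JF G (yv G q w w' t).1 (yv G q w w' t).2 ε₀‖ ^ 2) := by
    refine intervalIntegral.integral_mono_on hab (hcE.norm.intervalIntegrable _ _)
      ((continuous_const.add (continuous_const.mul (hcE.norm.pow 2))).intervalIntegrable _ _)
      fun t _ => ?_
    nlinarith [sq_nonneg (‖JF G (yv G q w w' t).1 (yv G q w w' t).2 ε₀‖ - 1)]
  have i1 : IntervalIntegrable (fun t => 1/2 * ‖JF G (yv G q w w' t).1 (yv G q w w' t).2 ε₀‖ ^ 2)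
      volume a (a + Real.pi) := (continuous_const.mul (hcE.norm.pow 2)).intervalIntegrable _ _
  rw [intervalIntegral.integral_add intervalIntegrable_const i1,
    intervalIntegral.integral_const] at h4
  have h5 := (abs_le.1 h2).2
  have h6 : (a + Real.pi - a) = Real.pi := by ring
  rw [h6] at h2 h3 h4 h5
  simp only [smul_eq_mul] at h4
  have h7 : 0 ≤ 1/2 * ε₀ ^ 2 * Ind G q w w' a (a + Real.pi) + η / 2 * ε₀ ^ 2 := by linarith
  have h8 : 0 < ε₀ ^ 2 := by positivity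
  by_contra hcon
  push Not at hcon
  have : 1/2 * ε₀ ^ 2 * Ind G q w w' a (a + Real.pi) + η / 2 * ε₀ ^ 2 =
    ε₀ ^ 2 / 2 * (Ind G q w w' a (a + Real.pi) + η) := by ring
  rw [this] at h7
  have : ε₀ ^ 2 / 2 * (Ind G q w w' a (a + Real.pi) + η) < 0 :=
    mul_neg_of_pos_of_neg (by positivity) hcon
  linarith

end Crest.Agent.R208.NB
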