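import Crest.Agent.R208.NB1

/-! Row 208, block NB (helper537), part NB2: Jacobi fields with prescribed values at `0` and `π`;
the index form of a closed geodesic is non-negative on an explicit subspace of codimension `k - 1`
(periodic fields), `(k - 1) + (n - 1)` (antiperiodic fields). -/

set_option autoImplicit false
set_option linter.unusedSectionVars false
set_option linter.unusedVariables false

open MeasureTheory Set Filter Topology
open scoped ContDiff RealInnerProductSpace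
open Crest.GeometryTopology.Submanifold
open Crest.Agent.R241.DDefs
open Crest.Agent.R241.D2
open Crest.Agent.R208.J

noncomputable section

namespace Crest.Agent.R208.NB

/-! ### integration by parts -/
section ibp
variable {E : Type*} [NormedAddCommGroup E] [InnerProductSpace ℝ E] [CompleteSpace E]
  {R : ℝ → E →L[ℝ] E} {j j' x x' : ℝ → E}

/-- polarised index form -/
def IndB (R : ℝ → E →L[ℝ] E) (w w' x x' : ℝ → E) (a b : ℝ) : ℝ :=
  ∫ t in a..b, (⟪w' t, x' t⟫ - ⟪R t (w t), x t⟫)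

theorem IndB_jac (hR : Continuous R) (h : IsJac R j j') (hx : ∀ t, HasDerivAt x (x' t) t)
    (hx' : Continuous x') (a b : ℝ) :
    IndB R j j' x x' a b = ⟪j' b, x b⟫ - ⟪j' a, x a⟫ := by
  have hj : Continuous j := continuous_iff_continuousAt.2 fun t => (h.fst t).continuousAt
  have hj' : Continuous j' := continuous_iff_continuousAt.2 fun t => (h.snd t).continuousAt
  have hxc : Continuous x := continuous_iff_continuousAt.2 fun t => (hx t).continuousAt
  have h1 : ∀ t, HasDerivAt (fun t => ⟪j' t, x t⟫) (⟪j' t, x' t⟫ - ⟪R t (j t), x t⟫) t := by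
    intro t
    have := (h.snd t).inner ℝ (hx t)
    refine this.congr_deriv ?_
    rw [inner_neg_left]; ring
  exact intervalIntegral.integral_eq_sub_of_hasDerivAt (fun t _ => h1 t)
    (((hj'.inner hx').sub ((hR.clm_apply hj).inner hxc)).intervalIntegrable _ _)

end ibp

variable {n N : ℕ} {κ : ℝ} {S : Set (Euc N)} {G : Geo n N κ S} {q : Euc N × Euc N}
  {w w' : ℝ → Euc N} {a b ξ η u : Euc N}

/-! ### normal Jacobi fields -/

lemma isJac_const (hq : q ∈ TS G) : IsJac (Rh G q) (fun _ => q.2) (fun _ => 0) :=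
  ⟨fun t => hasDerivAt_const t _, fun t => by
    rw [Rh_velocity hq, neg_zero]; exact hasDerivAt_const t _⟩

lemma isJac_lin (hq : q ∈ TS G) : IsJac (Rh G q) (fun t => t • q.2) (fun _ => q.2) :=
  ⟨fun t => by simpa using (hasDerivAt_id t).smul_const q.2, fun t => by
    rw [map_smul, Rh_velocity hq, smul_zero, neg_zero]; exact hasDerivAt_const t _⟩

lemma isJac_perp (hq : q ∈ TS G) {j j' : ℝ → Euc N} (h : IsJac (Rh G q) j j')
    (h0 : ⟪j 0, q.2⟫ = 0) (h1 : ⟪j' 0, q.2⟫ = 0) (t : ℝ) : ⟪j t, q.2⟫ = 0 ∧ ⟪j' t, q.2⟫ = 0 := by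
  have e1 := h.wronskian (fun t a b => inner_Rh hq t a b) (isJac_const hq) 0 t
  have e2 := h.wronskian (fun t a b => inner_Rh hq t a b) (isJac_lin hq) 0 t
  simp only [inner_zero_right, sub_zero, zero_smul, zero_sub, inner_smul_right] at e1 e2
  rw [h1] at e1
  rw [h0, e1] at e2
  exact ⟨by linarith, e1⟩

lemma Wj_Vp (hq : q ∈ TS G) (ha : a ∈ Vp G q) (hb : b ∈ Vp G q) (t : ℝ) :
    Wj G q a b t ∈ Vp G q ∧ Wj' G q a b t ∈ Vp G q := by
  rw [mem_Vp] at ha hb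
  have h := isJac_perp hq (isJac_Wj hq ha.1 hb.1) (by rw [Wj_zero]; exact ha.2)
    (by rw [Wj'_zero hq ha.1 hb.1]; exact hb.2) t
  exact ⟨mem_Vp.2 ⟨Wj_mem hq ha.1 hb.1 t, h.1⟩, mem_Vp.2 ⟨Wj'_mem hq a b t, h.2⟩⟩

/-- the linearised flow is periodic on vectors tangent to the unit sphere bundle -/
lemma per_Dfl (hper : HS.Per G) {z : Euc N × Euc N} (hz : TanTS G q z) (h1 : ‖q.2‖ = 1)
    (hz2 : ⟪q.2, z.2⟫ = 0) (t : ℝ) : Dfl G q (t + 2 * Real.pi) z = Dfl G q t z := by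
  have hq := hz.mem
  obtain ⟨c, h0, hc, hm⟩ := hz
  -- the normalised curve
  set c1 : ℝ → Euc N × Euc N := fun s => ((c s).1, (‖(c s).2‖)⁻¹ • (c s).2) with hc1
  have hn : HasDerivAt (fun s => ‖(c s).2‖) 0 0 := by
    have h2 := (hda_snd hc).norm_sq
    have h3 : HasDerivAt (fun s : ℝ => Real.sqrt (‖(c s).2‖ ^ 2)) _ 0 :=
      h2.sqrt (by simp [h0, h1])
    have h4 : (fun s : ℝ => Real.sqrt (‖(c s).2‖ ^ 2)) = fun s => ‖(c s).2‖ := by
      ext1 s; exact Real.sqrt_sq (norm_nonneg _)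
    rw [h4] at h3
    refine h3.congr_deriv ?_
    rw [h0, hz2]; simp
  have hd : HasDerivAt c1 z 0 := by
    have h3 := (hn.inv (by rw [h0, h1]; exact one_ne_zero)).smul (hda_snd hc)
    have h4 := (hda_fst hc).prodMk h3
    refine h4.congr_deriv ?_
    simp [h0, h1]
  have h01 : c1 0 = q := by simp [hc1, h0, h1]
  have hpos : ∀ᶠ s in 𝓝 (0 : ℝ), (c s).2 ≠ 0 := by
    have hcc : ContinuousAt (fun s => (c s).2) 0 := hc.continuousAt.snd
    refine hcc.eventually_ne ?_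
    rw [h0]
    intro h; rw [h, norm_zero] at h1; exact zero_ne_one h1
  have hm1 : ∀ᶠ s in 𝓝 (0 : ℝ), c1 s ∈ TS G ∧ ‖(c1 s).2‖ = 1 := by
    filter_upwards [hm, hpos] with s hs hs0
    refine ⟨⟨hs.1, (G.T _).smul_mem _ hs.2⟩, ?_⟩
    change ‖(‖(c s).2‖)⁻¹ • (c s).2‖ = 1
    rw [norm_smul, norm_inv, norm_norm, inv_mul_cancel₀ (norm_ne_zero_iff.2 hs0)]
  have key : ∀ r : ℝ, HasDerivAt (fun s => fl G (c1 s, r)) (Dfl G q r z) 0 := by
    intro r
    have h3 : HasDerivAt (fun s => (c1 s, r)) (z, (0 : ℝ)) 0 := hd.prodMk (hasDerivAt_const _ _)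
    have h4 : DifferentiableAt ℝ (fl G) (c1 0, r) := by
      rw [h01]; exact (contDiffAt_fl' G hq r).differentiableAt (by simp)
    have h5 := h4.hasFDerivAt.comp_hasDerivAt (0 : ℝ) h3
    rw [h01] at h5
    exact h5
  have h5 := key (t + 2 * Real.pi)
  have h6 := key t
  refine (h5.congr_of_eventuallyEq ?_).unique h6
  filter_upwards [hm1] with s hs
  rw [add_comm, fl_add' G hs.1, hper _ hs.1 hs.2]

lemma Wj_periodic (hper : HS.Per G) (hq : q ∈ TS G) (h1 : ‖q.2‖ = 1) (ha : a ∈ Vp G q)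
    (hb : b ∈ Vp G q) :
    PT G q (2 * Real.pi) (Wj G q a b (2 * Real.pi)) = a ∧
      PT G q (2 * Real.pi) (Wj' G q a b (2 * Real.pi)) = b := by
  rw [mem_Vp] at ha hb
  have h2 : ⟪q.2, dP G q a + b⟫ = 0 := by
    rw [inner_add_right, real_inner_comm, inner_dP hq.1 hq.2, real_inner_comm b, hb.2, add_zero]
    have h3 := dP_tangent_normal hq hq.2
    rw [← (P_eq_self G hq.1).1 ha.1, inner_P_left G hq.1, h3, inner_zero_right]
  have h3 := per_Dfl hper (tanTS_of' hq ha.1 hb.1) h1 h2 0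
  rw [zero_add, Dfl_zero] at h3
  rw [PT_Wj hq, PT_Wj' hq, JF, JF', h3, hper q hq h1]
  refine ⟨rfl, ?_⟩
  change G.P q.1 (dP G q a + b) = b
  rw [map_add, dP_tangent_normal hq ha.1, zero_add, (P_eq_self G hq.1).1 hb.1]

/-- a normal Jacobi field with prescribed values at `0` and `π` -/
lemma exists_jac (hq : q ∈ TS G) (h1 : ‖q.2‖ = 1) (hξ : ξ ∈ Vp G q) (hη : η ∈ Vp G q)
    (h : ∀ u ∈ Vp G q, At G q 0 Real.pi u = 0 → ⟪u, ξ⟫ = ⟪At' G q 0 Real.pi u, η⟫) :
    ∃ b ∈ Vp G q, Wj G q ξ b Real.pi = η := by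
  set x := η - Wj G q ξ 0 Real.pi with hx
  have hxV : x ∈ Vp G q := (Vp G q).sub_mem hη (Wj_Vp hq hξ (Vp G q).zero_mem _).1
  set Rg : Submodule ℝ (Euc N) := (Vp G q).map (At G q 0 Real.pi).toLinearMap with hRg
  have hRV : Rg ≤ Vp G q := by
    rintro _ ⟨y, hy, rfl⟩; exact At_Vp hq 0 _ hy
  set r := Rg.starProjection x with hr
  set e := x - r with he
  have hrR : r ∈ Rg := Submodule.starProjection_apply_mem _ _
  have heO : e ∈ Rgᗮ := Submodule.sub_starProjection_mem_orthogonal (K := Rg) x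
  have heV : e ∈ Vp G q := (Vp G q).sub_mem hxV (hRV hrR)
  have h3 : At G q Real.pi 0 e = 0 := by
    have h4 : ∀ y ∈ Vp G q, ⟪y, At G q Real.pi 0 e⟫ = 0 := by
      intro y hy
      have h5 := (Submodule.mem_orthogonal _ _).1 heO (At G q 0 Real.pi y) ⟨y, hy, rfl⟩
      rw [inner_At hq] at h5
      linarith
    exact inner_self_eq_zero.1 (h4 _ (At_Vp hq _ _ heV))
  set u := At' G q Real.pi 0 e with hu
  have huV : u ∈ Vp G q := At'_Vp hq _ _ heV
  have h4 := (isJac_At hq 0 u).unique (contDiff_Rh hq).continuous (isJac_At hq Real.pi e)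
    (t₀ := 0) (by rw [At_self hq, h3]) (by
      rw [At'_self hq, (P_eq_self G hq.1).1 (mem_Vp.1 huV).1]) Real.pi
  rw [At_self hq, At'_self hq, (P_eq_self G hq.1).1 (mem_Vp.1 heV).1] at h4
  -- Wronskian with `Wj ξ 0`
  have h5 := (isJac_At hq 0 u).wronskian (fun t a b => inner_Rh hq t a b)
    (isJac_Wj hq (mem_Vp.1 hξ).1 (b := 0) (G.T _).zero_mem) 0 Real.pi
  rw [h4.1, h4.2, At_self hq, At'_self hq, (P_eq_self G hq.1).1 (mem_Vp.1 huV).1, Wj_zero,
    inner_zero_left, inner_zero_left, sub_zero, sub_zero] at h5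
  have h6 := h u huV h4.1
  rw [h4.2] at h6
  have h7 : ⟪e, x⟫ = 0 := by rw [hx, inner_sub_right, h5, ← h6, sub_self]
  have h8 : ⟪e, r⟫ = 0 := by
    rw [real_inner_comm]; exact (Submodule.mem_orthogonal _ _).1 heO r hrR
  have h9 : e = 0 := by
    have : ⟪e, e⟫ = 0 := by
      conv_lhs => rw [he, inner_sub_right, ← he]
      rw [h7, h8, sub_zero]
    exact inner_self_eq_zero.1 this
  have h10 : x ∈ Rg := by
    have : x = r := sub_eq_zero.1 h9
    rw [this]; exact hrR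
  obtain ⟨b, hb, hbx⟩ := h10
  have hbx' : At G q 0 Real.pi b = x := hbx
  refine ⟨b, hb, ?_⟩
  have h11 : Wj G q ξ b Real.pi = Wj G q ξ 0 Real.pi + At G q 0 Real.pi b := by
    have h12 := (isJac_Wj hq (mem_Vp.1 hξ).1 (mem_Vp.1 hb).1).unique (contDiff_Rh hq).continuous
      ((isJac_Wj hq (mem_Vp.1 hξ).1 (b := 0) (G.T _).zero_mem).add (isJac_At hq 0 b)) (t₀ := 0)
      (by simp only [Wj_zero, At_self hq, add_zero])
      (by rw [Wj'_zero hq (mem_Vp.1 hξ).1 (mem_Vp.1 hb).1,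
            Wj'_zero hq (mem_Vp.1 hξ).1 (G.T _).zero_mem, At'_self hq,
            (P_eq_self G hq.1).1 (mem_Vp.1 hb).1, zero_add]) Real.pi
    exact h12.1
  rw [h11, hbx', hx]
  abel

/-! ### splitting off the tangential part -/

/-- the normal part -/
lemma Ind_split (hq : q ∈ TS G) (h1 : ‖q.2‖ = 1) (hw : ∀ t, HasDerivAt w (w' t) t)
    (hw' : Continuous w') (a b : ℝ) :
    Ind G q w w' a b = Ind G q (fun t => w t - ⟪w t, q.2⟫ • q.2) (fun t => w' t - ⟪w' t, q.2⟫ • q.2)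
      a b + ∫ t in a..b, ⟪w' t, q.2⟫ ^ 2 := by
  have hwc : Continuous w := continuous_iff_continuousAt.2 fun t => (hw t).continuousAt
  have hRc : Continuous fun t => ⟪Rh G q t (w t), w t⟫ :=
    ((contDiff_Rh hq).continuous.clm_apply hwc).inner hwc
  have hp : ∀ t, ‖w' t‖ ^ 2 - ⟪Rh G q t (w t), w t⟫ = (‖w' t - ⟪w' t, q.2⟫ • q.2‖ ^ 2 -
      ⟪Rh G q t (w t - ⟪w t, q.2⟫ • q.2), w t - ⟪w t, q.2⟫ • q.2⟫) + ⟪w' t, q.2⟫ ^ 2 := by
    intro t
    have e1 : ‖w' t - ⟪w' t, q.2⟫ • q.2‖ ^ 2 = ‖w' t‖ ^ 2 - ⟪w' t, q.2⟫ ^ 2 := by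
      rw [norm_sub_sq_real, inner_smul_right, norm_smul, h1, mul_one, Real.norm_eq_abs, sq_abs]
      ring
    have e2 : Rh G q t (w t - ⟪w t, q.2⟫ • q.2) = Rh G q t (w t) := by
      rw [map_sub, map_smul, Rh_velocity hq, smul_zero, sub_zero]
    rw [e1, e2, inner_sub_right, inner_smul_right, inner_Rh_velocity hq]
    ring
  have hc1 : Continuous fun t => ⟪w' t, q.2⟫ := hw'.inner continuous_const
  have hc0 : Continuous fun t => ⟪w t, q.2⟫ := hwc.inner continuous_const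
  have i1 : Continuous fun t => (‖w' t - ⟪w' t, q.2⟫ • q.2‖ ^ 2 -
      ⟪Rh G q t (w t - ⟪w t, q.2⟫ • q.2), w t - ⟪w t, q.2⟫ • q.2⟫) := by
    refine ((hw'.sub (hc1.smul continuous_const)).norm.pow 2).sub (Continuous.inner ?_ ?_)
    · exact (contDiff_Rh hq).continuous.clm_apply (hwc.sub (hc0.smul continuous_const))
    · exact hwc.sub (hc0.smul continuous_const)
  have i2 : Continuous fun t => ⟪w' t, q.2⟫ ^ 2 := hc1.pow 2
  exact (intervalIntegral.integral_congr fun t _ => hp t).trans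
    (intervalIntegral.integral_add (i1.intervalIntegrable _ _) (i2.intervalIntegrable _ _))

lemma Ind_add_jac (hq : q ∈ TS G) {j j' x x' : ℝ → Euc N} (hj : IsJac (Rh G q) j j')
    (hx : ∀ t, HasDerivAt x (x' t) t) (hx' : Continuous x') (a b : ℝ) :
    Ind G q (fun t => j t + x t) (fun t => j' t + x' t) a b =
      (⟪j' b, j b⟫ - ⟪j' a, j a⟫) + 2 * (⟪j' b, x b⟫ - ⟪j' a, x a⟫) + Ind G q x x' a b := by
  have hR := (contDiff_Rh hq).continuous
  have hjc : Continuous j := continuous_iff_continuousAt.2 fun t => (hj.fst t).continuousAt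
  have hjc' : Continuous j' := continuous_iff_continuousAt.2 fun t => (hj.snd t).continuousAt
  have hxc : Continuous x := continuous_iff_continuousAt.2 fun t => (hx t).continuousAt
  rw [← IndB_jac hR hj hj.fst hjc' a b, ← IndB_jac hR hj hx hx' a b]
  unfold Ind IndB
  have i1 : Continuous fun t => ⟪j' t, j' t⟫ - ⟪Rh G q t (j t), j t⟫ :=
    (hjc'.inner hjc').sub ((hR.clm_apply hjc).inner hjc)
  have i2 : Continuous fun t => ⟪j' t, x' t⟫ - ⟪Rh G q t (j t), x t⟫ :=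
    (hjc'.inner hx').sub ((hR.clm_apply hjc).inner hxc)
  have i3 : Continuous fun t => ‖x' t‖ ^ 2 - ⟪Rh G q t (x t), x t⟫ :=
    (hx'.norm.pow 2).sub ((hR.clm_apply hxc).inner hxc)
  have i2' : Continuous fun t => 2 * (⟪j' t, x' t⟫ - ⟪Rh G q t (j t), x t⟫) :=
    continuous_const.mul i2
  have i12 : Continuous fun t => (⟪j' t, j' t⟫ - ⟪Rh G q t (j t), j t⟫) +
      2 * (⟪j' t, x' t⟫ - ⟪Rh G q t (j t), x t⟫) := i1.add i2'
  rw [← intervalIntegral.integral_const_mul]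
  refine Eq.trans ?_ (congrArg (· + _) (intervalIntegral.integral_add
    (i1.intervalIntegrable _ _) (i2'.intervalIntegrable _ _)))
  refine Eq.trans ?_ (intervalIntegral.integral_add (i12.intervalIntegrable _ _)
    (i3.intervalIntegrable _ _))
  refine intervalIntegral.integral_congr fun t _ => ?_
  simp only
  rw [norm_add_sq_real, map_add, inner_add_left, inner_add_right, inner_add_right,
    real_inner_self_eq_norm_sq, inner_Rh hq t (x t) (j t), real_inner_comm (x t)]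
  ring

theorem index_nonneg_of_jac (hB : Bl n N κ S G Real.pi) (hq : q ∈ TS G) (h1 : ‖q.2‖ = 1)
    (hw : ∀ t, HasDerivAt w (w' t) t) (hw' : Continuous w') (hm : ∀ t, w t ∈ G.T q.1)
    (ha : a ∈ Vp G q) (hb : b ∈ Vp G q)
    (e0 : w 0 - ⟪w 0, q.2⟫ • q.2 = a) (eπ : w Real.pi - ⟪w Real.pi, q.2⟫ • q.2 = Wj G q a b Real.pi)
    (e2 : w (2 * Real.pi) - ⟪w (2 * Real.pi), q.2⟫ • q.2 = Wj G q a b (2 * Real.pi))
    (hbd : ⟪Wj' G q a b (2 * Real.pi), Wj G q a b (2 * Real.pi)⟫ = ⟪b, a⟫) :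
    0 ≤ Ind G q w w' 0 (2 * Real.pi) := by
  have hπ := Real.pi_pos
  have haT := (mem_Vp.1 ha).1
  have hbT := (mem_Vp.1 hb).1
  have hJ := isJac_Wj hq haT hbT
  have hJc' : Continuous (Wj' G q a b) :=
    continuous_iff_continuousAt.2 fun t => (hJ.snd t).continuousAt
  rw [Ind_split hq h1 hw hw']
  have hnn : 0 ≤ ∫ t in (0 : ℝ)..(2 * Real.pi), ⟪w' t, q.2⟫ ^ 2 :=
    intervalIntegral.integral_nonneg (by linarith) fun t _ => sq_nonneg _
  set x : ℝ → Euc N := fun t => (w t - ⟪w t, q.2⟫ • q.2) - Wj G q a b t with hx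
  set x' : ℝ → Euc N := fun t => (w' t - ⟪w' t, q.2⟫ • q.2) - Wj' G q a b t with hx'
  have hc1 : Continuous fun t => ⟪w' t, q.2⟫ := hw'.inner continuous_const
  have hxd : ∀ t, HasDerivAt x (x' t) t := by
    intro t
    have h2 : HasDerivAt (fun t => ⟪w t, q.2⟫) ⟪w' t, q.2⟫ t := by
      simpa using (hw t).inner ℝ (hasDerivAt_const t q.2)
    exact ((hw t).sub (h2.smul_const q.2)).sub (hJ.fst t)
  have hxc' : Continuous x' := (hw'.sub (hc1.smul continuous_const)).sub hJc'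
  have hxm : ∀ t, x t ∈ G.T q.1 := fun t =>
    (G.T _).sub_mem ((G.T _).sub_mem (hm t) ((G.T _).smul_mem _ hq.2)) (Wj_mem hq haT hbT t)
  have hxc : Continuous x := continuous_iff_continuousAt.2 fun t => (hxd t).continuousAt
  have x0 : x 0 = 0 := by simp only [hx]; rw [e0, Wj_zero, sub_self]
  have xπ : x Real.pi = 0 := by simp only [hx]; rw [eπ, sub_self]
  have x2 : x (2 * Real.pi) = 0 := by simp only [hx]; rw [e2, sub_self]
  have key : Ind G q (fun t => w t - ⟪w t, q.2⟫ • q.2) (fun t => w' t - ⟪w' t, q.2⟫ • q.2)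
      0 (2 * Real.pi) = Ind G q x x' 0 (2 * Real.pi) := by
    have h3 := Ind_add_jac hq hJ hxd hxc' 0 (2 * Real.pi)
    rw [x0, x2, inner_zero_right, inner_zero_right, hbd, Wj_zero, Wj'_zero hq haT hbT] at h3
    have e3 : (fun t => Wj G q a b t + x t) = fun t => w t - ⟪w t, q.2⟫ • q.2 := by
      funext t; simp only [hx]; abel
    have e4 : (fun t => Wj' G q a b t + x' t) = fun t => w' t - ⟪w' t, q.2⟫ • q.2 := by
      funext t; simp only [hx']; abel
    rw [e3, e4] at h3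
    rw [h3]; ring
  rw [key]
  have h4 := dirichlet hB hq h1 hxd hxc' hxm (a := 0) x0 (by rw [zero_add]; exact xπ)
  have h5 := dirichlet hB hq h1 hxd hxc' hxm (a := Real.pi) xπ
    (by rw [← two_mul]; exact x2)
  rw [zero_add] at h4
  rw [← two_mul] at h5
  have hRc : Continuous fun t => ‖x' t‖ ^ 2 - ⟪Rh G q t (x t), x t⟫ :=
    (hxc'.norm.pow 2).sub (((contDiff_Rh hq).continuous.clm_apply hxc).inner hxc)
  have h6 : Ind G q x x' 0 (2 * Real.pi) = Ind G q x x' 0 Real.pi +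
      Ind G q x x' Real.pi (2 * Real.pi) := by
    unfold Ind
    rw [intervalIntegral.integral_add_adjacent_intervals (hRc.intervalIntegrable _ _)
      (hRc.intervalIntegrable _ _)]
  linarith

lemma perp_Vp (hq : q ∈ TS G) (h1 : ‖q.2‖ = 1) {x : Euc N} (hx : x ∈ G.T q.1) :
    x - ⟪x, q.2⟫ • q.2 ∈ Vp G q := by
  refine mem_Vp.2 ⟨(G.T _).sub_mem hx ((G.T _).smul_mem _ hq.2), ?_⟩
  rw [inner_sub_left, inner_smul_left, real_inner_self_eq_norm_sq, h1]
  simp

lemma inner_perp {x y : Euc N} (hy : ⟪y, q.2⟫ = 0) : ⟪y, x - ⟪x, q.2⟫ • q.2⟫ = ⟪y, x⟫ := by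
  rw [inner_sub_right, inner_smul_right, hy, mul_zero, sub_zero]

/-- **upper bound for the index, periodic fields** -/
theorem index_nonneg_per (hB : Bl n N κ S G Real.pi) (hper : HS.Per G) (hq : q ∈ TS G)
    (h1 : ‖q.2‖ = 1) (hw : ∀ t, HasDerivAt w (w' t) t) (hw' : Continuous w')
    (hm : ∀ t, w t ∈ G.T q.1) (hw2 : PT G q (2 * Real.pi) (w (2 * Real.pi)) = w 0)
    (hs : ∀ u ∈ Vp G q, At G q 0 Real.pi u = 0 → ⟪u, w 0⟫ = ⟪At' G q 0 Real.pi u, w Real.pi⟫) :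
    0 ≤ Ind G q w w' 0 (2 * Real.pi) := by
  obtain ⟨b, hb, hbπ⟩ := exists_jac hq h1 (perp_Vp hq h1 (hm 0)) (perp_Vp hq h1 (hm Real.pi))
    (fun u hu hu0 => by
      rw [inner_perp (mem_Vp.1 hu).2, inner_perp (mem_Vp.1 (At'_Vp hq 0 _ hu)).2]
      exact hs u hu hu0)
  have ha := perp_Vp hq h1 (hm 0)
  have hP := Wj_periodic hper hq h1 ha hb
  have hv2 : PT G q (2 * Real.pi) q.2 = q.2 := by rw [PT_velocity hq, hper q hq h1]
  have hinj : ∀ x y : Euc N, PT G q (2 * Real.pi) x = PT G q (2 * Real.pi) y → x = y := by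
    intro x y hxy
    have := congrArg (PTi G q (2 * Real.pi)) hxy
    rwa [PTi_PT hq, PTi_PT hq] at this
  refine index_nonneg_of_jac hB hq h1 hw hw' hm ha hb rfl hbπ.symm ?_ ?_
  · apply hinj
    rw [hP.1, map_sub, map_smul, hw2, hv2]
    congr 2
    have : ⟪w (2 * Real.pi), q.2⟫ = ⟪w 0, q.2⟫ := by
      rw [← inner_PT hq (2 * Real.pi), hw2, hv2]
    rw [this]
  · rw [← inner_PT hq (2 * Real.pi), hP.1, hP.2]

/-- **upper bound for the index, antiperiodic fields** -/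
theorem index_nonneg_anti (hB : Bl n N κ S G Real.pi) (hper : HS.Per G) (hq : q ∈ TS G)
    (h1 : ‖q.2‖ = 1) (hw : ∀ t, HasDerivAt w (w' t) t) (hw' : Continuous w')
    (hm : ∀ t, w t ∈ G.T q.1) (hw2 : PT G q (2 * Real.pi) (w (2 * Real.pi)) = - w 0)
    (hw0 : ∀ u ∈ Vp G q, ⟪u, w 0⟫ = 0)
    (hs : ∀ u ∈ Vp G q, At G q 0 Real.pi u = 0 → ⟪At' G q 0 Real.pi u, w Real.pi⟫ = 0) :
    0 ≤ Ind G q w w' 0 (2 * Real.pi) := by
  have ha := perp_Vp hq h1 (hm 0)
  have ha0 : w 0 - ⟪w 0, q.2⟫ • q.2 = 0 := by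
    have h3 : ⟪w 0 - ⟪w 0, q.2⟫ • q.2, w 0 - ⟪w 0, q.2⟫ • q.2⟫ = 0 := by
      rw [inner_perp (mem_Vp.1 ha).2]; exact hw0 _ ha
    exact inner_self_eq_zero.1 h3
  obtain ⟨b, hb, hbπ⟩ := exists_jac hq h1 (Vp G q).zero_mem (perp_Vp hq h1 (hm Real.pi))
    (fun u hu hu0 => by
      rw [inner_zero_right, inner_perp (mem_Vp.1 (At'_Vp hq 0 _ hu)).2]
      exact (hs u hu hu0).symm)
  have hP := Wj_periodic hper hq h1 (Vp G q).zero_mem hb
  have hv2 : PT G q (2 * Real.pi) q.2 = q.2 := by rw [PT_velocity hq, hper q hq h1]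
  have hinj : ∀ x y : Euc N, PT G q (2 * Real.pi) x = PT G q (2 * Real.pi) y → x = y := by
    intro x y hxy
    have := congrArg (PTi G q (2 * Real.pi)) hxy
    rwa [PTi_PT hq, PTi_PT hq] at this
  refine index_nonneg_of_jac hB hq h1 hw hw' hm (Vp G q).zero_mem hb ha0 hbπ.symm ?_ ?_
  · apply hinj
    rw [hP.1, map_sub, map_smul, hw2, hv2]
    have : ⟪w (2 * Real.pi), q.2⟫ = - ⟪w 0, q.2⟫ := by
      rw [← inner_PT hq (2 * Real.pi), hw2, hv2, inner_neg_left]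
    rw [this]
    have h4 : - w 0 - (-⟪w 0, q.2⟫) • q.2 = -(w 0 - ⟪w 0, q.2⟫ • q.2) := by
      rw [neg_smul]; abel
    rw [h4, ha0, neg_zero]
  · rw [← inner_PT hq (2 * Real.pi), hP.1, hP.2]

/-! ### periodicity of the Jacobi tensor -/

lemma At_two_pi (hper : HS.Per G) (hq : q ∈ TS G) (h1 : ‖q.2‖ = 1) (hb : b ∈ Vp G q) :
    At G q 0 (2 * Real.pi) b = 0 ∧ PT G q (2 * Real.pi) (At' G q 0 (2 * Real.pi) b) = b := by
  have hP := Wj_periodic hper hq h1 (Vp G q).zero_mem hb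
  have h2 := Wj_eq_At hq (mem_Vp.1 hb).1 (2 * Real.pi)
  rw [h2.1, h2.2] at hP
  refine ⟨?_, hP.2⟩
  have := congrArg (PTi G q (2 * Real.pi)) hP.1
  rwa [PTi_PT hq, map_zero] at this

end Crest.Agent.R208.NB
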