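import Mathlib

/-!
R208, block SPJ1 (helper631): the negative spectral projection `NP B` of a symmetric operator on a
finite-dimensional Euclidean space, its smooth dependence on the operator as long as no eigenvalue
is `0`, equivariance.
-/

set_option autoImplicit false
set_option linter.unusedSectionVars false

open Set Filter Topology Module
open scoped ContDiff RealInnerProductSpace

noncomputable section

namespace Crest.Agent.R208.SPJ

variable {W : Type*} [NormedAddCommGroup W] [InnerProductSpace ℝ W] [FiniteDimensional ℝ W]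

/-- symmetric operator -/
def Sy (B : W →L[ℝ] W) : Prop := ∀ v w, ⟪B v, w⟫ = ⟪v, B w⟫

/-- the span of the eigenvectors with negative eigenvalue -/
def Neg (B : W →L[ℝ] W) : Submodule ℝ W := Submodule.span ℝ {w | ∃ c : ℝ, c < 0 ∧ B w = c • w}

/-- the negative spectral projection -/
def NP (B : W →L[ℝ] W) : W →L[ℝ] W := (Neg B).starProjection

/-- eigenbasis -/
theorem Sy.exists_basis {B : W →L[ℝ] W} (h : Sy B) :
    ∃ (b : OrthonormalBasis (Fin (finrank ℝ W)) ℝ W) (l : Fin (finrank ℝ W) → ℝ),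
      ∀ i, B (b i) = l i • b i := by
  have hs : (B : W →ₗ[ℝ] W).IsSymmetric := fun v w => h v w
  refine ⟨hs.eigenvectorBasis rfl, hs.eigenvalues rfl, fun i => ?_⟩
  have := hs.apply_eigenvectorBasis rfl i
  exact this

section basis

variable {B : W →L[ℝ] W} {ι : Type*} [Fintype ι] {b : OrthonormalBasis ι ℝ W} {l : ι → ℝ}

theorem inner_apply (hb : ∀ i, B (b i) = l i • b i) (w : W) (i : ι) (h : Sy B) :
    ⟪b i, B w⟫ = l i * ⟪b i, w⟫ := by
  rw [← h, hb, inner_smul_left]; simp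

theorem quad_eq (h : Sy B) (hb : ∀ i, B (b i) = l i • b i) (w : W) :
    ⟪B w, w⟫ = ∑ i, l i * ⟪b i, w⟫ ^ 2 := by
  rw [← b.sum_inner_mul_inner]
  refine Finset.sum_congr rfl fun i _ => ?_
  rw [real_inner_comm, inner_apply hb w i h]; ring

theorem norm_sq_eq (w : W) : ‖w‖ ^ 2 = ∑ i, ⟪b i, w⟫ ^ 2 := by
  rw [← real_inner_self_eq_norm_sq, ← b.sum_inner_mul_inner]
  refine Finset.sum_congr rfl fun i _ => ?_
  rw [real_inner_comm]; ring

theorem mem_Neg (hb : ∀ i, B (b i) = l i • b i) {i : ι} (hi : l i < 0) : b i ∈ Neg B :=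
  Submodule.subset_span ⟨l i, hi, hb i⟩

theorem inner_Neg (h : Sy B) (hb : ∀ i, B (b i) = l i • b i) {i : ι} (hi : 0 ≤ l i) {w : W}
    (hw : w ∈ Neg B) : ⟪b i, w⟫ = 0 := by
  refine Submodule.span_induction (p := fun w _ => ⟪b i, w⟫ = 0) ?_ ?_ ?_ ?_ hw
  · rintro w ⟨c, hc, hcw⟩
    have h1 := inner_apply hb w i h
    rw [hcw, inner_smul_right] at h1
    have h2 : (c - l i) * ⟪b i, w⟫ = 0 := by linarith
    rcases mul_eq_zero.1 h2 with h3 | h3
    · linarith
    · exact h3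
  · simp
  · intro x y _ _ hx hy
    rw [inner_add_right, hx, hy, add_zero]
  · intro a x _ hx
    rw [inner_smul_right, hx, mul_zero]

theorem mem_Neg_iff (h : Sy B) (hb : ∀ i, B (b i) = l i • b i) {w : W} :
    w ∈ Neg B ↔ ∀ i, 0 ≤ l i → ⟪b i, w⟫ = 0 := by
  refine ⟨fun hw i hi => inner_Neg h hb hi hw, fun hw => ?_⟩
  rw [← b.sum_repr' w]
  refine Submodule.sum_mem _ fun i _ => ?_
  by_cases hi : l i < 0
  · exact Submodule.smul_mem _ _ (mem_Neg hb hi)
  · rw [hw i (not_lt.1 hi), zero_smul]; exact Submodule.zero_mem _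

theorem mem_Neg_orth_iff (h : Sy B) (hb : ∀ i, B (b i) = l i • b i) {w : W} :
    w ∈ (Neg B)ᗮ ↔ ∀ i, l i < 0 → ⟪b i, w⟫ = 0 := by
  refine ⟨fun hw i hi => ?_, fun hw => ?_⟩
  · exact (Submodule.mem_orthogonal _ _).1 hw _ (mem_Neg hb hi)
  · rw [Submodule.mem_orthogonal]
    intro u hu
    rw [← b.sum_inner_mul_inner]
    refine Finset.sum_eq_zero fun i _ => ?_
    by_cases hi : l i < 0
    · rw [hw i hi, mul_zero]
    · rw [real_inner_comm, inner_Neg h hb (not_lt.1 hi) hu, zero_mul]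

end basis

theorem NP_mem (B : W →L[ℝ] W) (w : W) : NP B w ∈ Neg B := by
  unfold NP; exact Submodule.starProjection_apply_mem _ _

theorem sub_NP_mem (B : W →L[ℝ] W) (w : W) : w - NP B w ∈ (Neg B)ᗮ := by
  unfold NP; exact Submodule.sub_starProjection_mem_orthogonal _

theorem NP_eq_self {B : W →L[ℝ] W} {w : W} : NP B w = w ↔ w ∈ Neg B := by
  unfold NP; exact Submodule.starProjection_eq_self_iff

theorem NP_idem (B : W →L[ℝ] W) (w : W) : NP B (NP B w) = NP B w := NP_eq_self.2 (NP_mem B w)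

theorem NP_sy (B : W →L[ℝ] W) : Sy (NP B) := fun v w => by
  unfold NP; exact Submodule.inner_starProjection_left_eq_right _ v w

theorem range_NP (B : W →L[ℝ] W) : LinearMap.range (NP B : W →ₗ[ℝ] W) = Neg B := by
  ext w
  rw [LinearMap.mem_range]
  constructor
  · rintro ⟨v, rfl⟩; exact NP_mem B v
  · intro hw; exact ⟨w, NP_eq_self.2 hw⟩

theorem map_Neg (B : W →L[ℝ] W) {w : W} (hw : w ∈ Neg B) : B w ∈ Neg B := by
  refine Submodule.span_induction (p := fun w _ => B w ∈ Neg B) ?_ ?_ ?_ ?_ hw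
  · rintro w ⟨c, hc, hcw⟩
    show B w ∈ Neg B
    rw [hcw]
    exact Submodule.smul_mem _ _ (Submodule.subset_span ⟨c, hc, hcw⟩)
  · simp
  · intro x y _ _ hx hy
    rw [map_add]; exact Submodule.add_mem _ hx hy
  · intro a x _ hx
    rw [map_smul]; exact Submodule.smul_mem _ _ hx

theorem map_Neg_orth {B : W →L[ℝ] W} (h : Sy B) {w : W} (hw : w ∈ (Neg B)ᗮ) : B w ∈ (Neg B)ᗮ := by
  rw [Submodule.mem_orthogonal] at hw ⊢
  intro u hu
  rw [← h]; exact hw _ (map_Neg B hu)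

theorem NP_comm {B : W →L[ℝ] W} (h : Sy B) (w : W) : NP B (B w) = B (NP B w) := by
  have h1 : B w = B (NP B w) + B (w - NP B w) := by rw [← map_add]; congr 1; abel
  have h2 : NP B (B (w - NP B w)) = 0 := by
    have h3 := map_Neg_orth h (sub_NP_mem B w)
    unfold NP at h3 ⊢
    exact (Submodule.starProjection_apply_eq_zero_iff _).2 h3
  rw [h1, map_add, h2, add_zero]
  exact NP_eq_self.2 (map_Neg B (NP_mem B w))

theorem abs_eig {B : W →L[ℝ] W} {c : ℝ} (hc : ∀ w, c * ‖w‖ ≤ ‖B w‖) {w : W} {l : ℝ}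
    (hw : ‖w‖ = 1) (hl : B w = l • w) : c ≤ |l| := by
  have := hc w
  rw [hl, norm_smul, hw, mul_one, mul_one, Real.norm_eq_abs] at this
  exact this

theorem quad_neg {B : W →L[ℝ] W} (h : Sy B) {c : ℝ} (hc : ∀ w, c * ‖w‖ ≤ ‖B w‖) {w : W}
    (hw : w ∈ Neg B) : ⟪B w, w⟫ ≤ -(c * ‖w‖ ^ 2) := by
  obtain ⟨b, l, hb⟩ := h.exists_basis
  rw [quad_eq h hb, norm_sq_eq (b := b), Finset.mul_sum, ← Finset.sum_neg_distrib]
  refine Finset.sum_le_sum fun i _ => ?_
  by_cases hi : l i < 0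
  · have h1 := abs_eig hc (b.norm_eq_one i) (hb i)
    rw [abs_of_neg hi] at h1
    nlinarith [sq_nonneg ⟪b i, w⟫]
  · rw [inner_Neg h hb (not_lt.1 hi) hw]; simp

theorem quad_pos {B : W →L[ℝ] W} (h : Sy B) {c : ℝ} (hc : ∀ w, c * ‖w‖ ≤ ‖B w‖) {w : W}
    (hw : w ∈ (Neg B)ᗮ) : c * ‖w‖ ^ 2 ≤ ⟪B w, w⟫ := by
  obtain ⟨b, l, hb⟩ := h.exists_basis
  rw [quad_eq h hb, norm_sq_eq (b := b), Finset.mul_sum]
  refine Finset.sum_le_sum fun i _ => ?_
  by_cases hi : l i < 0
  · rw [(mem_Neg_orth_iff h hb).1 hw i hi]; simp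
  · have h1 := abs_eig hc (b.norm_eq_one i) (hb i)
    rw [abs_of_nonneg (not_lt.1 hi)] at h1
    nlinarith [sq_nonneg ⟪b i, w⟫]

/-- the absolute value -/
def Ab (B : W →L[ℝ] W) : W →L[ℝ] W := B ∘L (ContinuousLinearMap.id ℝ W - (2 : ℝ) • NP B)

theorem Ab_apply (B : W →L[ℝ] W) (w : W) : Ab B w = B w - (2 : ℝ) • B (NP B w) := by
  simp [Ab]

theorem Ab_sy {B : W →L[ℝ] W} (h : Sy B) : Sy (Ab B) := fun v w => by
  rw [Ab_apply, Ab_apply, inner_sub_left, inner_sub_right, h, inner_smul_left, inner_smul_right,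
    h, NP_sy B, NP_comm h]
  simp

theorem Ab_sq {B : W →L[ℝ] W} (h : Sy B) : Ab B * Ab B = B * B := by
  ext w
  show Ab B (Ab B w) = B (B w)
  rw [Ab_apply, Ab_apply]
  simp only [map_sub, map_smul]
  rw [NP_comm h, NP_comm h, NP_idem]
  module

theorem Ab_pos {B : W →L[ℝ] W} (h : Sy B) {c : ℝ} (hc : ∀ w, c * ‖w‖ ≤ ‖B w‖) (w : W) :
    c * ‖w‖ ^ 2 ≤ ⟪Ab B w, w⟫ := by
  set p := NP B w with hp
  set q := w - NP B w with hq
  have hw : w = p + q := by rw [hp, hq]; abel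
  have hpq : ⟪p, q⟫ = 0 := (Submodule.mem_orthogonal _ _).1 (sub_NP_mem B w) _ (NP_mem B w)
  have hBpq : ⟪B p, q⟫ = 0 :=
    (Submodule.mem_orthogonal _ _).1 (sub_NP_mem B w) _ (map_Neg B (NP_mem B w))
  have hAb : Ab B w = B q - B p := by
    rw [Ab_apply, hq, map_sub]
    module
  have hBqp : ⟪B q, p⟫ = 0 := by rw [h, real_inner_comm]; exact hBpq
  have h1 := quad_neg h hc (NP_mem B w)
  have h2 := quad_pos h hc (sub_NP_mem B w)
  rw [← hp] at h1
  rw [← hq] at h2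
  have h3 : ‖w‖ ^ 2 = ‖p‖ ^ 2 + ‖q‖ ^ 2 := by
    rw [hw, ← real_inner_self_eq_norm_sq, ← real_inner_self_eq_norm_sq,
      ← real_inner_self_eq_norm_sq, inner_add_left, inner_add_right, inner_add_right, hpq,
      real_inner_comm p q, hpq]
    ring
  have h4 : ⟪Ab B w, w⟫ = ⟪B q, q⟫ - ⟪B p, p⟫ := by
    rw [hAb, hw, inner_sub_left, inner_add_right, inner_add_right, hBpq, hBqp]; ring
  rw [h3, h4]
  nlinarith

/-- Sylvester injectivity -/
theorem syl_inj {X Y H : W →L[ℝ] W} {c : ℝ} (hc : 0 < c) (hX : ∀ w, c * ‖w‖ ^ 2 ≤ ⟪X w, w⟫)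
    (hYs : Sy Y) (hY : ∀ w, 0 ≤ ⟪Y w, w⟫) (h : X * H + H * Y = 0) : H = 0 := by
  obtain ⟨b, l, hb⟩ := hYs.exists_basis
  have hl : ∀ i, 0 ≤ l i := fun i => by
    have := hY (b i)
    rw [hb, inner_smul_left, real_inner_self_eq_norm_sq, b.norm_eq_one] at this
    simpa using this
  have h0 : ∀ i, H (b i) = 0 := fun i => by
    have h1 : X (H (b i)) + H (Y (b i)) = 0 := by
      have := congrArg (fun T : W →L[ℝ] W => T (b i)) h
      simpa using this
    rw [hb, map_smul] at h1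
    have h2 := hX (H (b i))
    have h3 : X (H (b i)) = -(l i • H (b i)) := eq_neg_of_add_eq_zero_left h1
    rw [h3, inner_neg_left, inner_smul_left, real_inner_self_eq_norm_sq] at h2
    have h4 : (c + l i) * ‖H (b i)‖ ^ 2 ≤ 0 := by
      simp at h2; linarith
    have h5 : ‖H (b i)‖ ^ 2 ≤ 0 := by
      by_contra hcon
      have := mul_pos (show 0 < c + l i by linarith [hl i]) (not_le.1 hcon)
      linarith
    have h6 : ‖H (b i)‖ = 0 := by nlinarith [norm_nonneg (H (b i))]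
    exact norm_eq_zero.1 h6
  ext w
  rw [← b.sum_repr' w, map_sum]
  simp [h0]

/-- the Sylvester operator -/
def syl (X : W →L[ℝ] W) : (W →L[ℝ] W) →L[ℝ] (W →L[ℝ] W) :=
  ContinuousLinearMap.mul ℝ (W →L[ℝ] W) X + (ContinuousLinearMap.mul ℝ (W →L[ℝ] W)).flip X

theorem syl_apply (X H : W →L[ℝ] W) : syl X H = X * H + H * X := rfl

theorem hasFDerivAt_mul_self (X : W →L[ℝ] W) :
    HasFDerivAt (𝕜 := ℝ) (fun X : W →L[ℝ] W => X * X) (syl X) X := by
  have := (hasFDerivAt_id (𝕜 := ℝ) X).mul' (hasFDerivAt_id (𝕜 := ℝ) X)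
  refine this.congr_fderiv ?_
  ext y w
  simp [syl]

/-- the local smooth square root -/
theorem exists_root {T₀ : W →L[ℝ] W} (hs : Sy T₀) {c : ℝ} (hc : 0 < c)
    (hp : ∀ w, c * ‖w‖ ^ 2 ≤ ⟪T₀ w, w⟫) :
    ∃ g : (W →L[ℝ] W) → (W →L[ℝ] W), ContDiffAt ℝ ∞ g (T₀ * T₀) ∧
      ∀ᶠ C in 𝓝 (T₀ * T₀), ∀ T : W →L[ℝ] W, Sy T → (∀ w, 0 ≤ ⟪T w, w⟫) → T * T = C → g C = T := by
  have hm : (∞ : WithTop ℕ∞) ≠ 0 := by simp
  set f : (W →L[ℝ] W) → (W →L[ℝ] W) := fun X => X * X with hf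
  have hinj : Function.Injective (syl T₀ : (W →L[ℝ] W) →ₗ[ℝ] (W →L[ℝ] W)) := by
    rw [injective_iff_map_eq_zero]
    intro H hH
    refine syl_inj hc hp hs (fun w => ?_) hH
    exact le_trans (by positivity) (hp w)
  let e : (W →L[ℝ] W) ≃ₗ[ℝ] (W →L[ℝ] W) := LinearEquiv.ofInjectiveEndo _ hinj
  let E : (W →L[ℝ] W) ≃L[ℝ] (W →L[ℝ] W) := e.toContinuousLinearEquiv
  have hE : (E : (W →L[ℝ] W) →L[ℝ] (W →L[ℝ] W)) = syl T₀ := by
    ext y; rfl
  have hfd : HasFDerivAt (𝕜 := ℝ) f (E : (W →L[ℝ] W) →L[ℝ] (W →L[ℝ] W)) T₀ := by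
    rw [hE]; exact hasFDerivAt_mul_self T₀
  have hfc : ContDiffAt ℝ ∞ f T₀ := (contDiff_id.mul contDiff_id).contDiffAt
  set g := hfc.localInverse hfd hm with hg
  have hgc : ContDiffAt ℝ ∞ g (T₀ * T₀) := hfc.to_localInverse hfd hm
  have hga : g (T₀ * T₀) = T₀ := hfc.localInverse_apply_image hfd hm
  have hright : ∀ᶠ y in 𝓝 (T₀ * T₀), f (g y) = y :=
    (hfc.hasStrictFDerivAt' hfd hm).eventually_right_inverse
  have hpos : ∀ᶠ y in 𝓝 (T₀ * T₀), ‖g y - T₀‖ < c / 2 := by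
    have h1 : ContinuousAt (fun y => ‖g y - T₀‖) (T₀ * T₀) := (hgc.continuousAt.sub
      continuousAt_const).norm
    refine h1.eventually_lt continuousAt_const ?_
    rw [hga, sub_self, norm_zero]; positivity
  refine ⟨g, hgc, ?_⟩
  filter_upwards [hright, hpos] with C h1 h2 T hT hT0 hTC
  have hX : ∀ w, c / 2 * ‖w‖ ^ 2 ≤ ⟪g C w, w⟫ := fun w => by
    have h3 : ⟪g C w, w⟫ = ⟪T₀ w, w⟫ + ⟪(g C - T₀) w, w⟫ := by
      rw [sub_apply, inner_sub_left]; ring
    have h4 : -(c / 2 * ‖w‖ ^ 2) ≤ ⟪(g C - T₀) w, w⟫ := by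
      have h5 := abs_real_inner_le_norm ((g C - T₀) w) w
      have h6 : ‖(g C - T₀) w‖ ≤ c / 2 * ‖w‖ :=
        (ContinuousLinearMap.le_opNorm _ _).trans
          (mul_le_mul_of_nonneg_right h2.le (norm_nonneg _))
      have h7 : ‖(g C - T₀) w‖ * ‖w‖ ≤ c / 2 * ‖w‖ * ‖w‖ :=
        mul_le_mul_of_nonneg_right h6 (norm_nonneg _)
      have h8 := (abs_le.1 h5).1
      nlinarith
    have h5 := hp w
    rw [h3]; nlinarith
  have h3 : g C * (g C - T) + (g C - T) * T = 0 := by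
    have : g C * g C = T * T := by rw [hTC]; exact h1
    rw [mul_sub, sub_mul, this]; abel
  exact sub_eq_zero.1 (syl_inj (half_pos hc) hX hT hT0 h3)

theorem isUnit_of_gap {B : W →L[ℝ] W} {c : ℝ} (hc : 0 < c) (h : ∀ w, c * ‖w‖ ≤ ‖B w‖) :
    IsUnit B := by
  have hinj : Function.Injective (B : W →ₗ[ℝ] W) := by
    rw [injective_iff_map_eq_zero]
    intro w hw
    have h1 := h w
    have h2 : B w = 0 := hw
    rw [h2, norm_zero] at h1
    have h3 : ‖w‖ ≤ 0 := by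
      by_contra hcon
      have := mul_pos hc (not_le.1 hcon)
      linarith
    exact norm_le_zero_iff.1 h3
  let e : W ≃ₗ[ℝ] W := LinearEquiv.ofInjectiveEndo _ hinj
  let f : W ≃L[ℝ] W := e.toContinuousLinearEquiv
  exact ⟨ContinuousLinearEquiv.toUnit f, by ext w; rfl⟩

variable {E : Type*} [NormedAddCommGroup E] [NormedSpace ℝ E]

/-- smoothness of the negative projection of a smooth family -/
theorem contDiffAt_NP {B : E → W →L[ℝ] W} {x : E} (hB : ContDiffAt ℝ ∞ B x)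
    (hs : ∀ y, Sy (B y)) {c : ℝ} (hc : 0 < c) (hg : ∀ w, c * ‖w‖ ≤ ‖B x w‖) :
    ContDiffAt ℝ ∞ (fun y => NP (B y)) x := by
  obtain ⟨g, hg1, hg2⟩ := exists_root (Ab_sy (hs x)) hc (Ab_pos (hs x) hg)
  have hBB : ContDiffAt ℝ ∞ (fun y => B y * B y) x := hB.mul hB
  have hx : Ab (B x) * Ab (B x) = B x * B x := Ab_sq (hs x)
  rw [hx] at hg1 hg2
  have hev := hBB.continuousAt.eventually hg2
  -- gap nearby
  have hgap : ∀ᶠ y in 𝓝 x, ∀ w, c / 2 * ‖w‖ ≤ ‖B y w‖ := by
    have h1 : ContinuousAt (fun y => ‖B y - B x‖) x := (hB.continuousAt.sub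
      continuousAt_const).norm
    have h2 : ∀ᶠ y in 𝓝 x, ‖B y - B x‖ < c / 2 := by
      refine h1.eventually_lt continuousAt_const ?_
      rw [sub_self, norm_zero]; positivity
    filter_upwards [h2] with y h3 w
    have h4 : B x w = B y w - (B y - B x) w := by simp
    have h5 : ‖B x w‖ ≤ ‖B y w‖ + ‖(B y - B x) w‖ := by
      rw [h4]; exact norm_sub_le _ _
    have h6 : ‖(B y - B x) w‖ ≤ c / 2 * ‖w‖ :=
      (ContinuousLinearMap.le_opNorm _ _).trans
        (mul_le_mul_of_nonneg_right h3.le (norm_nonneg _))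
    have h7 := hg w
    linarith
  have hAb : ContDiffAt ℝ ∞ (fun y => Ab (B y)) x := by
    refine (hg1.comp x hBB).congr_of_eventuallyEq ?_
    filter_upwards [hev, hgap] with y h1 h2
    refine (h1 _ (Ab_sy (hs y)) (fun w => ?_) (Ab_sq (hs y))).symm
    exact le_trans (by positivity) (Ab_pos (hs y) h2 w)
  have hunit : IsUnit (B x) := isUnit_of_gap hc hg
  have hinv : ContDiffAt ℝ ∞ (fun y => Ring.inverse (B y)) x := by
    obtain ⟨u, hu⟩ := hunit
    have h1 : ContDiffAt ℝ ∞ (Ring.inverse : (W →L[ℝ] W) → (W →L[ℝ] W)) (B x) := by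
      rw [← hu]; exact contDiffAt_ringInverse ℝ u
    exact h1.comp x hB
  have hfin : ContDiffAt ℝ ∞
      (fun y => (1 / 2 : ℝ) • (1 - Ring.inverse (B y) * Ab (B y))) x :=
    (contDiffAt_const (c := (1 : W →L[ℝ] W))).sub (hinv.mul hAb) |>.const_smul (1 / 2 : ℝ)
  refine hfin.congr_of_eventuallyEq ?_
  filter_upwards [hgap] with y hy
  have hu : IsUnit (B y) := isUnit_of_gap (half_pos hc) hy
  have h1 : Ring.inverse (B y) * Ab (B y) = 1 - (2 : ℝ) • NP (B y) := by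
    have h2 : Ab (B y) = B y * (1 - (2 : ℝ) • NP (B y)) := rfl
    rw [h2, ← mul_assoc, Ring.inverse_mul_cancel _ hu, one_mul]
  rw [h1]
  module

/-- equivariance -/
theorem NP_equiv {V : Type*} [NormedAddCommGroup V] [InnerProductSpace ℝ V]
    [FiniteDimensional ℝ V] (R : W ≃ₗᵢ[ℝ] V) {B : W →L[ℝ] W} {B' : V →L[ℝ] V}
    (h : ∀ w, B' (R w) = R (B w)) (w : W) : NP B' (R w) = R (NP B w) := by
  have h1 : ∀ u ∈ Neg B, R u ∈ Neg B' := fun u hu => by
    refine Submodule.span_induction (p := fun u _ => R u ∈ Neg B') ?_ ?_ ?_ ?_ hu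
    · rintro u ⟨c, hc, hcu⟩
      exact Submodule.subset_span ⟨c, hc, by rw [h, hcu, map_smul]⟩
    · simp
    · intro x y _ _ hx hy
      rw [map_add]; exact Submodule.add_mem _ hx hy
    · intro a x _ hx
      rw [map_smul]; exact Submodule.smul_mem _ _ hx
  have h2 : ∀ u ∈ Neg B', R.symm u ∈ Neg B := fun u hu => by
    refine Submodule.span_induction (p := fun u _ => R.symm u ∈ Neg B) ?_ ?_ ?_ ?_ hu
    · rintro u ⟨c, hc, hcu⟩
      refine Submodule.subset_span ⟨c, hc, R.injective ?_⟩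
      rw [← h, map_smul, LinearIsometryEquiv.apply_symm_apply, hcu]
    · simp
    · intro x y _ _ hx hy
      rw [map_add]; exact Submodule.add_mem _ hx hy
    · intro a x _ hx
      rw [map_smul]; exact Submodule.smul_mem _ _ hx
  have h3 : R (w - NP B w) ∈ (Neg B')ᗮ := by
    rw [Submodule.mem_orthogonal]
    intro u hu
    have h4 := (Submodule.mem_orthogonal _ _).1 (sub_NP_mem B w) _ (h2 u hu)
    rw [← h4, ← R.inner_map_map, LinearIsometryEquiv.apply_symm_apply]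
  have h5 : R w = R (NP B w) + R (w - NP B w) := by rw [← map_add]; congr 1; abel
  have h6 : NP B' (R (w - NP B w)) = 0 := by
    unfold NP at h3 ⊢
    exact (Submodule.starProjection_apply_eq_zero_iff _).2 h3
  rw [h5, map_add, h6, add_zero]
  exact NP_eq_self.2 (h1 _ (NP_mem B w))

/-! ### symmetrisation -/

/-- symmetric part -/
def sym (A : W →L[ℝ] W) : W →L[ℝ] W := (1 / 2 : ℝ) • (A + ContinuousLinearMap.adjoint A)

theorem sym_sy (A : W →L[ℝ] W) : Sy (sym A) := fun v w => by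
  unfold sym
  simp only [smul_apply, add_apply, inner_smul_left, inner_smul_right, inner_add_left,
    inner_add_right, ContinuousLinearMap.adjoint_inner_left,
    ContinuousLinearMap.adjoint_inner_right]
  simp; ring

theorem sym_eq {A : W →L[ℝ] W} (h : Sy A) : sym A = A := by
  have h1 : ContinuousLinearMap.adjoint A = A := by
    ext w
    refine ext_inner_right ℝ fun v => ?_
    rw [ContinuousLinearMap.adjoint_inner_left, ← h]
  unfold sym
  rw [h1]; module

theorem contDiff_sym : ContDiff ℝ ∞ (sym : (W →L[ℝ] W) → (W →L[ℝ] W)) := by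
  have h1 : ContDiff ℝ ∞ fun A : W →L[ℝ] W => ContinuousLinearMap.adjoint A :=
    (ContinuousLinearMap.adjoint (𝕜 := ℝ) (E := W) (F := W)).contDiff
  exact (contDiff_id.add h1).const_smul (1 / 2 : ℝ)

/-! ### gap from min-max -/

theorem gap_of {A : W →L[ℝ] W} (h : Sy A) {δ : ℝ} (hδ : 0 < δ) {r : ℕ} {N Q : Submodule ℝ W}
    (hN : finrank ℝ N = r) (hNd : ∀ w ∈ N, ⟪A w, w⟫ ≤ -(δ * ‖w‖ ^ 2))
    (hQ : finrank ℝ Q + r = finrank ℝ W) (hQd : ∀ w ∈ Q, 0 ≤ ⟪A w, w⟫) (w : W) :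
    δ / 2 * ‖w‖ ≤ ‖A w + (δ / 2) • w‖ := by
  obtain ⟨b, l, hb⟩ := h.exists_basis
  -- no eigenvalue in (-δ, 0)
  have hno : ∀ j, ¬ (-δ < l j ∧ l j < 0) := by
    rintro j ⟨hj1, hj2⟩
    let S₁ : Submodule ℝ W := Submodule.span ℝ (Set.range fun i : {i // -δ < l i} => b i)
    let S₂ : Submodule ℝ W := Submodule.span ℝ (Set.range fun i : {i // l i < 0} => b i)
    have hS₁ : ∀ w ∈ S₁, ∀ i, ¬ (-δ < l i) → ⟪b i, w⟫ = 0 := fun w hw i hi => by
      refine Submodule.span_induction (p := fun w _ => ⟪b i, w⟫ = 0) ?_ ?_ ?_ ?_ hw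
      · rintro _ ⟨k, rfl⟩
        exact b.orthonormal.2 (fun hik => hi (hik ▸ k.2))
      · simp
      · intro x y _ _ hx hy
        rw [inner_add_right, hx, hy, add_zero]
      · intro a x _ hx
        rw [inner_smul_right, hx, mul_zero]
    have hS₂ : ∀ w ∈ S₂, ∀ i, ¬ (l i < 0) → ⟪b i, w⟫ = 0 := fun w hw i hi => by
      refine Submodule.span_induction (p := fun w _ => ⟪b i, w⟫ = 0) ?_ ?_ ?_ ?_ hw
      · rintro _ ⟨k, rfl⟩
        exact b.orthonormal.2 (fun hik => hi (hik ▸ k.2))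
      · simp
      · intro x y _ _ hx hy
        rw [inner_add_right, hx, hy, add_zero]
      · intro a x _ hx
        rw [inner_smul_right, hx, mul_zero]
    have hzero : ∀ w : W, (∀ i, ⟪b i, w⟫ = 0) → w = 0 := fun w hw => by
      rw [← b.sum_repr' w]
      exact Finset.sum_eq_zero fun i _ => by rw [hw i, zero_smul]
    have hd₁ : Disjoint N S₁ := by
      rw [Submodule.disjoint_def]
      intro w hwN hwS
      have h1 := hNd w hwN
      rw [quad_eq h hb, norm_sq_eq (b := b), Finset.mul_sum, ← Finset.sum_neg_distrib,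
        ← sub_nonneg, ← Finset.sum_sub_distrib] at h1
      have h2 : ∀ i ∈ Finset.univ, -(δ * ⟪b i, w⟫ ^ 2) - l i * ⟪b i, w⟫ ^ 2 ≤ 0 := fun i _ => by
        by_cases hi : -δ < l i
        · nlinarith [sq_nonneg ⟪b i, w⟫]
        · rw [hS₁ w hwS i hi]; simp
      have h3 : ∑ i, (-(δ * ⟪b i, w⟫ ^ 2) - l i * ⟪b i, w⟫ ^ 2) = 0 :=
        le_antisymm (Finset.sum_nonpos h2) h1
      refine hzero w fun i => ?_
      have h4 := (Finset.sum_eq_zero_iff_of_nonpos h2).1 h3 i (Finset.mem_univ i)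
      by_cases hi : -δ < l i
      · have h5 : (δ + l i) * ⟪b i, w⟫ ^ 2 = 0 := by linarith
        rcases mul_eq_zero.1 h5 with h6 | h6
        · linarith
        · exact pow_eq_zero_iff (two_ne_zero) |>.1 h6
      · exact hS₁ w hwS i hi
    have hd₂ : Disjoint Q S₂ := by
      rw [Submodule.disjoint_def]
      intro w hwQ hwS
      have h1 := hQd w hwQ
      rw [quad_eq h hb] at h1
      have h2 : ∀ i ∈ Finset.univ, l i * ⟪b i, w⟫ ^ 2 ≤ 0 := fun i _ => by
        by_cases hi : l i < 0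
        · nlinarith [sq_nonneg ⟪b i, w⟫]
        · rw [hS₂ w hwS i hi]; simp
      have h3 : ∑ i, l i * ⟪b i, w⟫ ^ 2 = 0 := le_antisymm (Finset.sum_nonpos h2) h1
      refine hzero w fun i => ?_
      have h4 := (Finset.sum_eq_zero_iff_of_nonpos h2).1 h3 i (Finset.mem_univ i)
      by_cases hi : l i < 0
      · rcases mul_eq_zero.1 h4 with h6 | h6
        · linarith
        · exact pow_eq_zero_iff (two_ne_zero) |>.1 h6
      · exact hS₂ w hwS i hi
    have hc₁ : finrank ℝ S₁ = Fintype.card {i // -δ < l i} :=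
      finrank_span_eq_card (b.orthonormal.linearIndependent.comp _ Subtype.val_injective)
    have hc₂ : finrank ℝ S₂ = Fintype.card {i // l i < 0} :=
      finrank_span_eq_card (b.orthonormal.linearIndependent.comp _ Subtype.val_injective)
    have h1 := Submodule.finrank_add_finrank_le_of_disjoint hd₁
    have h2 := Submodule.finrank_add_finrank_le_of_disjoint hd₂
    have h3 : finrank ℝ W < Fintype.card {i // -δ < l i} + Fintype.card {i // l i < 0} := by
      rw [Fintype.card_subtype, Fintype.card_subtype]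
      have h4 : (Finset.univ.filter fun i => -δ < l i) ∪ (Finset.univ.filter fun i => l i < 0)
          = Finset.univ := by
        ext i
        simp only [Finset.mem_union, Finset.mem_filter, Finset.mem_univ, true_and, iff_true]
        by_contra hcon
        push Not at hcon
        linarith [hcon.1, hcon.2]
      have h5 := Finset.card_union_add_card_inter (Finset.univ.filter fun i => -δ < l i)
        (Finset.univ.filter fun i => l i < 0)
      rw [h4] at h5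
      have h6 : 0 < ((Finset.univ.filter fun i => -δ < l i) ∩
          (Finset.univ.filter fun i => l i < 0)).card := by
        refine Finset.card_pos.2 ⟨j, ?_⟩
        simp [hj1, hj2]
      have h7 : (Finset.univ : Finset (Fin (finrank ℝ W))).card = finrank ℝ W := by simp
      omega
    omega
  have h1 : (δ / 2 * ‖w‖) ^ 2 ≤ ‖A w + (δ / 2) • w‖ ^ 2 := by
    rw [mul_pow, norm_sq_eq (b := b) w, norm_sq_eq (b := b) (A w + (δ / 2) • w), Finset.mul_sum]
    refine Finset.sum_le_sum fun i _ => ?_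
    rw [inner_add_right, inner_smul_right, inner_apply hb w i h, ← add_mul, mul_pow]
    refine mul_le_mul_of_nonneg_right ?_ (sq_nonneg _)
    by_cases hi : l i < 0
    · have h2 : l i ≤ -δ := by
        by_contra hcon
        exact hno i ⟨not_le.1 hcon, hi⟩
      nlinarith
    · nlinarith [not_lt.1 hi]
  exact (sq_le_sq₀ (by positivity) (norm_nonneg _)).1 h1

/-- **negative spectral projection of a smooth family with a gap** -/
theorem exists_specProj {A : E → W →L[ℝ] W} {X : Set E} (hA : ∀ x ∈ X, ContDiffAt ℝ ∞ A x)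
    (hsym : ∀ x ∈ X, Sy (A x)) {δ : ℝ} (hδ : 0 < δ) {r : ℕ}
    (hneg : ∀ x ∈ X, ∃ N : Submodule ℝ W, finrank ℝ N = r ∧ ∀ w ∈ N, ⟪A x w, w⟫ ≤ -(δ * ‖w‖ ^ 2))
    (hpos : ∀ x ∈ X, ∃ Q : Submodule ℝ W, finrank ℝ Q + r = finrank ℝ W ∧
      ∀ w ∈ Q, 0 ≤ ⟪A x w, w⟫) :
    ∃ P : E → W →L[ℝ] W, (∀ x, P x = NP (sym (A x) + (δ / 2) • ContinuousLinearMap.id ℝ W)) ∧
      (∀ x ∈ X, ContDiffAt ℝ ∞ P x) ∧
      (∀ x w, P x (P x w) = P x w) ∧ (∀ x, Sy (P x)) ∧
      (∀ x ∈ X, finrank ℝ (LinearMap.range (P x : W →ₗ[ℝ] W)) = r) ∧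
      (∀ x ∈ X, ∀ w, A x (P x w) = P x (A x w)) ∧
      (∀ x ∈ X, ∀ w, P x w = w → ⟪A x w, w⟫ ≤ -(δ * ‖w‖ ^ 2)) ∧
      (∀ x ∈ X, ∀ w, P x w = 0 → 0 ≤ ⟪A x w, w⟫) ∧
      (∀ (R : W ≃ₗᵢ[ℝ] W) (x y : E), x ∈ X → y ∈ X → (∀ w, A y (R w) = R (A x w)) →
        ∀ w, P y (R w) = R (P x w)) := by
  set B : E → W →L[ℝ] W := fun x => sym (A x) + (δ / 2) • ContinuousLinearMap.id ℝ W with hB
  have hBs : ∀ x, Sy (B x) := fun x v w => by
    have := sym_sy (A x) v w
    simp only [hB, add_apply, smul_apply, ContinuousLinearMap.id_apply, inner_add_left,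
      inner_add_right, inner_smul_left, inner_smul_right, this]
    simp
  have hBA : ∀ x ∈ X, ∀ w, B x w = A x w + (δ / 2) • w := fun x hx w => by
    simp [hB, sym_eq (hsym x hx)]
  have hgap : ∀ x ∈ X, ∀ w, δ / 2 * ‖w‖ ≤ ‖B x w‖ := fun x hx w => by
    obtain ⟨N, hN, hNd⟩ := hneg x hx
    obtain ⟨Q, hQ, hQd⟩ := hpos x hx
    rw [hBA x hx]
    exact gap_of (hsym x hx) hδ hN hNd hQ hQd w
  have hneg' : ∀ x ∈ X, ∀ w ∈ Neg (B x), ⟪A x w, w⟫ ≤ -(δ * ‖w‖ ^ 2) := fun x hx w hw => by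
    have h1 := quad_neg (hBs x) (hgap x hx) hw
    rw [hBA x hx, inner_add_left, inner_smul_left, real_inner_self_eq_norm_sq] at h1
    simp at h1; linarith
  have hpos' : ∀ x ∈ X, ∀ w ∈ (Neg (B x))ᗮ, 0 ≤ ⟪A x w, w⟫ := fun x hx w hw => by
    have h1 := quad_pos (hBs x) (hgap x hx) hw
    rw [hBA x hx, inner_add_left, inner_smul_left, real_inner_self_eq_norm_sq] at h1
    simp at h1; linarith
  refine ⟨fun x => NP (B x), fun x => rfl, fun x hx => ?_, fun x w => NP_idem _ _,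
    fun x => NP_sy _, fun x hx => ?_, fun x hx w => ?_, fun x hx w hw => ?_, fun x hx w hw => ?_,
    fun R x y hx hy h w => ?_⟩
  · refine contDiffAt_NP ?_ hBs (half_pos hδ) (hgap x hx)
    exact ((contDiff_sym.contDiffAt).comp x (hA x hx)).add contDiffAt_const
  · rw [range_NP]
    obtain ⟨N, hN, hNd⟩ := hneg x hx
    obtain ⟨Q, hQ, hQd⟩ := hpos x hx
    have hd₁ : Disjoint N (Neg (B x))ᗮ := by
      rw [Submodule.disjoint_def]
      intro w hwN hwS
      have h1 := hNd w hwN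
      have h2 := hpos' x hx w hwS
      have h3 : δ * ‖w‖ ^ 2 ≤ 0 := by linarith
      have h4 : ‖w‖ ^ 2 ≤ 0 := by
        by_contra hcon
        have := mul_pos hδ (not_le.1 hcon)
        linarith
      exact norm_eq_zero.1 (by nlinarith [norm_nonneg w])
    have hd₂ : Disjoint Q (Neg (B x)) := by
      rw [Submodule.disjoint_def]
      intro w hwQ hwS
      have h1 := hQd w hwQ
      have h2 := hneg' x hx w hwS
      have h3 : δ * ‖w‖ ^ 2 ≤ 0 := by linarith
      have h4 : ‖w‖ ^ 2 ≤ 0 := by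
        by_contra hcon
        have := mul_pos hδ (not_le.1 hcon)
        linarith
      exact norm_eq_zero.1 (by nlinarith [norm_nonneg w])
    have h1 := Submodule.finrank_add_finrank_le_of_disjoint hd₁
    have h2 := Submodule.finrank_add_finrank_le_of_disjoint hd₂
    have h3 := (Neg (B x)).finrank_add_finrank_orthogonal
    omega
  · have h1 := NP_comm (hBs x) w
    rw [hBA x hx, hBA x hx, map_add, map_smul] at h1
    exact (add_right_cancel h1).symm
  · exact hneg' x hx w (NP_eq_self.1 hw)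
  · refine hpos' x hx w ?_
    have h1 := sub_NP_mem (B x) w
    have h2 : NP (B x) w = 0 := hw
    rwa [h2, sub_zero] at h1
  · refine NP_equiv R (fun u => ?_) w
    rw [hBA x hx, hBA y hy, h, map_add, map_smul]

end Crest.Agent.R208.SPJ
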