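import Crest.Agent.R208.NB3
import Crest.Agent.R208.SPJ1
import Crest.Agent.R208.FH10a

/-! Row 208, block NB (helper537), part NB4 (= NN3 of the split #11251): the quadratic form `qf` as
a smooth, symmetric, equivariant field of operators on the space of coefficients. -/

set_option autoImplicit false
set_option linter.unusedSectionVars false
set_option linter.unusedVariables false

open MeasureTheory Set Filter Topology Module
open scoped ContDiff RealInnerProductSpace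
open Crest.GeometryTopology.Submanifold
open Crest.Agent.R241.DDefs
open Crest.Agent.R241.D2
open Crest.Agent.R208.J
open Crest.Agent.R208.NN

noncomputable section

namespace Crest.Agent.R208.NB

variable {n N K : ℕ} {κ : ℝ} {S : Set (Euc N)} {G : Geo n N κ S} {z : Euc N × Euc N}
  {ν : Fin K → ℝ}

/-! ### the integrand -/

/-- value, in terms of a point of the tangent bundle -/
def Fp (G : Geo n N κ S) (ν : Fin K → ℝ) (p : (Euc N × Euc N) × ℝ) : Wt N K →L[ℝ] Euc N :=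
  (G.P p.1.1).comp (ev ν p.2)

/-- derivative -/
def Dp (G : Geo n N κ S) (ν : Fin K → ℝ) (p : (Euc N × Euc N) × ℝ) : Wt N K →L[ℝ] Euc N :=
  (fderiv ℝ G.P p.1.1 p.1.2).comp (ev ν p.2) + (G.P p.1.1).comp (ev' ν p.2)

/-- the second fundamental form term -/
def bII (G : Geo n N κ S) (x : Euc N × Euc N) : Euc N →L[ℝ] Euc N →L[ℝ] ℝ :=
  (ContinuousLinearMap.compL ℝ (Euc N) (Euc N) ℝ (innerSL ℝ (X G x).2)).comp (fderiv ℝ G.P x.1)

lemma bII_apply (x : Euc N × Euc N) (u v : Euc N) :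
    bII G x u v = ⟪(X G x).2, fderiv ℝ G.P x.1 u v⟫ := rfl

/-- the inner product as a bilinear map -/
def ip (N : ℕ) : Euc N →L[ℝ] Euc N →L[ℝ] ℝ := innerSL ℝ

lemma ip_apply (u v : Euc N) : ip N u v = ⟪u, v⟫ := rfl

/-- the integrand of the polarisation of `qf` -/
def bL (G : Geo n N κ S) (ν : Fin K → ℝ) (p : (Euc N × Euc N) × ℝ) :
    Wt N K →L[ℝ] Wt N K →L[ℝ] ℝ :=
  (ip N).bilinearComp (Dp G ν p) (Dp G ν p) -
    (bII G p.1).bilinearComp (Fp G ν p) (Fp G ν p) +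
    (ip N).bilinearComp (ev ν p.2 - Fp G ν p)
      (ev ν p.2 - Fp G ν p)

lemma bL_apply (p : (Euc N × Euc N) × ℝ) (w w' : Wt N K) :
    bL G ν p w w' = ⟪Dp G ν p w, Dp G ν p w'⟫ -
      ⟪(X G p.1).2, fderiv ℝ G.P p.1.1 (Fp G ν p w) (Fp G ν p w')⟫ +
      ⟪ev ν p.2 w - Fp G ν p w, ev ν p.2 w' - Fp G ν p w'⟫ := rfl

lemma contDiff_ev_p (ν : Fin K → ℝ) (w : Wt N K) :
    ContDiff ℝ ∞ (fun p : (Euc N × Euc N) × ℝ => ev ν p.2 w) :=
  ((contDiff_ev ν).comp contDiff_snd).clm_apply contDiff_const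

lemma contDiff_ev'_p (ν : Fin K → ℝ) (w : Wt N K) :
    ContDiff ℝ ∞ (fun p : (Euc N × Euc N) × ℝ => ev' ν p.2 w) :=
  ((contDiff_ev' ν).comp contDiff_snd).clm_apply contDiff_const

lemma contDiff_P_p : ContDiff ℝ ∞ (fun p : (Euc N × Euc N) × ℝ => G.P p.1.1) :=
  G.contDiff_P.comp (contDiff_fst.comp contDiff_fst)

lemma contDiff_dP_p : ContDiff ℝ ∞ (fun p : (Euc N × Euc N) × ℝ => fderiv ℝ G.P p.1.1) :=
  (G.contDiff_P.fderiv_right (by simp)).comp (contDiff_fst.comp contDiff_fst)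

lemma contDiff_Fp (w : Wt N K) :
    ContDiff ℝ ∞ (fun p : (Euc N × Euc N) × ℝ => Fp G ν p w) :=
  (contDiff_P_p (G := G)).clm_apply (contDiff_ev_p ν w)

lemma contDiff_Dp (w : Wt N K) :
    ContDiff ℝ ∞ (fun p : (Euc N × Euc N) × ℝ => Dp G ν p w) :=
  (((contDiff_dP_p (G := G)).clm_apply (contDiff_snd.comp contDiff_fst)).clm_apply
    (contDiff_ev_p ν w)).add ((contDiff_P_p (G := G)).clm_apply (contDiff_ev'_p ν w))

theorem contDiff_bL : ContDiff ℝ ∞ (bL G ν : (Euc N × Euc N) × ℝ → _) := by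
  rw [contDiff_clm_apply_iff]
  intro w
  rw [contDiff_clm_apply_iff]
  intro w'
  have hX : ContDiff ℝ ∞ (fun p : (Euc N × Euc N) × ℝ => (X G p.1).2) :=
    contDiff_snd.comp ((contDiff_X G).comp contDiff_fst)
  have h1 := (contDiff_Dp (G := G) (ν := ν) w).inner ℝ (contDiff_Dp (G := G) (ν := ν) w')
  have h2 := hX.inner ℝ (((contDiff_dP_p (G := G)).clm_apply
    (contDiff_Fp (G := G) (ν := ν) w)).clm_apply (contDiff_Fp (G := G) (ν := ν) w'))
  have h3 := ((contDiff_ev_p ν w).sub (contDiff_Fp (G := G) (ν := ν) w)).inner ℝ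
    ((contDiff_ev_p ν w').sub (contDiff_Fp (G := G) (ν := ν) w'))
  exact (h1.sub h2).add h3

/-- the integrand along the geodesic -/
def bz (G : Geo n N κ S) (ν : Fin K → ℝ) (z : Euc N × Euc N) (t : ℝ) :
    Wt N K →L[ℝ] Wt N K →L[ℝ] ℝ := bL G ν (fl G (z, t), t)

lemma continuous_bz (hz : z ∈ TS G) : Continuous (bz G ν z) :=
  (contDiff_bL (G := G) (ν := ν)).continuous.comp
    ((SV.continuous_fl (G := G) hz).prodMk continuous_id)

/-- the polarisation of `qf` -/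
def Bz (G : Geo n N κ S) (ν : Fin K → ℝ) (z : Euc N × Euc N) : Wt N K →L[ℝ] Wt N K →L[ℝ] ℝ :=
  ∫ t in (0 : ℝ)..(2 * Real.pi), bz G ν z t

theorem Bz_apply (hz : z ∈ TS G) (w w' : Wt N K) :
    Bz G ν z w w' = ∫ t in (0 : ℝ)..(2 * Real.pi), bz G ν z t w w' := by
  have hc := continuous_bz (G := G) (ν := ν) hz
  rw [Bz, ContinuousLinearMap.intervalIntegral_apply (hc.intervalIntegrable _ _),
    ContinuousLinearMap.intervalIntegral_apply
      ((hc.clm_apply continuous_const).intervalIntegrable _ _)]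

theorem contDiffAt_Bz (hz : z ∈ TS G) : ContDiffAt ℝ ∞ (Bz G ν) z := by
  have h1 : ContDiffAt ℝ ∞ (FI.I1 (fun p : (Euc N × Euc N) × ℝ =>
      bL G ν (fl G (p.1, 2 * Real.pi * p.2), 2 * Real.pi * p.2))) z := by
    refine FI.contDiffAt_I1 fun t _ => ?_
    have h2 : ContDiffAt ℝ ∞ (fun p : (Euc N × Euc N) × ℝ => (p.1, 2 * Real.pi * p.2)) (z, t) := by
      fun_prop
    have h3 : ContDiffAt ℝ ∞ (fun p : (Euc N × Euc N) × ℝ => fl G (p.1, 2 * Real.pi * p.2))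
        (z, t) := ContDiffAt.comp (z, t) (g := fl G) (contDiffAt_fl' G hz _) h2
    have h4 : ContDiffAt ℝ ∞ (fun p : (Euc N × Euc N) × ℝ =>
        (fl G (p.1, 2 * Real.pi * p.2), 2 * Real.pi * p.2)) (z, t) :=
      h3.prodMk (by fun_prop)
    exact (contDiff_bL (G := G) (ν := ν)).contDiffAt.comp (z, t) h4
  have h2 : (Bz G ν : Euc N × Euc N → _) = fun z => (2 * Real.pi) •
      FI.I1 (fun p : (Euc N × Euc N) × ℝ =>
        bL G ν (fl G (p.1, 2 * Real.pi * p.2), 2 * Real.pi * p.2)) z := by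
    funext z
    have := intervalIntegral.smul_integral_comp_mul_left (a := 0) (b := 1) (bz G ν z)
      (2 * Real.pi)
    rw [mul_zero, mul_one] at this
    exact this.symm
  rw [h2]
  exact h1.const_smul (2 * Real.pi)

lemma Fp_fd (w : Wt N K) (t : ℝ) : Fp G ν (fl G (z, t), t) w = fd G z ν w t := rfl
lemma Dp_fd (w : Wt N K) (t : ℝ) : Dp G ν (fl G (z, t), t) w = fd' G z ν w t := rfl

lemma bz_eq (w w' : Wt N K) (t : ℝ) : bz G ν z t w w' =
    SV.ixd G z (fd G z ν w) (fd' G z ν w) (fd G z ν w') (fd' G z ν w') t +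
      ⟪ev ν t w - fd G z ν w t, ev ν t w' - fd G z ν w' t⟫ := rfl

lemma continuous_fd (hz : z ∈ TS G) (w : Wt N K) : Continuous (fd G z ν w) :=
  continuous_iff_continuousAt.2 fun t => (hasDerivAt_fd hz ν w t).continuousAt

lemma continuous_ev (w : Wt N K) : Continuous fun t => ev ν t w :=
  (contDiff_ev ν).continuous.clm_apply continuous_const

theorem Bz_eq (hz : z ∈ TS G) (w w' : Wt N K) : Bz G ν z w w' =
    SV.ix G z 0 (2 * Real.pi) (fd G z ν w) (fd' G z ν w) (fd G z ν w') (fd' G z ν w') +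
      ∫ t in (0 : ℝ)..(2 * Real.pi), ⟪ev ν t w - fd G z ν w t, ev ν t w' - fd G z ν w' t⟫ := by
  have hπ : (0 : ℝ) ≤ 2 * Real.pi := by positivity
  rw [Bz_apply hz]
  have h1 : Continuous fun t => ⟪ev ν t w - fd G z ν w t, ev ν t w' - fd G z ν w' t⟫ :=
    ((continuous_ev w).sub (continuous_fd hz w)).inner
      ((continuous_ev w').sub (continuous_fd hz w'))
  exact intervalIntegral.integral_add
    ((fld_fd hz ν w 0 (2 * Real.pi)).intble hz hπ (fld_fd hz ν w' 0 (2 * Real.pi)))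
    (h1.intervalIntegrable _ _)

theorem qf_eq (hz : z ∈ TS G) (w : Wt N K) : qf G z ν w = Bz G ν z w w := by
  rw [Bz_eq hz, qf]
  congr 1
  refine intervalIntegral.integral_congr fun t _ => ?_
  exact (real_inner_self_eq_norm_sq _).symm

theorem Bz_symm (hz : z ∈ TS G) (w w' : Wt N K) : Bz G ν z w w' = Bz G ν z w' w := by
  have hπ : (0 : ℝ) ≤ 2 * Real.pi := by positivity
  rw [Bz_eq hz, Bz_eq hz, SV.ix_symm hπ hz (fld_fd hz ν w _ _) (fld_fd hz ν w' _ _)]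
  congr 1
  refine intervalIntegral.integral_congr fun t _ => ?_
  exact real_inner_comm _ _

/-! ### the operator -/

/-- the operator of a bilinear form -/
def opB (B : Wt N K →L[ℝ] Wt N K →L[ℝ] ℝ) : Wt N K →L[ℝ] Wt N K :=
  ∑ j, (ContinuousLinearMap.toSpanSingleton ℝ (stdOrthonormalBasis ℝ (Wt N K) j)).comp
    ((ContinuousLinearMap.apply ℝ ℝ (stdOrthonormalBasis ℝ (Wt N K) j : Wt N K)).comp B)

theorem inner_opB (B : Wt N K →L[ℝ] Wt N K →L[ℝ] ℝ) (w w' : Wt N K) :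
    ⟪opB B w, w'⟫ = B w w' := by
  set e := stdOrthonormalBasis ℝ (Wt N K) with he
  have h1 : opB B w = ∑ j, B w (e j) • (e j : Wt N K) := by
    simp [opB, he]
  rw [h1, sum_inner]
  conv_rhs => rw [← e.sum_repr' w']
  rw [map_sum]
  refine Finset.sum_congr rfl fun j _ => ?_
  rw [real_inner_smul_left, map_smul, smul_eq_mul, mul_comm]

/-- the operator of `qf` -/
def Az (G : Geo n N κ S) (ν : Fin K → ℝ) (z : Euc N × Euc N) : Wt N K →L[ℝ] Wt N K :=
  opB (Bz G ν z)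

theorem inner_Az (w w' : Wt N K) : ⟪Az G ν z w, w'⟫ = Bz G ν z w w' := inner_opB _ _ _

theorem inner_Az_self (hz : z ∈ TS G) (w : Wt N K) : ⟪Az G ν z w, w⟫ = qf G z ν w := by
  rw [inner_Az, qf_eq hz]

theorem sy_Az (hz : z ∈ TS G) : SPJ.Sy (Az G ν z) := fun v w => by
  rw [inner_Az, real_inner_comm, inner_Az, Bz_symm hz]

theorem contDiffAt_Az (hz : z ∈ TS G) : ContDiffAt ℝ ∞ (Az G ν) z := by
  unfold Az opB
  refine ContDiffAt.sum fun j _ => ?_
  exact contDiffAt_const.clm_comp (contDiffAt_const.clm_comp (contDiffAt_Bz hz))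

/-! ### equivariance -/

lemma Fp_Rt (x : Euc N × Euc N) (t s : ℝ) (w : Wt N K) :
    Fp G ν (x, t) (Rt ν s w) = Fp G ν (x, t + s) w := by
  change G.P x.1 (ev ν t (Rt ν s w)) = G.P x.1 (ev ν (t + s) w)
  rw [ev_Rt]

lemma Dp_Rt (x : Euc N × Euc N) (t s : ℝ) (w : Wt N K) :
    Dp G ν (x, t) (Rt ν s w) = Dp G ν (x, t + s) w := by
  change fderiv ℝ G.P x.1 x.2 (ev ν t (Rt ν s w)) + G.P x.1 (ev' ν t (Rt ν s w)) =
    fderiv ℝ G.P x.1 x.2 (ev ν (t + s) w) + G.P x.1 (ev' ν (t + s) w)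
  rw [ev_Rt, ev'_Rt]

lemma bL_Rt (x : Euc N × Euc N) (t s : ℝ) (w w' : Wt N K) :
    bL G ν (x, t) (Rt ν s w) (Rt ν s w') = bL G ν (x, t + s) w w' := by
  rw [bL_apply, bL_apply, Fp_Rt, Fp_Rt, Dp_Rt, Dp_Rt]
  change _ + ⟪ev ν t (Rt ν s w) - _, ev ν t (Rt ν s w') - _⟫ = _ +
    ⟪ev ν (t + s) w - _, ev ν (t + s) w' - _⟫
  rw [ev_Rt, ev_Rt]

/-- the frequencies are all integers or all half integers: `R (2π) = σ = ± 1` -/
def Sig (N : ℕ) (ν : Fin K → ℝ) (σ : ℝ) : Prop :=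
  σ * σ = 1 ∧ ∀ w : Wt N K, Rt ν (2 * Real.pi) w = σ • w

lemma sig_per : Sig N (nuP K) 1 := ⟨one_mul 1, fun w => by rw [Rt_per, one_smul]⟩

lemma sig_aper : Sig N (nuA K) (-1) := ⟨by norm_num, fun w => by rw [Rt_aper]; simp⟩

lemma bL_smul (p : (Euc N × Euc N) × ℝ) (σ : ℝ) (hσ : σ * σ = 1) (w w' : Wt N K) :
    bL G ν p (σ • w) (σ • w') = bL G ν p w w' := by
  simp only [map_smul, smul_apply, smul_eq_mul]
  rw [← mul_assoc, hσ, one_mul]

theorem bz_periodic (hper : HS.Per G) (hz : z ∈ TS G) (h1 : ‖z.2‖ = 1) {σ : ℝ}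
    (hσ : Sig N ν σ) (w w' : Wt N K) :
    Function.Periodic (fun t => bz G ν z t w w') (2 * Real.pi) := by
  intro t
  change bL G ν (fl G (z, t + 2 * Real.pi), t + 2 * Real.pi) w w' = bL G ν (fl G (z, t), t) w w'
  have h2 : fl G (z, t + 2 * Real.pi) = fl G (z, t) := by
    rw [add_comm, fl_add' G hz, hper z hz h1]
  rw [h2, ← bL_Rt, hσ.2, hσ.2, bL_smul _ σ hσ.1]

theorem Bz_equiv (hper : HS.Per G) (hz : z ∈ TS G) (h1 : ‖z.2‖ = 1) {σ : ℝ}
    (hσ : Sig N ν σ) (s : ℝ) (w w' : Wt N K) :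
    Bz G ν (fl G (z, s)) (Rt ν s w) (Rt ν s w') = Bz G ν z w w' := by
  have hs := fl_mem G hz s
  rw [Bz_apply hs, Bz_apply hz]
  have h2 : ∀ t, bz G ν (fl G (z, s)) t (Rt ν s w) (Rt ν s w') = bz G ν z (t + s) w w' := by
    intro t
    change bL G ν (fl G (fl G (z, s), t), t) (Rt ν s w) (Rt ν s w') =
      bL G ν (fl G (z, t + s), t + s) w w'
    rw [bL_Rt, ← fl_add' G hz, add_comm s t]
  simp only [h2]
  rw [intervalIntegral.integral_comp_add_right (fun t => bz G ν z t w w') s, zero_add]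
  have h3 := (bz_periodic hper hz h1 hσ w w').intervalIntegral_add_eq s 0
  rw [zero_add, add_comm s] at h3
  exact h3

/-- the rotation as an isometry -/
def Ri (N : ℕ) (ν : Fin K → ℝ) (s : ℝ) : Wt N K ≃ₗᵢ[ℝ] Wt N K :=
  { toFun := Rt ν s
    map_add' := map_add _
    map_smul' := map_smul _
    invFun := Rt ν (-s)
    left_inv := fun w => by rw [← Rt_add, neg_add_cancel, Rt_zero]
    right_inv := fun w => by rw [← Rt_add, add_neg_cancel, Rt_zero]
    norm_map' := fun w => norm_Rt ν s w }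

@[simp] lemma Ri_apply (ν : Fin K → ℝ) (s : ℝ) (w : Wt N K) : Ri N ν s w = Rt ν s w := rfl

theorem Az_equiv (hper : HS.Per G) (hz : z ∈ TS G) (h1 : ‖z.2‖ = 1) {σ : ℝ}
    (hσ : Sig N ν σ) (s : ℝ) (w : Wt N K) :
    Az G ν (fl G (z, s)) (Rt ν s w) = Rt ν s (Az G ν z w) := by
  refine ext_inner_right ℝ fun v => ?_
  have h2 : v = Rt ν s (Rt ν (-s) v) := by rw [← Rt_add, add_neg_cancel, Rt_zero]
  rw [h2, inner_Az, inner_Rt, inner_Az]
  exact Bz_equiv hper hz h1 hσ s _ _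

end Crest.Agent.R208.NB
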