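import Crest.Agent.R208.NB6

/-! Row 208, block NB (helper537), part NB7: the projection `npr` to the negative space `N_z`. -/

set_option autoImplicit false
set_option linter.unusedSectionVars false
set_option linter.unusedVariables false

open MeasureTheory Set Filter Topology Module
open scoped ContDiff RealInnerProductSpace
open Crest.GeometryTopology.Submanifold
open Crest.Agent.R241.DDefs
open Crest.Agent.R241.D2
open Crest.Agent.R208.NN

noncomputable section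

namespace Crest.Agent.R208.NB

variable {n N k K r : ℕ} {κ : ℝ} {S : Set (Euc N)} {G : Geo n N κ S} {z : Euc N × Euc N}
  {ν : Fin K → ℝ} {δ : ℝ} {PN : Euc N × Euc N → Wt N K →L[ℝ] Wt N K} {V V' W W' : ℝ → Euc N}

/-! ### the index form on the space of coefficients -/

/-- integrand -/
def cL (G : Geo n N κ S) (ν : Fin K → ℝ) (p : (Euc N × Euc N) × ℝ) :
    Wt N K →L[ℝ] Wt N K →L[ℝ] ℝ :=
  (ip N).bilinearComp (Dp G ν p) (Dp G ν p) -
    (bII G p.1).bilinearComp (Fp G ν p) (Fp G ν p)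

lemma cL_apply (p : (Euc N × Euc N) × ℝ) (w w' : Wt N K) :
    cL G ν p w w' = ⟪Dp G ν p w, Dp G ν p w'⟫ -
      ⟪(X G p.1).2, fderiv ℝ G.P p.1.1 (Fp G ν p w) (Fp G ν p w')⟫ := rfl

theorem contDiff_cL : ContDiff ℝ ∞ (cL G ν : (Euc N × Euc N) × ℝ → _) := by
  rw [contDiff_clm_apply_iff]
  intro w
  rw [contDiff_clm_apply_iff]
  intro w'
  have hX : ContDiff ℝ ∞ (fun p : (Euc N × Euc N) × ℝ => (X G p.1).2) :=
    contDiff_snd.comp ((contDiff_X G).comp contDiff_fst)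
  have h1 := (contDiff_Dp (G := G) (ν := ν) w).inner ℝ (contDiff_Dp (G := G) (ν := ν) w')
  have h2 := hX.inner ℝ (((contDiff_dP_p (G := G)).clm_apply
    (contDiff_Fp (G := G) (ν := ν) w)).clm_apply (contDiff_Fp (G := G) (ν := ν) w'))
  exact h1.sub h2

/-- the index form of `fd w`, `fd w'` -/
def Cb (G : Geo n N κ S) (ν : Fin K → ℝ) (z : Euc N × Euc N) : Wt N K →L[ℝ] Wt N K →L[ℝ] ℝ :=
  ∫ t in (0 : ℝ)..(2 * Real.pi), cL G ν (fl G (z, t), t)

lemma continuous_cL (hz : z ∈ TS G) : Continuous fun t => cL G ν (fl G (z, t), t) :=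
  (contDiff_cL (G := G) (ν := ν)).continuous.comp (continuous_fl_t hz)

theorem Cb_eq (hz : z ∈ TS G) (w w' : Wt N K) : Cb G ν z w w' =
    SV.ix G z 0 (2 * Real.pi) (fd G z ν w) (fd' G z ν w) (fd G z ν w') (fd' G z ν w') := by
  have hc := continuous_cL (G := G) (ν := ν) hz
  rw [Cb, ContinuousLinearMap.intervalIntegral_apply (hc.intervalIntegrable _ _),
    ContinuousLinearMap.intervalIntegral_apply
      ((hc.clm_apply continuous_const).intervalIntegrable _ _)]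
  rfl

theorem contDiffAt_Cb (hz : z ∈ TS G) : ContDiffAt ℝ ∞ (Cb G ν) z := by
  have hπ : (0 : ℝ) ≤ 2 * Real.pi := by positivity
  refine contDiffAt_int (g := fun p : (Euc N × Euc N) × ℝ => cL G ν (fl G p, p.2)) hπ
    fun t _ => ?_
  exact (contDiff_cL (G := G) (ν := ν)).contDiffAt.comp (z, t)
    ((contDiffAt_fl' G hz t).prodMk contDiffAt_snd)

lemma cL_Rt (x : Euc N × Euc N) (t s : ℝ) (w w' : Wt N K) :
    cL G ν (x, t) (Rt ν s w) (Rt ν s w') = cL G ν (x, t + s) w w' := by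
  rw [cL_apply, cL_apply, Fp_Rt, Fp_Rt, Dp_Rt, Dp_Rt]

lemma cL_smul (p : (Euc N × Euc N) × ℝ) (σ : ℝ) (hσ : σ * σ = 1) (w w' : Wt N K) :
    cL G ν p (σ • w) (σ • w') = cL G ν p w w' := by
  simp only [map_smul, smul_apply, smul_eq_mul]
  rw [← mul_assoc, hσ, one_mul]

theorem Cb_apply (hz : z ∈ TS G) (w w' : Wt N K) : Cb G ν z w w' =
    ∫ t in (0 : ℝ)..(2 * Real.pi), cL G ν (fl G (z, t), t) w w' := by
  have hc := continuous_cL (G := G) (ν := ν) hz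
  rw [Cb, ContinuousLinearMap.intervalIntegral_apply (hc.intervalIntegrable _ _),
    ContinuousLinearMap.intervalIntegral_apply
      ((hc.clm_apply continuous_const).intervalIntegrable _ _)]

theorem Cb_equiv (hper : HS.Per G) (hz : z ∈ TS G) (h1 : ‖z.2‖ = 1) {σ : ℝ}
    (hσ : Sig N ν σ) (s : ℝ) (w w' : Wt N K) :
    Cb G ν (fl G (z, s)) (Rt ν s w) (Rt ν s w') = Cb G ν z w w' := by
  have hs := fl_mem G hz s
  rw [Cb_apply hs, Cb_apply hz]
  have h2 : ∀ t, cL G ν (fl G (fl G (z, s), t), t) (Rt ν s w) (Rt ν s w') =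
      cL G ν (fl G (z, t + s), t + s) w w' := by
    intro t
    rw [cL_Rt, ← fl_add' G hz, add_comm s t]
  simp only [h2]
  rw [intervalIntegral.integral_comp_add_right (fun t => cL G ν (fl G (z, t), t) w w') s,
    zero_add]
  have hp : Function.Periodic (fun t => cL G ν (fl G (z, t), t) w w') (2 * Real.pi) := by
    intro t
    change cL G ν (fl G (z, t + 2 * Real.pi), t + 2 * Real.pi) w w' = _
    have h4 : fl G (z, t + 2 * Real.pi) = fl G (z, t) := by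
      rw [add_comm, fl_add' G hz, hper z hz h1]
    rw [h4, ← cL_Rt, hσ.2, hσ.2, cL_smul _ σ hσ.1]
  have h3 := hp.intervalIntegral_add_eq s 0
  rw [zero_add, add_comm s] at h3
  exact h3

/-- the operator -/
def Cz (G : Geo n N κ S) (ν : Fin K → ℝ) (z : Euc N × Euc N) : Wt N K →L[ℝ] Wt N K :=
  opB (Cb G ν z)

theorem inner_Cz (hz : z ∈ TS G) (w w' : Wt N K) : ⟪Cz G ν z w, w'⟫ =
    SV.ix G z 0 (2 * Real.pi) (fd G z ν w) (fd' G z ν w) (fd G z ν w') (fd' G z ν w') := by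
  rw [Cz, inner_opB, Cb_eq hz]

theorem contDiffAt_Cz (hz : z ∈ TS G) : ContDiffAt ℝ ∞ (Cz G ν) z := by
  unfold Cz opB
  refine ContDiffAt.sum fun j _ => ?_
  exact contDiffAt_const.clm_comp (contDiffAt_const.clm_comp (contDiffAt_Cb hz))

/-- the invertible operator: `PN Cz PN - δ (1 - PN)` -/
def Mz (G : Geo n N κ S) (ν : Fin K → ℝ) (δ : ℝ)
    (PN : Euc N × Euc N → Wt N K →L[ℝ] Wt N K) (z : Euc N × Euc N) : Wt N K →L[ℝ] Wt N K :=
  (PN z).comp ((Cz G ν z).comp (PN z)) - δ • (1 - PN z)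

/-- **the projection to `N_z`** -/
def npr (G : Geo n N κ S) (ν : Fin K → ℝ) (δ : ℝ)
    (PN : Euc N × Euc N → Wt N K →L[ℝ] Wt N K) (z : Euc N × Euc N) (W : ℝ → Euc N) : Wt N K :=
  Ring.inverse (Mz G ν δ PN z) (PN z (bv G ν z W))

namespace NegB

variable (H : NegB G r ν δ PN)

include H

lemma norm_PN (z : Euc N × Euc N) (w : Wt N K) :
    ‖w‖ ^ 2 = ‖PN z w‖ ^ 2 + ‖w - PN z w‖ ^ 2 := by
  have h1 : ⟪PN z w, w - PN z w⟫ = 0 := by
    rw [H.sy z w, map_sub, H.idem, sub_self, inner_zero_right]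
  have h2 : ‖PN z w + (w - PN z w)‖ * ‖PN z w + (w - PN z w)‖ =
      ‖PN z w‖ * ‖PN z w‖ + ‖w - PN z w‖ * ‖w - PN z w‖ :=
    norm_add_sq_eq_norm_sq_add_norm_sq_of_inner_eq_zero _ _ h1
  rw [add_sub_cancel] at h2
  rw [pow_two, pow_two, pow_two]; exact h2

lemma norm_PN_le (z : Euc N × Euc N) (w : Wt N K) : ‖PN z w‖ ≤ ‖w‖ := by
  have h1 := H.norm_PN z w
  have h2 := sq_nonneg ‖w - PN z w‖
  exact le_of_sq_le_sq (by linarith) (norm_nonneg _)

theorem inner_Mz (hz : z ∈ L.US G) (w : Wt N K) :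
    ⟪Mz G ν δ PN z w, w⟫ ≤ -(δ * ‖w‖ ^ 2) := by
  have h1 : Mz G ν δ PN z w = PN z (Cz G ν z (PN z w)) - δ • (w - PN z w) := rfl
  have h2 : ⟪PN z (Cz G ν z (PN z w)), w⟫ ≤ -(δ * ‖PN z w‖ ^ 2) := by
    rw [H.sy z, inner_Cz hz.1]
    exact H.ix_neg hz (H.idem z w)
  have h3 : ⟪w - PN z w, w⟫ = ‖w - PN z w‖ ^ 2 := by
    have h5 : ⟪w - PN z w, PN z w⟫ = 0 := by
      rw [real_inner_comm, H.sy z w, map_sub, H.idem, sub_self, inner_zero_right]
    have h6 : ⟪w - PN z w, w⟫ = ⟪w - PN z w, PN z w⟫ + ⟪w - PN z w, w - PN z w⟫ := by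
      rw [← inner_add_right, add_sub_cancel]
    rw [h6, h5, zero_add, real_inner_self_eq_norm_sq]
  have h4 := H.norm_PN z w
  rw [h1, inner_sub_left, real_inner_smul_left, h3, h4]
  linarith

theorem le_norm_Mz (hz : z ∈ L.US G) (w : Wt N K) : δ * ‖w‖ ≤ ‖Mz G ν δ PN z w‖ := by
  have h1 := H.inner_Mz hz w
  have h2 := abs_real_inner_le_norm (Mz G ν δ PN z w) w
  have h3 := abs_le.1 h2
  by_cases hw : ‖w‖ = 0
  · rw [hw, mul_zero]; exact norm_nonneg _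
  · have hw' : 0 < ‖w‖ := lt_of_le_of_ne (norm_nonneg _) (Ne.symm hw)
    have h4 : δ * ‖w‖ * ‖w‖ ≤ ‖Mz G ν δ PN z w‖ * ‖w‖ := by nlinarith [h3.1]
    exact le_of_mul_le_mul_right h4 hw'

theorem isUnit_Mz (hz : z ∈ L.US G) : IsUnit (Mz G ν δ PN z) := by
  have hinj : Function.Injective (Mz G ν δ PN z) := by
    rw [injective_iff_map_eq_zero]
    intro w hw
    have h1 := H.le_norm_Mz hz w
    rw [hw, norm_zero] at h1
    have h2 := H.pos_δ
    by_contra h3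
    have h4 : 0 < ‖w‖ := norm_pos_iff.2 h3
    have : 0 < δ * ‖w‖ := by positivity
    linarith
  have h1 : IsUnit (Mz G ν δ PN z : Wt N K →ₗ[ℝ] Wt N K) :=
    (LinearMap.isUnit_iff_ker_eq_bot _).2 (LinearMap.ker_eq_bot.2 hinj)
  obtain ⟨u, hu⟩ := h1
  refine ⟨⟨Mz G ν δ PN z, LinearMap.toContinuousLinearMap (u⁻¹ : (Wt N K →ₗ[ℝ] Wt N K)ˣ).1,
    ?_, ?_⟩, rfl⟩
  · ext1 w
    have h2 : ((u : Wt N K →ₗ[ℝ] Wt N K) * (u⁻¹ : (Wt N K →ₗ[ℝ] Wt N K)ˣ).1) w = w := by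
      rw [Units.mul_inv]; rfl
    rw [hu] at h2
    exact h2
  · ext1 w
    have h2 : ((u⁻¹ : (Wt N K →ₗ[ℝ] Wt N K)ˣ).1 * (u : Wt N K →ₗ[ℝ] Wt N K)) w = w := by
      rw [Units.inv_mul]; rfl
    rw [hu] at h2
    exact h2

theorem inv_Mz (hz : z ∈ L.US G) (w : Wt N K) :
    Ring.inverse (Mz G ν δ PN z) (Mz G ν δ PN z w) = w := by
  have h1 := Ring.inverse_mul_cancel _ (H.isUnit_Mz hz)
  exact congrArg (fun A : Wt N K →L[ℝ] Wt N K => A w) h1

theorem Mz_inv (hz : z ∈ L.US G) (w : Wt N K) :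
    Mz G ν δ PN z (Ring.inverse (Mz G ν δ PN z) w) = w := by
  have h1 := Ring.mul_inverse_cancel _ (H.isUnit_Mz hz)
  exact congrArg (fun A : Wt N K →L[ℝ] Wt N K => A w) h1

theorem contDiffAt_Mz (hz : z ∈ L.US G) : ContDiffAt ℝ ∞ (Mz G ν δ PN) z := by
  unfold Mz
  exact ((H.smooth z hz).clm_comp ((contDiffAt_Cz hz.1).clm_comp (H.smooth z hz))).sub
    ((contDiffAt_const.sub (H.smooth z hz)).const_smul δ)

theorem contDiffAt_inv (hz : z ∈ L.US G) :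
    ContDiffAt ℝ ∞ (fun z => Ring.inverse (Mz G ν δ PN z)) z := by
  obtain ⟨u, hu⟩ := H.isUnit_Mz hz
  have h1 : ContDiffAt ℝ ∞ Ring.inverse (Mz G ν δ PN z) := by
    rw [← hu]; exact contDiffAt_ringInverse ℝ u
  exact h1.comp z (H.contDiffAt_Mz hz)

/-! ### properties of `npr` -/

/-- smoothness along smooth families -/
theorem contDiffAt_npr {E : Type} [NormedAddCommGroup E] [NormedSpace ℝ E]
    [FiniteDimensional ℝ E]
    {zz : E → Euc N × Euc N} {F : E × ℝ → Euc N} {x : E} (hzz : ContDiffAt ℝ ∞ zz x)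
    (hx : zz x ∈ L.US G) (hF : ∀ t ∈ Icc (0 : ℝ) (2 * Real.pi), ContDiffAt ℝ ∞ F (x, t)) :
    ContDiffAt ℝ ∞ (fun x => npr G ν δ PN (zz x) (fun t => F (x, t))) x := by
  have h1 : ContDiffAt ℝ ∞ (fun x => Ring.inverse (Mz G ν δ PN (zz x))) x :=
    ContDiffAt.comp x (g := fun z => Ring.inverse (Mz G ν δ PN z)) (H.contDiffAt_inv hx) hzz
  have h2 : ContDiffAt ℝ ∞ (fun x => PN (zz x)) x :=
    ContDiffAt.comp x (g := PN) (H.smooth _ hx) hzz
  exact h1.clm_apply (h2.clm_apply (contDiffAt_bv hzz hx.1 hF))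

/-- `n(W)` is in `N_z` -/
theorem npr_mem (hz : z ∈ L.US G) (W : ℝ → Euc N) :
    PN z (npr G ν δ PN z W) = npr G ν δ PN z W := by
  set m := npr G ν δ PN z W with hm
  have h1 : Mz G ν δ PN z m = PN z (bv G ν z W) := H.Mz_inv hz _
  have h2 : Mz G ν δ PN z m = PN z (Cz G ν z (PN z m)) - δ • (m - PN z m) := rfl
  have h3 : δ • (m - PN z m) = 0 := by
    have h4 : PN z (Mz G ν δ PN z m) = Mz G ν δ PN z m := by rw [h1, H.idem]
    rw [h2, map_sub, map_smul, map_sub, H.idem, H.idem, sub_self, smul_zero, sub_zero] at h4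
    exact sub_eq_self.1 h4.symm
  have h4 := (smul_eq_zero.1 h3).resolve_left H.pos_δ.ne'
  exact (sub_eq_zero.1 h4).symm

/-- defining property -/
theorem inner_npr (hz : z ∈ L.US G) (W : ℝ → Euc N) {m : Wt N K} (hm : PN z m = m) :
    SV.ix G z 0 (2 * Real.pi) (fd G z ν (npr G ν δ PN z W)) (fd' G z ν (npr G ν δ PN z W))
      (fd G z ν m) (fd' G z ν m) = ⟪bv G ν z W, m⟫ := by
  have h1 : Mz G ν δ PN z (npr G ν δ PN z W) = PN z (bv G ν z W) := H.Mz_inv hz _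
  have h2 : Mz G ν δ PN z (npr G ν δ PN z W) = PN z (Cz G ν z (PN z (npr G ν δ PN z W))) -
    δ • (npr G ν δ PN z W - PN z (npr G ν δ PN z W)) := rfl
  rw [H.npr_mem hz, sub_self, smul_zero, sub_zero] at h2
  rw [← inner_Cz hz.1]
  have h3 : ⟪Cz G ν z (npr G ν δ PN z W), m⟫ = ⟪PN z (Cz G ν z (npr G ν δ PN z W)), m⟫ := by
    rw [H.sy z, hm]
  rw [h3, ← h2, h1, H.sy z, hm]

/-- **`B(W, fd m) = B(fd (n(W)), fd m)` for all `m ∈ N_z`** -/
theorem ix_npr (h : GT.Bla G k) (hz : z ∈ L.US G) {σ : ℝ} (hσ : Sig N ν σ)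
    (hW : SV.Fld G z 0 (2 * Real.pi) W W') (hper : W (2 * Real.pi) = σ • W 0)
    {m : Wt N K} (hm : PN z m = m) :
    SV.ix G z 0 (2 * Real.pi) W W' (fd G z ν m) (fd' G z ν m) =
      SV.ix G z 0 (2 * Real.pi) (fd G z ν (npr G ν δ PN z W)) (fd' G z ν (npr G ν δ PN z W))
        (fd G z ν m) (fd' G z ν m) := by
  rw [H.inner_npr hz W hm, inner_bv hz.1 hW.contX, ix_eq_bq h hz hσ m hW hper]

/-- uniqueness -/
theorem eq_of_ix (hz : z ∈ L.US G) {w w' : Wt N K} (hw : PN z w = w) (hw' : PN z w' = w')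
    (he : ∀ m, PN z m = m →
      SV.ix G z 0 (2 * Real.pi) (fd G z ν w) (fd' G z ν w) (fd G z ν m) (fd' G z ν m) =
      SV.ix G z 0 (2 * Real.pi) (fd G z ν w') (fd' G z ν w') (fd G z ν m) (fd' G z ν m)) :
    w = w' := by
  have h1 : Mz G ν δ PN z w = Mz G ν δ PN z w' := by
    have e1 : Mz G ν δ PN z w = PN z (Cz G ν z (PN z w)) - δ • (w - PN z w) := rfl
    have e2 : Mz G ν δ PN z w' = PN z (Cz G ν z (PN z w')) - δ • (w' - PN z w') := rfl
    rw [e1, e2, hw, hw', sub_self, sub_self, smul_zero, sub_zero, sub_zero]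
    refine ext_inner_right ℝ fun m => ?_
    rw [H.sy z, H.sy z, inner_Cz hz.1, inner_Cz hz.1]
    exact he _ (H.idem z m)
  rw [← H.inv_Mz hz w, h1, H.inv_Mz hz]

theorem npr_fd (h : GT.Bla G k) (hz : z ∈ L.US G) {σ : ℝ} (hσ : Sig N ν σ) {w : Wt N K}
    (hw : PN z w = w) : npr G ν δ PN z (fd G z ν w) = w := by
  have hF := fld_fd hz.1 ν w 0 (2 * Real.pi)
  have hper : fd G z ν w (2 * Real.pi) = σ • fd G z ν w 0 := by
    change Fp G ν (fl G (z, 2 * Real.pi), 2 * Real.pi) w = σ • Fp G ν (fl G (z, 0), 0) w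
    rw [fl_two_pi h hz, fl_zero]
    have := Fp_Rt (G := G) (ν := ν) z 0 (2 * Real.pi) w
    rw [zero_add] at this
    rw [← this, hσ.2, map_smul]
  exact H.eq_of_ix hz (H.npr_mem hz _) hw fun m hm => (H.ix_npr h hz hσ hF hper hm).symm

theorem npr_congr (he : EqOn V W (Icc 0 (2 * Real.pi))) :
    npr G ν δ PN z V = npr G ν δ PN z W := by
  unfold npr; rw [bv_congr he]

theorem npr_add (hz : z ∈ TS G) (hV : ContinuousOn V (Icc 0 (2 * Real.pi)))
    (hW : ContinuousOn W (Icc 0 (2 * Real.pi))) :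
    npr G ν δ PN z (V + W) = npr G ν δ PN z V + npr G ν δ PN z W := by
  unfold npr; rw [bv_add hz hV hW, map_add, map_add]

theorem npr_smul (hz : z ∈ TS G) (c : ℝ) (hW : ContinuousOn W (Icc 0 (2 * Real.pi))) :
    npr G ν δ PN z (c • W) = c • npr G ν δ PN z W := by
  unfold npr; rw [bv_smul hz c hW, map_smul, map_smul]

theorem npr_sub (hz : z ∈ TS G) (hV : ContinuousOn V (Icc 0 (2 * Real.pi)))
    (hW : ContinuousOn W (Icc 0 (2 * Real.pi))) :
    npr G ν δ PN z (V - W) = npr G ν δ PN z V - npr G ν δ PN z W := by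
  have h1 : V - W = V + (-1 : ℝ) • W := by rw [neg_one_smul, sub_eq_add_neg]
  rw [h1, H.npr_add hz hV (hW.const_smul _), H.npr_smul hz _ hW, neg_one_smul, sub_eq_add_neg]

/-- **equivariance** -/
theorem npr_equiv (h : GT.Bla G k) (hz : z ∈ L.US G) {σ : ℝ} (hσ : Sig N ν σ)
    (hc : Continuous W) (hW : ∀ t, W (t + 2 * Real.pi) = σ • W t) (s : ℝ) :
    npr G ν δ PN (fl G (z, s)) (fun t => W (t + s)) = Rt ν s (npr G ν δ PN z W) := by
  have hs := fl_mem_US hz s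
  refine H.eq_of_ix hs (H.npr_mem hs _) ?_ fun m hm => ?_
  · rw [H.equi z hz, H.npr_mem hz]
  · rw [H.inner_npr hs _ hm, bv_equiv h.ty.per hz.1 hz.2 hσ hc hW]
    have h2 : m = Rt ν s (Rt ν (-s) m) := by rw [← Rt_add, add_neg_cancel, Rt_zero]
    have hm' : PN z (Rt ν (-s) m) = Rt ν (-s) m := by
      have h3 := H.equi z hz s (Rt ν (-s) m)
      rw [← h2, hm] at h3
      have h4 : Rt ν (-s) (Rt ν s (PN z (Rt ν (-s) m))) = PN z (Rt ν (-s) m) := by
        rw [← Rt_add, neg_add_cancel, Rt_zero]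
      rw [← h4, ← h3]
    have h5 := H.inner_npr hz W hm'
    rw [← Cb_eq hz.1] at h5
    rw [← Cb_eq hs.1]
    set m' := Rt ν (-s) m with hm'd
    rw [h2, inner_Rt, ← h5]
    exact (Cb_equiv h.ty.per hz.1 hz.2 hσ s _ _).symm

end NegB

end Crest.Agent.R208.NB
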