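import Crest.Agent.R208.L1
import Crest.Agent.R208.J2

/-!
R208, block SV (helper336), part 1: the index form along a geodesic, in extrinsic form
(no curvature tensor), and its boundary term on Jacobi fields.
-/

set_option autoImplicit false

open Set Filter Topology MeasureTheory
open scoped ContDiff RealInnerProductSpace Interval
open Crest.GeometryTopology.Submanifold
open Crest.Agent.R241.DDefs
open Crest.Agent.R241.D2
open Crest.Agent.R208.L (om TanTS dfl)

noncomputable section

namespace Crest.Agent.R208.SV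

variable {n N : ℕ} {κ : ℝ} {S : Set (Euc N)} {G : Geo n N κ S} {q ξ : Euc N × Euc N}

/-! ### tangent vectors of the tangent bundle -/

lemma snd_eq (h : TanTS G q ξ) : ξ.2 = G.P q.1 ξ.2 + II G q.1 q.2 ξ.1 :=
  J.TanTS.snd_eq (G := G) (q := q) (z := ξ) h

lemma mem_TS (h : TanTS G q ξ) : q ∈ TS G := J.TanTS.mem (G := G) (q := q) (z := ξ) h

lemma tanTS_mk {x y a b : Euc N} (hx : x ∈ S) (hy : y ∈ G.T x) (ha : a ∈ G.T x)
    (hb : b ∈ G.T x) : TanTS G (x, y) (a, II G x y a + b) :=
  J.tanTS_of hx hy ha hb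

lemma II_comm {x v w : Euc N} (hx : x ∈ S) (hv : v ∈ G.T x) (hw : w ∈ G.T x) :
    II G x v w = II G x w v := L.II_symm G hx hv hw

lemma P_II {x v w : Euc N} (hx : x ∈ S) (hv : v ∈ G.T x) (hw : w ∈ G.T x) :
    G.P x (II G x v w) = 0 := II_normal G hx hv hw

/-! ### the index form -/

variable (G)

/-- the integrand of the index form along the geodesic `t ↦ (fl G (q,t)).1` -/
def ixd (q : Euc N × Euc N) (A A' B B' : ℝ → Euc N) (t : ℝ) : ℝ :=
  ⟪A' t, B' t⟫ - ⟪(X G (fl G (q, t))).2, II G (fl G (q, t)).1 (A t) (B t)⟫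

/-- the index form on `[a,b]`; `A'` is the derivative of the tangent field `A` in `ℝ^N` -/
def ix (q : Euc N × Euc N) (a b : ℝ) (A A' B B' : ℝ → Euc N) : ℝ :=
  ∫ t in a..b, ixd G q A A' B B' t

/-- a `C¹` tangent field along the geodesic of `q`, on `[a,b]` -/
structure Fld (q : Euc N × Euc N) (a b : ℝ) (A A' : ℝ → Euc N) : Prop where
  der : ∀ t ∈ Icc a b, HasDerivWithinAt A (A' t) (Icc a b) t
  cont : ContinuousOn A' (Icc a b)
  mem : ∀ t ∈ Icc a b, A t ∈ G.T (fl G (q, t)).1

variable {G}

lemma contOn_fl (hq : q ∈ TS G) (s : Set ℝ) : ContinuousOn (fun t => fl G (q, t)) s := by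
  intro t _
  exact (hasDerivAt_fl G (complete G hq t)).continuousAt.continuousWithinAt

lemma continuous_fl (hq : q ∈ TS G) : Continuous (fun t => fl G (q, t)) :=
  continuous_iff_continuousAt.2 fun t => (hasDerivAt_fl G (complete G hq t)).continuousAt

lemma Fld.contX {a b : ℝ} {A A' : ℝ → Euc N} (h : Fld G q a b A A') : ContinuousOn A (Icc a b) :=
  fun t ht => (h.der t ht).continuousWithinAt

lemma Fld.mono {a b a' b' : ℝ} {A A' : ℝ → Euc N} (h : Fld G q a b A A')
    (hs : Icc a' b' ⊆ Icc a b) : Fld G q a' b' A A' where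
  der t ht := (h.der t (hs ht)).mono hs
  cont := h.cont.mono hs
  mem t ht := h.mem t (hs ht)

lemma contOn_ixd (hq : q ∈ TS G) {s : Set ℝ} {A A' B B' : ℝ → Euc N} (hA : ContinuousOn A s)
    (hA' : ContinuousOn A' s) (hB : ContinuousOn B s) (hB' : ContinuousOn B' s) :
    ContinuousOn (ixd G q A A' B B') s := by
  have h1 := contOn_fl hq s
  have h2 : ContinuousOn (fun t => (X G (fl G (q, t))).2) s :=
    continuous_snd.comp_continuousOn ((contDiff_X G).continuous.comp_continuousOn h1)
  have h3 : Continuous (fderiv ℝ G.P) := G.contDiff_P.continuous_fderiv (by simp)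
  have h4 : ContinuousOn (fun t => II G (fl G (q, t)).1 (A t) (B t)) s :=
    ((h3.comp_continuousOn (continuous_fst.comp_continuousOn h1)).clm_apply hA).clm_apply hB
  exact (hA'.inner hB').sub (h2.inner h4)

lemma Fld.intble (hq : q ∈ TS G) {a b : ℝ} (hab : a ≤ b) {A A' B B' : ℝ → Euc N}
    (hA : Fld G q a b A A') (hB : Fld G q a b B B') :
    IntervalIntegrable (ixd G q A A' B B') volume a b :=
  (contOn_ixd hq (by rw [uIcc_of_le hab]; exact hA.contX) (by rw [uIcc_of_le hab]; exact hA.cont)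
    (by rw [uIcc_of_le hab]; exact hB.contX)
    (by rw [uIcc_of_le hab]; exact hB.cont)).intervalIntegrable

lemma ixd_symm {a b t : ℝ} (hq : q ∈ TS G) {A A' B B' : ℝ → Euc N}
    (hA : Fld G q a b A A') (hB : Fld G q a b B B') (ht : t ∈ Icc a b) :
    ixd G q A A' B B' t = ixd G q B B' A A' t := by
  unfold ixd
  rw [real_inner_comm, II_comm (fl_mem G hq t).1 (hA.mem t ht) (hB.mem t ht)]

lemma ix_symm {a b : ℝ} (hab : a ≤ b) (hq : q ∈ TS G) {A A' B B' : ℝ → Euc N}
    (hA : Fld G q a b A A') (hB : Fld G q a b B B') :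
    ix G q a b A A' B B' = ix G q a b B B' A A' := by
  unfold ix
  refine intervalIntegral.integral_congr fun t ht => ?_
  rw [uIcc_of_le hab] at ht
  exact ixd_symm hq hA hB ht

lemma Fld.add {a b : ℝ} {A A' B B' : ℝ → Euc N}
    (hA : Fld G q a b A A') (hB : Fld G q a b B B') : Fld G q a b (A + B) (A' + B') where
  der t ht := (hA.der t ht).add (hB.der t ht)
  cont := hA.cont.add hB.cont
  mem t ht := (G.T _).add_mem (hA.mem t ht) (hB.mem t ht)

lemma Fld.sub {a b : ℝ} {A A' B B' : ℝ → Euc N}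
    (hA : Fld G q a b A A') (hB : Fld G q a b B B') : Fld G q a b (A - B) (A' - B') where
  der t ht := (hA.der t ht).sub (hB.der t ht)
  cont := hA.cont.sub hB.cont
  mem t ht := (G.T _).sub_mem (hA.mem t ht) (hB.mem t ht)

lemma Fld.smul {a b : ℝ} {A A' : ℝ → Euc N} (c : ℝ)
    (hA : Fld G q a b A A') : Fld G q a b (c • A) (c • A') where
  der t ht := (hA.der t ht).const_smul c
  cont := hA.cont.const_smul c
  mem t ht := (G.T _).smul_mem c (hA.mem t ht)

lemma ixd_add_left (A A' B B' C C' : ℝ → Euc N) (t : ℝ) :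
    ixd G q (A + B) (A' + B') C C' t = ixd G q A A' C C' t + ixd G q B B' C C' t := by
  simp only [ixd, II, Pi.add_apply, inner_add_left, map_add, add_apply,
    inner_add_right]
  ring

lemma ixd_smul_left (c : ℝ) (A A' C C' : ℝ → Euc N) (t : ℝ) :
    ixd G q (c • A) (c • A') C C' t = c * ixd G q A A' C C' t := by
  simp only [ixd, II, Pi.smul_apply, real_inner_smul_left, map_smul,
    smul_apply, real_inner_smul_right]
  ring

lemma ixd_add_right (A A' B B' C C' : ℝ → Euc N) (t : ℝ) :
    ixd G q A A' (B + C) (B' + C') t = ixd G q A A' B B' t + ixd G q A A' C C' t := by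
  simp only [ixd, II, Pi.add_apply, map_add, inner_add_right]
  ring

lemma ixd_smul_right (c : ℝ) (A A' C C' : ℝ → Euc N) (t : ℝ) :
    ixd G q A A' (c • C) (c • C') t = c * ixd G q A A' C C' t := by
  simp only [ixd, II, Pi.smul_apply, map_smul, real_inner_smul_right]
  ring

lemma ixd_sub_left (A A' B B' C C' : ℝ → Euc N) (t : ℝ) :
    ixd G q (A - B) (A' - B') C C' t = ixd G q A A' C C' t - ixd G q B B' C C' t := by
  simp only [ixd, II, Pi.sub_apply, inner_sub_left, map_sub, sub_apply,
    inner_sub_right]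
  ring

lemma ixd_sub_right (A A' B B' C C' : ℝ → Euc N) (t : ℝ) :
    ixd G q A A' (B - C) (B' - C') t = ixd G q A A' B B' t - ixd G q A A' C C' t := by
  simp only [ixd, II, Pi.sub_apply, map_sub, inner_sub_right]
  ring

section bilin

variable {a b : ℝ} (hab : a ≤ b) (hq : q ∈ TS G) {A A' B B' C C' : ℝ → Euc N}

include hab hq in
lemma ix_add_left (hA : Fld G q a b A A') (hB : Fld G q a b B B') (hC : Fld G q a b C C') :
    ix G q a b (A + B) (A' + B') C C' = ix G q a b A A' C C' + ix G q a b B B' C C' := by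
  unfold ix
  rw [← intervalIntegral.integral_add (hA.intble hq hab hC) (hB.intble hq hab hC)]
  exact intervalIntegral.integral_congr fun t _ => ixd_add_left A A' B B' C C' t

include hab hq in
lemma ix_sub_left (hA : Fld G q a b A A') (hB : Fld G q a b B B') (hC : Fld G q a b C C') :
    ix G q a b (A - B) (A' - B') C C' = ix G q a b A A' C C' - ix G q a b B B' C C' := by
  unfold ix
  rw [← intervalIntegral.integral_sub (hA.intble hq hab hC) (hB.intble hq hab hC)]
  exact intervalIntegral.integral_congr fun t _ => ixd_sub_left A A' B B' C C' t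

include hab hq in
lemma ix_add_right (hA : Fld G q a b A A') (hB : Fld G q a b B B') (hC : Fld G q a b C C') :
    ix G q a b A A' (B + C) (B' + C') = ix G q a b A A' B B' + ix G q a b A A' C C' := by
  unfold ix
  rw [← intervalIntegral.integral_add (hA.intble hq hab hB) (hA.intble hq hab hC)]
  exact intervalIntegral.integral_congr fun t _ => ixd_add_right A A' B B' C C' t

include hab hq in
lemma ix_sub_right (hA : Fld G q a b A A') (hB : Fld G q a b B B') (hC : Fld G q a b C C') :
    ix G q a b A A' (B - C) (B' - C') = ix G q a b A A' B B' - ix G q a b A A' C C' := by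
  unfold ix
  rw [← intervalIntegral.integral_sub (hA.intble hq hab hB) (hA.intble hq hab hC)]
  exact intervalIntegral.integral_congr fun t _ => ixd_sub_right A A' B B' C C' t

lemma ix_smul_left (c : ℝ) :
    ix G q a b (c • A) (c • A') C C' = c * ix G q a b A A' C C' := by
  unfold ix
  rw [← intervalIntegral.integral_const_mul]
  exact intervalIntegral.integral_congr fun t _ => ixd_smul_left c A A' C C' t

lemma ix_smul_right (c : ℝ) :
    ix G q a b A A' (c • C) (c • C') = c * ix G q a b A A' C C' := by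
  unfold ix
  rw [← intervalIntegral.integral_const_mul]
  exact intervalIntegral.integral_congr fun t _ => ixd_smul_right c A A' C C' t

include hab hq in
/-- expansion of the square -/
lemma ix_sub_self (hA : Fld G q a b A A') (hB : Fld G q a b B B') :
    ix G q a b (A - B) (A' - B') (A - B) (A' - B') =
      ix G q a b A A' A A' - 2 * ix G q a b B B' A A' + ix G q a b B B' B B' := by
  rw [ix_sub_left hab hq hA hB (hA.sub hB), ix_sub_right hab hq hA hA hB,
    ix_sub_right hab hq hB hA hB, ix_symm hab hq hA hB]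
  ring

include hab hq in
lemma ix_add_self (hA : Fld G q a b A A') (hB : Fld G q a b B B') :
    ix G q a b (A + B) (A' + B') (A + B) (A' + B') =
      ix G q a b A A' A A' + 2 * ix G q a b B B' A A' + ix G q a b B B' B B' := by
  rw [ix_add_left hab hq hA hB (hA.add hB), ix_add_right hab hq hA hA hB,
    ix_add_right hab hq hB hA hB, ix_symm hab hq hA hB]
  ring

end bilin

/-- additivity in the interval -/
lemma ix_add_interval (hq : q ∈ TS G) {a b c : ℝ} (hab : a ≤ b) (hbc : b ≤ c)
    {A A' B B' : ℝ → Euc N} (hA : Fld G q a b A A') (hB : Fld G q a b B B')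
    (hA2 : Fld G q b c A A') (hB2 : Fld G q b c B B') :
    ix G q a b A A' B B' + ix G q b c A A' B B' = ix G q a c A A' B B' :=
  intervalIntegral.integral_add_adjacent_intervals (hA.intble hq hab hB) (hA2.intble hq hbc hB2)

/-! ### Jacobi fields -/

/-- Jacobi field -/
def jf (G : Geo n N κ S) (q ξ : Euc N × Euc N) (t : ℝ) : Euc N := (dfl G q t ξ).1

/-- its derivative -/
def jf' (G : Geo n N κ S) (q ξ : Euc N × Euc N) (t : ℝ) : Euc N := (dfl G q t ξ).2

lemma hasDerivAt_jf (hq : q ∈ TS G) (ξ : Euc N × Euc N) (t : ℝ) :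
    HasDerivAt (jf G q ξ) (jf' G q ξ t) t := by
  have h := hda_fst (L.hasDerivAt_dfl hq ξ t)
  rwa [L.fderiv_X_fst] at h

lemma hasDerivAt_jf' (hq : q ∈ TS G) (ξ : Euc N × Euc N) (t : ℝ) :
    HasDerivAt (jf' G q ξ) (fderiv ℝ (X G) (fl G (q, t)) (dfl G q t ξ)).2 t :=
  hda_snd (L.hasDerivAt_dfl hq ξ t)

lemma jf_mem (h : TanTS G q ξ) (t : ℝ) : jf G q ξ t ∈ G.T (fl G (q, t)).1 :=
  (L.tanTS_dfl (mem_TS h) h t).fst_mem

lemma fld_jf (h : TanTS G q ξ) (a b : ℝ) : Fld G q a b (jf G q ξ) (jf' G q ξ) where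
  der t _ := (hasDerivAt_jf (mem_TS h) ξ t).hasDerivWithinAt
  cont t _ := (hasDerivAt_jf' (mem_TS h) ξ t).continuousAt.continuousWithinAt
  mem t _ := jf_mem h t

/-- **boundary term of the index form on Jacobi fields** -/
theorem ix_jac (h : TanTS G q ξ) {a b : ℝ} (hab : a ≤ b) {Y Y' : ℝ → Euc N}
    (hY : Fld G q a b Y Y') :
    ix G q a b (jf G q ξ) (jf' G q ξ) Y Y' =
      ⟪jf' G q ξ b, Y b⟫ - ⟪jf' G q ξ a, Y a⟫ := by
  have hq := mem_TS h
  have hcont : ContinuousOn (fun t => ⟪jf' G q ξ t, Y t⟫) (Icc a b) :=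
    ((fld_jf h a b).cont).inner hY.contX
  have hder : ∀ t ∈ Ioo a b, HasDerivAt (fun t => ⟪jf' G q ξ t, Y t⟫)
      (ixd G q (jf G q ξ) (jf' G q ξ) Y Y' t) t := by
    intro t ht
    have ht' : t ∈ Icc a b := ⟨ht.1.le, ht.2.le⟩
    have h1 := hasDerivAt_jf' hq ξ t
    have h2 := (hY.der t ht').hasDerivAt (Icc_mem_nhds ht.1 ht.2)
    refine (h1.inner ℝ h2).congr_deriv ?_
    rw [L.inner_fderiv_X (fl_mem G hq t) (L.tanTS_dfl hq h t) (hY.mem t ht')]
    unfold ixd jf
    ring
  unfold ix
  rw [intervalIntegral.integral_eq_sub_of_hasDerivAt_of_le hab hcont hder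
    ((fld_jf h a b).intble hq hab hY)]

end Crest.Agent.R208.SV
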