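import Crest.Agent.R208.MS1b
import Crest.Agent.R208.SV1

/-!
R208, block NG (helper131), near the closed geodesics.  Part NG1: pointwise estimates for the
smooth retraction `ρ` (derivative along `S` = orthogonal projection) at a point of a geodesic.
-/

set_option autoImplicit false

open Set Filter Topology MeasureTheory
open scoped ContDiff RealInnerProductSpace Real
open Crest.GeometryTopology.Submanifold
open Crest.Agent.R241.DDefs Crest.Agent.R241.D Crest.Agent.R241.D2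
open Crest.Agent.R208.MS (exists_unif P_self P_mem Retr)

noncomputable section

namespace Crest.Agent.R208.NG

variable {n N : ℕ} {κ : ℝ} {S : Set (Euc N)}

/-- second derivative -/
def D2f (ρ : Euc N → Euc N) (x : Euc N) : Euc N →L[ℝ] Euc N →L[ℝ] Euc N :=
  fderiv ℝ (fderiv ℝ ρ) x

/-- uniform constants for `ρ` and `G.P` near `S` -/
structure Cst (G : Geo n N κ S) (ρ : Euc N → Euc N) (δ C : ℝ) : Prop where
  pos : 0 < δ
  le1 : δ ≤ 1
  one : 1 ≤ C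
  sm : ∀ x ∈ S, ∀ q, ‖q - x‖ < δ → ContDiffAt ℝ ∞ ρ q
  mem : ∀ x ∈ S, ∀ q, ‖q - x‖ < δ → ρ q ∈ S
  eq : ∀ x ∈ S, ρ x = x
  fd : ∀ x ∈ S, fderiv ℝ ρ x = G.P x
  l0 : ∀ x ∈ S, ∀ q, ‖q - x‖ < δ → ‖ρ q - x‖ ≤ C * ‖q - x‖
  t0 : ∀ x ∈ S, ∀ q, ‖q - x‖ < δ → ‖ρ q - x - G.P x (q - x)‖ ≤ C * ‖q - x‖ ^ 2
  l1 : ∀ x ∈ S, ∀ q, ‖q - x‖ < δ → ‖fderiv ℝ ρ q - G.P x‖ ≤ C * ‖q - x‖
  t1 : ∀ x ∈ S, ∀ q, ‖q - x‖ < δ → ‖fderiv ℝ ρ q - G.P x - D2f ρ x (q - x)‖ ≤ C * ‖q - x‖ ^ 2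
  b2 : ∀ x ∈ S, ∀ q, ‖q - x‖ < δ → ‖D2f ρ q‖ ≤ C
  l2 : ∀ x ∈ S, ∀ q, ‖q - x‖ < δ → ‖D2f ρ q - D2f ρ x‖ ≤ C * ‖q - x‖
  tP : ∀ x ∈ S, ∀ q, ‖q - x‖ < δ → ‖G.P q - G.P x - fderiv ℝ G.P x (q - x)‖ ≤ C * ‖q - x‖ ^ 2
  bP : ∀ x ∈ S, ‖fderiv ℝ G.P x‖ ≤ C

/-- Taylor estimate from a Lipschitz derivative -/
theorem taylor_of_lip {E F : Type*} [NormedAddCommGroup E] [NormedSpace ℝ E]
    [NormedAddCommGroup F] [NormedSpace ℝ F] {f : E → F} {x : E} {δ C : ℝ} (hδ : 0 < δ)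
    (hf : ∀ z ∈ Metric.ball x δ, DifferentiableAt ℝ f z)
    (hl : ∀ z ∈ Metric.ball x δ, ‖fderiv ℝ f z - fderiv ℝ f x‖ ≤ C * ‖z - x‖) (hC : 0 ≤ C)
    {q : E} (hq : q ∈ Metric.ball x δ) :
    ‖f q - f x - fderiv ℝ f x (q - x)‖ ≤ C * ‖q - x‖ ^ 2 := by
  have hxb := Metric.mem_ball_self (x := x) hδ
  have hseg : segment ℝ x q ⊆ Metric.ball x δ := (convex_ball x δ).segment_subset hxb hq
  have h1 : ‖f q - f x - fderiv ℝ f x (q - x)‖ ≤ (C * ‖q - x‖) * ‖q - x‖ := by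
    refine (convex_segment x q).norm_image_sub_le_of_norm_fderiv_le' (𝕜 := ℝ) (fun y hy => ?_)
      (fun y hy => ?_) (left_mem_segment ℝ x q) (right_mem_segment ℝ x q)
    · exact hf y (hseg hy)
    · refine (hl y (hseg hy)).trans ?_
      refine mul_le_mul_of_nonneg_left ?_ hC
      obtain ⟨a, b, ha, hb', hab, rfl⟩ := hy
      have h8 : (a • x + b • q) - x = b • (q - x) := by
        have : a = 1 - b := by linarith
        rw [this]
        module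
      rw [h8, norm_smul, Real.norm_of_nonneg hb']
      nlinarith [norm_nonneg (q - x)]
  calc _ ≤ (C * ‖q - x‖) * ‖q - x‖ := h1
    _ = C * ‖q - x‖ ^ 2 := by ring

theorem exists_Cst {G : Geo n N κ S} (hS : IsCompact S) {ρ : Euc N → Euc N} {r K : ℝ}
    (hR : Retr S ρ r K) (hd : ∀ x ∈ S, fderiv ℝ ρ x = G.P x) :
    ∃ δ C, δ ≤ r ∧ Cst G ρ δ C := by
  set O : Set (Euc N) := ⋃ x ∈ S, Metric.ball x r with hOdef
  have hO : IsOpen O := isOpen_biUnion fun x _ => Metric.isOpen_ball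
  have hSO : S ⊆ O := fun x hx => mem_iUnion₂.2 ⟨x, hx, Metric.mem_ball_self hR.r_pos⟩
  have hρ : ContDiffOn ℝ ∞ ρ O := by
    intro q hq
    obtain ⟨x, hx, hqx⟩ := mem_iUnion₂.1 hq
    exact (hR.smooth x hx q (by rwa [Metric.mem_ball, dist_eq_norm] at hqx)).contDiffWithinAt
  have hρ1 : ContDiffOn ℝ ∞ (fderiv ℝ ρ) O := hρ.fderiv_of_isOpen hO (by simp)
  obtain ⟨δ₁, hδ₁, C₁, hC₁, h₁⟩ := exists_unif hS hO hSO hρ
  obtain ⟨δ₂, hδ₂, C₂, hC₂, h₂⟩ := exists_unif hS hO hSO hρ1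
  have hP0 : ContDiffOn ℝ ∞ G.P univ := G.contDiff_P.contDiffOn
  obtain ⟨δ₃, hδ₃, C₃, hC₃, h₃⟩ := exists_unif hS isOpen_univ (subset_univ S) hP0
  have hPd : Continuous (fderiv ℝ G.P) := G.contDiff_P.continuous_fderiv (by simp)
  obtain ⟨C₄, hC₄⟩ := hS.exists_bound_of_continuousOn (f := fderiv ℝ G.P) hPd.continuousOn
  have hcD2 : ContinuousOn (D2f ρ) O := hρ1.continuousOn_fderiv_of_isOpen hO (by simp)
  obtain ⟨C₅, hC₅⟩ := hS.exists_bound_of_continuousOn (f := D2f ρ) (hcD2.mono hSO)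
  set C := C₁ + C₂ + C₃ + |C₄| + |C₅| + 1 with hCdef
  have hn4 := abs_nonneg C₄
  have hn5 := abs_nonneg C₅
  have hc1 : C₁ ≤ C := by rw [hCdef]; linarith
  have hc2 : C₂ ≤ C := by rw [hCdef]; linarith
  have hc3 : C₃ ≤ C := by rw [hCdef]; linarith
  have hc4 : C₄ ≤ C := by rw [hCdef]; linarith [le_abs_self C₄]
  have hc5 : C₅ + C₂ ≤ C := by rw [hCdef]; linarith [le_abs_self C₅]
  set δ := min (min (min r 1) δ₁) (min δ₂ δ₃) with hδdef
  have hδ : 0 < δ := by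
    simp only [hδdef, lt_min_iff]
    exact ⟨⟨⟨hR.r_pos, one_pos⟩, hδ₁⟩, hδ₂, hδ₃⟩
  have hδr : δ ≤ r := ((min_le_left _ _).trans (min_le_left _ _)).trans (min_le_left _ _)
  have hδ1' : δ ≤ 1 := ((min_le_left _ _).trans (min_le_left _ _)).trans (min_le_right _ _)
  have hd1 : δ ≤ δ₁ := (min_le_left _ _).trans (min_le_right _ _)
  have hd2 : δ ≤ δ₂ := (min_le_right _ _).trans (min_le_left _ _)
  have hd3 : δ ≤ δ₃ := (min_le_right _ _).trans (min_le_right _ _)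
  have hb : ∀ (ε : ℝ) (x q : Euc N), ‖q - x‖ < δ → δ ≤ ε → q ∈ Metric.ball x ε :=
    fun ε x q hq hε => by
      rw [Metric.mem_ball, dist_eq_norm]
      exact hq.trans_le hε
  have hdiff : ∀ x ∈ S, ∀ q ∈ Metric.ball x δ, DifferentiableAt ℝ ρ q := fun x hx q hq => by
    refine (hR.smooth x hx q ?_).differentiableAt (by simp)
    rw [Metric.mem_ball, dist_eq_norm] at hq
    exact hq.trans_le hδr
  have hdiff1 : ∀ x ∈ S, ∀ q ∈ Metric.ball x δ, DifferentiableAt ℝ (fderiv ℝ ρ) q :=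
    fun x hx q hq => by
      have hqO : q ∈ O := mem_iUnion₂.2 ⟨x, hx, Metric.ball_subset_ball hδr hq⟩
      exact (hρ1.contDiffAt (hO.mem_nhds hqO)).differentiableAt (by simp)
  refine ⟨δ, C, hδr, hδ, hδ1', by rw [hCdef]; linarith, fun x hx q hq => ?_, fun x hx q hq => ?_,
    hR.eq, hd, fun x hx q hq => ?_, fun x hx q hq => ?_, fun x hx q hq => ?_,
    fun x hx q hq => ?_, fun x hx q hq => ?_, fun x hx q hq => ?_, fun x hx q hq => ?_,
    fun x hx => ?_⟩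
  · exact hR.smooth x hx q (hq.trans_le hδr)
  · exact hR.mem x hx q (hq.trans_le hδr)
  · have := (h₁ x hx).2.1 q (hb _ x q hq hd1) x (Metric.mem_ball_self hδ₁)
    rw [hR.eq x hx] at this
    exact this.trans (mul_le_mul_of_nonneg_right hc1 (norm_nonneg _))
  · have := taylor_of_lip (f := ρ) (x := x) (C := C₁) hδ (fun z hz => hdiff x hx z hz)
      (fun z hz => (h₁ x hx).2.2 z (Metric.ball_subset_ball hd1 hz) x (Metric.mem_ball_self hδ₁))
      (by linarith) (hb _ x q hq le_rfl)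
    rw [hR.eq x hx, hd x hx] at this
    exact this.trans (mul_le_mul_of_nonneg_right hc1 (by positivity))
  · have : ‖fderiv ℝ ρ q - fderiv ℝ ρ x‖ ≤ C₁ * ‖q - x‖ :=
      (h₁ x hx).2.2 q (hb _ x q hq hd1) x (Metric.mem_ball_self hδ₁)
    rw [hd x hx] at this
    exact this.trans (mul_le_mul_of_nonneg_right hc1 (norm_nonneg _))
  · have := taylor_of_lip (f := fderiv ℝ ρ) (x := x) (C := C₂) hδ (fun z hz => hdiff1 x hx z hz)
      (fun z hz => (h₂ x hx).2.2 z (Metric.ball_subset_ball hd2 hz) x (Metric.mem_ball_self hδ₂))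
      (by linarith) (hb _ x q hq le_rfl)
    rw [hd x hx] at this
    exact this.trans (mul_le_mul_of_nonneg_right hc2 (by positivity))
  · have h4 : ‖D2f ρ q - D2f ρ x‖ ≤ C₂ * ‖q - x‖ :=
      (h₂ x hx).2.2 q (hb _ x q hq hd2) x (Metric.mem_ball_self hδ₂)
    have h5 : ‖D2f ρ x‖ ≤ C₅ := hC₅ x hx
    have h6 : D2f ρ q = D2f ρ x + (D2f ρ q - D2f ρ x) := by abel
    rw [h6]
    refine (norm_add_le (D2f ρ x) (D2f ρ q - D2f ρ x)).trans ?_
    have h7 : C₂ * ‖q - x‖ ≤ C₂ * 1 := mul_le_mul_of_nonneg_left (hq.le.trans hδ1') (by linarith)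
    linarith
  · have h4 : ‖D2f ρ q - D2f ρ x‖ ≤ C₂ * ‖q - x‖ :=
      (h₂ x hx).2.2 q (hb _ x q hq hd2) x (Metric.mem_ball_self hδ₂)
    exact h4.trans (mul_le_mul_of_nonneg_right hc2 (norm_nonneg _))
  · have := taylor_of_lip (f := G.P) (x := x) (C := C₃) hδ
      (fun z hz => (G.contDiff_P.differentiable (by simp)).differentiableAt)
      (fun z hz => (h₃ x hx).2.2 z (Metric.ball_subset_ball hd3 hz) x (Metric.mem_ball_self hδ₃))
      (by linarith) (hb _ x q hq le_rfl)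
    exact this.trans (mul_le_mul_of_nonneg_right hc3 (by positivity))
  · exact (hC₄ x hx).trans hc4

variable {G : Geo n N κ S} {ρ : Euc N → Euc N} {δ C : ℝ}

/-- the second derivative of `ρ` in a tangent direction is the derivative of `P` -/
theorem D2_tan (hc : Cst G ρ δ C) {x v : Euc N} (hx : x ∈ S) (hv : v ∈ G.T x) :
    D2f ρ x v = fderiv ℝ G.P x v := by
  obtain ⟨c, c', hc0, hc'0, hev⟩ := G.exists_geod x hx v hv
  have h0 := hev.self_of_nhds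
  have hcd : HasDerivAt c v 0 := hc'0 ▸ h0.2.1
  have hx0 : ‖x - x‖ < δ := by simpa using hc.pos
  have h1 : HasFDerivAt (fderiv ℝ ρ) (D2f ρ x) (c 0) := by
    rw [hc0]
    exact (((hc.sm x hx x hx0).fderiv_right (m := ∞) (by simp)).differentiableAt
      (by simp)).hasFDerivAt
  have h2 : HasFDerivAt G.P (fderiv ℝ G.P x) (c 0) := by
    rw [hc0]
    exact (G.contDiff_P.differentiable (by simp)).differentiableAt.hasFDerivAt
  have h3 : HasDerivAt (fun t => fderiv ℝ ρ (c t)) (D2f ρ x v) 0 := h1.comp_hasDerivAt 0 hcd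
  have h4 : HasDerivAt (fun t => G.P (c t)) (fderiv ℝ G.P x v) 0 := h2.comp_hasDerivAt 0 hcd
  have h5 : HasDerivAt (fun t => fderiv ℝ ρ (c t)) (fderiv ℝ G.P x v) 0 := by
    refine h4.congr_of_eventuallyEq ?_
    filter_upwards [hev] with t ht
    exact hc.fd _ ht.1
  exact h3.unique h5

theorem D2_symm' (hc : Cst G ρ δ C) {x q : Euc N} (hx : x ∈ S) (hq : ‖q - x‖ < δ) (v w : Euc N) :
    D2f ρ q v w = D2f ρ q w v := by
  have := (hc.sm x hx q hq).isSymmSndFDerivAt (by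
    rw [minSmoothness_of_isRCLikeNormedField]
    exact WithTop.coe_le_coe.2 le_top)
  exact this v w

theorem D2_symm (hc : Cst G ρ δ C) {x : Euc N} (hx : x ∈ S) (v w : Euc N) :
    D2f ρ x v w = D2f ρ x w v := D2_symm' hc hx (by simpa using hc.pos) v w

end Crest.Agent.R208.NG
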