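import Crest.Agent.R208.NG9

/-!
R208, block NG (helper131), part NG10: existence of the constants of the natural operator near the
closed geodesics.
-/

set_option autoImplicit false

open Set Filter Topology MeasureTheory
open scoped ContDiff RealInnerProductSpace Real
open Crest.GeometryTopology.Submanifold
open Crest.Agent.R241.DDefs Crest.Agent.R241.D Crest.Agent.R241.D2
open Crest.Agent.R208.MS (exists_unif P_self P_mem Retr En Loop NearUM Close)
open Crest.Agent.R208.NN (Wt fd fd' nuP hasDerivAt_fd continuous_fd' fd_mem fld_fd Rt ev)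
open Crest.Agent.R208.NB (NegB npr)
open Crest.Agent.R208.FI (Tan)

noncomputable section

namespace Crest.Agent.R208.NG

variable {n N k K : ℕ} {κ : ℝ} {S : Set (Euc N)} {G : Geo n N κ S} {ρ : Euc N → Euc N} {δ C : ℝ}
  {z : Euc N × Euc N} {δN : ℝ} {PN : Euc N × Euc N → Wt N K →L[ℝ] Wt N K}
  {gg : (ℝ → Euc N) → Euc N × Euc N} {e Cg a ε ηc : ℝ} {c : ℝ → Euc N}

theorem fd_smul (G : Geo n N κ S) (z : Euc N × Euc N) (r : ℝ) (m : Wt N K) (t : ℝ) :
    NN.fd G z (nuP K) (r • m) t = r • NN.fd G z (nuP K) m t := by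
  simp only [NN.fd, map_smul]

/-- deviation of the segment -/
def us (G : Geo n N κ S) (K : ℕ) (z : Euc N × Euc N) (c : ℝ → Euc N) (m : Wt N K) (s t : ℝ) :
    Euc N := dv G z c t + s • ((2:ℝ) • fd G z (nuP K) m t - dv G z c t)

/-- its derivative -/
def us' (G : Geo n N κ S) (K : ℕ) (z : Euc N × Euc N) (c : ℝ → Euc N) (m : Wt N K) (s t : ℝ) :
    Euc N := dv' G z c t + s • ((2:ℝ) • fd' G z (nuP K) m t - dv' G z c t)

theorem hda_us (hz : z ∈ TS G) (hc : Loop S c) (m : Wt N K) (s t : ℝ) :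
    HasDerivAt (us G K z c m s) (us' G K z c m s t) t :=
  (hda_dv hz hc t).add ((((hasDerivAt_fd hz (nuP K) m t).const_smul (2:ℝ)).sub
    (hda_dv hz hc t)).const_smul s)

theorem cont_us' (hz : z ∈ TS G) (hc : Loop S c) (m : Wt N K) (s : ℝ) :
    Continuous (us' G K z c m s) :=
  (cont_dv' hz hc).add ((((continuous_fd' hz (nuP K) m).const_smul (2:ℝ)).sub
    (cont_dv' hz hc)).const_smul s)

theorem norm_seg_le {x y : Euc N} {s : ℝ} (h0 : 0 ≤ s) (h1 : s ≤ 1) :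
    ‖x + s • ((2:ℝ) • y - x)‖ ≤ ‖x‖ + 2 * ‖y‖ := by
  have e1 : x + s • ((2:ℝ) • y - x) = (1 - s) • x + (2 * s) • y := by module
  rw [e1]
  refine (norm_add_le _ _).trans ?_
  rw [norm_smul, norm_smul, Real.norm_of_nonneg (by linarith), Real.norm_of_nonneg (by linarith)]
  nlinarith [norm_nonneg x, norm_nonneg y, mul_nonneg h0 (norm_nonneg x),
    mul_nonneg (sub_nonneg.2 h1) (norm_nonneg y)]

theorem sg_eq (c : ℝ → Euc N) (s : ℝ) : sg G K ρ δN PN (gg c) c s =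
    fun t => ρ (ga G (gg c) t + us G K (gg c) c (mm G K δN PN gg c) s t) := rfl

theorem sg_one (c : ℝ → Euc N) (s : ℝ) (hs : s = 1) : sg G K ρ δN PN (gg c) c s =
    fun t => ρ (ga G (gg c) t + fd G (gg c) (nuP K) ((2:ℝ) • mm G K δN PN gg c) t) := by
  funext t
  simp only [sg, hs, one_smul, add_sub_cancel, fd_smul]
  rfl

theorem aux4 {a x y : ℝ} (hx : 0 ≤ x) (hy : y = (x * a) ^ 2) :
    2 * a ^ 2 + 2 * π * (8 * y) ≤ 16 * ((4 + 2 * x) * a) ^ 2 := by
  have hpi4 := Real.pi_lt_d2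
  have e1 : ((4 + 2 * x) * a) ^ 2 = (16 + 16 * x + 4 * x ^ 2) * a ^ 2 := by ring
  have e3 : 0 ≤ x ^ 2 * a ^ 2 := by positivity
  have e4 : 0 ≤ x * a ^ 2 := by positivity
  have e5 : 0 ≤ a ^ 2 := by positivity
  have e6 : 0 ≤ (64 - 16 * π) * (x ^ 2 * a ^ 2) := mul_nonneg (by linarith) e3
  rw [e1, hy]
  nlinarith

theorem sq_add_two {x X Y : ℝ} (hx : 0 ≤ x) (h : x ≤ X + Y) :
    x ^ 2 ≤ 2 * X ^ 2 + 2 * Y ^ 2 := by
  have := pow_le_pow_left₀ hx h 2
  nlinarith [sq_nonneg (X - Y)]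

/-- a loop near a unit speed geodesic is in the domain -/
theorem exists_nr (h : GT.Bla G k) (hg : GG G gg e Cg) (hCg : 0 ≤ Cg) {a : ℝ} (hapos : 0 < a) :
    ∃ ηc > 0, ∀ c, Loop S c → NearUM G ηc c → dd G gg c < a ^ 2 / 4 := by
  obtain ⟨δL, hδL, CL, hCL, hlip⟩ := exists_lip h
  have he := hg.pos
  have hpi4 := Real.pi_lt_d2
  have hpi3 := Real.pi_gt_three
  set κ₁ := min (min (e ^ 2 / 8) (δL ^ 2 / (8 * (Cg + 1)))) (a ^ 2 / (8 * (9 + 90 * CL ^ 2 * Cg)))
    with hκ₁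
  have hκpos : 0 < κ₁ := by
    simp only [hκ₁, lt_min_iff]
    exact ⟨⟨by positivity, by positivity⟩, by positivity⟩
  set ηc := min 1 κ₁ with hηc
  have hηpos : 0 < ηc := lt_min one_pos hκpos
  have hη1 : ηc ≤ 1 := min_le_left _ _
  have hη2 : ηc ≤ κ₁ := min_le_right _ _
  have hηsq : ηc ^ 2 ≤ κ₁ := by nlinarith
  have hk1 : ηc ^ 2 ≤ e ^ 2 / 8 := hηsq.trans ((min_le_left _ _).trans (min_le_left _ _))
  have hk2 : ηc ^ 2 ≤ δL ^ 2 / (8 * (Cg + 1)) :=
    hηsq.trans ((min_le_left _ _).trans (min_le_right _ _))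
  have hk3 : ηc ^ 2 ≤ a ^ 2 / (8 * (9 + 90 * CL ^ 2 * Cg)) := hηsq.trans (min_le_right _ _)
  rw [le_div_iff₀ (by positivity)] at hk2 hk3
  refine ⟨ηc, hηpos, fun c hcl hn => ?_⟩
  obtain ⟨x, hx, v, hv, hv1, hcl'⟩ := hn
  have hz : ((x, v) : Euc N × Euc N) ∈ L.US G := ⟨⟨hx, hv⟩, hv1⟩
  have hE : ∀ t, Exp G x (t • v) = ga G (x, v) t := fun t => Exp_ga hx hv t
  have hE' : (fun t => Exp G x (t • v)) = ga G (x, v) := funext hE
  rw [hE'] at hcl'
  generalize ((x, v) : Euc N × Euc N) = z at hz hcl'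
  have hzg := hg.mem c (Loop.contOn hcl _)
  have hcg := cont_ga (G := G) hz.1
  have hcc := hcl.smooth.continuous
  have hη0 : 0 ≤ ηc ^ 2 := sq_nonneg _
  have k1 : L2 G c z ≤ 7 * ηc ^ 2 := by
    have e0 : Continuous fun t => ‖c t - ga G z t‖ ^ 2 := (hcc.sub hcg).norm.pow 2
    have e1 := intervalIntegral.integral_mono_on (a := 0) (b := 2 * π) (μ := volume)
      (by positivity) (e0.intervalIntegrable _ _) (g := fun _ => ηc ^ 2)
      intervalIntegrable_const (fun t _ => pow_le_pow_left₀ (norm_nonneg _) (hcl'.sup t) 2)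
    rw [intervalIntegral.integral_const, smul_eq_mul, sub_zero] at e1
    refine e1.trans ?_
    exact mul_le_mul_of_nonneg_right (by linarith) hη0
  have he2 := pow_pos he 2
  have k2 : L2 G c z < e ^ 2 := by linarith
  have k3 := hg.lip c (Loop.contOn hcl _) z hz k2
  have k4 : ‖gg c - z‖ ^ 2 ≤ Cg * (7 * ηc ^ 2) :=
    k3.trans (mul_le_mul_of_nonneg_left k1 hCg)
  have hCη := mul_nonneg hCg hη0
  have k5 : ‖gg c - z‖ < δL := by
    refine lt_of_pow_lt_pow_left₀ 2 hδL.le (k4.trans_lt ?_)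
    have : 0 < δL ^ 2 := by positivity
    linarith
  have k6 : L2 G c (gg c) ≤ 7 * ηc ^ 2 := (hg.min c (Loop.contOn hcl _) z hz).trans k1
  have hdg : deriv (ga G z) = ga' G z := funext fun t => (hda_ga hz.1 t).deriv
  have k7 : (∫ t in (0:ℝ)..(2 * π), ‖dv' G (gg c) c t‖ ^ 2) ≤
      2 * ηc ^ 2 + 2 * π * (2 * (CL ^ 2 * (Cg * (7 * ηc ^ 2)))) := by
    have e0 := cont_dv' hzg.1 hcl
    have e0n : Continuous fun t => ‖dv' G (gg c) c t‖ ^ 2 := e0.norm.pow 2
    have e0' : Continuous fun t => deriv c t - deriv (ga G z) t := by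
      rw [hdg]
      exact hcl.continuous_deriv.sub (cont_ga' hz.1)
    have e0'' : Continuous fun t => 2 * ‖deriv c t - deriv (ga G z) t‖ ^ 2 :=
      (e0'.norm.pow 2).const_mul 2
    have hpt : ∀ t ∈ Icc (0:ℝ) (2 * π), ‖dv' G (gg c) c t‖ ^ 2 ≤
        2 * ‖deriv c t - deriv (ga G z) t‖ ^ 2 + 2 * (CL ^ 2 * (Cg * (7 * ηc ^ 2))) := by
      intro t ht
      have f1 := hlip z hz (gg c) hzg (by rwa [norm_sub_rev]) t ht
      have f2 : dv' G (gg c) c t = (deriv c t - deriv (ga G z) t) +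
          (ga' G z t - ga' G (gg c) t) := by
        rw [dv', (hda_ga hz.1 t).deriv]; abel
      have f3 : ‖dv' G (gg c) c t‖ ≤ ‖deriv c t - deriv (ga G z) t‖ +
          CL * ‖gg c - z‖ := by
        rw [f2]
        refine (norm_add_le _ _).trans ?_
        rw [norm_sub_rev (gg c) z]
        linarith
      have f4 := sq_add_two (norm_nonneg _) f3
      have f5 : CL ^ 2 * ‖gg c - z‖ ^ 2 ≤ CL ^ 2 * (Cg * (7 * ηc ^ 2)) :=
        mul_le_mul_of_nonneg_left k4 (by positivity)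
      rw [mul_pow] at f4
      linarith
    have e1 := intervalIntegral.integral_mono_on (a := 0) (b := 2 * π) (μ := volume)
      (g := fun t => 2 * ‖deriv c t - deriv (ga G z) t‖ ^ 2 +
        2 * (CL ^ 2 * (Cg * (7 * ηc ^ 2))))
      (by positivity) (e0n.intervalIntegrable _ _)
      ((e0''.add continuous_const).intervalIntegrable _ _) hpt
    rw [intervalIntegral.integral_add (e0''.intervalIntegrable _ _)
      intervalIntegrable_const, intervalIntegral.integral_const_mul,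
      intervalIntegral.integral_const, smul_eq_mul, sub_zero] at e1
    have e2 := hcl'.h1
    refine e1.trans ?_
    linarith
  have k8 : dd G gg c = L2 G c (gg c) + ∫ t in (0:ℝ)..(2 * π), ‖dv' G (gg c) c t‖ ^ 2 := rfl
  rw [k8]
  have k9 : 0 ≤ CL ^ 2 * Cg * ηc ^ 2 := by positivity
  have k10 : 2 * π * (2 * (CL ^ 2 * (Cg * (7 * ηc ^ 2)))) ≤ 90 * (CL ^ 2 * Cg * ηc ^ 2) := by
    have : 2 * π * (2 * (CL ^ 2 * (Cg * (7 * ηc ^ 2)))) = (28 * π) * (CL ^ 2 * Cg * ηc ^ 2) := by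
      ring
    rw [this]
    exact mul_le_mul_of_nonneg_right (by linarith) k9
  have ha2 := pow_pos hapos 2
  linarith

set_option maxHeartbeats 1000000 in
theorem exists_KC (h : GT.Bla G k) (H : NegB G (k - 1) (nuP K) δN PN) (hc : Cst G ρ δ C)
    (hg : GG G gg e Cg) (hCg : 0 ≤ Cg) {c0 C1 : ℝ} (hc0 : 0 < c0) (hC1 : 0 ≤ C1)
    (hU : ∀ z ∈ L.US G, ∀ A A', CO.TF G z A A' → A (2 * π) = A 0 →
      (∀ ξ ∈ Tan (L.US G) z, ∫ t in (0:ℝ)..(2 * π), ⟪A t, SV.jf G z ξ t⟫ = 0) →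
      c0 * CO.Hn A A' ≤ SV.ix G z 0 (2 * π) A A' A A' + C1 * ‖npr G (nuP K) δN PN z A‖ ^ 2) :
    ∃ a > 0, ∃ ηc > 0, ∃ ε₁ > 0, ∀ ε, 0 < ε → ε ≤ ε₁ → KC G K ρ δ δN PN gg e a ε ηc := by
  obtain ⟨Cf, hCf0, hCf⟩ := NB.exists_bound_fd h.bl.cpt G (nuP K : Fin K → ℝ)
  obtain ⟨Cm, hCm0, hCm⟩ := exists_norm_mm (K := K) (δN := δN) (PN := PN) h H hg
  obtain ⟨η₀, hη₀, C₂, hC₂, hne⟩ := near_energy h H hc hc0 hC1
  obtain ⟨r₀, hr₀, hst1, hst2⟩ := exists_std h H hc
  have hδ := hc.pos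
  have hC := hc.one
  have he := hg.pos
  have hpi4 := Real.pi_lt_d2
  have hpi3 := Real.pi_gt_three
  set Cu := 4 + 2 * Cf * Cm with hCu
  have hCfm : 0 ≤ Cf * Cm := mul_nonneg hCf0 hCm0
  have hCu4 : 4 ≤ Cu := by rw [hCu]; linarith
  set a := min (min (min (δ / (2 * Cu)) (1 / (20 * C * Cu))) (min (η₀ / 4) (r₀ / (2 * (Cm + 1)))))
    (min (e / 2) 1) with ha
  have hapos : 0 < a := by
    simp only [ha, lt_min_iff]
    refine ⟨⟨⟨by positivity, by positivity⟩, by positivity, by positivity⟩, by positivity, one_pos⟩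
  have ha1 : a ≤ δ / (2 * Cu) :=
    ((min_le_left _ _).trans (min_le_left _ _)).trans (min_le_left _ _)
  have ha2 : a ≤ 1 / (20 * C * Cu) :=
    ((min_le_left _ _).trans (min_le_left _ _)).trans (min_le_right _ _)
  have ha3 : a ≤ η₀ / 4 := ((min_le_left _ _).trans (min_le_right _ _)).trans (min_le_left _ _)
  have ha4 : a ≤ r₀ / (2 * (Cm + 1)) :=
    ((min_le_left _ _).trans (min_le_right _ _)).trans (min_le_right _ _)
  have ha5 : a ≤ e / 2 := (min_le_right _ _).trans (min_le_left _ _)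
  have ha6 : a ≤ 1 := (min_le_right _ _).trans (min_le_right _ _)
  rw [le_div_iff₀ (by positivity)] at ha1 ha2 ha3 ha4
  have hCua : C * (Cu * a) ≤ 1 / 20 := by nlinarith
  have hCua' : Cu * a ≤ 1 / 20 := by
    have : 0 ≤ (C - 1) * (Cu * a) := mul_nonneg (by linarith) (by positivity)
    nlinarith
  have hCuδ : Cu * a < δ := by
    have : 0 < Cu * a := by positivity
    nlinarith
  -- pointwise estimates
  have P1 : ∀ c, Loop S c → dd G gg c < a ^ 2 → ∀ t, ‖dv G (gg c) c t‖ ≤ 4 * a := by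
    intro c hcl hd t
    have h1 := sup_dv (gg := gg) h (hg.mem c (Loop.contOn hcl _)) hcl t
    have h2 := dd_nonneg G gg c
    refine le_of_sq_le_sq ?_ (by positivity)
    nlinarith
  have P2 : ∀ c, Loop S c → dd G gg c < a ^ 2 → ‖mm G K δN PN gg c‖ ≤ Cm * a := by
    intro c hcl hd
    have h1 := hCm c hcl
    refine le_of_sq_le_sq (h1.trans ?_) (by positivity)
    rw [mul_pow]
    exact mul_le_mul_of_nonneg_left hd.le (by positivity)
  have P3 : ∀ c, Loop S c → dd G gg c < a ^ 2 → ∀ s, 0 ≤ s → s ≤ 1 → ∀ t,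
      ‖us G K (gg c) c (mm G K δN PN gg c) s t‖ ≤ Cu * a := by
    intro c hcl hd s hs0 hs1 t
    refine (norm_seg_le hs0 hs1).trans ?_
    have h1 := P1 c hcl hd t
    have h2 := P2 c hcl hd
    have h3 := (hCf (gg c) (hg.mem c (Loop.contOn hcl _)) (mm G K δN PN gg c) t).1
    have h4 : Cf * ‖mm G K δN PN gg c‖ ≤ Cf * (Cm * a) := mul_le_mul_of_nonneg_left h2 hCf0
    rw [hCu]
    nlinarith
  -- energy of the segment
  have P4 : ∀ c, Loop S c → dd G gg c < a ^ 2 → ∀ s, 0 ≤ s → s ≤ 1 →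
      ∫ t in (0:ℝ)..(2 * π), ‖us' G K (gg c) c (mm G K δN PN gg c) s t‖ ^ 2 ≤ 1 / 25 := by
    intro c hcl hd s hs0 hs1
    have hz := hg.mem c (Loop.contOn hcl _)
    set m := mm G K δN PN gg c with hm
    have h2 := P2 c hcl hd
    rw [← hm] at h2
    have hpt : ∀ t ∈ Icc (0:ℝ) (2 * π), ‖us' G K (gg c) c m s t‖ ^ 2 ≤
        2 * ‖dv' G (gg c) c t‖ ^ 2 + 8 * (Cf * (Cm * a)) ^ 2 := by
      intro t _
      have k1 := norm_seg_le (x := dv' G (gg c) c t) (y := fd' G (gg c) (nuP K) m t) hs0 hs1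
      have k2 := (hCf (gg c) hz m t).2.1
      have k3 : Cf * ‖m‖ ≤ Cf * (Cm * a) := mul_le_mul_of_nonneg_left h2 hCf0
      have k4 : ‖us' G K (gg c) c m s t‖ ≤ ‖dv' G (gg c) c t‖ + 2 * (Cf * (Cm * a)) := by
        refine k1.trans ?_
        linarith
      have k5 := sq_add_two (norm_nonneg _) k4
      rw [mul_pow 2] at k5
      linarith
    have hcd := cont_dv' hz.1 hcl
    have h0 : Continuous fun t => ‖us' G K (gg c) c m s t‖ ^ 2 :=
      (cont_us' hz.1 hcl m s).norm.pow 2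
    have h1 := intervalIntegral.integral_mono_on (a := 0) (b := 2 * π) (μ := volume)
      (by positivity) (h0.intervalIntegrable _ _)
      (Continuous.intervalIntegrable (by fun_prop) _ _) hpt
    rw [intervalIntegral.integral_add (Continuous.intervalIntegrable (by fun_prop) _ _)
      intervalIntegrable_const, intervalIntegral.integral_const_mul,
      intervalIntegral.integral_const, smul_eq_mul, sub_zero] at h1
    have h3 : (∫ t in (0:ℝ)..(2 * π), ‖dv' G (gg c) c t‖ ^ 2) ≤ a ^ 2 := by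
      have e1 : 0 ≤ L2 G c (gg c) :=
        intervalIntegral.integral_nonneg (by positivity) fun _ _ => by positivity
      have e2 : dd G gg c = L2 G c (gg c) + ∫ t in (0:ℝ)..(2 * π), ‖dv' G (gg c) c t‖ ^ 2 := rfl
      linarith
    have h5 : 2 * a ^ 2 + 2 * π * (8 * (Cf * (Cm * a)) ^ 2) ≤ 16 * (Cu * a) ^ 2 := by
      have := aux4 (a := a) (y := (Cf * (Cm * a)) ^ 2) hCfm (by ring)
      rwa [← mul_assoc 2 Cf Cm, ← hCu] at this
    have h6 : (Cu * a) ^ 2 ≤ (1 / 20) ^ 2 := pow_le_pow_left₀ (by positivity) hCua' 2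
    nlinarith
  obtain ⟨ηc, hηpos, hnr⟩ := exists_nr h hg hCg hapos
  refine ⟨a, hapos, ηc, hηpos, Real.sqrt (a ^ 2 / (3 * (C₂ + 1))), by positivity,
    fun ε hε hε1 => ?_⟩
  have hεsq : ε ^ 2 ≤ a ^ 2 / (3 * (C₂ + 1)) := by
    have := pow_le_pow_left₀ hε.le hε1 2
    rwa [Real.sq_sqrt (by positivity)] at this
  rw [le_div_iff₀ (by positivity)] at hεsq
  refine ⟨hapos, by nlinarith, by nlinarith, hε, fun c hcl hd s hs0 hs1 t => ?_,
    fun c hcl hd s hs0 hs1 => ?_, fun c hcl hd hE s hs0 hs1 => ?_, fun c hcl hd hd' hE => ?_,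
    fun c hcl hd => ?_, fun c hcl hn => ?_⟩
  · exact (P3 c hcl hd s hs0 hs1 t).trans_lt hCuδ
  · have hz := hg.mem c (Loop.contOn hcl _)
    rw [sg_eq]
    have h1 := En_rho_le (u := us G K (gg c) c (mm G K δN PN gg c) s)
      (u' := us' G K (gg c) c (mm G K δN PN gg c) s) hc hz.1 hz.2
      (fun t => hda_us hz.1 hcl _ s t) (cont_us' hz.1 hcl _ s)
      (fun t => (P3 c hcl hd s hs0 hs1 t).trans_lt hCuδ)
      (fun t => (mul_le_mul_of_nonneg_left (P3 c hcl hd s hs0 hs1 t) (by linarith)).trans hCua)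
    have h2 := P4 c hcl hd s hs0 hs1
    linarith
  · have hz := hg.mem c (Loop.contOn hcl _)
    have h1 := (hne (gg c) hz c hcl (fun t => (P1 c hcl hd t).trans (by linarith)) hE
      (coer_of_U2 h hg hU hcl)).2 s hs0 hs1
    have h2 := H.pos_δ
    have h3 : 0 ≤ δN / 2 * s * ‖nn G K δN PN (gg c) c‖ ^ 2 := by positivity
    linarith
  · have hz := hg.mem c (Loop.contOn hcl _)
    have h1 := (hne (gg c) hz c hcl (fun t => (P1 c hcl hd t).trans (by linarith)) hE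
      (coer_of_U2 h hg hU hcl)).1
    rw [← dd_eq hz hcl] at h1
    have h2 : ‖ww G K δN PN gg ε c‖ ^ 2 = 4 / ε ^ 2 * ‖nn G K δN PN (gg c) c‖ ^ 2 := by
      have e1 : ‖ww G K δN PN gg ε c‖ = 2 / ε * ‖nn G K δN PN (gg c) c‖ := by
        rw [ww, norm_smul, Real.norm_of_nonneg (by positivity), mm]
      rw [e1, mul_pow, div_pow]
      norm_num
    rw [h2, div_mul_eq_mul_div, le_div_iff₀ (by positivity)]
    set X := ‖nn G K δN PN (gg c) c‖ ^ 2 with hX
    have hX0 : 0 ≤ X := by positivity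
    have h3 : a ^ 2 / 4 ≤ (C₂ + 1) * X := by linarith
    have h5 : 3 * ε ^ 2 * (C₂ + 1) ≤ 4 * X * (C₂ + 1) := by nlinarith
    exact le_of_mul_le_mul_right h5 (by positivity)
  · have hz := hg.mem c (Loop.contOn hcl _)
    rw [sg_one c 1 rfl]
    refine hst2 (gg c) hz _ ?_ ?_
    · rw [map_smul]
      congr 1
      exact H.npr_mem hz _
    · rw [norm_smul, Real.norm_of_nonneg (by norm_num)]
      have := P2 c hcl hd
      nlinarith
  · exact hnr c hcl hn

end Crest.Agent.R208.NG
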