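import Crest.Agent.R208.NG10

/-!
R208, block NG (helper131), part NG11: the operator near the closed geodesics on a single loop.
-/

set_option autoImplicit false
set_option linter.unusedSectionVars false

open Set Filter Topology MeasureTheory
open scoped ContDiff RealInnerProductSpace Real
open Crest.GeometryTopology.Submanifold
open Crest.Agent.R241.DDefs Crest.Agent.R241.D Crest.Agent.R241.D2
open Crest.Agent.R208.MS (exists_unif P_self P_mem Retr En Loop NearUM Close oc)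
open Crest.Agent.R208.NN (Wt fd fd' nuP hasDerivAt_fd continuous_fd' fd_mem fld_fd Rt ev)
open Crest.Agent.R208.NB (NegB npr)
open Crest.Agent.R208.FI (Tan)

noncomputable section

namespace Crest.Agent.R208.NG

variable {n N k K : ℕ} {κ : ℝ} {S : Set (Euc N)} {G : Geo n N κ S} {ρ : Euc N → Euc N} {δ C : ℝ}
  {z : Euc N × Euc N} {δN : ℝ} {PN : Euc N × Euc N → Wt N K →L[ℝ] Wt N K}
  {gg : (ℝ → Euc N) → Euc N × Euc N} {e Cg a ε ηc : ℝ} {c : ℝ → Euc N}
  {lg : Euc N → Euc N → Euc N} {r Cs r' Kr B w E₀ η : ℝ} {J : ℕ}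

/-! ### scalars -/

theorem sgm_one (ha : 0 < a) (h : dd G gg c ≤ a ^ 2 / 4) : sgm G gg a c = 1 := by
  rw [sgm, FL.ct_zero, sub_zero]
  rw [div_mul_eq_mul_div, div_le_iff₀ (by positivity)]
  linarith

theorem sgm_zero (ha : 0 < a) (h : 5 * a ^ 2 / 16 ≤ dd G gg c) : sgm G gg a c = 0 := by
  rw [sgm, FL.ct_one, sub_self]
  rw [div_mul_eq_mul_div, le_div_iff₀ (by positivity)]
  linarith

theorem sgm_zero' (ha : 0 < a) (h : a ^ 2 ≤ dd G gg c) : sgm G gg a c = 0 :=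
  sgm_zero ha (by linarith [sq_nonneg a])

theorem sgm_nonneg : 0 ≤ sgm G gg a c := by
  unfold sgm; linarith [FL.ct_le_one 1 (4 / a ^ 2 * dd G gg c)]

theorem sgm_le_one : sgm G gg a c ≤ 1 := by
  unfold sgm; linarith [FL.ct_nonneg 1 (4 / a ^ 2 * dd G gg c)]

theorem lt_of_sgm (ha : 0 < a) (h : sgm G gg a c ≠ 0) : dd G gg c < a ^ 2 := by
  by_contra h1
  push Not at h1
  exact h (sgm_zero' ha h1)

theorem bet_of_ww (h : 5 / 4 ≤ ‖ww G K δN PN gg ε c‖ ^ 2) : bet G K δN PN gg a ε c = 1 := by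
  rw [bet, FL.bt, FL.ct_one (by linarith)]
  ring

theorem bet_of_sgm (h : sgm G gg a c = 0) : bet G K δN PN gg a ε c = 1 := by
  rw [bet, h]; ring

theorem mu_of_sgm (h : sgm G gg a c = 0) : mu G K δN PN gg a ε c = 0 := by
  rw [mu, h]; ring

theorem k1_zero {s : ℝ} (h : s ≤ 1 / 4) : k1 s = 0 :=
  Real.smoothTransition.zero_of_nonpos (by linarith)
theorem k1_one {s : ℝ} (h : 1 / 2 ≤ s) : k1 s = 1 :=
  Real.smoothTransition.one_of_one_le (by linarith)
theorem k2_zero {s : ℝ} (h : s ≤ 1 / 2) : k2 s = 0 :=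
  Real.smoothTransition.zero_of_nonpos (by linarith)
theorem k2_one {s : ℝ} (h : 3 / 4 ≤ s) : k2 s = 1 :=
  Real.smoothTransition.one_of_one_le (by linarith)
theorem k1_nonneg (s : ℝ) : 0 ≤ k1 s := Real.smoothTransition.nonneg _
theorem k1_le_one (s : ℝ) : k1 s ≤ 1 := Real.smoothTransition.le_one _
theorem contDiff_k1 : ContDiff ℝ ∞ k1 := Real.smoothTransition.contDiff.comp (by fun_prop)
theorem contDiff_k2 : ContDiff ℝ ∞ k2 := Real.smoothTransition.contDiff.comp (by fun_prop)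

/-! ### the first stage -/

theorem S1_of_zero (hc : Cst G ρ δ C) (hcl : Loop S c) {s : ℝ} (h : s * sgm G gg a c = 0) :
    S1 G K ρ δN PN gg a s c = c := by
  funext t
  rw [S1, h, zero_smul, add_zero]
  exact hc.eq _ (hcl.mem t)

theorem two_mm (hε : 0 < ε) : (2:ℝ) • mm G K δN PN gg c = ε • ww G K δN PN gg ε c := by
  rw [ww, smul_smul]
  congr 1
  field_simp

theorem mem_Tot (H : NegB G (k - 1) (nuP K) δN PN) (hg : GG G gg e Cg) (hcl : Loop S c) :
    (gg c, ww G K δN PN gg ε c) ∈ FI.Tot (L.US G) PN := by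
  have hz := hg.mem c (Loop.contOn hcl _)
  refine ⟨hz, ?_⟩
  change PN (gg c) (ww G K δN PN gg ε c) = ww G K δN PN gg ε c
  rw [ww, map_smul]
  congr 1
  exact H.npr_mem hz _

theorem S1_end (hk : KC G K ρ δ δN PN gg e a ε ηc) (hs : sgm G gg a c = 1)
    (hw : ‖ww G K δN PN gg ε c‖ ^ 2 ≤ 4) :
    S1 G K ρ δN PN gg a 1 c =
      oc (FL.Ph G K) (FL.sg0 G ρ ε) (gg c, ww G K δN PN gg ε c) := by
  rw [S1_eq, hs, mul_one, sg_one c 1 rfl, FL.oc_sg0, FL.th_one hw, mul_one]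
  funext t
  rw [two_mm hk.eps, fd_smul]

section
variable (hD : FL.D1 G k K lg ρ r Cs r' Kr B w δN PN ε J E₀ η) (hc : Cst G ρ δ C)
  (hg : GG G gg e Cg) (hk : KC G K ρ δ δN PN gg e a ε ηc) (hB : π + 1 ≤ B)
include hD hc hg hk

/-- far from the closed geodesics the energy is below `E₀` -/
theorem le_E₀ (hcl : Loop S c) (hP : NearUM G ηc c ∨ En c ≤ E₀) (h : a ^ 2 / 4 ≤ dd G gg c) :
    En c ≤ E₀ := by
  rcases hP with h1 | h1
  · exact absurd (hk.nr c hcl h1) (not_lt.2 h)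
  · exact h1

theorem en_S1_low (hcl : Loop S c) (hE : En c ≤ E₀) {s : ℝ} (h0 : 0 ≤ s) (h1 : s ≤ 1) :
    En (S1 G K ρ δN PN gg a s c) ≤ En c := by
  by_cases h2 : sgm G gg a c = 0
  · rw [S1_of_zero hc hcl (by rw [h2, mul_zero])]
  · rw [S1_eq]
    exact hk.low c hcl (lt_of_sgm hk.apos h2) (hE.trans hD.E_lt.le) _
      (mul_nonneg h0 sgm_nonneg) (mul_le_one₀ h1 sgm_nonneg sgm_le_one)

include hB in
theorem en_S1_B (hcl : Loop S c) (hP : NearUM G ηc c ∨ En c ≤ E₀) {s : ℝ} (h0 : 0 ≤ s)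
    (h1 : s ≤ 1) : En (S1 G K ρ δN PN gg a s c) ≤ B := by
  rcases lt_or_ge (dd G gg c) (a ^ 2) with h2 | h2
  · rw [S1_eq]
    exact (hk.enB c hcl h2 _ (mul_nonneg h0 sgm_nonneg)
      (mul_le_one₀ h1 sgm_nonneg sgm_le_one)).trans hB
  · have h3 := le_E₀ hD hc hg hk hcl hP (by linarith [sq_nonneg a])
    have h4 := hD.E_lt
    linarith [en_S1_low hD hc hg hk hcl h3 h0 h1]

theorem dich_S1 (hcl : Loop S c) (hP : NearUM G ηc c ∨ En c ≤ E₀) (s : ℝ) :
    NL.kj J J (k2 s * bet G K δN PN gg a ε c) = 0 ∨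
      En (S1 G K ρ δN PN gg a (k1 s) c) ≤ E₀ := by
  rcases le_total s (1 / 2) with hs | hs
  · left
    rw [k2_zero hs, zero_mul]
    exact NL.kj_zero _ _ (by norm_num)
  rcases le_total (a ^ 2 / 4) (dd G gg c) with h2 | h2
  · right
    have h3 := le_E₀ hD hc hg hk hcl hP h2
    exact (en_S1_low hD hc hg hk hcl h3 (k1_nonneg s) (k1_le_one s)).trans h3
  · have h3 := sgm_one hk.apos h2
    rcases le_total (‖ww G K δN PN gg ε c‖ ^ 2) 1 with h4 | h4
    · left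
      rw [bet, h3, FL.bt, FL.ct_zero h4]
      norm_num
      exact NL.kj_zero _ _ (by norm_num)
    · right
      rw [S1_eq, k1_one hs, h3, one_mul]
      have ha := hk.apos
      have h5 := hk.std c hcl (by nlinarith)
      rw [two_mm hk.eps, norm_smul, Real.norm_of_nonneg hk.eps.le, mul_pow] at h5
      have h6 := hD.le_E
      have h7 := hD.neg.pos_δ
      have h8 : δN / 4 * ε ^ 2 * 1 ≤ δN / 4 * ε ^ 2 * ‖ww G K δN PN gg ε c‖ ^ 2 :=
        mul_le_mul_of_nonneg_left h4 (by positivity)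
      linarith

/-- where `μ > 0` the loop is near -/
theorem mu_pos (hcl : Loop S c) (hP : NearUM G ηc c ∨ En c ≤ E₀)
    (hm : 0 < mu G K δN PN gg a ε c) :
    dd G gg c ≤ a ^ 2 / 4 ∧ sgm G gg a c = 1 ∧ ‖ww G K δN PN gg ε c‖ ^ 2 < 3 := by
  have h1 : sgm G gg a c ≠ 0 := fun h => by rw [mu_of_sgm h] at hm; exact lt_irrefl _ hm
  have h2 : ‖ww G K δN PN gg ε c‖ ^ 2 < 3 := by
    by_contra h
    push Not at h
    rw [mu, FL.ct_one (by linarith)] at hm
    norm_num at hm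
  have h3 : dd G gg c ≤ a ^ 2 / 4 := by
    by_contra h
    push Not at h
    have h4 := le_E₀ hD hc hg hk hcl hP h.le
    have h5 := hk.big c hcl (lt_of_sgm hk.apos h1) h.le (h4.trans hD.E_lt.le)
    linarith
  exact ⟨h3, sgm_one hk.apos h3, h2⟩

theorem HN_one (hcl : Loop S c) (hP : NearUM G ηc c ∨ En c ≤ E₀)
    (hm : 0 < mu G K δN PN gg a ε c) :
    HN G K lg ρ w J δN PN gg a ε 1 c =
      oc (FL.Ph G K) (FL.f1 G lg ρ w J ε) (gg c, ww G K δN PN gg ε c) := by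
  obtain ⟨-, h1, h2⟩ := mu_pos hD hc hg hk hcl hP hm
  rw [hD.oc_f1 (mem_Tot hD.neg hg hcl), HN, k1_one (by norm_num), k2_one (by norm_num), one_mul,
    S1_end hk h1 (by linarith), bet, h1]
  congr 1
  rw [FL.tm]
  ring

theorem bet_one (hcl : Loop S c) (hP : NearUM G ηc c ∨ En c ≤ E₀)
    (hm : mu G K δN PN gg a ε c < 1) : bet G K δN PN gg a ε c = 1 := by
  rcases le_total (a ^ 2 / 4) (dd G gg c) with h2 | h2
  · have h3 := le_E₀ hD hc hg hk hcl hP h2
    by_cases h4 : sgm G gg a c = 0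
    · exact bet_of_sgm h4
    · have h5 := hk.big c hcl (lt_of_sgm hk.apos h4) h2 (h3.trans hD.E_lt.le)
      exact bet_of_ww (by linarith)
  · have h3 := sgm_one hk.apos h2
    refine bet_of_ww ?_
    by_contra h
    push Not at h
    rw [mu, h3, FL.ct_zero (by linarith)] at hm
    norm_num at hm

theorem far_of (hcl : Loop S c) (hP : NearUM G ηc c ∨ En c ≤ E₀)
    (hm0 : 0 < mu G K δN PN gg a ε c) (hm : mu G K δN PN gg a ε c < 1) :
    64 / 25 ≤ ‖ww G K δN PN gg ε c‖ ^ 2 := by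
  obtain ⟨-, h1, -⟩ := mu_pos hD hc hg hk hcl hP hm0
  by_contra h
  push Not at h
  rw [mu, h1, FL.ct_zero h.le] at hm
  norm_num at hm

theorem HN_one' (hcl : Loop S c) (hP : NearUM G ηc c ∨ En c ≤ E₀)
    (hm : mu G K δN PN gg a ε c < 1) :
    HN G K lg ρ w J δN PN gg a ε 1 c =
      fun _ => NL.lend G lg ρ w J (S1 G K ρ δN PN gg a 1 c) := by
  rw [HN, k1_one (by norm_num), k2_one (by norm_num), one_mul, bet_one hD hc hg hk hcl hP hm,
    NL.Lam_end (by norm_num)]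

theorem HN_start (hcl : Loop S c) {s : ℝ} (hs : s ≤ 1 / 4) :
    HN G K lg ρ w J δN PN gg a ε s c = c := by
  rw [HN, k1_zero hs, k2_zero (by linarith), zero_mul, S1_of_zero hc hcl (zero_mul _),
    NL.Lam_start hD.ld hcl (by norm_num)]

theorem sgm_const {x : Euc N} (hx : x ∈ S) : sgm G gg a (fun _ => x) = 0 := by
  have hcl : Loop S fun _ : ℝ => x := ⟨contDiff_const, fun _ => rfl, fun _ => hx⟩
  have hz := hg.mem (fun _ => x) (Loop.contOn hcl _)
  refine sgm_zero' hk.apos ?_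
  have h1 : 0 ≤ L2 G (fun _ => x) (gg fun _ => x) :=
    intervalIntegral.integral_nonneg (by positivity) fun _ _ => by positivity
  have h2 : (∫ t in (0:ℝ)..(2 * π), ‖dv' G (gg fun _ => x) (fun _ => x) t‖ ^ 2) = 2 * π := by
    have : ∀ t, ‖dv' G (gg fun _ => x) (fun _ => x) t‖ ^ 2 = 1 := fun t => by
      rw [dv', deriv_const, zero_sub, norm_neg, ga', norm_fl G hz.1, hz.2, one_pow]
    simp only [this]
    simp
  have h3 := hk.api
  have h4 := Real.pi_pos
  unfold dd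
  rw [h2]
  linarith

theorem HN_const {x : Euc N} (hx : x ∈ S) (s : ℝ) :
    HN G K lg ρ w J δN PN gg a ε s (fun _ => x) = fun _ => x := by
  have hcl : Loop S fun _ : ℝ => x := ⟨contDiff_const, fun _ => rfl, fun _ => hx⟩
  rw [HN, S1_of_zero hc hcl (by rw [sgm_const hD hc hg hk hx, mul_zero]),
    NL.Lam_const hD.ld hx]

theorem mu_const {x : Euc N} (hx : x ∈ S) : mu G K δN PN gg a ε (fun _ => x) = 0 :=
  mu_of_sgm (sgm_const hD hc hg hk hx)

end

end Crest.Agent.R208.NG
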