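import Crest.Agent.R208.NG11

/-!
R208, block NG (helper131), part NG12: the first stage on circle families, smoothness.
-/

set_option autoImplicit false
set_option linter.unusedSectionVars false

open Set Filter Topology MeasureTheory
open scoped ContDiff RealInnerProductSpace Real
open Crest.GeometryTopology.Submanifold
open Crest.Agent.R241.DDefs Crest.Agent.R241.D Crest.Agent.R241.D2
open Crest.Agent.R208.MS (exists_unif P_self P_mem Retr En Loop NearUM Close oc Fam loop_oc oc_shift)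
open Crest.Agent.R208.NN (Wt fd fd' nuP hasDerivAt_fd continuous_fd' fd_mem fld_fd Rt ev)
open Crest.Agent.R208.NB (NegB npr)
open Crest.Agent.R208.FI (Tan)

noncomputable section

namespace Crest.Agent.R208.NG

variable {n N k K : ℕ} {κ : ℝ} {S : Set (Euc N)} {G : Geo n N κ S} {ρ : Euc N → Euc N} {δ C : ℝ}
  {z : Euc N × Euc N} {δN : ℝ} {PN : Euc N × Euc N → Wt N K →L[ℝ] Wt N K}
  {gg : (ℝ → Euc N) → Euc N × Euc N} {e Cg a ε ηc : ℝ} {c : ℝ → Euc N}
  {E : Type} [NormedAddCommGroup E] [NormedSpace ℝ E] [FiniteDimensional ℝ E]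
  {X : Set E} {φ : ℝ → E → E} {f : E → Euc N}

section sm
variable (H : NegB G (k - 1) (nuP K) δN PN) (hg : GG G gg e Cg)
  (hφ : CM.Cir X φ) (hf : Fam S X f) {x : E} (hx : x ∈ X)

include hφ hf hx in
theorem sm_oc (t : ℝ) : ContDiffAt ℝ ∞ (fun p : E × ℝ => oc φ f p.1 p.2) (x, t) :=
  NR.contDiffAt_oc hφ hf.smooth hx t

include hg hφ hf hx in
theorem gg_mem : gg (oc φ f x) ∈ L.US G := hg.mem _ (Loop.contOn (loop_oc hφ hf hx) _)

variable (hDm : Dm G e (oc φ f x))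
include hg hφ hf hx hDm

theorem sm_gg : ContDiffAt ℝ ∞ (fun x' => gg (oc φ f x')) x :=
  hg.smooth E (fun p => oc φ f p.1 p.2) x (fun t _ => sm_oc hφ hf hx t) hDm

theorem sm_gg' (t : ℝ) : ContDiffAt ℝ ∞ (fun p : E × ℝ => (gg (oc φ f p.1), p.2)) (x, t) := by
  have h1 : ContDiffAt ℝ ∞ (fun p : E × ℝ => gg (oc φ f p.1)) (x, t) :=
    ContDiffAt.comp (x, t) (g := fun x' => gg (oc φ f x')) (f := Prod.fst)
      (sm_gg hg hφ hf hx hDm) contDiffAt_fst
  exact h1.prodMk contDiffAt_snd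

theorem sm_ga (t : ℝ) : ContDiffAt ℝ ∞ (fun p : E × ℝ => ga G (gg (oc φ f p.1)) p.2) (x, t) :=
  ContDiffAt.comp (x, t) (g := fun p : (Euc N × Euc N) × ℝ => ga G p.1 p.2)
    (f := fun p : E × ℝ => (gg (oc φ f p.1), p.2))
    (NR.contDiffAt_ga (gg_mem hg hφ hf hx).1 t) (sm_gg' hg hφ hf hx hDm t)

theorem sm_dd : ContDiffAt ℝ ∞ (fun x' => dd G gg (oc φ f x')) x :=
  (NR.contDiffAt_D2 (g := fun p : E × ℝ => oc φ f p.1 p.2) (fun t _ => sm_oc hφ hf hx t)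
    (sm_gg hg hφ hf hx hDm) (gg_mem hg hφ hf hx)).add
  (NR.contDiffAt_D2' (g := fun p : E × ℝ => oc φ f p.1 p.2) (fun t _ => sm_oc hφ hf hx t)
    (sm_gg hg hφ hf hx hDm) (gg_mem hg hφ hf hx))

theorem sm_sgm (a : ℝ) : ContDiffAt ℝ ∞ (fun x' => sgm G gg a (oc φ f x')) x := by
  have h1 : ContDiffAt ℝ ∞ (fun x' => 4 / a ^ 2 * dd G gg (oc φ f x')) x :=
    contDiffAt_const.mul (sm_dd hg hφ hf hx hDm)
  exact contDiffAt_const.sub (ContDiffAt.comp x (g := FL.ct 1) (FL.contDiff_ct 1).contDiffAt h1)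

include H

theorem sm_mm : ContDiffAt ℝ ∞ (fun x' => mm G K δN PN gg (oc φ f x')) x := by
  refine H.contDiffAt_npr (F := fun p : E × ℝ => G.P (ga G (gg (oc φ f p.1)) p.2)
    (oc φ f p.1 p.2 - ga G (gg (oc φ f p.1)) p.2)) (sm_gg hg hφ hf hx hDm)
    (gg_mem hg hφ hf hx) fun t _ => ?_
  have h1 := sm_ga hg hφ hf hx hDm t
  have h2 : ContDiffAt ℝ ∞ (fun p : E × ℝ => G.P (ga G (gg (oc φ f p.1)) p.2)) (x, t) :=
    ContDiffAt.comp (x, t) (g := G.P) G.contDiff_P.contDiffAt h1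
  exact h2.clm_apply ((sm_oc hφ hf hx t).sub h1)

theorem sm_ww (ε : ℝ) : ContDiffAt ℝ ∞ (fun x' => ww G K δN PN gg ε (oc φ f x')) x :=
  (sm_mm H hg hφ hf hx hDm).const_smul (2 / ε)

theorem sm_nww (ε : ℝ) : ContDiffAt ℝ ∞ (fun x' => ‖ww G K δN PN gg ε (oc φ f x')‖ ^ 2) x :=
  (sm_ww H hg hφ hf hx hDm ε).norm_sq ℝ

theorem sm_bet (a ε : ℝ) : ContDiffAt ℝ ∞ (fun x' => bet G K δN PN gg a ε (oc φ f x')) x := by
  have h1 : ContDiffAt ℝ ∞ (fun x' => FL.bt (‖ww G K δN PN gg ε (oc φ f x')‖ ^ 2)) x :=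
    ContDiffAt.comp x (g := FL.bt) (FL.contDiff_ct 1).contDiffAt (sm_nww H hg hφ hf hx hDm ε)
  exact contDiffAt_const.sub ((sm_sgm hg hφ hf hx hDm a).mul (contDiffAt_const.sub h1))

theorem sm_mu (a ε : ℝ) : ContDiffAt ℝ ∞ (fun x' => mu G K δN PN gg a ε (oc φ f x')) x := by
  have h1 : ContDiffAt ℝ ∞ (fun x' => FL.ct (64 / 25) (‖ww G K δN PN gg ε (oc φ f x')‖ ^ 2)) x :=
    ContDiffAt.comp x (g := FL.ct (64 / 25)) (FL.contDiff_ct _).contDiffAt
      (sm_nww H hg hφ hf hx hDm ε)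
  exact (sm_sgm hg hφ hf hx hDm a).mul (contDiffAt_const.sub h1)

theorem sm_bb : ContDiffAt ℝ ∞ (fun x' => bb G K δN PN gg (oc φ f x') 0) x := by
  have h0 : ContDiffAt ℝ ∞ (fun x' : E => (x', (0:ℝ))) x := by fun_prop
  have h1 : ContDiffAt ℝ ∞ (fun x' => ga G (gg (oc φ f x')) 0) x :=
    ContDiffAt.comp x (g := fun p : E × ℝ => ga G (gg (oc φ f p.1)) p.2)
      (sm_ga hg hφ hf hx hDm 0) h0
  have h2 : ContDiffAt ℝ ∞ (fun x' => oc φ f x' 0) x :=
    ContDiffAt.comp x (g := fun p : E × ℝ => oc φ f p.1 p.2) (sm_oc hφ hf hx 0) h0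
  have h3 : ContDiffAt ℝ ∞ (fun x' => ((gg (oc φ f x'), mm G K δN PN gg (oc φ f x')), (0:ℝ))) x :=
    ((sm_gg hg hφ hf hx hDm).prodMk (sm_mm H hg hφ hf hx hDm)).prodMk contDiffAt_const
  have h4 : ContDiffAt ℝ ∞ (fun x' => NN.fd G (gg (oc φ f x')) (nuP K)
      (mm G K δN PN gg (oc φ f x')) 0) x :=
    ContDiffAt.comp x
      (g := fun p : ((Euc N × Euc N) × Wt N K) × ℝ => NN.fd G p.1.1 (nuP K) p.1.2 p.2)
      (NB.contDiffAt_fd (gg_mem hg hφ hf hx).1 _ _).1 h3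
  exact (h1.add (h4.const_smul (2:ℝ))).sub h2

end sm

/-! ### parameters whose loops are far from the closed geodesics -/

theorem ev_far (hg : GG G gg e Cg) (hφ : CM.Cir X φ) (hf : Fam S X f) {x : E} (hx : x ∈ X)
    (hDm : ¬ Dm G e (oc φ f x)) : ∀ᶠ x' in 𝓝 x, e ^ 2 / 4 ≤ dd G gg (oc φ f x') := by
  have he := hg.pos
  have hcl := loop_oc hφ hf hx
  have h1 : ∀ᶠ x' in 𝓝 x, ∀ t ∈ Icc (0:ℝ) (2 * π),
      ContinuousAt (fun p : E × ℝ => oc φ f p.1 p.2) (x', t) ∧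
      ‖oc φ f x' t - oc φ f x t‖ < e / 8 := by
    refine isCompact_Icc.eventually_forall_of_forall_eventually fun t _ => ?_
    have k1 : ∀ᶠ p : E × ℝ in 𝓝 (x, t), ContDiffAt ℝ 1 (fun p : E × ℝ => oc φ f p.1 p.2) p :=
      ((sm_oc hφ hf hx t).of_le (by simp)).eventually (by simp)
    have k2 : ContinuousAt (fun p : E × ℝ => ‖oc φ f p.1 p.2 - oc φ f x p.2‖) (x, t) :=
      ((sm_oc hφ hf hx t).continuousAt.sub
        (hcl.smooth.continuous.comp continuous_snd).continuousAt).norm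
    have k3 : ∀ᶠ p : E × ℝ in 𝓝 (x, t), ‖oc φ f p.1 p.2 - oc φ f x p.2‖ < e / 8 :=
      k2.eventually_lt_const (by simp only [sub_self, norm_zero]; positivity)
    filter_upwards [k1, k3] with p hp1 hp2
    exact ⟨hp1.continuousAt, hp2⟩
  filter_upwards [h1] with x' hx'
  set c' := oc φ f x' with hc'
  have hcont : ContinuousOn c' (Icc 0 (2 * π)) := fun t ht =>
    (ContinuousAt.comp (f := fun t : ℝ => (x', t)) (hx' t ht).1
      (by fun_prop : ContinuousAt (fun t : ℝ => (x', t)) t)).continuousWithinAt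
  have hv := hg.mem c' hcont
  set v := gg c' with hvd
  have h2 : e ^ 2 ≤ L2 G (oc φ f x) v := by
    by_contra hcon
    push Not at hcon
    exact hDm ⟨v, hv, hcon⟩
  have hga := cont_ga (G := G) hv.1
  have h3 : L2 G (oc φ f x) v ≤ 2 * L2 G c' v + 2 * π * (2 * (e / 8) ^ 2) := by
    have e0 : Continuous fun t => ‖oc φ f x t - ga G v t‖ ^ 2 :=
      (hcl.smooth.continuous.sub hga).norm.pow 2
    have e1 : ContinuousOn (fun t => ‖c' t - ga G v t‖ ^ 2) (Icc 0 (2 * π)) :=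
      (hcont.sub hga.continuousOn).norm.pow 2
    have e2 : IntervalIntegrable (fun t => ‖c' t - ga G v t‖ ^ 2) volume 0 (2 * π) :=
      e1.intervalIntegrable_of_Icc (by positivity)
    have e3 := intervalIntegral.integral_mono_on (a := 0) (b := 2 * π) (μ := volume)
      (g := fun t => 2 * ‖c' t - ga G v t‖ ^ 2 + 2 * (e / 8) ^ 2)
      (by positivity) (e0.intervalIntegrable _ _)
      ((e2.const_mul 2).add intervalIntegrable_const) (fun t ht => by
        have f1 := (hx' t ht).2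
        have f2 : oc φ f x t - ga G v t = (c' t - ga G v t) + -(c' t - oc φ f x t) := by abel
        have f3 : ‖oc φ f x t - ga G v t‖ ≤ ‖c' t - ga G v t‖ + e / 8 := by
          rw [f2]
          refine (norm_add_le _ _).trans ?_
          rw [norm_neg]
          linarith
        exact sq_add_two (norm_nonneg _) f3)
    rw [intervalIntegral.integral_add (e2.const_mul 2) intervalIntegrable_const,
      intervalIntegral.integral_const_mul, intervalIntegral.integral_const, smul_eq_mul,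
      sub_zero] at e3
    exact e3
  have h4 := dd_ge (G := G) (gg := gg) (c := c')
  have hpi := Real.pi_lt_d2
  have h5 : 2 * π * (2 * (e / 8) ^ 2) ≤ e ^ 2 / 4 := by
    have : 2 * π * (2 * (e / 8) ^ 2) = π * (e ^ 2 / 16) := by ring
    rw [this]
    nlinarith [sq_nonneg e]
  have h6 : 0 < e ^ 2 := by positivity
  linarith

theorem ev_sgm (hg : GG G gg e Cg) (hφ : CM.Cir X φ) (hf : Fam S X f) {x : E} (hx : x ∈ X)
    (hDm : ¬ Dm G e (oc φ f x)) (ha : 0 < a) (hae : 4 * a ^ 2 ≤ e ^ 2) :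
    ∀ᶠ x' in 𝓝 x, sgm G gg a (oc φ f x') = 0 := by
  filter_upwards [ev_far hg hφ hf hx hDm] with x' hx'
  exact sgm_zero' ha (by linarith)

/-! ### the first stage -/

/-- the first stage of the homotopy of a family -/
def Ff (G : Geo n N κ S) (K : ℕ) (ρ : Euc N → Euc N) (δN : ℝ)
    (PN : Euc N × Euc N → Wt N K →L[ℝ] Wt N K)
    (gg : (ℝ → Euc N) → Euc N × Euc N) (a : ℝ) (φ : ℝ → E → E) (f : E → Euc N) (q : E × ℝ) :
    Euc N := S1 G K ρ δN PN gg a (k1 q.2) (oc φ f q.1) 0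

/-- the time of the contraction -/
def Tf (G : Geo n N κ S) (K : ℕ) (δN : ℝ)
    (PN : Euc N × Euc N → Wt N K →L[ℝ] Wt N K)
    (gg : (ℝ → Euc N) → Euc N × Euc N) (a ε : ℝ) (φ : ℝ → E → E) (f : E → Euc N) (q : E × ℝ) :
    ℝ := k2 q.2 * bet G K δN PN gg a ε (oc φ f q.1)

section fam
variable (h : GT.Bla G k) (H : NegB G (k - 1) (nuP K) δN PN) (hc : Cst G ρ δ C)
  (hg : GG G gg e Cg) (hk : KC G K ρ δ δN PN gg e a ε ηc)
  (hφ : CM.Cir X φ) (hf : Fam S X f)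
include h H hc hg hk hφ hf

theorem kc_ae : 5 * a ^ 2 / 16 ≤ e ^ 2 := by
  have := hk.ae
  linarith [sq_nonneg a]

theorem oc_Ff {x : E} (hx : x ∈ X) (s : ℝ) :
    oc (NL.pR φ) (Ff G K ρ δN PN gg a φ f) (x, s) =
      S1 G K ρ δN PN gg a (k1 s) (oc φ f x) := by
  funext t
  change S1 G K ρ δN PN gg a (k1 s) (oc φ f (φ t x)) 0 = _
  rw [oc_shift hφ hx, S1_shift h H hg hk.apos (kc_ae h H hc hg hk hφ hf) (loop_oc hφ hf hx),
    zero_add]

/-- the point of the first stage: the argument of `ρ` is near `S` -/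
theorem arg_near {x : E} (hx : x ∈ X) {s : ℝ} (h0 : 0 ≤ s) (h1 : s ≤ 1) :
    ∃ y ∈ S, ‖(oc φ f x 0 + (s * sgm G gg a (oc φ f x)) • bb G K δN PN gg (oc φ f x) 0) - y‖ <
      δ := by
  have hcl := loop_oc hφ hf hx
  by_cases h2 : sgm G gg a (oc φ f x) = 0
  · refine ⟨oc φ f x 0, hcl.mem 0, ?_⟩
    rw [h2, mul_zero, zero_smul, add_zero, sub_self, norm_zero]
    exact hc.pos
  · have hz := gg_mem hg hφ hf hx
    refine ⟨ga G (gg (oc φ f x)) 0, ga_mem hz.1 0, ?_⟩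
    have h3 := hk.tube (oc φ f x) hcl (lt_of_sgm hk.apos h2) (s * sgm G gg a (oc φ f x))
      (mul_nonneg h0 sgm_nonneg) (mul_le_one₀ h1 sgm_nonneg sgm_le_one) 0
    refine lt_of_eq_of_lt ?_ h3
    congr 1
    simp only [bb, dv, mm]
    module

theorem fam_Ff : Fam S (X ×ˢ (univ : Set ℝ)) (Ff G K ρ δN PN gg a φ f) := by
  refine ⟨?_, ?_⟩
  · rintro ⟨x, s⟩ ⟨hx, -⟩
    have h0 : ContDiffAt ℝ ∞ (fun q : E × ℝ => k1 q.2) (x, s) :=
      ContDiffAt.comp (x, s) (g := k1) contDiff_k1.contDiffAt contDiffAt_snd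
    by_cases hDm : Dm G e (oc φ f x)
    · obtain ⟨y, hy, hy'⟩ := arg_near h H hc hg hk hφ hf hx (k1_nonneg s) (k1_le_one s)
      have h1 : ContDiffAt ℝ ∞ (fun q : E × ℝ => oc φ f q.1 0) (x, s) :=
        ContDiffAt.comp (x, s) (g := fun p : E × ℝ => oc φ f p.1 p.2) (f := fun q => (q.1, 0))
          (sm_oc hφ hf hx 0) (by fun_prop)
      have h2 : ContDiffAt ℝ ∞ (fun q : E × ℝ => sgm G gg a (oc φ f q.1)) (x, s) :=
        ContDiffAt.comp (x, s) (g := fun x' => sgm G gg a (oc φ f x'))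
          (sm_sgm hg hφ hf hx hDm a) contDiffAt_fst
      have h3 : ContDiffAt ℝ ∞ (fun q : E × ℝ => bb G K δN PN gg (oc φ f q.1) 0) (x, s) :=
        ContDiffAt.comp (x, s) (g := fun x' => bb G K δN PN gg (oc φ f x') 0)
          (sm_bb H hg hφ hf hx hDm) contDiffAt_fst
      exact ContDiffAt.comp (x, s) (g := ρ) (f := fun q : E × ℝ => oc φ f q.1 0 +
        (k1 q.2 * sgm G gg a (oc φ f q.1)) • bb G K δN PN gg (oc φ f q.1) 0)
        (hc.sm y hy _ hy') (h1.add ((h0.mul h2).smul h3))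
    · have h1 := ev_sgm hg hφ hf hx hDm hk.apos hk.ae
      have h2 : ∀ᶠ q : E × ℝ in 𝓝 (x, s), sgm G gg a (oc φ f q.1) = 0 :=
        continuousAt_fst.eventually h1
      have h3 : ContDiffAt ℝ ∞ (fun q : E × ℝ => oc φ f q.1 0) (x, s) :=
        ContDiffAt.comp (x, s) (g := fun p : E × ℝ => oc φ f p.1 p.2) (f := fun q => (q.1, 0))
          (sm_oc hφ hf hx 0) (by fun_prop)
      have h4 : ContDiffAt ℝ ∞ (fun q : E × ℝ => ρ (oc φ f q.1 0)) (x, s) :=
        ContDiffAt.comp (x, s) (g := ρ) (f := fun q : E × ℝ => oc φ f q.1 0)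
          (hc.sm _ ((loop_oc hφ hf hx).mem 0) _ (by rw [sub_self, norm_zero]; exact hc.pos)) h3
      refine h4.congr_of_eventuallyEq ?_
      filter_upwards [h2] with q hq
      simp only [Ff, S1, hq, mul_zero, zero_smul, add_zero]
  · rintro ⟨x, s⟩ ⟨hx, -⟩
    obtain ⟨y, hy, hy'⟩ := arg_near h H hc hg hk hφ hf hx (k1_nonneg s) (k1_le_one s)
    exact hc.mem y hy _ hy'

theorem si_Tf : NL.SI (X ×ˢ (univ : Set ℝ)) (NL.pR φ) (Tf G K δN PN gg a ε φ f) := by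
  refine ⟨?_, ?_⟩
  · rintro ⟨x, s⟩ ⟨hx, -⟩
    have h0 : ContDiffAt ℝ ∞ (fun q : E × ℝ => k2 q.2) (x, s) :=
      ContDiffAt.comp (x, s) (g := k2) contDiff_k2.contDiffAt contDiffAt_snd
    by_cases hDm : Dm G e (oc φ f x)
    · exact h0.mul (ContDiffAt.comp (x, s) (g := fun x' => bet G K δN PN gg a ε (oc φ f x'))
        (sm_bet H hg hφ hf hx hDm a ε) contDiffAt_fst)
    · have h1 := ev_sgm hg hφ hf hx hDm hk.apos hk.ae
      have h2 : ∀ᶠ q : E × ℝ in 𝓝 (x, s), sgm G gg a (oc φ f q.1) = 0 :=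
        continuousAt_fst.eventually h1
      refine h0.congr_of_eventuallyEq ?_
      filter_upwards [h2] with q hq
      simp only [Tf, bet_of_sgm hq, mul_one]
  · rintro ⟨x, s⟩ ⟨hx, -⟩ t
    change k2 s * bet G K δN PN gg a ε (oc φ f (φ t x)) = k2 s * bet G K δN PN gg a ε (oc φ f x)
    rw [oc_shift hφ hx, bet_shift h H hg hk.apos (kc_ae h H hc hg hk hφ hf) (loop_oc hφ hf hx)]

end fam

end Crest.Agent.R208.NG
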