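import Crest.Agent.R208.NG12
import Crest.Agent.R208.EX5

/-!
R208, block NG (helper131), part NG13: **(U4)** the natural operator near the closed geodesics.
-/

set_option autoImplicit false
set_option linter.unusedSectionVars false

open Set Filter Topology MeasureTheory
open scoped ContDiff RealInnerProductSpace Real
open Crest.GeometryTopology.Submanifold
open Crest.Agent.R241.DDefs Crest.Agent.R241.D Crest.Agent.R241.D2
open Crest.Agent.R208.MS (exists_unif P_self P_mem Retr En Loop NearUM Close oc Fam loop_oc oc_shift)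
open Crest.Agent.R208.NN (Wt fd fd' nuP hasDerivAt_fd continuous_fd' fd_mem fld_fd Rt ev)
open Crest.Agent.R208.NB (NegB npr)
open Crest.Agent.R208.FI (Tan)

noncomputable section

namespace Crest.Agent.R208.NG

variable {n N k K : ℕ} {κ : ℝ} {S : Set (Euc N)} {G : Geo n N κ S} {ρ : Euc N → Euc N} {δ C : ℝ}
  {z : Euc N × Euc N} {δN : ℝ} {PN : Euc N × Euc N → Wt N K →L[ℝ] Wt N K}
  {gg : (ℝ → Euc N) → Euc N × Euc N} {e Cg a ε ηc : ℝ} {c : ℝ → Euc N}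
  {lg : Euc N → Euc N → Euc N} {r Cs r' Kr B w E₀ η : ℝ} {J : ℕ}
  {E : Type} [NormedAddCommGroup E] [NormedSpace ℝ E] [FiniteDimensional ℝ E]
  {X : Set E} {φ : ℝ → E → E} {f : E → Euc N}

/-- the homotopy of a family -/
def Hf (G : Geo n N κ S) (K : ℕ) (lg : Euc N → Euc N → Euc N) (ρ : Euc N → Euc N) (w : ℝ)
    (J : ℕ) (δN : ℝ) (PN : Euc N × Euc N → Wt N K →L[ℝ] Wt N K)
    (gg : (ℝ → Euc N) → Euc N × Euc N) (a ε : ℝ) (φ : ℝ → E → E) (f : E → Euc N) :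
    E × ℝ → Euc N :=
  NL.FLam (NL.pR φ) G lg ρ w J (Tf G K δN PN gg a ε φ f) (Ff G K ρ δN PN gg a φ f)

variable (hD : FL.D1 G k K lg ρ r Cs r' Kr B w δN PN ε J E₀ η) (hc : Cst G ρ δ C)
  (hg : GG G gg e Cg) (hk : KC G K ρ δ δN PN gg e a ε ηc) (hB : π + 1 ≤ B)
include hD hc hg hk hB

theorem Hf_spec (hφ : CM.Cir X φ) (hf : Fam S X f)
    (hP : ∀ z ∈ X, NearUM G ηc (oc φ f z) ∨ En (oc φ f z) ≤ E₀) :
    Fam S (X ×ˢ (univ : Set ℝ)) (Hf G K lg ρ w J δN PN gg a ε φ f) ∧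
    ∀ x ∈ X, ∀ s t, Hf G K lg ρ w J δN PN gg a ε φ f (φ t x, s) =
      HN G K lg ρ w J δN PN gg a ε s (oc φ f x) t := by
  have hX := NL.cir_pR hφ
  have hF := fam_Ff hD.bla hD.neg hc hg hk hφ hf
  have hS := si_Tf (ε := ε) hD.bla hD.neg hc hg hk hφ hf
  have hoc : ∀ q ∈ X ×ˢ (univ : Set ℝ), oc (NL.pR φ) (Ff G K ρ δN PN gg a φ f) q =
      S1 G K ρ δN PN gg a (k1 q.2) (oc φ f q.1) := fun q hq =>
    oc_Ff hD.bla hD.neg hc hg hk hφ hf hq.1 q.2
  have hEB : ∀ q ∈ X ×ˢ (univ : Set ℝ), En (oc (NL.pR φ) (Ff G K ρ δN PN gg a φ f) q) ≤ B :=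
    fun q hq => by
      rw [hoc q hq]
      exact en_S1_B hD hc hg hk hB (loop_oc hφ hf hq.1) (hP _ hq.1) (k1_nonneg _) (k1_le_one _)
  have hdi : ∀ q ∈ X ×ˢ (univ : Set ℝ), NL.kj J J (Tf G K δN PN gg a ε φ f q) = 0 ∨
      En (oc (NL.pR φ) (Ff G K ρ δN PN gg a φ f) q) ≤ E₀ := fun q hq => by
    rw [hoc q hq]
    exact dich_S1 hD hc hg hk (loop_oc hφ hf hq.1) (hP _ hq.1) q.2
  refine ⟨NL.fam_FLam hD.ld hX hF hS hEB hdi, fun x hx s t => ?_⟩
  have h1 := congrFun (NL.oc_FLam hD.ld hX hF hS hEB (z := (x, s)) ⟨hx, mem_univ _⟩) t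
  rw [hoc _ ⟨hx, mem_univ _⟩] at h1
  exact h1

/-- **(U4)** -/
theorem nearOp {δ' : ℝ} (hδ' : π - δ' ≤ E₀) :
    EX.NearOp G (FI.Tot (L.US G) PN) (FL.Ph G K) (FL.f1 G lg ρ w J ε)
      (fun y => 64 / 25 ≤ ‖y.2‖ ^ 2) ηc δ'
      (fun s c => HN G K lg ρ w J δN PN gg a ε s c 0) (mu G K δN PN gg a ε)
      (fun c => (gg c, ww G K δN PN gg ε c)) := by
  intro E _ _ _ X φ f hφ hf hP0
  have h := hD.bla
  have H := hD.neg
  have hP : ∀ z ∈ X, NearUM G ηc (oc φ f z) ∨ En (oc φ f z) ≤ E₀ := fun z hz =>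
    (hP0 z hz).imp id fun h1 => h1.trans hδ'
  obtain ⟨h1, h2⟩ := Hf_spec hD hc hg hk hB hφ hf hP
  have hcl : ∀ x ∈ X, Loop S (oc φ f x) := fun x hx => loop_oc hφ hf hx
  have h3 : ∀ x ∈ X, ∀ s, Hf G K lg ρ w J δN PN gg a ε φ f (x, s) =
      HN G K lg ρ w J δN PN gg a ε s (oc φ f x) 0 := fun x hx s => by
    have := h2 x hx s 0
    rwa [hφ.zero x hx] at this
  have h0 : ∀ x ∈ X, oc φ f x 0 = f x := fun x hx => by
    unfold oc; rw [hφ.zero x hx]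
  have hconst : ∀ x ∈ X, (∀ t, f (φ t x) = f x) → oc φ f x = fun _ => f x := fun x _ hx' =>
    funext fun t => hx' t
  have hae := kc_ae h H hc hg hk hφ hf
  have hDm : ∀ x ∈ X, 0 < mu G K δN PN gg a ε (oc φ f x) → Dm G e (oc φ f x) := by
    intro x hx hm
    have h4 := (mu_pos hD hc hg hk (hcl x hx) (hP x hx) hm).1
    by_contra hcon
    have h5 := le_dd_of_not hg (Loop.contOn (hcl x hx) _) hcon
    have h6 := hk.ae
    have h7 := hg.pos
    have h8 : 0 < e ^ 2 := by positivity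
    linarith
  refine ⟨Hf G K lg ρ w J δN PN gg a ε φ f, fun x => mu G K δN PN gg a ε (oc φ f x),
    fun x => (gg (oc φ f x), ww G K δN PN gg ε (oc φ f x)),
    ⟨⟨hf.smooth, hf.maps⟩, ⟨h1.smooth, h1.maps⟩, fun x hx => ?_, fun x hx hx' s t => ?_,
      fun x hx => ?_, fun x hx t => ?_, ⟨fun x hx => ?_, fun x hx => ?_⟩, fun t x hx => ?_,
      fun x hx => ?_, fun x hx t => ?_, fun x hx hx' => ?_, fun x hx hx' => ?_⟩,
    fun z hz s => h3 z hz s, fun z hz s hs => ?_, fun z hz => rfl, fun z hz => rfl⟩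
  · rw [h3 x hx, HN_start hD hc hg hk (hcl x hx) (by norm_num), h0 x hx]
  · rw [h2 x hx, hconst x hx hx', HN_const hD hc hg hk (hf.maps x hx)]
  · by_cases hd : Dm G e (oc φ f x)
    · exact sm_mu H hg hφ hf hx hd a ε
    · have h4 := ev_sgm hg hφ hf hx hd hk.apos hk.ae
      refine (contDiffAt_const (c := (0:ℝ))).congr_of_eventuallyEq ?_
      filter_upwards [h4] with q hq
      exact mu_of_sgm hq
  · change mu G K δN PN gg a ε (oc φ f (φ t x)) = mu G K δN PN gg a ε (oc φ f x)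
    rw [oc_shift hφ hx, mu_shift h H hg hk.apos hae (hcl x hx)]
  · have hd := hDm x hx.1 hx.2
    exact (sm_gg hg hφ hf hx.1 hd).prodMk (sm_ww H hg hφ hf hx.1 hd ε)
  · exact mem_Tot H hg (hcl x hx.1)
  · have hd := hDm x hx.1 hx.2
    have hl := hcl x hx.1
    change (gg (oc φ f (φ t x)), ww G K δN PN gg ε (oc φ f (φ t x))) = _
    rw [oc_shift hφ hx.1, ww_shift h H hg hl hd, hg.equi _ hl.smooth.continuous hl.per hd]
    rfl
  · rw [h3 x hx.1, HN_one hD hc hg hk (hcl x hx.1) (hP x hx.1) hx.2]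
    have h4 := mem_Tot (ε := ε) H hg (hcl x hx.1)
    unfold oc at h4 ⊢
    rw [hD.cir.zero _ h4]
  · rw [h2 x hx.1, h3 x hx.1, HN_one' hD hc hg hk (hcl x hx.1) (hP x hx.1) hx.2]
  · exact far_of hD hc hg hk (hcl x hx.1) (hP x hx.1) hx.2 hx'
  · change mu G K δN PN gg a ε (oc φ f x) < 1
    rw [hconst x hx hx', mu_const hD hc hg hk (hf.maps x hx)]
    exact one_pos
  · rw [h3 z hz, HN_start hD hc hg hk (hcl z hz) hs, h0 z hz]

end Crest.Agent.R208.NG
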