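import Crest.Agent.R208.NG13
import Crest.Agent.R208.EX8

/-!
R208, block NG (helper131), part NG14: **(U4)** existence of the natural operator near the closed
geodesics, and of the natural operators below `4π`.
-/

set_option autoImplicit false

open Set Filter Topology MeasureTheory
open scoped ContDiff RealInnerProductSpace Real
open Crest.GeometryTopology.Submanifold
open Crest.Agent.R241.DDefs Crest.Agent.R241.D Crest.Agent.R241.D2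
open Crest.Agent.R208.MS (exists_unif P_self P_mem Retr En Loop NearUM Close oc Fam loop_oc oc_shift)
open Crest.Agent.R208.NN (Wt nuP)

noncomputable section

namespace Crest.Agent.R208.NG

variable {n N k K : ℕ} {κ : ℝ} {S : Set (Euc N)} {G : Geo n N κ S} {ρ : Euc N → Euc N}
  {δN : ℝ} {PN : Euc N × Euc N → Wt N K →L[ℝ] Wt N K}
  {lg : Euc N → Euc N → Euc N} {r Cs r' Kr B w : ℝ}

/-- **(U4)** the operator near the closed geodesics; `ηc` and `ε₁` do not depend on `ε, J, E₀` -/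
theorem exists_nearOp (h0 : FL.D0 G k K lg ρ r Cs r' Kr B w δN PN) (hB : π + 1 ≤ B) :
    ∃ (gg : (ℝ → Euc N) → Euc N × Euc N) (a ηc ε₁ : ℝ), 0 < ηc ∧ 0 < ε₁ ∧
      ∀ ε, 0 < ε → ε ≤ ε₁ → ∀ (J : ℕ) (E₀ η : ℝ),
        FL.D1 G k K lg ρ r Cs r' Kr B w δN PN ε J E₀ η → ∀ δ', π - δ' ≤ E₀ →
        EX.NearOp G (FI.Tot (L.US G) PN) (FL.Ph G K) (FL.f1 G lg ρ w J ε)
          (fun y => 64 / 25 ≤ ‖y.2‖ ^ 2) ηc δ'
          (fun s c => HN G K lg ρ w J δN PN gg a ε s c 0) (mu G K δN PN gg a ε)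
          (fun c => (gg c, ww G K δN PN gg ε c)) := by
  obtain ⟨gg, e, C', hN⟩ := NR.exists_gg (G := G) h0.bla.bl
  have hg := gg_of_NG h0.bla.ty.per hN
  obtain ⟨δ, C, -, hc⟩ := exists_Cst h0.bla.bl.cpt h0.rt h0.der
  obtain ⟨c0, C1, hc0, hC1, hU⟩ := CO.U2 h0.bla h0.bla.bl.cpt h0.neg
  obtain ⟨a, ha, ηc, hηc, ε₁, hε₁, hK⟩ := exists_KC h0.bla h0.neg hc hg (sq_nonneg C') hc0 hC1 hU
  exact ⟨gg, a, ηc, ε₁, hηc, hε₁, fun ε hε hε1 J E₀ η hD δ' hδ' =>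
    nearOp hD hc hg (hK ε hε hε1) hB hδ'⟩

/-- **the natural operators below `4π`, with the level one family as standard family** -/
theorem exists_natOp (h0 : FL.D0 G k K lg ρ r Cs r' Kr B w δN PN) (hB : π + 1 ≤ B) :
    ∃ ε₁ > 0, ∀ ε, 0 < ε → ε ≤ ε₁ → ∀ E₁ < π, ∀ η₁ > 0, ∃ E₀ η : ℝ, E₁ ≤ E₀ ∧ η ≤ η₁ ∧
      ∃ J₀ : ℕ, ∀ J, J₀ ≤ J → FL.D1 G k K lg ρ r Cs r' Kr B w δN PN ε J E₀ η ∧
        ∀ B' < 4 * π, B' ≤ B → ∃ (HL : ℝ → (ℝ → Euc N) → Euc N) (mu : (ℝ → Euc N) → ℝ)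
          (Gm : (ℝ → Euc N) → (Euc N × Euc N) × Wt N K),
          EX.NatOp S (FI.Tot (L.US G) PN) (FL.Ph G K) (FL.f1 G lg ρ w J ε)
            (fun y => 64 / 25 ≤ ‖y.2‖ ^ 2) B' HL mu Gm := by
  obtain ⟨gg, a, ηc, ε₁, hηc, hε₁, hN⟩ := exists_nearOp h0 hB
  obtain ⟨ε₂, hε₂, hD⟩ := h0.exists_D1
  obtain ⟨δ, hδ, hd⟩ := EX.exists_delta (G := G) h0.bla.bl h0.bla.ty.per h0.B4 hηc
  refine ⟨min ε₁ ε₂, lt_min hε₁ hε₂, fun ε hε hε1 E₁ hE₁ η₁ hη₁ => ?_⟩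
  obtain ⟨E₀, η, h1, h2, J₀, hJ⟩ := hD ε hε (hε1.trans (min_le_right _ _)) (max E₁ (π - δ))
    (max_lt hE₁ (by linarith)) η₁ hη₁
  refine ⟨E₀, η, (le_max_left _ _).trans h1, h2, J₀, fun J hJ' => ⟨hJ J hJ', fun B' _ hB' => ?_⟩⟩
  obtain ⟨HL, mu', Gm, h3⟩ := hd _ _ _ _ _ _ _ _ (hN ε hε (hε1.trans (min_le_left _ _)) J E₀ η
    (hJ J hJ') δ ((le_max_right _ _).trans h1))
  exact ⟨HL, mu', Gm, h3.mono hB'⟩

end Crest.Agent.R208.NG
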