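import Crest.Agent.R208.NG1

/-!
R208, block NG (helper131), part NG2: the pointwise estimate for the derivative of the energy
density along the path `s ↦ ρ (γ + w_s)`.
-/

set_option autoImplicit false

open Set Filter Topology MeasureTheory
open scoped ContDiff RealInnerProductSpace Real
open Crest.GeometryTopology.Submanifold
open Crest.Agent.R241.DDefs Crest.Agent.R241.D Crest.Agent.R241.D2
open Crest.Agent.R208.MS (exists_unif P_self P_mem Retr)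

noncomputable section

namespace Crest.Agent.R208.NG

variable {n N : ℕ} {κ : ℝ} {S : Set (Euc N)} {G : Geo n N κ S} {ρ : Euc N → Euc N} {δ C : ℝ}

theorem norm_P_le {x : Euc N} (hx : x ∈ S) (w : Euc N) : ‖G.P x w‖ ≤ ‖w‖ := by
  rw [G.P_eq x hx]
  exact (Submodule.starProjection_norm_le (G.T x)).trans' le_rfl |> fun h =>
    (ContinuousLinearMap.le_of_opNorm_le _ h w).trans (by rw [one_mul])

/-- the image of `Dρ` is tangent -/
theorem fdr_mem (hc : Cst G ρ δ C) {x q : Euc N} (hx : x ∈ S) (hq : ‖q - x‖ < δ) (b : Euc N) :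
    fderiv ℝ ρ q b ∈ G.T (ρ q) := by
  have hcv : HasDerivAt (fun t : ℝ => q + t • b) b 0 := by
    simpa using ((hasDerivAt_id (0:ℝ)).smul_const b).const_add q
  have hd : HasFDerivAt ρ (fderiv ℝ ρ q) (q + (0:ℝ) • b) := by
    simpa using ((hc.sm x hx q hq).differentiableAt (by simp)).hasFDerivAt
  have h1 : HasDerivAt (fun t : ℝ => ρ (q + t • b)) (fderiv ℝ ρ q b) 0 :=
    hd.comp_hasDerivAt (0:ℝ) hcv
  have h2 := G.deriv_mem (fun t : ℝ => ρ (q + t • b)) (fderiv ℝ ρ q b) 0 ?_ h1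
  · simpa using h2
  · have h3 : Continuous fun t : ℝ => ‖q + t • b - x‖ := by fun_prop
    have h4 : ∀ᶠ t in 𝓝 (0:ℝ), ‖q + t • b - x‖ < δ :=
      h3.continuousAt.eventually_lt_const (by simpa using hq)
    filter_upwards [h4] with t ht
    exact hc.mem x hx _ ht

section pw

variable (G ρ)

/-- `∂_t (ρ (γ + w)) - γ'` -/
def uu' (x v w w' : Euc N) : Euc N := fderiv ℝ ρ (x + w) (v + w') - v

/-- `∂_s (ρ (γ + w))` -/
def du (x w b : Euc N) : Euc N := fderiv ℝ ρ (x + w) b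

/-- `∂_s ∂_t (ρ (γ + w))` -/
def du' (x v w w' b b' : Euc N) : Euc N := D2f ρ (x + w) (v + w') b + fderiv ℝ ρ (x + w) b'

/-- derivative of `P w` along the geodesic -/
def pd (x v w w' : Euc N) : Euc N := fderiv ℝ G.P x v w + G.P x w'

end pw

variable (hc : Cst G ρ δ C) {x v w w' b b' : Euc N} (hx : x ∈ S) (hv : v ∈ G.T x)
  (hv1 : ‖v‖ ≤ 1)

include hc hx hv1 in
theorem bP_le (w : Euc N) : ‖fderiv ℝ G.P x v w‖ ≤ C * ‖w‖ := by
  have h1 : ‖fderiv ℝ G.P x v‖ ≤ C := by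
    have h2 : ‖fderiv ℝ G.P x v‖ ≤ C * ‖v‖ := ContinuousLinearMap.le_of_opNorm_le _ (hc.bP x hx) v
    have := hc.one
    nlinarith
  exact ContinuousLinearMap.le_of_opNorm_le _ h1 w

include hc hx hv hv1 in
theorem uu'_sub (hw : ‖w‖ < δ) : ‖uu' ρ x v w w' - pd G x v w w'‖ ≤ C * ‖w‖ ^ 2 + C * ‖w‖ * ‖w'‖ := by
  have hq : ‖x + w - x‖ < δ := by simpa using hw
  have h1 := hc.t1 x hx (x + w) hq
  have h2 := hc.l1 x hx (x + w) hq
  simp only [add_sub_cancel_left] at h1 h2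
  have e1 : uu' ρ x v w w' - pd G x v w w' =
      (fderiv ℝ ρ (x + w) - G.P x - D2f ρ x w) v + (fderiv ℝ ρ (x + w) - G.P x) w' := by
    have e2 : D2f ρ x w v = fderiv ℝ G.P x v w := by
      rw [D2_symm hc hx w v, D2_tan hc hx hv]
    have e3 : G.P x v = v := P_self hx hv
    simp only [uu', pd, sub_apply, map_add, e2, e3]
    abel
  rw [e1]
  refine (norm_add_le _ _).trans (add_le_add ?_ ?_)
  · refine (ContinuousLinearMap.le_of_opNorm_le _ h1 v).trans ?_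
    have : 0 ≤ C * ‖w‖ ^ 2 := by have := hc.one; positivity
    nlinarith
  · exact ContinuousLinearMap.le_of_opNorm_le _ h2 w'

include hc hx hv1 in
theorem norm_pd_le : ‖pd G x v w w'‖ ≤ C * (‖w‖ + ‖w'‖) := by
  refine (norm_add_le _ _).trans ?_
  have h1 := bP_le hc hx hv1 w
  have h2 := norm_P_le (G := G) hx w'
  have := hc.one
  nlinarith [norm_nonneg w']

include hc hx hv hv1 in
theorem du'_sub (hw : ‖w‖ < δ) : ‖du' ρ x v w w' b b' - pd G x v b b'‖ ≤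
    C * ‖w‖ * ‖b‖ + C * ‖w'‖ * ‖b‖ + C * ‖w‖ * ‖b'‖ := by
  have hq : ‖x + w - x‖ < δ := by simpa using hw
  have h1 := hc.l2 x hx (x + w) hq
  have h2 := hc.l1 x hx (x + w) hq
  have h3 := hc.b2 x hx (x + w) hq
  simp only [add_sub_cancel_left] at h1 h2
  have e1 : du' ρ x v w w' b b' - pd G x v b b' =
      (D2f ρ (x + w) - D2f ρ x) v b + D2f ρ (x + w) w' b + (fderiv ℝ ρ (x + w) - G.P x) b' := by
    have e2 : D2f ρ x v = fderiv ℝ G.P x v := D2_tan hc hx hv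
    simp only [du', pd, sub_apply, map_add, e2, add_apply]
    abel
  have hC := hc.one
  rw [e1]
  refine (norm_add_le _ _).trans (add_le_add ((norm_add_le _ _).trans (add_le_add ?_ ?_)) ?_)
  · have h4 : ‖(D2f ρ (x + w) - D2f ρ x) v‖ ≤ C * ‖w‖ := by
      refine (ContinuousLinearMap.le_of_opNorm_le _ h1 v).trans ?_
      have : 0 ≤ C * ‖w‖ := by positivity
      nlinarith
    exact ContinuousLinearMap.le_of_opNorm_le _ h4 b
  · have h4 : ‖D2f ρ (x + w) w'‖ ≤ C * ‖w'‖ := ContinuousLinearMap.le_of_opNorm_le _ h3 w'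
    exact ContinuousLinearMap.le_of_opNorm_le _ h4 b
  · exact ContinuousLinearMap.le_of_opNorm_le _ h2 b'

include hc hx hv hv1 in
/-- the term with the normal vector `γ'' = II v v` -/
theorem nu_sub (hw : C * ‖w‖ < δ) :
    |⟪fderiv ℝ G.P x v v, du ρ x w b⟫ - ⟪fderiv ℝ G.P x v v, II G x (G.P x w) (G.P x b)⟫| ≤
      5 * C ^ 5 * ‖w‖ ^ 2 * ‖b‖ := by
  have hC := hc.one
  have hw1 : ‖w‖ < δ := by nlinarith [norm_nonneg w]
  have hw2 : ‖w‖ ≤ 1 := hw1.le.trans hc.le1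
  have hq : ‖x + w - x‖ < δ := by simpa using hw1
  set ν := fderiv ℝ G.P x v v with hν
  have hνn : ‖ν‖ ≤ C := by
    have := bP_le hc hx hv1 v
    nlinarith
  set c := ρ (x + w) with hcdef
  have hcS : c ∈ S := hc.mem x hx _ hq
  have h0 := hc.l0 x hx (x + w) hq
  have ht0 := hc.t0 x hx (x + w) hq
  have h2 := hc.l1 x hx (x + w) hq
  simp only [add_sub_cancel_left] at h0 ht0 h2
  have hcx : ‖c - x‖ < δ := h0.trans_lt hw
  have htP := hc.tP x hx c hcx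
  set U := du ρ x w b with hU
  have hUT : U ∈ G.T c := fdr_mem hc hx hq b
  -- `⟨ν, U⟩ = ⟨P(c) ν, U⟩`
  have e1 : ⟪ν, U⟫ = ⟪G.P c ν, U⟫ := by
    rw [inner_P_left G hcS, P_self hcS hUT]
  have e2 : G.P x ν = 0 := II_normal G hx hv hv
  set W := G.P x w with hW
  have hWT : W ∈ G.T x := P_mem hx w
  have hWn : ‖W‖ ≤ ‖w‖ := norm_P_le hx w
  set B := G.P x b with hBdef
  -- error of `P(c) ν`
  have e3 : ‖G.P c ν - fderiv ℝ G.P x W ν‖ ≤ 2 * C ^ 4 * ‖w‖ ^ 2 := by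
    have e4 : G.P c ν - fderiv ℝ G.P x W ν =
        (G.P c - G.P x - fderiv ℝ G.P x (c - x)) ν + fderiv ℝ G.P x (c - x - W) ν := by
      simp only [sub_apply, map_sub, e2]
      abel
    rw [e4]
    have h3 : ‖(G.P c - G.P x - fderiv ℝ G.P x (c - x)) ν‖ ≤ (C * ‖c - x‖ ^ 2) * ‖ν‖ :=
      ContinuousLinearMap.le_of_opNorm_le _ htP ν
    have h4 : ‖fderiv ℝ G.P x (c - x - W) ν‖ ≤ C * ‖c - x - W‖ * ‖ν‖ := by
      have h5 : ‖fderiv ℝ G.P x (c - x - W)‖ ≤ C * ‖c - x - W‖ :=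
        ContinuousLinearMap.le_of_opNorm_le _ (hc.bP x hx) _
      exact ContinuousLinearMap.le_of_opNorm_le _ h5 ν
    have h6 : ‖c - x‖ ^ 2 ≤ C ^ 2 * ‖w‖ ^ 2 := by
      rw [← mul_pow]
      exact pow_le_pow_left₀ (norm_nonneg _) h0 2
    have h7 : (C * ‖c - x‖ ^ 2) * ‖ν‖ ≤ (C * (C ^ 2 * ‖w‖ ^ 2)) * C :=
      mul_le_mul (mul_le_mul_of_nonneg_left h6 (by linarith)) hνn (norm_nonneg _) (by positivity)
    have h8 : C * ‖c - x - W‖ * ‖ν‖ ≤ C * (C * ‖w‖ ^ 2) * C :=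
      mul_le_mul (mul_le_mul_of_nonneg_left ht0 (by linarith)) hνn (norm_nonneg _) (by positivity)
    have h9 : C ^ 3 ≤ C ^ 4 := pow_le_pow_right₀ hC (by norm_num)
    have h10 : C * (C * ‖w‖ ^ 2) * C ≤ C ^ 4 * ‖w‖ ^ 2 := by
      have : C * (C * ‖w‖ ^ 2) * C = C ^ 3 * ‖w‖ ^ 2 := by ring
      rw [this]
      exact mul_le_mul_of_nonneg_right h9 (by positivity)
    calc _ ≤ _ := norm_add_le _ _
      _ ≤ (C * (C ^ 2 * ‖w‖ ^ 2)) * C + C ^ 4 * ‖w‖ ^ 2 :=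
          add_le_add (h3.trans h7) ((h4.trans h8).trans h10)
      _ = 2 * C ^ 4 * ‖w‖ ^ 2 := by ring
  have e5 : ‖U - B‖ ≤ C * ‖w‖ * ‖b‖ := by
    have : U - B = (fderiv ℝ ρ (x + w) - G.P x) b := by
      simp [hU, du, hBdef]
    rw [this]
    exact ContinuousLinearMap.le_of_opNorm_le _ h2 b
  have hBn : ‖B‖ ≤ ‖b‖ := norm_P_le hx b
  have hUn : ‖U‖ ≤ 2 * C * ‖b‖ := by
    have h3 : U = B + (U - B) := by abel
    rw [h3]
    refine (norm_add_le _ _).trans ?_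
    have h4 : C * ‖w‖ * ‖b‖ ≤ C * 1 * ‖b‖ :=
      mul_le_mul_of_nonneg_right (mul_le_mul_of_nonneg_left hw2 (by linarith)) (norm_nonneg _)
    nlinarith [norm_nonneg b]
  have e6 : ⟪ν, II G x W B⟫ = ⟪fderiv ℝ G.P x W ν, B⟫ := (L.dP_symm G hx hWT ν B).symm
  rw [e1, e6]
  have e7 : ⟪G.P c ν, U⟫ - ⟪fderiv ℝ G.P x W ν, B⟫ =
      ⟪G.P c ν - fderiv ℝ G.P x W ν, U⟫ + ⟪fderiv ℝ G.P x W ν, U - B⟫ := by
    rw [inner_sub_left, inner_sub_right]
    ring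
  rw [e7]
  have h3 : |⟪G.P c ν - fderiv ℝ G.P x W ν, U⟫| ≤ (2 * C ^ 4 * ‖w‖ ^ 2) * (2 * C * ‖b‖) :=
    (abs_real_inner_le_norm _ _).trans (mul_le_mul e3 hUn (norm_nonneg _) (by positivity))
  have h4 : ‖fderiv ℝ G.P x W ν‖ ≤ C * ‖w‖ * C := by
    have h5 : ‖fderiv ℝ G.P x W‖ ≤ C * ‖W‖ := ContinuousLinearMap.le_of_opNorm_le _ (hc.bP x hx) _
    refine (ContinuousLinearMap.le_of_opNorm_le _ h5 ν).trans ?_
    exact mul_le_mul (mul_le_mul_of_nonneg_left hWn (by linarith)) hνn (norm_nonneg _)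
      (by positivity)
  have h5 : |⟪fderiv ℝ G.P x W ν, U - B⟫| ≤ (C * ‖w‖ * C) * (C * ‖w‖ * ‖b‖) :=
    (abs_real_inner_le_norm _ _).trans (mul_le_mul h4 e5 (norm_nonneg _) (by positivity))
  have h6 : (C * ‖w‖ * C) * (C * ‖w‖ * ‖b‖) ≤ C ^ 5 * ‖w‖ ^ 2 * ‖b‖ := by
    have h7 : C ^ 3 ≤ C ^ 5 := pow_le_pow_right₀ hC (by norm_num)
    have h8 : (C * ‖w‖ * C) * (C * ‖w‖ * ‖b‖) = C ^ 3 * (‖w‖ ^ 2 * ‖b‖) := by ring
    rw [h8, mul_assoc]
    exact mul_le_mul_of_nonneg_right h7 (by positivity)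
  calc _ ≤ _ := abs_add_le _ _
    _ ≤ (2 * C ^ 4 * ‖w‖ ^ 2) * (2 * C * ‖b‖) + C ^ 5 * ‖w‖ ^ 2 * ‖b‖ := add_le_add h3 (h5.trans h6)
    _ = 5 * C ^ 5 * ‖w‖ ^ 2 * ‖b‖ := by ring

include hc hx hv hv1 in
/-- **pointwise estimate** -/
theorem pw (hw : C * ‖w‖ < δ) (hb : ‖b‖ ≤ 1) :
    |(⟪uu' ρ x v w w', du' ρ x v w w' b b'⟫ - ⟪fderiv ℝ G.P x v v, du ρ x w b⟫) -
      (⟪pd G x v w w', pd G x v b b'⟫ - ⟪fderiv ℝ G.P x v v, II G x (G.P x w) (G.P x b)⟫)| ≤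
      9 * C ^ 5 * (‖w‖ + ‖b‖) * (‖w‖ + ‖w'‖ + ‖b‖ + ‖b'‖) ^ 2 := by
  have hC := hc.one
  have hw1 : ‖w‖ < δ := by nlinarith [norm_nonneg w]
  have hw2 : ‖w‖ ≤ 1 := hw1.le.trans hc.le1
  have h1 := uu'_sub (w' := w') hc hx hv hv1 hw1
  have h2 := du'_sub (w' := w') (b := b) (b' := b') hc hx hv hv1 hw1
  have h3 := nu_sub (b := b) hc hx hv hv1 hw
  have h4 := norm_pd_le (w := w) (w' := w') hc hx hv1
  have h5 := norm_pd_le (w := b) (w' := b') hc hx hv1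
  set a := ‖w‖ with ha
  set a' := ‖w'‖ with ha'
  set β := ‖b‖ with hβ
  set β' := ‖b'‖ with hβ'
  have na : 0 ≤ a := norm_nonneg _
  have na' : 0 ≤ a' := norm_nonneg _
  have nβ : 0 ≤ β := norm_nonneg _
  have nβ' : 0 ≤ β' := norm_nonneg _
  set M := a + a' + β + β' with hM
  have nM : 0 ≤ M := by positivity
  -- the first error
  have h1' : ‖uu' ρ x v w w' - pd G x v w w'‖ ≤ C * a * M := by
    refine h1.trans ?_
    have : C * a ^ 2 + C * a * a' = C * a * (a + a') := by ring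
    rw [this]
    exact mul_le_mul_of_nonneg_left (by linarith) (by positivity)
  have h2' : ‖du' ρ x v w w' b b' - pd G x v b b'‖ ≤ C * (a + β) * M := by
    refine h2.trans ?_
    have : C * a * β + C * a' * β + C * a * β' = C * (β * (a + a') + a * β') := by ring
    rw [this, mul_assoc]
    refine mul_le_mul_of_nonneg_left ?_ (by linarith)
    nlinarith [mul_nonneg nβ nβ', mul_nonneg nβ nβ, mul_nonneg na na', mul_nonneg na na,
      mul_nonneg na nβ]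
  have h2'' : ‖du' ρ x v w w' b b'‖ ≤ 3 * C * M := by
    have h6 : du' ρ x v w w' b b' = pd G x v b b' + (du' ρ x v w w' b b' - pd G x v b b') := by
      abel
    rw [h6]
    refine (norm_add_le _ _).trans ?_
    have h7 : C * (a + β) * M ≤ C * 2 * M :=
      mul_le_mul_of_nonneg_right (mul_le_mul_of_nonneg_left (by linarith) (by linarith)) nM
    have h8 : C * (β + β') ≤ C * M := mul_le_mul_of_nonneg_left (by linarith) (by linarith)
    linarith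
  have h4' : ‖pd G x v w w'‖ ≤ C * M :=
    h4.trans (mul_le_mul_of_nonneg_left (by linarith) (by linarith))
  have e1 : (⟪uu' ρ x v w w', du' ρ x v w w' b b'⟫ - ⟪fderiv ℝ G.P x v v, du ρ x w b⟫) -
      (⟪pd G x v w w', pd G x v b b'⟫ - ⟪fderiv ℝ G.P x v v, II G x (G.P x w) (G.P x b)⟫) =
      ⟪uu' ρ x v w w' - pd G x v w w', du' ρ x v w w' b b'⟫ +
      ⟪pd G x v w w', du' ρ x v w w' b b' - pd G x v b b'⟫ -
      (⟪fderiv ℝ G.P x v v, du ρ x w b⟫ -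
        ⟪fderiv ℝ G.P x v v, II G x (G.P x w) (G.P x b)⟫) := by
    rw [inner_sub_left, inner_sub_right]
    ring
  rw [e1]
  have k1 : |⟪uu' ρ x v w w' - pd G x v w w', du' ρ x v w w' b b'⟫| ≤ (C * a * M) * (3 * C * M) :=
    (abs_real_inner_le_norm _ _).trans (mul_le_mul h1' h2'' (norm_nonneg _) (by positivity))
  have k2 : |⟪pd G x v w w', du' ρ x v w w' b b' - pd G x v b b'⟫| ≤
      (C * M) * (C * (a + β) * M) :=
    (abs_real_inner_le_norm _ _).trans (mul_le_mul h4' h2' (norm_nonneg _) (by positivity))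
  have k3 : 5 * C ^ 5 * a ^ 2 * β ≤ 5 * C ^ 5 * (a + β) * M ^ 2 := by
    have : 5 * C ^ 5 * a ^ 2 * β = 5 * C ^ 5 * (β * a ^ 2) := by ring
    rw [this, mul_assoc (5 * C ^ 5)]
    refine mul_le_mul_of_nonneg_left ?_ (by positivity)
    refine mul_le_mul (by linarith) ?_ (by positivity) (by positivity)
    exact pow_le_pow_left₀ na (by linarith) 2
  have k4 : (C * a * M) * (3 * C * M) + (C * M) * (C * (a + β) * M) ≤
      4 * C ^ 5 * (a + β) * M ^ 2 := by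
    have h9 : C ^ 2 ≤ C ^ 5 := pow_le_pow_right₀ hC (by norm_num)
    have h10 : (C * a * M) * (3 * C * M) + (C * M) * (C * (a + β) * M) =
        C ^ 2 * ((4 * a + β) * M ^ 2) := by ring
    have h11 : 4 * C ^ 5 * (a + β) * M ^ 2 = C ^ 5 * ((4 * a + 4 * β) * M ^ 2) := by ring
    rw [h10, h11]
    refine mul_le_mul h9 ?_ (by positivity) (by positivity)
    exact mul_le_mul_of_nonneg_right (by linarith) (by positivity)
  have k5 := abs_sub (⟪uu' ρ x v w w' - pd G x v w w', du' ρ x v w w' b b'⟫ +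
      ⟪pd G x v w w', du' ρ x v w w' b b' - pd G x v b b'⟫)
      (⟪fderiv ℝ G.P x v v, du ρ x w b⟫ -
        ⟪fderiv ℝ G.P x v v, II G x (G.P x w) (G.P x b)⟫)
  have k6 := abs_add_le ⟪uu' ρ x v w w' - pd G x v w w', du' ρ x v w w' b b'⟫
      ⟪pd G x v w w', du' ρ x v w w' b b' - pd G x v b b'⟫
  have k7 : 9 * C ^ 5 * (a + β) * M ^ 2 = 4 * C ^ 5 * (a + β) * M ^ 2 +
    5 * C ^ 5 * (a + β) * M ^ 2 := by ring
  rw [k7]
  linarith

end Crest.Agent.R208.NG
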