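import Crest.Agent.R208.NG2

/-!
R208, block NG (helper131), part NG3: the energy difference along `s ↦ ρ (γ + w + s b)` is
`s ix(W,B) + s²/2 ix(B,B)` up to `O(η s)`.
-/

set_option autoImplicit false

open Set Filter Topology MeasureTheory
open scoped ContDiff RealInnerProductSpace Real
open Crest.GeometryTopology.Submanifold
open Crest.Agent.R241.DDefs Crest.Agent.R241.D Crest.Agent.R241.D2
open Crest.Agent.R208.MS (exists_unif P_self P_mem Retr)

noncomputable section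

namespace Crest.Agent.R208.NG

variable {n N : ℕ} {κ : ℝ} {S : Set (Euc N)} {G : Geo n N κ S} {ρ : Euc N → Euc N} {δ C : ℝ}

/-- pointwise energy density relative to the geodesic -/
def ee (G : Geo n N κ S) (ρ : Euc N → Euc N) (x v w w' : Euc N) : ℝ :=
  (1 / 2) * ‖uu' ρ x v w w'‖ ^ 2 - ⟪fderiv ℝ G.P x v v, ρ (x + w) - x⟫

theorem hasDerivAt_ee (hc : Cst G ρ δ C) {x v w w' b b' : Euc N} (hx : x ∈ S) {s : ℝ}
    (hs : ‖w + s • b‖ < δ) :
    HasDerivAt (fun s : ℝ => ee G ρ x v (w + s • b) (w' + s • b'))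
      (⟪uu' ρ x v (w + s • b) (w' + s • b'), du' ρ x v (w + s • b) (w' + s • b') b b'⟫ -
        ⟪fderiv ℝ G.P x v v, du ρ x (w + s • b) b⟫) s := by
  have hq : ‖x + (w + s • b) - x‖ < δ := by simpa using hs
  have h1 : HasDerivAt (fun s : ℝ => x + (w + s • b)) b s := by
    simpa using (((hasDerivAt_id s).smul_const b).const_add w).const_add x
  have h1' : HasDerivAt (fun s : ℝ => v + (w' + s • b')) b' s := by
    simpa using (((hasDerivAt_id s).smul_const b').const_add w').const_add v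
  have h2 : HasFDerivAt (fderiv ℝ ρ) (D2f ρ (x + (w + s • b))) (x + (w + s • b)) :=
    (((hc.sm x hx _ hq).fderiv_right (m := ∞) (by simp)).differentiableAt
      (by simp)).hasFDerivAt
  have h3 : HasDerivAt (fun s : ℝ => fderiv ℝ ρ (x + (w + s • b)))
      (D2f ρ (x + (w + s • b)) b) s := h2.comp_hasDerivAt s h1
  have h4 : HasDerivAt (fun s : ℝ => uu' ρ x v (w + s • b) (w' + s • b'))
      (du' ρ x v (w + s • b) (w' + s • b') b b') s := by
    have h5 := (h3.clm_apply h1').sub_const v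
    have h6 : D2f ρ (x + (w + s • b)) b (v + (w' + s • b')) +
        fderiv ℝ ρ (x + (w + s • b)) b' = du' ρ x v (w + s • b) (w' + s • b') b b' := by
      rw [du', D2_symm' hc hx hq]
    rw [h6] at h5
    exact h5
  have h7 : HasDerivAt (fun s : ℝ => ρ (x + (w + s • b)) - x) (du ρ x (w + s • b) b) s := by
    have h8 : HasFDerivAt ρ (fderiv ℝ ρ (x + (w + s • b))) (x + (w + s • b)) :=
      ((hc.sm x hx _ hq).differentiableAt (by simp)).hasFDerivAt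
    exact (h8.comp_hasDerivAt s h1).sub_const x
  have h9 := (h4.norm_sq).const_mul (1 / 2 : ℝ)
  have h10 := (hasDerivAt_const s (fderiv ℝ G.P x v v)).inner ℝ h7
  refine (h9.sub h10).congr_deriv ?_
  rw [inner_zero_left]
  ring

/-- **pointwise energy difference** -/
theorem ee_diff (hc : Cst G ρ δ C) {x v w w' b b' : Euc N} (hx : x ∈ S) (hv : v ∈ G.T x)
    (hv1 : ‖v‖ ≤ 1) (hη : C * (‖w‖ + ‖b‖) < δ) {s : ℝ} (h0 : 0 ≤ s) (h1 : s ≤ 1) :
    |(ee G ρ x v (w + s • b) (w' + s • b') - ee G ρ x v w w') -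
      (s * (⟪pd G x v w w', pd G x v b b'⟫ - ⟪fderiv ℝ G.P x v v, II G x (G.P x w) (G.P x b)⟫) +
       s ^ 2 / 2 * (⟪pd G x v b b', pd G x v b b'⟫ -
        ⟪fderiv ℝ G.P x v v, II G x (G.P x b) (G.P x b)⟫))| ≤
      72 * C ^ 5 * s * ((‖w‖ + ‖b‖) * (‖w‖ + ‖w'‖ + ‖b‖ + ‖b'‖) ^ 2) := by
  have hC := hc.one
  have hδ1 := hc.le1
  set α := ⟪pd G x v w w', pd G x v b b'⟫ - ⟪fderiv ℝ G.P x v v, II G x (G.P x w) (G.P x b)⟫
    with hα
  set β := ⟪pd G x v b b', pd G x v b b'⟫ - ⟪fderiv ℝ G.P x v v, II G x (G.P x b) (G.P x b)⟫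
    with hβ
  set H := (‖w‖ + ‖b‖) * (‖w‖ + ‖w'‖ + ‖b‖ + ‖b'‖) ^ 2 with hH
  have hb1 : ‖b‖ ≤ 1 := by nlinarith [norm_nonneg w, norm_nonneg b]
  have hn : ∀ σ : ℝ, 0 ≤ σ → σ ≤ 1 → ∀ a c : Euc N, ‖a + σ • c‖ ≤ ‖a‖ + ‖c‖ := by
    intro σ hσ hσ1 a c
    refine (norm_add_le _ _).trans ?_
    rw [norm_smul, Real.norm_of_nonneg hσ]
    nlinarith [norm_nonneg c]
  set f : ℝ → ℝ := fun σ => ee G ρ x v (w + σ • b) (w' + σ • b') - (σ * α + σ ^ 2 / 2 * β) with hf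
  set f' : ℝ → ℝ := fun σ => (⟪uu' ρ x v (w + σ • b) (w' + σ • b'),
    du' ρ x v (w + σ • b) (w' + σ • b') b b'⟫ -
        ⟪fderiv ℝ G.P x v v, du ρ x (w + σ • b) b⟫) - (α + σ * β) with hf'
  have hCle : ∀ σ : ℝ, 0 ≤ σ → σ ≤ 1 → C * ‖w + σ • b‖ < δ := fun σ hσ hσ1 =>
    (mul_le_mul_of_nonneg_left (hn σ hσ hσ1 w b) (by linarith)).trans_lt hη
  have hder : ∀ σ ∈ Icc (0:ℝ) s, HasDerivWithinAt f (f' σ) (Icc 0 s) σ := by
    intro σ hσ
    have hσ1 : σ ≤ 1 := hσ.2.trans h1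
    have h2 : ‖w + σ • b‖ < δ := by
      have := hCle σ hσ.1 hσ1
      nlinarith [norm_nonneg (w + σ • b)]
    have h3 := hasDerivAt_ee (G := G) (v := v) (w' := w') (b' := b') hc hx h2
    have h4 : HasDerivAt (fun σ : ℝ => σ * α + σ ^ 2 / 2 * β) (α + σ * β) σ := by
      have h5 := ((hasDerivAt_id σ).mul_const α).add
        ((((hasDerivAt_id σ).pow 2).div_const 2).mul_const β)
      refine h5.congr_deriv ?_
      simp only [id]
      ring
    exact (h3.sub h4).hasDerivWithinAt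
  have hbd : ∀ σ ∈ Icc (0:ℝ) s, ‖f' σ‖ ≤ 72 * C ^ 5 * H := by
    intro σ hσ
    have hσ1 : σ ≤ 1 := hσ.2.trans h1
    have h2 := pw (w := w + σ • b) (w' := w' + σ • b') (b := b) (b' := b') hc hx hv hv1
      (hCle σ hσ.1 hσ1) hb1
    have h3 : ⟪pd G x v (w + σ • b) (w' + σ • b'), pd G x v b b'⟫ -
        ⟪fderiv ℝ G.P x v v, II G x (G.P x (w + σ • b)) (G.P x b)⟫ = α + σ * β := by
      have e1 : pd G x v (w + σ • b) (w' + σ • b') = pd G x v w w' + σ • pd G x v b b' := by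
        simp only [pd, map_add, map_smul, smul_add]
        abel
      have e2 : II G x (G.P x (w + σ • b)) (G.P x b) =
          II G x (G.P x w) (G.P x b) + σ • II G x (G.P x b) (G.P x b) := by
        simp only [R241.D2.II, map_add, map_smul, add_apply, smul_apply]
      rw [e1, e2, inner_add_left, inner_add_right, real_inner_smul_left, real_inner_smul_right,
        hα, hβ]
      ring
    rw [h3] at h2
    refine h2.trans ?_
    have k1 := hn σ hσ.1 hσ1 w b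
    have k2 := hn σ hσ.1 hσ1 w' b'
    have n1 := norm_nonneg w
    have n2 := norm_nonneg w'
    have n3 := norm_nonneg b
    have n4 := norm_nonneg b'
    have k3 : ‖w + σ • b‖ + ‖b‖ ≤ 2 * (‖w‖ + ‖b‖) := by linarith
    have k4 : ‖w + σ • b‖ + ‖w' + σ • b'‖ + ‖b‖ + ‖b'‖ ≤ 2 * (‖w‖ + ‖w'‖ + ‖b‖ + ‖b'‖) := by
      linarith
    have k5 : (‖w + σ • b‖ + ‖w' + σ • b'‖ + ‖b‖ + ‖b'‖) ^ 2 ≤
        (2 * (‖w‖ + ‖w'‖ + ‖b‖ + ‖b'‖)) ^ 2 := pow_le_pow_left₀ (by positivity) k4 2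
    calc 9 * C ^ 5 * (‖w + σ • b‖ + ‖b‖) * (‖w + σ • b‖ + ‖w' + σ • b'‖ + ‖b‖ + ‖b'‖) ^ 2
        = 9 * C ^ 5 * ((‖w + σ • b‖ + ‖b‖) *
          (‖w + σ • b‖ + ‖w' + σ • b'‖ + ‖b‖ + ‖b'‖) ^ 2) := by ring
      _ ≤ 9 * C ^ 5 * ((2 * (‖w‖ + ‖b‖)) * (2 * (‖w‖ + ‖w'‖ + ‖b‖ + ‖b'‖)) ^ 2) :=
          mul_le_mul_of_nonneg_left (mul_le_mul k3 k5 (by positivity) (by positivity))
            (by positivity)
      _ = 72 * C ^ 5 * H := by rw [hH]; ring
  have hmv := (convex_Icc (0:ℝ) s).norm_image_sub_le_of_norm_hasDerivWithin_le hder hbd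
    (left_mem_Icc.2 h0) (right_mem_Icc.2 h0)
  have e3 : f s - f 0 = (ee G ρ x v (w + s • b) (w' + s • b') - ee G ρ x v w w') -
      (s * α + s ^ 2 / 2 * β) := by
    simp only [hf, zero_smul, add_zero]
    ring
  rw [e3, Real.norm_eq_abs, sub_zero, Real.norm_of_nonneg h0] at hmv
  refine hmv.trans (le_of_eq ?_)
  ring

end Crest.Agent.R208.NG
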