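import Crest.Agent.R208.NG3
import Crest.Agent.R208.HS1

/-!
R208, block NG (helper131), part NG4: the energy of `ρ (γ + u)` and the energy difference
estimate.
-/

set_option autoImplicit false

open Set Filter Topology MeasureTheory
open scoped ContDiff RealInnerProductSpace Real
open Crest.GeometryTopology.Submanifold
open Crest.Agent.R241.DDefs Crest.Agent.R241.D Crest.Agent.R241.D2
open Crest.Agent.R208.MS (exists_unif P_self P_mem Retr En)

noncomputable section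

namespace Crest.Agent.R208.NG

variable {n N : ℕ} {κ : ℝ} {S : Set (Euc N)} {G : Geo n N κ S} {ρ : Euc N → Euc N} {δ C : ℝ}
  {q : Euc N × Euc N}

/-- the geodesic -/
abbrev ga (G : Geo n N κ S) (q : Euc N × Euc N) (t : ℝ) : Euc N := (fl G (q, t)).1

/-- its velocity -/
abbrev ga' (G : Geo n N κ S) (q : Euc N × Euc N) (t : ℝ) : Euc N := (fl G (q, t)).2

theorem hda_ga (hq : q ∈ TS G) (t : ℝ) : HasDerivAt (ga G q) (ga' G q t) t :=
  hda_fst (hasDerivAt_fl G (complete G hq t))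

theorem hda_ga' (hq : q ∈ TS G) (t : ℝ) :
    HasDerivAt (ga' G q) (fderiv ℝ G.P (ga G q t) (ga' G q t) (ga' G q t)) t :=
  hda_snd (hasDerivAt_fl G (complete G hq t))

theorem ga_mem (hq : q ∈ TS G) (t : ℝ) : ga G q t ∈ S := (fl_mem G hq t).1

theorem ga'_mem (hq : q ∈ TS G) (t : ℝ) : ga' G q t ∈ G.T (ga G q t) := (fl_mem G hq t).2

theorem cont_ga (hq : q ∈ TS G) : Continuous (ga G q) :=
  continuous_iff_continuousAt.2 fun t => (hda_ga hq t).continuousAt

theorem cont_ga' (hq : q ∈ TS G) : Continuous (ga' G q) :=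
  continuous_iff_continuousAt.2 fun t => (hda_ga' hq t).continuousAt

theorem cont_fdrho (hc : Cst G ρ δ C) (hq : q ∈ TS G) {u : ℝ → Euc N} (hu : Continuous u)
    (hb : ∀ t, ‖u t‖ < δ) : Continuous fun t => fderiv ℝ ρ (ga G q t + u t) := by
  refine continuous_iff_continuousAt.2 fun t => ?_
  have h1 : ContinuousAt (fderiv ℝ ρ) (ga G q t + u t) :=
    ((hc.sm _ (ga_mem hq t) _ (by simpa using hb t)).fderiv_right (m := ∞)
      (by simp)).continuousAt
  exact ContinuousAt.comp (f := fun t => ga G q t + u t) h1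
    ((cont_ga hq).add hu).continuousAt

theorem cont_rho (hc : Cst G ρ δ C) (hq : q ∈ TS G) {u : ℝ → Euc N} (hu : Continuous u)
    (hb : ∀ t, ‖u t‖ < δ) : Continuous fun t => ρ (ga G q t + u t) := by
  refine continuous_iff_continuousAt.2 fun t => ?_
  have h1 : ContinuousAt ρ (ga G q t + u t) :=
    (hc.sm _ (ga_mem hq t) _ (by simpa using hb t)).continuousAt
  exact ContinuousAt.comp (f := fun t => ga G q t + u t) h1
    ((cont_ga hq).add hu).continuousAt

theorem hda_rho (hc : Cst G ρ δ C) (hq : q ∈ TS G) {u : ℝ → Euc N} {u' : Euc N} {t : ℝ}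
    (hu : HasDerivAt u u' t) (hb : ‖u t‖ < δ) :
    HasDerivAt (fun t => ρ (ga G q t + u t))
      (fderiv ℝ ρ (ga G q t + u t) (ga' G q t + u')) t := by
  have h1 : HasFDerivAt ρ (fderiv ℝ ρ (ga G q t + u t)) (ga G q t + u t) :=
    ((hc.sm _ (ga_mem hq t) _ (by simpa using hb)).differentiableAt (by simp)).hasFDerivAt
  exact h1.comp_hasDerivAt t ((hda_ga hq t).add hu)

/-- **the energy of a loop near a closed geodesic** -/
theorem En_eq (hc : Cst G ρ δ C) (hq : q ∈ TS G) (hq1 : ‖q.2‖ = 1)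
    (hper : fl G (q, 2 * π) = q) {u u' : ℝ → Euc N} (hu : ∀ t, HasDerivAt u (u' t) t)
    (hu' : Continuous u') (hup : u (2 * π) = u 0) (hb : ∀ t, ‖u t‖ < δ) :
    En (fun t => ρ (ga G q t + u t)) =
      π + ∫ t in (0:ℝ)..(2 * π), ee G ρ (ga G q t) (ga' G q t) (u t) (u' t) := by
  have hucont : Continuous u := continuous_iff_continuousAt.2 fun t => (hu t).continuousAt
  have hF := cont_fdrho hc hq hucont hb
  have hg := cont_ga (G := G) hq
  have hg' := cont_ga' (G := G) hq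
  have hR := cont_rho hc hq hucont hb
  set c : ℝ → Euc N := fun t => ρ (ga G q t + u t) with hcd
  set U : ℝ → Euc N := fun t => uu' ρ (ga G q t) (ga' G q t) (u t) (u' t) with hU
  have hUc : Continuous U := (hF.clm_apply (hg'.add hu')).sub hg'
  have hdP : Continuous (fderiv ℝ G.P) := G.contDiff_P.continuous_fderiv (by simp)
  have hgg : Continuous fun t => fderiv ℝ G.P (ga G q t) (ga' G q t) (ga' G q t) :=
    ((hdP.comp hg).clm_apply hg').clm_apply hg'
  have hc0 : ∀ t, HasDerivAt (fun t => c t - ga G q t) (U t) t := fun t =>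
    (hda_rho hc hq (hu t) (hb t)).sub (hda_ga hq t)
  have hg0 : fl G (q, 0) = q := fl_zero G q
  have hga0 : ga G q (2 * π) = ga G q 0 := by rw [ga, ga, hper, hg0]
  have hga0' : ga' G q (2 * π) = ga' G q 0 := by rw [ga', ga', hper, hg0]
  -- integration by parts
  have hip : (∫ t in (0:ℝ)..(2 * π), ⟪ga' G q t, U t⟫) =
      -∫ t in (0:ℝ)..(2 * π),
        ⟪fderiv ℝ G.P (ga G q t) (ga' G q t) (ga' G q t), c t - ga G q t⟫ := by
    have h1 : ∀ t ∈ uIcc (0:ℝ) (2 * π), HasDerivAt (fun t => ⟪ga' G q t, c t - ga G q t⟫)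
        (⟪ga' G q t, U t⟫ +
          ⟪fderiv ℝ G.P (ga G q t) (ga' G q t) (ga' G q t), c t - ga G q t⟫) t :=
      fun t _ => (hda_ga' hq t).inner ℝ (hc0 t)
    have i1 : IntervalIntegrable (fun t => ⟪ga' G q t, U t⟫) volume 0 (2 * π) :=
      (hg'.inner hUc).intervalIntegrable _ _
    have i2 : IntervalIntegrable (fun t =>
        ⟪fderiv ℝ G.P (ga G q t) (ga' G q t) (ga' G q t), c t - ga G q t⟫) volume 0 (2 * π) :=
      (hgg.inner (hR.sub hg)).intervalIntegrable _ _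
    have h2 := intervalIntegral.integral_eq_sub_of_hasDerivAt h1 (i1.add i2)
    rw [intervalIntegral.integral_add i1 i2] at h2
    have h3 : c (2 * π) = c 0 := by simp only [hcd]; rw [hga0, hup]
    simp only [h3, hga0, hga0', sub_self] at h2
    linarith
  have hder : ∀ t, deriv c t = ga' G q t + U t := fun t => by
    rw [(hda_rho hc hq (hu t) (hb t)).deriv]
    simp only [hU, uu']
    abel
  have hn : ∀ t, ‖ga' G q t‖ = 1 := fun t => by rw [ga', norm_fl G hq t, hq1]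
  have e1 : ∀ t, ‖deriv c t‖ ^ 2 = 1 + 2 * ⟪ga' G q t, U t⟫ + ‖U t‖ ^ 2 := fun t => by
    rw [hder t, norm_add_sq_real, hn t]
    ring
  have i3 : IntervalIntegrable (fun t => ⟪ga' G q t, U t⟫) volume 0 (2 * π) :=
    (hg'.inner hUc).intervalIntegrable _ _
  have i4 : IntervalIntegrable (fun t => ‖U t‖ ^ 2) volume 0 (2 * π) :=
    (hUc.norm.pow 2).intervalIntegrable _ _
  have i5 : IntervalIntegrable (fun t =>
      ⟪fderiv ℝ G.P (ga G q t) (ga' G q t) (ga' G q t), c t - ga G q t⟫) volume 0 (2 * π) :=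
    (hgg.inner (hR.sub hg)).intervalIntegrable _ _
  have e2 : (∫ t in (0:ℝ)..(2 * π), ‖deriv c t‖ ^ 2) = 2 * π +
      2 * (∫ t in (0:ℝ)..(2 * π), ⟪ga' G q t, U t⟫) + ∫ t in (0:ℝ)..(2 * π), ‖U t‖ ^ 2 := by
    simp only [e1]
    rw [intervalIntegral.integral_add (((intervalIntegrable_const).add (i3.const_mul 2))) i4,
      intervalIntegral.integral_add intervalIntegrable_const (i3.const_mul 2),
      intervalIntegral.integral_const_mul, intervalIntegral.integral_const]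
    simp
  have e3 : (∫ t in (0:ℝ)..(2 * π), ee G ρ (ga G q t) (ga' G q t) (u t) (u' t)) =
      (1 / 2) * (∫ t in (0:ℝ)..(2 * π), ‖U t‖ ^ 2) -
      ∫ t in (0:ℝ)..(2 * π),
        ⟪fderiv ℝ G.P (ga G q t) (ga' G q t) (ga' G q t), c t - ga G q t⟫ := by
    rw [← intervalIntegral.integral_const_mul, ← intervalIntegral.integral_sub
      (i4.const_mul _) i5]
    rfl
  rw [En, e2, e3, hip]
  ring

/-- projected field and its derivative -/
def PF (G : Geo n N κ S) (q : Euc N × Euc N) (w : ℝ → Euc N) (t : ℝ) : Euc N :=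
  G.P (ga G q t) (w t)

def PF' (G : Geo n N κ S) (q : Euc N × Euc N) (w w' : ℝ → Euc N) (t : ℝ) : Euc N :=
  pd G (ga G q t) (ga' G q t) (w t) (w' t)

theorem hda_PF (hq : q ∈ TS G) {w w' : ℝ → Euc N} {t : ℝ} (hw : HasDerivAt w (w' t) t) :
    HasDerivAt (PF G q w) (PF' G q w w' t) t := by
  have h2 : HasFDerivAt G.P (fderiv ℝ G.P (ga G q t)) (ga G q t) :=
    (G.contDiff_P.differentiable (by simp)).differentiableAt.hasFDerivAt
  exact (h2.comp_hasDerivAt t (hda_ga hq t)).clm_apply hw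

theorem cont_PF' (hq : q ∈ TS G) {w w' : ℝ → Euc N} (hw : Continuous w) (hw' : Continuous w') :
    Continuous (PF' G q w w') := by
  have hdP : Continuous (fderiv ℝ G.P) := G.contDiff_P.continuous_fderiv (by simp)
  exact (((hdP.comp (cont_ga hq)).clm_apply (cont_ga' hq)).clm_apply hw).add
    ((G.contDiff_P.continuous.comp (cont_ga hq)).clm_apply hw')

theorem fld_PF (hq : q ∈ TS G) {w w' : ℝ → Euc N} (hw : ∀ t, HasDerivAt w (w' t) t)
    (hw' : Continuous w') (a b : ℝ) : SV.Fld G q a b (PF G q w) (PF' G q w w') where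
  der t _ := (hda_PF hq (hw t)).hasDerivWithinAt
  cont := (cont_PF' hq (continuous_iff_continuousAt.2 fun t => (hw t).continuousAt)
    hw').continuousOn
  mem t _ := P_mem (ga_mem hq t) _

/-- **energy difference** -/
theorem en_diff (hc : Cst G ρ δ C) (hq : q ∈ TS G) (hq1 : ‖q.2‖ = 1)
    (hper : fl G (q, 2 * π) = q) {w w' b b' : ℝ → Euc N} (hw : ∀ t, HasDerivAt w (w' t) t)
    (hw' : Continuous w') (hwp : w (2 * π) = w 0) (hb : ∀ t, HasDerivAt b (b' t) t)
    (hb' : Continuous b') (hbp : b (2 * π) = b 0) {η : ℝ} (hη : ∀ t, ‖w t‖ + ‖b t‖ ≤ η)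
    (hηδ : C * η < δ) {s : ℝ} (h0 : 0 ≤ s) (h1 : s ≤ 1) :
    |En (fun t => ρ (ga G q t + (w t + s • b t))) - En (fun t => ρ (ga G q t + w t)) -
      (s * SV.ix G q 0 (2 * π) (PF G q w) (PF' G q w w') (PF G q b) (PF' G q b b') +
        s ^ 2 / 2 * SV.ix G q 0 (2 * π) (PF G q b) (PF' G q b b') (PF G q b) (PF' G q b b'))| ≤
      288 * C ^ 5 * η * s *
        ∫ t in (0:ℝ)..(2 * π), (‖w t‖ ^ 2 + ‖w' t‖ ^ 2 + ‖b t‖ ^ 2 + ‖b' t‖ ^ 2) := by
  have hC := hc.one
  have hcw : Continuous w := continuous_iff_continuousAt.2 fun t => (hw t).continuousAt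
  have hcb : Continuous b := continuous_iff_continuousAt.2 fun t => (hb t).continuousAt
  have hη0 : 0 ≤ η := (by positivity : 0 ≤ ‖w 0‖ + ‖b 0‖).trans (hη 0)
  have hηδ' : η < δ := by nlinarith
  have hCη : ∀ t, C * (‖w t‖ + ‖b t‖) < δ := fun t =>
    (mul_le_mul_of_nonneg_left (hη t) (by linarith)).trans_lt hηδ
  have hws : ∀ t, HasDerivAt (fun t => w t + s • b t) (w' t + s • b' t) t := fun t =>
    (hw t).add ((hb t).const_smul s)
  have hbd1 : ∀ t, ‖w t + s • b t‖ < δ := fun t => by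
    refine (norm_add_le _ _).trans_lt ?_
    rw [norm_smul, Real.norm_of_nonneg h0]
    have := hη t
    nlinarith [norm_nonneg (b t)]
  have hbd0 : ∀ t, ‖w t‖ < δ := fun t => by
    have := hη t
    have h3 := norm_nonneg (b t)
    linarith
  have E1 := En_eq hc hq hq1 hper hws (hw'.add (hb'.const_smul s)) (by simp only [hwp, hbp]) hbd1
  have E0 := En_eq hc hq hq1 hper hw hw' hwp hbd0
  have hg := cont_ga (G := G) hq
  have hg' := cont_ga' (G := G) hq
  have hdP : Continuous (fderiv ℝ G.P) := G.contDiff_P.continuous_fderiv (by simp)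
  have hgg : Continuous fun t => fderiv ℝ G.P (ga G q t) (ga' G q t) (ga' G q t) :=
    ((hdP.comp hg).clm_apply hg').clm_apply hg'
  have hee : ∀ u u' : ℝ → Euc N, Continuous u → Continuous u' → (∀ t, ‖u t‖ < δ) →
      Continuous fun t => ee G ρ (ga G q t) (ga' G q t) (u t) (u' t) := by
    intro u u' hu hu' hb
    have k1 := cont_fdrho hc hq hu hb
    have k2 := cont_rho hc hq hu hb
    have k3 : Continuous fun t => uu' ρ (ga G q t) (ga' G q t) (u t) (u' t) :=
      (k1.clm_apply (hg'.add hu')).sub hg'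
    exact ((k3.norm.pow 2).const_mul _).sub (hgg.inner (k2.sub hg))
  have c1 : Continuous fun t => ee G ρ (ga G q t) (ga' G q t) (w t + s • b t)
      (w' t + s • b' t) := hee _ _ (hcw.add (hcb.const_smul s)) (hw'.add (hb'.const_smul s)) hbd1
  have c0 := hee _ _ hcw hw' hbd0
  have hWB := (fld_PF hq hw hw' 0 (2 * π)).intble hq (by positivity) (fld_PF hq hb hb' 0 (2 * π))
  have hBB := (fld_PF hq hb hb' 0 (2 * π)).intble hq (by positivity) (fld_PF hq hb hb' 0 (2 * π))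
  rw [E1, E0]
  have e1 : (π + ∫ t in (0:ℝ)..(2 * π), ee G ρ (ga G q t) (ga' G q t) (w t + s • b t)
      (w' t + s • b' t)) - (π + ∫ t in (0:ℝ)..(2 * π), ee G ρ (ga G q t) (ga' G q t) (w t) (w' t)) -
      (s * SV.ix G q 0 (2 * π) (PF G q w) (PF' G q w w') (PF G q b) (PF' G q b b') +
        s ^ 2 / 2 * SV.ix G q 0 (2 * π) (PF G q b) (PF' G q b b') (PF G q b) (PF' G q b b')) =
      ∫ t in (0:ℝ)..(2 * π), ((ee G ρ (ga G q t) (ga' G q t) (w t + s • b t) (w' t + s • b' t) -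
        ee G ρ (ga G q t) (ga' G q t) (w t) (w' t)) -
        (s * SV.ixd G q (PF G q w) (PF' G q w w') (PF G q b) (PF' G q b b') t +
        s ^ 2 / 2 * SV.ixd G q (PF G q b) (PF' G q b b') (PF G q b) (PF' G q b b') t)) := by
    rw [intervalIntegral.integral_sub ((c1.intervalIntegrable _ _).sub
        (c0.intervalIntegrable _ _)) ((hWB.const_mul s).add (hBB.const_mul (s ^ 2 / 2))),
      intervalIntegral.integral_sub (c1.intervalIntegrable _ _) (c0.intervalIntegrable _ _),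
      intervalIntegral.integral_add (hWB.const_mul s) (hBB.const_mul (s ^ 2 / 2)),
      intervalIntegral.integral_const_mul, intervalIntegral.integral_const_mul]
    simp only [SV.ix]
    ring
  rw [e1, ← Real.norm_eq_abs]
  have hsum : Continuous fun t => ‖w t‖ ^ 2 + ‖w' t‖ ^ 2 + ‖b t‖ ^ 2 + ‖b' t‖ ^ 2 := by
    fun_prop
  refine (intervalIntegral.norm_integral_le_of_norm_le
    (g := fun t => 288 * C ^ 5 * η * s * (‖w t‖ ^ 2 + ‖w' t‖ ^ 2 + ‖b t‖ ^ 2 + ‖b' t‖ ^ 2))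
    (by positivity) (ae_of_all _ fun t _ => ?_)
    ((hsum.const_mul _).intervalIntegrable _ _)).trans
    (le_of_eq (intervalIntegral.integral_const_mul _ _))
  rw [Real.norm_eq_abs]
  have h2 := ee_diff (w' := w' t) (b' := b' t) hc (ga_mem hq t) (ga'_mem hq t)
    (by rw [norm_fl G hq t, hq1]) (hCη t) h0 h1
  refine (le_of_eq ?_).trans (h2.trans ?_)
  · rfl
  · have n1 := norm_nonneg (w t)
    have n2 := norm_nonneg (w' t)
    have n3 := norm_nonneg (b t)
    have n4 := norm_nonneg (b' t)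
    have k1 : (‖w t‖ + ‖w' t‖ + ‖b t‖ + ‖b' t‖) ^ 2 ≤
        4 * (‖w t‖ ^ 2 + ‖w' t‖ ^ 2 + ‖b t‖ ^ 2 + ‖b' t‖ ^ 2) := by
      nlinarith [sq_nonneg (‖w t‖ - ‖w' t‖), sq_nonneg (‖w t‖ - ‖b t‖),
        sq_nonneg (‖w t‖ - ‖b' t‖), sq_nonneg (‖w' t‖ - ‖b t‖), sq_nonneg (‖w' t‖ - ‖b' t‖),
        sq_nonneg (‖b t‖ - ‖b' t‖)]
    have k2 : (‖w t‖ + ‖b t‖) * (‖w t‖ + ‖w' t‖ + ‖b t‖ + ‖b' t‖) ^ 2 ≤
        η * (4 * (‖w t‖ ^ 2 + ‖w' t‖ ^ 2 + ‖b t‖ ^ 2 + ‖b' t‖ ^ 2)) :=
      mul_le_mul (hη t) k1 (by positivity) hη0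
    calc 72 * C ^ 5 * s * ((‖w t‖ + ‖b t‖) * (‖w t‖ + ‖w' t‖ + ‖b t‖ + ‖b' t‖) ^ 2)
        ≤ 72 * C ^ 5 * s * (η * (4 * (‖w t‖ ^ 2 + ‖w' t‖ ^ 2 + ‖b t‖ ^ 2 + ‖b' t‖ ^ 2))) :=
          mul_le_mul_of_nonneg_left k2 (by positivity)
      _ = _ := by ring

end Crest.Agent.R208.NG
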