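import Crest.Agent.R208.NG4
import Crest.Agent.R208.NB8
import Crest.Agent.R208.MS5

/-!
R208, block NG (helper131), part NG5: (U3) the energy along the segment from a loop `c` of energy
`≤ π` near the closed geodesic `ga z` to `ρ (ga z + 2 fd n)`.
-/

set_option autoImplicit false

open Set Filter Topology MeasureTheory
open scoped ContDiff RealInnerProductSpace Real
open Crest.GeometryTopology.Submanifold
open Crest.Agent.R241.DDefs Crest.Agent.R241.D Crest.Agent.R241.D2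
open Crest.Agent.R208.MS (exists_unif P_self P_mem Retr En Loop)
open Crest.Agent.R208.NN (Wt fd fd' nuP hasDerivAt_fd continuous_fd' fd_mem fld_fd)
open Crest.Agent.R208.NB (NegB npr)

noncomputable section

namespace Crest.Agent.R208.NG

variable {n N k K : ℕ} {κ : ℝ} {S : Set (Euc N)} {G : Geo n N κ S} {ρ : Euc N → Euc N} {δ C : ℝ}
  {z : Euc N × Euc N}

/-- deviation from the geodesic -/
def dv (G : Geo n N κ S) (z : Euc N × Euc N) (c : ℝ → Euc N) (t : ℝ) : Euc N := c t - ga G z t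

/-- its derivative -/
def dv' (G : Geo n N κ S) (z : Euc N × Euc N) (c : ℝ → Euc N) (t : ℝ) : Euc N :=
  deriv c t - ga' G z t

theorem hda_dv (hz : z ∈ TS G) {c : ℝ → Euc N} (hc : Loop S c) (t : ℝ) :
    HasDerivAt (dv G z c) (dv' G z c t) t := (hc.hasDerivAt t).sub (hda_ga hz t)

theorem cont_dv' (hz : z ∈ TS G) {c : ℝ → Euc N} (hc : Loop S c) : Continuous (dv' G z c) :=
  hc.continuous_deriv.sub (cont_ga' hz)

theorem cont_dv (hz : z ∈ TS G) {c : ℝ → Euc N} (hc : Loop S c) : Continuous (dv G z c) :=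
  continuous_iff_continuousAt.2 fun t => (hda_dv hz hc t).continuousAt

theorem dv_per (hper : fl G (z, 2 * π) = z) {c : ℝ → Euc N} (hc : Loop S c) :
    dv G z c (2 * π) = dv G z c 0 := by
  have h1 := hc.per 0
  rw [zero_add] at h1
  rw [dv, dv, h1, ga, ga, hper, fl_zero]

/-- size of the deviation -/
theorem norm_dv_sub (hc : Cst G ρ δ C) (hz : z ∈ TS G) {c : ℝ → Euc N} (hL : Loop S c) {t : ℝ}
    (ht : ‖dv G z c t‖ < δ) : ‖dv G z c t - PF G z (dv G z c) t‖ ≤ C * ‖dv G z c t‖ ^ 2 := by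
  have h1 := hc.t0 _ (ga_mem hz t) (c t) ht
  rw [hc.eq _ (hL.mem t)] at h1
  exact h1

theorem norm_dv'_sub (hc : Cst G ρ δ C) (hz : z ∈ TS G) (hz1 : ‖z.2‖ = 1) {c : ℝ → Euc N}
    (hL : Loop S c) {t : ℝ} (ht : ‖dv G z c t‖ < δ) :
    ‖dv' G z c t - PF' G z (dv G z c) (dv' G z c) t‖ ≤
      C * ‖dv G z c t‖ ^ 2 + C * ‖dv G z c t‖ * ‖dv' G z c t‖ := by
  have h1 := uu'_sub (w := dv G z c t) (w' := dv' G z c t) hc (ga_mem hz t) (ga'_mem hz t)
    (by rw [norm_fl G hz t, hz1]) ht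
  have e1 : ga G z t + dv G z c t = c t := by simp only [dv]; abel
  have e2 : ga' G z t + dv' G z c t = deriv c t := by simp only [dv']; abel
  have h2 : deriv c t ∈ G.T (c t) :=
    G.deriv_mem c _ t (Eventually.of_forall hL.mem) (hL.hasDerivAt t)
  have e3 : uu' ρ (ga G z t) (ga' G z t) (dv G z c t) (dv' G z c t) = dv' G z c t := by
    rw [uu', e1, e2, hc.fd _ (hL.mem t), P_self (hL.mem t) h2]
    rfl
  rw [e3] at h1
  exact h1

/-- the deviation is controlled by its tangential part -/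
theorem dv_le (hc : Cst G ρ δ C) (hz : z ∈ TS G) (hz1 : ‖z.2‖ = 1) {c : ℝ → Euc N}
    (hL : Loop S c) {t : ℝ} (ht : ‖dv G z c t‖ < δ) (ht4 : C * ‖dv G z c t‖ ≤ 1 / 4) :
    ‖dv G z c t‖ ^ 2 + ‖dv' G z c t‖ ^ 2 ≤
      8 * (‖PF G z (dv G z c) t‖ ^ 2 + ‖PF' G z (dv G z c) (dv' G z c) t‖ ^ 2) := by
  have h1 := norm_dv_sub hc hz hL ht
  have h2 := norm_dv'_sub hc hz hz1 hL ht
  set a := ‖dv G z c t‖ with ha
  set b := ‖dv' G z c t‖ with hb
  set A := ‖PF G z (dv G z c) t‖ with hA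
  set B := ‖PF' G z (dv G z c) (dv' G z c) t‖ with hB
  have n1 : 0 ≤ a := norm_nonneg _
  have n2 : 0 ≤ b := norm_nonneg _
  have n3 : 0 ≤ A := norm_nonneg _
  have n4 : 0 ≤ B := norm_nonneg _
  have h3 : a ≤ A + C * a ^ 2 := by
    have : a ≤ A + ‖dv G z c t - PF G z (dv G z c) t‖ := by
      rw [ha, hA]
      have := norm_add_le (PF G z (dv G z c) t) (dv G z c t - PF G z (dv G z c) t)
      simpa using this
    linarith
  have h4 : b ≤ B + (C * a ^ 2 + C * a * b) := by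
    have : b ≤ B + ‖dv' G z c t - PF' G z (dv G z c) (dv' G z c) t‖ := by
      rw [hb, hB]
      have := norm_add_le (PF' G z (dv G z c) (dv' G z c) t)
        (dv' G z c t - PF' G z (dv G z c) (dv' G z c) t)
      simpa using this
    linarith
  have h5 : C * a ^ 2 ≤ a / 4 := by
    have : C * a ^ 2 = (C * a) * a := by ring
    rw [this]
    nlinarith
  have h6 : C * a * b ≤ b / 4 := by nlinarith
  have h7 : a + b ≤ 2 * (A + B) := by linarith
  have h8 : (a + b) ^ 2 ≤ (2 * (A + B)) ^ 2 := pow_le_pow_left₀ (by positivity) h7 2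
  nlinarith [sq_nonneg (A - B), mul_nonneg n1 n2]

section fdfields

theorem PF_fd (hz : z ∈ TS G) (m : Wt N K) : PF G z (fd G z (nuP K) m) = fd G z (nuP K) m := by
  funext t
  exact P_self (ga_mem hz t) (fd_mem hz (nuP K) m t)

theorem PF'_fd (hz : z ∈ TS G) (m : Wt N K) :
    PF' G z (fd G z (nuP K) m) (fd' G z (nuP K) m) = fd' G z (nuP K) m := by
  funext t
  have h1 := hda_PF (w := fd G z (nuP K) m) (w' := fd' G z (nuP K) m) hz
    (hasDerivAt_fd hz (nuP K) m t)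
  rw [PF_fd hz m] at h1
  exact h1.unique (hasDerivAt_fd hz (nuP K) m t)

end fdfields

/-- the end point field of the segment -/
def ef (G : Geo n N κ S) (K : ℕ) (z : Euc N × Euc N) (m : Wt N K) (t : ℝ) : Euc N :=
  (2:ℝ) • fd G z (nuP K) m t

variable (h : GT.Bla G k) {δN : ℝ} {PN : Euc N × Euc N → Wt N K →L[ℝ] Wt N K}
  (H : NegB G (k - 1) (nuP K) δN PN)

/-- energy of the standard loops -/
theorem exists_std (h : GT.Bla G k) {δN : ℝ} {PN : Euc N × Euc N → Wt N K →L[ℝ] Wt N K}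
    (H : NegB G (k - 1) (nuP K) δN PN) (hc : Cst G ρ δ C) :
    ∃ r₀ > 0, (∀ z ∈ L.US G, ∀ m : Wt N K, ‖m‖ ≤ r₀ → ∀ t, ‖fd G z (nuP K) m t‖ < δ) ∧
      ∀ z ∈ L.US G, ∀ m : Wt N K, PN z m = m → ‖m‖ ≤ r₀ →
      En (fun t => ρ (ga G z t + fd G z (nuP K) m t)) ≤ π - δN / 4 * ‖m‖ ^ 2 := by
  obtain ⟨Cf, hCf0, hCf⟩ := NB.exists_bound_fd h.bl.cpt G (nuP K : Fin K → ℝ)
  have hC := hc.one
  have hδ := hc.pos
  have hδN := H.pos_δ
  set B := 288 * C ^ 5 * Cf * (2 * Cf ^ 2 * (2 * π)) with hB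
  have hB0 : 0 ≤ B := by positivity
  refine ⟨min (δ / (2 * C * (Cf + 1))) (δN / (4 * (B + 1))), by positivity,
    fun z hz m hm t => ?_, fun z hz m hmm hm => ?_⟩
  · have h1 := (hCf z hz m t).1
    have h2 : ‖m‖ ≤ δ / (2 * C * (Cf + 1)) := hm.trans (min_le_left _ _)
    rw [le_div_iff₀ (by positivity)] at h2
    have h3 := norm_nonneg m
    nlinarith [mul_nonneg h3 hCf0, mul_nonneg (mul_nonneg h3 hCf0) (by linarith : 0 ≤ C - 1),
      mul_nonneg h3 (by linarith : 0 ≤ C - 1)]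
  · have h2 : ‖m‖ ≤ δ / (2 * C * (Cf + 1)) := hm.trans (min_le_left _ _)
    rw [le_div_iff₀ (by positivity)] at h2
    have h2' : ‖m‖ ≤ δN / (4 * (B + 1)) := hm.trans (min_le_right _ _)
    rw [le_div_iff₀ (by positivity)] at h2'
    have h3 := norm_nonneg m
    have hpi : (0:ℝ) ≤ 2 * π := by positivity
    have hfl := NN.fl_two_pi h hz
    have k1 : C * (Cf * ‖m‖) < δ := by
      have e1 : ‖m‖ * (2 * C * (Cf + 1)) = 2 * (C * (Cf * ‖m‖)) + 2 * (C * ‖m‖) := by ring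
      have e2 : 0 ≤ C * (Cf * ‖m‖) := by positivity
      have e3 : 0 ≤ C * ‖m‖ := by positivity
      by_contra hcon
      push Not at hcon
      linarith
    have k2 := en_diff (G := G) (q := z) (w := fun _ => 0) (w' := fun _ => 0)
      (b := fd G z (nuP K) m) (b' := fd' G z (nuP K) m) (η := Cf * ‖m‖) hc hz.1 hz.2 hfl
      (fun t => hasDerivAt_const t 0) continuous_const rfl
      (fun t => hasDerivAt_fd hz.1 (nuP K) m t) (continuous_fd' hz.1 (nuP K) m)
      (NN.fd_two_pi h hz m) (fun t => by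
        rw [norm_zero, zero_add]; exact (hCf z hz m t).1) k1 (s := 1) zero_le_one le_rfl
    have e0 : (fun t => ρ (ga G z t + ((fun _ => (0 : Euc N)) t + (1:ℝ) • fd G z (nuP K) m t))) =
        fun t => ρ (ga G z t + fd G z (nuP K) m t) := by
      funext t; simp
    have e1 : (fun t => ρ (ga G z t + (fun _ => (0 : Euc N)) t)) = ga G z := by
      funext t
      simp only [add_zero]
      exact hc.eq _ (ga_mem hz.1 t)
    have e2 : En (ga G z) = π := by
      have : ∀ t, deriv (ga G z) t = ga' G z t := fun t => (hda_ga hz.1 t).deriv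
      simp only [En, this, norm_fl G hz.1, hz.2]
      simp
    have e3 : PF G z (fun _ => (0 : Euc N)) = 0 := by
      funext t; simp [PF]
    have e4 : PF' G z (fun _ => (0 : Euc N)) (fun _ => (0 : Euc N)) = 0 := by
      funext t; simp [PF', pd]
    have e5 : SV.ix G z 0 (2 * π) (0 : ℝ → Euc N) 0 (fd G z (nuP K) m) (fd' G z (nuP K) m) = 0 := by
      have := SV.ix_smul_left (G := G) (q := z) (a := 0) (b := 2 * π) (A := (0 : ℝ → Euc N))
        (A' := 0) (C := fd G z (nuP K) m) (C' := fd' G z (nuP K) m) 0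
      simpa using this
    rw [e0, e1, e2, e3, e4, PF_fd hz.1, PF'_fd hz.1, e5] at k2
    have k3 := H.ix_neg hz hmm
    have k4 : (∫ t in (0:ℝ)..(2 * π), (‖(fun _ => (0 : Euc N)) t‖ ^ 2 +
        ‖(fun _ => (0 : Euc N)) t‖ ^ 2 + ‖fd G z (nuP K) m t‖ ^ 2 +
        ‖fd' G z (nuP K) m t‖ ^ 2)) ≤ 2 * Cf ^ 2 * (2 * π) * ‖m‖ ^ 2 := by
      have hcf : Continuous (fd G z (nuP K) m) := continuous_iff_continuousAt.2 fun t =>
        (hasDerivAt_fd hz.1 (nuP K) m t).continuousAt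
      have hcf' := continuous_fd' hz.1 (nuP K) m
      have := intervalIntegral.integral_mono_on (a := 0) (b := 2 * π) (μ := volume) hpi
        (f := fun t => (‖(fun _ => (0 : Euc N)) t‖ ^ 2 +
        ‖(fun _ => (0 : Euc N)) t‖ ^ 2 + ‖fd G z (nuP K) m t‖ ^ 2 +
        ‖fd' G z (nuP K) m t‖ ^ 2)) (g := fun _ => 2 * Cf ^ 2 * ‖m‖ ^ 2)
        (by
          refine Continuous.intervalIntegrable ?_ _ _
          fun_prop) intervalIntegrable_const (fun t _ => by
          have l1 := pow_le_pow_left₀ (norm_nonneg _) (hCf z hz m t).1 2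
          have l2 := pow_le_pow_left₀ (norm_nonneg _) (hCf z hz m t).2.1 2
          simp only [norm_zero]
          nlinarith)
      refine this.trans (le_of_eq ?_)
      rw [intervalIntegral.integral_const, smul_eq_mul]
      ring
    have k5 : 288 * C ^ 5 * (Cf * ‖m‖) * 1 * (∫ t in (0:ℝ)..(2 * π),
        (‖(fun _ => (0 : Euc N)) t‖ ^ 2 +
        ‖(fun _ => (0 : Euc N)) t‖ ^ 2 + ‖fd G z (nuP K) m t‖ ^ 2 +
        ‖fd' G z (nuP K) m t‖ ^ 2)) ≤ B * ‖m‖ * ‖m‖ ^ 2 := by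
      refine (mul_le_mul_of_nonneg_left k4 (by positivity)).trans (le_of_eq ?_)
      rw [hB]; ring
    have k6 : B * ‖m‖ * ‖m‖ ^ 2 ≤ δN / 4 * ‖m‖ ^ 2 := by
      refine mul_le_mul_of_nonneg_right ?_ (by positivity)
      nlinarith
    have k7 := (abs_le.1 (k2.trans k5)).2
    nlinarith

end Crest.Agent.R208.NG
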