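import Crest.Agent.R208.NG5

/-!
R208, block NG (helper131), part NG6: (U3), main theorem: coercivity of the index form gives
`‖w‖_{H¹} ≤ C ‖n‖` for loops of energy `≤ π` near the closed geodesics, and the energy decreases
along the segment to `ρ (ga z + 2 fd n)`.
-/

set_option autoImplicit false

open Set Filter Topology MeasureTheory
open scoped ContDiff RealInnerProductSpace Real
open Crest.GeometryTopology.Submanifold
open Crest.Agent.R241.DDefs Crest.Agent.R241.D Crest.Agent.R241.D2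
open Crest.Agent.R208.MS (exists_unif P_self P_mem Retr En Loop)
open Crest.Agent.R208.NN (Wt fd fd' nuP hasDerivAt_fd continuous_fd' fd_mem fld_fd)
open Crest.Agent.R208.NB (NegB npr)

noncomputable section

namespace Crest.Agent.R208.NG

variable {n N k K : ℕ} {κ : ℝ} {S : Set (Euc N)} {G : Geo n N κ S} {ρ : Euc N → Euc N} {δ C : ℝ}
  {z : Euc N × Euc N}

/-- the `N`-component of the deviation -/
def nn (G : Geo n N κ S) (K : ℕ) (δN : ℝ) (PN : Euc N × Euc N → Wt N K →L[ℝ] Wt N K)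
    (z : Euc N × Euc N) (c : ℝ → Euc N) : Wt N K :=
  npr G (nuP K) δN PN z (PF G z (dv G z c))

/-- coercivity at the loop `c` with base geodesic `z` -/
def Coer (G : Geo n N κ S) (K : ℕ) (δN : ℝ) (PN : Euc N × Euc N → Wt N K →L[ℝ] Wt N K)
    (c0 C1 : ℝ) (z : Euc N × Euc N) (c : ℝ → Euc N) : Prop :=
  c0 * (∫ t in (0:ℝ)..(2 * π), (‖PF G z (dv G z c) t‖ ^ 2 +
      ‖PF' G z (dv G z c) (dv' G z c) t‖ ^ 2)) ≤
    SV.ix G z 0 (2 * π) (PF G z (dv G z c)) (PF' G z (dv G z c) (dv' G z c))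
      (PF G z (dv G z c)) (PF' G z (dv G z c) (dv' G z c)) +
    C1 * ‖nn G K δN PN z c‖ ^ 2

/-- the segment -/
def sg (G : Geo n N κ S) (K : ℕ) (ρ : Euc N → Euc N) (δN : ℝ)
    (PN : Euc N × Euc N → Wt N K →L[ℝ] Wt N K)
    (z : Euc N × Euc N) (c : ℝ → Euc N) (s t : ℝ) : Euc N :=
  ρ (ga G z t + (dv G z c t + s • ((2:ℝ) • fd G z (nuP K) (nn G K δN PN z c) t - dv G z c t)))

theorem norm_two_sub_sq (x y : Euc N) : ‖(2:ℝ) • x - y‖ ^ 2 ≤ 8 * ‖x‖ ^ 2 + 2 * ‖y‖ ^ 2 := by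
  have k2 := norm_sub_le ((2:ℝ) • x) y
  rw [norm_smul, Real.norm_of_nonneg (by norm_num : (0:ℝ) ≤ 2)] at k2
  have k3 := pow_le_pow_left₀ (norm_nonneg _) k2 2
  nlinarith [sq_nonneg (2 * ‖x‖ - ‖y‖)]

theorem aux_s {s : ℝ} (h0 : 0 ≤ s) (h1 : s ≤ 1) : 0 ≤ s - s ^ 2 / 2 := by nlinarith

theorem aux_F {s X Y : ℝ} (h0 : 0 ≤ s) (hX : X ≤ -Y) (hY : 0 ≤ Y) :
    (s + s ^ 2 / 2) * X ≤ -(s * Y) := by
  have h1 : (s + s ^ 2 / 2) * X ≤ (s + s ^ 2 / 2) * (-Y) :=
    mul_le_mul_of_nonneg_left hX (by positivity)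
  have h2 : 0 ≤ s ^ 2 / 2 * Y := by positivity
  linarith

set_option maxHeartbeats 1000000 in
theorem near_energy (h : GT.Bla G k) {δN : ℝ} {PN : Euc N × Euc N → Wt N K →L[ℝ] Wt N K}
    (H : NegB G (k - 1) (nuP K) δN PN) (hc : Cst G ρ δ C) {c0 C1 : ℝ} (hc0 : 0 < c0)
    (hC1 : 0 ≤ C1) :
    ∃ η₀ > 0, ∃ C₂ ≥ 0, ∀ z ∈ L.US G, ∀ c, Loop S c → (∀ t, ‖dv G z c t‖ ≤ η₀) →
      En c ≤ π → Coer G K δN PN c0 C1 z c →
      (∫ t in (0:ℝ)..(2 * π), (‖dv G z c t‖ ^ 2 + ‖dv' G z c t‖ ^ 2)) ≤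
        C₂ * ‖nn G K δN PN z c‖ ^ 2 ∧
      ∀ s, 0 ≤ s → s ≤ 1 →
        En (sg G K ρ δN PN z c s) ≤ En c - δN / 2 * s * ‖nn G K δN PN z c‖ ^ 2 := by
  obtain ⟨Cf, hCf0, hCf⟩ := NB.exists_bound_fd h.bl.cpt G (nuP K : Fin K → ℝ)
  obtain ⟨Cn, hCn0, hCn⟩ := H.exists_bound_npr h.bl.cpt
  have hC := hc.one
  have hδ := hc.pos
  have hδN := H.pos_δ
  have hpi : (0:ℝ) ≤ 2 * π := by positivity
  set C4 := 2 + 2 * Cf * (Cn * (2 * π)) with hC4
  have hC4' : 2 ≤ C4 := by rw [hC4]; linarith [show 0 ≤ 2 * Cf * (Cn * (2 * π)) by positivity]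
  set C2 := 16 * C1 / c0 with hC2
  have hC2' : 0 ≤ C2 := by positivity
  set C5 := 3 * C2 + 16 * Cf ^ 2 * (2 * π) with hC5
  have hC5' : 0 ≤ C5 := by positivity
  set η₀ := min (min (δ / (2 * C * C4)) (1 / (4 * C)))
    (min (c0 / (2 * 18432 * C ^ 5)) (δN / (2 * (288 * C ^ 5 * C4 * (C5 + 1))))) with hη₀
  have hη0 : 0 < η₀ := by
    rw [hη₀]
    positivity
  have b1 : η₀ * (2 * C * C4) ≤ δ := by
    rw [← le_div_iff₀ (by positivity)]
    exact (min_le_left _ _).trans (min_le_left _ _)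
  have b2 : η₀ * (4 * C) ≤ 1 := by
    rw [← le_div_iff₀ (by positivity)]
    exact (min_le_left _ _).trans (min_le_right _ _)
  have b3 : η₀ * (2 * 18432 * C ^ 5) ≤ c0 := by
    rw [← le_div_iff₀ (by positivity)]
    exact (min_le_right _ _).trans (min_le_left _ _)
  have b4 : η₀ * (2 * (288 * C ^ 5 * C4 * (C5 + 1))) ≤ δN := by
    rw [← le_div_iff₀ (by positivity)]
    exact (min_le_right _ _).trans (min_le_right _ _)
  have b1' : C * (C4 * η₀) < δ := by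
    have : 0 < C * (C4 * η₀) := by positivity
    have e : η₀ * (2 * C * C4) = 2 * (C * (C4 * η₀)) := by ring
    linarith
  have b0 : η₀ < δ := by
    have e1 : η₀ ≤ C * (C4 * η₀) := by
      have : 1 ≤ C * C4 := by nlinarith
      nlinarith
    linarith
  refine ⟨η₀, hη0, C2, hC2', fun z hz c hL hη hE hco => ?_⟩
  have hfl := NN.fl_two_pi h hz
  set w := dv G z c with hw
  set w' := dv' G z c with hw'
  set W := PF G z w with hW
  set W' := PF' G z w w' with hW'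
  set m := nn G K δN PN z c with hm
  have hwd : ∀ t, HasDerivAt w (w' t) t := fun t => hda_dv hz.1 hL t
  have hwc : Continuous w := cont_dv hz.1 hL
  have hwc' : Continuous w' := cont_dv' hz.1 hL
  have hwp : w (2 * π) = w 0 := dv_per hfl hL
  have hWf : SV.Fld G z 0 (2 * π) W W' := fld_PF hz.1 hwd hwc' 0 (2 * π)
  have hWp : W (2 * π) = W 0 := by
    simp only [hW, PF, hwp]
    rw [ga, ga, hfl, fl_zero]
  have hWc : Continuous W := continuous_iff_continuousAt.2 fun t =>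
    (hda_PF hz.1 (hwd t)).continuousAt
  have hWc' : Continuous W' := cont_PF' hz.1 hwc hwc'
  -- `ρ (ga + w) = c`
  have hρc : (fun t => ρ (ga G z t + w t)) = c := by
    funext t
    have : ga G z t + w t = c t := by simp only [hw, dv]; abel
    rw [this, hc.eq _ (hL.mem t)]
  have hgaE : En (ga G z) = π := by
    have : ∀ t, deriv (ga G z) t = ga' G z t := fun t => (hda_ga hz.1 t).deriv
    simp only [En, this, norm_fl G hz.1, hz.2]
    simp
  set HH := ∫ t in (0:ℝ)..(2 * π), (‖w t‖ ^ 2 + ‖w' t‖ ^ 2) with hHH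
  set HW := ∫ t in (0:ℝ)..(2 * π), (‖W t‖ ^ 2 + ‖W' t‖ ^ 2) with hHW
  have hHW0 : 0 ≤ HW := intervalIntegral.integral_nonneg hpi fun t _ => by positivity
  have hHle : HH ≤ 8 * HW := by
    rw [hHH, hHW, ← intervalIntegral.integral_const_mul]
    refine intervalIntegral.integral_mono_on hpi (Continuous.intervalIntegrable (by fun_prop) _ _)
      (Continuous.intervalIntegrable (by fun_prop) _ _) fun t _ => ?_
    refine dv_le hc hz.1 hz.2 hL ((hη t).trans_lt b0) ?_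
    have := mul_le_mul_of_nonneg_left (hη t) (by linarith : 0 ≤ C)
    linarith
  -- the index form of `W`
  have hIW : SV.ix G z 0 (2 * π) W W' W W' ≤ 2304 * C ^ 5 * η₀ * HH := by
    have k := en_diff (G := G) (q := z) (w := w) (w' := w') (b := -w) (b' := -w')
      (η := 2 * η₀) hc hz.1 hz.2 hfl hwd hwc' hwp (fun t => (hwd t).neg) hwc'.neg
      (by simp only [Pi.neg_apply, hwp])
      (fun t => by rw [Pi.neg_apply, norm_neg]; linarith [hη t])
      (lt_of_le_of_lt (mul_le_mul_of_nonneg_left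
        (mul_le_mul_of_nonneg_right hC4' hη0.le) (by linarith)) b1')
      (s := 1) zero_le_one le_rfl
    have e0 : (fun t => ρ (ga G z t + (w t + (1:ℝ) • (-w) t))) = ga G z := by
      funext t
      simp only [Pi.neg_apply, one_smul, add_neg_cancel, add_zero]
      exact hc.eq _ (ga_mem hz.1 t)
    have e1 : PF G z (-w) = (-1 : ℝ) • W := by
      funext t
      simp [PF, hW]
    have e2 : PF' G z (-w) (-w') = (-1 : ℝ) • W' := by
      funext t
      simp only [PF', pd, hW', Pi.neg_apply, map_neg, Pi.smul_apply, neg_smul, one_smul, neg_add]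
    have e3 : (∫ t in (0:ℝ)..(2 * π), (‖w t‖ ^ 2 + ‖w' t‖ ^ 2 + ‖(-w) t‖ ^ 2 + ‖(-w') t‖ ^ 2)) =
        2 * HH := by
      rw [hHH, ← intervalIntegral.integral_const_mul]
      refine intervalIntegral.integral_congr fun t _ => ?_
      simp only [Pi.neg_apply, norm_neg]
      ring
    rw [e0, hρc, hgaE, e1, e2, e3, SV.ix_smul_right, SV.ix_smul_left, SV.ix_smul_right] at k
    rw [← hW, ← hW'] at k
    have k1 := (abs_le.1 k).2
    linarith
  have hHWn : HW ≤ 2 * C1 / c0 * ‖m‖ ^ 2 := by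
    have k1 : c0 * HW ≤ SV.ix G z 0 (2 * π) W W' W W' + C1 * ‖m‖ ^ 2 := hco
    have k2 : 2304 * C ^ 5 * η₀ * HH ≤ c0 / 2 * HW := by
      have : 2304 * C ^ 5 * η₀ * HH ≤ 2304 * C ^ 5 * η₀ * (8 * HW) :=
        mul_le_mul_of_nonneg_left hHle (by positivity)
      refine this.trans ?_
      have e : 2304 * C ^ 5 * η₀ * (8 * HW) = (η₀ * (2 * 18432 * C ^ 5)) / 2 * HW := by ring
      rw [e]
      exact mul_le_mul_of_nonneg_right (by linarith) hHW0
    have k3 : c0 / 2 * HW ≤ C1 * ‖m‖ ^ 2 := by linarith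
    have k4 : HW = (2 / c0) * (c0 / 2 * HW) := by field_simp
    rw [k4]
    calc (2 / c0) * (c0 / 2 * HW) ≤ (2 / c0) * (C1 * ‖m‖ ^ 2) :=
          mul_le_mul_of_nonneg_left k3 (by positivity)
      _ = 2 * C1 / c0 * ‖m‖ ^ 2 := by ring
  have hHHn : HH ≤ C2 * ‖m‖ ^ 2 := by
    calc HH ≤ 8 * HW := hHle
      _ ≤ 8 * (2 * C1 / c0 * ‖m‖ ^ 2) := by linarith
      _ = C2 * ‖m‖ ^ 2 := by rw [hC2]; ring
  refine ⟨hHHn, fun s h0 h1 => ?_⟩
  -- the segment
  obtain ⟨hmm, hVf, hVm, hVV, hWW⟩ := H.decomp h hz hWf hWp (w := m) rfl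
  set F := fd G z (nuP K) m with hF
  set F' := fd' G z (nuP K) m with hF'
  set V := W - F with hV
  set V' := W' - F' with hV'
  have hFf : SV.Fld G z 0 (2 * π) F F' := fld_fd hz.1 (nuP K) m 0 (2 * π)
  have hFc : Continuous F := continuous_iff_continuousAt.2 fun t =>
    (hasDerivAt_fd hz.1 (nuP K) m t).continuousAt
  have hFc' : Continuous F' := continuous_fd' hz.1 (nuP K) m
  have hmn : ‖m‖ ≤ Cn * (2 * π) * η₀ := by
    refine (hCn z hz W hWc.continuousOn).trans ?_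
    rw [mul_assoc]
    refine mul_le_mul_of_nonneg_left ?_ hCn0
    have := intervalIntegral.integral_mono_on hpi (f := fun t => ‖W t‖) (g := fun _ => η₀)
      (hWc.norm.intervalIntegrable (μ := volume) 0 (2 * π)) intervalIntegrable_const
      (fun t _ => (norm_P_le (ga_mem hz.1 t) _).trans (hη t))
    rw [intervalIntegral.integral_const, smul_eq_mul, sub_zero] at this
    exact this
  set b : ℝ → Euc N := fun t => (2:ℝ) • F t - w t with hb
  set b' : ℝ → Euc N := fun t => (2:ℝ) • F' t - w' t with hb'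
  have hηb : ∀ t, ‖w t‖ + ‖b t‖ ≤ C4 * η₀ := by
    intro t
    have k1 : ‖b t‖ ≤ 2 * (Cf * ‖m‖) + ‖w t‖ := by
      refine (norm_sub_le _ _).trans ?_
      rw [norm_smul, Real.norm_of_nonneg (by norm_num : (0:ℝ) ≤ 2)]
      linarith [(hCf z hz m t).1]
    have k2 : Cf * ‖m‖ ≤ Cf * (Cn * (2 * π) * η₀) := mul_le_mul_of_nonneg_left hmn hCf0
    have k3 := hη t
    have k4 : C4 * η₀ = 2 * η₀ + 2 * (Cf * (Cn * (2 * π) * η₀)) := by rw [hC4]; ring
    rw [k4]
    linarith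
  have k := en_diff (G := G) (q := z) (w := w) (w' := w') (b := b) (b' := b')
      (η := C4 * η₀) hc hz.1 hz.2 hfl hwd hwc' hwp
      (fun t => ((hasDerivAt_fd hz.1 (nuP K) m t).const_smul (2:ℝ)).sub (hwd t))
      ((hFc'.const_smul (2:ℝ)).sub hwc')
      (by
        simp only [hb, hwp]
        rw [hF, NN.fd_two_pi h hz m]) hηb b1' h0 h1
  have e1 : PF G z b = F - V := by
    funext t
    have : G.P (ga G z t) (F t) = F t := congrFun (PF_fd hz.1 m) t
    simp only [PF, hb, map_sub, map_smul, this, hV, Pi.sub_apply, hW]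
    module
  have e2 : PF' G z b b' = F' - V' := by
    funext t
    have : PF' G z F F' t = F' t := congrFun (PF'_fd hz.1 m) t
    have e3 : PF' G z b b' t = (2:ℝ) • PF' G z F F' t - W' t := by
      simp only [PF', pd, hb, hb', map_sub, map_smul, hW']
      module
    rw [e3, this]
    simp only [hV', Pi.sub_apply]
    module
  have hWVF : W = V + F := by rw [hV]; abel
  have hWVF' : W' = V' + F' := by rw [hV']; abel
  have hVF : SV.ix G z 0 (2 * π) V V' F F' = 0 := hVm m hmm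
  have hFV : SV.ix G z 0 (2 * π) F F' V V' = 0 := by
    rw [SV.ix_symm hpi hz.1 hFf hVf]; exact hVF
  have e3 : SV.ix G z 0 (2 * π) W W' (F - V) (F' - V') =
      SV.ix G z 0 (2 * π) F F' F F' - SV.ix G z 0 (2 * π) V V' V V' := by
    rw [hWVF, hWVF', SV.ix_add_left hpi hz.1 hVf hFf (hFf.sub hVf),
      SV.ix_sub_right hpi hz.1 hVf hFf hVf, SV.ix_sub_right hpi hz.1 hFf hFf hVf, hVF, hFV]
    ring
  have e4 : SV.ix G z 0 (2 * π) (F - V) (F' - V') (F - V) (F' - V') =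
      SV.ix G z 0 (2 * π) F F' F F' + SV.ix G z 0 (2 * π) V V' V V' := by
    rw [SV.ix_sub_left hpi hz.1 hFf hVf (hFf.sub hVf),
      SV.ix_sub_right hpi hz.1 hVf hFf hVf, SV.ix_sub_right hpi hz.1 hFf hFf hVf, hVF, hFV]
    ring
  have hFF := H.ix_neg hz hmm
  have e5 : (∫ t in (0:ℝ)..(2 * π), (‖w t‖ ^ 2 + ‖w' t‖ ^ 2 + ‖b t‖ ^ 2 + ‖b' t‖ ^ 2)) ≤
      C5 * ‖m‖ ^ 2 := by
    have k1 := intervalIntegral.integral_mono_on (a := 0) (b := 2 * π) (μ := volume) hpi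
      (f := fun t => (‖w t‖ ^ 2 + ‖w' t‖ ^ 2 + ‖b t‖ ^ 2 + ‖b' t‖ ^ 2))
      (g := fun t => 3 * (‖w t‖ ^ 2 + ‖w' t‖ ^ 2) + 16 * Cf ^ 2 * ‖m‖ ^ 2)
      (Continuous.intervalIntegrable (by fun_prop) _ _)
      (Continuous.intervalIntegrable (by fun_prop) _ _) (fun t _ => by
        have k4 := norm_two_sub_sq (F t) (w t)
        have k5 := norm_two_sub_sq (F' t) (w' t)
        have k6 := pow_le_pow_left₀ (norm_nonneg _) (hCf z hz m t).1 2
        have k7 := pow_le_pow_left₀ (norm_nonneg _) (hCf z hz m t).2.1 2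
        have k8 : (Cf * ‖m‖) ^ 2 = Cf ^ 2 * ‖m‖ ^ 2 := by ring
        rw [k8] at k6 k7
        simp only [hb, hb']
        linarith)
    refine k1.trans ?_
    rw [intervalIntegral.integral_add (Continuous.intervalIntegrable (by fun_prop) _ _)
      (Continuous.intervalIntegrable (by fun_prop) _ _), intervalIntegral.integral_const_mul,
      intervalIntegral.integral_const, smul_eq_mul, sub_zero]
    have : C5 * ‖m‖ ^ 2 = 3 * (C2 * ‖m‖ ^ 2) + 2 * π * (16 * Cf ^ 2 * ‖m‖ ^ 2) := by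
      rw [hC5]; ring
    rw [this]
    linarith
  have e6 : 288 * C ^ 5 * (C4 * η₀) * s * (∫ t in (0:ℝ)..(2 * π),
      (‖w t‖ ^ 2 + ‖w' t‖ ^ 2 + ‖b t‖ ^ 2 + ‖b' t‖ ^ 2)) ≤ δN / 2 * s * ‖m‖ ^ 2 := by
    refine (mul_le_mul_of_nonneg_left e5 (by positivity)).trans ?_
    have k1 : 288 * C ^ 5 * (C4 * η₀) * s * (C5 * ‖m‖ ^ 2) =
        (η₀ * (2 * (288 * C ^ 5 * C4 * C5))) / 2 * (s * ‖m‖ ^ 2) := by ring
    have k2 : δN / 2 * s * ‖m‖ ^ 2 = δN / 2 * (s * ‖m‖ ^ 2) := by ring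
    rw [k1, k2]
    refine mul_le_mul_of_nonneg_right ?_ (by positivity)
    have k3 : η₀ * (2 * (288 * C ^ 5 * C4 * C5)) ≤ η₀ * (2 * (288 * C ^ 5 * C4 * (C5 + 1))) := by
      refine mul_le_mul_of_nonneg_left ?_ hη0.le
      have k4 : 288 * C ^ 5 * C4 * C5 ≤ 288 * C ^ 5 * C4 * (C5 + 1) :=
        mul_le_mul_of_nonneg_left (by linarith) (by positivity)
      linarith
    linarith
  have hsg : sg G K ρ δN PN z c s = fun t => ρ (ga G z t + (w t + s • b t)) := rfl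
  rw [hρc, e1, e2, e3, e4] at k
  rw [hsg]
  have k9 := (abs_le.1 (k.trans e6)).2
  have k10 : 0 ≤ (s - s ^ 2 / 2) * SV.ix G z 0 (2 * π) V V' V V' :=
    mul_nonneg (aux_s h0 h1) hVV
  have k11 : (s + s ^ 2 / 2) * SV.ix G z 0 (2 * π) F F' F F' ≤ -(s * (δN * ‖m‖ ^ 2)) :=
    aux_F h0 hFF (by positivity)
  linarith

end Crest.Agent.R208.NG
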