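import Crest.Agent.R208.NG6
import Crest.Agent.R208.CO6
import Crest.Agent.R208.FL5

/-!
R208, block NG (helper131), part NG7: the natural operator near the closed geodesics (U4):
definitions and rotation equivariance.
-/

set_option autoImplicit false

open Set Filter Topology MeasureTheory
open scoped ContDiff RealInnerProductSpace Real
open Crest.GeometryTopology.Submanifold
open Crest.Agent.R241.DDefs Crest.Agent.R241.D Crest.Agent.R241.D2
open Crest.Agent.R208.MS (exists_unif P_self P_mem Retr En Loop)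
open Crest.Agent.R208.NN (Wt fd fd' nuP hasDerivAt_fd continuous_fd' fd_mem fld_fd Rt ev)
open Crest.Agent.R208.NB (NegB npr)
open Crest.Agent.R208.FI (Tan)

noncomputable section

namespace Crest.Agent.R208.NG

variable {n N k K : ℕ} {κ : ℝ} {S : Set (Euc N)} {G : Geo n N κ S} {ρ : Euc N → Euc N} {δ C : ℝ}
  {z : Euc N × Euc N}

/-- squared `L²` distance of `c` to the geodesic of `v` -/
def L2 (G : Geo n N κ S) (c : ℝ → Euc N) (v : Euc N × Euc N) : ℝ :=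
  ∫ t in (0:ℝ)..(2 * π), ‖c t - ga G v t‖ ^ 2

/-- (U1): the nearest closed geodesic -/
structure GG (G : Geo n N κ S) (gg : (ℝ → Euc N) → Euc N × Euc N) (e Cg : ℝ) : Prop where
  pos : 0 < e
  mem : ∀ c, ContinuousOn c (Icc 0 (2 * π)) → gg c ∈ L.US G
  min : ∀ c, ContinuousOn c (Icc 0 (2 * π)) → ∀ v ∈ L.US G, L2 G c (gg c) ≤ L2 G c v
  orth : ∀ c, ContinuousOn c (Icc 0 (2 * π)) → ∀ ξ ∈ Tan (L.US G) (gg c),
    ∫ t in (0:ℝ)..(2 * π), ⟪c t - ga G (gg c) t, SV.jf G (gg c) ξ t⟫ = 0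
  lip : ∀ c, ContinuousOn c (Icc 0 (2 * π)) → ∀ v ∈ L.US G, L2 G c v < e ^ 2 →
    ‖gg c - v‖ ^ 2 ≤ Cg * L2 G c v
  equi : ∀ c, Continuous c → (∀ t, c (t + 2 * π) = c t) → (∃ v ∈ L.US G, L2 G c v < e ^ 2) →
    ∀ s, gg (fun t => c (t + s)) = fl G (gg c, s)
  smooth : ∀ (E : Type) [NormedAddCommGroup E] [NormedSpace ℝ E] [FiniteDimensional ℝ E]
    (F : E × ℝ → Euc N) (x : E), (∀ t ∈ Icc (0:ℝ) (2 * π), ContDiffAt ℝ ∞ F (x, t)) →
    (∃ v ∈ L.US G, L2 G (fun t => F (x, t)) v < e ^ 2) →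
    ContDiffAt ℝ ∞ (fun x' => gg (fun t => F (x', t))) x

/-- squared `H¹` distance to the nearest closed geodesic -/
def dd (G : Geo n N κ S) (gg : (ℝ → Euc N) → Euc N × Euc N) (c : ℝ → Euc N) : ℝ :=
  L2 G c (gg c) + ∫ t in (0:ℝ)..(2 * π), ‖dv' G (gg c) c t‖ ^ 2

/-- `N`-component of the deviation from the nearest closed geodesic -/
def mm (G : Geo n N κ S) (K : ℕ) (δN : ℝ) (PN : Euc N × Euc N → Wt N K →L[ℝ] Wt N K)
    (gg : (ℝ → Euc N) → Euc N × Euc N) (c : ℝ → Euc N) : Wt N K := nn G K δN PN (gg c) c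

/-- the rescaled `N`-component -/
def ww (G : Geo n N κ S) (K : ℕ) (δN : ℝ) (PN : Euc N × Euc N → Wt N K →L[ℝ] Wt N K)
    (gg : (ℝ → Euc N) → Euc N × Euc N) (ε : ℝ) (c : ℝ → Euc N) : Wt N K :=
  (2 / ε) • mm G K δN PN gg c

/-- cut-off: `1` for `dd c ≤ a²/4`, `0` for `dd c ≥ 5a²/16` -/
def sgm (G : Geo n N κ S) (gg : (ℝ → Euc N) → Euc N × Euc N) (a : ℝ) (c : ℝ → Euc N) : ℝ :=
  1 - FL.ct 1 (4 / a ^ 2 * dd G gg c)

/-- the time of the contraction -/
def bet (G : Geo n N κ S) (K : ℕ) (δN : ℝ) (PN : Euc N × Euc N → Wt N K →L[ℝ] Wt N K)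
    (gg : (ℝ → Euc N) → Euc N × Euc N) (a ε : ℝ) (c : ℝ → Euc N) : ℝ :=
  1 - sgm G gg a c * (1 - FL.bt (‖ww G K δN PN gg ε c‖ ^ 2))

/-- the cut-off `μ` -/
def mu (G : Geo n N κ S) (K : ℕ) (δN : ℝ) (PN : Euc N × Euc N → Wt N K →L[ℝ] Wt N K)
    (gg : (ℝ → Euc N) → Euc N × Euc N) (a ε : ℝ) (c : ℝ → Euc N) : ℝ :=
  sgm G gg a c * (1 - FL.ct (64 / 25) (‖ww G K δN PN gg ε c‖ ^ 2))

/-- direction of the segment -/
def bb (G : Geo n N κ S) (K : ℕ) (δN : ℝ) (PN : Euc N × Euc N → Wt N K →L[ℝ] Wt N K)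
    (gg : (ℝ → Euc N) → Euc N × Euc N) (c : ℝ → Euc N) (t : ℝ) : Euc N :=
  ga G (gg c) t + (2:ℝ) • fd G (gg c) (nuP K) (mm G K δN PN gg c) t - c t

/-- the first stage -/
def S1 (G : Geo n N κ S) (K : ℕ) (ρ : Euc N → Euc N) (δN : ℝ)
    (PN : Euc N × Euc N → Wt N K →L[ℝ] Wt N K)
    (gg : (ℝ → Euc N) → Euc N × Euc N) (a : ℝ) (s : ℝ) (c : ℝ → Euc N) (t : ℝ) : Euc N :=
  ρ (c t + (s * sgm G gg a c) • bb G K δN PN gg c t)

/-- time functions of the two stages -/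
def k1 (s : ℝ) : ℝ := Real.smoothTransition (4 * s - 1)
def k2 (s : ℝ) : ℝ := Real.smoothTransition (4 * s - 2)

/-- **the operator** -/
def HN (G : Geo n N κ S) (K : ℕ) (lg : Euc N → Euc N → Euc N) (ρ : Euc N → Euc N) (w : ℝ)
    (J : ℕ) (δN : ℝ) (PN : Euc N × Euc N → Wt N K →L[ℝ] Wt N K)
    (gg : (ℝ → Euc N) → Euc N × Euc N) (a ε : ℝ) (s : ℝ) (c : ℝ → Euc N) : ℝ → Euc N :=
  NL.Lam G lg ρ w J (k2 s * bet G K δN PN gg a ε c) (S1 G K ρ δN PN gg a (k1 s) c)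

/-! ### rotations -/

variable {δN : ℝ} {PN : Euc N × Euc N → Wt N K →L[ℝ] Wt N K}
  {gg : (ℝ → Euc N) → Euc N × Euc N} {e Cg a ε : ℝ} {c : ℝ → Euc N}

theorem int_per (f : ℝ → ℝ) (hf : ∀ t, f (t + 2 * π) = f t) (s : ℝ) :
    (∫ t in (0:ℝ)..(2 * π), f (t + s)) = ∫ t in (0:ℝ)..(2 * π), f t := by
  replace hf : Function.Periodic f (2 * π) := hf
  rw [intervalIntegral.integral_comp_add_right (fun x => f x), zero_add, add_comm (2 * π) s,
    hf.intervalIntegral_add_eq s 0, zero_add]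

theorem ga_shift (hz : z ∈ TS G) (s t : ℝ) : ga G (fl G (z, s)) t = ga G z (t + s) := by
  rw [ga, ga, add_comm t s, fl_add' G hz]

theorem ga'_shift (hz : z ∈ TS G) (s t : ℝ) : ga' G (fl G (z, s)) t = ga' G z (t + s) := by
  rw [ga', ga', add_comm t s, fl_add' G hz]

theorem ga_per (h : GT.Bla G k) (hz : z ∈ L.US G) (t : ℝ) : ga G z (t + 2 * π) = ga G z t := by
  rw [← ga_shift hz.1, NN.fl_two_pi h hz]

theorem ga'_per (h : GT.Bla G k) (hz : z ∈ L.US G) (t : ℝ) : ga' G z (t + 2 * π) = ga' G z t := by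
  rw [← ga'_shift hz.1, NN.fl_two_pi h hz]

theorem fl_US (hz : z ∈ L.US G) (s : ℝ) : fl G (z, s) ∈ L.US G :=
  ⟨fl_mem G hz.1 s, by rw [norm_fl G hz.1]; exact hz.2⟩

theorem fd_shift (hz : z ∈ TS G) (s t : ℝ) (m : Wt N K) :
    fd G (fl G (z, s)) (nuP K) (Rt (nuP K) s m) t = fd G z (nuP K) m (t + s) := by
  unfold NN.fd
  rw [NN.ev_Rt, add_comm t s, fl_add' G hz]

theorem L2_shift (h : GT.Bla G k) (hc : Loop S c) (hz : z ∈ L.US G) (s : ℝ) :
    L2 G (fun t => c (t + s)) (fl G (z, s)) = L2 G c z := by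
  unfold L2
  simp only [ga_shift hz.1]
  exact int_per (fun u => ‖c u - ga G z u‖ ^ 2) (fun t => by simp only [hc.per, ga_per h hz]) s

/-- the domain where the nearest geodesic is unique -/
def Dm (G : Geo n N κ S) (e : ℝ) (c : ℝ → Euc N) : Prop := ∃ v ∈ L.US G, L2 G c v < e ^ 2

theorem Dm.shift (h : GT.Bla G k) (hc : Loop S c) (hD : Dm G e c) (s : ℝ) :
    Dm G e (fun t => c (t + s)) := by
  obtain ⟨v, hv, h1⟩ := hD
  exact ⟨fl G (v, s), fl_US hv s, by rw [L2_shift h hc hv]; exact h1⟩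

theorem loop_shift (hc : Loop S c) (s : ℝ) : Loop S (fun t => c (t + s)) :=
  ⟨hc.smooth.comp (by fun_prop), fun t => by
    have := hc.per (t + s)
    rw [← this]; ring_nf, fun t => hc.mem _⟩

theorem Dm.of_shift (h : GT.Bla G k) (hc : Loop S c) {s : ℝ}
    (hD : Dm G e (fun t => c (t + s))) : Dm G e c := by
  have := hD.shift h (loop_shift hc s) (-s)
  simpa using this

theorem dd_ge : L2 G c (gg c) ≤ dd G gg c := by
  have : 0 ≤ ∫ t in (0:ℝ)..(2 * π), ‖dv' G (gg c) c t‖ ^ 2 :=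
    intervalIntegral.integral_nonneg (by positivity) fun t _ => by positivity
  unfold dd
  linarith

theorem le_dd_of_not (hg : GG G gg e Cg) (hc : ContinuousOn c (Icc 0 (2 * π)))
    (hD : ¬ Dm G e c) : e ^ 2 ≤ dd G gg c := by
  by_contra h1
  push Not at h1
  exact hD ⟨gg c, hg.mem c hc, dd_ge.trans_lt h1⟩

theorem deriv_shift (c : ℝ → Euc N) (s t : ℝ) :
    deriv (fun t => c (t + s)) t = deriv c (t + s) := deriv_comp_add_const ..

theorem Loop.contOn (hc : Loop S c) (s : Set ℝ) : ContinuousOn c s :=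
  hc.smooth.continuous.continuousOn

theorem dd_shift (h : GT.Bla G k) (hg : GG G gg e Cg) (hc : Loop S c) (hD : Dm G e c) (s : ℝ) :
    dd G gg (fun t => c (t + s)) = dd G gg c := by
  have h1 := hg.equi c hc.smooth.continuous hc.per hD s
  have hz := hg.mem c (Loop.contOn hc _)
  unfold dd
  rw [h1, L2_shift h hc hz]
  congr 1
  have h2 : ∀ t, dv' G (fl G (gg c, s)) (fun t => c (t + s)) t = dv' G (gg c) c (t + s) :=
    fun t => by simp only [dv', ga'_shift hz.1, deriv_shift]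
  simp only [h2]
  exact int_per (fun u => ‖dv' G (gg c) c u‖ ^ 2)
    (fun t => by simp only [dv', hc.deriv_per, ga'_per h hz]) s

theorem sgm_zero_of_not (hg : GG G gg e Cg) (ha : 0 < a) (hae : 5 * a ^ 2 / 16 ≤ e ^ 2)
    (hc : ContinuousOn c (Icc 0 (2 * π))) (hD : ¬ Dm G e c) : sgm G gg a c = 0 := by
  have h1 := le_dd_of_not hg hc hD
  have h2 : 1 + 1 / 4 ≤ 4 / a ^ 2 * dd G gg c := by
    rw [div_mul_eq_mul_div, le_div_iff₀ (by positivity)]
    linarith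
  rw [sgm, FL.ct_one h2, sub_self]

theorem sgm_shift (h : GT.Bla G k) (hg : GG G gg e Cg) (ha : 0 < a)
    (hae : 5 * a ^ 2 / 16 ≤ e ^ 2) (hc : Loop S c) (s : ℝ) :
    sgm G gg a (fun t => c (t + s)) = sgm G gg a c := by
  by_cases hD : Dm G e c
  · unfold sgm
    rw [dd_shift h hg hc hD]
  · rw [sgm_zero_of_not hg ha hae (Loop.contOn hc _) hD,
      sgm_zero_of_not hg ha hae (Loop.contOn (loop_shift hc s) _)
        fun h' => hD (h'.of_shift h hc)]

theorem mm_shift (h : GT.Bla G k) (H : NegB G (k - 1) (nuP K) δN PN) (hg : GG G gg e Cg)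
    (hc : Loop S c) (hD : Dm G e c) (s : ℝ) :
    mm G K δN PN gg (fun t => c (t + s)) = Rt (nuP K) s (mm G K δN PN gg c) := by
  have h1 := hg.equi c hc.smooth.continuous hc.per hD s
  have hz := hg.mem c (Loop.contOn hc _)
  unfold mm nn
  rw [h1]
  have h2 : PF G (fl G (gg c, s)) (dv G (fl G (gg c, s)) fun t => c (t + s)) =
      fun t => PF G (gg c) (dv G (gg c) c) (t + s) := by
    funext t
    simp only [PF, dv, ga_shift hz.1]
  rw [h2]
  refine H.npr_equiv h hz NB.sig_per ?_ (fun t => ?_) s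
  · exact continuous_iff_continuousAt.2 fun t => (hda_PF hz.1 (hda_dv hz.1 hc t)).continuousAt
  · simp only [PF, dv, hc.per, ga_per h hz, one_smul]

theorem ww_shift (h : GT.Bla G k) (H : NegB G (k - 1) (nuP K) δN PN) (hg : GG G gg e Cg)
    (hc : Loop S c) (hD : Dm G e c) (s : ℝ) :
    ww G K δN PN gg ε (fun t => c (t + s)) = Rt (nuP K) s (ww G K δN PN gg ε c) := by
  rw [ww, ww, mm_shift h H hg hc hD, map_smul]

theorem norm_ww_shift (h : GT.Bla G k) (H : NegB G (k - 1) (nuP K) δN PN) (hg : GG G gg e Cg)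
    (hc : Loop S c) (hD : Dm G e c) (s : ℝ) :
    ‖ww G K δN PN gg ε (fun t => c (t + s))‖ = ‖ww G K δN PN gg ε c‖ := by
  rw [ww_shift h H hg hc hD, NN.norm_Rt]

theorem bet_shift (h : GT.Bla G k) (H : NegB G (k - 1) (nuP K) δN PN) (hg : GG G gg e Cg)
    (ha : 0 < a) (hae : 5 * a ^ 2 / 16 ≤ e ^ 2) (hc : Loop S c) (s : ℝ) :
    bet G K δN PN gg a ε (fun t => c (t + s)) = bet G K δN PN gg a ε c := by
  unfold bet
  rw [sgm_shift h hg ha hae hc]
  by_cases hD : Dm G e c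
  · rw [norm_ww_shift h H hg hc hD]
  · rw [sgm_zero_of_not hg ha hae (Loop.contOn hc _) hD]
    simp

theorem mu_shift (h : GT.Bla G k) (H : NegB G (k - 1) (nuP K) δN PN) (hg : GG G gg e Cg)
    (ha : 0 < a) (hae : 5 * a ^ 2 / 16 ≤ e ^ 2) (hc : Loop S c) (s : ℝ) :
    mu G K δN PN gg a ε (fun t => c (t + s)) = mu G K δN PN gg a ε c := by
  unfold mu
  rw [sgm_shift h hg ha hae hc]
  by_cases hD : Dm G e c
  · rw [norm_ww_shift h H hg hc hD]
  · rw [sgm_zero_of_not hg ha hae (Loop.contOn hc _) hD]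
    simp

theorem bb_shift (h : GT.Bla G k) (H : NegB G (k - 1) (nuP K) δN PN) (hg : GG G gg e Cg)
    (hc : Loop S c) (hD : Dm G e c) (s t : ℝ) :
    bb G K δN PN gg (fun t => c (t + s)) t = bb G K δN PN gg c (t + s) := by
  have h1 := hg.equi c hc.smooth.continuous hc.per hD s
  have hz := hg.mem c (Loop.contOn hc _)
  unfold bb
  rw [mm_shift h H hg hc hD, h1, ga_shift hz.1, fd_shift hz.1]

theorem S1_shift (h : GT.Bla G k) (H : NegB G (k - 1) (nuP K) δN PN) (hg : GG G gg e Cg)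
    (ha : 0 < a) (hae : 5 * a ^ 2 / 16 ≤ e ^ 2) (hc : Loop S c) (s' s t : ℝ) :
    S1 G K ρ δN PN gg a s' (fun t => c (t + s)) t = S1 G K ρ δN PN gg a s' c (t + s) := by
  unfold S1
  rw [sgm_shift h hg ha hae hc]
  by_cases hD : Dm G e c
  · rw [bb_shift h H hg hc hD]
  · rw [sgm_zero_of_not hg ha hae (Loop.contOn hc _) hD]
    simp

end Crest.Agent.R208.NG
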