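import Crest.Agent.R208.NG7

/-!
R208, block NG (helper131), part NG8: the constants of the natural operator near the closed
geodesics.
-/

set_option autoImplicit false

open Set Filter Topology MeasureTheory
open scoped ContDiff RealInnerProductSpace Real
open Crest.GeometryTopology.Submanifold
open Crest.Agent.R241.DDefs Crest.Agent.R241.D Crest.Agent.R241.D2
open Crest.Agent.R208.MS (exists_unif P_self P_mem Retr En Loop NearUM Close)
open Crest.Agent.R208.NN (Wt fd fd' nuP hasDerivAt_fd continuous_fd' fd_mem fld_fd Rt ev)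
open Crest.Agent.R208.NB (NegB npr)
open Crest.Agent.R208.FI (Tan)

noncomputable section

namespace Crest.Agent.R208.NG

variable {n N k K : ℕ} {κ : ℝ} {S : Set (Euc N)} {G : Geo n N κ S} {ρ : Euc N → Euc N} {δ C : ℝ}
  {z : Euc N × Euc N} {δN : ℝ} {PN : Euc N × Euc N → Wt N K →L[ℝ] Wt N K}
  {gg : (ℝ → Euc N) → Euc N × Euc N} {e Cg a ε : ℝ} {c : ℝ → Euc N}

/-- Sobolev -/
theorem sob {w w' : ℝ → Euc N} (hw : ∀ t, HasDerivAt w (w' t) t) (hw' : Continuous w')
    (hper : ∀ t, w (t + 2 * π) = w t) (t : ℝ) :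
    ‖w t‖ ^ 2 ≤ 4 * π * ((∫ t in (0:ℝ)..(2 * π), ‖w t‖ ^ 2) +
      ∫ t in (0:ℝ)..(2 * π), ‖w' t‖ ^ 2) := by
  have hpi := Real.pi_gt_three
  have hwc : Continuous w := continuous_iff_continuousAt.2 fun t => (hw t).continuousAt
  -- reduce to `t ∈ [0, 2π)`
  have hP : Function.Periodic w (2 * π) := hper
  obtain ⟨t', ht', htt⟩ := hP.exists_mem_Ico₀ (by positivity) t
  rw [htt]
  set Q := ∫ t in (0:ℝ)..(2 * π), ‖w' t‖ with hQ
  have hQ0 : 0 ≤ Q := intervalIntegral.integral_nonneg (by positivity) fun _ _ => norm_nonneg _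
  have key : ∀ s ∈ Icc (0:ℝ) (2 * π), ‖w t'‖ ≤ ‖w s‖ + Q := by
    intro s hs
    have h1 : ∫ u in s..t', w' u = w t' - w s :=
      intervalIntegral.integral_eq_sub_of_hasDerivAt (fun u _ => hw u)
        (hw'.intervalIntegrable _ _)
    have h2 : ‖w t' - w s‖ ≤ Q := by
      rw [← h1]
      refine (intervalIntegral.norm_integral_le_abs_integral_norm).trans ?_
      rw [hQ]
      have hn : Continuous fun u => ‖w' u‖ := hw'.norm
      rcases le_total s t' with hst | hst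
      · rw [abs_of_nonneg (intervalIntegral.integral_nonneg hst fun _ _ => norm_nonneg _)]
        exact intervalIntegral.integral_mono_interval hs.1 hst ht'.2.le
          (Eventually.of_forall fun _ => norm_nonneg _) (hn.intervalIntegrable _ _)
      · rw [intervalIntegral.integral_symm, abs_neg,
          abs_of_nonneg (intervalIntegral.integral_nonneg hst fun _ _ => norm_nonneg _)]
        exact intervalIntegral.integral_mono_interval ht'.1 hst hs.2
          (Eventually.of_forall fun _ => norm_nonneg _) (hn.intervalIntegrable _ _)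
    have h3 : w t' = w s + (w t' - w s) := by abel
    rw [h3]
    exact (norm_add_le _ _).trans (by linarith)
  have h1 : ∀ s ∈ Icc (0:ℝ) (2 * π), ‖w t'‖ ^ 2 ≤ 2 * ‖w s‖ ^ 2 + 2 * Q ^ 2 := by
    intro s hs
    have := pow_le_pow_left₀ (norm_nonneg _) (key s hs) 2
    nlinarith [sq_nonneg (‖w s‖ - Q)]
  have h2 := intervalIntegral.integral_mono_on (a := 0) (b := 2 * π) (μ := volume) (by positivity)
    (f := fun _ => ‖w t'‖ ^ 2) (g := fun s => 2 * ‖w s‖ ^ 2 + 2 * Q ^ 2) intervalIntegrable_const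
    (Continuous.intervalIntegrable (by fun_prop) _ _) h1
  rw [intervalIntegral.integral_const, intervalIntegral.integral_add
    (Continuous.intervalIntegrable (by fun_prop) _ _) intervalIntegrable_const,
    intervalIntegral.integral_const_mul, intervalIntegral.integral_const, smul_eq_mul,
    smul_eq_mul, sub_zero] at h2
  have h3 := NB.int_norm_sq_le (W := w') hw'.continuousOn
  rw [← hQ] at h3
  set I0 := ∫ t in (0:ℝ)..(2 * π), ‖w t‖ ^ 2 with hI0
  set I1 := ∫ t in (0:ℝ)..(2 * π), ‖w' t‖ ^ 2 with hI1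
  have hI00 : 0 ≤ I0 := intervalIntegral.integral_nonneg (by positivity) fun _ _ => by positivity
  have h4 : ‖w t'‖ ^ 2 * (2 * π) ≤ 2 * I0 + 2 * π * (2 * (2 * π * I1)) := by nlinarith
  have h6 : 0 ≤ (8 * π ^ 2 - 2) * I0 := mul_nonneg (by nlinarith) hI00
  have h5 : ‖w t'‖ ^ 2 * (2 * π) ≤ (4 * π * (I0 + I1)) * (2 * π) := by nlinarith
  exact le_of_mul_le_mul_right h5 (by positivity)

theorem dv_per' (h : GT.Bla G k) (hz : z ∈ L.US G) (hc : Loop S c) (t : ℝ) :
    dv G z c (t + 2 * π) = dv G z c t := by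
  rw [dv, dv, hc.per, ga_per h hz]

/-- `dd` is the squared `H¹` norm of the deviation -/
theorem dd_eq (hz : gg c ∈ L.US G) (hc : Loop S c) :
    dd G gg c = ∫ t in (0:ℝ)..(2 * π), (‖dv G (gg c) c t‖ ^ 2 + ‖dv' G (gg c) c t‖ ^ 2) := by
  have h1 : Continuous fun t => ‖dv G (gg c) c t‖ ^ 2 := (cont_dv hz.1 hc).norm.pow 2
  have h2 : Continuous fun t => ‖dv' G (gg c) c t‖ ^ 2 := (cont_dv' hz.1 hc).norm.pow 2
  rw [intervalIntegral.integral_add (h1.intervalIntegrable _ _) (h2.intervalIntegrable _ _)]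
  rfl

theorem dd_nonneg (G : Geo n N κ S) (gg : (ℝ → Euc N) → Euc N × Euc N) (c : ℝ → Euc N) :
    0 ≤ dd G gg c := by
  unfold dd L2
  exact add_nonneg (intervalIntegral.integral_nonneg (by positivity) fun _ _ => by positivity)
    (intervalIntegral.integral_nonneg (by positivity) fun _ _ => by positivity)

theorem sup_dv (h : GT.Bla G k) (hz : gg c ∈ L.US G) (hc : Loop S c) (t : ℝ) :
    ‖dv G (gg c) c t‖ ^ 2 ≤ 4 * π * dd G gg c :=
  sob (hda_dv hz.1 hc) (cont_dv' hz.1 hc) (dv_per' h hz hc) t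

theorem S1_eq (a : ℝ) (s : ℝ) (c : ℝ → Euc N) :
    S1 G K ρ δN PN gg a s c = sg G K ρ δN PN (gg c) c (s * sgm G gg a c) := by
  funext t
  simp only [S1, sg, bb, dv, mm]
  congr 1
  module

/-- coercivity, from (U2) -/
theorem coer_of_U2 {c0 C1 : ℝ} (h : GT.Bla G k) (hg : GG G gg e Cg)
    (hU : ∀ z ∈ L.US G, ∀ A A', CO.TF G z A A' → A (2 * π) = A 0 →
      (∀ ξ ∈ Tan (L.US G) z, ∫ t in (0:ℝ)..(2 * π), ⟪A t, SV.jf G z ξ t⟫ = 0) →
      c0 * CO.Hn A A' ≤ SV.ix G z 0 (2 * π) A A' A A' + C1 * ‖npr G (nuP K) δN PN z A‖ ^ 2)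
    (hc : Loop S c) : Coer G K δN PN c0 C1 (gg c) c := by
  have hz := hg.mem c (Loop.contOn hc _)
  refine hU (gg c) hz (PF G (gg c) (dv G (gg c) c)) (PF' G (gg c) (dv G (gg c) c)
    (dv' G (gg c) c)) ⟨fun t => hda_PF hz.1 (hda_dv hz.1 hc t),
      cont_PF' hz.1 (cont_dv hz.1 hc) (cont_dv' hz.1 hc), fun t => P_mem (ga_mem hz.1 t) _⟩ ?_ ?_
  · simp only [PF, dv_per (NN.fl_two_pi h hz) hc]
    rw [ga, ga, NN.fl_two_pi h hz, fl_zero]
  · intro ξ hξ
    refine Eq.trans ?_ (hg.orth c (Loop.contOn hc _) ξ hξ)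
    apply intervalIntegral.integral_congr
    intro t _
    have h1 : SV.jf G (gg c) ξ t ∈ G.T (fl G (gg c, t)).1 :=
      SV.jf_mem (NN.tanTS_of_Tan h hz hξ) t
    simp only [PF, dv]
    rw [inner_P_left G (ga_mem hz.1 t), P_self (ga_mem hz.1 t) h1]

/-- the velocity of the geodesics is Lipschitz in the initial condition -/
theorem exists_lip (h : GT.Bla G k) : ∃ δL > 0, ∃ CL : ℝ, 0 ≤ CL ∧ ∀ u ∈ L.US G, ∀ v ∈ L.US G,
    ‖u - v‖ < δL → ∀ t ∈ Icc (0:ℝ) (2 * π), ‖ga' G u t - ga' G v t‖ ≤ CL * ‖u - v‖ := by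
  have hUS : IsCompact (L.US G) := LB.isCompact_US h.bl.cpt
  have hK : IsCompact (L.US G ×ˢ Icc (0:ℝ) (2 * π)) := hUS.prod isCompact_Icc
  obtain ⟨δ₁, hδ₁, C₁, hC₁, h₁⟩ := exists_unif hK (isOpen_fd G)
    (f := fl G) (fun q hq => complete G hq.1.1 q.2) (contDiffOn_fl G)
  refine ⟨δ₁, hδ₁, C₁, by linarith, fun u hu v hv huv t ht => ?_⟩
  have h2 := (h₁ (v, t) ⟨hv, ht⟩).2.1 (u, t) (by
    rw [Metric.mem_ball, dist_eq_norm, Prod.mk_sub_mk, sub_self, Prod.norm_mk, norm_zero,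
      max_eq_left (norm_nonneg _)]
    exact huv) (v, t) (Metric.mem_ball_self hδ₁)
  have h3 : ‖((u, t) : (Euc N × Euc N) × ℝ) - (v, t)‖ = ‖u - v‖ := by
    rw [Prod.mk_sub_mk, sub_self, Prod.norm_mk, norm_zero, max_eq_left (norm_nonneg _)]
  rw [h3] at h2
  refine le_trans ?_ h2
  exact norm_snd_le (fl G (u, t) - fl G (v, t))

end Crest.Agent.R208.NG
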