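import Crest.Agent.R208.NR3
import Crest.Agent.R208.FV3

/-!
R208, block (U1) (helper378), part 2: the `L²`-nearest geodesic `gg` is equivariant and smooth on
circle families of loops; smoothness of the `L²`- and `H¹`-distances.
-/

set_option autoImplicit false
set_option linter.unusedSectionVars false

open Set Filter Topology Module MeasureTheory
open scoped ContDiff RealInnerProductSpace Real
open Crest.GeometryTopology.Submanifold
open Crest.Agent.R241.DDefs Crest.Agent.R241.D Crest.Agent.R241.D2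
open Crest.Agent.R208.FI (Clo Sub Tan)
open Crest.Agent.R208.L (US dfl)
open Crest.Agent.R208.MS (oc Fam Loop)

noncomputable section

namespace Crest.Agent.R208.NR

variable {n N : ℕ} {κ : ℝ} {S : Set (Euc N)} {G : Geo n N κ S}
  {gg : (ℝ → Euc N) → Euc N × Euc N} {η C : ℝ}

theorem D2_nonneg (c : ℝ → Euc N) (v : Euc N × Euc N) : 0 ≤ D2 G c v :=
  intervalIntegral.integral_nonneg two_pi_nonneg fun _ _ => sq_nonneg _

/-- the `L²` distance of the rotated loop -/
theorem D2_shift (hper : HS.Per G) {c : ℝ → Euc N} (hcp : ∀ t, c (t + 2 * π) = c t)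
    {v : Euc N × Euc N} (hv : v ∈ US G) (s : ℝ) :
    D2 G (fun t => c (t + s)) v = D2 G c (fl G (v, -s)) := by
  have hP : Function.Periodic (fun t => ‖c t - ga G v (t - s)‖ ^ 2) (2 * π) := by
    intro t
    have h1 : t + 2 * π - s = (t - s) + 2 * π := by ring
    simp only [h1, hcp, ga_per hper hv]
  have h1 : ∀ t, ga G (fl G (v, -s)) t = ga G v (t - s) := by
    intro t
    rw [← ga_add hv.1]
    congr 1
    ring
  have h2 := hP.intervalIntegral_add_eq 0 s
  unfold D2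
  simp only [h1]
  rw [zero_add] at h2
  rw [h2]
  have h3 := intervalIntegral.integral_comp_add_right (a := (0:ℝ)) (b := 2 * π)
    (fun t => ‖c t - ga G v (t - s)‖ ^ 2) s
  simp only [add_sub_cancel_right] at h3
  rw [h3, zero_add, add_comm (2 * π) s]

/-- **equivariance** of the nearest geodesic -/
theorem NG.shift (h : NG G gg η C) (hper : HS.Per G) {c : ℝ → Euc N} (hc : Continuous c)
    (hcp : ∀ t, c (t + 2 * π) = c t) {v : Euc N × Euc N} (hv : v ∈ US G)
    (hd : D2 G c v < η ^ 2) (s : ℝ) : gg (fun t => c (t + s)) = fl G (gg c, s) := by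
  set c' : ℝ → Euc N := fun t => c (t + s) with hc'
  have hcc' : Continuous c' := hc.comp (continuous_add_const s)
  have h1 : fl G (gg c', -s) = gg c := by
    refine h.uniq c hc.continuousOn v hv hd _ (fl_mem_US (h.mem c') _) fun w hw => ?_
    rw [← D2_shift hper hcp (h.mem c') s]
    refine (h.min c' hcc'.continuousOn (fl G (w, s)) (fl_mem_US hw s)).trans (le_of_eq ?_)
    rw [hc', D2_shift hper hcp (fl_mem_US hw s) s, ← fl_add' G hw.1 s (-s), add_neg_cancel, fl_zero]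
  rw [← h1, ← fl_add' G (h.mem c').1 (-s) s, neg_add_cancel, fl_zero]

theorem NG.D2_gg_lt (h : NG G gg η C) {c : ℝ → Euc N} (hc : ContinuousOn c (Icc 0 (2 * π)))
    {v : Euc N × Euc N} (hv : v ∈ US G) (hd : D2 G c v < η ^ 2) : D2 G c (gg c) < η ^ 2 :=
  (h.min c hc v hv).trans_lt hd

/-! ### circle families -/

variable {E : Type} [NormedAddCommGroup E] [NormedSpace ℝ E] [FiniteDimensional ℝ E]
  {X : Set E} {φ : ℝ → E → E} {f : E → Euc N}

/-- the joint map of a circle family -/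
theorem contDiffAt_oc (hφ : CM.Cir X φ) (hf : ∀ z ∈ X, ContDiffAt ℝ ∞ f z) {z : E} (hz : z ∈ X)
    (t : ℝ) : ContDiffAt ℝ ∞ (fun p : E × ℝ => oc φ f p.1 p.2) (z, t) := by
  have h1 : ContDiffAt ℝ ∞ (fun p : E × ℝ => φ p.2 p.1) (z, t) :=
    ContDiffAt.comp (g := fun q : ℝ × E => φ q.1 q.2) (z, t) (hφ.smooth t z hz)
      (contDiffAt_snd.prodMk contDiffAt_fst)
  exact ContDiffAt.comp (g := f) (f := fun p : E × ℝ => φ p.2 p.1) (z, t) (hf _ (hφ.maps t hz)) h1

/-- **smoothness of the nearest geodesic on circle families** -/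
theorem NG.contDiffAt_oc (h : NG G gg η C) (hφ : CM.Cir X φ) (hf : ∀ z ∈ X, ContDiffAt ℝ ∞ f z)
    {z : E} (hz : z ∈ X) {v : Euc N × Euc N} (hv : v ∈ US G) (hd : D2 G (oc φ f z) v < η ^ 2) :
    ContDiffAt ℝ ∞ (fun z' => gg (oc φ f z')) z :=
  h.smooth (fun p : E × ℝ => oc φ f p.1 p.2) z (fun t _ => NR.contDiffAt_oc hφ hf hz t) v hv hd

/-- equivariance on circle families -/
theorem NG.oc_shift (h : NG G gg η C) (hper : HS.Per G) (hφ : CM.Cir X φ) (hf : Fam S X f)
    {z : E} (hz : z ∈ X) {v : Euc N × Euc N} (hv : v ∈ US G) (hd : D2 G (oc φ f z) v < η ^ 2)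
    (s : ℝ) : gg (oc φ f (φ s z)) = fl G (gg (oc φ f z), s) := by
  have hl := MS.loop_oc hφ hf hz
  rw [MS.oc_shift hφ hz s]
  exact h.shift hper hl.smooth.continuous hl.per hv hd s

/-! ### smoothness of integrals over `[a,b]` -/

theorem contDiffAt_int {H : Type} [NormedAddCommGroup H] [NormedSpace ℝ H] {a b : ℝ} (hab : a ≤ b)
    {g : E × ℝ → H} {x : E} (hg : ∀ t ∈ Icc a b, ContDiffAt ℝ ∞ g (x, t)) :
    ContDiffAt ℝ ∞ (fun x => ∫ t in a..b, g (x, t)) x := by
  have h1 : (fun x => ∫ t in a..b, g (x, t)) =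
      fun x => (b - a) • FI.I1 (fun p : E × ℝ => g (p.1, a + p.2 * (b - a))) x := by
    funext x
    unfold FI.I1
    have h2 := intervalIntegral.smul_integral_comp_mul_add (a := (0:ℝ)) (b := 1)
      (fun t => g (x, t)) (b - a) a
    have h3 : (fun s : ℝ => g (x, a + s * (b - a))) = fun s => g (x, (b - a) * s + a) := by
      funext s; congr 2; ring
    simp only at h2 ⊢
    rw [h3, h2]
    congr 1 <;> ring
  rw [h1]
  refine ContDiffAt.const_smul _ (FI.contDiffAt_I1 fun s hs => ?_)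
  refine ContDiffAt.comp (g := g) (f := fun p : E × ℝ => (p.1, a + p.2 * (b - a))) (x, s)
    (hg _ ⟨?_, ?_⟩) ?_
  · have := mul_nonneg hs.1 (sub_nonneg.2 hab)
    simp only
    linarith
  · have := mul_le_mul_of_nonneg_right hs.2 (sub_nonneg.2 hab)
    simp only
    linarith
  · exact contDiffAt_fst.prodMk (contDiffAt_const.add (contDiffAt_snd.mul contDiffAt_const))

/-- the time derivative of a smooth family -/
theorem contDiffAt_deriv_snd {H : Type} [NormedAddCommGroup H] [NormedSpace ℝ H]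
    {g : E × ℝ → H} {x : E} {t : ℝ} (hg : ContDiffAt ℝ ∞ g (x, t)) :
    ContDiffAt ℝ ∞ (fun p : E × ℝ => deriv (fun s => g (p.1, s)) p.2) (x, t) := by
  have h1 : ContDiffAt ℝ ∞ (fun p : E × ℝ => fderiv ℝ g p (0, 1)) (x, t) :=
    (hg.fderiv_right (m := ∞) (by simp)).clm_apply contDiffAt_const
  refine h1.congr_of_eventuallyEq ?_
  have h2 : ∀ᶠ p in 𝓝 (x, t), ContDiffAt ℝ 1 g p :=
    (hg.of_le (by simp)).eventually (by simp)
  filter_upwards [h2] with p hp
  have h3 : HasFDerivAt g (fderiv ℝ g p) (p.1, p.2) := (hp.differentiableAt (by simp)).hasFDerivAt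
  have h4 : HasDerivAt (fun s : ℝ => ((p.1, s) : E × ℝ)) (0, 1) p.2 :=
    (hasDerivAt_const p.2 p.1).prodMk (hasDerivAt_id p.2)
  exact (HasFDerivAt.comp_hasDerivAt (f := fun s : ℝ => ((p.1, s) : E × ℝ)) p.2 h3 h4).deriv

/-- smoothness of the `L²` distance of a family of curves to a family of geodesics -/
theorem contDiffAt_D2 {g : E × ℝ → Euc N} {z : E} (hg : ∀ t ∈ Icc 0 (2 * π), ContDiffAt ℝ ∞ g (z, t))
    {w : E → Euc N × Euc N} (hw : ContDiffAt ℝ ∞ w z) (hwm : w z ∈ US G) :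
    ContDiffAt ℝ ∞ (fun z' => D2 G (fun t => g (z', t)) (w z')) z := by
  refine contDiffAt_int (g := fun p : E × ℝ => ‖g p - ga G (w p.1) p.2‖ ^ 2) two_pi_nonneg
    fun t ht => ContDiffAt.norm_sq ℝ ((hg t ht).sub ?_)
  exact ContDiffAt.comp (g := fun p : (Euc N × Euc N) × ℝ => ga G p.1 p.2)
    (f := fun p : E × ℝ => (w p.1, p.2)) (z, t) (contDiffAt_ga hwm.1 t)
    ((hw.comp (z, t) contDiffAt_fst).prodMk contDiffAt_snd)

/-- squared `L²` distance of the velocities -/
def D2' (G : Geo n N κ S) (c : ℝ → Euc N) (v : Euc N × Euc N) : ℝ :=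
  ∫ t in (0:ℝ)..(2 * π), ‖deriv c t - (fl G (v, t)).2‖ ^ 2

/-- smoothness of the `H¹` distance of a family of curves to a family of geodesics -/
theorem contDiffAt_D2' {g : E × ℝ → Euc N} {z : E}
    (hg : ∀ t ∈ Icc 0 (2 * π), ContDiffAt ℝ ∞ g (z, t))
    {w : E → Euc N × Euc N} (hw : ContDiffAt ℝ ∞ w z) (hwm : w z ∈ US G) :
    ContDiffAt ℝ ∞ (fun z' => D2' G (fun t => g (z', t)) (w z')) z := by
  refine contDiffAt_int (g := fun p : E × ℝ => ‖deriv (fun s => g (p.1, s)) p.2 -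
    (fl G (w p.1, p.2)).2‖ ^ 2) two_pi_nonneg
    fun t ht => ContDiffAt.norm_sq ℝ ((contDiffAt_deriv_snd (hg t ht)).sub ?_)
  exact ContDiffAt.comp (g := fun p : (Euc N × Euc N) × ℝ => (fl G p).2)
    (f := fun p : E × ℝ => (w p.1, p.2)) (z, t) (contDiffAt_fl' G hwm.1 t).snd
    ((hw.comp (z, t) contDiffAt_fst).prodMk contDiffAt_snd)

/-- the distances of a circle family to its nearest geodesic are smooth -/
theorem NG.contDiffAt_D2_oc (h : NG G gg η C) (hφ : CM.Cir X φ)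
    (hf : ∀ z ∈ X, ContDiffAt ℝ ∞ f z) {z : E} (hz : z ∈ X) {v : Euc N × Euc N} (hv : v ∈ US G)
    (hd : D2 G (oc φ f z) v < η ^ 2) :
    ContDiffAt ℝ ∞ (fun z' => D2 G (oc φ f z') (gg (oc φ f z'))) z ∧
      ContDiffAt ℝ ∞ (fun z' => D2' G (oc φ f z') (gg (oc φ f z'))) z :=
  ⟨contDiffAt_D2 (g := fun p : E × ℝ => oc φ f p.1 p.2) (fun t _ => NR.contDiffAt_oc hφ hf hz t)
    (h.contDiffAt_oc hφ hf hz hv hd) (h.mem _),
   contDiffAt_D2' (g := fun p : E × ℝ => oc φ f p.1 p.2) (fun t _ => NR.contDiffAt_oc hφ hf hz t)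
    (h.contDiffAt_oc hφ hf hz hv hd) (h.mem _)⟩

/-- the velocity distance is rotation invariant -/
theorem D2'_shift (hper : HS.Per G) {c : ℝ → Euc N} (hcp : ∀ t, c (t + 2 * π) = c t)
    {v : Euc N × Euc N} (hv : v ∈ US G) (s : ℝ) :
    D2' G (fun t => c (t + s)) v = D2' G c (fl G (v, -s)) := by
  have hdp : ∀ t, deriv c (t + 2 * π) = deriv c t := by
    intro t
    rw [← deriv_comp_add_const]
    congr 1
    funext u
    exact hcp u
  have hP : Function.Periodic (fun t => ‖deriv c t - (fl G (v, t - s)).2‖ ^ 2) (2 * π) := by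
    intro t
    have h1 : t + 2 * π - s = 2 * π + (t - s) := by ring
    have h2 : fl G (v, 2 * π + (t - s)) = fl G (v, t - s) := by
      rw [fl_add' G hv.1, hper v hv.1 hv.2]
    simp only [h1, h2, hdp]
  have h1 : ∀ t, fl G (fl G (v, -s), t) = fl G (v, t - s) := by
    intro t
    rw [← fl_add' G hv.1]
    congr 2
    ring
  have h2 := hP.intervalIntegral_add_eq 0 s
  unfold D2'
  simp only [h1]
  rw [zero_add] at h2
  rw [h2]
  have h3 := intervalIntegral.integral_comp_add_right (a := (0:ℝ)) (b := 2 * π)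
    (fun t => ‖deriv c t - (fl G (v, t - s)).2‖ ^ 2) s
  simp only [add_sub_cancel_right] at h3
  have h4 : ∀ t, deriv (fun t => c (t + s)) t = deriv c (t + s) := fun t =>
    deriv_comp_add_const c s t
  simp only [h4]
  rw [h3, zero_add, add_comm (2 * π) s]

/-- `US G` is nonempty -/
theorem nonempty_US (hne : S.Nonempty) (hn : 1 ≤ n) : (US G).Nonempty := by
  obtain ⟨x, hx⟩ := hne
  have h1 : 0 < finrank ℝ (G.T x) := by rw [G.finrank_T x hx]; omega
  have hb : G.T x ≠ ⊥ := by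
    intro h
    rw [h, finrank_bot] at h1
    omega
  obtain ⟨v, hv, hv0⟩ := Submodule.exists_mem_ne_zero_of_ne_bot hb
  refine ⟨(x, ‖v‖⁻¹ • v), ⟨hx, (G.T x).smul_mem _ hv⟩, ?_⟩
  change ‖‖v‖⁻¹ • v‖ = 1
  rw [norm_smul, norm_inv, norm_norm, inv_mul_cancel₀ (norm_ne_zero_iff.2 hv0)]

/-- **(U1)**: the `L²`-nearest geodesic exists -/
theorem exists_gg (hB : Bl n N κ S G π) : ∃ gg η C, NG G gg η C :=
  exists_NG (LB.clo_US (d := 2 * (n - 1) + 1) (FV.sub_S hB) hB.cpt (by have := hB.hn; omega))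
    (nonempty_US hB.conn.nonempty hB.hn)

end Crest.Agent.R208.NR
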