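import Crest.Agent.R208.NG8
import Crest.Agent.R208.NR4

/-!
R208, block NG (helper131), part NG9: the constants of the natural operator near the closed
geodesics, existence.
-/

set_option autoImplicit false

open Set Filter Topology MeasureTheory
open scoped ContDiff RealInnerProductSpace Real
open Crest.GeometryTopology.Submanifold
open Crest.Agent.R241.DDefs Crest.Agent.R241.D Crest.Agent.R241.D2
open Crest.Agent.R208.MS (exists_unif P_self P_mem Retr En Loop NearUM Close)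
open Crest.Agent.R208.NN (Wt fd fd' nuP hasDerivAt_fd continuous_fd' fd_mem fld_fd Rt ev)
open Crest.Agent.R208.NB (NegB npr)
open Crest.Agent.R208.FI (Tan)

noncomputable section

namespace Crest.Agent.R208.NG

variable {n N k K : ℕ} {κ : ℝ} {S : Set (Euc N)} {G : Geo n N κ S} {ρ : Euc N → Euc N} {δ C : ℝ}
  {z : Euc N × Euc N} {δN : ℝ} {PN : Euc N × Euc N → Wt N K →L[ℝ] Wt N K}
  {gg : (ℝ → Euc N) → Euc N × Euc N} {e Cg a ε ηc : ℝ} {c : ℝ → Euc N}

/-- (U1) in the present format -/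
theorem gg_of_NG {η C' : ℝ} (hper : HS.Per G) (h : NR.NG G gg η C') : GG G gg η (C' ^ 2) where
  pos := h.η_pos
  mem := fun c _ => h.mem c
  min := fun c hc v hv => h.min c hc v hv
  orth := fun c hc ξ hξ => h.orth c hc ξ hξ
  lip := fun c hc v hv hd => by
    have h1 := h.lip c hc v hv hd
    have h2 := pow_le_pow_left₀ (norm_nonneg _) h1 2
    have h3 : Real.sqrt (NR.D2 G c v) ^ 2 = L2 G c v :=
      Real.sq_sqrt (intervalIntegral.integral_nonneg (by positivity) fun _ _ => by positivity)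
    rw [mul_pow, h3] at h2
    exact h2
  equi := fun c hc hp hD s => by
    obtain ⟨v, hv, hd⟩ := hD
    exact h.shift hper hc hp hv hd s
  smooth := fun E _ _ _ F x hF hD => by
    obtain ⟨v, hv, hd⟩ := hD
    exact h.smooth F x hF v hv hd

/-- the constants -/
structure KC (G : Geo n N κ S) (K : ℕ) (ρ : Euc N → Euc N) (δ δN : ℝ)
    (PN : Euc N × Euc N → Wt N K →L[ℝ] Wt N K) (gg : (ℝ → Euc N) → Euc N × Euc N)
    (e a ε ηc : ℝ) : Prop where
  apos : 0 < a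
  ae : 4 * a ^ 2 ≤ e ^ 2
  api : a ^ 2 ≤ π
  eps : 0 < ε
  tube : ∀ c, Loop S c → dd G gg c < a ^ 2 → ∀ s : ℝ, 0 ≤ s → s ≤ 1 → ∀ t,
    ‖dv G (gg c) c t + s • ((2:ℝ) • fd G (gg c) (nuP K) (nn G K δN PN (gg c) c) t -
      dv G (gg c) c t)‖ < δ
  enB : ∀ c, Loop S c → dd G gg c < a ^ 2 → ∀ s : ℝ, 0 ≤ s → s ≤ 1 →
    En (sg G K ρ δN PN (gg c) c s) ≤ π + 1
  low : ∀ c, Loop S c → dd G gg c < a ^ 2 → En c ≤ π → ∀ s : ℝ, 0 ≤ s → s ≤ 1 →
    En (sg G K ρ δN PN (gg c) c s) ≤ En c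
  big : ∀ c, Loop S c → dd G gg c < a ^ 2 → a ^ 2 / 4 ≤ dd G gg c → En c ≤ π →
    3 ≤ ‖ww G K δN PN gg ε c‖ ^ 2
  std : ∀ c, Loop S c → dd G gg c < a ^ 2 →
    En (sg G K ρ δN PN (gg c) c 1) ≤ π - δN / 4 * ‖(2:ℝ) • mm G K δN PN gg c‖ ^ 2
  nr : ∀ c, Loop S c → NearUM G ηc c → dd G gg c < a ^ 2 / 4

theorem Exp_ga {x v : Euc N} (hx : x ∈ S) (hv : v ∈ G.T x) (t : ℝ) :
    Exp G x (t • v) = ga G (x, v) t := by
  have := fl_scale (G := G) (x := x) (v := v) ⟨hx, hv⟩ t 1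
  rw [Exp, ga]
  rw [mul_one] at this
  rw [this]

theorem En_rho_le (hc : Cst G ρ δ C) (hz : z ∈ TS G) (hz1 : ‖z.2‖ = 1) {u u' : ℝ → Euc N}
    (hu : ∀ t, HasDerivAt u (u' t) t) (hu' : Continuous u') (hb : ∀ t, ‖u t‖ < δ)
    (hb1 : ∀ t, C * ‖u t‖ ≤ 1 / 20) :
    En (fun t => ρ (ga G z t + u t)) ≤ 5 / 4 * π + 5 * ∫ t in (0:ℝ)..(2 * π), ‖u' t‖ ^ 2 := by
  have hpi : (0:ℝ) ≤ 2 * π := by positivity
  have hucont : Continuous u := continuous_iff_continuousAt.2 fun t => (hu t).continuousAt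
  have hd : ∀ t, deriv (fun t => ρ (ga G z t + u t)) t =
      fderiv ℝ ρ (ga G z t + u t) (ga' G z t + u' t) := fun t =>
    (hda_rho hc hz (hu t) (hb t)).deriv
  have hF := cont_fdrho hc hz hucont hb
  have hcd : Continuous fun t => fderiv ℝ ρ (ga G z t + u t) (ga' G z t + u' t) :=
    hF.clm_apply ((cont_ga' hz).add hu')
  unfold En
  simp only [hd]
  have h1 : ∀ t ∈ Icc (0:ℝ) (2 * π), ‖fderiv ℝ ρ (ga G z t + u t) (ga' G z t + u' t)‖ ^ 2 ≤
      5 / 4 * 2 + 10 * ‖u' t‖ ^ 2 - 5 / 4 := by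
    intro t _
    set w := ga' G z t + u' t with hw
    have e1 : ‖ga' G z t‖ = 1 := by rw [ga', norm_fl G hz, hz1]
    have e2 : ‖w‖ ≤ 1 + ‖u' t‖ := (norm_add_le _ _).trans (by rw [e1])
    have e3 := hc.l1 _ (ga_mem hz t) (ga G z t + u t) (by simpa using hb t)
    rw [add_sub_cancel_left] at e3
    have e4 : ‖fderiv ℝ ρ (ga G z t + u t) w‖ ≤ 21 / 20 * ‖w‖ := by
      have e5 : fderiv ℝ ρ (ga G z t + u t) w =
          G.P (ga G z t) w + (fderiv ℝ ρ (ga G z t + u t) - G.P (ga G z t)) w := by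
        simp
      rw [e5]
      refine (norm_add_le _ _).trans ?_
      have e6 := norm_P_le (G := G) (ga_mem hz t) w
      have e7 := ((fderiv ℝ ρ (ga G z t + u t) - G.P (ga G z t)).le_opNorm w).trans
        (mul_le_mul_of_nonneg_right (e3.trans (hb1 t)) (norm_nonneg w))
      linarith
    have e8 : ‖fderiv ℝ ρ (ga G z t + u t) w‖ ≤ 21 / 20 * (1 + ‖u' t‖) := by
      nlinarith [norm_nonneg w]
    have e9 := pow_le_pow_left₀ (norm_nonneg _) e8 2
    nlinarith [sq_nonneg (1 - 8 * ‖u' t‖), norm_nonneg (u' t)]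
  have h0 : Continuous fun t => ‖fderiv ℝ ρ (ga G z t + u t) (ga' G z t + u' t)‖ ^ 2 :=
    hcd.norm.pow 2
  have h2 := intervalIntegral.integral_mono_on (a := 0) (b := 2 * π) (μ := volume) hpi
    (h0.intervalIntegrable _ _)
    (Continuous.intervalIntegrable (by fun_prop) _ _) h1
  have h3 : (∫ t in (0:ℝ)..(2 * π), (5 / 4 * 2 + 10 * ‖u' t‖ ^ 2 - 5 / 4)) =
      10 * (∫ t in (0:ℝ)..(2 * π), ‖u' t‖ ^ 2) + 5 / 4 * (2 * π) := by
    have e1 : ∀ t, (5 / 4 * 2 + 10 * ‖u' t‖ ^ 2 - 5 / 4) = 10 * ‖u' t‖ ^ 2 + 5 / 4 := fun t => by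
      ring
    simp only [e1]
    rw [intervalIntegral.integral_add (Continuous.intervalIntegrable (by fun_prop) _ _)
      intervalIntegrable_const, intervalIntegral.integral_const_mul,
      intervalIntegral.integral_const, smul_eq_mul]
    ring
  rw [h3] at h2
  linarith

/-- the `N`-component is controlled by the distance -/
theorem exists_norm_mm (h : GT.Bla G k) (H : NegB G (k - 1) (nuP K) δN PN)
    (hg : GG G gg e Cg) :
    ∃ Cm ≥ 0, ∀ c, Loop S c → ‖mm G K δN PN gg c‖ ^ 2 ≤ Cm ^ 2 * dd G gg c := by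
  obtain ⟨Cn, hCn0, hCn⟩ := H.exists_bound_npr_sq h.bl.cpt
  refine ⟨Real.sqrt Cn, Real.sqrt_nonneg _, fun c hc => ?_⟩
  rw [Real.sq_sqrt hCn0]
  have hz := hg.mem c (Loop.contOn hc _)
  have hcw := cont_dv hz.1 hc
  have hPF : Continuous (PF G (gg c) (dv G (gg c) c)) :=
    continuous_iff_continuousAt.2 fun t => (hda_PF hz.1 (hda_dv hz.1 hc t)).continuousAt
  refine (hCn (gg c) hz _ hPF.continuousOn).trans (mul_le_mul_of_nonneg_left ?_ hCn0)
  refine le_trans ?_ (dd_ge (G := G) (gg := gg) (c := c))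
  refine intervalIntegral.integral_mono_on (by positivity) ((hPF.norm.pow 2).intervalIntegrable _ _)
    ((hcw.norm.pow 2).intervalIntegrable _ _) fun t _ => ?_
  exact pow_le_pow_left₀ (norm_nonneg _) (norm_P_le (ga_mem hz.1 t) _) 2

end Crest.Agent.R208.NG
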