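import Crest.Agent.R208.MS5

/-!
R208, block NL (helper530), part NL1: the last stage of the natural contraction, the retracted
linear homotopy of a loop of small energy to (the retraction of) its mean.
-/

set_option autoImplicit false
set_option linter.unusedSectionVars false

open Set Filter Topology MeasureTheory
open scoped ContDiff RealInnerProductSpace Real
open Crest.GeometryTopology.Submanifold
open Crest.Agent.R241.DDefs Crest.Agent.R241.D Crest.Agent.R241.D2
open Crest.Agent.R208.MS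

noncomputable section

namespace Crest.Agent.R208.NL

variable {n N : ℕ} {κ : ℝ} {S : Set (Euc N)} {ρ : Euc N → Euc N} {r' K η : ℝ} {c : ℝ → Euc N}

/-- the mean of a loop -/
def mn (c : ℝ → Euc N) : Euc N := (1 / (2 * π)) • ∫ t in (0:ℝ)..(2 * π), c t

/-- the last stage of the contraction -/
def ac (ρ : Euc N → Euc N) (σ : ℝ) (c : ℝ → Euc N) (t : ℝ) : Euc N :=
  ρ ((1 - σ) • c t + σ • mn c)

/-- `η` is small -/
structure Sm2 (r' K η : ℝ) : Prop where
  s0 : 0 ≤ η
  s1 : 4 * π * η < r' ^ 2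
  s2 : 8 * K ^ 2 * (4 * π * η) ≤ 1

theorem exists_sm2 (hr' : 0 < r') (K : ℝ) : ∃ η₀ > 0, ∀ η, 0 ≤ η → η ≤ η₀ → Sm2 r' K η := by
  have hπ := Real.pi_pos
  refine ⟨min (r' ^ 2 / (8 * π)) (1 / (32 * π * (K ^ 2 + 1))), by positivity, fun η h0 h1 => ?_⟩
  have h2 := h1.trans (min_le_left _ _)
  have h3 := h1.trans (min_le_right _ _)
  rw [le_div_iff₀ (by positivity)] at h2 h3
  refine ⟨h0, ?_, ?_⟩
  · have : 0 < r' ^ 2 := by positivity
    nlinarith
  · have : 0 ≤ π * η := by positivity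
    nlinarith

theorem Sm2.mono {η' : ℝ} (h : Sm2 r' K η) (h0 : 0 ≤ η') (h1 : η' ≤ η) : Sm2 r' K η' := by
  have hπ := Real.pi_pos
  have h2 : 4 * π * η' ≤ 4 * π * η := by gcongr
  exact ⟨h0, h2.trans_lt h.s1, (mul_le_mul_of_nonneg_left h2 (by positivity)).trans h.s2⟩

theorem mn_shift (hc : Loop S c) (s : ℝ) : mn (fun t => c (t + s)) = mn c := by
  unfold mn
  congr 1
  rw [intervalIntegral.integral_comp_add_right c s, zero_add]
  have h : Function.Periodic c (2 * π) := hc.per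
  have := h.intervalIntegral_add_eq s 0
  rw [zero_add] at this
  rw [← this, add_comm]

theorem mn_const (x : Euc N) : mn (fun _ => x) = x := by
  unfold mn
  have hπ := Real.pi_pos
  rw [intervalIntegral.integral_const, sub_zero, smul_smul, one_div_mul_cancel (by positivity),
    one_smul]

theorem mn_sub_sq_le (hc : Loop S c) (hB : En c ≤ η) (t : ℝ) : ‖mn c - c t‖ ^ 2 ≤ 4 * π * η := by
  have hπ := Real.pi_pos
  have hη : 0 ≤ η := (En_nonneg c).trans hB
  rw [← mn_shift hc t]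
  have e1 : mn (fun u => c (u + t)) - c t =
      (1 / (2 * π)) • ∫ u in (0:ℝ)..(2 * π), (c (u + t) - c t) := by
    rw [intervalIntegral.integral_sub _ intervalIntegrable_const, intervalIntegral.integral_const,
      sub_zero, smul_sub, mn, smul_smul, one_div_mul_cancel (by positivity), one_smul]
    exact (hc.smooth.continuous.comp (by fun_prop)).intervalIntegrable _ _
  rw [e1]
  have h2 := norm_avg_sq_le (f := fun u => c (u + t) - c t)
    ((hc.smooth.continuous.comp (by fun_prop)).sub continuous_const) (w := 2 * π) (by positivity)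
  refine h2.trans ?_
  have h3 : ∫ u in (0:ℝ)..(2 * π), ‖c (u + t) - c t‖ ^ 2 ≤
      ∫ _u in (0:ℝ)..(2 * π), 4 * π * η := by
    refine intervalIntegral.integral_mono_on (by positivity) ?_ intervalIntegrable_const ?_
    · have h4 : Continuous fun u => c (u + t) - c t :=
        (hc.smooth.continuous.comp (by fun_prop)).sub continuous_const
      exact (h4.norm.pow 2).intervalIntegrable _ _
    · intro u hu
      have h4 := hc.dist_le hB t hu.1 hu.2
      rw [norm_sub_rev, add_comm t u] at h4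
      refine h4.trans ?_
      have := hu.2
      nlinarith
  rw [intervalIntegral.integral_const, smul_eq_mul, sub_zero] at h3
  have h5 := mul_le_mul_of_nonneg_left h3 (show (0:ℝ) ≤ 1 / (2 * π) by positivity)
  refine h5.trans (le_of_eq ?_)
  field_simp

theorem ac_close (hs : Sm2 r' K η) (hr' : 0 < r') (hc : Loop S c) {σ : ℝ}
    (hB : σ = 0 ∨ En c ≤ η)
    (h0 : 0 ≤ σ) (h1 : σ ≤ 1) (t : ℝ) : ‖((1 - σ) • c t + σ • mn c) - c t‖ < r' := by
  have h2 : ((1 - σ) • c t + σ • mn c) - c t = σ • (mn c - c t) := by module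
  rcases hB with rfl | hB
  · rw [h2, zero_smul, norm_zero]
    exact hr'
  rw [h2, norm_smul, Real.norm_eq_abs, abs_of_nonneg h0]
  have h3 : ‖mn c - c t‖ < r' := by
    refine lt_of_pow_lt_pow_left₀ 2 hr'.le ?_
    exact (mn_sub_sq_le hc hB t).trans_lt hs.s1
  exact lt_of_le_of_lt (mul_le_of_le_one_left (norm_nonneg _) h1) h3

variable (hR : Retr S ρ r' K)

include hR in
theorem loop_ac (hs : Sm2 r' K η) (hc : Loop S c) {σ : ℝ} (hB : σ = 0 ∨ En c ≤ η)
    (h0 : 0 ≤ σ) (h1 : σ ≤ 1) : Loop S (ac ρ σ c) := by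
  refine ⟨?_, ?_, ?_⟩
  · rw [contDiff_iff_contDiffAt]
    intro t
    have h2 := hR.smooth (c t) (hc.mem t) _ (ac_close hs hR.r_pos hc hB h0 h1 t)
    have h3 : ContDiff ℝ ∞ fun t => (1 - σ) • c t + σ • mn c :=
      (hc.smooth.const_smul (1 - σ)).add contDiff_const
    exact ContDiffAt.comp t h2 h3.contDiffAt
  · intro t
    simp only [ac, hc.per]
  · intro t
    exact hR.mem (c t) (hc.mem t) _ (ac_close hs hR.r_pos hc hB h0 h1 t)

theorem ac_shift (hc : Loop S c) (σ s t : ℝ) :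
    ac ρ σ (fun u => c (u + s)) t = ac ρ σ c (t + s) := by
  unfold ac
  rw [mn_shift hc]

include hR in
theorem ac_zero (hc : Loop S c) (t : ℝ) : ac ρ 0 c t = c t := by
  unfold ac
  rw [sub_zero, one_smul, zero_smul, add_zero]
  exact hR.eq _ (hc.mem t)

theorem ac_one (t : ℝ) : ac ρ 1 c t = ρ (mn c) := by
  unfold ac
  rw [sub_self, one_smul, zero_smul, zero_add]

include hR in
theorem ac_const {x : Euc N} (hx : x ∈ S) (σ t : ℝ) : ac ρ σ (fun _ => x) t = x := by
  unfold ac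
  rw [mn_const, ← add_smul, sub_add_cancel, one_smul]
  exact hR.eq x hx

include hR in
theorem norm_fderiv_le {x q : Euc N} (hx : x ∈ S) (hq : ‖q - x‖ < r') :
    ‖fderiv ℝ ρ q‖ ≤ 1 + K * ‖q - x‖ := by
  have h1 := hR.lip x hx q hq
  have h2 := hR.fd x hx x (by rw [sub_self, norm_zero]; exact hR.r_pos)
  rw [hR.eq x hx, sub_self, norm_zero, mul_zero, add_zero] at h2
  have h3 : fderiv ℝ ρ q = (fderiv ℝ ρ q - fderiv ℝ ρ x) + fderiv ℝ ρ x := by abel
  rw [h3]
  have := norm_add_le (fderiv ℝ ρ q - fderiv ℝ ρ x) (fderiv ℝ ρ x)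
  linarith

include hR in
theorem En_ac_le (hs : Sm2 r' K η) (hc : Loop S c) (hB : En c ≤ η) {σ : ℝ}
    (h0 : 0 ≤ σ) (h1 : σ ≤ 1) : En (ac ρ σ c) ≤ 2 * En c := by
  have hπ := Real.pi_pos
  have hK := hR.one_le
  have hL := loop_ac hR hs hc (Or.inr hB) h0 h1
  have hd : ∀ t, deriv (ac ρ σ c) t =
      fderiv ℝ ρ ((1 - σ) • c t + σ • mn c) ((1 - σ) • deriv c t) := by
    intro t
    have h2 := hR.smooth (c t) (hc.mem t) _ (ac_close hs hR.r_pos hc (Or.inr hB) h0 h1 t)
    have h3 : HasDerivAt (fun t => (1 - σ) • c t + σ • mn c) ((1 - σ) • deriv c t) t :=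
      ((hc.hasDerivAt t).const_smul (1 - σ)).add_const _
    exact ((h2.differentiableAt (by simp)).hasFDerivAt.comp_hasDerivAt t h3).deriv
  have hpt : ∀ t, ‖deriv (ac ρ σ c) t‖ ^ 2 ≤ 2 * ‖deriv c t‖ ^ 2 := by
    intro t
    rw [hd]
    set q := (1 - σ) • c t + σ • mn c with hq
    have h2 : ‖fderiv ℝ ρ q‖ ≤ 1 + K * ‖q - c t‖ :=
      norm_fderiv_le hR (hc.mem t) (ac_close hs hR.r_pos hc (Or.inr hB) h0 h1 t)
    have h3 : ‖q - c t‖ ^ 2 ≤ 4 * π * η := by
      have h4 : q - c t = σ • (mn c - c t) := by rw [hq]; module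
      rw [h4, norm_smul, mul_pow, Real.norm_eq_abs, sq_abs]
      have h5 := mn_sub_sq_le hc hB t
      have h6 : σ ^ 2 ≤ 1 := by nlinarith
      exact (mul_le_of_le_one_left (by positivity) h6).trans h5
    have h4 : ‖fderiv ℝ ρ q‖ ^ 2 ≤ 2 := by
      set d := ‖q - c t‖
      have h5 : (K * d) ^ 2 ≤ 1 / 8 := by
        rw [mul_pow]
        have := mul_le_mul_of_nonneg_left h3 (show (0:ℝ) ≤ K ^ 2 by positivity)
        have := hs.s2
        linarith
      have h6 : ‖fderiv ℝ ρ q‖ ^ 2 ≤ (1 + K * d) ^ 2 := pow_le_pow_left₀ (norm_nonneg _) h2 2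
      have h7 : K * d ≤ 3 / 8 := by
        by_contra hcon
        push Not at hcon
        nlinarith
      nlinarith
    have h5 : ‖fderiv ℝ ρ q ((1 - σ) • deriv c t)‖ ≤ ‖fderiv ℝ ρ q‖ * ‖deriv c t‖ := by
      refine (ContinuousLinearMap.le_opNorm _ _).trans ?_
      refine mul_le_mul_of_nonneg_left ?_ (norm_nonneg _)
      rw [norm_smul, Real.norm_eq_abs, abs_of_nonneg (by linarith)]
      exact mul_le_of_le_one_left (norm_nonneg _) (by linarith)
    have h6 := pow_le_pow_left₀ (norm_nonneg _) h5 2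
    rw [mul_pow] at h6
    refine h6.trans (mul_le_mul_of_nonneg_right h4 (by positivity))
  have h2 : ∫ t in (0:ℝ)..(2 * π), ‖deriv (ac ρ σ c) t‖ ^ 2 ≤
      ∫ t in (0:ℝ)..(2 * π), 2 * ‖deriv c t‖ ^ 2 := by
    refine intervalIntegral.integral_mono_on (by positivity)
      (hL.continuous_sq.intervalIntegrable _ _) ?_ fun t _ => hpt t
    exact (hc.continuous_sq.const_mul 2).intervalIntegrable _ _
  rw [intervalIntegral.integral_const_mul, int_eq_En, int_eq_En] at h2
  linarith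

/-! ### families -/
variable {E : Type} [NormedAddCommGroup E] [NormedSpace ℝ E] [FiniteDimensional ℝ E]
variable {X : Set E} {φ : ℝ → E → E} {f : E → Euc N}

theorem contDiffAt_mn (hφ : CM.Cir X φ) (hf : Fam S X f) {z : E} (hz : z ∈ X) :
    ContDiffAt ℝ ∞ (fun z => mn (oc φ f z)) z := by
  have hπ := Real.pi_pos
  have e1 : (fun z => mn (oc φ f z)) = FI.I1 (fun q : E × ℝ => f (φ (2 * π * q.2) q.1)) := by
    funext z
    unfold mn FI.I1 oc
    have h1 := intervalIntegral.integral_comp_mul_left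
      (f := fun t => f (φ t z)) (a := 0) (b := 1) (c := 2 * π) (by positivity)
    rw [mul_zero, mul_one] at h1
    rw [one_div, ← h1]
  rw [e1]
  refine FI.contDiffAt_I1 fun τ _ => ?_
  have h1 : ContDiffAt ℝ ∞ (fun q : E × ℝ => (2 * π * q.2, q.1)) (z, τ) := by fun_prop
  have h2 : ContDiffAt ℝ ∞ (fun q : E × ℝ => φ (2 * π * q.2) q.1) (z, τ) :=
    ContDiffAt.comp (z, τ) (g := fun q : ℝ × E => φ q.1 q.2) (hφ.smooth _ z hz) h1
  exact ContDiffAt.comp (z, τ) (hf.smooth _ (hφ.maps _ hz)) h2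

/-- the family has orbit loops `c` -/
theorem contDiffAt_oc0 (hφ : CM.Cir X φ) (hf : Fam S X f) {z : E} (hz : z ∈ X) :
    ContDiffAt ℝ ∞ (fun z => oc φ f z 0) z := by
  have := hf.smooth _ (hφ.maps 0 hz)
  exact ContDiffAt.comp z this (hφ.smooth_right 0 hz)

/-- smooth invariant function with values in `[0,1]` -/
structure Cut (X : Set E) (φ : ℝ → E → E) (σ : E → ℝ) : Prop where
  smooth : ∀ z ∈ X, ContDiffAt ℝ ∞ σ z
  nonneg : ∀ z ∈ X, 0 ≤ σ z
  le_one : ∀ z ∈ X, σ z ≤ 1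
  inv : ∀ z ∈ X, ∀ t, σ (φ t z) = σ z

variable {σ : E → ℝ}

/-- the last stage on families, variable time -/
def fac (φ : ℝ → E → E) (ρ : Euc N → Euc N) (σ : E → ℝ) (f : E → Euc N) (z : E) : Euc N :=
  ac ρ (σ z) (oc φ f z) 0

theorem oc_fac (hφ : CM.Cir X φ) (hf : Fam S X f) (hσ : Cut X φ σ) {z : E} (hz : z ∈ X) :
    oc φ (fac φ ρ σ f) z = ac ρ (σ z) (oc φ f z) := by
  funext t
  change fac φ ρ σ f (φ t z) = _
  unfold fac
  rw [oc_shift hφ hz, ac_shift (loop_oc hφ hf hz), zero_add, hσ.inv z hz]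

include hR in
theorem fam_fac (hφ : CM.Cir X φ) (hf : Fam S X f) (hσ : Cut X φ σ) (hs : Sm2 r' K η)
    (hB : ∀ z ∈ X, σ z = 0 ∨ En (oc φ f z) ≤ η) : Fam S X (fac φ ρ σ f) := by
  refine ⟨fun z hz => ?_, fun z hz => ?_⟩
  · have hL := loop_oc hφ hf hz
    have e1 := contDiffAt_mn hφ hf hz
    have e2 := contDiffAt_oc0 hφ hf hz
    have e3 : ContDiffAt ℝ ∞ (fun z => (1 - σ z) • oc φ f z 0 + σ z • mn (oc φ f z)) z :=
      ((contDiffAt_const.sub (hσ.smooth z hz)).smul e2).add ((hσ.smooth z hz).smul e1)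
    have e4 := hR.smooth _ (hL.mem 0) _
      (ac_close hs hR.r_pos hL (hB z hz) (hσ.nonneg z hz) (hσ.le_one z hz) 0)
    exact ContDiffAt.comp z (g := ρ) e4 e3
  · exact (loop_ac hR hs (loop_oc hφ hf hz) (hB z hz) (hσ.nonneg z hz) (hσ.le_one z hz)).mem 0

/-! ### the Birkhoff step with variable time -/
variable {G : Geo n N κ S} {lg : Euc N → Euc N → Euc N} {r C B w : ℝ}

/-- the step on families, variable time -/
def fsv (φ : ℝ → E → E) (G : Geo n N κ S) (lg : Euc N → Euc N → Euc N) (ρ : Euc N → Euc N)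
    (w : ℝ) (σ : E → ℝ) (f : E → Euc N) (z : E) : Euc N := st G lg ρ w (σ z) (oc φ f z) 0

theorem oc_fsv (hφ : CM.Cir X φ) (hσ : Cut X φ σ) {z : E} (hz : z ∈ X) :
    oc φ (fsv φ G lg ρ w σ f) z = st G lg ρ w (σ z) (oc φ f z) := by
  funext t
  change fsv φ G lg ρ w σ f (φ t z) = _
  unfold fsv
  rw [oc_shift hφ hz, st_shift, zero_add, hσ.inv z hz]

include hR in
theorem fam_fsv (hsg : SG G lg r C) (hφ : CM.Cir X φ) (hf : Fam S X f) (hσ : Cut X φ σ)
    (hs : Small r C r' K B w) (hB : ∀ z ∈ X, En (oc φ f z) ≤ B) :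
    Fam S X (fsv φ G lg ρ w σ f) := by
  refine ⟨fun z hz => ?_, fun z hz => ?_⟩
  · have h1 := MS.contDiffAt_fst hsg hR hφ hf hs hz (hB z hz) (hσ.nonneg z hz) (hσ.le_one z hz)
    have h2 : ContDiffAt ℝ ∞ (fun z : E => (z, σ z)) z := contDiffAt_id.prodMk (hσ.smooth z hz)
    exact ContDiffAt.comp z (g := fun q : E × ℝ => fst φ G lg ρ w q.2 f q.1) h1 h2
  · exact (loop_st hsg hR (loop_oc hφ hf hz) (hB z hz) hs (hσ.nonneg z hz)
      (hσ.le_one z hz)).mem 0

end Crest.Agent.R208.NL
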