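import Crest.Agent.R208.NN0b
import Crest.Agent.R208.SV5

/-!
Row 208, block [N], part NN1 (helper589): upper bounds for the index of the closed geodesics.
-/

set_option autoImplicit false

open MeasureTheory Measure Set Filter Topology Module Metric
open scoped ContDiff RealInnerProductSpace
open Crest.GeometryTopology.Submanifold
open Crest.Agent.R241.DDefs
open Crest.Agent.R241.D2
open Crest.Agent.R208.L (om TanTS dfl om_dfl)
open Crest.Agent.R208.FI (Tan Sub)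

noncomputable section

namespace Crest.Agent.R208.NN

variable {n N k K : ℕ} {κ : ℝ} {S : Set (Euc N)} {G : Geo n N κ S} {z ξ : Euc N × Euc N}
  {a b : ℝ} {V V' : ℝ → Euc N}

theorem tanTS_of_Tan (h : GT.Bla G k) (hz : z ∈ L.US G) (hξ : ξ ∈ Tan (L.US G) z) :
    TanTS G z ξ := by
  obtain ⟨h1, h2, -⟩ := (LB.mem_Tan_US (FV.sub_S h.bl) hz).1 hξ
  have h3 : II G z.1 ξ.1 z.2 = II G z.1 z.2 ξ.1 := L.II_symm G hz.1.1 h1 hz.1.2
  have h4 : ξ = (ξ.1, II G z.1 z.2 ξ.1 + G.P z.1 ξ.2) := by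
    refine Prod.ext rfl ?_
    rw [← h3]
    change ξ.2 = fderiv ℝ G.P z.1 ξ.1 z.2 + G.P z.1 ξ.2
    rw [← h2]; abel
  rw [h4]
  exact SV.tanTS_mk hz.1.1 hz.1.2 h1 (P_mem G hz.1.1)

theorem dfl_two_pi (h : GT.Bla G k) (hz : z ∈ L.US G) (hξ : ξ ∈ Tan (L.US G) z) :
    dfl G z (2 * Real.pi) ξ = ξ := by
  have key : Tan (L.US G) z ≤ LinearMap.ker
      ((dfl G z (2 * Real.pi) - ContinuousLinearMap.id ℝ (Euc N × Euc N) :
        Euc N × Euc N →L[ℝ] Euc N × Euc N) : Euc N × Euc N →ₗ[ℝ] Euc N × Euc N) := by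
    rw [Tan, Submodule.span_le]
    rintro v ⟨γ, hγ0, hγ, hγS⟩
    have h1 : HasDerivAt (fun s => fl G (γ s, 2 * Real.pi)) (dfl G z (2 * Real.pi) v) 0 := by
      have h2 : HasFDerivAt (fun y => fl G (y, 2 * Real.pi)) (dfl G z (2 * Real.pi)) (γ 0) := by
        rw [hγ0]; exact L.hasFDerivAt_fl_left hz.1 _
      exact h2.comp_hasDerivAt (0 : ℝ) hγ
    have h2 : (fun s => fl G (γ s, 2 * Real.pi)) =ᶠ[𝓝 0] γ := by
      filter_upwards [hγS] with s hs using h.ty.per _ hs.1 hs.2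
    have h3 := (h1.congr_of_eventuallyEq h2.symm).unique hγ
    change dfl G z (2 * Real.pi) v - v = 0
    rw [h3, sub_self]
  have := key hξ
  exact sub_eq_zero.1 this

theorem fl_two_pi (h : GT.Bla G k) (hz : z ∈ L.US G) : fl G (z, 2 * Real.pi) = z :=
  h.ty.per z hz.1 hz.2

/-- a field which agrees with a periodic Jacobi field at the times `0, π, 2π` has nonnegative
index form -/
theorem nonneg_of_jac (h : GT.Bla G k) (hz : z ∈ L.US G) (hξ : ξ ∈ Tan (L.US G) z)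
    (hV : SV.Fld G z 0 (2 * Real.pi) V V') (h0 : V 0 = SV.jf G z ξ 0)
    (h1 : V Real.pi = SV.jf G z ξ Real.pi) (h2 : V (2 * Real.pi) = SV.jf G z ξ 0) :
    0 ≤ SV.ix G z 0 (2 * Real.pi) V V' V V' := by
  have hpi := Real.pi_pos
  have hT := tanTS_of_Tan h hz hξ
  have hJ := SV.fld_jf hT 0 (2 * Real.pi)
  have hab : (0 : ℝ) ≤ 2 * Real.pi := by positivity
  have hp1 : SV.jf G z ξ (2 * Real.pi) = SV.jf G z ξ 0 := by
    unfold SV.jf; rw [dfl_two_pi h hz hξ, L.dfl_zero hz.1]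
  have hp2 : SV.jf' G z ξ (2 * Real.pi) = SV.jf' G z ξ 0 := by
    unfold SV.jf'; rw [dfl_two_pi h hz hξ, L.dfl_zero hz.1]
  have e1 := SV.ix_sub_self hab hz.1 hV hJ
  have e2 := SV.ix_jac hT hab hV
  have e3 := SV.ix_jac hT hab hJ
  rw [hp2, h2, h0, sub_self] at e2
  rw [hp2, hp1, sub_self] at e3
  rw [e2, e3] at e1
  have e4 : SV.ix G z 0 (2 * Real.pi) V V' V V' = SV.ix G z 0 (2 * Real.pi) (V - SV.jf G z ξ)
      (V' - SV.jf' G z ξ) (V - SV.jf G z ξ) (V' - SV.jf' G z ξ) := by rw [e1]; ring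
  rw [e4]
  have hD := hV.sub hJ
  have hD1 : SV.Fld G z 0 Real.pi (V - SV.jf G z ξ) (V' - SV.jf' G z ξ) :=
    hD.mono (Icc_subset_Icc le_rfl (by linarith))
  have hD2 : SV.Fld G z Real.pi (2 * Real.pi) (V - SV.jf G z ξ) (V' - SV.jf' G z ξ) :=
    hD.mono (Icc_subset_Icc hpi.le le_rfl)
  rw [← SV.ix_add_interval hz.1 hpi.le (by linarith) hD1 hD1 hD2 hD2]
  have z0 : (V - SV.jf G z ξ) 0 = 0 := by rw [Pi.sub_apply, h0, sub_self]
  have z1 : (V - SV.jf G z ξ) Real.pi = 0 := by rw [Pi.sub_apply, h1, sub_self]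
  have z2 : (V - SV.jf G z ξ) (2 * Real.pi) = 0 := by rw [Pi.sub_apply, h2, hp1, sub_self]
  exact add_nonneg (SV.ix_nonneg h.bl hz.1 hz.2 hpi.le (by linarith) hD1 z0 z1)
    (SV.ix_nonneg h.bl hz.1 hz.2 (by linarith) (by linarith) hD2 z1 z2)

/-- the endpoint data of the geodesic of `z` -/
theorem phi_pi (hz : z ∈ L.US G) : (fl G (z, Real.pi)).1 = Exp G z.1 (Real.pi • z.2) :=
  (Exp_smul G hz.1.1 hz.1.2 Real.pi).symm

theorem mem_FF (h : GT.Bla G k) (hz : z ∈ L.US G) : (z.1, (fl G (z, Real.pi)).1) ∈ GT.FF S := by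
  rw [phi_pi hz]; exact h.mem_FF hz.1.1 hz.1.2 hz.2

theorem mem_Vs (hz : z ∈ L.US G) : z.2 ∈ GT.Vs G z.1 (fl G (z, Real.pi)).1 := by
  rw [phi_pi hz]; exact GT.mem_Vs hz.1.2 hz.2

theorem lf_self (h : GT.Bla G k) (hz : z ∈ L.US G) :
    GT.lf G z.1 (fl G (z, Real.pi)).1 z.2 = -(fl G (z, Real.pi)).2 := by
  rw [h.lf_unit (mem_FF h hz) (mem_Vs hz) hz.2]; rfl

theorem pp_two_pi (h : GT.Bla G k) (hz : z ∈ L.US G) {c : ℝ} (hV : V (2 * Real.pi) = c • V 0) :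
    pp G z V (2 * Real.pi) = c • pp G z V 0 := by
  unfold pp
  rw [fl_two_pi h hz, fl_zero, hV, real_inner_smul_left, smul_sub, smul_smul]

/-- the Jacobi field with the orthogonal components of the values of `V` at `0` and `π` -/
theorem exists_jac_per (h : GT.Bla G k) (hz : z ∈ L.US G) (hV0 : V 0 ∈ G.T (fl G (z, 0)).1)
    (hV1 : V Real.pi ∈ G.T (fl G (z, Real.pi)).1)
    (hl : ∀ w ∈ GT.Vs G z.1 (fl G (z, Real.pi)).1, ⟪w, z.2⟫ = 0 →
      ⟪w, V 0⟫ + ⟪GT.lf G z.1 (fl G (z, Real.pi)).1 w, V Real.pi⟫ = 0) :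
    ∃ ξ ∈ Tan (L.US G) z, pp G z V 0 = SV.jf G z ξ 0 ∧ pp G z V Real.pi = SV.jf G z ξ Real.pi := by
  have hz0 : (fl G (z, 0)) = z := fl_zero G z
  have hF := mem_FF h hz
  set q := (fl G (z, Real.pi)).1 with hq
  have hself := lf_self h hz
  rw [← hq] at hself
  have hvV := mem_Vs hz
  rw [← hq] at hvV
  have i0 : ⟪pp G z V 0, z.2⟫ = 0 := by
    have := inner_pp hz.1 hz.2 V 0
    rwa [hz0] at this
  have i1 : ⟪pp G z V Real.pi, (fl G (z, Real.pi)).2⟫ = 0 := inner_pp hz.1 hz.2 V Real.pi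
  have m0 : pp G z V 0 ∈ G.T z.1 := by
    unfold pp
    rw [hz0] at hV0 ⊢
    exact (G.T _).sub_mem hV0 ((G.T _).smul_mem _ hz.1.2)
  have m1 : pp G z V Real.pi ∈ G.T q :=
    (G.T _).sub_mem hV1 ((G.T _).smul_mem _ (fl_mem G hz.1 _).2)
  have hTan : (pp G z V 0, pp G z V Real.pi) ∈ Tan (GT.FF S) (z.1, q) := by
    refine (FV.mem_Tan_FF h hF).2 ⟨m0, m1, ?_⟩
    intro w hw
    set w₀ := w - ⟪w, z.2⟫ • z.2 with hw₀
    have hw₀V : w₀ ∈ GT.Vs G z.1 q := Submodule.sub_mem _ hw (Submodule.smul_mem _ _ hvV)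
    have hw₀z : ⟪w₀, z.2⟫ = 0 := by
      rw [hw₀, inner_sub_left, real_inner_smul_left, real_inner_self_eq_norm_sq, hz.2]; ring
    have e1 := hl w₀ hw₀V hw₀z
    have e2 : ⟪w₀, pp G z V 0⟫ = ⟪w₀, V 0⟫ := by
      unfold pp
      rw [hz0, inner_sub_right, real_inner_smul_right, hw₀z]; ring
    have e3 : ⟪GT.lf G z.1 q w₀, pp G z V Real.pi⟫ = ⟪GT.lf G z.1 q w₀, V Real.pi⟫ := by
      unfold pp
      have e4 : ⟪GT.lf G z.1 q w₀, (fl G (z, Real.pi)).2⟫ = 0 := by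
        have e5 := h.inner_lf hF hw₀V hvV
        rw [hself, inner_neg_right, hw₀z] at e5
        linarith
      rw [inner_sub_right, real_inner_smul_right, e4]; ring
    have e6 : w = w₀ + ⟪w, z.2⟫ • z.2 := by rw [hw₀]; abel
    have i0' : ⟪z.2, pp G z V 0⟫ = 0 := by rw [real_inner_comm]; exact i0
    have i1' : ⟪(fl G (z, Real.pi)).2, pp G z V Real.pi⟫ = 0 := by rw [real_inner_comm]; exact i1
    rw [e6, map_add, map_smul, hself, inner_add_left, inner_add_left, real_inner_smul_left,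
      real_inner_smul_left, inner_neg_left, e2, e3, i0', i1']
    linarith
  have hphi : FV.phi G z = (z.1, q) := Prod.ext rfl (phi_pi hz).symm
  have hTan' : (pp G z V 0, pp G z V Real.pi) ∈ Tan (FV.FF G) (FV.phi G z) := by
    rw [hphi]; exact hTan
  rw [FV.Tan_FF h.bl h.ty (FV.sub_S h.bl) hz] at hTan'
  obtain ⟨ξ, hξ, hξe⟩ := hTan'
  have hξT := tanTS_of_Tan h hz hξ
  have hξe' : fderiv ℝ (FV.phi G) z ξ = (pp G z V 0, pp G z V Real.pi) := hξe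
  rw [FV.fderiv_phi_eq hz.1 hξT] at hξe'
  have j0 : SV.jf G z ξ 0 = ξ.1 := by unfold SV.jf; rw [L.dfl_zero hz.1]
  refine ⟨ξ, hξ, ?_, ?_⟩
  · rw [j0]; exact (congrArg Prod.fst hξe').symm
  · exact (congrArg Prod.snd hξe').symm

/-- **periodic upper bound** -/
theorem nonneg_per (h : GT.Bla G k) (hz : z ∈ L.US G)
    (hV : SV.Fld G z 0 (2 * Real.pi) V V') (hper : V (2 * Real.pi) = V 0)
    (hl : ∀ w ∈ GT.Vs G z.1 (fl G (z, Real.pi)).1, ⟪w, z.2⟫ = 0 →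
      ⟪w, V 0⟫ + ⟪GT.lf G z.1 (fl G (z, Real.pi)).1 w, V Real.pi⟫ = 0) :
    0 ≤ SV.ix G z 0 (2 * Real.pi) V V' V V' := by
  have hpi := Real.pi_pos
  refine le_trans ?_ (ix_pp_le hz.1 hz.2 hV (by positivity))
  obtain ⟨ξ, hξ, h0, h1⟩ := exists_jac_per h hz (hV.mem 0 ⟨le_rfl, by positivity⟩)
    (hV.mem Real.pi ⟨hpi.le, by linarith⟩) hl
  refine nonneg_of_jac h hz hξ (fld_pp hz.1 hV) h0 h1 ?_
  have := pp_two_pi (c := 1) h hz (V := V) (by rw [one_smul]; exact hper)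
  rw [this, one_smul, h0]

/-- the vertical Jacobi field with the orthogonal component of `V` at `π` -/
theorem exists_jac_aper (h : GT.Bla G k) (hz : z ∈ L.US G)
    (hV1 : V Real.pi ∈ G.T (fl G (z, Real.pi)).1)
    (hl : ∀ w ∈ GT.Vs G z.1 (fl G (z, Real.pi)).1, ⟪w, z.2⟫ = 0 →
      ⟪GT.lf G z.1 (fl G (z, Real.pi)).1 w, V Real.pi⟫ = 0) :
    ∃ ξ ∈ Tan (L.US G) z, SV.jf G z ξ 0 = 0 ∧ pp G z V Real.pi = SV.jf G z ξ Real.pi := by
  have hpi := Real.pi_pos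
  have hF := mem_FF h hz
  set q := (fl G (z, Real.pi)).1 with hq
  have hself := lf_self h hz
  rw [← hq] at hself
  have hvV := mem_Vs hz
  rw [← hq] at hvV
  have i1 : ⟪pp G z V Real.pi, (fl G (z, Real.pi)).2⟫ = 0 := inner_pp hz.1 hz.2 V Real.pi
  have i1' : ⟪(fl G (z, Real.pi)).2, pp G z V Real.pi⟫ = 0 := by rw [real_inner_comm]; exact i1
  have m1 : pp G z V Real.pi ∈ G.T q :=
    (G.T _).sub_mem hV1 ((G.T _).smul_mem _ (fl_mem G hz.1 _).2)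
  have hC : pp G z V Real.pi ∈ GT.TC G z.1 q := by
    refine Submodule.mem_inf.2 ⟨m1, ?_⟩
    rw [Submodule.mem_orthogonal]
    intro u hu
    -- `u = lf w`
    have hu2 := h.lf_lf (GT.FF_symm' hF) hu
    set w := GT.lf G q z.1 u with hw'
    have hw : w ∈ GT.Vs G z.1 q := h.lf_mem (GT.FF_symm' hF) u
    set w₀ := w - ⟪w, z.2⟫ • z.2 with hw₀
    have hw₀V : w₀ ∈ GT.Vs G z.1 q := Submodule.sub_mem _ hw (Submodule.smul_mem _ _ hvV)
    have hw₀z : ⟪w₀, z.2⟫ = 0 := by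
      rw [hw₀, inner_sub_left, real_inner_smul_left, real_inner_self_eq_norm_sq, hz.2]; ring
    have e1 := hl w₀ hw₀V hw₀z
    have e3 : ⟪GT.lf G z.1 q w₀, pp G z V Real.pi⟫ = 0 := by
      unfold pp
      have e4 : ⟪GT.lf G z.1 q w₀, (fl G (z, Real.pi)).2⟫ = 0 := by
        have e5 := h.inner_lf hF hw₀V hvV
        rw [hself, inner_neg_right, hw₀z] at e5
        linarith
      rw [inner_sub_right, real_inner_smul_right, e4, e1]; ring
    have e6 : w = w₀ + ⟪w, z.2⟫ • z.2 := by rw [hw₀]; abel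
    rw [← hu2, e6, map_add, map_smul, hself, inner_add_left, real_inner_smul_left,
      inner_neg_left, e3, i1']
    ring
  have hq' : Exp G z.1 (Real.pi • z.2) = q := (phi_pi hz).symm
  obtain ⟨a, ha, hae⟩ := h.fderiv_surj hF hvV hz.2 hC
  have haz : ⟪z.2, a⟫ = 0 := GT.inner_TC hvV ha
  have haT : a ∈ G.T z.1 := GT.TC_le ha
  set ξ : Euc N × Euc N := (0, (Real.pi)⁻¹ • a) with hξd
  have hξ : ξ ∈ Tan (L.US G) z := by
    rw [LB.mem_Tan_US (FV.sub_S h.bl) hz]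
    refine ⟨Submodule.zero_mem _, ?_, ?_⟩
    · rw [hξd]
      simp only [map_zero, _root_.zero_apply, map_smul]
      rw [(P_eq_self G hz.1.1).1 haT, sub_self]
    · rw [hξd]
      simp only [real_inner_smul_right, haz, mul_zero]
  have hξT := tanTS_of_Tan h hz hξ
  have e1 := FV.fderiv_phi_eq hz.1 hξT
  rw [hξd, FV.fderiv_phi_zero hz.1, smul_smul, mul_inv_cancel₀ hpi.ne', one_smul, hae, ← hξd] at e1
  have j0 : SV.jf G z ξ 0 = 0 := by unfold SV.jf; rw [L.dfl_zero hz.1]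
  exact ⟨ξ, hξ, j0, congrArg Prod.snd e1⟩

/-- **antiperiodic upper bound** -/
theorem nonneg_aper (h : GT.Bla G k) (hz : z ∈ L.US G)
    (hV : SV.Fld G z 0 (2 * Real.pi) V V') (hper : V (2 * Real.pi) = -V 0)
    (h0 : pp G z V 0 = 0)
    (hl : ∀ w ∈ GT.Vs G z.1 (fl G (z, Real.pi)).1, ⟪w, z.2⟫ = 0 →
      ⟪GT.lf G z.1 (fl G (z, Real.pi)).1 w, V Real.pi⟫ = 0) :
    0 ≤ SV.ix G z 0 (2 * Real.pi) V V' V V' := by
  have hpi := Real.pi_pos
  refine le_trans ?_ (ix_pp_le hz.1 hz.2 hV (by positivity))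
  obtain ⟨ξ, hξ, j0, j1⟩ := exists_jac_aper h hz (hV.mem Real.pi ⟨hpi.le, by linarith⟩) hl
  refine nonneg_of_jac h hz hξ (fld_pp hz.1 hV) (by rw [h0, j0]) j1 ?_
  have := pp_two_pi (c := -1) h hz (V := V) (by rw [neg_one_smul]; exact hper)
  rw [this, h0, smul_zero, j0]

end Crest.Agent.R208.NN
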