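import Crest.Agent.R208.NN0
import Mathlib.Analysis.Fourier.AddCircle

/-!
Row 208, block [N], part NN2a (helper336): approximation of periodic functions by trigonometric
polynomials `ev (nuP K)`, uniformly with first derivatives.
-/

set_option autoImplicit false

open MeasureTheory Measure Set Filter Topology Module Metric
open scoped ContDiff RealInnerProductSpace
open Crest.GeometryTopology.Submanifold

noncomputable section

namespace Crest.Agent.R208.NN

variable {N K : ℕ}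

instance fact_two_pi_pos : Fact (0 < 2 * Real.pi) := ⟨by positivity⟩

/-- real trigonometric polynomial with coefficients `a` -/
def tr (K : ℕ) (a : Fin K × Fin 2 → ℝ) (t : ℝ) : ℝ :=
  ∑ i : Fin K, (Real.cos ((i : ℕ) * t) * a (i, 0) + Real.sin ((i : ℕ) * t) * a (i, 1))

lemma tr_add (a b : Fin K × Fin 2 → ℝ) (t : ℝ) : tr K (a + b) t = tr K a t + tr K b t := by
  unfold tr
  rw [← Finset.sum_add_distrib]
  refine Finset.sum_congr rfl fun i _ => ?_
  simp only [Pi.add_apply]; ring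

lemma tr_smul (c : ℝ) (a : Fin K × Fin 2 → ℝ) (t : ℝ) : tr K (c • a) t = c * tr K a t := by
  unfold tr
  rw [Finset.mul_sum]
  refine Finset.sum_congr rfl fun i _ => ?_
  simp only [Pi.smul_apply, smul_eq_mul]; ring

lemma tr_single0 (i : Fin K) (t : ℝ) :
    tr K (Pi.single (i, 0) 1) t = Real.cos ((i : ℕ) * t) := by
  unfold tr
  rw [Finset.sum_eq_single i]
  · simp
  · intro j _ hj
    have h1 : ((j, 0) : Fin K × Fin 2) ≠ (i, 0) := by simpa using hj
    have h2 : ((j, 1) : Fin K × Fin 2) ≠ (i, 0) := by simp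
    rw [Pi.single_eq_of_ne h1, Pi.single_eq_of_ne h2]; ring
  · simp

lemma tr_single1 (i : Fin K) (t : ℝ) :
    tr K (Pi.single (i, 1) 1) t = Real.sin ((i : ℕ) * t) := by
  unfold tr
  rw [Finset.sum_eq_single i]
  · simp
  · intro j _ hj
    have h1 : ((j, 1) : Fin K × Fin 2) ≠ (i, 1) := by simpa using hj
    have h2 : ((j, 0) : Fin K × Fin 2) ≠ (i, 1) := by simp
    rw [Pi.single_eq_of_ne h1, Pi.single_eq_of_ne h2]; ring
  · simp

/-- elements of the span of the Fourier monomials are trigonometric polynomials -/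
lemma span_fourier_tr {F : C(AddCircle (2 * Real.pi), ℂ)}
    (hF : F ∈ Submodule.span ℂ (range (@fourier (2 * Real.pi)))) :
    ∃ K0 : ℕ, ∀ K ≥ K0, ∃ a b : Fin K × Fin 2 → ℝ, ∀ t : ℝ,
      F (t : AddCircle (2 * Real.pi)) = (tr K a t : ℂ) + (tr K b t : ℂ) * Complex.I := by
  induction hF using Submodule.span_induction with
  | mem F h =>
    obtain ⟨n, rfl⟩ := h
    refine ⟨n.natAbs + 1, fun K hK => ?_⟩
    have hn : n.natAbs < K := by omega
    set i : Fin K := ⟨n.natAbs, hn⟩ with hi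
    have hival : ((i : ℕ) : ℝ) = |(n : ℝ)| := by
      rw [hi]; simp [Nat.cast_natAbs]
    have hcos : ∀ t : ℝ, Real.cos (((i : ℕ) : ℝ) * t) = Real.cos (n * t) := by
      intro t
      rw [hival]
      rcases abs_choice (n : ℝ) with h | h
      · rw [h]
      · rw [h, neg_mul, Real.cos_neg]
    have hsin : ∀ t : ℝ, Real.sin (((i : ℕ) : ℝ) * t) = (if 0 ≤ (n : ℝ) then 1 else -1) *
        Real.sin (n * t) := by
      intro t
      rw [hival]
      split_ifs with h
      · rw [abs_of_nonneg h, one_mul]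
      · rw [abs_of_neg (not_le.1 h), neg_mul, Real.sin_neg]; ring
    refine ⟨Pi.single (i, 0) 1, (if 0 ≤ (n : ℝ) then (1 : ℝ) else -1) • Pi.single (i, 1) 1,
      fun t => ?_⟩
    rw [tr_smul, tr_single0, tr_single1, hcos, hsin, fourier_coe_apply]
    have e1 : (2 * Real.pi * Complex.I * n * t / ((2 * Real.pi : ℝ) : ℂ) : ℂ) =
        ((n * t : ℝ) : ℂ) * Complex.I := by
      have : (Real.pi : ℂ) ≠ 0 := by exact_mod_cast Real.pi_ne_zero
      push_cast
      field_simp
    rw [e1, Complex.exp_mul_I, ← Complex.ofReal_cos, ← Complex.ofReal_sin]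
    congr 3
    split_ifs <;> ring
  | zero => exact ⟨0, fun K _ => ⟨0, 0, fun t => by simp [tr]⟩⟩
  | add F F' _ _ h h' =>
    obtain ⟨K1, h⟩ := h
    obtain ⟨K2, h'⟩ := h'
    refine ⟨max K1 K2, fun K hK => ?_⟩
    obtain ⟨a, b, hab⟩ := h K ((le_max_left _ _).trans hK)
    obtain ⟨a', b', hab'⟩ := h' K ((le_max_right _ _).trans hK)
    refine ⟨a + a', b + b', fun t => ?_⟩
    rw [ContinuousMap.add_apply, hab, hab', tr_add, tr_add]
    push_cast
    ring
  | smul c F _ h =>
    obtain ⟨K1, h⟩ := h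
    refine ⟨K1, fun K hK => ?_⟩
    obtain ⟨a, b, hab⟩ := h K hK
    refine ⟨c.re • a + (-c.im) • b, c.re • b + c.im • a, fun t => ?_⟩
    rw [ContinuousMap.smul_apply, hab, tr_add, tr_add, tr_smul, tr_smul, tr_smul, tr_smul,
      smul_eq_mul]
    apply Complex.ext
    · simp
      ring
    · simp

/-- uniform approximation of a continuous periodic real function -/
lemma approx_real {g : ℝ → ℝ} (hg : Continuous g) (hp : Function.Periodic g (2 * Real.pi))
    {ε : ℝ} (hε : 0 < ε) :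
    ∃ K0 : ℕ, ∀ K ≥ K0, ∃ a : Fin K × Fin 2 → ℝ, ∀ t : ℝ, |tr K a t - g t| ≤ ε := by
  set gc : ℝ → ℂ := fun t => (g t : ℂ) with hgc
  have hgcc : Continuous gc := Complex.continuous_ofReal.comp hg
  have hgp : Function.Periodic gc (2 * Real.pi) := fun t => by simp only [hgc]; rw [hp]
  have hl : Continuous (hgp.lift : AddCircle (2 * Real.pi) → ℂ) := by
    refine continuous_coinduced_dom.2 ?_
    exact hgcc
  set Gc : C(AddCircle (2 * Real.pi), ℂ) := ⟨hgp.lift, hl⟩ with hGc
  have h1 : Gc ∈ (Submodule.span ℂ (range (@fourier (2 * Real.pi)))).topologicalClosure := by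
    rw [span_fourier_closure_eq_top]; trivial
  have h2 : Gc ∈ closure ((Submodule.span ℂ (range (@fourier (2 * Real.pi))) : Set _)) := h1
  obtain ⟨F, hF, hd⟩ := Metric.mem_closure_iff.1 h2 ε hε
  obtain ⟨K0, h3⟩ := span_fourier_tr hF
  refine ⟨K0, fun K hK => ?_⟩
  obtain ⟨a, b, hab⟩ := h3 K hK
  refine ⟨a, fun t => ?_⟩
  have h4 : dist (Gc (t : AddCircle (2 * Real.pi))) (F t) ≤ dist Gc F :=
    ContinuousMap.dist_apply_le_dist _
  have h5 : Gc (t : AddCircle (2 * Real.pi)) = (g t : ℂ) := rfl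
  rw [h5, hab, dist_comm, Complex.dist_eq] at h4
  have h6 := (Complex.abs_re_le_norm _).trans (h4.trans hd.le)
  simpa using h6

lemma ev_nuP_apply (K : ℕ) (w : Wt N K) (t : ℝ) (j : Fin N) :
    ev (nuP K) t w j = tr K (fun x => w (x, j)) t := by
  rw [ev_apply]
  unfold tr nuP
  simp only [WithLp.ofLp_sum, WithLp.ofLp_add, WithLp.ofLp_smul, Finset.sum_apply, Pi.add_apply,
    Pi.smul_apply, pr_apply, smul_eq_mul]

/-- uniform approximation of a continuous periodic vector valued function -/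
theorem approx0 {g : ℝ → Euc N} (hg : Continuous g) (hp : Function.Periodic g (2 * Real.pi))
    {ε : ℝ} (hε : 0 < ε) :
    ∃ K0 : ℕ, ∀ K ≥ K0, ∃ w : Wt N K, ∀ t : ℝ, ‖ev (nuP K) t w - g t‖ ≤ ε := by
  have h1 : ∀ j : Fin N, ∃ K0 : ℕ, ∀ K ≥ K0, ∃ a : Fin K × Fin 2 → ℝ, ∀ t : ℝ,
      |tr K a t - g t j| ≤ ε / (N + 1) := by
    intro j
    refine approx_real (g := fun t => g t j) (by fun_prop) (fun t => ?_) (by positivity)
    simp only [hp t]
  choose K0 hK0 using h1
  refine ⟨Finset.univ.sup K0, fun K hK => ?_⟩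
  have h2 : ∀ j, ∃ a : Fin K × Fin 2 → ℝ, ∀ t : ℝ, |tr K a t - g t j| ≤ ε / (N + 1) := fun j =>
    hK0 j K ((Finset.le_sup (Finset.mem_univ j)).trans hK)
  choose a ha using h2
  refine ⟨WithLp.toLp 2 fun x => a x.2 x.1, fun t => ?_⟩
  rw [EuclideanSpace.norm_eq]
  have h3 : ∀ j : Fin N, ‖(ev (nuP K) t (WithLp.toLp 2 fun x => a x.2 x.1) - g t) j‖ ≤
      ε / (N + 1) := by
    intro j
    rw [PiLp.sub_apply, ev_nuP_apply, Real.norm_eq_abs]
    exact ha j t
  calc √(∑ j, ‖(ev (nuP K) t (WithLp.toLp 2 fun x => a x.2 x.1) - g t) j‖ ^ 2)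
      ≤ √(∑ _j : Fin N, (ε / (N + 1)) ^ 2) := by
        apply Real.sqrt_le_sqrt
        apply Finset.sum_le_sum
        intro j _
        have := h3 j
        gcongr
    _ ≤ √(ε ^ 2) := by
        apply Real.sqrt_le_sqrt
        rw [Finset.sum_const, Finset.card_univ, Fintype.card_fin, nsmul_eq_mul, div_pow]
        rw [mul_div_assoc', div_le_iff₀ (by positivity)]
        have : (N : ℝ) ≤ (N + 1) ^ 2 := by nlinarith [(Nat.cast_nonneg N : (0:ℝ) ≤ N)]
        nlinarith [sq_nonneg ε]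
    _ = ε := Real.sqrt_sq hε.le

lemma hasDerivAt_ev_apply (ν : Fin K → ℝ) (w : Wt N K) (t : ℝ) :
    HasDerivAt (fun t => ev ν t w) (ev' ν t w) t := by
  have := (hasDerivAt_ev (N := N) ν t).clm_apply (hasDerivAt_const t w)
  simpa using this

lemma ev_per (K : ℕ) (w : Wt N K) (t : ℝ) : ev (nuP K) (t + 2 * Real.pi) w = ev (nuP K) t w := by
  rw [← ev_Rt, Rt_per]

/-- a function on `ℝ` which is `2π`-periodic and small on `[0,2π]` is small -/
lemma small_of_per {f : ℝ → Euc N} (hp : Function.Periodic f (2 * Real.pi)) {c : ℝ}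
    (h : ∀ t ∈ Icc 0 (2 * Real.pi), ‖f t‖ ≤ c) (t : ℝ) : ‖f t‖ ≤ c := by
  obtain ⟨s, hs, hst⟩ := hp.exists_mem_Ico₀ (by positivity) t
  rw [hst]
  exact h s ⟨hs.1, hs.2.le⟩

/-- **`C¹`-approximation of a periodic `C¹` function** -/
theorem approx1 {f f' : ℝ → Euc N} (hf : ∀ t, HasDerivAt f (f' t) t) (hf' : Continuous f')
    (hp : Function.Periodic f (2 * Real.pi)) {ε : ℝ} (hε : 0 < ε) :
    ∃ K0 : ℕ, ∀ K ≥ K0, ∃ w : Wt N K, ∀ t : ℝ,
      ‖ev (nuP K) t w - f t‖ ≤ ε ∧ ‖ev' (nuP K) t w - f' t‖ ≤ ε := by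
  have hp' : Function.Periodic f' (2 * Real.pi) := by
    intro t
    have h1 : HasDerivAt (fun s => f (s + 2 * Real.pi)) (f' (t + 2 * Real.pi)) t := by
      have := (hf (t + 2 * Real.pi)).scomp t ((hasDerivAt_id t).add_const (2 * Real.pi))
      simpa [Function.comp_def] using this
    have h2 : (fun s => f (s + 2 * Real.pi)) = f := funext hp
    rw [h2] at h1
    exact h1.unique (hf t)
  set η : ℝ := ε / (4 * Real.pi + 2) with hη
  have hη0 : 0 < η := by have := Real.pi_pos; positivity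
  obtain ⟨K0, hK0⟩ := approx0 hf' hp' hη0
  refine ⟨K0 + 1, fun K hK => ?_⟩
  obtain ⟨g, hg⟩ := hK0 K (by omega)
  have hK1 : 0 < K := by omega
  set i0 : Fin K := ⟨0, hK1⟩ with hi0
  set m0 : Euc N := pr i0 0 g with hm0
  -- the primitive with zero constant term
  set w1 : Wt N K := WithLp.toLp 2 fun x =>
    if x.1.1 = i0 then 0 else if x.1.2 = 0 then -((((x.1.1 : ℕ) : ℝ))⁻¹ * g ((x.1.1, 1), x.2)) else
      (((x.1.1 : ℕ) : ℝ))⁻¹ * g ((x.1.1, 0), x.2) with hw1
  have p0 : ∀ i, pr i 0 w1 = if i = i0 then 0 else -((((i : ℕ) : ℝ))⁻¹ • pr i 1 g) := by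
    intro i
    ext j
    rw [pr_apply, hw1]
    by_cases h : i = i0
    · simp [h]
    · simp [h]
  have p1 : ∀ i, pr i 1 w1 = if i = i0 then 0 else (((i : ℕ) : ℝ))⁻¹ • pr i 0 g := by
    intro i
    ext j
    rw [pr_apply, hw1]
    by_cases h : i = i0
    · simp [h]
    · simp [h]
  have hd : ∀ t, ev' (nuP K) t w1 = ev (nuP K) t g - m0 := by
    intro t
    rw [ev'_apply, ev_apply, eq_sub_iff_add_eq]
    have e1 : m0 = ∑ i : Fin K, if i = i0 then m0 else 0 := by simp
    rw [e1, ← Finset.sum_add_distrib]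
    refine Finset.sum_congr rfl fun i _ => ?_
    rw [p0, p1]
    by_cases h : i = i0
    · rw [h]
      simp [nuP, hi0, hm0]
    · simp only [h, if_false, add_zero]
      have hi : ((i : ℕ) : ℝ) ≠ 0 := by
        intro h'
        apply h
        ext
        simpa [hi0] using h'
      unfold nuP
      rw [smul_neg, neg_smul, neg_neg, smul_smul, smul_smul]
      have e2 : ((i : ℕ) : ℝ) * Real.sin (((i : ℕ) : ℝ) * t) * (((i : ℕ) : ℝ))⁻¹ =
          Real.sin (((i : ℕ) : ℝ) * t) := by field_simp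
      have e3 : ((i : ℕ) : ℝ) * Real.cos (((i : ℕ) : ℝ) * t) * (((i : ℕ) : ℝ))⁻¹ =
          Real.cos (((i : ℕ) : ℝ) * t) := by field_simp
      rw [e2, e3, add_comm]
  -- the mean value `m0` is small
  have hD : ∀ t, HasDerivAt (fun t => ev (nuP K) t w1 - f t + t • m0)
      (ev (nuP K) t g - f' t) t := by
    intro t
    have h1 := ((hasDerivAt_ev_apply (nuP K) w1 t).fun_sub (hf t)).fun_add
      ((hasDerivAt_id t).smul_const m0)
    refine h1.congr_deriv ?_
    rw [hd, one_smul]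
    abel
  have hm : ‖m0‖ ≤ η := by
    have h2 := norm_image_sub_le_of_norm_deriv_le_segment' (f := fun t => ev (nuP K) t w1 - f t +
      t • m0) (f' := fun t => ev (nuP K) t g - f' t) (C := η) (a := 0) (b := 2 * Real.pi)
      (fun x _ => (hD x).hasDerivWithinAt) (fun x _ => hg x) (2 * Real.pi)
      ⟨by positivity, le_rfl⟩
    have h3 : ev (nuP K) (2 * Real.pi) w1 = ev (nuP K) 0 w1 := by
      have := ev_per K w1 0
      rwa [zero_add] at this
    have h4 : f (2 * Real.pi) = f 0 := by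
      have := hp 0
      rwa [zero_add] at this
    rw [h3, h4, zero_smul, add_zero, add_sub_cancel_left, sub_zero, norm_smul,
      Real.norm_of_nonneg (by positivity), mul_comm] at h2
    exact le_of_mul_le_mul_right h2 (by positivity)
  -- correct the constant term
  set c0 : Euc N := f 0 - ev (nuP K) 0 w1 with hc0
  set w2 : Wt N K := WithLp.toLp 2 fun x => if x.1.1 = i0 ∧ x.1.2 = 0 then c0 x.2 else 0 with hw2
  have q0 : ∀ i, pr i 0 w2 = if i = i0 then c0 else 0 := by
    intro i; ext j; rw [pr_apply, hw2]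
    by_cases h : i = i0 <;> simp [h]
  have q1 : ∀ i, pr i 1 w2 = 0 := by
    intro i; ext j; rw [pr_apply, hw2]; simp
  have hev2 : ∀ t, ev (nuP K) t w2 = c0 := by
    intro t
    rw [ev_apply]
    simp only [q0, q1, smul_zero, add_zero]
    rw [Finset.sum_eq_single i0]
    · simp [nuP, hi0]
    · intro i _ hi; simp [hi]
    · simp
  have hev2' : ∀ t, ev' (nuP K) t w2 = 0 := by
    intro t
    rw [ev'_apply]
    simp only [q0, q1, smul_zero, add_zero]
    refine Finset.sum_eq_zero fun i _ => ?_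
    by_cases h : i = i0
    · simp [h, nuP, hi0]
    · simp [h]
  have hder : ∀ t, ‖ev' (nuP K) t (w1 + w2) - f' t‖ ≤ 2 * η := by
    intro t
    rw [map_add, hev2', add_zero, hd]
    calc ‖ev (nuP K) t g - m0 - f' t‖ = ‖(ev (nuP K) t g - f' t) - m0‖ := by congr 1; abel
      _ ≤ ‖ev (nuP K) t g - f' t‖ + ‖m0‖ := norm_sub_le _ _
      _ ≤ 2 * η := by linarith [hg t]
  refine ⟨w1 + w2, fun t => ⟨?_, (hder t).trans ?_⟩⟩
  · have hper : Function.Periodic (fun t => ev (nuP K) t (w1 + w2) - f t) (2 * Real.pi) := by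
      intro t
      simp only [ev_per, hp t]
    refine small_of_per (f := fun t => ev (nuP K) t (w1 + w2) - f t) hper (fun t ht => ?_) t
    have h2 := norm_image_sub_le_of_norm_deriv_le_segment'
      (f := fun t => ev (nuP K) t (w1 + w2) - f t)
      (f' := fun t => ev' (nuP K) t (w1 + w2) - f' t) (C := 2 * η) (a := 0) (b := 2 * Real.pi)
      (fun x _ => ((hasDerivAt_ev_apply (nuP K) (w1 + w2) x).fun_sub (hf x)).hasDerivWithinAt)
      (fun x _ => hder x) t ht
    have h3 : ev (nuP K) 0 (w1 + w2) - f 0 = 0 := by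
      rw [map_add, hev2, hc0]; abel
    rw [h3, sub_zero, sub_zero] at h2
    refine h2.trans ?_
    have ht2 := ht.2
    have hpi := Real.pi_pos
    calc 2 * η * t ≤ 2 * η * (2 * Real.pi) := by gcongr
      _ ≤ η * (4 * Real.pi + 2) := by nlinarith
      _ = ε := by rw [hη]; field_simp
  · have hpi := Real.pi_pos
    calc 2 * η ≤ η * (4 * Real.pi + 2) := by nlinarith
      _ = ε := by rw [hη]; field_simp

end Crest.Agent.R208.NN
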