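import Crest.Agent.R208.NN2a
import Crest.Agent.R208.NN0b

/-!
Row 208, block [N], part NN2b (helper336): the density `Psi` of the quadratic form `qf`, dominated
convergence, approximation of Lipschitz periodic functions.
-/

set_option autoImplicit false

open MeasureTheory Measure Set Filter Topology Module Metric
open scoped ContDiff RealInnerProductSpace
open Crest.GeometryTopology.Submanifold
open Crest.Agent.R241.DDefs
open Crest.Agent.R241.D2
open Crest.Agent.R208.L (om TanTS dfl om_dfl)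

noncomputable section

namespace Crest.Agent.R208.NN

variable {n N K : ℕ} {κ : ℝ} {S : Set (Euc N)} {G : Geo n N κ S} {z : Euc N × Euc N}

variable (G) in
/-- density of `qf` as a function of time, value and derivative -/
def Psi (z : Euc N × Euc N) (t : ℝ) (x y : Euc N) : ℝ :=
  ‖fderiv ℝ G.P (fl G (z, t)).1 (fl G (z, t)).2 x + G.P (fl G (z, t)).1 y‖ ^ 2 -
    ⟪(X G (fl G (z, t))).2, II G (fl G (z, t)).1 (G.P (fl G (z, t)).1 x)
      (G.P (fl G (z, t)).1 x)⟫ + ‖x - G.P (fl G (z, t)).1 x‖ ^ 2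

lemma continuous_Psi (hz : z ∈ TS G) :
    Continuous fun p : ℝ × (Euc N × Euc N) => Psi G z p.1 p.2.1 p.2.2 := by
  have h1 : Continuous fun p : ℝ × (Euc N × Euc N) => fl G (z, p.1) :=
    (SV.continuous_fl (G := G) hz).comp continuous_fst
  have h3 : Continuous (fderiv ℝ G.P) := G.contDiff_P.continuous_fderiv (by simp)
  have h4 : Continuous fun p : ℝ × (Euc N × Euc N) =>
      fderiv ℝ G.P (fl G (z, p.1)).1 (fl G (z, p.1)).2 := (h3.comp h1.fst).clm_apply h1.snd
  have h5 : Continuous fun p : ℝ × (Euc N × Euc N) => G.P (fl G (z, p.1)).1 :=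
    G.contDiff_P.continuous.comp h1.fst
  have h6 : Continuous fun p : ℝ × (Euc N × Euc N) => (X G (fl G (z, p.1))).2 :=
    ((contDiff_X G).continuous.comp h1).snd
  have hx : Continuous fun p : ℝ × (Euc N × Euc N) => p.2.1 := by fun_prop
  have hy : Continuous fun p : ℝ × (Euc N × Euc N) => p.2.2 := by fun_prop
  have h7 := h5.clm_apply hx
  have h8 : Continuous fun p : ℝ × (Euc N × Euc N) => II G (fl G (z, p.1)).1
      (G.P (fl G (z, p.1)).1 p.2.1) (G.P (fl G (z, p.1)).1 p.2.1) :=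
    ((h3.comp h1.fst).clm_apply h7).clm_apply h7
  exact ((((h4.clm_apply hx).add (h5.clm_apply hy)).norm.pow 2).sub (h6.inner h8)).add
    ((hx.sub h7).norm.pow 2)

lemma continuous_ev (ν : Fin K → ℝ) (w : Wt N K) : Continuous fun t => ev ν t w :=
  (contDiff_ev ν).continuous.clm_apply continuous_const

lemma continuous_ev' (ν : Fin K → ℝ) (w : Wt N K) : Continuous fun t => ev' ν t w :=
  (contDiff_ev' ν).continuous.clm_apply continuous_const

lemma qf_eq (hz : z ∈ TS G) (ν : Fin K → ℝ) (w : Wt N K) :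
    qf G z ν w = ∫ t in (0 : ℝ)..(2 * Real.pi), Psi G z t (ev ν t w) (ev' ν t w) := by
  unfold qf SV.ix
  rw [← intervalIntegral.integral_add ((fld_fd hz ν w 0 (2 * Real.pi)).intble hz
    (by positivity) (fld_fd hz ν w 0 (2 * Real.pi)))]
  · refine intervalIntegral.integral_congr fun t _ => ?_
    simp only [SV.ixd, Psi, fd, fd', real_inner_self_eq_norm_sq]
  · apply Continuous.intervalIntegrable
    have h1 : Continuous fun t => fd G z ν w t := continuous_iff_continuousAt.2 fun t =>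
      (hasDerivAt_fd hz ν w t).continuousAt
    exact ((continuous_ev ν w).sub h1).norm.pow 2

lemma Psi_fld {a b : ℝ} {A A' : ℝ → Euc N} (hz : z ∈ TS G) (hab : a < b)
    (hA : SV.Fld G z a b A A') {t : ℝ} (ht : t ∈ Icc a b) :
    Psi G z t (A t) (A' t) = SV.ixd G z A A' A A' t := by
  have h1 := der_eq hz hA hab ht
  have h2 := (P_eq_self G (fl_mem G hz t).1).1 (hA.mem t ht)
  unfold Psi SV.ixd
  rw [h2]
  have h3 : fderiv ℝ G.P (fl G (z, t)).1 (fl G (z, t)).2 (A t) + G.P (fl G (z, t)).1 (A' t) =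
      A' t := h1.symm
  rw [h3, sub_self, norm_zero, real_inner_self_eq_norm_sq]
  ring

attribute [local irreducible] Psi

/-- dominated convergence for `Psi` -/
lemma tendsto_Psi (hz : z ∈ TS G) {x y : ℕ → ℝ → Euc N} {x0 y0 : ℝ → Euc N} {M a b : ℝ}
    (hab : a ≤ b)
    (hx : ∀ m, Continuous (x m)) (hy : ∀ m, Continuous (y m))
    (hxM : ∀ m, ∀ t, ‖x m t‖ ≤ M) (hyM : ∀ m, ∀ t, ‖y m t‖ ≤ M)
    (hxl : ∀ t, Tendsto (fun m => x m t) atTop (𝓝 (x0 t)))
    (hyl : ∀ᵐ t, Tendsto (fun m => y m t) atTop (𝓝 (y0 t))) :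
    Tendsto (fun m => ∫ t in a..b, Psi G z t (x m t) (y m t)) atTop
      (𝓝 (∫ t in a..b, Psi G z t (x0 t) (y0 t))) := by
  have hc := continuous_Psi (G := G) hz
  have hK : IsCompact (Icc a b ×ˢ (closedBall (0 : Euc N) M ×ˢ closedBall (0 : Euc N) M)) :=
    isCompact_Icc.prod ((isCompact_closedBall _ _).prod (isCompact_closedBall _ _))
  obtain ⟨C, hC⟩ := hK.exists_bound_of_continuousOn hc.continuousOn
  refine intervalIntegral.tendsto_integral_filter_of_dominated_convergence
    (F := fun m t => Psi G z t (x m t) (y m t)) (f := fun t => Psi G z t (x0 t) (y0 t))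
    (fun _ => C) ?_ ?_ ?_ ?_
  · refine Eventually.of_forall fun m => ?_
    have h2 : Continuous fun t : ℝ => ((t, (x m t, y m t)) : ℝ × (Euc N × Euc N)) :=
      continuous_id.prodMk ((hx m).prodMk (hy m))
    have h3 : Continuous fun t => Psi G z t (x m t) (y m t) := by
      have := hc.comp h2
      simpa only [Function.comp_def] using this
    exact h3.aestronglyMeasurable
  · refine Eventually.of_forall fun m => ?_
    refine Eventually.of_forall fun t ht => ?_
    rw [uIoc_of_le hab] at ht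
    have h5 : ((t, (x m t, y m t)) : ℝ × (Euc N × Euc N)) ∈
        Icc a b ×ˢ (closedBall (0 : Euc N) M ×ˢ closedBall (0 : Euc N) M) :=
      ⟨⟨ht.1.le, ht.2⟩, mem_closedBall_zero_iff.2 (hxM m t), mem_closedBall_zero_iff.2 (hyM m t)⟩
    exact hC _ h5
  · simp
  · filter_upwards [hyl] with t ht _
    have h1 := (hc.tendsto (t, (x0 t, y0 t)))
    have h2 : Tendsto (fun m => (t, (x m t, y m t))) atTop (𝓝 (t, (x0 t, y0 t))) :=
      tendsto_const_nhds.prodMk_nhds ((hxl t).prodMk_nhds ht)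
    exact h1.comp h2

/-! ### Lipschitz periodic functions -/

/-- Steklov average -/
def stk (F : ℝ → Euc N) (h t : ℝ) : Euc N := h⁻¹ • ∫ s in t..(t + h), F s

lemma hasDerivAt_stk {F : ℝ → Euc N} (hF : Continuous F) (h t : ℝ) :
    HasDerivAt (stk F h) (h⁻¹ • (F (t + h) - F t)) t := by
  have hi : ∀ a b : ℝ, IntervalIntegrable F volume a b := fun a b => hF.intervalIntegrable a b
  have h1 : ∀ x, HasDerivAt (fun x => ∫ s in (0 : ℝ)..x, F s) (F x) x := fun x =>
    intervalIntegral.integral_hasDerivAt_right (hi 0 x)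
      (hF.stronglyMeasurableAtFilter _ _) hF.continuousAt
  have h2 : HasDerivAt (fun x => ∫ s in (0 : ℝ)..(x + h), F s) (F (t + h)) t := by
    have := (h1 (t + h)).scomp t ((hasDerivAt_id t).add_const h)
    simpa [Function.comp_def] using this
  have h3 := (h2.fun_sub (h1 t)).const_smul h⁻¹
  have e : stk F h = fun x => h⁻¹ • ((∫ s in (0 : ℝ)..(x + h), F s) - ∫ s in (0 : ℝ)..x, F s) := by
    funext x
    unfold stk
    rw [intervalIntegral.integral_interval_sub_left (hi _ _) (hi _ _)]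
  rw [e]
  exact h3

lemma stk_sub_le {F : ℝ → Euc N} {L : ℝ} (hL : ∀ s t, ‖F t - F s‖ ≤ L * |t - s|)
    (hF : Continuous F) {h : ℝ} (hh : 0 < h) (t : ℝ) : ‖stk F h t - F t‖ ≤ L * h := by
  have hL0 : 0 ≤ L := by
    have := (norm_nonneg _).trans (hL 0 1)
    simpa using this
  have e : stk F h t - F t = h⁻¹ • ∫ s in t..(t + h), (F s - F t) := by
    rw [intervalIntegral.integral_sub (hF.intervalIntegrable _ _) (by simp)]
    unfold stk
    rw [intervalIntegral.integral_const, add_sub_cancel_left, smul_sub, smul_smul,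
      inv_mul_cancel₀ hh.ne', one_smul]
  rw [e, norm_smul, norm_inv, Real.norm_of_nonneg hh.le, inv_mul_le_iff₀ hh]
  have h2 : ‖∫ s in t..(t + h), (F s - F t)‖ ≤ (L * h) * |t + h - t| := by
    refine intervalIntegral.norm_integral_le_of_norm_le_const fun s hs => ?_
    rw [uIoc_of_le (by linarith)] at hs
    refine (hL t s).trans ?_
    rw [abs_of_nonneg (by linarith [hs.1])]
    exact mul_le_mul_of_nonneg_left (by linarith [hs.2]) hL0
  rw [add_sub_cancel_left, abs_of_pos hh] at h2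
  linarith

lemma stk_per {F : ℝ → Euc N} (hp : Function.Periodic F (2 * Real.pi)) (h : ℝ) :
    Function.Periodic (stk F h) (2 * Real.pi) := by
  intro t
  unfold stk
  congr 1
  have h1 : ∫ s in (t + 2 * Real.pi)..(t + 2 * Real.pi + h), F s =
      ∫ s in t..(t + h), F (s + 2 * Real.pi) := by
    rw [intervalIntegral.integral_comp_add_right]
    congr 1
    ring
  rw [h1]
  simp only [hp _]

/-- **approximation of a Lipschitz periodic function**, with bounded derivatives converging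
wherever the function is differentiable -/
theorem approx_lip {F : ℝ → Euc N} {L : ℝ} (hL : ∀ s t, ‖F t - F s‖ ≤ L * |t - s|)
    (hF : Continuous F) (hp : Function.Periodic F (2 * Real.pi)) (m : ℕ) :
    ∃ K0 : ℕ, ∀ K ≥ K0, ∃ w : Wt N K, ∀ t : ℝ,
      ‖ev (nuP K) t w - F t‖ ≤ (L + 1) * (1 / ((m : ℝ) + 1)) ∧
      ‖ev' (nuP K) t w - ((m : ℝ) + 1) • (F (t + 1 / ((m : ℝ) + 1)) - F t)‖ ≤
        1 / ((m : ℝ) + 1) := by
  have hm : (0 : ℝ) < 1 / ((m : ℝ) + 1) := Nat.one_div_pos_of_nat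
  obtain ⟨K0, h0⟩ := approx1 (fun t => hasDerivAt_stk hF (1 / ((m : ℝ) + 1)) t)
    (by fun_prop) (stk_per hp _) hm
  refine ⟨K0, fun K hK => ?_⟩
  obtain ⟨w, hw⟩ := h0 K hK
  refine ⟨w, fun t => ⟨?_, ?_⟩⟩
  · have h1 := (hw t).1
    have h2 := stk_sub_le hL hF hm t
    calc ‖ev (nuP K) t w - F t‖ = ‖(ev (nuP K) t w - stk F (1 / ((m : ℝ) + 1)) t) +
          (stk F (1 / ((m : ℝ) + 1)) t - F t)‖ := by congr 1; abel
      _ ≤ 1 / ((m : ℝ) + 1) + L * (1 / ((m : ℝ) + 1)) := (norm_add_le _ _).trans (by gcongr)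
      _ = (L + 1) * (1 / ((m : ℝ) + 1)) := by ring
  · have h1 := (hw t).2
    rwa [one_div, inv_inv, ← one_div] at h1

end Crest.Agent.R208.NN
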