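import Crest.Agent.R208.NN2b
import Crest.Agent.R208.NB2
import Crest.Agent.R208.SV5

/-!
Row 208, block [N], part NN2c (helper336): the broken negative fields `δ X_w + J_w` (`J_w` on
`[0,π]`, `0` on `[π,2π]`) of one closed geodesic.
-/

set_option autoImplicit false

open MeasureTheory Measure Set Filter Topology Module Metric
open scoped ContDiff RealInnerProductSpace
open Crest.GeometryTopology.Submanifold
open Crest.Agent.R241.DDefs
open Crest.Agent.R241.D2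
open Crest.Agent.R208.L (om TanTS dfl om_dfl)

noncomputable section

namespace Crest.Agent.R208.NN

variable {n N K k : ℕ} {κ : ℝ} {S : Set (Euc N)} {G : Geo n N κ S} {z : Euc N × Euc N}
  {w : Euc N}

/-! ### Jacobi fields vanishing at `0` and `π` -/

lemma jf_per (hper : HS.Per G) (hz : z ∈ TS G) (h1 : ‖z.2‖ = 1) (hw : w ∈ G.T z.1)
    (hvw : ⟪z.2, w⟫ = 0) (t : ℝ) : dfl G z (t + 2 * Real.pi) (0, w) = dfl G z t (0, w) := by
  have h2 := NB.per_Dfl (G := G) hper (z := (0, w)) (q := z) (GT.tanTS_vert hz hw) h1 hvw t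
  rw [L.dfl_apply hz, L.dfl_apply hz]
  exact h2

lemma jf_zero (hz : z ∈ TS G) (ξ : Euc N × Euc N) : SV.jf G z ξ 0 = ξ.1 := by
  unfold SV.jf; rw [L.dfl_zero hz]

lemma jf'_zero (hz : z ∈ TS G) (ξ : Euc N × Euc N) : SV.jf' G z ξ 0 = ξ.2 := by
  unfold SV.jf'; rw [L.dfl_zero hz]

/-- the space of initial velocities of the null fields -/
def Wz (G : Geo n N κ S) (z : Euc N × Euc N) : Submodule ℝ (Euc N) :=
  (ℝ ∙ z.2)ᗮ ⊓ GT.Vs G z.1 (Exp G z.1 (Real.pi • z.2))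

lemma mem_Wz : w ∈ Wz G z ↔ ⟪z.2, w⟫ = 0 ∧ w ∈ GT.Vs G z.1 (Exp G z.1 (Real.pi • z.2)) := by
  unfold Wz
  rw [Submodule.mem_inf, Submodule.mem_orthogonal_singleton_iff_inner_right]

lemma Wz_le (h : GT.Bla G k) (hz : z ∈ TS G) (h1 : ‖z.2‖ = 1) (hw : w ∈ Wz G z) :
    w ∈ G.T z.1 := h.Vs_le (h.mem_FF hz.1 hz.2 h1) (mem_Wz.1 hw).2

lemma finrank_Wz (h : GT.Bla G k) (hz : z ∈ TS G) (h1 : ‖z.2‖ = 1) :
    finrank ℝ (Wz G z) + 1 = k := by
  have h2 : (ℝ ∙ z.2) ≤ GT.Vs G z.1 (Exp G z.1 (Real.pi • z.2)) := by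
    rw [Submodule.span_singleton_le_iff_mem]
    exact GT.mem_Vs hz.2 h1
  have h3 := Submodule.finrank_add_inf_finrank_orthogonal h2
  rw [h.finrank_Vs (h.mem_FF hz.1 hz.2 h1)] at h3
  have h4 : finrank ℝ (ℝ ∙ z.2) = 1 := finrank_span_singleton (by
    intro h0; rw [h0, norm_zero] at h1; exact zero_ne_one h1)
  rw [h4] at h3
  unfold Wz
  omega

lemma jf_pi (h : GT.Bla G k) (hz : z ∈ TS G) (h1 : ‖z.2‖ = 1) (hw : w ∈ Wz G z) :
    SV.jf G z (0, w) Real.pi = 0 := by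
  obtain ⟨hvw, hV⟩ := mem_Wz.1 hw
  have hF := h.mem_FF hz.1 hz.2 h1
  have h2 := (h.ker_iff hF (GT.mem_Vs hz.2 h1) h1 (b := w)).2 ⟨hV, hvw⟩
  have hT : TanTS G (z.1, z.2) (0, w) := GT.tanTS_vert hz h2.1
  have h3 := SV.dfl_scale hT Real.pi
  unfold SV.jf
  rw [show z = (z.1, z.2) from rfl, h3]
  have h4 := GT.dfl_vert_fst (G := G) (z := (z.1, Real.pi • z.2))
    ⟨hz.1, (G.T _).smul_mem _ hz.2⟩ (Real.pi • w)
  rw [h4]
  simp only
  rw [map_smul, h2.2, smul_zero]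

/-- `J_w` vanishes wherever `sin` vanishes -/
lemma jf_sin (h : GT.Bla G k) (hz : z ∈ TS G) (h1 : ‖z.2‖ = 1) (hw : w ∈ Wz G z) {t : ℝ}
    (ht : Real.sin t = 0) : SV.jf G z (0, w) t = 0 := by
  obtain ⟨m, rfl⟩ := Real.sin_eq_zero_iff.1 ht
  have hp : Function.Periodic (SV.jf G z (0, w)) (2 * Real.pi) := fun t => by
    unfold SV.jf
    rw [jf_per h.ty.per hz h1 (Wz_le h hz h1 hw) (mem_Wz.1 hw).1]
  rcases Int.even_or_odd' m with ⟨j, hj | hj⟩
  · have e : (m : ℝ) * Real.pi = 0 + j * (2 * Real.pi) := by rw [hj]; push_cast; ring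
    rw [e, hp.int_mul j, jf_zero hz]
  · have e : (m : ℝ) * Real.pi = Real.pi + j * (2 * Real.pi) := by rw [hj]; push_cast; ring
    rw [e, hp.int_mul j, jf_pi h hz h1 hw]

/-! ### Lipschitz bounds -/

lemma exists_lip {f f' : ℝ → Euc N} (hf : ∀ t, HasDerivAt f (f' t) t) (hf' : Continuous f')
    (hp' : Function.Periodic f' (2 * Real.pi)) :
    ∃ L, 0 ≤ L ∧ ∀ s t, ‖f t - f s‖ ≤ L * |t - s| := by
  obtain ⟨L, hL⟩ := (isCompact_Icc (a := (0:ℝ)) (b := 2 * Real.pi)).exists_bound_of_continuousOn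
    hf'.continuousOn
  have hb : ∀ t, ‖f' t‖ ≤ max L 0 := small_of_per hp' fun t ht => (hL t ht).trans (le_max_left _ _)
  refine ⟨max L 0, le_max_right _ _, fun s t => ?_⟩
  have := Convex.norm_image_sub_le_of_norm_hasDerivWithin_le (s := univ) (x := s) (y := t)
    (fun x _ => (hf x).hasDerivWithinAt) (fun x _ => hb x) convex_univ (mem_univ _) (mem_univ _)
  simpa using this

lemma lip_glue {c : ℝ → Prop} [DecidablePred c] {J : ℝ → Euc N} {L : ℝ} (hL0 : 0 ≤ L)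
    (hL : ∀ s t, ‖J t - J s‖ ≤ L * |t - s|)
    (hc : ∀ s t, c s → ¬ c t → ∃ r ∈ uIcc s t, J r = 0) (s t : ℝ) :
    ‖(if c t then J t else 0) - (if c s then J s else 0)‖ ≤ L * |t - s| := by
  have habs : ∀ {r : ℝ}, r ∈ uIcc s t → |t - r| ≤ |t - s| ∧ |s - r| ≤ |t - s| := by
    intro r hr
    have h1 := Set.abs_sub_right_of_mem_uIcc hr
    have h2 := Set.abs_sub_left_of_mem_uIcc hr
    rw [abs_sub_comm s r]
    exact ⟨h1, h2⟩
  by_cases h1 : c t <;> by_cases h2 : c s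
  · simpa [h1, h2] using hL s t
  · obtain ⟨r, hr, hr0⟩ := hc t s h1 h2
    simp only [h1, h2, if_true, if_false, sub_zero]
    have h3 := hL r t
    rw [hr0, sub_zero] at h3
    rw [uIcc_comm] at hr
    exact h3.trans (mul_le_mul_of_nonneg_left (habs hr).1 hL0)
  · obtain ⟨r, hr, hr0⟩ := hc s t h2 h1
    simp only [h1, h2, if_true, if_false, zero_sub, norm_neg]
    have h3 := hL r s
    rw [hr0, sub_zero] at h3
    exact h3.trans (mul_le_mul_of_nonneg_left (habs hr).2 hL0)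
  · simp [h1, h2]
    positivity

/-- sign changes of the sine -/
lemma sin_change {s t : ℝ} (hs : 0 < Real.sin s) (ht : ¬ 0 < Real.sin t) :
    ∃ r ∈ uIcc s t, Real.sin r = 0 := by
  have h1 := intermediate_value_uIcc (a := s) (b := t) (f := Real.sin)
    Real.continuous_sin.continuousOn
  have h2 : (0 : ℝ) ∈ uIcc (Real.sin s) (Real.sin t) := by
    rw [uIcc_comm, uIcc_of_le (by linarith [not_lt.1 ht])]
    exact ⟨not_lt.1 ht, hs.le⟩
  obtain ⟨r, hr, hr0⟩ := h1 h2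
  exact ⟨r, hr, hr0⟩

lemma ae_sin_ne : ∀ᵐ t : ℝ, Real.sin t ≠ 0 := by
  have h1 : {t : ℝ | Real.sin t = 0} ⊆ range fun m : ℤ => (m : ℝ) * Real.pi := by
    intro t ht
    obtain ⟨m, hm⟩ := Real.sin_eq_zero_iff.1 ht
    exact ⟨m, hm⟩
  exact ((countable_range _).mono h1).ae_notMem volume

/-- derivative of a glued function away from the zeros of the sine -/
lemma hasDerivAt_glue {J J' : ℝ → Euc N} (hJ : ∀ t, HasDerivAt J (J' t) t) {t : ℝ}
    (ht : Real.sin t ≠ 0) :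
    HasDerivAt (fun t => if 0 < Real.sin t then J t else 0)
      (if 0 < Real.sin t then J' t else 0) t := by
  rcases lt_or_gt_of_ne ht with h | h
  · rw [if_neg (not_lt.2 h.le)]
    refine (hasDerivAt_const t (0 : Euc N)).congr_of_eventuallyEq ?_
    filter_upwards [(Real.continuous_sin.tendsto t).eventually (gt_mem_nhds h)] with s hs
    rw [if_neg (not_lt.2 (le_of_lt hs))]
  · rw [if_pos h]
    refine (hJ t).congr_of_eventuallyEq ?_
    filter_upwards [(Real.continuous_sin.tendsto t).eventually (lt_mem_nhds h)] with s hs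
    rw [if_pos hs]

end Crest.Agent.R208.NN
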