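import Crest.Agent.R208.NN2c

/-!
Row 208, block [N], part NN2d (helper336): the broken fields `FL w = δ X_w + J_w` and the value of
the form on them.
-/

set_option autoImplicit false

open MeasureTheory Measure Set Filter Topology Module Metric
open scoped ContDiff RealInnerProductSpace
open Crest.GeometryTopology.Submanifold
open Crest.Agent.R241.DDefs
open Crest.Agent.R241.D2
open Crest.Agent.R208.L (om TanTS dfl om_dfl)

noncomputable section

namespace Crest.Agent.R208.NN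

variable {n N K k : ℕ} {κ : ℝ} {S : Set (Euc N)} {G : Geo n N κ S} {z : Euc N × Euc N}
  {w : Euc N}

/-- the cut off `(1 + cos t)/2` -/
def rh (t : ℝ) : ℝ := (1 + Real.cos t) / 2

def rh' (t : ℝ) : ℝ := -Real.sin t / 2

lemma hasDerivAt_rh (t : ℝ) : HasDerivAt rh (rh' t) t := by
  unfold rh rh'
  exact ((Real.hasDerivAt_cos t).const_add 1).div_const 2

lemma rh_zero : rh 0 = 1 := by unfold rh; simp
lemma rh_pi : rh Real.pi = 0 := by unfold rh; simp
lemma abs_rh (t : ℝ) : |rh t| ≤ 1 := by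
  unfold rh
  rw [abs_le]
  constructor <;> linarith [Real.cos_le_one t, Real.neg_one_le_cos t]
lemma abs_rh' (t : ℝ) : |rh' t| ≤ 1 := by
  unfold rh'
  rw [abs_le]
  constructor <;> linarith [Real.sin_le_one t, Real.neg_one_le_sin t]

variable (G) in
/-- the smooth field `P (ρ(t) w)` -/
def Xf (z : Euc N × Euc N) (w : Euc N) (t : ℝ) : Euc N := G.P (fl G (z, t)).1 (rh t • w)

variable (G) in
def Xf' (z : Euc N × Euc N) (w : Euc N) (t : ℝ) : Euc N :=
  fderiv ℝ G.P (fl G (z, t)).1 (fl G (z, t)).2 (rh t • w) + G.P (fl G (z, t)).1 (rh' t • w)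

lemma hasDerivAt_Xf (hz : z ∈ TS G) (w : Euc N) (t : ℝ) :
    HasDerivAt (Xf G z w) (Xf' G z w t) t := by
  have h1 : HasDerivAt (fun t => (fl G (z, t)).1) (fl G (z, t)).2 t :=
    hda_fst (hasDerivAt_fl G (complete G hz t))
  have h2 : HasDerivAt (fun t => G.P (fl G (z, t)).1)
      (fderiv ℝ G.P (fl G (z, t)).1 (fl G (z, t)).2) t :=
    ((G.contDiff_P.differentiable (by simp)).differentiableAt.hasFDerivAt).comp_hasDerivAt t h1
  exact h2.clm_apply ((hasDerivAt_rh t).smul_const w)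

lemma continuous_rh : Continuous rh := by unfold rh; fun_prop
lemma continuous_rh' : Continuous rh' := by unfold rh'; fun_prop

lemma continuous_Xf' (hz : z ∈ TS G) (w : Euc N) : Continuous (Xf' G z w) := by
  have h1 := SV.continuous_fl (G := G) hz
  have h3 : Continuous (fderiv ℝ G.P) := G.contDiff_P.continuous_fderiv (by simp)
  exact (((h3.comp h1.fst).clm_apply h1.snd).clm_apply (continuous_rh.smul continuous_const)).add
    ((G.contDiff_P.continuous.comp h1.fst).clm_apply (continuous_rh'.smul continuous_const))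

lemma fld_Xf (hz : z ∈ TS G) (w : Euc N) (a b : ℝ) : SV.Fld G z a b (Xf G z w) (Xf' G z w) where
  der t _ := (hasDerivAt_Xf hz w t).hasDerivWithinAt
  cont := (continuous_Xf' hz w).continuousOn
  mem t _ := P_mem G (fl_mem G hz t).1

lemma fl_per' (hper : HS.Per G) (hz : z ∈ TS G) (h1 : ‖z.2‖ = 1) (t : ℝ) :
    fl G (z, t + 2 * Real.pi) = fl G (z, t) := by
  rw [add_comm, fl_add' G hz, hper z hz h1]

lemma rh_per (t : ℝ) : rh (t + 2 * Real.pi) = rh t := by unfold rh; rw [Real.cos_add_two_pi]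
lemma rh'_per (t : ℝ) : rh' (t + 2 * Real.pi) = rh' t := by unfold rh'; rw [Real.sin_add_two_pi]

variable (G) in
/-- the broken field as a linear function of `w` -/
def FL (z : Euc N × Euc N) (δ t : ℝ) (w : Euc N) : Euc N :=
  δ • Xf G z w t + (if 0 < Real.sin t then SV.jf G z (0, w) t else 0)

variable (G) in
/-- its derivative -/
def FL' (z : Euc N × Euc N) (δ t : ℝ) (w : Euc N) : Euc N :=
  δ • Xf' G z w t + (if 0 < Real.sin t then SV.jf' G z (0, w) t else 0)

lemma FL_add (z : Euc N × Euc N) (δ t : ℝ) (w w' : Euc N) :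
    FL G z δ t (w + w') = FL G z δ t w + FL G z δ t w' := by
  have e : ((0, w + w') : Euc N × Euc N) = (0, w) + (0, w') := by ext1 <;> simp
  simp only [FL, Xf, SV.jf, e, map_add, smul_add, Prod.fst_add]
  split_ifs <;> module

lemma FL_smul (z : Euc N × Euc N) (δ t c : ℝ) (w : Euc N) :
    FL G z δ t (c • w) = c • FL G z δ t w := by
  have e : ((0, c • w) : Euc N × Euc N) = c • (0, w) := by ext1 <;> simp
  simp only [FL, Xf, SV.jf, e, map_smul, Prod.smul_fst]
  split_ifs <;> module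

lemma FL'_add (z : Euc N × Euc N) (δ t : ℝ) (w w' : Euc N) :
    FL' G z δ t (w + w') = FL' G z δ t w + FL' G z δ t w' := by
  have e : ((0, w + w') : Euc N × Euc N) = (0, w) + (0, w') := by ext1 <;> simp
  simp only [FL', Xf', SV.jf', e, map_add, smul_add, Prod.snd_add]
  split_ifs <;> module

lemma FL'_smul (z : Euc N × Euc N) (δ t c : ℝ) (w : Euc N) :
    FL' G z δ t (c • w) = c • FL' G z δ t w := by
  have e : ((0, c • w) : Euc N × Euc N) = c • (0, w) := by ext1 <;> simp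
  simp only [FL', Xf', SV.jf', e, map_smul, Prod.smul_snd]
  split_ifs <;> module

variable (G) in
/-- `FL` as a linear map -/
def FLl (z : Euc N × Euc N) (δ t : ℝ) : Euc N →ₗ[ℝ] Euc N where
  toFun := FL G z δ t
  map_add' := FL_add z δ t
  map_smul' := FL_smul z δ t

variable (G) in
def FLl' (z : Euc N × Euc N) (δ t : ℝ) : Euc N →ₗ[ℝ] Euc N where
  toFun := FL' G z δ t
  map_add' := FL'_add z δ t
  map_smul' := FL'_smul z δ t

lemma FL_lip (h : GT.Bla G k) (hz : z ∈ TS G) (h1 : ‖z.2‖ = 1) (hw : w ∈ Wz G z) (δ : ℝ) :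
    ∃ L, 0 ≤ L ∧ ∀ s t, ‖FL G z δ t w - FL G z δ s w‖ ≤ L * |t - s| := by
  have hwT := Wz_le h hz h1 hw
  have hvw := (mem_Wz.1 hw).1
  obtain ⟨L1, h10, hL1⟩ := exists_lip (fun t => hasDerivAt_Xf hz w t) (continuous_Xf' hz w)
    (fun t => by unfold Xf'; rw [fl_per' h.ty.per hz h1, rh_per, rh'_per])
  obtain ⟨L2, h20, hL2⟩ := exists_lip (fun t => SV.hasDerivAt_jf hz (0, w) t)
    (continuous_iff_continuousAt.2 fun t => (SV.hasDerivAt_jf' hz (0, w) t).continuousAt)
    (fun t => by unfold SV.jf'; rw [jf_per h.ty.per hz h1 hwT hvw])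
  have hg := lip_glue (c := fun t => 0 < Real.sin t) (J := SV.jf G z (0, w)) h20 hL2
    (fun s t hs ht => by
      obtain ⟨r, hr, hr0⟩ := sin_change hs ht
      exact ⟨r, hr, jf_sin h hz h1 hw hr0⟩)
  refine ⟨|δ| * L1 + L2, by positivity, fun s t => ?_⟩
  unfold FL
  calc ‖δ • Xf G z w t + (if 0 < Real.sin t then SV.jf G z (0, w) t else 0) -
        (δ • Xf G z w s + (if 0 < Real.sin s then SV.jf G z (0, w) s else 0))‖
      = ‖δ • (Xf G z w t - Xf G z w s) + ((if 0 < Real.sin t then SV.jf G z (0, w) t else 0) -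
        (if 0 < Real.sin s then SV.jf G z (0, w) s else 0))‖ := by
        congr 1; module
    _ ≤ |δ| * (L1 * |t - s|) + L2 * |t - s| := by
        refine (norm_add_le _ _).trans (add_le_add ?_ (hg s t))
        rw [norm_smul, Real.norm_eq_abs]
        exact mul_le_mul_of_nonneg_left (hL1 s t) (abs_nonneg _)
    _ = (|δ| * L1 + L2) * |t - s| := by ring

lemma FL_per (h : GT.Bla G k) (hz : z ∈ TS G) (h1 : ‖z.2‖ = 1) (hw : w ∈ Wz G z) (δ : ℝ) :
    Function.Periodic (fun t => FL G z δ t w) (2 * Real.pi) := by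
  intro t
  simp only [FL, Xf, SV.jf]
  rw [fl_per' h.ty.per hz h1, rh_per, Real.sin_add_two_pi,
    jf_per h.ty.per hz h1 (Wz_le h hz h1 hw) (mem_Wz.1 hw).1]

lemma FL_cont (h : GT.Bla G k) (hz : z ∈ TS G) (h1 : ‖z.2‖ = 1) (hw : w ∈ Wz G z) (δ : ℝ) :
    Continuous (fun t => FL G z δ t w) := by
  obtain ⟨L, hL0, hL⟩ := FL_lip h hz h1 hw δ
  have : LipschitzWith (Real.toNNReal L) (fun t => FL G z δ t w) := by
    refine LipschitzWith.of_dist_le_mul fun s t => ?_
    rw [dist_eq_norm, Real.coe_toNNReal _ hL0, Real.dist_eq]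
    exact hL t s
  exact this.continuous

lemma FL_der (hz : z ∈ TS G) (w : Euc N) (δ : ℝ) {t : ℝ} (ht : Real.sin t ≠ 0) :
    HasDerivAt (fun t => FL G z δ t w) (FL' G z δ t w) t :=
  ((hasDerivAt_Xf hz w t).const_smul δ).fun_add
    (hasDerivAt_glue (fun t => SV.hasDerivAt_jf hz (0, w) t) ht)

/-- the index form of `X_w` is bounded by `C |w|²` -/
lemma exists_ix_Xf (h : GT.Bla G k) : ∃ C, 0 ≤ C ∧ ∀ z ∈ TS G, ‖z.2‖ = 1 → ∀ w : Euc N,
    SV.ix G z 0 (2 * Real.pi) (Xf G z w) (Xf' G z w) (Xf G z w) (Xf' G z w) ≤ C * ‖w‖ ^ 2 := by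
  obtain ⟨B, hB0, hB⟩ := SV.exists_II_bound G h.bl.cpt
  refine ⟨((B + 1) ^ 2 + B * B) * (2 * Real.pi), by have := Real.pi_pos; positivity, ?_⟩
  intro z hz h1 w
  have hfl : ∀ t, ‖(fl G (z, t)).2‖ = 1 := fun t => by rw [norm_fl G hz, h1]
  have hpt : ∀ t ∈ Icc 0 (2 * Real.pi), SV.ixd G z (Xf G z w) (Xf' G z w) (Xf G z w) (Xf' G z w) t
      ≤ ((B + 1) ^ 2 + B * B) * ‖w‖ ^ 2 := by
    intro t _
    have hS := (fl_mem G hz t).1
    have e1 : ‖rh t • w‖ ≤ ‖w‖ := by
      rw [norm_smul, Real.norm_eq_abs]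
      exact mul_le_of_le_one_left (norm_nonneg _) (abs_rh t)
    have e2 : ‖rh' t • w‖ ≤ ‖w‖ := by
      rw [norm_smul, Real.norm_eq_abs]
      exact mul_le_of_le_one_left (norm_nonneg _) (abs_rh' t)
    have e3 : ‖Xf G z w t‖ ≤ ‖w‖ := (SV.norm_P_le hS _).trans e1
    have e4 : ‖Xf' G z w t‖ ≤ (B + 1) * ‖w‖ := by
      unfold Xf'
      refine (norm_add_le _ _).trans ?_
      have h5 := hB _ hS (fl G (z, t)).2 (rh t • w)
      rw [hfl, mul_one] at h5
      have h6 := (SV.norm_P_le (G := G) hS (rh' t • w)).trans e2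
      have h7 : B * ‖rh t • w‖ ≤ B * ‖w‖ := by gcongr
      unfold II at h5
      linarith
    have e5 : ‖(X G (fl G (z, t))).2‖ ≤ B := by
      have h5 := hB _ hS (fl G (z, t)).2 (fl G (z, t)).2
      rw [hfl, mul_one, mul_one] at h5
      exact h5
    have e6 : ‖II G (fl G (z, t)).1 (Xf G z w t) (Xf G z w t)‖ ≤ B * ‖w‖ * ‖w‖ :=
      (hB _ hS _ _).trans (by gcongr)
    have e7 : -⟪(X G (fl G (z, t))).2, II G (fl G (z, t)).1 (Xf G z w t) (Xf G z w t)⟫ ≤
        B * (B * ‖w‖ * ‖w‖) := by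
      refine (neg_le_abs _).trans ((abs_real_inner_le_norm _ _).trans ?_)
      gcongr
    unfold SV.ixd
    rw [real_inner_self_eq_norm_sq]
    have e8 : ‖Xf' G z w t‖ ^ 2 ≤ ((B + 1) * ‖w‖) ^ 2 := by gcongr
    nlinarith
  have hi := (fld_Xf hz w 0 (2 * Real.pi)).intble hz (by positivity) (fld_Xf hz w 0 (2 * Real.pi))
  unfold SV.ix
  have h2 := intervalIntegral.integral_mono_on (by positivity) hi
    (g := fun _ => ((B + 1) ^ 2 + B * B) * ‖w‖ ^ 2) (by simp) hpt
  refine h2.trans (le_of_eq ?_)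
  rw [intervalIntegral.integral_const]
  simp only [sub_zero, smul_eq_mul]
  ring

/-- **the value of the form on the broken field** -/
lemma int_Psi_FL (h : GT.Bla G k) (hz : z ∈ TS G) (h1 : ‖z.2‖ = 1) (hw : w ∈ Wz G z) (δ : ℝ) :
    ∫ t in (0 : ℝ)..(2 * Real.pi), Psi G z t (FL G z δ t w) (FL' G z δ t w) =
      δ ^ 2 * SV.ix G z 0 (2 * Real.pi) (Xf G z w) (Xf' G z w) (Xf G z w) (Xf' G z w) -
        2 * δ * ‖w‖ ^ 2 := by
  have hwT := Wz_le h hz h1 hw
  have hpi := Real.pi_pos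
  set A : ℝ → Euc N := δ • Xf G z w with hA
  set A' : ℝ → Euc N := δ • Xf' G z w with hA'
  set J : ℝ → Euc N := SV.jf G z (0, w) with hJ
  set J' : ℝ → Euc N := SV.jf' G z (0, w) with hJ'
  have fA : ∀ a b, SV.Fld G z a b A A' := fun a b => (fld_Xf hz w a b).smul δ
  have hT : TanTS G z (0, w) := GT.tanTS_vert hz hwT
  have fJ : ∀ a b, SV.Fld G z a b J J' := fun a b => SV.fld_jf hT a b
  have fAJ : SV.Fld G z 0 Real.pi (A + J) (A' + J') := (fA _ _).add (fJ _ _)
  -- the first half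
  have i1 : ∀ᵐ t : ℝ, t ∈ Ioc 0 Real.pi → Psi G z t (FL G z δ t w) (FL' G z δ t w) =
      SV.ixd G z (A + J) (A' + J') (A + J) (A' + J') t := by
    filter_upwards [ae_sin_ne] with t hs ht
    have hs0 : 0 < Real.sin t := by
      rcases ht.2.lt_or_eq with h2 | h2
      · exact Real.sin_pos_of_pos_of_lt_pi ht.1 h2
      · exact absurd (by rw [h2]; exact Real.sin_pi) hs
    rw [← Psi_fld hz hpi fAJ ⟨ht.1.le, ht.2⟩]
    unfold FL FL'
    rw [if_pos hs0, if_pos hs0]
    rfl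
  have i2 : ∀ᵐ t : ℝ, t ∈ Ioc Real.pi (2 * Real.pi) →
      Psi G z t (FL G z δ t w) (FL' G z δ t w) = SV.ixd G z A A' A A' t := by
    filter_upwards [ae_sin_ne] with t hs ht
    have hs0 : ¬ 0 < Real.sin t := by
      intro h0
      have h3 : Real.sin (t - 2 * Real.pi) = Real.sin t := Real.sin_sub_two_pi t
      have h4 : Real.sin (t - 2 * Real.pi) ≤ 0 :=
        Real.sin_nonpos_of_nonpos_of_neg_pi_le (by linarith [ht.2]) (by linarith [ht.1])
      linarith
    rw [← Psi_fld hz (by linarith : Real.pi < 2 * Real.pi) (fA _ _) ⟨ht.1.le, ht.2⟩]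
    unfold FL FL'
    rw [if_neg hs0, if_neg hs0, add_zero, add_zero]
    rfl
  have e1 : ∫ t in (0 : ℝ)..Real.pi, Psi G z t (FL G z δ t w) (FL' G z δ t w) =
      SV.ix G z 0 Real.pi (A + J) (A' + J') (A + J) (A' + J') := by
    unfold SV.ix
    refine intervalIntegral.integral_congr_ae ?_
    rw [uIoc_of_le hpi.le]
    exact i1
  have e2 : ∫ t in Real.pi..(2 * Real.pi), Psi G z t (FL G z δ t w) (FL' G z δ t w) =
      SV.ix G z Real.pi (2 * Real.pi) A A' A A' := by
    unfold SV.ix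
    refine intervalIntegral.integral_congr_ae ?_
    rw [uIoc_of_le (by linarith)]
    exact i2
  have j1 : IntervalIntegrable (fun t => Psi G z t (FL G z δ t w) (FL' G z δ t w)) volume
      0 Real.pi := by
    refine (fAJ.intble hz hpi.le fAJ).congr_ae ?_
    rw [uIoc_of_le hpi.le, EventuallyEq, ae_restrict_iff' measurableSet_Ioc]
    filter_upwards [i1] with t ht hm
    exact (ht hm).symm
  have j2 : IntervalIntegrable (fun t => Psi G z t (FL G z δ t w) (FL' G z δ t w)) volume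
      Real.pi (2 * Real.pi) := by
    refine ((fA _ _).intble hz (by linarith) (fA _ _)).congr_ae ?_
    rw [uIoc_of_le (by linarith), EventuallyEq, ae_restrict_iff' measurableSet_Ioc]
    filter_upwards [i2] with t ht hm
    exact (ht hm).symm
  rw [← intervalIntegral.integral_add_adjacent_intervals j1 j2, e1, e2,
    SV.ix_add_self hpi.le hz (fA _ _) (fJ _ _)]
  have e3 : SV.ix G z 0 Real.pi J J' A A' = -(δ * ‖w‖ ^ 2) := by
    rw [hJ, hJ', SV.ix_jac hT hpi.le (fA _ _), jf'_zero hz]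
    have a1 : A Real.pi = 0 := by
      rw [hA, Pi.smul_apply]; unfold Xf; rw [rh_pi, zero_smul, map_zero, smul_zero]
    have a2 : A 0 = δ • w := by
      rw [hA, Pi.smul_apply]; unfold Xf
      rw [rh_zero, one_smul, fl_zero, (P_eq_self G hz.1).1 hwT]
    rw [a1, a2, inner_zero_right, inner_smul_right, real_inner_self_eq_norm_sq]
    ring
  have e4 : SV.ix G z 0 Real.pi J J' J J' = 0 := by
    have a1 : J Real.pi = 0 := jf_pi h hz h1 hw
    have a2 : J 0 = 0 := jf_zero hz _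
    have a3 := SV.ix_jac hT hpi.le (fJ _ _)
    rw [a1, a2] at a3
    rw [hJ, hJ', a3]
    simp
  rw [e3, e4]
  have e5 := SV.ix_add_interval hz hpi.le (by linarith : Real.pi ≤ 2 * Real.pi) (fA 0 Real.pi)
    (fA 0 Real.pi) (fA Real.pi (2 * Real.pi)) (fA Real.pi (2 * Real.pi))
  have e6 : SV.ix G z 0 (2 * Real.pi) A A' A A' =
      δ ^ 2 * SV.ix G z 0 (2 * Real.pi) (Xf G z w) (Xf' G z w) (Xf G z w) (Xf' G z w) := by
    rw [hA, hA', SV.ix_smul_left, SV.ix_smul_right]; ring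
  rw [← e6, ← e5]
  ring

end Crest.Agent.R208.NN
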