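import Crest.Agent.R208.NN2d

/-!
Row 208, block [N], part NN2e (helper336): for one closed geodesic the form `qf` is negative
definite on a `(k-1)`-dimensional space of trigonometric polynomials.
-/

set_option autoImplicit false

open MeasureTheory Set Filter Topology Module Metric
open scoped ContDiff RealInnerProductSpace
open Crest.GeometryTopology.Submanifold
open Crest.Agent.R241.DDefs
open Crest.Agent.R241.D2
open Crest.Agent.R208.L (om TanTS dfl om_dfl)

noncomputable section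

namespace Crest.Agent.R208.NN

variable {n N K k : ℕ} {κ : ℝ} {S : Set (Euc N)} {G : Geo n N κ S} {z : Euc N × Euc N}
  {w : Euc N}

lemma Psi_smul (z : Euc N × Euc N) (c t : ℝ) (x y : Euc N) :
    Psi G z t (c • x) (c • y) = c ^ 2 * Psi G z t x y := by
  unfold Psi II
  simp only [map_smul, smul_apply, real_inner_smul_right, ← smul_sub, ← smul_add, norm_smul,
    mul_pow, Real.norm_eq_abs, sq_abs]
  ring

lemma qf_smul (hz : z ∈ TS G) (ν : Fin K → ℝ) (c : ℝ) (w : Wt N K) :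
    qf G z ν (c • w) = c ^ 2 * qf G z ν w := by
  rw [qf_eq hz, qf_eq hz, ← intervalIntegral.integral_const_mul]
  refine intervalIntegral.integral_congr fun t _ => ?_
  simp only [map_smul]
  exact Psi_smul z c t _ _

lemma qf_zero (hz : z ∈ TS G) (ν : Fin K → ℝ) : qf G z ν (0 : Wt N K) = 0 := by
  have := qf_smul hz ν 0 (0 : Wt N K)
  simpa using this

/-- difference quotients converge to the derivative -/
lemma tendsto_dq {F : ℝ → Euc N} {F' : Euc N} {t : ℝ} (hF : HasDerivAt F F' t) :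
    Tendsto (fun m : ℕ => ((m : ℝ) + 1) • (F (t + 1 / ((m : ℝ) + 1)) - F t)) atTop (𝓝 F') := by
  have h1 := hF.tendsto_slope_zero
  have h2 : Tendsto (fun m : ℕ => 1 / ((m : ℝ) + 1)) atTop (𝓝[≠] 0) := by
    rw [tendsto_nhdsWithin_iff]
    refine ⟨tendsto_one_div_add_atTop_nhds_zero_nat, Eventually.of_forall fun m => ?_⟩
    simp only [mem_compl_iff, mem_singleton_iff]
    positivity
  have h3 := h1.comp h2
  refine h3.congr fun m => ?_
  simp only [Function.comp_apply, one_div, inv_inv]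

set_option maxHeartbeats 400000 in
theorem exists_neg_z (h : GT.Bla G k) (hz : z ∈ TS G) (h1 : ‖z.2‖ = 1) :
    ∃ K, ∃ N0 : Submodule ℝ (Wt N K), finrank ℝ N0 + 1 = k ∧
      ∀ w ∈ N0, w ≠ 0 → qf G z (nuP K) w < 0 := by
  by_contra hcon
  push Not at hcon
  -- data
  obtain ⟨C, hC0, hC⟩ := exists_ix_Xf h
  set δ : ℝ := 1 / (C + 1) with hδ
  have hδ0 : 0 < δ := by positivity
  set d := finrank ℝ (Wz G z) with hd
  have hdk : d + 1 = k := finrank_Wz h hz h1
  set b := stdOrthonormalBasis ℝ (Wz G z) with hb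
  -- the basic fields
  have hbm : ∀ j, ((b j : Wz G z) : Euc N) ∈ Wz G z := fun j => (b j).2
  have hL : ∀ j, ∃ L, 0 ≤ L ∧ ∀ s t, ‖FL G z δ t (b j) - FL G z δ s (b j)‖ ≤ L * |t - s| :=
    fun j => FL_lip h hz h1 (hbm j) δ
  choose L hL0 hL using hL
  have hB : ∀ j, ∃ B, ∀ t, ‖FL G z δ t (b j)‖ ≤ B := by
    intro j
    obtain ⟨B, hB⟩ := (isCompact_Icc (a := (0:ℝ)) (b := 2 * Real.pi)).exists_bound_of_continuousOn
      (FL_cont h hz h1 (hbm j) δ).continuousOn
    exact ⟨B, fun t => small_of_per (FL_per h hz h1 (hbm j) δ) hB t⟩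
  choose B hB using hB
  have happ : ∀ j (m : ℕ), ∃ K0 : ℕ, ∀ K ≥ K0, ∃ w : Wt N K, ∀ t : ℝ,
      ‖ev (nuP K) t w - FL G z δ t (b j)‖ ≤ (L j + 1) * (1 / ((m : ℝ) + 1)) ∧
      ‖ev' (nuP K) t w - ((m : ℝ) + 1) •
        (FL G z δ (t + 1 / ((m : ℝ) + 1)) (b j) - FL G z δ t (b j))‖ ≤ 1 / ((m : ℝ) + 1) :=
    fun j m => approx_lip (hL j) (FL_cont h hz h1 (hbm j) δ) (FL_per h hz h1 (hbm j) δ) m
  choose K0 hK0 using happ
  set Km : ℕ → ℕ := fun m => Finset.univ.sup fun j => K0 j m with hKm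
  have hT : ∀ j m, ∃ w : Wt N (Km m), ∀ t : ℝ,
      ‖ev (nuP (Km m)) t w - FL G z δ t (b j)‖ ≤ (L j + 1) * (1 / ((m : ℝ) + 1)) ∧
      ‖ev' (nuP (Km m)) t w - ((m : ℝ) + 1) •
        (FL G z δ (t + 1 / ((m : ℝ) + 1)) (b j) - FL G z δ t (b j))‖ ≤ 1 / ((m : ℝ) + 1) :=
    fun j m => hK0 j m (Km m) (Finset.le_sup (f := fun j => K0 j m) (Finset.mem_univ j))
  choose T hT using hT
  -- the linear maps
  set Lin : ∀ m, EuclideanSpace ℝ (Fin d) →ₗ[ℝ] Wt N (Km m) := fun m =>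
    { toFun := fun c => ∑ j, c j • T j m
      map_add' := fun c c' => by
        simp only [PiLp.add_apply, add_smul, Finset.sum_add_distrib]
      map_smul' := fun a c => by
        simp only [PiLp.smul_apply, smul_eq_mul, RingHom.id_apply, Finset.smul_sum, smul_smul] }
    with hLin
  -- a bad unit vector for every `m`
  have hbad : ∀ m, ∃ c : EuclideanSpace ℝ (Fin d), ‖c‖ = 1 ∧
      0 ≤ qf G z (nuP (Km m)) (Lin m c) := by
    intro m
    have hex : ∃ c : EuclideanSpace ℝ (Fin d), c ≠ 0 ∧ 0 ≤ qf G z (nuP (Km m)) (Lin m c) := by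
      by_cases hinj : Function.Injective (Lin m)
      · have hfr : finrank ℝ (LinearMap.range (Lin m)) = d := by
          rw [LinearMap.finrank_range_of_inj hinj, finrank_euclideanSpace, Fintype.card_fin]
        obtain ⟨w, ⟨c, rfl⟩, hw0, hq⟩ := hcon (Km m) (LinearMap.range (Lin m)) (by rw [hfr, hdk])
        exact ⟨c, fun hc => hw0 (by rw [hc, map_zero]), hq⟩
      · rw [← LinearMap.ker_eq_bot, Submodule.eq_bot_iff] at hinj
        push Not at hinj
        obtain ⟨c, hc, hc0⟩ := hinj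
        rw [LinearMap.mem_ker] at hc
        exact ⟨c, hc0, by rw [hc, qf_zero hz]⟩
    obtain ⟨c, hc0, hq⟩ := hex
    refine ⟨‖c‖⁻¹ • c, norm_smul_inv_norm hc0, ?_⟩
    rw [map_smul, qf_smul hz]
    positivity
  choose c hc1 hcq using hbad
  -- a convergent subsequence
  obtain ⟨c0, hc0, φ, hφ, hlim⟩ := (isCompact_sphere (0 : EuclideanSpace ℝ (Fin d)) 1).tendsto_subseq
    (x := c) (fun m => by simpa using hc1 m)
  have hc0n : ‖c0‖ = 1 := by simpa using hc0
  -- the limit vector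
  set w0 : Euc N := ∑ j, c0 j • ((b j : Wz G z) : Euc N) with hw0
  have hw0m : w0 ∈ Wz G z := Submodule.sum_mem _ fun j _ => (Wz G z).smul_mem _ (b j).2
  have hw0n : ‖w0‖ = 1 := by
    have e1 : w0 = ((b.repr.symm c0 : Wz G z) : Euc N) := by
      rw [← b.sum_repr_symm, hw0, Submodule.coe_sum]
      rfl
    rw [e1]
    change ‖b.repr.symm c0‖ = 1
    rw [LinearIsometryEquiv.norm_map, hc0n]
  -- values of the approximations
  have hevL : ∀ m t (e : EuclideanSpace ℝ (Fin d)), ev (nuP (Km m)) t (Lin m e) =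
      ∑ j, e j • ev (nuP (Km m)) t (T j m) := by
    intro m t e
    simp only [hLin, LinearMap.coe_mk, AddHom.coe_mk, map_sum, map_smul]
  have hevL' : ∀ m t (e : EuclideanSpace ℝ (Fin d)), ev' (nuP (Km m)) t (Lin m e) =
      ∑ j, e j • ev' (nuP (Km m)) t (T j m) := by
    intro m t e
    simp only [hLin, LinearMap.coe_mk, AddHom.coe_mk, map_sum, map_smul]
  have hcj : ∀ m j, |c m j| ≤ 1 := by
    intro m j
    have := PiLp.norm_apply_le (p := 2) (c m) j
    rw [hc1 m] at this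
    simpa using this
  have hm1 : ∀ m : ℕ, 1 / ((m : ℝ) + 1) ≤ 1 := fun m => by
    rw [div_le_one (by positivity)]
    linarith [(Nat.cast_nonneg m : (0:ℝ) ≤ m)]
  have hm0 : ∀ m : ℕ, 0 < 1 / ((m : ℝ) + 1) := fun m => Nat.one_div_pos_of_nat
  have bd1 : ∀ j m t, ‖ev (nuP (Km m)) t (T j m)‖ ≤ B j + (L j + 1) := by
    intro j m t
    have e1 := (hT j m t).1
    have e2 := hB j t
    have e3 : (L j + 1) * (1 / ((m : ℝ) + 1)) ≤ (L j + 1) * 1 :=
      mul_le_mul_of_nonneg_left (hm1 m) (by linarith [hL0 j])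
    calc ‖ev (nuP (Km m)) t (T j m)‖ = ‖(ev (nuP (Km m)) t (T j m) - FL G z δ t (b j)) +
          FL G z δ t (b j)‖ := by rw [sub_add_cancel]
      _ ≤ ‖ev (nuP (Km m)) t (T j m) - FL G z δ t (b j)‖ + ‖FL G z δ t (b j)‖ := norm_add_le _ _
      _ ≤ B j + (L j + 1) := by linarith
  have bd2 : ∀ j m t, ‖ev' (nuP (Km m)) t (T j m)‖ ≤ L j + 1 := by
    intro j m t
    have e1 := (hT j m t).2
    have e2 := hL j t (t + 1 / ((m : ℝ) + 1))
    rw [add_sub_cancel_left, abs_of_pos (hm0 m)] at e2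
    have e3 : ‖((m : ℝ) + 1) •
        (FL G z δ (t + 1 / ((m : ℝ) + 1)) (b j) - FL G z δ t (b j))‖ ≤ L j := by
      rw [norm_smul, Real.norm_of_nonneg (by positivity)]
      calc ((m : ℝ) + 1) * ‖FL G z δ (t + 1 / ((m : ℝ) + 1)) (b j) - FL G z δ t (b j)‖
          ≤ ((m : ℝ) + 1) * (L j * (1 / ((m : ℝ) + 1))) := by gcongr
        _ = L j := by field_simp
    have e4 := hm1 m
    have e5 := norm_le_norm_add_norm_sub' (ev' (nuP (Km m)) t (T j m)) (((m : ℝ) + 1) •
        (FL G z δ (t + 1 / ((m : ℝ) + 1)) (b j) - FL G z δ t (b j)))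
    linarith
  set M : ℝ := ∑ j, (|B j| + (L j + 1)) with hM
  have hM1 : ∀ m t, ‖ev (nuP (Km m)) t (Lin m (c m))‖ ≤ M := by
    intro m t
    rw [hevL]
    refine (norm_sum_le _ _).trans (Finset.sum_le_sum fun j _ => ?_)
    rw [norm_smul, Real.norm_eq_abs]
    have e1 := bd1 j m t
    have e2 := le_abs_self (B j)
    calc |c m j| * ‖ev (nuP (Km m)) t (T j m)‖ ≤ 1 * ‖ev (nuP (Km m)) t (T j m)‖ :=
          mul_le_mul_of_nonneg_right (hcj m j) (norm_nonneg _)
      _ ≤ |B j| + (L j + 1) := by rw [one_mul]; linarith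
  have hM2 : ∀ m t, ‖ev' (nuP (Km m)) t (Lin m (c m))‖ ≤ M := by
    intro m t
    rw [hevL']
    refine (norm_sum_le _ _).trans (Finset.sum_le_sum fun j _ => ?_)
    rw [norm_smul, Real.norm_eq_abs]
    have e1 := bd2 j m t
    calc |c m j| * ‖ev' (nuP (Km m)) t (T j m)‖ ≤ 1 * ‖ev' (nuP (Km m)) t (T j m)‖ :=
          mul_le_mul_of_nonneg_right (hcj m j) (norm_nonneg _)
      _ ≤ |B j| + (L j + 1) := by rw [one_mul]; linarith [abs_nonneg (B j)]
  have hone : Tendsto (fun m : ℕ => 1 / ((m : ℝ) + 1)) atTop (𝓝 0) :=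
    tendsto_one_div_add_atTop_nhds_zero_nat
  have hTl : ∀ j t, Tendsto (fun m => ev (nuP (Km m)) t (T j m)) atTop
      (𝓝 (FL G z δ t (b j))) := by
    intro j t
    rw [tendsto_iff_norm_sub_tendsto_zero]
    refine squeeze_zero (fun _ => norm_nonneg _) (fun m => (hT j m t).1) ?_
    simpa using hone.const_mul (L j + 1)
  have hTl' : ∀ j t, Real.sin t ≠ 0 → Tendsto (fun m => ev' (nuP (Km m)) t (T j m)) atTop
      (𝓝 (FL' G z δ t (b j))) := by
    intro j t ht
    have e1 := tendsto_dq (FL_der hz (b j : Euc N) δ ht)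
    have e2 : Tendsto (fun m => ev' (nuP (Km m)) t (T j m) - ((m : ℝ) + 1) •
        (FL G z δ (t + 1 / ((m : ℝ) + 1)) (b j) - FL G z δ t (b j))) atTop (𝓝 0) := by
      rw [tendsto_zero_iff_norm_tendsto_zero]
      exact squeeze_zero (fun _ => norm_nonneg _) (fun m => (hT j m t).2) hone
    have e3 := e2.add e1
    simpa using e3
  have hcl : ∀ j, Tendsto (fun m => c (φ m) j) atTop (𝓝 (c0 j)) := by
    intro j
    have e1 : Continuous fun x : EuclideanSpace ℝ (Fin d) => x j := by fun_prop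
    exact (e1.tendsto c0).comp hlim
  have hX : ∀ t, Tendsto (fun m => ev (nuP (Km (φ m))) t (Lin (φ m) (c (φ m)))) atTop
      (𝓝 (FL G z δ t w0)) := by
    intro t
    have e1 : FL G z δ t w0 = ∑ j, c0 j • FL G z δ t (b j) := by
      change FLl G z δ t w0 = ∑ j, c0 j • FLl G z δ t (b j)
      rw [hw0, map_sum]
      simp only [map_smul]
    rw [e1]
    simp only [hevL]
    exact tendsto_finsetSum _ fun j _ => (hcl j).smul ((hTl j t).comp hφ.tendsto_atTop)
  have hY : ∀ᵐ t : ℝ, Tendsto (fun m => ev' (nuP (Km (φ m))) t (Lin (φ m) (c (φ m)))) atTop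
      (𝓝 (FL' G z δ t w0)) := by
    filter_upwards [ae_sin_ne] with t ht
    have e1 : FL' G z δ t w0 = ∑ j, c0 j • FL' G z δ t (b j) := by
      change FLl' G z δ t w0 = ∑ j, c0 j • FLl' G z δ t (b j)
      rw [hw0, map_sum]
      simp only [map_smul]
    rw [e1]
    simp only [hevL']
    exact tendsto_finsetSum _ fun j _ => (hcl j).smul ((hTl' j t ht).comp hφ.tendsto_atTop)
  have hlimI := tendsto_Psi (G := G) hz (by positivity : (0:ℝ) ≤ 2 * Real.pi)
    (x := fun m t => ev (nuP (Km (φ m))) t (Lin (φ m) (c (φ m))))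
    (y := fun m t => ev' (nuP (Km (φ m))) t (Lin (φ m) (c (φ m))))
    (fun m => continuous_ev _ _) (fun m => continuous_ev' _ _) (fun m t => hM1 (φ m) t)
    (fun m t => hM2 (φ m) t) hX hY
  have hge : 0 ≤ ∫ t in (0 : ℝ)..(2 * Real.pi), Psi G z t (FL G z δ t w0) (FL' G z δ t w0) := by
    refine ge_of_tendsto' hlimI fun m => ?_
    have := hcq (φ m)
    rwa [qf_eq hz] at this
  rw [int_Psi_FL h hz h1 hw0m, hw0n] at hge
  have h5 := hC z hz h1 w0
  rw [hw0n] at h5
  have h6 : δ * (C + 1) = 1 := by rw [hδ]; field_simp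
  nlinarith [mul_le_mul_of_nonneg_left h5 (sq_nonneg δ)]

end Crest.Agent.R208.NN
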