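import Crest.Agent.R208.NN1b

/-!
Row 208, block [N], part NN4 (helper589): broken fields. `HF a b A A'` : `A` is continuous on
`[a,b]`, differentiable off a countable set with derivative `A' ∈ L²`.  `BFld G q a b A A'` : in
addition `A` is tangent to `S` along the geodesic of `q`.
-/

set_option autoImplicit false

open MeasureTheory Measure Set Filter Topology Module Metric
open scoped ContDiff RealInnerProductSpace
open Crest.GeometryTopology.Submanifold
open Crest.Agent.R241.DDefs
open Crest.Agent.R241.D2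
open Crest.Agent.R208.L (om TanTS dfl om_dfl)
open Crest.Agent.R208.FI (Tan Sub)

noncomputable section

namespace Crest.Agent.R208.NN

variable {n N k K : ℕ} {κ : ℝ} {S : Set (Euc N)} {G : Geo n N κ S} {q z ξ : Euc N × Euc N}
  {a b c : ℝ} {A A' B B' V V' : ℝ → Euc N}

/-- continuous, differentiable off a countable set, derivative in `L²` -/
structure HF (a b : ℝ) (A A' : ℝ → Euc N) : Prop where
  cont : ContinuousOn A (Icc a b)
  der : ∃ s : Set ℝ, s.Countable ∧ ∀ t ∈ Ioo a b \ s, HasDerivAt A (A' t) t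
  l2 : MemLp A' 2 (volume.restrict (Ioc a b))

namespace HF

theorem add (hA : HF a b A A') (hB : HF a b B B') : HF a b (A + B) (A' + B') where
  cont := hA.cont.add hB.cont
  der := by
    obtain ⟨s, hs, h1⟩ := hA.der
    obtain ⟨s', hs', h2⟩ := hB.der
    exact ⟨s ∪ s', hs.union hs', fun t ht => (h1 t ⟨ht.1, fun h => ht.2 (Or.inl h)⟩).add
      (h2 t ⟨ht.1, fun h => ht.2 (Or.inr h)⟩)⟩
  l2 := hA.l2.add hB.l2

theorem sub (hA : HF a b A A') (hB : HF a b B B') : HF a b (A - B) (A' - B') where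
  cont := hA.cont.sub hB.cont
  der := by
    obtain ⟨s, hs, h1⟩ := hA.der
    obtain ⟨s', hs', h2⟩ := hB.der
    exact ⟨s ∪ s', hs.union hs', fun t ht => (h1 t ⟨ht.1, fun h => ht.2 (Or.inl h)⟩).sub
      (h2 t ⟨ht.1, fun h => ht.2 (Or.inr h)⟩)⟩
  l2 := hA.l2.sub hB.l2

theorem smul (r : ℝ) (hA : HF a b A A') : HF a b (r • A) (r • A') where
  cont := hA.cont.const_smul r
  der := by
    obtain ⟨s, hs, h1⟩ := hA.der
    exact ⟨s, hs, fun t ht => (h1 t ht).const_smul r⟩
  l2 := hA.l2.const_smul r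

theorem mono {a' b' : ℝ} (hA : HF a b A A') (ha : a ≤ a') (hb : b' ≤ b) : HF a' b' A A' where
  cont := hA.cont.mono (Icc_subset_Icc ha hb)
  der := by
    obtain ⟨s, hs, h1⟩ := hA.der
    exact ⟨s, hs, fun t ht => h1 t ⟨⟨ha.trans_lt ht.1.1, ht.1.2.trans_le hb⟩, ht.2⟩⟩
  l2 := hA.l2.mono_measure (Measure.restrict_mono (Ioc_subset_Ioc ha hb) le_rfl)

theorem trans (h1 : HF a b A A') (h2 : HF b c A A') (hab : a ≤ b) (hbc : b ≤ c) :
    HF a c A A' where
  cont := by
    have h3 := h1.cont.union_of_isClosed h2.cont isClosed_Icc isClosed_Icc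
    rwa [Icc_union_Icc_eq_Icc hab hbc] at h3
  der := by
    obtain ⟨s, hs, h3⟩ := h1.der
    obtain ⟨s', hs', h4⟩ := h2.der
    refine ⟨s ∪ s' ∪ {b}, (hs.union hs').union (countable_singleton b), fun t ht => ?_⟩
    have ht2 : t ∉ s ∧ t ∉ s' ∧ t ≠ b := by
      refine ⟨fun h => ht.2 (Or.inl (Or.inl h)), fun h => ht.2 (Or.inl (Or.inr h)),
        fun h => ht.2 (Or.inr h)⟩
    rcases lt_or_gt_of_ne ht2.2.2 with h | h
    · exact h3 t ⟨⟨ht.1.1, h⟩, ht2.1⟩
    · exact h4 t ⟨⟨h, ht.1.2⟩, ht2.2.1⟩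
  l2 := by
    rw [← Ioc_union_Ioc_eq_Ioc hab hbc]
    refine (memLp_two_iff_integrable_sq_norm
      (aestronglyMeasurable_union_iff.2 ⟨h1.l2.1, h2.l2.1⟩)).2 ?_
    exact integrableOn_union.2 ⟨(memLp_two_iff_integrable_sq_norm h1.l2.1).1 h1.l2,
      (memLp_two_iff_integrable_sq_norm h2.l2.1).1 h2.l2⟩

theorem of_cont (hA : ∀ t ∈ Icc a b, HasDerivWithinAt A (A' t) (Icc a b) t)
    (hA' : ContinuousOn A' (Icc a b)) : HF a b A A' where
  cont t ht := (hA t ht).continuousWithinAt
  der := ⟨∅, countable_empty, fun t ht =>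
    (hA t ⟨ht.1.1.le, ht.1.2.le⟩).hasDerivAt (Icc_mem_nhds ht.1.1 ht.1.2)⟩
  l2 := by
    have h1 : IntegrableOn (fun t => ‖A' t‖ ^ 2) (Ioc a b) :=
      ((hA'.norm.pow 2).integrableOn_Icc).mono_set Ioc_subset_Icc_self
    exact (memLp_two_iff_integrable_sq_norm
      ((hA'.aestronglyMeasurable measurableSet_Icc).mono_set Ioc_subset_Icc_self)).2 h1

/-- change of the derivative off a countable set -/
theorem congr_der (hA : HF a b A A') {s : Set ℝ} (hs : s.Countable)
    (h : ∀ t ∈ Ioo a b \ s, A' t = B' t) : HF a b A B' where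
  cont := hA.cont
  der := by
    obtain ⟨s', hs', h1⟩ := hA.der
    refine ⟨s' ∪ s, hs'.union hs, fun t ht => ?_⟩
    rw [← h t ⟨ht.1, fun h => ht.2 (Or.inr h)⟩]
    exact h1 t ⟨ht.1, fun h => ht.2 (Or.inl h)⟩
  l2 := by
    refine (memLp_congr_ae ?_).1 hA.l2
    have h1 : ∀ᵐ t ∂(volume.restrict (Ioc a b)), t ∉ s ∪ {b} :=
      ae_restrict_of_ae ((hs.union (countable_singleton b)).ae_notMem _)
    filter_upwards [h1, ae_restrict_mem measurableSet_Ioc] with t ht ht2
    refine h t ⟨⟨ht2.1, lt_of_le_of_ne ht2.2 fun h => ht (Or.inr h)⟩, fun h => ht (Or.inl h)⟩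

/-- change of the field on `[a,b]` -/
theorem congr (hA : HF a b A A') (h : ∀ t ∈ Icc a b, A t = B t) : HF a b B A' where
  cont := hA.cont.congr fun t ht => (h t ht).symm
  der := by
    obtain ⟨s', hs', h1⟩ := hA.der
    refine ⟨s', hs', fun t ht => (h1 t ht).congr_of_eventuallyEq ?_⟩
    filter_upwards [Ioo_mem_nhds ht.1.1 ht.1.2] with x hx
    exact (h x ⟨hx.1.le, hx.2.le⟩).symm
  l2 := hA.l2

theorem int (hA : HF a b A A') (hab : a ≤ b) : IntervalIntegrable A' volume a b := by
  rw [intervalIntegrable_iff_integrableOn_Ioc_of_le hab]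
  exact hA.l2.integrable (by norm_num)

theorem int_sq (hA : HF a b A A') (hab : a ≤ b) :
    IntervalIntegrable (fun t => ‖A' t‖ ^ 2) volume a b := by
  rw [intervalIntegrable_iff_integrableOn_Ioc_of_le hab]
  exact (memLp_two_iff_integrable_sq_norm hA.l2.1).1 hA.l2

theorem ftc (hA : HF a b A A') (hab : a ≤ b) : ∫ t in a..b, A' t = A b - A a := by
  obtain ⟨s, hs, h1⟩ := hA.der
  exact integral_eq_of_hasDerivAt_off_countable_of_le A A' hab hs hA.cont h1 (hA.int hab)

/-- image under a `C¹` family of linear maps -/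
theorem clm {L L' : ℝ → Euc N →L[ℝ] Euc N} (hL : ∀ t, HasDerivAt L (L' t) t)
    (hL' : Continuous L') (hA : HF a b A A') :
    HF a b (fun t => L t (A t)) (fun t => L' t (A t) + L t (A' t)) where
  cont := (continuous_iff_continuousAt.2 fun t => (hL t).continuousAt).continuousOn.clm_apply
    hA.cont
  der := by
    obtain ⟨s, hs, h1⟩ := hA.der
    exact ⟨s, hs, fun t ht => (hL t).clm_apply (h1 t ht)⟩
  l2 := by
    have hLc : Continuous L := continuous_iff_continuousAt.2 fun t => (hL t).continuousAt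
    have h1 : ContinuousOn (fun t => L' t (A t)) (Icc a b) :=
      hL'.continuousOn.clm_apply hA.cont
    have h2 : MemLp (fun t => L' t (A t)) 2 (volume.restrict (Ioc a b)) :=
      (memLp_two_iff_integrable_sq_norm
        ((h1.aestronglyMeasurable measurableSet_Icc).mono_set Ioc_subset_Icc_self)).2
        (((h1.norm.pow 2).integrableOn_Icc).mono_set Ioc_subset_Icc_self)
    obtain ⟨C, hC⟩ := (isCompact_Icc (a := a) (b := b)).exists_bound_of_continuousOn hLc.continuousOn
    have h3 : MemLp (fun t => L t (A' t)) 2 (volume.restrict (Ioc a b)) := by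
      refine MemLp.of_le_mul (c := C) hA.l2 ?_ ?_
      · exact (ContinuousLinearMap.apply ℝ (Euc N)).flip.aestronglyMeasurable_comp₂
          hLc.aestronglyMeasurable hA.l2.1
      · filter_upwards [ae_restrict_mem measurableSet_Ioc] with t ht
        exact ((L t).le_opNorm _).trans (mul_le_mul_of_nonneg_right
          (hC t (Ioc_subset_Icc_self ht)) (norm_nonneg _))
    exact h2.add h3

end HF

/-- tangent fields of class `H¹` along the geodesic of `q` -/
structure BFld (G : Geo n N κ S) (q : Euc N × Euc N) (a b : ℝ) (A A' : ℝ → Euc N) : Prop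
    extends HF a b A A' where
  mem : ∀ t ∈ Icc a b, A t ∈ G.T (fl G (q, t)).1

namespace BFld

theorem of_fld (hA : SV.Fld G q a b A A') : BFld G q a b A A' where
  toHF := HF.of_cont hA.der hA.cont
  mem := hA.mem

theorem add (hA : BFld G q a b A A') (hB : BFld G q a b B B') : BFld G q a b (A + B) (A' + B') where
  toHF := hA.toHF.add hB.toHF
  mem t ht := (G.T _).add_mem (hA.mem t ht) (hB.mem t ht)

theorem sub (hA : BFld G q a b A A') (hB : BFld G q a b B B') : BFld G q a b (A - B) (A' - B') where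
  toHF := hA.toHF.sub hB.toHF
  mem t ht := (G.T _).sub_mem (hA.mem t ht) (hB.mem t ht)

theorem smul (r : ℝ) (hA : BFld G q a b A A') : BFld G q a b (r • A) (r • A') where
  toHF := hA.toHF.smul r
  mem t ht := (G.T _).smul_mem r (hA.mem t ht)

theorem mono {a' b' : ℝ} (hA : BFld G q a b A A') (ha : a ≤ a') (hb : b' ≤ b) :
    BFld G q a' b' A A' where
  toHF := hA.toHF.mono ha hb
  mem t ht := hA.mem t ⟨ha.trans ht.1, ht.2.trans hb⟩

theorem trans (h1 : BFld G q a b A A') (h2 : BFld G q b c A A') (hab : a ≤ b) (hbc : b ≤ c) :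
    BFld G q a c A A' where
  toHF := h1.toHF.trans h2.toHF hab hbc
  mem t ht := by
    rcases le_total t b with h | h
    · exact h1.mem t ⟨ht.1, h⟩
    · exact h2.mem t ⟨h, ht.2⟩

theorem congr_der (hA : BFld G q a b A A') {s : Set ℝ} (hs : s.Countable)
    (h : ∀ t ∈ Ioo a b \ s, A' t = B' t) : BFld G q a b A B' where
  toHF := hA.toHF.congr_der hs h
  mem := hA.mem

theorem congr (hA : BFld G q a b A A') (h : ∀ t ∈ Icc a b, A t = B t) : BFld G q a b B A' where
  toHF := hA.toHF.congr h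
  mem t ht := by rw [← h t ht]; exact hA.mem t ht

theorem intble (hq : q ∈ TS G) (hab : a ≤ b) (hA : BFld G q a b A A') (hB : BFld G q a b B B') :
    IntervalIntegrable (SV.ixd G q A A' B B') volume a b := by
  have h1 : IntervalIntegrable (fun t => ⟪A' t, B' t⟫) volume a b := by
    refine ((hA.int_sq hab).add (hB.int_sq hab)).mono_fun' ?_ ?_
    · rw [uIoc_of_le hab]; exact hA.l2.1.inner hB.l2.1
    · refine Eventually.of_forall fun t => ?_
      simp only
      rw [Real.norm_eq_abs]
      refine (abs_real_inner_le_norm _ _).trans ?_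
      nlinarith [sq_nonneg (‖A' t‖ - ‖B' t‖), sq_nonneg (‖A' t‖), sq_nonneg (‖B' t‖)]
  have h2 : ContinuousOn (fun t => (X G (fl G (q, t))).2) (Icc a b) :=
    continuous_snd.comp_continuousOn ((contDiff_X G).continuous.comp_continuousOn
      (SV.contOn_fl hq _))
  have h3 : Continuous (fderiv ℝ G.P) := G.contDiff_P.continuous_fderiv (by simp)
  have h4 : ContinuousOn (fun t => II G (fl G (q, t)).1 (A t) (B t)) (Icc a b) :=
    ((h3.comp_continuousOn (continuous_fst.comp_continuousOn (SV.contOn_fl hq _))).clm_apply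
      hA.cont).clm_apply hB.cont
  have h5 : IntervalIntegrable (fun t => ⟪(X G (fl G (q, t))).2, II G (fl G (q, t)).1 (A t) (B t)⟫)
      volume a b := by
    apply ContinuousOn.intervalIntegrable
    rw [uIcc_of_le hab]
    exact h2.inner h4
  exact h1.sub h5

theorem ixd_symm {t : ℝ} (hq : q ∈ TS G) (hA : BFld G q a b A A') (hB : BFld G q a b B B')
    (ht : t ∈ Icc a b) : SV.ixd G q A A' B B' t = SV.ixd G q B B' A A' t := by
  unfold SV.ixd
  rw [real_inner_comm, SV.II_comm (fl_mem G hq t).1 (hA.mem t ht) (hB.mem t ht)]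

theorem ix_symm (hab : a ≤ b) (hq : q ∈ TS G) (hA : BFld G q a b A A') (hB : BFld G q a b B B') :
    SV.ix G q a b A A' B B' = SV.ix G q a b B B' A A' := by
  unfold SV.ix
  refine intervalIntegral.integral_congr fun t ht => ?_
  rw [uIcc_of_le hab] at ht
  exact ixd_symm hq hA hB ht

section bilin

variable {C C' : ℝ → Euc N} (hab : a ≤ b) (hq : q ∈ TS G)

include hab hq in
theorem ix_add_left (hA : BFld G q a b A A') (hB : BFld G q a b B B') (hC : BFld G q a b C C') :
    SV.ix G q a b (A + B) (A' + B') C C' = SV.ix G q a b A A' C C' + SV.ix G q a b B B' C C' := by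
  unfold SV.ix
  rw [← intervalIntegral.integral_add (hA.intble hq hab hC) (hB.intble hq hab hC)]
  exact intervalIntegral.integral_congr fun t _ => SV.ixd_add_left A A' B B' C C' t

include hab hq in
theorem ix_sub_left (hA : BFld G q a b A A') (hB : BFld G q a b B B') (hC : BFld G q a b C C') :
    SV.ix G q a b (A - B) (A' - B') C C' = SV.ix G q a b A A' C C' - SV.ix G q a b B B' C C' := by
  unfold SV.ix
  rw [← intervalIntegral.integral_sub (hA.intble hq hab hC) (hB.intble hq hab hC)]
  exact intervalIntegral.integral_congr fun t _ => SV.ixd_sub_left A A' B B' C C' t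

include hab hq in
theorem ix_add_right (hA : BFld G q a b A A') (hB : BFld G q a b B B') (hC : BFld G q a b C C') :
    SV.ix G q a b A A' (B + C) (B' + C') = SV.ix G q a b A A' B B' + SV.ix G q a b A A' C C' := by
  unfold SV.ix
  rw [← intervalIntegral.integral_add (hA.intble hq hab hB) (hA.intble hq hab hC)]
  exact intervalIntegral.integral_congr fun t _ => SV.ixd_add_right A A' B B' C C' t

include hab hq in
theorem ix_sub_right (hA : BFld G q a b A A') (hB : BFld G q a b B B') (hC : BFld G q a b C C') :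
    SV.ix G q a b A A' (B - C) (B' - C') = SV.ix G q a b A A' B B' - SV.ix G q a b A A' C C' := by
  unfold SV.ix
  rw [← intervalIntegral.integral_sub (hA.intble hq hab hB) (hA.intble hq hab hC)]
  exact intervalIntegral.integral_congr fun t _ => SV.ixd_sub_right A A' B B' C C' t

include hab hq in
/-- expansion of the square -/
theorem ix_sub_self (hA : BFld G q a b A A') (hB : BFld G q a b B B') :
    SV.ix G q a b (A - B) (A' - B') (A - B) (A' - B') =
      SV.ix G q a b A A' A A' - 2 * SV.ix G q a b B B' A A' + SV.ix G q a b B B' B B' := by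
  rw [ix_sub_left hab hq hA hB (hA.sub hB), ix_sub_right hab hq hA hA hB,
    ix_sub_right hab hq hB hA hB, ix_symm hab hq hA hB]
  ring

include hab hq in
theorem ix_add_self (hA : BFld G q a b A A') (hB : BFld G q a b B B') :
    SV.ix G q a b (A + B) (A' + B') (A + B) (A' + B') =
      SV.ix G q a b A A' A A' + 2 * SV.ix G q a b B B' A A' + SV.ix G q a b B B' B B' := by
  rw [ix_add_left hab hq hA hB (hA.add hB), ix_add_right hab hq hA hA hB,
    ix_add_right hab hq hB hA hB, ix_symm hab hq hA hB]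
  ring

end bilin

/-- additivity in the interval -/
theorem ix_add_interval (hq : q ∈ TS G) (hab : a ≤ b) (hbc : b ≤ c)
    (hA : BFld G q a b A A') (hB : BFld G q a b B B')
    (hA2 : BFld G q b c A A') (hB2 : BFld G q b c B B') :
    SV.ix G q a b A A' B B' + SV.ix G q b c A A' B B' = SV.ix G q a c A A' B B' :=
  intervalIntegral.integral_add_adjacent_intervals (hA.intble hq hab hB) (hA2.intble hq hbc hB2)

/-- change of the derivative off a countable set -/
theorem ix_congr_der (hab : a ≤ b) {s : Set ℝ} (hs : s.Countable)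
    (h : ∀ t ∈ Ioo a b \ s, A' t = B' t) {C C' D' : ℝ → Euc N}
    (h' : ∀ t ∈ Ioo a b \ s, C' t = D' t) :
    SV.ix G q a b A A' C C' = SV.ix G q a b A B' C D' := by
  unfold SV.ix
  rw [intervalIntegral.integral_of_le hab, intervalIntegral.integral_of_le hab]
  refine integral_congr_ae ?_
  have h1 : ∀ᵐ t ∂(volume.restrict (Ioc a b)), t ∉ s ∪ {b} :=
    ae_restrict_of_ae ((hs.union (countable_singleton b)).ae_notMem _)
  filter_upwards [h1, ae_restrict_mem measurableSet_Ioc] with t ht ht2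
  have ht3 : t ∈ Ioo a b \ s :=
    ⟨⟨ht2.1, lt_of_le_of_ne ht2.2 fun h => ht (Or.inr h)⟩, fun h => ht (Or.inl h)⟩
  unfold SV.ixd
  rw [h t ht3, h' t ht3]

/-- **boundary term of the index form on Jacobi fields** -/
theorem ix_jac (h : TanTS G q ξ) (hab : a ≤ b) (hY : BFld G q a b A A') :
    SV.ix G q a b (SV.jf G q ξ) (SV.jf' G q ξ) A A' =
      ⟪SV.jf' G q ξ b, A b⟫ - ⟪SV.jf' G q ξ a, A a⟫ := by
  have hq := SV.mem_TS h
  obtain ⟨s, hs, h1⟩ := hY.der
  have hcont : ContinuousOn (fun t => ⟪SV.jf' G q ξ t, A t⟫) (Icc a b) :=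
    ((SV.fld_jf h a b).cont).inner hY.cont
  have hder : ∀ t ∈ Ioo a b \ s, HasDerivAt (fun t => ⟪SV.jf' G q ξ t, A t⟫)
      (SV.ixd G q (SV.jf G q ξ) (SV.jf' G q ξ) A A' t) t := by
    intro t ht
    have ht' : t ∈ Icc a b := ⟨ht.1.1.le, ht.1.2.le⟩
    have h2 := SV.hasDerivAt_jf' hq ξ t
    refine (h2.inner ℝ (h1 t ht)).congr_deriv ?_
    rw [L.inner_fderiv_X (fl_mem G hq t) (L.tanTS_dfl hq h t) (hY.mem t ht')]
    unfold SV.ixd SV.jf
    ring
  exact integral_eq_of_hasDerivAt_off_countable_of_le _ _ hab hs hcont hder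
    ((of_fld (SV.fld_jf h a b)).intble hq hab hY)

end BFld

end Crest.Agent.R208.NN
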