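import Crest.Agent.R208.NN4

/-!
Row 208, block [N], part NN4b (helper589): approximation of broken fields by `C¹` fields, and the
index form is nonnegative on broken fields vanishing at the ends of a minimising arc.
-/

set_option autoImplicit false

open MeasureTheory Measure Set Filter Topology Module Metric
open scoped ContDiff RealInnerProductSpace
open Crest.GeometryTopology.Submanifold
open Crest.Agent.R241.DDefs
open Crest.Agent.R241.D2
open Crest.Agent.R208.L (om TanTS dfl om_dfl)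
open Crest.Agent.R208.FI (Tan Sub)

noncomputable section

namespace Crest.Agent.R208.NN

variable {n N k K : ℕ} {κ : ℝ} {S : Set (Euc N)} {G : Geo n N κ S} {q z ξ : Euc N × Euc N}
  {a b c : ℝ} {A A' B B' V V' : ℝ → Euc N}

/-- the variance identity: the mean minimises the `L²` distance -/
theorem integral_sub_mean {E : Type*} [NormedAddCommGroup E] [InnerProductSpace ℝ E]
    [CompleteSpace E] {f : ℝ → E} (hab : a < b) (hf : IntervalIntegrable f volume a b)
    (hf2 : IntervalIntegrable (fun t => ‖f t‖ ^ 2) volume a b) :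
    ∫ t in a..b, ‖f t - (b - a)⁻¹ • ∫ s in a..b, f s‖ ^ 2 =
      (∫ t in a..b, ‖f t‖ ^ 2) - (b - a)⁻¹ * ‖∫ s in a..b, f s‖ ^ 2 := by
  set m := ∫ s in a..b, f s with hm
  have hl : (b - a) ≠ 0 := (sub_pos.2 hab).ne'
  have h1 : ∀ t, ‖f t - (b - a)⁻¹ • m‖ ^ 2 =
      ‖f t‖ ^ 2 - 2 * (b - a)⁻¹ * (innerSL ℝ m) (f t) + (b - a)⁻¹ ^ 2 * ‖m‖ ^ 2 := by
    intro t
    rw [norm_sub_sq_real, real_inner_smul_right, norm_smul, mul_pow, Real.norm_eq_abs, sq_abs,
      innerSL_apply_apply, real_inner_comm]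
    ring
  simp_rw [h1]
  have h2 : IntervalIntegrable (fun t => (innerSL ℝ m) (f t)) volume a b :=
    ⟨(innerSL ℝ m).integrable_comp hf.1, (innerSL ℝ m).integrable_comp hf.2⟩
  rw [intervalIntegral.integral_add (hf2.sub (h2.const_mul _)) (by simp),
    intervalIntegral.integral_sub hf2 (h2.const_mul _), intervalIntegral.integral_const_mul,
    (innerSL ℝ m).intervalIntegral_comp_comm hf, ← hm, innerSL_apply_apply,
    real_inner_self_eq_norm_sq, intervalIntegral.integral_const, smul_eq_mul]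
  field_simp
  ring

/-- Cauchy–Schwarz for vector valued integrals -/
theorem norm_integral_sq_le {E : Type*} [NormedAddCommGroup E] [InnerProductSpace ℝ E]
    [CompleteSpace E] {f : ℝ → E} (hab : a ≤ b) (hf : IntervalIntegrable f volume a b)
    (hf2 : IntervalIntegrable (fun t => ‖f t‖ ^ 2) volume a b) :
    ‖∫ s in a..b, f s‖ ^ 2 ≤ (b - a) * ∫ t in a..b, ‖f t‖ ^ 2 := by
  rcases hab.eq_or_lt with rfl | h
  · simp
  have h1 := integral_sub_mean h hf hf2
  have h2 : 0 ≤ ∫ t in a..b, ‖f t - (b - a)⁻¹ • ∫ s in a..b, f s‖ ^ 2 :=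
    intervalIntegral.integral_nonneg hab fun t _ => by positivity
  rw [h1] at h2
  have hl : 0 < b - a := sub_pos.2 h
  have h3 : (b - a)⁻¹ * ‖∫ s in a..b, f s‖ ^ 2 ≤ ∫ t in a..b, ‖f t‖ ^ 2 := by linarith
  rwa [inv_mul_le_iff₀ hl] at h3

/-- approximation of an `H¹` function by a `C¹` function with the same end values -/
theorem HF.exists_approx (hA : HF a b A A') (hab : a < b) {δ : ℝ} (hδ : 0 < δ) :
    ∃ V V' : ℝ → Euc N, (∀ t, HasDerivAt V (V' t) t) ∧ Continuous V' ∧ V a = A a ∧ V b = A b ∧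
      (∀ t ∈ Icc a b, ‖A t - V t‖ ^ 2 ≤ δ) ∧ IntervalIntegrable (fun t => ‖A' t - V' t‖ ^ 2) volume a b ∧
      ∫ t in a..b, ‖A' t - V' t‖ ^ 2 ≤ δ := by
  have hl : 0 < b - a := sub_pos.2 hab
  set η := δ / (1 + (b - a)) with hη
  have hη0 : 0 < η := div_pos hδ (by linarith)
  have hηδ : η ≤ δ := by rw [hη, div_le_iff₀ (by linarith)]; nlinarith
  have hηδ' : (b - a) * η ≤ δ := by
    rw [hη, mul_div_assoc', div_le_iff₀ (by linarith)]; nlinarith
  have h2 : MemLp A' (ENNReal.ofReal 2) (volume.restrict (Ioc a b)) := by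
    have : ENNReal.ofReal 2 = 2 := by norm_num
    rw [this]; exact hA.l2
  obtain ⟨h, -, h3, hc, h4⟩ := h2.exists_hasCompactSupport_integral_rpow_sub_le (by norm_num) hη0
  have h5 : ∫ t in a..b, ‖A' t - h t‖ ^ 2 ≤ η := by
    rw [intervalIntegral.integral_of_le hab.le]
    refine le_trans (le_of_eq ?_) h3
    refine integral_congr_ae (Eventually.of_forall fun t => ?_)
    simp
  have hhf : HF a b (fun t => ∫ s in a..t, h s) h :=
    HF.of_cont (fun t _ => ((intervalIntegral.integral_hasDerivAt_right (hc.intervalIntegrable _ _)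
      (hc.stronglyMeasurableAtFilter _ _) hc.continuousAt)).hasDerivWithinAt) hc.continuousOn
  have hD := hA.sub hhf
  have i1 : IntervalIntegrable (fun t => A' t - h t) volume a b := hD.int hab.le
  have i2 : IntervalIntegrable (fun t => ‖A' t - h t‖ ^ 2) volume a b := hD.int_sq hab.le
  set e : Euc N := (b - a)⁻¹ • ∫ s in a..b, (A' s - h s) with he
  have h6 := integral_sub_mean hab i1 i2
  rw [← he] at h6
  have h7 : ∫ t in a..b, ‖A' t - (h t + e)‖ ^ 2 ≤ η := by
    have : ∀ t, A' t - (h t + e) = A' t - h t - e := fun t => by abel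
    simp_rw [this]
    rw [h6]
    have : 0 ≤ (b - a)⁻¹ * ‖∫ s in a..b, (A' s - h s)‖ ^ 2 := by positivity
    linarith
  have hc' : Continuous fun t => h t + e := hc.add continuous_const
  have hVd : ∀ t, HasDerivAt (fun t => A a + ∫ s in a..t, (h s + e)) (h t + e) t := fun t =>
    ((intervalIntegral.integral_hasDerivAt_right (hc'.intervalIntegrable _ _)
      (hc'.stronglyMeasurableAtFilter _ _) hc'.continuousAt)).const_add _
  have hVf : HF a b (fun t => A a + ∫ s in a..t, (h s + e)) (fun t => h t + e) :=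
    HF.of_cont (fun t _ => (hVd t).hasDerivWithinAt) hc'.continuousOn
  have hD2 := hA.sub hVf
  have i3 : IntervalIntegrable (fun t => ‖A' t - (h t + e)‖ ^ 2) volume a b := hD2.int_sq hab.le
  refine ⟨fun t => A a + ∫ s in a..t, (h s + e), fun t => h t + e, hVd, hc', by simp, ?_, ?_, i3,
    h7.trans hηδ⟩
  · simp only
    rw [intervalIntegral.integral_add (hc.intervalIntegrable _ _) (by simp),
      intervalIntegral.integral_const, he, smul_smul, mul_inv_cancel₀ hl.ne', one_smul,
      ← intervalIntegral.integral_add (hc.intervalIntegrable _ _) i1]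
    have : ∫ s in a..b, (h s + (A' s - h s)) = ∫ s in a..b, A' s := by
      refine intervalIntegral.integral_congr fun t _ => ?_
      simp
    rw [this, hA.ftc hab.le]
    abel
  · intro t ht
    have h8 := (hD2.mono le_rfl ht.2).ftc ht.1
    have h9 := norm_integral_sq_le ht.1 ((hD2.mono le_rfl ht.2).int ht.1)
      ((hD2.mono le_rfl ht.2).int_sq ht.1)
    rw [h8] at h9
    have h10 : (A - fun t => A a + ∫ s in a..t, (h s + e)) a = 0 := by simp
    rw [h10, sub_zero] at h9
    have h11 : ∫ s in a..t, ‖(A' - fun t => h t + e) s‖ ^ 2 ≤ η := by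
      refine le_trans ?_ h7
      refine intervalIntegral.integral_mono_interval le_rfl ht.1 ht.2 ?_ i3
      exact Eventually.of_forall fun t => by positivity
    refine h9.trans (le_trans ?_ hηδ')
    have h12 : t - a ≤ b - a := by linarith [ht.2]
    exact mul_le_mul h12 h11 (intervalIntegral.integral_nonneg ht.1 fun t _ => by positivity) hl.le

/-- derivative of a broken tangent field: `A' = II(c', A) + P A'` off a countable set -/
theorem BFld.der_eq (hz : z ∈ TS G) (hA : BFld G z a b A A') : ∃ s : Set ℝ, s.Countable ∧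
    ∀ t ∈ Ioo a b \ s, HasDerivAt A (A' t) t ∧
      A' t = II G (fl G (z, t)).1 (fl G (z, t)).2 (A t) + G.P (fl G (z, t)).1 (A' t) := by
  obtain ⟨s, hs, hd⟩ := hA.der
  refine ⟨s, hs, fun t ht => ⟨hd t ht, ?_⟩⟩
  have h1 : HasDerivAt (fun t => (fl G (z, t)).1) (fl G (z, t)).2 t :=
    hda_fst (hasDerivAt_fl G (complete G hz t))
  have h2 : HasDerivAt (fun t => G.P (fl G (z, t)).1)
      (fderiv ℝ G.P (fl G (z, t)).1 (fl G (z, t)).2) t :=
    ((differentiable_P G).differentiableAt.hasFDerivAt).comp_hasDerivAt t h1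
  have h3 := h2.clm_apply (hd t ht)
  have h4 : HasDerivAt A (fderiv ℝ G.P (fl G (z, t)).1 (fl G (z, t)).2 (A t) +
      G.P (fl G (z, t)).1 (A' t)) t := by
    refine h3.congr_of_eventuallyEq ?_
    filter_upwards [Ioo_mem_nhds ht.1.1 ht.1.2] with x hx
    exact ((P_eq_self G (fl_mem G hz x).1).1 (hA.mem x ⟨hx.1.le, hx.2.le⟩)).symm
  exact (hd t ht).unique h4

/-- the family of projections along a geodesic -/
theorem hasDerivAt_P_fl (hz : z ∈ TS G) (t : ℝ) : HasDerivAt (fun t => G.P (fl G (z, t)).1)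
      (fderiv ℝ G.P (fl G (z, t)).1 (fl G (z, t)).2) t :=
  ((differentiable_P G).differentiableAt.hasFDerivAt).comp_hasDerivAt t
    (hda_fst (hasDerivAt_fl G (complete G hz t)))

theorem continuous_dP_fl (hz : z ∈ TS G) :
    Continuous (fun t => fderiv ℝ G.P (fl G (z, t)).1 (fl G (z, t)).2) := by
  have h1 := SV.continuous_fl (G := G) hz
  have h3 : Continuous (fderiv ℝ G.P) := G.contDiff_P.continuous_fderiv (by simp)
  exact (h3.comp h1.fst).clm_apply h1.snd

theorem norm_add_sq_le {E : Type*} [SeminormedAddCommGroup E] (x y : E) :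
    ‖x + y‖ ^ 2 ≤ 2 * ‖x‖ ^ 2 + 2 * ‖y‖ ^ 2 := by
  have h := norm_add_le x y
  have h0 := norm_nonneg (x + y)
  nlinarith [sq_nonneg (‖x‖ - ‖y‖), norm_nonneg x, norm_nonneg y]

/-- **approximation of a broken tangent field by `C¹` tangent fields** with the same end values -/
theorem BFld.exists_approx (hz : z ∈ TS G) (hA : BFld G z a b A A') (hab : a < b) {δ : ℝ}
    (hδ : 0 < δ) :
    ∃ C C' : ℝ → Euc N, SV.Fld G z a b C C' ∧ C a = A a ∧ C b = A b ∧
      (∀ t ∈ Icc a b, ‖A t - C t‖ ^ 2 ≤ δ) ∧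
      ∫ t in a..b, (‖A t - C t‖ ^ 2 + ‖A' t - C' t‖ ^ 2) ≤ δ := by
  have hl : 0 < b - a := sub_pos.2 hab
  obtain ⟨M, hM⟩ := (isCompact_Icc (a := a) (b := b)).exists_bound_of_continuousOn
    (continuous_dP_fl (G := G) hz).continuousOn
  have hM0 : 0 ≤ M := (norm_nonneg _).trans (hM a ⟨le_rfl, hab.le⟩)
  set R : ℝ := 1 + (b - a) + 2 * M ^ 2 * (b - a) + 2 with hR
  have hR0 : 0 < R := by positivity
  have hR1 : 1 ≤ R := by rw [hR]; nlinarith [mul_nonneg (mul_nonneg zero_le_two (sq_nonneg M)) hl.le]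
  obtain ⟨V, V', hV, hVc, hVa, hVb, hV1, hVi, hV2⟩ := hA.toHF.exists_approx hab
    (div_pos hδ hR0)
  set η := δ / R with hη
  have hη0 : 0 < η := div_pos hδ hR0
  have hηδ : η ≤ δ := div_le_self hδ.le hR1
  obtain ⟨s, hs, hd⟩ := hA.der_eq hz
  have hP : ∀ t, ‖G.P (fl G (z, t)).1 (A t - V t)‖ ≤ ‖A t - V t‖ := fun t =>
    SV.norm_P_le (fl_mem G hz t).1 _
  have hPA : ∀ t ∈ Icc a b, A t - G.P (fl G (z, t)).1 (V t) =
      G.P (fl G (z, t)).1 (A t - V t) := fun t ht => by
    rw [map_sub, (P_eq_self G (fl_mem G hz t).1).1 (hA.mem t ht)]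
  have hfl : SV.Fld G z a b (fun t => G.P (fl G (z, t)).1 (V t))
      (fun t => fderiv ℝ G.P (fl G (z, t)).1 (fl G (z, t)).2 (V t) +
        G.P (fl G (z, t)).1 (V' t)) := by
    refine ⟨fun t _ => ((hasDerivAt_P_fl hz t).clm_apply (hV t)).hasDerivWithinAt, ?_,
      fun t _ => P_mem G (fl_mem G hz t).1⟩
    have hVc' : Continuous V := continuous_iff_continuousAt.2 fun t => (hV t).continuousAt
    exact (((continuous_dP_fl hz).clm_apply hVc').add
      ((G.contDiff_P.continuous.comp (SV.continuous_fl hz).fst).clm_apply hVc)).continuousOn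
  refine ⟨fun t => G.P (fl G (z, t)).1 (V t), _, hfl, ?_, ?_, ?_, ?_⟩
  · simp only
    rw [hVa]
    exact (P_eq_self G (fl_mem G hz a).1).1 (hA.mem a ⟨le_rfl, hab.le⟩)
  · simp only
    rw [hVb]
    exact (P_eq_self G (fl_mem G hz b).1).1 (hA.mem b ⟨hab.le, le_rfl⟩)
  · intro t ht
    simp only
    rw [hPA t ht]
    exact ((pow_le_pow_left₀ (norm_nonneg _) (hP t) 2).trans (hV1 t ht)).trans hηδ
  · have hD := hA.sub (BFld.of_fld hfl)
    have i1 : IntervalIntegrable (fun t => ‖A t - G.P (fl G (z, t)).1 (V t)‖ ^ 2) volume a b := by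
      apply ContinuousOn.intervalIntegrable
      rw [uIcc_of_le hab.le]
      exact hD.cont.norm.pow 2
    have i2 := hD.int_sq hab.le
    have i3 : IntervalIntegrable (fun t => η + (2 * M ^ 2 * η + 2 * ‖A' t - V' t‖ ^ 2)) volume a b :=
      (by simp : IntervalIntegrable (fun _ : ℝ => η) volume a b).add
        ((by simp : IntervalIntegrable (fun _ : ℝ => 2 * M ^ 2 * η) volume a b).add
          (hVi.const_mul 2))
    have hle : ∫ t in a..b, (‖A t - G.P (fl G (z, t)).1 (V t)‖ ^ 2 +
        ‖A' t - (fderiv ℝ G.P (fl G (z, t)).1 (fl G (z, t)).2 (V t) +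
          G.P (fl G (z, t)).1 (V' t))‖ ^ 2) ≤
        ∫ t in a..b, (η + (2 * M ^ 2 * η + 2 * ‖A' t - V' t‖ ^ 2)) := by
      rw [intervalIntegral.integral_of_le hab.le, intervalIntegral.integral_of_le hab.le]
      refine integral_mono_ae ?_ ?_ ?_
      · exact ((i1.add i2).1)
      · exact i3.1
      · have h1 : ∀ᵐ t ∂(volume.restrict (Ioc a b)), t ∉ s ∪ {b} :=
          ae_restrict_of_ae ((hs.union (countable_singleton b)).ae_notMem _)
        filter_upwards [h1, ae_restrict_mem measurableSet_Ioc] with t ht ht2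
        have ht3 : t ∈ Ioo a b \ s :=
          ⟨⟨ht2.1, lt_of_le_of_ne ht2.2 fun h => ht (Or.inr h)⟩, fun h => ht (Or.inl h)⟩
        have ht4 : t ∈ Icc a b := Ioc_subset_Icc_self ht2
        have e1 := (hd t ht3).2
        have e2 : A' t - (fderiv ℝ G.P (fl G (z, t)).1 (fl G (z, t)).2 (V t) +
            G.P (fl G (z, t)).1 (V' t)) =
            fderiv ℝ G.P (fl G (z, t)).1 (fl G (z, t)).2 (A t - V t) +
              G.P (fl G (z, t)).1 (A' t - V' t) := by
          conv_lhs => rw [e1]
          unfold II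
          rw [map_sub, map_sub]
          abel
        rw [e2, hPA t ht4]
        refine add_le_add ((pow_le_pow_left₀ (norm_nonneg _) (hP t) 2).trans (hV1 t ht4)) ?_
        refine (norm_add_sq_le _ _).trans (add_le_add ?_ ?_)
        · have h2 : ‖fderiv ℝ G.P (fl G (z, t)).1 (fl G (z, t)).2 (A t - V t)‖ ≤
              M * ‖A t - V t‖ := (ContinuousLinearMap.le_opNorm _ _).trans
            (mul_le_mul_of_nonneg_right (hM t ht4) (norm_nonneg _))
          have h3 := pow_le_pow_left₀ (norm_nonneg _) h2 2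
          rw [mul_pow] at h3
          have h4 := mul_le_mul_of_nonneg_left (hV1 t ht4) (sq_nonneg M)
          linarith
        · exact mul_le_mul_of_nonneg_left (pow_le_pow_left₀ (norm_nonneg _)
            (SV.norm_P_le (fl_mem G hz t).1 _) 2) zero_le_two
    refine hle.trans ?_
    rw [intervalIntegral.integral_add (by simp) ((by simp : IntervalIntegrable
        (fun _ : ℝ => 2 * M ^ 2 * η) volume a b).add (hVi.const_mul 2)),
      intervalIntegral.integral_add (by simp) (hVi.const_mul 2),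
      intervalIntegral.integral_const, intervalIntegral.integral_const,
      intervalIntegral.integral_const_mul, smul_eq_mul, smul_eq_mul]
    have h5 : R * η = δ := by rw [hη]; field_simp
    have h6 : 0 ≤ 1 * η := by positivity
    rw [← h5, hR]
    nlinarith

end Crest.Agent.R208.NN
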