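import Crest.Agent.R208.NN4b

/-!
Row 208, block [N], part NN4c (helper589): the index form is nonnegative on broken fields vanishing
at the ends of a minimising arc; the periodic and antiperiodic upper bounds for broken fields.
-/

set_option autoImplicit false

open MeasureTheory Measure Set Filter Topology Module Metric
open scoped ContDiff RealInnerProductSpace
open Crest.GeometryTopology.Submanifold
open Crest.Agent.R241.DDefs
open Crest.Agent.R241.D2
open Crest.Agent.R208.L (om TanTS dfl om_dfl)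
open Crest.Agent.R208.FI (Tan Sub)

noncomputable section

namespace Crest.Agent.R208.NN

variable {n N k K : ℕ} {κ : ℝ} {S : Set (Euc N)} {G : Geo n N κ S} {q z ξ : Euc N × Euc N}
  {a b c : ℝ} {A A' B B' V V' : ℝ → Euc N}

/-- squared `H¹` norm -/
def hs (a b : ℝ) (A A' : ℝ → Euc N) : ℝ := ∫ t in a..b, (‖A t‖ ^ 2 + ‖A' t‖ ^ 2)

theorem HF.int_hs (hA : HF a b A A') (hab : a ≤ b) :
    IntervalIntegrable (fun t => ‖A t‖ ^ 2 + ‖A' t‖ ^ 2) volume a b := by
  refine IntervalIntegrable.add ?_ (hA.int_sq hab)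
  apply ContinuousOn.intervalIntegrable
  rw [uIcc_of_le hab]
  exact hA.cont.norm.pow 2

theorem hs_nonneg (hab : a ≤ b) : 0 ≤ hs a b A A' :=
  intervalIntegral.integral_nonneg hab fun t _ => by positivity

/-- continuity of the index form in `H¹` -/
theorem abs_ix_le (hz : z ∈ TS G) (hab : a ≤ b) : ∃ M, 0 ≤ M ∧ ∀ A A' B B' : ℝ → Euc N,
    BFld G z a b A A' → BFld G z a b B B' → ∀ r : ℝ, 0 < r →
      |2 * SV.ix G z a b A A' B B'| ≤ M * (r * hs a b A A' + r⁻¹ * hs a b B B') := by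
  have h2 : ContinuousOn (fun t => (X G (fl G (z, t))).2) (Icc a b) :=
    continuous_snd.comp_continuousOn ((contDiff_X G).continuous.comp_continuousOn
      (SV.contOn_fl hz _))
  have h3 : Continuous (fderiv ℝ G.P) := G.contDiff_P.continuous_fderiv (by simp)
  obtain ⟨M1, hM1⟩ := (isCompact_Icc (a := a) (b := b)).exists_bound_of_continuousOn h2
  have h3' : ContinuousOn (fun t => fderiv ℝ G.P (fl G (z, t)).1) (Icc a b) :=
    (h3.comp (SV.continuous_fl (G := G) hz).fst).continuousOn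
  obtain ⟨M2, hM2⟩ := IsCompact.exists_bound_of_continuousOn
    (E := Euc N →L[ℝ] Euc N →L[ℝ] Euc N) (isCompact_Icc (a := a) (b := b)) h3'
  have hM10 : 0 ≤ M1 := (norm_nonneg _).trans (hM1 a ⟨le_rfl, hab⟩)
  have hM20 : 0 ≤ M2 := (norm_nonneg _).trans (hM2 a ⟨le_rfl, hab⟩)
  have hpt : ∀ A A' B B' : ℝ → Euc N, ∀ r : ℝ, 0 < r → ∀ t ∈ Icc a b,
      |2 * SV.ixd G z A A' B B' t| ≤ (1 + M1 * M2) * (r * (‖A t‖ ^ 2 + ‖A' t‖ ^ 2) +
        r⁻¹ * (‖B t‖ ^ 2 + ‖B' t‖ ^ 2)) := by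
    intro A A' B B' r hr t ht
    have e1 : |⟪A' t, B' t⟫| ≤ ‖A' t‖ * ‖B' t‖ := abs_real_inner_le_norm _ _
    have e2 : |⟪(X G (fl G (z, t))).2, II G (fl G (z, t)).1 (A t) (B t)⟫| ≤
        M1 * M2 * (‖A t‖ * ‖B t‖) := by
      refine (abs_real_inner_le_norm _ _).trans ?_
      have e3 : ‖II G (fl G (z, t)).1 (A t) (B t)‖ ≤ M2 * ‖A t‖ * ‖B t‖ :=
        ((ContinuousLinearMap.le_opNorm _ _)).trans (mul_le_mul_of_nonneg_right
          ((ContinuousLinearMap.le_opNorm _ _).trans (mul_le_mul_of_nonneg_right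
            (hM2 t ht) (norm_nonneg _))) (norm_nonneg _))
      calc _ ≤ M1 * (M2 * ‖A t‖ * ‖B t‖) :=
            mul_le_mul (hM1 t ht) e3 (norm_nonneg _) hM10
        _ = _ := by ring
    have amgm : ∀ x y : ℝ, 2 * (x * y) ≤ r * x ^ 2 + r⁻¹ * y ^ 2 := by
      intro x y
      have h := sq_nonneg (r * x - y)
      have h' : 0 ≤ r⁻¹ * (r * x - y) ^ 2 := mul_nonneg (inv_nonneg.2 hr.le) h
      have h'' : r⁻¹ * (r * x - y) ^ 2 = r * x ^ 2 + r⁻¹ * y ^ 2 - 2 * (x * y) := by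
        field_simp
        ring
      linarith
    unfold SV.ixd
    rw [abs_mul, abs_two]
    have e4 := (abs_sub ⟪A' t, B' t⟫ ⟪(X G (fl G (z, t))).2, II G (fl G (z, t)).1 (A t) (B t)⟫)
    have a1 := amgm ‖A' t‖ ‖B' t‖
    have a2 := amgm ‖A t‖ ‖B t‖
    have p1 : 0 ≤ r * ‖A' t‖ ^ 2 + r⁻¹ * ‖B' t‖ ^ 2 := by positivity
    have p2 : 0 ≤ r * ‖A t‖ ^ 2 + r⁻¹ * ‖B t‖ ^ 2 := by positivity
    have hM12 : 0 ≤ M1 * M2 := mul_nonneg hM10 hM20
    nlinarith [mul_le_mul_of_nonneg_left a2 hM12, mul_nonneg hM12 p1]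
  refine ⟨1 + M1 * M2, by positivity, fun A A' B B' hA hB r hr => ?_⟩
  have i1 := hA.intble hz hab hB
  unfold SV.ix hs
  rw [← intervalIntegral.integral_const_mul, ← intervalIntegral.integral_const_mul,
    ← intervalIntegral.integral_const_mul, ← intervalIntegral.integral_add
      ((hA.int_hs hab).const_mul _) ((hB.int_hs hab).const_mul _),
    ← intervalIntegral.integral_const_mul, ← Real.norm_eq_abs]
  refine (intervalIntegral.norm_integral_le_integral_norm hab).trans ?_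
  refine intervalIntegral.integral_mono_on hab (i1.const_mul 2).norm
    ((((hA.int_hs hab).const_mul _).add ((hB.int_hs hab).const_mul _)).const_mul _) ?_
  intro t ht
  exact hpt A A' B B' r hr t ht

/-- **the index form is nonnegative on broken fields vanishing at the ends of a minimising arc** -/
theorem ix_nonneg_b {D : ℝ} (hB : Bl n N κ S G D) (hz : z ∈ TS G) (hz1 : ‖z.2‖ = 1)
    (hab : a ≤ b) (hbD : b - a ≤ D) (hA : BFld G z a b A A') (ha : A a = 0) (hb : A b = 0) :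
    0 ≤ SV.ix G z a b A A' A A' := by
  rcases hab.eq_or_lt with rfl | hlt
  · simp [SV.ix]
  by_contra hneg
  rw [not_le] at hneg
  obtain ⟨M, hM0, hM⟩ := abs_ix_le (G := G) hz hab
  set J := SV.ix G z a b A A' A A' with hJ
  set I := hs a b A A' with hI
  have hI0 : 0 ≤ I := hs_nonneg hab
  set r : ℝ := 3 * (M * I + 1) / (-J) with hr
  have hr0 : 0 < r := div_pos (by positivity) (by linarith)
  set δ : ℝ := -J / (3 * (M * (r + 1) + 1)) with hδ
  have hδ0 : 0 < δ := div_pos (by linarith) (by positivity)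
  obtain ⟨C, C', hC, hCa, hCb, -, hCI⟩ := hA.exists_approx hz hlt hδ0
  have h0 := SV.ix_nonneg hB hz hz1 hab hbD hC (by rw [hCa, ha]) (by rw [hCb, hb])
  have hD := hA.sub (BFld.of_fld hC)
  -- `C = A - D`
  have e1 := BFld.ix_sub_self hab hz hA hD
  have e2 : A - (A - C) = C := sub_sub_cancel _ _
  have e3 : A' - (A' - C') = C' := sub_sub_cancel _ _
  rw [e2, e3] at e1
  have hID : hs a b (A - C) (A' - C') ≤ δ := hCI
  have hID0 : 0 ≤ hs a b (A - C) (A' - C') := hs_nonneg hab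
  have h1 := hM _ _ _ _ hD hA r hr0
  have h2 := hM _ _ _ _ hD hD 1 one_pos
  rw [← hI] at h1
  rw [abs_le] at h1 h2
  have h3 : M * (r⁻¹ * I) ≤ -J / 3 := by
    rw [hr, inv_div]
    have : M * (-J / (3 * (M * I + 1)) * I) = (-J / 3) * (M * I / (M * I + 1)) := by
      field_simp
    rw [this]
    have h4 : M * I / (M * I + 1) ≤ 1 := by
      rw [div_le_one (by positivity)]; linarith
    nlinarith
  have h5 : M * (r + 1) * δ ≤ -J / 3 := by
    rw [hδ]
    have : M * (r + 1) * (-J / (3 * (M * (r + 1) + 1))) =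
        (-J / 3) * (M * (r + 1) / (M * (r + 1) + 1)) := by
      field_simp
    rw [this]
    have h4 : M * (r + 1) / (M * (r + 1) + 1) ≤ 1 := by
      rw [div_le_one (by positivity)]; linarith
    nlinarith
  have h6 : M * (r * hs a b (A - C) (A' - C')) + M * hs a b (A - C) (A' - C') ≤ -J / 3 := by
    refine le_trans ?_ h5
    have : M * (r * hs a b (A - C) (A' - C')) + M * hs a b (A - C) (A' - C') =
      M * (r + 1) * hs a b (A - C) (A' - C') := by ring
    rw [this]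
    exact mul_le_mul_of_nonneg_left hID (by positivity)
  simp only [one_mul, inv_one] at h2
  nlinarith [h1.1, h1.2, h2.1, h2.2]

/-! ### the orthogonal component -/

theorem bfld_pp (hz : z ∈ TS G) (hV : BFld G z a b V V') :
    BFld G z a b (pp G z V) (pp' G z V V') := by
  have hc : ∀ t, HasDerivAt (fun t => (fl G (z, t)).2) (X G (fl G (z, t))).2 t := fun t =>
    hda_snd (hasDerivAt_fl G (complete G hz t))
  -- the family of maps `x ↦ x - ⟪c', x⟫ c'`
  set L : ℝ → Euc N →L[ℝ] Euc N := fun t =>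
    ContinuousLinearMap.id ℝ (Euc N) - (innerSL ℝ (fl G (z, t)).2).smulRight (fl G (z, t)).2 with hL
  set L' : ℝ → Euc N →L[ℝ] Euc N := fun t =>
    -((innerSL ℝ (X G (fl G (z, t))).2).smulRight (fl G (z, t)).2 +
      (innerSL ℝ (fl G (z, t)).2).smulRight (X G (fl G (z, t))).2) with hL'
  have hLd : ∀ t, HasDerivAt L (L' t) t := by
    intro t
    have h1 : HasDerivAt (fun t => innerSL ℝ (fl G (z, t)).2)
        (innerSL ℝ (X G (fl G (z, t))).2) t :=
      ((innerSL ℝ).hasFDerivAt (x := (fl G (z, t)).2)).comp_hasDerivAt t (hc t)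
    have h2 := (ContinuousLinearMap.smulRightL ℝ (Euc N) (Euc N)).isBoundedBilinearMap.hasFDerivAt
      (innerSL ℝ (fl G (z, t)).2, (fl G (z, t)).2)
    have h3 := HasFDerivAt.comp_hasDerivAt (f := fun t =>
      (innerSL ℝ (fl G (z, t)).2, (fl G (z, t)).2)) t h2 (h1.prodMk (hc t))
    have h4 := (hasDerivAt_const t (ContinuousLinearMap.id ℝ (Euc N))).sub h3
    refine h4.congr_deriv ?_
    rw [hL']
    simp only [zero_sub]
    congr 1
    ext x
    simp [ContinuousLinearMap.smulRightL, add_comm]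
  have hL'c : Continuous L' := by
    have h1 := SV.continuous_fl (G := G) hz
    have h2 : Continuous (fun t => (X G (fl G (z, t))).2) := ((contDiff_X G).continuous.comp h1).snd
    have h3 : Continuous (fun t => (fl G (z, t)).2) := h1.snd
    have hb : Continuous fun p : (Euc N →L[ℝ] ℝ) × Euc N => p.1.smulRight p.2 :=
      (ContinuousLinearMap.smulRightL ℝ (Euc N) (Euc N)).isBoundedBilinearMap.continuous
    exact ((hb.comp (((innerSL ℝ).continuous.comp h2).prodMk h3)).add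
      (hb.comp (((innerSL ℝ).continuous.comp h3).prodMk h2))).neg
  have h1 := hV.toHF.clm hLd hL'c
  obtain ⟨s, hs, hd⟩ := hV.der_eq hz
  refine ⟨(h1.congr (B := pp G z V) fun t _ => ?_).congr_der (B' := pp' G z V V') hs fun t ht => ?_,
    fun t ht => ?_⟩
  · rw [hL]
    simp only [_root_.sub_apply, ContinuousLinearMap.id_apply, ContinuousLinearMap.smulRight_apply,
      innerSL_apply_apply]
    unfold pp
    rw [real_inner_comm]
  · have ht' : t ∈ Icc a b := ⟨ht.1.1.le, ht.1.2.le⟩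
    rw [hL, hL']
    simp only [_root_.sub_apply, _root_.neg_apply, _root_.add_apply, ContinuousLinearMap.id_apply,
      ContinuousLinearMap.smulRight_apply, innerSL_apply_apply]
    unfold pp'
    rw [inner_X_tan hz (hV.mem t ht'), real_inner_comm (V t), real_inner_comm (V' t)]
    module
  · exact (G.T _).sub_mem (hV.mem t ht) ((G.T _).smul_mem _ (fl_mem G hz t).2)

/-- the index form of the orthogonal component is smaller -/
theorem ix_pp_le_b (hz : z ∈ TS G) (h1 : ‖z.2‖ = 1) (hV : BFld G z a b V V') (hab : a ≤ b) :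
    SV.ix G z a b (pp G z V) (pp' G z V V') (pp G z V) (pp' G z V V') ≤
      SV.ix G z a b V V' V V' := by
  have hW := bfld_pp hz hV
  unfold SV.ix
  obtain ⟨s, hs, hd⟩ := hV.der_eq hz
  rw [intervalIntegral.integral_of_le hab, intervalIntegral.integral_of_le hab]
  refine integral_mono_ae (hW.intble hz hab hW).1 (hV.intble hz hab hV).1 ?_
  have h1' : ∀ᵐ t ∂(volume.restrict (Ioc a b)), t ∉ s ∪ {b} :=
    ae_restrict_of_ae ((hs.union (countable_singleton b)).ae_notMem _)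
  filter_upwards [h1', ae_restrict_mem measurableSet_Ioc] with t ht ht2
  have ht3 : t ∈ Ioo a b \ s :=
    ⟨⟨ht2.1, lt_of_le_of_ne ht2.2 fun h => ht (Or.inr h)⟩, fun h => ht (Or.inl h)⟩
  rw [ixd_pp_of hz h1 (hV.mem t (Ioc_subset_Icc_self ht2)) (hd t ht3).2]
  have := sq_nonneg (⟪V' t, (fl G (z, t)).2⟫)
  linarith

/-- a field which agrees with a periodic Jacobi field at the times `0, π, 2π` has nonnegative
index form -/
theorem nonneg_of_jac_b (h : GT.Bla G k) (hz : z ∈ L.US G) (hξ : ξ ∈ Tan (L.US G) z)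
    (hV : BFld G z 0 (2 * Real.pi) V V') (h0 : V 0 = SV.jf G z ξ 0)
    (h1 : V Real.pi = SV.jf G z ξ Real.pi) (h2 : V (2 * Real.pi) = SV.jf G z ξ 0) :
    0 ≤ SV.ix G z 0 (2 * Real.pi) V V' V V' := by
  have hpi := Real.pi_pos
  have hT := tanTS_of_Tan h hz hξ
  have hJ := BFld.of_fld (SV.fld_jf hT 0 (2 * Real.pi))
  have hab : (0 : ℝ) ≤ 2 * Real.pi := by positivity
  have hp1 : SV.jf G z ξ (2 * Real.pi) = SV.jf G z ξ 0 := by
    unfold SV.jf; rw [dfl_two_pi h hz hξ, L.dfl_zero hz.1]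
  have hp2 : SV.jf' G z ξ (2 * Real.pi) = SV.jf' G z ξ 0 := by
    unfold SV.jf'; rw [dfl_two_pi h hz hξ, L.dfl_zero hz.1]
  have e1 := BFld.ix_sub_self hab hz.1 hV hJ
  have e2 := BFld.ix_jac hT hab hV
  have e3 := BFld.ix_jac hT hab hJ
  rw [hp2, h2, h0, sub_self] at e2
  rw [hp2, hp1, sub_self] at e3
  rw [e2, e3] at e1
  have e4 : SV.ix G z 0 (2 * Real.pi) V V' V V' = SV.ix G z 0 (2 * Real.pi) (V - SV.jf G z ξ)
      (V' - SV.jf' G z ξ) (V - SV.jf G z ξ) (V' - SV.jf' G z ξ) := by rw [e1]; ring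
  rw [e4]
  have hD := hV.sub hJ
  have hD1 : BFld G z 0 Real.pi (V - SV.jf G z ξ) (V' - SV.jf' G z ξ) :=
    hD.mono le_rfl (by linarith)
  have hD2 : BFld G z Real.pi (2 * Real.pi) (V - SV.jf G z ξ) (V' - SV.jf' G z ξ) :=
    hD.mono hpi.le le_rfl
  rw [← BFld.ix_add_interval hz.1 hpi.le (by linarith) hD1 hD1 hD2 hD2]
  have z0 : (V - SV.jf G z ξ) 0 = 0 := by rw [Pi.sub_apply, h0, sub_self]
  have z1 : (V - SV.jf G z ξ) Real.pi = 0 := by rw [Pi.sub_apply, h1, sub_self]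
  have z2 : (V - SV.jf G z ξ) (2 * Real.pi) = 0 := by rw [Pi.sub_apply, h2, hp1, sub_self]
  exact add_nonneg (ix_nonneg_b h.bl hz.1 hz.2 hpi.le (by linarith) hD1 z0 z1)
    (ix_nonneg_b h.bl hz.1 hz.2 (by linarith) (by linarith) hD2 z1 z2)

/-- **periodic upper bound** for broken fields -/
theorem nonneg_per_b (h : GT.Bla G k) (hz : z ∈ L.US G)
    (hV : BFld G z 0 (2 * Real.pi) V V') (hper : V (2 * Real.pi) = V 0)
    (hl : ∀ w ∈ V0 G z, ⟪w, V 0⟫ + ⟪GT.lf G z.1 (qq G z) w, V Real.pi⟫ = 0) :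
    0 ≤ SV.ix G z 0 (2 * Real.pi) V V' V V' := by
  have hpi := Real.pi_pos
  refine le_trans ?_ (ix_pp_le_b hz.1 hz.2 hV (by positivity))
  obtain ⟨ξ, hξ, h0, h1⟩ := exists_jac_per h hz (V := V)
    (hV.mem 0 ⟨le_rfl, by positivity⟩) (hV.mem Real.pi ⟨hpi.le, by linarith⟩)
    (fun w hw hw0 => hl w (mem_V0.2 ⟨hw, hw0⟩))
  refine nonneg_of_jac_b h hz hξ (bfld_pp hz.1 hV) h0 h1 ?_
  have := pp_two_pi (c := 1) h hz (V := V) (by rw [one_smul]; exact hper)
  rw [this, one_smul, h0]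

/-- **antiperiodic upper bound** for broken fields -/
theorem nonneg_aper_b (h : GT.Bla G k) (hz : z ∈ L.US G)
    (hV : BFld G z 0 (2 * Real.pi) V V') (hper : V (2 * Real.pi) = -V 0)
    (h0 : pp G z V 0 = 0)
    (hl : ∀ w ∈ V0 G z, ⟪GT.lf G z.1 (qq G z) w, V Real.pi⟫ = 0) :
    0 ≤ SV.ix G z 0 (2 * Real.pi) V V' V V' := by
  have hpi := Real.pi_pos
  refine le_trans ?_ (ix_pp_le_b hz.1 hz.2 hV (by positivity))
  obtain ⟨ξ, hξ, j0, j1⟩ := exists_jac_aper h hz (V := V)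
    (hV.mem Real.pi ⟨hpi.le, by linarith⟩) (fun w hw hw0 => hl w (mem_V0.2 ⟨hw, hw0⟩))
  refine nonneg_of_jac_b h hz hξ (bfld_pp hz.1 hV) (by rw [h0, j0]) j1 ?_
  have := pp_two_pi (c := -1) h hz (V := V) (by rw [neg_one_smul]; exact hper)
  rw [this, h0, smul_zero, j0]

end Crest.Agent.R208.NN
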