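import Crest.Agent.R208.T2d
import Crest.Agent.R208.CW6b

/-! Row 208, block NO (helper537), part NO1: an orientation of a projection field is transported
along a (not necessarily isometric) smooth isomorphism of projection fields. -/

set_option autoImplicit false
set_option linter.unusedSectionVars false
set_option linter.unusedVariables false

open MeasureTheory Set Filter Topology Module
open scoped ContDiff Matrix RealInnerProductSpace
open Crest.Agent.R208.F Crest.Agent.R208.FI Crest.Agent.R208.CW Crest.Agent.R208.T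

noncomputable section

namespace Crest.Agent.R208.NO

section alg
variable {κ m n : Type} [Fintype κ] [DecidableEq κ] [Fintype m] [DecidableEq m] [Fintype n]
  [DecidableEq n]

/-- the norm of the tensor of an orthonormal frame -/
theorem sum_det_sq {g : Matrix m κ ℝ} (hg : gᵀ * g = 1) :
    ∑ I : κ → m, (g.submatrix I id).det ^ 2 = ((Fintype.card κ).factorial : ℝ) := by
  classical
  have h1 : ∀ I : κ → m, (g.submatrix I id).det ^ 2 = ∑ σ : Equiv.Perm κ,
      ((Equiv.Perm.sign σ : ℤ) : ℝ) *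
        ((∏ p, (gᵀ.submatrix σ id) p (I p)) * (g.submatrix I id).det) := by
    intro I
    rw [pow_two]
    nth_rewrite 1 [← Matrix.det_transpose]
    rw [Matrix.det_apply', Finset.sum_mul]
    refine Finset.sum_congr rfl fun σ _ => ?_
    rw [mul_assoc]
    rfl
  simp only [h1]
  rw [Finset.sum_comm]
  have h2 : ∀ σ : Equiv.Perm κ, ∑ I : κ → m, ((Equiv.Perm.sign σ : ℤ) : ℝ) *
      ((∏ p, (gᵀ.submatrix σ id) p (I p)) * (g.submatrix I id).det) = 1 := by
    intro σ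
    rw [← Finset.mul_sum, ← CW.det_mul_expand]
    have h3 : gᵀ.submatrix σ id * g = (1 : Matrix κ κ ℝ).submatrix σ id := by
      rw [← hg]; ext i j; simp [Matrix.mul_apply]
    rw [h3, Matrix.det_permute, Matrix.det_one, mul_one]
    rcases Int.units_eq_one_or (Equiv.Perm.sign σ) with h | h <;> rw [h] <;> norm_num
  simp only [h2]
  rw [Finset.sum_const, Finset.card_univ, Fintype.card_perm, nsmul_eq_mul, mul_one]

theorem det_ne {f : Matrix n κ ℝ} {g : Matrix m κ ℝ} {B : Matrix n m ℝ} (hf : f * fᵀ * B = B)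
    (hinj : ∀ v : κ → ℝ, B.mulVec (g.mulVec v) = 0 → v = 0) : (fᵀ * B * g).det ≠ 0 := by
  intro h0
  obtain ⟨v, hv, hv0⟩ := Matrix.exists_mulVec_eq_zero_iff.2 h0
  refine hv (hinj v ?_)
  rw [Matrix.mulVec_mulVec]
  have h1 : B * g = f * (fᵀ * B * g) := by
    rw [← Matrix.mul_assoc, ← Matrix.mul_assoc, hf]
  rw [h1, ← Matrix.mulVec_mulVec, hv0, Matrix.mulVec_zero]

theorem exists_flip [Nonempty κ] {g : Matrix m κ ℝ} (hg : gᵀ * g = 1) {s : ℝ} (hs : s * s = 1) :
    ∃ g' : Matrix m κ ℝ, g'ᵀ * g' = 1 ∧ g' * g'ᵀ = g * gᵀ ∧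
      ∀ I : κ → m, (g'.submatrix I id).det = s * (g.submatrix I id).det := by
  classical
  obtain ⟨p0⟩ := ‹Nonempty κ›
  set d : κ → ℝ := Function.update 1 p0 s with hd
  have hdd : Matrix.diagonal d * Matrix.diagonal d = 1 := by
    rw [Matrix.diagonal_mul_diagonal, ← Matrix.diagonal_one]
    congr 1
    funext i
    by_cases hi : i = p0
    · subst hi; simp [hd, hs]
    · simp [hd, hi]
  have hdet : (Matrix.diagonal d).det = s := by
    rw [Matrix.det_diagonal, hd, Finset.prod_update_of_mem (Finset.mem_univ _)]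
    simp
  refine ⟨g * Matrix.diagonal d, ?_, ?_, fun I => ?_⟩
  · rw [Matrix.transpose_mul, Matrix.diagonal_transpose, Matrix.mul_assoc, ← Matrix.mul_assoc gᵀ,
      hg, Matrix.one_mul, hdd]
  · rw [Matrix.transpose_mul, Matrix.diagonal_transpose, Matrix.mul_assoc,
      ← Matrix.mul_assoc (Matrix.diagonal d), hdd, Matrix.one_mul]
  · have h1 : (g * Matrix.diagonal d).submatrix I id = g.submatrix I id * Matrix.diagonal d := by
      ext i j; simp [Matrix.mul_apply]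
    rw [h1, Matrix.det_mul, hdet, mul_comm]

end alg

section tensor
variable {m n ι : Type} [Fintype m] [DecidableEq m] [Fintype n] [DecidableEq n]
  [Fintype ι] [DecidableEq ι]

/-- the normalised pull-back of an orientation tensor, `S` = transposed matrix of the map -/
def isoW (S : Matrix m n ℝ) (W : (ι × Fin 2 → n) → ℝ) (J : ι × Fin 2 → m) : ℝ :=
  pushR S W J / Real.sqrt ((∑ I : ι × Fin 2 → m, pushR S W I ^ 2) /
    ((Fintype.card (ι × Fin 2)).factorial : ℝ))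

theorem pushR_eq {f : Matrix n (ι × Fin 2) ℝ} {g : Matrix m (ι × Fin 2) ℝ} {B : Matrix n m ℝ}
    {W : (ι × Fin 2 → n) → ℝ} (hW : ∀ I, W I = (f.submatrix I id).det)
    (hg : B * (g * gᵀ) = B) (J : ι × Fin 2 → m) :
    pushR Bᵀ W J = (fᵀ * B * g).det * (g.submatrix J id).det := by
  rw [pushR_frame Bᵀ f hW J]
  have h1 : Bᵀ * f = g * (gᵀ * Bᵀ * f) := by
    have h2 : g * gᵀ * Bᵀ = Bᵀ := by
      have := congrArg Matrix.transpose hg
      rwa [Matrix.transpose_mul, Matrix.transpose_mul, Matrix.transpose_transpose] at this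
    rw [← Matrix.mul_assoc, ← Matrix.mul_assoc, h2]
  have h2 : (Bᵀ * f).submatrix J id = g.submatrix J id * (gᵀ * Bᵀ * f) := by
    rw [h1]; ext i j; simp [Matrix.mul_apply]
  have h3 : (gᵀ * Bᵀ * f).det = (fᵀ * B * g).det := by
    rw [← Matrix.det_transpose, Matrix.transpose_mul, Matrix.transpose_mul,
      Matrix.transpose_transpose, Matrix.transpose_transpose, Matrix.mul_assoc]
  rw [h2, Matrix.det_mul, h3, mul_comm]

theorem sum_pushR {f : Matrix n (ι × Fin 2) ℝ} {g : Matrix m (ι × Fin 2) ℝ} {B : Matrix n m ℝ}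
    {W : (ι × Fin 2 → n) → ℝ} (hW : ∀ I, W I = (f.submatrix I id).det)
    (hg : B * (g * gᵀ) = B) (hgg : gᵀ * g = 1) :
    (∑ I : ι × Fin 2 → m, pushR Bᵀ W I ^ 2) / ((Fintype.card (ι × Fin 2)).factorial : ℝ) =
      (fᵀ * B * g).det ^ 2 := by
  have h0 : ((Fintype.card (ι × Fin 2)).factorial : ℝ) ≠ 0 := by
    exact_mod_cast (Nat.factorial_pos _).ne'
  simp only [pushR_eq hW hg, mul_pow]
  rw [← Finset.mul_sum, sum_det_sq hgg]
  field_simp

/-- value of the normalised pull-back -/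
theorem isoW_eq {f : Matrix n (ι × Fin 2) ℝ} {g : Matrix m (ι × Fin 2) ℝ} {B : Matrix n m ℝ}
    {W : (ι × Fin 2 → n) → ℝ} (hW : ∀ I, W I = (f.submatrix I id).det)
    (hg : B * (g * gᵀ) = B) (hgg : gᵀ * g = 1) (J : ι × Fin 2 → m) :
    isoW Bᵀ W J = (fᵀ * B * g).det / |(fᵀ * B * g).det| * (g.submatrix J id).det := by
  rw [isoW, sum_pushR hW hg hgg, Real.sqrt_sq_eq_abs, pushR_eq hW hg]
  ring

end tensor

/-! ### frames of projections -/

section frame
variable {m κ : Type} [Fintype m] [DecidableEq m] [Fintype κ] [DecidableEq κ]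

theorem exists_frame_proj {Q : EuclideanSpace ℝ m →L[ℝ] EuclideanSpace ℝ m}
    (hi : ∀ v, Q (Q v) = Q v) (hs : ∀ v w, ⟪Q v, w⟫ = ⟪v, Q w⟫)
    (hr : finrank ℝ (LinearMap.range (Q : EuclideanSpace ℝ m →ₗ[ℝ] EuclideanSpace ℝ m)) =
      Fintype.card κ) :
    ∃ g : Matrix m κ ℝ, gᵀ * g = 1 ∧ ∀ v i, Q v i = ∑ j, (g * gᵀ) i j * v j := by
  set R := LinearMap.range (Q : EuclideanSpace ℝ m →ₗ[ℝ] EuclideanSpace ℝ m) with hR
  let e : Fin (finrank ℝ R) ≃ κ := Fintype.equivOfCardEq (by rw [Fintype.card_fin]; exact hr)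
  let b := (stdOrthonormalBasis ℝ R).reindex e
  refine ⟨Matrix.of fun i p => (b p : EuclideanSpace ℝ m) i, ?_, fun v i => ?_⟩
  · ext p q
    rw [Matrix.mul_apply, Matrix.one_apply]
    have h1 := orthonormal_iff_ite.1 b.orthonormal p q
    rw [← h1]
    change _ = ⟪(b p : EuclideanSpace ℝ m), (b q : EuclideanSpace ℝ m)⟫
    rw [PiLp.inner_apply]
    refine Finset.sum_congr rfl fun a _ => ?_
    rw [RCLike.inner_apply, conj_trivial, mul_comm]
    rfl
  · have h1 : ∀ p, ⟪(b p : EuclideanSpace ℝ m), Q v⟫ = ⟪(b p : EuclideanSpace ℝ m), v⟫ := by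
      intro p
      rw [← hs]
      obtain ⟨w, hw⟩ := (b p).2
      have hw' : Q w = (b p : EuclideanSpace ℝ m) := hw
      rw [← hw', hi]
    have h2 : Q v = ∑ p, ⟪(b p : EuclideanSpace ℝ m), v⟫ • (b p : EuclideanSpace ℝ m) := by
      have h3 := b.sum_repr' (⟨Q v, v, rfl⟩ : R)
      have h4 : ((∑ p, ⟪b p, (⟨Q v, v, rfl⟩ : R)⟫ • b p : R) : EuclideanSpace ℝ m) = Q v :=
        congrArg (Subtype.val) h3
      rw [← h4, Submodule.coe_sum]
      refine Finset.sum_congr rfl fun p _ => ?_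
      rw [← h1 p]
      rfl
    have h3 : ∀ j, (∑ p, (b p : EuclideanSpace ℝ m) i * (b p : EuclideanSpace ℝ m) j) * v j =
      ((Matrix.of fun i p => (b p : EuclideanSpace ℝ m) i) *
        (Matrix.of fun i p => (b p : EuclideanSpace ℝ m) i)ᵀ) i j * v j := fun j => by
        rw [Matrix.mul_apply]; rfl
    simp only [← h3]
    rw [h2]
    simp only [WithLp.ofLp_sum, WithLp.ofLp_smul, Finset.sum_apply, Pi.smul_apply, smul_eq_mul,
      Finset.sum_mul]
    rw [Finset.sum_comm]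
    refine Finset.sum_congr rfl fun p _ => ?_
    rw [PiLp.inner_apply, Finset.sum_mul]
    refine Finset.sum_congr rfl fun j _ => ?_
    rw [RCLike.inner_apply, conj_trivial]
    ring

end frame

/-! ### the theorem -/

section field
variable {m n ι E : Type} [Fintype m] [DecidableEq m] [Fintype n] [DecidableEq n]
  [Fintype ι] [DecidableEq ι] [NormedAddCommGroup E] [NormedSpace ℝ E] {X : Set E}
  {P : E → EuclideanSpace ℝ n →L[ℝ] EuclideanSpace ℝ n} {W : E → (ι × Fin 2 → n) → ℝ}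
  {Q : E → EuclideanSpace ℝ m →L[ℝ] EuclideanSpace ℝ m}
  {A : E → EuclideanSpace ℝ m →L[ℝ] EuclideanSpace ℝ n}

/-- matrix of an operator -/
def mB (A : EuclideanSpace ℝ m →L[ℝ] EuclideanSpace ℝ n) : Matrix n m ℝ :=
  Matrix.of fun i j => A (EuclideanSpace.single j 1) i

theorem mB_mulVec (A : EuclideanSpace ℝ m →L[ℝ] EuclideanSpace ℝ n) (v : EuclideanSpace ℝ m)
    (i : n) : A v i = ∑ j, mB A i j * v j := by
  have h1 : v = ∑ j, v j • (EuclideanSpace.single j (1 : ℝ)) := by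
    ext k
    simp [Finset.sum_apply, Pi.single_apply]
  conv_lhs => rw [h1]
  rw [map_sum]
  simp only [map_smul, WithLp.ofLp_sum, WithLp.ofLp_smul, Finset.sum_apply, Pi.smul_apply,
    smul_eq_mul]
  exact Finset.sum_congr rfl fun j _ => mul_comm _ _

theorem mB_comp {l : Type} [Fintype l] [DecidableEq l]
    (A : EuclideanSpace ℝ m →L[ℝ] EuclideanSpace ℝ n)
    (C : EuclideanSpace ℝ l →L[ℝ] EuclideanSpace ℝ m) : mB (A.comp C) = mB A * mB C := by
  ext i j
  rw [Matrix.mul_apply]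
  exact mB_mulVec A _ i

theorem mB_ext {A A' : EuclideanSpace ℝ m →L[ℝ] EuclideanSpace ℝ n} (h : mB A = mB A') :
    A = A' := by
  ext v i
  rw [mB_mulVec, mB_mulVec, h]

theorem mB_of_frame {Q : EuclideanSpace ℝ m →L[ℝ] EuclideanSpace ℝ m} {M : Matrix m m ℝ}
    (h : ∀ v i, Q v i = ∑ j, M i j * v j) : mB Q = M := by
  ext i j
  change Q (EuclideanSpace.single j 1) i = _
  rw [h]
  simp

/-- the hypotheses on the isomorphism -/
structure IsoF (X : Set E) (P : E → EuclideanSpace ℝ n →L[ℝ] EuclideanSpace ℝ n)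
    (Q : E → EuclideanSpace ℝ m →L[ℝ] EuclideanSpace ℝ m)
    (A : E → EuclideanSpace ℝ m →L[ℝ] EuclideanSpace ℝ n) (r : ℕ) : Prop where
  sQ : ∀ x ∈ X, ContDiffAt ℝ ∞ Q x
  sA : ∀ x ∈ X, ContDiffAt ℝ ∞ A x
  idem : ∀ x ∈ X, ∀ v, Q x (Q x v) = Q x v
  sym : ∀ x ∈ X, ∀ v w, ⟪Q x v, w⟫ = ⟪v, Q x w⟫
  maps : ∀ x ∈ X, ∀ w, P x (A x (Q x w)) = A x (Q x w)
  inj : ∀ x ∈ X, ∀ w, Q x w = w → A x w = 0 → w = 0
  rank : ∀ x ∈ X, finrank ℝ
    (LinearMap.range (Q x : EuclideanSpace ℝ m →ₗ[ℝ] EuclideanSpace ℝ m)) = r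

/-- the transported tensor -/
def oiW (A : E → EuclideanSpace ℝ m →L[ℝ] EuclideanSpace ℝ n)
    (Q : E → EuclideanSpace ℝ m →L[ℝ] EuclideanSpace ℝ m) (W : E → (ι × Fin 2 → n) → ℝ) (x : E) :
    (ι × Fin 2 → m) → ℝ := isoW (mB ((A x).comp (Q x)))ᵀ (W x)

theorem IsoF.key (h : OR X P W) (hA : IsoF X P Q A (2 * Fintype.card ι)) {x : E} (hx : x ∈ X)
    {f : Matrix n (ι × Fin 2) ℝ} (hf1 : fᵀ * f = 1)
    (hf2 : ∀ v i, P x v i = ∑ j, (f * fᵀ) i j * v j) {g : Matrix m (ι × Fin 2) ℝ}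
    (hg1 : gᵀ * g = 1) (hg2 : ∀ v i, Q x v i = ∑ j, (g * gᵀ) i j * v j) :
    mB ((A x).comp (Q x)) * (g * gᵀ) = mB ((A x).comp (Q x)) ∧
      (fᵀ * mB ((A x).comp (Q x)) * g).det ≠ 0 := by
  have hQ : mB (Q x) = g * gᵀ := mB_of_frame hg2
  have hP : mB (P x) = f * fᵀ := mB_of_frame hf2
  have h1 : mB ((A x).comp (Q x)) * (g * gᵀ) = mB ((A x).comp (Q x)) := by
    rw [← hQ, ← mB_comp]
    congr 1
    ext1 v
    change A x (Q x (Q x v)) = A x (Q x v)
    rw [hA.idem x hx]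
  refine ⟨h1, det_ne ?_ ?_⟩
  · rw [← hP, ← mB_comp]
    congr 1
    ext1 v
    exact hA.maps x hx v
  · intro v hv
    set u : EuclideanSpace ℝ m := WithLp.toLp 2 (g.mulVec v) with hu
    have h2 : Q x u = u := by
      ext i
      rw [hg2]
      change ((g * gᵀ).mulVec (g.mulVec v)) i = g.mulVec v i
      rw [Matrix.mulVec_mulVec, Matrix.mul_assoc, hg1, Matrix.mul_one]
    have h3 : A x u = 0 := by
      ext i
      have h4 := congrFun hv i
      have h5 := mB_mulVec ((A x).comp (Q x)) u i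
      change A x (Q x u) i = _ at h5
      rw [h2] at h5
      rw [h5]
      exact h4
    have h4 : g.mulVec v = 0 := congrArg WithLp.ofLp (hA.inj x hx u h2 h3)
    have h5 : (gᵀ * g).mulVec v = 0 := by rw [← Matrix.mulVec_mulVec, h4, Matrix.mulVec_zero]
    rwa [hg1, Matrix.one_mulVec] at h5

theorem IsoF.exists_frame (hA : IsoF X P Q A (2 * Fintype.card ι)) {x : E} (hx : x ∈ X) :
    ∃ g : Matrix m (ι × Fin 2) ℝ, gᵀ * g = 1 ∧ ∀ v i, Q x v i = ∑ j, (g * gᵀ) i j * v j :=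
  exists_frame_proj (hA.idem x hx) (hA.sym x hx) (by
    rw [hA.rank x hx, Fintype.card_prod, Fintype.card_fin, mul_comm])

/-- **the transported orientation** -/
theorem OR_iso [Nonempty ι] (h : OR X P W) (hA : IsoF X P Q A (2 * Fintype.card ι)) :
    OR X Q (oiW A Q W) where
  sP := hA.sQ
  sW x hx J := by
    obtain ⟨f, hf1, hf2, hf3⟩ := h.fr x hx
    obtain ⟨g, hg1, hg2⟩ := hA.exists_frame hx
    obtain ⟨h1, h2⟩ := hA.key h hx hf1 hf2 hg1 hg2
    have hB : ∀ i j, ContDiffAt ℝ ∞ (fun y => (mB ((A y).comp (Q y)))ᵀ j i) x := by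
      intro i j
      have h3 : ContDiffAt ℝ ∞ (fun y => A y (Q y (EuclideanSpace.single j 1))) x :=
        (hA.sA x hx).clm_apply ((hA.sQ x hx).clm_apply contDiffAt_const)
      exact contDiffAt_euclidean.1 h3 i
    have hp : ∀ J : ι × Fin 2 → m, ContDiffAt ℝ ∞
        (fun y => pushR (mB ((A y).comp (Q y)))ᵀ (W y) J) x := by
      intro J
      unfold pushR
      refine ContDiffAt.sum fun I _ => ?_
      exact (contDiffAt_prod fun p _ => hB _ _).mul (h.sW x hx I)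
    have hd : ContDiffAt ℝ ∞ (fun y => (∑ I : ι × Fin 2 → m,
        pushR (mB ((A y).comp (Q y)))ᵀ (W y) I ^ 2) /
          ((Fintype.card (ι × Fin 2)).factorial : ℝ)) x :=
      (ContDiffAt.sum fun I _ => (hp I).pow 2).div_const _
    have hne : (∑ I : ι × Fin 2 → m, pushR (mB ((A x).comp (Q x)))ᵀ (W x) I ^ 2) /
        ((Fintype.card (ι × Fin 2)).factorial : ℝ) ≠ 0 := by
      rw [sum_pushR hf3 h1 hg1]
      exact pow_ne_zero 2 h2
    unfold oiW isoW
    refine (hp J).div (hd.sqrt hne) ?_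
    rw [sum_pushR hf3 h1 hg1, Real.sqrt_sq_eq_abs]
    exact abs_ne_zero.2 h2
  fr x hx := by
    obtain ⟨f, hf1, hf2, hf3⟩ := h.fr x hx
    obtain ⟨g, hg1, hg2⟩ := hA.exists_frame hx
    obtain ⟨h1, h2⟩ := hA.key h hx hf1 hf2 hg1 hg2
    set D := (fᵀ * mB ((A x).comp (Q x)) * g).det with hD
    have hs : D / |D| * (D / |D|) = 1 := by
      rw [div_mul_div_comm, abs_mul_abs_self]
      exact div_self (mul_ne_zero h2 h2)
    obtain ⟨g', g1, g2, g3⟩ := exists_flip hg1 hs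
    refine ⟨g', g1, fun v i => ?_, fun I => ?_⟩
    · rw [g2, hg2]
    · rw [oiW, isoW_eq hf3 h1 hg1, g3]

/-- value on a pair of frames -/
theorem oiW_eq (h : OR X P W) (hA : IsoF X P Q A (2 * Fintype.card ι)) {x : E} (hx : x ∈ X)
    {f : Matrix n (ι × Fin 2) ℝ} (hf1 : fᵀ * f = 1)
    (hf2 : ∀ v i, P x v i = ∑ j, (f * fᵀ) i j * v j) (hf3 : ∀ I, W x I = (f.submatrix I id).det)
    {g : Matrix m (ι × Fin 2) ℝ}
    (hg1 : gᵀ * g = 1) (hg2 : ∀ v i, Q x v i = ∑ j, (g * gᵀ) i j * v j) (J : ι × Fin 2 → m) :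
    oiW A Q W x J = (fᵀ * mB ((A x).comp (Q x)) * g).det /
      |(fᵀ * mB ((A x).comp (Q x)) * g).det| * (g.submatrix J id).det := by
  obtain ⟨h1, h2⟩ := hA.key h hx hf1 hf2 hg1 hg2
  rw [oiW, isoW_eq hf3 h1 hg1]

end field

end Crest.Agent.R208.NO
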