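import Crest.Agent.R208.NP1
import Crest.Agent.R208.NB8
import Crest.Agent.R208.AK4

/-! Row 208, block NP (helper537), part NP2: a negative linear family of periodic fields of rank
`k - 1` is isomorphic, by the projection `npr`, to the negative bundle `N`, and joined to it by a
straight line of negative families (block AK of helper952). -/

set_option autoImplicit false
set_option linter.unusedSectionVars false
set_option linter.unusedVariables false

open MeasureTheory Set Filter Topology Module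
open scoped ContDiff RealInnerProductSpace
open Crest.GeometryTopology.Submanifold
open Crest.Agent.R241.DDefs
open Crest.Agent.R241.D2
open Crest.Agent.R208.NN
open Crest.Agent.R208.NB

noncomputable section

namespace Crest.Agent.R208.NP

variable {n N k K r : ℕ} {κ : ℝ} {S : Set (Euc N)} {G : Geo n N κ S}
  {δ δ' : ℝ} {PN : Euc N × Euc N → Wt N K →L[ℝ] Wt N K}
  {E V : Type} [NormedAddCommGroup E] [NormedSpace ℝ E] [FiniteDimensional ℝ E]
  [NormedAddCommGroup V] [InnerProductSpace ℝ V] [FiniteDimensional ℝ V]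
  {X : Set E} {P' : E → V →L[ℝ] V} {g : E → Euc N × Euc N} {Q0 : (E × V) × ℝ → Euc N}

/-- a negative linear family of `2π`-periodic fields -/
structure NegF (G : Geo n N κ S) (X : Set E) (P' : E → V →L[ℝ] V) (g : E → Euc N × Euc N)
    (Q0 : (E × V) × ℝ → Euc N) (r : ℕ) (δ' : ℝ) : Prop where
  map : AK.LMap G X P' (2 * Real.pi) 1 g Q0
  add : ∀ x ∈ X, ∀ u v : V, P' x u = u → P' x v = v → ∀ t,
    Q0 ((x, u + v), t) = Q0 ((x, u), t) + Q0 ((x, v), t)
  sP : ∀ x ∈ X, ContDiffAt ℝ ∞ P' x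
  idem : ∀ x ∈ X, ∀ v, P' x (P' x v) = P' x v
  rank : ∀ x ∈ X, finrank ℝ (LinearMap.range (P' x : V →ₗ[ℝ] V)) = r
  sg : ∀ x ∈ X, ContDiffAt ℝ ∞ g x
  mg : ∀ x ∈ X, g x ∈ L.US G
  pos : 0 < δ'
  neg : ∀ x ∈ X, ∀ u : V, P' x u = u →
    SV.ix G (g x) 0 (2 * Real.pi) (fun t => Q0 ((x, u), t)) (deriv fun t => Q0 ((x, u), t))
      (fun t => Q0 ((x, u), t)) (deriv fun t => Q0 ((x, u), t)) ≤ -δ' * ‖u‖ ^ 2

/-- `u ↦ npr (Q0 (P' u))` -/
def Lam (G : Geo n N κ S) (K : ℕ) (δ : ℝ) (PN : Euc N × Euc N → Wt N K →L[ℝ] Wt N K)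
    (P' : E → V →L[ℝ] V) (g : E → Euc N × Euc N)
    (Q0 : (E × V) × ℝ → Euc N) (x : E) : V →L[ℝ] Wt N K :=
  ∑ j, (innerSL ℝ (stdOrthonormalBasis ℝ V j)).smulRight
    (npr G (nuP K) δ PN (g x) (fun t => Q0 ((x, P' x (stdOrthonormalBasis ℝ V j)), t)))

namespace NegF

variable (h : GT.Bla G k) (H : NegB G (k - 1) (nuP K) δ PN)
  (F : NegF G X P' g Q0 (k - 1) δ')

include H F

omit H in
lemma cont {x : E} (hx : x ∈ X) {u : V} (hu : P' x u = u) :
    Continuous fun t => Q0 ((x, u), t) := (F.map.cd hx hu).continuous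

/-- the map as a linear map, for `x ∈ X` -/
def lin {x : E} (hx : x ∈ X) : V →ₗ[ℝ] Wt N K where
  toFun u := npr G (nuP K) δ PN (g x) (fun t => Q0 ((x, P' x u), t))
  map_add' u v := by
    have hz := F.mg x hx
    have h1 : (fun t => Q0 ((x, P' x (u + v)), t)) =
        (fun t => Q0 ((x, P' x u), t)) + fun t => Q0 ((x, P' x v), t) := by
      funext t
      rw [map_add]
      exact F.add x hx _ _ (F.idem x hx u) (F.idem x hx v) t
    rw [h1, H.npr_add hz.1 (F.cont hx (F.idem x hx u)).continuousOn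
      (F.cont hx (F.idem x hx v)).continuousOn]
  map_smul' c u := by
    have hz := F.mg x hx
    have h1 : (fun t => Q0 ((x, P' x (c • u)), t)) = c • fun t => Q0 ((x, P' x u), t) := by
      funext t
      rw [map_smul]
      exact F.map.hom x hx _ (F.idem x hx u) c t
    rw [h1, H.npr_smul hz.1 c (F.cont hx (F.idem x hx u)).continuousOn]
    rfl

theorem Lam_apply {x : E} (hx : x ∈ X) (u : V) :
    Lam G K δ PN P' g Q0 x u = npr G (nuP K) δ PN (g x) (fun t => Q0 ((x, P' x u), t)) := by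
  have h1 : Lam G K δ PN P' g Q0 x u =
      ∑ j, ⟪stdOrthonormalBasis ℝ V j, u⟫ • F.lin H hx (stdOrthonormalBasis ℝ V j) := by
    unfold Lam
    rw [_root_.sum_apply]
    rfl
  have h2 : F.lin H hx u = npr G (nuP K) δ PN (g x) (fun t => Q0 ((x, P' x u), t)) := rfl
  rw [h1, ← h2]
  conv_rhs => rw [← (stdOrthonormalBasis ℝ V).sum_repr' u]
  rw [map_sum]
  exact Finset.sum_congr rfl fun j _ => (map_smul _ _ _).symm

theorem contDiffAt_Lam {x : E} (hx : x ∈ X) : ContDiffAt ℝ ∞ (Lam G K δ PN P' g Q0) x := by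
  unfold Lam
  refine ContDiffAt.sum fun j _ => ?_
  have h1 : ContDiffAt ℝ ∞ (fun y => npr G (nuP K) δ PN (g y)
      (fun t => Q0 ((y, P' y (stdOrthonormalBasis ℝ V j)), t))) x := by
    refine H.contDiffAt_npr (F := fun p : E × ℝ =>
      Q0 ((p.1, P' p.1 (stdOrthonormalBasis ℝ V j)), p.2)) (F.sg x hx) (F.mg x hx) fun t _ => ?_
    have h2 : ContDiffAt ℝ ∞ (fun p : E × ℝ => P' p.1 (stdOrthonormalBasis ℝ V j)) (x, t) :=
      (ContDiffAt.comp (x, t) (g := P') (F.sP x hx) contDiffAt_fst).clm_apply contDiffAt_const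
    exact ContDiffAt.comp (x, t) (g := Q0)
      (F.map.smooth x hx _ (F.idem x hx (stdOrthonormalBasis ℝ V j)) t)
      ((contDiffAt_fst.prodMk h2).prodMk contDiffAt_snd)
  exact ((ContinuousLinearMap.smulRightL ℝ V (Wt N K)
    (innerSL ℝ (stdOrthonormalBasis ℝ V j))).contDiff.contDiffAt.comp x h1)

include h

/-- injectivity on the range -/
theorem Lam_inj {x : E} (hx : x ∈ X) {u : V} (hu : P' x u = u)
    (h0 : Lam G K δ PN P' g Q0 x u = 0) : u = 0 := by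
  have hz := F.mg x hx
  rw [F.Lam_apply H hx, hu] at h0
  have hV := F.map.fld hx hu 0 (2 * Real.pi)
  have hper : (fun t => Q0 ((x, u), t)) (2 * Real.pi) = (fun t => Q0 ((x, u), t)) 0 := by
    have := F.map.per x hx u hu 0
    rw [zero_add, one_smul] at this
    exact this
  obtain ⟨-, -, -, h1, h2⟩ := H.decomp h hz hV hper h0
  have h3 : SV.ix G (g x) 0 (2 * Real.pi) (fd G (g x) (nuP K) 0) (fd' G (g x) (nuP K) 0)
      (fd G (g x) (nuP K) 0) (fd' G (g x) (nuP K) 0) = 0 := by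
    rw [← Cb_eq hz.1, map_zero]
  rw [h3, add_zero] at h2
  have h4 := F.neg x hx u hu
  rw [h2] at h4
  have h5 := F.pos
  have h6 : δ' * ‖u‖ ^ 2 ≤ 0 := by linarith
  have h7 : ‖u‖ ^ 2 ≤ 0 := by
    by_contra h8
    push Not at h8
    have : 0 < δ' * ‖u‖ ^ 2 := by positivity
    linarith
  exact norm_eq_zero.1 (pow_eq_zero_iff two_ne_zero |>.1 (le_antisymm h7 (by positivity)))

/-- **the isomorphism `range P' → N`** -/
theorem isoR {x : E} (hx : x ∈ X) :
    IsoR (Lam G K δ PN P' g Q0 x) (P' x) (PN (g x)) := by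
  have hz := F.mg x hx
  refine IsoR.of (F.idem x hx) (H.idem _) (fun v => ?_) (fun v => ?_)
    (fun v hv h0 => F.Lam_inj h H hx hv h0) ?_
  · rw [F.Lam_apply H hx, F.Lam_apply H hx, F.idem x hx]
  · rw [F.Lam_apply H hx, H.npr_mem hz]
  · rw [F.rank x hx, H.rank _ hz]

omit h H F in
/-- the inverse `N → range P'` -/
def _root_.Crest.Agent.R208.NP.Mo (G : Geo n N κ S) (K : ℕ) (δ : ℝ)
    (PN : Euc N × Euc N → Wt N K →L[ℝ] Wt N K)
    (P' : E → V →L[ℝ] V) (g : E → Euc N × Euc N)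
    (Q0 : (E × V) × ℝ → Euc N) (x : E) : Wt N K →L[ℝ] V :=
  invO (Lam G K δ PN P' g Q0 x) (P' x) (PN (g x))

theorem contDiffAt_Mo {x : E} (hx : x ∈ X) : ContDiffAt ℝ ∞ (Mo G K δ PN P' g Q0) x :=
  contDiffAt_invO (F.contDiffAt_Lam H hx) (F.sP x hx)
    (ContDiffAt.comp x (g := PN) (H.smooth _ (F.mg x hx)) (F.sg x hx)) (F.isoR h H hx)

theorem P_Mo {x : E} (hx : x ∈ X) (w : Wt N K) :
    P' x (Mo G K δ PN P' g Q0 x w) = Mo G K δ PN P' g Q0 x w := (F.isoR h H hx).p_inv w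

theorem Mo_PN {x : E} (hx : x ∈ X) (w : Wt N K) :
    Mo G K δ PN P' g Q0 x (PN (g x) w) = Mo G K δ PN P' g Q0 x w := (F.isoR h H hx).inv_q w

theorem Lam_Mo {x : E} (hx : x ∈ X) (w : Wt N K) :
    Lam G K δ PN P' g Q0 x (Mo G K δ PN P' g Q0 x w) = PN (g x) w := (F.isoR h H hx).l_inv w

theorem Mo_Lam {x : E} (hx : x ∈ X) (u : V) :
    Mo G K δ PN P' g Q0 x (Lam G K δ PN P' g Q0 x u) = P' x u := (F.isoR h H hx).inv_l u

/-- `npr (Q0 (M w)) = w` -/
theorem npr_Mo {x : E} (hx : x ∈ X) {w : Wt N K} (hw : PN (g x) w = w) :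
    npr G (nuP K) δ PN (g x) (fun t => Q0 ((x, Mo G K δ PN P' g Q0 x w), t)) = w := by
  have h1 := F.Lam_Mo h H hx w
  rw [F.Lam_apply H hx, F.P_Mo h H hx, hw] at h1
  exact h1

/-- uniform lower bound for `M` -/
theorem exists_le_Mo (hXc : IsCompact X) : ∃ c : ℝ, 0 < c ∧ ∀ x ∈ X, ∀ w : Wt N K,
    PN (g x) w = w → c * ‖w‖ ≤ ‖Mo G K δ PN P' g Q0 x w‖ := by
  have hc : ContinuousOn (Lam G K δ PN P' g Q0) X := fun x hx =>
    (F.contDiffAt_Lam H hx).continuousAt.continuousWithinAt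
  obtain ⟨C, hC⟩ := hXc.exists_bound_of_continuousOn hc
  refine ⟨(max C 1)⁻¹, by positivity, fun x hx w hw => ?_⟩
  have h1 := F.Lam_Mo h H hx w
  rw [hw] at h1
  have h2 := (Lam G K δ PN P' g Q0 x).le_opNorm (Mo G K δ PN P' g Q0 x w)
  rw [h1] at h2
  have h3 : ‖w‖ ≤ max C 1 * ‖Mo G K δ PN P' g Q0 x w‖ :=
    h2.trans (mul_le_mul_of_nonneg_right ((hC x hx).trans (le_max_left _ _)) (norm_nonneg _))
  have h4 : 0 < max C 1 := by positivity
  rw [inv_mul_le_iff₀ h4]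
  exact h3

omit h H F in
/-- the family `w ↦ Q0 (M w)` -/
def _root_.Crest.Agent.R208.NP.B0 (G : Geo n N κ S) (K : ℕ) (δ : ℝ)
    (PN : Euc N × Euc N → Wt N K →L[ℝ] Wt N K)
    (P' : E → V →L[ℝ] V) (g : E → Euc N × Euc N)
    (Q0 : (E × V) × ℝ → Euc N) (p : (E × Wt N K) × ℝ) : Euc N :=
  Q0 ((p.1.1, Mo G K δ PN P' g Q0 p.1.1 p.1.2), p.2)

omit h H F in
/-- the family `w ↦ fd w` -/
def _root_.Crest.Agent.R208.NP.B1 (G : Geo n N κ S) (K : ℕ) (g : E → Euc N × Euc N)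
    (p : (E × Wt N K) × ℝ) : Euc N := fd G (g p.1.1) (nuP K) p.1.2 p.2

theorem lmap_B0 : AK.LMap G X (fun x => PN (g x)) (2 * Real.pi) 1 g
    (B0 G K δ PN P' g Q0) where
  smooth x hx w hw t := by
    have h1 : ContDiffAt ℝ ∞ (fun p : (E × Wt N K) × ℝ => Mo G K δ PN P' g Q0 p.1.1 p.1.2)
        ((x, w), t) :=
      (ContDiffAt.comp ((x, w), t) (g := Mo G K δ PN P' g Q0) (F.contDiffAt_Mo h H hx)
        (contDiffAt_fst.comp ((x, w), t) contDiffAt_fst)).clm_apply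
        (contDiffAt_snd.comp ((x, w), t) contDiffAt_fst)
    exact ContDiffAt.comp ((x, w), t) (g := Q0)
      (F.map.smooth x hx _ (F.P_Mo h H hx w) t)
      (((contDiffAt_fst.comp ((x, w), t) contDiffAt_fst).prodMk h1).prodMk contDiffAt_snd)
  hom x hx w hw s t := by
    change Q0 ((x, Mo G K δ PN P' g Q0 x (s • w)), t) = s • Q0 ((x, Mo G K δ PN P' g Q0 x w), t)
    rw [map_smul]
    exact F.map.hom x hx _ (F.P_Mo h H hx w) s t
  tan x hx w hw t := F.map.tan x hx _ (F.P_Mo h H hx w) t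
  per x hx w hw t := F.map.per x hx _ (F.P_Mo h H hx w) t

theorem lmap_B1 : AK.LMap G X (fun x => PN (g x)) (2 * Real.pi) 1 g
    (B1 G K g) where
  smooth x hx w hw t := by
    have h1 := (contDiffAt_fd (ν := nuP K) (F.mg x hx).1 w t).1
    have h2 : ContDiffAt ℝ ∞ (fun p : (E × Wt N K) × ℝ => ((g p.1.1, p.1.2), p.2))
        ((x, w), t) :=
      ((ContDiffAt.comp ((x, w), t) (g := g) (F.sg x hx)
        (contDiffAt_fst.comp ((x, w), t) contDiffAt_fst)).prodMk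
        (contDiffAt_snd.comp ((x, w), t) contDiffAt_fst)).prodMk contDiffAt_snd
    exact ContDiffAt.comp ((x, w), t)
      (g := fun p : ((Euc N × Euc N) × Wt N K) × ℝ => fd G p.1.1 (nuP K) p.1.2 p.2) h1 h2
  hom x hx w hw s t := by
    change G.P _ (ev (nuP K) t (s • w)) = s • G.P _ (ev (nuP K) t w)
    rw [map_smul, map_smul]
  tan x hx w hw t := fd_mem (F.mg x hx).1 _ _ _
  per x hx w hw t := by
    change G.P (fl G (g x, t + 2 * Real.pi)).1 (ev (nuP K) (t + 2 * Real.pi) w) =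
      (1 : ℝ) • G.P (fl G (g x, t)).1 (ev (nuP K) t w)
    rw [one_smul, ev_two_pi, AK.fl_add_two_pi (F.mg x hx).1 (fl_two_pi h (F.mg x hx))]

omit h H F in
lemma deriv_fd {z : Euc N × Euc N} (hz : z ∈ TS G) (w : Wt N K) :
    (deriv fun t => fd G z (nuP K) w t) = fd' G z (nuP K) w :=
  funext fun t => (hasDerivAt_fd hz (nuP K) w t).deriv

/-- **the straight line from `Q0 ∘ M` to `fd`** -/
theorem exists_SPath (hXc : IsCompact X) : ∃ δ₁ : ℝ, 0 < δ₁ ∧
    AK.SPath G X (fun x => PN (g x)) (2 * Real.pi) 1 g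
      (AK.lin (B0 G K δ PN P' g Q0) (B1 G K g)) δ₁ := by
  have hπ : (0 : ℝ) ≤ 2 * Real.pi := by positivity
  obtain ⟨c, hc, hM⟩ := F.exists_le_Mo h H hXc
  have hδ := H.pos_δ
  have hδ' := F.pos
  set δ₀ := min δ (δ' * c ^ 2) with hδ₀
  have hδ₀p : 0 < δ₀ := lt_min hδ (by positivity)
  refine ⟨δ₀ / 2, by positivity, ?_⟩
  refine AK.SPath.line (fun x hx => (F.mg x hx).1) hπ (F.lmap_B0 h H) (F.lmap_B1 h H) hδ₀p.le
    ?_ ?_ ?_
  · intro x hx w hw
    have h1 := F.neg x hx _ (F.P_Mo h H hx w)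
    refine h1.trans ?_
    have h2 := hM x hx w hw
    have h3 : (c * ‖w‖) ^ 2 ≤ ‖Mo G K δ PN P' g Q0 x w‖ ^ 2 :=
      pow_le_pow_left₀ (by positivity) h2 2
    have h4 : δ₀ * ‖w‖ ^ 2 ≤ δ' * c ^ 2 * ‖w‖ ^ 2 :=
      mul_le_mul_of_nonneg_right (min_le_right _ _) (by positivity)
    have h5 : δ' * (c * ‖w‖) ^ 2 ≤ δ' * ‖Mo G K δ PN P' g Q0 x w‖ ^ 2 :=
      mul_le_mul_of_nonneg_left h3 hδ'.le
    nlinarith
  · intro x hx w hw
    have hz := F.mg x hx
    change SV.ix G (g x) 0 (2 * Real.pi) (fun t => fd G (g x) (nuP K) w t)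
      (deriv fun t => fd G (g x) (nuP K) w t) (fun t => fd G (g x) (nuP K) w t)
      (deriv fun t => fd G (g x) (nuP K) w t) ≤ _
    rw [deriv_fd hz.1]
    have h1 := H.ix_neg hz hw
    have h4 : δ₀ * ‖w‖ ^ 2 ≤ δ * ‖w‖ ^ 2 :=
      mul_le_mul_of_nonneg_right (min_le_left _ _) (by positivity)
    refine h1.trans ?_
    linarith
  · intro x hx w hw
    have hz := F.mg x hx
    have hPM := F.P_Mo h H hx w
    have hV := F.map.fld hx hPM 0 (2 * Real.pi)
    have hper : (fun t => Q0 ((x, Mo G K δ PN P' g Q0 x w), t)) (2 * Real.pi) =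
        (1 : ℝ) • (fun t => Q0 ((x, Mo G K δ PN P' g Q0 x w), t)) 0 := by
      have := F.map.per x hx _ hPM 0
      rw [zero_add] at this
      exact this
    have h1 := H.ix_npr h hz sig_per hV hper hw
    rw [F.npr_Mo h H hx hw] at h1
    change SV.ix G (g x) 0 (2 * Real.pi) (fun t => fd G (g x) (nuP K) w t)
      (deriv fun t => fd G (g x) (nuP K) w t)
      (fun t => Q0 ((x, Mo G K δ PN P' g Q0 x w), t))
      (deriv fun t => Q0 ((x, Mo G K δ PN P' g Q0 x w), t)) ≤ 0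
    rw [deriv_fd hz.1, SV.ix_symm hπ hz.1 (fld_fd hz.1 (nuP K) w 0 (2 * Real.pi)) hV]
    have h2 := H.ix_neg hz hw
    have h3 : 0 ≤ δ * ‖w‖ ^ 2 := by positivity
    calc _ = _ := h1
      _ ≤ -(δ * ‖w‖ ^ 2) := h2
      _ ≤ 0 := by linarith

end NegF

end Crest.Agent.R208.NP
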