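import Crest.Agent.R208.FI2a

/-!
R208, block (U1) (helper378): nearest point map onto a compact submanifold embedded in a Hilbert
space (tubular neighbourhood, `K : X → H` an injective immersion), smooth and Lipschitz near
`K(X)`.
-/

set_option autoImplicit false
set_option linter.unusedSectionVars false

open Set Filter Topology Module
open scoped ContDiff RealInnerProductSpace
open Crest.Agent.R208.F Crest.Agent.R208.FI

noncomputable section

namespace Crest.Agent.R208.NR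

variable {E : Type*} [NormedAddCommGroup E] [NormedSpace ℝ E] [FiniteDimensional ℝ E]
  {H : Type*} [NormedAddCommGroup H] [InnerProductSpace ℝ H] [CompleteSpace H]

/-- `x ∈ X` minimises the distance of `h` to `K(X)` -/
def Near (X : Set E) (K : E → H) (h : H) (x : E) : Prop := x ∈ X ∧ ∀ x' ∈ X, ‖h - K x‖ ≤ ‖h - K x'‖

/-- a nearest point is critical -/
theorem Near.crit {n : ℕ} {X : Set E} (hX : Sub n X) {K : E → H} {h : H} {x : E}
    (hn : Near X K h x) (hK : ContDiffAt ℝ ∞ K x) {ξ : E} (hξ : ξ ∈ Tan X x) :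
    ⟪h - K x, fderiv ℝ K x ξ⟫ = 0 := by
  obtain ⟨f, W, O1, ℓ, hl, hxO⟩ := hX.exists_loc hn.1
  have hfx : f (ℓ x) = x := hl.right_inv hn.1 hxO
  have hℓW : ℓ x ∈ W := hl.maps x hxO
  have hr := hl.range_eq_Tan hℓW
  rw [hfx] at hr
  rw [← hr] at hξ
  obtain ⟨u, hu⟩ := hξ
  have hu' : fderiv ℝ f (ℓ x) u = ξ := hu
  have hmin : IsLocalMin (fun v => ‖h - K (f v)‖ ^ 2) (ℓ x) := by
    filter_upwards [hl.oW.mem_nhds hℓW] with v hv
    have h1 := hn.2 (f v) (hl.mem hv).1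
    rw [hfx]
    exact pow_le_pow_left₀ (norm_nonneg _) h1 2
  have hKd : HasFDerivAt K (fderiv ℝ K x) (f (ℓ x)) := by
    rw [hfx]; exact (hK.differentiableAt (by simp)).hasFDerivAt
  have hd : HasFDerivAt (fun v => h - K (f v)) (-((fderiv ℝ K x).comp (fderiv ℝ f (ℓ x)))) (ℓ x) :=
    (hKd.comp (ℓ x) ((hl.fC' hℓW).differentiableAt (by simp)).hasFDerivAt).const_sub h
  have h0 := hmin.hasFDerivAt_eq_zero hd.norm_sq
  have h1 := congrArg (fun L => L u) h0
  simp only [smul_apply, ContinuousLinearMap.comp_apply, neg_apply, innerSL_apply_apply,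
    zero_apply, nsmul_eq_mul, Nat.cast_ofNat, hu', hfx, inner_neg_right] at h1
  rcases mul_eq_zero.1 h1 with h3 | h3
  · norm_num at h3
  · linarith

theorem local_tub {n : ℕ} {X : Set E} (hX : Sub n X) {K : E → H}
    (hK : ∀ v ∈ X, ContDiffAt ℝ ∞ K v) {x0 : E} (hx0 : x0 ∈ X)
    (imm : ∀ ξ ∈ Tan X x0, fderiv ℝ K x0 ξ = 0 → ξ = 0) :
    ∃ (A : Set E) (B : Set H) (ρ : H → E), IsOpen A ∧ x0 ∈ A ∧ IsOpen B ∧ K x0 ∈ B ∧
      ContDiffOn ℝ ∞ ρ B ∧ ∀ h ∈ B, ∀ x ∈ A, Near X K h x → x = ρ h := by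
  classical
  obtain ⟨f, W, O1, ℓ, hl, hxO⟩ := hX.exists_loc hx0
  set u0 := ℓ x0 with hu0
  have hfu0 : f u0 = x0 := hl.right_inv hx0 hxO
  have hu0W : u0 ∈ W := hl.maps x0 hxO
  set Ψ : Eu n → H := fun u => K (f u) with hΨ
  have hΨc : ∀ u ∈ W, ContDiffAt ℝ ∞ Ψ u := fun u hu =>
    (hK (f u) (hl.mem hu).1).comp u (hl.fC' hu)
  set eb : Fin n → Eu n := fun i => EuclideanSpace.single i (1:ℝ) with heb
  set F : H × Eu n → Eu n := fun p =>
    WithLp.toLp 2 (fun i => ⟪p.1 - Ψ p.2, fderiv ℝ Ψ p.2 (eb i)⟫) with hF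
  set G : H × Eu n → H × Eu n := fun p => (p.1, F p) with hG
  have hfc : ∀ p : H × Eu n, p.2 ∈ W → ContDiffAt ℝ ∞ (fun p : H × Eu n => Ψ p.2) p := fun p hp =>
    (hΨc p.2 hp).comp p contDiffAt_snd
  have hfc' : ∀ p : H × Eu n, p.2 ∈ W → ContDiffAt ℝ ∞ (fun p : H × Eu n => fderiv ℝ Ψ p.2) p :=
    fun p hp => ((hΨc p.2 hp).fderiv_right (m := ∞) (by simp)).comp p contDiffAt_snd
  have hFc : ∀ p : H × Eu n, p.2 ∈ W → ContDiffAt ℝ ∞ F p := by
    intro p hp
    rw [contDiffAt_euclidean]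
    intro i
    exact (contDiffAt_fst.sub (hfc p hp)).inner ℝ ((hfc' p hp).clm_apply contDiffAt_const)
  have hGc : ∀ p : H × Eu n, p.2 ∈ W → ContDiffAt ℝ ∞ G p := fun p hp =>
    contDiffAt_fst.prodMk (hFc p hp)
  set p0 : H × Eu n := (K x0, u0) with hp0
  set A := fderiv ℝ Ψ u0 with hA
  have hAd : HasFDerivAt Ψ A u0 := ((hΨc u0 hu0W).differentiableAt (by simp)).hasFDerivAt
  have hAc : A = (fderiv ℝ K x0).comp (fderiv ℝ f u0) := by
    have h1 : HasFDerivAt K (fderiv ℝ K x0) (f u0) := by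
      rw [hfu0]; exact ((hK x0 hx0).differentiableAt (by simp)).hasFDerivAt
    exact hAd.unique (h1.comp u0 ((hl.fC' hu0W).differentiableAt (by simp)).hasFDerivAt)
  have hAinj : ∀ du, A du = 0 → du = 0 := by
    intro du hdu
    rw [hAc, ContinuousLinearMap.comp_apply] at hdu
    have h1 : fderiv ℝ f u0 du ∈ Tan X x0 := by
      rw [← hfu0, ← hl.range_eq_Tan hu0W]
      exact ⟨du, rfl⟩
    have h2 := imm _ h1 hdu
    have := hl.chart.inj u0 hu0W
    exact this (by rw [map_zero]; exact h2)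
  set L := fderiv ℝ F p0 with hL
  have hLd : HasFDerivAt F L p0 := ((hFc p0 hu0W).differentiableAt (by simp)).hasFDerivAt
  -- the partial derivative is injective
  have hinj : Function.Injective ((L.comp (ContinuousLinearMap.inr ℝ H (Eu n))) : Eu n →ₗ[ℝ] Eu n) := by
    rw [injective_iff_map_eq_zero]
    intro du h0
    have h0' : L ((0 : H), du) = 0 := h0
    have hcomp : ∀ i, ⟪A du, A (eb i)⟫ = (0:ℝ) := by
      intro i
      have h6 : HasFDerivAt (fun p : H × Eu n => F p i)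
          ((EuclideanSpace.proj i : Eu n →L[ℝ] ℝ) ∘L L) p0 :=
        (EuclideanSpace.proj i : Eu n →L[ℝ] ℝ).hasFDerivAt.comp p0 hLd
      have h7 : HasFDerivAt (fun p : H × Eu n => p.1 - Ψ p.2)
          (ContinuousLinearMap.fst ℝ _ _ - A ∘L (ContinuousLinearMap.snd ℝ _ _)) p0 := by
        refine HasFDerivAt.sub hasFDerivAt_fst ?_
        exact HasFDerivAt.comp (g := Ψ) (f := fun p : H × Eu n => p.2) p0 hAd hasFDerivAt_snd
      have h8 : HasFDerivAt (fun p : H × Eu n => fderiv ℝ Ψ p.2 (eb i))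
          (fderiv ℝ (fun p : H × Eu n => fderiv ℝ Ψ p.2 (eb i)) p0) p0 :=
        (((hfc' p0 hu0W).clm_apply contDiffAt_const).differentiableAt (by simp)).hasFDerivAt
      have h9 := (h6.unique (h7.inner ℝ h8))
      have h10 := congrArg (fun L => L ((0:H), du)) h9
      have hz : K x0 - Ψ u0 = 0 := by simp only [hΨ, hfu0, sub_self]
      simp only [ContinuousLinearMap.comp_apply, h0'] at h10
      simp only [hp0, hz, ContinuousLinearMap.prod_apply, fderivInnerCLM_apply,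
        inner_zero_left, zero_add] at h10
      have h11 : (0:ℝ) = -⟪A du, A (eb i)⟫ := by simpa using h10
      linarith
    have h11 : A du = ∑ i, du i • A (eb i) := by
      conv_lhs => rw [← (EuclideanSpace.basisFun (Fin n) ℝ).sum_repr du]
      rw [map_sum]
      refine Finset.sum_congr rfl fun i _ => ?_
      rw [map_smul]
      simp [heb]
    have h12 : ⟪A du, A du⟫ = (0:ℝ) := by
      conv_lhs => rw [h11]
      nth_rewrite 2 [← h11]
      rw [real_inner_comm, inner_sum]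
      refine Finset.sum_eq_zero fun i _ => ?_
      rw [inner_smul_right, hcomp i, mul_zero]
    exact hAinj du (inner_self_eq_zero.1 h12)
  set M : Eu n ≃L[ℝ] Eu n := (LinearEquiv.ofInjectiveEndo _ hinj).toContinuousLinearEquiv with hM
  have hMa : ∀ du, M du = L (0, du) := fun du => rfl
  set Me : (H × Eu n) ≃L[ℝ] (H × Eu n) := ContinuousLinearEquiv.skewProd
    (ContinuousLinearEquiv.refl ℝ H) M (L.comp (ContinuousLinearMap.inl ℝ H (Eu n))) with hMe
  have hMev : (Me : H × Eu n →L[ℝ] H × Eu n) = (ContinuousLinearMap.fst ℝ H (Eu n)).prod L := by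
    refine ContinuousLinearMap.ext fun x => ?_
    have h1 : Me x = (x.1, M x.2 + L (x.1, 0)) := rfl
    change Me x = (x.1, L x)
    rw [h1, hMa, ← map_add]
    simp
  have hGp : HasFDerivAt G (Me : H × Eu n →L[ℝ] H × Eu n) p0 := by
    rw [hMev]
    exact hasFDerivAt_fst.prodMk hLd
  set e := (hGc p0 hu0W).toOpenPartialHomeomorph G hGp (by simp) with he
  have hpe : p0 ∈ e.source := ContDiffAt.mem_toOpenPartialHomeomorph_source _ _ _
  have hWo : IsOpen ((univ : Set H) ×ˢ W) := isOpen_univ.prod hl.oW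
  have hcont : ContinuousOn (fderiv ℝ G) ((univ : Set H) ×ˢ W) := by
    have h1 : ContDiffOn ℝ ∞ G ((univ : Set H) ×ˢ W) := fun p hp => (hGc p hp.2).contDiffWithinAt
    exact h1.continuousOn_fderiv_of_isOpen hWo (by simp)
  set Pn : Set (H × Eu n) := (((univ : Set H) ×ˢ W) ∩ (fderiv ℝ G) ⁻¹'
    {L | ∃ M : (H × Eu n) ≃L[ℝ] (H × Eu n), (M : H × Eu n →L[ℝ] H × Eu n) = L}) ∩ e.source with hPn
  have hPo : IsOpen Pn := (hcont.isOpen_inter_preimage hWo ContinuousLinearEquiv.isOpen).inter e.open_source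
  have hp0P : p0 ∈ Pn := ⟨⟨⟨mem_univ _, hu0W⟩, Me, hGp.fderiv.symm⟩, hpe⟩
  have hT : IsOpen (G '' Pn) := e.isOpen_image_of_subset_source hPo (fun y hy => hy.2)
  have hFp0 : F p0 = 0 := by
    ext i
    simp [hF, hp0, hΨ, hfu0]
  have hGp0 : G p0 = (K x0, 0) := by
    change (p0.1, F p0) = _
    rw [hFp0]
  -- the neighbourhoods
  have hnb : {q : H × E | q.2 ∈ O1 ∧ (q.1, ℓ q.2) ∈ Pn} ∈ 𝓝 (K x0, x0) := by
    have hc : ContinuousAt (fun q : H × E => (q.1, ℓ q.2)) (K x0, x0) :=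
      continuousAt_fst.prodMk ((hl.lC' hxO).continuousAt.comp (x := (K x0, x0)) continuousAt_snd)
    have h1 : (Prod.snd ⁻¹' O1 : Set (H × E)) ∈ 𝓝 (K x0, x0) :=
      (continuousAt_snd (p := (K x0, x0))).preimage_mem_nhds (hl.oO.mem_nhds hxO)
    exact Filter.inter_mem h1 (hc.preimage_mem_nhds (hPo.mem_nhds hp0P))
  obtain ⟨B, A', hBo, hB0, hAo, hA0, hBA⟩ := mem_nhds_prod_iff'.1 hnb
  refine ⟨A', (fun y : H => (y, (0 : Eu n))) ⁻¹' (G '' Pn) ∩ B,
    fun y => f (e.symm (y, 0)).2, hAo, hA0, ?_, ?_, ?_, ?_⟩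
  · exact (hT.preimage (by fun_prop)).inter hBo
  · exact ⟨⟨p0, hp0P, hGp0⟩, hB0⟩
  · rintro y ⟨⟨p, hpP, hpy⟩, -⟩
    apply ContDiffAt.contDiffWithinAt
    have hBq : (y, (0 : Eu n)) = e p := hpy.symm
    have hys : e.symm (y, 0) = p := by rw [hBq]; exact e.left_inv hpP.2
    obtain ⟨M, hM⟩ := hpP.1.2
    have hM' : HasFDerivAt e (M : (H × Eu n) →L[ℝ] (H × Eu n)) (e.symm (y, 0)) := by
      rw [hys, hM]
      exact ((hGc p hpP.1.1.2).differentiableAt (by simp)).hasFDerivAt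
    have h1 : ContDiffAt ℝ ∞ e.symm (y, (0 : Eu n)) :=
      e.contDiffAt_symm (by rw [hBq]; exact e.map_source hpP.2) hM'
        (by rw [hys]; exact hGc p hpP.1.1.2)
    have h2 : ContDiffAt ℝ ∞ (fun y : H => (e.symm (y, (0 : Eu n))).2) y :=
      contDiffAt_snd.comp y (h1.comp y (contDiffAt_id.prodMk contDiffAt_const))
    refine ContDiffAt.comp y ?_ h2
    rw [hys]
    exact hl.fC' hpP.1.1.2
  · rintro y ⟨-, hy⟩ x hxA hxn
    obtain ⟨hxO1, hPx⟩ := hBA (show (y, x) ∈ B ×ˢ A' from ⟨hy, hxA⟩)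
    simp only at hxO1 hPx
    have hfx : f (ℓ x) = x := hl.right_inv hxn.1 hxO1
    have hℓW : ℓ x ∈ W := hPx.1.1.2
    have hΨd : fderiv ℝ Ψ (ℓ x) = (fderiv ℝ K x).comp (fderiv ℝ f (ℓ x)) := by
      have h1 : HasFDerivAt K (fderiv ℝ K x) (f (ℓ x)) := by
        rw [hfx]; exact ((hK x hxn.1).differentiableAt (by simp)).hasFDerivAt
      exact (h1.comp (ℓ x) ((hl.fC' hℓW).differentiableAt (by simp)).hasFDerivAt).fderiv
    have hF0 : F (y, ℓ x) = 0 := by
      ext i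
      have h2 := hxn.crit hX (hK x hxn.1) (ξ := fderiv ℝ f (ℓ x) (eb i)) (by
        have h3 := hl.range_eq_Tan hℓW
        rw [hfx] at h3
        rw [← h3]
        exact ⟨eb i, rfl⟩)
      change ⟪y - K (f (ℓ x)), fderiv ℝ Ψ (ℓ x) (eb i)⟫ = 0
      rw [hΨd, hfx]
      exact h2
    have hGe : G (y, ℓ x) = (y, (0 : Eu n)) := by simp only [hG, hF0]
    have hsy : e.symm (y, (0 : Eu n)) = (y, ℓ x) := by
      rw [← hGe]
      exact e.left_inv hPx.2
    simp only [hsy, hfx]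

/-- **tubular neighbourhood theorem in a Hilbert space**: the nearest point map. -/
theorem exists_tub {n : ℕ} {X : Set E} (hX : Clo n X) (hne : X.Nonempty) {K : E → H}
    (hK : ∀ v ∈ X, ContDiffAt ℝ ∞ K v) (inj : InjOn K X)
    (imm : ∀ v ∈ X, ∀ ξ ∈ Tan X v, fderiv ℝ K v ξ = 0 → ξ = 0) :
    ∃ (p : H → E) (η C : ℝ), 0 < η ∧ 0 ≤ C ∧ (∀ h, Near X K h (p h)) ∧
      (∀ v ∈ X, ∀ h, ‖h - K v‖ < η → ContDiffAt ℝ ∞ p h ∧ (∀ u, Near X K h u → u = p h) ∧
        ‖p h - v‖ ≤ C * ‖h - K v‖) ∧ ∀ v ∈ X, p (K v) = v := by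
  classical
  have hKc : ContinuousOn K X := fun v hv => (hK v hv).continuousAt.continuousWithinAt
  have hex : ∀ h : H, ∃ x, Near X K h x := by
    intro h
    obtain ⟨x, hx, hmin⟩ := hX.compact.exists_isMinOn hne
      (f := fun x => ‖h - K x‖) ((continuousOn_const.sub hKc).norm)
    exact ⟨x, hx, fun x' hx' => hmin hx'⟩
  choose p hp using hex
  have hpK : ∀ v ∈ X, p (K v) = v := by
    intro v hv
    have h1 := (hp (K v)).2 v hv
    rw [sub_self, norm_zero] at h1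
    exact (inj hv (hp (K v)).1 (sub_eq_zero.1 (norm_le_zero_iff.1 h1))).symm
  -- local statement
  have hloc : ∀ v ∈ X, ∃ B : Set H, IsOpen B ∧ K v ∈ B ∧ ∀ h ∈ B, ContDiffAt ℝ ∞ p h ∧
      ∀ u, Near X K h u → u = p h := by
    intro v hv
    obtain ⟨A, B, ρ, hA, hvA, hB, hvB, hρ, hρn⟩ := local_tub hX.sub hK hv (imm v hv)
    -- far points of `X`
    have hcp : IsCompact (X \ A) := hX.compact.diff hA
    obtain ⟨δ, hδ, hδA⟩ : ∃ δ > 0, ∀ x ∈ X, ‖K v - K x‖ < δ → x ∈ A := by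
      rcases (X \ A).eq_empty_or_nonempty with he | hne'
      · exact ⟨1, one_pos, fun x hx _ => by
          by_contra h
          exact (he ▸ (⟨hx, h⟩ : x ∈ X \ A) : x ∈ (∅ : Set E))⟩
      · obtain ⟨y, hy, hmin⟩ := hcp.exists_isMinOn hne'
          (f := fun x => ‖K v - K x‖) ((continuousOn_const.sub (hKc.mono sdiff_subset)).norm)
        refine ⟨‖K v - K y‖, norm_pos_iff.2 (sub_ne_zero.2 fun h => ?_), fun x hx hxd => ?_⟩
        · exact hy.2 ((inj hv hy.1 h) ▸ hvA)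
        · by_contra h
          exact absurd (hmin ⟨hx, h⟩) (not_le.2 hxd)
    have hnr : ∀ h ∈ B ∩ Metric.ball (K v) (δ / 2), ∀ u, Near X K h u → u = ρ h := by
      rintro h ⟨hhB, hhb⟩ u hu
      refine hρn h hhB u (hδA u hu.1 ?_) hu
      have h1 := hu.2 v hv
      rw [Metric.mem_ball, dist_eq_norm] at hhb
      have h2 : K v - K u = (h - K u) - (h - K v) := by abel
      rw [h2]
      linarith [norm_sub_le (h - K u) (h - K v)]
    refine ⟨B ∩ Metric.ball (K v) (δ / 2), hB.inter Metric.isOpen_ball,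
      ⟨hvB, Metric.mem_ball_self (by positivity)⟩, fun h hh => ⟨?_, fun u hu => ?_⟩⟩
    · refine (hρ.contDiffAt (hB.mem_nhds hh.1)).congr_of_eventuallyEq ?_
      filter_upwards [(hB.inter Metric.isOpen_ball).mem_nhds hh] with h' hh'
      exact hnr h' hh' _ (hp h')
    · rw [hnr h hh u hu, hnr h hh _ (hp h)]
  choose! B hBo hvB hBp using hloc
  -- Lipschitz neighbourhoods
  have hlip : ∀ v ∈ X, ∃ ε > 0, ∃ C : ℝ, 0 ≤ C ∧ Metric.ball (K v) (2 * ε) ⊆ B v ∧
      ∀ h ∈ Metric.ball (K v) (2 * ε), ∀ h' ∈ Metric.ball (K v) (2 * ε),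
        ‖p h - p h'‖ ≤ C * ‖h - h'‖ := by
    intro v hv
    have h1 : ContDiffAt ℝ 1 p (K v) := (hBp v hv (K v) (hvB v hv)).1.of_le (by simp)
    obtain ⟨C, s, hs, hC⟩ := h1.exists_lipschitzOnWith
    obtain ⟨ε, hε, hεs⟩ := Metric.mem_nhds_iff.1 (Filter.inter_mem hs ((hBo v hv).mem_nhds (hvB v hv)))
    refine ⟨ε / 2, by positivity, C, C.2, ?_, ?_⟩
    · rw [mul_div_cancel₀ ε two_ne_zero]
      exact hεs.trans inter_subset_right
    · rw [mul_div_cancel₀ ε two_ne_zero]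
      intro h hh h' hh'
      have := hC.dist_le_mul h (hεs hh).1 h' (hεs hh').1
      rwa [dist_eq_norm, dist_eq_norm] at this
  choose! ε hε Cc hCc hεB hεl using hlip
  -- finite subcover
  have hVo : ∀ v ∈ X, IsOpen (Metric.ball (K v) (ε v)) := fun v _ => Metric.isOpen_ball
  have himg : IsCompact (K '' X) := hX.compact.image_of_continuousOn hKc
  obtain ⟨T, hT⟩ := himg.elim_finite_subcover (fun v : X => Metric.ball (K v) (ε v))
    (fun v => Metric.isOpen_ball) (by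
      rintro _ ⟨v, hv, rfl⟩
      exact mem_iUnion.2 ⟨⟨v, hv⟩, Metric.mem_ball_self (hε v hv)⟩)
  obtain ⟨w0, hw0⟩ := hne
  have hTne : T.Nonempty := by
    have := hT ⟨w0, hw0, rfl⟩
    obtain ⟨v, hv, -⟩ := mem_iUnion₂.1 this
    exact ⟨v, hv⟩
  obtain ⟨v1, hv1, hmin⟩ := T.exists_min_image (fun v => ε v) hTne
  obtain ⟨v2, hv2, hmax⟩ := T.exists_max_image (fun v => Cc v) hTne
  refine ⟨p, ε v1, Cc v2, hε _ v1.2, hCc _ v2.2, hp, fun v hv h hh => ?_, hpK⟩
  obtain ⟨w, hw, hvw⟩ := mem_iUnion₂.1 (hT ⟨v, hv, rfl⟩)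
  have hKv : K v ∈ Metric.ball (K w) (2 * ε w) :=
    Metric.ball_subset_ball (by linarith [hε w w.2]) hvw
  have hhw : h ∈ Metric.ball (K w) (2 * ε w) := by
    rw [Metric.mem_ball, dist_eq_norm] at hvw ⊢
    have h1 : h - K w = (h - K v) + (K v - K w) := by abel
    rw [h1]
    have h2 := hmin w hw
    linarith [norm_add_le (h - K v) (K v - K w)]
  obtain ⟨h1, h2⟩ := hBp w w.2 h (hεB w w.2 hhw)
  refine ⟨h1, h2, ?_⟩
  have h3 := hεl w w.2 h hhw (K v) hKv
  rw [hpK v hv] at h3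
  exact h3.trans (mul_le_mul_of_nonneg_right (hmax w hw) (norm_nonneg _))

end Crest.Agent.R208.NR
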