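import Crest.Agent.R208.FH10a
import Mathlib.MeasureTheory.Function.L2Space

/-!
R208, block (U1) (helper378): smooth families of curves are smooth maps into `C([a,b], H)` and
into `L²([a,b], V)`.
-/

set_option autoImplicit false
set_option linter.unusedSectionVars false

open MeasureTheory Set Filter Topology Module
open scoped ContDiff RealInnerProductSpace

noncomputable section

namespace Crest.Agent.R208.NR

section cm
universe u
variable {E H : Type u} [NormedAddCommGroup E] [NormedSpace ℝ E] [FiniteDimensional ℝ E]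
  [NormedAddCommGroup H] [NormedSpace ℝ H] {a b : ℝ}

/-- the curve `c` as a continuous map on `[a,b]` (`0` if `c` is not continuous there) -/
def cm {H : Type*} [NormedAddCommGroup H] (a b : ℝ) (c : ℝ → H) : C(Icc a b, H) := by
  classical exact
  if h : ContinuousOn c (Icc a b) then ⟨fun t => c t, continuousOn_iff_continuous_domRestrict.1 h⟩
    else 0

theorem cm_apply {H : Type*} [NormedAddCommGroup H] {c : ℝ → H} (h : ContinuousOn c (Icc a b))
    (t : Icc a b) : cm a b c t = c t := by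
  unfold cm
  rw [dif_pos h]
  rfl

/-- the slices over `[a,b]` -/
def SlI (a b : ℝ) (U : Set (E × ℝ)) : Set E := {x | ∀ t ∈ Icc a b, (x, t) ∈ U}

theorem isOpen_SlI {U : Set (E × ℝ)} (hU : IsOpen U) : IsOpen (SlI a b U) := by
  rw [isOpen_iff_mem_nhds]
  intro x hx
  obtain ⟨V, W, hV, hW, hxV, hIW, hVW⟩ := generalized_tube_lemma (isCompact_singleton (x := x))
    (isCompact_Icc (a := a) (b := b)) hU (by
      rintro ⟨y, t⟩ ⟨hy, ht⟩
      rw [mem_singleton_iff] at hy
      subst hy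
      exact hx t ht)
  exact mem_of_superset (hV.mem_nhds (hxV rfl)) fun y hy t ht => hVW ⟨hy, hIW ht⟩

theorem contOn_slice {U : Set (E × ℝ)} {g : E × ℝ → H} (hg : ContinuousOn g U) {x : E}
    (hx : x ∈ SlI a b U) : ContinuousOn (fun t => g (x, t)) (Icc a b) :=
  hg.comp (by fun_prop) fun t ht => hx t ht

/-- the slice map `x ↦ g(x,·)` -/
def ev (a b : ℝ) (g : E × ℝ → H) (x : E) : C(Icc a b, H) := cm a b fun t => g (x, t)

theorem continuousOn_ev {U : Set (E × ℝ)} (hU : IsOpen U) {g : E × ℝ → H} (hg : ContinuousOn g U) :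
    ContinuousOn (ev a b g) (SlI a b U) := by
  intro x hx
  refine ContinuousAt.continuousWithinAt ?_
  have hn := (isOpen_SlI (a := a) (b := b) hU).mem_nhds hx
  have h1 : TendstoUniformly (fun (y : E) (t : Icc a b) => g (y, t)) (fun t => g (x, t)) (𝓝 x) := by
    refine ContinuousOn.tendstoUniformly (f := fun (y : E) (t : Icc a b) => g (y, t)) hn ?_
    refine hg.comp (f := fun q : E × Icc a b => (q.1, (q.2 : ℝ))) (by fun_prop) ?_
    rintro ⟨y, t⟩ ⟨hy, -⟩
    exact hy t t.2
  rw [ContinuousAt, ContinuousMap.tendsto_iff_tendstoUniformly]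
  have h2 : (⇑(ev a b g x) : Icc a b → H) = fun t : Icc a b => g (x, (t : ℝ)) :=
    funext fun t => cm_apply (contOn_slice hg hx) t
  rw [h2]
  intro u hu
  filter_upwards [h1 u hu, hn] with y hy hy' t
  have h3 : ev a b g y t = g (y, (t : ℝ)) := cm_apply (contOn_slice hg hy') t
  rw [h3]
  exact hy t

/-- `x ↦ (t ↦ L(t) x)` -/
def TrA (L : C(Icc a b, E →L[ℝ] H)) : E →L[ℝ] C(Icc a b, H) where
  toFun := fun x => ⟨fun t => L t x, L.continuous.clm_apply continuous_const⟩
  map_add' := fun x y => by ext t; exact map_add (L t) x y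
  map_smul' := fun r x => by ext t; exact map_smul (L t) r x
  cont := LinearMap.continuous_of_finiteDimensional
    (⟨⟨fun x => ⟨fun t => L t x, L.continuous.clm_apply continuous_const⟩,
    fun x y => by ext t; exact map_add (L t) x y⟩, fun r x => by ext t; exact map_smul (L t) r x⟩ :
    E →ₗ[ℝ] C(Icc a b, H))

/-- `L ↦ (x ↦ (t ↦ L(t) x))`, linear -/
def TrL (a b : ℝ) (E H : Type u) [NormedAddCommGroup E] [NormedSpace ℝ E] [FiniteDimensional ℝ E]
    [NormedAddCommGroup H] [NormedSpace ℝ H] : C(Icc a b, E →L[ℝ] H) →ₗ[ℝ] (E →L[ℝ] C(Icc a b, H)) where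
  toFun := TrA
  map_add' := fun L M => by ext x t; rfl
  map_smul' := fun r L => by ext x t; rfl

/-- `L ↦ (x ↦ (t ↦ L(t) x))` -/
def Tr (a b : ℝ) (E H : Type u) [NormedAddCommGroup E] [NormedSpace ℝ E] [FiniteDimensional ℝ E]
    [NormedAddCommGroup H] [NormedSpace ℝ H] : C(Icc a b, E →L[ℝ] H) →L[ℝ] (E →L[ℝ] C(Icc a b, H)) where
  toLinearMap := TrL a b E H
  cont := by
    refine AddMonoidHomClass.continuous_of_bound (TrL a b E H) 1 fun L => ?_
    rw [one_mul]
    refine ContinuousLinearMap.opNorm_le_bound _ (norm_nonneg _) fun x => ?_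
    rw [ContinuousMap.norm_le _ (by positivity)]
    intro t
    exact (ContinuousLinearMap.le_opNorm (L t) x).trans
      (mul_le_mul_of_nonneg_right (L.norm_coe_le_norm t) (norm_nonneg _))

@[simp] theorem Tr_apply (L : C(Icc a b, E →L[ℝ] H)) (x : E) (t : Icc a b) :
    Tr a b E H L x t = L t x := rfl

theorem hasFDerivAt_ev {U : Set (E × ℝ)} (hU : IsOpen U) {g : E × ℝ → H}
    (hg : ContDiffOn ℝ 1 g U) {x : E} (hx : x ∈ SlI a b U) :
    HasFDerivAt (ev a b g) (Tr a b E H
      (ev a b (fun p => (fderiv ℝ g p).comp (ContinuousLinearMap.inl ℝ E ℝ)) x)) x := by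
  set g' : E × ℝ → E →L[ℝ] H := fun p => (fderiv ℝ g p).comp (ContinuousLinearMap.inl ℝ E ℝ) with hg'
  have hg0 : ContinuousOn g U := hg.continuousOn
  have hg1 : ContinuousOn g' U :=
    (hg.continuousOn_fderiv_of_isOpen hU (by norm_num)).clm_comp continuousOn_const
  have hn := (isOpen_SlI (a := a) (b := b) hU).mem_nhds hx
  have hc : ContinuousAt (ev a b g') x :=
    (continuousOn_ev hU hg1).continuousAt hn
  rw [hasFDerivAt_iff_isLittleO_nhds_zero, Asymptotics.isLittleO_iff]
  intro ε hε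
  have h1 : ∀ᶠ y in 𝓝 x, ‖ev a b g' y - ev a b g' x‖ < ε := by
    have := hc.eventually (Metric.ball_mem_nhds _ hε)
    filter_upwards [this] with y hy
    rwa [dist_eq_norm] at hy
  obtain ⟨r, hr, hrb⟩ := Metric.mem_nhds_iff.1 (Filter.inter_mem h1 hn)
  have h2 : ∀ᶠ h in 𝓝 (0 : E), ‖h‖ < r := by
    have := Metric.ball_mem_nhds (0 : E) hr
    filter_upwards [this] with y hy
    rwa [Metric.mem_ball, dist_zero_right] at hy
  filter_upwards [h2] with h hh
  rw [ContinuousMap.norm_le _ (by positivity)]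
  intro t
  have hy : x + h ∈ Metric.ball x r := by rw [Metric.mem_ball, dist_eq_norm]; simpa using hh
  have hxb : x ∈ Metric.ball x r := Metric.mem_ball_self hr
  have e1 : ev a b g (x + h) t = g (x + h, t) := cm_apply (contOn_slice hg0 (hrb hy).2) t
  have e2 : ev a b g x t = g (x, t) := cm_apply (contOn_slice hg0 hx) t
  have e3 : ∀ y ∈ Metric.ball x r, ev a b g' y t = g' (y, t) := fun y hy =>
    cm_apply (contOn_slice hg1 (hrb hy).2) t
  have h3 := Convex.norm_image_sub_le_of_norm_hasFDerivWithin_le' (f := fun y => g (y, (t : ℝ)))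
    (f' := fun y => g' (y, t)) (s := Metric.ball x r) (C := ε) (φ := g' (x, t)) (x := x) (y := x + h)
    (fun y hy => by
      have h1 : HasFDerivAt g (fderiv ℝ g (y, (t : ℝ))) (y, (t : ℝ)) :=
        ((hg.contDiffAt (hU.mem_nhds ((hrb hy).2 t t.2))).differentiableAt
          (by norm_num)).hasFDerivAt
      have h2 : HasFDerivAt (fun y : E => (y, (t : ℝ))) (ContinuousLinearMap.inl ℝ E ℝ) y :=
        (hasFDerivAt_id y).prodMk (hasFDerivAt_const (t : ℝ) y)
      exact (h1.comp y h2).hasFDerivWithinAt)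
    (fun y hy => by
      have h4 := (hrb hy).1
      have h5 := ContinuousMap.norm_coe_le_norm (ev a b g' y - ev a b g' x) t
      rw [ContinuousMap.sub_apply, e3 y hy, e3 x hxb] at h5
      exact h5.trans (le_of_lt h4))
    (convex_ball x r) hxb hy
  rw [add_sub_cancel_left] at h3
  change ‖ev a b g (x + h) t - ev a b g x t - ev a b g' x t h‖ ≤ _
  rw [e1, e2, e3 x hxb]
  exact h3

theorem contDiffOn_ev (n : ℕ) {H : Type u} [NormedAddCommGroup H] [NormedSpace ℝ H]
    {U : Set (E × ℝ)} (hU : IsOpen U) {g : E × ℝ → H} (hg : ContDiffOn ℝ n g U) :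
    ContDiffOn ℝ n (ev a b g) (SlI a b U) := by
  induction n generalizing H with
  | zero =>
    rw [Nat.cast_zero, contDiffOn_zero] at hg ⊢
    exact continuousOn_ev hU hg
  | succ n ih =>
    have h1 : ContDiffOn ℝ 1 g U := hg.of_le (by norm_cast; omega)
    have h2 : ContDiffOn ℝ n (fun p => (fderiv ℝ g p).comp (ContinuousLinearMap.inl ℝ E ℝ)) U := by
      have h3 : ContDiffOn ℝ n (fderiv ℝ g) U := by
        refine hg.fderiv_of_isOpen hU ?_
        push_cast
        exact le_rfl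
      exact h3.clm_comp contDiffOn_const
    have h4 := ih h2
    push_cast
    rw [contDiffOn_succ_iff_fderiv_of_isOpen (isOpen_SlI hU)]
    refine ⟨fun x hx => (hasFDerivAt_ev hU h1 hx).differentiableAt.differentiableWithinAt,
      fun h => absurd h (by simp), ?_⟩
    have h5 : ContDiff ℝ n (Tr a b E H : C(Icc a b, E →L[ℝ] H) → (E →L[ℝ] C(Icc a b, H))) := by
      exact ContinuousLinearMap.contDiff (𝕜 := ℝ) (E := C(Icc a b, E →L[ℝ] H))
        (F := (E →L[ℝ] C(Icc a b, H))) (Tr a b E H)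
    have h6 := h5.comp_contDiffOn h4
    exact h6.congr fun x hx => (hasFDerivAt_ev hU h1 hx).fderiv

theorem contDiffAt_ev_nat {n : ℕ} {g : E × ℝ → H} {x : E}
    (hg : ∀ t ∈ Icc a b, ContDiffAt ℝ n g (x, t)) : ContDiffAt ℝ n (ev a b g) x := by
  set U : Set (E × ℝ) := {p | ContDiffAt ℝ n g p} with hU
  have hUo : IsOpen U := by
    rw [isOpen_iff_mem_nhds]
    intro p hp
    exact ContDiffAt.eventually hp (by simp)
  have h1 : ContDiffOn ℝ n g U := fun p hp => ContDiffAt.contDiffWithinAt hp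
  exact (contDiffOn_ev n hUo h1).contDiffAt ((isOpen_SlI hUo).mem_nhds hg)

/-- **a smooth family of curves is a smooth map into `C([a,b],H)`** -/
theorem contDiffAt_ev {g : E × ℝ → H} {x : E}
    (hg : ∀ t ∈ Icc a b, ContDiffAt ℝ ∞ g (x, t)) : ContDiffAt ℝ ∞ (ev a b g) x := by
  rw [contDiffAt_infty]
  intro n
  exact contDiffAt_ev_nat fun t ht => contDiffAt_infty.1 (hg t ht) n

theorem fderiv_ev {g : E × ℝ → H} {x : E}
    (hg : ∀ t ∈ Icc a b, ContDiffAt ℝ 1 g (x, t)) (ξ : E) :
    fderiv ℝ (ev a b g) x ξ = cm a b fun t => fderiv ℝ g (x, t) (ξ, 0) := by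
  set U : Set (E × ℝ) := {p | ContDiffAt ℝ 1 g p} with hU
  have hUo : IsOpen U := by
    rw [isOpen_iff_mem_nhds]
    intro p hp
    exact ContDiffAt.eventually hp (by simp)
  have h1 : ContDiffOn ℝ 1 g U := fun p hp => ContDiffAt.contDiffWithinAt hp
  have h2 : ContinuousOn (fderiv ℝ g) U := h1.continuousOn_fderiv_of_isOpen hUo (by norm_num)
  have h3 : ContinuousOn (fun p => (fderiv ℝ g p).comp (ContinuousLinearMap.inl ℝ E ℝ)) U :=
    h2.clm_comp continuousOn_const
  rw [(hasFDerivAt_ev hUo h1 hg).fderiv]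
  ext t
  rw [Tr_apply, ev, cm_apply (contOn_slice h3 hg),
    cm_apply ((contOn_slice h2 hg).clm_apply continuousOn_const)]
  rfl

end cm

/-! ### `L²` -/

section L2
variable {V : Type*} [NormedAddCommGroup V] [InnerProductSpace ℝ V] [CompleteSpace V] {a b : ℝ}

/-- Lebesgue measure on `[a,b]` -/
def mI (a b : ℝ) : Measure (Icc a b) := Measure.comap Subtype.val volume

instance finI (a b : ℝ) : IsFiniteMeasure (mI a b) := by
  refine ⟨?_⟩
  rw [mI, comap_subtype_coe_apply measurableSet_Icc, image_univ, Subtype.range_coe]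
  exact measure_Icc_lt_top

/-- the curve `c` as an element of `L²([a,b], V)` -/
def el (a b : ℝ) (c : ℝ → V) : Lp V 2 (mI a b) :=
  ContinuousMap.toLp 2 (mI a b) ℝ (cm a b c)

theorem integral_I (hab : a ≤ b) (f : ℝ → ℝ) : ∫ t : Icc a b, f t ∂(mI a b) = ∫ t in a..b, f t := by
  rw [mI, integral_subtype_comap measurableSet_Icc, intervalIntegral.integral_of_le hab,
    integral_Icc_eq_integral_Ioc]

theorem inner_el (hab : a ≤ b) {c d : ℝ → V} (hc : ContinuousOn c (Icc a b))
    (hd : ContinuousOn d (Icc a b)) : ⟪el a b c, el a b d⟫ = ∫ t in a..b, ⟪c t, d t⟫ := by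
  rw [L2.inner_def, ← integral_I hab]
  refine integral_congr_ae ?_
  filter_upwards [ContinuousMap.coeFn_toLp (𝕜 := ℝ) (p := 2) (mI a b) (cm a b c),
    ContinuousMap.coeFn_toLp (𝕜 := ℝ) (p := 2) (mI a b) (cm a b d)] with t h1 h2
  rw [el, el, h1, h2, cm_apply hc, cm_apply hd]

theorem norm_el_sq (hab : a ≤ b) {c : ℝ → V} (hc : ContinuousOn c (Icc a b)) :
    ‖el a b c‖ ^ 2 = ∫ t in a..b, ‖c t‖ ^ 2 := by
  rw [← real_inner_self_eq_norm_sq, inner_el hab hc hc]
  refine intervalIntegral.integral_congr fun t _ => ?_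
  exact real_inner_self_eq_norm_sq (c t)

theorem el_sub {c d : ℝ → V} (hc : ContinuousOn c (Icc a b))
    (hd : ContinuousOn d (Icc a b)) : el a b (fun t => c t - d t) = el a b c - el a b d := by
  rw [el, el, el, ← map_sub]
  congr 1
  ext t
  have h1 : cm a b (fun t => c t - d t) t = c t - d t := cm_apply (hc.sub hd) t
  rw [ContinuousMap.sub_apply, cm_apply hc, cm_apply hd, h1]

theorem norm_el_sub_sq (hab : a ≤ b) {c d : ℝ → V} (hc : ContinuousOn c (Icc a b))
    (hd : ContinuousOn d (Icc a b)) : ‖el a b c - el a b d‖ ^ 2 = ∫ t in a..b, ‖c t - d t‖ ^ 2 := by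
  rw [← el_sub hc hd]
  exact norm_el_sq hab (hc.sub hd)

theorem inner_el_sub (hab : a ≤ b) {c d e : ℝ → V} (hc : ContinuousOn c (Icc a b))
    (hd : ContinuousOn d (Icc a b)) (he : ContinuousOn e (Icc a b)) :
    ⟪el a b c - el a b d, el a b e⟫ = ∫ t in a..b, ⟪c t - d t, e t⟫ := by
  rw [← el_sub hc hd]
  exact inner_el hab (hc.sub hd) he

theorem el_congr {c d : ℝ → V} (h : ∀ t ∈ Icc a b, c t = d t) : el a b c = el a b d := by
  have h1 : ContinuousOn c (Icc a b) ↔ ContinuousOn d (Icc a b) :=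
    continuousOn_congr h
  rw [el, el]
  congr 1
  by_cases hc : ContinuousOn c (Icc a b)
  · ext t
    rw [cm_apply hc, cm_apply (h1.1 hc), h t t.2]
  · unfold cm
    rw [dif_neg hc, dif_neg (fun h' => hc (h1.2 h'))]

end L2

section L2E
universe u
variable {E V : Type u} [NormedAddCommGroup E] [NormedSpace ℝ E] [FiniteDimensional ℝ E]
  [NormedAddCommGroup V] [InnerProductSpace ℝ V] [CompleteSpace V] {a b : ℝ}

/-- **a smooth family of curves is a smooth map into `L²([a,b],V)`** -/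
theorem contDiffAt_el {g : E × ℝ → V} {x : E}
    (hg : ∀ t ∈ Icc a b, ContDiffAt ℝ ∞ g (x, t)) :
    ContDiffAt ℝ ∞ (fun x => el a b fun t => g (x, t)) x :=
  (ContinuousLinearMap.contDiff (𝕜 := ℝ) (E := C(Icc a b, V)) (F := Lp V 2 (mI a b))
    (ContinuousMap.toLp 2 (mI a b) ℝ)).contDiffAt.comp x (contDiffAt_ev hg)

theorem fderiv_el {g : E × ℝ → V} {x : E}
    (hg : ∀ t ∈ Icc a b, ContDiffAt ℝ ∞ g (x, t)) (ξ : E) :
    fderiv ℝ (fun x => el a b fun t => g (x, t)) x ξ = el a b fun t => fderiv ℝ g (x, t) (ξ, 0) := by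
  have h1 : HasFDerivAt (ev a b g) (fderiv ℝ (ev a b g) x) x :=
    ((contDiffAt_ev hg).differentiableAt (by simp)).hasFDerivAt
  have h2 := (ContinuousMap.toLp (E := V) 2 (mI a b) ℝ).hasFDerivAt.comp x h1
  have h3 : fderiv ℝ (fun x => el a b fun t => g (x, t)) x =
      (ContinuousMap.toLp (E := V) 2 (mI a b) ℝ).comp (fderiv ℝ (ev a b g) x) :=
    h2.fderiv
  rw [h3, ContinuousLinearMap.comp_apply,
    fderiv_ev (fun t ht => (hg t ht).of_le (by simp))]
  rfl

end L2E

end Crest.Agent.R208.NR
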