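import Crest.Agent.R208.NR1
import Crest.Agent.R208.NR2
import Crest.Agent.R208.LB2
import Crest.Agent.R208.MS5
import Crest.Agent.R208.HS1

/-!
R208, block (U1) (helper378): **the `L²`-nearest geodesic** `gg c ∈ US G` of a loop `c`.
-/

set_option autoImplicit false
set_option linter.unusedSectionVars false

open Set Filter Topology Module MeasureTheory
open scoped ContDiff RealInnerProductSpace Real
open Crest.GeometryTopology.Submanifold
open Crest.Agent.R241.DDefs Crest.Agent.R241.D Crest.Agent.R241.D2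
open Crest.Agent.R208.FI (Clo Sub Tan)
open Crest.Agent.R208.L (US dfl)

noncomputable section

namespace Crest.Agent.R208.NR

variable {n N : ℕ} {κ : ℝ} {S : Set (Euc N)} {G : Geo n N κ S}

/-- the geodesic with initial data `v` -/
def ga (G : Geo n N κ S) (v : Euc N × Euc N) (t : ℝ) : Euc N := (fl G (v, t)).1

/-- squared `L²` distance over `[0,2π]` -/
def D2 (G : Geo n N κ S) (c : ℝ → Euc N) (v : Euc N × Euc N) : ℝ :=
  ∫ t in (0:ℝ)..(2 * π), ‖c t - ga G v t‖ ^ 2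

theorem two_pi_nonneg : (0:ℝ) ≤ 2 * π := by positivity

theorem contDiffAt_ga {v : Euc N × Euc N} (hv : v ∈ TS G) (t : ℝ) :
    ContDiffAt ℝ ∞ (fun p : (Euc N × Euc N) × ℝ => ga G p.1 p.2) (v, t) :=
  (contDiffAt_fl' G hv t).fst

theorem contDiff_ga {v : Euc N × Euc N} (hv : v ∈ TS G) : ContDiff ℝ ∞ (ga G v) := by
  rw [contDiff_iff_contDiffAt]
  intro t
  exact ContDiffAt.comp (f := fun t : ℝ => (v, t)) t (contDiffAt_ga hv t)
    (contDiffAt_const.prodMk contDiffAt_id)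

theorem contOn_ga {v : Euc N × Euc N} (hv : v ∈ TS G) {s : Set ℝ} : ContinuousOn (ga G v) s :=
  (contDiff_ga hv).continuous.continuousOn

theorem hasDerivAt_ga {v : Euc N × Euc N} (hv : v ∈ TS G) (t : ℝ) :
    HasDerivAt (ga G v) (fl G (v, t)).2 t :=
  hda_fst (hasDerivAt_fl G (complete G hv t))

theorem ga_add {v : Euc N × Euc N} (hv : v ∈ TS G) (s t : ℝ) :
    ga G v (s + t) = ga G (fl G (v, s)) t := by
  unfold ga
  rw [fl_add' G hv s t]

theorem fl_mem_US {v : Euc N × Euc N} (hv : v ∈ US G) (t : ℝ) : fl G (v, t) ∈ US G :=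
  ⟨fl_mem G hv.1 t, by rw [norm_fl G hv.1 t]; exact hv.2⟩

theorem ga_per (hper : HS.Per G) {v : Euc N × Euc N} (hv : v ∈ US G) (t : ℝ) :
    ga G v (t + 2 * π) = ga G v t := by
  rw [add_comm, ga_add hv.1, hper v hv.1 hv.2]

/-- the element of `L²([0,2π])` -/
def K (G : Geo n N κ S) (v : Euc N × Euc N) : Lp (Euc N) 2 (mI 0 (2 * π)) :=
  el 0 (2 * π) (fun t => ga G v t)

theorem D2_eq {c : ℝ → Euc N} (hc : ContinuousOn c (Icc 0 (2 * π))) {v : Euc N × Euc N}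
    (hv : v ∈ TS G) : D2 G c v = ‖el 0 (2 * π) c - K G v‖ ^ 2 :=
  (norm_el_sub_sq two_pi_nonneg hc (contOn_ga hv)).symm

theorem contDiffAt_K {v : Euc N × Euc N} (hv : v ∈ TS G) : ContDiffAt ℝ ∞ (K G) v :=
  contDiffAt_el (g := fun p : (Euc N × Euc N) × ℝ => ga G p.1 p.2) fun t _ => contDiffAt_ga hv t

theorem fderiv_ga {v : Euc N × Euc N} (hv : v ∈ TS G) (t : ℝ) (ξ : Euc N × Euc N) :
    fderiv ℝ (fun p : (Euc N × Euc N) × ℝ => ga G p.1 p.2) (v, t) (ξ, 0) = (dfl G v t ξ).1 := by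
  rw [L.dfl_apply hv]
  have h1 := ((contDiffAt_fl' G hv t).differentiableAt (by simp)).hasFDerivAt
  have h2 : HasFDerivAt (fun p : (Euc N × Euc N) × ℝ => ga G p.1 p.2)
      ((ContinuousLinearMap.fst ℝ (Euc N) (Euc N)).comp (fderiv ℝ (fl G) (v, t))) (v, t) := h1.fst
  rw [h2.fderiv]
  rfl

theorem fderiv_K {v : Euc N × Euc N} (hv : v ∈ TS G) (ξ : Euc N × Euc N) :
    fderiv ℝ (K G) v ξ = el 0 (2 * π) fun t => (dfl G v t ξ).1 := by
  have h1 := fderiv_el (a := 0) (b := 2 * π) (g := fun p : (Euc N × Euc N) × ℝ => ga G p.1 p.2)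
    (fun t _ => contDiffAt_ga hv t) ξ
  refine h1.trans (el_congr fun t _ => ?_)
  exact fderiv_ga hv t ξ

theorem hasDerivAt_dfl_fst {v : Euc N × Euc N} (hv : v ∈ TS G) (ξ : Euc N × Euc N) (t : ℝ) :
    HasDerivAt (fun t => (dfl G v t ξ).1) (dfl G v t ξ).2 t := by
  have h1 := hda_fst (L.hasDerivAt_dfl hv ξ t)
  rwa [L.fderiv_X_fst] at h1

theorem contOn_dfl_fst {v : Euc N × Euc N} (hv : v ∈ TS G) (ξ : Euc N × Euc N) {s : Set ℝ} :
    ContinuousOn (fun t => (dfl G v t ξ).1) s :=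
  fun t _ => (hasDerivAt_dfl_fst hv ξ t).continuousAt.continuousWithinAt

/-- a continuous curve with vanishing `L²` norm vanishes -/
theorem eq_zero_of_int {a b : ℝ} (hab : a < b) {f : ℝ → Euc N} (hf : ContinuousOn f (Icc a b))
    (h : ∫ t in a..b, ‖f t‖ ^ 2 = 0) : ∀ t ∈ Icc a b, f t = 0 := by
  intro t ht
  by_contra hne
  have := intervalIntegral.integral_pos hab (hf.norm.pow 2) (fun x _ => sq_nonneg _)
    ⟨t, ht, pow_pos (norm_pos_iff.2 hne) 2⟩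
  exact (ne_of_gt this) h

/-- two values and derivatives at `0` -/
theorem deriv_eq_of_eqOn {f g : ℝ → Euc N} {f' g' : Euc N}
    (h : ∀ t ∈ Icc (0:ℝ) (2 * π), f t = g t) (hf : HasDerivAt f f' 0) (hg : HasDerivAt g g' 0) :
    f' = g' := by
  have hm : (0:ℝ) ∈ Icc (0:ℝ) (2 * π) := ⟨le_rfl, two_pi_nonneg⟩
  have hu : UniqueDiffWithinAt ℝ (Icc (0:ℝ) (2 * π)) 0 :=
    uniqueDiffOn_Icc (by positivity) 0 hm
  refine UniqueDiffWithinAt.eq_deriv _ hu (hf.hasDerivWithinAt) ?_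
  exact (hg.hasDerivWithinAt (s := Icc (0:ℝ) (2 * π))).congr h (h 0 hm)

theorem injOn_K : InjOn (K G) (US G) := by
  intro u hu v hv huv
  have h1 : ∫ t in (0:ℝ)..(2 * π), ‖ga G u t - ga G v t‖ ^ 2 = 0 := by
    rw [← norm_el_sub_sq two_pi_nonneg (contOn_ga hu.1) (contOn_ga hv.1)]
    have h2 : el 0 (2 * π) (ga G u) = el 0 (2 * π) (ga G v) := huv
    rw [h2, sub_self, norm_zero]
    norm_num
  have h2 := eq_zero_of_int (by positivity) ((contOn_ga hu.1).sub (contOn_ga hv.1)) h1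
  have h3 : ∀ t ∈ Icc (0:ℝ) (2 * π), ga G u t = ga G v t := fun t ht => sub_eq_zero.1 (h2 t ht)
  have h4 := h3 0 ⟨le_rfl, two_pi_nonneg⟩
  have h5 := deriv_eq_of_eqOn h3 (hasDerivAt_ga hu.1 0) (hasDerivAt_ga hv.1 0)
  unfold ga at h4
  rw [fl_zero, fl_zero] at h4 h5
  exact Prod.ext h4 h5

theorem imm_K {v : Euc N × Euc N} (hv : v ∈ TS G) {ξ : Euc N × Euc N}
    (h : fderiv ℝ (K G) v ξ = 0) : ξ = 0 := by
  rw [fderiv_K hv] at h
  have h1 : ∫ t in (0:ℝ)..(2 * π), ‖(dfl G v t ξ).1‖ ^ 2 = 0 := by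
    rw [← norm_el_sq two_pi_nonneg (contOn_dfl_fst hv ξ), h, norm_zero]
    norm_num
  have h2 := eq_zero_of_int (by positivity) (contOn_dfl_fst hv ξ) h1
  have h3 := h2 0 ⟨le_rfl, two_pi_nonneg⟩
  have h4 := deriv_eq_of_eqOn (g := fun _ => (0 : Euc N)) h2 (hasDerivAt_dfl_fst hv ξ 0)
    (hasDerivAt_const 0 0)
  rw [L.dfl_zero hv] at h3 h4
  exact Prod.ext h3 h4

/-- **the `L²`-nearest geodesic**: properties of the map `gg` (radius `η`, constant `C`) -/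
structure NG (G : Geo n N κ S) (gg : (ℝ → Euc N) → Euc N × Euc N) (η C : ℝ) : Prop where
  η_pos : 0 < η
  C_nonneg : 0 ≤ C
  mem : ∀ c, gg c ∈ US G
  min : ∀ c, ContinuousOn c (Icc 0 (2 * π)) → ∀ v ∈ US G, D2 G c (gg c) ≤ D2 G c v
  congr : ∀ c d : ℝ → Euc N, (∀ t ∈ Icc 0 (2 * π), c t = d t) → gg c = gg d
  fix : ∀ v ∈ US G, gg (ga G v) = v
  uniq : ∀ c, ContinuousOn c (Icc 0 (2 * π)) → ∀ v ∈ US G, D2 G c v < η ^ 2 →
    ∀ u ∈ US G, (∀ w ∈ US G, D2 G c u ≤ D2 G c w) → u = gg c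
  lip : ∀ c, ContinuousOn c (Icc 0 (2 * π)) → ∀ v ∈ US G, D2 G c v < η ^ 2 →
    ‖gg c - v‖ ≤ C * Real.sqrt (D2 G c v)
  orth : ∀ c, ContinuousOn c (Icc 0 (2 * π)) → ∀ ξ ∈ Tan (US G) (gg c),
    ∫ t in (0:ℝ)..(2 * π), ⟪c t - ga G (gg c) t, (dfl G (gg c) t ξ).1⟫ = 0
  smooth : ∀ {E : Type} [NormedAddCommGroup E] [NormedSpace ℝ E] [FiniteDimensional ℝ E]
    (g : E × ℝ → Euc N) (z : E), (∀ t ∈ Icc 0 (2 * π), ContDiffAt ℝ ∞ g (z, t)) →
    ∀ v ∈ US G, D2 G (fun t => g (z, t)) v < η ^ 2 →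
      ContDiffAt ℝ ∞ (fun z' => gg fun t => g (z', t)) z

theorem exists_NG {d : ℕ} (hX : Clo d (US G)) (hne : (US G).Nonempty) :
    ∃ gg η C, NG G gg η C := by
  obtain ⟨p, η, C, hη, hC, hp, hpl, hpK⟩ := exists_tub hX hne
    (K := K G) (fun v hv => contDiffAt_K hv.1) injOn_K (fun v hv ξ _ h => imm_K hv.1 h)
  have hsq : ∀ c, ContinuousOn c (Icc 0 (2 * π)) → ∀ v ∈ US G, D2 G c v < η ^ 2 →
      ‖el 0 (2 * π) c - K G v‖ < η := by
    intro c hc v hv h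
    rw [D2_eq hc hv.1] at h
    exact lt_of_pow_lt_pow_left₀ 2 hη.le h
  refine ⟨fun c => p (el 0 (2 * π) c), η, C, hη, hC, fun c => (hp _).1, fun c hc v hv => ?_,
    fun c d h => by rw [el_congr h], fun v hv => hpK v hv, fun c hc v hv h u hu hmin => ?_,
    fun c hc v hv h => ?_, fun c hc ξ hξ => ?_, fun g z hg v hv h => ?_⟩
  · rw [D2_eq hc hv.1, D2_eq hc (hp _).1.1]
    exact pow_le_pow_left₀ (norm_nonneg _) ((hp (el 0 (2 * π) c)).2 v hv) 2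
  · refine (hpl v hv _ (hsq c hc v hv h)).2.1 u ⟨hu, fun w hw => ?_⟩
    have h1 := hmin w hw
    rw [D2_eq hc hu.1, D2_eq hc hw.1] at h1
    exact (sq_le_sq₀ (norm_nonneg _) (norm_nonneg _)).1 h1
  · have h1 := (hpl v hv _ (hsq c hc v hv h)).2.2
    rwa [D2_eq hc hv.1, Real.sqrt_sq (norm_nonneg _)]
  · have h1 := (hp (el 0 (2 * π) c)).crit hX.sub (contDiffAt_K (hp _).1.1) hξ
    rw [fderiv_K (hp _).1.1] at h1
    rwa [K, inner_el_sub two_pi_nonneg hc (contOn_ga (hp _).1.1)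
      (contOn_dfl_fst (hp _).1.1 ξ)] at h1
  · have hc : ContinuousOn (fun t => g (z, t)) (Icc 0 (2 * π)) := fun t ht =>
      (ContinuousAt.comp (f := fun t : ℝ => (z, t)) (hg t ht).continuousAt
        (by fun_prop)).continuousWithinAt
    exact (hpl v hv _ (hsq _ hc v hv h)).1.comp z (contDiffAt_el hg)

end Crest.Agent.R208.NR
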