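import Mathlib

/-!
# R208, NU1 (helper385): the Beta integrals behind the Weinstein numbers
-/

set_option autoImplicit false

open MeasureTheory Set Filter Topology intervalIntegral
open scoped ENNReal Nat

namespace Crest.Agent.R208.NU

/-- `∫_0^1 t^p (1-t)^q = p! q! / (p+q+1)!` -/
theorem beta_nat (p q : ℕ) :
    ∫ t in (0:ℝ)..1, t ^ p * (1 - t) ^ q = (p ! * q ! : ℝ) / (p + q + 1)! := by
  induction q generalizing p with
  | zero =>
    simp only [pow_zero, mul_one, integral_pow, one_pow, Nat.factorial_zero, Nat.cast_one,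
      add_zero, zero_pow (Nat.succ_ne_zero p), sub_zero]
    rw [Nat.factorial_succ]
    push_cast
    have : (p ! : ℝ) ≠ 0 := by positivity
    field_simp
  | succ q ih =>
    have hu : ∀ x ∈ uIcc (0:ℝ) 1, HasDerivAt (fun t : ℝ => (1 - t) ^ (q + 1))
        (-((q + 1 : ℝ) * (1 - x) ^ q)) x := by
      intro x _
      have h1 : HasDerivAt (fun t : ℝ => 1 - t) (-1) x := by
        simpa using (hasDerivAt_id x).const_sub 1
      refine (h1.fun_pow (q + 1)).congr_deriv ?_
      push_cast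
      ring
    have hv : ∀ x ∈ uIcc (0:ℝ) 1, HasDerivAt (fun t : ℝ => t ^ (p + 1) / (p + 1 : ℝ)) (x ^ p) x := by
      intro x _
      refine ((hasDerivAt_pow (p + 1) x).div_const (p + 1 : ℝ)).congr_deriv ?_
      have : (p + 1 : ℝ) ≠ 0 := by positivity
      push_cast
      field_simp
    have key := intervalIntegral.integral_mul_deriv_eq_deriv_mul hu hv
      (by apply Continuous.intervalIntegrable; fun_prop)
      (by apply Continuous.intervalIntegrable; fun_prop)
    have e1 : ∫ t in (0:ℝ)..1, t ^ p * (1 - t) ^ (q + 1) = ∫ t in (0:ℝ)..1, (1 - t) ^ (q + 1) * t ^ p := by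
      congr 1; ext t; ring
    rw [e1, key]
    simp only [sub_self, ne_eq, Nat.add_eq_zero_iff, one_ne_zero, and_false, not_false_eq_true,
      zero_pow, one_pow, zero_mul, sub_zero, zero_div, mul_zero, zero_sub]
    have e2 : ∫ x in (0:ℝ)..1, -((q + 1 : ℝ) * (1 - x) ^ q) * (x ^ (p + 1) / (p + 1 : ℝ))
        = -((q + 1 : ℝ) / (p + 1 : ℝ)) * ∫ t in (0:ℝ)..1, t ^ (p + 1) * (1 - t) ^ q := by
      rw [← intervalIntegral.integral_const_mul]
      congr 1; ext t; ring
    rw [e2, ih (p + 1)]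
    rw [show p + 1 + q + 1 = p + (q + 1) + 1 by ring, Nat.factorial_succ q, Nat.factorial_succ p]
    push_cast
    have : (p + 1 : ℝ) ≠ 0 := by positivity
    field_simp

/-- the model integral as a real integral, `k = 2a`, `n = 2b`. -/
theorem trig_beta (a b : ℕ) (ha : 1 ≤ a) (hab : a ≤ b) :
    ∫ u in (0:ℝ)..Real.pi, Real.sin u ^ (2 * a - 1) * (2 * Real.sin (u / 2)) ^ (2 * b - 2 * a)
      = 2 ^ (2 * b - 1) * (((b - 1)! * (a - 1)! : ℝ) / (a + b - 1)!) := by
  obtain ⟨p, rfl⟩ : ∃ p, a = p + 1 := ⟨a - 1, by omega⟩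
  obtain ⟨r, rfl⟩ : ∃ r, b = p + 1 + r := ⟨b - (p + 1), by omega⟩
  have e1 : 2 * (p + 1) - 1 = 2 * p + 1 := by omega
  have e2 : 2 * (p + 1 + r) - 2 * (p + 1) = 2 * r := by omega
  have e3 : 2 * (p + 1 + r) - 1 = 2 * (p + r) + 1 := by omega
  have e4 : p + 1 + r - 1 = p + r := by omega
  have e5 : p + 1 + (p + 1 + r) - 1 = p + r + p + 1 := by omega
  rw [e1, e2, e3, e4, e5, Nat.add_sub_cancel, ← beta_nat (p + r) p]
  have hf : ∀ x ∈ uIcc (0:ℝ) Real.pi, HasDerivAt (fun u : ℝ => Real.sin (u / 2) ^ 2)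
      (Real.sin x / 2) x := by
    intro x _
    have h1 : HasDerivAt (fun u : ℝ => u / 2) (1 / 2) x := (hasDerivAt_id x).div_const 2
    refine ((h1.sin).fun_pow 2).congr_deriv ?_
    have : Real.sin x = 2 * Real.sin (x / 2) * Real.cos (x / 2) := by
      rw [← Real.sin_two_mul]; congr 1; ring
    rw [this]
    push_cast
    ring
  have key := intervalIntegral.integral_comp_mul_deriv' (g := fun t : ℝ =>
    2 ^ (2 * (p + r) + 1) * (t ^ (p + r) * (1 - t) ^ p)) hf
    (by fun_prop) (by fun_prop)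
  simp only [zero_div, Real.sin_zero, Real.sin_pi_div_two, one_pow] at key
  rw [show ((0:ℝ) ^ 2) = 0 by norm_num, intervalIntegral.integral_const_mul] at key
  rw [← key]
  apply intervalIntegral.integral_congr
  intro u _
  simp only [Function.comp]
  have hs : Real.sin u = 2 * Real.sin (u / 2) * Real.cos (u / 2) := by
    rw [← Real.sin_two_mul]; congr 1; ring
  have hc : 1 - Real.sin (u / 2) ^ 2 = Real.cos (u / 2) ^ 2 := by
    rw [← Real.sin_sq_add_cos_sq (u / 2)]; ring
  rw [hc]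
  have h3 : Real.sin u ^ (2 * p + 1) = Real.sin u * (Real.sin u ^ 2) ^ p := by
    rw [pow_succ, pow_mul]; ring
  rw [h3, hs]
  rw [pow_mul (2 * Real.sin (u / 2)) 2 r]
  simp only [mul_pow, pow_add, pow_mul, pow_one]
  ring

end Crest.Agent.R208.NU
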