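import Crest.Agent.R208.NU1
import Crest.Agent.R208.LB5

/-!
# R208, NU1b (helper385): the model volume number in closed form (even degrees)
-/

set_option autoImplicit false

open MeasureTheory Measure Set Filter Topology Module
open scoped ENNReal Nat
open Crest.GeometryTopology.Submanifold
open Crest.Agent.R241.DDefs
open Crest.Agent.R208.L (US cst)
open Crest.Agent.R208.LB (oUS)
open Crest.Agent.R208.FI (J)

namespace Crest.Agent.R208.NU

/-- area of the unit sphere in `ℝ^(2b)`: `2 π^b / (b-1)!`. -/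
theorem cst_even (b : ℕ) (hb : 1 ≤ b) :
    (cst (2 * b)).toReal = 2 * Real.pi ^ b / (b - 1)! := by
  have hne : Nontrivial (Euc (2 * b)) := L.nontrivial_Euc (by omega)
  have hfin : finrank ℝ (Euc (2 * b)) = 2 * b := finrank_euclideanSpace_fin
  have hne' : Nonempty (Fin (2 * b)) := ⟨⟨0, by omega⟩⟩
  unfold cst
  rw [Measure.toSphere_apply_univ, hfin, EuclideanSpace.volume_ball, ENNReal.toReal_mul,
    ENNReal.toReal_mul, ENNReal.toReal_pow, ENNReal.toReal_natCast, Fintype.card_fin]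
  have h1 : Real.Gamma (((2 * b : ℕ) : ℝ) / 2 + 1) = b ! := by
    rw [show (((2 * b : ℕ) : ℝ) / 2 + 1) = (b : ℝ) + 1 by push_cast; ring]
    exact Real.Gamma_nat_eq_factorial b
  rw [h1, ENNReal.ofReal_one, ENNReal.toReal_one, one_pow, one_mul, ENNReal.toReal_ofReal (by positivity),
    pow_mul, Real.sq_sqrt Real.pi_pos.le]
  obtain ⟨c, rfl⟩ : ∃ c, b = c + 1 := ⟨b - 1, by omega⟩
  rw [Nat.add_sub_cancel, Nat.factorial_succ]
  have : (c ! : ℝ) ≠ 0 := by positivity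
  have h2 : ((c : ℝ) + 1) ≠ 0 := by positivity
  push_cast
  field_simp

/-- the model integral is a real integral. -/
theorem IM_toReal (p q : ℕ) :
    (I.IM p q).toReal = ∫ u in (0:ℝ)..Real.pi, Real.sin u ^ p * (2 * Real.sin (u / 2)) ^ q := by
  unfold I.IM
  rw [intervalIntegral.integral_of_le Real.pi_pos.le, integral_Ioc_eq_integral_Ioo,
    integral_eq_lintegral_of_nonneg_ae]
  · filter_upwards [ae_restrict_mem measurableSet_Ioo] with u hu
    exact mul_nonneg (pow_nonneg (I.sin_pos' hu).le _) (pow_nonneg (I.sin_half_pos hu).le _)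
  · exact (Continuous.aestronglyMeasurable (by fun_prop))

/-- the model value of the Weinstein integer: `i0 a b = (2b-1)! (a-1)! / ((b-1)! (a+b-1)!)`,
`k = 2a`, `n = 2b`. -/
noncomputable def i0 (a b : ℕ) : ℝ := ((2 * b - 1)! * (a - 1)! : ℝ) / ((b - 1)! * (a + b - 1)!)

lemma i0_pos (a b : ℕ) : 0 < i0 a b := by unfold i0; positivity

theorem model (a b : ℕ) (ha : 1 ≤ a) (hab : a ≤ b) :
    ((2 * b - 1)! : ℝ) * ((cst (2 * b)).toReal ^ 2 * (I.IM (2 * a - 1) (2 * b - 2 * a)).toReal)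
      = (2 * Real.pi) ^ (2 * b) * (2 * i0 a b) := by
  rw [cst_even b (by omega), IM_toReal, trig_beta a b ha hab, i0]
  have h1 : (2 * Real.pi) ^ (2 * b) = 2 ^ (2 * b) * (Real.pi ^ b) ^ 2 := by
    rw [mul_pow, ← pow_mul, mul_comm b 2]
  have h2 : (2:ℝ) ^ (2 * b) = 2 * 2 ^ (2 * b - 1) := by
    rw [← pow_succ']; congr 1; omega
  rw [h1, h2]
  have h3 : ((b - 1)! : ℝ) ≠ 0 := by positivity
  have h4 : ((a + b - 1)! : ℝ) ≠ 0 := by positivity
  field_simp

variable {n N d : ℕ} {κ : ℝ} {S : Set (Euc N)} {G : Geo n N κ S}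

/-- the volume bound of `VolLe` from a bound of the integral of the contact volume form. -/
theorem volLe_of_J (a b : ℕ) (ha : 1 ≤ a) (hab : a ≤ b) (hnb : n = 2 * b) (hd : d + 1 = 2 * n)
    (hS : IsSubmanifold n N S) (hc : IsCompact S)
    (h : J d (US G) (oUS n N) (oUS n N) ≤ (2 * Real.pi) ^ n * (2 * i0 a b)) :
    μHE[n] S ≤ cst n * I.IM (2 * a - 1) (n - 2 * a) := by
  subst hnb
  refine LB.vol_le_of_J (G := G) (by omega) hd hS hc ?_
  have hm := model a b ha hab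
  rw [hm]
  exact h

/-! ### values -/

/-- projective spaces over ℂ (`k = 2`). -/
theorem i0_one (m : ℕ) (hm : 1 ≤ m) : i0 1 m = ((2 * m - 1).choose m : ℝ) := by
  obtain ⟨c, rfl⟩ : ∃ c, m = c + 1 := ⟨m - 1, by omega⟩
  rw [show 2 * (c + 1) - 1 = 2 * c + 1 by omega, Nat.cast_choose ℝ (by omega : c + 1 ≤ 2 * c + 1)]
  unfold i0
  rw [show 2 * (c + 1) - 1 = 2 * c + 1 by omega, show c + 1 - 1 = c by omega,
    show 1 + (c + 1) - 1 = c + 1 by omega, show 2 * c + 1 - (c + 1) = c by omega]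
  simp only [Nat.sub_self, Nat.factorial_zero, Nat.cast_one, mul_one]
  rw [mul_comm (c ! : ℝ)]

/-- projective spaces over ℍ (`k = 4`, `n = 4 m`, `b = 2 m`). -/
theorem i0_two (m : ℕ) (hm : 1 ≤ m) :
    i0 2 (2 * m) = ((4 * m - 1).choose (2 * m - 1) : ℝ) / (2 * m + 1) := by
  obtain ⟨c, rfl⟩ : ∃ c, m = c + 1 := ⟨m - 1, by omega⟩
  rw [show 4 * (c + 1) - 1 = 4 * c + 3 by omega, show 2 * (c + 1) - 1 = 2 * c + 1 by omega,
    Nat.cast_choose ℝ (by omega : 2 * c + 1 ≤ 4 * c + 3)]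
  unfold i0
  rw [show 2 * (2 * (c + 1)) - 1 = 4 * c + 3 by omega, show 2 * (c + 1) - 1 = 2 * c + 1 by omega,
    show 2 + 2 * (c + 1) - 1 = (2 * c + 2) + 1 by omega,
    show 4 * c + 3 - (2 * c + 1) = 2 * c + 2 by omega, Nat.factorial_succ (2 * c + 2)]
  simp only [Nat.factorial_one, Nat.cast_one, mul_one, show 2 - 1 = 1 by norm_num]
  have h3 : ((2 * c + 1)! : ℝ) ≠ 0 := by positivity
  have h4 : ((2 * c + 2)! : ℝ) ≠ 0 := by positivity
  have h5 : (2 * (c : ℝ) + 2 + 1) ≠ 0 := by positivity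
  have h6 : (2 * ((c : ℝ) + 1) + 1) ≠ 0 := by positivity
  push_cast
  field_simp

/-- the Cayley plane (`k = 8`, `m = 2`). -/
theorem i0_cayley : i0 4 8 = 39 := by
  unfold i0
  norm_num [Nat.factorial]

end Crest.Agent.R208.NU
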