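import Mathlib

/-!
# R208, NU2 (helper385): the endgame algebra of the topological half

`z² = l z (A+B) - (A-B)²`, `A^(m+1) = B^(m+1) = 0`, `I` a linear functional antisymmetric under
`A ↔ B`.  Then `I ((A-B) z^(2m-1)) = 2 c_m(l) I (z A^m B^(m-1))`.
-/

set_option autoImplicit false

open Polynomial Finset

noncomputable section

namespace Crest.Agent.R208.NU

/-- dehomogenised `U_N`: `u_0 = 1`, `u_1 = l(1+X)`, `u_{N+2} = l(1+X)u_{N+1} - (1-X)²u_N`. -/
def up (l : ℝ) : ℕ → ℝ[X]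
  | 0 => 1
  | 1 => C l * (1 + X)
  | (N + 2) => C l * (1 + X) * up l (N + 1) - (1 - X) ^ 2 * up l N

/-- the coefficient `c_m(l)` -/
def cm (l : ℝ) (m : ℕ) : ℝ := (up l (2 * m - 2)).coeff (m - 1) - (up l (2 * m - 2)).coeff m

lemma natDegree_up (l : ℝ) : ∀ N, (up l N).natDegree ≤ N := by
  intro N
  induction N using Nat.strong_induction_on with
  | _ N ih =>
    match N with
    | 0 => simp [up]
    | 1 =>
      rw [up]
      compute_degree
    | (N + 2) =>
      rw [up]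
      have h1 := ih (N + 1) (by omega)
      have h2 := ih N (by omega)
      refine (natDegree_sub_le _ _).trans (max_le ?_ ?_)
      · refine natDegree_mul_le.trans ?_
        have : (C l * (1 + X) : ℝ[X]).natDegree ≤ 1 := by compute_degree
        omega
      · refine natDegree_mul_le.trans ?_
        have : ((1 - X) ^ 2 : ℝ[X]).natDegree ≤ 2 := by compute_degree
        omega

section hom

variable {H : Type*} [CommRing H] [Algebra ℝ H] (A B : H)

/-- homogenisation in degree `N` -/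
def hm (N : ℕ) (p : ℝ[X]) : H := ∑ j ∈ range (N + 1), p.coeff j • (A ^ (N - j) * B ^ j)

lemma hm_add (N : ℕ) (p q : ℝ[X]) : hm A B N (p + q) = hm A B N p + hm A B N q := by
  simp only [hm, coeff_add, add_smul, sum_add_distrib]

lemma hm_sub (N : ℕ) (p q : ℝ[X]) : hm A B N (p - q) = hm A B N p - hm A B N q := by
  simp only [hm, coeff_sub, sub_smul, sum_sub_distrib]

lemma hm_C_mul (N : ℕ) (a : ℝ) (p : ℝ[X]) : hm A B N (C a * p) = a • hm A B N p := by
  simp only [hm, coeff_C_mul, smul_sum, smul_smul]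

lemma hm_one_zero : hm A B 0 1 = 1 := by simp [hm]

/-- multiplying by `X` is multiplying by `B`. -/
lemma hm_X_mul (N : ℕ) (p : ℝ[X]) : hm A B (N + 1) (X * p) = B * hm A B N p := by
  unfold hm
  rw [sum_range_succ']
  simp only [coeff_X_mul, coeff_X_mul_zero, zero_smul, add_zero, mul_sum]
  refine sum_congr rfl fun j _ => ?_
  rw [Nat.add_sub_add_right, mul_smul_comm]
  congr 1
  ring

/-- same polynomial in one degree more is multiplying by `A`. -/
lemma hm_succ (N : ℕ) (p : ℝ[X]) (hp : p.natDegree ≤ N) : hm A B (N + 1) p = A * hm A B N p := by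
  unfold hm
  rw [sum_range_succ, coeff_eq_zero_of_natDegree_lt (by omega : p.natDegree < N + 1), zero_smul,
    add_zero, mul_sum]
  refine sum_congr rfl fun j hj => ?_
  rw [mem_range] at hj
  rw [show N + 1 - j = (N - j) + 1 by omega, mul_smul_comm]
  congr 1
  ring

lemma hm_one_add (N : ℕ) (p : ℝ[X]) (hp : p.natDegree ≤ N) :
    hm A B (N + 1) ((1 + X) * p) = (A + B) * hm A B N p := by
  rw [add_mul, one_mul, hm_add, hm_succ A B N p hp, hm_X_mul]; ring

lemma hm_one_sub (N : ℕ) (p : ℝ[X]) (hp : p.natDegree ≤ N) :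
    hm A B (N + 1) ((1 - X) * p) = (A - B) * hm A B N p := by
  rw [sub_mul, one_mul, hm_sub, hm_succ A B N p hp, hm_X_mul]; ring

lemma hm_one_sub_sq (N : ℕ) (p : ℝ[X]) (hp : p.natDegree ≤ N) :
    hm A B (N + 2) ((1 - X) ^ 2 * p) = (A - B) ^ 2 * hm A B N p := by
  rw [pow_two, mul_assoc, hm_one_sub A B (N + 1), hm_one_sub A B N p hp]
  · ring
  · refine natDegree_mul_le.trans ?_
    have : ((1 - X) : ℝ[X]).natDegree ≤ 1 := by compute_degree
    omega

/-- `(A-B)^N` is the homogenisation of `(1-X)^N`. -/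
lemma hm_pow (N : ℕ) : hm A B N ((1 - X) ^ N) = (A - B) ^ N := by
  induction N with
  | zero => simp [hm]
  | succ N ih =>
    rw [pow_succ', hm_one_sub A B N _ ?_, ih, pow_succ']
    refine natDegree_pow_le.trans ?_
    have : ((1 - X) : ℝ[X]).natDegree ≤ 1 := by compute_degree
    nlinarith

/-- `z^(N+2) = U_{N+1} z - (A-B)² U_N`. -/
lemma z_pow (l : ℝ) (z : H) (hz : z ^ 2 = l • (z * (A + B)) - (A - B) ^ 2) (N : ℕ) :
    z ^ (N + 2) = hm A B (N + 1) (up l (N + 1)) * z - (A - B) ^ 2 * hm A B N (up l N) := by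
  induction N with
  | zero =>
    rw [up, up, hm_C_mul, show (1 + X : ℝ[X]) = (1 + X) * 1 by ring, hm_one_add A B 0 1 (by simp),
      hm_one_zero, Nat.zero_add, hz]
    simp only [mul_one, smul_mul_assoc, sub_left_inj]
    congr 1; ring
  | succ N ih =>
    have h1 : hm A B (N + 1 + 1) (up l (N + 1 + 1))
        = l • ((A + B) * hm A B (N + 1) (up l (N + 1))) - (A - B) ^ 2 * hm A B N (up l N) := by
      rw [up, hm_sub, mul_assoc, hm_C_mul, hm_one_add A B (N + 1) _ (natDegree_up l _),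
        hm_one_sub_sq A B N _ (natDegree_up l _)]
    calc z ^ (N + 1 + 2) = z ^ (N + 2) * z := by ring
      _ = hm A B (N + 1) (up l (N + 1)) * z ^ 2 - (A - B) ^ 2 * hm A B N (up l N) * z := by
        rw [ih]; ring
      _ = _ := by
        rw [hz, h1]
        simp only [Algebra.smul_def]
        ring

end hom

/-! ### symmetry of the coefficients -/

lemma reflect_one_add : reflect 1 (1 + X : ℝ[X]) = 1 + X := by
  ext i
  rw [coeff_reflect]
  rcases i with _ | _ | i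
  · simp [revAt_le, coeff_one]
  · simp [revAt_le, coeff_one]
  · rw [revAt_eq_self_of_lt (by omega)]

lemma reflect_one_sub_sq : reflect 2 ((1 - X) ^ 2 : ℝ[X]) = (1 - X) ^ 2 := by
  have h : ((1 - X) ^ 2 : ℝ[X]) = C 1 * X ^ 0 - C 2 * X ^ 1 + C 1 * X ^ 2 := by
    simp only [map_one, C_ofNat]; ring
  rw [h, reflect_add, reflect_sub, reflect_C_mul_X_pow, reflect_C_mul_X_pow, reflect_C_mul_X_pow]
  simp [revAt_le]
  ring

lemma reflect_up (l : ℝ) (N : ℕ) : reflect N (up l N) = up l N := by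
  induction N using Nat.strong_induction_on with
  | _ N ih =>
    match N with
    | 0 => simp [up]
    | 1 => rw [up, reflect_C_mul, reflect_one_add]
    | (N + 2) =>
      have h1 := ih (N + 1) (by omega)
      have h2 := ih N (by omega)
      rw [up, reflect_sub, mul_assoc, reflect_C_mul]
      have d1 : (1 + X : ℝ[X]).natDegree ≤ 1 := by compute_degree
      have d2 : ((1 - X) ^ 2 : ℝ[X]).natDegree ≤ 2 := by compute_degree
      have e1 := reflect_mul (1 + X : ℝ[X]) (up l (N + 1)) d1 (natDegree_up l (N + 1))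
      have e2 := reflect_mul ((1 - X) ^ 2 : ℝ[X]) (up l N) d2 (natDegree_up l N)
      rw [show N + 2 = 1 + (N + 1) by ring, e1, h1, show 1 + (N + 1) = 2 + N by ring, e2, h2,
        reflect_one_add, reflect_one_sub_sq]

lemma coeff_up_symm (l : ℝ) {N j : ℕ} (hj : j ≤ N) : (up l N).coeff (N - j) = (up l N).coeff j := by
  conv_rhs => rw [← reflect_up l N]
  rw [coeff_reflect, revAt_le hj]

section main

variable {H : Type*} [CommRing H] [Algebra ℝ H] (A B : H)

/-- the homogenisation in degree `2m-1` with `A^(m+1) = B^(m+1) = 0`. -/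
lemma hm_trunc_odd (m : ℕ) (hm1 : 1 ≤ m) (hA : A ^ (m + 1) = 0) (hB : B ^ (m + 1) = 0) (p : ℝ[X]) :
    hm A B (2 * m - 1) p = p.coeff (m - 1) • (A ^ m * B ^ (m - 1)) +
      p.coeff m • (A ^ (m - 1) * B ^ m) := by
  unfold hm
  have hsub : ({m - 1, m} : Finset ℕ) ⊆ range (2 * m - 1 + 1) := by
    intro x hx
    simp only [mem_insert, mem_singleton] at hx
    rw [mem_range]; omega
  rw [← sum_subset hsub, sum_pair (by omega)]
  · rw [show 2 * m - 1 - (m - 1) = m by omega, show 2 * m - 1 - m = m - 1 by omega]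
  · intro x hx hx'
    simp only [mem_insert, mem_singleton, not_or] at hx'
    rw [mem_range] at hx
    rcases lt_or_ge x (m - 1) with h | h
    · obtain ⟨c, hc⟩ : ∃ c, 2 * m - 1 - x = m + 1 + c := ⟨2 * m - 1 - x - (m + 1), by omega⟩
      rw [hc, pow_add, hA, zero_mul, zero_mul, smul_zero]
    · obtain ⟨c, hc⟩ : ∃ c, x = m + 1 + c := ⟨x - (m + 1), by omega⟩
      rw [hc, pow_add B, hB, zero_mul, mul_zero, smul_zero]

/-- the homogenisation in degree `2m` with `A^(m+1) = B^(m+1) = 0`. -/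
lemma hm_trunc_even (m : ℕ) (hA : A ^ (m + 1) = 0) (hB : B ^ (m + 1) = 0) (p : ℝ[X]) :
    hm A B (2 * m) p = p.coeff m • (A ^ m * B ^ m) := by
  unfold hm
  have hsub : ({m} : Finset ℕ) ⊆ range (2 * m + 1) := by
    intro x hx
    simp only [mem_singleton] at hx
    rw [mem_range]; omega
  rw [← sum_subset hsub, sum_singleton]
  · rw [show 2 * m - m = m by omega]
  · intro x hx hx'
    simp only [mem_singleton] at hx'
    rw [mem_range] at hx
    rcases lt_or_ge x m with h | h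
    · obtain ⟨c, hc⟩ : ∃ c, 2 * m - x = m + 1 + c := ⟨2 * m - x - (m + 1), by omega⟩
      rw [hc, pow_add, hA, zero_mul, zero_mul, smul_zero]
    · obtain ⟨c, hc⟩ : ∃ c, x = m + 1 + c := ⟨x - (m + 1), by omega⟩
      rw [hc, pow_add B, hB, zero_mul, mul_zero, smul_zero]

/-- `(A-B) z^(2m-1) = c_m (z A^m B^(m-1) - z A^(m-1) B^m)`. -/
theorem sub_mul_z_pow (l : ℝ) (m : ℕ) (hm1 : 1 ≤ m) (z : H) (hA : A ^ (m + 1) = 0)
    (hB : B ^ (m + 1) = 0) (hz : z ^ 2 = l • (z * (A + B)) - (A - B) ^ 2) :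
    (A - B) * z ^ (2 * m - 1) = cm l m • (z * (A ^ m * B ^ (m - 1)) - z * (A ^ (m - 1) * B ^ m)) := by
  obtain ⟨c, rfl⟩ : ∃ c, m = c + 1 := ⟨m - 1, by omega⟩
  rcases Nat.eq_zero_or_pos c with rfl | hc
  · simp [cm, up, coeff_one]
    ring
  obtain ⟨q, rfl⟩ : ∃ q, c = q + 1 := ⟨c - 1, by omega⟩
  rw [show 2 * (q + 1 + 1) - 1 = (2 * q + 1) + 2 by omega, z_pow A B l z hz]
  have h1 : (A - B) * hm A B (2 * q + 1 + 1) (up l (2 * q + 1 + 1))
      = hm A B (2 * (q + 1 + 1) - 1) ((1 - X) * up l (2 * q + 1 + 1)) := by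
    rw [show 2 * (q + 1 + 1) - 1 = (2 * q + 1 + 1) + 1 by omega,
      hm_one_sub A B _ _ (natDegree_up l _)]
  have h2 : (A - B) * ((A - B) ^ 2 * hm A B (2 * q + 1) (up l (2 * q + 1)))
      = hm A B (2 * (q + 1 + 1)) ((1 - X) * ((1 - X) ^ 2 * up l (2 * q + 1))) := by
    rw [show 2 * (q + 1 + 1) = (2 * q + 1 + 2) + 1 by omega,
      hm_one_sub A B _ _ ?_, hm_one_sub_sq A B _ _ (natDegree_up l _)]
    refine natDegree_mul_le.trans ?_
    have d2 : ((1 - X) ^ 2 : ℝ[X]).natDegree ≤ 2 := by compute_degree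
    have := natDegree_up l (2 * q + 1)
    omega
  have e1 : ((1 - X) * ((1 - X) ^ 2 * up l (2 * q + 1)) : ℝ[X]).coeff (q + 1 + 1) = 0 := by
    have h3 : reflect (3 + (2 * q + 1)) ((1 - X) * ((1 - X) ^ 2 * up l (2 * q + 1)) : ℝ[X])
        = - ((1 - X) * ((1 - X) ^ 2 * up l (2 * q + 1)) : ℝ[X]) := by
      have d3 : ((1 - X) ^ 3 : ℝ[X]).natDegree ≤ 3 := by compute_degree
      have e2 := reflect_mul ((1 - X) ^ 3 : ℝ[X]) (up l (2 * q + 1)) d3 (natDegree_up l _)
      have e3 : reflect 3 ((1 - X) ^ 3 : ℝ[X]) = - (1 - X) ^ 3 := by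
        have h : ((1 - X) ^ 3 : ℝ[X]) = C 1 * X ^ 0 - C 3 * X ^ 1 + C 3 * X ^ 2 - C 1 * X ^ 3 := by
          simp only [map_one, C_ofNat]; ring
        rw [h, reflect_sub, reflect_add, reflect_sub, reflect_C_mul_X_pow, reflect_C_mul_X_pow,
          reflect_C_mul_X_pow, reflect_C_mul_X_pow]
        simp [revAt_le]
        ring
      rw [show ((1 - X) * ((1 - X) ^ 2 * up l (2 * q + 1)) : ℝ[X]) = (1 - X) ^ 3 * up l (2 * q + 1)
        by ring, e2, e3, reflect_up]
      ring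
    have h4 := congrArg (fun p : ℝ[X] => p.coeff (q + 1 + 1)) h3
    simp only [coeff_reflect, coeff_neg] at h4
    rw [revAt_le (by omega), show 3 + (2 * q + 1) - (q + 1 + 1) = q + 1 + 1 by omega] at h4
    linarith
  have e2 : ((1 - X) * up l (2 * q + 1 + 1) : ℝ[X]).coeff (q + 1 + 1) = - cm l (q + 1 + 1) := by
    rw [sub_mul, one_mul, coeff_sub, coeff_X_mul, cm]
    rw [show 2 * (q + 1 + 1) - 2 = 2 * q + 1 + 1 by omega, show q + 1 + 1 - 1 = q + 1 by omega]
    ring
  have e3 : ((1 - X) * up l (2 * q + 1 + 1) : ℝ[X]).coeff (q + 1) = cm l (q + 1 + 1) := by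
    rw [sub_mul, one_mul, coeff_sub, coeff_X_mul, cm]
    rw [show 2 * (q + 1 + 1) - 2 = 2 * q + 1 + 1 by omega, show q + 1 + 1 - 1 = q + 1 by omega]
    rw [← coeff_up_symm l (show q + 1 + 1 ≤ 2 * q + 1 + 1 by omega)]
    rw [show 2 * q + 1 + 1 - (q + 1 + 1) = q by omega]
  calc (A - B) * (hm A B (2 * q + 1 + 1) (up l (2 * q + 1 + 1)) * z
          - (A - B) ^ 2 * hm A B (2 * q + 1) (up l (2 * q + 1)))
      = ((A - B) * hm A B (2 * q + 1 + 1) (up l (2 * q + 1 + 1))) * z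
        - (A - B) * ((A - B) ^ 2 * hm A B (2 * q + 1) (up l (2 * q + 1))) := by ring
    _ = _ := by
      rw [h1, h2, hm_trunc_even A B _ hA hB, hm_trunc_odd A B _ hm1 hA hB, e1, e2,
        show q + 1 + 1 - 1 = q + 1 by omega, e3]
      simp only [Algebra.smul_def, map_neg, map_zero]
      ring

/-- `(A-B)^(2m-1) z = (-1)^(m-1) binom(2m-1,m) (z A^m B^(m-1) - z A^(m-1) B^m)`. -/
theorem sub_pow_mul_z (m : ℕ) (hm1 : 1 ≤ m) (z : H) (hA : A ^ (m + 1) = 0)
    (hB : B ^ (m + 1) = 0) :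
    (A - B) ^ (2 * m - 1) * z = ((-1 : ℝ) ^ (m - 1) * ((2 * m - 1).choose m : ℝ)) •
      (z * (A ^ m * B ^ (m - 1)) - z * (A ^ (m - 1) * B ^ m)) := by
  obtain ⟨c, rfl⟩ : ∃ c, m = c + 1 := ⟨m - 1, by omega⟩
  have hcoef : ∀ j, ((1 - X) ^ (2 * (c + 1) - 1) : ℝ[X]).coeff j
      = (-1) ^ j * ((2 * (c + 1) - 1).choose j : ℝ) := by
    intro j
    have h : ((1 - X) ^ (2 * (c + 1) - 1) : ℝ[X]) = (1 + C (-1) * X) ^ (2 * (c + 1) - 1) := by
      simp [sub_eq_add_neg]
    rw [h, add_comm, add_pow, finsetSum_coeff]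
    simp only [one_pow, mul_one, mul_pow, ← C_pow]
    rw [Finset.sum_eq_single j]
    · rw [mul_comm, ← C_eq_natCast, coeff_C_mul, coeff_C_mul_X_pow, if_pos rfl, mul_comm]
    · intro b _ hb
      rw [mul_comm, ← C_eq_natCast, coeff_C_mul, coeff_C_mul_X_pow, if_neg (Ne.symm hb), mul_zero]
    · intro hj
      rw [mem_range, not_lt] at hj
      rw [Nat.choose_eq_zero_of_lt (by omega)]
      simp
  rw [← hm_pow, hm_trunc_odd A B _ hm1 hA hB, hcoef, hcoef, show c + 1 - 1 = c by omega,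
    show 2 * (c + 1) - 1 = 2 * c + 1 by omega]
  have hs : (2 * c + 1).choose c = (2 * c + 1).choose (c + 1) := by
    rw [← Nat.choose_symm (by omega : c ≤ 2 * c + 1)]
    congr 1; omega
  rw [hs, show ((-1 : ℝ)) ^ (c + 1) = -(-1) ^ c by ring, neg_mul, neg_smul]
  simp only [Algebra.smul_def]
  ring

end main

end Crest.Agent.R208.NU
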