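import Crest.Agent.R208.NU2

/-!
# R208, NU3 (helper385): closed forms of `cm` and the endgame identity
-/

set_option autoImplicit false

open Polynomial Finset
open scoped Nat

noncomputable section

namespace Crest.Agent.R208.NU

lemma coeff_one_sub_X_pow (n j : ℕ) : ((1 - X) ^ n : ℝ[X]).coeff j = (-1) ^ j * (n.choose j : ℝ) := by
  have h : ((1 - X) ^ n : ℝ[X]) = (1 + C (-1) * X) ^ n := by
    simp [sub_eq_add_neg]
  rw [h, add_comm, add_pow, finsetSum_coeff]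
  simp only [one_pow, mul_one, mul_pow, ← C_pow]
  rw [Finset.sum_eq_single j]
  · rw [mul_comm, ← C_eq_natCast, coeff_C_mul, coeff_C_mul_X_pow, if_pos rfl, mul_comm]
  · intro b _ hb
    rw [mul_comm, ← C_eq_natCast, coeff_C_mul, coeff_C_mul_X_pow, if_neg (Ne.symm hb), mul_zero]
  · intro hj
    rw [mem_range, not_lt] at hj
    rw [Nat.choose_eq_zero_of_lt (by omega)]
    simp

lemma up_neg (l : ℝ) (N : ℕ) : up (-l) N = (-1) ^ N * up l N := by
  induction N using Nat.strong_induction_on with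
  | _ N ih =>
    match N with
    | 0 => simp [up]
    | 1 => simp [up]
    | (N + 2) =>
      rw [up, up, ih (N + 1) (by omega), ih N (by omega)]
      simp only [map_neg]
      ring

/-- the coefficient only depends on `l²`. -/
theorem cm_neg (l : ℝ) (m : ℕ) : cm (-l) m = cm l m := by
  unfold cm
  rw [up_neg, Even.neg_one_pow ⟨m - 1, by omega⟩, one_mul]

lemma up_zero (q : ℕ) : up 0 (2 * q) = (-1) ^ q * (1 - X) ^ (2 * q) := by
  induction q with
  | zero => simp [up]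
  | succ q ih =>
    rw [show 2 * (q + 1) = 2 * q + 2 by ring, up, ih, map_zero]
    ring

/-- `c_m(0) = binom(2m-1,m)`. -/
theorem cm_zero (m : ℕ) (hm : 1 ≤ m) : cm 0 m = ((2 * m - 1).choose m : ℝ) := by
  obtain ⟨c, rfl⟩ : ∃ c, m = c + 1 := ⟨m - 1, by omega⟩
  unfold cm
  rw [show 2 * (c + 1) - 2 = 2 * c by omega, show c + 1 - 1 = c by omega,
    show 2 * (c + 1) - 1 = 2 * c + 1 by omega, up_zero]
  have h : ((-1) ^ c : ℝ[X]) = C ((-1) ^ c) := by simp
  rw [h, coeff_C_mul, coeff_C_mul, coeff_one_sub_X_pow, coeff_one_sub_X_pow,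
    Nat.choose_succ_succ (2 * c) c]
  have h2 : ((-1 : ℝ)) ^ c * (-1) ^ c = 1 := by
    rw [← mul_pow]; norm_num
  push_cast
  rw [pow_succ]
  linear_combination ((2 * c).choose c + (2 * c).choose (c + 1) : ℝ) * h2

lemma up_two_expand (N : ℕ) :
    4 * X * expand ℝ 2 (up 2 N) = (1 + X) ^ (2 * N + 2) - (1 - X) ^ (2 * N + 2) := by
  induction N using Nat.strong_induction_on with
  | _ N ih =>
    match N with
    | 0 => simp [up]; ring
    | 1 =>
      simp only [up, map_mul, map_add, map_one, expand_X, C_ofNat, map_ofNat]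
      ring
    | (N + 2) =>
      have h1 := ih (N + 1) (by omega)
      have h2 := ih N (by omega)
      have h3 : expand ℝ 2 (up 2 (N + 2)) = 2 * (1 + X ^ 2) * expand ℝ 2 (up 2 (N + 1))
          - (1 - X ^ 2) ^ 2 * expand ℝ 2 (up 2 N) := by
        simp only [up, map_sub, map_mul, map_add, map_one, map_pow, expand_X, C_ofNat, map_ofNat]
      rw [h3]
      calc 4 * X * (2 * (1 + X ^ 2) * expand ℝ 2 (up 2 (N + 1))
            - (1 - X ^ 2) ^ 2 * expand ℝ 2 (up 2 N))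
          = 2 * (1 + X ^ 2) * (4 * X * expand ℝ 2 (up 2 (N + 1)))
            - (1 - X ^ 2) ^ 2 * (4 * X * expand ℝ 2 (up 2 N)) := by ring
        _ = _ := by rw [h1, h2]; ring

lemma coeff_up_two (N j : ℕ) : (up 2 N).coeff j = ((2 * N + 2).choose (2 * j + 1) : ℝ) / 2 := by
  have h := congrArg (fun p : ℝ[X] => p.coeff (2 * j + 1)) (up_two_expand N)
  simp only [coeff_sub] at h
  rw [show (4 * X * expand ℝ 2 (up 2 N) : ℝ[X]) = X * (C 4 * expand ℝ 2 (up 2 N)) by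
    simp only [C_ofNat]; ring, coeff_X_mul, coeff_C_mul, mul_comm 2 j,
    coeff_expand_mul (by norm_num), coeff_one_sub_X_pow, coeff_one_add_X_pow] at h
  rw [show ((-1 : ℝ)) ^ (j * 2 + 1) = -1 by rw [pow_succ, mul_comm j 2, pow_mul]; norm_num] at h
  rw [mul_comm 2 j]
  linarith

/-- `c_m(2) = binom(4m-1,2m-1)/(2m+1)`. -/
theorem cm_two (m : ℕ) (hm : 1 ≤ m) :
    cm 2 m = ((4 * m - 1).choose (2 * m - 1) : ℝ) / (2 * m + 1) := by
  obtain ⟨c, rfl⟩ : ∃ c, m = c + 1 := ⟨m - 1, by omega⟩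
  unfold cm
  rw [show 2 * (c + 1) - 2 = 2 * c by omega, show c + 1 - 1 = c by omega,
    show 4 * (c + 1) - 1 = 4 * c + 3 by omega, show 2 * (c + 1) - 1 = 2 * c + 1 by omega,
    coeff_up_two, coeff_up_two, show 2 * (2 * c) + 2 = 4 * c + 2 by ring,
    show 2 * (c + 1) + 1 = 2 * c + 3 by ring]
  have h1 : ((4 * c + 2).choose (2 * c + 2) : ℝ) * (2 * c + 2) = (4 * c + 2).choose (2 * c + 1) *
      (2 * c + 1) := by
    have := Nat.choose_succ_right_eq (4 * c + 2) (2 * c + 1)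
    rw [show 4 * c + 2 - (2 * c + 1) = 2 * c + 1 by omega] at this
    exact_mod_cast this
  have h2 : ((4 * c + 2).choose (2 * c + 3) : ℝ) * (2 * c + 3) = (4 * c + 2).choose (2 * c + 2) *
      (2 * c) := by
    have := Nat.choose_succ_right_eq (4 * c + 2) (2 * c + 2)
    rw [show 4 * c + 2 - (2 * c + 2) = 2 * c by omega] at this
    exact_mod_cast this
  have h3 : ((4 * c + 3).choose (2 * c + 1) : ℝ) * (2 * c + 2) = (4 * c + 2).choose (2 * c + 1) *
      (4 * c + 3) := by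
    have h4 := Nat.choose_succ_right_eq (4 * c + 2) (2 * c)
    rw [show 4 * c + 2 - 2 * c = 2 * c + 2 by omega] at h4
    have h5 : (4 * c + 3).choose (2 * c + 1) = (4 * c + 2).choose (2 * c) +
        (4 * c + 2).choose (2 * c + 1) := Nat.choose_succ_succ (4 * c + 2) (2 * c)
    have h6 : ((4 * c + 2).choose (2 * c + 1) : ℝ) * (2 * c + 1) = (4 * c + 2).choose (2 * c) *
        (2 * c + 2) := by exact_mod_cast h4
    rw [h5]
    push_cast
    linear_combination -h6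
  have p1 : (2 * (c : ℝ) + 2) ≠ 0 := by positivity
  have p2 : (2 * (c : ℝ) + 3) ≠ 0 := by positivity
  have e1 : ((4 * c + 2).choose (2 * c + 2) : ℝ) = (4 * c + 2).choose (2 * c + 1) *
      (2 * c + 1) / (2 * c + 2) := by rw [eq_div_iff p1, h1]
  have e2 : ((4 * c + 2).choose (2 * c + 3) : ℝ) = (4 * c + 2).choose (2 * c + 2) *
      (2 * c) / (2 * c + 3) := by rw [eq_div_iff p2, h2]
  have e3 : ((4 * c + 3).choose (2 * c + 1) : ℝ) = (4 * c + 2).choose (2 * c + 1) *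
      (4 * c + 3) / (2 * c + 2) := by rw [eq_div_iff p1, h3]
  rw [e3, e2, e1]
  push_cast
  have p3 : (2 * ((c : ℝ) + 1) + 1) ≠ 0 := by positivity
  field_simp
  ring

/-- `c_2(l) = l² + 3`. -/
theorem cm_at_two (l : ℝ) : cm l 2 = l ^ 2 + 3 := by
  have h : up l 2 = C (l ^ 2 - 1) * X ^ 0 + C (2 * l ^ 2 + 2) * X ^ 1 + C (l ^ 2 - 1) * X ^ 2 := by
    rw [up, up, up]
    simp only [map_sub, map_add, map_mul, map_pow, map_one, C_ofNat]
    ring
  unfold cm
  rw [show 2 * 2 - 2 = 2 by norm_num, h]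
  simp only [coeff_add, coeff_C_mul_X_pow]
  norm_num
  ring

/-- `c_1(l) = 1`. -/
theorem cm_at_one (l : ℝ) : cm l 1 = 1 := by
  unfold cm
  simp [up, coeff_one]

section endgame

variable {H : Type*} [CommRing H] [Algebra ℝ H]

/-- the scaled relation. -/
theorem sub_mul_z_pow_scaled (A B : H) (s l : ℝ) (hs : s ≠ 0) (m : ℕ) (hm1 : 1 ≤ m) (z : H)
    (hA : A ^ (m + 1) = 0) (hB : B ^ (m + 1) = 0)
    (hz : (A - B) ^ 2 = -(s ^ 2 • z ^ 2) + l • (z * (A + B))) :
    (A - B) * z ^ (2 * m - 1) = (s / s ^ (2 * m - 1) * cm (l / s) m) •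
      (z * (A ^ m * B ^ (m - 1)) - z * (A ^ (m - 1) * B ^ m)) := by
  have h1 : (s • z) ^ 2 = (l / s) • ((s • z) * (A + B)) - (A - B) ^ 2 := by
    rw [hz, _root_.smul_pow, smul_mul_assoc, smul_smul, div_mul_cancel₀ _ hs]
    ring
  have h2 := sub_mul_z_pow A B (l / s) m hm1 (s • z) hA hB h1
  have h3 : (A - B) * (s • z) ^ (2 * m - 1) = s ^ (2 * m - 1) • ((A - B) * z ^ (2 * m - 1)) := by
    rw [_root_.smul_pow, mul_smul_comm]
  rw [h3] at h2
  have h4 : s ^ (2 * m - 1) ≠ 0 := pow_ne_zero _ hs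
  calc (A - B) * z ^ (2 * m - 1)
      = (s ^ (2 * m - 1))⁻¹ • (s ^ (2 * m - 1) • ((A - B) * z ^ (2 * m - 1))) := by
        rw [smul_smul, inv_mul_cancel₀ h4, one_smul]
    _ = _ := by
        rw [h2, smul_mul_assoc, smul_mul_assoc, ← smul_sub, smul_smul, smul_smul]
        congr 1
        field_simp

/-- **The endgame.**  `R = H^*(Y)`, `Y = S(N) → CM`, `e` the contact class, `w` the vertical Euler
class (`w` has degree `±2` on the fibres), `A, B` the two pull backs of the generator of `H^k(M)`,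
`I = ∫_Y`.  With
* `e w = A - B`,
* `w² = -s² e^(k-2) + l e^(k/2-2) (A + B)`,
* `A^(m+1) = B^(m+1) = 0`,
* `I` antisymmetric under the fibre antipode,
* 427's normalisation `|∫_Y w^(2m+1) e^(2m-1)| = 2 binom(2m,m)`,
one has `|∫_Y w e^(km-1)| = 4 s^(-2m) |c_m(l/s)|`.  (`k = 2a`.) -/
theorem endgame (a m : ℕ) (ha : 2 ≤ a) (hm1 : 1 ≤ m) (e w A B : H) (s l : ℝ) (hs : 0 < s)
    (I : H →ₗ[ℝ] ℝ) (h1 : e * w = A - B)
    (h2 : w ^ 2 = -(s ^ 2 • e ^ (2 * a - 2)) + l • (e ^ (a - 2) * (A + B)))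
    (hA : A ^ (m + 1) = 0) (hB : B ^ (m + 1) = 0)
    (hI : I (e ^ (2 * a - 2) * (A ^ m * B ^ (m - 1))) = - I (e ^ (2 * a - 2) * (A ^ (m - 1) * B ^ m)))
    (hN : |I (w ^ (2 * m + 1) * e ^ (2 * m - 1))| = 2 * ((2 * m).choose m : ℝ)) :
    |I (w * e ^ (2 * a * m - 1))| = 4 * (|cm (l / s) m| / s ^ (2 * m)) := by
  obtain ⟨b, rfl⟩ : ∃ b, a = b + 2 := ⟨a - 2, by omega⟩
  obtain ⟨c, rfl⟩ : ∃ c, m = c + 1 := ⟨m - 1, by omega⟩
  rw [show 2 * (b + 2) - 2 = 2 * b + 2 by omega] at h2 hI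
  rw [show b + 2 - 2 = b by omega] at h2
  set v : ℝ := I (e ^ (2 * b + 2) * (A ^ (c + 1) * B ^ (c + 1 - 1))) with hv
  -- `z = e^(b+2)`
  have hz : (A - B) ^ 2 = -(s ^ 2 • (e ^ (b + 2)) ^ 2) + l • (e ^ (b + 2) * (A + B)) := by
    rw [← h1, mul_pow, h2]
    simp only [Algebra.smul_def]
    ring
  have g1 := sub_mul_z_pow_scaled A B s l hs.ne' (c + 1) hm1 (e ^ (b + 2)) hA hB hz
  have g2 := sub_pow_mul_z A B (c + 1) hm1 (e ^ (b + 2)) hA hB
  -- first integral
  have k1 : w * e ^ (2 * (b + 2) * (c + 1) - 1)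
      = e ^ b * ((A - B) * (e ^ (b + 2)) ^ (2 * (c + 1) - 1)) := by
    rw [← h1, ← pow_mul]
    have : 2 * (b + 2) * (c + 1) - 1 = b + 1 + (b + 2) * (2 * (c + 1) - 1) := by
      rw [show 2 * (c + 1) - 1 = 2 * c + 1 by omega]
      have : 2 * (b + 2) * (c + 1) = (b + 1 + (b + 2) * (2 * c + 1)) + 1 := by ring
      omega
    rw [this, pow_add, pow_succ]
    ring
  have k2 : ∀ x : H, e ^ b * (e ^ (b + 2) * x) = e ^ (2 * b + 2) * x := by
    intro x
    rw [← mul_assoc, ← pow_add]; congr 2; ring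
  have k3 : I (e ^ b * (e ^ (b + 2) * (A ^ (c + 1) * B ^ (c + 1 - 1)) -
      e ^ (b + 2) * (A ^ (c + 1 - 1) * B ^ (c + 1)))) = 2 * v := by
    rw [mul_sub, k2, k2, map_sub]
    linarith [hI]
  -- second integral
  have k4 : w ^ (2 * (c + 1) + 1) * e ^ (2 * (c + 1) - 1)
      = -(s ^ 2 • (e ^ b * ((A - B) ^ (2 * (c + 1) - 1) * e ^ (b + 2))))
        + l • (e ^ b * ((A - B) ^ (2 * (c + 1) - 1) * (A + B))) := by
    rw [← h1]
    have : w ^ (2 * (c + 1) + 1) * e ^ (2 * (c + 1) - 1)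
        = (e * w) ^ (2 * (c + 1) - 1) * w ^ 2 := by
      rw [show 2 * (c + 1) + 1 = (2 * (c + 1) - 1) + 2 by omega]
      ring
    rw [this, h2]
    simp only [Algebra.smul_def]
    ring
  have k5 : (A - B) ^ (2 * (c + 1) - 1) * (A + B) = 0 := by
    have e1 : (A - B) ^ (2 * (c + 1) - 1) * (A + B)
        = hm A B (2 * (c + 1)) ((1 + X) * (1 - X) ^ (2 * (c + 1) - 1)) := by
      rw [show 2 * (c + 1) = (2 * (c + 1) - 1) + 1 by omega,
        hm_one_add A B _ _ ?_, show (2 * (c + 1) - 1) + 1 - 1 = 2 * (c + 1) - 1 by omega, hm_pow,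
        mul_comm]
      have : ((1 - X) : ℝ[X]).natDegree ≤ 1 := by compute_degree
      exact (natDegree_pow_le.trans (Nat.mul_le_mul_left _ this)).trans (by omega)
    rw [e1, hm_trunc_even A B _ hA hB]
    have e2 : ((1 + X) * (1 - X) ^ (2 * (c + 1) - 1) : ℝ[X]).coeff (c + 1) = 0 := by
      rw [add_mul, one_mul, coeff_add, coeff_X_mul, coeff_one_sub_X_pow, coeff_one_sub_X_pow,
        show 2 * (c + 1) - 1 = 2 * c + 1 by omega]
      have hs : (2 * c + 1).choose c = (2 * c + 1).choose (c + 1) := by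
        rw [← Nat.choose_symm (by omega : c ≤ 2 * c + 1)]
        congr 1; omega
      rw [hs]; ring
    rw [e2, zero_smul]
  rw [k5, mul_zero, smul_zero, add_zero, g2] at k4
  have k6 : I (w ^ (2 * (c + 1) + 1) * e ^ (2 * (c + 1) - 1))
      = -(s ^ 2 * ((-1) ^ (c + 1 - 1) * ((2 * (c + 1) - 1).choose (c + 1) : ℝ) * (2 * v))) := by
    rw [k4, map_neg, map_smul, mul_smul_comm, map_smul, k3]
    simp only [smul_eq_mul]
  have hchoose : ((2 * (c + 1)).choose (c + 1) : ℝ) = 2 * ((2 * (c + 1) - 1).choose (c + 1) : ℝ) := by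
    rw [show 2 * (c + 1) - 1 = 2 * c + 1 by omega, show 2 * (c + 1) = 2 * c + 1 + 1 by ring,
      Nat.choose_succ_succ]
    have hs : (2 * c + 1).choose c = (2 * c + 1).choose (c + 1) := by
      rw [← Nat.choose_symm (by omega : c ≤ 2 * c + 1)]
      congr 1; omega
    rw [show (2 * c + 1).choose (c.succ) = (2 * c + 1).choose (c + 1) from rfl, hs]
    push_cast; ring
  have hpos : (0 : ℝ) < ((2 * (c + 1) - 1).choose (c + 1) : ℝ) := by
    have := Nat.choose_pos (show c + 1 ≤ 2 * (c + 1) - 1 by omega)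
    exact_mod_cast this
  have hv2 : s ^ 2 * |v| = 2 := by
    rw [k6, hchoose, abs_neg, abs_mul, abs_mul, abs_mul, abs_mul, abs_neg_one_pow,
      one_mul, abs_of_pos hpos, abs_of_pos (by positivity : (0:ℝ) < s ^ 2),
      abs_of_pos (by norm_num : (0:ℝ) < 2)] at hN
    have : ((2 * (c + 1) - 1).choose (c + 1) : ℝ) * (s ^ 2 * |v|)
        = ((2 * (c + 1) - 1).choose (c + 1) : ℝ) * 2 := by linarith
    exact mul_left_cancel₀ hpos.ne' this
  rw [k1, g1, mul_smul_comm, map_smul, k3, smul_eq_mul, abs_mul, abs_mul, abs_mul,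
    abs_of_pos (by norm_num : (0:ℝ) < 2), abs_of_pos (by positivity : (0:ℝ) < s / s ^ (2 * (c + 1) - 1))]
  have hvv : |v| = 2 / s ^ 2 := by
    rw [eq_div_iff (by positivity)]; linarith
  rw [hvv]
  have hs2 : s ^ (2 * (c + 1)) = s ^ (2 * (c + 1) - 1) * s := by
    rw [← pow_succ]; congr 1
  rw [hs2]
  have := hs.ne'
  field_simp
  ring

end endgame

end Crest.Agent.R208.NU
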