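import Crest.Agent.R208.NU1b
import Crest.Agent.R208.NU3

/-!
# R208, NU4 (helper385): the endgame, with the model numbers
-/

set_option autoImplicit false

open Polynomial Finset
open scoped Nat

noncomputable section

namespace Crest.Agent.R208.NU

theorem i0_one_eq (m : ℕ) (hm : 1 ≤ m) : cm 0 m = i0 1 m := by
  rw [cm_zero m hm, i0_one m hm]

theorem i0_two_eq (m : ℕ) (hm : 1 ≤ m) : cm 2 m = i0 2 (2 * m) := by
  rw [cm_two m hm, i0_two m hm]

lemma choose_eq (m : ℕ) (hm : 1 ≤ m) : ((2 * m).choose m : ℝ) = 2 * i0 1 m := by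
  obtain ⟨c, rfl⟩ : ∃ c, m = c + 1 := ⟨m - 1, by omega⟩
  rw [i0_one _ hm, show 2 * (c + 1) - 1 = 2 * c + 1 by omega, show 2 * (c + 1) = 2 * c + 1 + 1 by ring,
    Nat.choose_succ_succ]
  have hs : (2 * c + 1).choose c = (2 * c + 1).choose (c + 1) := by
    rw [← Nat.choose_symm (by omega : c ≤ 2 * c + 1)]
    congr 1; omega
  rw [show (2 * c + 1).choose (c.succ) = (2 * c + 1).choose (c + 1) from rfl, hs]
  push_cast; ring

/-- spheres of even dimension: `i0 b b = 1`. -/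
theorem i0_sphere (b : ℕ) (hb : 1 ≤ b) : i0 b b = 1 := by
  unfold i0
  rw [show b + b - 1 = 2 * b - 1 by omega, mul_comm]
  exact div_self (by positivity)

variable {H : Type*} [CommRing H] [Algebra ℝ H]

/-- `k = 4`: with `α = -1` and `|λ| = 2` the number is the model number. -/
theorem endgame_four (m : ℕ) (hm1 : 1 ≤ m) (e w A B : H) (l : ℝ) (hl : |l| = 2)
    (I : H →ₗ[ℝ] ℝ) (h1 : e * w = A - B)
    (h2 : w ^ 2 = -(e ^ 2) + l • (A + B))
    (hA : A ^ (m + 1) = 0) (hB : B ^ (m + 1) = 0)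
    (hI : I (e ^ 2 * (A ^ m * B ^ (m - 1))) = - I (e ^ 2 * (A ^ (m - 1) * B ^ m)))
    (hN : |I (w ^ (2 * m + 1) * e ^ (2 * m - 1))| = 2 * ((2 * m).choose m : ℝ)) :
    |I (w * e ^ (4 * m - 1))| = 4 * i0 2 (2 * m) := by
  have h := endgame 2 m le_rfl hm1 e w A B 1 l one_pos I h1 (by simpa using h2) hA hB
    (by simpa using hI) hN
  have hc : cm l m = i0 2 (2 * m) := by
    rcases (abs_eq (by norm_num : (0:ℝ) ≤ 2)).1 hl with rfl | rfl
    · exact i0_two_eq m hm1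
    · rw [cm_neg, i0_two_eq m hm1]
  rw [one_pow, div_one, div_one, hc, abs_of_pos (i0_pos _ _), show 2 * 2 * m = 4 * m by ring] at h
  exact h

/-- `k = 8`, `m = 2`: with `α = -s²`, `s ≥ 1`, `|λ| ≤ 6`, the number is at most the model number. -/
theorem endgame_eight (e w A B : H) (s l : ℝ) (hs : 1 ≤ s) (hl : |l| ≤ 6)
    (I : H →ₗ[ℝ] ℝ) (h1 : e * w = A - B)
    (h2 : w ^ 2 = -(s ^ 2 • e ^ 6) + l • (e ^ 2 * (A + B)))
    (hA : A ^ 3 = 0) (hB : B ^ 3 = 0)
    (hI : I (e ^ 6 * (A ^ 2 * B)) = - I (e ^ 6 * (A * B ^ 2)))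
    (hN : |I (w ^ 5 * e ^ 3)| = 12) :
    |I (w * e ^ 15)| ≤ 4 * i0 4 8 := by
  have h := endgame 4 2 (by norm_num) (by norm_num) e w A B s l (by linarith) I h1
    (by simpa using h2) hA hB (by simpa using hI)
    (by rw [show 2 * 2 + 1 = 5 by norm_num, show 2 * 2 - 1 = 3 by norm_num, hN]; norm_num [Nat.choose])
  rw [show 2 * 4 * 2 - 1 = 15 by norm_num] at h
  rw [h, i0_cayley, cm_at_two]
  have hs0 : 0 < s := by linarith
  have h3 : (l / s) ^ 2 ≤ 36 := by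
    rw [div_pow, div_le_iff₀ (by positivity)]
    have h4 : l ^ 2 ≤ 36 := by
      have := abs_le.1 hl
      nlinarith [this.1, this.2]
    have h5 : 1 ≤ s ^ 2 := one_le_pow₀ hs
    nlinarith
  have h6 : 1 ≤ s ^ (2 * 2) := one_le_pow₀ hs
  rw [abs_of_nonneg (by positivity)]
  have : ((l / s) ^ 2 + 3) / s ^ (2 * 2) ≤ 39 := by
    rw [div_le_iff₀ (by positivity)]
    generalize (l / s) ^ 2 = q at h3
    generalize s ^ (2 * 2) = r at h6
    linarith
  linarith

end Crest.Agent.R208.NU
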