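import Crest.Agent.R208.KR8
import Crest.Agent.R208.AK6

/-! Row 208, block NW (helper537), part NW1: the antiperiodic part of helper952's junction
(AK9): the corner field `Q` attached to a pair `(a, b)` of elements of `N`, built from the
linearised rounded chains with four arcs. -/

set_option autoImplicit false
set_option linter.unusedSectionVars false
set_option linter.unusedVariables false

open MeasureTheory Set Filter Topology Module
open scoped ContDiff RealInnerProductSpace Real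
open Crest.GeometryTopology.Submanifold
open Crest.Agent.R241.DDefs
open Crest.Agent.R241.D2
open Crest.Agent.R208.NN (Wt nuP V0 qf Rt)
open Crest.Agent.R208.KG (idx gT OK)
open Crest.Agent.R208.SV (ix jf jf')

noncomputable section

namespace Crest.Agent.R208.NW

/-! ### uniform lower bounds -/

/-- compactness: a positive homogeneous function on the range of a field of projections -/
theorem exists_lower {E V : Type*} [NormedAddCommGroup E] [NormedAddCommGroup V] [NormedSpace ℝ V]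
    [FiniteDimensional ℝ V] {C : Set E} (hC : IsCompact C) {P : E → V →L[ℝ] V}
    (hP : ContinuousOn P C) {f : E → V → ℝ} (hf : ContinuousOn (Function.uncurry f) (C ×ˢ univ))
    (hom : ∀ x ∈ C, ∀ (s : ℝ) (v : V), f x (s • v) = s ^ 2 * f x v)
    (pos : ∀ x ∈ C, ∀ v, P x v = v → v ≠ 0 → 0 < f x v) :
    ∃ c, 0 < c ∧ ∀ x ∈ C, ∀ v, P x v = v → c * ‖v‖ ^ 2 ≤ f x v := by
  have hs : IsCompact (Metric.sphere (0:V) 1) := isCompact_sphere _ _
  have hCS : IsCompact (C ×ˢ Metric.sphere (0:V) 1) := hC.prod hs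
  set M : Set (E × V) := {p ∈ C ×ˢ Metric.sphere (0:V) 1 | P p.1 p.2 = p.2} with hM
  have hMc : IsCompact M := by
    have h1 : ContinuousOn (fun p : E × V => P p.1 p.2 - p.2) (C ×ˢ Metric.sphere (0:V) 1) := by
      refine ContinuousOn.sub (ContinuousOn.clm_apply ?_ continuousOn_snd) continuousOn_snd
      exact hP.comp continuousOn_fst fun p hp => hp.1
    have h2 : M = (C ×ˢ Metric.sphere (0:V) 1) ∩ (fun p : E × V => P p.1 p.2 - p.2) ⁻¹' {0} := by
      ext p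
      simp [hM, sub_eq_zero]
    obtain ⟨t, ht, he⟩ := (continuousOn_iff_isClosed.1 h1) {0} isClosed_singleton
    rw [h2, inter_comm, he, inter_comm]
    exact hCS.inter_right ht
  have key : ∃ c, 0 < c ∧ ∀ p ∈ M, c ≤ f p.1 p.2 := by
    rcases M.eq_empty_or_nonempty with h0 | h0
    · exact ⟨1, one_pos, fun p hp => by rw [h0] at hp; exact hp.elim⟩
    · obtain ⟨q, hq, hmin⟩ := hMc.exists_isMinOn h0
        (hf.mono fun p hp => (⟨hp.1.1, mem_univ _⟩ : p ∈ C ×ˢ (univ : Set V)))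
      refine ⟨f q.1 q.2, pos q.1 hq.1.1 q.2 hq.2 ?_, fun p hp => hmin hp⟩
      intro h1
      have h2 := hq.1.2
      rw [mem_sphere_zero_iff_norm, h1, norm_zero] at h2
      exact zero_ne_one h2
  obtain ⟨c, hc, hb⟩ := key
  refine ⟨c, hc, fun x hx v hv => ?_⟩
  by_cases h0 : v = 0
  · have h1 := hom x hx 0 (0 : V)
    rw [smul_zero] at h1
    rw [h0, norm_zero, h1]
    simp
  · have hn : 0 < ‖v‖ := norm_pos_iff.2 h0
    have h1 := hb (x, ‖v‖⁻¹ • v) ⟨⟨hx, by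
      rw [mem_sphere_zero_iff_norm, norm_smul, norm_inv, norm_norm, inv_mul_cancel₀ hn.ne']⟩, by
      change P x (‖v‖⁻¹ • v) = ‖v‖⁻¹ • v
      rw [map_smul, hv]⟩
    change c ≤ f x (‖v‖⁻¹ • v) at h1
    rw [hom x hx] at h1
    calc c * ‖v‖ ^ 2 ≤ (‖v‖⁻¹ ^ 2 * f x v) * ‖v‖ ^ 2 := by gcongr
      _ = f x v := by field_simp

variable {n N k K : ℕ} {κ : ℝ} {S : Set (Euc N)} {G : Geo n N κ S} {z : Euc N × Euc N}
  {h : GT.Bla G k} {P : Euc N × Euc N → Wt N K →L[ℝ] Wt N K} {ε : ℝ}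

/-- the four variations of the arcs -/
def Zab (h : GT.Bla G k) (P : Euc N × Euc N → Wt N K →L[ℝ] Wt N K) (z : Euc N × Euc N)
    (a b : Wt N K) : Fin 4 → Euc N :=
  ![KR.uu h P z a, -KR.uu h P z b, -KR.uu h P z a, KR.uu h P z b]

/-- **the corner field** -/
def Qf (h : GT.Bla G k) (P : Euc N × Euc N → Wt N K →L[ℝ] Wt N K) (ε : ℝ) (z : Euc N × Euc N)
    (a b : Wt N K) (t : ℝ) : Euc N := AK.AZ G ε z (Zab h P z a b) t

theorem Zab_mem (hP : KR.NegB h K P) (hz : z ∈ L.US G) (a b : Wt N K) (i : Fin 4) :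
    Zab h P z a b i ∈ V0 G z := by
  have ha := hP.uu_mem hz a
  have hb := hP.uu_mem hz b
  unfold Zab
  fin_cases i
  · exact ha
  · exact (V0 G z).neg_mem hb
  · exact (V0 G z).neg_mem ha
  · exact hb

theorem Zab_smul (s : ℝ) (a b : Wt N K) : Zab h P z (s • a) (s • b) = s • Zab h P z a b := by
  funext i
  unfold Zab
  rw [map_smul, map_smul]
  fin_cases i <;> simp

theorem Zab_shf (a b : Wt N K) : AK.shf (Zab h P z a b) = -Zab h P z a b := by
  funext i
  unfold AK.shf Zab KG.idx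
  fin_cases i <;> simp

theorem contDiffAt_Zab (hP : KR.NegB h K P) (hz : z ∈ L.US G) (a b : Wt N K) :
    ContDiffAt ℝ ∞ (fun p : (Euc N × Euc N) × (Wt N K × Wt N K) => Zab h P p.1 p.2.1 p.2.2)
      (z, (a, b)) := by
  have h1 : ContDiffAt ℝ ∞ (fun p : (Euc N × Euc N) × (Wt N K × Wt N K) => KR.uu h P p.1)
      (z, (a, b)) :=
    ContDiffAt.comp (g := KR.uu h P)
      (f := fun p : (Euc N × Euc N) × (Wt N K × Wt N K) => p.1) (z, (a, b))
      (hP.contDiffAt_uu hz) (by fun_prop)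
  have ha : ContDiffAt ℝ ∞ (fun p : (Euc N × Euc N) × (Wt N K × Wt N K) =>
      KR.uu h P p.1 p.2.1) (z, (a, b)) := h1.clm_apply (by fun_prop)
  have hb : ContDiffAt ℝ ∞ (fun p : (Euc N × Euc N) × (Wt N K × Wt N K) =>
      KR.uu h P p.1 p.2.2) (z, (a, b)) := h1.clm_apply (by fun_prop)
  rw [contDiffAt_pi]
  intro i
  unfold Zab
  fin_cases i
  · exact ha
  · exact hb.neg
  · exact ha.neg
  · exact hb

theorem contDiffAt_Qf (hO : OK G 4 ε) (hP : KR.NegB h K P) (hz : z ∈ L.US G) (a b : Wt N K)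
    (t : ℝ) : ContDiffAt ℝ ∞ (fun p : ((Euc N × Euc N) × (Wt N K × Wt N K)) × ℝ =>
      Qf h P ε p.1.1 p.1.2.1 p.1.2.2 p.2) ((z, (a, b)), t) := by
  have h1 : ContDiffAt ℝ ∞ (fun p : ((Euc N × Euc N) × (Wt N K × Wt N K)) × ℝ =>
      Zab h P p.1.1 p.1.2.1 p.1.2.2) ((z, (a, b)), t) :=
    ContDiffAt.comp
      (g := fun p : (Euc N × Euc N) × (Wt N K × Wt N K) => Zab h P p.1 p.2.1 p.2.2)
      (f := fun p : ((Euc N × Euc N) × (Wt N K × Wt N K)) × ℝ => p.1) ((z, (a, b)), t)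
      (contDiffAt_Zab hP hz a b) (by fun_prop)
  exact ContDiffAt.comp
    (g := fun p : ((Euc N × Euc N) × (Fin 4 → Euc N)) × ℝ => AK.AZ G ε p.1.1 p.1.2 p.2)
    (f := fun p : ((Euc N × Euc N) × (Wt N K × Wt N K)) × ℝ =>
      ((p.1.1, Zab h P p.1.1 p.1.2.1 p.1.2.2), p.2)) ((z, (a, b)), t)
    (AK.contDiffAt_AZ hO h hz _ t)
    (((by fun_prop : ContDiffAt ℝ ∞ (fun p : ((Euc N × Euc N) × (Wt N K × Wt N K)) × ℝ =>
      p.1.1) ((z, (a, b)), t)).prodMk h1).prodMk (by fun_prop))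

theorem Qf_smul (s : ℝ) (a b : Wt N K) (t : ℝ) :
    Qf h P ε z (s • a) (s • b) t = s • Qf h P ε z a b t := by
  unfold Qf
  rw [Zab_smul, AK.AZ_smul]

theorem Qf_mem (hO : OK G 4 ε) (hP : KR.NegB h K P) (hz : z ∈ L.US G) (a b : Wt N K) (t : ℝ) :
    Qf h P ε z a b t ∈ G.T (fl G (z, t)).1 := AK.AZ_mem hO h hz (Zab_mem hP hz a b) t

theorem Qf_per (hO : OK G 4 ε) (hP : KR.NegB h K P) (hz : z ∈ L.US G) (a b : Wt N K) (t : ℝ) :
    Qf h P ε z a b (t + 2 * π) = -Qf h P ε z a b t := by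
  unfold Qf
  rw [AK.AZ_shift hO h hz (Zab_mem hP hz a b), Zab_shf, AK.AZ_neg]

theorem contDiff_Qf_t (hO : OK G 4 ε) (hz : z ∈ L.US G) (a b : Wt N K) :
    ContDiff ℝ ∞ (Qf h P ε z a b) := AK.contDiff_AZ_t hO h hz _

/-! ### corner values -/

theorem Qf_zero (hO : OK G 4 ε) (hP : KR.NegB h K P) (hz : z ∈ L.US G) (a b : Wt N K) :
    Qf h P ε z a b 0 = gT ε 0 0 • (KR.uu h P z a - KR.uu h P z b) := by
  have h1 := AK.AZ_corner hO h hz (Zab_mem hP hz a b) 0
  have h2 : ∀ u : Euc N, jf' G z (0, u) 0 = u := fun u => by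
    unfold SV.jf'
    rw [L.dfl_zero hz.1]
  simp only [Int.cast_zero, zero_mul, h2] at h1
  exact h1

theorem Qf_pi (hO : OK G 4 ε) (hP : KR.NegB h K P) (hz : z ∈ L.US G) (a b : Wt N K) :
    Qf h P ε z a b π = -(gT ε 0 0 • KR.De G z (KR.uu h P z a + KR.uu h P z b)) := by
  have h1 := AK.AZ_corner hO h hz (Zab_mem hP hz a b) 1
  have h2 : ∀ u : Euc N, jf' G z (0, u) π = KR.De G z u := fun u => rfl
  simp only [Int.cast_one, one_mul, h2] at h1
  change AK.AZ G ε z (Zab h P z a b) π = _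
  rw [h1]
  change gT ε 0 0 • (KR.De G z (-KR.uu h P z b) - KR.De G z (KR.uu h P z a)) = _
  rw [map_neg, map_add, ← smul_neg]
  congr 1
  abel

theorem gT_pos (hO : OK G 4 ε) : 0 < gT ε 0 0 := by
  rw [KG.gT_zero, zero_div]
  exact mul_pos hO.pos KG.th_zero_pos

/-! ### injectivity -/

theorem De_ne (hz : z ∈ L.US G) {u : Euc N} (hu : u ∈ V0 G z) (h0 : KR.De G z u = 0) (h : GT.Bla G k) :
    u = 0 := by
  have h1 : (L.dfl G z π (0, u)).1 = 0 := KR.dfl_V0_fst h hz hu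
  have h2 : (L.dfl G z π (0, u)).2 = 0 := h0
  have h3 : L.dfl G z π (0, u) = 0 := Prod.ext h1 h2
  have h4 := KR.dfl_add hz.1 π (-π) (0, u)
  rw [h3, map_zero, add_neg_cancel, L.dfl_zero hz.1] at h4
  exact congrArg Prod.snd h4

end Crest.Agent.R208.NW
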