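import Crest.Agent.R208.NW1

/-! Row 208, block NW (helper537), part NW2: negativity of the corner field and its two corner
values (the inequality needed by helper589's KF4). -/

set_option autoImplicit false
set_option linter.unusedSectionVars false
set_option linter.unusedVariables false

open MeasureTheory Set Filter Topology Module
open scoped ContDiff RealInnerProductSpace Real
open Crest.GeometryTopology.Submanifold
open Crest.Agent.R241.DDefs
open Crest.Agent.R241.D2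
open Crest.Agent.R208.NN (Wt nuP V0 qf Rt)
open Crest.Agent.R208.KG (idx gT OK Km)
open Crest.Agent.R208.SV (ix jf jf')

noncomputable section

namespace Crest.Agent.R208.NW

variable {n N k K : ℕ} {κ : ℝ} {S : Set (Euc N)} {G : Geo n N κ S} {z : Euc N × Euc N}
  {h : GT.Bla G k} {P : Euc N × Euc N → Wt N K →L[ℝ] Wt N K} {ε : ℝ}

theorem dsq_Zab (a b : Wt N K) : AK.dsq (Zab h P z a b) =
    4 * (‖KR.uu h P z a‖ ^ 2 + ‖KR.uu h P z b‖ ^ 2) := by
  set x := KR.uu h P z a with hx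
  set y := KR.uu h P z b with hy
  have e : AK.dsq (Zab h P z a b) = ‖x - y‖ ^ 2 + ‖-y - x‖ ^ 2 + ‖-x - -y‖ ^ 2 + ‖y - -x‖ ^ 2 := by
    unfold AK.dsq
    rw [Finset.sum_range_succ, Finset.sum_range_succ, Finset.sum_range_succ,
      Finset.sum_range_succ, Finset.sum_range_zero, zero_add]
    rfl
  have e1 : ‖-y - x‖ = ‖x + y‖ := by rw [← norm_neg]; congr 1; abel
  have e2 : ‖-x - -y‖ = ‖x - y‖ := by rw [← norm_neg]; congr 1; abel
  have e3 : ‖y - -x‖ = ‖x + y‖ := by congr 1; abel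
  rw [e, e1, e2, e3, norm_add_sq_real, norm_sub_sq_real]
  ring

theorem ix_zero_right {q : Euc N × Euc N} {a b : ℝ} (A A' : ℝ → Euc N) :
    ix G q a b A A' (fun _ => 0) (fun _ => 0) = 0 := by
  have h1 := SV.ix_smul_right (G := G) (q := q) (a := a) (b := b) (A := A) (A' := A')
    (C := fun _ => 0) (C' := fun _ => 0) (0 : ℝ)
  rw [zero_mul] at h1
  have h2 : ((0:ℝ) • fun _ : ℝ => (0 : Euc N)) = fun _ => 0 := by
    funext t; simp
  rwa [h2] at h1

/-- the index form of the corner field over one turn -/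
theorem ix_Qf_le (hO : OK G 4 ε) (hP : KR.NegB h K P) {c : ℝ}
    (hc : ∀ κ' ∈ Km G 4, MS.En (KG.F G 4 ε κ' 0) ≤ ((4 : ℕ) : ℝ) ^ 2 * π / 4 - c * KG.jsq κ')
    (hz : z ∈ L.US G) (a b : Wt N K) :
    ix G z 0 (2 * π) (Qf h P ε z a b) (deriv (Qf h P ε z a b)) (Qf h P ε z a b)
      (deriv (Qf h P ε z a b)) ≤ -(2 * c) * (‖KR.uu h P z a‖ ^ 2 + ‖KR.uu h P z b‖ ^ 2) := by
  have h1 := AK.ix_AZ_le hO h hc hz (Zab_mem hP hz a b)
  rw [dsq_Zab] at h1
  have hq := contDiff_Qf_t (h := h) (P := P) hO hz a b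
  have h0 : fl G (z, 2 * π) = z := by
    have := KR.fl_per h hz 0
    rw [zero_add, fl_zero] at this
    exact this
  have h2 := AK.ix_double (G := G) hz.1 h0 (A := fun _ => (0 : Euc N)) (B := Qf h P ε z a b)
    contDiff_const hq (fun t => (G.T _).zero_mem) (Qf_mem hO hP hz a b) (fun t => by simp)
    (fun t => by rw [Qf_per hO hP hz, neg_one_smul])
  have e1 : (fun t => Qf h P ε z a b t + (0 : Euc N)) = Qf h P ε z a b := by
    funext t; rw [add_zero]
  have e2 : deriv (fun _ : ℝ => (0 : Euc N)) = fun _ => 0 := by funext t; simp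
  rw [e1, e2, ix_zero_right, mul_zero, add_zero] at h2
  have e3 : ((4 : ℕ) : ℝ) * π = 4 * π := by norm_num
  rw [e3] at h1
  change ix G z 0 (4 * π) (Qf h P ε z a b) (deriv (Qf h P ε z a b)) (Qf h P ε z a b)
      (deriv (Qf h P ε z a b)) ≤ _ at h1
  rw [h2] at h1
  push_cast at h1
  linarith

/-- `De` preserves the norm up to a factor: it is injective on `V₀` -/
def fc (h : GT.Bla G k) (P : Euc N × Euc N → Wt N K →L[ℝ] Wt N K) (z : Euc N × Euc N)
    (w : Wt N K × Wt N K) : ℝ :=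
  ‖KR.uu h P z (w.1 - w.2)‖ ^ 2 + ‖KR.De G z (KR.uu h P z (w.1 + w.2))‖ ^ 2

def fn2 (h : GT.Bla G k) (P : Euc N × Euc N → Wt N K →L[ℝ] Wt N K) (z : Euc N × Euc N)
    (w : Wt N K × Wt N K) : ℝ :=
  ‖KR.uu h P z w.1‖ ^ 2 + ‖KR.uu h P z w.2‖ ^ 2

theorem continuousOn_PP (hP : KR.NegB h K P) :
    ContinuousOn (fun z => (P z).prodMap (P z)) (L.US G) := by
  intro z hz
  have h1 : ContinuousAt P z := (hP.smooth z hz).continuousAt
  have h2 : ContinuousAt (fun z => (P z).prodMap (P z)) z :=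
    (ContinuousLinearMap.prodMapL ℝ (Wt N K) (Wt N K) (Wt N K) (Wt N K)).continuous.continuousAt.comp
      (f := fun z => (P z, P z)) (h1.prodMk h1)
  exact h2.continuousWithinAt

theorem continuousOn_fc (hP : KR.NegB h K P) :
    ContinuousOn (Function.uncurry (fc h P)) (L.US G ×ˢ (univ : Set (Wt N K × Wt N K))) := by
  rintro ⟨z, w⟩ ⟨hz, -⟩
  have h1 : ContinuousAt (fun p : (Euc N × Euc N) × (Wt N K × Wt N K) => KR.uu h P p.1) (z, w) :=
    ContinuousAt.comp (g := KR.uu h P) (f := fun p : (Euc N × Euc N) × (Wt N K × Wt N K) => p.1)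
      (hP.contDiffAt_uu hz).continuousAt continuousAt_fst
  have h2 : ContinuousAt (fun p : (Euc N × Euc N) × (Wt N K × Wt N K) => KR.De G p.1) (z, w) :=
    ContinuousAt.comp (g := KR.De G) (f := fun p : (Euc N × Euc N) × (Wt N K × Wt N K) => p.1)
      (KR.contDiffAt_De hz.1).continuousAt continuousAt_fst
  have h3 : ContinuousAt (fun p : (Euc N × Euc N) × (Wt N K × Wt N K) => p.2.1 - p.2.2) (z, w) := by
    fun_prop
  have h4 : ContinuousAt (fun p : (Euc N × Euc N) × (Wt N K × Wt N K) => p.2.1 + p.2.2) (z, w) := by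
    fun_prop
  have h5 : ContinuousAt (Function.uncurry (fc h P)) (z, w) :=
    ((h1.clm_apply h3).norm.pow 2).add ((h2.clm_apply (h1.clm_apply h4)).norm.pow 2)
  exact h5.continuousWithinAt

theorem continuousOn_fn2 (hP : KR.NegB h K P) :
    ContinuousOn (Function.uncurry (fn2 h P)) (L.US G ×ˢ (univ : Set (Wt N K × Wt N K))) := by
  rintro ⟨z, w⟩ ⟨hz, -⟩
  have h1 : ContinuousAt (fun p : (Euc N × Euc N) × (Wt N K × Wt N K) => KR.uu h P p.1) (z, w) :=
    ContinuousAt.comp (g := KR.uu h P) (f := fun p : (Euc N × Euc N) × (Wt N K × Wt N K) => p.1)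
      (hP.contDiffAt_uu hz).continuousAt continuousAt_fst
  have h3 : ContinuousAt (fun p : (Euc N × Euc N) × (Wt N K × Wt N K) => p.2.1) (z, w) := by
    fun_prop
  have h4 : ContinuousAt (fun p : (Euc N × Euc N) × (Wt N K × Wt N K) => p.2.2) (z, w) := by
    fun_prop
  have h5 : ContinuousAt (Function.uncurry (fn2 h P)) (z, w) :=
    ((h1.clm_apply h3).norm.pow 2).add ((h1.clm_apply h4).norm.pow 2)
  exact h5.continuousWithinAt

theorem fc_smul (s : ℝ) (w : Wt N K × Wt N K) : fc h P z (s • w) = s ^ 2 * fc h P z w := by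
  unfold fc
  have e1 : (s • w).1 - (s • w).2 = s • (w.1 - w.2) := by simp [smul_sub]
  have e2 : (s • w).1 + (s • w).2 = s • (w.1 + w.2) := by simp [smul_add]
  rw [e1, e2, map_smul, map_smul, map_smul, norm_smul, norm_smul, mul_pow, mul_pow,
    Real.norm_eq_abs, sq_abs]
  ring

theorem fn2_smul (s : ℝ) (w : Wt N K × Wt N K) : fn2 h P z (s • w) = s ^ 2 * fn2 h P z w := by
  unfold fn2
  rw [Prod.smul_fst, Prod.smul_snd, map_smul, map_smul, norm_smul, norm_smul, mul_pow, mul_pow,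
    Real.norm_eq_abs, sq_abs]
  ring

theorem fc_pos (hP : KR.NegB h K P) (hz : z ∈ L.US G) {w : Wt N K × Wt N K}
    (hw : (P z).prodMap (P z) w = w) (hw0 : w ≠ 0) : 0 < fc h P z w := by
  have h1 : P z w.1 = w.1 := congrArg Prod.fst hw
  have h2 : P z w.2 = w.2 := congrArg Prod.snd hw
  by_contra hcon
  have h3 : fc h P z w = 0 := le_antisymm (not_lt.1 hcon) (by unfold fc; positivity)
  unfold fc at h3
  have h4 : ‖KR.uu h P z (w.1 - w.2)‖ ^ 2 = 0 := by
    nlinarith [sq_nonneg ‖KR.uu h P z (w.1 - w.2)‖,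
      sq_nonneg ‖KR.De G z (KR.uu h P z (w.1 + w.2))‖]
  have h5 : ‖KR.De G z (KR.uu h P z (w.1 + w.2))‖ ^ 2 = 0 := by
    nlinarith [sq_nonneg ‖KR.uu h P z (w.1 - w.2)‖,
      sq_nonneg ‖KR.De G z (KR.uu h P z (w.1 + w.2))‖]
  have h6 : KR.uu h P z (w.1 - w.2) = 0 := norm_eq_zero.1 (pow_eq_zero_iff two_ne_zero |>.1 h4)
  have h7 : KR.De G z (KR.uu h P z (w.1 + w.2)) = 0 :=
    norm_eq_zero.1 (pow_eq_zero_iff two_ne_zero |>.1 h5)
  have h8 : KR.uu h P z (w.1 + w.2) = 0 := De_ne hz (hP.uu_mem hz _) h7 h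
  have h9 : w.1 - w.2 = 0 := by
    by_contra hne
    exact hP.uu_ne hz (by rw [map_sub, h1, h2]) hne h6
  have h10 : w.1 + w.2 = 0 := by
    by_contra hne
    exact hP.uu_ne hz (by rw [map_add, h1, h2]) hne h8
  have h11 : w.1 = w.2 := sub_eq_zero.1 h9
  rw [h11] at h10
  have h12 : (2:ℝ) • w.2 = 0 := by rw [two_smul]; exact h10
  have h13 : w.2 = 0 := (smul_eq_zero.1 h12).resolve_left two_ne_zero
  exact hw0 (Prod.ext (h11.trans h13) h13)

theorem fn2_pos (hP : KR.NegB h K P) (hz : z ∈ L.US G) {w : Wt N K × Wt N K}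
    (hw : (P z).prodMap (P z) w = w) (hw0 : w ≠ 0) : 0 < fn2 h P z w := by
  have h1 : P z w.1 = w.1 := congrArg Prod.fst hw
  have h2 : P z w.2 = w.2 := congrArg Prod.snd hw
  unfold fn2
  by_cases h3 : w.1 = 0
  · have h4 : w.2 ≠ 0 := fun h5 => hw0 (Prod.ext h3 h5)
    have := norm_pos_iff.2 (hP.uu_ne hz h2 h4)
    positivity
  · have := norm_pos_iff.2 (hP.uu_ne hz h1 h3)
    positivity

theorem sq_le_prod (w : Wt N K × Wt N K) : ‖w.1‖ ^ 2 + ‖w.2‖ ^ 2 ≤ 2 * ‖w‖ ^ 2 := by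
  have h1 : ‖w.1‖ ≤ ‖w‖ := norm_fst_le w
  have h2 : ‖w.2‖ ≤ ‖w‖ := norm_snd_le w
  have h3 := pow_le_pow_left₀ (norm_nonneg _) h1 2
  have h4 := pow_le_pow_left₀ (norm_nonneg _) h2 2
  linarith

theorem exists_fc (hS : IsCompact (L.US G)) (hP : KR.NegB h K P) :
    ∃ c, 0 < c ∧ ∀ z ∈ L.US G, ∀ a b : Wt N K, P z a = a → P z b = b →
      c * (‖a‖ ^ 2 + ‖b‖ ^ 2) ≤ fc h P z (a, b) := by
  obtain ⟨c, hc, hb⟩ := exists_lower hS (continuousOn_PP hP) (continuousOn_fc hP)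
    (fun z hz s w => fc_smul s w) (fun z hz w hw hw0 => fc_pos hP hz hw hw0)
  refine ⟨c / 2, by positivity, fun z hz a b h1 h2 => ?_⟩
  have h3 := hb z hz (a, b) (Prod.ext h1 h2)
  have h4 := sq_le_prod (a, b)
  simp only at h4
  nlinarith

theorem exists_fn2 (hS : IsCompact (L.US G)) (hP : KR.NegB h K P) :
    ∃ c, 0 < c ∧ ∀ z ∈ L.US G, ∀ a b : Wt N K, P z a = a → P z b = b →
      c * (‖a‖ ^ 2 + ‖b‖ ^ 2) ≤ fn2 h P z (a, b) := by
  obtain ⟨c, hc, hb⟩ := exists_lower hS (continuousOn_PP hP) (continuousOn_fn2 hP)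
    (fun z hz s w => fn2_smul s w) (fun z hz w hw hw0 => fn2_pos hP hz hw hw0)
  refine ⟨c / 2, by positivity, fun z hz a b h1 h2 => ?_⟩
  have h3 := hb z hz (a, b) (Prod.ext h1 h2)
  have h4 := sq_le_prod (a, b)
  simp only at h4
  nlinarith

/-- **the corner inequality** (hypothesis of KF4) -/
theorem corner (hO : OK G 4 ε) (hP : KR.NegB h K P) (hz : z ∈ L.US G) (a b : Wt N K) :
    -⟪jf' G z (KR.Jr h P z 0 a - KR.Jr h P z 0 b) 0, Qf h P ε z a b 0⟫ +
      ⟪jf' G z (KR.Jr h P z 0 a + KR.Jr h P z 0 b) π, Qf h P ε z a b π⟫ =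
      -(gT ε 0 0 * fc h P z (a, b)) := by
  have e0 : ∀ w, KR.Jr h P z 0 w = (0, KR.uu h P z w) := by
    intro w
    rw [KR.Jr_apply, fl_zero, neg_zero, L.dfl_zero hz.1]
    rw [NN.Rt_zero]
  have e1 : ∀ x y : Euc N, ((0 : Euc N), x) - ((0 : Euc N), y) = (0, x - y) := fun x y => by simp
  have e2 : ∀ x y : Euc N, ((0 : Euc N), x) + ((0 : Euc N), y) = (0, x + y) := fun x y => by simp
  have h2 : ∀ u : Euc N, jf' G z (0, u) 0 = u := fun u => by
    unfold SV.jf'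
    rw [L.dfl_zero hz.1]
  have h3 : ∀ u : Euc N, jf' G z (0, u) π = KR.De G z u := fun u => rfl
  rw [Qf_zero hO hP hz, Qf_pi hO hP hz, e0, e0, e1, e2, h2, h3, ← map_sub, ← map_add]
  unfold fc
  rw [inner_neg_right, real_inner_smul_right, real_inner_smul_right, real_inner_self_eq_norm_sq,
    real_inner_self_eq_norm_sq]
  ring

end Crest.Agent.R208.NW
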