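import Crest.Agent.R208.NW2
import Crest.Agent.R208.KRa286

/-! Row 208, block NW (helper537), part NW3: uniform negativity of the fields `xi` over compact
families of changes of the angle. -/

set_option autoImplicit false
set_option linter.unusedSectionVars false
set_option linter.unusedVariables false

open MeasureTheory Set Filter Topology Module
open scoped ContDiff RealInnerProductSpace Real
open Crest.GeometryTopology.Submanifold
open Crest.Agent.R241.DDefs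
open Crest.Agent.R241.D2
open Crest.Agent.R208.NN (Wt nuP V0 qf Rt)
open Crest.Agent.R208.KR (xi xi' C1 Xi Xi' Ang)
open Crest.Agent.R208.SV (ix ixd jf jf')

noncomputable section

namespace Crest.Agent.R208.NW

variable {n N k K : ℕ} {κ : ℝ} {S : Set (Euc N)} {G : Geo n N κ S} {z : Euc N × Euc N}
  {h : GT.Bla G k} {P : Euc N × Euc N → Wt N K →L[ℝ] Wt N K} {ε : ℝ}

/-! ### smoothness of index forms with parameters -/

section par

variable {Y : Type} [NormedAddCommGroup Y] [NormedSpace ℝ Y] [FiniteDimensional ℝ Y]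

/-- index forms of smooth families of fields are smooth in the parameters -/
theorem contDiffAt_ix {g : Y → Euc N × Euc N} {A A' B B' : Y → ℝ → Euc N} {x : Y}
    (hz : g x ∈ TS G) (hg : ContDiffAt ℝ ∞ g x) {T : ℝ} (hT : 0 ≤ T)
    (hA : ∀ t, ContDiffAt ℝ ∞ (fun p : Y × ℝ => A p.1 p.2) (x, t))
    (hA' : ∀ t, ContDiffAt ℝ ∞ (fun p : Y × ℝ => A' p.1 p.2) (x, t))
    (hB : ∀ t, ContDiffAt ℝ ∞ (fun p : Y × ℝ => B p.1 p.2) (x, t))
    (hB' : ∀ t, ContDiffAt ℝ ∞ (fun p : Y × ℝ => B' p.1 p.2) (x, t)) :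
    ContDiffAt ℝ ∞ (fun x => ix G (g x) 0 T (A x) (A' x) (B x) (B' x)) x := by
  unfold SV.ix
  refine NB.contDiffAt_int (g := fun p : Y × ℝ => ixd G (g p.1) (A p.1) (A' p.1) (B p.1)
    (B' p.1) p.2) hT fun t _ => ?_
  unfold SV.ixd
  have hg1 : ContDiffAt ℝ ∞ (fun p : Y × ℝ => (g p.1, p.2)) (x, t) :=
    (ContDiffAt.comp (g := g) (f := fun p : Y × ℝ => p.1) (x, t) hg contDiffAt_fst).prodMk
      contDiffAt_snd
  have hf : ContDiffAt ℝ ∞ (fun p : Y × ℝ => fl G (g p.1, p.2)) (x, t) :=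
    ContDiffAt.comp (g := fl G) (f := fun p : Y × ℝ => (g p.1, p.2)) (x, t)
      (contDiffAt_fl' G hz t) hg1
  have hX : ContDiffAt ℝ ∞ (fun p : Y × ℝ => (X G (fl G (g p.1, p.2))).2) (x, t) :=
    (ContDiffAt.comp (g := X G) (f := fun p : Y × ℝ => fl G (g p.1, p.2)) (x, t)
      (contDiff_X G).contDiffAt hf).snd
  have hPf : ContDiffAt ℝ ∞ (fun p : Y × ℝ => fderiv ℝ G.P (fl G (g p.1, p.2)).1) (x, t) :=
    ContDiffAt.comp (g := fderiv ℝ G.P) (f := fun p : Y × ℝ => (fl G (g p.1, p.2)).1) (x, t)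
      ((G.contDiff_P.fderiv_right (m := ∞) (by simp)).contDiffAt) hf.fst
  have hII : ContDiffAt ℝ ∞ (fun p : Y × ℝ => II G (fl G (g p.1, p.2)).1 (A p.1 p.2)
      (B p.1 p.2)) (x, t) := (hPf.clm_apply (hA t)).clm_apply (hB t)
  exact ((hA' t).inner ℝ (hB' t)).sub (hX.inner ℝ hII)

end par

section thd

variable {E : Type} [NormedAddCommGroup E] [NormedSpace ℝ E] [FiniteDimensional ℝ E]
  {Th Th' : E → ℝ → ℝ} {T : Set E}

/-- smoothness of the change of angle in `(s, r)` -/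
structure SAng (Th Th' : E → ℝ → ℝ) (T : Set E) : Prop where
  ang : ∀ s ∈ T, Ang (Th s) (Th' s)
  sm : ∀ s ∈ T, ∀ r, ContDiffAt ℝ ∞ (fun p : E × ℝ => Th p.1 p.2) (s, r)
  sm' : ∀ s ∈ T, ∀ r, ContDiffAt ℝ ∞ (fun p : E × ℝ => Th' p.1 p.2) (s, r)

/-- minus the index form of `xi` -/
def fX (h : GT.Bla G k) (P : Euc N × Euc N → Wt N K →L[ℝ] Wt N K) (Th Th' : E → ℝ → ℝ)
    (p : (Euc N × Euc N) × E) (w : Wt N K × Wt N K) : ℝ :=
  -ix G p.1 0 (2 * π) (fun t => Xi h P (Th p.2) (Th' p.2) p.1 t w)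
    (fun t => Xi' h P (Th p.2) (Th' p.2) p.1 t w) (fun t => Xi h P (Th p.2) (Th' p.2) p.1 t w)
    (fun t => Xi' h P (Th p.2) (Th' p.2) p.1 t w)

theorem fX_smul (p : (Euc N × Euc N) × E) (s : ℝ) (w : Wt N K × Wt N K) :
    fX h P Th Th' p (s • w) = s ^ 2 * fX h P Th Th' p w := by
  unfold fX
  have e1 : (fun t => Xi h P (Th p.2) (Th' p.2) p.1 t (s • w)) =
      s • fun t => Xi h P (Th p.2) (Th' p.2) p.1 t w := by
    funext t; rw [map_smul]; rfl
  have e2 : (fun t => Xi' h P (Th p.2) (Th' p.2) p.1 t (s • w)) =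
      s • fun t => Xi' h P (Th p.2) (Th' p.2) p.1 t w := by
    funext t; rw [map_smul]; rfl
  rw [e1, e2, SV.ix_smul_left, SV.ix_smul_right]
  ring

theorem contDiffAt_fX (hP : KR.NegB h K P) (hz : z ∈ L.US G) (hT : SAng Th Th' T) {s : E}
    (hs : s ∈ T) (w : Wt N K × Wt N K) :
    ContDiffAt ℝ ∞ (Function.uncurry (fX h P Th Th')) ((z, s), w) := by
  have hX : ∀ t, ContDiffAt ℝ ∞
      (fun p : (((Euc N × Euc N) × E) × (Wt N K × Wt N K)) × ℝ =>
        Xi h P (Th p.1.1.2) (Th' p.1.1.2) p.1.1.1 p.2 p.1.2) (((z, s), w), t) := fun t =>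
    (ContDiffAt.comp (g := fun q : ((Euc N × Euc N) × E) × ℝ =>
        Xi h P (Th q.1.2) (Th' q.1.2) q.1.1 q.2)
      (f := fun p : (((Euc N × Euc N) × E) × (Wt N K × Wt N K)) × ℝ => (p.1.1, p.2))
      (((z, s), w), t) (hP.contDiffAt_Xi hz (hT.sm s hs) (hT.sm' s hs) t)
      (by fun_prop)).clm_apply (by fun_prop)
  have hX' : ∀ t, ContDiffAt ℝ ∞
      (fun p : (((Euc N × Euc N) × E) × (Wt N K × Wt N K)) × ℝ =>
        Xi' h P (Th p.1.1.2) (Th' p.1.1.2) p.1.1.1 p.2 p.1.2) (((z, s), w), t) := fun t =>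
    (ContDiffAt.comp (g := fun q : ((Euc N × Euc N) × E) × ℝ =>
        Xi' h P (Th q.1.2) (Th' q.1.2) q.1.1 q.2)
      (f := fun p : (((Euc N × Euc N) × E) × (Wt N K × Wt N K)) × ℝ => (p.1.1, p.2))
      (((z, s), w), t) (hP.contDiffAt_Xi' hz (hT.sm s hs) (hT.sm' s hs) t)
      (by fun_prop)).clm_apply (by fun_prop)
  exact (contDiffAt_ix (G := G) (Y := ((Euc N × Euc N) × E) × (Wt N K × Wt N K))
    (g := fun p => p.1.1)
    (A := fun p t => Xi h P (Th p.1.2) (Th' p.1.2) p.1.1 t p.2)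
    (A' := fun p t => Xi' h P (Th p.1.2) (Th' p.1.2) p.1.1 t p.2)
    (B := fun p t => Xi h P (Th p.1.2) (Th' p.1.2) p.1.1 t p.2)
    (B' := fun p t => Xi' h P (Th p.1.2) (Th' p.1.2) p.1.1 t p.2) (x := ((z, s), w))
    hz.1 (by fun_prop) (by positivity) hX hX' hX hX').neg

theorem ix_xi_eq (hP : KR.NegB h K P) (hz : z ∈ L.US G) (hT : SAng Th Th' T) {s : E}
    (hs : s ∈ T) (a b : Wt N K) :
    ix G z 0 (2 * π) (xi G z (C1 h P z (Th s) (Th' s) a b)) (xi' G z (C1 h P z (Th s) (Th' s) a b))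
      (xi G z (C1 h P z (Th s) (Th' s) a b)) (xi' G z (C1 h P z (Th s) (Th' s) a b)) =
      -fX h P Th Th' (z, s) (a, b) := by
  have c1 := (hT.ang s hs).continuous
  have c2 := (hT.ang s hs).cont
  have e1 : xi G z (C1 h P z (Th s) (Th' s) a b) =
      fun t => Xi h P (Th s) (Th' s) z t (a, b) := funext fun t => hP.xi_eq hz c1 c2 a b t
  have e2 : xi' G z (C1 h P z (Th s) (Th' s) a b) =
      fun t => Xi' h P (Th s) (Th' s) z t (a, b) := funext fun t => hP.xi'_eq hz c1 c2 a b t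
  rw [e1, e2]
  unfold fX
  rw [neg_neg]

/-- **uniform negativity** -/
theorem exists_neg (hS : IsCompact (L.US G)) (hP : KR.NegB h K P) (hTc : IsCompact T)
    (hT : SAng Th Th' T) :
    ∃ δ, 0 < δ ∧ ∀ z ∈ L.US G, ∀ s ∈ T, ∀ a b : Wt N K, P z a = a → P z b = b →
      ix G z 0 (2 * π) (xi G z (C1 h P z (Th s) (Th' s) a b))
        (xi' G z (C1 h P z (Th s) (Th' s) a b)) (xi G z (C1 h P z (Th s) (Th' s) a b))
        (xi' G z (C1 h P z (Th s) (Th' s) a b)) ≤ -δ * (‖a‖ ^ 2 + ‖b‖ ^ 2) := by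
  have hC : IsCompact (L.US G ×ˢ T) := hS.prod hTc
  obtain ⟨c, hc, hb⟩ := exists_lower hC (P := fun p : (Euc N × Euc N) × E =>
      (P p.1).prodMap (P p.1)) ((continuousOn_PP hP).comp continuousOn_fst fun p hp => hp.1)
    (f := fX h P Th Th') (fun p hp =>
      ((contDiffAt_fX hP hp.1.1 hT hp.1.2 p.2).continuousAt).continuousWithinAt)
    (fun p hp s w => fX_smul p s w) (fun p hp w hw hw0 => by
      have h1 : P p.1 w.1 = w.1 := congrArg Prod.fst hw
      have h2 : P p.1 w.2 = w.2 := congrArg Prod.snd hw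
      have h3 := hP.ix_neg hp.1 (hT.ang p.2 hp.2) h1 h2 (by
        intro h0; exact hw0 (Prod.ext (congrArg Prod.fst h0) (congrArg Prod.snd h0)))
      rw [ix_xi_eq hP hp.1 hT hp.2] at h3
      change 0 < fX h P Th Th' (p.1, p.2) (w.1, w.2)
      linarith)
  refine ⟨c / 2, by positivity, fun z hz s hs a b h1 h2 => ?_⟩
  have h3 := hb (z, s) ⟨hz, hs⟩ (a, b) (Prod.ext h1 h2)
  have h4 := sq_le_prod (a, b)
  simp only at h4
  rw [ix_xi_eq hP hz hT hs]
  nlinarith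

end thd

end Crest.Agent.R208.NW
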