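import Crest.Agent.R208.NW3
import Crest.Agent.R208.KS3

/-! Row 208, block NW (helper537), part NW4: **the antiperiodic path of helper952's junction**
(AK9): from the corner field `Q` along a straight line to `ξ^{θ₁}` and then to `ξ^{id}`. -/

set_option autoImplicit false
set_option linter.unusedSectionVars false
set_option linter.unusedVariables false

open MeasureTheory Set Filter Topology Module
open scoped ContDiff RealInnerProductSpace Real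
open Crest.GeometryTopology.Submanifold
open Crest.Agent.R241.DDefs
open Crest.Agent.R241.D2
open Crest.Agent.R208.NN (Wt nuP V0 qf Rt)
open Crest.Agent.R208.KG (idx gT OK Km)
open Crest.Agent.R208.KR (xi xi' C1 Xi Xi' Ang)
open Crest.Agent.R208.SV (ix ixd jf jf')

noncomputable section

namespace Crest.Agent.R208.NW

variable {n N k K : ℕ} {κ : ℝ} {S : Set (Euc N)} {G : Geo n N κ S} {z : Euc N × Euc N}
  {h : GT.Bla G k} {P : Euc N × Euc N → Wt N K →L[ℝ] Wt N K} {ε : ℝ}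
  {E V : Type*} [NormedAddCommGroup E] [NormedSpace ℝ E] [NormedAddCommGroup V] [NormedSpace ℝ V]
  {X : Set E} {P2 : E → V →L[ℝ] V} {g : E → Euc N × Euc N} {α β : E → V →L[ℝ] Wt N K}

/-- a family of pairs `(a, b)` of elements of `N`, parametrised by the range of `P2` -/
structure Dat (G : Geo n N κ S) (P : Euc N × Euc N → Wt N K →L[ℝ] Wt N K) (X : Set E)
    (P2 : E → V →L[ℝ] V) (g : E → Euc N × Euc N) (α β : E → V →L[ℝ] Wt N K) : Prop where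
  sg : ∀ x ∈ X, ContDiffAt ℝ ∞ g x
  mg : ∀ x ∈ X, g x ∈ L.US G
  sα : ∀ x ∈ X, ContDiffAt ℝ ∞ α x
  sβ : ∀ x ∈ X, ContDiffAt ℝ ∞ β x
  mα : ∀ x ∈ X, ∀ ζ : V, P2 x ζ = ζ → P (g x) (α x ζ) = α x ζ
  mβ : ∀ x ∈ X, ∀ ζ : V, P2 x ζ = ζ → P (g x) (β x ζ) = β x ζ
  bd : ∃ C, 0 < C ∧ ∀ x ∈ X, ∀ ζ : V, P2 x ζ = ζ → C * ‖ζ‖ ^ 2 ≤ ‖α x ζ‖ ^ 2 + ‖β x ζ‖ ^ 2

/-- the corner fields of the family -/
def QB (h : GT.Bla G k) (P : Euc N × Euc N → Wt N K →L[ℝ] Wt N K) (ε : ℝ)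
    (g : E → Euc N × Euc N) (α β : E → V →L[ℝ] Wt N K) (p : (E × V) × ℝ) : Euc N :=
  Qf h P ε (g p.1.1) (α p.1.1 p.1.2) (β p.1.1 p.1.2) p.2

/-- the fields `ξ^θ` of the family -/
def XB (h : GT.Bla G k) (P : Euc N × Euc N → Wt N K →L[ℝ] Wt N K) (θ θ' : ℝ → ℝ)
    (g : E → Euc N × Euc N) (α β : E → V →L[ℝ] Wt N K) (p : (E × V) × ℝ) : Euc N :=
  Xi h P θ θ' (g p.1.1) p.2 (α p.1.1 p.1.2, β p.1.1 p.1.2)

/-- the path of fields `ξ^{θ_τ}` of the family -/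
def XP (h : GT.Bla G k) (P : Euc N × Euc N → Wt N K →L[ℝ] Wt N K) (Th Th' : ℝ → ℝ → ℝ)
    (g : E → Euc N × Euc N) (α β : E → V →L[ℝ] Wt N K) (p : ((E × ℝ) × V) × ℝ) : Euc N :=
  Xi h P (Th p.1.1.2) (Th' p.1.1.2) (g p.1.1.1) p.2 (α p.1.1.1 p.1.2, β p.1.1.1 p.1.2)

namespace Dat

variable (D : Dat G P X P2 g α β)

include D

theorem cab {x : E} (hx : x ∈ X) (ζ : V) (t : ℝ) :
    ContDiffAt ℝ ∞ (fun p : (E × V) × ℝ => (g p.1.1, (α p.1.1 p.1.2, β p.1.1 p.1.2)))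
      ((x, ζ), t) := by
  have h1 : ContDiffAt ℝ ∞ (fun p : (E × V) × ℝ => g p.1.1) ((x, ζ), t) :=
    ContDiffAt.comp (g := g) (f := fun p : (E × V) × ℝ => p.1.1) ((x, ζ), t) (D.sg x hx)
      (by fun_prop)
  have h2 : ContDiffAt ℝ ∞ (fun p : (E × V) × ℝ => α p.1.1) ((x, ζ), t) :=
    ContDiffAt.comp (g := α) (f := fun p : (E × V) × ℝ => p.1.1) ((x, ζ), t) (D.sα x hx)
      (by fun_prop)
  have h3 : ContDiffAt ℝ ∞ (fun p : (E × V) × ℝ => β p.1.1) ((x, ζ), t) :=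
    ContDiffAt.comp (g := β) (f := fun p : (E × V) × ℝ => p.1.1) ((x, ζ), t) (D.sβ x hx)
      (by fun_prop)
  exact h1.prodMk ((h2.clm_apply (by fun_prop)).prodMk (h3.clm_apply (by fun_prop)))

/-- **the corner fields form a linear family** -/
theorem lmap_Q (hO : OK G 4 ε) (hP : KR.NegB h K P) :
    AK.LMap G X P2 (2 * π) (-1) g (QB h P ε g α β) where
  smooth x hx ζ hζ t := by
    have h1 := D.cab hx ζ t
    exact ContDiffAt.comp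
      (g := fun p : ((Euc N × Euc N) × (Wt N K × Wt N K)) × ℝ =>
        Qf h P ε p.1.1 p.1.2.1 p.1.2.2 p.2)
      (f := fun p : (E × V) × ℝ => ((g p.1.1, (α p.1.1 p.1.2, β p.1.1 p.1.2)), p.2))
      ((x, ζ), t) (contDiffAt_Qf hO hP (D.mg x hx) _ _ t) (h1.prodMk (by fun_prop))
  hom x hx ζ hζ s t := by
    simp only [QB]
    rw [map_smul, map_smul, Qf_smul]
  tan x hx ζ hζ t := Qf_mem hO hP (D.mg x hx) _ _ t
  per x hx ζ hζ t := by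
    simp only [QB]
    rw [Qf_per hO hP (D.mg x hx), neg_one_smul]

theorem neg_Q (hO : OK G 4 ε) (hP : KR.NegB h K P) (hS : IsCompact (L.US G)) {c : ℝ} (hc0 : 0 < c)
    (hc : ∀ κ' ∈ Km G 4, MS.En (KG.F G 4 ε κ' 0) ≤ ((4 : ℕ) : ℝ) ^ 2 * π / 4 - c * KG.jsq κ') :
    ∃ δ, 0 < δ ∧ ∀ x ∈ X, ∀ ζ : V, P2 x ζ = ζ →
      ix G (g x) 0 (2 * π) (fun t => QB h P ε g α β ((x, ζ), t))
        (deriv fun t => QB h P ε g α β ((x, ζ), t)) (fun t => QB h P ε g α β ((x, ζ), t))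
        (deriv fun t => QB h P ε g α β ((x, ζ), t)) ≤ -δ * ‖ζ‖ ^ 2 := by
  obtain ⟨c1, hc1, h1⟩ := exists_fn2 hS hP
  obtain ⟨C, hC, h2⟩ := D.bd
  refine ⟨2 * c * (c1 * C), by positivity, fun x hx ζ hζ => ?_⟩
  have h3 := ix_Qf_le hO hP hc (D.mg x hx) (α x ζ) (β x ζ)
  have h4 := h1 (g x) (D.mg x hx) _ _ (D.mα x hx ζ hζ) (D.mβ x hx ζ hζ)
  have h5 := h2 x hx ζ hζ
  unfold fn2 at h4
  change ix G (g x) 0 (2 * π) (Qf h P ε (g x) (α x ζ) (β x ζ))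
    (deriv (Qf h P ε (g x) (α x ζ) (β x ζ))) (Qf h P ε (g x) (α x ζ) (β x ζ))
    (deriv (Qf h P ε (g x) (α x ζ) (β x ζ))) ≤ _
  refine h3.trans ?_
  simp only at h4
  have h6 : c1 * (C * ‖ζ‖ ^ 2) ≤ c1 * (‖α x ζ‖ ^ 2 + ‖β x ζ‖ ^ 2) := by gcongr
  have h7 : c1 * (C * ‖ζ‖ ^ 2) ≤ ‖KR.uu h P (g x) (α x ζ)‖ ^ 2 +
      ‖KR.uu h P (g x) (β x ζ)‖ ^ 2 := h6.trans h4
  nlinarith

/-- hypothesis of KF4 -/
theorem corner_Q (hO : OK G 4 ε) (hP : KR.NegB h K P) (hS : IsCompact (L.US G)) :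
    ∃ c, 0 < c ∧ ∀ x ∈ X, ∀ ζ : V, P2 x ζ = ζ →
      -⟪SV.jf' G (g x) (KR.Jr h P (g x) 0 (α x ζ - β x ζ)) 0, QB h P ε g α β ((x, ζ), 0)⟫ +
        ⟪SV.jf' G (g x) (KR.Jr h P (g x) 0 (α x ζ + β x ζ)) π, QB h P ε g α β ((x, ζ), π)⟫ ≤
        -c * ‖ζ‖ ^ 2 := by
  obtain ⟨c1, hc1, h1⟩ := exists_fc hS hP
  obtain ⟨C, hC, h2⟩ := D.bd
  have hg := gT_pos hO
  refine ⟨gT ε 0 0 * (c1 * C), by positivity, fun x hx ζ hζ => ?_⟩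
  have h3 := corner hO hP (D.mg x hx) (α x ζ) (β x ζ)
  have h4 := h1 (g x) (D.mg x hx) _ _ (D.mα x hx ζ hζ) (D.mβ x hx ζ hζ)
  have h5 := h2 x hx ζ hζ
  rw [map_sub, map_add]
  change -⟪_, Qf h P ε (g x) (α x ζ) (β x ζ) 0⟫ + ⟪_, Qf h P ε (g x) (α x ζ) (β x ζ) π⟫ ≤ _
  rw [h3]
  have h6 : c1 * (C * ‖ζ‖ ^ 2) ≤ c1 * (‖α x ζ‖ ^ 2 + ‖β x ζ‖ ^ 2) := by gcongr
  have h7 := mul_le_mul_of_nonneg_left (h6.trans h4) hg.le
  linarith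

/-- the values of `XB` -/
theorem XB_eq (hP : KR.NegB h K P) {θ θ' : ℝ → ℝ} (hθ : Ang θ θ') {x : E} (hx : x ∈ X) (ζ : V) :
    (fun t => XB h P θ θ' g α β ((x, ζ), t)) = xi G (g x) (C1 h P (g x) θ θ' (α x ζ) (β x ζ)) :=
  funext fun t => (hP.xi_eq (D.mg x hx) hθ.continuous hθ.cont _ _ t).symm

theorem deriv_XB (hP : KR.NegB h K P) {θ θ' : ℝ → ℝ} (hθ : Ang θ θ') {x : E} (hx : x ∈ X) (ζ : V) :
    (deriv fun t => XB h P θ θ' g α β ((x, ζ), t)) =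
      xi' G (g x) (C1 h P (g x) θ θ' (α x ζ) (β x ζ)) := by
  rw [D.XB_eq hP hθ hx]
  funext t
  exact ((hP.crv1 (D.mg x hx) hθ _ _).hasDerivAt (D.mg x hx).1 t).deriv

theorem XP_eq (hP : KR.NegB h K P) {Th Th' : ℝ → ℝ → ℝ} {τ : ℝ} (hθ : Ang (Th τ) (Th' τ)) {x : E}
    (hx : x ∈ X) (ζ : V) :
    (fun t => XP h P Th Th' g α β (((x, τ), ζ), t)) =
      xi G (g x) (C1 h P (g x) (Th τ) (Th' τ) (α x ζ) (β x ζ)) := D.XB_eq hP hθ hx ζ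

theorem deriv_XP (hP : KR.NegB h K P) {Th Th' : ℝ → ℝ → ℝ} {τ : ℝ} (hθ : Ang (Th τ) (Th' τ)) {x : E}
    (hx : x ∈ X) (ζ : V) :
    (deriv fun t => XP h P Th Th' g α β (((x, τ), ζ), t)) =
      xi' G (g x) (C1 h P (g x) (Th τ) (Th' τ) (α x ζ) (β x ζ)) := D.deriv_XB hP hθ hx ζ

/-- **the path `ξ^{θ_τ}`** -/
theorem spath_X (hP : KR.NegB h K P) (hS : IsCompact (L.US G)) {Th Th' : ℝ → ℝ → ℝ}
    (hT : SAng Th Th' (Icc (0:ℝ) 1)) :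
    ∃ δ, 0 < δ ∧ AK.SPath G X P2 (2 * π) (-1) g (XP h P Th Th' g α β) δ := by
  obtain ⟨c1, hc1, h1⟩ := exists_neg hS hP isCompact_Icc hT
  obtain ⟨C, hC, h2⟩ := D.bd
  refine ⟨c1 * C, by positivity, ?_⟩
  refine ⟨fun x hx τ hτ ζ hζ t => ?_, fun x hx τ hτ ζ hζ s t => ?_, fun x hx τ hτ ζ hζ t => ?_,
    fun x hx τ hτ ζ hζ t => ?_, fun x hx τ hτ ζ hζ => ?_⟩
  · have h3 : ContDiffAt ℝ ∞ (fun p : ((E × ℝ) × V) × ℝ =>
        (g p.1.1.1, (α p.1.1.1 p.1.2, β p.1.1.1 p.1.2))) (((x, τ), ζ), t) :=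
      ContDiffAt.comp
        (g := fun p : (E × V) × ℝ => (g p.1.1, (α p.1.1 p.1.2, β p.1.1 p.1.2)))
        (f := fun p : ((E × ℝ) × V) × ℝ => ((p.1.1.1, p.1.2), p.2)) (((x, τ), ζ), t)
        (D.cab hx ζ t) (by fun_prop)
    have h4 : ContDiffAt ℝ ∞ (fun p : ((E × ℝ) × V) × ℝ => ((g p.1.1.1, p.1.1.2), p.2))
        (((x, τ), ζ), t) := (h3.fst.prodMk (by fun_prop)).prodMk (by fun_prop)
    have h5 := ContDiffAt.comp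
      (g := fun q : ((Euc N × Euc N) × ℝ) × ℝ => Xi h P (Th q.1.2) (Th' q.1.2) q.1.1 q.2)
      (f := fun p : ((E × ℝ) × V) × ℝ => ((g p.1.1.1, p.1.1.2), p.2)) (((x, τ), ζ), t)
      (hP.contDiffAt_Xi (D.mg x hx) (hT.sm τ hτ) (hT.sm' τ hτ) t) h4
    exact h5.clm_apply h3.snd
  · simp only [XP]
    have e : (α x (s • ζ), β x (s • ζ)) = s • (α x ζ, β x ζ) := by
      rw [map_smul, map_smul]; rfl
    rw [e, map_smul]
  · have h3 := D.XP_eq hP (hT.ang τ hτ) hx ζ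
    have h4 := (hP.crv1 (D.mg x hx) (hT.ang τ hτ) (α x ζ) (β x ζ)).mem h (D.mg x hx) t
    rw [← h3] at h4
    exact h4
  · have h3 := D.XP_eq hP (hT.ang τ hτ) hx ζ
    have h4 := ((hP.crv1 (D.mg x hx) (hT.ang τ hτ) (α x ζ) (β x ζ)).xi_per h (D.mg x hx)
      (hP.C1_per (D.mg x hx) (hT.ang τ hτ) (α x ζ) (β x ζ)) t).1
    rw [← h3] at h4
    exact h4
  · rw [D.deriv_XP hP (hT.ang τ hτ) hx ζ, D.XP_eq hP (hT.ang τ hτ) hx ζ]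
    refine (h1 (g x) (D.mg x hx) τ hτ _ _ (D.mα x hx ζ hζ) (D.mβ x hx ζ hζ)).trans ?_
    have h5 := h2 x hx ζ hζ
    have h6 : c1 * (C * ‖ζ‖ ^ 2) ≤ c1 * (‖α x ζ‖ ^ 2 + ‖β x ζ‖ ^ 2) := by gcongr
    linarith

end Dat

end Crest.Agent.R208.NW
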