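import Crest.Agent.R208.NW4

/-! Row 208, block NW (helper537), part NW5: **the antiperiodic path of helper952's junction**
(AK9), assembled. -/

set_option autoImplicit false
set_option linter.unusedSectionVars false
set_option linter.unusedVariables false

open MeasureTheory Set Filter Topology Module
open scoped ContDiff RealInnerProductSpace Real
open Crest.GeometryTopology.Submanifold
open Crest.Agent.R241.DDefs
open Crest.Agent.R241.D2
open Crest.Agent.R208.NN (Wt nuP V0 qf Rt)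
open Crest.Agent.R208.KG (idx gT OK Km)
open Crest.Agent.R208.KR (xi xi' C1 Xi Xi' Ang)
open Crest.Agent.R208.SV (ix ixd jf jf')

noncomputable section

namespace Crest.Agent.R208.NW

/-! ### the line of angles -/

/-- the line from `θ` to the identity -/
def Tl (θ : ℝ → ℝ) (τ r : ℝ) : ℝ := (1 - τ) * θ r + τ * r

def Tl' (θ : ℝ → ℝ) (τ r : ℝ) : ℝ := (1 - τ) * deriv θ r + τ

theorem Tl_zero (θ : ℝ → ℝ) : Tl θ 0 = θ := by funext r; simp [Tl]
theorem Tl'_zero (θ : ℝ → ℝ) : Tl' θ 0 = deriv θ := by funext r; simp [Tl']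
theorem Tl_one (θ : ℝ → ℝ) : Tl θ 1 = fun r => r := by funext r; simp [Tl]
theorem Tl'_one (θ : ℝ → ℝ) : Tl' θ 1 = fun _ => 1 := by funext r; simp [Tl']

theorem sang_Tl {θ : ℝ → ℝ} (hθ : ContDiff ℝ ∞ θ) (hA : Ang θ (deriv θ)) :
    SAng (Tl θ) (Tl' θ) (Icc (0:ℝ) 1) where
  ang τ hτ :=
    { der := fun r => by
        have h1 := ((hA.der r).const_mul (1 - τ)).add ((hasDerivAt_id r).const_mul τ)
        refine h1.congr_deriv ?_
        simp only [Tl', mul_one]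
      cont := by
        have := hA.cont
        unfold Tl'
        fun_prop
      pos := fun r => by
        have h1 := hA.pos r
        have h2 : 0 ≤ 1 - τ := by linarith [hτ.2]
        unfold Tl'
        rcases eq_or_lt_of_le hτ.1 with h3 | h3
        · rw [← h3]; simpa using h1
        · have := mul_nonneg h2 h1.le
          linarith
      per := fun r => by
        unfold Tl
        rw [hA.per]; ring }
  sm τ _ r := by
    have h1 : ContDiff ℝ ∞ fun p : ℝ × ℝ => θ p.2 := hθ.comp contDiff_snd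
    unfold Tl
    exact (((contDiff_const.sub contDiff_fst).mul h1).add
      (contDiff_fst.mul contDiff_snd)).contDiffAt
  sm' τ _ r := by
    have h0 : ContDiff ℝ ∞ (deriv θ) := by
      have h2 := (contDiff_succ_iff_deriv (n := ∞)).1 (by simpa using hθ)
      exact h2.2.2
    have h1 : ContDiff ℝ ∞ fun p : ℝ × ℝ => deriv θ p.2 := h0.comp contDiff_snd
    unfold Tl'
    exact (((contDiff_const.sub contDiff_fst).mul h1).add contDiff_fst).contDiffAt

variable {n N k K : ℕ} {κ : ℝ} {S : Set (Euc N)} {G : Geo n N κ S} {z : Euc N × Euc N}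
  {h : GT.Bla G k} {P : Euc N × Euc N → Wt N K →L[ℝ] Wt N K} {ε : ℝ}
  {E V : Type*} [NormedAddCommGroup E] [NormedSpace ℝ E] [NormedAddCommGroup V] [NormedSpace ℝ V]
  {X : Set E} {P2 : E → V →L[ℝ] V} {g : E → Euc N × Euc N} {α β : E → V →L[ℝ] Wt N K}

theorem lmap_of_spath {T σ δ : ℝ} {A : ((E × ℝ) × V) × ℝ → Euc N}
    (hA : AK.SPath G X P2 T σ g A δ) {τ : ℝ} (hτ : τ ∈ Icc (0:ℝ) 1) :
    AK.LMap G X P2 T σ g (fun p => A (((p.1.1, τ), p.1.2), p.2)) where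
  smooth x hx ζ hζ t := ContDiffAt.comp (g := A)
    (f := fun p : (E × V) × ℝ => (((p.1.1, τ), p.1.2), p.2)) ((x, ζ), t)
    (hA.smooth x hx τ hτ ζ hζ t) (by fun_prop)
  hom x hx ζ hζ s t := hA.hom x hx τ hτ ζ hζ s t
  tan x hx ζ hζ t := hA.tan x hx τ hτ ζ hζ t
  per x hx ζ hζ t := hA.per x hx τ hτ ζ hζ t

/-- **AK9: the antiperiodic path from the corner fields to the fields `ξ`** -/
theorem Dat.exists_SPath [FiniteDimensional ℝ V] (D : Dat G P X P2 g α β) (hO : OK G 4 ε)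
    (hP : KR.NegB h K P) (hS : IsCompact (L.US G)) {c : ℝ} (hc0 : 0 < c)
    (hc : ∀ κ' ∈ Km G 4, MS.En (KG.F G 4 ε κ' 0) ≤ ((4 : ℕ) : ℝ) ^ 2 * π / 4 - c * KG.jsq κ')
    (hX : IsCompact X) (hP2 : ContinuousOn P2 X) :
    ∃ (A : ((E × ℝ) × V) × ℝ → Euc N) (δ : ℝ), 0 < δ ∧ AK.SPath G X P2 (2 * π) (-1) g A δ ∧
      (∀ x ζ t, A (((x, 0), ζ), t) = QB h P ε g α β ((x, ζ), t)) ∧
      (∀ x ∈ X, ∀ ζ, P2 x ζ = ζ → ∀ t, A (((x, 1), ζ), t) =
        Xi h P (fun r => r) (fun _ => 1) (g x) t (α x ζ, β x ζ)) := by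
  obtain ⟨c1, hc1, hcc⟩ := D.corner_Q hO hP hS
  have hQ := D.lmap_Q hO hP
  obtain ⟨θ, hθ, hodd, hA, hix⟩ := hP.kf4 hX hP2
    (fun x hx => (D.sg x hx).continuousAt.continuousWithinAt) D.mg
    (fun x hx => (D.sα x hx).continuousAt.continuousWithinAt)
    (fun x hx => (D.sβ x hx).continuousAt.continuousWithinAt) hQ hc1 hcc
  have hT := sang_Tl hθ hA
  obtain ⟨δ1, hδ1, hp1⟩ := D.spath_X hP hS hT
  obtain ⟨δ2, hδ2, hq⟩ := D.neg_Q hO hP hS hc0 hc
  have h01 : (0:ℝ) ∈ Icc (0:ℝ) 1 := ⟨le_rfl, zero_le_one⟩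
  set δ := min δ1 δ2 with hδ
  have hδ0 : 0 < δ := lt_min hδ1 hδ2
  have hX0 := lmap_of_spath hp1 h01
  have hAng : Ang (Tl θ 0) (Tl' θ 0) := hT.ang 0 h01
  have hline : AK.SPath G X P2 (2 * π) (-1) g (AK.lin (QB h P ε g α β)
      (fun p => XP h P (Tl θ) (Tl' θ) g α β (((p.1.1, 0), p.1.2), p.2))) (δ / 2) := by
    refine AK.SPath.line (fun x hx => (D.mg x hx).1) (by positivity) hQ hX0 hδ0.le
      (fun x hx ζ hζ => ?_) (fun x hx ζ hζ => ?_) (fun x hx ζ hζ => ?_)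
    · refine (hq x hx ζ hζ).trans ?_
      have := min_le_right δ1 δ2
      nlinarith [sq_nonneg ‖ζ‖]
    · refine (hp1.neg x hx 0 h01 ζ hζ).trans ?_
      have := min_le_left δ1 δ2
      nlinarith [sq_nonneg ‖ζ‖]
    · have h1 := hix x hx ζ hζ
      have e1 := D.XP_eq hP (Th := Tl θ) (Th' := Tl' θ) (τ := 0) hAng hx ζ
      have e2 := D.deriv_XP hP (Th := Tl θ) (Th' := Tl' θ) (τ := 0) hAng hx ζ
      change ix G (g x) 0 (2 * π) (fun t => XP h P (Tl θ) (Tl' θ) g α β (((x, 0), ζ), t))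
        (deriv fun t => XP h P (Tl θ) (Tl' θ) g α β (((x, 0), ζ), t)) _ _ ≤ 0
      rw [e2, e1, Tl_zero, Tl'_zero]
      refine h1.trans ?_
      have : 0 ≤ 2 * c1 * ‖ζ‖ ^ 2 := by positivity
      linarith
  have hp1' : AK.SPath G X P2 (2 * π) (-1) g (XP h P (Tl θ) (Tl' θ) g α β) (δ / 2) :=
    hp1.mono (by have := min_le_left δ1 δ2; linarith)
  have hglue : ∀ x ∈ X, ∀ ζ : V, P2 x ζ = ζ → ∀ t, AK.lin (QB h P ε g α β)
      (fun p => XP h P (Tl θ) (Tl' θ) g α β (((p.1.1, 0), p.1.2), p.2)) (((x, 1), ζ), t) =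
      XP h P (Tl θ) (Tl' θ) g α β (((x, 0), ζ), t) := fun x hx ζ hζ t => AK.lin_one
  refine ⟨_, δ / 2, by positivity, hline.trans hp1' hglue, fun x ζ t => ?_,
    fun x hx ζ hζ t => ?_⟩
  · rw [AK.cat_zero, AK.lin_zero]
  · rw [AK.cat_one (hglue x hx ζ hζ t)]
    unfold XP
    simp only [Tl_one, Tl'_one]

end Crest.Agent.R208.NW
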