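import Crest.Agent.R208.NW5
import Crest.Agent.R208.AK11

/-! Row 208, block NW (helper537), part NW6: **AK12 of helper952**: the path of antiperiodic
fields from `ξ^{id}` to `ξ^{θ₁}` with the cross condition. -/

set_option autoImplicit false
set_option linter.unusedSectionVars false
set_option linter.unusedVariables false

open MeasureTheory Set Filter Topology Module
open scoped ContDiff RealInnerProductSpace Real
open Crest.GeometryTopology.Submanifold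
open Crest.Agent.R241.DDefs
open Crest.Agent.R241.D2
open Crest.Agent.R208.NN (Wt nuP V0 qf Rt)
open Crest.Agent.R208.KG (idx gT OK Km)
open Crest.Agent.R208.KR (xi xi' C1 Xi Xi' Ang)
open Crest.Agent.R208.SV (ix ixd jf jf')

noncomputable section

namespace Crest.Agent.R208.NW

variable {n N k Kn : ℕ} {κ : ℝ} {S : Set (Euc N)} {G : Geo n N κ S} {z : Euc N × Euc N}
  {ε δ : ℝ}

theorem sang_rev {θ : ℝ → ℝ} (hθ : ContDiff ℝ ∞ θ) (hA : Ang θ (deriv θ)) :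
    SAng (fun s => Tl θ (1 - s)) (fun s => Tl' θ (1 - s)) (Icc (0:ℝ) 1) where
  ang s hs := (sang_Tl hθ hA).ang (1 - s) ⟨by linarith [hs.2], by linarith [hs.1]⟩
  sm s hs r := ContDiffAt.comp (g := fun p : ℝ × ℝ => Tl θ p.1 p.2)
    (f := fun p : ℝ × ℝ => (1 - p.1, p.2)) (s, r)
    ((sang_Tl hθ hA).sm (1 - s) ⟨by linarith [hs.2], by linarith [hs.1]⟩ r) (by fun_prop)
  sm' s hs r := ContDiffAt.comp (g := fun p : ℝ × ℝ => Tl' θ p.1 p.2)
    (f := fun p : ℝ × ℝ => (1 - p.1, p.2)) (s, r)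
    ((sang_Tl hθ hA).sm' (1 - s) ⟨by linarith [hs.2], by linarith [hs.1]⟩ r) (by fun_prop)

/-- the tautological family of pairs -/
theorem dat_id (P : Euc N × Euc N → Wt N Kn →L[ℝ] Wt N Kn) :
    Dat G P (L.US G) (AK.PP P P) (fun z => z)
      (fun _ => ContinuousLinearMap.fst ℝ (Wt N Kn) (Wt N Kn))
      (fun _ => ContinuousLinearMap.snd ℝ (Wt N Kn) (Wt N Kn)) where
  sg _ _ := contDiffAt_id
  mg _ hx := hx
  sα _ _ := contDiffAt_const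
  sβ _ _ := contDiffAt_const
  mα _ _ ζ hζ := (AK.PP_eq.1 hζ).1
  mβ _ _ ζ hζ := (AK.PP_eq.1 hζ).2
  bd := ⟨1, one_pos, fun _ _ ζ _ => by
    have h1 : 0 ≤ ‖ζ.1‖ ^ 2 := by positivity
    have h2 : 0 ≤ ‖ζ.2‖ ^ 2 := by positivity
    rw [one_mul]
    change ‖ζ‖ ^ 2 ≤ ‖ζ.1‖ ^ 2 + ‖ζ.2‖ ^ 2
    rw [Prod.norm_def]
    rcases le_total ‖ζ.1‖ ‖ζ.2‖ with h | h
    · rw [max_eq_right h]; linarith
    · rw [max_eq_left h]; linarith⟩

theorem QA_eq (h : GT.Bla G k) (ε : ℝ) (PN : Euc N × Euc N → Wt N Kn →L[ℝ] Wt N Kn) :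
    AK.QA h ε PN = QB h PN ε (fun z => z)
      (fun _ => ContinuousLinearMap.fst ℝ (Wt N Kn) (Wt N Kn))
      (fun _ => ContinuousLinearMap.snd ℝ (Wt N Kn) (Wt N Kn)) := by
  funext p
  change AK.AZ G ε p.1.1 (AK.zan (KR.uu h PN p.1.1 p.1.2.1) (KR.uu h PN p.1.1 p.1.2.2)) p.2 = _
  rw [AK.zan_eq]
  rfl

/-- **AK12** -/
theorem exists_XI {PN : Euc N × Euc N → Wt N Kn →L[ℝ] Wt N Kn} (hS : IsCompact S)
    (h : GT.Bla G k) (hk : 1 ≤ k) (H : NB.NegB G (k - 1) (nuP Kn) δ PN) (hO : OK G 4 ε) {c : ℝ}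
    (hc0 : 0 < c) (hc : AK.HC G ε c) :
    ∃ (XI : (((Euc N × Euc N) × ℝ) × (Wt N Kn × Wt N Kn)) × ℝ → Euc N) (δ₂ : ℝ), 0 < δ₂ ∧
      AK.SPath G (L.US G) (AK.PP PN PN) (2 * Real.pi) (-1) (fun z => z) XI δ₂ ∧
      AK.Cross h ε PN XI ∧
      ∀ z ∈ L.US G, ∀ ζ, AK.PP PN PN z ζ = ζ → ∀ t,
        XI (((z, 0), ζ), t) = KR.Xi h PN (fun r => r) (fun _ => 1) z t ζ := by
  have hP := AK.kr_of_nb h hk H
  have hUS : IsCompact (L.US G) := LB.isCompact_US hS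
  have D := dat_id (G := G) PN
  obtain ⟨c1, hc1, hcc⟩ := D.corner_Q hO hP hUS
  have hQ := D.lmap_Q hO hP
  have hPc : ContinuousOn (AK.PP PN PN) (L.US G) := continuousOn_PP hP
  obtain ⟨θ, hθ, hodd, hA, hix⟩ := hP.kf4 hUS hPc continuousOn_id D.mg
    continuousOn_const continuousOn_const hQ hc1 hcc
  have hT := sang_rev hθ hA
  obtain ⟨δ1, hδ1, hp1⟩ := D.spath_X hP hUS hT
  have h1 : (1:ℝ) ∈ Icc (0:ℝ) 1 := ⟨zero_le_one, le_rfl⟩
  refine ⟨_, δ1, hδ1, hp1, fun z hz ζ hζ => ?_, fun z hz ζ hζ t => ?_⟩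
  · have h2 := hix z hz ζ hζ
    have e1 := D.XP_eq hP (Th := fun s => Tl θ (1 - s)) (Th' := fun s => Tl' θ (1 - s)) (τ := 1)
      (hT.ang 1 h1) hz ζ
    have e2 := D.deriv_XP hP (Th := fun s => Tl θ (1 - s)) (Th' := fun s => Tl' θ (1 - s)) (τ := 1)
      (hT.ang 1 h1) hz ζ
    rw [QA_eq, e2, e1]
    simp only [sub_self, Tl_zero, Tl'_zero]
    refine h2.trans ?_
    have : 0 ≤ 2 * c1 * ‖ζ‖ ^ 2 := by positivity
    linarith
  · simp only [XP, sub_zero, Tl_one, Tl'_one]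
    rfl

end Crest.Agent.R208.NW
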