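import Crest.Agent.R208.THA
import Crest.Agent.R208.CW8b

/-! Row 208, block OC (helper566).  OC1: the orthogonal complement of an oriented projection field
and of an orthonormal family of vector fields is oriented (with an explicit tensor); comparison of
orientation tensors. -/

set_option autoImplicit false
set_option linter.unusedSectionVars false

open Module Set Matrix
open scoped ContDiff RealInnerProductSpace
open Crest.Agent.R208.F Crest.Agent.R208.FI Crest.Agent.R208.CW Crest.Agent.R208.T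

noncomputable section

namespace Crest.Agent.R208.OC

section alg
variable {κ κ' n : Type*} [Fintype κ] [DecidableEq κ] [Fintype κ'] [DecidableEq κ']
  [Fintype n] [DecidableEq n] {α : Type*} [Fintype α] [DecidableEq α]

/-- the matrix with the columns `v p` -/
def vm (v : α → EuclideanSpace ℝ n) : Matrix n α ℝ := Matrix.of fun a p => v p a

@[simp] theorem vm_apply (v : α → EuclideanSpace ℝ n) (a : n) (p : α) : vm v a p = v p a := rfl

theorem vm_orth {v : α → EuclideanSpace ℝ n} (hv : Orthonormal ℝ v) : (vm v)ᵀ * vm v = 1 := by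
  ext p q
  have h := (orthonormal_iff_ite.1 hv) p q
  rw [PiLp.inner_apply] at h
  rw [Matrix.mul_apply, Matrix.one_apply, ← h]
  refine Finset.sum_congr rfl fun a _ => ?_
  rw [RCLike.inner_apply, conj_trivial, transpose_apply, vm_apply, vm_apply, mul_comm]

/-- the operator `∑ v vᵀ` -/
def vv (v : α → EuclideanSpace ℝ n) : EuclideanSpace ℝ n →L[ℝ] EuclideanSpace ℝ n :=
  ∑ p, (innerSL ℝ (v p)).smulRight (v p)

theorem vv_apply (v : α → EuclideanSpace ℝ n) (y : EuclideanSpace ℝ n) :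
    vv v y = ∑ p, ⟪v p, y⟫ • v p := by
  simp [vv]

theorem vv_apply' (v : α → EuclideanSpace ℝ n) (y : EuclideanSpace ℝ n) (i : n) :
    vv v y i = ∑ j, (vm v * (vm v)ᵀ) i j * y j := by
  rw [vv_apply]
  have h1 : (∑ p, ⟪v p, y⟫ • v p) i = ∑ p, ⟪v p, y⟫ * v p i := by
    rw [WithLp.ofLp_sum, Finset.sum_apply]
    rfl
  rw [h1]
  simp only [Matrix.mul_apply, Finset.sum_mul]
  rw [Finset.sum_comm]
  refine Finset.sum_congr rfl fun p _ => ?_
  rw [PiLp.inner_apply, Finset.sum_mul]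
  refine Finset.sum_congr rfl fun j _ => ?_
  rw [RCLike.inner_apply, conj_trivial, transpose_apply, vm_apply, vm_apply]
  ring

/-- the family `v` does not meet the range of `f fᵀ` -/
theorem tr_mul_vm {f : Matrix n κ ℝ} (h1 : fᵀ * f = 1) {v : α → EuclideanSpace ℝ n}
    (h : ∀ p i, ∑ j, (f * fᵀ) i j * v p j = 0) : fᵀ * vm v = 0 := by
  have h2 : f * fᵀ * vm v = 0 := by
    ext i p
    rw [Matrix.mul_apply, Matrix.zero_apply, ← h p i]
    rfl
  calc fᵀ * vm v = (fᵀ * f) * fᵀ * vm v := by rw [h1, Matrix.one_mul]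
    _ = fᵀ * (f * fᵀ * vm v) := by simp only [Matrix.mul_assoc]
    _ = 0 := by rw [h2, Matrix.mul_zero]

theorem cols_orth {f : Matrix n κ ℝ} {g : Matrix n α ℝ} (h1 : fᵀ * f = 1) (h2 : gᵀ * g = 1)
    (h3 : fᵀ * g = 0) : (fromCols f g)ᵀ * fromCols f g = 1 := by
  have h4 : gᵀ * f = 0 := by
    have := congrArg Matrix.transpose h3
    simpa [transpose_mul] using this
  rw [transpose_fromCols, fromRows_mul_fromCols, h1, h2, h3, h4, fromBlocks_one]

theorem glue_assoc (eq : κ ⊕ (α ⊕ κ') ≃ n) (f : Matrix n κ ℝ) (u : Matrix n α ℝ)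
    (g : Matrix n κ' ℝ) : glue ((Equiv.sumAssoc κ α κ').trans eq) (fromCols f u) g =
      glue eq f (fromCols u g) := by
  ext a b
  obtain ⟨s, rfl⟩ := eq.surjective b
  simp only [glue, Matrix.submatrix_apply, id, Equiv.symm_trans_apply, Equiv.symm_apply_apply]
  rcases s with p | q | r <;> rfl

end alg

section ten
variable {n : Type*} [Fintype n] [DecidableEq n] {E : Type*} [NormedAddCommGroup E]
  [NormedSpace ℝ E] [FiniteDimensional ℝ E] {ι ι' : Type*} [Fintype ι] [DecidableEq ι]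
  [Fintype ι'] [DecidableEq ι'] {α : Type*} [Fintype α] [DecidableEq α]

/-- the orientation tensor of the complement of `P` (tensor `W`) and of the family `v` -/
def cT (eq : (ι × Fin 2) ⊕ (α ⊕ (ι' × Fin 2)) ≃ n) (v : α → EuclideanSpace ℝ n)
    (W : (ι × Fin 2 → n) → ℝ) (I : ι' × Fin 2 → n) : ℝ :=
  ((Fintype.card (ι × Fin 2)).factorial : ℝ)⁻¹ *
    ∑ J, W J * (glue eq (stdc J) (fromCols (vm v) (stdc I))).det

theorem cT_frame (eq : (ι × Fin 2) ⊕ (α ⊕ (ι' × Fin 2)) ≃ n) (v : α → EuclideanSpace ℝ n)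
    {W : (ι × Fin 2 → n) → ℝ} {f : Matrix n (ι × Fin 2) ℝ}
    (hW : ∀ I, W I = (f.submatrix I id).det) (I : ι' × Fin 2 → n) :
    cT eq v W I = (glue eq f (fromCols (vm v) (stdc I))).det := by
  rw [cT]
  simp only [hW]
  rw [← det_glue_sub, inv_mul_cancel_left₀]
  exact_mod_cast (Nat.factorial_pos _).ne'

/-- an oriented frame of the complement -/
theorem exists_frame (eq : (ι × Fin 2) ⊕ (α ⊕ (ι' × Fin 2)) ≃ n) [Nonempty ι']
    {v : α → EuclideanSpace ℝ n} (hv : Orthonormal ℝ v) {W : (ι × Fin 2 → n) → ℝ}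
    {f : Matrix n (ι × Fin 2) ℝ} (h1 : fᵀ * f = 1) (h2 : fᵀ * vm v = 0)
    (hW : ∀ I, W I = (f.submatrix I id).det) :
    ∃ g : Matrix n (ι' × Fin 2) ℝ, gᵀ * g = 1 ∧ gᵀ * f = 0 ∧ gᵀ * vm v = 0 ∧
      f * fᵀ + vm v * (vm v)ᵀ + g * gᵀ = 1 ∧ (glue eq f (fromCols (vm v) g)).det = 1 ∧
      ∀ I, cT eq v W I = (g.submatrix I id).det := by
  set F := fromCols f (vm v) with hF
  have hFF : Fᵀ * F = 1 := cols_orth h1 (vm_orth hv) h2
  obtain ⟨g, g1, g2, g3, g4⟩ := exists_compl ((Equiv.sumAssoc _ _ _).trans eq) hFF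
  have e2 : gᵀ * f = 0 ∧ gᵀ * vm v = 0 := by
    rw [hF, mul_fromCols] at g2
    constructor
    · ext i j
      exact congrFun (congrFun g2 i) (Sum.inl j)
    · ext i j
      exact congrFun (congrFun g2 i) (Sum.inr j)
  refine ⟨g, g1, e2.1, e2.2, ?_, ?_, fun I => ?_⟩
  · rw [← g3, hF, transpose_fromCols, fromCols_mul_fromRows]
  · rw [← glue_assoc]; exact g4
  · rw [cT_frame eq v hW, ← glue_assoc]
    exact det_glue_frame _ hFF g2 g4 I

/-- the field `1 - P - ∑ v vᵀ` -/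
def cP (P : E → EuclideanSpace ℝ n →L[ℝ] EuclideanSpace ℝ n) (v : α → E → EuclideanSpace ℝ n)
    (x : E) : EuclideanSpace ℝ n →L[ℝ] EuclideanSpace ℝ n := 1 - P x - vv fun p => v p x

theorem cP_apply (P : E → EuclideanSpace ℝ n →L[ℝ] EuclideanSpace ℝ n)
    (v : α → E → EuclideanSpace ℝ n) (x : E) (y : EuclideanSpace ℝ n) :
    cP P v x y = y - P x y - ∑ p, ⟪v p x, y⟫ • v p x := by
  rw [← vv_apply]; rfl

theorem contDiffAt_coord {v : E → EuclideanSpace ℝ n} {x : E} (hv : ContDiffAt ℝ ∞ v x) (a : n) :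
    ContDiffAt ℝ ∞ (fun y => v y a) x :=
  (EuclideanSpace.proj a : EuclideanSpace ℝ n →L[ℝ] ℝ).contDiff.contDiffAt.comp x hv

theorem contDiffAt_vv {v : α → E → EuclideanSpace ℝ n} {x : E}
    (hv : ∀ p, ContDiffAt ℝ ∞ (v p) x) : ContDiffAt ℝ ∞ (fun y => vv fun p => v p y) x := by
  have h1 : (fun y => vv fun p => v p y) =
      fun y => ∑ p, (innerSL ℝ (v p y)).smulRight (v p y) := rfl
  rw [h1]
  refine ContDiffAt.sum fun p _ => ?_
  exact ((innerSL ℝ (E := EuclideanSpace ℝ n)).contDiff.contDiffAt.comp x (hv p)).smulRight (hv p)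

theorem contDiffAt_det {κ : Type*} [Fintype κ] [DecidableEq κ] {M : E → Matrix κ κ ℝ} {x : E}
    (hM : ∀ i j, ContDiffAt ℝ ∞ (fun y => M y i j) x) : ContDiffAt ℝ ∞ (fun y => (M y).det) x := by
  simp only [det_apply']
  refine ContDiffAt.sum fun σ _ => contDiffAt_const.mul ?_
  exact contDiffAt_prod fun i _ => hM _ _

theorem contDiffAt_glue {κ κ' : Type*} [Fintype κ] [DecidableEq κ] [Fintype κ'] [DecidableEq κ']
    (eq : κ ⊕ κ' ≃ n) {f : E → Matrix n κ ℝ} {g : E → Matrix n κ' ℝ} {x : E}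
    (hf : ∀ i j, ContDiffAt ℝ ∞ (fun y => f y i j) x)
    (hg : ∀ i j, ContDiffAt ℝ ∞ (fun y => g y i j) x) (i j : n) :
    ContDiffAt ℝ ∞ (fun y => glue eq (f y) (g y) i j) x := by
  obtain ⟨s, rfl⟩ := eq.surjective j
  simp only [glue, Matrix.submatrix_apply, id, Equiv.symm_apply_apply]
  rcases s with p | q
  · exact hf i p
  · exact hg i q

theorem contDiffAt_cT (eq : (ι × Fin 2) ⊕ (α ⊕ (ι' × Fin 2)) ≃ n)
    {v : α → E → EuclideanSpace ℝ n} {W : E → (ι × Fin 2 → n) → ℝ} {x : E}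
    (hv : ∀ p, ContDiffAt ℝ ∞ (v p) x) (hW : ∀ I, ContDiffAt ℝ ∞ (fun y => W y I) x)
    (I : ι' × Fin 2 → n) : ContDiffAt ℝ ∞ (fun y => cT eq (fun p => v p y) (W y) I) x := by
  refine contDiffAt_const.mul (ContDiffAt.sum fun J _ => (hW J).mul ?_)
  refine contDiffAt_det (contDiffAt_glue eq (fun i j => contDiffAt_const) fun i j => ?_)
  rcases j with p | q
  · exact contDiffAt_coord (hv p) i
  · exact contDiffAt_const

variable {X : Set E} {P : E → EuclideanSpace ℝ n →L[ℝ] EuclideanSpace ℝ n}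
  {W : E → (ι × Fin 2 → n) → ℝ} {v : α → E → EuclideanSpace ℝ n}

/-- from `P v = 0` to the frame -/
theorem tr_mul_vm_of {x : E} {f : Matrix n (ι × Fin 2) ℝ} (h1 : fᵀ * f = 1)
    (h2 : ∀ w i, P x w i = ∑ j, (f * fᵀ) i j * w j) (h0 : ∀ p, P x (v p x) = 0) :
    fᵀ * vm (fun p => v p x) = 0 :=
  tr_mul_vm h1 fun p i => by rw [← h2, h0 p]; rfl

/-- **the complement of `P` and of an orthonormal family of vector fields is oriented** -/
theorem OR.compl_v (eq : (ι × Fin 2) ⊕ (α ⊕ (ι' × Fin 2)) ≃ n) [Nonempty ι'] (h : OR X P W)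
    (hv : ∀ x ∈ X, ∀ p, ContDiffAt ℝ ∞ (v p) x) (ho : ∀ x ∈ X, Orthonormal ℝ fun p => v p x)
    (h0 : ∀ x ∈ X, ∀ p, P x (v p x) = 0) :
    OR X (cP P v) (fun x => cT eq (fun p => v p x) (W x)) := by
  refine ⟨fun x hx => (contDiffAt_const.sub (h.sP x hx)).sub (contDiffAt_vv (hv x hx)),
    fun x hx I => contDiffAt_cT eq (hv x hx) (h.sW x hx) I, fun x hx => ?_⟩
  obtain ⟨f, h1, h2, h3⟩ := h.fr x hx
  obtain ⟨g, g1, g2, g3, g4, g5, g6⟩ := exists_frame eq (ho x hx) h1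
    (tr_mul_vm_of h1 h2 (h0 x hx)) h3
  refine ⟨g, g1, fun w i => ?_, g6⟩
  change w i - P x w i - vv (fun p => v p x) w i = _
  have e1 : w i = ∑ j, (f * fᵀ + vm (fun p => v p x) * (vm fun p => v p x)ᵀ + g * gᵀ) i j * w j := by
    rw [g4]; simp [Matrix.one_apply]
  rw [h2, vv_apply', e1, ← Finset.sum_sub_distrib, ← Finset.sum_sub_distrib]
  refine Finset.sum_congr rfl fun j _ => ?_
  rw [Matrix.add_apply, Matrix.add_apply]; ring

/-- the orientation tensor of the complement of the family `v` -/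
def vT (eq : α ⊕ (ι' × Fin 2) ≃ n) (v : α → EuclideanSpace ℝ n) (I : ι' × Fin 2 → n) : ℝ :=
  (glue eq (vm v) (stdc I)).det

theorem contDiffAt_vT (eq : α ⊕ (ι' × Fin 2) ≃ n) {v : α → E → EuclideanSpace ℝ n} {x : E}
    (hv : ∀ p, ContDiffAt ℝ ∞ (v p) x) (I : ι' × Fin 2 → n) :
    ContDiffAt ℝ ∞ (fun y => vT eq (fun p => v p y) I) x :=
  contDiffAt_det (contDiffAt_glue eq (fun i p => contDiffAt_coord (hv p) i)
    fun _ _ => contDiffAt_const)

/-- **the complement of an orthonormal family of vector fields is oriented** (tangent bundle of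
the unit sphere for `α = Unit`, `v = id`) -/
theorem or_vT (eq : α ⊕ (ι' × Fin 2) ≃ n) [Nonempty ι']
    (hv : ∀ x ∈ X, ∀ p, ContDiffAt ℝ ∞ (v p) x) (ho : ∀ x ∈ X, Orthonormal ℝ fun p => v p x) :
    OR X (fun x => 1 - vv fun p => v p x) (fun x => vT eq fun p => v p x) := by
  refine ⟨fun x hx => contDiffAt_const.sub (contDiffAt_vv (hv x hx)),
    fun x hx I => contDiffAt_vT eq (hv x hx) I, fun x hx => ?_⟩
  have h1 := vm_orth (ho x hx)
  obtain ⟨g, g1, g2, g3, g4⟩ := exists_compl eq h1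
  refine ⟨g, g1, fun w i => ?_, fun I => det_glue_frame eq h1 g2 g4 I⟩
  change w i - vv (fun p => v p x) w i = _
  have e1 : w i = ∑ j, (vm (fun p => v p x) * (vm fun p => v p x)ᵀ + g * gᵀ) i j * w j := by
    rw [g3]; simp [Matrix.one_apply]
  rw [vv_apply', e1, ← Finset.sum_sub_distrib]
  refine Finset.sum_congr rfl fun j _ => ?_
  rw [Matrix.add_apply]; ring

/-- the labelling for the sum -/
def eqs (eq : (ι × Fin 2) ⊕ (α ⊕ (ι' × Fin 2)) ≃ n) : α ⊕ ((ι ⊕ ι') × Fin 2) ≃ n :=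
  ((Equiv.sumCongr (Equiv.refl α) (Equiv.sumProdDistrib ι ι' (Fin 2))).trans
    ((Equiv.sumAssoc α (ι × Fin 2) (ι' × Fin 2)).symm.trans
      ((Equiv.sumCongr (Equiv.sumComm α (ι × Fin 2)) (Equiv.refl _)).trans
        (Equiv.sumAssoc (ι × Fin 2) α (ι' × Fin 2))))).trans eq

theorem glue_eqs (eq : (ι × Fin 2) ⊕ (α ⊕ (ι' × Fin 2)) ≃ n) (f : Matrix n (ι × Fin 2) ℝ)
    (u : Matrix n α ℝ) (g : Matrix n (ι' × Fin 2) ℝ) :
    glue (eqs eq) u (sumF f g) = glue eq f (fromCols u g) := by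
  ext a b
  obtain ⟨s, rfl⟩ := (eqs eq).surjective b
  have e : ∀ s, eq.symm (eqs eq s) = (Equiv.sumAssoc (ι × Fin 2) α (ι' × Fin 2))
    ((Equiv.sumCongr (Equiv.sumComm α (ι × Fin 2)) (Equiv.refl _))
      ((Equiv.sumAssoc α (ι × Fin 2) (ι' × Fin 2)).symm
        ((Equiv.sumCongr (Equiv.refl α) (Equiv.sumProdDistrib ι ι' (Fin 2))) s))) := fun s => by
    simp [eqs]
  simp only [glue, Matrix.submatrix_apply, id, Equiv.symm_apply_apply, e]
  rcases s with p | ⟨p | p, c⟩ <;> rfl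

/-- **the orientation tensor of `P ⊕ (1 - P - ∑ v vᵀ)` is the one of `1 - ∑ v vᵀ`** -/
theorem sumT_cT (eq : (ι × Fin 2) ⊕ (α ⊕ (ι' × Fin 2)) ≃ n) [Nonempty ι'] (h : OR X P W)
    (ho : ∀ x ∈ X, Orthonormal ℝ fun p => v p x) (h0 : ∀ x ∈ X, ∀ p, P x (v p x) = 0) {x : E}
    (hx : x ∈ X) : sumT (W x) (cT eq (fun p => v p x) (W x)) = vT (eqs eq) fun p => v p x := by
  obtain ⟨f, h1, h2, h3⟩ := h.fr x hx
  have h4 := tr_mul_vm_of (v := v) h1 h2 (h0 x hx)
  obtain ⟨g, g1, g2, g3, g4, g5, g6⟩ := exists_frame eq (ho x hx) h1 h4 h3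
  funext I
  rw [sumT_frame h3 g6, vT]
  have h5 : (vm fun p => v p x)ᵀ * f = 0 := by
    have := congrArg Matrix.transpose h4
    simpa [transpose_mul] using this
  have e1 : (sumF f g)ᵀ * vm (fun p => v p x) = 0 := by
    ext i j
    rw [Matrix.zero_apply, Matrix.mul_apply]
    obtain ⟨s | s, c⟩ := i
    · have := congrFun (congrFun h4 (s, c)) j
      rw [Matrix.mul_apply, Matrix.zero_apply] at this
      rw [← this]; rfl
    · have := congrFun (congrFun g3 (s, c)) j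
      rw [Matrix.mul_apply, Matrix.zero_apply] at this
      rw [← this]; rfl
  exact (det_glue_frame (eqs eq) (vm_orth (ho x hx)) e1 (by rw [glue_eqs]; exact g5) I).symm

/-- **Euler classes: `e(1 - ∑ v vᵀ) ~ choose • e(P) e(1 - P - ∑ v vᵀ)`** -/
theorem coh_compl (eq : (ι × Fin 2) ⊕ (α ⊕ (ι' × Fin 2)) ≃ n) [Nonempty ι'] (h : OR X P W)
    (hv : ∀ x ∈ X, ∀ p, ContDiffAt ℝ ∞ (v p) x) (ho : ∀ x ∈ X, Orthonormal ℝ fun p => v p x)
    (h0 : ∀ x ∈ X, ∀ p, P x (v p x) = 0) :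
    Coh X (eR (fun x => P x + cP P v x) (fun x => sumT (W x) (cT eq (fun p => v p x) (W x))))
      (((Fintype.card ι + Fintype.card ι').choose (Fintype.card ι) : ℝ) •
        (eR P W * eR (cP P v) (fun x => cT eq (fun p => v p x) (W x)))) := by
  refine T.OR.coh_add h (OR.compl_v eq h hv ho h0) fun x hx y => ?_
  rw [cP_apply]
  simp only [map_sub, map_sum, map_smul, h0 x hx, smul_zero, Finset.sum_const_zero, sub_zero]
  rw [h.pfield.idem x hx, sub_self]

theorem add_cP (P : E → EuclideanSpace ℝ n →L[ℝ] EuclideanSpace ℝ n)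
    (v : α → E → EuclideanSpace ℝ n) (x : E) : P x + cP P v x = 1 - vv fun p => v p x := by
  rw [cP]; abel

end ten

end Crest.Agent.R208.OC
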