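import Mathlib

/-! R208 block OD (helper378): the hairy ball theorem (C^1 version, Milnor's analytic proof). -/

open MeasureTheory Set Filter Topology Polynomial
open scoped RealInnerProductSpace ENNReal NNReal Pointwise

namespace Crest.Agent.R208.OD

set_option linter.unusedSectionVars false
set_option linter.style.haveILetI false

variable {E : Type*} [NormedAddCommGroup E] [InnerProductSpace ℝ E] [FiniteDimensional ℝ E]

/-- `det (1 + t A)` is a polynomial in `t` of degree at most the dimension. -/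
theorem exists_poly_det (A : E →L[ℝ] E) : ∃ p : ℝ[X], p.natDegree ≤ Module.finrank ℝ E ∧
    ∀ t : ℝ, (1 + t • A : E →L[ℝ] E).det = p.eval t := by
  classical
  let b := Module.finBasis ℝ E
  let M := LinearMap.toMatrix b b (A : E →ₗ[ℝ] E)
  refine ⟨((Polynomial.X : ℝ[X]) • M.map C + (1 : Matrix _ _ ℝ).map C).det, ?_, fun t => ?_⟩
  · simpa using natDegree_det_X_add_C_le M 1
  · rw [← Polynomial.coe_evalRingHom, RingHom.map_det]
    have h1 : (1 + t • A : E →L[ℝ] E).det = (1 + t • M).det := by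
      rw [ContinuousLinearMap.det, ← LinearMap.det_toMatrix b]
      congr 1
      simp [M, LinearMap.toMatrix_one]
    rw [h1]
    congr 1
    ext i j
    by_cases hij : i = j
    · subst hij; simp [Matrix.add_apply]; ring
    · simp [Matrix.add_apply, hij]; ring

/-- Interpolation: the determinant is a fixed combination of its values at `0, 1, ..., d`. -/
theorem det_interp (A : E →L[ℝ] E) (t : ℝ) :
    (1 + t • A : E →L[ℝ] E).det = ∑ i ∈ Finset.range (Module.finrank ℝ E + 1),
      (1 + (i : ℝ) • A : E →L[ℝ] E).det *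
        (Lagrange.basis (Finset.range (Module.finrank ℝ E + 1)) (fun i : ℕ => (i : ℝ)) i).eval t := by
  obtain ⟨p, hp, hpe⟩ := exists_poly_det A
  have hinj : Set.InjOn (fun i : ℕ => (i : ℝ)) (Finset.range (Module.finrank ℝ E + 1)) :=
    fun a _ b _ h => Nat.cast_injective (R := ℝ) h
  have hdeg : p.degree < (Finset.range (Module.finrank ℝ E + 1)).card := by
    rw [Finset.card_range]
    refine lt_of_le_of_lt Polynomial.degree_le_natDegree ?_
    exact_mod_cast Nat.lt_succ_of_le hp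
  have h := Lagrange.eq_interpolate hinj hdeg
  rw [hpe t]
  conv_lhs => rw [h]
  rw [Lagrange.interpolate_apply, Polynomial.eval_finsetSum]
  refine Finset.sum_congr rfl fun i _ => ?_
  rw [Polynomial.eval_mul, Polynomial.eval_C, hpe]

/-- for small `t` the determinant of `1 + t A` is positive -/
theorem det_pos {A : E →L[ℝ] E} {t : ℝ} (ht : |t| * ‖A‖ < 1) : 0 < (1 + t • A : E →L[ℝ] E).det := by
  obtain ⟨p, _, hp⟩ := exists_poly_det A
  have hne : ∀ s ∈ Set.uIcc 0 t, p.eval s ≠ 0 := by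
    intro s hs h0
    have hs' : |s| ≤ |t| := by
      rcases Set.mem_uIcc.1 hs with h | h
      · rw [abs_of_nonneg h.1]; exact h.2.trans (le_abs_self t)
      · rw [abs_of_nonpos h.2]; exact (neg_le_neg h.1).trans (neg_le_abs t)
    rw [← hp s] at h0
    have hinj : Function.Injective (1 + s • A : E →L[ℝ] E) := by
      rw [injective_iff_map_eq_zero]
      intro x hx
      by_contra hx0
      have h1 : x = -(s • A x) := by
        have : x + s • A x = 0 := by simpa using hx
        exact eq_neg_of_add_eq_zero_left this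
      have h2 : ‖x‖ ≤ |t| * ‖A‖ * ‖x‖ := by
        calc ‖x‖ = ‖-(s • A x)‖ := congrArg norm h1
          _ = ‖s • A x‖ := norm_neg _
          _ = |s| * ‖A x‖ := by rw [norm_smul, Real.norm_eq_abs]
          _ ≤ |t| * (‖A‖ * ‖x‖) := by gcongr; exact A.le_opNorm x
          _ = _ := by ring
      have h3 : 0 < ‖x‖ := norm_pos_iff.2 hx0
      nlinarith
    have hdet : LinearMap.det ((1 + s • A : E →L[ℝ] E) : E →ₗ[ℝ] E) ≠ 0 := by
      have hk : LinearMap.ker ((1 + s • A : E →L[ℝ] E) : E →ₗ[ℝ] E) = ⊥ := LinearMap.ker_eq_bot.2 hinj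
      have hu : IsUnit ((1 + s • A : E →L[ℝ] E) : E →ₗ[ℝ] E) := by
        rw [LinearMap.isUnit_iff_ker_eq_bot]; exact hk
      exact (LinearMap.isUnit_det _ hu).ne_zero
    exact hdet h0
  have h0 : p.eval 0 = 1 := by rw [← hp 0]; simp [ContinuousLinearMap.det]
  rw [hp t]
  by_contra hneg
  have hneg := not_lt.1 hneg
  have hc : ContinuousOn (fun s => p.eval s) (Set.uIcc 0 t) := p.continuous.continuousOn
  have hmem : (0 : ℝ) ∈ Set.uIcc (p.eval 0) (p.eval t) := by
    rw [Set.mem_uIcc]; right; rw [h0]; exact ⟨hneg, zero_le_one⟩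
  obtain ⟨s, hs, hs0⟩ := intermediate_value_uIcc hc hmem
  exact hne s hs hs0


/-- **the polynomial cannot be `(1+t^2)^{d/2}` for odd `d`** -/
theorem no_poly {P : ℝ[X]} {c : ℝ} (hc : c ≠ 0) {d : ℕ} (hd : Odd d)
    (h : P ^ 2 = C (c ^ 2) * (X ^ 2 + 1) ^ d) : False := by
  have hP : (P.map (algebraMap ℝ ℂ)) ^ 2 = C ((c : ℂ) ^ 2) * ((X - C Complex.I) ^ d * (X + C Complex.I) ^ d) := by
    have h1 := congrArg (Polynomial.map (algebraMap ℝ ℂ)) h
    rw [Polynomial.map_pow, Polynomial.map_mul, Polynomial.map_pow] at h1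
    rw [h1, ← mul_pow]
    congr 1
    · simp
    · congr 1
      have : (X - C Complex.I : ℂ[X]) * (X + C Complex.I) = X ^ 2 - C (Complex.I ^ 2) := by
        rw [C_pow]; ring
      rw [this]
      simp
  have hPne : P.map (algebraMap ℝ ℂ) ≠ 0 := by
    intro h0
    rw [h0, zero_pow two_ne_zero] at hP
    have hcc : (C ((c : ℂ) ^ 2) : ℂ[X]) ≠ 0 := by
      rw [Ne, Polynomial.C_eq_zero]; exact pow_ne_zero _ (by exact_mod_cast hc)
    have h2 : (X - C Complex.I : ℂ[X]) ^ d ≠ 0 := pow_ne_zero _ (Polynomial.X_sub_C_ne_zero _)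
    have h3 : (X + C Complex.I : ℂ[X]) ^ d ≠ 0 := pow_ne_zero _ (Polynomial.X_add_C_ne_zero _)
    exact (mul_ne_zero hcc (mul_ne_zero h2 h3)) hP.symm
  have hcc : (C ((c : ℂ) ^ 2) : ℂ[X]) ≠ 0 := by
    rw [Ne, Polynomial.C_eq_zero]; exact pow_ne_zero _ (by exact_mod_cast hc)
  have h2 : (X - C Complex.I : ℂ[X]) ^ d ≠ 0 := pow_ne_zero _ (Polynomial.X_sub_C_ne_zero _)
  have h3 : (X + C Complex.I : ℂ[X]) ^ d ≠ 0 := pow_ne_zero _ (Polynomial.X_add_C_ne_zero _)
  have hr := congrArg (Polynomial.rootMultiplicity Complex.I) hP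
  rw [Polynomial.rootMultiplicity_mul (mul_ne_zero hcc (mul_ne_zero h2 h3)),
    Polynomial.rootMultiplicity_mul (mul_ne_zero h2 h3), Polynomial.rootMultiplicity_C,
    Polynomial.rootMultiplicity_X_sub_C_pow] at hr
  have h4 : Polynomial.rootMultiplicity Complex.I ((X + C Complex.I : ℂ[X]) ^ d) = 0 := by
    apply Polynomial.rootMultiplicity_eq_zero
    rw [Polynomial.IsRoot, Polynomial.eval_pow]
    apply pow_ne_zero
    simp only [Polynomial.eval_add, Polynomial.eval_X, Polynomial.eval_C]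
    rw [← two_mul]
    exact mul_ne_zero two_ne_zero Complex.I_ne_zero
  have h5 : Polynomial.rootMultiplicity Complex.I ((P.map (algebraMap ℝ ℂ)) ^ 2)
      = 2 * Polynomial.rootMultiplicity Complex.I (P.map (algebraMap ℝ ℂ)) := by
    rw [pow_two, Polynomial.rootMultiplicity_mul (mul_ne_zero hPne hPne), two_mul]
  rw [h4, h5] at hr
  obtain ⟨e, he⟩ := hd
  omega


section annulus

/-- the open annulus -/
def ann (E : Type*) [NormedAddCommGroup E] (a b : ℝ) : Set E := {x | a < ‖x‖ ∧ ‖x‖ < b}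
/-- the closed annulus -/
def cann (E : Type*) [NormedAddCommGroup E] (a b : ℝ) : Set E := {x | a ≤ ‖x‖ ∧ ‖x‖ ≤ b}

theorem isOpen_ann (a b : ℝ) : IsOpen (ann E a b) :=
  (isOpen_lt continuous_const continuous_norm).inter (isOpen_lt continuous_norm continuous_const)

theorem isCompact_cann (a b : ℝ) : IsCompact (cann E a b) := by
  refine Metric.isCompact_of_isClosed_isBounded
    ((isClosed_le continuous_const continuous_norm).inter
      (isClosed_le continuous_norm continuous_const)) ?_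
  refine (Metric.isBounded_closedBall (x := (0 : E)) (r := b)).subset fun x hx => ?_
  rw [mem_closedBall_zero_iff]; exact hx.2

theorem ann_subset_cann (a b : ℝ) : ann E a b ⊆ cann E a b := fun _ hx => ⟨hx.1.le, hx.2.le⟩

theorem isPreconnected_ann (hd : 1 < Module.finrank ℝ E) {a b : ℝ} (ha : 0 < a) :
    IsPreconnected (ann E a b) := by
  have hs : IsPreconnected (Metric.sphere (0 : E) 1) := by
    apply isPreconnected_sphere
    rw [← Module.finrank_eq_rank]; exact_mod_cast hd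
  have h := (isPreconnected_Ioo (a := a) (b := b)).prod hs
  have h2 := h.image (fun p : ℝ × E => p.1 • p.2) (by fun_prop)
  convert h2 using 1
  ext x
  constructor
  · intro hx
    have hx0 : 0 < ‖x‖ := ha.trans hx.1
    refine ⟨(‖x‖, ‖x‖⁻¹ • x), ⟨hx, ?_⟩, ?_⟩
    · simp [norm_smul, hx0.ne']
    · simp [smul_smul, hx0.ne']
  · rintro ⟨⟨r, y⟩, ⟨hr, hy⟩, rfl⟩
    have hy' : ‖y‖ = 1 := by simpa using hy
    have hr0 : 0 < r := ha.trans hr.1
    simp only [ann, Set.mem_ofPred_eq, norm_smul, hy', mul_one, Real.norm_eq_abs, abs_of_pos hr0]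
    exact hr

variable {g : E → E}

theorem norm_ft (hgn : ∀ x, ‖g x‖ = ‖x‖) (hgt : ∀ x, inner ℝ (g x) x = 0) (t : ℝ) (x : E) :
    ‖x + t • g x‖ = √(1 + t ^ 2) * ‖x‖ := by
  have h : ‖x + t • g x‖ ^ 2 = (1 + t ^ 2) * ‖x‖ ^ 2 := by
    rw [norm_add_sq_real, norm_smul, hgn, inner_smul_right, real_inner_comm, hgt]
    rw [Real.norm_eq_abs, mul_pow, sq_abs]; ring
  have h1 : ‖x + t • g x‖ = √((1 + t ^ 2) * ‖x‖ ^ 2) := by
    rw [← h, Real.sqrt_sq (norm_nonneg _)]
  rw [h1, Real.sqrt_mul (by positivity), Real.sqrt_sq (norm_nonneg _)]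

theorem one_le_sqrt_one_add (t : ℝ) : 0 < √(1 + t ^ 2) := Real.sqrt_pos.2 (by positivity)

/-- the image of the annulus is the scaled annulus -/
theorem image_ann (hd : 1 < Module.finrank ℝ E) (hg : ∀ x ≠ 0, ContDiffAt ℝ 1 g x)
    (hgn : ∀ x, ‖g x‖ = ‖x‖) (hgt : ∀ x, inner ℝ (g x) x = 0) {t : ℝ}
    (hsmall : ∀ x ∈ ann E 1 2, |t| * ‖fderiv ℝ g x‖ < 1) :
    (fun x => x + t • g x) '' ann E 1 2 = √(1 + t ^ 2) • ann E 1 2 := by
  set f : E → E := fun x => x + t • g x with hf
  set s := √(1 + t ^ 2) with hsdef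
  have hs0 : 0 < s := one_le_sqrt_one_add t
  have hnorm : ∀ x, ‖f x‖ = s * ‖x‖ := norm_ft hgn hgt t
  have hsc : s • ann E 1 2 = ann E s (s * 2) := by
    ext y
    rw [Set.mem_smul_set_iff_inv_smul_mem₀ hs0.ne']
    simp only [ann, Set.mem_ofPred_eq, norm_smul, norm_inv, Real.norm_eq_abs, abs_of_pos hs0]
    rw [inv_mul_eq_div, lt_div_iff₀ hs0, div_lt_iff₀ hs0, one_mul, mul_comm 2 s]
  have hopen : IsOpen (f '' ann E 1 2) := by
    rw [isOpen_iff_mem_nhds]
    rintro _ ⟨x, hx, rfl⟩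
    have hx0 : x ≠ 0 := by
      rintro rfl; have := hx.1; simp at this; linarith
    have hst : HasStrictFDerivAt f (1 + t • fderiv ℝ g x : E →L[ℝ] E) x := by
      have h1 : HasStrictFDerivAt g (fderiv ℝ g x) x :=
        (hg x hx0).hasStrictFDerivAt one_ne_zero
      exact (hasStrictFDerivAt_id x).add (h1.const_smul t)
    have hsurj : (1 + t • fderiv ℝ g x : E →L[ℝ] E).range = ⊤ := by
      have hdet := det_pos (hsmall x hx)
      have hu : IsUnit ((1 + t • fderiv ℝ g x : E →L[ℝ] E) : E →ₗ[ℝ] E) := by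
        rw [LinearMap.isUnit_iff_isUnit_det]
        exact isUnit_iff_ne_zero.2 hdet.ne'
      exact (LinearMap.isUnit_iff_range_eq_top _).1 hu
    have hm := hst.map_nhds_eq_of_surj hsurj
    rw [← hm]
    exact image_mem_map ((isOpen_ann 1 2).mem_nhds hx)
  have hfc : ContinuousOn f (cann E 1 2) := by
    intro x hx
    have hx0 : x ≠ 0 := by
      rintro rfl; have := hx.1; simp at this; linarith
    exact (continuousAt_id.add ((hg x hx0).continuousAt.const_smul t)).continuousWithinAt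
  have hclosed : IsClosed (f '' cann E 1 2) := ((isCompact_cann 1 2).image_of_continuousOn hfc).isClosed
  rw [hsc]
  have hpre : IsPreconnected (ann E s (s * 2)) := isPreconnected_ann hd hs0
  have hsub : f '' ann E 1 2 ⊆ ann E s (s * 2) := by
    rintro _ ⟨x, hx, rfl⟩
    simp only [ann, Set.mem_ofPred_eq, hnorm] at hx ⊢
    exact ⟨by nlinarith [hx.1], by nlinarith [hx.2]⟩
  refine Set.Subset.antisymm hsub ?_
  have hback : ann E s (s * 2) ∩ f '' cann E 1 2 ⊆ f '' ann E 1 2 := by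
    rintro _ ⟨hy, x, hx, rfl⟩
    refine ⟨x, ?_, rfl⟩
    simp only [ann, Set.mem_ofPred_eq, hnorm] at hy ⊢
    exact ⟨by nlinarith [hy.1], by nlinarith [hy.2]⟩
  have hne : (ann E s (s * 2) ∩ f '' ann E 1 2).Nonempty := by
    haveI : Nontrivial E := Module.nontrivial_of_finrank_pos (R := ℝ) (by omega)
    obtain ⟨x, hx⟩ := exists_norm_eq E (c := 3 / 2) (by norm_num)
    have hxm : x ∈ ann E 1 2 := by simp only [ann, Set.mem_ofPred_eq, hx]; norm_num
    exact ⟨f x, hsub ⟨x, hxm, rfl⟩, x, hxm, rfl⟩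
  by_contra hcon
  have hne2 : (ann E s (s * 2) ∩ (f '' cann E 1 2)ᶜ).Nonempty := by
    rw [Set.not_subset] at hcon
    obtain ⟨y, hy, hy2⟩ := hcon
    exact ⟨y, hy, fun hyc => hy2 (hback ⟨hy, hyc⟩)⟩
  have hcov : ann E s (s * 2) ⊆ f '' ann E 1 2 ∪ (f '' cann E 1 2)ᶜ := by
    intro y hy
    by_cases hyc : y ∈ f '' cann E 1 2
    · exact Or.inl (hback ⟨hy, hyc⟩)
    · exact Or.inr hyc
  obtain ⟨y, hy, hy1, hy2⟩ := hpre _ _ hopen hclosed.isOpen_compl hcov hne hne2
  exact hy2 (Set.image_mono (ann_subset_cann 1 2) hy1)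


variable [MeasurableSpace E] [BorelSpace E]

theorem continuousOn_det (hg : ∀ x ≠ 0, ContDiffAt ℝ 1 g x) (t : ℝ) :
    ContinuousOn (fun x => (1 + t • fderiv ℝ g x : E →L[ℝ] E).det) (cann E 1 2) := by
  intro x hx
  have hx0 : x ≠ 0 := by
    rintro rfl; have := hx.1; simp at this; linarith
  have h1 : ContinuousAt (fderiv ℝ g) x :=
    ((hg x hx0).fderiv_right (m := 0) (by norm_num)).continuousAt
  have h2 : ContinuousAt (fun x => (1 + t • fderiv ℝ g x : E →L[ℝ] E)) x :=
    continuousAt_const.add (h1.const_smul t)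
  exact (ContinuousLinearMap.continuous_det.continuousAt.comp h2).continuousWithinAt

theorem integrableOn_det (hg : ∀ x ≠ 0, ContDiffAt ℝ 1 g x) (t : ℝ) :
    IntegrableOn (fun x => (1 + t • fderiv ℝ g x : E →L[ℝ] E).det) (ann E 1 2) volume :=
  ((continuousOn_det hg t).integrableOn_compact (isCompact_cann 1 2)).mono_set
    (ann_subset_cann 1 2)

/-- the volume identity -/
theorem integral_det_eq (hd : 1 < Module.finrank ℝ E) (hg : ∀ x ≠ 0, ContDiffAt ℝ 1 g x)
    (hgn : ∀ x, ‖g x‖ = ‖x‖) (hgt : ∀ x, inner ℝ (g x) x = 0) {t : ℝ}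
    (hsmall : ∀ x ∈ ann E 1 2, |t| * ‖fderiv ℝ g x‖ < 1)
    (hinj : Set.InjOn (fun x => x + t • g x) (ann E 1 2)) :
    ∫ x in ann E 1 2, (1 + t • fderiv ℝ g x : E →L[ℝ] E).det
      = √(1 + t ^ 2) ^ Module.finrank ℝ E * (volume (ann E 1 2)).toReal := by
  have h := lintegral_abs_det_fderiv_eq_addHaar_image (volume : Measure E)
    (f' := fun x => (1 + t • fderiv ℝ g x : E →L[ℝ] E)) (isOpen_ann (E := E) 1 2).measurableSet
    (fun x hx => by
      have hx0 : x ≠ 0 := by
        rintro rfl; have := hx.1; simp at this; linarith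
      have h1 : HasFDerivAt g (fderiv ℝ g x) x :=
        ((hg x hx0).differentiableAt one_ne_zero).hasFDerivAt
      exact ((hasFDerivAt_id x).add (h1.const_smul t)).hasFDerivWithinAt) hinj
  rw [image_ann hd hg hgn hgt hsmall, Measure.addHaar_smul] at h
  have h2 : ∫⁻ x in ann E 1 2, ENNReal.ofReal |(1 + t • fderiv ℝ g x : E →L[ℝ] E).det|
      = ∫⁻ x in ann E 1 2, ENNReal.ofReal (1 + t • fderiv ℝ g x : E →L[ℝ] E).det := by
    refine setLIntegral_congr_fun (isOpen_ann (E := E) 1 2).measurableSet fun x hx => ?_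
    rw [abs_of_pos (det_pos (hsmall x hx))]
  have h3 : ENNReal.ofReal (∫ x in ann E 1 2, (1 + t • fderiv ℝ g x : E →L[ℝ] E).det)
      = ∫⁻ x in ann E 1 2, ENNReal.ofReal (1 + t • fderiv ℝ g x : E →L[ℝ] E).det := by
    refine ofReal_integral_eq_lintegral_ofReal (integrableOn_det hg t) ?_
    refine (ae_restrict_mem (isOpen_ann (E := E) 1 2).measurableSet).mono fun x hx => ?_
    exact (det_pos (hsmall x hx)).le
  have hnn : 0 ≤ ∫ x in ann E 1 2, (1 + t • fderiv ℝ g x : E →L[ℝ] E).det :=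
    setIntegral_nonneg (isOpen_ann (E := E) 1 2).measurableSet fun x hx =>
      (det_pos (hsmall x hx)).le
  rw [h2, ← h3] at h
  have h4 := congrArg ENNReal.toReal h
  rw [ENNReal.toReal_ofReal hnn, ENNReal.toReal_mul, ENNReal.toReal_ofReal (abs_nonneg _)] at h4
  rw [h4, abs_of_nonneg (by positivity)]

/-- for every `t`, the integral of the determinant is the value at `t` of one polynomial -/
theorem exists_poly_integral (hg : ∀ x ≠ 0, ContDiffAt ℝ 1 g x) : ∃ P : ℝ[X], ∀ t : ℝ,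
    ∫ x in ann E 1 2, (1 + t • fderiv ℝ g x : E →L[ℝ] E).det = P.eval t := by
  refine ⟨∑ i ∈ Finset.range (Module.finrank ℝ E + 1),
    C (∫ x in ann E 1 2, (1 + (i : ℝ) • fderiv ℝ g x : E →L[ℝ] E).det) *
      Lagrange.basis (Finset.range (Module.finrank ℝ E + 1)) (fun i : ℕ => (i : ℝ)) i, fun t => ?_⟩
  rw [Polynomial.eval_finsetSum]
  simp_rw [Polynomial.eval_mul, Polynomial.eval_C]
  simp_rw [det_interp _ t]
  rw [integral_finsetSum]
  · refine Finset.sum_congr rfl fun i _ => ?_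
    rw [integral_mul_const]
  · intro i _
    exact (integrableOn_det hg (i : ℝ)).mul_const _

/-- homogeneous form of the hairy ball theorem -/
theorem hairy_homog (hd : 1 < Module.finrank ℝ E) (hodd : Odd (Module.finrank ℝ E))
    (hg : ∀ x ≠ 0, ContDiffAt ℝ 1 g x)
    (hgn : ∀ x, ‖g x‖ = ‖x‖) (hgt : ∀ x, inner ℝ (g x) x = 0) : False := by
  -- Lipschitz on the compact annulus
  have hK0 : ∀ x ∈ cann E 1 2, x ≠ 0 := by
    rintro x hx rfl; have := hx.1; simp at this; linarith
  obtain ⟨L, hL⟩ := LocallyLipschitzOn.exists_lipschitzOnWith_of_compact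
    (f := g) (isCompact_cann (E := E) 1 2) (fun x hx => by
      obtain ⟨K, t, ht, hKt⟩ := (hg x (hK0 x hx)).exists_lipschitzOnWith
      exact ⟨K, t, mem_nhdsWithin_of_mem_nhds ht, hKt⟩)
  obtain ⟨B, hB⟩ := (isCompact_cann (E := E) 1 2).exists_bound_of_continuousOn
    (f := fun x => fderiv ℝ g x) (fun x hx =>
      ((hg x (hK0 x hx)).fderiv_right (m := 0) (by norm_num)).continuousAt.continuousWithinAt)
  set t0 : ℝ := 1 / (1 + |B| + L) with ht0
  have ht0p : 0 < t0 := by positivity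
  have hsm : ∀ t ∈ Set.Ioo 0 t0, (∀ x ∈ ann E 1 2, |t| * ‖fderiv ℝ g x‖ < 1) ∧
      Set.InjOn (fun x => x + t • g x) (ann E 1 2) := by
    intro t ht
    have htt : t * (1 + |B| + L) < 1 := by
      have := ht.2; rw [ht0, lt_div_iff₀ (by positivity)] at this; exact this
    have hLnn : (0 : ℝ) ≤ L := L.2
    constructor
    · intro x hx
      rw [abs_of_pos ht.1]
      have h1 : ‖fderiv ℝ g x‖ ≤ |B| := (hB x (ann_subset_cann 1 2 hx)).trans (le_abs_self B)
      nlinarith [ht.1, abs_nonneg B]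
    · intro x hx y hy hxy
      simp only at hxy
      have h1 : x - y = -(t • (g x - g y)) := by
        rw [smul_sub]
        have : x - y + t • g x - t • g y = 0 := by
          rw [sub_eq_zero]; rw [← sub_eq_zero] at hxy ⊢; rw [← hxy]; abel
        rw [← sub_eq_zero, ← this]; abel
      have h2 : ‖x - y‖ ≤ t * (L * ‖x - y‖) := by
        calc ‖x - y‖ = ‖-(t • (g x - g y))‖ := congrArg norm h1
          _ = t * ‖g x - g y‖ := by rw [norm_neg, norm_smul, Real.norm_eq_abs, abs_of_pos ht.1]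
          _ ≤ t * (L * ‖x - y‖) := by
            gcongr
            · exact ht.1.le
            · have := hL.dist_le_mul x (ann_subset_cann 1 2 hx) y (ann_subset_cann 1 2 hy)
              rwa [dist_eq_norm, dist_eq_norm] at this
      by_contra hne
      have h3 : 0 < ‖x - y‖ := norm_pos_iff.2 (sub_ne_zero.2 hne)
      have h4 : t * L < 1 := by nlinarith [ht.1, abs_nonneg B]
      have h5 : t * L * ‖x - y‖ < 1 * ‖x - y‖ := mul_lt_mul_of_pos_right h4 h3
      linarith [mul_assoc t (L : ℝ) ‖x - y‖]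
  obtain ⟨P, hP⟩ := exists_poly_integral hg
  set c := (volume (ann E 1 2)).toReal with hc
  have hcne : c ≠ 0 := by
    rw [hc, ENNReal.toReal_ne_zero]
    constructor
    · haveI : Nontrivial E := Module.nontrivial_of_finrank_pos (R := ℝ) (by omega)
      obtain ⟨x, hx⟩ := exists_norm_eq E (c := 3 / 2) (by norm_num)
      have hxm : x ∈ ann E 1 2 := by simp only [ann, Set.mem_ofPred_eq, hx]; norm_num
      exact ((isOpen_ann (E := E) 1 2).measure_pos volume ⟨x, hxm⟩).ne'
    · exact ((isCompact_cann (E := E) 1 2).measure_lt_top.trans_le' (measure_mono (ann_subset_cann 1 2))).ne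
  have heq : ∀ t ∈ Set.Ioo 0 t0, (P ^ 2).eval t = (C (c ^ 2) * (X ^ 2 + 1) ^ Module.finrank ℝ E).eval t := by
    intro t ht
    have h1 := integral_det_eq hd hg hgn hgt (hsm t ht).1 (hsm t ht).2
    rw [hP t] at h1
    simp only [Polynomial.eval_pow, Polynomial.eval_mul, Polynomial.eval_C, Polynomial.eval_add,
      Polynomial.eval_X, Polynomial.eval_one]
    rw [h1, mul_pow, ← pow_mul, mul_comm (Module.finrank ℝ E) 2, pow_mul,
      Real.sq_sqrt (by positivity), ← hc]
    ring
  have hpoly : P ^ 2 = C (c ^ 2) * (X ^ 2 + 1) ^ Module.finrank ℝ E :=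
    Polynomial.eq_of_infinite_eval_eq _ _ ((Set.Ioo_infinite ht0p).mono heq)
  exact no_poly hcne hodd hpoly

end annulus

/-- **Hairy ball theorem** (`C^1`): a tangent vector field on the unit sphere of an
odd-dimensional inner product space (dimension at least 3) has a zero. -/
theorem hairy_ball (hd : 1 < Module.finrank ℝ E) (hodd : Odd (Module.finrank ℝ E)) (v : E → E)
    (hv : ∀ x, ‖x‖ = 1 → ContDiffAt ℝ 1 v x) (ht : ∀ x, ‖x‖ = 1 → inner ℝ (v x) x = 0) :
    ∃ x, ‖x‖ = 1 ∧ v x = 0 := by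
  by_contra hcon
  have hne : ∀ x, ‖x‖ = 1 → v x ≠ 0 := fun x hx h0 => hcon ⟨x, hx, h0⟩
  letI : MeasurableSpace E := borel E
  haveI : BorelSpace E := ⟨rfl⟩
  set u : E → E := fun x => ‖x‖⁻¹ • x with hu
  set g : E → E := fun x => ‖x‖ • (‖v (u x)‖⁻¹ • v (u x)) with hgdef
  have hun : ∀ x ≠ 0, ‖u x‖ = 1 := fun x hx => by
    simp [hu, norm_smul, norm_ne_zero_iff.2 hx]
  refine hairy_homog (E := E) (g := g) hd hodd ?_ ?_ ?_
  · intro x hx
    have hn : ContDiffAt ℝ 1 (fun x : E => ‖x‖) x := contDiffAt_norm ℝ hx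
    have hu1 : ContDiffAt ℝ 1 u x := (hn.inv (norm_ne_zero_iff.2 hx)).smul contDiffAt_id
    have hvu : ContDiffAt ℝ 1 (fun x => v (u x)) x := (hv (u x) (hun x hx)).comp x hu1
    have hvn : ContDiffAt ℝ 1 (fun x => ‖v (u x)‖) x := hvu.norm ℝ (hne _ (hun x hx))
    exact hn.smul ((hvn.inv (norm_ne_zero_iff.2 (hne _ (hun x hx)))).smul hvu)
  · intro x
    by_cases hx : x = 0
    · simp [hgdef, hx]
    · have := norm_ne_zero_iff.2 (hne _ (hun x hx))
      simp [hgdef, norm_smul, this]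
  · intro x
    by_cases hx : x = 0
    · simp [hgdef, hx]
    · have h1 := ht (u x) (hun x hx)
      have h2 : inner ℝ (v (u x)) x = 0 := by
        have h3 : inner ℝ (v (u x)) (u x) = ‖x‖⁻¹ * inner ℝ (v (u x)) x := by
          simp only [hu]; rw [inner_smul_right]
        rw [h3] at h1
        rcases mul_eq_zero.1 h1 with h4 | h4
        · exact absurd h4 (inv_ne_zero (norm_ne_zero_iff.2 hx))
        · exact h4
      simp only [hgdef]
      rw [inner_smul_left, inner_smul_left, h2]; simp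

end Crest.Agent.R208.OD
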