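import Crest.Agent.R208.OD1
import Crest.Agent.R208.IB1

/-! R208 block OD (helper378), file 2: the fan argument. A continuous field of projections of
positive rank along the unit sphere cannot restrict to the tangent bundle of an even-dimensional
great subsphere of positive codimension. -/

set_option autoImplicit false
set_option linter.unusedSectionVars false

open Set Filter Topology
open scoped RealInnerProductSpace

noncomputable section

namespace Crest.Agent.R208.OD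

variable {V F : Type*} [NormedAddCommGroup V] [InnerProductSpace ℝ V] [FiniteDimensional ℝ V]
  [NormedAddCommGroup F] [InnerProductSpace ℝ F] [FiniteDimensional ℝ F]

/-- the point at angle `θ` on the quarter circle from `u0` to `v` -/
def fpt (u0 : V) (θ : ℝ) (v : V) : V := Real.cos θ • u0 + Real.sin θ • v

theorem norm_fpt {u0 v : V} (h0 : ‖u0‖ = 1) (hv : ‖v‖ = 1) (hort : inner ℝ u0 v = 0) (θ : ℝ) :
    ‖fpt u0 θ v‖ = 1 := by
  have h : ‖fpt u0 θ v‖ ^ 2 = 1 := by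
    rw [fpt, norm_add_sq_real, norm_smul, norm_smul, inner_smul_left, inner_smul_right, hort, h0, hv]
    simp
  nlinarith [norm_nonneg (fpt u0 θ v)]

/-- transported vector after `j` steps of size `δ` -/
def tv (P : V → (V →L[ℝ] V)) (u0 w0 : V) (δ : ℝ) : ℕ → V → V
  | 0, _ => w0
  | (j + 1), v => P (fpt u0 ((j + 1 : ℕ) * δ) v) (tv P u0 w0 δ j v)

theorem contDiff_fpt (u0 : V) (θ : ℝ) : ContDiff ℝ 1 (fpt u0 θ) := by
  unfold fpt; fun_prop

theorem contDiffAt_tv {P : V → (V →L[ℝ] V)} (hP : ∀ v, ‖v‖ = 1 → ContDiffAt ℝ 1 P v)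
    {u0 w0 : V} (h0 : ‖u0‖ = 1) (δ : ℝ) {v : V} (hv : ‖v‖ = 1) (hort : inner ℝ u0 v = 0) (j : ℕ) :
    ContDiffAt ℝ 1 (tv P u0 w0 δ j) v := by
  induction j with
  | zero => exact contDiffAt_const
  | succ j ih =>
    have h1 : ContDiffAt ℝ 1 (fun v => P (fpt u0 ((j + 1 : ℕ) * δ) v)) v :=
      (hP _ (norm_fpt h0 hv hort _)).comp v (contDiff_fpt u0 _).contDiffAt
    exact h1.clm_apply ih

/-- **Fan lemma.** -/
theorem fan (P : V → (V →L[ℝ] V)) (hP : ∀ v, ‖v‖ = 1 → ContDiffAt ℝ 1 P v)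
    (hidem : ∀ v, ‖v‖ = 1 → ∀ x, P v (P v x) = P v x)
    (L : Submodule ℝ V) (hodd : Odd (Module.finrank ℝ L)) (hL : 1 < Module.finrank ℝ L)
    (htan : ∀ v ∈ L, ‖v‖ = 1 → ∀ x, P v x = x → x ∈ L ∧ inner ℝ v x = 0)
    {u0 w0 : V} (hu0 : ‖u0‖ = 1) (hort : ∀ v ∈ L, inner ℝ u0 v = 0) (hw0 : w0 ≠ 0)
    (hPw : P u0 w0 = w0) : False := by
  -- uniform continuity
  have hcomp : IsCompact ((Icc (0 : ℝ) (Real.pi / 2)) ×ˢ (Metric.sphere (0 : V) 1 ∩ (L : Set V))) :=
    isCompact_Icc.prod ((isCompact_sphere 0 1).inter_right L.closed_of_finiteDimensional)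
  have hcont : ContinuousOn (fun p : ℝ × V => P (fpt u0 p.1 p.2))
      ((Icc (0 : ℝ) (Real.pi / 2)) ×ˢ (Metric.sphere (0 : V) 1 ∩ (L : Set V))) := by
    rintro ⟨θ, v⟩ ⟨-, hv, hvL⟩
    have hv1 : ‖v‖ = 1 := by simpa using hv
    have h1 : ContinuousAt (fun p : ℝ × V => fpt u0 p.1 p.2) (θ, v) := by
      unfold fpt; fun_prop
    have h2 : ContinuousAt P (fpt u0 θ v) :=
      (hP _ (norm_fpt hu0 hv1 (hort v hvL) θ)).continuousAt
    have h3 : ContinuousAt (fun p : ℝ × V => P (fpt u0 p.1 p.2)) (θ, v) :=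
      Filter.Tendsto.comp (y := 𝓝 (fpt u0 θ v)) h2 h1
    exact h3.continuousWithinAt
  have hunif := hcomp.uniformContinuousOn_of_continuous hcont
  rw [Metric.uniformContinuousOn_iff] at hunif
  obtain ⟨ε, hε, hunif⟩ := hunif 1 one_pos
  obtain ⟨m, hm⟩ := exists_nat_gt (Real.pi / 2 / ε)
  have hpi : 0 < Real.pi / 2 := by positivity
  have hmpos : (0 : ℝ) < m := lt_of_le_of_lt (by positivity) hm
  set δ : ℝ := Real.pi / 2 / m with hδ
  have hδ0 : 0 < δ := by positivity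
  have hδε : δ < ε := by
    rw [hδ, div_lt_iff₀ hmpos]
    rw [div_lt_iff₀ hε] at hm
    linarith [mul_comm (m : ℝ) ε]
  have hang : ∀ j : ℕ, j ≤ m → (j : ℝ) * δ ∈ Icc (0 : ℝ) (Real.pi / 2) := by
    intro j hj
    refine ⟨by positivity, ?_⟩
    have h1 : (j : ℝ) ≤ m := by exact_mod_cast hj
    calc (j : ℝ) * δ ≤ m * δ := by gcongr
      _ = Real.pi / 2 := by rw [hδ]; field_simp
  have hclose : ∀ j : ℕ, j + 1 ≤ m → ∀ v ∈ L, ‖v‖ = 1 →
      ‖P (fpt u0 ((j + 1 : ℕ) * δ) v) - P (fpt u0 (j * δ) v)‖ < 1 := by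
    intro j hj v hvL hv
    have hvm : v ∈ Metric.sphere (0 : V) 1 ∩ (L : Set V) := ⟨by simpa using hv, hvL⟩
    have h := hunif (((j + 1 : ℕ) : ℝ) * δ, v) ⟨hang _ hj, hvm⟩ ((j : ℝ) * δ, v)
      ⟨hang _ (by omega), hvm⟩ (by
        rw [Prod.dist_eq]
        simp only [dist_self, Real.dist_eq]
        rw [max_lt_iff]
        refine ⟨?_, hε⟩
        have : ((j + 1 : ℕ) : ℝ) * δ - j * δ = δ := by push_cast; ring
        rw [this, abs_of_pos hδ0]; exact hδε)
    rwa [dist_eq_norm] at h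
  -- the transported vectors stay in the range and do not vanish
  have key : ∀ v ∈ L, ‖v‖ = 1 → ∀ j : ℕ, j ≤ m →
      P (fpt u0 (j * δ) v) (tv P u0 w0 δ j v) = tv P u0 w0 δ j v ∧ tv P u0 w0 δ j v ≠ 0 := by
    intro v hvL hv j
    induction j with
    | zero =>
      intro _
      have h0 : fpt u0 ((0 : ℕ) * δ) v = u0 := by simp [fpt]
      rw [h0]
      exact ⟨hPw, hw0⟩
    | succ j ih =>
      intro hj
      obtain ⟨h1, h2⟩ := ih (by omega)
      have hn := norm_fpt hu0 hv (hort v hvL) ((j + 1 : ℕ) * δ)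
      refine ⟨hidem _ hn _, fun h0 => ?_⟩
      have h3 : tv P u0 w0 δ (j + 1) v = P (fpt u0 ((j + 1 : ℕ) * δ) v) (tv P u0 w0 δ j v) := rfl
      rw [h3] at h0
      have h4 : ‖tv P u0 w0 δ j v‖ < ‖tv P u0 w0 δ j v‖ := by
        calc ‖tv P u0 w0 δ j v‖ = ‖(P (fpt u0 ((j + 1 : ℕ) * δ) v) - P (fpt u0 (j * δ) v))
              (tv P u0 w0 δ j v)‖ := by
              rw [_root_.sub_apply, h0, h1, zero_sub, norm_neg]
          _ ≤ ‖P (fpt u0 ((j + 1 : ℕ) * δ) v) - P (fpt u0 (j * δ) v)‖ * ‖tv P u0 w0 δ j v‖ :=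
              ContinuousLinearMap.le_opNorm _ _
          _ < 1 * ‖tv P u0 w0 δ j v‖ := by
              apply mul_lt_mul_of_pos_right (hclose j hj v hvL hv) (norm_pos_iff.2 h2)
          _ = _ := one_mul _
      exact lt_irrefl _ h4
  have hend : ∀ v : V, fpt u0 ((m : ℕ) * δ) v = v := by
    intro v
    have : (m : ℝ) * δ = Real.pi / 2 := by rw [hδ]; field_simp
    rw [this, fpt]; simp
  -- the vector field on the sphere of `L`
  obtain ⟨x, hx, hx0⟩ := hairy_ball (E := L) hL hodd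
    (fun x => L.orthogonalProjectionOnto (tv P u0 w0 δ m x)) (by
      intro x hx
      have hx1 : ‖(x : V)‖ = 1 := by simpa using hx
      have h1 : ContDiffAt ℝ 1 (tv P u0 w0 δ m) (x : V) :=
        contDiffAt_tv hP hu0 δ hx1 (hort x x.2) m
      have h2 : ContDiffAt ℝ 1 (fun x : L => tv P u0 w0 δ m (x : V)) x :=
        h1.comp x L.subtypeL.contDiff.contDiffAt
      exact L.orthogonalProjectionOnto.contDiff.contDiffAt.comp x h2) (by
      intro x hx
      have hx1 : ‖(x : V)‖ = 1 := by simpa using hx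
      obtain ⟨h1, -⟩ := key x x.2 hx1 m le_rfl
      rw [hend] at h1
      obtain ⟨h3, h4⟩ := htan x x.2 hx1 _ h1
      have h5 : (L.orthogonalProjectionOnto (tv P u0 w0 δ m x) : V) = tv P u0 w0 δ m x := by
        exact Submodule.starProjection_eq_self_iff.2 h3
      rw [Submodule.coe_inner, h5, real_inner_comm]
      exact h4)
  have hx1 : ‖(x : V)‖ = 1 := by simpa using hx
  obtain ⟨h1, h2⟩ := key x x.2 hx1 m le_rfl
  rw [hend] at h1
  obtain ⟨h3, -⟩ := htan x x.2 hx1 _ h1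
  have h5 : (L.orthogonalProjectionOnto (tv P u0 w0 δ m x) : V) = tv P u0 w0 δ m x := by
    exact Submodule.starProjection_eq_self_iff.2 h3
  apply h2
  rw [← h5, hx0]; rfl

/-- **Fan lemma for kernels.** `D v` of constant corank `r > 0` along the unit sphere of `V`, `C^1`,
`L` a proper subspace of odd dimension `≥ 3` such that `ker (D v) = L ∩ v^⊥` for unit `v ∈ L`. -/
theorem fan_ker (D : V → (V →L[ℝ] F)) (hD : ∀ v, ‖v‖ = 1 → ContDiffAt ℝ 1 D v) {r : ℕ} (hr : 0 < r)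
    (hrank : ∀ v ≠ 0, Module.finrank ℝ (LinearMap.ker (D v : V →ₗ[ℝ] F)) = r)
    (L : Submodule ℝ V) (hodd : Odd (Module.finrank ℝ L)) (hL : 1 < Module.finrank ℝ L)
    (hLV : Module.finrank ℝ L < Module.finrank ℝ V)
    (htan : ∀ v ∈ L, ‖v‖ = 1 → ∀ x, D v x = 0 → x ∈ L ∧ inner ℝ v x = 0) : False := by
  -- a unit vector orthogonal to `L`
  have hLo : Lᗮ ≠ ⊥ := by
    intro h
    have h2 := L.finrank_add_finrank_orthogonal
    rw [h, finrank_bot] at h2
    omega
  obtain ⟨u, huL, hu⟩ := Submodule.exists_mem_ne_zero_of_ne_bot hLo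
  have hun : ‖u‖ ≠ 0 := norm_ne_zero_iff.2 hu
  set u0 : V := ‖u‖⁻¹ • u with hu0
  have hu01 : ‖u0‖ = 1 := by rw [hu0, norm_smul, norm_inv, norm_norm, inv_mul_cancel₀ hun]
  have hu0n : u0 ≠ 0 := by rw [← norm_ne_zero_iff, hu01]; exact one_ne_zero
  have hort : ∀ v ∈ L, inner ℝ u0 v = 0 := by
    intro v hv
    rw [hu0, inner_smul_left, real_inner_comm, (Submodule.mem_orthogonal L u).1 huL v hv]
    simp
  have hker : LinearMap.ker (D u0 : V →ₗ[ℝ] F) ≠ ⊥ := by
    intro h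
    have h2 := hrank u0 hu0n
    rw [h, finrank_bot] at h2
    omega
  obtain ⟨w0, hw0, hw0n⟩ := Submodule.exists_mem_ne_zero_of_ne_bot hker
  refine fan (fun v => (LinearMap.ker (D v : V →ₗ[ℝ] F)).starProjection) ?_ ?_ L hodd hL ?_ hu01
    hort hw0n ?_
  · intro v hv
    have hv0 : v ≠ 0 := by rw [← norm_ne_zero_iff, hv]; exact one_ne_zero
    obtain ⟨Q, hQ, h⟩ := IB.exists_proj D v (hD v hv)
    refine hQ.congr_of_eventuallyEq ?_
    filter_upwards [h, isOpen_ne.mem_nhds hv0] with w hw hw2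
    exact hw.2 (by rw [hrank w hw2, hrank v hv0])
  · intro v _ x
    exact Submodule.starProjection_eq_self_iff.2 (Submodule.starProjection_apply_mem _ _)
  · intro v hvL hv x hx
    exact htan v hvL hv x (Submodule.starProjection_eq_self_iff.1 hx)
  · exact Submodule.starProjection_eq_self_iff.2 hw0

end Crest.Agent.R208.OD
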