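import Crest.Agent.R208.OD2
import Crest.Agent.R208.I7

/-! R208 block OD (helper378), file 3: the type `k` of a Blaschke manifold is not odd with
`1 < k < n`. -/

set_option autoImplicit false

open Set Filter Topology Module
open scoped ContDiff RealInnerProductSpace
open Crest.GeometryTopology.Submanifold
open Crest.Agent.R241.DDefs
open Crest.Agent.R241.D2

noncomputable section

namespace Crest.Agent.R208.OD

variable {n N : ℕ} {κ : ℝ} {S : Set (Euc N)} {G : Geo n N κ S}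

/-- There is a pair of points at distance `π`, together with its link. -/
theorem exists_link (h : Bl n N κ S G Real.pi) {k : ℕ} (hT : I.Typ G k) {p : Euc N} (hp : p ∈ S) :
    ∃ V : Submodule ℝ (Euc N), V ≤ G.T p ∧ finrank ℝ V = k ∧
      (∀ v ∈ V, ‖v‖ = 1 → ∀ b : Euc N,
        (b ∈ G.T p ∧ fderiv ℝ (Exp G p) (Real.pi • v) b = 0) ↔ (b ∈ V ∧ ⟪v, b⟫ = 0)) := by
  obtain ⟨β, hβ⟩ := exists_frame G hp
  have hn : 1 ≤ n := h.hn
  have : Nonempty (Fin n) := ⟨⟨0, hn⟩⟩
  obtain ⟨w, hw⟩ : ∃ w : Euc n, ‖w‖ = 1 := ⟨EuclideanSpace.single ⟨0, hn⟩ (1 : ℝ), by simp⟩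
  have hwT : β w ∈ G.T p := frame_mem hβ w
  have hbw : ‖β w‖ = 1 := by rw [β.norm_map, hw]
  have hpw : Real.pi • β w ∈ G.T p := (G.T p).smul_mem _ hwT
  have hq : Exp G p (Real.pi • β w) ∈ S := Exp_mem G hp hpw
  have hnorm : ‖Real.pi • β w‖ = Real.pi := by
    rw [norm_smul, hbw, mul_one, Real.norm_eq_abs, abs_of_pos Real.pi_pos]
  have hd : intrinsicDist S p (Exp G p (Real.pi • β w)) = Real.pi := by
    rw [h.dist_Exp hp hpw (le_of_eq hnorm), hnorm]
  obtain ⟨V, h1, h2, -, h4⟩ := hT.link p hp _ hq hd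
  exact ⟨V, h1, h2, h4⟩

/-- **The type of a Blaschke manifold is not odd**, unless it is `1` or `n`. -/
theorem absurd (h : Bl n N κ S G Real.pi) {k : ℕ} (hT : I.Typ G k) (hk : Odd k) (h1 : 1 < k)
    (hkn : k < n) : False := by
  obtain ⟨p, hp⟩ := h.conn.nonempty
  obtain ⟨V, hVT, hVk, hV⟩ := exists_link h hT hp
  obtain ⟨β, hβ⟩ := exists_frame G hp
  have hsm : ContDiff ℝ ∞ (fun v => Exp G p (β v)) := contDiff_Exp_frame G hp hβ
  have hfd : ∀ x y : Euc n, fderiv ℝ (fun v => Exp G p (β v)) x y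
      = fderiv ℝ (Exp G p) (β x) (β y) := by
    intro x y
    have h2 : HasFDerivAt (Exp G p) (fderiv ℝ (Exp G p) (β x)) (β x) :=
      ((Crest.Agent.R241.D3c.contDiffAt_Exp' G hp (frame_mem hβ x)).differentiableAt
        (by simp)).hasFDerivAt
    have h3 : HasFDerivAt (fun v => Exp G p (β v))
        ((fderiv ℝ (Exp G p) (β x)).comp β.toContinuousLinearMap) x :=
      HasFDerivAt.comp (g := Exp G p) (f := fun v => β v) x h2 β.toContinuousLinearMap.hasFDerivAt
    rw [h3.fderiv]; rfl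
  let u : Euc n → Euc n := fun v => Real.pi • (‖v‖⁻¹ • v)
  have hu1 : ∀ v : Euc n, ‖v‖ = 1 → u v = Real.pi • v := by
    intro v hv; simp only [u, hv, inv_one, one_smul]
  let D : Euc n → (Euc n →L[ℝ] Euc N) := fun v => fderiv ℝ (fun v => Exp G p (β v)) (u v)
  have hbu : ∀ v : Euc n, β (u v) = Real.pi • β (‖v‖⁻¹ • v) := by
    intro v; simp only [u]; rw [map_smul]
  have hDapp : ∀ v y : Euc n, D v y = fderiv ℝ (Exp G p) (Real.pi • β (‖v‖⁻¹ • v)) (β y) := by
    intro v y
    change fderiv ℝ (fun v => Exp G p (β v)) (u v) y = _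
    rw [hfd, hbu]
  refine fan_ker D ?_ (r := k - 1) (by omega) ?_ (V.comap β.toLinearMap) ?_ ?_ ?_ ?_
  · intro v hv
    have hv0 : v ≠ 0 := by rw [← norm_ne_zero_iff, hv]; exact one_ne_zero
    have h2i : ContDiffAt ℝ 1 (fun x : Euc n => ‖x‖⁻¹) v :=
      (contDiffAt_norm ℝ hv0).inv (norm_ne_zero_iff.2 hv0)
    have h2j : ContDiffAt ℝ 1 (fun x : Euc n => ‖x‖⁻¹ • x) v := h2i.smul contDiffAt_id
    have h2 : ContDiffAt ℝ 1 u v :=
      (contDiffAt_const (c := Real.pi)).smul h2j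
    have h3 : ContDiffAt ℝ 1 (fderiv ℝ (fun v => Exp G p (β v))) (u v) :=
      ((hsm.fderiv_right (m := ∞) (by simp)).of_le (by simp)).contDiffAt
    exact ContDiffAt.comp v h3 h2
  · intro v hv
    have hvn : ‖v‖ ≠ 0 := norm_ne_zero_iff.2 hv
    have hn1 : ‖β (‖v‖⁻¹ • v)‖ = 1 := by
      rw [β.norm_map, norm_smul, norm_inv, norm_norm, inv_mul_cancel₀ hvn]
    have hz : ((p, β (‖v‖⁻¹ • v)) : Euc N × Euc N) ∈ TS G := ⟨hp, frame_mem hβ _⟩
    have h2 := hT.finrank_ker (p, β (‖v‖⁻¹ • v)) hz hn1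
    rw [← h2]
    have hmap : (LinearMap.ker (D v : Euc n →ₗ[ℝ] Euc N)).map β.toLinearMap
        = (G.T p ⊓ LinearMap.ker (fderiv ℝ (Exp G p) (Real.pi • β (‖v‖⁻¹ • v))).toLinearMap :
          Submodule ℝ (Euc N)) := by
      ext y
      simp only [Submodule.mem_map, Submodule.mem_inf, LinearMap.mem_ker]
      constructor
      · rintro ⟨x, hx, rfl⟩
        refine ⟨frame_mem hβ x, ?_⟩
        have : D v x = 0 := hx
        rw [hDapp] at this
        exact this
      · rintro ⟨hy, hy2⟩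
        obtain ⟨x, rfl⟩ := exists_frame_eq hβ hy
        refine ⟨x, ?_, rfl⟩
        change D v x = 0
        rw [hDapp]; exact hy2
    rw [← hmap]
    exact (Submodule.equivMapOfInjective β.toLinearMap β.injective _).finrank_eq
  · have hmap : (V.comap β.toLinearMap).map β.toLinearMap = V := by
      rw [Submodule.map_comap_eq, hβ]; exact inf_eq_right.2 hVT
    rw [(Submodule.equivMapOfInjective β.toLinearMap β.injective (V.comap β.toLinearMap)).finrank_eq,
      hmap, hVk]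
    exact hk
  · have hmap : (V.comap β.toLinearMap).map β.toLinearMap = V := by
      rw [Submodule.map_comap_eq, hβ]; exact inf_eq_right.2 hVT
    rw [(Submodule.equivMapOfInjective β.toLinearMap β.injective (V.comap β.toLinearMap)).finrank_eq,
      hmap, hVk]
    exact h1
  · have hmap : (V.comap β.toLinearMap).map β.toLinearMap = V := by
      rw [Submodule.map_comap_eq, hβ]; exact inf_eq_right.2 hVT
    rw [(Submodule.equivMapOfInjective β.toLinearMap β.injective (V.comap β.toLinearMap)).finrank_eq,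
      hmap, hVk]
    simpa using hkn
  · intro v hvL hv x hx
    have hvV : β v ∈ V := hvL
    have hbv : ‖β v‖ = 1 := by rw [β.norm_map, hv]
    have h2 := hDapp v x
    rw [hx, hv, inv_one, one_smul] at h2
    obtain ⟨h3, h4⟩ := (hV (β v) hvV hbv (β x)).1 ⟨frame_mem hβ x, h2.symm⟩
    refine ⟨h3, ?_⟩
    rw [← h4]
    exact (β.inner_map_map v x).symm

end Crest.Agent.R208.OD
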