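import Crest.Agent.R208.OE1
import Crest.Agent.R208.SO1

/-! Row 208, block OE (helper997), part OE2: the abstract localisation formula for an open
embedding `Ψ : Y → K` over a submersion `pr : K → X`. -/

set_option autoImplicit false
set_option linter.unusedSectionVars false

open Set Filter Topology Module
open scoped ContDiff
open Crest.Agent.R208.F Crest.Agent.R208.FI Crest.Agent.R208.CW Crest.Agent.R208.T

noncomputable section

namespace Crest.Agent.R208.OE

variable {A E E' : Type*} [NormedAddCommGroup A] [NormedSpace ℝ A] [FiniteDimensional ℝ A]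
  [NormedAddCommGroup E] [NormedSpace ℝ E] [FiniteDimensional ℝ E]
  [NormedAddCommGroup E'] [NormedSpace ℝ E'] [FiniteDimensional ℝ E']
  {r d : ℕ} {Y : Set A} {K : Set E'} {X : Set E} {Ψ : A → E'} {pr : E' → E}
  {G : E' → A} {U : Set E'} {C : Set A} {oX u y : E → Ext E} {oV om : E' → Ext E'}
  {W τ L : A → Ext A} {c : ℝ}

/-- `c om = pr^* u · η + d λ` on `K` -/
theorem eqv_ext (h : OE (r + d) Y K Ψ) (hs : Subm r d K X pr) (hG : Inv Y K Ψ G U) (hCY : C ⊆ Y)
    (hC : IsCompact C) (zτ : ∀ z ∈ Y, z ∉ C → τ z = 0) (sL : Sm Y L)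
    (zL : ∀ z ∈ Y, z ∉ C → L z = 0)
    (hW : Eqv Y (c • W - F.pull (fun z => pr (Ψ z)) u * τ) (F.d L))
    (hw : Eqv Y (F.pull Ψ om) W)
    (hw0 : ∀ k ∈ K, k ∉ Ψ '' C → pb (Tan K k).subtype (om k) = 0) :
    Eqv K (c • om) (F.pull pr u * ex G U τ + F.d (ex G U L)) := by
  refine h.eqv hCY ?_ fun k hk hkC => ?_
  · rw [pull_smul', pull_add', pull_mul']
    have e1 : Eqv Y (F.pull Ψ (F.pull pr u)) (F.pull (fun z => pr (Ψ z)) u) :=
      Eqv.of_eq fun z hz => F.pull_comp (h.smap.diff hz)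
        ((hs.smooth _ (h.smap.maps hz)).differentiableAt (by simp))
    have e2 := (e1.mul (pull_ex (W := τ) h hG)).add (pull_d_ex h hG hCY hC zL sL)
    refine (hw.smul c).trans (Eqv.trans ?_ e2.symm)
    have e3 := (Eqv.refl (F.pull (fun z => pr (Ψ z)) u * τ)).add hW
    rwa [add_sub_cancel] at e3
  · have e1 : ex G U τ k = 0 := (hG.ex_zero hCY hC zτ hk hkC).self_of_nhds
    have e2 : F.d (ex G U L) k = 0 := d_ex_zero hG hCY hC zL hk hkC
    rw [Pi.smul_apply, map_smul, hw0 k hk hkC, smul_zero, Pi.add_apply, Pi.mul_apply, e1, e2,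
      mul_zero, add_zero, map_zero]

/-- **abstract localisation** -/
theorem int_abs (h : OE (r + d) Y K Ψ) (hs : Subm r d K X pr) (hXc : IsPreconnected X)
    (hoX' : Ori d X oX) (hoV : ContinuousOn oV K)
    (hoK : Ori (r + d) K (fun z => oV z * F.pull pr oX z))
    (hoX : ∀ x ∈ X, ∀ q < d, evA E q (oX x) = 0)
    (hG : Inv Y K Ψ G U) (hCY : C ⊆ Y) (hC : IsCompact C)
    (sτ : Sm Y τ) (cτ : Cl Y τ) (zτ : ∀ z ∈ Y, z ∉ C → τ z = 0) (eτ : ∀ z, F.inv (τ z) = τ z)
    (sL : Sm Y L) (zL : ∀ z ∈ Y, z ∉ C → L z = 0)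
    (su : Sm X u) (sw : Sm K om) (sy : Sm X y) (cy : Cl X y)
    (hW : Eqv Y (c • W - F.pull (fun z => pr (Ψ z)) u * τ) (F.d L))
    (hw : Eqv Y (F.pull Ψ om) W)
    (hw0 : ∀ k ∈ K, k ∉ Ψ '' C → pb (Tan K k).subtype (om k) = 0)
    (hdeg : ∀ x ∈ X, ∀ q < d, evA E q ((u * y) x) = 0) {x : E} (hx : x ∈ X) :
    c * J (r + d) K (fun z => oV z * F.pull pr oX z) (om * F.pull pr y) =
      J r (K ∩ pr ⁻¹' {x}) oV (ex G U τ) * J d X oX (u * y) := by
  set oK := fun z => oV z * F.pull pr oX z with hoK'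
  have sm : SMap K X pr := ⟨hs.smooth, hs.mapsTo⟩
  have key := eqv_ext (c := c) (W := W) h hs hG hCY hC zτ sL zL hW hw hw0
  set η := ex G U τ with hη
  set lm := ex G U L with hlm
  have sη : Sm K η := hG.sm_ex hCY hC zτ sτ
  have slm : Sm K lm := hG.sm_ex hCY hC zL sL
  have cη : Cl K η := cl_ex h hG hCY hC zτ sτ cτ
  have eη : ∀ k, F.inv (η k) = η k := inv_ex eτ
  have spy : Sm K (F.pull pr y) := sy.pull sm
  have cpy : Cl K (F.pull pr y) := cy.pull sm sy
  have k1 : Coh K (c • (om * F.pull pr y)) (η * F.pull pr (u * y)) := by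
    have a1 : Eqv K (c • (om * F.pull pr y)) ((F.pull pr u * η + F.d lm) * F.pull pr y) := by
      have := key.mul (Eqv.refl (F.pull pr y))
      rwa [smul_mul_assoc] at this
    have a2 : Coh K (F.d lm) 0 := SO.coh_d_zero slm
    have a3 := ((Coh.refl (F.pull pr u * η)).add a2).mul_right spy cpy
    rw [add_zero] at a3
    refine (Coh.of_eqv a1).trans (a3.trans (Coh.of_eqv (Eqv.of_eq fun k _ => ?_)))
    rw [pull_mul']
    simp only [Pi.mul_apply]
    rw [← even_mul_comm (eη k), mul_assoc]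
  have k2 : J (r + d) K oK (c • (om * F.pull pr y)) = J (r + d) K oK (η * F.pull pr (u * y)) :=
    SO.J_coh hs.cloZ hoK ((sw.mul spy).smul c) (sη.mul ((su.mul sy).pull sm)) k1
  have k3 : J (r + d) K oK (c • (om * F.pull pr y)) = c * J (r + d) K oK (om * F.pull pr y) :=
    J_smul c
  rw [← k3, k2]
  exact fibre_integration_const hs hXc hoX' hoV hoK hoX (fun z hz => (sη z hz).of_le (by simp)) cη
    (fun z hz => ((su.mul sy) z hz).continuousAt.continuousWithinAt) hdeg hx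

end Crest.Agent.R208.OE
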