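import Crest.Agent.R208.TP2

/-! Row 208, block OE (helper997), part OE3: the Thom lemma (proof of helper316, T1) with control
of the support of the primitive in the base direction; base change of Thom pairs; the Thom lemma
for a sum `P₂ ⊕ P₁`. -/

set_option autoImplicit false
set_option linter.unusedSectionVars false
set_option maxHeartbeats 2000000

open MeasureTheory Set Filter Topology Module
open scoped ContDiff
open Crest.Agent.R208.F Crest.Agent.R208.FI Crest.Agent.R208.CW Crest.Agent.R208.T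
open Crest.Agent.R208.TP

noncomputable section

namespace Crest.Agent.R208.OE

section one
universe u w

variable {E : Type u} {H : Type w} [NormedAddCommGroup E] [NormedSpace ℝ E] [FiniteDimensional ℝ E]
  [NormedAddCommGroup H] [InnerProductSpace ℝ H] [FiniteDimensional ℝ H]
  {X : Set E} {P : E → H →L[ℝ] H} {r d : ℕ} {R c₀ : ℝ} {e : E → Ext E}
  {τ τ' om : E × H → Ext (E × H)}

set_option maxHeartbeats 1000000 in
/-- the Thom lemma, with control of the support of the primitive in the base -/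
theorem thom_supp [MeasurableSpace H] [BorelSpace H] (μ : Measure H) [μ.IsAddHaarMeasure]
    (hX : Sub d X) (hP : PField X r P) (hT : ThomPair μ X P r R c₀ e τ τ') (hR : 0 ≤ R)
    (hω : CSF X P R om) :
    Sm X (pI μ (thE' P τ' om)) ∧ Cl X (pI μ (thE' P τ' om)) ∧
      ∃ L : E × H → Ext (E × H), Sm (Tot X P) L ∧ (∀ z, 2 * R + 1 < ‖z.2‖ → L z = 0) ∧
        (∀ z : E × H, (∀ h, om (z.1, h) = 0) → L z = 0) ∧
        Eqv (Tot X P) (c₀ • om - F.pull Prod.fst (pI μ (thE' P τ' om)) * τ) (F.d L) := by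
  set N := finrank ℝ H with hN
  set c' := pI μ (thE' P τ' om) with hc'
  have hsub : Sub (d + r) (Tot X P) := hP.sub_tot hX
  have hsubH : Sub N (univ : Set H) := sub_open rfl isOpen_univ
  have hY : Sub (d + r + N) (Tot X P ×ˢ (univ : Set H)) := hsub.prod hsubH
  have hXH : Sub (d + N) (X ×ˢ (univ : Set H)) := hX.prod hsubH
  have v1 : Vt (2 * R) (thE P τ' τ) := vt_eta hT.csf'.supp hT.csf.supp
  have v2 : Vt (2 * R) (thE' P τ' om) := vt_eta' hT.csf'.supp hω.supp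
  have s1 := sm_eta hP hT.csf'.smooth hT.csf.smooth
  have s2 := sm_eta' hP hT.csf'.smooth hω.smooth
  have sc' : Sm X c' := sm_pI μ v2 s2
  have cc' : Cl X c' := by
    intro x hx
    have h1 := resZero_pI μ v2.d s2.d (cl_eta' hP hT.csf'.smooth hω.smooth hT.csf'.closed
      hω.closed) x hx
    rw [d_pI μ v2 s2 hx, map_smul] at h1
    exact (smul_eq_zero.1 h1).resolve_left (pow_ne_zero _ (by norm_num))
  refine ⟨sc', cc', ?_⟩
  -- the rotated form
  set Th := Tht P τ' τ om with hTh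
  set T2 := F.pull rho (thE' P τ' om) * F.pull (Prod.fst : (E × H) × H → E × H) τ with hT2
  have sTh : Sm (Tot X P ×ˢ (univ : Set H)) Th :=
    (s1.pull smap_rho).mul (hω.smooth.pull smap_fst)
  have cTh : Cl (Tot X P ×ˢ (univ : Set H)) Th :=
    Cl.mul (s1.pull smap_rho) (hω.smooth.pull smap_fst)
      ((cl_eta hP hT.csf'.smooth hT.csf.smooth hT.csf'.closed hT.csf.closed).pull smap_rho s1)
      (hω.closed.pull smap_fst hω.smooth)
  have sT2 : Sm (Tot X P ×ˢ (univ : Set H)) T2 :=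
    (s2.pull smap_rho).mul (hT.csf.smooth.pull smap_fst)
  have vTh : Vt (2 * R) Th := (vt_rho v1).mul_right _
  have vT2 : Vt (2 * R) T2 := (vt_rho v2).mul_right _
  -- the homotopy
  set K := Hop (rot P) Th with hK
  have sK : Sm (Tot X P ×ˢ (univ : Set H)) K := fun z hz =>
    contDiffAt_Hop (fun t _ => contDiffAt_rot (p := (z, t)) hP hz.1.1)
      (fun t _ => sTh _ (rot_mem hP hz t))
  have k1 : Eqv (Tot X P ×ˢ (univ : Set H)) (F.pull (fun z => rot P (z, 1)) Th -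
      F.pull (fun z => rot P (z, 0)) Th) (F.d K) :=
    resZero_Hop (fun z hz t _ => (contDiffAt_rot (p := (z, t)) hP hz.1.1).of_le two_le)
      (fun z hz t _ => rot_mem hP hz t)
      (fun z hz => (sTh z hz).of_le (by exact_mod_cast le_top)) cTh
  have k2 : F.pull (fun z => rot P (z, 0)) Th = Th := by
    have : (fun z => rot P (z, 0)) = fun z => z := funext fun z => rot_zero P z
    rw [this]
    exact funext fun z => F.pull_id Th z
  have k3 := rot1_eqv (τ' := τ') (om := om) hP hT.even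
  rw [k2] at k1
  have k4 : Eqv (Tot X P ×ˢ (univ : Set H)) (F.d K) (T2 - Th) :=
    k1.symm.trans (k3.sub (Eqv.refl Th))
  have k5 : ∀ z ∈ Tot X P ×ˢ (univ : Set H), (2 * R < ‖z.1.2‖ ∨ 3 * R < ‖z.2‖) → K z = 0 :=
    fun z hz h => Hop_eq_zero fun t => rot_supp hP hT.csf'.supp hT.csf.supp hω.supp hz h t
  have h3R : 0 ≤ 3 * R := by linarith
  set Kc := cutH (3 * R) K with hKc
  have sKc : Sm (Tot X P ×ˢ (univ : Set H)) Kc := sK.cutH
  have k6 : Eqv (Tot X P ×ˢ (univ : Set H)) Kc K := eqv_cutH h3R fun z hz h => k5 z hz (Or.inr h)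
  have k7 : Eqv (Tot X P ×ˢ (univ : Set H)) (F.d Kc) (T2 - Th) := (k6.d hY sKc sK).trans k4
  have vKc : Vt (3 * R + 1) Kc := Vt.cutH h3R
  have hle : 2 * R ≤ 3 * R + 1 := by linarith
  have k8 := eqv_pI μ vKc.d sKc.d ((vT2.sub vTh).mono hle) (sT2.sub sTh) k7
  -- evaluation of the integrals
  have i1 : ∀ z ∈ Tot X P, pI μ (F.d Kc) z = (-1 : ℝ) ^ N • F.d (pI μ Kc) z := fun z hz =>
    d_pI μ vKc sKc hz
  have i2 : ∀ z ∈ Tot X P, pI μ (T2 - Th) z = pI μ T2 z - pI μ Th z := fun z hz =>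
    pI_sub μ vT2 sT2 vTh sTh hz
  have i3 : ∀ z ∈ Tot X P, pI μ T2 z = F.pull Prod.fst c' z * τ z := fun z hz => by
    rw [hT2, pI_mul_fst μ (vt_rho v2) (s2.pull smap_rho) hz]
    congr 1
    exact pI_pull μ (f := (Prod.fst : E × H → E)) (y := z) differentiableAt_fst v2
      (fun h => (s2 (z.1, h) ⟨hz.1, mem_univ _⟩).continuousAt)
  have i4 : ∀ z ∈ Tot X P, pI μ Th z = F.pull Prod.fst (pI μ (thE P τ' τ)) z * om z :=
    fun z hz => by
    rw [hTh, Tht, pI_mul_fst μ (vt_rho v1) (s1.pull smap_rho) hz]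
    congr 1
    exact pI_pull μ (f := (Prod.fst : E × H → E)) (y := z) differentiableAt_fst v1
      (fun h => (s1 (z.1, h) ⟨hz.1, mem_univ _⟩).continuousAt)
  have i5 : Eqv (Tot X P) (F.pull Prod.fst (pI μ (thE P τ' τ)) * om) (c₀ • om) := by
    have h1 := (Eqv.pull (smap_fst' (X := X) (P := P)) hT.unit).mul (Eqv.refl om)
    refine h1.trans (Eqv.of_eq fun z _ => ?_)
    simp only [Pi.mul_apply, F.pull, AlgHom.commutes, Pi.smul_apply, Algebra.smul_def]
  -- conclusion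
  set L0 := pI μ Kc with hL0
  have sL0 : Sm (Tot X P) L0 := sm_pI μ vKc sKc
  have j1 : Eqv (Tot X P) ((-1 : ℝ) ^ N • F.d L0) (F.pull Prod.fst c' * τ - c₀ • om) := by
    refine (Eqv.of_eq fun z hz => (i1 z hz).symm).trans (k8.trans ?_)
    refine (Eqv.of_eq (b := F.pull Prod.fst c' * τ - F.pull Prod.fst (pI μ (thE P τ' τ)) * om)
      fun z hz => ?_).trans ((Eqv.refl _).sub i5)
    rw [i2 z hz, i3 z hz, i4 z hz]; rfl
  have l0 : ∀ z ∈ Tot X P, 2 * R < ‖z.2‖ → L0 z = 0 := by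
    intro z hz h
    rw [hL0, pI_eq]
    have h2 : ∀ h' : H, Kc (z, h') = 0 := fun h' => by
      have h3 : K (z, h') = 0 := k5 (z, h') ⟨hz, mem_univ _⟩ (Or.inl h)
      exact (congrArg (fun c => chi (3 * R) h' • c) h3).trans (smul_zero _)
    refine (integral_congr_ae (g := fun _ : H => (0 : Ext (E × H)))
      (Eventually.of_forall fun h' => ?_)).trans (integral_zero _ _)
    exact (congrArg _ (h2 h')).trans (map_zero _)
  have h2R : 0 ≤ 2 * R := by linarith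
  refine ⟨(-((-1 : ℝ) ^ N)) • cutH (2 * R) L0, (sL0.cutH).smul _, (Vt.cutH h2R).smul _, ?_, ?_⟩
  · rintro ⟨x, v⟩ hx0
    have q1 : ∀ h' : H, Kc ((x, v), h') = 0 := fun h' => by
      have q2 : K ((x, v), h') = 0 := Hop_eq_zero fun t => by
        have q3 : F.pull (Prod.fst : (E × H) × H → E × H) om (rot P (((x, v), h'), t)) = 0 :=
          pull_of_zero (f := (Prod.fst : (E × H) × H → E × H)) (hx0 _)
        rw [hTh, Tht, Pi.mul_apply, q3, mul_zero]
      exact (congrArg (fun c => chi (3 * R) h' • c) q2).trans (smul_zero _)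
    have q4 : L0 (x, v) = 0 := by
      rw [hL0, pI_eq]
      refine (integral_congr_ae (g := fun _ : H => (0 : Ext (E × H)))
        (Eventually.of_forall fun h' => ?_)).trans (integral_zero _ _)
      exact (congrArg _ (q1 h')).trans (map_zero _)
    rw [Pi.smul_apply, cutH, q4, smul_zero, smul_zero]
  have j2 : Eqv (Tot X P) (cutH (2 * R) L0) L0 := eqv_cutH h2R l0
  have j3 := j2.d hsub sL0.cutH sL0
  have j4 : Eqv (Tot X P) (F.d ((-((-1 : ℝ) ^ N)) • cutH (2 * R) L0))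
      ((-((-1 : ℝ) ^ N)) • F.d L0) :=
    (d_smul_eqv _ sL0.cutH).trans (j3.smul _)
  refine (j4.trans ?_).symm
  have j5 := j1.neg
  rw [neg_sub] at j5
  rw [neg_smul]
  exact j5

end one

section up
variable {E H E' : Type*} [NormedAddCommGroup E] [NormedSpace ℝ E] [FiniteDimensional ℝ E]
  [NormedAddCommGroup E'] [NormedSpace ℝ E'] [FiniteDimensional ℝ E']
  [NormedAddCommGroup H] [InnerProductSpace ℝ H] [FiniteDimensional ℝ H]
  [MeasurableSpace H] [BorelSpace H] (μ : Measure H) [μ.IsAddHaarMeasure]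
  {X : Set E} {X' : Set E'} {P : E → H →L[ℝ] H} {r d : ℕ} {R c₀ : ℝ} {e : E → Ext E}
  {τ τ' : E × H → Ext (E × H)} {f : E' → E}

/-- base change of Thom pairs -/
theorem thomPair_up (hP : PField X r P) (hf : SMap X' X f)
    (hT : ThomPair μ X P r R c₀ e τ τ') :
    ThomPair μ X' (fun y => P (f y)) r R c₀ (F.pull f e) (F.pull (up f) τ) (F.pull (up f) τ') where
  csf := csf_up hf hT.csf
  csf' := csf_up (P := fun x => 1 - P x) hf hT.csf'
  even z := by rw [F.pull, ← pb_inv, hT.even]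
  deg := Hom.pull (f := up f) hT.deg
  deg' := Hom.pull (f := up f) hT.deg'
  unit := by
    have hP' := pfield_up hP hf
    have v1 : Vt (2 * R) (thE P τ' τ) := vt_eta hT.csf'.supp hT.csf.supp
    have s1 := sm_eta hP hT.csf'.smooth hT.csf.smooth
    have h2 := Eqv.pull hf hT.unit
    refine Eqv.trans (Eqv.of_eq fun y hy => ?_) (h2.trans (Eqv.of_eq fun y _ => ?_))
    · have h3 : pI μ (F.pull (fun z : E' × H => ((f z.1, z.2) : E × H)) (thE P τ' τ)) y =
          F.pull f (pI μ (thE P τ' τ)) y := pI_pull μ (hf.diff hy) v1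
          (fun h => (s1 (f y, h) ⟨hf.maps hy, mem_univ _⟩).continuousAt)
      refine Eq.trans ?_ h3
      rw [pI_eq, pI_eq]
      refine integral_congr_ae (Eventually.of_forall fun h => ?_)
      have hz : (y, h) ∈ X' ×ˢ (univ : Set H) := ⟨hy, mem_univ _⟩
      have hu := smap_up' (H := H) hf
      have e1 : F.pull (gam (fun y => P (f y))) (F.pull (up f) τ') (y, h) =
          F.pull (up f) (F.pull (gam P) τ') (y, h) := by
        have a1 := F.pull_comp (om := τ') ((smap_gam hP').diff hz)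
          ((smap_up (P := fun x => 1 - P x) hf).diff ((smap_gam hP').maps hz))
        have a2 := F.pull_comp (om := τ') (hu.diff hz) ((smap_gam hP).diff (hu.maps hz))
        exact a1.trans a2.symm
      have e2 : F.pull (bet (fun y => P (f y))) (F.pull (up f) τ) (y, h) =
          F.pull (up f) (F.pull (bet P) τ) (y, h) := by
        have a1 := F.pull_comp (om := τ) ((smap_bet hP').diff hz)
          ((smap_up (P := P) hf).diff ((smap_bet hP').maps hz))
        have a2 := F.pull_comp (om := τ) (hu.diff hz) ((smap_bet hP).diff (hu.maps hz))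
        exact a1.trans a2.symm
      change cH _ _ (F.pull (gam (fun y => P (f y))) (F.pull (up f) τ') (y, h) *
        F.pull (bet (fun y => P (f y))) (F.pull (up f) τ) (y, h)) =
        cH _ _ (F.pull (up f) (thE P τ' τ) (y, h))
      rw [e1, e2, thE, pull_mul']
      rfl
    · simp only [F.pull, AlgHom.commutes]
  ne := hT.ne
  zero := by
    have h2 := Eqv.pull hf hT.zero
    refine Eqv.trans (Eqv.of_eq fun y hy => ?_) h2
    have hfd : DifferentiableAt ℝ f y := hf.diff hy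
    have d1 : DifferentiableAt ℝ (fun x : E' => ((x, 0) : E' × H)) y := by fun_prop
    have d2 : DifferentiableAt ℝ (up (H := H) f) ((fun x : E' => ((x, 0) : E' × H)) y) := by
      have : DifferentiableAt ℝ (fun p : E' × H => f p.1) (y, (0 : H)) :=
        DifferentiableAt.comp (g := f) (f := fun p : E' × H => p.1) (y, (0 : H)) hfd
          differentiableAt_fst
      exact this.prodMk differentiableAt_snd
    have e1 := F.pull_comp (om := τ) d1 d2
    have e2 := F.pull_comp (f := f) (g := fun x : E => ((x, 0) : E × H)) (om := τ) hfd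
      (by fun_prop)
    exact e1.trans e2.symm

end up

section two
universe u w₁ w₂
variable {E : Type u} {H₂ : Type w₂} {H₁ : Type w₁} [NormedAddCommGroup E] [NormedSpace ℝ E]
  [FiniteDimensional ℝ E]
  [NormedAddCommGroup H₁] [InnerProductSpace ℝ H₁] [FiniteDimensional ℝ H₁]
  [MeasurableSpace H₁] [BorelSpace H₁] (μ₁ : Measure H₁) [μ₁.IsAddHaarMeasure]
  [NormedAddCommGroup H₂] [InnerProductSpace ℝ H₂] [FiniteDimensional ℝ H₂]
  [MeasurableSpace H₂] [BorelSpace H₂] (μ₂ : Measure H₂) [μ₂.IsAddHaarMeasure]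
  {X : Set E} {P₁ : E → H₁ →L[ℝ] H₁} {P₂ : E → H₂ →L[ℝ] H₂} {r₁ r₂ d : ℕ} {R c₁ c₂ : ℝ}
  {τ₁ τ₁' : E × H₁ → Ext (E × H₁)} {τ₂ τ₂' : E × H₂ → Ext (E × H₂)} {e₁ e₂ : E → Ext E}
  {V : (E × H₂) × H₁ → Ext ((E × H₂) × H₁)}

/-- the product Thom form `τ₂ τ₁` on `P₂ ⊕ P₁` -/
def TH (τ₂ : E × H₂ → Ext (E × H₂)) (τ₁ : E × H₁ → Ext (E × H₁)) :
    (E × H₂) × H₁ → Ext ((E × H₂) × H₁) :=
  F.pull (Prod.fst : (E × H₂) × H₁ → E × H₂) τ₂ *
    F.pull (up (H := H₁) (Prod.fst : E × H₂ → E)) τ₁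

theorem smap_tt_fst : SMap (TT X P₂ P₁) (Tot X P₂) (Prod.fst : (E × H₂) × H₁ → E × H₂) :=
  smap_fst' (X := Tot X P₂) (P := fun z : E × H₂ => P₁ z.1)

theorem smap_tt_up : SMap (TT X P₂ P₁) (Tot X P₁) (up (H := H₁) (Prod.fst : E × H₂ → E)) :=
  smap_up (X' := Tot X P₂) (smap_fst' (X := X) (P := P₂))

theorem smap_tt_base : SMap (TT X P₂ P₁) X (fun z : (E × H₂) × H₁ => z.1.1) :=
  (smap_fst' (X := X) (P := P₂)).comp smap_tt_fst

theorem even_mul {a b : Ext E} (ha : F.inv a = a) (hb : F.inv b = b) : F.inv (a * b) = a * b := by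
  rw [map_mul, ha, hb]

theorem inv_TH (h₂ : ∀ z, F.inv (τ₂ z) = τ₂ z) (h₁ : ∀ z, F.inv (τ₁ z) = τ₁ z)
    (z : (E × H₂) × H₁) : F.inv (TH τ₂ τ₁ z) = TH τ₂ τ₁ z := by
  rw [TH, Pi.mul_apply, map_mul, F.pull, F.pull, ← pb_inv, ← pb_inv, h₂, h₁]

theorem hom_TH {i j : ℕ} (h₂ : Hom i τ₂) (h₁ : Hom j τ₁) : Hom (i + j) (TH τ₂ τ₁) :=
  (Hom.pull (f := (Prod.fst : (E × H₂) × H₁ → E × H₂)) h₂).mul
    (Hom.pull (f := up (H := H₁) (Prod.fst : E × H₂ → E)) h₁)

theorem cv_TH (h₂ : CSF X P₂ R τ₂) (h₁ : CSF X P₁ R τ₁) : CV X P₂ P₁ R (TH τ₂ τ₁) where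
  smooth := (h₂.smooth.pull smap_tt_fst).mul (h₁.smooth.pull smap_tt_up)
  supp₁ z hz := by
    rw [TH, Pi.mul_apply, pull_of_zero (f := up (H := H₁) (Prod.fst : E × H₂ → E))
      (h₁.supp (up (H := H₁) (Prod.fst : E × H₂ → E) z) hz), mul_zero]
  supp₂ z hz := by
    rw [TH, Pi.mul_apply, pull_of_zero (f := (Prod.fst : (E × H₂) × H₁ → E × H₂))
      (h₂.supp z.1 hz), zero_mul]
  closed := Cl.mul (h₂.smooth.pull smap_tt_fst) (h₁.smooth.pull smap_tt_up)
    (h₂.closed.pull smap_tt_fst h₂.smooth) (h₁.closed.pull smap_tt_up h₁.smooth)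

/-- **the Thom lemma for `P₂ ⊕ P₁`** -/
theorem thom2 (hX : Sub d X) (hP₁ : PField X r₁ P₁) (hP₂ : PField X r₂ P₂)
    (hT₁ : ThomPair μ₁ X P₁ r₁ R c₁ e₁ τ₁ τ₁') (hT₂ : ThomPair μ₂ X P₂ r₂ R c₂ e₂ τ₂ τ₂')
    (hR : 0 ≤ R) (hV : CV X P₂ P₁ R V) :
    ∃ L : (E × H₂) × H₁ → Ext ((E × H₂) × H₁), Sm (TT X P₂ P₁) L ∧
      (∀ z, 2 * R + 1 < ‖z.2‖ → L z = 0) ∧ (∀ z, 2 * R + 1 < ‖z.1.2‖ → L z = 0) ∧
      Eqv (TT X P₂ P₁) ((c₂ * c₁) • V - F.pull (fun z : (E × H₂) × H₁ => z.1.1)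
        (pu₂ μ₁ μ₂ P₂ τ₂' P₁ τ₁' V) * TH τ₂ τ₁) (F.d L) := by
  have hT₁' := thomPair_up μ₁ hP₁ (smap_fst' (X := X) (P := P₂)) hT₁
  have hPf : PField (Tot X P₂) r₁ (fun z : E × H₂ => P₁ z.1) := pfield_fst (P₂ := P₂) hP₁
  have hCV : CSF (Tot X P₂) (fun z : E × H₂ => P₁ z.1) R V := ⟨hV.smooth, hV.supp₁, hV.closed⟩
  obtain ⟨-, -, L₁, sL₁, zL₁, zL₁', eL₁⟩ := thom_supp μ₁ (hP₂.sub_tot hX) hPf hT₁' hR hCV
  have hpu := csf_pu₁ μ₁ hP₁ hT₁.csf' hV
  obtain ⟨su₂, -, L₂, sL₂, zL₂, -, eL₂⟩ := thom_supp μ₂ hX hP₂ hT₂ hR hpu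
  set p₁ := pu₁ μ₁ P₁ τ₁' V with hp₁
  set p₂ := pu₂ μ₁ μ₂ P₂ τ₂' P₁ τ₁' V with hp₂
  set fs : (E × H₂) × H₁ → E × H₂ := Prod.fst with hfs
  set T₁ := F.pull (up (H := H₁) (Prod.fst : E × H₂ → E)) τ₁ with hT₁d
  have sT₁ : Sm (TT X P₂ P₁) T₁ := hT₁.csf.smooth.pull smap_tt_up
  have cT₁ : Cl (TT X P₂ P₁) T₁ := hT₁.csf.closed.pull smap_tt_up hT₁.csf.smooth
  have sfs : SMap (TT X P₂ P₁) (Tot X P₂) fs := smap_tt_fst
  have e1 : Eqv (TT X P₂ P₁) (c₁ • V - F.pull fs p₁ * T₁) (F.d L₁) := eL₁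
  have e2 : Eqv (Tot X P₂) (c₂ • p₁ - F.pull Prod.fst p₂ * τ₂) (F.d L₂) := eL₂
  have e3 := Eqv.pull sfs e2
  rw [pull_sub', pull_smul', pull_mul'] at e3
  have e4 : Eqv (TT X P₂ P₁) (F.pull fs (F.pull Prod.fst p₂))
      (F.pull (fun z : (E × H₂) × H₁ => z.1.1) p₂) := Eqv.of_eq fun z hz =>
    F.pull_comp (f := fs) (g := (Prod.fst : E × H₂ → E)) (om := p₂) (by fun_prop)
      (by fun_prop)
  have sp : Sm (TT X P₂ P₁) (F.pull fs L₂) := sL₂.pull sfs
  refine ⟨c₂ • L₁ + F.pull fs L₂ * T₁, (sL₁.smul _).add (sp.mul sT₁), ?_, ?_, ?_⟩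
  · intro z hz
    have a1 : T₁ z = 0 := pull_of_zero (f := up (H := H₁) (Prod.fst : E × H₂ → E))
      (hT₁.csf.supp (up (H := H₁) (Prod.fst : E × H₂ → E) z) (lt_of_le_of_lt (by linarith) hz))
    rw [Pi.add_apply, Pi.smul_apply, Pi.mul_apply, zL₁ z hz, a1, smul_zero, mul_zero, add_zero]
  · intro z hz
    have a1 : F.pull fs L₂ z = 0 := pull_of_zero (f := fs) (zL₂ z.1 hz)
    have a2 : L₁ z = 0 := zL₁' z fun h => hV.supp₂ (z.1, h) (lt_of_le_of_lt (by linarith) hz)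
    rw [Pi.add_apply, Pi.smul_apply, Pi.mul_apply, a1, a2, smul_zero, zero_mul, add_zero]
  · have f1 : Eqv (TT X P₂ P₁) (F.d (c₂ • L₁ + F.pull fs L₂ * T₁))
        (c₂ • F.d L₁ + F.pull fs (F.d L₂) * T₁) := by
      refine (d_add_eqv (sL₁.smul _) (sp.mul sT₁)).trans ((d_smul_eqv _ sL₁).add ?_)
      refine (d_mul_eqv sp sT₁).trans ?_
      have g1 := ((d_pull_eqv sfs sL₂).mul (Eqv.refl T₁)).add
        ((Eqv.refl (fun z => F.inv (F.pull fs L₂ z))).mul (resZero_iff.1 cT₁))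
      rwa [mul_zero, add_zero] at g1
    refine Eqv.trans ?_ f1.symm
    have f2 := (e1.smul c₂).add (e3.mul (Eqv.refl T₁))
    refine Eqv.trans ?_ f2
    have f3 : Eqv (TT X P₂ P₁) (F.pull (fun z : (E × H₂) × H₁ => z.1.1) p₂ * TH τ₂ τ₁)
        (F.pull fs (F.pull Prod.fst p₂) * F.pull fs τ₂ * T₁) := by
      rw [mul_assoc]
      exact e4.symm.mul (Eqv.refl _)
    refine ((Eqv.refl _).sub f3).trans (Eqv.of_eq fun z _ => ?_)
    simp only [Pi.sub_apply, Pi.add_apply, Pi.smul_apply, Pi.mul_apply, sub_mul, smul_sub,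
      smul_smul, smul_mul_assoc]
    abel

end two

end Crest.Agent.R208.OE
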