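import Crest.Agent.R208.OE2
import Crest.Agent.R208.OE3

/-! Row 208, block OE (helper997), part OE4: **localisation** for a tube `Ψ : P₂ ⊕ P₁ → K` defined
on the whole total space. -/

set_option autoImplicit false
set_option linter.unusedSectionVars false
set_option maxHeartbeats 1000000

open MeasureTheory Set Filter Topology Module
open scoped ContDiff
open Crest.Agent.R208.F Crest.Agent.R208.FI Crest.Agent.R208.CW Crest.Agent.R208.T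
open Crest.Agent.R208.TP

noncomputable section

namespace Crest.Agent.R208.OE

section disc
variable {E H₁ H₂ : Type*} [NormedAddCommGroup E] [NormedSpace ℝ E] [FiniteDimensional ℝ E]
  [NormedAddCommGroup H₁] [InnerProductSpace ℝ H₁] [FiniteDimensional ℝ H₁]
  [NormedAddCommGroup H₂] [InnerProductSpace ℝ H₂] [FiniteDimensional ℝ H₂]
  {X : Set E} {P₁ : E → H₁ →L[ℝ] H₁} {P₂ : E → H₂ →L[ℝ] H₂} {r₁ r₂ d : ℕ} {R : ℝ}

/-- the closed disc bundle of radius `R` in `P₂ ⊕ P₁` -/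
def DD (X : Set E) (P₂ : E → H₂ →L[ℝ] H₂) (P₁ : E → H₁ →L[ℝ] H₁) (R : ℝ) : Set ((E × H₂) × H₁) :=
  {z | z ∈ TT X P₂ P₁ ∧ ‖z.1.2‖ ≤ R ∧ ‖z.2‖ ≤ R}

theorem DD_subset : DD X P₂ P₁ R ⊆ TT X P₂ P₁ := fun _ hz => hz.1

theorem DD_mono {R' : ℝ} (h : R ≤ R') : DD X P₂ P₁ R ⊆ DD X P₂ P₁ R' :=
  fun _ hz => ⟨hz.1, hz.2.1.trans h, hz.2.2.trans h⟩

theorem isCompact_DD (hX : IsCompact X) (hP₁ : PField X r₁ P₁) (hP₂ : PField X r₂ P₂) :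
    IsCompact (DD X P₂ P₁ R) := by
  set K₀ : Set ((E × H₂) × H₁) := (X ×ˢ Metric.closedBall (0 : H₂) R) ×ˢ
    Metric.closedBall (0 : H₁) R with hK₀
  have hc : IsCompact K₀ := (hX.prod (isCompact_closedBall _ _)).prod (isCompact_closedBall _ _)
  have c2 : ContinuousOn (fun z : (E × H₂) × H₁ => P₂ z.1.1 z.1.2 - z.1.2) K₀ := fun z hz =>
    ((((hP₂.smooth _ hz.1.1).continuousAt.comp (f := fun z : (E × H₂) × H₁ => z.1.1)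
      (by fun_prop)).clm_apply (by fun_prop)).sub (by fun_prop)).continuousWithinAt
  have c1 : ContinuousOn (fun z : (E × H₂) × H₁ => P₁ z.1.1 z.2 - z.2) K₀ := fun z hz =>
    ((((hP₁.smooth _ hz.1.1).continuousAt.comp (f := fun z : (E × H₂) × H₁ => z.1.1)
      (by fun_prop)).clm_apply (by fun_prop)).sub (by fun_prop)).continuousWithinAt
  have k2 := c2.preimage_isClosed_of_isClosed hc.isClosed (isClosed_singleton (x := (0 : H₂)))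
  have k1 := c1.preimage_isClosed_of_isClosed hc.isClosed (isClosed_singleton (x := (0 : H₁)))
  have he : DD X P₂ P₁ R = K₀ ∩ (K₀ ∩ (fun z => P₂ z.1.1 z.1.2 - z.1.2) ⁻¹' {0} ∩
      (K₀ ∩ (fun z => P₁ z.1.1 z.2 - z.2) ⁻¹' {0})) := by
    ext ⟨⟨x, b⟩, a⟩
    simp only [DD, TT, Tot, hK₀, mem_setOf_eq, mem_inter_iff, mem_prod, Metric.mem_closedBall,
      dist_zero_right, mem_preimage, mem_singleton_iff, sub_eq_zero]
    tauto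
  rw [he]
  exact hc.inter_right (k2.inter k1)

end disc

section main
universe u w₁ w₂
variable {E : Type u} {H₂ : Type w₂} {H₁ : Type w₁} {E' : Type*}
  [NormedAddCommGroup E] [NormedSpace ℝ E] [FiniteDimensional ℝ E]
  [NormedAddCommGroup E'] [NormedSpace ℝ E'] [FiniteDimensional ℝ E']
  [NormedAddCommGroup H₁] [InnerProductSpace ℝ H₁] [FiniteDimensional ℝ H₁]
  [MeasurableSpace H₁] [BorelSpace H₁] (μ₁ : Measure H₁) [μ₁.IsAddHaarMeasure]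
  [NormedAddCommGroup H₂] [InnerProductSpace ℝ H₂] [FiniteDimensional ℝ H₂]
  [MeasurableSpace H₂] [BorelSpace H₂] (μ₂ : Measure H₂) [μ₂.IsAddHaarMeasure]
  {X : Set E} {P₁ : E → H₁ →L[ℝ] H₁} {P₂ : E → H₂ →L[ℝ] H₂} {r₁ r₂ r d : ℕ} {R R' c₁ c₂ : ℝ}
  {τ₁ τ₁' : E × H₁ → Ext (E × H₁)} {τ₂ τ₂' : E × H₂ → Ext (E × H₂)} {e₁ e₂ : E → Ext E}
  {V : (E × H₂) × H₁ → Ext ((E × H₂) × H₁)} {K : Set E'} {Ψ : (E × H₂) × H₁ → E'} {pr : E' → E}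
  {G : E' → (E × H₂) × H₁} {U : Set E'} {oX y : E → Ext E} {oV om : E' → Ext E'}

theorem cv_mono {R R' : ℝ} (h : R ≤ R') (hV : CV X P₂ P₁ R V) : CV X P₂ P₁ R' V :=
  ⟨hV.smooth, fun z hz => hV.supp₁ z (h.trans_lt hz), fun z hz => hV.supp₂ z (h.trans_lt hz),
    hV.closed⟩

theorem zero_off {R : ℝ} {W : (E × H₂) × H₁ → Ext ((E × H₂) × H₁)}
    (h₁ : ∀ z, R < ‖z.2‖ → W z = 0) (h₂ : ∀ z, R < ‖z.1.2‖ → W z = 0) :
    ∀ z ∈ TT X P₂ P₁, z ∉ DD X P₂ P₁ R → W z = 0 := by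
  intro z hz hzD
  rcases lt_or_ge R ‖z.2‖ with h | h
  · exact h₁ z h
  rcases lt_or_ge R ‖z.1.2‖ with h' | h'
  · exact h₂ z h'
  exact absurd ⟨hz, h', h⟩ hzD

/-- **LOCALISATION**, tube defined on the whole total space.  `R` is a radius for the Thom forms,
`R'` for `V`. -/
theorem loc_int (hX : Clo d X) (hXc : IsPreconnected X) (hP₁ : PField X r₁ P₁)
    (hP₂ : PField X r₂ P₂) (hT₁ : ThomPair μ₁ X P₁ r₁ R c₁ e₁ τ₁ τ₁')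
    (hT₂ : ThomPair μ₂ X P₂ r₂ R c₂ e₂ τ₂ τ₂') (hR : 0 ≤ R)
    (h : OE (r + d) (TT X P₂ P₁) K Ψ) (hpr : ∀ z ∈ TT X P₂ P₁, pr (Ψ z) = z.1.1)
    (hG : Inv (TT X P₂ P₁) K Ψ G U)
    (hs : Subm r d K X pr) (hoX' : Ori d X oX) (hoV : ContinuousOn oV K)
    (hoK : Ori (r + d) K (fun z => oV z * F.pull pr oX z))
    (hoX : ∀ x ∈ X, ∀ q < d, evA E q (oX x) = 0)
    (hV : CV X P₂ P₁ R' V) (so : Sm K om) (sy : Sm X y) (cy : Cl X y)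
    (hoV' : Eqv (TT X P₂ P₁) (F.pull Ψ om) V)
    (hom0 : ∀ k ∈ K, k ∉ Ψ '' DD X P₂ P₁ R' → pb (Tan K k).subtype (om k) = 0)
    (hdeg : ∀ x ∈ X, ∀ q < d, evA E q ((pu₂ μ₁ μ₂ P₂ τ₂' P₁ τ₁' V * y) x) = 0)
    {x : E} (hx : x ∈ X) :
    (c₂ * c₁) * J (r + d) K (fun z => oV z * F.pull pr oX z) (om * F.pull pr y) =
      J r (K ∩ pr ⁻¹' {x}) oV (ex G U (TH τ₂ τ₁)) *
        J d X oX (pu₂ μ₁ μ₂ P₂ τ₂' P₁ τ₁' V * y) := by
  set R₀ := max R R' with hR₀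
  have hRR : R ≤ R₀ := le_max_left _ _
  have hR₀0 : 0 ≤ R₀ := hR.trans hRR
  obtain ⟨L, sL, zL₁, zL₂, eL⟩ := thom2 μ₁ μ₂ hX.sub hP₁ hP₂ (hT₁.mono hRR) (hT₂.mono hRR) hR₀0
    (cv_mono (le_max_right _ _) hV)
  set C := DD X P₂ P₁ (2 * R₀ + 1) with hC
  have cτ := cv_TH (P₁ := P₁) (P₂ := P₂) hT₂.csf hT₁.csf
  have hle : R ≤ 2 * R₀ + 1 := by linarith
  have zτ : ∀ z ∈ TT X P₂ P₁, z ∉ C → TH τ₂ τ₁ z = 0 :=
    zero_off (fun z hz => cτ.supp₁ z (hle.trans_lt hz)) (fun z hz => cτ.supp₂ z (hle.trans_lt hz))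
  have zL : ∀ z ∈ TT X P₂ P₁, z ∉ C → L z = 0 := zero_off zL₁ zL₂
  have e1 : Eqv (TT X P₂ P₁) (F.pull (fun z => pr (Ψ z)) (pu₂ μ₁ μ₂ P₂ τ₂' P₁ τ₁' V))
      (F.pull (fun z : (E × H₂) × H₁ => z.1.1) (pu₂ μ₁ μ₂ P₂ τ₂' P₁ τ₁' V)) :=
    eqv_pull_of_eq _ (fun z hz => ((hs.smooth _ (h.smap.maps hz)).differentiableAt
      (by simp)).comp z (h.smap.diff hz)) (fun z _ => by fun_prop) hpr
  have hW : Eqv (TT X P₂ P₁) ((c₂ * c₁) • V - F.pull (fun z => pr (Ψ z))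
      (pu₂ μ₁ μ₂ P₂ τ₂' P₁ τ₁' V) * TH τ₂ τ₁) (F.d L) :=
    ((Eqv.refl _).sub (e1.mul (Eqv.refl _))).trans eL
  refine int_abs h hs hXc hoX' hoV hoK hoX hG DD_subset (isCompact_DD hX.compact hP₁ hP₂)
    cτ.smooth cτ.closed zτ (inv_TH hT₂.even hT₁.even) sL zL
    (sm_pu₂ μ₁ μ₂ hP₁ hP₂ (hT₁.mono hRR).csf' (hT₂.mono hRR).csf' (cv_mono (le_max_right _ _) hV))
    so sy cy hW hoV' (fun k hk hkC => hom0 k hk fun hk' => hkC ?_) hdeg hx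
  obtain ⟨z, hz, rfl⟩ := hk'
  refine ⟨z, DD_mono ?_ hz, rfl⟩
  have : R' ≤ R₀ := le_max_right _ _
  linarith

end main

end Crest.Agent.R208.OE
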