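import Crest.Agent.R208.NB9
import Crest.Agent.R208.VX2
import Crest.Agent.R208.EW6
import Crest.Agent.R208.LB2

/-! Row 208, block (K9)(ii) of the volume theorem (helper613), part PV1: the Chern classes of the
complexified negative bundle `N` over `US G`. -/

set_option autoImplicit false
set_option linter.unusedSectionVars false
set_option linter.unusedVariables false

open MeasureTheory Set Filter Topology Module
open scoped ContDiff RealInnerProductSpace
open Crest.GeometryTopology.Submanifold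
open Crest.Agent.R241.DDefs
open Crest.Agent.R241.D2
open Crest.Agent.R208.NN
open Crest.Agent.R208.NB
open Crest.Agent.R208.GT (bas)
open Crest.Agent.R208.F Crest.Agent.R208.FI Crest.Agent.R208.CW
open Crest.Agent.R208.T (HD EC rcl Sm Cl Hom Coh Eqv eR mtx)

noncomputable section

namespace Crest.Agent.R208.PV

section gen
variable {n : Type} [Fintype n] [DecidableEq n]

/-- the matrix of an operator in the standard basis -/
theorem cr_mt_eq (A : EuclideanSpace ℝ n →L[ℝ] EuclideanSpace ℝ n) :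
    SP.cr (SP.mt (EuclideanSpace.basisFun n ℝ).toBasis (EuclideanSpace.basisFun n ℝ).toBasis A) =
      mtx A := by
  ext i j
  rw [SP.cr_apply, SP.mt_apply, T.mtx, Matrix.of_apply]
  simp

end gen

variable {n N k K dU dF : ℕ} {κ : ℝ} {S : Set (Euc N)} {G : Geo n N κ S}
  {δ : ℝ} {PN : Euc N × Euc N → Wt N K →L[ℝ] Wt N K}

/-- foot point -/
theorem smap_p : CW.SMap (L.US G) S (Prod.fst : Euc N × Euc N → Euc N) :=
  ⟨fun _ _ => contDiffAt_fst, fun _ hz => hz.1.1⟩

theorem map_ph_xp (h : GT.Bla G k) (hU : Sub dU (L.US G)) (x : CW.H S) :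
    CW.H.map (smap_ph h) (FG.xp x) = CW.H.map (smap_p (G := G)) x := by
  rw [FG.xp, CW.H.map_map]
  exact H.map_congr' hU _ _ (fun z _ => rfl) x

/-- the two points of `z ∈ US G` are homotopic -/
theorem map_ph_xq (h : GT.Bla G k) (hU : Sub dU (L.US G)) (x : CW.H S) :
    CW.H.map (smap_ph h) (FG.xq x) = CW.H.map (smap_p (G := G)) x := by
  let Fh : (Euc N × Euc N) × ℝ → Euc N := fun z => (fl G (z.1, z.2 * Real.pi)).1
  have hF : ∀ z ∈ L.US G, ∀ t ∈ Icc (0 : ℝ) 1, ContDiffAt ℝ ∞ Fh (z, t) := by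
    intro z hz t _
    have h1 : ContDiffAt ℝ ∞ (fun y : (Euc N × Euc N) × ℝ => (y.1, y.2 * Real.pi)) (z, t) := by
      fun_prop
    exact (ContDiffAt.comp (z, t) (g := fl G) (contDiffAt_fl' G hz.1 _) h1).fst
  have hm : ∀ z ∈ L.US G, ∀ t ∈ Icc (0 : ℝ) 1, Fh (z, t) ∈ S := fun z hz t _ =>
    (fl_mem G hz.1 _).1
  have h0 : CW.SMap (L.US G) S (fun y => Fh (y, 0)) :=
    ⟨fun z hz => ContDiffAt.comp (g := Fh) z (hF z hz 0 (by simp))
        (contDiffAt_id.prodMk contDiffAt_const), fun z hz => hm z hz 0 (by simp)⟩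
  have h1 : CW.SMap (L.US G) S (fun y => Fh (y, 1)) :=
    ⟨fun z hz => ContDiffAt.comp (g := Fh) z (hF z hz 1 (by simp))
        (contDiffAt_id.prodMk contDiffAt_const), fun z hz => hm z hz 1 (by simp)⟩
  have key := H.map_homotopy hF hm h0 h1 x
  rw [FG.xq, CW.H.map_map, H.map_congr' hU _ h1 (fun z _ => ?_) x, key]
  · refine H.map_congr' hU _ _ (fun z hz => ?_) x
    change (fl G (z, 0 * Real.pi)).1 = z.1
    rw [zero_mul, fl_zero G]
  · change qq G z = (fl G (z, 1 * Real.pi)).1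
    rw [one_mul, qq]

/-- the complexified field -/
theorem idf_N (H : NegB G (k - 1) (nuP K) δ PN) : CW.IdF (L.US G) fun z => mtx (PN z) :=
  EW.idF_of_pfield H.pfield

/-- **the Chern series of `N ⊗ ℂ`**: pulled back from `V ⊗ ℂ` on `FF S` -/
theorem cs_N_map (h : GT.Bla G k) (hkn : k < n) (H : NegB G (k - 1) (nuP K) δ PN)
    (hU : Sub dU (L.US G)) (hF : Sub dF (GT.FF S)) :
    CW.cs hU (idf_N H) = (CW.cs hF (GT.idf_mV (FV.vfield_PVB h))).map
      (CW.H.map (smap_ph h) : CW.H (GT.FF S) →+* CW.H (L.US G)) := by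
  rw [← cs_PN_map h hkn H hU hF (EuclideanSpace.basisFun _ ℝ).toBasis]
  exact cs_of_sc (A := Unit) fun j _ => sc_congr hU _ _ (fun z _ => (cr_mt_eq _).symm) j

theorem cc_N_map (h : GT.Bla G k) (hkn : k < n) (H : NegB G (k - 1) (nuP K) δ PN)
    (hU : Sub dU (L.US G)) (hF : Sub dF (GT.FF S)) (j : ℕ) :
    cc hU (idf_N H) j =
      CW.H.map (smap_ph h) (cc hF (GT.idf_mV (FV.vfield_PVB h)) j) := by
  rw [← coeff_cs, ← coeff_cs, cs_N_map h hkn H hU hF, PowerSeries.coeff_map]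
  rfl

/-- **the middle Chern class of `N ⊗ ℂ`** -/
theorem cc_N_mid (h : GT.Bla G k) (hkn : k < n) (H : NegB G (k - 1) (nuP K) δ PN)
    (hU : Sub dU (L.US G)) (hF : Sub dF (GT.FF S)) {X : CW.H S} {μ : ℂ} {j : ℕ}
    (hμ : cc hF (GT.idf_mV (FV.vfield_PVB h)) j = μ • (FG.xp X + FG.xq X)) :
    cc hU (idf_N H) j = (2 * μ) • CW.H.map (smap_p (G := G)) X := by
  rw [cc_N_map h hkn H hU hF, hμ, map_smul, map_add, map_ph_xp h hU, map_ph_xq h hU]
  module

/-- **the Chern series of `N ⊗ ℂ`** -/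
theorem cs_N (h : GT.Bla G k) (hkn : k < n) (H : NegB G (k - 1) (nuP K) δ PN)
    (hU : Sub dU (L.US G)) (hF : Sub dF (GT.FF S)) {X : CW.H S} {μ : ℂ} {i j : ℕ}
    (hcs : cs hF (GT.idf_mV (FV.vfield_PVB h)) =
      1 + PowerSeries.C (μ • (FG.xp X + FG.xq X)) * PowerSeries.X ^ i +
        PowerSeries.C ((FG.xp X - FG.xq X) ^ 2) * PowerSeries.X ^ j) :
    cs hU (idf_N H) =
      1 + PowerSeries.C ((2 * μ) • CW.H.map (smap_p (G := G)) X) * PowerSeries.X ^ i := by
  rw [cs_N_map h hkn H hU hF, hcs]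
  have e1 : (CW.H.map (smap_ph h) : CW.H (GT.FF S) →+* CW.H (L.US G)) (μ • (FG.xp X + FG.xq X)) =
      (2 * μ) • CW.H.map (smap_p (G := G)) X := by
    change CW.H.map (smap_ph h) (μ • (FG.xp X + FG.xq X)) = _
    rw [map_smul, map_add, map_ph_xp h hU, map_ph_xq h hU]
    module
  have e2 : (CW.H.map (smap_ph h) : CW.H (GT.FF S) →+* CW.H (L.US G))
      ((FG.xp X - FG.xq X) ^ 2) = 0 := by
    change CW.H.map (smap_ph h) ((FG.xp X - FG.xq X) ^ 2) = _
    rw [map_pow, map_sub, map_ph_xp h hU, map_ph_xq h hU, sub_self]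
    exact zero_pow two_ne_zero
  rw [map_add, map_add, map_mul, map_mul, map_one, PowerSeries.map_C, PowerSeries.map_C, e1, e2,
    map_zero, zero_mul, add_zero, map_pow, PowerSeries.map_X]

end Crest.Agent.R208.PV
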