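import Crest.Agent.R208.PV1

/-! Row 208, block (K9)(ii) of the volume theorem (helper613), part PV2: the real Chern forms of
`N` over `US G` and over the quotient. -/

set_option autoImplicit false
set_option linter.unusedSectionVars false
set_option linter.unusedVariables false

open MeasureTheory Set Filter Topology Module
open scoped ContDiff RealInnerProductSpace
open Crest.GeometryTopology.Submanifold
open Crest.Agent.R241.DDefs
open Crest.Agent.R241.D2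
open Crest.Agent.R208.NN
open Crest.Agent.R208.NB
open Crest.Agent.R208.F Crest.Agent.R208.FI Crest.Agent.R208.CW
open Crest.Agent.R208.CM (Emb Cir Quo jj MM)
open Crest.Agent.R208.T (EC rcl Sm Cl Hom Coh Eqv mtx)

noncomputable section

namespace Crest.Agent.R208.PV

variable {n N k K dU dF : ℕ} {κ : ℝ} {S : Set (Euc N)} {G : Geo n N κ S}
  {δ : ℝ} {PN : Euc N × Euc N → Wt N K →L[ℝ] Wt N K} {x : Euc N → Ext (Euc N)}

theorem rcl_cR (H : NegB G (k - 1) (nuP K) δ PN) (hU : FI.Sub dU (L.US G)) (j : ℕ) :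
    rcl (EW.ec_cfr hU (idf_N H) j) = cc hU (idf_N H) j :=
  EW.rcl_cfr hU (idf_N H) (fun y i j => Complex.ofReal_im _) j

/-- **(K9)(ii)**: the Chern form of `N ⊗ ℂ` is `2 μ / c` times `x` -/
theorem coh_cR (h : GT.Bla G k) (hkn : k < n) (H : NegB G (k - 1) (nuP K) δ PN)
    (hU : FI.Sub dU (L.US G)) (hF : FI.Sub dF (GT.FF S)) (hx : EC S x) {μ c : ℝ} {j : ℕ}
    (hμ : cc hF (GT.idf_mV (FV.vfield_PVB h)) j =
      (μ : ℂ) • (FG.xp ((c : ℂ)⁻¹ • rcl hx) + FG.xq ((c : ℂ)⁻¹ • rcl hx))) :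
    Coh (L.US G) (EW.cR j PN) ((2 * μ / c) • F.pull Prod.fst x) := by
  have h1 := cc_N_mid h hkn H hU hF hμ
  have h2 : rcl (EW.ec_cfr hU (idf_N H) j) = rcl ((hx.pull (smap_p (G := G))).smul (2 * μ / c)) := by
    rw [rcl_cR H hU, h1, T.rcl_smul _ (hx.pull (smap_p (G := G))), T.rcl_pull smap_p hx, map_smul,
      smul_smul]
    congr 1
    push_cast
    ring
  exact (T.rcl_eq_iff _ _).1 h2

/-- the other Chern forms of `N` are exact -/
theorem coh_cR_zero (h : GT.Bla G k) (hkn : k < n) (H : NegB G (k - 1) (nuP K) δ PN)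
    (hU : FI.Sub dU (L.US G)) (hF : FI.Sub dF (GT.FF S)) {X : CW.H S} {μ : ℂ} {i j l : ℕ}
    (hcs : cs hF (GT.idf_mV (FV.vfield_PVB h)) =
      1 + PowerSeries.C (μ • (FG.xp X + FG.xq X)) * PowerSeries.X ^ i +
        PowerSeries.C ((FG.xp X - FG.xq X) ^ 2) * PowerSeries.X ^ j) (h0 : l ≠ 0) (hi : l ≠ i) :
    Coh (L.US G) (EW.cR l PN) 0 := by
  have h1 := cs_N h hkn H hU hF hcs
  have h2 : cc hU (idf_N H) l = 0 := by
    rw [← coeff_cs, h1, map_add, PowerSeries.coeff_one, PowerSeries.coeff_C_mul,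
      PowerSeries.coeff_X_pow, if_neg h0, if_neg hi, mul_zero, add_zero]
  refine (T.rcl_eq_zero_iff (EW.ec_cfr hU (idf_N H) l)).1 ?_
  rw [rcl_cR H hU, h2]

section quo
variable {m d r : ℕ} {g : Euc N × Euc N → Fin m → ℂ}
  {p : Type} [Fintype p] [DecidableEq p]
  {R : ℝ → Wt N K →L[ℝ] Wt N K} {φ : ℝ → Euc N × Euc N → Euc N × Euc N}
  {Tr : Euc N × Euc N → Wt N K →L[ℝ] EuclideanSpace ℝ p}
  {P' : MM m → EuclideanSpace ℝ p →L[ℝ] EuclideanSpace ℝ p}

/-- **(K9)(ii)**, over the quotient: the pull-back of the Chern form of the descended field -/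
theorem coh_pull_cR (h : GT.Bla G k) (hkn : k < n) (H : NegB G (k - 1) (nuP K) δ PN)
    (hF : FI.Sub dF (GT.FF S)) (hx : EC S x) {μ c : ℝ} {j : ℕ}
    (hμ : cc hF (GT.idf_mV (FV.vfield_PVB h)) j =
      (μ : ℂ) • (FG.xp ((c : ℂ)⁻¹ • rcl hx) + FG.xq ((c : ℂ)⁻¹ • rcl hx)))
    (hg : Emb (L.US G) φ g) (hC : Cir (L.US G) φ) (hX : Clo (d + 1) (L.US G)) (hR : CM.Rep R)
    (hT : CM.Triv (L.US G) φ R Tr) (hP : PField (Quo (L.US G) g) (k - 1) P')
    (hP' : ∀ z ∈ L.US G, P' (jj g z) = CM.Qd Tr PN z) :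
    Coh (L.US G) (F.pull (jj g) (EW.cR j P')) ((2 * μ / c) • F.pull Prod.fst x) :=
  (EW.pull_cR hg hC hX hR hT H.pfield hP hP' j).trans (coh_cR h hkn H hX.sub hF hx hμ)

end quo

end Crest.Agent.R208.PV
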