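import Crest.Agent.R208.PV2
import Crest.Agent.R208.FG5
import Crest.Agent.R208.XM8b

/-! Row 208, block (K9)(ii) of the volume theorem (helper613), part PV3: the output theorems, on the
class `x` of `T.XM`. -/

set_option autoImplicit false
set_option linter.unusedSectionVars false
set_option linter.unusedVariables false

open MeasureTheory Set Filter Topology Module
open scoped ContDiff RealInnerProductSpace
open Crest.GeometryTopology.Submanifold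
open Crest.Agent.R241.DDefs
open Crest.Agent.R241.D2
open Crest.Agent.R208.NN
open Crest.Agent.R208.NB
open Crest.Agent.R208.F Crest.Agent.R208.FI Crest.Agent.R208.CW
open Crest.Agent.R208.CM (Emb Cir Quo jj MM)
open Crest.Agent.R208.T (EC rcl Sm Cl Hom Coh Eqv mtx)

noncomputable section

namespace Crest.Agent.R208.PV

variable {n N k K m dF dU : ℕ} {κ : ℝ} {S : Set (Euc N)} {G : Geo n N κ S} {p : Euc N}
  {ι : Type} [Fintype ι] [DecidableEq ι] {W : Euc N × Euc N → (ι × Fin 2 → Fin N) → ℝ}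
  {h : GT.Bla G k} {x : Euc N → Ext (Euc N)}
  {δ : ℝ} {PN : Euc N × Euc N → Wt N K →L[ℝ] Wt N K}

/-- the middle class of `V ⊗ ℂ` on `FF S` in terms of the normalised class of `x` -/
def Mid (h : GT.Bla G k) (ι : Type) [Fintype ι] (hF : FI.Sub dF (GT.FF S)) (hx : EC S x)
    (μ : ℝ) : Prop :=
  cc hF (GT.idf_mV (FV.vfield_PVB h)) (k / 2) =
    (μ : ℂ) • (FG.xp (((VX.nE ι : ℝ) : ℂ)⁻¹ • rcl hx) + FG.xq (((VX.nE ι : ℝ) : ℂ)⁻¹ • rcl hx))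

/-- **(K9)(ii)**, every even `k`: all Chern forms of `N` over `US G` -/
theorem exists_mu (D : T.XM h m W p x) (H : NegB G (k - 1) (nuP K) δ PN)
    (hU : FI.Sub dU (L.US G)) (hF : FI.Sub dF (GT.FF S)) (hx : EC S x) :
    ∃ μ : ℝ, (Odd (k / 2) → μ = 0) ∧ Mid h ι hF hx μ ∧
      Coh (L.US G) (EW.cR (k / 2) PN) ((2 * μ / VX.nE ι) • F.pull Prod.fst x) ∧
      (∀ l, l ≠ 0 → l ≠ k / 2 → Coh (L.US G) (EW.cR l PN) 0) ∧
      cs hU (idf_N H) = 1 + PowerSeries.C ((2 * (μ : ℂ)) • CW.H.map (smap_p (G := G))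
        (((VX.nE ι : ℝ) : ℂ)⁻¹ • rcl hx)) * PowerSeries.X ^ (k / 2) := by
  obtain ⟨μ, h1, h2, h3⟩ := FG.cs_V D hF hx
  exact ⟨μ, h1, h2, coh_cR h D.hkn H hU hF hx h2,
    fun l h0 hl => coh_cR_zero h D.hkn H hU hF h3 h0 hl, cs_N h D.hkn H hU hF h3⟩

end Crest.Agent.R208.PV

namespace Crest.Agent.R208.PV

variable {n N K m dF dU : ℕ} {κ : ℝ} {S : Set (Euc N)} {G : Geo n N κ S} {p : Euc N}
  {ι : Type} [Fintype ι] [DecidableEq ι] {W : Euc N × Euc N → (ι × Fin 2 → Fin N) → ℝ}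
  {h : GT.Bla G 4} {x : Euc N → Ext (Euc N)}
  {δ : ℝ} {PN : Euc N × Euc N → Wt N K →L[ℝ] Wt N K}

theorem nE_four (hι : 2 * Fintype.card ι = 4) : VX.nE ι = 8 := by
  have h1 : Fintype.card ι = 2 := by omega
  rw [VX.nE, h1]
  norm_num [Nat.factorial]

theorem abs_two_of {μ : ℝ} (h1 : ∃ d : ℤ, μ = 2 * (1 + 2 * d)) (h2 : |μ| < 6) : |μ| = 2 := by
  obtain ⟨d, rfl⟩ := h1
  have h3 : |(2 * (1 + 2 * d) : ℤ)| < 6 := by
    have : ((|(2 * (1 + 2 * d) : ℤ)| : ℤ) : ℝ) < 6 := by push_cast; exact h2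
    exact_mod_cast this
  rw [abs_lt] at h3
  have h4 : d = 0 ∨ d = -1 := by omega
  rcases h4 with rfl | rfl
  · norm_num
  · norm_num

/-- **(K9)** for `k = 4`: `|μ| = 2`, from (X10) and (V4) -/
theorem exists_mu_four (D : T.XM h m W p x) (H : NegB G (4 - 1) (nuP K) δ PN)
    (hU : FI.Sub dU (L.US G)) (hF : FI.Sub dF (GT.FF S)) (hx : EC S x) (hM : XM.MainStmt)
    (hlt : ∀ μ : ℝ, cs hF (GT.idf_mV (FV.vfield_PVB h)) = 1 +
        PowerSeries.C ((μ : ℂ) • (FG.xp (((VX.nE ι : ℝ) : ℂ)⁻¹ • rcl hx) +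
          FG.xq (((VX.nE ι : ℝ) : ℂ)⁻¹ • rcl hx))) * PowerSeries.X ^ (4 / 2) +
        PowerSeries.C ((FG.xp (((VX.nE ι : ℝ) : ℂ)⁻¹ • rcl hx) -
          FG.xq (((VX.nE ι : ℝ) : ℂ)⁻¹ • rcl hx)) ^ 2) * PowerSeries.X ^ 4 → |μ| < 6) :
    ∃ μ : ℝ, |μ| = 2 ∧ Mid h ι hF hx μ ∧
      Coh (L.US G) (EW.cR 2 PN) ((μ / 4) • F.pull Prod.fst x) := by
  obtain ⟨μ, h1, h2, h3⟩ := FG.cs_V D hF hx
  have h4 : |μ| = 2 := abs_two_of (XM.mu_four hM D hF hx h2) (hlt μ h3)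
  refine ⟨μ, h4, h2, ?_⟩
  have h5 := coh_cR h D.hkn H hU hF hx h2
  rw [nE_four D.hι] at h5
  have h6 : 2 * μ / 8 = μ / 4 := by ring
  rwa [h6] at h5

/-- **(K9)** for `k = 4`, over the quotient `B = US G / S¹` -/
theorem exists_mu_four_quo {mm d dp : ℕ} {g : Euc N × Euc N → Fin mm → ℂ}
    {R : ℝ → Wt N K →L[ℝ] Wt N K} {φ : ℝ → Euc N × Euc N → Euc N × Euc N}
    {Tr : Euc N × Euc N → Wt N K →L[ℝ] EuclideanSpace ℝ (Fin dp)}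
    {P' : MM mm → EuclideanSpace ℝ (Fin dp) →L[ℝ] EuclideanSpace ℝ (Fin dp)}
    (D : T.XM h m W p x) (H : NegB G (4 - 1) (nuP K) δ PN)
    (hF : FI.Sub dF (GT.FF S)) (hx : EC S x) (hM : XM.MainStmt)
    (hlt : ∀ μ : ℝ, cs hF (GT.idf_mV (FV.vfield_PVB h)) = 1 +
        PowerSeries.C ((μ : ℂ) • (FG.xp (((VX.nE ι : ℝ) : ℂ)⁻¹ • rcl hx) +
          FG.xq (((VX.nE ι : ℝ) : ℂ)⁻¹ • rcl hx))) * PowerSeries.X ^ (4 / 2) +
        PowerSeries.C ((FG.xp (((VX.nE ι : ℝ) : ℂ)⁻¹ • rcl hx) -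
          FG.xq (((VX.nE ι : ℝ) : ℂ)⁻¹ • rcl hx)) ^ 2) * PowerSeries.X ^ 4 → |μ| < 6)
    (hg : Emb (L.US G) φ g) (hC : Cir (L.US G) φ) (hX : Clo (d + 1) (L.US G)) (hR : CM.Rep R)
    (hT : CM.Triv (L.US G) φ R Tr) (hP : PField (Quo (L.US G) g) (4 - 1) P')
    (hP' : ∀ z ∈ L.US G, P' (jj g z) = CM.Qd Tr PN z) :
    ∃ μ : ℝ, |μ| = 2 ∧ Mid h ι hF hx μ ∧
      Coh (L.US G) (EW.cR 2 PN) ((μ / 4) • F.pull Prod.fst x) ∧
      Coh (L.US G) (F.pull (jj g) (EW.cR 2 P')) ((μ / 4) • F.pull Prod.fst x) := by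
  obtain ⟨μ, h1, h2, h3⟩ := exists_mu_four D H hX.sub hF hx hM hlt
  exact ⟨μ, h1, h2, h3, (EW.pull_cR hg hC hX hR hT H.pfield hP hP' 2).trans h3⟩

end Crest.Agent.R208.PV
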