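import Crest.Agent.R208.DIO1

/-!
R208, type (8,2), block (Q2) (helper646): the Diophantine endgame when the coefficient `α` of
`p₃(N) = α e⁶ + β e² x₀` is not known to be `-1`: squares among the discriminants for
`α = ±1` (`β` even) and `α = ±1/2` (`β` odd).
-/

set_option autoImplicit false

namespace Crest.Agent.R208.QA

open DIO (newton between not_sq_of_between not_sq_of_between_int exists_int_sq)

theorem not_sq_odd {n a : ℤ} (ha : 0 ≤ a) (hao : Odd a) (hn : Odd n) (h1 : a ^ 2 < n)
    (h2 : n < (a + 2) ^ 2) (y : ℤ) : y ^ 2 ≠ n := by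
  intro hy
  rw [← hy] at h1 h2 hn
  have a1 : |a| < |y| := sq_lt_sq.mp h1
  have a2 : |y| < |a + 2| := sq_lt_sq.mp h2
  rw [abs_of_nonneg ha] at a1
  rw [abs_of_nonneg (by omega : (0 : ℤ) ≤ a + 2)] at a2
  have h3 : |y| = a + 1 := by omega
  have h4 : Odd y := (Int.odd_pow' (by norm_num)).1 hn
  have h5 : Odd |y| := by
    rcases abs_choice y with h | h <;> rw [h]
    · exact h4
    · exact h4.neg
  rw [h3] at h5
  obtain ⟨r, hr⟩ := hao
  obtain ⟨s, hs⟩ := h5
  omega

/-- `n` is negative or strictly between two consecutive squares -/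
def okc (n : ℤ) (w : ℕ) : Bool := decide (n < 0) || between n.toNat (newton n.toNat 8 w)

theorem not_sq_okc {n : ℤ} {w : ℕ} (h : okc n w = true) (y : ℤ) : y ^ 2 ≠ n := by
  intro hy
  simp only [okc, Bool.or_eq_true, decide_eq_true_eq] at h
  rcases h with h | h
  · have := sq_nonneg y
    omega
  · refine not_sq_of_between h y ?_
    rw [hy, Int.toNat_of_nonneg]
    rw [← hy]
    exact sq_nonneg y

/-! ### `α = 1`, `β = 2 c` -/

def P1 (c : ℤ) : ℤ := 441 * c ^ 4 + 4032 * c ^ 3 + 14874 * c ^ 2 + 216 * c - 45567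

theorem allP1 : (List.range 3100).all (fun n : ℕ => decide ((n : ℤ) - 2200 = -6) ||
    okc (P1 ((n : ℤ) - 2200)) (21 * ((n : ℤ) - 2200).natAbs * ((n : ℤ) - 2200).natAbs
      + 96 * ((n : ℤ) - 2200).natAbs + 500)) = true := by
  decide +kernel

theorem sq_P1 {c y : ℤ} (h : y ^ 2 = P1 c) : c = -6 := by
  by_contra hc
  rcases lt_or_ge c (-2200) with h1 | h1
  · refine not_sq_of_between_int (a := 21 * c ^ 2 + 96 * c + 134) ?_ ?_ ?_ y h
    · nlinarith
    · unfold P1; nlinarith
    · unfold P1; nlinarith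
  · rcases lt_or_ge c 900 with h2 | h2
    · have := List.all_eq_true.mp allP1 (c + 2200).toNat (by
        rw [List.mem_range]; omega)
      have e : (((c + 2200).toNat : ℕ) : ℤ) - 2200 = c := by omega
      simp only [e, Bool.or_eq_true, decide_eq_true_eq] at this
      rcases this with h3 | h3
      · exact hc h3
      · exact not_sq_okc h3 y h
    · refine not_sq_of_between_int (a := 21 * c ^ 2 + 96 * c + 134) ?_ ?_ ?_ y h
      · nlinarith
      · unfold P1; nlinarith
      · unfold P1; nlinarith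

def P2 (c : ℤ) : ℤ := 22201 * c ^ 4 - 28608 * c ^ 3 - 181446 * c ^ 2 + 294696 * c - 45567

theorem allP2 : (List.range 3800).all (fun n : ℕ =>
    okc (P2 ((n : ℤ) - 3000)) (149 * ((n : ℤ) - 3000).natAbs * ((n : ℤ) - 3000).natAbs
      + 96 * ((n : ℤ) - 3000).natAbs + 1500)) = true := by
  decide +kernel

theorem sq_P2 {c y : ℤ} (h : y ^ 2 = P2 c) : False := by
  rcases lt_or_ge c (-3000) with h1 | h1
  · refine not_sq_of_between_int (a := 149 * c ^ 2 - 96 * c - 640) ?_ ?_ ?_ y h
    · nlinarith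
    · unfold P2; nlinarith
    · unfold P2; nlinarith
  · rcases lt_or_ge c 800 with h2 | h2
    · have := List.all_eq_true.mp allP2 (c + 3000).toNat (by
        rw [List.mem_range]; omega)
      have e : (((c + 3000).toNat : ℕ) : ℤ) - 3000 = c := by omega
      simp only [e] at this
      exact not_sq_okc this y h
    · refine not_sq_of_between_int (a := 149 * c ^ 2 - 96 * c - 640) ?_ ?_ ?_ y h
      · nlinarith
      · unfold P2; nlinarith
      · unfold P2; nlinarith

/-! ### `α = 1/2`, `β = 2 c + 1` -/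

def H1 (c : ℤ) : ℤ := 7056 * c ^ 4 + 78624 * c ^ 3 + 300072 * c ^ 2 + 246360 * c - 567087

theorem allH1 : (List.range 3100).all (fun n : ℕ => decide ((n : ℤ) - 2200 = 1) ||
    okc (H1 ((n : ℤ) - 2200)) (84 * ((n : ℤ) - 2200).natAbs * ((n : ℤ) - 2200).natAbs
      + 468 * ((n : ℤ) - 2200).natAbs + 1500)) = true := by
  decide +kernel

theorem sq_H1 {c y : ℤ} (h : y ^ 2 = H1 c) : c = 1 := by
  by_contra hc
  have ho : Odd (H1 c) :=
    ⟨3528 * c ^ 4 + 39312 * c ^ 3 + 150036 * c ^ 2 + 123180 * c - 283544, by unfold H1; ring⟩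
  have hao : Odd (84 * c ^ 2 + 468 * c + 481) := ⟨42 * c ^ 2 + 234 * c + 240, by ring⟩
  rcases lt_or_ge c (-2200) with h1 | h1
  · refine not_sq_odd (a := 84 * c ^ 2 + 468 * c + 481) ?_ hao ho ?_ ?_ y h
    · nlinarith
    · unfold H1; nlinarith
    · unfold H1; nlinarith
  · rcases lt_or_ge c 900 with h2 | h2
    · have := List.all_eq_true.mp allH1 (c + 2200).toNat (by
        rw [List.mem_range]; omega)
      have e : (((c + 2200).toNat : ℕ) : ℤ) - 2200 = c := by omega
      simp only [e, Bool.or_eq_true, decide_eq_true_eq] at this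
      rcases this with h3 | h3
      · exact hc h3
      · exact not_sq_okc h3 y h
    · refine not_sq_odd (a := 84 * c ^ 2 + 468 * c + 481) ?_ hao ho ?_ ?_ y h
      · nlinarith
      · unfold H1; nlinarith
      · unfold H1; nlinarith

def H2 (c : ℤ) : ℤ := 355216 * c ^ 4 + 252704 * c ^ 3 - 1531608 * c ^ 2 + 814040 * c + 174673

theorem allH2 : (List.range 3800).all (fun n : ℕ => decide ((n : ℤ) - 3000 = 1) ||
    okc (H2 ((n : ℤ) - 3000)) (596 * ((n : ℤ) - 3000).natAbs * ((n : ℤ) - 3000).natAbs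
      + 212 * ((n : ℤ) - 3000).natAbs + 1500)) = true := by
  decide +kernel

theorem sq_H2 {c y : ℤ} (h : y ^ 2 = H2 c) : c = 1 := by
  by_contra hc
  have ho : Odd (H2 c) :=
    ⟨177608 * c ^ 4 + 126352 * c ^ 3 - 765804 * c ^ 2 + 407020 * c + 87336, by unfold H2; ring⟩
  have hao : Odd (596 * c ^ 2 + 212 * c - 1323) := ⟨298 * c ^ 2 + 106 * c - 662, by ring⟩
  rcases lt_or_ge c (-3000) with h1 | h1
  · refine not_sq_odd (a := 596 * c ^ 2 + 212 * c - 1323) ?_ hao ho ?_ ?_ y h
    · nlinarith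
    · unfold H2; nlinarith
    · unfold H2; nlinarith
  · rcases lt_or_ge c 800 with h2 | h2
    · have := List.all_eq_true.mp allH2 (c + 3000).toNat (by
        rw [List.mem_range]; omega)
      have e : (((c + 3000).toNat : ℕ) : ℤ) - 3000 = c := by omega
      simp only [e, Bool.or_eq_true, decide_eq_true_eq] at this
      rcases this with h3 | h3
      · exact hc h3
      · exact not_sq_okc h3 y h
    · refine not_sq_odd (a := 596 * c ^ 2 + 212 * c - 1323) ?_ hao ho ?_ ?_ y h
      · nlinarith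
      · unfold H2; nlinarith
      · unfold H2; nlinarith

/-! ### `α = -1/2`, `β = 2 c + 1` -/

def M1 (c : ℤ) : ℤ := 7056 * c ^ 4 + 78624 * c ^ 3 + 209544 * c ^ 2 + 152376 * c + 1178025

theorem allM1 : (List.range 3100).all (fun n : ℕ => decide ((n : ℤ) - 2200 = 1) ||
    okc (M1 ((n : ℤ) - 2200)) (84 * ((n : ℤ) - 2200).natAbs * ((n : ℤ) - 2200).natAbs
      + 468 * ((n : ℤ) - 2200).natAbs + 1500)) = true := by
  decide +kernel

theorem sq_M1 {c y : ℤ} (h : y ^ 2 = M1 c) : c = 1 := by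
  by_contra hc
  have ho : Odd (M1 c) :=
    ⟨3528 * c ^ 4 + 39312 * c ^ 3 + 104772 * c ^ 2 + 76188 * c + 589012, by unfold M1; ring⟩
  have hao : Odd (84 * c ^ 2 + 468 * c - 57) := ⟨42 * c ^ 2 + 234 * c - 29, by ring⟩
  rcases lt_or_ge c (-2200) with h1 | h1
  · refine not_sq_odd (a := 84 * c ^ 2 + 468 * c - 57) ?_ hao ho ?_ ?_ y h
    · nlinarith
    · unfold M1; nlinarith
    · unfold M1; nlinarith
  · rcases lt_or_ge c 900 with h2 | h2
    · have := List.all_eq_true.mp allM1 (c + 2200).toNat (by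
        rw [List.mem_range]; omega)
      have e : (((c + 2200).toNat : ℕ) : ℤ) - 2200 = c := by omega
      simp only [e, Bool.or_eq_true, decide_eq_true_eq] at this
      rcases this with h3 | h3
      · exact hc h3
      · exact not_sq_okc h3 y h
    · refine not_sq_odd (a := 84 * c ^ 2 + 468 * c - 57) ?_ hao ho ?_ ?_ y h
      · nlinarith
      · unfold M1; nlinarith
      · unfold M1; nlinarith

def M2 (c : ℤ) : ℤ := 355216 * c ^ 4 + 252704 * c ^ 3 + 1518984 * c ^ 2 - 850504 * c + 349225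

theorem allM2 : (List.range 3800).all (fun n : ℕ => decide ((n : ℤ) - 3000 = 1) ||
    okc (M2 ((n : ℤ) - 3000)) (596 * ((n : ℤ) - 3000).natAbs * ((n : ℤ) - 3000).natAbs
      + 212 * ((n : ℤ) - 3000).natAbs + 1500)) = true := by
  decide +kernel

theorem sq_M2 {c y : ℤ} (h : y ^ 2 = M2 c) : c = 1 := by
  by_contra hc
  have ho : Odd (M2 c) :=
    ⟨177608 * c ^ 4 + 126352 * c ^ 3 + 759492 * c ^ 2 - 425252 * c + 174612, by unfold M2; ring⟩
  have hao : Odd (596 * c ^ 2 + 212 * c + 1235) := ⟨298 * c ^ 2 + 106 * c + 617, by ring⟩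
  rcases lt_or_ge c (-3000) with h1 | h1
  · refine not_sq_odd (a := 596 * c ^ 2 + 212 * c + 1235) ?_ hao ho ?_ ?_ y h
    · nlinarith
    · unfold M2; nlinarith
    · unfold M2; nlinarith
  · rcases lt_or_ge c 800 with h2 | h2
    · have := List.all_eq_true.mp allM2 (c + 3000).toNat (by
        rw [List.mem_range]; omega)
      have e : (((c + 3000).toNat : ℕ) : ℤ) - 3000 = c := by omega
      simp only [e, Bool.or_eq_true, decide_eq_true_eq] at this
      rcases this with h3 | h3
      · exact hc h3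
      · exact not_sq_okc h3 y h
    · refine not_sq_odd (a := 596 * c ^ 2 + 212 * c + 1235) ?_ hao ho ?_ ?_ y h
      · nlinarith
      · unfold M2; nlinarith
      · unfold M2; nlinarith

end Crest.Agent.R208.QA
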