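import Crest.Agent.R208.QA646
import Crest.Agent.R208.BZ646

/-!
R208, type (8,2), block (Q2) (helper646): from the integrality outputs of block Q
(`β ∈ ℤ`, `2 n₀ ∈ ℤ`, `α + β n₀ ∈ ℤ`, `4 h₂ ∈ ℤ`), the Euler numbers `z₀, z₁, z₂` and the
doubling identity `(E)` to `|∫ e¹⁵| ≤ 78`, i.e. `i ≤ 39`.
-/

set_option autoImplicit false

namespace Crest.Agent.R208.QA

open DIO (exists_int_sq)

/-! ### (Q2a) the possible values of `α` -/

theorem sq_mod16 (b : ℤ) (m : ℤ) (h : b ^ 2 = 16 * m + 8) : False := by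
  have h1 : b ^ 2 % 16 = 8 := by omega
  have h2 : b % 16 = 0 ∨ b % 16 = 1 ∨ b % 16 = 2 ∨ b % 16 = 3 ∨ b % 16 = 4 ∨ b % 16 = 5 ∨
      b % 16 = 6 ∨ b % 16 = 7 ∨ b % 16 = 8 ∨ b % 16 = 9 ∨ b % 16 = 10 ∨ b % 16 = 11 ∨
      b % 16 = 12 ∨ b % 16 = 13 ∨ b % 16 = 14 ∨ b % 16 = 15 := by omega
  rcases h2 with h2 | h2 | h2 | h2 | h2 | h2 | h2 | h2 | h2 | h2 | h2 | h2 | h2 | h2 | h2 | h2 <;>
    simp [pow_two, Int.mul_emod, h2] at h1

/-- `2/α = r`, `α + b m/2 = z` leave `α ∈ {±2, ±1, ±1/2}`; `h₀ ∈ ℤ` kills `±2`, and gives the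
parity of `b`. -/
theorem alpha_cases {α h0 k : ℝ} {b : ℤ} (hk : k = 1 ∨ k = -1)
    (hh : 2 * α ^ 3 * h0 = k * ((b : ℝ) ^ 2 - 12 * α))
    (z0 : ∃ n : ℤ, h0 = n) (zr : ∃ r : ℤ, (r : ℝ) * α = 2)
    (zm : ∃ m z : ℤ, α + b * ((m : ℝ) / 2) = z) :
    ((α = 1 ∨ α = -1) ∧ Even b) ∨ ((α = 1 / 2 ∨ α = -1 / 2) ∧ Odd b) := by
  obtain ⟨n, rfl⟩ := z0
  obtain ⟨r, hr⟩ := zr
  obtain ⟨m, z, hz⟩ := zm
  -- `2 α` is an integer
  have h2 : 2 * α = ((2 * z - b * m : ℤ) : ℝ) := by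
    push_cast
    linarith
  set w : ℤ := 2 * z - b * m with hw
  have hrw : r * w = 4 := by
    have : (r : ℝ) * (w : ℝ) = 4 := by rw [← h2]; linarith
    exact_mod_cast this
  have hwd : w ∣ 4 := ⟨r, by rw [← hrw]; ring⟩
  have hw4 : w = 1 ∨ w = -1 ∨ w = 2 ∨ w = -2 ∨ w = 4 ∨ w = -4 := by
    have h3 : w.natAbs ∣ 4 := by
      have := Int.natAbs_dvd_natAbs.2 hwd
      simpa using this
    have h4 : w.natAbs ≤ 4 := Nat.le_of_dvd (by norm_num) h3
    have h5 : w.natAbs ≠ 3 := by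
      intro h
      rw [h] at h3
      omega
    have h6 : w.natAbs ≠ 0 := by
      intro h
      rw [h] at h3
      omega
    omega
  have hαw : α = (w : ℝ) / 2 := by linarith
  rcases hw4 with h | h | h | h | h | h
  · -- α = 1/2
    right
    refine ⟨Or.inl (by rw [hαw, h]; norm_num), ?_⟩
    rw [← Int.not_even_iff_odd]
    rintro ⟨c, hc⟩
    have : (1 : ℤ) = 2 * z - (c + c) * m := by rw [← hc]; omega
    have h7 : (1 : ℤ) = 2 * (z - c * m) := by rw [this]; ring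
    omega
  · right
    refine ⟨Or.inr (by rw [hαw, h]; norm_num), ?_⟩
    rw [← Int.not_even_iff_odd]
    rintro ⟨c, hc⟩
    have : (-1 : ℤ) = 2 * z - (c + c) * m := by rw [← hc]; omega
    have h7 : (-1 : ℤ) = 2 * (z - c * m) := by rw [this]; ring
    omega
  · left
    have hα : α = 1 := by rw [hαw, h]; norm_num
    refine ⟨Or.inl hα, ?_⟩
    rw [hα] at hh
    have h8 : Even (b ^ 2) := by
      rcases hk with rfl | rfl
      · exact ⟨n + 6, by
          have : (b : ℝ) ^ 2 = 2 * n + 12 := by linarith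
          have : b ^ 2 = 2 * n + 12 := by exact_mod_cast this
          omega⟩
      · exact ⟨-n + 6, by
          have : (b : ℝ) ^ 2 = -(2 * n) + 12 := by linarith
          have : b ^ 2 = -(2 * n) + 12 := by exact_mod_cast this
          omega⟩
    exact (Int.even_pow' (by norm_num)).1 h8
  · left
    have hα : α = -1 := by rw [hαw, h]; norm_num
    refine ⟨Or.inr hα, ?_⟩
    rw [hα] at hh
    have h8 : Even (b ^ 2) := by
      rcases hk with rfl | rfl
      · exact ⟨-n - 6, by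
          have : (b : ℝ) ^ 2 = -(2 * n) - 12 := by linarith
          have : b ^ 2 = -(2 * n) - 12 := by exact_mod_cast this
          omega⟩
      · exact ⟨n - 6, by
          have : (b : ℝ) ^ 2 = 2 * n - 12 := by linarith
          have : b ^ 2 = 2 * n - 12 := by exact_mod_cast this
          omega⟩
    exact (Int.even_pow' (by norm_num)).1 h8
  · exfalso
    have hα : α = 2 := by rw [hαw, h]; norm_num
    rw [hα] at hh
    rcases hk with rfl | rfl
    · have : (b : ℝ) ^ 2 = 16 * n + 24 := by linarith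
      have : b ^ 2 = 16 * n + 24 := by exact_mod_cast this
      exact sq_mod16 b (n + 1) (by omega)
    · have : (b : ℝ) ^ 2 = -(16 * n) + 24 := by linarith
      have : b ^ 2 = -(16 * n) + 24 := by exact_mod_cast this
      exact sq_mod16 b (-n + 1) (by omega)
  · exfalso
    have hα : α = -2 := by rw [hαw, h]; norm_num
    rw [hα] at hh
    rcases hk with rfl | rfl
    · have : (b : ℝ) ^ 2 = -(16 * n) - 24 := by linarith
      have : b ^ 2 = -(16 * n) - 24 := by exact_mod_cast this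
      exact sq_mod16 b (-n - 2) (by omega)
    · have : (b : ℝ) ^ 2 = 16 * n - 24 := by linarith
      have : b ^ 2 = 16 * n - 24 := by exact_mod_cast this
      exact sq_mod16 b (n - 2) (by omega)

/-! ### (Q2c) the discriminants -/

/-- the square root of the discriminant is rational -/
theorem exists_rat_root {α κ G η : ℝ} {b : ℤ} (hκ : κ = 1 ∨ κ = -1) (hα : ∃ q : ℚ, α = q)
    (hG : ∃ q : ℚ, G = q)
    (e2 : 3 * G + (3 - (b : ℝ)) * η - (3 - b) * b / 4 = κ * (85 / 256) * ((b : ℝ) ^ 2 - 12 * α)) :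
    ∃ q : ℚ, 3 * G - (3 - (b : ℝ)) * η = q := by
  obtain ⟨a, rfl⟩ := hα
  obtain ⟨g, rfl⟩ := hG
  rcases hκ with rfl | rfl
  · refine ⟨6 * g - (3 - b) * b / 4 - (85 / 256) * ((b : ℚ) ^ 2 - 12 * a), ?_⟩
    push_cast
    linarith
  · refine ⟨6 * g - (3 - b) * b / 4 + (85 / 256) * ((b : ℚ) ^ 2 - 12 * a), ?_⟩
    push_cast
    linarith

theorem even_case {α κ G η : ℝ} {c : ℤ} (hκ : κ = 1 ∨ κ = -1) (hα : α = 1 ∨ α = -1)
    (hG : ∃ q : ℚ, G = q)
    (e1 : G * η - (3 - 2 * (c : ℝ)) * α / 4 = κ * (1365 / 4096) * α * (2 * c))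
    (e2 : 3 * G + (3 - 2 * (c : ℝ)) * η - (3 - 2 * c) * (2 * c) / 4
      = κ * (85 / 256) * ((2 * (c : ℝ)) ^ 2 - 12 * α)) : c = -6 := by
  obtain ⟨q, hq⟩ := exists_rat_root (b := 2 * c) hκ (α := α)
    (by rcases hα with rfl | rfl
        · exact ⟨1, by norm_num⟩
        · exact ⟨-1, by norm_num⟩) hG (η := η) (by push_cast; exact e2)
  push_cast at hq
  have e3 : (64 * (q : ℝ)) ^ 2
      = 4096 * ((3 * G + (3 - 2 * (c : ℝ)) * η) ^ 2 - 12 * (3 - 2 * c) * (G * η)) := by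
    rw [← hq]; ring
  have key : ∀ E : ℤ, (64 * (q : ℝ)) ^ 2 = (E : ℝ) → ∃ y : ℤ, y ^ 2 = E := by
    intro E hE
    refine exists_int_sq (q := 64 * q) ?_
    exact_mod_cast hE
  rcases hα with rfl | rfl <;> rcases hκ with rfl | rfl
  · obtain ⟨y, hy⟩ := key (P1 c) (by
      have f1 : G * η = (3 - 2 * (c : ℝ)) / 4 + (1365 / 4096) * (2 * c) := by linarith
      have f2 : 3 * G + (3 - 2 * (c : ℝ)) * η
          = (85 / 256) * ((2 * (c : ℝ)) ^ 2 - 12) + (3 - 2 * c) * (2 * c) / 4 := by linarith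
      rw [e3, f1, f2]
      unfold P1
      push_cast
      ring)
    exact sq_P1 hy
  · exfalso
    obtain ⟨y, hy⟩ := key (P2 c) (by
      have f1 : G * η = (3 - 2 * (c : ℝ)) / 4 - (1365 / 4096) * (2 * c) := by linarith
      have f2 : 3 * G + (3 - 2 * (c : ℝ)) * η
          = -(85 / 256) * ((2 * (c : ℝ)) ^ 2 - 12) + (3 - 2 * c) * (2 * c) / 4 := by linarith
      rw [e3, f1, f2]
      unfold P2
      push_cast
      ring)
    exact sq_P2 hy
  · obtain ⟨y, hy⟩ := key (DIO.E1 c) (by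
      have f1 : G * η = -(3 - 2 * (c : ℝ)) / 4 - (1365 / 4096) * (2 * c) := by linarith
      have f2 : 3 * G + (3 - 2 * (c : ℝ)) * η
          = (85 / 256) * ((2 * (c : ℝ)) ^ 2 + 12) + (3 - 2 * c) * (2 * c) / 4 := by linarith
      rw [e3, f1, f2]
      unfold DIO.E1
      push_cast
      ring)
    exact DIO.sq_E1 hy
  · exfalso
    obtain ⟨y, hy⟩ := key (DIO.E2 c) (by
      have f1 : G * η = -(3 - 2 * (c : ℝ)) / 4 + (1365 / 4096) * (2 * c) := by linarith
      have f2 : 3 * G + (3 - 2 * (c : ℝ)) * η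
          = -(85 / 256) * ((2 * (c : ℝ)) ^ 2 + 12) + (3 - 2 * c) * (2 * c) / 4 := by linarith
      rw [e3, f1, f2]
      unfold DIO.E2
      push_cast
      ring)
    exact DIO.sq_E2 hy

theorem odd_case {α κ G η : ℝ} {c : ℤ} (hκ : κ = 1 ∨ κ = -1) (hα : α = 1 / 2 ∨ α = -1 / 2)
    (hG : ∃ q : ℚ, G = q)
    (e1 : G * η - (3 - (2 * (c : ℝ) + 1)) * α / 4 = κ * (1365 / 4096) * α * (2 * c + 1))
    (e2 : 3 * G + (3 - (2 * (c : ℝ) + 1)) * η - (3 - (2 * c + 1)) * (2 * c + 1) / 4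
      = κ * (85 / 256) * ((2 * (c : ℝ) + 1) ^ 2 - 12 * α)) : c = 1 := by
  obtain ⟨q, hq⟩ := exists_rat_root (b := 2 * c + 1) hκ (α := α)
    (by rcases hα with rfl | rfl
        · exact ⟨1 / 2, by norm_num⟩
        · exact ⟨-1 / 2, by norm_num⟩) hG (η := η) (by push_cast; exact e2)
  push_cast at hq
  have e3 : (256 * (q : ℝ)) ^ 2 = 65536 * ((3 * G + (3 - (2 * (c : ℝ) + 1)) * η) ^ 2
      - 12 * (3 - (2 * c + 1)) * (G * η)) := by
    rw [← hq]; ring
  have key : ∀ E : ℤ, (256 * (q : ℝ)) ^ 2 = (E : ℝ) → ∃ y : ℤ, y ^ 2 = E := by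
    intro E hE
    refine exists_int_sq (q := 256 * q) ?_
    exact_mod_cast hE
  rcases hα with rfl | rfl <;> rcases hκ with rfl | rfl
  · obtain ⟨y, hy⟩ := key (H1 c) (by
      have f1 : G * η = (3 - (2 * (c : ℝ) + 1)) / 8 + (1365 / 8192) * (2 * c + 1) := by linarith
      have f2 : 3 * G + (3 - (2 * (c : ℝ) + 1)) * η
          = (85 / 256) * ((2 * (c : ℝ) + 1) ^ 2 - 6)
            + (3 - (2 * c + 1)) * (2 * c + 1) / 4 := by linarith
      rw [e3, f1, f2]
      unfold H1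
      push_cast
      ring)
    exact sq_H1 hy
  · obtain ⟨y, hy⟩ := key (H2 c) (by
      have f1 : G * η = (3 - (2 * (c : ℝ) + 1)) / 8 - (1365 / 8192) * (2 * c + 1) := by linarith
      have f2 : 3 * G + (3 - (2 * (c : ℝ) + 1)) * η
          = -(85 / 256) * ((2 * (c : ℝ) + 1) ^ 2 - 6)
            + (3 - (2 * c + 1)) * (2 * c + 1) / 4 := by linarith
      rw [e3, f1, f2]
      unfold H2
      push_cast
      ring)
    exact sq_H2 hy
  · obtain ⟨y, hy⟩ := key (M1 c) (by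
      have f1 : G * η = -(3 - (2 * (c : ℝ) + 1)) / 8 - (1365 / 8192) * (2 * c + 1) := by linarith
      have f2 : 3 * G + (3 - (2 * (c : ℝ) + 1)) * η
          = (85 / 256) * ((2 * (c : ℝ) + 1) ^ 2 + 6)
            + (3 - (2 * c + 1)) * (2 * c + 1) / 4 := by linarith
      rw [e3, f1, f2]
      unfold M1
      push_cast
      ring)
    exact sq_M1 hy
  · obtain ⟨y, hy⟩ := key (M2 c) (by
      have f1 : G * η = -(3 - (2 * (c : ℝ) + 1)) / 8 + (1365 / 8192) * (2 * c + 1) := by linarith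
      have f2 : 3 * G + (3 - (2 * (c : ℝ) + 1)) * η
          = -(85 / 256) * ((2 * (c : ℝ) + 1) ^ 2 + 6)
            + (3 - (2 * c + 1)) * (2 * c + 1) / 4 := by linarith
      rw [e3, f1, f2]
      unfold M2
      push_cast
      ring)
    exact sq_M2 hy

/-- **(Q2)**, scalar form. -/
theorem scalar_main {α h0 k κ G η : ℝ} {b : ℤ} (hk : k = 1 ∨ k = -1) (hκ : κ = 1 ∨ κ = -1)
    (hh : 2 * α ^ 3 * h0 = k * ((b : ℝ) ^ 2 - 12 * α))
    (hcase : ((α = 1 ∨ α = -1) ∧ Even b) ∨ ((α = 1 / 2 ∨ α = -1 / 2) ∧ Odd b))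
    (hG : ∃ q : ℚ, G = q)
    (e1 : G * η - (3 - (b : ℝ)) * α / 4 = κ * (1365 / 4096) * α * b)
    (e2 : 3 * G + (3 - (b : ℝ)) * η - (3 - b) * b / 4
      = κ * (85 / 256) * ((b : ℝ) ^ 2 - 12 * α)) : |h0| ≤ 78 := by
  rcases hcase with ⟨hα, c, hc⟩ | ⟨hα, c, hc⟩
  · have hc' : b = 2 * c := by omega
    subst hc'
    push_cast at e1 e2 hh
    have hc6 := even_case hκ hα hG e1 e2
    subst hc6
    rw [abs_le]
    rcases hα with rfl | rfl <;> rcases hk with rfl | rfl <;> push_cast at hh <;>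
      constructor <;> linarith
  · subst hc
    push_cast at e1 e2 hh
    have hc1 := odd_case hκ hα hG e1 e2
    subst hc1
    rw [abs_le]
    rcases hα with rfl | rfl <;> rcases hk with rfl | rfl <;> push_cast at hh <;>
      constructor <;> linarith

end Crest.Agent.R208.QA
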