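import Crest.Agent.R208.CQ3
import Crest.Agent.R208.CS2
import Crest.Agent.R208.ZH2
import Crest.Agent.R208.ZH3b
import Crest.Agent.R208.AF9
import Crest.Agent.R208.TX7b
import Crest.Agent.R208.JV7

/-! Row 208, (K10) (helper305), part QK1: **the integrality of `α` for `k = 4`** on the manifold of
geodesics: `4 ≤ |α|`. -/

set_option autoImplicit false
set_option linter.unusedSectionVars false
set_option linter.unusedVariables false

open MeasureTheory Set Filter Topology Module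
open scoped ContDiff RealInnerProductSpace
open Crest.GeometryTopology.Submanifold
open Crest.Agent.R241.DDefs
open Crest.Agent.R241.D2
open Crest.Agent.R208.F Crest.Agent.R208.FI Crest.Agent.R208.CW Crest.Agent.R208.FG
open Crest.Agent.R208.T (Sm Cl Hom Coh Eqv eR OR Sph)
open Crest.Agent.R208.SO (CF2)
open Crest.Agent.R208.L (US)
open Crest.Agent.R208.LB (al)
open Crest.Agent.R208.CM (gf MM jj Quo Emb Curv)
open Crest.Agent.R208.EW (cR)
open Crest.Agent.R208.EP (NLp WNp CPk)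

noncomputable section

namespace Crest.Agent.R208.QK

section fib
variable {n N k : ℕ} {κ : ℝ} {S : Set (Euc N)} {G : Geo n N κ S} {p : Euc N}

/-- the fibre over `p` of `F → S` is the cut locus of `p` -/
theorem J_fib_FF (h : GT.Bla G k) (hp : p ∈ S)
    {w : Euc N × Euc N → Ext (Euc N)} (hF : Clo (n - k) (GT.FF S ∩ Prod.fst ⁻¹' {p}))
    (hw : Ori (n - k) (GP.Cut S p) (fun q => w (p, q))) {a : Euc N → Ext (Euc N)} (sa : Sm S a) :
    J (n - k) (GT.FF S ∩ Prod.fst ⁻¹' {p})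
      (fun z => pb (ContinuousLinearMap.snd ℝ (Euc N) (Euc N) : Euc N × Euc N →ₗ[ℝ] Euc N) (w z))
      (F.pull Prod.snd a) = J (n - k) (GP.Cut S p) (fun q => w (p, q)) a := by
  have hb : BijOn (Prod.snd : Euc N × Euc N → Euc N) (GT.FF S ∩ Prod.fst ⁻¹' {p}) (GP.Cut S p) := by
    refine ⟨?_, ?_, ?_⟩
    · rintro ⟨p', q⟩ ⟨⟨h1, h2, h3⟩, h4⟩
      obtain rfl : p' = p := h4
      exact ⟨h2, h3⟩
    · rintro ⟨p', q⟩ ⟨_, h4⟩ ⟨p'', q'⟩ ⟨_, h5⟩ h6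
      have h4' : p' = p := h4
      have h5' : p'' = p := h5
      have h6' : q = q' := h6
      rw [h4', h5', h6']
    · intro q hq
      exact ⟨(p, q), ⟨⟨hp, hq.1, hq.2⟩, rfl⟩, rfl⟩
  have h1 := J_pull (om := a) hF (FV.clo_Cut h hp) (fun z _ => differentiableAt_snd) hb hw
    (fun q hq => (sa q hq.1).continuousAt.continuousWithinAt)
  rw [← h1]
  refine AF.J_ori_eq hF fun z hz => ?_
  have h2 : z.1 = p := hz.2
  rw [FG.pull_snd_apply, ← h2]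

end fib

/-- the arithmetic -/
theorem arith {α μ X P : ℝ} (hP : 0 < P) (hμ : |μ| = 2) {z₁ z₂ : ℤ}
    (h1 : (2 * P) ^ 2 * z₁ = α / 4 * (2 * P) ^ 2 + μ / 4 * X) (h2 : 2 * X = 32 * P ^ 2 * z₂)
    (hα : α ≠ 0) : 4 ≤ |α| := by
  have hP0 : P ≠ 0 := hP.ne'
  have hX : X = 16 * P ^ 2 * z₂ := by linarith
  have key : ∃ w : ℤ, α = 4 * w := by
    rcases abs_eq_abs.1 (show |μ| = |(2 : ℝ)| by rw [hμ, abs_two]) with hb | hb
    · refine ⟨z₁ - 2 * z₂, ?_⟩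
      rw [hX, hb] at h1
      have h3 : α * P ^ 2 = (4 * (z₁ - 2 * z₂)) * P ^ 2 := by linear_combination -h1
      have h4 := mul_right_cancel₀ (pow_ne_zero 2 hP0) h3
      push_cast
      linarith
    · refine ⟨z₁ + 2 * z₂, ?_⟩
      rw [hX, hb] at h1
      have h3 : α * P ^ 2 = (4 * (z₁ + 2 * z₂)) * P ^ 2 := by linear_combination -h1
      have h4 := mul_right_cancel₀ (pow_ne_zero 2 hP0) h3
      push_cast
      linarith
  obtain ⟨w, rfl⟩ := key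
  have hw0 : w ≠ 0 := by
    rintro rfl
    exact hα (by simp)
  have h5 : (1 : ℝ) ≤ |(w : ℝ)| := by exact_mod_cast Int.one_le_abs hw0
  rw [abs_mul, abs_of_pos (by norm_num : (0 : ℝ) < 4)]
  linarith

variable {n N m mB : ℕ} {κ : ℝ} {S : Set (Euc N)} {G : Geo n N κ S} {p₀ : Euc N}
  {ι₂ : Type} [Fintype ι₂] [DecidableEq ι₂] {W₂ : Euc N × Euc N → (ι₂ × Fin 2 → Fin N) → ℝ}
  {x : Euc N → Ext (Euc N)}
  {g : Euc N × Euc N → Fin mB → ℂ} {Fc y : MM mB → Ext (MM mB)}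
  {pt : Type} [Fintype pt] [DecidableEq pt] {ι : Type} [Fintype ι] [DecidableEq ι] [Nonempty ι]
  {P' : MM mB → EuclideanSpace ℝ pt →L[ℝ] EuclideanSpace ℝ pt}
  {oP : MM mB → Ext (EuclideanSpace ℝ pt)} {f : MM mB × EuclideanSpace ℝ pt → Euc N}
  {c μ α : ℝ}

/-- **(K10)** -/
theorem four_le {h : GT.Bla G 4} (M : T.XM h m W₂ p₀ x)
    (hg : Emb (US G) (gf G) g) (hc : Curv (US G) g (al (N := N)) Fc)
    (hO : SB.OddB ι (Quo (US G) g) 2 P' oP)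
    (sf : SMap (Sph (Quo (US G) g) P') S f) (hy : CF2 (Quo (US G) g) 4 y)
    (hA : Coh (Sph (Quo (US G) g) P') (F.pull f x)
        (F.pull Prod.fst y + (c / 2) • (F.pull Prod.fst Fc * SB.OddB.eV ι hO.hr P' oP)))
    (hp : Coh (Quo (US G) g) (cR 2 P') ((α / 4) • (Fc * Fc) + (μ / 4) • y))
    (hμ : |μ| = 2) (hα : α ≠ 0) : 4 ≤ |α| := by
  have h2k := M.two_k
  have hn2 : 2 ≤ n := by omega
  have hper : HS.Per G := h.ty.per
  have hB := ZG.clo_B h hper hg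
  have hBc := ZG.preconn_B h hn2 hg
  have hne : (Quo (US G) g).Nonempty := by
    obtain ⟨z, hz⟩ := T.nonempty_UST h M.hp
    exact ⟨jj g z, z, hz, rfl⟩
  have hoB := (CM.J_US h.bl hper hg hc).1
  have hdB : ∀ y, IsDeg (2 * (n - 1)) (Fc y ^ (n - 1)) := fun y => (T.Hom.pow hc.hom (n - 1)) y
  have heF : CF2 (Quo (US G) g) 2 Fc := ⟨hc.sm, hc.cl, hc.hom, ⟨1, rfl⟩⟩
  have hYc : IsPreconnected (Sph (Quo (US G) g) P') :=
    ZG.preconn_Sph hB.compact hBc hO.pf (by norm_num)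
  have e4 : T.EC (Quo (US G) g) (cR 2 P') := EW.ec_cfr hB.sub (EW.idF_of_pfield hO.pf) 2
  have sp : Sm (Quo (US G) g) (cR 2 P') := e4.sm
  have hp0 : CF2 (Quo (US G) g) 4 (cR 2 P') := ⟨e4.sm, e4.cl, EW.hom_cfr 2, ⟨2, rfl⟩⟩
  -- the chain
  obtain ⟨c₄, hc₄⟩ := CS.start_in h (CS.cb_US h.bl hper hg hc) hc.cl hc.hom hne 2 (by norm_num)
    (by omega)
  -- (n0)
  obtain ⟨oS, hoS, soS, hdS⟩ := GP.exists_ori (G := G) h.bl h.ty (by norm_num : 2 ≤ 4)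
  obtain ⟨w, hws, hwd, hwo, hos⟩ := SB.exists_osubm_F h (by norm_num) M.hkn hoS hdS
  have hV : ∀ z, IsDeg (n - 4) (pb (ContinuousLinearMap.snd ℝ (Euc N) (Euc N) :
      Euc N × Euc N →ₗ[ℝ] Euc N) (w z)) := fun z => (hwd z).pb _
  have e7 : J (n - 4) (GT.FF S ∩ Prod.fst ⁻¹' {p₀}) (fun z => pb (ContinuousLinearMap.snd ℝ
      (Euc N) (Euc N) : Euc N × Euc N →ₗ[ℝ] Euc N) (w z)) (F.pull Prod.snd x ^ (m - 1)) =
      J (n - 4) (GP.Cut S p₀) (fun q => w (p₀, q)) (x ^ (m - 1)) := by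
    rw [← T.pull_pow']
    exact J_fib_FF h M.hp (hos.subm.clo_fibre p₀) (hwo p₀ M.hp) (T.Sm.pow M.sx _)
  have h3 := JV.abs_J_S M hoS M.hp (hwo p₀ M.hp)
  have h4 := M.J_ne hoS
  rw [← e7] at h3
  obtain ⟨z₂, hz₂⟩ := QT.n0 (l := c / 2) CQ.intM M hos hV (fun h0 => h4 (by
      rw [h0, abs_zero, mul_zero] at h3
      exact abs_eq_zero.1 h3)) h3 hO (by norm_num) hB hBc hne hYc hoB hdB heF hy
    (p3 := VX.nE ι ^ 2 • cR 2 P') (hp0.smul (VX.nE ι ^ 2))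
    (by rw [T.pull_smul']; exact hO.sq_eV hB.sub) sf hA c₄
  -- integrality of the Chern number
  obtain ⟨z₁, hz₁⟩ := QS.int_cR (s := 1) (ι := Fin 3) hB hBc hO.pf hO.sy rfl (by norm_num) c₄
    (CQ.IT_of hB hBc hO.pf hO.sy rfl (by norm_num) c₄)
  have sF : Sm (Quo (US G) g) Fc := hc.sm
  have e1 : c₄.I (cR 2 P') = c₄.I ((α / 4) • (Fc * Fc) + (μ / 4) • y) :=
    c₄.I_coh sp (((sF.mul sF).smul _).add (hy.sm.smul _)) hp
  rw [c₄.I_add ((sF.mul sF).smul _) (hy.sm.smul _), c₄.I_smul, c₄.I_smul, ← sq Fc, hc₄] at e1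
  have hz₁' : c₄.I (cR 2 P') = (2 * Real.pi) ^ 2 * z₁ := hz₁
  rw [hz₁'] at e1
  have hcard₂ : Fintype.card ι₂ = 2 := by have := M.hι; omega
  have ht : XF.tau ι₂ = 32 * Real.pi ^ 2 := by
    rw [XF.tau, hcard₂]; norm_num [Nat.factorial]; ring
  rw [ht] at hz₂
  exact arith Real.pi_pos hμ e1 hz₂ hα

end Crest.Agent.R208.QK
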