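import Crest.Agent.R208.FI2d

/-! Row 208, block Q (helper595).  QO1: smooth images of submanifolds of small dimension (Hausdorff
dimension): a `d`-dimensional submanifold does not fill an open set of dimension `> d`. -/

set_option autoImplicit false
set_option linter.unusedSectionVars false

open MeasureTheory Set Filter Topology Module
open scoped ContDiff NNReal ENNReal
open Crest.Agent.R208.F Crest.Agent.R208.FI

noncomputable section

namespace Crest.Agent.R208.QO

variable {E F : Type*} [NormedAddCommGroup E] [NormedSpace ℝ E] [FiniteDimensional ℝ E]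
  [NormedAddCommGroup F] [NormedSpace ℝ F] [FiniteDimensional ℝ F] {X A : Set E} {d : ℕ}
  {f : E → F}

theorem dimH_image_le' {s : Set E} (hf : ∀ x ∈ s, ContDiffAt ℝ 1 f x) :
    dimH (f '' s) ≤ dimH s := by
  refine dimH_image_le_of_locally_lipschitzOn fun x hx => ?_
  obtain ⟨K, t, ht, hK⟩ := (hf x hx).exists_lipschitzOnWith
  exact ⟨K, t, mem_nhdsWithin_of_mem_nhds ht, hK⟩

theorem dimH_sub (hX : Sub d X) : dimH X ≤ d := by
  by_contra hlt
  obtain ⟨x, hx, h⟩ := exists_mem_nhdsWithin_lt_dimH_of_lt_dimH (not_le.1 hlt)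
  obtain ⟨f, W, O, ℓ, h1, h2⟩ := hX.exists_loc hx
  have h3 : f '' W ∈ 𝓝[X] x := by
    rw [h1.img]
    exact inter_mem self_mem_nhdsWithin (mem_nhdsWithin_of_mem_nhds (h1.oO.mem_nhds h2))
  have h4 := h _ h3
  have h5 : dimH (f '' W) ≤ dimH W :=
    dimH_image_le' fun w hw => (h1.fC' hw).of_le (by exact_mod_cast le_top)
  have h6 : dimH W ≤ (d : ℝ≥0∞) := by
    refine (dimH_mono (subset_univ W)).trans ?_
    rw [Real.dimH_univ_eq_finrank]
    simp
  exact absurd (h4.trans_le (h5.trans h6)) (lt_irrefl _)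

/-- the smooth image of a subset of a `d`-dimensional submanifold has dimension `≤ d` -/
theorem dimH_image_sub (hX : Sub d X) (hA : A ⊆ X) (hf : ∀ x ∈ A, ContDiffAt ℝ 1 f x) :
    dimH (f '' A) ≤ d :=
  (dimH_image_le' hf).trans ((dimH_mono hA).trans (dimH_sub hX))

/-- **a smooth map from something of smaller dimension misses a point of every open set** -/
theorem dense_compl (hX : Sub d X) (hA : A ⊆ X) (hf : ∀ x ∈ A, ContDiffAt ℝ 1 f x)
    (hd : d < finrank ℝ F) : Dense (f '' A)ᶜ := by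
  refine dense_compl_of_dimH_lt_finrank ((dimH_image_sub hX hA hf).trans_lt ?_)
  exact_mod_cast hd

/-- finitely many such images -/
theorem exists_notMem (hX : Sub d X) (hA : A ⊆ X) (hf : ∀ x ∈ A, ContDiffAt ℝ 1 f x)
    (hd : d < finrank ℝ F) {O : Set F} (hO : IsOpen O) (hne : O.Nonempty) :
    ∃ a ∈ O, a ∉ f '' A := by
  obtain ⟨a, ha, hb⟩ := (dense_compl hX hA hf hd).inter_open_nonempty O hO hne
  exact ⟨a, ha, hb⟩

/-- two of them -/
theorem exists_notMem₂ {E' : Type*} [NormedAddCommGroup E'] [NormedSpace ℝ E']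
    [FiniteDimensional ℝ E'] {X' A' : Set E'} {d' : ℕ} {f' : E' → F}
    (hX : Sub d X) (hA : A ⊆ X) (hf : ∀ x ∈ A, ContDiffAt ℝ 1 f x) (hd : d < finrank ℝ F)
    (hX' : Sub d' X') (hA' : A' ⊆ X') (hf' : ∀ x ∈ A', ContDiffAt ℝ 1 f' x)
    (hd' : d' < finrank ℝ F) : ∃ a, a ∉ f '' A ∧ a ∉ f' '' A' := by
  have h : dimH (f '' A ∪ f' '' A') < (finrank ℝ F : ℕ) := by
    rw [dimH_union, max_lt_iff]
    exact ⟨(dimH_image_sub hX hA hf).trans_lt (by exact_mod_cast hd),
      (dimH_image_sub hX' hA' hf').trans_lt (by exact_mod_cast hd')⟩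
  have h2 := dense_compl_of_dimH_lt_finrank h
  obtain ⟨a, ha⟩ := h2.nonempty
  exact ⟨a, fun h => ha (Or.inl h), fun h => ha (Or.inr h)⟩

/-- a smooth map from `W` (dimension `D`) to an `n`-dimensional submanifold, `D < n`, misses a
point -/
theorem exists_missed {S : Set F} {n : ℕ} (hS : Sub n S) (hne : S.Nonempty) (hX : Sub d X)
    (hf : ∀ x ∈ X, ContDiffAt ℝ 1 f x) (hd : d < n) : ∃ q ∈ S, q ∉ f '' X := by
  obtain ⟨s, hs⟩ := hne
  obtain ⟨g, W, O, ℓ, h1, h2⟩ := hS.exists_loc hs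
  have hW : W.Nonempty := ⟨ℓ s, h1.maps s h2⟩
  obtain ⟨a, ha, hna⟩ := exists_notMem (f := fun x => ℓ (f x)) (A := {x ∈ X | f x ∈ O}) hX
    (fun x hx => hx.1) (fun x hx => ((h1.lC' hx.2).of_le (by exact_mod_cast le_top)).comp x
      (hf x hx.1)) (by rw [finrank_euclideanSpace_fin]; exact hd) h1.oW hW
  refine ⟨g a, (h1.mem ha).1, ?_⟩
  rintro ⟨x, hx, hxa⟩
  refine hna ⟨x, ⟨hx, by rw [hxa]; exact (h1.mem ha).2⟩, ?_⟩
  change ℓ (f x) = a
  rw [hxa, h1.inv a ha]

end Crest.Agent.R208.QO
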