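import Crest.Agent.R208.QO1
import Crest.Agent.R208.GP2e
import Crest.Agent.R208.J3

/-! Row 208, block Q (helper595).  QO2: pointwise deformation of unit tangent vectors along radial
geodesics (parallel transport) followed by a rotation to a given unit vector. -/

set_option autoImplicit false
set_option linter.unusedSectionVars false

open MeasureTheory Set Filter Topology Module
open scoped ContDiff RealInnerProductSpace
open Crest.GeometryTopology.Submanifold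
open Crest.Agent.R241.DDefs
open Crest.Agent.R241.D2
open Crest.Agent.R208.F Crest.Agent.R208.FI
open Crest.Agent.R208.L (US)
open Crest.Agent.R208.J (PT PTi)

noncomputable section

namespace Crest.Agent.R208.QO

variable {n N : ℕ} {κ : ℝ} {S : Set (Euc N)} {G : Geo n N κ S}

/-- normalisation -/
def nrm {H : Type*} [NormedAddCommGroup H] [NormedSpace ℝ H] (v : H) : H := ‖v‖⁻¹ • v

theorem norm_nrm {H : Type*} [NormedAddCommGroup H] [NormedSpace ℝ H] {v : H} (h : v ≠ 0) :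
    ‖nrm v‖ = 1 := by
  rw [nrm, norm_smul, norm_inv, norm_norm, inv_mul_cancel₀ (norm_ne_zero_iff.2 h)]

theorem nrm_of_one {H : Type*} [NormedAddCommGroup H] [NormedSpace ℝ H] {v : H} (h : ‖v‖ = 1) :
    nrm v = v := by rw [nrm, h, inv_one, one_smul]

theorem contDiffAt_nrm {H : Type*} [NormedAddCommGroup H] [InnerProductSpace ℝ H] {v : H}
    (h : v ≠ 0) : ContDiffAt ℝ ∞ (nrm (H := H)) v :=
  ((contDiffAt_norm ℝ h).inv (norm_ne_zero_iff.2 h)).smul contDiffAt_id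

/-- first cut-off: `0` for `t ≤ 0`, `1` for `t ≥ 1/2` -/
def lam (t : ℝ) : ℝ := Real.smoothTransition (2 * t)
/-- second cut-off: `0` for `t ≤ 1/2`, `1` for `t ≥ 1` -/
def muu (t : ℝ) : ℝ := Real.smoothTransition (2 * t - 1)

theorem contDiff_lam : ContDiff ℝ ∞ lam := Real.smoothTransition.contDiff.comp (by fun_prop)
theorem contDiff_muu : ContDiff ℝ ∞ muu := Real.smoothTransition.contDiff.comp (by fun_prop)
theorem lam_zero {t : ℝ} (h : t ≤ 0) : lam t = 0 := Real.smoothTransition.zero_of_nonpos (by linarith)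
theorem lam_one {t : ℝ} (h : 1 / 2 ≤ t) : lam t = 1 := Real.smoothTransition.one_of_one_le (by linarith)
theorem muu_zero {t : ℝ} (h : t ≤ 1 / 2) : muu t = 0 :=
  Real.smoothTransition.zero_of_nonpos (by linarith)
theorem muu_one {t : ℝ} (h : 1 ≤ t) : muu t = 1 := Real.smoothTransition.one_of_one_le (by linarith)
theorem muu_nonneg (t : ℝ) : 0 ≤ muu t := Real.smoothTransition.nonneg _
theorem muu_le_one (t : ℝ) : muu t ≤ 1 := Real.smoothTransition.le_one _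

/-- the vector at the other end of the radial geodesic -/
def ue (G : Geo n N κ S) (Γ : Euc N → Euc N × Euc N) (z : Euc N × Euc N) : Euc N :=
  PTi G (Γ z.1) 1 z.2

/-- the vector of the deformation before normalisation -/
def cc (G : Geo n N κ S) (Γ : Euc N → Euc N × Euc N) (e : Euc N × Euc N → Euc N)
    (ζ : (Euc N × Euc N) × ℝ) : Euc N :=
  (1 - muu ζ.2) • PT G (Γ ζ.1.1) (1 - lam ζ.2) (ue G Γ ζ.1) + muu ζ.2 • e ζ.1

/-- the deformation -/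
def RR (G : Geo n N κ S) (Γ : Euc N → Euc N × Euc N) (e : Euc N × Euc N → Euc N)
    (ζ : (Euc N × Euc N) × ℝ) : Euc N × Euc N :=
  ((fl G (Γ ζ.1.1, 1 - lam ζ.2)).1, nrm (cc G Γ e ζ))

/-- hypotheses: `Γ x` is the initial vector of a geodesic which is at `x` at time one -/
structure Rad (G : Geo n N κ S) (Γ : Euc N → Euc N × Euc N) (x : Euc N) : Prop where
  sm : ContDiffAt ℝ ∞ Γ x
  mem : Γ x ∈ TS G
  ex : Exp G (Γ x).1 (Γ x).2 = x

theorem Rad.norm_ue {Γ : Euc N → Euc N × Euc N} {z : Euc N × Euc N} (h : Rad G Γ z.1)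
    (hz : z ∈ US G) : ‖ue G Γ z‖ = 1 := by rw [ue, J.norm_PTi h.mem]; exact hz.2

theorem Rad.ue_mem {Γ : Euc N → Euc N × Euc N} {z : Euc N × Euc N} (h : Rad G Γ z.1)
    (hz : z ∈ US G) : ue G Γ z ∈ G.T (Γ z.1).1 := by
  refine J.PTi_mem h.mem 1 ?_
  have h1 : (fl G (Γ z.1, 1)).1 = z.1 := h.ex
  rw [h1]; exact hz.1.2

theorem Rad.contDiffAt_ue {Γ : Euc N → Euc N × Euc N} {z : Euc N × Euc N} (h : Rad G Γ z.1) :
    ContDiffAt ℝ ∞ (ue G Γ) z := by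
  have h1 : ContDiffAt ℝ ∞ (fun y : Euc N × Euc N => Γ y.1) z := h.sm.comp z contDiffAt_fst
  have h2 := ContDiffAt.comp (g := fun y : (Euc N × Euc N) × ℝ => PTi G y.1 y.2)
    (f := fun y : Euc N × Euc N => (Γ y.1, (1 : ℝ))) z (J.contDiffAt_PTi h.mem 1)
    (h1.prodMk contDiffAt_const)
  exact h2.clm_apply contDiffAt_snd

section stage
variable {Γ : Euc N → Euc N × Euc N} {e : Euc N × Euc N → Euc N} {z : Euc N × Euc N}

theorem cc_early {t : ℝ} (ht : t ≤ 1 / 2) :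
    cc G Γ e (z, t) = PT G (Γ z.1) (1 - lam t) (ue G Γ z) := by
  rw [cc, muu_zero ht, sub_zero, one_smul, zero_smul, add_zero]

theorem cc_late {t : ℝ} (ht : 1 / 2 ≤ t) :
    cc G Γ e (z, t) = (1 - muu t) • ue G Γ z + muu t • e z := by
  rw [cc, lam_one ht, sub_self, J.PT_zero]; rfl

theorem comb_ne {H : Type*} [NormedAddCommGroup H] [NormedSpace ℝ H] {u v : H} {m : ℝ}
    (hu : ‖u‖ = 1) (hv : ‖v‖ = 1) (h : u + v ≠ 0) (h0 : 0 ≤ m) (h1 : m ≤ 1) :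
    (1 - m) • u + m • v ≠ 0 := by
  intro h2
  have h3 : (1 - m) • u = -(m • v) := eq_neg_of_add_eq_zero_left h2
  have h4 := congrArg norm h3
  rw [norm_neg, norm_smul, norm_smul, hu, hv, mul_one, mul_one, Real.norm_of_nonneg h0,
    Real.norm_of_nonneg (by linarith)] at h4
  have h5 : m = 1 / 2 := by linarith
  subst h5
  apply h
  have h6 : (1 / 2 : ℝ) • (u + v) = 0 := by
    rw [smul_add]
    rw [show (1 - 1 / 2 : ℝ) = 1 / 2 by norm_num] at h2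
    exact h2
  exact (smul_eq_zero.1 h6).resolve_left (by norm_num)

theorem cc_ne (h : Rad G Γ z.1) (hz : z ∈ US G) (he1 : ‖e z‖ = 1) (hne : ue G Γ z + e z ≠ 0)
    (t : ℝ) : cc G Γ e (z, t) ≠ 0 := by
  rcases le_total t (1 / 2) with ht | ht
  · rw [cc_early ht, ← norm_ne_zero_iff, J.norm_PT h.mem, h.norm_ue hz]; exact one_ne_zero
  · rw [cc_late ht]
    exact comb_ne (h.norm_ue hz) he1 hne (muu_nonneg t) (muu_le_one t)

theorem RR_mem (h : Rad G Γ z.1) (hz : z ∈ US G) (he : e z ∈ G.T (Γ z.1).1) (he1 : ‖e z‖ = 1)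
    (hne : ue G Γ z + e z ≠ 0) (t : ℝ) : RR G Γ e (z, t) ∈ US G := by
  refine ⟨⟨(fl_mem G h.mem _).1, ?_⟩, norm_nrm (cc_ne h hz he1 hne t)⟩
  change nrm (cc G Γ e (z, t)) ∈ G.T (fl G (Γ z.1, 1 - lam t)).1
  refine (G.T _).smul_mem _ ?_
  rcases le_total t (1 / 2) with ht | ht
  · rw [cc_early ht]
    exact J.PT_mem h.mem _ (h.ue_mem hz)
  · rw [cc_late ht, lam_one ht, sub_self, fl_zero]
    exact (G.T _).add_mem ((G.T _).smul_mem _ (h.ue_mem hz)) ((G.T _).smul_mem _ he)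

theorem RR_zero (h : Rad G Γ z.1) (hz : z ∈ US G) {t : ℝ} (ht : t ≤ 0) : RR G Γ e (z, t) = z := by
  have h1 : (fl G (Γ z.1, 1)).1 = z.1 := h.ex
  refine Prod.ext ?_ ?_
  · change (fl G (Γ z.1, 1 - lam t)).1 = z.1
    rw [lam_zero ht, sub_zero, h1]
  · change nrm (cc G Γ e (z, t)) = z.2
    rw [cc_early (by linarith), lam_zero ht, sub_zero, ue, J.PT_PTi h.mem]
    exact nrm_of_one hz.2

theorem RR_one (he1 : ‖e z‖ = 1) {t : ℝ} (ht : 1 ≤ t) :
    RR G Γ e (z, t) = ((Γ z.1).1, e z) := by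
  refine Prod.ext ?_ ?_
  · change (fl G (Γ z.1, 1 - lam t)).1 = (Γ z.1).1
    rw [lam_one (by linarith), sub_self, fl_zero]
  · change nrm (cc G Γ e (z, t)) = e z
    rw [cc_late (by linarith), muu_one ht, sub_self, zero_smul, zero_add, one_smul]
    exact nrm_of_one he1

theorem contDiffAt_RR (h : Rad G Γ z.1) (hz : z ∈ US G) (hs : ContDiffAt ℝ ∞ e z)
    (he1 : ‖e z‖ = 1) (hne : ue G Γ z + e z ≠ 0) (t : ℝ) : ContDiffAt ℝ ∞ (RR G Γ e) (z, t) := by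
  have a0 : ContDiffAt ℝ ∞ (fun y : (Euc N × Euc N) × ℝ => y.1.1) (z, t) := by fun_prop
  have a1 : ContDiffAt ℝ ∞ (fun y : (Euc N × Euc N) × ℝ => Γ y.1.1) (z, t) :=
    ContDiffAt.comp (g := Γ) (z, t) h.sm a0
  have a2 : ContDiffAt ℝ ∞ (fun y : (Euc N × Euc N) × ℝ => 1 - lam y.2) (z, t) :=
    contDiffAt_const.sub (contDiff_lam.contDiffAt.comp _ contDiffAt_snd)
  have a3 : ContDiffAt ℝ ∞ (fun y : (Euc N × Euc N) × ℝ => muu y.2) (z, t) :=
    contDiff_muu.contDiffAt.comp _ contDiffAt_snd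
  have b1 : ContDiffAt ℝ ∞ (fun y : (Euc N × Euc N) × ℝ => fl G (Γ y.1.1, 1 - lam y.2)) (z, t) :=
    ContDiffAt.comp (g := fl G) (z, t) (contDiffAt_fl' G h.mem (1 - lam t)) (a1.prodMk a2)
  have b2 : ContDiffAt ℝ ∞ (fun y : (Euc N × Euc N) × ℝ => PT G (Γ y.1.1) (1 - lam y.2)) (z, t) :=
    ContDiffAt.comp (g := fun y : (Euc N × Euc N) × ℝ => PT G y.1 y.2) (z, t)
      (J.contDiffAt_PT h.mem (1 - lam t)) (a1.prodMk a2)
  have b3 : ContDiffAt ℝ ∞ (fun y : (Euc N × Euc N) × ℝ => ue G Γ y.1) (z, t) :=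
    ContDiffAt.comp (g := ue G Γ) (z, t) h.contDiffAt_ue contDiffAt_fst
  have b4 : ContDiffAt ℝ ∞ (fun y : (Euc N × Euc N) × ℝ => e y.1) (z, t) :=
    ContDiffAt.comp (g := e) (z, t) hs contDiffAt_fst
  have c1 : ContDiffAt ℝ ∞ (cc G Γ e) (z, t) :=
    ((contDiffAt_const.sub a3).smul (b2.clm_apply b3)).add (a3.smul b4)
  exact b1.fst.prodMk (ContDiffAt.comp (g := nrm) (z, t)
    (contDiffAt_nrm (cc_ne h hz he1 hne t)) c1)

end stage

/-- **the pointwise two stage deformation**: from `z` to `(Γ z.1).1, e z`, near a set `K` -/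
theorem two_stage {Γ : Euc N → Euc N × Euc N} {D : Set (Euc N)} (hD : IsOpen D)
    (hΓ : ∀ x ∈ S ∩ D, Rad G Γ x) {e : Euc N × Euc N → Euc N} {A : Set (Euc N × Euc N)}
    (hA : IsOpen A) (he : ∀ z ∈ A ∩ US G, z.1 ∈ D → ContDiffAt ℝ ∞ e z ∧ e z ∈ G.T (Γ z.1).1 ∧
      ‖e z‖ = 1) {K : Set (Euc N × Euc N)} (hK : K ⊆ US G) (hKA : K ⊆ A) (hKD : ∀ z ∈ K, z.1 ∈ D)
    (hKe : ∀ z ∈ K, ue G Γ z + e z ≠ 0) :
    ∃ (U : Set (Euc N × Euc N)) (R : (Euc N × Euc N) × ℝ → Euc N × Euc N), IsOpen U ∧ K ⊆ U ∧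
      U ⊆ A ∧ (∀ z ∈ U, z.1 ∈ D) ∧
      (∀ z ∈ U ∩ US G, ∀ t, ContDiffAt ℝ ∞ R (z, t)) ∧
      (∀ z ∈ U ∩ US G, ∀ t, R (z, t) ∈ US G) ∧
      (∀ z ∈ U ∩ US G, ∀ t ≤ 0, R (z, t) = z) ∧
      (∀ z ∈ U ∩ US G, ∀ t, 1 ≤ t → R (z, t) = ((Γ z.1).1, e z)) := by
  set B : Set (Euc N × Euc N) := {z | z ∈ A ∧ z.1 ∈ D ∧ (z ∈ US G → ue G Γ z + e z ≠ 0)} with hB
  have hKB : K ⊆ interior B := by
    intro z hz
    rw [mem_interior_iff_mem_nhds]
    have hzU := hK hz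
    have h1 : ∀ᶠ y in 𝓝 z, y ∈ A := hA.mem_nhds (hKA hz)
    have h2 : ∀ᶠ y : Euc N × Euc N in 𝓝 z, y.1 ∈ D :=
      (hD.preimage continuous_fst).mem_nhds (hKD z hz)
    have hr := hΓ z.1 ⟨hzU.1.1, hKD z hz⟩
    have hc : ContinuousAt (fun y => ue G Γ y + e y) z :=
      (hr.contDiffAt_ue.add (he z ⟨hKA hz, hzU⟩ (hKD z hz)).1).continuousAt
    have h3 : ∀ᶠ y in 𝓝 z, ue G Γ y + e y ≠ 0 := hc.eventually_ne (hKe z hz)
    filter_upwards [h1, h2, h3] with y y1 y2 y3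
    exact ⟨y1, y2, fun _ => y3⟩
  have hprop : ∀ z ∈ interior B ∩ US G, Rad G Γ z.1 ∧ ContDiffAt ℝ ∞ e z ∧
      e z ∈ G.T (Γ z.1).1 ∧ ‖e z‖ = 1 ∧ ue G Γ z + e z ≠ 0 := by
    intro z hz
    obtain ⟨b1, b2, b3⟩ := interior_subset hz.1
    obtain ⟨c1, c2, c3⟩ := he z ⟨b1, hz.2⟩ b2
    exact ⟨hΓ z.1 ⟨hz.2.1.1, b2⟩, c1, c2, c3, b3 hz.2⟩
  refine ⟨interior B, RR G Γ e, isOpen_interior, hKB, fun z hz => (interior_subset hz).1,
    fun z hz => (interior_subset hz).2.1, fun z hz t => ?_, fun z hz t => ?_, fun z hz t ht => ?_,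
    fun z hz t ht => ?_⟩
  · obtain ⟨a, b, c, d, f⟩ := hprop z hz
    exact contDiffAt_RR a hz.2 b d f t
  · obtain ⟨a, b, c, d, f⟩ := hprop z hz
    exact RR_mem a hz.2 c d f t
  · exact RR_zero (hprop z hz).1 hz.2 ht
  · exact RR_one (hprop z hz).2.2.2.1 ht

end Crest.Agent.R208.QO
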