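import Crest.Agent.R208.CH2
import Crest.Agent.R208.GP2e
import Crest.Agent.R208.TX3
import Crest.Agent.R208.FG1c

/-! Row 208, block Q (helper586), part QS1: products of (thin) chains with a closed manifold. -/

set_option autoImplicit false
set_option linter.unusedSectionVars false

open MeasureTheory MeasureTheory.Measure Set Filter Topology Module
open scoped ContDiff
open Crest.Agent.R208.F Crest.Agent.R208.FI Crest.Agent.R208.CW Crest.Agent.R208.FG

noncomputable section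

namespace Crest.Agent.R208.QS

variable {E E' F' : Type*} [NormedAddCommGroup E] [NormedSpace ℝ E] [FiniteDimensional ℝ E]
  [NormedAddCommGroup E'] [NormedSpace ℝ E'] [FiniteDimensional ℝ E']
  [NormedAddCommGroup F'] [NormedSpace ℝ F'] [FiniteDimensional ℝ F']
  {d r b : ℕ} {Z : Set E} {C : Set F'} {B : Set E'} {g : E → E'} {χ : E → ℝ}
  {oZ η : E → Ext E} {oC om : F' → Ext F'}

theorem FP_const : FP Z C (fun _ : E => (0 : ℝ)) (fun _ : F' => (0 : ℝ)) = Z ×ˢ C := by
  ext z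
  exact ⟨fun h => ⟨h.1, h.2.1⟩, fun h => ⟨h.1, h.2, rfl⟩⟩

theorem clo_zero : Clo 0 ({0} : Set ℝ) := (T.sub_point (0 : ℝ)).clo isCompact_singleton

theorem osubm_const (hZ : Clo d Z) (ho : Ori d Z oZ) :
    OSubm d 0 Z ({0} : Set ℝ) (fun _ => (0 : ℝ)) oZ (fun _ => 1) where
  subm := ⟨by rw [add_zero]; exact hZ, clo_zero, fun _ _ => contDiffAt_const, fun _ _ => rfl,
    fun z hz w hw => by
      have h1 : Tan ({0} : Set ℝ) 0 = ⊥ :=
        Submodule.finrank_eq_zero.1 ((T.sub_point (0 : ℝ)).finrank_Tan rfl)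
      rw [h1, Submodule.mem_bot] at hw
      exact ⟨0, Submodule.zero_mem _, by rw [map_zero, hw]⟩⟩
  cV := ho.cont
  tot := by
    have e1 : (fun z => oZ z * pull (fun _ : E => (0 : ℝ)) (fun _ => 1) z) = oZ := by
      funext z
      rw [pull, map_one, mul_one]
    rw [e1, add_zero]
    exact ho
  base := ⟨continuousOn_const, fun x _ => by
    have := evA_zero_algebraMap (E := ℝ) 1 (frame 0 {0} x)
    rw [map_one] at this
    rw [this]
    exact one_ne_zero⟩
  dY := fun _ => T.isDeg_one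

theorem bc_const (hC : Clo r C) : BC r C ({0} : Set ℝ) (fun _ => (0 : ℝ)) :=
  ⟨hC, fun _ _ => contDiffAt_const, fun _ _ => rfl⟩

/-- orientation of a product -/
theorem osubm_prod (hZ : Clo d Z) (hoZ : Ori d Z oZ) (hC : Clo r C) (hoC : Ori r C oC)
    (hd : ∀ x, IsDeg r (oC x)) :
    OSubm d r (Z ×ˢ C) C Prod.snd (pull Prod.fst oZ) oC := by
  have := bc_ori (osubm_const hZ hoZ) (bc_const hC) hoC hd
  rwa [FP_const] at this

theorem ori_prod (hZ : Clo d Z) (hoZ : Ori d Z oZ) (hC : Clo r C) (hoC : Ori r C oC)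
    (hd : ∀ x, IsDeg r (oC x)) :
    Ori (d + r) (Z ×ˢ C) (fun z => pull Prod.fst oZ z * pull Prod.snd oC z) :=
  (osubm_prod hZ hoZ hC hoC hd).tot

/-- **Fubini** for products -/
theorem J_prod (hZ : Clo d Z) (hoZ : Ori d Z oZ) (hC : Clo r C) (hoC : Ori r C oC)
    (hd : ∀ x, IsDeg r (oC x)) (hCc : IsPreconnected C) (hCn : C.Nonempty)
    (hη : ∀ z ∈ Z, ContDiffAt ℝ 1 η z) (hηd : ∀ x, IsDeg d (η x))
    (hom : ContinuousOn om C) (hom0 : ∀ x ∈ C, ∀ q < r, evA F' q (om x) = 0) :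
    J (d + r) (Z ×ˢ C) (fun z => pull Prod.fst oZ z * pull Prod.snd oC z)
      (fun z => pull Prod.fst η z * pull Prod.snd om z) = J d Z oZ η * J r C oC om := by
  have hcl : ResZero Z (F.d η) := fun x hx => by
    have h1 : IsDeg (d + 1) (F.d η x) := T.Hom.d (j := d) hηd x
    have h2 : IsDeg (d + 1) (pb (Tan Z x).subtype (F.d η x)) := h1.pb _
    have h3 : finrank ℝ (Tan Z x) = d := hZ.sub.finrank_Tan hx
    exact h2.eq_zero (by omega)
  have h1 := bc_integral (osubm_const hZ hoZ) (bc_const hC) hoC hd isPreconnected_singleton hCc hη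
    hcl hom hom0 (y := (0 : ℝ)) rfl hCn
  rw [FP_const] at h1
  rw [h1]
  congr 2
  exact inter_eq_left.2 fun _ _ => rfl

theorem subm_prod (hB : Clo b B) (hC : Clo r C) :
    Subm r b (B ×ˢ C) B (Prod.fst : E' × F' → E') where
  cloZ := by rw [add_comm]; exact hB.prod hC
  cloX := hB
  smooth := fun _ _ => contDiffAt_fst
  mapsTo := fun _ h => h.1
  sub := by
    rintro ⟨x, y⟩ ⟨hx, hy⟩ w hw
    refine ⟨(w, 0), ?_, ?_⟩
    · rw [Tan_prod hB.sub hC.sub hx hy]
      exact ⟨hw, Submodule.zero_mem _⟩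
    · rw [hasFDerivAt_fst.fderiv]; rfl

/-- **product of a thin chain with a closed manifold** -/
theorem thn_prod (h : CH.Thn d Z g χ) (hg : SMap Z B g) (hB : Clo b B) (hC : Clo r C) :
    CH.Thn (d + r) (Z ×ˢ C) (fun z => (g z.1, z.2)) (fun z => χ z.1) := by
  refine CH.Thn.of_fibre (X := Z) (g := g) (χ := χ) (p := Prod.fst) (subm_prod hB hC) h
    (fun x hx => (hg.smooth x hx).differentiableAt (by simp)) (fun _ _ => contDiffAt_fst)
    (fun _ hz => hz.1) (fun z hz => ?_) (fun z hz => ⟨hg.maps hz.1, hz.2⟩) (fun _ _ => rfl)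
  have h1 : DifferentiableAt ℝ (fun z : E × F' => g z.1) z :=
    ((hg.smooth z.1 hz.1).comp z contDiffAt_fst).differentiableAt (by simp)
  exact h1.prodMk differentiableAt_snd

theorem smap_prod (hg : SMap Z B g) : SMap (Z ×ˢ C) (B ×ˢ C) (fun z => (g z.1, z.2)) :=
  ⟨fun z hz => ((hg.smooth z.1 hz.1).comp z contDiffAt_fst).prodMk contDiffAt_snd,
    fun _ hz => ⟨hg.maps hz.1, hz.2⟩⟩

end Crest.Agent.R208.QS
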