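import Crest.Agent.R208.QS1
import Crest.Agent.R208.CH3
import Crest.Agent.R208.EP6

/-! Row 208, block Q (helper586), part QS2: **integrality of Chern numbers of thin chains**. -/

set_option autoImplicit false
set_option linter.unusedSectionVars false

open MeasureTheory MeasureTheory.Measure Set Filter Topology Module
open scoped ContDiff RealInnerProductSpace
open Crest.Agent.R208.F Crest.Agent.R208.FI Crest.Agent.R208.CW Crest.Agent.R208.FG
open Crest.Agent.R208.T (Sm Cl Hom Coh Eqv eR OR EC)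
open Crest.Agent.R208.EP Crest.Agent.R208.EW Crest.Agent.R208.CM

noncomputable section

namespace Crest.Agent.R208.QS

variable {E' : Type} [NormedAddCommGroup E'] [NormedSpace ℝ E'] [FiniteDimensional ℝ E']
  {p ι : Type} [Fintype p] [DecidableEq p] [Fintype ι] [DecidableEq ι]
  {B : Set E'} {N : E' → EuclideanSpace ℝ p →L[ℝ] EuclideanSpace ℝ p} {b s : ℕ}

/-- the map of the product chain -/
def fP {d : ℕ} (c : CH.Chn B d) (z : c.V × MM (1 + 1)) : E' × MM (1 + 1) := (c.g z.1, z.2)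

/-- the cut off of the product chain -/
def cP {d : ℕ} (c : CH.Chn B d) (z : c.V × MM (1 + 1)) : ℝ := c.χ z.1

/-- the orientation of the product chain -/
def oP {d : ℕ} (c : CH.Chn B d) (z : c.V × MM (1 + 1)) : Ext (c.V × MM (1 + 1)) :=
  F.pull Prod.fst c.o z * F.pull Prod.snd (Fk 1) z

theorem clo_P {d : ℕ} (c : CH.Chn B d) : Clo (d + 2) (c.Z ×ˢ CPk 1) := c.clo.prod (clo_CPk (k := 1))

theorem isDeg_Fk : ∀ x, IsDeg 2 (Fk 1 x) := curv_SU.hom

theorem ori_P {d : ℕ} (c : CH.Chn B d) : Ori (d + 2) (c.Z ×ˢ CPk 1) (oP c) :=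
  ori_prod c.clo c.ori (clo_CPk (k := 1)) ori_CP1 isDeg_Fk

theorem smap_P {d : ℕ} (c : CH.Chn B d) : SMap (c.Z ×ˢ CPk 1) (B ×ˢ CPk 1) (fP c) :=
  smap_prod c.sm

theorem thn_P {d : ℕ} (c : CH.Chn B d) (hB : Clo b B) :
    CH.Thn (d + 2) (c.Z ×ˢ CPk 1) (fP c) (cP c) :=
  thn_prod c.thn c.sm hB (clo_CPk (k := 1))

/-- the integral of `a × F` over the product chain -/
theorem J_P {d : ℕ} (c : CH.Chn B d) {a : E' → Ext E'} (ha : Sm B a) (hd : Hom d a) :
    J (d + 2) (c.Z ×ˢ CPk 1) (oP c)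
      (fun z => cP c z • F.pull (fP c) (F.pull Prod.fst a * F.pull Prod.snd (Fk 1)) z) =
      2 * Real.pi * c.I a := by
  have hX := clo_P c
  have hf := smap_P c
  have e1 : Eqv (c.Z ×ˢ CPk 1) (F.pull (fP c) (F.pull Prod.fst a * F.pull Prod.snd (Fk 1)))
      (F.pull Prod.fst (F.pull c.g a) * F.pull Prod.snd (Fk 1)) := by
    rw [T.pull_mul']
    refine Eqv.mul ?_ ?_
    · have h1 : Eqv (c.Z ×ˢ CPk 1) (F.pull (fP c) (F.pull Prod.fst a))
          (F.pull (fun z : c.V × MM (1 + 1) => c.g z.1) a) :=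
        T.eqv_pull_pull hf (smap_fst' (k := 1)) (c.sm.comp smap_fst') (fun _ _ => rfl) a
      have h2 : Eqv (c.Z ×ˢ CPk 1) (F.pull Prod.fst (F.pull c.g a))
          (F.pull (fun z : c.V × MM (1 + 1) => c.g z.1) a) :=
        T.eqv_pull_pull smap_fst' c.sm (c.sm.comp smap_fst') (fun _ _ => rfl) a
      exact h1.trans h2.symm
    · exact T.eqv_pull_pull hf (smap_snd' (k := 1)) smap_snd' (fun _ _ => rfl) _
  rw [CH.J_eqv' hX e1]
  have e2 : (fun z => cP c z • (F.pull Prod.fst (F.pull c.g a) * F.pull Prod.snd (Fk 1) :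
      c.V × MM (1 + 1) → Ext (c.V × MM (1 + 1))) z) =
      fun z : c.V × MM (1 + 1) => F.pull Prod.fst (fun x => c.χ x • F.pull c.g a x) z * F.pull Prod.snd (Fk 1) z := by
    funext z
    rw [Pi.mul_apply, ← smul_mul_assoc]
    congr 1
    exact (map_smul _ _ _).symm
  rw [e2]
  have hs : ∀ z ∈ c.Z, ContDiffAt ℝ ∞ (fun x => c.χ x • F.pull c.g a x) z := fun z hz =>
    (c.thn.1 z hz).smul (ha.pull c.sm z hz)
  have h3 := J_prod c.clo c.ori (clo_CPk (k := 1)) ori_CP1 isDeg_Fk isPreconnected_CPk nonempty_CPk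
    (η := fun x => c.χ x • F.pull c.g a x) (fun z hz => (hs z hz).of_le (by simp))
    (fun x => (hd.pull x).smul _) (curv_SU (k := 1)).sm.contOn
    (fun x _ q hq => isDeg_Fk x q (by omega))
  rw [J_CP1] at h3
  exact h3.trans (mul_comm _ _)

/-- **integrality of the top Chern number**, `N` of odd rank `2 s + 1`, from thin Euler
integrality -/
theorem int_cR (hB : Clo b B) (hBc : IsPreconnected B) (hN : PField B (2 * s + 1) N)
    (hs : ∀ x ∈ B, ∀ u v, ⟪N x u, v⟫ = ⟪u, N x v⟫) (hι : Fintype.card ι = 2 * s + 1)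
    {d : ℕ} (hd : d = 2 * (2 * s)) (c : CH.Chn B d)
    (hIT : ∃ z : ℤ, J (d + 2) (c.Z ×ˢ CPk 1) (oP c)
      (fun z => cP c z • F.pull (fP c) (eR (NLp N) (WNp ι N)) z) = XF.tau ι * z) :
    ∃ z : ℤ, c.I (cR (2 * s) N) = (2 * Real.pi) ^ (2 * s) * z := by
  obtain ⟨z, hz⟩ := hIT
  obtain ⟨ε, hε, hc⟩ := coh_NLp (ι := ι) hB.sub hBc hN hs hι
  have hI := idF_of_pfield hN
  have hsm : Sm B (cR (2 * s) N) := (ec_cfr hB.sub hI (2 * s)).sm
  have hom : Hom d (cR (2 * s) N) := by rw [hd]; exact hom_cfr (2 * s)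
  have hor : OR (ι := ι) (B ×ˢ CPk 1) (NLp N) (WNp ι N) := or_NLp hN hs hι
  have h1 := (thn_P c hB).J_coh (clo_P c) (ori_P c) (smap_P c) (CM.sm_eR hor)
    (((hsm.pull (smap_fst' (k := 1))).mul ((curv_SU (k := 1)).sm.pull (smap_snd' (Y := B)))).smul _)
    hc
  rw [hz] at h1
  set K : ℝ := ε * (2 ^ (2 * s + 1) * (Nat.factorial (2 * s + 1))) with hK
  have h2 : (fun x => cP c x • F.pull (fP c) (K • (F.pull Prod.fst (cR (2 * s) N)
      * F.pull Prod.snd (Fk 1))) x) = fun x => K • (cP c x • F.pull (fP c)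
        (F.pull Prod.fst (cR (2 * s) N) * F.pull Prod.snd (Fk 1)) x) := by
    funext x
    rw [T.pull_smul', Pi.smul_apply, smul_comm]
  rw [h2, J_smul, J_P c hsm hom] at h1
  have hK0 : K ≠ 0 := by
    rw [hK]
    have : (ε : ℝ) ≠ 0 := by rcases hε with h | h <;> rw [h] <;> norm_num
    positivity
  have hpi := Real.pi_pos
  have htau : XF.tau ι = K * (2 * Real.pi) * ((2 * Real.pi) ^ (2 * s) * ε) := by
    have e1 : ε * ε = 1 := by rcases hε with h | h <;> rw [h] <;> norm_num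
    rw [XF.tau, hι, hK, show (4 * Real.pi : ℝ) = 2 * (2 * Real.pi) by ring, mul_pow,
      pow_succ (2 * Real.pi)]
    linear_combination (-(2 ^ (2 * s + 1) * ((2 * Real.pi) ^ (2 * s) * (2 * Real.pi)) *
      ((2 * s + 1).factorial : ℝ))) * e1
  rw [htau] at h1
  obtain ⟨w, hw⟩ : ∃ w : ℤ, (w : ℝ) = ε * z := by
    rcases hε with h | h
    · exact ⟨z, by rw [h, one_mul]⟩
    · exact ⟨-z, by rw [h]; push_cast; ring⟩
  refine ⟨w, ?_⟩
  have hne : K * (2 * Real.pi) ≠ 0 := mul_ne_zero hK0 (by positivity)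
  apply mul_left_cancel₀ hne
  rw [hw]
  linear_combination -h1

end Crest.Agent.R208.QS
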