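import Crest.Agent.R208.CH3
import Crest.Agent.R208.QS1

/-! Row 208, block Q (helper586), part QT1: operations on thin chains (change of the target, base
change along a fibration). -/

set_option autoImplicit false
set_option linter.unusedSectionVars false

open MeasureTheory MeasureTheory.Measure Set Filter Topology Module
open scoped ContDiff
open Crest.Agent.R208.F Crest.Agent.R208.FI Crest.Agent.R208.CW Crest.Agent.R208.FG
open Crest.Agent.R208.T (Sm Cl Hom Coh Eqv)

noncomputable section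

namespace Crest.Agent.R208.QT

variable {E E' E'' A : Type} [NormedAddCommGroup E] [NormedSpace ℝ E] [FiniteDimensional ℝ E]
  [NormedAddCommGroup E'] [NormedSpace ℝ E'] [FiniteDimensional ℝ E']
  [NormedAddCommGroup E''] [NormedSpace ℝ E''] [FiniteDimensional ℝ E'']
  [NormedAddCommGroup A] [NormedSpace ℝ A] [FiniteDimensional ℝ A]
  {K : Set E'} {K' : Set E''} {v : E' → E''} {d r b t : ℕ}

theorem thn_comp {V : Type*} [NormedAddCommGroup V] [NormedSpace ℝ V] [FiniteDimensional ℝ V]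
    {Z : Set V} {g : V → E'} {χ : V → ℝ} (h : CH.Thn d Z g χ) (hg : SMap Z K g)
    (hv : SMap K K' v) : CH.Thn d Z (fun x => v (g x)) χ := by
  refine ⟨h.1, fun x hx => (h.2 x hx).imp id fun h1 => ?_⟩
  have hgd : DifferentiableAt ℝ g x := (hg.smooth x hx).differentiableAt (by simp)
  have hvd : DifferentiableAt ℝ v (g x) := (hv.smooth _ (hg.maps hx)).differentiableAt (by simp)
  have e1 : ((fderiv ℝ (fun x => v (g x)) x).prod (fderiv ℝ χ x) : V →ₗ[ℝ] E'' × ℝ) =
      ((fderiv ℝ v (g x) : E' →ₗ[ℝ] E'').prodMap LinearMap.id) ∘ₗ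
        ((fderiv ℝ g x).prod (fderiv ℝ χ x) : V →ₗ[ℝ] E' × ℝ) := by
    rw [fderiv_fun_comp x hvd hgd]
    rfl
  rw [e1, Submodule.map_comp]
  exact (Submodule.finrank_map_le _ _).trans_lt h1

/-- composition of a thin chain with a smooth map of the targets -/
def mapC (hv : SMap K K' v) (c : CH.Chn K d) : CH.Chn K' d where
  V := c.V
  Z := c.Z
  g := fun x => v (c.g x)
  χ := c.χ
  o := c.o
  clo := c.clo
  ori := c.ori
  hom := c.hom
  sm := hv.comp c.sm
  thn := thn_comp c.thn c.sm hv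

theorem mapC_I (hv : SMap K K' v) (c : CH.Chn K d) (w : E'' → Ext E'') :
    (mapC hv c).I w = c.I (F.pull v w) := by
  refine J_congr' c.clo fun x hx => ?_
  have hgd : DifferentiableAt ℝ c.g x := (c.sm.smooth x hx).differentiableAt (by simp)
  have hvd : DifferentiableAt ℝ v (c.g x) :=
    (hv.smooth _ (c.sm.maps hx)).differentiableAt (by simp)
  change c.χ x • F.pull (v ∘ c.g) w x = c.χ x • F.pull c.g (F.pull v w) x
  rw [F.pull_comp hgd hvd]

theorem I_eqv (c : CH.Chn K d) {a a' : E' → Ext E'} (h : Eqv K a a') : c.I a = c.I a' :=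
  CH.J_eqv' c.clo (h.pull c.sm) c.χ

theorem I_zero (c : CH.Chn K d) : c.I 0 = 0 := by
  have := c.I_smul 0 0
  rwa [zero_smul, zero_mul] at this

/-- forms of too large degree -/
theorem I_gt (c : CH.Chn K d) {a : E' → Ext E'} {q : ℕ} (ha : Hom q a) (hq : d < q) :
    c.I a = 0 := by
  have h1 : Eqv c.Z (F.pull c.g a) 0 := by
    refine T.eqv_iff.2 fun x hx => ?_
    have h2 : IsDeg q (pb (Tan c.Z x).subtype (F.pull c.g a x)) := ((ha.pull x).pb _)
    have h3 : finrank ℝ (Tan c.Z x) = d := c.clo.finrank_Tan hx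
    rw [h2.eq_zero (by omega)]
    simp
  have h4 := CH.J_eqv' (oX := c.o) c.clo h1 c.χ
  refine h4.trans ?_
  have h5 : (fun x => c.χ x • (0 : c.V → Ext c.V) x) = fun x => (0 : ℝ) • c.o x := by
    funext x; simp
  rw [h5, J_smul, zero_mul]

/-! ### base change -/
section bc
variable {X : Set E} {Y : Set A} {f : E → A} {oV η : E → Ext E} {oY : A → Ext A} {u : E' → A}

theorem bc_of (hu : SMap K Y u) (c : CH.Chn K d) : BC d c.Z Y (fun z => u (c.g z)) :=
  ⟨c.clo, (hu.comp c.sm).smooth, (hu.comp c.sm).maps⟩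

/-- base change of a thin chain along a fibration -/
def bcC (h : OSubm r b X Y f oV oY) (hV : ∀ x, IsDeg r (oV x)) (hT : Clo t K) (hu : SMap K Y u)
    (c : CH.Chn K d) : CH.Chn (FP X K f u) (r + d) where
  V := E × c.V
  Z := FP X c.Z f (fun z => u (c.g z))
  g := fun z => (z.1, c.g z.2)
  χ := fun z => c.χ z.2
  o := fun z => F.pull Prod.fst oV z * F.pull Prod.snd c.o z
  clo := bc_clo h.subm (bc_of hu c)
  ori := (bc_ori h (bc_of hu c) c.ori c.hom).tot
  hom := fun z => T.isDeg_mul ((hV z.1).pb _) ((c.hom z.2).pb _)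
  sm := ⟨fun z hz => contDiffAt_fst.prodMk ((c.sm.smooth _ hz.2.1).comp z contDiffAt_snd),
    fun z hz => ⟨hz.1, c.sm.maps hz.2.1, hz.2.2⟩⟩
  thn := by
    rw [add_comm]
    refine CH.Thn.of_fibre (X := c.Z) (g := c.g) (χ := c.χ) (p := Prod.snd) (π := Prod.snd)
      (bc_subm h.subm ⟨hT, hu.smooth, hu.maps⟩) c.thn
      (fun x hx => (c.sm.smooth x hx).differentiableAt (by simp)) (fun _ _ => contDiffAt_snd)
      (fun _ hz => hz.2.1) (fun z hz => ?_) (fun z hz => ⟨hz.1, c.sm.maps hz.2.1, hz.2.2⟩)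
      (fun _ _ => rfl)
    have h1 : DifferentiableAt ℝ (fun z : E × c.V => c.g z.2) z :=
      ((c.sm.smooth z.2 hz.2.1).comp z contDiffAt_snd).differentiableAt (by simp)
    exact differentiableAt_fst.prodMk h1

/-- **fibre integration for chains** -/
theorem bcC_I (h : OSubm r b X Y f oV oY) (hV : ∀ x, IsDeg r (oV x)) (hT : Clo t K)
    (hu : SMap K Y u) (c : CH.Chn K d) (hYc : IsPreconnected Y)
    (hη : Sm X η) (hcl : Cl X η) {w : E' → Ext E'} (hw : Sm K w) {q : ℕ} (hwd : Hom q w)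
    (hq : d ≤ q) {y : A} (hy : y ∈ Y) :
    (bcC h hV hT hu c).I (F.pull Prod.fst η * F.pull Prod.snd w) =
      J r (X ∩ f ⁻¹' {y}) oV η * c.I w := by
  have h' := bc_of hu c
  have h1 := bc_ori h h' c.ori c.hom
  have hsm : SMap (FP X c.Z f (fun z => u (c.g z))) (FP X K f u)
      (fun z : E × c.V => (z.1, c.g z.2)) := (bcC h hV hT hu c).sm
  -- the integrand
  have e1 : Eqv (FP X c.Z f (fun z => u (c.g z)))
      (F.pull (fun z : E × c.V => (z.1, c.g z.2)) (F.pull Prod.fst η * F.pull Prod.snd w))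
      (F.pull Prod.fst η * F.pull Prod.snd (F.pull c.g w)) := by
    rw [T.pull_mul']
    refine Eqv.mul ?_ ?_
    · exact T.eqv_pull_pull hsm smap_FP_fst smap_FP_fst (fun _ _ => rfl) _
    · have hk : SMap (FP X c.Z f (fun z => u (c.g z))) K (fun z : E × c.V => c.g z.2) :=
        c.sm.comp smap_FP_snd
      exact (T.eqv_pull_pull hsm smap_FP_snd hk (fun _ _ => rfl) _).trans
        (T.eqv_pull_pull smap_FP_snd c.sm hk (fun _ _ => rfl) _).symm
  have e2 := CH.J_eqv' (oX := (bcC h hV hT hu c).o) (bcC h hV hT hu c).clo e1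
    (bcC h hV hT hu c).χ
  refine e2.trans ?_
  set om : c.V → Ext c.V := fun x => c.χ x • F.pull c.g w x with hom
  have e3 : (fun z : E × c.V => (bcC h hV hT hu c).χ z •
      (F.pull Prod.fst η * F.pull Prod.snd (F.pull c.g w) : E × c.V → Ext (E × c.V)) z) =
      fun z : E × c.V => F.pull Prod.fst η z * F.pull Prod.snd om z := by
    funext z
    rw [Pi.mul_apply, ← mul_smul_comm]
    congr 1
    exact (map_smul _ _ _).symm
  refine (congrArg (J (r + d) (FP X c.Z f (fun z => u (c.g z))) (bcC h hV hT hu c).o) e3).trans ?_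
  have homc : ContinuousOn om c.Z := c.cont hw
  have hom0 : ∀ x ∈ c.Z, ∀ q' < d, evA c.V q' (om x) = 0 := fun x _ q' hq' => by
    have : IsDeg q (om x) := (hwd.pull x).smul _
    exact this q' (by omega)
  have hη1 : ∀ z ∈ FP X c.Z f (fun z => u (c.g z)), ContinuousAt (F.pull
      (Prod.fst : E × c.V → E) η) z := fun z hz =>
    (contDiffAt_pull (contDiffAt_fst (n := ∞)) (m := ∞) (by simp) (hη _ hz.1)).continuousAt
  have h3 := fibre_integration h1.subm h1.cV h1.tot h1.low
    (η := F.pull (Prod.fst : E × c.V → E) η)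
    (fun z hz => (hη1 z hz).continuousWithinAt) homc hom0
  refine h3.trans ?_
  rw [← show J d c.Z c.o om = c.I w from rfl, ← J_smul]
  refine J_congr' c.clo fun x hx => ?_
  congr 1
  have h2 : J r (FP X c.Z f (fun z => u (c.g z)) ∩ Prod.snd ⁻¹' {x}) (F.pull Prod.fst oV)
      (F.pull Prod.fst η) = J r (X ∩ f ⁻¹' {u (c.g x)}) oV η :=
    J_pull (h1.subm.clo_fibre x) (h.subm.clo_fibre _) (fun z _ => differentiableAt_fst)
      (bc_bij hx) (h.fib _) (fun z hz => ((hη z hz.1).continuousAt).continuousWithinAt)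
  rw [h2]
  exact h.subm.const hYc h.base h.cV h.tot h.low (fun z hz => (hη z hz).of_le (by simp))
    (T.resZero_iff.2 (T.resZero_iff.1 hcl)) (h'.maps hx) hy

end bc

/-- a closed manifold as a chain -/
def idC {X : Set E} {o : E → Ext E} (hX : Clo d X) (ho : Ori d X o) (hd : Hom d o) :
    CH.Chn X d where
  V := E
  Z := X
  g := fun x => x
  χ := fun _ => 1
  o := o
  clo := hX
  ori := ho
  hom := hd
  sm := ⟨fun _ _ => contDiffAt_id, fun _ h => h⟩
  thn := CH.Thn.one _

theorem idC_I {X : Set E} {o : E → Ext E} (hX : Clo d X) (ho : Ori d X o) (hd : Hom d o)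
    (w : E → Ext E) : (idC hX ho hd).I w = J d X o w := by
  refine J_congr' hX fun x _ => ?_
  change (1 : ℝ) • F.pull (fun x : E => x) w (x : E) = w (x : E)
  rw [one_smul]
  exact F.pull_id w x

end Crest.Agent.R208.QT
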