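import Crest.Agent.R208.SO2

/-! Row 208, block SO (helper638).  SO3: (S1') in abstract form. -/

set_option autoImplicit false
set_option linter.unusedSectionVars false

open MeasureTheory Set Filter Topology Module
open scoped ContDiff
open Crest.Agent.R208.F Crest.Agent.R208.FI Crest.Agent.R208.CW Crest.Agent.R208.T

noncomputable section

namespace Crest.Agent.R208.SO

universe u

/-! ### algebra of classes -/
section alg
variable {E : Type*} [NormedAddCommGroup E] [NormedSpace ℝ E] [FiniteDimensional ℝ E]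
  {m : ℕ} {Y : Set E}

/-- closed smooth even form of degree `p` -/
structure CF2 (Y : Set E) (p : ℕ) (a : E → Ext E) : Prop where
  sm : Sm Y a
  cl : Cl Y a
  hom : Hom p a
  even : Even p

theorem CF2.comm {p : ℕ} {a : E → Ext E} (h : CF2 Y p a) (b : E → Ext E) : a * b = b * a :=
  ev_comm h.hom h.even b

theorem CF2.mul {p p' : ℕ} {a b : E → Ext E} (h : CF2 Y p a) (h' : CF2 Y p' b) :
    CF2 Y (p + p') (a * b) :=
  ⟨h.sm.mul h'.sm, Cl.mul h.sm h'.sm h.cl h'.cl, h.hom.mul h'.hom, h.even.add h'.even⟩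

theorem CF2.add {p : ℕ} {a b : E → Ext E} (h : CF2 Y p a) (h' : CF2 Y p b) :
    CF2 Y p (a + b) :=
  ⟨h.sm.add h'.sm, Cl.add h.sm h'.sm h.cl h'.cl, h.hom.add h'.hom, h.even⟩

theorem CF2.smul {p : ℕ} {a : E → Ext E} (r : ℝ) (h : CF2 Y p a) :
    CF2 Y p (r • a) :=
  ⟨h.sm.smul r, Cl.smul r h.sm h.cl, h.hom.smul r, h.even⟩

theorem CF2.pull {E' : Type*} [NormedAddCommGroup E'] [NormedSpace ℝ E'] [FiniteDimensional ℝ E']
    {Z : Set E'} {f : E' → E} (hf : SMap Z Y f) {p : ℕ} {a : E → Ext E} (h : CF2 Y p a) :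
    CF2 Z p (F.pull f a) :=
  ⟨h.sm.pull hf, h.cl.pull hf h.sm, h.hom.pull, h.even⟩

theorem Coh.mul_left' {p : ℕ} {a b c : E → Ext E} (hc : CF2 Y p c) (h : Coh Y a b) :
    Coh Y (c * a) (c * b) := by
  rw [hc.comm, hc.comm]
  exact Coh.mul_right hc.sm hc.cl h

/-- equality of classes from an identity modulo the ideal: linear combination helper -/
theorem coh_of_sub {a b : E → Ext E} (h : Coh Y (a - b) 0) : Coh Y a b := by
  obtain ⟨ξ, h1, h2⟩ := h
  exact ⟨ξ, h1, by rwa [sub_zero] at h2⟩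

theorem coh_sub_zero {a b : E → Ext E} (h : Coh Y a b) : Coh Y (a - b) 0 := by
  obtain ⟨ξ, h1, h2⟩ := h
  exact ⟨ξ, h1, by rwa [sub_zero]⟩

/-- **the square of `a = x + l e w`.**  `3 x² + l² e² p ~ 0`, `w² ~ p`:
`a² ~ e ((2/3) l² e p + 2 l x w)`. -/
theorem square_class {x e p w a : E → Ext E} {l : ℝ} (hx : CF2 Y 8 x) (he : CF2 Y 2 e)
    (hp : CF2 Y 12 p) (hw : CF2 Y 6 w) (ha : CF2 Y 8 a)
    (h1 : Coh Y ((3 : ℝ) • (x * x) + (l ^ 2) • (e * e * p)) 0) (h2 : Coh Y (w * w) p)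
    (h3 : Coh Y a (x + l • (e * w))) :
    Coh Y (a * a) (e * ((2 / 3 * l ^ 2) • (e * p) + (2 * l) • (x * w))) := by
  have hs : CF2 Y 8 (x + l • (e * w)) := hx.add ((he.mul hw).smul l)
  have s1 : Coh Y (a * a) ((x + l • (e * w)) * (x + l • (e * w))) :=
    (Coh.mul_right ha.sm ha.cl h3).trans (Coh.mul_left' hs h3)
  refine s1.trans ?_
  have s2 : Coh Y ((l ^ 2) • (e * e * (w * w))) ((l ^ 2) • (e * e * p)) :=
    (Coh.mul_left' (he.mul he) h2).smul _
  have s3 : Coh Y ((1 / 3 : ℝ) • ((3 : ℝ) • (x * x) + (l ^ 2) • (e * e * p))) 0 := by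
    have := h1.smul (1 / 3 : ℝ)
    rwa [smul_zero] at this
  have s4 := (coh_sub_zero s2).add s3
  rw [add_zero] at s4
  refine coh_of_sub ?_
  have e1 : (x + l • (e * w)) * (x + l • (e * w)) -
      e * ((2 / 3 * l ^ 2) • (e * p) + (2 * l) • (x * w)) =
      (l ^ 2) • (e * e * (w * w)) - (l ^ 2) • (e * e * p) +
        (1 / 3 : ℝ) • ((3 : ℝ) • (x * x) + (l ^ 2) • (e * e * p)) := by
    have c1 : e * w * x = x * (e * w) := (he.mul hw).comm x
    have c2 : e * (x * w) = x * (e * w) := by rw [← mul_assoc, he.comm x, mul_assoc]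
    have c3 : e * w * (e * w) = e * e * (w * w) := by
      rw [mul_assoc, ← mul_assoc w, ← he.comm w, mul_assoc, mul_assoc]
    simp only [add_mul, mul_add, smul_mul_assoc, mul_smul_comm, smul_add, smul_smul]
    rw [c1, c2, c3, ← mul_assoc e e p]
    module
  rw [e1]
  exact s4

/-- the identity behind `cube_class` in a commutative algebra -/
theorem cube_identity {C : Type*} [CommRing C] [Algebra ℝ C] (X A P V : C) (l : ℝ) :
    A * ((2 / 3 * l ^ 2) • (A * P) + (2 * l) • (X * V)) *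
        ((2 / 3 * l ^ 2) • (A * P) + (2 * l) • (X * V)) * V -
      ((8 / 3 * l ^ 2) • (A * X * X * P * V) + (8 / 3 * l ^ 3) • (A * A * P * P * X)) =
      (4 / 9 * l ^ 2) • (((3 : ℝ) • (X * X) + (l ^ 2) • (A * A * P)) * (A * P * V)) +
      (8 / 3 * l ^ 3) • ((V * V - P) * (A * A * P * X)) +
      (4 * l ^ 2) • ((V * V - P) * (A * X * X * V)) := by
  have r0 : (3 : C) * algebraMap ℝ C (1 / 3) = 1 := by
    rw [← map_ofNat (algebraMap ℝ C) 3, ← map_mul]; norm_num
  have r1 : algebraMap ℝ C (8 / 3) = 8 * algebraMap ℝ C (1 / 3) := by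
    rw [show (8 / 3 : ℝ) = 8 * (1 / 3) by norm_num, map_mul, map_ofNat]
  have r2 : algebraMap ℝ C (2 / 3) = 2 * algebraMap ℝ C (1 / 3) := by
    rw [show (2 / 3 : ℝ) = 2 * (1 / 3) by norm_num, map_mul, map_ofNat]
  have r3 : algebraMap ℝ C (4 / 9) = 4 * algebraMap ℝ C (1 / 3) ^ 2 := by
    rw [show (4 / 9 : ℝ) = 4 * (1 / 3) ^ 2 by norm_num, map_mul, map_pow, map_ofNat]
  simp only [Algebra.smul_def, map_mul, map_pow]
  rw [r1, r2, r3, map_ofNat, map_ofNat, map_ofNat]
  generalize algebraMap ℝ C (1 / 3) = t at *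
  generalize algebraMap ℝ C l = L at *
  linear_combination (-4 * (1 + t) * L ^ 2 * A * X * X * P * V) * r0

/-- **the cube.**  With `k = (2/3) l² e p + 2 l x w`:
`e k² w ~ (8/3) l² e x² p w + (8/3) l³ e² p² x` (the last term comes from the base). -/
theorem cube_class {x e p w : E → Ext E} {l : ℝ} (hx : CF2 Y 8 x) (he : CF2 Y 2 e)
    (hp : CF2 Y 12 p) (hw : CF2 Y 6 w)
    (h1 : Coh Y ((3 : ℝ) • (x * x) + (l ^ 2) • (e * e * p)) 0) (h2 : Coh Y (w * w) p) :
    Coh Y (e * ((2 / 3 * l ^ 2) • (e * p) + (2 * l) • (x * w)) *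
        ((2 / 3 * l ^ 2) • (e * p) + (2 * l) • (x * w)) * w)
      ((8 / 3 * l ^ 2) • (e * x * x * p * w) + (8 / 3 * l ^ 3) • (e * e * p * p * x)) := by
  -- the three error terms
  have t1 : Coh Y ((4 / 9 * l ^ 2) • (((3 : ℝ) • (x * x) + (l ^ 2) • (e * e * p)) *
      (e * p * w))) 0 := by
    have h := (Coh.mul_right ((he.mul hp).mul hw).sm ((he.mul hp).mul hw).cl h1).smul
      (4 / 9 * l ^ 2)
    rwa [zero_mul, smul_zero] at h
  have t2 : Coh Y ((8 / 3 * l ^ 3) • ((w * w - p) * (e * e * p * x))) 0 := by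
    have hc := ((he.mul he).mul hp).mul hx
    have h := (Coh.mul_right hc.sm hc.cl (coh_sub_zero h2)).smul (8 / 3 * l ^ 3)
    rwa [zero_mul, smul_zero] at h
  have t3 : Coh Y ((4 * l ^ 2) • ((w * w - p) * (e * x * x * w))) 0 := by
    have hc := ((he.mul hx).mul hx).mul hw
    have h := (Coh.mul_right hc.sm hc.cl (coh_sub_zero h2)).smul (4 * l ^ 2)
    rwa [zero_mul, smul_zero] at h
  have t := (t1.add t2).add t3
  rw [add_zero, add_zero] at t
  refine coh_of_sub ?_
  refine Coh.trans (Coh.of_eqv (Eqv.of_eq fun y _ => ?_)) t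
  -- pointwise identity between commuting even elements
  have cx : ∀ c : Ext E, x y * c = c * x y := fun c =>
    even_mul_comm (inv_of_hom_even hx.hom hx.even y) c
  have ce : ∀ c : Ext E, e y * c = c * e y := fun c =>
    even_mul_comm (inv_of_hom_even he.hom he.even y) c
  have cp : ∀ c : Ext E, p y * c = c * p y := fun c =>
    even_mul_comm (inv_of_hom_even hp.hom hp.even y) c
  have cw : ∀ c : Ext E, w y * c = c * w y := fun c =>
    even_mul_comm (inv_of_hom_even hw.hom hw.even y) c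
  -- transport to a commutative ring: the centre
  let C := Subalgebra.center ℝ (Ext E)
  let X : C := ⟨x y, Subalgebra.mem_center_iff.2 fun c => (cx c).symm⟩
  let A : C := ⟨e y, Subalgebra.mem_center_iff.2 fun c => (ce c).symm⟩
  let P : C := ⟨p y, Subalgebra.mem_center_iff.2 fun c => (cp c).symm⟩
  let V : C := ⟨w y, Subalgebra.mem_center_iff.2 fun c => (cw c).symm⟩
  have key := cube_identity X A P V l
  have := congrArg (Subtype.val) key
  exact this

end alg

end Crest.Agent.R208.SO
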