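import Crest.Agent.R208.QT1
import Crest.Agent.R208.TX9
import Crest.Agent.R208.SO3
import Crest.Agent.R208.FG1d

/-! Row 208, block Q (helper586), part QT2: **pushing the top class through the cut loci**:
integrals over the base change of a chain along `F → S`. -/

set_option autoImplicit false
set_option linter.unusedSectionVars false

open MeasureTheory Set Filter Topology Module
open scoped ContDiff RealInnerProductSpace
open Crest.GeometryTopology.Submanifold
open Crest.Agent.R241.DDefs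
open Crest.Agent.R241.D2
open Crest.Agent.R208.F Crest.Agent.R208.FI Crest.Agent.R208.CW Crest.Agent.R208.FG
open Crest.Agent.R208.T (Sm Cl Hom Coh Eqv eR OR)
open Crest.Agent.R208.SO (CF2)

noncomputable section

namespace Crest.Agent.R208.QT

section gen
variable {E' : Type} [NormedAddCommGroup E'] [NormedSpace ℝ E'] [FiniteDimensional ℝ E']
  {K : Set E'} {d : ℕ}

theorem I_sum (c : CH.Chn K d) {α : Type*} (s : Finset α) {a : α → E' → Ext E'}
    (h : ∀ i ∈ s, Sm K (a i)) : Sm K (∑ i ∈ s, a i) ∧ c.I (∑ i ∈ s, a i) = ∑ i ∈ s, c.I (a i) := by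
  classical
  induction s using Finset.induction_on with
  | empty => rw [Finset.sum_empty, Finset.sum_empty]; exact ⟨Sm.zero, I_zero c⟩
  | insert j s hj ih =>
    obtain ⟨h1, h2⟩ := ih fun i hi => h i (Finset.mem_insert_of_mem hi)
    have h3 := h j (Finset.mem_insert_self _ _)
    rw [Finset.sum_insert hj, Finset.sum_insert hj]
    exact ⟨h3.add h1, by rw [c.I_add h3 h1, h2]⟩

theorem pull_sum' {E₁ : Type} [NormedAddCommGroup E₁] [NormedSpace ℝ E₁] [FiniteDimensional ℝ E₁]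
    (f : E₁ → E') {α : Type*} (s : Finset α) (a : α → E' → Ext E') :
    F.pull f (∑ i ∈ s, a i) = ∑ i ∈ s, F.pull f (a i) := by
  funext z
  simp only [F.pull, Finset.sum_apply, _root_.map_sum]

end gen

attribute [local irreducible] bcC

/-! ### one term -/
section term
variable {E E' A : Type} [NormedAddCommGroup E] [NormedSpace ℝ E] [FiniteDimensional ℝ E]
  [NormedAddCommGroup E'] [NormedSpace ℝ E'] [FiniteDimensional ℝ E']
  [NormedAddCommGroup A] [NormedSpace ℝ A] [FiniteDimensional ℝ A]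
  {K : Set E'} {d r b t : ℕ} {X : Set E} {Y : Set A} {f : E → A} {oV : E → Ext E}
  {oY x : A → Ext A} {u : E' → A} {η : E → Ext E} {w : E' → Ext E'} {q k : ℕ}

/-- `∫ (f^*x)^j η w` over a base change -/
theorem bc_term (hO : OSubm r b X Y f oV oY) (hV : ∀ x, IsDeg r (oV x)) (hK : Clo t K)
    (hu : SMap K Y u) (hf : SMap X Y f) (c : CH.Chn K d) (hYc : IsPreconnected Y)
    (hx : CF2 Y k x) (sη : Sm X η) (cη : Cl X η) (sw : Sm K w) (hw : Hom q w) (j : ℕ)
    (hq : d ≤ k * j + q) {y : A} (hy : y ∈ Y) :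
    (bcC hO hV hK hu c).I (F.pull Prod.fst (F.pull f x ^ j * η) * F.pull Prod.snd w) =
      J r (X ∩ f ⁻¹' {y}) oV η * c.I (F.pull u x ^ j * w) := by
  have h1S : SMap (FP X K f u) X Prod.fst := smap_FP_fst
  have h2S : SMap (FP X K f u) K Prod.snd := smap_FP_snd
  have su : Sm K (F.pull u x) := hx.sm.pull hu
  have hk : SMap (FP X K f u) Y (fun z : E × E' => f z.1) := hf.comp h1S
  have hxu1 : Eqv (FP X K f u) (F.pull Prod.fst (F.pull f x))
      (F.pull (fun z : E × E' => f z.1) x) := T.eqv_pull_pull h1S hf hk (fun _ _ => rfl) x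
  have hxu2 : Eqv (FP X K f u) (F.pull Prod.snd (F.pull u x))
      (F.pull (fun z : E × E' => f z.1) x) :=
    T.eqv_pull_pull h2S hu hk (fun z hz => hz.2.2.symm) x
  have hxu := hxu1.trans hxu2.symm
  have hdj : Hom (k * j) (F.pull f x ^ j) := (T.Hom.pull (f := f) hx.hom).pow j
  have e3 : F.pull Prod.fst (F.pull f x ^ j * η) * F.pull Prod.snd w =
      F.pull Prod.fst η * (F.pull Prod.fst (F.pull f x) ^ j *
        (F.pull Prod.snd w : E × E' → Ext (E × E'))) := by
    rw [SO.ev_comm hdj (hx.even.mul_right _), T.pull_mul',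
      T.pull_pow' (Prod.fst : E × E' → E) (F.pull f x), mul_assoc]
  have e4 : Eqv (FP X K f u) (F.pull Prod.fst η * (F.pull Prod.fst (F.pull f x) ^ j *
        F.pull Prod.snd w)) (F.pull Prod.fst η * F.pull Prod.snd (F.pull u x ^ j * w)) := by
    refine (Eqv.refl _).mul ?_
    rw [T.pull_mul', T.pull_pow' (Prod.snd : E × E' → E')]
    exact (hxu.pow _).mul (Eqv.refl _)
  rw [e3, I_eqv (bcC hO hV hK hu c) e4]
  exact bcC_I hO hV hK hu c hYc sη cη ((su.pow _).mul sw)
    (((T.Hom.pull (f := u) hx.hom).pow j).mul hw) hq hy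

end term

variable {n N k m : ℕ} {κ : ℝ} {S : Set (Euc N)} {G : Geo n N κ S} {p : Euc N}
  {ι : Type} [Fintype ι] [DecidableEq ι] {W : Euc N × Euc N → (ι × Fin 2 → Fin N) → ℝ}
  {x : Euc N → Ext (Euc N)} {h : GT.Bla G k} {oS : Euc N → Ext (Euc N)}
  {oV : Euc N × Euc N → Ext (Euc N × Euc N)}
  {E' : Type} [NormedAddCommGroup E'] [NormedSpace ℝ E'] [FiniteDimensional ℝ E']
  {K : Set E'} {u : E' → Euc N} {t d q : ℕ} {w : E' → Ext E'}

theorem cf2_x (M : T.XM h m W p x) : CF2 S k x := ⟨M.sx, M.cx, M.dx, M.hke⟩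

/-- `x₂^m ~ - Σ x₁^(i+1) x₂^(m-i-1)` -/
theorem top_rel (M : T.XM h m W p x) : Coh (GT.FF S) (F.pull Prod.snd x ^ m)
    ((-1 : ℝ) • ∑ i ∈ Finset.range m,
      (F.pull Prod.fst x ^ (i + 1) * F.pull Prod.snd x ^ (m - (i + 1)) :
        Euc N × Euc N → Ext (Euc N × Euc N))) := by
  have h0 := M.hm_zero
  rw [Finset.sum_range_succ'] at h0
  have h2 := h0.add (Coh.refl ((-1 : ℝ) • ∑ i ∈ Finset.range m,
    (F.pull Prod.fst x ^ (i + 1) * F.pull Prod.snd x ^ (m - (i + 1)) :
        Euc N × Euc N → Ext (Euc N × Euc N))))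
  rw [zero_add] at h2
  convert h2 using 1
  rw [pow_zero, one_mul, Nat.sub_zero, neg_one_smul]
  abel

/-- **(PUSH)** -/
theorem push (M : T.XM h m W p x) (hO : OSubm (n - k) n (GT.FF S) S Prod.fst oV oS)
    (hV : ∀ z, IsDeg (n - k) (oV z)) (hK : Clo t K) (hu : SMap K S u) (c : CH.Chn K d)
    (sw : Sm K w) (cw : Cl K w) (hw : Hom q w) (hq : q + k = d) :
    (bcC hO hV hK hu c).I (F.pull Prod.fst (F.pull Prod.snd (x ^ m)) * F.pull Prod.snd w) =
      -(J (n - k) (GT.FF S ∩ Prod.fst ⁻¹' {p}) oV (F.pull Prod.snd x ^ (m - 1)) *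
        c.I (F.pull u x * w)) := by
  have hk := M.hk
  have hm := M.hm
  have h1S : SMap (FP (GT.FF S) K Prod.fst u) (GT.FF S) Prod.fst := smap_FP_fst
  have h2S : SMap (FP (GT.FF S) K Prod.fst u) K Prod.snd := smap_FP_snd
  have f1 : SMap (GT.FF S) S (Prod.fst : Euc N × Euc N → Euc N) := FG.smap_fst
  have f2 : SMap (GT.FF S) S (Prod.snd : Euc N × Euc N → Euc N) := FG.smap_snd
  have s1 : Sm (GT.FF S) (F.pull Prod.fst x) := M.sx.pull f1
  have s2 : Sm (GT.FF S) (F.pull Prod.snd x) := M.sx.pull f2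
  have c2 : Cl (GT.FF S) (F.pull Prod.snd x) := M.cx.pull f2 M.sx
  have sw' : Sm (FP (GT.FF S) K Prod.fst u)
    (F.pull (Prod.snd : (Euc N × Euc N) × E' → E') w) := sw.pull h2S
  have cw' : Cl (FP (GT.FF S) K Prod.fst u)
    (F.pull (Prod.snd : (Euc N × Euc N) × E' → E') w) := cw.pull h2S sw
  let a : ℕ → Euc N × Euc N → Ext (Euc N × Euc N) := fun i =>
    F.pull Prod.fst x ^ (i + 1) * F.pull Prod.snd x ^ (m - (i + 1))
  have sa : ∀ i, Sm (GT.FF S) (a i) := fun i => (s1.pow _).mul (s2.pow _)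
  have e0 : F.pull (Prod.snd : Euc N × Euc N → Euc N) (x ^ m) = F.pull Prod.snd x ^ m :=
    T.pull_pow' _ _ _
  have hs : ∀ s : Finset ℕ, Sm (GT.FF S) (∑ i ∈ s, a i) := by
    intro s
    induction s using Finset.induction_on with
    | empty => rw [Finset.sum_empty]; exact Sm.zero
    | insert j s hj ih => rw [Finset.sum_insert hj]; exact (sa j).add ih
  have sS : Sm (GT.FF S) ((-1 : ℝ) • ∑ i ∈ Finset.range m, a i) := (hs _).smul _
  have h3 : Coh (FP (GT.FF S) K Prod.fst u)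
      (F.pull Prod.fst (F.pull Prod.snd x ^ m) * F.pull Prod.snd w)
      (F.pull Prod.fst ((-1 : ℝ) • ∑ i ∈ Finset.range m, a i) * F.pull Prod.snd w) :=
    Coh.mul_right sw' cw' ((top_rel M).pull h1S)
  rw [e0, (bcC hO hV hK hu c).I_coh (((s2.pow m).pull h1S).mul sw') ((sS.pull h1S).mul sw') h3]
  have e1 : F.pull Prod.fst ((-1 : ℝ) • ∑ i ∈ Finset.range m, a i) * F.pull Prod.snd w =
      (-1 : ℝ) • ∑ i ∈ Finset.range m, (F.pull Prod.fst (a i) * F.pull Prod.snd w :
        (Euc N × Euc N) × E' → Ext ((Euc N × Euc N) × E')) := by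
    rw [T.pull_smul', pull_sum', smul_mul_assoc, Finset.sum_mul]
  rw [e1, (bcC hO hV hK hu c).I_smul, (I_sum (bcC hO hV hK hu c) (Finset.range m)
    (fun i _ => ((sa i).pull h1S).mul sw')).2]
  have key : ∀ i, (bcC hO hV hK hu c).I (F.pull Prod.fst (a i) * F.pull Prod.snd w) =
      J (n - k) (GT.FF S ∩ Prod.fst ⁻¹' {p}) oV (F.pull Prod.snd x ^ (m - (i + 1))) *
        c.I (F.pull u x ^ (i + 1) * w) := fun i =>
    bc_term hO hV hK hu f1 c h.bl.conn.isPreconnected (cf2_x M) (s2.pow _) (T.Cl.pow s2 c2 _) sw hw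
      (i + 1) (by
        rw [← hq, add_comm q k]
        exact Nat.add_le_add_right (Nat.le_mul_of_pos_right k (by omega)) q) M.hp
  rw [Finset.sum_congr rfl fun i _ => key i, Finset.sum_eq_single 0]
  · rw [zero_add, pow_one, neg_one_mul]
  · intro i _ hi
    have hgt : d < k * (i + 1) + q := by
      have : 1 ≤ i := Nat.one_le_iff_ne_zero.2 hi
      nlinarith
    rw [I_gt c (((T.Hom.pull (f := u) M.dx).pow (i + 1)).mul hw) hgt, mul_zero]
  · intro h0
    exact absurd (Finset.mem_range.2 (by omega)) h0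

end Crest.Agent.R208.QT
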