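import Crest.Agent.R208.ZG3
import Crest.Agent.R208.SO4
import Crest.Agent.R208.DEG2
import Crest.Agent.R208.T3a

/-!
R208, ZG4 (helper385): `In4` from forms on `Y → B` (`Y` the sphere bundle of the negative bundle over
the manifold of geodesics `B`, `k = 4`).
-/

set_option autoImplicit false
set_option linter.unusedSectionVars false

open MeasureTheory Set Filter Topology Module
open scoped ContDiff
open Crest.Agent.R208.F Crest.Agent.R208.FI Crest.Agent.R208.CW Crest.Agent.R208.T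
open Crest.Agent.R208.SO

noncomputable section

namespace Crest.Agent.R208.ZG

section integ

variable {E : Type*} [NormedAddCommGroup E] [NormedSpace ℝ E] [FiniteDimensional ℝ E]
  {X : Set E} {n : ℕ} {o : E → Ext E}

/-- the integral as a real functional on the cohomology -/
def intR (hX : Clo n X) (ho : Ori n X o) : CW.H X →ₗ[ℝ] ℝ :=
  Complex.reLm ∘ₗ ((integ hX ho).restrictScalars ℝ)

theorem intR_rcl (hX : Clo n X) (ho : Ori n X o) {a : E → Ext E} (ha : EC X a) :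
    intR hX ho (rcl ha) = J n X o a := by
  change (integ hX ho (rcl ha)).re = _
  rw [rcl, integ_cls]
  rfl

theorem rcl_sub {a b : E → Ext E} (ha : EC X a) (hb : EC X b) (hab : EC X (a - b)) :
    rcl hab = rcl ha - rcl hb := by
  rw [eq_sub_iff_add_eq, ← rcl_add hab hb]
  exact rcl_of_eq _ _ (sub_add_cancel a b)

theorem rcl_smul' (r : ℝ) {a : E → Ext E} (ha : EC X a) : rcl (ha.smul r) = r • rcl ha := by
  rw [rcl_smul]; rfl

end integ

section ring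

open Crest.GeometryTopology.Submanifold
open Crest.Agent.R241.DDefs
open Crest.Agent.R241.D2
open Crest.Agent.R208.L (US)
open Crest.Agent.R208.LB (oUS)

variable {n N : ℕ} {κ : ℝ} {S : Set (Euc N)} {G : Geo n N κ S} {m : ℕ}

/-- `In4` from a ring with the classes `E` (circle class), `X` (`x₀`), `W` (vertical Euler class),
all unnormalised. -/
def In4.ofRing (H : Type) [CommRing H] [Algebra ℝ H] (E X W : H) (I : H →ₗ[ℝ] ℝ)
    (α β l s₁ s₂ s₃ : ℝ) (hs₁ : s₁ ≠ 0) (hs₃ : s₃ ≠ 0) (hs : s₁ * s₂ = 2 * l * s₃)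
    (hW : W ^ 2 = α • E ^ 2 + β • X)
    (hA : (X + l • (E * W)) ^ (m + 1) = 0) (hB : (X - l • (E * W)) ^ (m + 1) = 0)
    (hI : I (E ^ 2 * ((X ^ 2 - l ^ 2 • (E ^ 2 * W ^ 2)) ^ (m - 1) * X)) = 0) (hm : 1 ≤ m)
    (hN : |s₂ ^ (2 * m + 1) * s₁ ^ (2 * m - 1) * I (W ^ (2 * m + 1) * E ^ (2 * m - 1))| ≤
      2 * ((2 * m).choose m : ℝ))
    (ha : 1 ≤ |s₂ ^ 2 * α / s₁ ^ 2|) (hla : |s₂ ^ 2 * β / (2 * s₃)| ≤ 2 * |s₂ ^ 2 * α / s₁ ^ 2|)
    (vol : J (2 * n - 1) (US G) (oUS n N) (oUS n N) ≤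
      (2 * Real.pi) ^ n * (|s₂ * s₁ ^ (4 * m - 1) * I (W * E ^ (4 * m - 1))| / 2)) :
    In4 G m where
  H := H
  e := s₁ • E
  w := s₂ • W
  A := s₃ • (X + l • (E * W))
  B := s₃ • (X - l • (E * W))
  a := s₂ ^ 2 * α / s₁ ^ 2
  l := s₂ ^ 2 * β / (2 * s₃)
  I := I
  h1 := by
    rw [smul_mul_smul_comm, hs]
    simp only [Algebra.smul_def, map_mul, map_ofNat]
    ring
  h2 := by
    have e1 : (s₂ ^ 2 * α / s₁ ^ 2) * s₁ ^ 2 = s₂ ^ 2 * α := by field_simp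
    have e2 : (s₂ ^ 2 * β / (2 * s₃)) * (2 * s₃) = s₂ ^ 2 * β := by field_simp
    rw [smul_pow, smul_pow, hW, smul_smul, e1, ← smul_add, smul_smul]
    have e3 : X + l • (E * W) + (X - l • (E * W)) = (2 : ℝ) • X := by
      rw [two_smul]; abel
    rw [e3, smul_smul, mul_assoc, mul_comm s₃ 2, e2, smul_add, smul_smul, smul_smul]
  hA := by rw [smul_pow, hA, smul_zero]
  hB := by rw [smul_pow, hB, smul_zero]
  hI := by
    obtain ⟨c, rfl⟩ : ∃ c, m = c + 1 := ⟨m - 1, by omega⟩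
    rw [Nat.add_sub_cancel] at hI ⊢
    rw [← sub_eq_zero, sub_neg_eq_add, ← map_add]
    have e1 : (s₁ • E) ^ 2 * ((s₃ • (X + l • (E * W))) ^ (c + 1) * (s₃ • (X - l • (E * W))) ^ c) +
        (s₁ • E) ^ 2 * ((s₃ • (X + l • (E * W))) ^ c * (s₃ • (X - l • (E * W))) ^ (c + 1)) =
        (s₁ ^ 2 * s₃ ^ (2 * c + 1) * 2) •
          (E ^ 2 * ((X ^ 2 - l ^ 2 • (E ^ 2 * W ^ 2)) ^ c * X)) := by
      have e2 : X ^ 2 - l ^ 2 • (E ^ 2 * W ^ 2) = (X + l • (E * W)) * (X - l • (E * W)) := by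
        simp only [Algebra.smul_def, map_pow]; ring
      have e3 : (X + l • (E * W)) + (X - l • (E * W)) = 2 * X := by
        rw [two_mul]; abel
      rw [e2]
      generalize X + l • (E * W) = P at e3 ⊢
      generalize X - l • (E * W) = Q at e3 ⊢
      simp only [Algebra.smul_def, map_mul, map_pow, map_ofNat, mul_pow]
      linear_combination ((algebraMap ℝ H s₁) ^ 2 * E ^ 2 * (algebraMap ℝ H s₃) ^ (2 * c + 1) *
        P ^ c * Q ^ c) * e3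
    rw [e1, map_smul, hI, smul_zero]
  hN := by
    have e1 : (s₂ • W) ^ (2 * m + 1) * (s₁ • E) ^ (2 * m - 1) =
        (s₂ ^ (2 * m + 1) * s₁ ^ (2 * m - 1)) • (W ^ (2 * m + 1) * E ^ (2 * m - 1)) := by
      rw [smul_pow, smul_pow, smul_mul_smul_comm]
    rw [e1, map_smul, smul_eq_mul]
    exact hN
  ha := ha
  hla := hla
  vol := by
    have e1 : (s₂ • W) * (s₁ • E) ^ (4 * m - 1) =
        (s₂ * s₁ ^ (4 * m - 1)) • (W * E ^ (4 * m - 1)) := by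
      rw [smul_pow, smul_mul_smul_comm]
    rw [e1, map_smul, smul_eq_mul]
    exact vol

end ring

theorem CF2.ec {E : Type*} [NormedAddCommGroup E] [NormedSpace ℝ E] [FiniteDimensional ℝ E]
    {X : Set E} {p : ℕ} {a : E → Ext E} (h : CF2 X p a) : EC X a :=
  ⟨fun x => inv_of_hom_even h.hom h.even x, h.sm, h.cl⟩

section forms

open Crest.GeometryTopology.Submanifold
open Crest.Agent.R241.DDefs
open Crest.Agent.R241.D2
open Crest.Agent.R208.L (US)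
open Crest.Agent.R208.LB (oUS)

variable {n N : ℕ} {κ : ℝ} {S : Set (Euc N)} {G : Geo n N κ S} {m : ℕ}
  {EY EB F' : Type} [NormedAddCommGroup EY] [NormedSpace ℝ EY] [FiniteDimensional ℝ EY]
  [NormedAddCommGroup EB] [NormedSpace ℝ EB] [FiniteDimensional ℝ EB]
  [NormedAddCommGroup F'] [NormedSpace ℝ F'] [FiniteDimensional ℝ F']

/-- **`In4` from forms**: `ρ : Y → B` the sphere bundle, `e` the curvature form, `x` a form with
`fY^*om ~ x + l e w`, `p` the Pontryagin form of the negative bundle, `w` the vertical Euler form;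
`f`, `f'` the two contractions. -/
theorem exists_in4 {Y : Set EY} {B : Set EB} {S' : Set F'} {oY : EY → Ext EY} {ρ : EY → EB}
    (hm : 1 ≤ m) (hY : Clo (8 * m) Y) (hoY : Ori (8 * m) Y oY) (hB : Sub (8 * m - 2) B)
    (hS : Sub (4 * m) S') (sρ : SMap Y B ρ)
    {e x p : EB → Ext EB} (he : CF2 B 2 e) (hx : CF2 B 4 x) (hp : CF2 B 4 p)
    {w : EY → Ext EY} (hw : CF2 Y 2 w) {α β l : ℝ}
    (h1 : Coh B p (α • (e * e) + β • x)) (h2 : Coh Y (w * w) (F.pull ρ p))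
    {om : F' → Ext F'} (hom : CF2 S' 4 om) {f f' : EY → F'} (sf : SMap Y S' f) (sf' : SMap Y S' f')
    (h3 : Coh Y (F.pull f om) (F.pull ρ x + l • (F.pull ρ e * w)))
    (h3' : Coh Y (F.pull f' om) (F.pull ρ x - l • (F.pull ρ e * w)))
    (s₁ s₂ s₃ s₄ : ℝ) (hs₁ : s₁ ≠ 0) (hs₃ : s₃ ≠ 0) (hs : s₁ * s₂ = 2 * l * s₃)
    (hN : |s₄ * (s₂ ^ (2 * m + 1) * s₁ ^ (2 * m - 1)) *
      J (8 * m) Y oY (w ^ (2 * m + 1) * F.pull ρ e ^ (2 * m - 1))| ≤ 2 * ((2 * m).choose m : ℝ))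
    (ha : 1 ≤ |s₂ ^ 2 * α / s₁ ^ 2|) (hla : |s₂ ^ 2 * β / (2 * s₃)| ≤ 2 * |s₂ ^ 2 * α / s₁ ^ 2|)
    (vol : J (2 * n - 1) (US G) (oUS n N) (oUS n N) ≤
      (2 * Real.pi) ^ n * (|s₄ * (s₂ * s₁ ^ (4 * m - 1)) *
        J (8 * m) Y oY (w * F.pull ρ e ^ (4 * m - 1))| / 2)) : Nonempty (In4 G m) := by
  have Ee : EC Y (F.pull ρ e) := (CF2.ec he).pull sρ
  have Ex : EC Y (F.pull ρ x) := (CF2.ec hx).pull sρ
  have Ep : EC Y (F.pull ρ p) := (CF2.ec hp).pull sρ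
  have Ew : EC Y w := CF2.ec hw
  have Eo : EC S' om := CF2.ec hom
  set I : CW.H Y →ₗ[ℝ] ℝ := s₄ • intR hY hoY with hIdef
  have hI : ∀ {a : EY → Ext EY} (ha : EC Y a), I (rcl ha) = s₄ * J (8 * m) Y oY a := fun ha => by
    rw [hIdef, LinearMap.smul_apply, intR_rcl, smul_eq_mul]
  -- relations
  have hW : rcl Ew ^ 2 = α • rcl Ee ^ 2 + β • rcl Ex := by
    have k1 : Coh Y (w * w) (α • (F.pull ρ e * F.pull ρ e) + β • F.pull ρ x) := by
      refine h2.trans ?_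
      have := Coh.pull sρ h1
      rwa [pull_add', pull_smul', pull_smul', pull_mul'] at this
    have k2 := rcl_congr (Ew.mul Ew) (((Ee.mul Ee).smul α).add (Ex.smul β)) k1
    rw [rcl_mul Ew Ew, rcl_add ((Ee.mul Ee).smul α) (Ex.smul β), rcl_smul' α (Ee.mul Ee),
      rcl_smul' β Ex, rcl_mul Ee Ee] at k2
    rw [sq, sq]; exact k2
  have hom0 : ∀ {g : EY → F'} (sg : SMap Y S' g), rcl (Eo.pull sg) ^ (m + 1) = 0 := by
    intro g sg
    rw [rcl_pull sg Eo, ← map_pow, ← rcl_pow]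
    have k1 : Coh S' (om ^ (m + 1)) 0 := Coh.of_eqv (eqv_zero_of_gt hS (p := 4 * (m + 1))
      (Hom.pow hom.hom (m + 1)) (by omega))
    rw [(rcl_eq_zero_iff (Eo.pow (m + 1))).2 k1, map_zero]
  have hAe : EC Y (F.pull ρ x + l • (F.pull ρ e * w)) := Ex.add ((Ee.mul Ew).smul l)
  have hBe : EC Y (F.pull ρ x - l • (F.pull ρ e * w)) := by
    have := Ex.add ((Ee.mul Ew).smul (-l))
    rwa [neg_smul, ← sub_eq_add_neg] at this
  have rA : rcl hAe = rcl Ex + l • (rcl Ee * rcl Ew) := by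
    rw [rcl_add Ex ((Ee.mul Ew).smul l), rcl_smul' l (Ee.mul Ew), rcl_mul Ee Ew]
  have rB : rcl hBe = rcl Ex - l • (rcl Ee * rcl Ew) := by
    rw [rcl_sub Ex ((Ee.mul Ew).smul l) hBe, rcl_smul' l (Ee.mul Ew), rcl_mul Ee Ew]
  have hA : (rcl Ex + l • (rcl Ee * rcl Ew)) ^ (m + 1) = 0 := by
    rw [← rA, ← rcl_congr (Eo.pull sf) hAe h3]; exact hom0 sf
  have hB' : (rcl Ex - l • (rcl Ee * rcl Ew)) ^ (m + 1) = 0 := by
    rw [← rB, ← rcl_congr (Eo.pull sf') hBe h3']; exact hom0 sf'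
  -- the antisymmetry
  have hI0 : I (rcl Ee ^ 2 * ((rcl Ex ^ 2 - l ^ 2 • (rcl Ee ^ 2 * rcl Ew ^ 2)) ^ (m - 1) *
      rcl Ex)) = 0 := by
    have k0 : CF2 B 8 (x * x - l ^ 2 • (e * e * p)) := by
      have := (hx.mul hx).add (((he.mul he).mul hp).smul (-(l ^ 2)))
      rwa [neg_smul, ← sub_eq_add_neg] at this
    have Be : EC B e := CF2.ec he
    have Bx : EC B x := CF2.ec hx
    have Bp : EC B p := CF2.ec hp
    have k2 : EC B (x * x - l ^ 2 • (e * e * p)) := CF2.ec k0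
    have kE : EC B ((e * e) * ((x * x - l ^ 2 • (e * e * p)) ^ (m - 1) * x)) :=
      (Be.mul Be).mul ((k2.pow (m - 1)).mul Bx)
    have kh : Hom (2 + 2 + (8 * (m - 1) + 4))
        ((e * e) * ((x * x - l ^ 2 • (e * e * p)) ^ (m - 1) * x)) :=
      (he.hom.mul he.hom).mul ((Hom.pow k0.hom (m - 1)).mul hx.hom)
    have k1 : rcl kE = 0 := (rcl_eq_zero_iff kE).2
      (Coh.of_eqv (eqv_zero_of_gt hB kh (by omega)))
    have k3 : rcl k2 = rcl Bx ^ 2 - l ^ 2 • (rcl Be ^ 2 * rcl Bp) := by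
      rw [sq (rcl Bx), sq (rcl Be), ← rcl_mul Bx Bx, ← rcl_mul Be Be, ← rcl_mul (Be.mul Be) Bp,
        ← rcl_smul' (l ^ 2) ((Be.mul Be).mul Bp)]
      exact rcl_sub (Bx.mul Bx) (((Be.mul Be).mul Bp).smul (l ^ 2)) k2
    have k4 : rcl kE = rcl Be ^ 2 * (rcl k2 ^ (m - 1) * rcl Bx) := by
      rw [sq (rcl Be), ← rcl_mul Be Be, ← rcl_pow k2, ← rcl_mul (k2.pow (m - 1)) Bx,
        ← rcl_mul (Be.mul Be) ((k2.pow (m - 1)).mul Bx)]
    have k5 : rcl Ew ^ 2 = rcl Ep := by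
      rw [sq, ← rcl_mul Ew Ew]
      exact rcl_congr _ _ h2
    have k7 : ∀ (r : ℝ) (c : CW.H B), H.map sρ (r • c) = r • H.map sρ c := fun r c => by
      have : r • c = (r : ℂ) • c := rfl
      rw [this, map_smul]; rfl
    have k6 : H.map sρ (rcl kE) = rcl Ee ^ 2 * ((rcl Ex ^ 2 - l ^ 2 • (rcl Ee ^ 2 * rcl Ew ^ 2)) ^
        (m - 1) * rcl Ex) := by
      rw [k4, k3, k5, map_mul, map_mul, map_pow, map_pow, map_sub, map_pow, k7, map_mul, map_pow,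
        ← rcl_pull sρ Be, ← rcl_pull sρ Bx, ← rcl_pull sρ Bp]
    rw [← k6, k1, map_zero, map_zero]
  refine ⟨In4.ofRing (CW.H Y) (rcl Ee) (rcl Ex) (rcl Ew) I α β l s₁ s₂ s₃ hs₁ hs₃ hs hW hA hB' hI0
    hm ?_ ha hla ?_⟩
  · have k1 : rcl Ew ^ (2 * m + 1) * rcl Ee ^ (2 * m - 1) =
        rcl ((Ew.pow (2 * m + 1)).mul (Ee.pow (2 * m - 1))) := by
      rw [rcl_mul (Ew.pow (2 * m + 1)) (Ee.pow (2 * m - 1)), rcl_pow Ew, rcl_pow Ee]
    rw [k1, hI, mul_left_comm, ← mul_assoc]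
    exact hN
  · have k1 : rcl Ew * rcl Ee ^ (4 * m - 1) = rcl (Ew.mul (Ee.pow (4 * m - 1))) := by
      rw [rcl_mul Ew (Ee.pow (4 * m - 1)), rcl_pow Ee]
    rw [k1, hI, mul_left_comm, ← mul_assoc]
    exact vol

end forms

end Crest.Agent.R208.ZG
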