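import Crest.Agent.R208.QT4
import Crest.Agent.R208.ZG4

/-! Row 208, block Q (helper586), part QT5: **(Q0)**: `4 ∫_B e^(j+1) x₀² ∈ (2π)^(j+1) τ² ℤ`. -/

set_option autoImplicit false
set_option linter.unusedSectionVars false

open MeasureTheory Set Filter Topology Module
open scoped ContDiff RealInnerProductSpace Nat
open Crest.GeometryTopology.Submanifold
open Crest.Agent.R241.DDefs
open Crest.Agent.R241.D2
open Crest.Agent.R208.F Crest.Agent.R208.FI Crest.Agent.R208.CW Crest.Agent.R208.FG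
open Crest.Agent.R208.T (Sm Cl Hom Coh Eqv eR OR Sph EC rcl)
open Crest.Agent.R208.SO (CF2)
open Crest.Agent.R208.SB (OddB)

noncomputable section

namespace Crest.Agent.R208.QT

attribute [local irreducible] bcC mapC sphC c3

/-! ### algebra -/
section alg
variable {E' : Type*} [NormedAddCommGroup E'] [NormedSpace ℝ E'] [FiniteDimensional ℝ E']
  {Y : Set E'} {A A' e x w p v : E' → Ext E'} {l cL : ℝ} {j : ℕ}

/-- `A² A' v ~ 4 c x³ e^j + 4 c l w e^(j+1) x²` -/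
theorem coh_alg (he : EC Y e) (hx : EC Y x) (hw : EC Y w) (hp : EC Y p) (hv : EC Y v)
    (hA : EC Y A) (hA' : EC Y A')
    (h1 : Coh Y ((3 : ℝ) • (x * x) + (l ^ 2) • (e * e * p)) 0) (h2 : Coh Y (w * w) p)
    (h3 : Coh Y A (x + l • (e * w))) (h4 : Coh Y A' (x + (-l) • (e * w)))
    (h5 : Coh Y v (cL • e ^ j)) :
    Coh Y (A * (A * (A' * v))) ((4 * cL) • (e ^ j * x ^ 3) +
      (4 * cL * l) • (w * (e ^ (j + 1) * x ^ 2))) := by
  have k0 : EC Y (A * (A * (A' * v))) := hA.mul (hA.mul (hA'.mul hv))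
  have k1 : EC Y ((3 : ℝ) • (x * x) + (l ^ 2) • (e * e * p)) :=
    ((hx.mul hx).smul 3).add (((he.mul he).mul hp).smul _)
  have k2 : EC Y (x + l • (e * w)) := hx.add ((he.mul hw).smul l)
  have k3 : EC Y (x + (-l) • (e * w)) := hx.add ((he.mul hw).smul (-l))
  have k4 : EC Y (cL • e ^ j) := (he.pow j).smul cL
  have k5 : EC Y ((4 * cL) • (e ^ j * x ^ 3) + (4 * cL * l) • (w * (e ^ (j + 1) * x ^ 2))) :=
    (((he.pow j).mul (hx.pow 3)).smul _).add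
      ((hw.mul ((he.pow (j + 1)).mul (hx.pow 2))).smul _)
  refine (T.rcl_eq_iff k0 k5).1 ?_
  have q1 := (T.rcl_eq_zero_iff k1).2 h1
  have q2 := T.rcl_congr (hw.mul hw) hp h2
  have q3 := T.rcl_congr hA k2 h3
  have q4 := T.rcl_congr hA' k3 h4
  have q5 := T.rcl_congr hv k4 h5
  rw [T.rcl_add ((hx.mul hx).smul 3) (((he.mul he).mul hp).smul _), ZG.rcl_smul' 3 (hx.mul hx),
    ZG.rcl_smul' (l ^ 2) ((he.mul he).mul hp), T.rcl_mul hx hx, T.rcl_mul (he.mul he) hp,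
    T.rcl_mul he he] at q1
  rw [T.rcl_mul hw hw] at q2
  rw [T.rcl_add hx ((he.mul hw).smul l), ZG.rcl_smul' l (he.mul hw), T.rcl_mul he hw] at q3
  rw [T.rcl_add hx ((he.mul hw).smul (-l)), ZG.rcl_smul' (-l) (he.mul hw), T.rcl_mul he hw] at q4
  rw [ZG.rcl_smul' cL (he.pow j), T.rcl_pow he] at q5
  rw [T.rcl_mul hA (hA.mul (hA'.mul hv)), T.rcl_mul hA (hA'.mul hv), T.rcl_mul hA' hv,
    T.rcl_add (((he.pow j).mul (hx.pow 3)).smul _)
      ((hw.mul ((he.pow (j + 1)).mul (hx.pow 2))).smul _),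
    ZG.rcl_smul' (4 * cL) ((he.pow j).mul (hx.pow 3)),
    ZG.rcl_smul' (4 * cL * l) (hw.mul ((he.pow (j + 1)).mul (hx.pow 2))),
    T.rcl_mul (he.pow j) (hx.pow 3), T.rcl_mul hw ((he.pow (j + 1)).mul (hx.pow 2)),
    T.rcl_mul (he.pow (j + 1)) (hx.pow 2), T.rcl_pow he, T.rcl_pow he, T.rcl_pow hx, T.rcl_pow hx,
    q3, q4, q5]
  generalize rcl he = E at *
  generalize rcl hx = X at *
  generalize rcl hw = w' at *
  generalize rcl hp = Q at *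
  simp only [Algebra.smul_def, map_mul, map_pow, map_neg, map_ofNat] at q1 ⊢
  generalize algebraMap ℝ (CW.H Y) l = L at q1 ⊢
  generalize algebraMap ℝ (CW.H Y) cL = C at q1 ⊢
  linear_combination (-(C * E ^ j * (X + L * (E * w')))) * q1 -
    (C * E ^ j * (X + L * (E * w')) * L ^ 2 * E ^ 2) * q2

end alg

theorem tau_card {ι₂ : Type} [Fintype ι₂] {j : ℕ} (h : Fintype.card ι₂ = j) :
    XF.tau ι₂ = (4 * Real.pi) ^ j * (j ! : ℝ) := by rw [XF.tau, h]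

theorem int_of_abs_eq {a c : ℝ} {z : ℤ} (h : |a| = c * |(z : ℝ)|) (hc : 0 ≤ c) :
    ∃ z' : ℤ, a = c * z' := by
  rw [← abs_of_nonneg hc, ← abs_mul] at h
  rcases abs_eq_abs.1 h with h | h
  · exact ⟨z, h⟩
  · exact ⟨-z, by rw [h]; push_cast; ring⟩

/-! ### (Q0) -/
section q0
variable {n N k m : ℕ} {κ : ℝ} {S : Set (Euc N)} {G : Geo n N κ S} {p : Euc N}
  {ι : Type} [Fintype ι] [DecidableEq ι] {W : Euc N × Euc N → (ι × Fin 2 → Fin N) → ℝ}
  {x : Euc N → Ext (Euc N)} {h : GT.Bla G k} {oS : Euc N → Ext (Euc N)}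
  {oV : Euc N × Euc N → Ext (Euc N × Euc N)}
  {E₁ : Type} [NormedAddCommGroup E₁] [NormedSpace ℝ E₁] [FiniteDimensional ℝ E₁]
  {n₁ ι₁ n₂ ι₂ : Type} [Fintype n₁] [DecidableEq n₁] [Fintype ι₁] [DecidableEq ι₁] [Nonempty ι₁]
  [Fintype n₂] [DecidableEq n₂] [Fintype ι₂] [DecidableEq ι₂] [Nonempty ι₂]
  {B : Set E₁} {P' : E₁ → EuclideanSpace ℝ n₁ →L[ℝ] EuclideanSpace ℝ n₁}
  {oP' : E₁ → Ext (EuclideanSpace ℝ n₁)} {oB e x0 p3 : E₁ → Ext E₁}
  {PL : E₁ → EuclideanSpace ℝ n₂ →L[ℝ] EuclideanSpace ℝ n₂}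
  {WL : E₁ → (ι₂ × Fin 2 → n₂) → ℝ}
  {fY : E₁ × EuclideanSpace ℝ n₁ → Euc N} {l cL : ℝ} {r b j : ℕ}

set_option maxHeartbeats 1000000 in
/-- **(Q0)** -/
theorem q0 (IT : IntM) (M : T.XM h m W p x) (hO : OSubm (n - k) n (GT.FF S) S Prod.fst oV oS)
    (hV : ∀ z, IsDeg (n - k) (oV z))
    (hJ0 : Np S m k n p oV x ≠ 0) (hJ : |J n S oS (x ^ m)| = XF.tau ι * |Np S m k n p oV x|)
    (ob : OddB ι₁ B r P' oP') (hrk : r + 2 = k) (hB : Clo b B) (hBc : IsPreconnected B)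
    (hoB : Ori b B oB) (dB : ∀ z, IsDeg b (oB z)) (he : CF2 B 2 e) (hx : CF2 B k x0)
    (hp : CF2 B (2 * r) p3)
    (h1 : Coh B ((3 : ℝ) • (x0 * x0) + (l ^ 2) • (e * e * p3)) 0)
    (h2 : Coh (Sph B P') (OddB.eV ι₁ ob.hr P' oP' * OddB.eV ι₁ ob.hr P' oP')
      (F.pull Prod.fst p3)) (sfY : SMap (Sph B P') S fY)
    (h3 : Coh (Sph B P') (F.pull fY x)
      (F.pull Prod.fst x0 + l • (F.pull Prod.fst e * OddB.eV ι₁ ob.hr P' oP')))
    (hL : OR B PL WL) (hj : Fintype.card ι₂ = j) (hcL : |cL| = 2 ^ j * (j ! : ℝ))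
    (hLe : Coh B (eR PL WL) (cL • e ^ j)) (hdim : r + b = 2 * j + k + k + k)
    (hl : |l| * (2 * XF.tau ι₁) * (2 * Real.pi) = XF.tau ι) :
    ∃ z : ℤ, 4 * J b B oB (e ^ (j + 1) * x0 ^ 2) =
      (2 * Real.pi) ^ (j + 1) * XF.tau ι ^ 2 * z := by
  have hr := ob.hr
  have hcι : 0 < Fintype.card ι₁ := Fintype.card_pos
  have hY : Clo (r + b) (Sph B P') := SB.clo_Sph hB ob.pf
  have hOY := SB.osubm_Sph hB ob.pf ob.op hoB dB
  have dOY : Hom (r + b) (fun z => SB.oV oP' z * F.pull Prod.fst oB z :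
      E₁ × EuclideanSpace ℝ n₁ → Ext (E₁ × EuclideanSpace ℝ n₁)) := fun z =>
    T.isDeg_mul (SB.isDeg_oV ob.op z) ((dB z.1).pb _)
  have sρ : SMap (Sph B P') B (Prod.fst : E₁ × EuclideanSpace ℝ n₁ → E₁) := smap_fstB
  have sfl : SMap (Sph B P') (Sph B P') (OddB.flip (E := E₁) (n := n₁)) := OddB.smap_flip
  have sfY' : SMap (Sph B P') S (fun z => fY (OddB.flip z)) := sfY.comp sfl
  set w := OddB.eV ι₁ ob.hr P' oP' with hw
  have hW : CF2 (Sph B P') r w := ⟨ob.ec_eV.sm, ob.ec_eV.cl, OddB.hom_eV ob.hr,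
    by rw [hr]; exact even_two_mul _⟩
  have ecL := hL.ec_eR
  have eL : CF2 B (2 * Fintype.card ι₂) (eR PL WL) := ⟨ecL.sm, ecL.cl, VX.hom_eR, even_two_mul _⟩
  -- integrality
  obtain ⟨z, hz⟩ := int3 (u := fY) (u' := fun z => fY (OddB.flip z)) (ρ := Prod.fst) IT M hO hV hY
    sfY sfY' hB.sub hBc hL sρ (idC hY hOY.tot dOY) (by omega)
  rw [idC_I] at hz
  -- the flipped map
  have h4 : Coh (Sph B P') (F.pull (fun z => fY (OddB.flip z)) x)
      (F.pull Prod.fst x0 + (-l) • (F.pull Prod.fst e * w)) := by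
    have a1 : Eqv (Sph B P') (F.pull OddB.flip (F.pull fY x))
        (F.pull (fun z => fY (OddB.flip z)) x) :=
      T.eqv_pull_pull sfl sfY sfY' (fun _ _ => rfl) x
    have a2 := h3.pull sfl
    rw [T.pull_add', T.pull_smul', T.pull_mul'] at a2
    have a3 : Eqv (Sph B P') (F.pull OddB.flip (F.pull Prod.fst x0)) (F.pull Prod.fst x0) :=
      T.eqv_pull_pull sfl sρ sρ (fun _ _ => rfl) x0
    have a4 : Eqv (Sph B P') (F.pull OddB.flip (F.pull Prod.fst e)) (F.pull Prod.fst e) :=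
      T.eqv_pull_pull sfl sρ sρ (fun _ _ => rfl) e
    have a5 : Eqv (Sph B P') (F.pull OddB.flip w) (-w) := ob.flip_eV
    refine (Coh.of_eqv a1.symm).trans (a2.trans (Coh.of_eqv ?_))
    have a6 : Eqv (Sph B P') (l • (F.pull OddB.flip (F.pull Prod.fst e) *
        F.pull OddB.flip w)) (l • (F.pull Prod.fst e * -w)) := (a4.mul a5).smul l
    have a7 : l • (F.pull Prod.fst e * -w) = (-l) • (F.pull Prod.fst e * w) := by
      rw [mul_neg, smul_neg, neg_smul]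
    rw [a7] at a6
    exact a3.add a6
  -- algebra
  have E1 := (ZG.CF2.ec he).pull sρ
  have E2 := (ZG.CF2.ec hx).pull sρ
  have E3 := (ZG.CF2.ec hp).pull sρ
  have h1' : Coh (Sph B P') ((3 : ℝ) • (F.pull Prod.fst x0 * F.pull Prod.fst x0) +
      (l ^ 2) • (F.pull Prod.fst e * F.pull Prod.fst e * F.pull Prod.fst p3)) 0 := by
    have := h1.pull sρ
    rwa [T.pull_add', T.pull_smul', T.pull_smul', T.pull_mul', T.pull_mul', T.pull_mul',
      T.pull_zero'] at this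
  have h5 : Coh (Sph B P') (F.pull Prod.fst (eR PL WL)) (cL • (F.pull Prod.fst e) ^ j) := by
    have := hLe.pull sρ
    rwa [T.pull_smul', T.pull_pow'] at this
  have eA : CF2 (Sph B P') k (F.pull fY x) := (cf2_x M).pull sfY
  have eA' : CF2 (Sph B P') k (F.pull (fun z => fY (OddB.flip z)) x) := (cf2_x M).pull sfY'
  have ev : CF2 (Sph B P') (2 * Fintype.card ι₂) (F.pull Prod.fst (eR PL WL)) := eL.pull sρ
  have hc := coh_alg E1 E2 (ZG.CF2.ec hW) E3 (ZG.CF2.ec ev) (ZG.CF2.ec eA) (ZG.CF2.ec eA') h1' h2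
    h3 h4 h5
  have s3 : Sm (Sph B P') (F.pull Prod.fst (e ^ j * x0 ^ 3)) :=
    ((he.sm.pow j).mul (hx.sm.pow 3)).pull sρ
  have s4 : Sm (Sph B P') (w * F.pull Prod.fst (e ^ (j + 1) * x0 ^ 2)) :=
    hW.sm.mul (((he.sm.pow (j + 1)).mul (hx.sm.pow 2)).pull sρ)
  have e3 : F.pull Prod.fst e ^ j * F.pull Prod.fst x0 ^ 3 =
      F.pull (Prod.fst : E₁ × EuclideanSpace ℝ n₁ → E₁) (e ^ j * x0 ^ 3) := by
    rw [T.pull_mul', T.pull_pow', T.pull_pow']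
  have e4 : F.pull Prod.fst e ^ (j + 1) * F.pull Prod.fst x0 ^ 2 =
      F.pull (Prod.fst : E₁ × EuclideanSpace ℝ n₁ → E₁) (e ^ (j + 1) * x0 ^ 2) := by
    rw [T.pull_mul', T.pull_pow', T.pull_pow']
  rw [e3, e4] at hc
  -- the first term
  have z3 : Eqv (Sph B P') (F.pull Prod.fst (e ^ j * x0 ^ 3)) 0 := by
    have a1 : Hom (2 * j + k * 3) (e ^ j * x0 ^ 3) := (he.hom.pow j).mul (hx.hom.pow 3)
    have a2 : ResZero B (e ^ j * x0 ^ 3) := SO.resZero_of_gt hB.sub a1 (by omega)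
    exact T.resZero_iff.1 (T.ResZero.pull sρ a2)
  have hJY : J (r + b) (Sph B P') (fun z => SB.oV oP' z * F.pull Prod.fst oB z)
      (F.pull fY x * (F.pull fY x * (F.pull (fun z => fY (OddB.flip z)) x *
        F.pull Prod.fst (eR PL WL)))) =
      4 * cL * l * (2 * XF.tau ι₁ * J b B oB (e ^ (j + 1) * x0 ^ 2)) := by
    have b1 := SO.J_coh hY hOY.tot (eA.sm.mul (eA.sm.mul (eA'.sm.mul ev.sm)))
      ((s3.smul (4 * cL)).add (s4.smul (4 * cL * l))) hc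
    have b2 : Eqv (Sph B P') ((4 * cL) • F.pull Prod.fst (e ^ j * x0 ^ 3) +
        (4 * cL * l) • (w * F.pull Prod.fst (e ^ (j + 1) * x0 ^ 2)))
        ((4 * cL * l) • (w * F.pull Prod.fst (e ^ (j + 1) * x0 ^ 2))) := by
      have := (z3.smul (4 * cL)).add (Eqv.refl (X := Sph B P')
        ((4 * cL * l) • (w * F.pull Prod.fst (e ^ (j + 1) * x0 ^ 2))))
      rwa [smul_zero, zero_add] at this
    rw [b1, SO.J_eqv hY b2]
    have b3 := ob.J_eV hB hoB dB (β := e ^ (j + 1) * x0 ^ 2)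
      (fun z hz => (((he.sm.pow (j + 1)).mul (hx.sm.pow 2)) z hz).continuousAt.continuousWithinAt)
      (fun z _ q hq => ((he.hom.pow (j + 1)).mul (hx.hom.pow 2)) z q (by omega))
    rw [← b3]
    exact J_smul (4 * cL * l)
  rw [hJY] at hz
  -- absolute values
  set a := Np S m k n p oV x with ha
  set Jx := J b B oB (e ^ (j + 1) * x0 ^ 2) with hJx
  have ht := XF.tau_pos ι
  have ht₁ := XF.tau_pos ι₁
  have ht₂ := tau_card hj
  have hpi := Real.pi_pos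
  have hj0 : (0 : ℝ) < (j ! : ℝ) := by exact_mod_cast Nat.factorial_pos j
  have ha0 : 0 < |a| := abs_pos.2 hJ0
  have n4 : |(4 : ℝ)| = 4 := abs_of_pos (by norm_num)
  have n2 : |(2 : ℝ)| = 2 := abs_of_pos (by norm_num)
  have L1 : |a ^ 3 * (4 * cL * l * (2 * XF.tau ι₁ * Jx))| =
      |a| ^ 3 * (4 * (2 ^ j * (j ! : ℝ)) * |l| * (2 * XF.tau ι₁ * |Jx|)) := by
    simp only [abs_mul, abs_pow, hcL, n4, n2, abs_of_pos ht₁]
  have h7 : (4 * Real.pi) ^ j = 2 ^ j * (2 * Real.pi) ^ j := by rw [← mul_pow]; ring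
  have L2 : |XF.tau ι₂ * z * J n S oS (x ^ m) ^ 3| =
      2 ^ j * (2 * Real.pi) ^ j * (j ! : ℝ) * |(z : ℝ)| * (XF.tau ι * |a|) ^ 3 := by
    rw [ht₂, abs_mul, abs_mul, abs_pow, hJ, h7, abs_of_pos (by positivity)]
  have habs : |a| ^ 3 * (4 * (2 ^ j * (j ! : ℝ)) * |l| * (2 * XF.tau ι₁ * |Jx|)) =
      2 ^ j * (2 * Real.pi) ^ j * (j ! : ℝ) * |(z : ℝ)| * (XF.tau ι * |a|) ^ 3 := by
    rw [← L1, hz, L2]
  refine int_of_abs_eq (z := z) ?_ (by positivity)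
  rw [abs_mul, n4]
  have h8 : |a| ^ 3 * 2 ^ j * (j ! : ℝ) * (XF.tau ι) ≠ 0 := by positivity
  apply mul_left_cancel₀ h8
  rw [pow_succ]
  linear_combination (2 * Real.pi) * habs - (|a| ^ 3 * 2 ^ j * (j ! : ℝ) * (4 * |Jx|)) * hl

end q0

end Crest.Agent.R208.QT
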