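import Crest.Agent.R208.QT5
import Crest.Agent.R208.ZH2

/-! Row 208, block Q (helper586), part QT6: (n0) and (Q0) with the period over one cut locus. -/

set_option autoImplicit false
set_option linter.unusedSectionVars false

open MeasureTheory Set Filter Topology Module
open scoped ContDiff RealInnerProductSpace Nat
open Crest.GeometryTopology.Submanifold
open Crest.Agent.R241.DDefs
open Crest.Agent.R241.D2
open Crest.Agent.R208.F Crest.Agent.R208.FI Crest.Agent.R208.CW Crest.Agent.R208.FG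
open Crest.Agent.R208.T (Sm Cl Hom Coh Eqv eR OR Sph EC rcl)
open Crest.Agent.R208.SO (CF2)
open Crest.Agent.R208.SB (OddB)

noncomputable section

namespace Crest.Agent.R208.QT

section np
variable {n N k m : ℕ} {κ : ℝ} {S : Set (Euc N)} {G : Geo n N κ S} {p : Euc N}
  {ι : Type} [Fintype ι] [DecidableEq ι] {W : Euc N × Euc N → (ι × Fin 2 → Fin N) → ℝ}
  {x : Euc N → Ext (Euc N)} {h : GT.Bla G k} {oS : Euc N → Ext (Euc N)}
  {oV : Euc N × Euc N → Ext (Euc N × Euc N)}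

/-- `|N_p|` is the period of `x^(m-1)` over the cut locus of `p` -/
theorem abs_Np (M : T.XM h m W p x) (hO : OSubm (n - k) n (GT.FF S) S Prod.fst oV oS)
    {oC : Euc N → Ext (Euc N)} (hoC : Ori (n - k) (GP.Cut S p) oC) :
    |Np S m k n p oV x| = |J (n - k) (GP.Cut S p) oC (x ^ (m - 1))| := by
  have hk := M.hk
  have hkn := M.hkn
  have hcf := (FV.subm_fst h).clo_fibre p
  have hcC := FV.clo_Cut h M.hp
  have hdiff : ∀ x ∈ GT.FF S ∩ (Prod.fst : Euc N × Euc N → Euc N) ⁻¹' {p},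
      DifferentiableAt ℝ (Prod.snd : Euc N × Euc N → Euc N) x := fun x _ => differentiableAt_snd
  have hb := FG.bij_fib (S := S) p M.hp
  have sx : Sm S (x ^ (m - 1)) := M.sx.pow _
  have e1 := J_pull hcf hcC hdiff hb hoC (om := x ^ (m - 1))
    (fun q hq => ((sx q hq.1).continuousAt).continuousWithinAt)
  have hpo : Ori (n - k) (GT.FF S ∩ (Prod.fst : Euc N × Euc N → Euc N) ⁻¹' {p})
      (F.pull Prod.snd oC) := by
    refine Ori.pull hcf hcC (fun x _ => contDiffAt_snd) hb.mapsTo (fun x hx v hv h0 => ?_) hoC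
    have h5 : v ∈ Tan (GT.FF S ∩ (Prod.fst : Euc N × Euc N → Euc N) ⁻¹' {Prod.fst x}) x := by
      have : Prod.fst x = p := hx.2
      rw [this]; exact hv
    rw [(FV.subm_fst h).tan_fibre hx.1] at h5
    have h6 : fderiv ℝ (Prod.fst : Euc N × Euc N → Euc N) x v = 0 := h5.2
    rw [hasFDerivAt_fst.fderiv] at h6
    rw [hasFDerivAt_snd.fderiv] at h0
    exact Prod.ext h6 h0
  have e0 : Np S m k n p oV x = J (n - k) (GT.FF S ∩ Prod.fst ⁻¹' {p}) oV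
      (F.pull Prod.snd (x ^ (m - 1))) := by
    rw [Np, T.pull_pow']
  rw [e0, ← e1]
  rcases J_ori_connected hcf (hO.fib p) hpo (FG.preconn_fib h (by omega) M.hp) with h7 | h7
  · rw [h7]
  · rw [h7, abs_neg]

/-- the value of the top power: `|∫_S x^m| = τ |∫_{C_p} x^(m-1)|` -/
def SV (n k : ℕ) (ι : Type) [Fintype ι] (S : Set (Euc N)) (m : ℕ) (p : Euc N)
    (x : Euc N → Ext (Euc N)) : Prop :=
  ∀ oS, Ori n S oS → ∀ oC, Ori (n - k) (GP.Cut S p) oC →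
    |J n S oS (x ^ m)| = XF.tau ι * |J (n - k) (GP.Cut S p) oC (x ^ (m - 1))|

theorem exists_oS (h : GT.Bla G k) (hk : 2 ≤ k) : ∃ oS, Ori n S oS ∧ Hom n oS := by
  obtain ⟨w, hw, hwe⟩ := GP.exists_orient h.bl h.ty hk
  refine ⟨fun z => GP.fm n N (w z), GP.ori_of_field (GP.clo_S h.bl)
    (fun z hz => (hw z hz).continuousAt.continuousWithinAt) fun z hz => ?_,
    fun z => GP.isDeg_fm _⟩
  obtain ⟨e, he, heV, hwe⟩ := hwe z hz
  refine ⟨e, he.on, fun a => ?_, hwe⟩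
  rw [LB.Tan_S (G := G) (FV.sub_S h.bl) hz]
  exact heV a

end np

section final
variable {n N k m : ℕ} {κ : ℝ} {S : Set (Euc N)} {G : Geo n N κ S} {p : Euc N}
  {ι : Type} [Fintype ι] [DecidableEq ι] {W : Euc N × Euc N → (ι × Fin 2 → Fin N) → ℝ}
  {x : Euc N → Ext (Euc N)} {h : GT.Bla G k}
  {E₁ : Type} [NormedAddCommGroup E₁] [NormedSpace ℝ E₁] [FiniteDimensional ℝ E₁]
  {n₁ ι₁ n₂ ι₂ : Type} [Fintype n₁] [DecidableEq n₁] [Fintype ι₁] [DecidableEq ι₁] [Nonempty ι₁]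
  [Fintype n₂] [DecidableEq n₂] [Fintype ι₂] [DecidableEq ι₂] [Nonempty ι₂]
  {B : Set E₁} {P' : E₁ → EuclideanSpace ℝ n₁ →L[ℝ] EuclideanSpace ℝ n₁}
  {oP' : E₁ → Ext (EuclideanSpace ℝ n₁)} {oB e x0 p3 : E₁ → Ext E₁}
  {PL : E₁ → EuclideanSpace ℝ n₂ →L[ℝ] EuclideanSpace ℝ n₂}
  {WL : E₁ → (ι₂ × Fin 2 → n₂) → ℝ}
  {fY : E₁ × EuclideanSpace ℝ n₁ → Euc N} {l cL : ℝ} {r b j : ℕ}

/-- **(n0)**, final form: `2 ∫_c x₀ ∈ τ ℤ` for every thin `k`-chain `c` of `B` -/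
theorem n0' (IT : IntM) (M : T.XM h m W p x) (hSV : SV n k ι S m p x)
    (ob : OddB ι₁ B r P' oP') (hrk : r + 2 = k) (hB : Clo b B) (hBc : IsPreconnected B)
    (hne : B.Nonempty) (hoB : Ori b B oB) (dB : Hom b oB) (he : CF2 B 2 e) (hx : CF2 B k x0)
    (sfY : SMap (Sph B P') S fY)
    (h3 : Coh (Sph B P') (F.pull fY x)
      (F.pull Prod.fst x0 + l • (F.pull Prod.fst e * OddB.eV ι₁ ob.hr P' oP'))) :
    ∀ c : CH.Chn B k, ∃ z : ℤ, 2 * c.I x0 = XF.tau ι * z := by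
  intro c
  have hcι : 0 < Fintype.card ι₁ := Fintype.card_pos
  have hr := ob.hr
  obtain ⟨oS, hoS, dS⟩ := exists_oS h M.hk
  obtain ⟨oV, hV, hO⟩ := FG.exists_osubm h M.hk M.hkn hoS dS
  obtain ⟨oC, hoC, -, -⟩ := T.exists_ori_Cut h M.hk M.hkn M.hp
  have h4 := abs_Np M hO hoC
  have h5 := M.J_Cut_ne hoC
  have h6 : Np S m k n p oV x ≠ 0 := by
    rw [← abs_pos, h4, abs_pos]
    exact h5
  have hJ : |J n S oS (x ^ m)| = XF.tau ι * |Np S m k n p oV x| := by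
    rw [h4]; exact hSV oS hoS oC hoC
  have e1 : T.EC B (EW.cR r P') := EW.ec_cfr hB.sub (EW.idF_of_pfield ob.pf) r
  have hp : CF2 B (2 * r) ((VX.nE ι₁ ^ 2) • EW.cR r P') :=
    (⟨e1.sm, e1.cl, EW.hom_cfr r, even_two_mul _⟩ : CF2 B (2 * r) (EW.cR r P')).smul _
  have h2 : Coh (Sph B P') (OddB.eV ι₁ ob.hr P' oP' * OddB.eV ι₁ ob.hr P' oP')
      (F.pull Prod.fst ((VX.nE ι₁ ^ 2) • EW.cR r P')) := by
    rw [T.pull_smul']
    exact ob.sq_eV hB.sub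
  exact n0 IT M hO hV h6 hJ ob hrk hB hBc hne
    (ZG.preconn_Sph hB.compact hBc ob.pf (by omega)) hoB dB he hx hp h2 sfY h3 c

/-- **(Q0)**, final form -/
theorem q0' (IT : IntM) (M : T.XM h m W p x) (hSV : SV n k ι S m p x)
    (ob : OddB ι₁ B r P' oP') (hrk : r + 2 = k) (hB : Clo b B) (hBc : IsPreconnected B)
    (hoB : Ori b B oB) (dB : Hom b oB) (he : CF2 B 2 e) (hx : CF2 B k x0)
    (hp : CF2 B (2 * r) p3)
    (h1 : Coh B ((3 : ℝ) • (x0 * x0) + (l ^ 2) • (e * e * p3)) 0)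
    (h2 : Coh (Sph B P') (OddB.eV ι₁ ob.hr P' oP' * OddB.eV ι₁ ob.hr P' oP')
      (F.pull Prod.fst p3)) (sfY : SMap (Sph B P') S fY)
    (h3 : Coh (Sph B P') (F.pull fY x)
      (F.pull Prod.fst x0 + l • (F.pull Prod.fst e * OddB.eV ι₁ ob.hr P' oP')))
    (hL : OR B PL WL) (hj : Fintype.card ι₂ = j) (hcL : |cL| = 2 ^ j * (j ! : ℝ))
    (hLe : Coh B (eR PL WL) (cL • e ^ j)) (hdim : r + b = 2 * j + k + k + k)
    (hl : |l| * (2 * XF.tau ι₁) * (2 * Real.pi) = XF.tau ι) :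
    ∃ z : ℤ, 4 * J b B oB (e ^ (j + 1) * x0 ^ 2) =
      (2 * Real.pi) ^ (j + 1) * XF.tau ι ^ 2 * z := by
  obtain ⟨oS, hoS, dS⟩ := exists_oS h M.hk
  obtain ⟨oV, hV, hO⟩ := FG.exists_osubm h M.hk M.hkn hoS dS
  obtain ⟨oC, hoC, -, -⟩ := T.exists_ori_Cut h M.hk M.hkn M.hp
  have h4 := abs_Np M hO hoC
  have h5 := M.J_Cut_ne hoC
  have h6 : Np S m k n p oV x ≠ 0 := by
    rw [← abs_pos, h4, abs_pos]
    exact h5
  have hJ : |J n S oS (x ^ m)| = XF.tau ι * |Np S m k n p oV x| := by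
    rw [h4]; exact hSV oS hoS oC hoC
  exact q0 IT M hO hV h6 hJ ob hrk hB hBc hoB dB he hx hp h1 h2 sfY h3 hL hj hcL hLe hdim hl

end final

end Crest.Agent.R208.QT
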