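import Crest.Agent.R208.EP3

/-! Row 208, block Q, (Q0-L) (helper107): `1^r ⊗ L` over the quotient of a free circle action is an
oriented real bundle of rank `2 r` with Euler form `± 2^r r! Fc^r`. -/

set_option autoImplicit false
set_option linter.unusedSectionVars false

open Set Filter Topology Module MeasureTheory Matrix
open scoped ContDiff RealInnerProductSpace ComplexConjugate Kronecker
open Crest.Agent.R208.F Crest.Agent.R208.FI Crest.Agent.R208.CW
open Crest.Agent.R208.CM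
open Crest.Agent.R208.T
open Crest.Agent.R208.EW

noncomputable section

namespace Crest.Agent.R208.QT

section const
variable {E : Type} [NormedAddCommGroup E] [NormedSpace ℝ E] [FiniteDimensional ℝ E]
  {n : Type} [Fintype n] [DecidableEq n]

theorem Om_const (M : Matrix n n ℂ) (x : E) : Om (fun _ : E => M) x = 0 := by
  have h : D2 (fun _ : E => M) x = 0 := by
    refine Matrix.ext fun i j => Subtype.ext ?_
    change (DD (fun _ : E => M) x * DD (fun _ : E => M) x) i j = 0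
    rw [DD_const, Matrix.mul_zero]
    rfl
  rw [Om, h, Matrix.mul_zero, Matrix.zero_mul]

theorem cf_const (M : Matrix n n ℂ) (j : ℕ) (x : E) :
    cf j (fun _ : E => M) x = if j = 0 then 1 else 0 := by
  have h : cpoly (0 : Matrix n n (EvC E)) = 1 := by
    rw [cpoly]
    simp
  rw [cf, Om_const, h, Polynomial.coeff_one]
  split_ifs <;> rfl

theorem cR_const {p : Type} [Fintype p] [DecidableEq p]
    (N : EuclideanSpace ℝ p →L[ℝ] EuclideanSpace ℝ p) (j : ℕ) :
    cR (G := E) j (fun _ => N) = if j = 0 then 1 else 0 := by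
  funext x
  have h : cR (G := E) j (fun _ => N) x = (cf j (fun _ : E => mtx N) x).re := rfl
  rw [h, cf_const]
  split_ifs <;> rfl

/-- the top Chern form of `1^r ⊗ L^w` -/
theorem topr_const {p : Type} [Fintype p] [DecidableEq p]
    (N : EuclideanSpace ℝ p →L[ℝ] EuclideanSpace ℝ p) (r : ℕ) (w : ℝ) (F : E → Ext E) :
    EP.topr r w (fun _ => N) F = w ^ r • F ^ r := by
  rw [EP.topr, Finset.sum_eq_single 0]
  · rw [mul_zero, Nat.sub_zero, pow_zero, one_mul, cR_const, if_pos rfl, one_mul]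
  · intro j _ hj
    rw [cR_const, if_neg (by omega), zero_mul, smul_zero]
  · intro h
    exact absurd (Finset.mem_range.2 (Nat.succ_pos _)) h

end const

section quo
variable {E : Type} [NormedAddCommGroup E] [NormedSpace ℝ E] [FiniteDimensional ℝ E]
  {X : Set E} {φ : ℝ → E → E} {m d r : ℕ} {g : E → Fin m → ℂ} {al : E → Ext E}
  {Fc : MM m → Ext (MM m)}

/-- the trivial field of rank `r` -/
def N1 (m r : ℕ) (_ : MM m) : EuclideanSpace ℝ (Fin r) →L[ℝ] EuclideanSpace ℝ (Fin r) :=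
  ContinuousLinearMap.id ℝ _

theorem pfield_N1 (Y : Set (MM m)) : PField Y r (N1 m r) := by
  refine ⟨fun x _ => contDiffAt_const, fun _ _ _ => rfl, fun x _ => ?_⟩
  have h : LinearMap.range (N1 m r x : EuclideanSpace ℝ (Fin r) →ₗ[ℝ] EuclideanSpace ℝ (Fin r)) = ⊤ :=
    LinearMap.range_eq_top.2 fun v => ⟨v, rfl⟩
  rw [h, finrank_top, finrank_euclideanSpace_fin]

/-- the field `1^r ⊗ L` -/
abbrev PL1 (m r : ℕ) := EP.NL (N1 m r) (Lt (m := m))

/-- its orientation -/
abbrev WL1 (m r : ℕ) := EP.WN (Fin r) (N1 m r) (Lt (m := m))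

theorem or_L1 (hg : Emb X φ g) : OR (ι := Fin r) (Quo X g) (PL1 m r) (WL1 m r) :=
  EP.or_NL (pfield_N1 _) (fun _ _ _ _ => rfl) (EP.lineF_Lt hg) (Fintype.card_fin r)

/-- **(Q0-L)** -/
theorem coh_L1 (hg : Emb X φ g) (hC : Cir X φ) (hX : Clo (d + 1) X) (hXc : IsPreconnected X)
    (ha : Conn X φ al) (hF : Curv X g al Fc) :
    ∃ ε : ℝ, (ε = 1 ∨ ε = -1) ∧ Coh (Quo X g) (eR (PL1 m r) (WL1 m r))
      ((ε * (2 ^ r * (Nat.factorial r))) • Fc ^ r) := by
  obtain ⟨ε, hε, h⟩ := EP.coh_NLt (ι := Fin r) hg hC hX hXc (pfield_N1 (r := r) _)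
    (fun _ _ _ _ => rfl) (Fintype.card_fin r) ha hF
  refine ⟨ε, hε, ?_⟩
  have h1 : EP.topr r 1 (N1 m r) Fc = Fc ^ r := by
    have := topr_const (E := MM m) (ContinuousLinearMap.id ℝ (EuclideanSpace ℝ (Fin r))) r 1 Fc
    rw [one_pow, one_smul] at this
    exact this
  rwa [h1] at h

/-- **(Q0-L)**, existence form -/
theorem exists_L1 (r : ℕ) (hg : Emb X φ g) (hC : Cir X φ) (hX : Clo (d + 1) X)
    (hXc : IsPreconnected X) (ha : Conn X φ al) (hF : Curv X g al Fc) :
    ∃ (P : MM m → EuclideanSpace ℝ (Fin r × (Fin m × Fin 2)) →L[ℝ]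
        EuclideanSpace ℝ (Fin r × (Fin m × Fin 2)))
      (W : MM m → (Fin r × Fin 2 → Fin r × (Fin m × Fin 2)) → ℝ),
      OR (ι := Fin r) (Quo X g) P W ∧ ∃ c : ℝ, |c| = 2 ^ r * (Nat.factorial r) ∧
        Coh (Quo X g) (eR P W) (c • Fc ^ r) := by
  obtain ⟨ε, hε, h⟩ := coh_L1 (r := r) hg hC hX hXc ha hF
  refine ⟨_, _, or_L1 hg, ε * (2 ^ r * (Nat.factorial r)), ?_, h⟩
  have h2 : (0 : ℝ) ≤ 2 ^ r * (Nat.factorial r) := by positivity
  rw [abs_mul, abs_of_nonneg h2]
  rcases hε with rfl | rfl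
  · rw [abs_one, one_mul]
  · rw [abs_neg, abs_one, one_mul]

end quo

end Crest.Agent.R208.QT
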