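import Crest.Agent.R208.QT6
import Crest.Agent.R208.QTL1
import Crest.Agent.R208.ZH3b
import Crest.Agent.R208.CM6b

/-! Row 208, block Q (helper586), part QT7: (n0) and (Q0) over the manifold of geodesics. -/

set_option autoImplicit false
set_option linter.unusedSectionVars false

open MeasureTheory Set Filter Topology Module
open scoped ContDiff RealInnerProductSpace Nat
open Crest.GeometryTopology.Submanifold
open Crest.Agent.R241.DDefs
open Crest.Agent.R241.D2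
open Crest.Agent.R208.F Crest.Agent.R208.FI Crest.Agent.R208.FG
open Crest.Agent.R208.CW (SMap)
open Crest.Agent.R208.T (Sm Cl Hom Coh Eqv eR OR Sph EC rcl)
open Crest.Agent.R208.SO (CF2)
open Crest.Agent.R208.SB (OddB)
open Crest.Agent.R208.L (US)
open Crest.Agent.R208.LB (al)
open Crest.Agent.R208.CM (gf MM jj Quo Emb Curv)

noncomputable section

namespace Crest.Agent.R208.QT

variable {n N k m M' : ℕ} {κ : ℝ} {S : Set (Euc N)} {G : Geo n N κ S} {p : Euc N}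
  {ι : Type} [Fintype ι] [DecidableEq ι] {W : Euc N × Euc N → (ι × Fin 2 → Fin N) → ℝ}
  {x : Euc N → Ext (Euc N)}
  {g : Euc N × Euc N → Fin M' → ℂ} {Fc x0 : MM M' → Ext (MM M')}
  {n₁ ι₁ : Type} [Fintype n₁] [DecidableEq n₁] [Fintype ι₁] [DecidableEq ι₁] [Nonempty ι₁]
  {P' : MM M' → EuclideanSpace ℝ n₁ →L[ℝ] EuclideanSpace ℝ n₁}
  {oP' : MM M' → Ext (EuclideanSpace ℝ n₁)}
  {fY : MM M' × EuclideanSpace ℝ n₁ → Euc N} {l : ℝ} {r : ℕ}

theorem cf2_Fc (hc : Curv (US G) g (al (N := N)) Fc) : CF2 (Quo (US G) g) 2 Fc :=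
  ⟨hc.sm, hc.cl, hc.hom, even_two⟩

/-- **(n0) over the manifold of geodesics** -/
theorem n0_B {h : GT.Bla G k} (IT : IntM) (D : T.XM h m W p x) (hSV : SV n k ι S m p x)
    (hper : HS.Per G) (hg : Emb (US G) (gf G) g) (hc : Curv (US G) g (al (N := N)) Fc)
    (ob : OddB ι₁ (Quo (US G) g) r P' oP') (hrk : r + 2 = k)
    (hx : CF2 (Quo (US G) g) k x0) (sfY : SMap (Sph (Quo (US G) g) P') S fY)
    (h3 : Coh (Sph (Quo (US G) g) P') (F.pull fY x)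
      (F.pull Prod.fst x0 + l • (F.pull Prod.fst Fc * OddB.eV ι₁ ob.hr P' oP'))) :
    ∀ c : CH.Chn (Quo (US G) g) k, ∃ z : ℤ, 2 * c.I x0 = XF.tau ι * z := by
  have hk := D.hk
  have hkn := D.hkn
  have hne : (Quo (US G) g).Nonempty := by
    obtain ⟨z, hz⟩ := T.nonempty_UST h D.hp
    exact ⟨jj g z, z, hz, rfl⟩
  obtain ⟨d, rfl⟩ : ∃ d, n = d + 1 := ⟨n - 1, by omega⟩
  have hB := ZG.clo_B h hper hg
  obtain ⟨hoB, -, -⟩ := CM.J_US h.bl hper hg hc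
  exact n0' IT D hSV ob hrk hB (ZG.preconn_B h (by omega) hg) hne hoB
    (hc.hom.pow (d + 1 - 1)) (cf2_Fc hc) hx sfY h3

/-- **(Q0) over the manifold of geodesics**, `n = 2 k` -/
theorem q0_B {h : GT.Bla G k} (IT : IntM) (D : T.XM h 2 W p x) (hSV : SV n k ι S 2 p x)
    (hper : HS.Per G) (hg : Emb (US G) (gf G) g) (hc : Curv (US G) g (al (N := N)) Fc)
    (ob : OddB ι₁ (Quo (US G) g) r P' oP') (hrk : r + 2 = k)
    (hx : CF2 (Quo (US G) g) k x0)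
    (h1 : Coh (Quo (US G) g) ((3 : ℝ) • (x0 * x0) +
      (l ^ 2) • (Fc * Fc * ((VX.nE ι₁ ^ 2) • EW.cR r P'))) 0)
    (sfY : SMap (Sph (Quo (US G) g) P') S fY)
    (h3 : Coh (Sph (Quo (US G) g) P') (F.pull fY x)
      (F.pull Prod.fst x0 + l • (F.pull Prod.fst Fc * OddB.eV ι₁ ob.hr P' oP')))
    (hl : |l| * (2 * XF.tau ι₁) * (2 * Real.pi) = XF.tau ι) :
    ∃ z : ℤ, 4 * J (2 * (n - 1)) (Quo (US G) g) (Fc ^ (n - 1)) (Fc ^ (k - 1) * x0 ^ 2) =
      (2 * Real.pi) ^ (k - 1) * XF.tau ι ^ 2 * z := by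
  have hk := D.hk
  have hkn := D.hkn
  have hn := D.hn
  have hcι : 0 < Fintype.card ι₁ := Fintype.card_pos
  have hr := ob.hr
  have hB := ZG.clo_B h hper hg
  obtain ⟨hoB, -, -⟩ := CM.J_US h.bl hper hg hc
  have : Nonempty (Fin (k - 2)) := ⟨⟨0, by omega⟩⟩
  have e1 : T.EC (Quo (US G) g) (EW.cR r P') := EW.ec_cfr hB.sub (EW.idF_of_pfield ob.pf) r
  have hp : CF2 (Quo (US G) g) (2 * r) ((VX.nE ι₁ ^ 2) • EW.cR r P') :=
    (⟨e1.sm, e1.cl, EW.hom_cfr r, even_two_mul _⟩ : CF2 (Quo (US G) g) (2 * r)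
      (EW.cR r P')).smul _
  have h2 : Coh (Sph (Quo (US G) g) P') (OddB.eV ι₁ ob.hr P' oP' * OddB.eV ι₁ ob.hr P' oP')
      (F.pull Prod.fst ((VX.nE ι₁ ^ 2) • EW.cR r P')) := by
    rw [T.pull_smul']
    exact ob.sq_eV hB.sub
  obtain ⟨ε, hε, hL⟩ := coh_L1 (r := k - 2) hg (CM.cir_US h.bl hper)
    (CM.clo_US' h.bl) (FV.preconn_US h.bl (by omega)) (CM.conn_al (FV.sub_S h.bl)) hc
  have hcL : |ε * (2 ^ (k - 2) * ((k - 2) ! : ℝ))| = 2 ^ (k - 2) * ((k - 2) ! : ℝ) := by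
    rw [abs_mul, abs_of_nonneg (by positivity : (0 : ℝ) ≤ 2 ^ (k - 2) * ((k - 2) ! : ℝ))]
    rcases hε with rfl | rfl
    · rw [abs_one, one_mul]
    · rw [abs_neg, abs_one, one_mul]
  have := q0' IT D hSV ob hrk hB (ZG.preconn_B h (by omega) hg) hoB
    (hc.hom.pow (n - 1)) (cf2_Fc hc) hx hp h1 h2 sfY h3 (or_L1 hg) (Fintype.card_fin (k - 2)) hcL hL
    (by omega) hl
  rwa [show k - 2 + 1 = k - 1 by omega] at this

end Crest.Agent.R208.QT
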