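import Crest.Agent.R208.ZA2
import Crest.Agent.R208.CM6b
import Crest.Agent.R208.HW6

/-!
R208, ZA3 (helper221): **`Vol8Stmt` from the bound over the manifold of geodesics**, and the
conversion lemmas for the inputs (S1') and (Q0).
-/

set_option autoImplicit false
set_option linter.unusedSectionVars false

open MeasureTheory Set Filter Topology Module
open scoped ContDiff
open Crest.GeometryTopology.Submanifold
open Crest.Agent.R241.DDefs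
open Crest.Agent.R241.D2
open Crest.Agent.R208.F Crest.Agent.R208.FI Crest.Agent.R208.T
open Crest.Agent.R208.CM
open Crest.Agent.R208.CW (SMap)
open Crest.Agent.R208.L (US)
open Crest.Agent.R208.LB (oUS al)

noncomputable section

namespace Crest.Agent.R208.ZA

/-- the contact volume in terms of the manifold of geodesics -/
theorem J31 {N : ℕ} {κ : ℝ} {S : Set (Euc N)} {G : Geo 16 N κ S} (h : GT.Bla G 8) {m : ℕ}
    {g : Euc N × Euc N → Fin m → ℂ} {Fc : MM m → Ext (MM m)} (hg : Emb (US G) (gf G) g)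
    (hc : Curv (US G) g (al (N := N)) Fc) :
    Ori 30 (Quo (US G) g) (Fc ^ 15) ∧
      (∀ η : MM m → Ext (MM m), ContinuousOn η (Quo (US G) g) →
        J 31 (US G) (oUS 16 N) (al * F.pull (jj g) η) =
          2 * Real.pi * J 30 (Quo (US G) g) (Fc ^ 15) η) ∧
      J 31 (US G) (oUS 16 N) (oUS 16 N) = 2 * Real.pi * J 30 (Quo (US G) g) (Fc ^ 15) (Fc ^ 15) :=
  J_US h.bl h.ty.per hg hc

/-- **`Vol8Stmt` from `|∫_B e¹⁵| ≤ 78 (2π)¹⁵`** -/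
theorem vol8 (H : ∀ (N : ℕ) (κ : ℝ) (S : Set (Euc N)) (G : Geo 16 N κ S), GT.Bla G 8 →
    ∃ (m : ℕ) (g : Euc N × Euc N → Fin m → ℂ) (Fc : MM m → Ext (MM m)),
      Emb (US G) (gf G) g ∧ Curv (US G) g (al (N := N)) Fc ∧
        |J 30 (Quo (US G) g) (Fc ^ 15) (Fc ^ 15)| ≤ 78 * (2 * Real.pi) ^ 15) : ZG.Vol8Stmt := by
  refine ZG.vol8_of fun N κ S G h => ?_
  obtain ⟨m, g, Fc, hg, hc, hb⟩ := H N κ S G h
  refine ⟨39, by norm_num, ?_⟩
  rw [(J31 h hg hc).2.2]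
  have h1 := (le_abs_self _).trans hb
  have h2 : (0 : ℝ) ≤ 2 * Real.pi := by positivity
  calc 2 * Real.pi * J 30 (Quo (US G) g) (Fc ^ 15) (Fc ^ 15) ≤
      2 * Real.pi * (78 * (2 * Real.pi) ^ 15) := mul_le_mul_of_nonneg_left h1 h2
    _ = (2 * Real.pi) ^ 16 * (2 * |(39 : ℝ)|) := by
        rw [abs_of_pos (by norm_num : (0 : ℝ) < 39)]; ring

/-- the same with any orientation of `B` -/
theorem vol8' (H : ∀ (N : ℕ) (κ : ℝ) (S : Set (Euc N)) (G : Geo 16 N κ S), GT.Bla G 8 →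
    ∃ (m : ℕ) (g : Euc N × Euc N → Fin m → ℂ) (Fc : MM m → Ext (MM m)),
      Emb (US G) (gf G) g ∧ Curv (US G) g (al (N := N)) Fc ∧
        ∀ oB, oB = Fc ^ 15 → Ori 30 (Quo (US G) g) oB → Clo 30 (Quo (US G) g) →
          |J 30 (Quo (US G) g) oB (Fc ^ 15)| ≤ 78 * (2 * Real.pi) ^ 15) : ZG.Vol8Stmt := by
  refine vol8 fun N κ S G h => ?_
  obtain ⟨m, g, Fc, hg, hc, hb⟩ := H N κ S G h
  exact ⟨m, g, Fc, hg, hc, hb _ rfl (J31 h hg hc).1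
    (hg.clo_Quo (cir_US h.bl h.ty.per) (clo_US' h.bl))⟩

section conv

variable {E : Type*} [NormedAddCommGroup E] [NormedSpace ℝ E] [FiniteDimensional ℝ E]
  {B : Set E} {oB : E → Ext E} {e x p3 : E → Ext E} {α β₁ t3 l ν τ : ℝ}

/-- `∫ e x² p₃ = t₃ α ∫ e⁷ x²` -/
theorem J_p3 (hB : Clo 30 B) (ho : Ori 30 B oB) (he : EC B e) (hx : EC B x) (hp3 : EC B p3)
    (h3 : Coh B p3 (t3 • (α • e ^ 6 + β₁ • (x * e ^ 2))))
    (hx3 : J 30 B oB (e ^ 3 * x ^ 3) = 0) :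
    J 30 B oB (e * x * x * p3) = t3 * α * J 30 B oB (e ^ 7 * x ^ 2) := by
  have q := rcl_p3 he hx hp3 h3
  rw [← ZG.intR_rcl hB ho (((he.mul hx).mul hx).mul hp3), rcl_mul ((he.mul hx).mul hx) hp3,
    rcl_mul (he.mul hx) hx, rcl_mul he hx, q,
    ← ZG.intR_rcl hB ho ((he.pow 7).mul (hx.pow 2)), rcl_mul (he.pow 7) (hx.pow 2), rcl_pow he,
    rcl_pow hx]
  rw [← ZG.intR_rcl hB ho ((he.pow 3).mul (hx.pow 3)), rcl_mul (he.pow 3) (hx.pow 3), rcl_pow he,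
    rcl_pow hx] at hx3
  generalize rcl he = E at *
  generalize rcl hx = X at *
  have e1 : E * X * X * (t3 • (α • E ^ 6 + β₁ • (E ^ 2 * X))) =
      (t3 * α) • (E ^ 7 * X ^ 2) + (t3 * β₁) • (E ^ 3 * X ^ 3) := by
    simp only [Algebra.smul_def, map_mul]
    ring
  rw [e1, map_add, map_smul, map_smul, hx3, smul_zero, add_zero, smul_eq_mul]

/-- **(S1') in the form of `ZA.bound`** -/
theorem hS_of (hB : Clo 30 B) (ho : Ori 30 B oB) (he : EC B e) (hx : EC B x) (hp3 : EC B p3)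
    (h3 : Coh B p3 (t3 • (α • e ^ 6 + β₁ • (x * e ^ 2))))
    (hx3 : J 30 B oB (e ^ 3 * x ^ 3) = 0) (hν : ν ≠ 0) (hnl : ν ^ 2 * l ^ 2 * t3 = 36)
    (hτ : τ * |ν| = 12 * (2 * Real.pi) ^ 4)
    (h : |8 * l ^ 2 * (2 * Real.pi * J 30 B oB (e * x * x * p3))| = τ ^ 4) :
    |2 * α * ν ^ 2 * J 30 B oB (e ^ 7 * x ^ 2)| = 144 * (2 * Real.pi) ^ 15 := by
  rw [J_p3 hB ho he hx hp3 h3 hx3] at h
  generalize J 30 B oB (e ^ 7 * x ^ 2) = i at *
  have hν' : 0 < |ν| := abs_pos.2 hν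
  have hP : 0 < 2 * Real.pi := by positivity
  have hτ' : τ = 12 * (2 * Real.pi) ^ 4 / |ν| := by
    rw [eq_div_iff hν'.ne']; exact hτ
  have h1 : 8 * l ^ 2 * (2 * Real.pi * (t3 * α * i)) =
      (144 * (2 * Real.pi) / (ν ^ 2) ^ 2) * (2 * α * ν ^ 2 * i) := by
    have hl : l ^ 2 * t3 = 36 / ν ^ 2 := by
      field_simp
      linarith
    have : 8 * l ^ 2 * (2 * Real.pi * (t3 * α * i)) =
      8 * (l ^ 2 * t3) * (2 * Real.pi * (α * i)) := by ring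
    rw [this, hl]
    field_simp
    ring
  rw [h1, abs_mul, abs_of_pos (by positivity), hτ', div_pow, ← sq_abs ν] at h
  rw [← sq_abs ν]
  generalize |2 * α * |ν| ^ 2 * i| = w at *
  generalize |ν| = y at *
  field_simp at h
  have h2 : 2 * Real.pi * (144 * (2 * Real.pi) ^ 15 - w) = 0 := by
    nlinarith [h]
  have h3 : 144 * (2 * Real.pi) ^ 15 - w = 0 := (mul_eq_zero.1 h2).resolve_left hP.ne'
  linarith

/-- **(Q0) in the form of `ZA.bound`** -/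
theorem hr_of {i : ℝ} (hτ : τ * |ν| = 12 * (2 * Real.pi) ^ 4)
    (h : ∃ n : ℤ, 4 * i = (2 * Real.pi) ^ 7 * τ ^ 2 * n) :
    ∃ n : ℤ, ν ^ 2 * i = 36 * (2 * Real.pi) ^ 15 * n := by
  obtain ⟨n, hn⟩ := h
  refine ⟨n, ?_⟩
  have h1 : i = (2 * Real.pi) ^ 7 * τ ^ 2 * n / 4 := by linarith
  have h2 : ν ^ 2 * τ ^ 2 = (12 * (2 * Real.pi) ^ 4) ^ 2 := by
    rw [← hτ, mul_pow, sq_abs]; ring
  rw [h1]
  have h3 : ν ^ 2 * ((2 * Real.pi) ^ 7 * τ ^ 2 * n / 4) =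
      (ν ^ 2 * τ ^ 2) * ((2 * Real.pi) ^ 7 * n / 4) := by ring
  rw [h3, h2]
  ring

/-- **block Q in the form of `ZA.bound`**: `β = 12 β₁ / ν` and `β' = β₁ τ / (2π)⁴` -/
theorem q_of {β' n₀ : ℝ} (hν : ν ≠ 0) (hτ : τ * |ν| = 12 * (2 * Real.pi) ^ 4)
    (hβ' : β' = β₁ * τ / (2 * Real.pi) ^ 4) (h1 : ∃ n : ℤ, β' = n) (h2 : ∃ n : ℤ, 2 * n₀ = n)
    (h3 : ∃ n : ℤ, α + β' * n₀ = n) :
    (∃ n : ℤ, 12 * β₁ / ν = n) ∧ ∃ n₁ : ℝ, (∃ n : ℤ, 2 * n₁ = n) ∧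
      ∃ n : ℤ, α + 12 * β₁ / ν * n₁ = n := by
  have hP : (2 * Real.pi) ^ 4 ≠ 0 := by positivity
  rcases abs_cases ν with ⟨h, _⟩ | ⟨h, _⟩
  · have e : 12 * β₁ / ν = β' := by
      rw [h] at hτ
      rw [hβ']
      field_simp
      linear_combination (-β₁) * hτ
    rw [e]
    exact ⟨h1, n₀, h2, h3⟩
  · have e : 12 * β₁ / ν = -β' := by
      rw [h] at hτ
      rw [hβ']
      field_simp
      linear_combination (-β₁) * hτ
    rw [e]
    obtain ⟨a, ha⟩ := h1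
    obtain ⟨b, hb⟩ := h2
    obtain ⟨c, hc⟩ := h3
    exact ⟨⟨-a, by rw [ha]; push_cast; ring⟩, -n₀, ⟨-b, by rw [mul_neg, hb]; push_cast; ring⟩,
      ⟨c, by rw [← hc]; ring⟩⟩

end conv

end Crest.Agent.R208.ZA
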