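import Crest.Agent.R208.QT7
import Crest.Agent.R208.CQ3
import Crest.Agent.R208.JV7
import Crest.Agent.R208.ZA3

/-! Row 208, block Q (helper586), part QT8: **block Q for `(k, n) = (8, 16)`**: all integrality
inputs of the endgame `ZA.bound` over the manifold of geodesics. -/

set_option autoImplicit false
set_option linter.unusedSectionVars false

open MeasureTheory Set Filter Topology Module
open scoped ContDiff RealInnerProductSpace Nat
open Crest.GeometryTopology.Submanifold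
open Crest.Agent.R241.DDefs
open Crest.Agent.R241.D2
open Crest.Agent.R208.F Crest.Agent.R208.FI Crest.Agent.R208.FG
open Crest.Agent.R208.CW (SMap)
open Crest.Agent.R208.T (Sm Cl Hom Coh Eqv eR OR Sph EC rcl)
open Crest.Agent.R208.SO (CF2)
open Crest.Agent.R208.SB (OddB)
open Crest.Agent.R208.L (US)
open Crest.Agent.R208.LB (al)
open Crest.Agent.R208.CM (gf MM jj Quo Emb Curv)
open Crest.Agent.R208.EW (cR)

noncomputable section

namespace Crest.Agent.R208.QT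

section gen
variable {n N k m : ℕ} {κ : ℝ} {S : Set (Euc N)} {G : Geo n N κ S} {p : Euc N}
  {ι : Type} [Fintype ι] [DecidableEq ι] {W : Euc N × Euc N → (ι × Fin 2 → Fin N) → ℝ}
  {x : Euc N → Ext (Euc N)}

/-- the value of the top power, unconditional -/
theorem sv {h : GT.Bla G k} (D : T.XM h m W p x) : SV n k ι S m p x := fun _ hoS _ hoC =>
  JV.abs_J_S D hoS D.hp hoC

/-- the constant of the relation -/
theorem hl_of {ι ι₁ : Type} [Fintype ι] [Fintype ι₁] {l : ℝ} {c : ℕ}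
    (h₁ : Fintype.card ι₁ = c) (h : Fintype.card ι = c + 1) (hl : |l| = c + 1) :
    |l| * (2 * XF.tau ι₁) * (2 * Real.pi) = XF.tau ι := by
  rw [hl, XF.tau, XF.tau, h₁, h, Nat.factorial_succ]
  push_cast
  ring

end gen

variable {N M' : ℕ} {κ : ℝ} {S : Set (Euc N)} {G : Geo 16 N κ S} {p : Euc N}
  {ι : Type} [Fintype ι] [DecidableEq ι] {W : Euc N × Euc N → (ι × Fin 2 → Fin N) → ℝ}
  {x : Euc N → Ext (Euc N)}
  {g : Euc N × Euc N → Fin M' → ℂ} {Fc x0 : MM M' → Ext (MM M')}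
  {n₁ ι₁ : Type} [Fintype n₁] [DecidableEq n₁] [Fintype ι₁] [DecidableEq ι₁] [Nonempty ι₁]
  {P' : MM M' → EuclideanSpace ℝ n₁ →L[ℝ] EuclideanSpace ℝ n₁}
  {oP' : MM M' → Ext (EuclideanSpace ℝ n₁)}
  {fY : MM M' × EuclideanSpace ℝ n₁ → Euc N} {l α β₁ ν : ℝ}

/-- **block Q, complete**: the fields `hβ`, `hn`, `hα`, `hr` of the endgame. -/
theorem block_Q {h : GT.Bla G 8} (D : T.XM h 2 W p x) (hper : HS.Per G)
    (hg : Emb (US G) (gf G) g) (hc : Curv (US G) g (al (N := N)) Fc)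
    (ob : OddB ι₁ (Quo (US G) g) 6 P' oP') (hx : CF2 (Quo (US G) g) 8 x0)
    (hx0 : Coh (US G) (F.pull (jj g) x0) (F.pull Prod.fst x))
    (h1 : Coh (Quo (US G) g) ((3 : ℝ) • (x0 * x0) +
      (l ^ 2) • (Fc * Fc * ((VX.nE ι₁ ^ 2) • cR 6 P'))) 0)
    (sfY : SMap (Sph (Quo (US G) g) P') S fY)
    (h3 : Coh (Sph (Quo (US G) g) P') (F.pull fY x)
      (F.pull Prod.fst x0 + l • (F.pull Prod.fst Fc * OddB.eV ι₁ ob.hr P' oP')))
    (hl : |l| = 4) (hν : |ν| * XF.tau ι = 12 * (2 * Real.pi) ^ 4)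
    (hp3 : Coh (Quo (US G) g) (cR 6 P') (α • Fc ^ 6 + β₁ • (x0 * Fc ^ 2))) :
    (∃ n₀ : ℝ, (∃ n : ℤ, 12 * β₁ / ν = n) ∧ (∃ n : ℤ, 2 * n₀ = n) ∧
      ∃ n : ℤ, α + 12 * β₁ / ν * n₀ = n) ∧
    ∃ n : ℤ, ν ^ 2 * J 30 (Quo (US G) g) (Fc ^ 15) (Fc ^ 7 * x0 ^ 2) =
      36 * (2 * Real.pi) ^ 15 * n := by
  have c1 : Fintype.card ι₁ = 3 := by have := ob.hr; omega
  have c2 : Fintype.card ι = 4 := by have := D.hι; omega
  refine ⟨?_, ?_⟩
  · exact CQ.fields' D hper hg hc ob.pf (fun y hy u v => ob.sy y hy u v) hx.sm hx.cl hx.hom hx0 hν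
      hp3 (n0_B CQ.intM D (sv D) hper hg hc ob rfl hx sfY h3)
  · have h4 := q0_B CQ.intM D (sv D) hper hg hc ob rfl hx h1 sfY h3
      (hl_of c1 c2 (by rw [hl]; norm_num))
    exact ZA.hr_of (τ := XF.tau ι) (by rw [mul_comm]; exact hν) h4

end Crest.Agent.R208.QT
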