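import Mathlib

/-!
# R208, SER1: gap (a) for `k = 4` (helper137's recursion), all `m ≥ 2`, all real `|λ| ≥ 6`

`n = m - 1 ≥ 1`.  A sequence `e` with `e 0 = 1` and (`e_neg = 0`)
`(j+1) e_{j+1} = q0 e_j + A e_{j-1} - M e_{j-2} + B e_{j-3} + q4 e_{j-4} - c2 (2n+7-j) e_{j-5}`
is positive up to the index `2n+1 = 2m-1`.
-/

namespace Crest.Agent.R208.Ser

/-- the three numerical facts. -/
lemma num1 (N J : ℝ) (hN : 1 ≤ N) :
    5 * ((2 * N + 7 - J) * (J - 4)) ≤ 72 * N * (2 * N + 3) := by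
  nlinarith [sq_nonneg (2 * (J - 4) - (2 * N + 3)), sq_nonneg (N - 1)]

lemma num2 (n : ℕ) (x : ℕ) (hn : 1 ≤ n) (hx : x ≤ n + 2) (hx2 : x + 1 ≤ 2 * n) :
    (0 : ℝ) ≤ 792 * n ^ 2 + 3600 * n + 775 * n * x - 4750 * x := by
  have hn' : (1 : ℝ) ≤ n := by exact_mod_cast hn
  have hx' : (x : ℝ) ≤ n + 2 := by exact_mod_cast hx
  have hx0 : (0 : ℝ) ≤ x := Nat.cast_nonneg x
  have hx2' : (x : ℝ) + 1 ≤ 2 * n := by exact_mod_cast hx2
  rcases Nat.lt_or_ge n 3 with h | h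
  · interval_cases n
    · norm_num at hx2' ⊢; linarith
    · norm_num at hx2' ⊢; linarith
  · have h3 : (3 : ℝ) ≤ n := by exact_mod_cast h
    rcases Nat.lt_or_ge n 7 with h7 | h7
    · have h6 : (n : ℝ) ≤ 6 := by exact_mod_cast (Nat.lt_succ_iff.mp h7)
      nlinarith [mul_nonneg (sub_nonneg.2 h6) (sub_nonneg.2 hx'), mul_nonneg (sub_nonneg.2 h3) (sub_nonneg.2 h3)]
    · have h7' : (7 : ℝ) ≤ n := by exact_mod_cast h7
      nlinarith [mul_nonneg (sub_nonneg.2 h7') hx0]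

lemma num3 (n : ℕ) (x : ℝ) (hn : 4 ≤ n) (hx : x ≤ 2 * n - 1) (hx2 : (n : ℝ) + 2 ≤ x) :
    (0 : ℝ) ≤ 1584 * n ^ 3 + 7200 * n ^ 2 + 1550 * n ^ 2 * x - 9500 * n * x
      - 625 * (x * (x - 1) * (x - n - 2)) := by
  have h4 : (4 : ℝ) ≤ n := by exact_mod_cast hn
  have hx0 : 0 ≤ x := by linarith
  have h1 : (x - 1) * (x - n - 2) ≤ (2 * n - 2) * (n - 3) := by
    nlinarith [mul_nonneg (sub_nonneg.2 hx) (by linarith : (0:ℝ) ≤ x - n - 2)]
  have h2 : x * ((x - 1) * (x - n - 2)) ≤ x * ((2 * n - 2) * (n - 3)) :=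
    mul_le_mul_of_nonneg_left h1 hx0
  have h3 : (0 : ℝ) ≤ 1584 * n ^ 3 + 7200 * n ^ 2 + x * (300 * n ^ 2 - 4500 * n - 3750) := by
    rcases le_total (0 : ℝ) (300 * n ^ 2 - 4500 * n - 3750) with h | h
    · have := mul_nonneg hx0 h
      positivity
    · have h5 : (2 * n : ℝ) * (300 * n ^ 2 - 4500 * n - 3750) ≤ x * (300 * n ^ 2 - 4500 * n - 3750) :=
        mul_le_mul_of_nonpos_right (by linarith) h
      have h6 : (0 : ℝ) ≤ n * (2184 * n ^ 2 - 1800 * n - 7500) := by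
        apply mul_nonneg (by linarith); nlinarith
      nlinarith
  nlinarith

/-- the two last terms. -/
lemma step_tail (N L c2 J g h : ℝ) (hN : 1 ≤ N) (hL : 6 ≤ L) (hc2 : 0 ≤ c2)
    (hg : 0 ≤ g) (hJ0 : 0 ≤ 2 * N + 7 - J) (hi : 2 * L * N * h ≤ 5 * (J - 4) * g) :
    0 ≤ L * c2 * (2 * N + 3) * g - c2 * (2 * N + 7 - J) * h := by
  have hLN : 0 < 2 * L * N := by positivity
  have h1 : c2 * (2 * N + 7 - J) * (2 * L * N * h) ≤ c2 * (2 * N + 7 - J) * (5 * (J - 4) * g) :=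
    mul_le_mul_of_nonneg_left hi (mul_nonneg hc2 hJ0)
  have h2 : c2 * g * (5 * ((2 * N + 7 - J) * (J - 4))) ≤ c2 * g * (72 * N * (2 * N + 3)) :=
    mul_le_mul_of_nonneg_left (num1 N J hN) (mul_nonneg hc2 hg)
  have h3 : c2 * g * (72 * N * (2 * N + 3)) ≤ c2 * g * (2 * L ^ 2 * N * (2 * N + 3)) := by
    apply mul_le_mul_of_nonneg_left _ (mul_nonneg hc2 hg)
    have : (36 : ℝ) ≤ L ^ 2 := by nlinarith
    have h4 : 0 ≤ N * (2 * N + 3) := by positivity
    nlinarith [mul_le_mul_of_nonneg_right this h4]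
  by_contra hneg
  push Not at hneg
  have h5 : 2 * L * N * (L * c2 * (2 * N + 3) * g - c2 * (2 * N + 7 - J) * h) < 0 :=
    mul_neg_of_pos_of_neg hLN hneg
  nlinarith

/-- `D ≤ 0.72 n`, in cleared form. -/
lemma numD (n j : ℕ) (hn : 1 ≤ n) (hj1 : 1 ≤ j) (hj : j ≤ 2 * n) :
    ((n : ℝ) - 2) / 2 + ((j : ℝ) - 1) * (190 - 31 * n) / (144 * n)
      + 25 * max ((j : ℝ) - n - 3) 0 * ((j : ℝ) - 1) * ((j : ℝ) - 2) / (288 * n ^ 2)
      ≤ 18 / 25 * n := by
  have hn' : (1 : ℝ) ≤ n := by exact_mod_cast hn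
  have hn0 : (0 : ℝ) < n := by linarith
  obtain ⟨x, rfl⟩ : ∃ x, j = x + 1 := ⟨j - 1, by omega⟩
  have hx2 : (x : ℝ) + 1 ≤ 2 * n := by exact_mod_cast hj
  rcases Nat.lt_or_ge (n + 2) x with h | h
  · have h4 : 4 ≤ n := by omega
    have hx3 : (n : ℝ) + 2 ≤ x := by exact_mod_cast h.le
    have hmax : max (((x + 1 : ℕ) : ℝ) - n - 3) 0 = (x : ℝ) - n - 2 := by
      rw [max_eq_left] <;> push_cast <;> linarith
    have key := num3 n x h4 (by linarith) hx3
    rw [hmax]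
    push_cast
    rw [← sub_nonneg]
    have : 18 / 25 * (n : ℝ) - (((n : ℝ) - 2) / 2 + ((x : ℝ) + 1 - 1) * (190 - 31 * n) / (144 * n)
      + 25 * ((x : ℝ) - n - 2) * ((x : ℝ) + 1 - 1) * ((x : ℝ) + 1 - 2) / (288 * n ^ 2))
      = (1584 * n ^ 3 + 7200 * n ^ 2 + 1550 * n ^ 2 * x - 9500 * n * x
      - 625 * (x * (x - 1) * (x - n - 2))) / (7200 * (n : ℝ) ^ 2) := by
      field_simp
      ring
    rw [this]
    positivity
  · have hmax : max (((x + 1 : ℕ) : ℝ) - n - 3) 0 = 0 := by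
      rw [max_eq_right]
      have : (x : ℝ) ≤ n + 2 := by exact_mod_cast h
      push_cast; linarith
    have key := num2 n x hn h (by omega)
    rw [hmax]
    push_cast
    rw [← sub_nonneg]
    have : 18 / 25 * (n : ℝ) - (((n : ℝ) - 2) / 2 + ((x : ℝ) + 1 - 1) * (190 - 31 * n) / (144 * n)
      + 25 * 0 * ((x : ℝ) + 1 - 1) * ((x : ℝ) + 1 - 2) / (288 * n ^ 2))
      = (792 * n ^ 2 + 3600 * n + 775 * n * x - 4750 * x) / (3600 * (n : ℝ)) := by
      field_simp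
      ring
    rw [this]
    positivity

set_option maxHeartbeats 1600000 in
/-- one step of the recursion, `j ≥ 1`. -/
lemma step (n j : ℕ) (L : ℝ) (a b c d g h a' : ℝ) (hn : 1 ≤ n) (hj1 : 1 ≤ j) (hj : j ≤ 2 * n)
    (hL : 6 ≤ L) (ha : 0 < a) (hb : 0 ≤ b) (hc : 0 ≤ c) (hd : 0 ≤ d) (hg : 0 ≤ g)
    (hab : 2 * L * n * b ≤ 5 * j * a) (hbc : 2 * L * n * c ≤ 5 * (j - 1) * b)
    (hcd : 2 * L * n * d ≤ 5 * (j - 2) * c) (hgh : 2 * L * n * h ≤ 5 * (j - 4) * g)
    (hd1 : j = 1 → c = 0)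
    (hrec : ((j : ℝ) + 1) * a' = L * n / 2 * a + (3 * (j - 1) - (n - 2)) / 2 * b
      - L * ((n + 1) / 2 + 2 * (1 / (4 * L ^ 2)) * (n + 2)) * c
      + ((n + 3 - j) / 2 + 1 / (4 * L ^ 2) * (2 * n + 7 - j)) * d
      + L * (1 / (4 * L ^ 2)) * (2 * n + 3) * g - 1 / (4 * L ^ 2) * (2 * n + 7 - j) * h) :
    2 * L * n * a ≤ 5 * ((j : ℝ) + 1) * a' := by
  have hn' : (1 : ℝ) ≤ n := by exact_mod_cast hn
  have hn0 : (0 : ℝ) < n := by linarith
  have hj1' : (1 : ℝ) ≤ j := by exact_mod_cast hj1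
  have hj' : (j : ℝ) ≤ 2 * n := by exact_mod_cast hj
  have hL0 : (0 : ℝ) < L := by linarith
  set c2 : ℝ := 1 / (4 * L ^ 2) with hc2
  have hc20 : 0 ≤ c2 := by positivity
  have hL36 : (36 : ℝ) ≤ L ^ 2 := by nlinarith
  have hc2' : c2 ≤ 1 / 144 := by
    rw [hc2, div_le_div_iff₀ (by positivity) (by norm_num)]; linarith
  -- tail
  have htail : 0 ≤ L * c2 * (2 * n + 3) * g - c2 * (2 * n + 7 - j) * h :=
    step_tail n L c2 j g h hn' hL hc20 hg (by linarith) hgh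
  -- d term
  set mx : ℝ := max ((j : ℝ) - n - 3) 0 with hmx
  have hmx0 : 0 ≤ mx := le_max_right _ _
  have hmx1 : (j : ℝ) - n - 3 ≤ mx := le_max_left _ _
  have hB : -(mx / 2) ≤ ((n + 3 - j) / 2 + c2 * (2 * n + 7 - j) : ℝ) := by
    have : 0 ≤ c2 * (2 * n + 7 - j : ℝ) := mul_nonneg hc20 (by linarith)
    linarith
  have hBd : -(mx / 2) * d ≤ ((n + 3 - j) / 2 + c2 * (2 * n + 7 - j) : ℝ) * d :=
    mul_le_mul_of_nonneg_right hB hd
  -- bound c
  have hLn : 0 < 2 * L * n := by positivity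
  have hc1 : L * c ≤ 5 * (j - 1) / (2 * n) * b := by
    rw [div_mul_eq_mul_div, le_div_iff₀ (by positivity)]; linarith
  -- bound d
  have hd2 : d ≤ 25 * ((j : ℝ) - 1) * (j - 2) / (144 * n ^ 2) * b := by
    rcases Nat.lt_or_ge j 2 with h2 | h2
    · have hj11 : j = 1 := by omega
      have hc0 := hd1 hj11
      subst hj11
      rw [hc0] at hcd
      have : 2 * L * n * d ≤ 0 := by simpa using hcd
      have hd0 : d ≤ 0 := by
        by_contra hcon
        push Not at hcon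
        have := mul_pos hLn hcon
        linarith
      simpa using hd0
    · have h2' : (2 : ℝ) ≤ j := by exact_mod_cast h2
      have e1 : (2 * L * n) * (2 * L * n * d) ≤ (2 * L * n) * (5 * (j - 2) * c) :=
        mul_le_mul_of_nonneg_left hcd hLn.le
      have e2 : 5 * ((j : ℝ) - 2) * (2 * L * n * c) ≤ 5 * ((j : ℝ) - 2) * (5 * (j - 1) * b) :=
        mul_le_mul_of_nonneg_left hbc (by linarith)
      have e3 : 4 * L ^ 2 * n ^ 2 * d ≤ 25 * ((j : ℝ) - 1) * (j - 2) * b := by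
        have g1 : (2 * L * n) * (2 * L * n * d) = 4 * L ^ 2 * n ^ 2 * d := by ring
        have g2 : (2 * L * n) * (5 * ((j : ℝ) - 2) * c) = 5 * ((j : ℝ) - 2) * (2 * L * n * c) := by ring
        have g3 : 5 * ((j : ℝ) - 2) * (5 * (j - 1) * b) = 25 * ((j : ℝ) - 1) * (j - 2) * b := by ring
        rw [g1, g2] at e1
        rw [g3] at e2
        linarith
      have e4 : 144 * (n : ℝ) ^ 2 * d ≤ 4 * L ^ 2 * n ^ 2 * d := by
        have : 0 ≤ (n : ℝ) ^ 2 * d := by positivity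
        nlinarith
      rw [div_mul_eq_mul_div, le_div_iff₀ (by positivity)]
      linarith
  -- M c
  have hM : L * ((n + 1) / 2 + 2 * c2 * (n + 2)) * c ≤ 5 * (37 * n + 38) * (j - 1) / (144 * n) * b := by
    have h1 : ((n + 1) / 2 + 2 * c2 * (n + 2) : ℝ) ≤ (37 * n + 38) / 72 := by
      have : c2 * (n + 2 : ℝ) ≤ 1 / 144 * (n + 2) := mul_le_mul_of_nonneg_right hc2' (by linarith)
      linarith
    have h2 : 0 ≤ L * c := by positivity
    calc L * ((n + 1) / 2 + 2 * c2 * (n + 2)) * c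
        = ((n + 1) / 2 + 2 * c2 * (n + 2)) * (L * c) := by ring
      _ ≤ (37 * n + 38) / 72 * (L * c) := mul_le_mul_of_nonneg_right h1 h2
      _ ≤ (37 * n + 38) / 72 * (5 * (j - 1) / (2 * n) * b) :=
          mul_le_mul_of_nonneg_left hc1 (by positivity)
      _ = 5 * (37 * n + 38) * (j - 1) / (144 * n) * b := by field_simp; ring
  have hmd : mx / 2 * d ≤ 25 * mx * ((j : ℝ) - 1) * ((j : ℝ) - 2) / (288 * n ^ 2) * b := by
    calc mx / 2 * d ≤ mx / 2 * (25 * ((j : ℝ) - 1) * (j - 2) / (144 * n ^ 2) * b) :=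
          mul_le_mul_of_nonneg_left hd2 (by positivity)
      _ = 25 * mx * ((j : ℝ) - 1) * ((j : ℝ) - 2) / (288 * n ^ 2) * b := by field_simp; ring
  have hD := mul_le_mul_of_nonneg_right (numD n j hn hj1 hj) hb
  rw [← hmx] at hD
  have hDb : 18 / 25 * (n : ℝ) * b ≤ L * n / 10 * a := by
    -- 2 L n b ≤ 5 j a, 18 j ≤ L² n
    have h1 : 18 / 25 * (n : ℝ) * (2 * L * n * b) ≤ 18 / 25 * (n : ℝ) * (5 * j * a) :=
      mul_le_mul_of_nonneg_left hab (by positivity)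
    have h2 : (36 : ℝ) * n * (n * a) ≤ L ^ 2 * n * (n * a) := by
      have : 0 ≤ (n : ℝ) * (n * a) := by positivity
      nlinarith
    have h3 : (j : ℝ) * (n * a) ≤ 2 * n * (n * a) :=
      mul_le_mul_of_nonneg_right hj' (by positivity)
    have h4 : 2 * L * n * (18 / 25 * (n : ℝ) * b) ≤ 2 * L * n * (L * n / 10 * a) := by
      have g1 : 2 * L * n * (18 / 25 * (n : ℝ) * b) = 18 / 25 * (n : ℝ) * (2 * L * n * b) := by ring
      have g2 : 2 * L * n * (L * n / 10 * a) = 1 / 5 * (L ^ 2 * n * (n * a)) := by ring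
      have g3 : 18 / 25 * (n : ℝ) * (5 * j * a) = 18 / 5 * ((j : ℝ) * (n * a)) := by ring
      rw [g1, g2]
      rw [g3] at h1
      linarith
    exact le_of_mul_le_mul_left h4 hLn
  have hfin : L * n / 2 * a - L * n / 10 * a ≤ ((j : ℝ) + 1) * a' := by
    rw [hrec]
    have e : (((n : ℝ) - 2) / 2 + ((j : ℝ) - 1) * (190 - 31 * n) / (144 * n)
      + 25 * mx * ((j : ℝ) - 1) * ((j : ℝ) - 2) / (288 * n ^ 2)) * b
      = -((3 * (j - 1) - (n - 2)) / 2 * b) + 5 * (37 * n + 38) * (j - 1) / (144 * n) * b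
        + 25 * mx * ((j : ℝ) - 1) * ((j : ℝ) - 2) / (288 * n ^ 2) * b := by
      field_simp
      ring
    rw [e] at hD
    linarith
  linarith

/-- **Core**: the sequence is positive up to `2n+1`. -/
theorem core (n : ℕ) (hn : 1 ≤ n) (L : ℝ) (hL : 6 ≤ L) (f : ℕ → ℝ)
    (h0 : ∀ k < 5, f k = 0) (h5 : f 5 = 1)
    (hrec : ∀ j : ℕ, j ≤ 2 * n → ((j : ℝ) + 1) * f (j + 6) = L * n / 2 * f (j + 5)
      + (3 * (j - 1) - (n - 2)) / 2 * f (j + 4)
      - L * ((n + 1) / 2 + 2 * (1 / (4 * L ^ 2)) * (n + 2)) * f (j + 3)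
      + ((n + 3 - j) / 2 + 1 / (4 * L ^ 2) * (2 * n + 7 - j)) * f (j + 2)
      + L * (1 / (4 * L ^ 2)) * (2 * n + 3) * f (j + 1)
      - 1 / (4 * L ^ 2) * (2 * n + 7 - j) * f j) :
    ∀ j : ℕ, j ≤ 2 * n + 1 → 0 < f (j + 5) := by
  have hn' : (1 : ℝ) ≤ n := by exact_mod_cast hn
  have hL0 : (0 : ℝ) < L := by linarith
  -- strong invariant
  have inv : ∀ j : ℕ, j ≤ 2 * n + 1 →
      (∀ k, k < j + 5 → 0 ≤ f k ∧ 2 * L * n * f k ≤ 5 * ((k : ℝ) - 4) * f (k + 1)) ∧ 0 < f (j + 5) := by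
    intro j
    induction j with
    | zero =>
      intro _
      refine ⟨?_, by rw [h5]; norm_num⟩
      intro k hk
      have hk0 := h0 k hk
      refine ⟨hk0.ge, ?_⟩
      rw [hk0]
      rcases Nat.lt_or_ge k 4 with h | h
      · rw [h0 (k + 1) (by omega)]; simp
      · have : k = 4 := by omega
        subst this; norm_num
    | succ j ih =>
      intro hj
      obtain ⟨ih1, ih2⟩ := ih (by omega)
      have hj2 : j ≤ 2 * n := by omega
      have hr := hrec j hj2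
      have key : 2 * L * n * f (j + 5) ≤ 5 * ((j : ℝ) + 1) * f (j + 6) := by
        rcases Nat.eq_zero_or_pos j with hj0 | hjpos
        · subst hj0
          rw [h0 4 (by norm_num), h0 3 (by norm_num), h0 2 (by norm_num), h0 1 (by norm_num),
            h0 0 (by norm_num)] at hr
          simp only [Nat.zero_add] at hr ⊢
          rw [h5] at hr ⊢
          push_cast at hr ⊢
          nlinarith [mul_pos hL0 (by linarith : (0 : ℝ) < n)]
        · have i4 := ih1 (j + 4) (by omega)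
          have i3 := ih1 (j + 3) (by omega)
          have i2 := ih1 (j + 2) (by omega)
          have i1 := ih1 (j + 1) (by omega)
          have i0 := ih1 j (by omega)
          push_cast at i4 i3 i2 i1 i0
          refine step n j L (f (j + 5)) (f (j + 4)) (f (j + 3)) (f (j + 2)) (f (j + 1)) (f j)
            (f (j + 6)) hn hjpos hj2 hL ih2 i4.1 i3.1 i2.1 i1.1 ?_ ?_ ?_ ?_ ?_ hr
          · have := i4.2; ring_nf at this ⊢; linarith
          · have := i3.2; ring_nf at this ⊢; linarith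
          · have := i2.2; ring_nf at this ⊢; linarith
          · have := i0.2; ring_nf at this ⊢; linarith
          · intro hj1; subst hj1; exact h0 4 (by norm_num)
      have hpos : 0 < f (j + 6) := by
        by_contra hcon
        push Not at hcon
        have h1 : 0 < 2 * L * n * f (j + 5) := by positivity
        have h2 : 5 * ((j : ℝ) + 1) * f (j + 6) ≤ 0 := by
          have : (0 : ℝ) ≤ 5 * ((j : ℝ) + 1) := by positivity
          nlinarith
        linarith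
      refine ⟨?_, by simpa [add_assoc, add_comm, add_left_comm] using hpos⟩
      intro k hk
      rcases Nat.lt_or_ge k (j + 5) with h | h
      · exact ih1 k h
      · have hk5 : k = j + 5 := by omega
        subst hk5
        refine ⟨ih2.le, ?_⟩
        push_cast
        have e : ((j : ℝ) + 5 - 4) = (j : ℝ) + 1 := by ring
        rw [e]
        exact key
  intro j hj
  exact (inv j hj).2


open PowerSeries

/-- the polynomial `P = (1-X²)(1-X²/2+c2 X⁴)`, `c2 = 1/(4L²)`. -/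
noncomputable def serP (L : ℝ) : PowerSeries ℝ :=
  1 - C (3 / 2) * X ^ 2 + C (1 / 2 + 1 / (4 * L ^ 2)) * X ^ 4 - C (1 / (4 * L ^ 2)) * X ^ 6

/-- the polynomial `Q`, `n = m - 1`. -/
noncomputable def serQ (n : ℕ) (L : ℝ) : PowerSeries ℝ :=
  C (L * n / 2) + C (-((n : ℝ) - 2) / 2) * X
    + C (-(L * ((n + 1) / 2 + 2 * (1 / (4 * L ^ 2)) * (n + 2)))) * X ^ 2
    + C ((n + 2) * (1 / 2 + 2 * (1 / (4 * L ^ 2))) - 1) * X ^ 3
    + C (L * (1 / (4 * L ^ 2)) * (2 * n + 3)) * X ^ 4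
    + C (-(2 * (1 / (4 * L ^ 2)) * (n + 1))) * X ^ 5

/-- shifted coefficients. -/
noncomputable def shf (W : PowerSeries ℝ) (k : ℕ) : ℝ := if k < 5 then 0 else coeff (k - 5) W

lemma shf_lt (W : PowerSeries ℝ) {k : ℕ} (hk : k < 5) : shf W k = 0 := by simp [shf, hk]

lemma shf_add (W : PowerSeries ℝ) (k : ℕ) : shf W (k + 5) = coeff k W := by
  have : ¬ (k + 5 < 5) := by omega
  simp [shf]

lemma coeff_shift (W : PowerSeries ℝ) (i s : ℕ) (_hs : s ≤ 5) :
    coeff i (X ^ s * W) = shf W (i + 5 - s) := by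
  rw [coeff_X_pow_mul']
  split_ifs with h
  · have : i + 5 - s = (i - s) + 5 := by omega
    rw [this, shf_add]
  · rw [shf_lt]; omega

lemma coeff_shift_deriv (W : PowerSeries ℝ) (i s : ℕ) (_hs : s ≤ 6) :
    coeff i (X ^ s * d⁄dX ℝ W) = ((i : ℝ) - s + 1) * shf W (i + 6 - s) := by
  rw [coeff_X_pow_mul']
  split_ifs with h
  · have h2 : i + 6 - s = (i - s + 1) + 5 := by omega
    rw [h2, shf_add, coeff_derivative]
    rw [Nat.cast_sub h]
    ring
  · rcases Nat.lt_or_ge (i + 6 - s) 5 with h3 | h3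
    · rw [shf_lt W h3, mul_zero]
    · have h4 : s = i + 1 := by omega
      subst h4
      push_cast
      ring

theorem ser1_pos (n : ℕ) (hn : 1 ≤ n) (L : ℝ) (hL : 6 ≤ L) (W : PowerSeries ℝ)
    (h0 : constantCoeff W = 1)
    (hW : ∀ i, i ≤ 2 * n → coeff i (serP L * d⁄dX ℝ W) = coeff i (serQ n L * W)) :
    ∀ j, j ≤ 2 * n + 1 → 0 < coeff j W := by
  have main := core n hn L hL (shf W) (fun k hk => shf_lt W hk)
    (by rw [show (5 : ℕ) = 0 + 5 from rfl, shf_add, coeff_zero_eq_constantCoeff_apply, h0]) ?_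
  · intro j hj
    have := main j hj
    rwa [shf_add] at this
  · intro j hj
    have h := hW j hj
    have e1 : coeff j (serP L * d⁄dX ℝ W) = ((j : ℝ) + 1) * shf W (j + 6)
        - 3 / 2 * (((j : ℝ) - 1) * shf W (j + 4))
        + (1 / 2 + 1 / (4 * L ^ 2)) * (((j : ℝ) - 3) * shf W (j + 2))
        - 1 / (4 * L ^ 2) * (((j : ℝ) - 5) * shf W j) := by
      have a0 := coeff_shift_deriv W j 0 (by norm_num)
      have a2 := coeff_shift_deriv W j 2 (by norm_num)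
      have a4 := coeff_shift_deriv W j 4 (by norm_num)
      have a6 := coeff_shift_deriv W j 6 (by norm_num)
      have b2 : j + 6 - 2 = j + 4 := by omega
      have b4 : j + 6 - 4 = j + 2 := by omega
      have b6 : j + 6 - 6 = j := by omega
      rw [b2] at a2
      rw [b4] at a4
      rw [b6] at a6
      simp only [serP, sub_mul, add_mul, mul_assoc, map_sub, map_add, coeff_C_mul, a2, a4, a6]
      rw [pow_zero, Nat.sub_zero] at a0
      rw [a0]
      push_cast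
      ring
    have e2 : coeff j (serQ n L * W) = L * n / 2 * shf W (j + 5)
        + (-((n : ℝ) - 2) / 2) * shf W (j + 4)
        + (-(L * ((n + 1) / 2 + 2 * (1 / (4 * L ^ 2)) * (n + 2)))) * shf W (j + 3)
        + ((n + 2) * (1 / 2 + 2 * (1 / (4 * L ^ 2))) - 1) * shf W (j + 2)
        + (L * (1 / (4 * L ^ 2)) * (2 * n + 3)) * shf W (j + 1)
        + (-(2 * (1 / (4 * L ^ 2)) * (n + 1))) * shf W j := by
      have a0 := shf_add W j
      have a1 := coeff_shift W j 1 (by norm_num)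
      have a2 := coeff_shift W j 2 (by norm_num)
      have a3 := coeff_shift W j 3 (by norm_num)
      have a4 := coeff_shift W j 4 (by norm_num)
      have a5 := coeff_shift W j 5 (by norm_num)
      have b1 : j + 5 - 1 = j + 4 := by omega
      have b2 : j + 5 - 2 = j + 3 := by omega
      have b3 : j + 5 - 3 = j + 2 := by omega
      have b4 : j + 5 - 4 = j + 1 := by omega
      have b5 : j + 5 - 5 = j := by omega
      rw [b1, pow_one] at a1
      rw [b2] at a2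
      rw [b3] at a3
      rw [b4] at a4
      rw [b5] at a5
      simp only [serQ, add_mul, mul_assoc, map_add, coeff_C_mul, a1, a2, a3, a4, a5, ← a0]
    rw [e1, e2] at h
    linear_combination h

/-- `λ ≤ -6` by `X → -X`. -/
lemma coeff_evalNegHom' (W : PowerSeries ℝ) (i : ℕ) :
    coeff i (evalNegHom W) = (-1) ^ i * coeff i W := by
  rw [evalNegHom, coeff_rescale]

lemma evalNegHom_C' (a : ℝ) : evalNegHom (C a : PowerSeries ℝ) = C a := by
  ext i
  rw [coeff_evalNegHom', coeff_C]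
  split_ifs with h
  · subst h; simp
  · simp

lemma deriv_evalNegHom (W : PowerSeries ℝ) :
    d⁄dX ℝ (evalNegHom W) = -evalNegHom (d⁄dX ℝ W) := by
  ext i
  rw [coeff_derivative, coeff_evalNegHom', map_neg, coeff_evalNegHom', coeff_derivative]
  ring

lemma evalNegHom_serP (L : ℝ) : evalNegHom (serP L) = serP (-L) := by
  simp only [serP, map_sub, map_add, map_mul, map_pow, map_one, evalNegHom_C', evalNegHom_X,
    neg_sq]
  ring

lemma evalNegHom_poly5 (a0 a1 a2 a3 a4 a5 : ℝ) :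
    evalNegHom (C a0 + C a1 * X + C a2 * X ^ 2 + C a3 * X ^ 3 + C a4 * X ^ 4 + C a5 * X ^ 5
      : PowerSeries ℝ)
    = C a0 - C a1 * X + C a2 * X ^ 2 - C a3 * X ^ 3 + C a4 * X ^ 4 - C a5 * X ^ 5 := by
  have h : ∀ a : ℝ, evalNegHom (C a : PowerSeries ℝ) = C a := evalNegHom_C'
  rw [map_add, map_add, map_add, map_add, map_add, map_mul, map_mul, map_mul, map_mul, map_mul,
    map_pow, map_pow, map_pow, map_pow, h, h, h, h, h, h, evalNegHom_X]
  ring

lemma evalNegHom_serQ (n : ℕ) (L : ℝ) : evalNegHom (serQ n L) = -serQ n (-L) := by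
  have e0 : (C (-L * n / 2) : PowerSeries ℝ) = -C (L * n / 2) := by rw [← map_neg]; congr 1; ring
  have e2 : (C (-(-L * ((n + 1) / 2 + 2 * (1 / (4 * (-L) ^ 2)) * (n + 2)))) : PowerSeries ℝ)
      = -C (-(L * ((n + 1) / 2 + 2 * (1 / (4 * L ^ 2)) * (n + 2)))) := by
    rw [← map_neg, neg_sq]; congr 1; ring
  have e4 : (C (-L * (1 / (4 * (-L) ^ 2)) * (2 * n + 3)) : PowerSeries ℝ)
      = -C (L * (1 / (4 * L ^ 2)) * (2 * n + 3)) := by
    rw [← map_neg, neg_sq]; congr 1; ring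
  rw [serQ, evalNegHom_poly5, serQ, e0, e2, e4, neg_sq]
  ring

/-- **SER1**: for `|λ| ≥ 6` and `m = n + 1 ≥ 2` the coefficient of `X^(2m-1)` is not zero. -/
theorem ser1_ne (n : ℕ) (hn : 1 ≤ n) (L : ℝ) (hL : 6 ≤ |L|) (W : PowerSeries ℝ)
    (h0 : constantCoeff W = 1)
    (hW : ∀ i, i ≤ 2 * n → coeff i (serP L * d⁄dX ℝ W) = coeff i (serQ n L * W)) :
    ∀ j, j ≤ 2 * n + 1 → coeff j W ≠ 0 := by
  intro j hj
  rcases le_total 0 L with h | h
  · rw [abs_of_nonneg h] at hL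
    exact (ser1_pos n hn L hL W h0 hW j hj).ne'
  · rw [abs_of_nonpos h] at hL
    have key := ser1_pos n hn (-L) hL (evalNegHom W) ?_ ?_ j hj
    · rw [coeff_evalNegHom'] at key
      intro hc
      rw [hc, mul_zero] at key
      exact lt_irrefl _ key
    · rw [← coeff_zero_eq_constantCoeff_apply, coeff_evalNegHom', coeff_zero_eq_constantCoeff_apply,
        h0]
      norm_num
    · intro i hi
      have h1 : serP (-L) * d⁄dX ℝ (evalNegHom W) = -evalNegHom (serP L * d⁄dX ℝ W) := by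
        rw [map_mul, evalNegHom_serP, deriv_evalNegHom]; ring
      have h2 : serQ n (-L) * evalNegHom W = -evalNegHom (serQ n L * W) := by
        rw [map_mul, evalNegHom_serQ]; ring
      rw [h1, h2, map_neg, map_neg, coeff_evalNegHom', coeff_evalNegHom', hW i hi]

/-- factorised form: `W = Y^(m+1) * R`. -/
theorem ser1_YR (m : ℕ) (hm : 2 ≤ m) (L : ℝ) (hL : 6 ≤ |L|) (Y R : PowerSeries ℝ)
    (hY0 : constantCoeff Y = 1) (hR0 : constantCoeff R = 1)
    (hY : (1 - C (1 / 2) * X ^ 2 + C (1 / (4 * L ^ 2)) * X ^ 4) * d⁄dX ℝ Y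
      = C (L / 2) * (1 - C (1 / L ^ 2) * X ^ 2) * (1 - C (1 / L) * X) * Y)
    (hR : (1 - X ^ 2) * d⁄dX ℝ R = (C 2 * X - C L) * R) :
    coeff (2 * m - 1) (Y ^ (m + 1) * R) ≠ 0 := by
  obtain ⟨n, rfl⟩ : ∃ n, m = n + 1 := ⟨m - 1, by omega⟩
  have hn : 1 ≤ n := by omega
  have hL0 : L ≠ 0 := by
    rintro rfl
    rw [abs_zero] at hL
    norm_num at hL
  refine ser1_ne n hn L hL (Y ^ (n + 1 + 1) * R) (by simp [hY0, hR0]) ?_ _ (by omega)
  intro i _
  congr 1
  have hP : serP L = (1 - X ^ 2) * (1 - C (1 / 2) * X ^ 2 + C (1 / (4 * L ^ 2)) * X ^ 4) := by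
    rw [serP]
    have e1 : (C (3 / 2) : PowerSeries ℝ) = 1 + C (1 / 2) := by
      rw [← map_one C, ← map_add]; norm_num
    rw [e1, map_add]
    ring
  have hQ : serQ n L = C ((n : ℝ) + 2) * (1 - X ^ 2) * (C (L / 2) * (1 - C (1 / L ^ 2) * X ^ 2)
      * (1 - C (1 / L) * X))
      + (1 - C (1 / 2) * X ^ 2 + C (1 / (4 * L ^ 2)) * X ^ 4) * (C 2 * X - C L) := by
    rw [serQ]
    have c1 : (C ((n : ℝ) + 2) : PowerSeries ℝ) * C (L / 2) * C (1 / L) = C (((n : ℝ) + 2) / 2) := by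
      rw [← map_mul, ← map_mul]; congr 1; field_simp
    have c2 : (C ((n : ℝ) + 2) : PowerSeries ℝ) * C (L / 2) = C (((n : ℝ) + 2) * L / 2) := by
      rw [← map_mul]; congr 1; ring
    have c3 : (C ((n : ℝ) + 2) : PowerSeries ℝ) * C (L / 2) * C (1 / L ^ 2)
        = C (((n : ℝ) + 2) / (2 * L)) := by
      rw [← map_mul, ← map_mul]; congr 1; field_simp
    have c4 : (C ((n : ℝ) + 2) : PowerSeries ℝ) * C (L / 2) * C (1 / L ^ 2) * C (1 / L)
        = C (((n : ℝ) + 2) / (2 * L ^ 2)) := by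
      rw [← map_mul, ← map_mul, ← map_mul]; congr 1; field_simp
    have expand : C ((n : ℝ) + 2) * (1 - X ^ 2) * (C (L / 2) * (1 - C (1 / L ^ 2) * X ^ 2)
      * (1 - C (1 / L) * X))
      = (1 - X ^ 2) * (C ((n : ℝ) + 2) * C (L / 2)
        - (C ((n : ℝ) + 2) * C (L / 2) * C (1 / L)) * X
        - (C ((n : ℝ) + 2) * C (L / 2) * C (1 / L ^ 2)) * X ^ 2
        + (C ((n : ℝ) + 2) * C (L / 2) * C (1 / L ^ 2) * C (1 / L)) * X ^ 3) := by ring
    rw [expand, c4, c3, c1, c2]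
    have d0 : (C (L * n / 2) : PowerSeries ℝ) = C (((n : ℝ) + 2) * L / 2) - C L := by
      rw [← map_sub]; congr 1; ring
    have d1 : (C (-((n : ℝ) - 2) / 2) : PowerSeries ℝ) = -C (((n : ℝ) + 2) / 2) + C 2 := by
      rw [← map_neg, ← map_add]; congr 1; ring
    have d2 : (C (-(L * ((n + 1) / 2 + 2 * (1 / (4 * L ^ 2)) * (n + 2)))) : PowerSeries ℝ)
        = -C (((n : ℝ) + 2) / (2 * L)) - C (((n : ℝ) + 2) * L / 2) + C (1 / 2) * C L := by
      rw [← map_neg, ← map_sub, ← map_mul, ← map_add]; congr 1; field_simp; ring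
    have d3 : (C ((n + 2) * (1 / 2 + 2 * (1 / (4 * L ^ 2))) - 1) : PowerSeries ℝ)
        = C (((n : ℝ) + 2) / (2 * L ^ 2)) + C (((n : ℝ) + 2) / 2) - C (1 / 2) * C 2 := by
      rw [← map_add, ← map_mul, ← map_sub]; congr 1; field_simp; ring
    have d4 : (C (L * (1 / (4 * L ^ 2)) * (2 * n + 3)) : PowerSeries ℝ)
        = C (((n : ℝ) + 2) / (2 * L)) - C (1 / (4 * L ^ 2)) * C L := by
      rw [← map_mul, ← map_sub]; congr 1; field_simp; ring
    have d5 : (C (-(2 * (1 / (4 * L ^ 2)) * (n + 1))) : PowerSeries ℝ)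
        = -C (((n : ℝ) + 2) / (2 * L ^ 2)) + C (1 / (4 * L ^ 2)) * C 2 := by
      rw [← map_neg, ← map_mul, ← map_add]; congr 1; field_simp; ring
    rw [d0, d1, d2, d3, d4, d5]
    ring
  have hder : d⁄dX ℝ (Y ^ (n + 1 + 1) * R)
      = Y ^ (n + 1 + 1) * d⁄dX ℝ R + R * (C ((n : ℝ) + 2) * Y ^ (n + 1) * d⁄dX ℝ Y) := by
    rw [Derivation.leibniz, Derivation.leibniz_pow]
    simp only [smul_eq_mul, nsmul_eq_mul, Nat.add_sub_cancel]
    have : (C ((n : ℝ) + 2) : PowerSeries ℝ) = ((n + 1 + 1 : ℕ) : PowerSeries ℝ) := by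
      rw [show ((n : ℝ) + 2) = ((n + 1 + 1 : ℕ) : ℝ) by push_cast; ring, map_natCast]
    rw [this]
    ring
  rw [hder, hP, hQ]
  linear_combination ((1 - C (1 / 2) * X ^ 2 + C (1 / (4 * L ^ 2)) * X ^ 4) * Y ^ (n + 1 + 1)) * hR
    + (C ((n : ℝ) + 2) * (1 - X ^ 2) * Y ^ (n + 1) * R) * hY

end Crest.Agent.R208.Ser
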