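import Crest.Agent.R208.CW3
import Crest.Agent.R208.S1

/-! Row 208, block QV (helper105), part QV1: the `k = 4` endgame on the `F`-level, power series
part.  If `Π` is the closed form of `c(TM ⊗ ℂ)` and the power sums of `F_J` on `V_2(V)` are
`φ_j e^j`, then the vanishing of `c_(2m-1)(F_J)` contradicts `S1.ser1_ne` as soon as `|μ| ≥ 6`. -/

set_option autoImplicit false
set_option linter.unusedSectionVars false
set_option linter.unusedVariables false
set_option linter.unusedSimpArgs false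

open PowerSeries Crest.Agent.R208.CW

noncomputable section

namespace Crest.Agent.R208.QV

local notation "dd" => PowerSeries.derivative ℂ

/-! ### real parts of power series -/

/-- real part of a power series -/
def reP (G : PowerSeries ℂ) : PowerSeries ℝ := PowerSeries.mk fun j => (coeff j G).re

/-- a real power series as a complex one -/
def toC : PowerSeries ℝ →+* PowerSeries ℂ := PowerSeries.map Complex.ofRealHom

theorem coeff_mul_reP (F : PowerSeries ℝ) (G : PowerSeries ℂ) (i : ℕ) :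
    coeff i (F * reP G) = (coeff i (toC F * G)).re := by
  rw [coeff_mul, coeff_mul, Complex.re_sum]
  refine Finset.sum_congr rfl fun p _ => ?_
  rw [reP, coeff_mk, toC, coeff_map, Complex.ofRealHom_eq_coe, Complex.re_ofReal_mul]

theorem deriv_reP (G : PowerSeries ℂ) : PowerSeries.derivative ℝ (reP G) = reP (dd G) := by
  refine PowerSeries.ext fun i => ?_
  rw [coeff_derivative, reP, coeff_mk, reP, coeff_mk, coeff_derivative]
  have : ((i : ℂ) + 1) = ((i + 1 : ℝ) : ℂ) := by push_cast; ring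
  rw [this, Complex.re_mul_ofReal]

/-! ### divisibility by powers of `X` -/

theorem dvd_deriv {F : PowerSeries ℂ} {m : ℕ} (h : X ^ (m + 1) ∣ F) : X ^ m ∣ dd F := by
  rw [X_pow_dvd_iff] at h ⊢
  intro i hi
  rw [coeff_derivative, h (i + 1) (by omega), zero_mul]

/-- expansion `X ↦ c X²` -/
def ex (c : ℂ) : PowerSeries ℂ →+* PowerSeries ℂ :=
  ((PowerSeries.expand 2 two_ne_zero : PowerSeries ℂ →ₐ[ℂ] PowerSeries ℂ) :
    PowerSeries ℂ →+* PowerSeries ℂ).comp (PowerSeries.rescale c)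

theorem ex_apply (c : ℂ) (F : PowerSeries ℂ) :
    ex c F = PowerSeries.expand 2 two_ne_zero (PowerSeries.rescale c F) := rfl

theorem coeff_ex_even (c : ℂ) (F : PowerSeries ℂ) (i : ℕ) :
    coeff (2 * i) (ex c F) = c ^ i * coeff i F := by
  rw [ex_apply, coeff_expand_mul, coeff_rescale]

theorem coeff_ex_odd (c : ℂ) (F : PowerSeries ℂ) {i : ℕ} (h : Odd i) :
    coeff i (ex c F) = 0 := by
  rw [ex_apply, coeff_expand_of_not_dvd]
  intro h2
  exact (Nat.not_even_iff_odd.2 h) (even_iff_two_dvd.2 h2)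

theorem ex_C (c a : ℂ) : ex c (C a) = C a := by
  have : PowerSeries.rescale c (C a) = C a := by
    refine PowerSeries.ext fun i => ?_
    rw [coeff_rescale, coeff_C]
    split_ifs with h
    · subst h; simp
    · simp
  rw [ex_apply, this, expand_C]

theorem ex_X (c : ℂ) : ex c X = C c * X ^ 2 := by
  rw [ex_apply, rescale_X, map_mul, expand_X, expand_C]

theorem dvd_ex (c : ℂ) {F : PowerSeries ℂ} {m : ℕ} (h : X ^ m ∣ F) : X ^ (2 * m) ∣ ex c F := by
  obtain ⟨G, rfl⟩ := h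
  rw [map_mul, map_pow, ex_X, mul_pow, ← pow_mul]
  exact ⟨C c ^ m * ex c G, by ring⟩

/-! ### the logarithmic derivative of the closed form -/

/-- `1 + μ X + X²` -/
def qq (μ : ℂ) : PowerSeries ℂ := 1 + C μ * X + X ^ 2
/-- `1 + 2 μ X` -/
def uu (μ : ℂ) : PowerSeries ℂ := 1 + C (2 * μ) * X

theorem dd_qq (μ : ℂ) : dd (qq μ) = C μ + C 2 * X := by
  rw [qq, map_add, map_add, Derivation.map_one_eq_zero, Derivation.leibniz, derivative_C,
    derivative_X, derivative_pow, derivative_X, smul_eq_mul, smul_eq_mul, mul_zero, add_zero,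
    mul_one, mul_one, zero_add]
  norm_num
  rfl

theorem dd_uu (μ : ℂ) : dd (uu μ) = C (2 * μ) := by
  rw [uu, map_add, Derivation.map_one_eq_zero, Derivation.leibniz, derivative_C,
    derivative_X, smul_eq_mul, smul_eq_mul, mul_zero, add_zero, mul_one, zero_add]

/-- the right hand side -/
def rr (m : ℕ) (μ : ℂ) : PowerSeries ℂ :=
  C (-2 : ℂ) * (C ((m : ℂ) + 1) * (C μ + C 2 * X) * uu μ - C (2 * μ) * qq μ)

theorem isUnit_of_cc {F : PowerSeries ℂ} (h : constantCoeff F = 1) : IsUnit F := by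
  rw [PowerSeries.isUnit_iff_constantCoeff, h]; exact isUnit_one

theorem T_dvd {m : ℕ} (μ : ℂ) {P T : PowerSeries ℂ} (h0 : constantCoeff P = 1)
    (hP : X ^ (m + 1) ∣ P * uu μ - qq μ ^ (m + 1)) (hT : P * T = C (-2 : ℂ) * dd P) :
    X ^ m ∣ T * (qq μ * uu μ) - rr m μ := by
  have h1 := dvd_deriv hP
  have e1 : dd (P * uu μ - qq μ ^ (m + 1)) = P * C (2 * μ) + uu μ * dd P
      - C ((m : ℂ) + 1) * qq μ ^ m * (C μ + C 2 * X) := by
    rw [map_sub, Derivation.leibniz, dd_uu, derivative_pow, dd_qq, smul_eq_mul, smul_eq_mul]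
    have : ((m + 1 : ℕ) : PowerSeries ℂ) = C ((m : ℂ) + 1) := by
      rw [← map_natCast (C (R := ℂ))]; push_cast; rfl
    rw [this, Nat.add_sub_cancel]
  rw [e1] at h1
  have h2 : X ^ m ∣ P * uu μ - qq μ ^ (m + 1) := (pow_dvd_pow X (Nat.le_succ m)).trans hP
  have hU := isUnit_of_cc h0
  have h3 : X ^ m ∣ (T * (qq μ * uu μ) - rr m μ) * P := by
    have e2 : (T * (qq μ * uu μ) - rr m μ) * P
        = C (-2 : ℂ) * qq μ * (P * C (2 * μ) + uu μ * dd P
          - C ((m : ℂ) + 1) * qq μ ^ m * (C μ + C 2 * X))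
          - C (-2 : ℂ) * (C ((m : ℂ) + 1) * (C μ + C 2 * X)) * (P * uu μ - qq μ ^ (m + 1)) := by
      rw [rr]
      linear_combination (qq μ * uu μ) * hT
    rw [e2]
    exact dvd_sub (h1.mul_left _) (h2.mul_left _)
  obtain ⟨v, hv⟩ := hU
  have h4 : T * (qq μ * uu μ) - rr m μ = (T * (qq μ * uu μ) - rr m μ) * P * (v⁻¹ : Units _) := by
    rw [mul_assoc, ← hv, Units.mul_inv, mul_one]
  rw [h4]
  exact h3.mul_right _

/-! ### the series `S = φ_1 - φ_2 y + ..` -/

/-- `y / (1 - y²)` -/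
def yy : PowerSeries ℂ := PowerSeries.mk fun j => if Odd j then 1 else 0

theorem yy_mul : (1 - X ^ 2) * yy = (X : PowerSeries ℂ) := by
  refine PowerSeries.ext fun i => ?_
  rw [sub_mul, one_mul, map_sub, yy, coeff_mk, coeff_X_pow_mul', coeff_X]
  rcases i with _ | _ | i
  · simp
  · simp
  · have h1 : i + 1 + 1 - 2 = i := by omega
    have h2 : Odd (i + 1 + 1) ↔ Odd i := by
      rw [Nat.odd_iff, Nat.odd_iff]; omega
    rw [coeff_mk, if_pos (by omega : 2 ≤ i + 1 + 1), if_neg (by omega : ¬ i + 1 + 1 = 1), h1,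
      if_congr h2 rfl rfl, sub_self]

/-- `S = ¼ (1 + y/μ) T(-y²/2μ) + y/(1-y²)` -/
def SS (μ : ℂ) (T : PowerSeries ℂ) : PowerSeries ℂ :=
  C (1 / 4 : ℂ) * (1 + C (1 / μ) * X) * ex (-1 / (2 * μ)) T + yy

theorem ex_qq {μ : ℂ} (hμ : μ ≠ 0) :
    ex (-1 / (2 * μ)) (qq μ) = 1 - C (1 / 2) * X ^ 2 + C (1 / (4 * μ ^ 2)) * X ^ 4 := by
  rw [qq, map_add, map_add, map_one, map_mul, map_pow, ex_C, ex_X]
  have e1 : (C μ * (C (-1 / (2 * μ)) * X ^ 2) : PowerSeries ℂ) = - (C (1 / 2) * X ^ 2) := by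
    rw [← mul_assoc, ← map_mul, ← neg_mul, ← map_neg]; congr 2; field_simp
  have e2 : ((C (-1 / (2 * μ)) * X ^ 2) ^ 2 : PowerSeries ℂ) = C (1 / (4 * μ ^ 2)) * X ^ 4 := by
    rw [mul_pow, ← map_pow, ← pow_mul]; congr 2; field_simp; norm_num
  rw [e1, e2]; ring

theorem ex_uu {μ : ℂ} (hμ : μ ≠ 0) : ex (-1 / (2 * μ)) (uu μ) = 1 - X ^ 2 := by
  rw [uu, map_add, map_one, map_mul, ex_C, ex_X]
  have e1 : (C (2 * μ) * (C (-1 / (2 * μ)) * X ^ 2) : PowerSeries ℂ) = - X ^ 2 := by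
    rw [← mul_assoc, ← map_mul]
    have : 2 * μ * (-1 / (2 * μ)) = -1 := by field_simp
    rw [this, map_neg, map_one]; ring
  rw [e1]; ring

theorem toC_C (a : ℝ) : toC (C a) = C (a : ℂ) := by rw [toC, map_C]; rfl
theorem toC_X : toC X = X := by rw [toC, map_X]

theorem toC_serP (L : ℝ) : toC (Ser.serP L) = (1 - X ^ 2) * (1 - C (1 / 2 : ℂ) * X ^ 2
    + C (1 / (4 * (L : ℂ) ^ 2)) * X ^ 4) := by
  rw [Ser.serP]
  have e0 : (C (1 / 2 + 1 / (4 * L ^ 2)) : PowerSeries ℝ) = C (1 / 2) + C (1 / (4 * L ^ 2)) :=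
    map_add _ _ _
  have e1 : (C (3 / 2) : PowerSeries ℝ) = 1 + C (1 / 2) := by
    rw [← map_one (C (R := ℝ)), ← map_add]; norm_num
  rw [e0, e1]
  simp only [map_sub, map_add, map_mul, map_pow, map_one, toC_C, toC_X]
  push_cast
  ring

theorem serQ_eq (n : ℕ) (L : ℝ) (hL0 : L ≠ 0) : Ser.serQ n L
    = C ((n : ℝ) + 2) * (1 - X ^ 2) * (C (L / 2) * (1 - C (1 / L ^ 2) * X ^ 2)
      * (1 - C (1 / L) * X))
      + (1 - C (1 / 2) * X ^ 2 + C (1 / (4 * L ^ 2)) * X ^ 4) * (C 2 * X - C L) := by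
  rw [Ser.serQ]
  have c1 : (C ((n : ℝ) + 2) : PowerSeries ℝ) * C (L / 2) * C (1 / L) = C (((n : ℝ) + 2) / 2) := by
    rw [← map_mul, ← map_mul]; congr 1; field_simp
  have c2 : (C ((n : ℝ) + 2) : PowerSeries ℝ) * C (L / 2) = C (((n : ℝ) + 2) * L / 2) := by
    rw [← map_mul]; congr 1; ring
  have c3 : (C ((n : ℝ) + 2) : PowerSeries ℝ) * C (L / 2) * C (1 / L ^ 2)
      = C (((n : ℝ) + 2) / (2 * L)) := by
    rw [← map_mul, ← map_mul]; congr 1; field_simp
  have c4 : (C ((n : ℝ) + 2) : PowerSeries ℝ) * C (L / 2) * C (1 / L ^ 2) * C (1 / L)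
      = C (((n : ℝ) + 2) / (2 * L ^ 2)) := by
    rw [← map_mul, ← map_mul, ← map_mul]; congr 1; field_simp
  have expand : C ((n : ℝ) + 2) * (1 - X ^ 2) * (C (L / 2) * (1 - C (1 / L ^ 2) * X ^ 2)
      * (1 - C (1 / L) * X))
      = (1 - X ^ 2) * (C ((n : ℝ) + 2) * C (L / 2)
        - (C ((n : ℝ) + 2) * C (L / 2) * C (1 / L)) * X
        - (C ((n : ℝ) + 2) * C (L / 2) * C (1 / L ^ 2)) * X ^ 2
        + (C ((n : ℝ) + 2) * C (L / 2) * C (1 / L ^ 2) * C (1 / L)) * X ^ 3) := by ring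
  rw [expand, c4, c3, c1, c2]
  have d0 : (C (L * n / 2) : PowerSeries ℝ) = C (((n : ℝ) + 2) * L / 2) - C L := by
    rw [← map_sub]; congr 1; ring
  have d1 : (C (-((n : ℝ) - 2) / 2) : PowerSeries ℝ) = -C (((n : ℝ) + 2) / 2) + C 2 := by
    rw [← map_neg, ← map_add]; congr 1; ring
  have d2 : (C (-(L * ((n + 1) / 2 + 2 * (1 / (4 * L ^ 2)) * (n + 2)))) : PowerSeries ℝ)
      = -C (((n : ℝ) + 2) / (2 * L)) - C (((n : ℝ) + 2) * L / 2) + C (1 / 2) * C L := by
    rw [← map_neg, ← map_sub, ← map_mul, ← map_add]; congr 1; field_simp; ring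
  have d3 : (C ((n + 2) * (1 / 2 + 2 * (1 / (4 * L ^ 2))) - 1) : PowerSeries ℝ)
      = C (((n : ℝ) + 2) / (2 * L ^ 2)) + C (((n : ℝ) + 2) / 2) - C (1 / 2) * C 2 := by
    rw [← map_add, ← map_mul, ← map_sub]; congr 1; field_simp; ring
  have d4 : (C (L * (1 / (4 * L ^ 2)) * (2 * n + 3)) : PowerSeries ℝ)
      = C (((n : ℝ) + 2) / (2 * L)) - C (1 / (4 * L ^ 2)) * C L := by
    rw [← map_mul, ← map_sub]; congr 1; field_simp; ring
  have d5 : (C (-(2 * (1 / (4 * L ^ 2)) * (n + 1))) : PowerSeries ℝ)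
      = -C (((n : ℝ) + 2) / (2 * L ^ 2)) + C (1 / (4 * L ^ 2)) * C 2 := by
    rw [← map_neg, ← map_mul, ← map_add]; congr 1; field_simp; ring
  rw [d0, d1, d2, d3, d4, d5]
  ring

theorem toC_serQ (n : ℕ) (L : ℝ) (hL : L ≠ 0) : toC (Ser.serQ n L)
    = C ((n : ℂ) + 2) * (1 - X ^ 2) * (C ((L : ℂ) / 2) * (1 - C (1 / (L : ℂ) ^ 2) * X ^ 2)
      * (1 - C (1 / (L : ℂ)) * X))
      + (1 - C (1 / 2 : ℂ) * X ^ 2 + C (1 / (4 * (L : ℂ) ^ 2)) * X ^ 4)
        * (C 2 * X - C (L : ℂ)) := by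
  rw [serQ_eq n L hL]
  simp only [map_sub, map_add, map_mul, map_pow, map_one, toC_C, toC_X]
  push_cast
  ring

theorem ex_rr (m : ℕ) {μ : ℂ} (hμ : μ ≠ 0) : ex (-1 / (2 * μ)) (rr m μ)
    = C (-2 : ℂ) * (C ((m : ℂ) + 1) * (C μ + C 2 * (C (-1 / (2 * μ)) * X ^ 2)) * (1 - X ^ 2)
      - C (2 * μ) * (1 - C (1 / 2) * X ^ 2 + C (1 / (4 * μ ^ 2)) * X ^ 4)) := by
  rw [rr, (ex _).map_mul, (ex _).map_sub, (ex _).map_mul, (ex _).map_mul, (ex _).map_mul,
    (ex _).map_add, (ex _).map_mul, ex_qq hμ, ex_uu hμ, ex_C, ex_C, ex_C, ex_C, ex_C, ex_X]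

/-- **the differential equation of `c(F_J)`** -/
theorem SS_dvd {m : ℕ} (hm : 1 ≤ m) {μ : ℝ} (hμ : μ ≠ 0) {P T : PowerSeries ℂ}
    (h0 : constantCoeff P = 1)
    (hP : X ^ (m + 1) ∣ P * uu μ - qq μ ^ (m + 1)) (hT : P * T = C (-2 : ℂ) * dd P) :
    X ^ (2 * m) ∣ toC (Ser.serP (-μ)) * SS μ T - toC (Ser.serQ (m - 1) (-μ)) := by
  have hμ' : (μ : ℂ) ≠ 0 := by exact_mod_cast hμ
  have h1 := dvd_ex (-1 / (2 * μ)) (T_dvd (μ : ℂ) h0 hP hT)
  have h2 : toC (Ser.serP (-μ)) * SS μ T - toC (Ser.serQ (m - 1) (-μ))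
      = C (1 / 4 : ℂ) * (1 + C (1 / (μ : ℂ)) * X)
        * ex (-1 / (2 * μ)) (T * (qq μ * uu μ) - rr m μ) := by
    rw [toC_serP, toC_serQ _ _ (neg_ne_zero.2 hμ), SS, (ex _).map_sub, (ex _).map_mul T,
      (ex _).map_mul (qq _), ex_rr m hμ', ex_qq hμ', ex_uu hμ']
    have ey := yy_mul
    set E := ex (-1 / (2 * (μ : ℂ))) T
    have f1 : ((m - 1 : ℕ) : ℂ) + 2 = (m : ℂ) + 1 := by
      rw [Nat.cast_sub hm]; push_cast; ring
    have f2 : (((-μ : ℝ) : ℂ)) = -(μ : ℂ) := by push_cast; rfl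
    rw [f1, f2]
    have f3 : (4 * (-(μ : ℂ)) ^ 2) = 4 * (μ : ℂ) ^ 2 := by ring
    rw [f3]
    have g0 : (C (1 / 4 : ℂ) : PowerSeries ℂ) * C (-2) = - C (1 / 2) := by
      rw [← map_mul, ← map_neg]; congr 1; norm_num
    have g1 : (C (-(μ : ℂ) / 2) : PowerSeries ℂ) = - (C (1 / 2) * C (μ : ℂ)) := by
      rw [← map_mul, ← map_neg]; congr 1; ring
    have g2 : (C (1 / (-(μ : ℂ)) ^ 2) : PowerSeries ℂ) = C (1 / (μ : ℂ)) ^ 2 := by
      rw [← map_pow]; congr 1; field_simp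
    have g3 : (C (1 / (-(μ : ℂ))) : PowerSeries ℂ) = - C (1 / (μ : ℂ)) := by
      rw [← map_neg]; congr 1; field_simp
    have g4 : (C (-1 / (2 * (μ : ℂ))) : PowerSeries ℂ) = - (C (1 / 2) * C (1 / (μ : ℂ))) := by
      rw [← map_mul, ← map_neg]; congr 1; field_simp
    have g5 : (C (-(μ : ℂ)) : PowerSeries ℂ) = - C (μ : ℂ) := map_neg _ _
    have g6 : (C (2 * (μ : ℂ)) : PowerSeries ℂ) = 2 * C (μ : ℂ) := by
      rw [map_mul]; congr 1
    have g7 : (C (1 / 2 : ℂ) : PowerSeries ℂ) * 2 = 1 := by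
      have : (2 : PowerSeries ℂ) = C 2 := rfl
      rw [this, ← map_mul, ← map_one (C (R := ℂ))]; congr 1; norm_num
    have g9 : (C (2 : ℂ) : PowerSeries ℂ) = 2 := rfl
    have g8 : (C (μ : ℂ) : PowerSeries ℂ) * C (1 / (μ : ℂ)) = 1 := by
      rw [← map_mul, ← map_one (C (R := ℂ))]; congr 1; field_simp
    rw [g1, g2, g3, g4, g5, g6, g9]
    generalize (C (1 / (4 * (μ : ℂ) ^ 2)) : PowerSeries ℂ) = c2 at *
    generalize (C (1 / (μ : ℂ)) : PowerSeries ℂ) = ν at *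
    generalize (C (μ : ℂ) : PowerSeries ℂ) = u at *
    generalize (C ((m : ℂ) + 1) : PowerSeries ℂ) = N at *
    generalize (C (1 / 4 : ℂ) : PowerSeries ℂ) = q4 at *
    generalize (C (-2 : ℂ) : PowerSeries ℂ) = w2 at *
    generalize (C (1 / 2 : ℂ) : PowerSeries ℂ) = hf at *
    generalize yy = Y at *
    linear_combination (1 - hf * X ^ 2 + c2 * X ^ 4) * ey
      + (1 + ν * X) * (N * (u + 2 * (-(hf * ν) * X ^ 2)) * (1 - X ^ 2)
        - 2 * u * (1 - hf * X ^ 2 + c2 * X ^ 4)) * g0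
      + (u * (1 + ν * X) * (1 - hf * X ^ 2 + c2 * X ^ 4)
        + N * hf * X ^ 2 * (1 - X ^ 2) * (1 + ν * X) * ν) * g7
      + (X * (1 - hf * X ^ 2 + c2 * X ^ 4) - N * hf * X ^ 2 * (1 - X ^ 2) * (1 + ν * X) * ν) * g8
  rw [h2]
  exact h1.mul_left _

/-- the sequence with `alt φ = S` -/
def phi (S : PowerSeries ℂ) (j : ℕ) : ℂ := (-1) ^ (j - 1) * coeff (j - 1) S

theorem alt_phi (S : PowerSeries ℂ) : alt (phi S) = S := by
  refine PowerSeries.ext fun i => ?_
  rw [alt, coeff_mk, phi, Nat.add_sub_cancel, ← mul_assoc, ← mul_pow, neg_one_mul, neg_neg,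
    one_pow, one_mul]

/-- **the contradiction**: `el φ (2m-1)` is not zero for `|μ| ≥ 6`. -/
theorem el_phi_ne {m : ℕ} (hm : 2 ≤ m) {μ : ℝ} (hμ6 : 6 ≤ |μ|) {P T : PowerSeries ℂ}
    (h0 : constantCoeff P = 1)
    (hP : X ^ (m + 1) ∣ P * uu μ - qq μ ^ (m + 1)) (hT : P * T = C (-2 : ℂ) * dd P) :
    el (phi (SS μ T)) (2 * m - 1) ≠ 0 := by
  have hμ : μ ≠ 0 := by rintro rfl; rw [abs_zero] at hμ6; norm_num at hμ6
  intro hz
  set W := cser (phi (SS μ T)) with hW
  have hd : dd W = W * SS μ T := by rw [hW, cser_ode, alt_phi]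
  have hS := SS_dvd (by omega : 1 ≤ m) hμ h0 hP hT
  have key : ∀ i, i ≤ 2 * (m - 1) →
      coeff i (Ser.serP (-μ) * PowerSeries.derivative ℝ (reP W))
        = coeff i (Ser.serQ (m - 1) (-μ) * reP W) := by
    intro i hi
    rw [deriv_reP, coeff_mul_reP, coeff_mul_reP]
    have h1 : X ^ (2 * m) ∣ toC (Ser.serP (-μ)) * dd W - toC (Ser.serQ (m - 1) (-μ)) * W := by
      rw [hd]
      have : toC (Ser.serP (-μ)) * (W * SS μ T) - toC (Ser.serQ (m - 1) (-μ)) * W
          = (toC (Ser.serP (-μ)) * SS μ T - toC (Ser.serQ (m - 1) (-μ))) * W := by ring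
      rw [this]
      exact hS.mul_right _
    rw [X_pow_dvd_iff] at h1
    have h2 := h1 i (by omega)
    rw [map_sub, sub_eq_zero] at h2
    rw [h2]
  have hW0 : constantCoeff (reP W) = 1 := by
    rw [← coeff_zero_eq_constantCoeff_apply, reP, coeff_mk, hW, coeff_cser, el_zero, Complex.one_re]
  have h3 := Ser.ser1_ne (m - 1) (by omega) (-μ) (by rwa [abs_neg]) (reP W) hW0 key (2 * m - 1)
    (by omega)
  apply h3
  rw [reP, coeff_mk, hW, coeff_cser, hz, Complex.zero_re]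

/-! ### power sums of the closed form -/

/-- `T = - 2 Π' / Π` -/
def TT (p : ℕ → ℂ) : PowerSeries ℂ := C (-2 : ℂ) * dd (PowerSeries.mk p) * (PowerSeries.mk p)⁻¹

/-- the power sums `τ_i` : if `c(TM ⊗ ℂ) = ∑ π_i x^i` then `s_(2i)(TM ⊗ ℂ) = τ_i x^i` -/
def tau (p : ℕ → ℂ) : ℕ → ℂ
  | 0 => 0
  | (i + 1) => coeff i (TT p)

theorem mk_mul_TT {p : ℕ → ℂ} (h0 : p 0 = 1) :
    PowerSeries.mk p * TT p = C (-2 : ℂ) * dd (PowerSeries.mk p) := by
  have h : PowerSeries.mk p * (PowerSeries.mk p)⁻¹ = 1 := by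
    refine PowerSeries.mul_inv_cancel _ ?_
    rw [← coeff_zero_eq_constantCoeff_apply, coeff_mk, h0]; exact one_ne_zero
  rw [TT, mul_comm (C (-2 : ℂ) * dd (PowerSeries.mk p)), ← mul_assoc, h, one_mul]

theorem dd_ex_one (F : PowerSeries ℂ) : dd (ex 1 F) = C 2 * (X * ex 1 (dd F)) := by
  refine PowerSeries.ext fun i => ?_
  rw [coeff_derivative, coeff_C_mul]
  rcases Nat.even_or_odd' i with ⟨a, ha | ha⟩
  · subst ha
    rw [coeff_ex_odd 1 F (Nat.odd_iff.2 (by omega))]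
    rcases a with _ | a
    · simp
    · have : 2 * (a + 1) = (2 * a + 1) + 1 := by ring
      rw [this, coeff_succ_X_mul, coeff_ex_odd 1 _ (Nat.odd_iff.2 (by omega))]
      simp
  · subst ha
    have : 2 * a + 1 + 1 = 2 * (a + 1) := by ring
    rw [this, coeff_ex_even, coeff_succ_X_mul, coeff_ex_even, coeff_derivative]
    push_cast
    simp only [one_pow]
    ring

/-- even extension of a sequence -/
def ev (t : ℕ → ℂ) (j : ℕ) : ℂ := if Even j then t (j / 2) else 0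

theorem alt_ev_tau (p : ℕ → ℂ) : alt (ev (tau p)) = - (X * ex 1 (TT p)) := by
  refine PowerSeries.ext fun i => ?_
  rw [alt, coeff_mk, map_neg]
  rcases Nat.even_or_odd' i with ⟨a, ha | ha⟩
  · subst ha
    rw [ev, if_neg (by rw [Nat.not_even_iff_odd, Nat.odd_iff]; omega)]
    rcases a with _ | a
    · simp
    · have : 2 * (a + 1) = (2 * a + 1) + 1 := by ring
      rw [this, coeff_succ_X_mul, coeff_ex_odd 1 _ (Nat.odd_iff.2 (by omega))]
      simp
  · subst ha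
    have h1 : (2 * a + 1 + 1) / 2 = a + 1 := by omega
    rw [ev, if_pos (by rw [Nat.even_iff]; omega), h1, coeff_succ_X_mul, coeff_ex_even, tau,
      (by rw [Nat.odd_iff]; omega : Odd (2 * a + 1)).neg_one_pow, one_pow]
    ring

theorem el_ev_tau {p : ℕ → ℂ} (h0 : p 0 = 1) (j : ℕ) : el (ev (tau p)) j = ev p j := by
  have h : ex 1 (PowerSeries.mk p) = cser (ev (tau p)) := by
    refine cser_unique _ ?_ ?_
    · have := coeff_ex_even 1 (PowerSeries.mk p) 0
      rw [mul_zero] at this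
      rw [this, coeff_mk, h0]; simp
    · rw [dd_ex_one, alt_ev_tau]
      have h1 := congrArg (ex 1) (mk_mul_TT h0)
      rw [map_mul, map_mul, ex_C] at h1
      have h2 : (C (-2 : ℂ) : PowerSeries ℂ) = - C 2 := map_neg _ _
      rw [h2] at h1
      linear_combination (X : PowerSeries ℂ) * h1
  have h3 := congrArg (coeff j) h
  rw [coeff_cser] at h3
  rw [← h3]
  rcases Nat.even_or_odd' j with ⟨a, ha | ha⟩
  · subst ha
    rw [coeff_ex_even, coeff_mk, ev, if_pos (by rw [Nat.even_iff]; omega), one_pow, one_mul]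
    congr 1; omega
  · subst ha
    rw [coeff_ex_odd _ _ (by rw [Nat.odd_iff]; omega), ev,
      if_neg (by rw [Nat.not_even_iff_odd, Nat.odd_iff]; omega)]

section ring
variable {A : Type*} [CommRing A] [Algebra ℂ A]

theorem el_odd {s : ℕ → A} {J : ℕ} (h : ∀ j, Odd j → j ≤ J → s j = 0) :
    ∀ j, Odd j → j ≤ J → el s j = 0 := by
  intro j
  induction j using Nat.strong_induction_on with
  | _ j ih =>
    cases j with
    | zero => intro h1; exact absurd h1 (by decide)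
    | succ j =>
      intro hj hJ
      refine (isUnit_succ A j).mul_left_cancel ?_
      rw [el_succ, mul_zero]
      refine Finset.sum_eq_zero fun i hi => ?_
      have hi' : i ≤ j := Nat.lt_succ_iff.1 (Finset.mem_range.1 hi)
      rcases Nat.even_or_odd (i + 1) with h1 | h1
      · have h2 : Odd (j - i) := by
          rw [Nat.odd_iff] at hj ⊢; rw [Nat.even_iff] at h1; omega
        rw [ih (j - i) (by omega) h2 (by omega)]; ring
      · rw [h (i + 1) h1 (by omega), mul_zero]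

/-- lifting of an even sequence to the powers of `x` -/
theorem el_lift (t : ℕ → ℂ) (x : A) (j : ℕ) :
    el (fun j => ev t j • x ^ (j / 2)) j = el (ev t) j • x ^ (j / 2) := by
  induction j using Nat.strong_induction_on with
  | _ j ih =>
    cases j with
    | zero => rw [el_zero, el_zero]; simp
    | succ j =>
      refine (isUnit_succ A j).mul_left_cancel ?_
      have e0 : ((j : A) + 1) * (el (ev t) (j + 1) • x ^ ((j + 1) / 2))
          = (((j : ℂ) + 1) * el (ev t) (j + 1)) • x ^ ((j + 1) / 2) := by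
        rw [mul_smul, mul_smul_comm, Algebra.smul_def ((j : ℂ) + 1)]
        congr 1
        rw [map_add, map_natCast, map_one, mul_smul_comm]
      rw [e0, el_succ, el_succ, Finset.sum_smul]
      refine Finset.sum_congr rfl fun i hi => ?_
      have hi' : i ≤ j := Nat.lt_succ_iff.1 (Finset.mem_range.1 hi)
      rw [ih (j - i) (by omega)]
      rcases Nat.even_or_odd (i + 1) with h1 | h1
      · rcases Nat.even_or_odd (j - i) with h2 | h2
        · have h3 : (j - i) / 2 + (i + 1) / 2 = (j + 1) / 2 := by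
            rw [Nat.even_iff] at h1 h2; omega
          rw [← h3, pow_add]
          simp only [Algebra.smul_def, map_mul, map_pow, map_neg, map_one]
          ring
        · have h4 : el (ev t) (j - i) = 0 :=
            el_odd (J := j - i) (fun a ha _ => by rw [ev, if_neg (Nat.not_even_iff_odd.2 ha)]) _ h2
              le_rfl
          rw [h4]; simp
      · have h4 : ev t (i + 1) = 0 := by rw [ev, if_neg (Nat.not_even_iff_odd.2 h1)]
        rw [h4]; simp

/-- `s_1, .., s_J` are determined by `e_1, .., e_J` -/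
theorem el_inj {s s' : ℕ → A} {J : ℕ} (h : ∀ j ≤ J, el s j = el s' j) :
    ∀ j, 1 ≤ j → j ≤ J → s j = s' j := by
  intro j
  induction j using Nat.strong_induction_on with
  | _ j ih =>
    intro h1 hJ
    obtain ⟨j, rfl⟩ := Nat.exists_eq_add_of_le' h1
    have a1 := el_succ s j
    have a2 := el_succ s' j
    rw [h _ hJ, a2, Finset.sum_range_succ, Finset.sum_range_succ, Nat.sub_self, el_zero, el_zero]
      at a1
    have a3 : ∑ i ∈ Finset.range j, (-1) ^ i * el s (j - i) * s (i + 1)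
        = ∑ i ∈ Finset.range j, (-1) ^ i * el s' (j - i) * s' (i + 1) := by
      refine Finset.sum_congr rfl fun i hi => ?_
      have hi' : i < j := Finset.mem_range.1 hi
      rw [h (j - i) (by omega), ih (i + 1) (by omega) (by omega) (by omega)]
    rw [a3] at a1
    have a4 : (-1 : A) ^ j * s' (j + 1) = (-1) ^ j * s (j + 1) := by linear_combination a1
    have a5 := congrArg (fun z => (-1 : A) ^ j * z) a4
    simp only [← mul_assoc, ← mul_pow, neg_one_mul, neg_neg, one_pow, one_mul] at a5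
    exact a5.symm

/-- **power sums of the tangent bundle** -/
theorem sum_of_closed {m : ℕ} {p : ℕ → ℂ} (h0 : p 0 = 1) {x : A} {t : ℕ → A}
    (hodd : ∀ j, Odd j → j ≤ 2 * m → t j = 0) (h : ∀ i ≤ m, el t (2 * i) = p i • x ^ i) :
    ∀ i, 1 ≤ i → i ≤ m → t (2 * i) = tau p i • x ^ i := by
  intro i h1 h2
  have key : ∀ j ≤ 2 * m, el t j = el (fun j => ev (tau p) j • x ^ (j / 2)) j := by
    intro j hj
    rw [el_lift, el_ev_tau h0]
    rcases Nat.even_or_odd' j with ⟨a, ha | ha⟩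
    · subst ha
      have e2 : 2 * a / 2 = a := by omega
      rw [h a (by omega), ev, if_pos (by rw [Nat.even_iff]; omega), e2]
    · subst ha
      rw [el_odd hodd _ (by rw [Nat.odd_iff]; omega) hj, ev,
        if_neg (by rw [Nat.not_even_iff_odd, Nat.odd_iff]; omega), zero_smul]
  have h3 := el_inj key (2 * i) (by omega) (by omega)
  rw [h3]
  have e2 : 2 * i / 2 = i := by omega
  simp only [ev]
  rw [if_pos (by rw [Nat.even_iff]; omega), e2]

/-- `el` of `φ_j e^j` -/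
theorem el_smul_pow (φ : ℕ → ℂ) (e : A) (j : ℕ) :
    el (fun j => φ j • e ^ j) j = el φ j • e ^ j := by
  have h1 : (fun j => φ j • e ^ j) = fun j => e ^ j * algebraMap ℂ A (φ j) := by
    funext j; rw [Algebra.smul_def, mul_comm]
  rw [h1, el_scale, Algebra.smul_def, mul_comm]
  congr 1
  exact (el_map (algebraMap ℂ A) φ j).symm

/-- **`k = 4`, the `F`-level**: `|μ| < 6`. -/
theorem lt_six {m : ℕ} (hm : 2 ≤ m) {μ : ℝ} {p : ℕ → ℂ} (h0 : p 0 = 1)
    (hp : ∀ i ≤ m, coeff i (PowerSeries.mk p * (1 + C (2 * (μ : ℂ)) * X))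
      = coeff i ((1 + C (μ : ℂ) * X + X ^ 2) ^ (m + 1)))
    {x e : A} {f : ℕ → A} (he : e ^ 2 = (-(2 * (μ : ℂ))) • x)
    (hfe : ∀ i, 1 ≤ i → i < m → f (2 * i) = (tau p i / 2) • x ^ i - e ^ (2 * i))
    (hfo : ∀ i, 1 ≤ i → i ≤ m → f (2 * i - 1) = (tau p i / 4) • (e * x ^ (i - 1)))
    (hz : el f (2 * m - 1) = 0) (hne : e * x ^ (m - 1) ≠ 0) : |μ| < 6 := by
  by_contra hcon
  rw [not_lt] at hcon
  have hμ : μ ≠ 0 := by rintro rfl; rw [abs_zero] at hcon; norm_num at hcon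
  have hμ' : (μ : ℂ) ≠ 0 := by exact_mod_cast hμ
  have hP : X ^ (m + 1) ∣ PowerSeries.mk p * uu μ - qq μ ^ (m + 1) := by
    rw [X_pow_dvd_iff]
    intro i hi
    rw [map_sub, sub_eq_zero]
    exact hp i (by omega)
  have hne0 := el_phi_ne hm hcon
    (by rw [← coeff_zero_eq_constantCoeff_apply, coeff_mk, h0]) hP (mk_mul_TT h0)
  have hx : x = (-1 / (2 * (μ : ℂ))) • e ^ 2 := by
    rw [he, smul_smul]
    have : -1 / (2 * (μ : ℂ)) * -(2 * (μ : ℂ)) = 1 := by field_simp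
    rw [this, one_smul]
  have hf : ∀ j, 1 ≤ j → j ≤ 2 * m - 1 → f j = phi (SS μ (TT p)) j • e ^ j := by
    intro j h1 h2
    rcases Nat.even_or_odd' j with ⟨a, ha | ha⟩
    · subst ha
      obtain ⟨i, rfl⟩ : ∃ i, a = i + 1 := ⟨a - 1, by omega⟩
      have e1 : 2 * (i + 1) - 1 = 2 * i + 1 := by omega
      have e2 : phi (SS μ (TT p)) (2 * (i + 1))
          = -(1 / (4 * μ) * ((-1 / (2 * (μ : ℂ))) ^ i * coeff i (TT p)) + 1) := by
        rw [phi, e1, (by rw [Nat.odd_iff]; omega : Odd (2 * i + 1)).neg_one_pow, SS, map_add,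
          mul_assoc, coeff_C_mul, add_mul, one_mul, map_add,
          coeff_ex_odd _ _ (by rw [Nat.odd_iff]; omega), mul_assoc, coeff_C_mul, coeff_succ_X_mul,
          coeff_ex_even, yy, coeff_mk, if_pos (by rw [Nat.odd_iff]; omega)]
        field_simp
        ring
      have e3 : ∀ a : ℂ, ∀ z : A, a • z - z = (a - 1) • z := fun a z => by rw [sub_smul, one_smul]
      rw [hfe (i + 1) (by omega) (by omega), e2, tau, hx, smul_pow, smul_smul, ← pow_mul, e3]
      congr 1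
      rw [pow_succ]
      field_simp
      ring
    · subst ha
      have e1 : 2 * a + 1 - 1 = 2 * a := by omega
      have e2 : phi (SS μ (TT p)) (2 * a + 1)
          = 1 / 4 * ((-1 / (2 * (μ : ℂ))) ^ a * coeff a (TT p)) := by
        have e3 : coeff (2 * a) (C (1 / (μ : ℂ)) * X * ex (-1 / (2 * μ)) (TT p)) = 0 := by
          rw [mul_assoc, coeff_C_mul]
          rcases a with _ | a
          · simp
          · have : 2 * (a + 1) = (2 * a + 1) + 1 := by ring
            rw [this, coeff_succ_X_mul, coeff_ex_odd _ _ (Nat.odd_iff.2 (by omega)), mul_zero]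
        rw [phi, e1, (by rw [Nat.even_iff]; omega : Even (2 * a)).neg_one_pow, SS, map_add,
          mul_assoc, coeff_C_mul, add_mul, one_mul, one_mul, map_add, coeff_ex_even, e3, yy,
          coeff_mk, if_neg (by rw [Nat.not_odd_iff_even, Nat.even_iff]; omega), add_zero, add_zero]
      have e4 := hfo (a + 1) (by omega) (by omega)
      have e5 : 2 * (a + 1) - 1 = 2 * a + 1 := by omega
      rw [e5, Nat.add_sub_cancel] at e4
      rw [e4, e2, tau, hx, smul_pow, mul_smul_comm, smul_smul, ← pow_mul, pow_succ' e (2 * a)]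
      congr 1
      ring
  have h1 : el f (2 * m - 1) = el (phi (SS μ (TT p))) (2 * m - 1) • e ^ (2 * m - 1) := by
    rw [el_congr hf, el_smul_pow]
  rw [hz] at h1
  have h2 : e ^ (2 * m - 1) = ((-(2 * (μ : ℂ))) ^ (m - 1)) • (e * x ^ (m - 1)) := by
    have e1 : 2 * m - 1 = 2 * (m - 1) + 1 := by omega
    rw [e1, pow_succ, pow_mul, he, smul_pow, smul_mul_assoc, mul_comm e]
  rw [h2, smul_smul] at h1
  have h3 : el (phi (SS μ (TT p))) (2 * m - 1) * (-(2 * (μ : ℂ))) ^ (m - 1) ≠ 0 :=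
    mul_ne_zero hne0 (pow_ne_zero _ (neg_ne_zero.2 (mul_ne_zero two_ne_zero hμ')))
  have h4 := congrArg (fun z => (el (phi (SS μ (TT p))) (2 * m - 1)
    * (-(2 * (μ : ℂ))) ^ (m - 1))⁻¹ • z) h1
  simp only [smul_smul, inv_mul_cancel₀ h3, one_smul, smul_zero] at h4
  exact hne h4.symm

end ring

end Crest.Agent.R208.QV
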