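import Crest.Agent.R208.QV1
import Crest.Agent.R208.GK1

/-! Row 208, block QV (helper105), part QV2: `k = 4` on the `F`-level; the algebra on
`D = V_2(V) / S¹` and on `V_2(V)`. -/

set_option autoImplicit false
set_option linter.unusedSectionVars false
set_option linter.unusedVariables false
set_option linter.unusedSimpArgs false

open Crest.Agent.R208.CW (el el_zero el_succ cser cser_unique alt el_congr)

noncomputable section

namespace Crest.Agent.R208.QV

/-! ### algebra -/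

section ring
variable {A : Type*} [CommRing A] [Algebra ℂ A]

/-- `el` of the power sums `2 z^i` -/
theorem el_two_seq (z : A) : cser (fun j => if Even j then 2 * z ^ (j / 2) else 0)
    = (1 - PowerSeries.C z * PowerSeries.X ^ 2 : PowerSeries A) := by
  symm
  refine cser_unique _ ?_ ?_
  · rw [map_sub, PowerSeries.coeff_C_mul, PowerSeries.coeff_X_pow]; simp
  · have h1 : PowerSeries.derivative A (1 - PowerSeries.C z * PowerSeries.X ^ 2 : PowerSeries A) = - (PowerSeries.C (2 * z) * PowerSeries.X) := by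
      refine PowerSeries.ext fun i => ?_
      rw [PowerSeries.coeff_derivative, map_sub, PowerSeries.coeff_C_mul, PowerSeries.coeff_X_pow, map_neg, PowerSeries.coeff_C_mul, PowerSeries.coeff_X,
        PowerSeries.coeff_one]
      rcases i with _ | _ | i
      · simp
      · simp; ring
      · simp
    rw [h1]
    have h2 : alt (fun j => if Even j then 2 * z ^ (j / 2) else (0 : A))
        = - (PowerSeries.C (2 * z) * PowerSeries.mk fun i => if Odd i then z ^ (i / 2) else 0) := by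
      refine PowerSeries.ext fun i => ?_
      rw [alt, PowerSeries.coeff_mk, map_neg, PowerSeries.coeff_C_mul, PowerSeries.coeff_mk]
      rcases Nat.even_or_odd i with hi | hi
      · rw [if_neg (by rw [Nat.not_even_iff_odd]; exact hi.add_one),
          if_neg (by rw [Nat.not_odd_iff_even]; exact hi)]
        simp
      · have e1 : (i + 1) / 2 = i / 2 + 1 := by rw [Nat.odd_iff] at hi; omega
        rw [if_pos hi.add_one, if_pos hi, hi.neg_one_pow, e1, pow_succ]
        ring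
    rw [h2]
    have h3 : (1 - PowerSeries.C z * PowerSeries.X ^ 2 : PowerSeries A)
        * (PowerSeries.mk fun i => if Odd i then z ^ (i / 2) else 0) = PowerSeries.X := by
      refine PowerSeries.ext fun i => ?_
      rw [sub_mul, one_mul, map_sub, PowerSeries.coeff_mk, mul_assoc, PowerSeries.coeff_C_mul, PowerSeries.coeff_X_pow_mul', PowerSeries.coeff_X]
      rcases i with _ | _ | i
      · simp
      · simp
      · have h1 : i + 1 + 1 - 2 = i := by omega
        have h2 : Odd (i + 1 + 1) ↔ Odd i := by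
          rw [Nat.odd_iff, Nat.odd_iff]; omega
        rw [if_pos (by omega : 2 ≤ i + 1 + 1), if_neg (by omega : ¬ i + 1 + 1 = 1), h1, PowerSeries.coeff_mk]
        by_cases h3 : Odd i
        · rw [if_pos (h2.2 h3), if_pos h3]
          have : (i + 1 + 1) / 2 = i / 2 + 1 := by omega
          rw [this, pow_succ]; ring
        · rw [if_neg (fun h => h3 (h2.1 h)), if_neg h3]; simp
    linear_combination (-(PowerSeries.C (2 * z) : PowerSeries A)) * (-1 : PowerSeries A) * h3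

/-- power sums of a real bundle of rank `2` -/
theorem sum_rank_two {v : ℕ → A} {J : ℕ} (hodd : ∀ j, Odd j → j ≤ J → v j = 0)
    (h : ∀ j, 2 < j → j ≤ J → el v j = 0) :
    ∀ i, 1 ≤ i → 2 * i ≤ J → v (2 * i) = 2 * (-(el v 2)) ^ i := by
  intro i h1 h2
  set z := -(el v 2) with hz
  have key : ∀ j ≤ J, el v j = el (fun j => if Even j then 2 * z ^ (j / 2) else 0) j := by
    intro j hj
    have e1 := congrArg (PowerSeries.coeff j) (el_two_seq z)
    rw [CW.coeff_cser] at e1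
    rw [e1, map_sub, PowerSeries.coeff_C_mul, PowerSeries.coeff_X_pow, PowerSeries.coeff_one]
    rcases j with _ | _ | _ | j
    · rw [el_zero]; simp
    · rw [el_odd hodd 1 (by decide) hj]; simp
    · simp [hz]
    · rw [h _ (by omega) hj]; simp
  have h3 := el_inj key (2 * i) (by omega) h2
  rw [h3]
  have e2 : 2 * i / 2 = i := by omega
  change (if Even (2 * i) then 2 * z ^ (2 * i / 2) else 0) = _
  rw [if_pos (by rw [Nat.even_iff]; omega), e2]

/-- the Chern classes of `V = ℓ + conj ℓ + V₀`, `V₀` of rank `2` -/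
theorem cser_split {ξ : A} {v v0 : ℕ → A} (hv : ∀ j, v j = (1 + (-1) ^ j) * ξ ^ j + v0 j)
    (hv0 : ∀ j, Odd j → v0 j = 0) (hr0 : ∀ j, 2 < j → el v0 j = 0) :
    el v 2 = el v0 2 - ξ ^ 2 ∧ el v 4 = -(ξ ^ 2 * el v0 2) := by
  have e1 : cser v = (1 - PowerSeries.C (ξ ^ 2) * PowerSeries.X ^ 2) * cser v0 := by
    rw [← el_two_seq, ← CW.cser_add]
    refine CW.cser_congr fun j _ => ?_
    rw [hv]
    congr 1
    rcases Nat.even_or_odd' j with ⟨a, ha | ha⟩
    · have e2 : 2 * a / 2 = a := by omega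
      rw [ha, if_pos (by rw [Nat.even_iff]; omega), pow_mul, pow_mul, e2]; norm_num
    · rw [ha, if_neg (by rw [Nat.not_even_iff_odd, Nat.odd_iff]; omega), pow_succ, pow_mul]
      norm_num
  have h1 : el v0 1 = 0 := el_odd (J := 1) (fun j hj _ => hv0 j hj) 1 (by decide) le_rfl
  have key : ∀ j, el v (j + 2) = el v0 (j + 2) - ξ ^ 2 * el v0 j := by
    intro j
    have e2 := congrArg (PowerSeries.coeff (j + 2)) e1
    rw [CW.coeff_cser, sub_mul, one_mul, map_sub, CW.coeff_cser, mul_assoc,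
      PowerSeries.coeff_C_mul, PowerSeries.coeff_X_pow_mul', if_pos (by omega)] at e2
    rw [e2, Nat.add_sub_cancel, CW.coeff_cser]
  refine ⟨?_, ?_⟩
  · rw [key 0, el_zero, mul_one]
  · rw [key 2, hr0 4 (by norm_num)]; ring

/-- **the branch `k = 4`**, algebra on `D` and `ZZ` -/
theorem lt_six_D {B : Type*} [CommRing B] [Algebra ℂ B] (φ : A →ₐ[ℂ] B) {Gr : ℕ → Submodule ℂ A}
    {m : ℕ} (hm : 2 ≤ m) {μ : ℝ} {p : ℕ → ℂ} (hp0 : p 0 = 1)
    (hp : ∀ i ≤ m, PowerSeries.coeff i (PowerSeries.mk p * (1 + PowerSeries.C (2 * (μ : ℂ)) *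
      PowerSeries.X)) = PowerSeries.coeff i ((1 + PowerSeries.C (μ : ℂ) * PowerSeries.X +
        PowerSeries.X ^ 2) ^ (m + 1)))
    {ξ x1 x2 w : A} {x e : B} (hxe : x1 - x2 = ξ * w) (hφξ : φ ξ = 0) (hφ1 : φ x1 = x)
    (hφ2 : φ x2 = x) (hφe : φ w = e) (h1 : (1 : A) ∈ Gr 0)
    (hmul : ∀ i j : ℕ, ∀ a b : A, a ∈ Gr i → b ∈ Gr j → a * b ∈ Gr (i + j)) (hξ : ξ ∈ Gr 1)
    (hx1 : x1 ∈ Gr 2) (hx2 : x2 ∈ Gr 2) (hw : w ∈ Gr 1)
    (div : ∀ j < 2 * m, ∀ b ∈ Gr j, b * ξ = 0 → b = 0) {t s : ℕ → A} (ht : ∀ j, t j ∈ Gr j)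
    (hs : ∀ j, s j = ∑ i ∈ Finset.range (j + 1), (j.choose i : A) * t i * ξ ^ (j - i))
    {v v0 : ℕ → A} (hv : ∀ j, v j = (1 + (-1) ^ j) * ξ ^ j + v0 j)
    (hv0 : ∀ j, Odd j → v0 j = 0) (hr0 : ∀ j, 2 < j → el v0 j = 0) (hc : el v0 2 ∈ Gr 2)
    (hv2 : el v 2 = (μ : ℂ) • (x1 + x2)) (hv4 : el v 4 = (x1 - x2) ^ 2)
    (hT : ∀ i, 1 ≤ i → i ≤ m → 2 * t (2 * i) = tau p i • x2 ^ i - v (2 * i))
    (hF : ∀ i, 1 ≤ i → i ≤ m → 2 * s (2 * i) = tau p i • x1 ^ i - v (2 * i))
    (hz : el (fun j => φ (t j)) (2 * m - 1) = 0)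
    (hne : μ ≠ 0 → e ^ 2 = (-(2 * (μ : ℂ))) • x → e * x ^ (m - 1) ≠ 0) :
    |μ| < 6 := by
  rcases eq_or_ne μ 0 with hμ | hμ
  · rw [hμ, abs_zero]; norm_num
  obtain ⟨e1, e2⟩ := cser_split hv hv0 hr0
  set c := el v0 2 with hcd
  -- `w² = - c`
  have hw2 : w ^ 2 + c = 0 := by
    have g2 : w ^ 2 + c ∈ Gr 2 := by
      refine Submodule.add_mem _ ?_ hc
      rw [pow_two]
      exact hmul 1 1 _ _ hw hw
    have g3 : (w ^ 2 + c) * ξ ∈ Gr 3 := hmul 2 1 _ _ g2 hξ
    have h2 : (w ^ 2 + c) * ξ * ξ = 0 := by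
      have h3 : (x1 - x2) ^ 2 = -(ξ ^ 2 * c) := by rw [← hv4, e2]
      rw [hxe] at h3
      linear_combination h3
    exact div 2 (by omega) _ g2 (div 3 (by omega) _ g3 h2)
  have he : e ^ 2 = (-(2 * (μ : ℂ))) • x := by
    have h2 : φ c = (2 * (μ : ℂ)) • x := by
      have h3 : c = (μ : ℂ) • (x1 + x2) + ξ ^ 2 := by rw [← hv2, e1]; ring
      rw [h3, map_add, map_smul, map_add, map_pow, hφξ, hφ1, hφ2, mul_comm 2 (μ : ℂ), mul_smul,
        two_smul]
      ring
    have h4 : φ (w ^ 2) = - φ c := by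
      rw [eq_neg_iff_add_eq_zero, ← map_add, hw2, map_zero]
    rw [← hφe, ← map_pow, h4, h2, neg_smul]
  have hcz : -(φ c) = e ^ 2 := by
    rw [← hφe, ← map_pow, eq_comm, eq_neg_iff_add_eq_zero, ← map_add, hw2, map_zero]
  have hv0e : ∀ i, 1 ≤ i → φ (v (2 * i)) = 2 * e ^ (2 * i) := by
    intro i hi
    have h2 := sum_rank_two (v := v0) (J := 2 * i) (fun j hj _ => hv0 j hj)
      (fun j hj _ => hr0 j hj) i hi le_rfl
    have h3 : φ (2 : A) = 2 := map_ofNat φ 2
    rw [hv, h2, map_add, map_mul, map_pow, hφξ, zero_pow (by omega), mul_zero, zero_add, map_mul,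
      map_pow, map_neg, hcz, pow_mul, h3]
  refine lt_six hm hp0 hp (x := x) (e := e) (f := fun j => φ (t j)) he ?_ ?_ hz (hne hμ he)
  · intro i hi1 hi2
    have h2 := congrArg φ (hT i hi1 hi2.le)
    have h3 : φ (2 : A) = 2 := map_ofNat φ 2
    rw [map_mul, map_sub, map_smul, map_pow, hφ2, hv0e i hi1, h3] at h2
    have h4 : (2 : ℂ) • φ (t (2 * i)) = tau p i • x ^ i - (2 : ℂ) • e ^ (2 * i) := by
      rw [Algebra.smul_def, Algebra.smul_def (2 : ℂ), map_ofNat]
      exact h2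
    have h5 := congrArg (fun b => (2⁻¹ : ℂ) • b) h4
    simp only [smul_sub, smul_smul] at h5
    rw [show (2⁻¹ * 2 : ℂ) = 1 by norm_num, one_smul, one_smul] at h5
    rw [h5]
    congr 2
    ring
  · intro i hi1 hi2
    have h2 := GK.odd_sum φ (l := 2) (M := 2 * m) (by norm_num) hxe hφξ hφ1 hφ2 hφe h1 hmul hξ
      hx1 hx2 hw div ht hs (σ := tau p) (v := v) ?_ ?_ i hi1 (by omega)
    · rw [h2, if_pos ⟨i, rfl⟩]
      have h3 : 2 * i / 2 = i := by omega
      rw [h3]
      norm_num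
    · intro j hj1 hj2
      have h3 : 2 * j / 2 = j := by omega
      rw [if_pos ⟨j, rfl⟩, h3]
      exact hT j hj1 (by omega)
    · intro j hj1 hj2
      have h3 : 2 * j / 2 = j := by omega
      rw [if_pos ⟨j, rfl⟩, h3]
      exact hF j hj1 (by omega)

end ring

end Crest.Agent.R208.QV
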