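import Crest.Agent.R208.QV4
import Crest.Agent.R208.TX9

/-! Row 208, block QV (helper105), part QV5: **(V4)** without further hypotheses. -/

set_option autoImplicit false
set_option linter.unusedSectionVars false
set_option linter.unusedVariables false

open Set Filter Topology Module
open scoped ContDiff RealInnerProductSpace ComplexConjugate
open Crest.GeometryTopology.Submanifold
open Crest.Agent.R241.DDefs
open Crest.Agent.R241.D2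
open Crest.Agent.R208.F Crest.Agent.R208.FI
open Crest.Agent.R208.CW (IdF SM el)
open Crest.Agent.R208.GT (mM mV FF ZZ)
open Crest.Agent.R208.T (HD EC rcl Coh Hom Cl Eqv Sm OR ExactIn)
open Crest.Agent.R208.GQ (UV Z1 Q1 v1 Pm LH)

noncomputable section

namespace Crest.Agent.R208.QV

variable {n N k m dF : ℕ} {κ : ℝ} {S : Set (Euc N)} {G : Geo n N κ S} {p : Euc N}
  {ι : Type} [Fintype ι] [DecidableEq ι] {W : Euc N × Euc N → (ι × Fin 2 → Fin N) → ℝ}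
  {x : Euc N → Ext (Euc N)} {h : GT.Bla G 4}

/-- `x_1 + x_2` is not zero on `F` -/
theorem add_ne_zero (M : T.XM h m W p x) (hx : EC S x) {c₀ : ℂ} (hc₀ : c₀ ≠ 0) :
    FG.xp (c₀ • rcl hx) + FG.xq (c₀ • rcl hx) ≠ 0 := by
  intro h0
  have hι2 : Fintype.card ι = 2 := by have := M.hι; omega
  have hn := M.hn
  have hm := M.hm
  have eq : (Unit × Fin 2) ⊕ (Fin 1 × Fin 2) ≃ (ι × Fin 2) := Fintype.equivOfCardEq (by
    simp [hι2])
  have hL := GQ.lh_UV eq h (by omega) M.hkn ⟨p, M.hp⟩ M.hι M.hW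
  have hc1 : 2 * Fintype.card (Fin 1) = 2 := by simp
  rw [hc1] at hL
  refine x_ne_zero M hx hL hc₀ ?_
  have h1 := congrArg (CW.H.map (GT.smap_fst (S := S) (PV := FV.PVB h))) h0
  rw [map_zero, _root_.map_add, ← geod_H] at h1
  have h2 : (2 : ℂ) • CW.H.map (GT.smap_fst (S := S) (PV := FV.PVB h)) (FG.xp (c₀ • rcl hx)) = 0 := by
    rw [two_smul]; exact h1
  exact (smul_eq_zero.1 h2).resolve_left two_ne_zero

/-- **(V4)**: existence form -/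
theorem exists_lt_six (M : T.XM h m W p x) (hF : Sub dF (FF S)) (hx : EC S x) :
    ∃ μ : ℝ, |μ| < 6 ∧
      CW.cc hF (GT.idf_mV (FV.vfield_PVB h)) 2 =
        (μ : ℂ) • (FG.xp (((VX.nE ι : ℝ) : ℂ)⁻¹ • rcl hx) +
          FG.xq (((VX.nE ι : ℝ) : ℂ)⁻¹ • rcl hx)) ∧
      CW.cs hF (GT.idf_mV (FV.vfield_PVB h)) = 1 +
        PowerSeries.C ((μ : ℂ) • (FG.xp (((VX.nE ι : ℝ) : ℂ)⁻¹ • rcl hx) +
          FG.xq (((VX.nE ι : ℝ) : ℂ)⁻¹ • rcl hx))) * PowerSeries.X ^ 2 +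
        PowerSeries.C ((FG.xp (((VX.nE ι : ℝ) : ℂ)⁻¹ • rcl hx) -
          FG.xq (((VX.nE ι : ℝ) : ℂ)⁻¹ • rcl hx)) ^ 2) * PowerSeries.X ^ 4 := by
  obtain ⟨l, W', hl, -, hO⟩ := M.exists_OR_S
  have hι' : 2 * Fintype.card (Fin l) = n := by rw [Fintype.card_fin]; exact hl
  exact V4 M hι' hO (M.eS_ne hι' hO) (FV.sub_S h.bl) hF hx M.hm_zero

/-- **(V4)**: `|μ| < 6` for the `μ` of (X3) (form of 613's `PV.exists_mu_four`) -/
theorem lt_six_of_cc (M : T.XM h m W p x) (hF : Sub dF (FF S)) (hx : EC S x) (μ : ℝ)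
    (hμ : CW.cc hF (GT.idf_mV (FV.vfield_PVB h)) 2 =
        (μ : ℂ) • (FG.xp (((VX.nE ι : ℝ) : ℂ)⁻¹ • rcl hx) +
          FG.xq (((VX.nE ι : ℝ) : ℂ)⁻¹ • rcl hx))) : |μ| < 6 := by
  obtain ⟨ν, h1, h2, -⟩ := exists_lt_six M hF hx
  have hc0 : ((VX.nE ι : ℝ) : ℂ)⁻¹ ≠ 0 := inv_ne_zero (by exact_mod_cast (VX.nE_pos ι).ne')
  have h3 : ((μ : ℂ) - ν) • (FG.xp (((VX.nE ι : ℝ) : ℂ)⁻¹ • rcl hx) +
          FG.xq (((VX.nE ι : ℝ) : ℂ)⁻¹ • rcl hx)) = 0 := by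
    rw [sub_smul, ← hμ, ← h2, sub_self]
  have h4 := (smul_eq_zero.1 h3).resolve_right (add_ne_zero M hx hc0)
  have h5 : μ = ν := by exact_mod_cast sub_eq_zero.1 h4
  rw [h5]; exact h1

theorem lt_six_all (M : T.XM h m W p x) (hF : Sub dF (FF S)) (hx : EC S x) :
    ∀ μ : ℝ, CW.cs hF (GT.idf_mV (FV.vfield_PVB h)) = 1 +
        PowerSeries.C ((μ : ℂ) • (FG.xp (((VX.nE ι : ℝ) : ℂ)⁻¹ • rcl hx) +
          FG.xq (((VX.nE ι : ℝ) : ℂ)⁻¹ • rcl hx))) * PowerSeries.X ^ (4 / 2) +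
        PowerSeries.C ((FG.xp (((VX.nE ι : ℝ) : ℂ)⁻¹ • rcl hx) -
          FG.xq (((VX.nE ι : ℝ) : ℂ)⁻¹ • rcl hx)) ^ 2) * PowerSeries.X ^ 4 → |μ| < 6 := by
  intro μ h3
  refine lt_six_of_cc M hF hx μ ?_
  rw [← CW.coeff_cs, h3, _root_.map_add, _root_.map_add, PowerSeries.coeff_one,
    PowerSeries.coeff_C_mul, PowerSeries.coeff_C_mul, PowerSeries.coeff_X_pow,
    PowerSeries.coeff_X_pow, if_neg (by norm_num), if_pos (by norm_num), if_neg (by norm_num),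
    mul_zero, mul_one, zero_add, add_zero]

end Crest.Agent.R208.QV
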