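import Crest.Agent.R208.GT1
import Crest.Agent.R208.MS1

/-!
Row 208, block RR, piece [RRe] (helper99), part 1: first variation + centres.

`p, q` at distance `π`, `v ⟂ w` unit vectors of `V_pq`, `γ t = fl (p, v) t`, and a deformation
`Y ε t = γ t + ε n t + O(ε²)` of the closed geodesic with
`0 < ⟪w, n 0⟫ + ⟪ar p w, n π⟫`.  Then for small `ε > 0` every point of the curve
`τ ↦ Exp_p ((1 - τ) a + τ (π/2) w)` (`a = ε n 0 + O(ε²)`) has distance `< π` from every `Y ε t`.
-/

set_option autoImplicit false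

open Set Filter Topology Metric
open scoped ContDiff RealInnerProductSpace
open Crest.GeometryTopology.Submanifold
open Crest.Agent.R241.DDefs
open Crest.Agent.R241.D2
open Crest.Agent.R208.GT

noncomputable section

namespace Crest.Agent.R208.RE

variable {n N k : ℕ} {κ : ℝ} {S : Set (Euc N)} {G : Geo n N κ S} {p q v w : Euc N}

/-- distance of a point of the ray `w` and a point of the ray `v` (both from `p` to `q`) -/
theorem dist_rays_lt (h : Bla G k) (hz : (p, q) ∈ FF S) (hv : v ∈ Vs G p q) (hv1 : ‖v‖ = 1)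
    (hw : w ∈ Vs G p q) (hw1 : ‖w‖ = 1) (hvw : ⟪v, w⟫ = 0) {ρ t : ℝ} (hρ0 : 0 ≤ ρ)
    (hρ : ρ < Real.pi) (ht0 : 0 ≤ t) (ht : t ≤ Real.pi) (hne : ρ ≠ 0 ∨ t ≠ Real.pi) :
    intrinsicDist S (Exp G p (ρ • w)) (Exp G p (t • v)) < Real.pi := by
  have hpS := hz.1
  have hqS : q ∈ S := hz.2.1
  have hvT := h.Vs_le hz hv
  have hwT := h.Vs_le hz hw
  have hvq := h.Exp_pi hz hv hv1
  have hwq := h.Exp_pi hz hw hw1
  have hx : Exp G p (ρ • w) ∈ S := Exp_mem G hpS ((G.T p).smul_mem _ hwT)
  have hy : Exp G p (t • v) ∈ S := Exp_mem G hpS ((G.T p).smul_mem _ hvT)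
  have d1 : intrinsicDist S p (Exp G p (ρ • w)) = ρ := by
    have := h.bl.dist_ray hpS hwT hw1 (s := 0) (t := ρ) hρ0 (by linarith)
    rwa [zero_smul, Exp_zero G hpS, sub_zero] at this
  have d2 : intrinsicDist S p (Exp G p (t • v)) = t := by
    have := h.bl.dist_ray hpS hvT hv1 (s := 0) (t := t) ht0 (by linarith)
    rwa [zero_smul, Exp_zero G hpS, sub_zero] at this
  have d3 : intrinsicDist S (Exp G p (ρ • w)) q = Real.pi - ρ := by
    have := h.bl.dist_ray hpS hwT hw1 (s := ρ) (t := Real.pi) hρ.le (by linarith)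
    rwa [hwq] at this
  have d4 : intrinsicDist S (Exp G p (t • v)) q = Real.pi - t := by
    have := h.bl.dist_ray hpS hvT hv1 (s := t) (t := Real.pi) ht (by linarith)
    rwa [hvq] at this
  have t1 := I.tri h.bl hx hpS hy
  rw [intrinsicDist_comm S (Exp G p (ρ • w)) p, d1, d2] at t1
  have t2 := I.tri h.bl hx hqS hy
  rw [intrinsicDist_comm S q (Exp G p (t • v)), d3, d4] at t2
  rcases lt_trichotomy (ρ + t) Real.pi with hlt | heq | hgt
  · exact t1.trans_lt hlt
  · by_contra hcon
    rw [not_lt] at hcon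
    have hρpos : 0 < ρ := by
      rcases hne with h1 | h1
      · exact lt_of_le_of_ne hρ0 (Ne.symm h1)
      · rcases lt_or_eq_of_le ht with h2 | h2
        · linarith
        · exact absurd h2 h1
    have htpos : 0 < t := by linarith
    have := h.bl.no_corner hpS hwT hvT hw1 hv1 hρpos htpos hρ.le ht (by rw [heq]; exact hcon)
    rw [this, inner_neg_left, real_inner_self_eq_norm_sq, hw1] at hvw
    norm_num at hvw
  · exact t2.trans_lt (by linarith)

end Crest.Agent.R208.RE
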