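import Crest.Agent.R208.RE2

/-!
Row 208, block RR, piece [RRe] (helper99), part 3: the centre theorem.
-/

set_option autoImplicit false

open Set Filter Topology Metric
open scoped ContDiff RealInnerProductSpace
open Crest.GeometryTopology.Submanifold
open Crest.Agent.R241.DDefs
open Crest.Agent.R241.D2
open Crest.Agent.R208.GT

noncomputable section

namespace Crest.Agent.R208.RE

variable {n N k : ℕ} {κ : ℝ} {S : Set (Euc N)} {G : Geo n N κ S} {p q v w : Euc N}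

lemma num_near {P lam M r ε ρ σ d : ℝ} (hlam : 0 < lam) (hM : 0 < M) (hε : 0 < ε) (hρ : 0 ≤ ρ)
    (hεr : ε ≤ r) (hρr : ρ ≤ r) (hσr : |σ| ≤ r) (hr1 : r ≤ 1) (hr2 : M * r ≤ lam / 4)
    (hr3 : r * (M * (2 * M / lam) + M * ((2 * M / lam) ^ 2 + 1)) < 1)
    (h1 : d ≤ P - lam * (ε + ρ) + M * (ε ^ 2 + ρ ^ 2 + σ ^ 2))
    (h2 : d ≤ P - |σ| + M * ε + M * (ε ^ 2 + ρ ^ 2 + σ ^ 2)) : d < P := by
  by_cases hc : M * σ ^ 2 ≤ lam / 2 * (ε + ρ)
  · have h3 : M * ε ^ 2 ≤ lam / 4 * ε := by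
      calc M * ε ^ 2 = M * ε * ε := by ring
        _ ≤ M * r * ε := by gcongr
        _ ≤ lam / 4 * ε := by gcongr
    have h4 : M * ρ ^ 2 ≤ lam / 4 * ρ := by
      calc M * ρ ^ 2 = M * ρ * ρ := by ring
        _ ≤ M * r * ρ := by gcongr
        _ ≤ lam / 4 * ρ := by gcongr
    have h5 : 0 < lam * ε := by positivity
    have h6 : 0 ≤ lam * ρ := by positivity
    nlinarith
  · rw [not_le] at hc
    set L : ℝ := 2 * M / lam with hL
    have hLpos : 0 < L := by positivity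
    have h3 : ε + ρ < L * σ ^ 2 := by
      rw [hL, div_mul_eq_mul_div, lt_div_iff₀ hlam]
      linarith
    have hσ0 : 0 < |σ| := by
      rw [abs_pos]
      rintro rfl
      have : ε + ρ < 0 := by simpa using h3
      linarith
    have hσσ : σ ^ 2 = |σ| * |σ| := by rw [← pow_two, sq_abs]
    have h4 : σ ^ 2 ≤ r * |σ| := by
      rw [hσσ]; gcongr
    have hσ1 : σ ^ 2 ≤ 1 := by
      rw [hσσ]
      calc |σ| * |σ| ≤ 1 * 1 := by gcongr <;> linarith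
        _ = 1 := one_mul 1
    have h5 : ε ^ 2 + ρ ^ 2 ≤ L ^ 2 * σ ^ 2 := by
      have h6 : ε ^ 2 + ρ ^ 2 ≤ (ε + ρ) ^ 2 := by nlinarith [mul_nonneg hε.le hρ]
      have h7 : (ε + ρ) ^ 2 ≤ (L * σ ^ 2) ^ 2 := by gcongr
      have h8 : (L * σ ^ 2) ^ 2 ≤ L ^ 2 * σ ^ 2 := by
        calc (L * σ ^ 2) ^ 2 = L ^ 2 * (σ ^ 2 * σ ^ 2) := by ring
          _ ≤ L ^ 2 * (1 * σ ^ 2) := by gcongr
          _ = L ^ 2 * σ ^ 2 := by ring
      linarith
    have h6 : M * ε ≤ M * (L * σ ^ 2) := by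
      gcongr
      linarith
    have h7 : M * (ε ^ 2 + ρ ^ 2 + σ ^ 2) ≤ M * (L ^ 2 * σ ^ 2 + σ ^ 2) := by gcongr
    have h8 : (M * L + M * (L ^ 2 + 1)) * σ ^ 2 ≤ (M * L + M * (L ^ 2 + 1)) * (r * |σ|) := by
      gcongr
    have h9 : r * (M * L + M * (L ^ 2 + 1)) * |σ| < 1 * |σ| := by gcongr
    have h10 : M * (L * σ ^ 2) + M * (L ^ 2 * σ ^ 2 + σ ^ 2) =
        (M * L + M * (L ^ 2 + 1)) * σ ^ 2 := by ring
    have h11 : (M * L + M * (L ^ 2 + 1)) * (r * |σ|) =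
        r * (M * L + M * (L ^ 2 + 1)) * |σ| := by ring
    linarith

/-- small tangent perturbations move `Exp` by a small amount, uniformly on bounded sets -/
lemma exp_close (hp : p ∈ S) (R : ℝ) {η : ℝ} (hη : 0 < η) :
    ∃ θ : ℝ, 0 < θ ∧ ∀ x ∈ G.T p, ∀ y ∈ G.T p, ‖x‖ ≤ R → ‖y‖ ≤ R → ‖x - y‖ ≤ θ →
      ‖Exp G p x - Exp G p y‖ < η := by
  set K : Set (Euc N) := (G.T p : Set (Euc N)) ∩ closedBall 0 R with hK
  have hKc : IsCompact K :=
    (isCompact_closedBall (0 : Euc N) R).inter_left (Submodule.closed_of_finiteDimensional _)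
  have hcont : ContinuousOn (Exp G p) K := fun x hx =>
    ((R241.D3c.contDiffAt_Exp' G hp hx.1).continuousAt).continuousWithinAt
  have hu := hKc.uniformContinuousOn_of_continuous hcont
  rw [Metric.uniformContinuousOn_iff] at hu
  obtain ⟨θ, hθ, h⟩ := hu η hη
  refine ⟨θ / 2, by positivity, fun x hx y hy hxR hyR hxy => ?_⟩
  have h1 := h x ⟨hx, by rwa [mem_closedBall_zero_iff]⟩ y ⟨hy, by rwa [mem_closedBall_zero_iff]⟩
    (by rw [dist_eq_norm]; linarith)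
  rwa [dist_eq_norm] at h1

/-- **[RRe]** the centre theorem: the curve `τ ↦ Exp_p ((1 - τ) a + τ (π/2) w)` from
`Exp_p a` (`a = ε n(0) + O(ε²)`) to the centre `Exp_p ((π/2) w)` stays at distance `< π` from the
whole loop `Y ε`. -/
theorem centre (h : Bla G k) (hz : (p, q) ∈ FF S) (hv : v ∈ Vs G p q) (hv1 : ‖v‖ = 1)
    (hw : w ∈ Vs G p q) (hw1 : ‖w‖ = 1) (hvw : ⟪v, w⟫ = 0) {nf : ℝ → Euc N}
    {Y : ℝ → ℝ → Euc N} {C : ℝ}
    (hYS : ∀ ε ∈ Icc (0 : ℝ) 1, ∀ t ∈ Icc (0 : ℝ) (2 * Real.pi), Y ε t ∈ S)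
    (hn : ∀ t ∈ Icc (0 : ℝ) (2 * Real.pi), ‖nf t‖ ≤ C)
    (hnL : ∀ t ∈ Icc (0 : ℝ) (2 * Real.pi), ‖nf t - nf Real.pi‖ ≤ C * |t - Real.pi|)
    (hY : ∀ ε ∈ Icc (0 : ℝ) 1, ∀ t ∈ Icc (0 : ℝ) (2 * Real.pi),
      ‖Y ε t - Exp G p (t • v) - ε • nf t‖ ≤ C * ε ^ 2)
    (hκ : 0 < ⟪w, nf 0⟫ + ⟪ar G p w, nf Real.pi⟫) :
    ∃ ε0 : ℝ, 0 < ε0 ∧ ε0 ≤ 1 ∧ ∀ ε : ℝ, 0 < ε → ε ≤ ε0 → ∀ a ∈ G.T p,
      ‖a - ε • nf 0‖ ≤ C * ε ^ 2 → ∀ τ ∈ Icc (0 : ℝ) 1, ∀ t ∈ Icc (0 : ℝ) (2 * Real.pi),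
      intrinsicDist S (Exp G p ((1 - τ) • a + (τ * (Real.pi / 2)) • w)) (Y ε t) < Real.pi := by
  have hpi := Real.pi_pos
  have hpi3 := Real.pi_gt_three
  have hpS := hz.1
  have hvT := h.Vs_le hz hv
  have hwT := h.Vs_le hz hw
  have hn0 := hn 0 ⟨le_rfl, by linarith⟩
  have hnπ := hn Real.pi ⟨by linarith, by linarith⟩
  have hC : 0 ≤ C := (norm_nonneg _).trans hn0
  obtain ⟨M, hM, hb⟩ := bounds h hz hv hv1 hw hw1 hvw hn0 hnπ
  set κ0 : ℝ := ⟪w, nf 0⟫ + ⟪ar G p w, nf Real.pi⟫ with hκ0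
  obtain ⟨lam, hlam, hlam1, hlam2⟩ : ∃ lam : ℝ, 0 < lam ∧ lam ≤ κ0 ∧ lam ≤ 1 :=
    ⟨min κ0 1, lt_min hκ one_pos, min_le_left _ _, min_le_right _ _⟩
  -- the size `r` of the near region
  obtain ⟨r, hr, hr1, hr2, hr3⟩ : ∃ r : ℝ, 0 < r ∧ r ≤ 1 ∧ M * r ≤ lam / 4 ∧
      r * (M * (2 * M / lam) + M * ((2 * M / lam) ^ 2 + 1)) < 1 := by
    set M2 : ℝ := M * (2 * M / lam) + M * ((2 * M / lam) ^ 2 + 1) with hM2
    have hM2p : 0 < M2 := by positivity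
    refine ⟨min 1 (min (lam / 4 / M) (1 / (M2 + 1))), by positivity, min_le_left _ _, ?_, ?_⟩
    · calc M * min 1 (min (lam / 4 / M) (1 / (M2 + 1))) ≤ M * (lam / 4 / M) := by
            gcongr
            exact (min_le_right _ _).trans (min_le_left _ _)
        _ = lam / 4 := by field_simp
    · calc min 1 (min (lam / 4 / M) (1 / (M2 + 1))) * M2 ≤ 1 / (M2 + 1) * M2 := by
            gcongr
            exact (min_le_right _ _).trans (min_le_right _ _)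
        _ < 1 := by
            rw [one_div, inv_mul_lt_iff₀ (by positivity)]
            linarith
  obtain ⟨δ, hδ, hfar⟩ := far h hz hv hv1 hw hw1 hvw hr
  obtain ⟨η, hη, hnear⟩ := I.exists_near h.bl (ε := δ / 3) (by positivity)
  obtain ⟨θ, hθ, hexp⟩ := exp_close (G := G) hpS (2 * C + 2) hη
  obtain ⟨ε0, hε0, hε01, hε0r, hε0θ, hε0η⟩ : ∃ ε0 : ℝ, 0 < ε0 ∧ ε0 ≤ 1 ∧ ε0 ≤ r ∧
      2 * C * ε0 ≤ θ ∧ 2 * C * ε0 < η := by
    refine ⟨min 1 (min r (min (θ / (2 * C + 1)) (η / (2 * C + 1)))), by positivity,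
      min_le_left _ _, (min_le_right _ _).trans (min_le_left _ _), ?_, ?_⟩
    · calc 2 * C * min 1 (min r (min (θ / (2 * C + 1)) (η / (2 * C + 1))))
          ≤ (2 * C + 1) * (θ / (2 * C + 1)) := by
            have h1 : min 1 (min r (min (θ / (2 * C + 1)) (η / (2 * C + 1)))) ≤
              θ / (2 * C + 1) :=
              (min_le_right _ _).trans ((min_le_right _ _).trans (min_le_left _ _))
            gcongr
            linarith
        _ = θ := by field_simp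
    · have h1 : min 1 (min r (min (θ / (2 * C + 1)) (η / (2 * C + 1)))) ≤ η / (2 * C + 1) :=
        (min_le_right _ _).trans ((min_le_right _ _).trans (min_le_right _ _))
      calc 2 * C * min 1 (min r (min (θ / (2 * C + 1)) (η / (2 * C + 1))))
          ≤ 2 * C * (η / (2 * C + 1)) := by gcongr
        _ < η := by
            rw [← mul_div_assoc, div_lt_iff₀ (by positivity)]
            nlinarith
  refine ⟨ε0, hε0, hε01, fun ε hε hεε0 a ha haε τ hτ t ht => ?_⟩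
  have hεI : ε ∈ Icc (0 : ℝ) 1 := ⟨hε.le, hεε0.trans hε01⟩
  have hyS := hYS ε hεI t ht
  obtain ⟨hb1, hb2⟩ := hb ε hεI a ha haε τ hτ t ht (nf t) (Y ε t) hyS (hnL t ht) (hY ε hεI t ht)
  obtain ⟨ρ, hρdef⟩ : ∃ ρ : ℝ, ρ = τ * (Real.pi / 2) := ⟨_, rfl⟩
  rw [← hρdef] at hb1 hb2 ⊢
  have hρ0 : 0 ≤ ρ := by rw [hρdef]; exact mul_nonneg hτ.1 (by positivity)
  have hρ1 : ρ ≤ Real.pi / 2 := by
    rw [hρdef]
    calc τ * (Real.pi / 2) ≤ 1 * (Real.pi / 2) := by gcongr; exact hτ.2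
      _ = Real.pi / 2 := one_mul _
  by_cases hcase : r ≤ ρ ∨ r ≤ |t - Real.pi|
  · -- far region
    have h1 := hfar ρ ⟨hρ0, hρ1⟩ t ht hcase
    have hεC : C * ε ^ 2 ≤ C * ε := by
      have : ε ^ 2 ≤ ε := by nlinarith [hεI.2]
      gcongr
    have haC : ‖a‖ ≤ 2 * C * ε := by
      calc ‖a‖ = ‖(a - ε • nf 0) + ε • nf 0‖ := by congr 1; abel
        _ ≤ C * ε ^ 2 + ε * C := by
            refine (norm_add_le _ _).trans (add_le_add haε ?_)
            rw [norm_smul, Real.norm_of_nonneg hε.le]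
            gcongr
        _ ≤ 2 * C * ε := by linarith
    have hCε0 : 2 * C * ε ≤ 2 * C * ε0 := by gcongr
    have hCε1 : 2 * C * ε ≤ 2 * C := by
      calc 2 * C * ε ≤ 2 * C * 1 := by gcongr; exact hεI.2
        _ = 2 * C := mul_one _
    have hAT : (1 - τ) • a + ρ • w ∈ G.T p :=
      (G.T p).add_mem ((G.T p).smul_mem _ ha) ((G.T p).smul_mem _ hwT)
    have hn1 : ‖(1 - τ) • a‖ ≤ 2 * C * ε := by
      rw [norm_smul, Real.norm_of_nonneg (by linarith [hτ.2])]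
      calc (1 - τ) * ‖a‖ ≤ 1 * ‖a‖ := by gcongr; linarith [hτ.1]
        _ ≤ 2 * C * ε := by rw [one_mul]; exact haC
    have hn2 : ‖ρ • w‖ = ρ := by rw [norm_smul, hw1, mul_one, Real.norm_of_nonneg hρ0]
    have hpi4 := Real.pi_lt_d2
    have h2 : ‖Exp G p ((1 - τ) • a + ρ • w) - Exp G p (ρ • w)‖ < η := by
      refine hexp _ hAT _ ((G.T p).smul_mem _ hwT) ?_ ?_ ?_
      · refine (norm_add_le _ _).trans ?_
        rw [hn2]
        linarith
      · rw [hn2]; linarith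
      · rw [add_sub_cancel_right]
        linarith
    have hxS : Exp G p ((1 - τ) • a + ρ • w) ∈ S := Exp_mem G hpS hAT
    have hx0 : Exp G p (ρ • w) ∈ S := Exp_mem G hpS ((G.T p).smul_mem _ hwT)
    have hy0 : Exp G p (t • v) ∈ S := Exp_mem G hpS ((G.T p).smul_mem _ hvT)
    have h3 := hnear _ hxS _ hx0 h2
    have h4 : ‖Exp G p (t • v) - Y ε t‖ < η := by
      have h5 := hY ε hεI t ht
      have h6 : Exp G p (t • v) - Y ε t = -((Y ε t - Exp G p (t • v) - ε • nf t) + ε • nf t) := by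
        abel
      rw [h6, norm_neg]
      refine (norm_add_le _ _).trans_lt ?_
      have h7 : ‖ε • nf t‖ ≤ ε * C := by
        rw [norm_smul, Real.norm_of_nonneg hε.le]
        gcongr
        exact hn t ht
      linarith
    have h5 := hnear _ hy0 _ hyS h4
    have h6 := I.tri h.bl hxS hx0 hyS
    have h7 := I.tri h.bl hx0 hy0 hyS
    linarith
  · rw [not_or, not_le, not_le] at hcase
    refine num_near hlam hM hε hρ0 (hεε0.trans hε0r) hcase.1.le hcase.2.le hr1 hr2 hr3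
      (hb1.trans ?_) hb2
    have h1 : lam * ε ≤ ε * κ0 := by rw [mul_comm]; gcongr
    have h2 : lam * ρ ≤ ρ := by
      calc lam * ρ ≤ 1 * ρ := by gcongr
        _ = ρ := one_mul _
    linarith

end Crest.Agent.R208.RE
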