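import Crest.Agent.R208.RE3

/-!
Row 208, block RR, piece [RRe] (helper99), part 4: the Jacobi field of the link, the versions
`Y = Exp` and `a` from `Y ε 0`, vectors `w ≠ 0` of any length.
-/

set_option autoImplicit false

open Set Filter Topology Metric
open scoped ContDiff RealInnerProductSpace
open Crest.GeometryTopology.Submanifold
open Crest.Agent.R241.DDefs
open Crest.Agent.R241.D2
open Crest.Agent.R208.GT
open Crest.Agent.R208.L (dfl)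

noncomputable section

namespace Crest.Agent.R208.RE

variable {n N k : ℕ} {κ : ℝ} {S : Set (Euc N)} {G : Geo n N κ S} {p q v w : Euc N}

lemma dfl_pi_unit (h : Bla G k) (hz : (p, q) ∈ FF S) (hv : v ∈ Vs G p q) (hv1 : ‖v‖ = 1)
    (hw : w ∈ Vs G p q) (hw1 : ‖w‖ = 1) (hvw : ⟪v, w⟫ = 0) :
    dfl G (p, v) Real.pi (0, w) = (0, -lf G p q w) := by
  have hpS := hz.1
  have hvT := h.Vs_le hz hv
  have hzv : ((p, v) : Euc N × Euc N) ∈ TS G := ⟨hpS, hvT⟩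
  set c : ℝ → Euc N := fun s => Real.cos s • v + Real.sin s • w with hc
  have hcd : HasDerivAt c w 0 := by
    have h1 : HasDerivAt (fun s : ℝ => Real.cos s • v + Real.sin s • w)
        ((-Real.sin 0) • v + Real.cos 0 • w) 0 :=
      ((Real.hasDerivAt_cos 0).smul_const v).add ((Real.hasDerivAt_sin 0).smul_const w)
    exact h1.congr_deriv (by simp)
  have hc0 : c 0 = v := by simp [hc]
  have hcm : ∀ s, c s ∈ Vs G p q := fun s =>
    (Vs G p q).add_mem ((Vs G p q).smul_mem _ hv) ((Vs G p q).smul_mem _ hw)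
  have hc1 : ∀ s, ‖c s‖ = 1 := by
    intro s
    have h1 : ‖c s‖ ^ 2 = 1 := by
      rw [← real_inner_self_eq_norm_sq]
      simp only [hc, inner_add_left, inner_add_right, inner_smul_left, inner_smul_right,
        real_inner_self_eq_norm_sq, hv1, hw1, hvw, real_inner_comm, conj_trivial]
      nlinarith [Real.sin_sq_add_cos_sq s]
    have h2 := norm_nonneg (c s)
    nlinarith
  have hfl : ∀ s, fl G ((p, c s), Real.pi) =
      (q, -(Real.cos s • lf G p q v + Real.sin s • lf G p q w)) := by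
    intro s
    have hcT := h.Vs_le hz (hcm s)
    refine Prod.ext ?_ ?_
    · rw [← Exp_smul G hpS hcT]
      exact h.Exp_pi hz (hcm s) (hc1 s)
    · have h1 : (fl G ((p, c s), Real.pi)).2 = -ar G p (c s) := snd_fl
      rw [h1, ← h.lf_unit hz (hcm s) (hc1 s)]
      simp only [hc, map_add, map_smul]
  have h1 : HasDerivAt (fun s : ℝ => fl G ((p, c s), Real.pi))
      (dfl G (p, v) Real.pi (0, w)) 0 := by
    have h2 : HasFDerivAt (fun y => fl G (y, Real.pi)) (dfl G (p, v) Real.pi) (p, c 0) := by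
      rw [hc0]; exact L.hasFDerivAt_fl_left hzv Real.pi
    exact h2.comp_hasDerivAt (0 : ℝ) ((hasDerivAt_const (0 : ℝ) p).prodMk hcd)
  have h2 : HasDerivAt (fun s : ℝ => ((q, -(Real.cos s • lf G p q v + Real.sin s • lf G p q w)) :
      Euc N × Euc N)) (0, -lf G p q w) 0 := by
    refine (hasDerivAt_const (0 : ℝ) q).prodMk ?_
    have h3 : HasDerivAt (fun s : ℝ => -(Real.cos s • lf G p q v + Real.sin s • lf G p q w))
        (-((-Real.sin 0) • lf G p q v + Real.cos 0 • lf G p q w)) 0 :=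
      (((Real.hasDerivAt_cos 0).smul_const (lf G p q v)).add
        ((Real.hasDerivAt_sin 0).smul_const (lf G p q w))).neg
    exact h3.congr_deriv (by simp)
  have h3 : (fun s : ℝ => fl G ((p, c s), Real.pi)) = fun s : ℝ =>
      ((q, -(Real.cos s • lf G p q v + Real.sin s • lf G p q w)) : Euc N × Euc N) :=
    funext hfl
  rw [h3] at h1
  exact h1.unique h2

/-- the Jacobi field of the link rotation: `J_w(π) = 0`, `J_w'(π) = - lf w` -/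
theorem dfl_pi (h : Bla G k) (hz : (p, q) ∈ FF S) (hv : v ∈ Vs G p q) (hv1 : ‖v‖ = 1)
    (hw : w ∈ Vs G p q) (hvw : ⟪v, w⟫ = 0) :
    dfl G (p, v) Real.pi (0, w) = (0, -lf G p q w) := by
  by_cases hw0 : w = 0
  · subst hw0
    rw [map_zero, neg_zero]
    exact map_zero _
  · have hn : 0 < ‖w‖ := norm_pos_iff.2 hw0
    have h1 := dfl_pi_unit h hz hv hv1 ((Vs G p q).smul_mem ‖w‖⁻¹ hw) (unit_of hw0)
      (by rw [inner_smul_right, hvw, mul_zero])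
    have h2 : ((0 : Euc N), w) = ‖w‖ • ((0 : Euc N), (‖w‖⁻¹ : ℝ) • w) := by
      rw [Prod.smul_mk, smul_zero, smul_unit hw0]
    rw [h2, map_smul, h1, Prod.smul_mk, smul_zero, smul_neg, ← map_smul, smul_unit hw0]

/-- `ar` of the normalised vector -/
lemma ar_unit (h : Bla G k) (hz : (p, q) ∈ FF S) (hw : w ∈ Vs G p q) (hw0 : w ≠ 0) :
    ar G p ((‖w‖⁻¹ : ℝ) • w) = (‖w‖⁻¹ : ℝ) • lf G p q w := by
  rw [← h.lf_unit hz ((Vs G p q).smul_mem _ hw) (unit_of hw0), map_smul]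

/-- near `p` every point `y = p + ε n₀ + O(ε²)` of `S` is `Exp_p a` with `a = ε n₀ + O(ε²)` -/
theorem exists_start (h : Bla G k) (hp : p ∈ S) {n0 : Euc N} {C : ℝ} (hC : 0 ≤ C)
    (hn0 : ‖n0‖ ≤ C) :
    ∃ C' ε1 : ℝ, C ≤ C' ∧ 0 < ε1 ∧ ε1 ≤ 1 ∧ ∀ ε : ℝ, 0 < ε → ε ≤ ε1 → ∀ y ∈ S,
      ‖y - p - ε • n0‖ ≤ C * ε ^ 2 → ∃ a ∈ G.T p, Exp G p a = y ∧ ‖a - ε • n0‖ ≤ C' * ε ^ 2 := by
  obtain ⟨K1, hK1, hII⟩ := MS.exists_II_bound (G := G) h.bl.cpt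
  have hK1' : 0 ≤ K1 := zero_le_one.trans hK1
  obtain ⟨δ, hδ, hδb⟩ := uniform_joinedLen h.bl.sub h.bl.cpt zero_lt_one
  refine ⟨C + K1 * (4 * C) ^ 2, min 1 (δ / (2 * C + 1)), ?_, by positivity, min_le_left _ _, ?_⟩
  · have : 0 ≤ K1 * (4 * C) ^ 2 := by positivity
    linarith
  intro ε hε hε1 y hy hyn
  have hε11 : ε ≤ 1 := hε1.trans (min_le_left _ _)
  have hεδ : 2 * C * ε < δ := by
    have h1 : ε ≤ δ / (2 * C + 1) := hε1.trans (min_le_right _ _)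
    rw [le_div_iff₀ (by positivity)] at h1
    nlinarith
  have hyp : ‖y - p‖ ≤ 2 * C * ε := by
    calc ‖y - p‖ = ‖(y - p - ε • n0) + ε • n0‖ := by congr 1; abel
      _ ≤ C * ε ^ 2 + ε * C := by
          refine (norm_add_le _ _).trans (add_le_add hyn ?_)
          rw [norm_smul, Real.norm_of_nonneg hε.le]
          gcongr
      _ ≤ 2 * C * ε := by
          have : C * ε ^ 2 ≤ C * ε := by
            have : ε ^ 2 ≤ ε := by nlinarith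
            gcongr
          linarith
  obtain ⟨ℓ, h1, h2⟩ := hδb p hp y hy (by rw [dist_comm, dist_eq_norm]; linarith)
  have h3 : intrinsicDist S p y ≤ 4 * C * ε := by
    refine (intrinsicDist_le h1).trans (h2.trans ?_)
    linarith
  obtain ⟨a, ha, han, hae⟩ := I.hr_of_bl h.bl p hp y hy
  refine ⟨a, ha, hae, ?_⟩
  have h4 := MS.norm_Exp_sub hII hK1' hp ha
  rw [hae] at h4
  have h5 : ‖a‖ ≤ 4 * C * ε := by rw [han]; exact h3
  have h6 : ‖a‖ ^ 2 ≤ (4 * C * ε) ^ 2 := by gcongr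
  calc ‖a - ε • n0‖ = ‖(y - p - ε • n0) - (y - p - a)‖ := by congr 1; abel
    _ ≤ C * ε ^ 2 + K1 * ‖a‖ ^ 2 := (norm_sub_le _ _).trans (add_le_add hyn h4)
    _ ≤ C * ε ^ 2 + K1 * (4 * C * ε) ^ 2 := by gcongr
    _ = (C + K1 * (4 * C) ^ 2) * ε ^ 2 := by ring

/-- the centre theorem, `w ≠ 0` of any length, starting point `Y ε 0` -/
theorem centre_of (h : Bla G k) (hz : (p, q) ∈ FF S) (hv : v ∈ Vs G p q) (hv1 : ‖v‖ = 1)
    (hw : w ∈ Vs G p q) (hw0 : w ≠ 0) (hvw : ⟪v, w⟫ = 0) {nf : ℝ → Euc N}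
    {Y : ℝ → ℝ → Euc N} {C : ℝ}
    (hYS : ∀ ε ∈ Icc (0 : ℝ) 1, ∀ t ∈ Icc (0 : ℝ) (2 * Real.pi), Y ε t ∈ S)
    (hn : ∀ t ∈ Icc (0 : ℝ) (2 * Real.pi), ‖nf t‖ ≤ C)
    (hnL : ∀ t ∈ Icc (0 : ℝ) (2 * Real.pi), ‖nf t - nf Real.pi‖ ≤ C * |t - Real.pi|)
    (hY : ∀ ε ∈ Icc (0 : ℝ) 1, ∀ t ∈ Icc (0 : ℝ) (2 * Real.pi),
      ‖Y ε t - Exp G p (t • v) - ε • nf t‖ ≤ C * ε ^ 2)
    (hκ : 0 < ⟪w, nf 0⟫ + ⟪lf G p q w, nf Real.pi⟫) :
    ∃ ε0 C' : ℝ, 0 < ε0 ∧ ε0 ≤ 1 ∧ ∀ ε : ℝ, 0 < ε → ε ≤ ε0 → ∃ a ∈ G.T p,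
      Exp G p a = Y ε 0 ∧ ‖a - ε • nf 0‖ ≤ C' * ε ^ 2 ∧
      ∀ τ ∈ Icc (0 : ℝ) 1, ∀ t ∈ Icc (0 : ℝ) (2 * Real.pi),
      intrinsicDist S (Exp G p ((1 - τ) • a + (τ * (Real.pi / 2)) • ((‖w‖⁻¹ : ℝ) • w))) (Y ε t) <
        Real.pi := by
  have hpi := Real.pi_pos
  have hn0 := hn 0 ⟨le_rfl, by linarith⟩
  have hC : 0 ≤ C := (norm_nonneg _).trans hn0
  obtain ⟨C', ε1, hCC', hε1, hε11, hst⟩ := exists_start h hz.1 hC hn0
  have hwn : 0 < ‖w‖ := norm_pos_iff.2 hw0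
  obtain ⟨ε0, hε0, hε01, hmain⟩ := centre (C := C') (Y := Y) (nf := nf) h hz hv hv1
    ((Vs G p q).smul_mem ‖w‖⁻¹ hw) (unit_of hw0) (by rw [inner_smul_right, hvw, mul_zero]) hYS
    (fun t ht => (hn t ht).trans hCC')
    (fun t ht => (hnL t ht).trans (by gcongr))
    (fun ε hε t ht => (hY ε hε t ht).trans (by gcongr))
    (by
      rw [ar_unit h hz hw hw0, inner_smul_left, inner_smul_left, conj_trivial, ← mul_add]
      positivity)
  refine ⟨min ε0 ε1, C', lt_min hε0 hε1, (min_le_left _ _).trans hε01, fun ε hε hεm => ?_⟩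
  have hεI : ε ∈ Icc (0 : ℝ) 1 := ⟨hε.le, (hεm.trans (min_le_left _ _)).trans hε01⟩
  have h0 : (0 : ℝ) ∈ Icc (0 : ℝ) (2 * Real.pi) := ⟨le_rfl, by linarith⟩
  have hy := hY ε hεI 0 h0
  rw [zero_smul, Exp_zero G hz.1] at hy
  obtain ⟨a, ha, hae, han⟩ := hst ε hε (hεm.trans (min_le_right _ _)) (Y ε 0) (hYS ε hεI 0 h0) hy
  exact ⟨a, ha, hae, han, hmain ε hε (hεm.trans (min_le_left _ _)) a ha han⟩

/-- the centre theorem for `Y ε t = Exp_{γ t} (ε n t)` -/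
theorem centre_exp (h : Bla G k) (hz : (p, q) ∈ FF S) (hv : v ∈ Vs G p q) (hv1 : ‖v‖ = 1)
    (hw : w ∈ Vs G p q) (hw0 : w ≠ 0) (hvw : ⟪v, w⟫ = 0) {nf : ℝ → Euc N} {C : ℝ}
    (hnT : ∀ t ∈ Icc (0 : ℝ) (2 * Real.pi), nf t ∈ G.T (Exp G p (t • v)))
    (hn : ∀ t ∈ Icc (0 : ℝ) (2 * Real.pi), ‖nf t‖ ≤ C)
    (hnL : ∀ t ∈ Icc (0 : ℝ) (2 * Real.pi), ‖nf t - nf Real.pi‖ ≤ C * |t - Real.pi|)
    (hκ : 0 < ⟪w, nf 0⟫ + ⟪lf G p q w, nf Real.pi⟫) :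
    ∃ ε0 : ℝ, 0 < ε0 ∧ ε0 ≤ 1 ∧ ∀ ε : ℝ, 0 < ε → ε ≤ ε0 →
      ∀ τ ∈ Icc (0 : ℝ) 1, ∀ t ∈ Icc (0 : ℝ) (2 * Real.pi),
      intrinsicDist S (Exp G p ((1 - τ) • (ε • nf 0) + (τ * (Real.pi / 2)) • ((‖w‖⁻¹ : ℝ) • w)))
        (Exp G (Exp G p (t • v)) (ε • nf t)) < Real.pi := by
  have hpi := Real.pi_pos
  have hvT := h.Vs_le hz hv
  have h0 : (0 : ℝ) ∈ Icc (0 : ℝ) (2 * Real.pi) := ⟨le_rfl, by linarith⟩
  have hC : 0 ≤ C := (norm_nonneg _).trans (hn 0 h0)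
  have hx : ∀ t : ℝ, Exp G p (t • v) ∈ S := fun t => Exp_mem G hz.1 ((G.T p).smul_mem _ hvT)
  obtain ⟨K1, hK1, hII⟩ := MS.exists_II_bound (G := G) h.bl.cpt
  have hK1' : 0 ≤ K1 := zero_le_one.trans hK1
  have hwn : 0 < ‖w‖ := norm_pos_iff.2 hw0
  have hCC : C ≤ C + K1 * C ^ 2 := by
    have : 0 ≤ K1 * C ^ 2 := by positivity
    linarith
  obtain ⟨ε0, hε0, hε01, hmain⟩ := centre (C := C + K1 * C ^ 2)
    (Y := fun ε t => Exp G (Exp G p (t • v)) (ε • nf t)) (nf := nf) h hz hv hv1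
    ((Vs G p q).smul_mem ‖w‖⁻¹ hw) (unit_of hw0) (by rw [inner_smul_right, hvw, mul_zero])
    (fun ε _ t ht => Exp_mem G (hx t) ((G.T _).smul_mem _ (hnT t ht)))
    (fun t ht => (hn t ht).trans hCC)
    (fun t ht => (hnL t ht).trans (by gcongr))
    (fun ε hε t ht => by
      have h1 := MS.norm_Exp_sub hII hK1' (hx t) ((G.T _).smul_mem ε (hnT t ht))
      refine h1.trans ?_
      have h2 : ‖ε • nf t‖ ≤ ε * C := by
        rw [norm_smul, Real.norm_of_nonneg hε.1]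
        have := hε.1
        gcongr
        exact hn t ht
      calc K1 * ‖ε • nf t‖ ^ 2 ≤ K1 * (ε * C) ^ 2 := by gcongr
        _ ≤ (C + K1 * C ^ 2) * ε ^ 2 := by
            have : 0 ≤ C * ε ^ 2 := by positivity
            linarith [(by ring : (C + K1 * C ^ 2) * ε ^ 2 = K1 * (ε * C) ^ 2 + C * ε ^ 2)])
    (by
      rw [ar_unit h hz hw hw0, inner_smul_left, inner_smul_left, conj_trivial, ← mul_add]
      positivity)
  refine ⟨ε0, hε0, hε01, fun ε hε hεm τ hτ t ht => ?_⟩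
  have hn0T : nf 0 ∈ G.T p := by
    have := hnT 0 h0
    rwa [zero_smul, Exp_zero G hz.1] at this
  refine hmain ε hε hεm (ε • nf 0) ((G.T p).smul_mem _ hn0T) ?_ τ hτ t ht
  rw [sub_self, norm_zero]
  positivity

end Crest.Agent.R208.RE
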