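import Crest.Agent.R208.RE4

/-!
Row 208, block RR, piece [RRe] (helper99), part 5: the UNIFORM centre theorem
(one `ε0` for all `(p, q, v, w)` and all fields with given constants).
-/

set_option autoImplicit false

open Set Filter Topology Metric
open scoped ContDiff RealInnerProductSpace
open Crest.GeometryTopology.Submanifold
open Crest.Agent.R241.DDefs
open Crest.Agent.R241.D2
open Crest.Agent.R208.GT

noncomputable section

namespace Crest.Agent.R208.RE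

variable {n N k : ℕ} {κ : ℝ} {S : Set (Euc N)} {G : Geo n N κ S} {p q v w : Euc N}

/-- the space of `(p, v, w)`, `v ⟂ w` unit vectors of one `V_pq` -/
def V2 (G : Geo n N κ S) : Set (Euc N × Euc N × Euc N) :=
  {z | (z.1, z.2.1) ∈ TS G ∧ (z.1, z.2.2) ∈ TS G ∧ ‖z.2.1‖ = 1 ∧ ‖z.2.2‖ = 1 ∧
    ⟪z.2.1, z.2.2⟫ = 0 ∧ Exp G z.1 (Real.pi • z.2.1) = Exp G z.1 (Real.pi • z.2.2)}

lemma V2_spec (h : Bla G k) {z : Euc N × Euc N × Euc N} (hz : z ∈ V2 G) :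
    ∃ q, (z.1, q) ∈ FF S ∧ z.2.1 ∈ Vs G z.1 q ∧ z.2.2 ∈ Vs G z.1 q ∧ ‖z.2.1‖ = 1 ∧
      ‖z.2.2‖ = 1 ∧ ⟪z.2.1, z.2.2⟫ = 0 ∧ q = Exp G z.1 (Real.pi • z.2.1) := by
  obtain ⟨h1, h2, h3, h4, h5, h6⟩ := hz
  refine ⟨Exp G z.1 (Real.pi • z.2.1), h.mem_FF h1.1 h1.2 h3, mem_Vs h1.2 h3, ?_, h3, h4, h5, rfl⟩
  rw [h6]
  exact mem_Vs h2.2 h4

lemma mem_V2 (h : Bla G k) (hz : (p, q) ∈ FF S) (hv : v ∈ Vs G p q) (hv1 : ‖v‖ = 1)
    (hw : w ∈ Vs G p q) (hw1 : ‖w‖ = 1) (hvw : ⟪v, w⟫ = 0) : (p, v, w) ∈ V2 G :=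
  ⟨⟨hz.1, h.Vs_le hz hv⟩, ⟨hz.1, h.Vs_le hz hw⟩, hv1, hw1, hvw,
    (h.Exp_pi hz hv hv1).trans (h.Exp_pi hz hw hw1).symm⟩

/-- joint continuity of `Exp` on `TS` -/
lemma continuousOn_Exp : ContinuousOn (fun z : Euc N × Euc N => Exp G z.1 z.2) (TS G) :=
  fun _ hz => (contDiffAt_Exp G hz.1 hz.2).continuousAt.continuousWithinAt

lemma isCompact_V2 (h : Bla G k) : IsCompact (V2 G) := by
  have hTS : IsClosed (TS G) := isClosed_TS G
  set K1 : Set (Euc N × Euc N × Euc N) := {z | (z.1, z.2.1) ∈ TS G ∧ (z.1, z.2.2) ∈ TS G ∧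
    ‖z.2.1‖ = 1 ∧ ‖z.2.2‖ = 1 ∧ ⟪z.2.1, z.2.2⟫ = 0} with hK1
  have hcl : IsClosed K1 := by
    refine (hTS.preimage (f := fun z : Euc N × Euc N × Euc N => (z.1, z.2.1)) (by fun_prop)).inter
      ((hTS.preimage (f := fun z : Euc N × Euc N × Euc N => (z.1, z.2.2)) (by fun_prop)).inter
      ((isClosed_eq (f := fun z : Euc N × Euc N × Euc N => ‖z.2.1‖) (by fun_prop)
        continuous_const).inter ((isClosed_eq (f := fun z : Euc N × Euc N × Euc N => ‖z.2.2‖)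
        (by fun_prop) continuous_const).inter (isClosed_eq
        (f := fun z : Euc N × Euc N × Euc N => (⟪z.2.1, z.2.2⟫ : ℝ)) (by fun_prop)
        continuous_const))))
  have hK1c : IsCompact K1 := by
    refine (h.bl.cpt.prod ((isCompact_closedBall (0 : Euc N) 1).prod
      (isCompact_closedBall (0 : Euc N) 1))).of_isClosed_subset hcl ?_
    rintro z ⟨h1, h2, h3, h4, h5⟩
    exact ⟨h1.1, by simp [h3], by simp [h4]⟩
  have hc1 : ContinuousOn (fun z : Euc N × Euc N × Euc N =>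
      Exp G z.1 (Real.pi • z.2.1) - Exp G z.1 (Real.pi • z.2.2)) K1 := by
    refine ContinuousOn.sub ?_ ?_
    · exact continuousOn_Exp.comp (f := fun z : Euc N × Euc N × Euc N => (z.1, Real.pi • z.2.1))
        (by fun_prop) fun z hz => ⟨hz.1.1, (G.T _).smul_mem _ hz.1.2⟩
    · exact continuousOn_Exp.comp (f := fun z : Euc N × Euc N × Euc N => (z.1, Real.pi • z.2.2))
        (by fun_prop) fun z hz => ⟨hz.2.1.1, (G.T _).smul_mem _ hz.2.1.2⟩
  have h2 := hc1.preimage_isClosed_of_isClosed hcl (isClosed_singleton (x := (0 : Euc N)))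
  have h3 : V2 G = K1 ∩ (fun z : Euc N × Euc N × Euc N =>
      Exp G z.1 (Real.pi • z.2.1) - Exp G z.1 (Real.pi • z.2.2)) ⁻¹' {0} := by
    ext z
    simp only [V2, K1, mem_inter_iff, mem_preimage, mem_singleton_iff, sub_eq_zero,
      mem_ofPred_eq, and_assoc]
  rw [h3]
  exact hK1c.of_isClosed_subset h2 inter_subset_left

/-- the far region, uniform version -/
theorem far_unif (h : Bla G k) {r : ℝ} (hr : 0 < r) :
    ∃ δ : ℝ, 0 < δ ∧ ∀ p v w : Euc N, (p, v, w) ∈ V2 G →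
      ∀ ρ ∈ Icc (0 : ℝ) (Real.pi / 2), ∀ t ∈ Icc (0 : ℝ) (2 * Real.pi),
      (r ≤ ρ ∨ r ≤ |t - Real.pi|) →
      intrinsicDist S (Exp G p (ρ • w)) (Exp G p (t • v)) ≤ Real.pi - δ := by
  have hpi := Real.pi_pos
  set K : Set ((Euc N × Euc N × Euc N) × (ℝ × ℝ)) := V2 G ×ˢ
    ((Icc (0 : ℝ) (Real.pi / 2) ×ˢ Icc (0 : ℝ) (2 * Real.pi)) ∩
    {z | r ≤ z.1 ∨ r ≤ |z.2 - Real.pi|}) with hK
  have hKc : IsCompact K := by
    refine (isCompact_V2 h).prod ((isCompact_Icc.prod isCompact_Icc).inter_right ?_)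
    have h1 : IsClosed {z : ℝ × ℝ | r ≤ z.1} := isClosed_le continuous_const continuous_fst
    have h2 : IsClosed {z : ℝ × ℝ | r ≤ |z.2 - Real.pi|} :=
      isClosed_le continuous_const (continuous_snd.sub continuous_const).abs
    exact h1.union h2
  have hcont : ContinuousOn (fun z : (Euc N × Euc N × Euc N) × (ℝ × ℝ) =>
      intrinsicDist S (Exp G z.1.1 (z.2.1 • z.1.2.2)) (Exp G z.1.1 (z.2.2 • z.1.2.1))) K := by
    have h1 := continuousOn_intrinsicDist h.bl.sub h.bl.cpt h.bl.conn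
    refine h1.comp (f := fun z : (Euc N × Euc N × Euc N) × (ℝ × ℝ) =>
      (Exp G z.1.1 (z.2.1 • z.1.2.2), Exp G z.1.1 (z.2.2 • z.1.2.1))) ?_ ?_
    · refine ContinuousOn.prodMk ?_ ?_
      · exact continuousOn_Exp.comp
          (f := fun z : (Euc N × Euc N × Euc N) × (ℝ × ℝ) => (z.1.1, z.2.1 • z.1.2.2))
          (by fun_prop) fun z hz => ⟨hz.1.2.1.1, (G.T _).smul_mem _ hz.1.2.1.2⟩
      · exact continuousOn_Exp.comp
          (f := fun z : (Euc N × Euc N × Euc N) × (ℝ × ℝ) => (z.1.1, z.2.2 • z.1.2.1))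
          (by fun_prop) fun z hz => ⟨hz.1.1.1, (G.T _).smul_mem _ hz.1.1.2⟩
    · intro z hz
      exact ⟨Exp_mem G hz.1.1.1 ((G.T _).smul_mem _ hz.1.2.1.2),
        Exp_mem G hz.1.1.1 ((G.T _).smul_mem _ hz.1.1.2)⟩
  have hlt : ∀ z ∈ K, intrinsicDist S (Exp G z.1.1 (z.2.1 • z.1.2.2))
      (Exp G z.1.1 (z.2.2 • z.1.2.1)) < Real.pi := by
    rintro ⟨⟨p, v, w⟩, ρ, t⟩ ⟨hz, ⟨⟨h1, h2⟩, ⟨h3, h4⟩⟩, h5⟩
    obtain ⟨q, hpq, hv, hw, hv1, hw1, hvw, -⟩ := V2_spec h hz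
    simp only [mem_ofPred_eq] at h1 h2 h3 h4 h5 hpq hv hw hv1 hw1 hvw ⊢
    have hvT := h.Vs_le hpq hv
    rcases le_total t Real.pi with ht | ht
    · refine dist_rays_lt h hpq hv hv1 hw hw1 hvw h1 (by linarith) h3 ht ?_
      rcases h5 with h5 | h5
      · exact Or.inl (by linarith)
      · refine Or.inr fun h6 => ?_
        rw [h6, sub_self, abs_zero] at h5
        linarith
    · rw [Exp_back h hpq.1 hvT hv1]
      refine dist_rays_lt h hpq ((Vs G p q).neg_mem hv) (by rw [norm_neg, hv1]) hw hw1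
        (by rw [inner_neg_left, hvw, neg_zero]) h1 (by linarith) (by linarith) (by linarith) ?_
      rcases h5 with h5 | h5
      · exact Or.inl (by linarith)
      · refine Or.inr fun h6 => ?_
        have : t - Real.pi = 0 := by linarith
        rw [this, abs_zero] at h5
        linarith
  rcases K.eq_empty_or_nonempty with he | hne
  · refine ⟨1, one_pos, fun p v w hz ρ hρ t ht hc => ?_⟩
    have : (((p, v, w), (ρ, t)) : (Euc N × Euc N × Euc N) × (ℝ × ℝ)) ∈ K := ⟨hz, ⟨hρ, ht⟩, hc⟩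
    rw [he] at this
    exact this.elim
  · obtain ⟨z0, hz0, hmax⟩ := hKc.exists_isMaxOn hne hcont
    refine ⟨Real.pi - intrinsicDist S (Exp G z0.1.1 (z0.2.1 • z0.1.2.2))
      (Exp G z0.1.1 (z0.2.2 • z0.1.2.1)), ?_, fun p v w hz ρ hρ t ht hc => ?_⟩
    · have := hlt z0 hz0
      linarith
    · have h1 : (((p, v, w), (ρ, t)) : (Euc N × Euc N × Euc N) × (ℝ × ℝ)) ∈ K :=
        ⟨hz, ⟨hρ, ht⟩, hc⟩
      have h2 := hmax h1
      simp only [mem_ofPred_eq] at h2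
      linarith

/-- small tangent perturbations move `Exp` by a small amount, uniformly -/
lemma exp_close_unif (h : Bla G k) (R : ℝ) {η : ℝ} (hη : 0 < η) :
    ∃ θ : ℝ, 0 < θ ∧ ∀ p ∈ S, ∀ x ∈ G.T p, ∀ y ∈ G.T p, ‖x‖ ≤ R → ‖y‖ ≤ R → ‖x - y‖ ≤ θ →
      ‖Exp G p x - Exp G p y‖ < η := by
  set K : Set (Euc N × Euc N) := TS G ∩ S ×ˢ closedBall 0 R with hK
  have hKc : IsCompact K :=
    (h.bl.cpt.prod (isCompact_closedBall (0 : Euc N) R)).inter_left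
      (isClosed_TS G)
  have hu := hKc.uniformContinuousOn_of_continuous
    (continuousOn_Exp.mono (inter_subset_left : K ⊆ TS G))
  rw [Metric.uniformContinuousOn_iff] at hu
  obtain ⟨θ, hθ, hu⟩ := hu η hη
  refine ⟨θ / 2, by positivity, fun p hp x hx y hy hxR hyR hxy => ?_⟩
  have h1 := hu (p, x) ⟨⟨hp, hx⟩, hp, by rwa [mem_closedBall_zero_iff]⟩
    (p, y) ⟨⟨hp, hy⟩, hp, by rwa [mem_closedBall_zero_iff]⟩
    (by rw [Prod.dist_eq, dist_self, dist_eq_norm]; exact max_lt hθ (by linarith))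
  rwa [dist_eq_norm] at h1

/-- **the uniform centre theorem** -/
theorem centre_unif (h : Bla G k) {C κm : ℝ} (hC : 0 ≤ C) (hκm : 0 < κm) :
    ∃ ε0 : ℝ, 0 < ε0 ∧ ε0 ≤ 1 ∧ ∀ p q v w : Euc N, (p, q) ∈ FF S → v ∈ Vs G p q → ‖v‖ = 1 →
      w ∈ Vs G p q → ‖w‖ = 1 → ⟪v, w⟫ = 0 → ∀ nf : ℝ → Euc N,
      (∀ t ∈ Icc (0 : ℝ) (2 * Real.pi), ‖nf t‖ ≤ C) →
      (∀ t ∈ Icc (0 : ℝ) (2 * Real.pi), ‖nf t - nf Real.pi‖ ≤ C * |t - Real.pi|) →
      κm ≤ ⟪w, nf 0⟫ + ⟪ar G p w, nf Real.pi⟫ →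
      ∀ ε : ℝ, 0 < ε → ε ≤ ε0 → ∀ y : ℝ → Euc N, (∀ t ∈ Icc (0 : ℝ) (2 * Real.pi), y t ∈ S) →
      (∀ t ∈ Icc (0 : ℝ) (2 * Real.pi), ‖y t - Exp G p (t • v) - ε • nf t‖ ≤ C * ε ^ 2) →
      ∀ a ∈ G.T p, ‖a - ε • nf 0‖ ≤ C * ε ^ 2 →
      ∀ τ ∈ Icc (0 : ℝ) 1, ∀ t ∈ Icc (0 : ℝ) (2 * Real.pi),
      intrinsicDist S (Exp G p ((1 - τ) • a + (τ * (Real.pi / 2)) • w)) (y t) < Real.pi := by
  have hpi := Real.pi_pos
  have hpi3 := Real.pi_gt_three
  obtain ⟨M, hM, hb⟩ := bounds_unif h hC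
  obtain ⟨lam, hlam, hlam1, hlam2⟩ : ∃ lam : ℝ, 0 < lam ∧ lam ≤ κm ∧ lam ≤ 1 :=
    ⟨min κm 1, lt_min hκm one_pos, min_le_left _ _, min_le_right _ _⟩
  obtain ⟨r, hr, hr1, hr2, hr3⟩ : ∃ r : ℝ, 0 < r ∧ r ≤ 1 ∧ M * r ≤ lam / 4 ∧
      r * (M * (2 * M / lam) + M * ((2 * M / lam) ^ 2 + 1)) < 1 := by
    set M2 : ℝ := M * (2 * M / lam) + M * ((2 * M / lam) ^ 2 + 1) with hM2
    have hM2p : 0 < M2 := by positivity
    refine ⟨min 1 (min (lam / 4 / M) (1 / (M2 + 1))), by positivity, min_le_left _ _, ?_, ?_⟩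
    · calc M * min 1 (min (lam / 4 / M) (1 / (M2 + 1))) ≤ M * (lam / 4 / M) := by
            gcongr
            exact (min_le_right _ _).trans (min_le_left _ _)
        _ = lam / 4 := by field_simp
    · calc min 1 (min (lam / 4 / M) (1 / (M2 + 1))) * M2 ≤ 1 / (M2 + 1) * M2 := by
            gcongr
            exact (min_le_right _ _).trans (min_le_right _ _)
        _ < 1 := by
            rw [one_div, inv_mul_lt_iff₀ (by positivity)]
            linarith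
  obtain ⟨δ, hδ, hfar⟩ := far_unif h hr
  obtain ⟨η, hη, hnear⟩ := I.exists_near h.bl (ε := δ / 3) (by positivity)
  obtain ⟨θ, hθ, hexp⟩ := exp_close_unif h (2 * C + 2) hη
  obtain ⟨ε0, hε0, hε01, hε0r, hε0θ, hε0η⟩ : ∃ ε0 : ℝ, 0 < ε0 ∧ ε0 ≤ 1 ∧ ε0 ≤ r ∧
      2 * C * ε0 ≤ θ ∧ 2 * C * ε0 < η := by
    refine ⟨min 1 (min r (min (θ / (2 * C + 1)) (η / (2 * C + 1)))), by positivity,
      min_le_left _ _, (min_le_right _ _).trans (min_le_left _ _), ?_, ?_⟩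
    · calc 2 * C * min 1 (min r (min (θ / (2 * C + 1)) (η / (2 * C + 1))))
          ≤ (2 * C + 1) * (θ / (2 * C + 1)) := by
            have h1 : min 1 (min r (min (θ / (2 * C + 1)) (η / (2 * C + 1)))) ≤
              θ / (2 * C + 1) :=
              (min_le_right _ _).trans ((min_le_right _ _).trans (min_le_left _ _))
            gcongr
            linarith
        _ = θ := by field_simp
    · have h1 : min 1 (min r (min (θ / (2 * C + 1)) (η / (2 * C + 1)))) ≤ η / (2 * C + 1) :=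
        (min_le_right _ _).trans ((min_le_right _ _).trans (min_le_right _ _))
      calc 2 * C * min 1 (min r (min (θ / (2 * C + 1)) (η / (2 * C + 1))))
          ≤ 2 * C * (η / (2 * C + 1)) := by gcongr
        _ < η := by
            rw [← mul_div_assoc, div_lt_iff₀ (by positivity)]
            nlinarith
  refine ⟨ε0, hε0, hε01, fun p q v w hz hv hv1 hw hw1 hvw nf hn hnL hκ ε hε hεε0 y hyS' hY
    a ha haε τ hτ t ht => ?_⟩
  have hpS := hz.1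
  have hvT := h.Vs_le hz hv
  have hwT := h.Vs_le hz hw
  have hn0 := hn 0 ⟨le_rfl, by linarith⟩
  have hnπ := hn Real.pi ⟨by linarith, by linarith⟩
  have hεI : ε ∈ Icc (0 : ℝ) 1 := ⟨hε.le, hεε0.trans hε01⟩
  have hyS := hyS' t ht
  obtain ⟨hb1, hb2⟩ := hb p q v w hz hv hv1 hw hw1 hvw (nf 0) (nf Real.pi) hn0 hnπ ε hεI a ha haε
    τ hτ t ht (nf t) (y t) hyS (hnL t ht) (hY t ht)
  obtain ⟨ρ, hρdef⟩ : ∃ ρ : ℝ, ρ = τ * (Real.pi / 2) := ⟨_, rfl⟩
  rw [← hρdef] at hb1 hb2 ⊢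
  have hρ0 : 0 ≤ ρ := by rw [hρdef]; exact mul_nonneg hτ.1 (by positivity)
  have hρ1 : ρ ≤ Real.pi / 2 := by
    rw [hρdef]
    calc τ * (Real.pi / 2) ≤ 1 * (Real.pi / 2) := by gcongr; exact hτ.2
      _ = Real.pi / 2 := one_mul _
  by_cases hcase : r ≤ ρ ∨ r ≤ |t - Real.pi|
  · -- far region
    have h1 := hfar p v w (mem_V2 h hz hv hv1 hw hw1 hvw) ρ ⟨hρ0, hρ1⟩ t ht hcase
    have hεC : C * ε ^ 2 ≤ C * ε := by
      have : ε ^ 2 ≤ ε := by nlinarith [hεI.2]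
      gcongr
    have haC : ‖a‖ ≤ 2 * C * ε := by
      calc ‖a‖ = ‖(a - ε • nf 0) + ε • nf 0‖ := by congr 1; abel
        _ ≤ C * ε ^ 2 + ε * C := by
            refine (norm_add_le _ _).trans (add_le_add haε ?_)
            rw [norm_smul, Real.norm_of_nonneg hε.le]
            gcongr
        _ ≤ 2 * C * ε := by linarith
    have hCε0 : 2 * C * ε ≤ 2 * C * ε0 := by gcongr
    have hCε1 : 2 * C * ε ≤ 2 * C := by
      calc 2 * C * ε ≤ 2 * C * 1 := by gcongr; exact hεI.2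
        _ = 2 * C := mul_one _
    have hAT : (1 - τ) • a + ρ • w ∈ G.T p :=
      (G.T p).add_mem ((G.T p).smul_mem _ ha) ((G.T p).smul_mem _ hwT)
    have hn1 : ‖(1 - τ) • a‖ ≤ 2 * C * ε := by
      rw [norm_smul, Real.norm_of_nonneg (by linarith [hτ.2])]
      calc (1 - τ) * ‖a‖ ≤ 1 * ‖a‖ := by gcongr; linarith [hτ.1]
        _ ≤ 2 * C * ε := by rw [one_mul]; exact haC
    have hn2 : ‖ρ • w‖ = ρ := by rw [norm_smul, hw1, mul_one, Real.norm_of_nonneg hρ0]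
    have hpi4 := Real.pi_lt_d2
    have h2 : ‖Exp G p ((1 - τ) • a + ρ • w) - Exp G p (ρ • w)‖ < η := by
      refine hexp p hpS _ hAT _ ((G.T p).smul_mem _ hwT) ?_ ?_ ?_
      · refine (norm_add_le _ _).trans ?_
        rw [hn2]
        linarith
      · rw [hn2]; linarith
      · rw [add_sub_cancel_right]
        linarith
    have hxS : Exp G p ((1 - τ) • a + ρ • w) ∈ S := Exp_mem G hpS hAT
    have hx0 : Exp G p (ρ • w) ∈ S := Exp_mem G hpS ((G.T p).smul_mem _ hwT)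
    have hy0 : Exp G p (t • v) ∈ S := Exp_mem G hpS ((G.T p).smul_mem _ hvT)
    have h3 := hnear _ hxS _ hx0 h2
    have h4 : ‖Exp G p (t • v) - y t‖ < η := by
      have h5 := hY t ht
      have h6 : Exp G p (t • v) - y t = -((y t - Exp G p (t • v) - ε • nf t) + ε • nf t) := by
        abel
      rw [h6, norm_neg]
      refine (norm_add_le _ _).trans_lt ?_
      have h7 : ‖ε • nf t‖ ≤ ε * C := by
        rw [norm_smul, Real.norm_of_nonneg hε.le]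
        gcongr
        exact hn t ht
      linarith
    have h5 := hnear _ hy0 _ hyS h4
    have h6 := I.tri h.bl hxS hx0 hyS
    have h7 := I.tri h.bl hx0 hy0 hyS
    linarith
  · rw [not_or, not_le, not_le] at hcase
    refine num_near hlam hM hε hρ0 (hεε0.trans hε0r) hcase.1.le hcase.2.le hr1 hr2 hr3
      (hb1.trans ?_) hb2
    have h1 : lam * ε ≤ ε * (⟪w, nf 0⟫ + ⟪ar G p w, nf Real.pi⟫) := by
      rw [mul_comm]
      gcongr
      exact hlam1.trans hκ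
    have h2 : lam * ρ ≤ ρ := by
      calc lam * ρ ≤ 1 * ρ := by gcongr
        _ = ρ := one_mul _
    linarith

end Crest.Agent.R208.RE
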