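import Crest.Agent.R208.RP1

/-! Row 208, block RR (helper900), part RP2: degenerate faces, the boundary of the 3-cube. -/

set_option autoImplicit false
set_option linter.unusedSectionVars false
set_option linter.unusedVariables false
set_option maxHeartbeats 400000

open MeasureTheory Set Filter Topology Module
open scoped ContDiff
open Crest.Agent.R208.F Crest.Agent.R208.FI Crest.Agent.R208.CW Crest.Agent.R208.T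
open Crest.Agent.R208.RR (K sl pull_sl_apply fderiv_sl contDiff_sl)

noncomputable section

namespace Crest.Agent.R208.RP

variable {E F' : Type*} [NormedAddCommGroup E] [NormedSpace ℝ E] [FiniteDimensional ℝ E]
  [NormedAddCommGroup F'] [NormedSpace ℝ F'] [FiniteDimensional ℝ F']
  {A B X : Set E} {S : Set F'} {x : E} {ξ : F' → Ext F'}

/-- the double integral of a family of squares -/
def I2 (Q : (E × ℝ) × ℝ → F') (ξ : F' → Ext F') : E → Ext E :=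
  K (E := E) (K (E := E × ℝ) (F.pull Q ξ))

theorem smQ {Q : (E × ℝ) × ℝ → F'} (hQ : SMap (Cc (Cc X)) S Q) (hξ : Sm S ξ) :
    Sm (Cc (Cc X)) (F.pull Q ξ) := hξ.pull hQ

theorem I2_sm {Q : (E × ℝ) × ℝ → F'} (hQ : SMap (Cc (Cc X)) S Q) (hξ : Sm S ξ) : Sm X (I2 Q ξ) :=
  K_sm (K_sm (smQ hQ hξ))

theorem co2 : Co (Co X) ⊆ Cc (Cc X) := Co_sub_Cc (Co_sub_Cc subset_rfl)

/-- two families which agree -/
theorem I2_congr {Q Q' : (E × ℝ) × ℝ → F'} (hQ : SMap (Cc (Cc X)) S Q) (hQ' : SMap (Cc (Cc X)) S Q')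
    (hξ : Sm S ξ) (h : ∀ x ∈ X, ∀ t ∈ Icc (0 : ℝ) 1, ∀ s ∈ Icc (0 : ℝ) 1, Q ((x, t), s) = Q' ((x, t), s)) :
    Eqv X (I2 Q ξ) (I2 Q' ξ) := by
  have h1 : Eqv (Co (Co X)) (F.pull Q ξ) (F.pull Q' ξ) :=
    eqv_pull_of_eq ξ (fun y hy => hQ.diff (co2 hy)) (fun y hy => hQ'.diff (co2 hy)) fun y hy =>
      h _ hy.1.1 _ (Ioo_subset_Icc_self hy.1.2) _ (Ioo_subset_Icc_self hy.2)
  exact K_eqv (K_sm (smQ hQ hξ)) (K_sm (smQ hQ' hξ)) subset_rfl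
    (K_eqv (smQ hQ hξ) (smQ hQ' hξ) (Co_sub_Cc subset_rfl) h1)

/-- independent of the inner variable -/
theorem I2_inner {Q : (E × ℝ) × ℝ → F'} {g : E × ℝ → F'} (hQ : SMap (Cc (Cc X)) S Q)
    (hg : SMap (Cc X) S g) (hξ : Sm S ξ)
    (h : ∀ x ∈ X, ∀ t ∈ Icc (0 : ℝ) 1, ∀ s ∈ Icc (0 : ℝ) 1, Q ((x, t), s) = g (x, t)) :
    Eqv X (I2 Q ξ) 0 := by
  have hg' : SMap (Cc (Cc X)) S (fun q : (E × ℝ) × ℝ => g q.1) :=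
    ⟨fun q hq => ContDiffAt.comp (g := g) q (hg.smooth _ hq.1) contDiffAt_fst,
      fun q hq => hg.maps hq.1⟩
  refine (I2_congr hQ hg' hξ h).trans ?_
  have h1 : Eqv (Co X) (K (F.pull (fun q : (E × ℝ) × ℝ => g q.1) ξ)) 0 := by
    refine Eqv.of_eq fun y hy => ?_
    refine Eq.trans ?_ (K_fst (F.pull g ξ) y)
    refine K_congr fun s hs => ?_
    exact (F.pull_comp (x := (y, s)) (f := (Prod.fst : (E × ℝ) × ℝ → E × ℝ)) (g := g)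
      differentiableAt_fst (hg.diff (Co_sub_Cc subset_rfl hy))).symm
  have h2 := K_eqv (w' := 0) (K_sm (smQ hg' hξ)) Sm.zero subset_rfl h1
  refine h2.trans (Eqv.of_eq fun y _ => ?_)
  rw [K_apply]; simp

/-- independent of the outer variable -/
theorem I2_outer {Q : (E × ℝ) × ℝ → F'} {g : E × ℝ → F'} (hQ : SMap (Cc (Cc X)) S Q)
    (hg : SMap (Cc X) S g) (hξ : Sm S ξ)
    (h : ∀ x ∈ X, ∀ t ∈ Icc (0 : ℝ) 1, ∀ s ∈ Icc (0 : ℝ) 1, Q ((x, t), s) = g (x, s)) :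
    Eqv X (I2 Q ξ) 0 := by
  have hg' : SMap (Cc (Cc X)) S (fun q : (E × ℝ) × ℝ => g (q.1.1, q.2)) :=
    ⟨fun q hq => ContDiffAt.comp (g := g) q (hg.smooth _ ⟨hq.1.1, hq.2⟩) (by fun_prop),
      fun q hq => hg.maps ⟨hq.1.1, hq.2⟩⟩
  refine (I2_congr hQ hg' hξ h).trans (Eqv.of_eq fun y hy => ?_)
  refine Eq.trans ?_ (K_fst (K (F.pull g ξ)) y)
  refine K_congr fun t ht => ?_
  rw [pull_K (A := X) (f := (Prod.fst : E × ℝ → E)) differentiableAt_fst (hξ.pull hg) hy]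
  refine K_congr fun s hs => ?_
  exact (F.pull_comp (x := ((y, t), s)) (f := fun q : (E × ℝ) × ℝ => (q.1.1, q.2)) (g := g)
    (by fun_prop) (hg.diff ⟨hy, hs⟩)).symm

/-- insert `c` before the last variable -/
def ins (c : ℝ) (q : E × ℝ) : (E × ℝ) × ℝ := ((q.1, c), q.2)

/-- insert `c` before the last two variables -/
def ft (c : ℝ) (q : (E × ℝ) × ℝ) : ((E × ℝ) × ℝ) × ℝ := (ins c q.1, q.2)

theorem ins_eq (c : ℝ) : (fun q : E × ℝ => (sl c q.1, q.2)) = ins c := rfl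
theorem ft_eq (c : ℝ) : (fun q : (E × ℝ) × ℝ => (ins c q.1, q.2)) = ft c := rfl

theorem contDiff_ins (c : ℝ) : ContDiff ℝ ∞ (ins (E := E) c) := by unfold ins; fun_prop
theorem contDiff_ft (c : ℝ) : ContDiff ℝ ∞ (ft (E := E) c) := by unfold ft ins; fun_prop

theorem K_lin3 {w a b c : E × ℝ → Ext (E × ℝ)} (ha : Sm (Cc A) a) (hb : Sm (Cc A) b)
    (hc : Sm (Cc A) c) (h : ∀ y ∈ Cc A, w y + c y = a y - b y) (hw : Sm (Cc A) w) (hx : x ∈ A) :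
    K w x + K c x = K a x - K b x := by
  rw [← K_add hw hc hx, ← K_sub ha hb hx]
  exact K_congr fun t ht => h _ ⟨hx, ht⟩

/-- `K` on `E`, `E × ℝ`, `(E × ℝ) × ℝ` -/
local notation "K₁" => K (E := E)
local notation "K₂" => K (E := E × ℝ)
local notation "K₃" => K (E := (E × ℝ) × ℝ)

theorem pull_sl_K {w : (E × ℝ) × ℝ → Ext ((E × ℝ) × ℝ)} (hw : Sm (Cc (Cc A)) w) (hx : x ∈ A) {c : ℝ}
    (hc : c ∈ Icc (0 : ℝ) 1) :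
    F.pull (sl (E := E) c) (K₂ w) x = K₁ (F.pull (ins (E := E) c) w) x := by
  have h := pull_K (A := Cc A) (f := sl (E := E) c) (x' := x) (w := w)
    ((contDiff_sl c).differentiable (by simp) x) hw ⟨hx, hc⟩
  rw [ins_eq] at h
  exact h

theorem pull_ins_K {w : ((E × ℝ) × ℝ) × ℝ → Ext (((E × ℝ) × ℝ) × ℝ)} (hw : Sm (Cc (Cc (Cc A))) w)
    {q : E × ℝ} (hq : q ∈ Cc A) {c : ℝ} (hc : c ∈ Icc (0 : ℝ) 1) :
    F.pull (ins (E := E) c) (K₃ w) q = K₂ (F.pull (ft (E := E) c) w) q := by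
  have h := pull_K (A := Cc (Cc A)) (f := ins (E := E) c) (x' := q) (w := w)
    ((contDiff_ins c).differentiable (by simp) q) hw ⟨⟨hq.1, hc⟩, hq.2⟩
  rw [ft_eq] at h
  exact h

theorem sm_fl {w : (E × ℝ) × ℝ → Ext ((E × ℝ) × ℝ)} (hw : Sm (Cc (Cc A)) w)
    {c : ℝ} (hc : c ∈ Icc (0 : ℝ) 1) : Sm (Cc A) (F.pull (sl (E := E × ℝ) c) w) :=
  hw.pull (Y := Cc (Cc A)) ⟨fun q _ => (contDiff_sl c).contDiffAt, fun q hq => ⟨hq, hc⟩⟩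

theorem sm_fr {w : ((E × ℝ) × ℝ) × ℝ → Ext (((E × ℝ) × ℝ) × ℝ)} (hw : Sm (Cc (Cc (Cc X))) w)
    {c : ℝ} (hc : c ∈ Icc (0 : ℝ) 1) : Sm (Cc (Cc X)) (F.pull (ins (E := E × ℝ) c) w) :=
  hw.pull (Y := Cc (Cc (Cc X))) ⟨fun q _ => (contDiff_ins c).contDiffAt,
    fun q hq => ⟨⟨hq.1, hc⟩, hq.2⟩⟩

theorem sm_ft {w : ((E × ℝ) × ℝ) × ℝ → Ext (((E × ℝ) × ℝ) × ℝ)} (hw : Sm (Cc (Cc (Cc X))) w)
    {c : ℝ} (hc : c ∈ Icc (0 : ℝ) 1) : Sm (Cc (Cc X)) (F.pull (ft (E := E) c) w) :=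
  hw.pull (Y := Cc (Cc (Cc X))) ⟨fun q _ => (contDiff_ft c).contDiffAt,
      fun q hq => ⟨⟨⟨hq.1.1, hc⟩, hq.1.2⟩, hq.2⟩⟩

theorem m0 : (0 : ℝ) ∈ Icc (0 : ℝ) 1 := ⟨le_rfl, zero_le_one⟩
theorem m1 : (1 : ℝ) ∈ Icc (0 : ℝ) 1 := ⟨zero_le_one, le_rfl⟩

theorem cube1 {w : (E × ℝ) × ℝ → Ext ((E × ℝ) × ℝ)} (hw : Sm (Cc (Cc A)) w) (hx : x ∈ A) :
    K₁ (F.d (K₂ w)) x + K₁ (K₂ (F.d w)) x
      = K₁ (F.pull (sl (E := E × ℝ) 1) w) x - K₁ (F.pull (sl (E := E × ℝ) 0) w) x := by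
  have e1 : ∀ y ∈ Cc A, F.d (K₂ w) y + K₂ (F.d w) y
      = F.pull (sl (E := E × ℝ) 1) w y - F.pull (sl (E := E × ℝ) 0) w y := fun y hy => K_d hw hy
  have s1 : Sm (Cc A) (K₂ (F.d w)) := K_sm hw.d
  have s2 : Sm (Cc A) (F.d (K₂ w)) := (K_sm hw).d
  exact K_lin3 (sm_fl hw m1) (sm_fl hw m0) s1 e1 s2 hx

theorem cube2 {w : ((E × ℝ) × ℝ) × ℝ → Ext (((E × ℝ) × ℝ) × ℝ)} (hw : Sm (Cc (Cc (Cc X))) w)
    (hx : x ∈ X) : K₁ (K₂ (F.d (K₃ w))) x + K₁ (K₂ (K₃ (F.d w))) x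
      = K₁ (K₂ (F.pull (sl (E := (E × ℝ) × ℝ) 1) w)) x
        - K₁ (K₂ (F.pull (sl (E := (E × ℝ) × ℝ) 0) w)) x := by
  have s1 : Sm (Cc X) (K₂ (F.pull (sl (E := (E × ℝ) × ℝ) 1) w)) := K_sm (sm_fl hw m1)
  have s2 : Sm (Cc X) (K₂ (F.pull (sl (E := (E × ℝ) × ℝ) 0) w)) := K_sm (sm_fl hw m0)
  have s3 : Sm (Cc (Cc X)) (K₃ (F.d w)) := K_sm hw.d
  have s4 : Sm (Cc (Cc X)) (F.d (K₃ w)) := (K_sm hw).d
  exact K_lin3 s1 s2 (K_sm s3) (fun y hy => cube1 hw hy) (K_sm s4) hx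

theorem cube3 {w : ((E × ℝ) × ℝ) × ℝ → Ext (((E × ℝ) × ℝ) × ℝ)} (hw : Sm (Cc (Cc (Cc X))) w)
    {y : E × ℝ} (hy : y ∈ Cc X) : F.d (K₂ (K₃ w)) y + K₂ (F.d (K₃ w)) y
      = K₂ (F.pull (ins (E := E × ℝ) 1) w) y - K₂ (F.pull (ins (E := E × ℝ) 0) w) y := by
  have s1 : Sm (Cc (Cc X)) (K₃ w) := K_sm hw
  have h1 := K_d s1 hy
  have h2 := pull_sl_K hw hy m1
  have h3 := pull_sl_K hw hy m0
  rw [h1, h2, h3]

theorem cube4 {w : ((E × ℝ) × ℝ) × ℝ → Ext (((E × ℝ) × ℝ) × ℝ)} (hw : Sm (Cc (Cc (Cc X))) w)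
    (hx : x ∈ X) : K₁ (F.d (K₂ (K₃ w))) x + K₁ (K₂ (F.d (K₃ w))) x
      = K₁ (K₂ (F.pull (ins (E := E × ℝ) 1) w)) x
        - K₁ (K₂ (F.pull (ins (E := E × ℝ) 0) w)) x := by
  have s1 : Sm (Cc X) (K₂ (F.pull (ins (E := E × ℝ) 1) w)) := K_sm (sm_fr hw m1)
  have s2 : Sm (Cc X) (K₂ (F.pull (ins (E := E × ℝ) 0) w)) := K_sm (sm_fr hw m0)
  have s3 : Sm (Cc (Cc X)) (K₃ w) := K_sm hw
  have s4 : Sm (Cc (Cc X)) (F.d (K₃ w)) := s3.d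
  have s5 : Sm (Cc X) (F.d (K₂ (K₃ w))) := (K_sm s3).d
  exact K_lin3 s1 s2 (K_sm s4) (fun y hy => cube3 hw hy) s5 hx

theorem cube5 {w : ((E × ℝ) × ℝ) × ℝ → Ext (((E × ℝ) × ℝ) × ℝ)} (hw : Sm (Cc (Cc (Cc X))) w)
    (hx : x ∈ X) {c : ℝ} (hc : c ∈ Icc (0 : ℝ) 1) :
    F.pull (sl (E := E) c) (K₂ (K₃ w)) x = K₁ (K₂ (F.pull (ft (E := E) c) w)) x := by
  have s1 : Sm (Cc (Cc X)) (K₃ w) := K_sm hw
  rw [pull_sl_K s1 hx hc]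
  exact K_congr fun t ht => pull_ins_K hw ⟨hx, ht⟩ hc

theorem cube6 {w : ((E × ℝ) × ℝ) × ℝ → Ext (((E × ℝ) × ℝ) × ℝ)} (hw : Sm (Cc (Cc (Cc X))) w)
    (hx : x ∈ X) : F.d (K₁ (K₂ (K₃ w))) x + K₁ (F.d (K₂ (K₃ w))) x
      = K₁ (K₂ (F.pull (ft (E := E) 1) w)) x - K₁ (K₂ (F.pull (ft (E := E) 0) w)) x := by
  have s1 : Sm (Cc (Cc X)) (K₃ w) := K_sm hw
  have s2 : Sm (Cc X) (K₂ (K₃ w)) := K_sm s1
  have h1 := K_d s2 hx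
  rw [h1, cube5 hw hx m1, cube5 hw hx m0]

theorem cube_form {w : ((E × ℝ) × ℝ) × ℝ → Ext (((E × ℝ) × ℝ) × ℝ)} (hw : Sm (Cc (Cc (Cc X))) w)
    (hx : x ∈ X) :
    K₁ (K₂ (F.pull (sl (E := (E × ℝ) × ℝ) 1) w)) x - K₁ (K₂ (F.pull (sl (E := (E × ℝ) × ℝ) 0) w)) x
      + (K₁ (K₂ (F.pull (ft (E := E) 1) w)) x - K₁ (K₂ (F.pull (ft (E := E) 0) w)) x)
      - (K₁ (K₂ (F.pull (ins (E := E × ℝ) 1) w)) x - K₁ (K₂ (F.pull (ins (E := E × ℝ) 0) w)) x)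
      = F.d (K₁ (K₂ (K₃ w))) x + K₁ (K₂ (K₃ (F.d w))) x := by
  rw [← cube2 hw hx, ← cube4 hw hx, ← cube6 hw hx]
  abel

/-- **boundary of the 3-cube** -/
theorem cube {Q : ((E × ℝ) × ℝ) × ℝ → F'} (hQ : SMap (Cc (Cc (Cc X))) S Q) (hξ : Sm S ξ)
    (hc : Cl S ξ) :
    ∃ η : E → Ext E, Sm X η ∧ Eqv X (I2 (fun q => Q (sl 1 q)) ξ - I2 (fun q => Q (sl 0 q)) ξ
      + (I2 (fun q => Q (ft 1 q)) ξ - I2 (fun q => Q (ft 0 q)) ξ)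
      - (I2 (fun q => Q (ins 1 q)) ξ - I2 (fun q => Q (ins 0 q)) ξ)) (F.d η) := by
  set w := F.pull Q ξ with hwdef
  have hw : Sm (Cc (Cc (Cc X))) w := hξ.pull hQ
  have s3 : Sm (Cc (Cc X)) (K₃ w) := K_sm hw
  have s2 : Sm (Cc X) (K₂ (K₃ w)) := K_sm s3
  refine ⟨K₁ (K₂ (K₃ w)), K_sm s2, ?_⟩
  have hco : Co (Co (Co X)) ⊆ Cc (Cc (Cc X)) := Co_sub_Cc (Co_sub_Cc (Co_sub_Cc subset_rfl))
  have hQo : SMap (Co (Co (Co X))) S Q := ⟨fun q hq => hQ.smooth q (hco hq), fun q hq => hQ.maps (hco hq)⟩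
  have hdw : ResZero (Co (Co (Co X))) (F.d w) := by
    rw [resZero_iff]
    refine (d_pull_eqv hQo hξ).trans ?_
    exact resZero_iff.1 (ResZero.pull hQo hc)
  have t3 : Sm (Cc (Cc X)) (K₃ (F.d w)) := K_sm hw.d
  have t2 : Sm (Cc X) (K₂ (K₃ (F.d w))) := K_sm t3
  have hdw3 : ResZero X (K₁ (K₂ (K₃ (F.d w)))) := by
    refine K_zero t2 subset_rfl ?_
    refine K_zero t3 (Co_sub_Cc subset_rfl) ?_
    exact K_zero hw.d (Co_sub_Cc (Co_sub_Cc subset_rfl)) hdw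
  have key : ∀ (g : (E × ℝ) × ℝ → ((E × ℝ) × ℝ) × ℝ),
      (∀ q, DifferentiableAt ℝ g q) → (∀ q ∈ Cc (Cc X), g q ∈ Cc (Cc (Cc X))) → ∀ x ∈ X,
      I2 (fun q => Q (g q)) ξ x = K₁ (K₂ (F.pull g w)) x := by
    intro g hg hm x hx
    refine K_congr fun t ht => K_congr fun s hs => ?_
    exact (F.pull_comp (x := ((x, t), s)) (f := g) (g := Q) (hg _)
      (hQ.diff (hm _ ⟨⟨hx, ht⟩, hs⟩))).symm
  refine eqv_iff.2 fun x hx => ?_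
  have h := cube_form hw hx
  have kl : ∀ c ∈ Icc (0 : ℝ) 1, I2 (fun q => Q (sl c q)) ξ x
      = K₁ (K₂ (F.pull (sl (E := (E × ℝ) × ℝ) c) w)) x :=
    fun c hc => key (sl c) (fun q => (contDiff_sl c).differentiable (by simp) q)
      (fun q hq => ⟨hq, hc⟩) x hx
  have kr : ∀ c ∈ Icc (0 : ℝ) 1, I2 (fun q => Q (ins c q)) ξ x
      = K₁ (K₂ (F.pull (ins (E := E × ℝ) c) w)) x :=
    fun c hc => key (ins c) (fun q => (contDiff_ins c).differentiable (by simp) q)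
      (fun q hq => ⟨⟨hq.1, hc⟩, hq.2⟩) x hx
  have kt : ∀ c ∈ Icc (0 : ℝ) 1, I2 (fun q => Q (ft c q)) ξ x
      = K₁ (K₂ (F.pull (ft (E := E) c) w)) x :=
    fun c hc => key (ft c) (fun q => (contDiff_ft c).differentiable (by simp) q)
      (fun q hq => ⟨⟨⟨hq.1.1, hc⟩, hq.1.2⟩, hq.2⟩) x hx
  have h0 : (I2 (fun q => Q (sl 1 q)) ξ - I2 (fun q => Q (sl 0 q)) ξ
      + (I2 (fun q => Q (ft 1 q)) ξ - I2 (fun q => Q (ft 0 q)) ξ)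
      - (I2 (fun q => Q (ins 1 q)) ξ - I2 (fun q => Q (ins 0 q)) ξ)) x
      = I2 (fun q => Q (sl 1 q)) ξ x - I2 (fun q => Q (sl 0 q)) ξ x
      + (I2 (fun q => Q (ft 1 q)) ξ x - I2 (fun q => Q (ft 0 q)) ξ x)
      - (I2 (fun q => Q (ins 1 q)) ξ x - I2 (fun q => Q (ins 0 q)) ξ x) := rfl
  rw [h0, kl 1 m1, kl 0 m0, kr 1 m1, kr 0 m0, kt 1 m1, kt 0 m0, h, map_add, hdw3 x hx, add_zero]

end Crest.Agent.R208.RP
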