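import Crest.Agent.R208.RR0

/-! Row 208, block RR (helper427), part RR1: the number `J_Z (θ (dθ)^(2m-1) h^(2m+1))`. -/

set_option autoImplicit false
set_option linter.unusedSectionVars false
set_option linter.unusedVariables false

open MeasureTheory Set Filter Topology Module
open scoped ContDiff
open Crest.Agent.R208.F Crest.Agent.R208.FI Crest.Agent.R208.CW Crest.Agent.R208.T

noncomputable section

namespace Crest.Agent.R208.RR

universe u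
variable {E : Type u} [NormedAddCommGroup E] [NormedSpace ℝ E] [FiniteDimensional ℝ E]
  {d : ℕ} {Z : Set E} {o : E → Ext E} {x : E}

/-- middle binomial coefficient -/
theorem binom_mid {A : Type*} [Ring A] [Algebra ℝ A] {m : ℕ} {p q : A} (hc : Commute p q)
    (hp : p ^ (m + 1) = 0) (hq : q ^ (m + 1) = 0) :
    (p - q) ^ (2 * m) = ((-1) ^ m * ((2 * m).choose m : ℝ)) • (p ^ m * q ^ m) := by
  rw [sub_eq_add_neg, (hc.neg_right).add_pow]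
  rw [Finset.sum_eq_single m]
  · rw [show 2 * m - m = m by omega, neg_pow, mul_smul, Algebra.smul_def, Algebra.smul_def,
      map_pow, map_neg, map_one, map_natCast]
    rw [← mul_assoc (p ^ m), ((Commute.neg_one_right (p ^ m)).pow_right m).eq, mul_assoc,
      mul_assoc, (Nat.cast_commute ((2 * m).choose m) (p ^ m * q ^ m)).eq, ← mul_assoc (p ^ m)]
  · intro i hi him
    rcases lt_or_gt_of_ne him with h | h
    · have h1 : (-q) ^ (2 * m - i) = 0 := by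
        rw [neg_pow, show 2 * m - i = (m + 1) + (2 * m - i - (m + 1)) by omega, pow_add q, hq,
          zero_mul, mul_zero]
      rw [h1, mul_zero, zero_mul]
    · have h1 : p ^ i = 0 := by
        rw [show i = (m + 1) + (i - (m + 1)) by omega, pow_add, hp, zero_mul]
      rw [h1, zero_mul, zero_mul]
  · intro h
    exact absurd (Finset.mem_range.2 (by omega)) h

/-- `s θ` on the cylinder -/
def cyl (θ : E → Ext E) : E × ℝ → Ext (E × ℝ) := fun y => y.2 • F.pull Prod.fst θ y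

theorem sm_cyl {θ : E → Ext E} (hθ : Sm Z θ) : Sm (Cyl Z) (cyl θ) := fun y hy =>
  contDiff_snd.contDiffAt.smul ((hθ.pull smap_fst) y hy)

theorem pull_sl_fst (s : ℝ) (θ : E → Ext E) (hθ : Sm Z θ) (hx : x ∈ Z) :
    F.pull (sl s) (F.pull Prod.fst θ) x = θ x := by
  rw [pull_comp ((contDiff_sl s).differentiable (by simp) x) differentiableAt_fst]
  exact pull_id θ x

theorem pull_sl_cyl (s : ℝ) {θ : E → Ext E} (hθ : Sm Z θ) (hx : x ∈ Z) :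
    F.pull (sl s) (cyl θ) x = s • θ x := by
  have h1 : F.pull (sl s) (cyl θ) x = s • F.pull (sl s) (F.pull Prod.fst θ) x := by
    rw [F.pull, cyl, map_smul]; rfl
  rw [h1, pull_sl_fst s θ hθ hx]

theorem pull_sl_d (s : ℝ) {w : E × ℝ → Ext (E × ℝ)} (hw : Sm (Cyl Z) w) :
    Eqv Z (F.pull (sl s) (F.d w)) (F.d (F.pull (sl s) w)) := (d_pull_eqv (smap_sl s) hw).symm

theorem pull_sl_dcyl {n : ℕ} (hZ : Sub n Z) (s : ℝ) {θ : E → Ext E} (hθ : Sm Z θ) :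
    Eqv Z (F.pull (sl s) (F.d (cyl θ))) (s • F.d θ) := by
  refine (pull_sl_d s (sm_cyl hθ)).trans ?_
  have h1 : Eqv Z (F.pull (sl s) (cyl θ)) (s • θ) := Eqv.of_eq fun x hx => pull_sl_cyl s hθ hx
  exact (h1.d hZ ((sm_cyl hθ).pull (smap_sl s)) (hθ.smul s)).trans (d_smul_eqv s hθ)

/-- the data on the cylinder -/
structure Fam (Z : Set E) (V : E → E) (m : ℕ) (a b h η : E × ℝ → Ext (E × ℝ)) (θ : E → Ext E)
    (c : ℝ) : Prop where
  Vt : ∀ x ∈ Z, V x ∈ Tan Z x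
  V0 : ∀ x ∈ Z, V x ≠ 0
  sa : Sm (Cyl Z) a
  sb : Sm (Cyl Z) b
  sh : Sm (Cyl Z) h
  sη : Sm (Cyl Z) η
  sθ : Sm Z θ
  ca : Cl (Cyl Z) a
  cb : Cl (Cyl Z) b
  ch : Cl (Cyl Z) h
  ea : Ev (Cyl Z) a
  eb : Ev (Cyl Z) b
  eh : Ev (Cyl Z) h
  a0 : Eqv (Cyl Z) (a ^ (m + 1)) 0
  b0 : Eqv (Cyl Z) (b ^ (m + 1)) 0
  rel : Eqv (Cyl Z) (a - b) (F.d (cyl θ) * h + F.d η)
  η0 : Eqv Z (F.pull (sl 0) η) 0
  η1 : Hz Z V (F.pull (sl 1) η)
  a1 : Hz Z V (F.pull (sl 1) a)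
  b1 : Hz Z V (F.pull (sl 1) b)
  h1 : Hz Z V (F.pull (sl 1) h)
  θ1 : ∀ x ∈ Z, Rs Z x (ii (V x) (θ x)) = algebraMap ℝ _ c
  dθ : Hz Z V (F.d θ)

variable {V : E → E} {m : ℕ} {a b h η : E × ℝ → Ext (E × ℝ)} {θ : E → Ext E} {c : ℝ}

theorem rs_mul {F' : Type*} [NormedAddCommGroup F'] [NormedSpace ℝ F'] [FiniteDimensional ℝ F']
    (X : Set F') (y : F') (p q : F' → Ext F') :
    Rs X y ((p * q) y) = Rs X y (p y) * Rs X y (q y) := by rw [Pi.mul_apply, map_mul]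
theorem rs_add {F' : Type*} [NormedAddCommGroup F'] [NormedSpace ℝ F'] [FiniteDimensional ℝ F']
    (X : Set F') (y : F') (p q : F' → Ext F') :
    Rs X y ((p + q) y) = Rs X y (p y) + Rs X y (q y) := by rw [Pi.add_apply, map_add]
theorem rs_sub {F' : Type*} [NormedAddCommGroup F'] [NormedSpace ℝ F'] [FiniteDimensional ℝ F']
    (X : Set F') (y : F') (p q : F' → Ext F') :
    Rs X y ((p - q) y) = Rs X y (p y) - Rs X y (q y) := by rw [Pi.sub_apply, map_sub]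
theorem rs_pow {F' : Type*} [NormedAddCommGroup F'] [NormedSpace ℝ F'] [FiniteDimensional ℝ F']
    (X : Set F') (y : F') (p : F' → Ext F') (n : ℕ) :
    Rs X y ((p ^ n) y) = Rs X y (p y) ^ n := by rw [Pi.pow_apply, map_pow]
theorem rs_smul {F' : Type*} [NormedAddCommGroup F'] [NormedSpace ℝ F'] [FiniteDimensional ℝ F']
    (X : Set F') (y : F') (r : ℝ) (p : F' → Ext F') :
    Rs X y ((r • p) y) = r • Rs X y (p y) := by rw [Pi.smul_apply, map_smul]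
theorem rs_sum {F' : Type*} [NormedAddCommGroup F'] [NormedSpace ℝ F'] [FiniteDimensional ℝ F']
    (X : Set F') (y : F') {ι : Type*} (s : Finset ι) (p : ι → F' → Ext F') :
    Rs X y ((∑ i ∈ s, p i) y) = ∑ i ∈ s, Rs X y (p i y) := by
  rw [Finset.sum_apply, map_sum]

/-- `u = d(sθ) h`, the quotient polynomial `Q = Σ ρ^i u^(n-1-i)` -/
def QQ (a b h : E × ℝ → Ext (E × ℝ)) (θ : E → Ext E) (n : ℕ) : E × ℝ → Ext (E × ℝ) :=
  ∑ i ∈ Finset.range n, (a - b) ^ i * (F.d (cyl θ) * h) ^ (n - 1 - i)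

namespace Fam

theorem su (H : Fam Z V m a b h η θ c) : Sm (Cyl Z) (F.d (cyl θ) * h) := (sm_cyl H.sθ).d.mul H.sh
theorem cu (H : Fam Z V m a b h η θ c) : Cl (Cyl Z) (F.d (cyl θ) * h) :=
  Cl.mul (sm_cyl H.sθ).d H.sh (d_d' (sm_cyl H.sθ)) H.ch
theorem sρ (H : Fam Z V m a b h η θ c) : Sm (Cyl Z) (a - b) := H.sa.sub H.sb
theorem cρ (H : Fam Z V m a b h η θ c) : Cl (Cyl Z) (a - b) := Cl.sub H.sa H.sb H.ca H.cb
theorem eρ (H : Fam Z V m a b h η θ c) : Ev (Cyl Z) (a - b) := H.ea.sub H.eb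

theorem sQ (H : Fam Z V m a b h η θ c) (n : ℕ) : Sm (Cyl Z) (QQ a b h θ n) :=
  Sm.sum _ fun i _ => (Sm.pow H.sρ i).mul (Sm.pow H.su _)
theorem cQ (H : Fam Z V m a b h η θ c) (n : ℕ) : Cl (Cyl Z) (QQ a b h θ n) :=
  Cl.sum _ (fun i _ => (Sm.pow H.sρ i).mul (Sm.pow H.su _)) fun i _ =>
    Cl.mul (Sm.pow H.sρ i) (Sm.pow H.su _) (Cl.pow H.sρ H.cρ i) (Cl.pow H.su H.cu _)

/-- the primitive of `ρ^(2m) h` -/
def Psi (a b h η : E × ℝ → Ext (E × ℝ)) (θ : E → Ext E) (m : ℕ) : E × ℝ → Ext (E × ℝ) :=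
  cyl θ * (F.d (cyl θ) ^ (2 * m - 1) * h ^ (2 * m) * h) + η * (QQ a b h θ (2 * m) * h)

theorem sPsi1 (H : Fam Z V m a b h η θ c) :
    Sm (Cyl Z) (F.d (cyl θ) ^ (2 * m - 1) * h ^ (2 * m) * h) :=
  ((Sm.pow (sm_cyl H.sθ).d _).mul (Sm.pow H.sh _)).mul H.sh
theorem cPsi1 (H : Fam Z V m a b h η θ c) :
    Cl (Cyl Z) (F.d (cyl θ) ^ (2 * m - 1) * h ^ (2 * m) * h) :=
  Cl.mul ((Sm.pow (sm_cyl H.sθ).d _).mul (Sm.pow H.sh _)) H.sh
    (Cl.mul (Sm.pow (sm_cyl H.sθ).d _) (Sm.pow H.sh _)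
      (Cl.pow (sm_cyl H.sθ).d (d_d' (sm_cyl H.sθ)) _) (Cl.pow H.sh H.ch _)) H.ch

theorem sPsi (H : Fam Z V m a b h η θ c) : Sm (Cyl Z) (Psi a b h η θ m) :=
  ((sm_cyl H.sθ).mul H.sPsi1).add (H.sη.mul ((H.sQ _).mul H.sh))

theorem dPsi (H : Fam Z V m a b h η θ c) (hm : 1 ≤ m) :
    Eqv (Cyl Z) (F.d (Psi a b h η θ m))
      (((-1) ^ m * ((2 * m).choose m : ℝ)) • (h * a ^ m * b ^ m)) := by
  have h1 : Eqv (Cyl Z) (F.d (Psi a b h η θ m))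
      (F.d (cyl θ) * (F.d (cyl θ) ^ (2 * m - 1) * h ^ (2 * m) * h) +
        F.d η * (QQ a b h θ (2 * m) * h)) := by
    refine (d_add_eqv ((sm_cyl H.sθ).mul H.sPsi1) (H.sη.mul ((H.sQ _).mul H.sh))).trans ?_
    exact (d_mul_cl (sm_cyl H.sθ) H.sPsi1 H.cPsi1).add
      (d_mul_cl H.sη ((H.sQ _).mul H.sh) (Cl.mul (H.sQ _) H.sh (H.cQ _) H.ch))
  refine h1.trans (eqv_iff.2 fun y hy => ?_)
  have hrel := eqv_iff.1 H.rel y hy
  have e1 := eqv_iff.1 H.a0 y hy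
  have e2 := eqv_iff.1 H.b0 y hy
  have ca := fun q => H.ea.comm hy q
  have ch := fun q => H.eh.comm hy q
  have cρ := fun q => H.eρ.comm hy q
  simp only [QQ, rs_mul, rs_add, rs_sub, rs_pow, rs_smul, rs_sum, Pi.zero_apply, map_zero] at *
  set A := Rs (Cyl Z) y (a y)
  set B := Rs (Cyl Z) y (b y)
  set Hh := Rs (Cyl Z) y (h y)
  set U := Rs (Cyl Z) y (F.d (cyl θ) y)
  set W := Rs (Cyl Z) y (F.d η y)
  have hW : W = (A - B) - U * Hh := by rw [hrel]; abel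
  have hgeo := ((cρ (U * Hh)).mul_geom_sum₂ (2 * m))
  have hmid := binom_mid (ca B) e1 e2
  have hU : U * (U ^ (2 * m - 1) * Hh ^ (2 * m) * Hh) = (U * Hh) ^ (2 * m) * Hh := by
    rw [((ch U).symm).mul_pow, ← mul_assoc, ← mul_assoc, ← pow_succ',
      show 2 * m - 1 + 1 = 2 * m by omega]
  rw [hU, hW, ← mul_assoc (A - B - U * Hh), hgeo, ← add_mul, add_sub_cancel, hmid,
    smul_mul_assoc, ← ((ch (A ^ m * B ^ m))).eq, mul_assoc Hh]

/-- slices of `d(sθ) h` and of `Q` are horizontal at `s = 1` -/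
theorem hz_dcyl (H : Fam Z V m a b h η θ c) {n : ℕ} (hZ : Sub n Z) :
    Hz Z V (F.pull (sl 1) (F.d (cyl θ))) :=
  Hz.eqv H.Vt (pull_sl_dcyl hZ 1 H.sθ) (H.dθ.smul 1)

theorem hz_u (H : Fam Z V m a b h η θ c) {n : ℕ} (hZ : Sub n Z) :
    Hz Z V (F.pull (sl 1) (F.d (cyl θ) * h)) := by
  rw [pull_mul']; exact (H.hz_dcyl hZ).mul H.h1

theorem hz_ρ (H : Fam Z V m a b h η θ c) : Hz Z V (F.pull (sl 1) (a - b)) := by
  rw [pull_sub']; exact H.a1.sub H.b1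

theorem hz_Q (H : Fam Z V m a b h η θ c) {n : ℕ} (hZ : Sub n Z) (N : ℕ) :
    Hz Z V (F.pull (sl 1) (QQ a b h θ N)) := by
  rw [QQ, pull_sum']
  refine Hz.sum _ fun i _ => ?_
  rw [pull_mul', pull_pow', pull_pow']
  exact (H.hz_ρ.pow i).mul ((H.hz_u hZ).pow _)

theorem Psi_zero (H : Fam Z V m a b h η θ c) :
    Eqv Z (F.pull (sl 0) (Psi a b h η θ m)) 0 := by
  rw [Psi, pull_add', pull_mul' _ (cyl θ), pull_mul' _ η]
  have h1 : Eqv Z (F.pull (sl 0) (cyl θ)) 0 := Eqv.of_eq fun x hx => by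
    rw [pull_sl_cyl 0 H.sθ hx, zero_smul]; rfl
  have h2 := (h1.mul (Eqv.refl (F.pull (sl 0) (F.d (cyl θ) ^ (2 * m - 1) * h ^ (2 * m) * h)))).add
    (H.η0.mul (Eqv.refl (F.pull (sl 0) (QQ a b h θ (2 * m) * h))))
  rwa [zero_mul, zero_mul, add_zero] at h2

theorem Psi_one (H : Fam Z V m a b h η θ c) {n : ℕ} (hZ : Sub n Z) :
    Eqv Z (F.pull (sl 1) (Psi a b h η θ m))
      (θ * (F.d θ ^ (2 * m - 1) * F.pull (sl 1) h ^ (2 * m + 1)) +
        F.pull (sl 1) η * (F.pull (sl 1) (QQ a b h θ (2 * m)) * F.pull (sl 1) h)) := by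
  rw [Psi, pull_add', pull_mul', pull_mul', pull_mul', pull_mul', pull_mul', pull_pow', pull_pow']
  have h1 : Eqv Z (F.pull (sl 1) (cyl θ)) θ := Eqv.of_eq fun x hx => by
    rw [pull_sl_cyl 1 H.sθ hx, one_smul]
  refine Eqv.add (h1.mul ?_) (Eqv.refl _)
  refine eqv_iff.2 fun x hx => ?_
  have h2 := eqv_iff.1 (pull_sl_dcyl hZ 1 H.sθ) x hx
  rw [one_smul] at h2
  simp only [rs_mul, rs_pow] at *
  rw [h2, pow_succ, mul_assoc]

/-- **(RR1)** -/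
theorem rr1 (H : Fam Z V m a b h η θ c) (hZ : Clo d Z) (ho : Ori d Z o) (hm : 1 ≤ m) :
    J d Z o (θ * (F.d θ ^ (2 * m - 1) * F.pull (sl 1) h ^ (2 * m + 1))) =
      ((-1) ^ m * ((2 * m).choose m : ℝ)) * J d Z o (K (h * a ^ m * b ^ m)) := by
  have hs : Sm (Cyl Z) (h * a ^ m * b ^ m) := (H.sh.mul (Sm.pow H.sa m)).mul (Sm.pow H.sb m)
  have h1 := JK_congr (o := o) hZ H.sPsi.d (hs.smul _) (H.dPsi hm)
  rw [JK_smul, JK_d hZ ho H.sPsi, J_eqv hZ H.Psi_zero, J_eqv hZ (H.Psi_one hZ.sub),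
    J_add' hZ ho] at h1
  · have h2 : J d Z o (F.pull (sl 1) η *
        (F.pull (sl 1) (QQ a b h θ (2 * m)) * F.pull (sl 1) h)) = 0 :=
      J_hz hZ H.Vt H.V0 (H.η1.mul ((H.hz_Q hZ.sub _).mul H.h1))
    have h3 : J d Z o (0 : E → Ext E) = 0 := J_hz hZ H.Vt H.V0 Hz.zero
    rw [h2, h3, add_zero, sub_zero] at h1
    exact h1
  · exact H.sθ.mul ((Sm.pow H.sθ.d _).mul (Sm.pow (H.sh.pull (smap_sl 1)) _))
  · exact (H.sη.pull (smap_sl 1)).mul (((H.sQ _).pull (smap_sl 1)).mul (H.sh.pull (smap_sl 1)))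

end Fam

end Crest.Agent.R208.RR
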