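import Crest.Agent.R208.RR1

/-! Row 208, block RR (helper427), part RR2: integration along the orbits, the division lemma,
primitives on the cylinder, and the value of `D`. -/

set_option autoImplicit false
set_option linter.unusedSectionVars false
set_option linter.unusedVariables false

open MeasureTheory Set Filter Topology Module
open scoped ContDiff
open Crest.Agent.R208.F Crest.Agent.R208.FI Crest.Agent.R208.CW Crest.Agent.R208.T

noncomputable section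

namespace Crest.Agent.R208.RR

universe u
variable {E : Type u} [NormedAddCommGroup E] [NormedSpace ℝ E] [FiniteDimensional ℝ E]
  {d : ℕ} {Z : Set E} {o : E → Ext E} {x : E} {φ : ℝ → E → E} {μ μ' γ β : E → Ext E}

/-- the flow map `(x, t) ↦ φ (2π t) x` -/
def Fl (φ : ℝ → E → E) (q : E × ℝ) : E := φ (2 * Real.pi * q.2) q.1

theorem contDiffAt_Fl (hφ : CM.Cir Z φ) (hx : x ∈ Z) (t : ℝ) : ContDiffAt ℝ ∞ (Fl φ) (x, t) := by
  have h1 := hφ.smooth (2 * Real.pi * t) x hx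
  have h2 : ContDiffAt ℝ ∞ (fun q : E × ℝ => ((2 * Real.pi * q.2, q.1) : ℝ × E)) (x, t) :=
    ((contDiff_const.mul contDiff_snd).prodMk contDiff_fst).contDiffAt
  exact ContDiffAt.comp (g := fun q : ℝ × E => φ q.1 q.2) (x, t) h1 h2

theorem Fl_mem (hφ : CM.Cir Z φ) (hx : x ∈ Z) (t : ℝ) : Fl φ (x, t) ∈ Z := hφ.maps _ hx

/-- integration along the orbits -/
def Wp (φ : ℝ → E → E) (μ : E → Ext E) : E → Ext E := Hop (Fl φ) μ

theorem Sm.Wp (hφ : CM.Cir Z φ) (hμ : Sm Z μ) : Sm Z (Wp φ μ) := fun x hx =>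
  contDiffAt_Hop (fun t _ => contDiffAt_Fl hφ hx t) fun t _ => hμ _ (Fl_mem hφ hx t)

theorem fderiv_Fl_inl (hφ : CM.Cir Z φ) (hx : x ∈ Z) (t : ℝ) :
    (fderiv ℝ (Fl φ) (x, t)).comp (ContinuousLinearMap.inl ℝ E ℝ) =
      fderiv ℝ (φ (2 * Real.pi * t)) x := by
  have h1 : HasFDerivAt (Fl φ) (fderiv ℝ (Fl φ) (x, t)) (x, t) :=
    ((contDiffAt_Fl hφ hx t).differentiableAt (by simp)).hasFDerivAt
  have hj : HasFDerivAt (fun y : E => (y, t)) (ContinuousLinearMap.inl ℝ E ℝ) x :=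
    (hasFDerivAt_id x).prodMk (hasFDerivAt_const t x)
  exact (h1.comp x hj).fderiv.symm

theorem fderiv_Fl_inr (hφ : CM.Cir Z φ) (hx : x ∈ Z) (t : ℝ) :
    fderiv ℝ (Fl φ) (x, t) ((0, 1) : E × ℝ) =
      (2 * Real.pi) • CM.gen φ (φ (2 * Real.pi * t) x) := by
  have h1 : HasFDerivAt (Fl φ) (fderiv ℝ (Fl φ) (x, t)) (x, t) :=
    ((contDiffAt_Fl hφ hx t).differentiableAt (by simp)).hasFDerivAt
  have h2 : HasDerivAt (fun s : ℝ => ((x, s) : E × ℝ)) ((0, 1) : E × ℝ) t :=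
    (hasDerivAt_const t x).prodMk (hasDerivAt_id t)
  have h3 := h1.comp_hasDerivAt t h2
  have h4 := hφ.hasDerivAt hx (2 * Real.pi * t)
  have h5 : HasDerivAt (fun s : ℝ => 2 * Real.pi * s) (2 * Real.pi) t := by
    simpa using (hasDerivAt_id t).const_mul (2 * Real.pi)
  have h6 := h4.scomp t h5
  exact h3.unique h6

/-- the integrand -/
theorem hopL_Fl (hφ : CM.Cir Z φ) (hx : x ∈ Z) (t : ℝ) :
    hopL (ContinuousLinearMap.inl ℝ E ℝ) ((0, 1) : E × ℝ) (F.pull (Fl φ) μ (x, t)) =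
      (2 * Real.pi) • pb ((fderiv ℝ (φ (2 * Real.pi * t)) x : E →L[ℝ] E) : E →ₗ[ℝ] E)
        (ii (CM.gen φ (φ (2 * Real.pi * t) x)) (μ (φ (2 * Real.pi * t) x))) := by
  rw [hopL_apply, F.pull, ii_pb]
  change pb _ (pb _ (ii (fderiv ℝ (Fl φ) (x, t) ((0, 1) : E × ℝ)) _)) = _
  rw [fderiv_Fl_inr hφ hx, pb_comp]
  have h1 : ((fderiv ℝ (Fl φ) (x, t) : E × ℝ →L[ℝ] E) : E × ℝ →ₗ[ℝ] E) ∘ₗ
      ((ContinuousLinearMap.inl ℝ E ℝ : E →L[ℝ] E × ℝ) : E →ₗ[ℝ] E × ℝ) =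
      ((fderiv ℝ (φ (2 * Real.pi * t)) x : E →L[ℝ] E) : E →ₗ[ℝ] E) := by
    rw [← fderiv_Fl_inl hφ hx t]; rfl
  rw [h1, map_smul, LinearMap.smul_apply, map_smul]
  rfl

theorem Wp_apply (x : E) : Wp φ μ x = ∫ t in (0 : ℝ)..1,
    hopL (ContinuousLinearMap.inl ℝ E ℝ) ((0, 1) : E × ℝ) (F.pull (Fl φ) μ (x, t)) := by
  rw [Wp, Hop, hop, I1]
  simp only [hopg, jv_inl]

theorem integrable_Wp (hφ : CM.Cir Z φ) (hμ : Sm Z μ) (hx : x ∈ Z) :
    IntervalIntegrable (fun t => hopL (ContinuousLinearMap.inl ℝ E ℝ) ((0, 1) : E × ℝ)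
      (F.pull (Fl φ) μ (x, t))) volume 0 1 := by
  refine Continuous.intervalIntegrable ?_ _ _
  refine (hopL _ _).continuous.comp ?_
  rw [continuous_iff_continuousAt]
  intro t
  have h1 : ContinuousAt (F.pull (Fl φ) μ) ((fun s : ℝ => ((x, s) : E × ℝ)) t) :=
    (contDiffAt_pull (m := ∞) (contDiffAt_Fl hφ hx t) (by simp)
      (hμ _ (Fl_mem hφ hx t))).continuousAt
  exact h1.comp (f := fun s : ℝ => ((x, s) : E × ℝ)) (by fun_prop : Continuous
    (fun s : ℝ => ((x, s) : E × ℝ))).continuousAt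

/-- integration along the orbits gives horizontal forms -/
theorem Wp_hz (hφ : CM.Cir Z φ) (hμ : Sm Z μ) : Hz Z (CM.gen φ) (Wp φ μ) := by
  intro x hx
  have h0 : ii (CM.gen φ x) (Wp φ μ x) = 0 := by
    have h1 : ii (CM.gen φ x) (Wp φ μ x) = iiL (CM.gen φ x) (Wp φ μ x) := rfl
    rw [h1, Wp_apply, ← ContinuousLinearMap.intervalIntegral_comp_comm _ (integrable_Wp hφ hμ hx)]
    have h2 : ∀ t : ℝ, iiL (CM.gen φ x) (hopL (ContinuousLinearMap.inl ℝ E ℝ) ((0, 1) : E × ℝ)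
        (F.pull (Fl φ) μ (x, t))) = 0 := by
      intro t
      rw [hopL_Fl hφ hx, iiL_apply, map_smul, ii_pb]
      change _ • pb _ (ii (fderiv ℝ (φ (2 * Real.pi * t)) x (CM.gen φ x)) _) = _
      rw [hφ.fderiv_gen hx, ii_ii, map_zero, smul_zero]
    simp only [h2, intervalIntegral.integral_zero]
  rw [h0, map_zero]

theorem Wp_eqv0 (hφ : CM.Cir Z φ) (hμ : Sm Z μ) (h : ResZero Z μ) : ResZero Z (Wp φ μ) :=
  resZero_hop (fun x hx t _ => by
      rw [jv_inl]; exact (contDiffAt_Fl hφ hx t).of_le two_le)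
    (fun x hx t _ => by rw [jv_inl]; exact Fl_mem hφ hx t)
    (fun x hx t _ => by rw [jv_inl]; exact (hμ _ (Fl_mem hφ hx t)).continuousAt) h

theorem Wp_sub (hφ : CM.Cir Z φ) (hμ : Sm Z μ) (hμ' : Sm Z μ') (hx : x ∈ Z) :
    Wp φ (μ - μ') x = Wp φ μ x - Wp φ μ' x := by
  simp only [Wp_apply]
  rw [← intervalIntegral.integral_sub (integrable_Wp hφ hμ hx) (integrable_Wp hφ hμ' hx)]
  simp only [pull_sub', Pi.sub_apply, map_sub]

theorem Wp_eqv (hφ : CM.Cir Z φ) (hμ : Sm Z μ) (hμ' : Sm Z μ') (h : Eqv Z μ μ') :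
    Eqv Z (Wp φ μ) (Wp φ μ') := by
  have h1 := Wp_eqv0 hφ (hμ.sub hμ') h
  refine eqv_iff.2 fun x hx => ?_
  have h2 := h1 x hx
  rw [Wp_sub hφ hμ hμ' hx, map_sub, sub_eq_zero] at h2
  exact h2

/-- `d W + W d = 0` on `Z` -/
theorem d_Wp (hφ : CM.Cir Z φ) (hμ : Sm Z μ) : Eqv Z (F.d (Wp φ μ)) (-(Wp φ (F.d μ))) := by
  have h1 : ∀ x ∈ Z, F.d (Wp φ μ) x + Wp φ (F.d μ) x =
      F.pull (fun y => Fl φ (y, 1)) μ x - F.pull (fun y => Fl φ (y, 0)) μ x := by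
    intro x hx
    have := d_hop_pull (j := ContinuousLinearMap.inl ℝ E ℝ) (v := ((0, 1) : E × ℝ)) (Fh := Fl φ)
      (om := μ) (x := x) (fun t _ => by
        rw [jv_inl]; exact (contDiffAt_Fl hφ hx t).of_le two_le)
      (fun t _ => by
        rw [jv_inl]; exact (hμ _ (Fl_mem hφ hx t)).of_le (by exact_mod_cast le_top))
    simp only [jv_inl] at this
    exact this
  have hs : ∀ t : ℝ, ∀ x ∈ Z, DifferentiableAt ℝ (fun y => Fl φ (y, t)) x := fun t x hx =>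
    show DifferentiableAt ℝ (φ (2 * Real.pi * t)) x from
      (hφ.smooth_right _ hx).differentiableAt (by simp)
  have h2 : Eqv Z (F.pull (fun y => Fl φ (y, 1)) μ) (F.pull (fun y => Fl φ (y, 0)) μ) :=
    eqv_pull_of_eq μ (hs 1) (hs 0) fun y hy => by
      simp only [Fl]
      rw [mul_one, mul_zero, hφ.per y hy, hφ.zero y hy]
  refine eqv_iff.2 fun x hx => ?_
  have h3 := congrArg (Rs Z x) (h1 x hx)
  rw [map_add, map_sub, eqv_iff.1 h2 x hx, sub_self] at h3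
  rw [Pi.neg_apply, map_neg]
  exact eq_neg_of_add_eq_zero_left h3

/-- `γ` is invariant -/
def Inv (Z : Set E) (φ : ℝ → E → E) (γ : E → Ext E) : Prop := ∀ t, Eqv Z (F.pull (φ t) γ) γ

theorem Inv.mul (h : Inv Z φ γ) (h' : Inv Z φ β) : Inv Z φ (γ * β) := fun t => by
  rw [pull_mul']; exact (h t).mul (h' t)
theorem Inv.add (h : Inv Z φ γ) (h' : Inv Z φ β) : Inv Z φ (γ + β) := fun t => by
  rw [pull_add']; exact (h t).add (h' t)
theorem Inv.sub (h : Inv Z φ γ) (h' : Inv Z φ β) : Inv Z φ (γ - β) := fun t => by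
  rw [pull_sub']; exact (h t).sub (h' t)
theorem Inv.smul (r : ℝ) (h : Inv Z φ γ) : Inv Z φ (r • γ) := fun t => by
  rw [pull_smul']; exact (h t).smul r
theorem Inv.one : Inv Z φ (1 : E → Ext E) := fun t => by rw [pull_one']; exact Eqv.refl _
theorem Inv.pow (h : Inv Z φ γ) (n : ℕ) : Inv Z φ (γ ^ n) := by
  induction n with
  | zero => rw [pow_zero]; exact Inv.one
  | succ n ih => rw [pow_succ]; exact ih.mul h
theorem Inv.sum {ι : Type*} (s : Finset ι) {f : ι → E → Ext E} (h : ∀ i ∈ s, Inv Z φ (f i)) :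
    Inv Z φ (∑ i ∈ s, f i) := by
  classical
  induction s using Finset.induction_on with
  | empty => rw [Finset.sum_empty]; intro t; rw [pull_zero']; exact Eqv.refl _
  | insert i s hi ih =>
    rw [Finset.sum_insert hi]
    exact (h i (Finset.mem_insert_self _ _)).add (ih fun j hj => h j (Finset.mem_insert_of_mem hj))

/-- the integral over the orbits of `μ` with `ι_V μ = r γ`, `γ` invariant -/
theorem Wp_inv (hφ : CM.Cir Z φ) (hμ : Sm Z μ) (r : ℝ) (hγ : Inv Z φ γ)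
    (h : ∀ x ∈ Z, Rs Z x (ii (CM.gen φ x) (μ x)) = r • Rs Z x (γ x)) :
    Eqv Z (Wp φ μ) ((2 * Real.pi * r) • γ) := by
  refine eqv_iff.2 fun x hx => ?_
  let R : Ext E →L[ℝ] Ext (Tan Z x) :=
    LinearMap.toContinuousLinearMap (pb (Tan Z x).subtype).toLinearMap
  have h1 : Rs Z x (Wp φ μ x) = R (Wp φ μ x) := rfl
  change Rs Z x (Wp φ μ x) = _
  rw [h1, Wp_apply, ← ContinuousLinearMap.intervalIntegral_comp_comm _ (integrable_Wp hφ hμ hx)]
  have h2 : ∀ t : ℝ, R (hopL (ContinuousLinearMap.inl ℝ E ℝ) ((0, 1) : E × ℝ)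
      (F.pull (Fl φ) μ (x, t))) = (2 * Real.pi * r) • Rs Z x (γ x) := by
    intro t
    rw [hopL_Fl hφ hx]
    set s := 2 * Real.pi * t
    have h3 : Rs Z (φ s x) (ii (CM.gen φ (φ s x)) (μ (φ s x)) - r • γ (φ s x)) = 0 := by
      rw [map_sub, h _ (hφ.maps s hx), map_smul, sub_self]
    have h4 := pb_pull_eq_zero (X := Z) (Y := Z) (f := φ s) (x := x)
      ((hφ.smooth_right s hx).differentiableAt (by simp)) (hφ.maps s) h3
    rw [map_sub, map_sub, sub_eq_zero, map_smul, map_smul] at h4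
    have h5 := eqv_iff.1 (hγ s) x hx
    rw [F.pull] at h5
    rw [h5] at h4
    change Rs Z x ((2 * Real.pi) • _) = _
    rw [map_smul, mul_smul (2 * Real.pi) r]
    exact congrArg _ h4
  simp only [h2, intervalIntegral.integral_const, sub_zero, one_smul]
  rw [Pi.smul_apply, map_smul]

/-- **division lemma** -/
theorem division (hφ : CM.Cir Z φ) {θ : E → Ext E} {c : ℝ} (hc : c ≠ 0)
    (hθ : ∀ x ∈ Z, Rs Z x (ii (CM.gen φ x) (θ x)) = algebraMap ℝ _ c) (sμ : Sm Z μ)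
    (sθ : Sm Z θ) (sγ : Sm Z γ) (sβ : Sm Z β)
    (hγ : Inv Z φ γ) (hγz : Hz Z (CM.gen φ) γ) (hβz : Hz Z (CM.gen φ) β)
    (h : Eqv Z (F.d μ) (θ * γ + β)) :
    ∃ ν : E → Ext E, Sm Z ν ∧ Hz Z (CM.gen φ) ν ∧ Eqv Z (F.d ν) γ := by
  have hπ : (2 * Real.pi * c) ≠ 0 := mul_ne_zero (by positivity) hc
  have s1 : Sm Z (θ * γ + β) := (sθ.mul sγ).add sβ
  have h1 : Eqv Z (Wp φ (θ * γ + β)) ((2 * Real.pi * c) • γ) := by
    refine Wp_inv hφ s1 c hγ fun x hx => ?_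
    rw [Pi.add_apply, Pi.mul_apply, map_add, map_add, ii_mul, map_add, map_mul, map_mul, hθ x hx,
      hγz x hx, hβz x hx, mul_zero, add_zero, add_zero, Algebra.smul_def]
  refine ⟨(-(2 * Real.pi * c)⁻¹) • Wp φ μ, (Sm.Wp hφ sμ).smul _, (Wp_hz hφ sμ).smul _, ?_⟩
  have h2 := ((d_Wp hφ sμ).trans ((Wp_eqv hφ sμ.d s1 h).neg)).trans h1.neg
  refine (d_smul_eqv _ (Sm.Wp hφ sμ)).trans ((h2.smul _).trans (Eqv.of_eq fun x hx => ?_))
  simp only [Pi.smul_apply, Pi.neg_apply]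
  rw [smul_neg, neg_smul, neg_neg, smul_smul, inv_mul_cancel₀ hπ, one_smul]

end Crest.Agent.R208.RR
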