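import Crest.Agent.R208.RR2

/-! Row 208, block RR (helper427), part RR3: primitives on the cylinder and the value of `D`. -/

set_option autoImplicit false
set_option linter.unusedSectionVars false
set_option linter.unusedVariables false

open MeasureTheory Set Filter Topology Module
open scoped ContDiff
open Crest.Agent.R208.F Crest.Agent.R208.FI Crest.Agent.R208.CW Crest.Agent.R208.T

noncomputable section

namespace Crest.Agent.R208.RR

universe u
variable {E : Type u} [NormedAddCommGroup E] [NormedSpace ℝ E] [FiniteDimensional ℝ E]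
  {d : ℕ} {Z : Set E} {o : E → Ext E} {x : E} {φ : ℝ → E → E}
  {Om : E × ℝ → Ext (E × ℝ)}

theorem pull_fst_sl (s : ℝ) (hw : Sm (Cyl Z) Om) {y : E × ℝ} (hy : y ∈ Cyl Z) :
    F.pull Prod.fst (F.pull (sl s) Om) y = F.pull (fun q : E × ℝ => (q.1, s)) Om y := by
  rw [pull_comp differentiableAt_fst ((contDiff_sl s).differentiable (by simp) _)]
  rfl

/-- homotopy `s ↦ s + (1 - s) t` -/
def Ho (p : (E × ℝ) × ℝ) : E × ℝ := (p.1.1, p.1.2 + (1 - p.1.2) * p.2)

theorem contDiff_Ho : ContDiff ℝ ∞ (Ho (E := E)) := by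
  unfold Ho
  fun_prop

/-- primitives with vanishing end at `1` -/
theorem prim_one (hs : Sm (Cyl Z) Om) (hc : Cl (Cyl Z) Om) (h1 : Eqv Z (F.pull (sl 1) Om) 0) :
    ∃ κ : E × ℝ → Ext (E × ℝ), Sm (Cyl Z) κ ∧ Eqv (Cyl Z) (F.d κ) Om ∧
      Eqv Z (F.pull (sl 1) κ) 0 := by
  have hm : ∀ y ∈ Cyl Z, ∀ t ∈ Icc (0 : ℝ) 1, Ho (y, t) ∈ Cyl Z := fun y hy t _ => hy
  have hS : Sm (Cyl Z) (Hop Ho Om) := fun y hy =>
    contDiffAt_Hop (fun t _ => contDiff_Ho.contDiffAt) fun t ht => hs _ (hm y hy t ht)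
  have h2 := resZero_Hop (X := Cyl Z) (Y := Cyl Z) (Fh := Ho) (om := Om)
    (fun y _ t _ => contDiff_Ho.contDiffAt.of_le two_le) hm
    (fun y hy => (hs y hy).of_le (by exact_mod_cast le_top)) hc
  refine ⟨-(Hop Ho Om), hS.neg, ?_, ?_⟩
  · rw [d_neg']
    refine eqv_iff.2 fun y hy => ?_
    have h3 := h2 y hy
    rw [map_sub, map_sub] at h3
    have h4 : F.pull (fun y : E × ℝ => Ho (y, 0)) Om y = Om y := by
      have : (fun y : E × ℝ => Ho (y, 0)) = fun y => y := by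
        funext q; simp [Ho]
      rw [this, pull_id]
    have h5 : pb (Tan (Cyl Z) y).subtype (F.pull (fun y : E × ℝ => Ho (y, 1)) Om y) = 0 := by
      have h6 : (fun y : E × ℝ => Ho (y, 1)) = fun q : E × ℝ => (q.1, (1 : ℝ)) := by
        funext q; simp [Ho]
      rw [h6, ← pull_fst_sl 1 hs hy]
      have h7 := Eqv.pull (smap_fst (Z := Z)) h1
      rw [pull_zero'] at h7
      have h8 := eqv_iff.1 h7 y hy
      rw [Pi.zero_apply, map_zero] at h8
      exact h8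
    rw [h4, h5, zero_sub] at h3
    rw [Pi.neg_apply, map_neg]
    rw [sub_eq_zero] at h3
    change -(pb (Tan (Cyl Z) y).subtype) (F.d (Hop Ho Om) y) = _
    rw [← h3, neg_neg]
  · refine Eqv.of_eq fun x hx => ?_
    have h3 : Hop Ho Om (x, 1) = 0 := by
      rw [Hop, hop, I1]
      simp only [hopg, jv_inl]
      have h4 : ∀ t : ℝ, hopL (ContinuousLinearMap.inl ℝ (E × ℝ) ℝ) (((0, 0), 1) : (E × ℝ) × ℝ)
          (F.pull Ho Om ((x, 1), t)) = 0 := by
        intro t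
        rw [hopL_apply, F.pull, ii_pb]
        have h5 : fderiv ℝ (Ho (E := E)) ((x, 1), t) (((0, 0), 1) : (E × ℝ) × ℝ) = 0 := by
          have h6 : HasFDerivAt (Ho (E := E)) (fderiv ℝ (Ho (E := E)) ((x, 1), t)) ((x, 1), t) :=
            ((contDiff_Ho (E := E)).differentiable (by simp) _).hasFDerivAt
          have h7 : HasDerivAt (fun s : ℝ => (((x, 1), s) : (E × ℝ) × ℝ))
              (((0, 0), 1) : (E × ℝ) × ℝ) t := (hasDerivAt_const t ((x, 1) : E × ℝ)).prodMk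
                (hasDerivAt_id t)
          have h8 := h6.comp_hasDerivAt t h7
          have h9 : (Ho (E := E)) ∘ (fun s : ℝ => (((x, 1), s) : (E × ℝ) × ℝ)) = fun _ => (x, 1) := by
            funext s; simp [Ho]
          rw [h9] at h8
          exact h8.unique (hasDerivAt_const t _)
        change pb _ (pb _ (ii (fderiv ℝ (Ho (E := E)) ((x, 1), t) (((0, 0), 1) : (E × ℝ) × ℝ)) _)) = 0
        rw [h5, map_zero, LinearMap.zero_apply, map_zero, map_zero]
      have h10 : (((0 : E × ℝ), (1 : ℝ)) : (E × ℝ) × ℝ) = ((0, 0), 1) := rfl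
      rw [h10]
      simp only [h4, intervalIntegral.integral_zero]
    rw [pull_sl_apply, Pi.neg_apply, h3, neg_zero, map_zero]
    rfl

/-- `h_m(a, b) = Σ a^i b^(m-i)` -/
def HM (a b : E × ℝ → Ext (E × ℝ)) (m : ℕ) : E × ℝ → Ext (E × ℝ) :=
  ∑ i ∈ Finset.range (m + 1), a ^ i * b ^ (m + 1 - 1 - i)

variable {m : ℕ} {a b h η : E × ℝ → Ext (E × ℝ)} {θ : E → Ext E} {c : ℝ}

theorem hm_mul {A : Type*} [Ring A] {m : ℕ} {p q : A} (hq : q ^ (m + 1) = 0) :
    (∑ i ∈ Finset.range (m + 1), p ^ i * q ^ (m + 1 - 1 - i)) * q ^ m = p ^ m * q ^ m := by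
  rw [Finset.sum_mul, Finset.sum_eq_single m]
  · rw [show m + 1 - 1 - m = 0 by omega, pow_zero, mul_one]
  · intro i hi him
    have hi' := Finset.mem_range.1 hi
    rw [mul_assoc, ← pow_add, show m + 1 - 1 - i + m = (m + 1) + (m - i - 1) by omega, pow_add q,
      hq, zero_mul, mul_zero]
  · intro h
    exact absurd (Finset.mem_range.2 (by omega)) h

namespace Fam

variable {V : E → E}

theorem sHM (H : Fam Z V m a b h η θ c) : Sm (Cyl Z) (HM a b m) :=
  Sm.sum _ fun i _ => (Sm.pow H.sa i).mul (Sm.pow H.sb _)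
theorem cHM (H : Fam Z V m a b h η θ c) : Cl (Cyl Z) (HM a b m) :=
  Cl.sum _ (fun i _ => (Sm.pow H.sa i).mul (Sm.pow H.sb _)) fun i _ =>
    Cl.mul (Sm.pow H.sa i) (Sm.pow H.sb _) (Cl.pow H.sa H.ca i) (Cl.pow H.sb H.cb _)
theorem eHM (H : Fam Z V m a b h η θ c) : Ev (Cyl Z) (HM a b m) :=
  Ev.sum _ fun i _ => (Ev.pow H.ea i).mul (Ev.pow H.eb _)

theorem hz_HM (H : Fam Z V m a b h η θ c) : Hz Z V (F.pull (sl 1) (HM a b m)) := by
  rw [HM, pull_sum']
  refine Hz.sum _ fun i _ => ?_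
  rw [pull_mul', pull_pow', pull_pow']
  exact (H.a1.pow i).mul (H.b1.pow _)

theorem inv_HM (ha : Inv Z φ (F.pull (sl 1) a)) (hb : Inv Z φ (F.pull (sl 1) b)) :
    Inv Z φ (F.pull (sl 1) (HM a b m)) := by
  rw [HM, pull_sum']
  refine Inv.sum _ fun i _ => ?_
  rw [pull_mul', pull_pow', pull_pow']
  exact (ha.pow i).mul (hb.pow _)

/-- the closed form `(sθ h + η) h_m(a,b)` -/
theorem dT (H : Fam Z V m a b h η θ c) :
    Eqv (Cyl Z) (F.d (cyl θ * (h * HM a b m) + η * HM a b m)) 0 := by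
  have h1 : Eqv (Cyl Z) (F.d (cyl θ * (h * HM a b m) + η * HM a b m))
      (F.d (cyl θ) * (h * HM a b m) + F.d η * HM a b m) := by
    refine (d_add_eqv ((sm_cyl H.sθ).mul (H.sh.mul H.sHM)) (H.sη.mul H.sHM)).trans ?_
    exact (d_mul_cl (sm_cyl H.sθ) (H.sh.mul H.sHM) (Cl.mul H.sh H.sHM H.ch H.cHM)).add
      (d_mul_cl H.sη H.sHM H.cHM)
  refine h1.trans (eqv_iff.2 fun y hy => ?_)
  have hrel := eqv_iff.1 H.rel y hy
  have e1 := eqv_iff.1 H.a0 y hy
  have e2 := eqv_iff.1 H.b0 y hy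
  have ca := fun q => H.ea.comm hy q
  simp only [HM, rs_mul, rs_add, rs_sub, rs_pow, rs_smul, rs_sum, Pi.zero_apply, map_zero] at *
  rw [← mul_assoc, ← add_mul, ← hrel, (ca _).mul_geom_sum₂, e1, e2, sub_zero]

set_option maxHeartbeats 1000000 in
/-- **(RR2)** the value of `D` -/
theorem rr2 (H : Fam Z (CM.gen φ) m a b h η θ c) (hZ : Clo d Z) (ho : Ori d Z o)
    (hφ : CM.Cir Z φ) (hc : c ≠ 0)
    (ia : Inv Z φ (F.pull (sl 1) a)) (ib : Inv Z φ (F.pull (sl 1) b))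
    (ih : Inv Z φ (F.pull (sl 1) h)) (h00 : Eqv Z (F.pull (sl 0) a) (F.pull (sl 0) b)) :
    ∃ κ : E → Ext E, Sm Z κ ∧
      Eqv Z (F.d κ) ((m + 1 : ℝ) • (F.pull (sl 0) h * F.pull (sl 0) a ^ m)) ∧
      J d Z o (K (h * a ^ m * b ^ m)) = - J d Z o (κ * F.pull (sl 0) a ^ m) := by
  -- the closed form T
  set T := cyl θ * (h * HM a b m) + η * HM a b m with hT
  have sT : Sm (Cyl Z) T := ((sm_cyl H.sθ).mul (H.sh.mul H.sHM)).add (H.sη.mul H.sHM)
  have hT0 : Eqv Z (F.pull (sl 0) T) 0 := by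
    rw [hT, pull_add', pull_mul' _ (cyl θ), pull_mul' _ η]
    have h1 : Eqv Z (F.pull (sl 0) (cyl θ)) 0 := Eqv.of_eq fun x hx => by
      rw [pull_sl_cyl 0 H.sθ hx, zero_smul]; rfl
    have h2 := (h1.mul (Eqv.refl (F.pull (sl 0) (h * HM a b m)))).add
      (H.η0.mul (Eqv.refl (F.pull (sl 0) (HM a b m))))
    rwa [zero_mul, zero_mul, add_zero] at h2
  have hT1 : Eqv Z (F.pull (sl 1) T) (θ * (F.pull (sl 1) h * F.pull (sl 1) (HM a b m)) +
      F.pull (sl 1) η * F.pull (sl 1) (HM a b m)) := by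
    rw [hT, pull_add', pull_mul' _ (cyl θ), pull_mul' _ η, pull_mul' _ h]
    have h1 : Eqv Z (F.pull (sl 1) (cyl θ)) θ := Eqv.of_eq fun x hx => by
      rw [pull_sl_cyl 1 H.sθ hx, one_smul]
    exact (h1.mul (Eqv.refl _)).add (Eqv.refl _)
  have hKT : Eqv Z (F.d (K T)) (F.pull (sl 1) T) := by
    have h1 := K_d_eqv sT
    have h2 : Eqv Z (K (F.d T)) 0 := by
      have h3 := K_eqv sT.d Sm.zero H.dT
      refine h3.trans (Eqv.of_eq fun x hx => ?_)
      have : K (0 : E × ℝ → Ext (E × ℝ)) = 0 := by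
        have h4 := K_smul (E := E) (w := 0) (0 : ℝ)
        rwa [zero_smul, zero_smul] at h4
      rw [this]
    have h3 := h1.sub h2
    have h4 := (Eqv.refl (F.pull (sl 1) T)).sub hT0
    rw [sub_zero] at h3 h4
    have h5 : F.d (K T) + K (F.d T) - K (F.d T) = F.d (K T) := add_sub_cancel_right _ _
    have h6 := h1.sub (Eqv.refl (K (F.d T)))
    rw [h5] at h6
    refine h6.trans ?_
    have h7 := h4.sub h2
    rwa [sub_zero] at h7
  -- division
  obtain ⟨ν, sν, zν, dν⟩ := division hφ hc H.θ1 (Sm.K sT) H.sθ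
    ((H.sh.pull (smap_sl 1)).mul (H.sHM.pull (smap_sl 1)))
    ((H.sη.pull (smap_sl 1)).mul (H.sHM.pull (smap_sl 1)))
    (ih.mul (inv_HM ia ib)) (H.h1.mul H.hz_HM) (H.η1.mul H.hz_HM) (hKT.trans hT1)
  -- the primitive
  set Om := h * HM a b m - F.d (cyl ν) with hOm
  have sOm : Sm (Cyl Z) Om := (H.sh.mul H.sHM).sub (sm_cyl sν).d
  have cOm : Cl (Cyl Z) Om := Cl.sub (H.sh.mul H.sHM) (sm_cyl sν).d
    (Cl.mul H.sh H.sHM H.ch H.cHM) (d_d' (sm_cyl sν))
  have hOm1 : Eqv Z (F.pull (sl 1) Om) 0 := by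
    rw [hOm, pull_sub', pull_mul']
    have h1 := dν.symm.sub (pull_sl_dcyl hZ.sub 1 sν)
    rwa [one_smul, sub_self] at h1
  obtain ⟨κ, sκ, dκ, κ1⟩ := prim_one sOm cOm hOm1
  refine ⟨F.pull (sl 0) κ, sκ.pull (smap_sl 0), ?_, ?_⟩
  · refine (d_pull_eqv (smap_sl 0) sκ).trans ?_
    refine (Eqv.pull (smap_sl 0) dκ).trans ?_
    rw [hOm, pull_sub', pull_mul']
    have h1 := (Eqv.refl (X := Z) (F.pull (sl 0) h * F.pull (sl 0) (HM a b m))).sub
      (pull_sl_dcyl hZ.sub 0 sν)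
    rw [zero_smul, sub_zero] at h1
    refine h1.trans ?_
    refine eqv_iff.2 fun x hx => ?_
    have e00 := eqv_iff.1 h00 x hx
    have : F.pull (sl 0) (HM a b m) = ∑ i ∈ Finset.range (m + 1),
        F.pull (sl 0) a ^ i * F.pull (sl 0) b ^ (m + 1 - 1 - i) := by
      rw [HM, pull_sum']
      refine Finset.sum_congr rfl fun i _ => ?_
      rw [pull_mul', pull_pow', pull_pow']
    rw [this]
    simp only [rs_mul, rs_pow, rs_smul, rs_sum] at *
    rw [← e00]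
    have h2 : ∀ i ∈ Finset.range (m + 1),
        Rs Z x (F.pull (sl 0) a x) ^ i * Rs Z x (F.pull (sl 0) a x) ^ (m + 1 - 1 - i) =
        Rs Z x (F.pull (sl 0) a x) ^ m := by
      intro i hi
      have := Finset.mem_range.1 hi
      rw [← pow_add]
      congr 1
      omega
    rw [Finset.sum_congr rfl h2, Finset.sum_const, Finset.card_range,
      ← Nat.cast_smul_eq_nsmul ℝ, mul_smul_comm, Nat.cast_add, Nat.cast_one]
  · -- D
    have s1 : Sm (Cyl Z) (h * a ^ m * b ^ m) := (H.sh.mul (Sm.pow H.sa m)).mul (Sm.pow H.sb m)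
    have s2 : Sm (Cyl Z) ((κ + cyl ν) * b ^ m) := (sκ.add (sm_cyl sν)).mul (Sm.pow H.sb m)
    have h1 : Eqv (Cyl Z) (h * a ^ m * b ^ m) (F.d ((κ + cyl ν) * b ^ m)) := by
      refine Eqv.symm ((d_mul_cl (sκ.add (sm_cyl sν)) (Sm.pow H.sb m)
        (Cl.pow H.sb H.cb m)).trans ?_)
      refine (((d_add_eqv sκ (sm_cyl sν)).trans (dκ.add (Eqv.refl _))).mul (Eqv.refl _)).trans ?_
      rw [hOm, sub_add_cancel]
      refine eqv_iff.2 fun y hy => ?_
      have e2 := eqv_iff.1 H.b0 y hy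
      simp only [HM, rs_mul, rs_add, rs_sub, rs_pow, rs_smul, rs_sum, Pi.zero_apply,
        map_zero] at *
      rw [mul_assoc, hm_mul e2, mul_assoc]
    rw [JK_congr hZ s1 s2.d h1, JK_d hZ ho s2, pull_mul', pull_mul', pull_add', pull_add',
      pull_pow', pull_pow']
    have h2 : J d Z o ((F.pull (sl 1) κ + F.pull (sl 1) (cyl ν)) * F.pull (sl 1) b ^ m) = 0 := by
      have h3 : Eqv Z ((F.pull (sl 1) κ + F.pull (sl 1) (cyl ν)) * F.pull (sl 1) b ^ m)
          (ν * F.pull (sl 1) b ^ m) := by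
        have h4 : Eqv Z (F.pull (sl 1) (cyl ν)) ν := Eqv.of_eq fun x hx => by
          rw [pull_sl_cyl 1 sν hx, one_smul]
        have h5 := (κ1.add h4).mul (Eqv.refl (F.pull (sl 1) b ^ m))
        rwa [zero_add] at h5
      rw [J_eqv hZ h3]
      exact J_hz hZ H.Vt H.V0 (zν.mul (H.b1.pow m))
    have h6 : Eqv Z ((F.pull (sl 0) κ + F.pull (sl 0) (cyl ν)) * F.pull (sl 0) b ^ m)
        (F.pull (sl 0) κ * F.pull (sl 0) a ^ m) := by
      have h7 : Eqv Z (F.pull (sl 0) (cyl ν)) 0 := Eqv.of_eq fun x hx => by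
        rw [pull_sl_cyl 0 sν hx, zero_smul]; rfl
      refine eqv_iff.2 fun x hx => ?_
      have e00 := eqv_iff.1 h00 x hx
      have e7 := eqv_iff.1 h7 x hx
      simp only [rs_mul, rs_add, rs_pow, Pi.zero_apply, map_zero] at *
      rw [e7, add_zero, e00]
    rw [h2, J_eqv hZ h6, zero_sub]

end Fam

end Crest.Agent.R208.RR
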