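import Crest.Agent.R208.RR4

/-! Row 208, block RR (helper427), part RR5: averaging over the orbits; existence of the family
(RR3). -/

set_option autoImplicit false
set_option linter.unusedSectionVars false
set_option linter.unusedVariables false

open MeasureTheory Set Filter Topology Module
open scoped ContDiff
open Crest.Agent.R208.F Crest.Agent.R208.FI Crest.Agent.R208.CW Crest.Agent.R208.T

noncomputable section

namespace Crest.Agent.R208.RR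

universe u
variable {E : Type u} [NormedAddCommGroup E] [NormedSpace ℝ E] [FiniteDimensional ℝ E]
  {d : ℕ} {Z : Set E} {o : E → Ext E} {x : E} {φ : ℝ → E → E} {κ : E → Ext E}

/-- the form `(1 - t) φ^* κ` on the cylinder -/
def Aw (φ : ℝ → E → E) (κ : E → Ext E) : E × ℝ → Ext (E × ℝ) :=
  fun y => (1 - y.2) • F.pull (Fl φ) κ y

theorem sm_pullFl (hφ : CM.Cir Z φ) (hκ : Sm Z κ) : Sm (Cyl Z) (F.pull (Fl φ) κ) := fun y hy =>
  contDiffAt_pull (contDiffAt_Fl hφ (mem_Cyl.1 hy) y.2) (by simp)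
    (hκ _ (Fl_mem hφ (mem_Cyl.1 hy) y.2))

theorem sm_Aw (hφ : CM.Cir Z φ) (hκ : Sm Z κ) : Sm (Cyl Z) (Aw φ κ) := fun y hy =>
  (contDiff_const.sub contDiff_snd).contDiffAt.smul (sm_pullFl hφ hκ y hy)

theorem pull_Fl_slice (hφ : CM.Cir Z φ) (hx : x ∈ Z) (t : ℝ) :
    pb ((ContinuousLinearMap.inl ℝ E ℝ : E →L[ℝ] E × ℝ) : E →ₗ[ℝ] E × ℝ)
      (F.pull (Fl φ) κ (x, t)) = F.pull (φ (2 * Real.pi * t)) κ x := by
  rw [F.pull, pb_comp, F.pull]
  have h1 : ((fderiv ℝ (Fl φ) (x, t) : E × ℝ →L[ℝ] E) : E × ℝ →ₗ[ℝ] E) ∘ₗ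
      ((ContinuousLinearMap.inl ℝ E ℝ : E →L[ℝ] E × ℝ) : E →ₗ[ℝ] E × ℝ) =
      ((fderiv ℝ (φ (2 * Real.pi * t)) x : E →L[ℝ] E) : E →ₗ[ℝ] E) := by
    rw [← fderiv_Fl_inl hφ hx t]; rfl
  rw [h1]
  rfl

theorem cont_orbit (hφ : CM.Cir Z φ) (hκ : Sm Z κ) (hx : x ∈ Z) :
    Continuous fun t : ℝ => F.pull (φ (2 * Real.pi * t)) κ x := by
  have h0 : (fun t : ℝ => F.pull (φ (2 * Real.pi * t)) κ x) = fun t : ℝ =>
      pbL (ContinuousLinearMap.inl ℝ E ℝ) (F.pull (Fl φ) κ (x, t)) := by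
    funext t
    rw [← pull_Fl_slice hφ hx, pbL_apply]
  rw [h0]
  refine (pbL _).continuous.comp ?_
  rw [continuous_iff_continuousAt]
  intro t
  have h1 : ContinuousAt (F.pull (Fl φ) κ) ((fun s : ℝ => ((x, s) : E × ℝ)) t) :=
    (sm_pullFl hφ hκ (x, t) (mem_Cyl.2 hx)).continuousAt
  exact h1.comp (f := fun s : ℝ => ((x, s) : E × ℝ)) (by fun_prop : Continuous
    (fun s : ℝ => ((x, s) : E × ℝ))).continuousAt

/-- the fibre integrand of `d ((1-t) φ^* κ)` -/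
theorem hopL_dAw (hφ : CM.Cir Z φ) (hκ : Sm Z κ) (hdκ : Hz Z (CM.gen φ) (F.d κ)) (hx : x ∈ Z)
    (t : ℝ) : Rs Z x (hopL (ContinuousLinearMap.inl ℝ E ℝ) ((0, 1) : E × ℝ) (F.d (Aw φ κ) (x, t)))
      = - Rs Z x (F.pull (φ (2 * Real.pi * t)) κ x) := by
  have hg : HasFDerivAt (fun y : E × ℝ => 1 - y.2) (-(ContinuousLinearMap.snd ℝ E ℝ)) (x, t) :=
    (hasFDerivAt_snd (p := ((x, t) : E × ℝ))).const_sub 1
  have hP : DifferentiableAt ℝ (F.pull (Fl φ) κ) (x, t) :=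
    (sm_pullFl hφ hκ (x, t) (mem_Cyl.2 hx)).differentiableAt (by simp)
  have h1 : F.d (Aw φ κ) (x, t) = io ((fderiv ℝ (fun y : E × ℝ => 1 - y.2) (x, t) :
      E × ℝ →L[ℝ] ℝ) : Module.Dual ℝ (E × ℝ)) * F.pull (Fl φ) κ (x, t) +
      (1 - t) • F.d (F.pull (Fl φ) κ) (x, t) := F.d_smul hg.differentiableAt hP
  have h2 : F.d (F.pull (Fl φ) κ) (x, t) = F.pull (Fl φ) (F.d κ) (x, t) :=
    F.d_pull ((contDiffAt_Fl hφ hx t).of_le two_le)
      ((hκ _ (Fl_mem hφ hx t)).differentiableAt (by simp))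
  rw [h1, hg.fderiv, h2, map_add, map_add, map_smul, map_smul, hopL_Fl hφ hx]
  have h3 : Rs Z x (pb ((fderiv ℝ (φ (2 * Real.pi * t)) x : E →L[ℝ] E) : E →ₗ[ℝ] E)
      (ii (CM.gen φ (φ (2 * Real.pi * t) x)) (F.d κ (φ (2 * Real.pi * t) x)))) = 0 :=
    pb_pull_eq_zero ((hφ.smooth_right _ hx).differentiableAt (by simp)) (hφ.maps _)
      (hdκ _ (hφ.maps _ hx))
  have h4 : Rs Z x ((2 * Real.pi) • (pb ((fderiv ℝ (φ (2 * Real.pi * t)) x : E →L[ℝ] E) :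
      E →ₗ[ℝ] E) (ii (CM.gen φ (φ (2 * Real.pi * t) x)) (F.d κ (φ (2 * Real.pi * t) x))))) = 0 := by
    rw [map_smul, h3, smul_zero]
  rw [h4, smul_zero, add_zero, hopL_apply, ii_io_mul]
  have h5 : ((-(ContinuousLinearMap.snd ℝ E ℝ) : E × ℝ →L[ℝ] ℝ) : Module.Dual ℝ (E × ℝ))
      ((0, 1) : E × ℝ) = -1 := by simp
  have h6 : pb ((ContinuousLinearMap.inl ℝ E ℝ : E →L[ℝ] E × ℝ) : E →ₗ[ℝ] E × ℝ)
      (io ((-(ContinuousLinearMap.snd ℝ E ℝ) : E × ℝ →L[ℝ] ℝ) : Module.Dual ℝ (E × ℝ))) = 0 := by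
    rw [pb_io]
    have : ((-(ContinuousLinearMap.snd ℝ E ℝ) : E × ℝ →L[ℝ] ℝ) : Module.Dual ℝ (E × ℝ)) ∘ₗ
        ((ContinuousLinearMap.inl ℝ E ℝ : E →L[ℝ] E × ℝ) : E →ₗ[ℝ] E × ℝ) = 0 := by
      ext v; simp
    rw [this, map_zero]
  rw [h5, map_sub, map_mul, h6, zero_mul, sub_zero, map_smul, pull_Fl_slice hφ hx, neg_one_smul,
    map_neg]

/-- **averaging over the orbits** -/
theorem average (hφ : CM.Cir Z φ) (hκ : Sm Z κ) (hdκ : Hz Z (CM.gen φ) (F.d κ)) :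
    ∃ lam : E → Ext E, Sm Z lam ∧ ∀ x ∈ Z,
      (2 * Real.pi) • Rs Z x (ii (CM.gen φ x) ((κ + F.d lam) x)) = Rs Z x (Wp φ κ x) := by
  have hs := sm_Aw hφ hκ
  refine ⟨K (Aw φ κ), Sm.K hs, fun x hx => ?_⟩
  let R : Ext E →L[ℝ] Ext (Tan Z x) :=
    LinearMap.toContinuousLinearMap (pb (Tan Z x).subtype).toLinearMap
  have h1 := congrArg (Rs Z x) (K_d hs hx)
  have h2 : F.pull (sl 1) (Aw φ κ) x = 0 := by
    rw [pull_sl_apply, Aw]
    simp
  have h3 : Rs Z x (F.pull (sl 0) (Aw φ κ) x) = Rs Z x (κ x) := by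
    rw [pull_sl_apply, pbL_apply, Aw]
    simp only [sub_zero, one_smul]
    rw [pull_Fl_slice hφ hx, mul_zero]
    have h4 := Eqv.pull_congr (X := Z) (f := φ 0) (g := fun y => y) (w := κ) (x := x)
      ((hφ.smooth_right 0 hx).differentiableAt (by simp)) differentiableAt_id hx
      (fun y hy => hφ.zero y hy)
    rw [pull_id] at h4
    exact h4
  have h5 : Rs Z x (K (F.d (Aw φ κ)) x) =
      - ∫ t in (0 : ℝ)..1, Rs Z x (F.pull (φ (2 * Real.pi * t)) κ x) := by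
    change R (K (F.d (Aw φ κ)) x) = _
    rw [K, hop, I1, ← ContinuousLinearMap.intervalIntegral_comp_comm _
      (integrable_hopg hs.d hx), ← intervalIntegral.integral_neg]
    refine intervalIntegral.integral_congr fun t _ => ?_
    simp only [hopg]
    rw [jv_inl]
    exact hopL_dAw hφ hκ hdκ hx t
  rw [map_add, h5, h2, map_sub, map_zero, h3, zero_sub] at h1
  have h6 : Rs Z x ((κ + F.d (K (Aw φ κ))) x) =
      ∫ t in (0 : ℝ)..1, Rs Z x (F.pull (φ (2 * Real.pi * t)) κ x) := by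
    rw [Pi.add_apply, map_add]
    have : Rs Z x (F.d (K (Aw φ κ)) x) = - Rs Z x (κ x) +
        ∫ t in (0 : ℝ)..1, Rs Z x (F.pull (φ (2 * Real.pi * t)) κ x) := by
      rw [← h1]; abel
    rw [this]; abel
  have hV := hφ.gen_mem hx
  rw [res_ii hV, h6]
  have hint : IntervalIntegrable (fun t : ℝ => Rs Z x (F.pull (φ (2 * Real.pi * t)) κ x))
      volume 0 1 := (R.continuous.comp (cont_orbit hφ hκ hx)).intervalIntegrable _ _
  have h7 : ii (⟨CM.gen φ x, hV⟩ : Tan Z x)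
      (∫ t in (0 : ℝ)..1, Rs Z x (F.pull (φ (2 * Real.pi * t)) κ x)) =
      ∫ t in (0 : ℝ)..1, ii (⟨CM.gen φ x, hV⟩ : Tan Z x)
        (Rs Z x (F.pull (φ (2 * Real.pi * t)) κ x)) :=
    ((iiL (⟨CM.gen φ x, hV⟩ : Tan Z x)).intervalIntegral_comp_comm hint).symm
  have h8 : Rs Z x (Wp φ κ x) = R (Wp φ κ x) := rfl
  rw [h7, h8, Wp_apply, ← ContinuousLinearMap.intervalIntegral_comp_comm _
    (integrable_Wp hφ hκ hx), ← intervalIntegral.integral_smul]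
  refine intervalIntegral.integral_congr fun t _ => ?_
  rw [hopL_Fl hφ hx, ← res_ii hV, F.pull, ii_pb]
  change _ = Rs Z x _
  rw [map_smul]
  change _ • Rs Z x (pb _ (ii (fderiv ℝ (φ (2 * Real.pi * t)) x (CM.gen φ x)) _)) = _
  rw [hφ.fderiv_gen hx]

/-- the input data of the family -/
structure Pre (Z : Set E) (φ : ℝ → E → E) (m : ℕ) (a b h : E × ℝ → Ext (E × ℝ))
    (θ : E → Ext E) : Prop where
  cir : CM.Cir Z φ
  sa : Sm (Cyl Z) a
  sb : Sm (Cyl Z) b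
  sh : Sm (Cyl Z) h
  sθ : Sm Z θ
  ca : Cl (Cyl Z) a
  cb : Cl (Cyl Z) b
  ch : Cl (Cyl Z) h
  ea : Ev (Cyl Z) a
  eb : Ev (Cyl Z) b
  eh : Ev (Cyl Z) h
  a0 : Eqv (Cyl Z) (a ^ (m + 1)) 0
  b0 : Eqv (Cyl Z) (b ^ (m + 1)) 0
  h00 : Eqv Z (F.pull (sl 0) a) (F.pull (sl 0) b)
  a1 : Hz Z (CM.gen φ) (F.pull (sl 1) a)
  b1 : Hz Z (CM.gen φ) (F.pull (sl 1) b)
  h1 : Hz Z (CM.gen φ) (F.pull (sl 1) h)
  ia : Inv Z φ (F.pull (sl 1) a)
  ib : Inv Z φ (F.pull (sl 1) b)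
  ih : Inv Z φ (F.pull (sl 1) h)
  θ1 : ∀ x ∈ Z, Rs Z x (ii (CM.gen φ x) (θ x)) = 1
  dθ : Hz Z (CM.gen φ) (F.d θ)

variable {m : ℕ} {a b h : E × ℝ → Ext (E × ℝ)} {θ : E → Ext E}

theorem K_zero' : K (0 : E × ℝ → Ext (E × ℝ)) = 0 := by
  have h4 := K_smul (E := E) (w := 0) (0 : ℝ)
  rwa [zero_smul, zero_smul] at h4

theorem Wp_smul (r : ℝ) : Wp φ (r • κ) = r • Wp φ κ := by
  funext x
  rw [Pi.smul_apply, Wp_apply, Wp_apply, ← intervalIntegral.integral_smul]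
  simp only [pull_smul', Pi.smul_apply, map_smul]

namespace Pre

theorem dK (P : Pre Z φ m a b h θ) : Eqv Z (F.d (K (a - b))) (F.pull (sl 1) (a - b)) := by
  have sρ := P.sa.sub P.sb
  have h1 := K_d_eqv sρ
  have h2 : Eqv Z (K (F.d (a - b))) 0 := by
    have h3 := K_eqv sρ.d Sm.zero (resZero_iff.1 (Cl.sub P.sa P.sb P.ca P.cb))
    rwa [K_zero'] at h3
  have h3 : Eqv Z (F.pull (sl 0) (a - b)) 0 := by
    rw [pull_sub']
    have := P.h00.sub (Eqv.refl (F.pull (sl 0) b))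
    rwa [sub_self] at this
  have h6 := h1.sub (Eqv.refl (K (F.d (a - b))))
  rw [add_sub_cancel_right] at h6
  have h7 := ((Eqv.refl (F.pull (sl 1) (a - b))).sub h3).sub h2
  rw [sub_zero, sub_zero] at h7
  exact h6.trans h7

set_option maxHeartbeats 1600000 in
/-- **(RR3)** existence of `η` -/
theorem exists_fam (P : Pre Z φ m a b h θ) {n : ℕ} (hZ : Sub n Z) {c : ℝ} {μ : E → Ext E}
    (sμ : Sm Z μ) (hμ : Hz Z (CM.gen φ) μ)
    (hβ : Eqv Z (Wp φ (K (a - b))) ((2 * Real.pi) • (c • F.pull (sl 1) h + F.d μ))) :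
    ∃ η, Fam Z (CM.gen φ) m a b h η (c • θ) c := by
  have hφ := P.cir
  have hVt : ∀ x ∈ Z, CM.gen φ x ∈ Tan Z x := fun x hx => hφ.gen_mem hx
  have sρ := P.sa.sub P.sb
  have cρ : Cl (Cyl Z) (a - b) := Cl.sub P.sa P.sb P.ca P.cb
  have sh1 : Sm Z (F.pull (sl 1) h) := P.sh.pull (smap_sl 1)
  have ch1 : Cl Z (F.pull (sl 1) h) := Cl.pull (smap_sl 1) P.sh P.ch
  have sK : Sm Z (K (a - b)) := Sm.K sρ
  have sθh : Sm Z (θ * F.pull (sl 1) h) := P.sθ.mul sh1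
  have hπ : (2 * Real.pi) ≠ 0 := by positivity
  -- horizontality of dμ
  have hdμ : Hz Z (CM.gen φ) (F.d μ) := by
    have h1 : Eqv Z (F.d μ) ((2 * Real.pi)⁻¹ • Wp φ (K (a - b)) - c • F.pull (sl 1) h) := by
      have h2 := (hβ.smul (2 * Real.pi)⁻¹).sub (Eqv.refl (c • F.pull (sl 1) h))
      rw [smul_smul, inv_mul_cancel₀ hπ, one_smul, add_sub_cancel_left] at h2
      exact h2.symm
    exact Hz.eqv hVt h1 (((Wp_hz hφ sK).smul _).sub (P.h1.smul c))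
  set κ' := K (a - b) - c • (θ * F.pull (sl 1) h) with hκ'
  have sκ' : Sm Z κ' := sK.sub (sθh.smul c)
  have hρ1 : Hz Z (CM.gen φ) (F.pull (sl 1) (a - b)) := by
    rw [pull_sub']; exact P.a1.sub P.b1
  have hdκ' : Hz Z (CM.gen φ) (F.d κ') := by
    have h1 : Eqv Z (F.d κ') (F.pull (sl 1) (a - b) - c • (F.d θ * F.pull (sl 1) h)) := by
      refine (d_sub_eqv sK (sθh.smul c)).trans (P.dK.sub ?_)
      exact (d_smul_eqv c sθh).trans ((d_mul_cl P.sθ sh1 ch1).smul c)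
    exact Hz.eqv hVt h1 (hρ1.sub ((P.dθ.mul P.h1).smul c))
  have hWθ : Eqv Z (Wp φ (θ * F.pull (sl 1) h)) ((2 * Real.pi * 1) • F.pull (sl 1) h) := by
    refine Wp_inv hφ sθh 1 P.ih fun x hx => ?_
    rw [Pi.mul_apply, ii_mul, map_add, map_mul, map_mul, P.θ1 x hx, P.h1 x hx, mul_zero,
      add_zero, one_mul, one_smul]
  have hW : Eqv Z (Wp φ κ') ((2 * Real.pi) • F.d μ) := by
    have h1 : Eqv Z (Wp φ κ') (Wp φ (K (a - b)) - c • Wp φ (θ * F.pull (sl 1) h)) := by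
      refine Eqv.of_eq fun x hx => ?_
      rw [hκ', Wp_sub hφ sK (sθh.smul c) hx, Wp_smul]
      rfl
    refine h1.trans ((hβ.sub (hWθ.smul c)).trans (Eqv.of_eq fun x hx => ?_))
    simp only [Pi.sub_apply, Pi.smul_apply, Pi.add_apply, mul_one]
    rw [smul_add, smul_comm c (2 * Real.pi), add_sub_cancel_left]
  obtain ⟨lam, slam, hlam⟩ := average hφ sκ' hdκ'
  have hlam' : ∀ x ∈ Z, Rs Z x (ii (CM.gen φ x) ((κ' + F.d lam) x)) = Rs Z x (F.d μ x) := by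
    intro x hx
    have h1 := hlam x hx
    rw [eqv_iff.1 hW x hx, Pi.smul_apply, map_smul] at h1
    exact smul_right_injective _ hπ h1
  have sτ : Sm Z (θ * μ) := P.sθ.mul sμ
  have hτ : ∀ x ∈ Z, Rs Z x (ii (CM.gen φ x) (F.d (θ * μ) x)) = - Rs Z x (F.d μ x) := by
    intro x hx
    have h1 : F.d (θ * μ) x = F.d θ x * μ x + F.inv (θ x) * F.d μ x :=
      F.d_mul (P.sθ.diff hx) (sμ.diff hx)
    have h2 : Rs Z x (ii (CM.gen φ x) (F.inv (θ x))) = -1 := by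
      have h3 : ii (CM.gen φ x) (F.inv (θ x)) = - F.inv (ii (CM.gen φ x) (θ x)) := by
        rw [inv_ii, neg_neg]
      rw [h3, map_neg, Rs, pb_inv]
      have := P.θ1 x hx
      rw [Rs] at this
      rw [this, map_one]
    rw [h1, map_add, map_add, ii_mul, ii_mul, map_add, map_add, map_mul, map_mul, map_mul, map_mul,
      P.dθ x hx, hμ x hx, h2, hdμ x hx, zero_mul, mul_zero, mul_zero, add_zero, zero_add,
      add_zero, neg_one_mul]
  obtain ⟨p1, p2, p3⟩ := prim_zero sρ cρ (by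
    rw [pull_sub']
    have := P.h00.sub (Eqv.refl (F.pull (sl 0) b))
    rwa [sub_self] at this)
  have sp := sm_Hop0 sρ
  have scθ : Sm Z (c • θ) := P.sθ.smul c
  have sl1 : Sm Z (lam + θ * μ) := slam.add sτ
  refine ⟨Hop Ho0 (a - b) - cyl (c • θ) * h + F.d (cyl (lam + θ * μ)), ?_⟩
  have sη : Sm (Cyl Z) (Hop Ho0 (a - b) - cyl (c • θ) * h + F.d (cyl (lam + θ * μ))) :=
    (sp.sub ((sm_cyl scθ).mul P.sh)).add (sm_cyl sl1).d
  refine ⟨hVt, fun x hx => hφ.gen_ne hx, P.sa, P.sb, P.sh, sη, scθ, P.ca, P.cb, P.ch, P.ea,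
    P.eb, P.eh, P.a0, P.b0, ?_, ?_, ?_, P.a1, P.b1, P.h1, ?_, ?_⟩
  · -- rel
    have h1 : Eqv (Cyl Z) (F.d (Hop Ho0 (a - b) - cyl (c • θ) * h + F.d (cyl (lam + θ * μ))))
        (a - b - F.d (cyl (c • θ)) * h + 0) := by
      refine (d_add_eqv (sp.sub ((sm_cyl scθ).mul P.sh)) (sm_cyl sl1).d).trans (Eqv.add ?_
        (resZero_iff.1 (d_d' (sm_cyl sl1))))
      refine (d_sub_eqv sp ((sm_cyl scθ).mul P.sh)).trans (p1.sub ?_)
      exact d_mul_cl (sm_cyl scθ) P.sh P.ch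
    have h2 := (Eqv.refl (X := Cyl Z) (F.d (cyl (c • θ)) * h)).add h1
    rw [add_zero, add_sub_cancel] at h2
    exact h2.symm
  · -- η0
    rw [pull_add', pull_sub', pull_mul']
    have h1 : Eqv Z (F.pull (sl 0) (cyl (c • θ))) 0 := Eqv.of_eq fun x hx => by
      rw [pull_sl_cyl 0 scθ hx, zero_smul]; rfl
    have h2 := (p2.sub (h1.mul (Eqv.refl (F.pull (sl 0) h)))).add (pull_sl_dcyl hZ 0 sl1)
    rwa [zero_mul, sub_zero, zero_smul, add_zero] at h2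
  · -- η1
    have h1 : Eqv Z (F.pull (sl 1) (cyl (c • θ))) (c • θ) := Eqv.of_eq fun x hx => by
      rw [pull_sl_cyl 1 scθ hx, one_smul]
    have h2 : Eqv Z (F.pull (sl 1) (Hop Ho0 (a - b) - cyl (c • θ) * h +
        F.d (cyl (lam + θ * μ)))) (κ' + F.d lam + F.d (θ * μ)) := by
      rw [pull_add', pull_sub', pull_mul']
      refine ((p3.sub (h1.mul (Eqv.refl (F.pull (sl 1) h)))).add
        (pull_sl_dcyl hZ 1 sl1)).trans ?_
      rw [one_smul, hκ', smul_mul_assoc, add_assoc]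
      exact (Eqv.refl _).add (d_add_eqv slam sτ)
    refine Hz.eqv hVt h2 fun x hx => ?_
    rw [Pi.add_apply, map_add, map_add, hlam' x hx, hτ x hx, add_neg_cancel]
  · intro x hx
    rw [Pi.smul_apply, map_smul, map_smul, P.θ1 x hx, Algebra.algebraMap_eq_smul_one]
  · exact Hz.eqv hVt (d_smul_eqv c P.sθ) (P.dθ.smul c)

end Pre

end Crest.Agent.R208.RR
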