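import Crest.Agent.R208.SB1
import Crest.Agent.R208.CM4c
import Crest.Agent.R208.CW6b

/-! Row 208, block UP (helper566).  UP1: unit orientation forms of fields of orthogonal projections:
normalisation, uniqueness up to sign, transport, relation with `T.OR`. -/

set_option autoImplicit false
set_option linter.unusedSectionVars false

open Set Filter Topology Module
open scoped ContDiff RealInnerProductSpace
open Crest.Agent.R208.F Crest.Agent.R208.FI Crest.Agent.R208.T Crest.Agent.R208.SB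

noncomputable section

namespace Crest.Agent.R208.UP

/-! ### smoothness of pull-backs -/

section smooth
variable {Y V U : Type*} [NormedAddCommGroup Y] [NormedSpace ℝ Y] [NormedAddCommGroup V]
  [NormedSpace ℝ V] [FiniteDimensional ℝ V] [NormedAddCommGroup U] [NormedSpace ℝ U]
  [FiniteDimensional ℝ U]

theorem contDiffAt_pb {A : Y → V →L[ℝ] U} {c : Y → Ext U} {x : Y} (hA : ContDiffAt ℝ ∞ A x)
    (hc : ContDiffAt ℝ ∞ c x) : ContDiffAt ℝ ∞ (fun y => pb (A y : V →ₗ[ℝ] U) (c y)) x := by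
  have h : (fun y => pb (A y : V →ₗ[ℝ] U) (c y)) = fun y => ∑ J,
      (extBasis U).coord J (c y) • pb (A y : V →ₗ[ℝ] U) (extBasis U J) := by
    funext y
    conv_lhs => rw [← (extBasis U).sum_repr (c y)]
    simp only [map_sum, map_smul]
    rfl
  rw [h]
  refine ContDiffAt.sum fun J _ => ?_
  exact ((LinearMap.toContinuousLinearMap ((extBasis U).coord J)).contDiff.contDiffAt.comp x
    hc).smul ((contDiff_pb_apply _).contDiffAt.comp x hA)

/-- evaluation of forms on fixed vectors -/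
def evl (r : ℕ) (v : Fin r → V) : Ext V →L[ℝ] ℝ :=
  LinearMap.toContinuousLinearMap
    { toFun := fun c => evA V r c v
      map_add' := fun a b => by simp
      map_smul' := fun a b => by simp }

@[simp] theorem evl_apply (r : ℕ) (v : Fin r → V) (c : Ext V) : evl r v c = evA V r c v := rfl

end smooth

/-! ### determinants -/

theorem det_sq_sum {n A : Type*} [Fintype n] [DecidableEq n] [Fintype A] [DecidableEq A]
    {f : Matrix n A ℝ} (hf : f.transpose * f = 1) :
    ∑ I : A → n, (f.submatrix I id).det * (f.submatrix I id).det =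
      ((Fintype.card A).factorial : ℝ) := by
  have h1 : ∀ I : A → n, (f.submatrix I id).det
      = ∑ σ : Equiv.Perm A, ((Equiv.Perm.sign σ : ℤ) : ℝ) * ∏ p, f (I (σ p)) p := fun I => by
    rw [Matrix.det_apply']
    rfl
  have h2 : ∀ σ : Equiv.Perm A, ∑ I : A → n,
      ((Equiv.Perm.sign σ : ℤ) : ℝ) * (∏ p, f (I (σ p)) p) * (f.submatrix I id).det = 1 := by
    intro σ
    rw [← (Equiv.arrowCongr σ (Equiv.refl n)).sum_comp]
    have h3 : (1 : ℝ) = ∑ I : A → n, (∏ p, f.transpose p (I p)) * (f.submatrix I id).det := by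
      rw [← CW.det_mul_expand, hf, Matrix.det_one]
    rw [h3]
    refine Finset.sum_congr rfl fun J _ => ?_
    have e1 : (Equiv.arrowCongr σ (Equiv.refl n)) J = fun p => J (σ.symm p) := rfl
    have e2 : (f.submatrix (fun p => J (σ.symm p)) id).det =
        ((Equiv.Perm.sign σ.symm : ℤ) : ℝ) * (f.submatrix J id).det := by
      rw [← Matrix.det_permute]
      rfl
    have e3 : ((Equiv.Perm.sign σ : ℤ) : ℝ) * ((Equiv.Perm.sign σ.symm : ℤ) : ℝ) = 1 := by
      rw [Equiv.Perm.sign_symm, ← Int.cast_mul, ← Units.val_mul, Int.units_mul_self]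
      simp
    rw [e1, e2]
    simp only [Equiv.symm_apply_apply, Matrix.transpose_apply]
    linear_combination ((∏ p, f (J p) p) * (f.submatrix J id).det) * e3
  calc ∑ I : A → n, (f.submatrix I id).det * (f.submatrix I id).det
      = ∑ I : A → n, ∑ σ : Equiv.Perm A,
        ((Equiv.Perm.sign σ : ℤ) : ℝ) * (∏ p, f (I (σ p)) p) * (f.submatrix I id).det := by
        refine Finset.sum_congr rfl fun I _ => ?_
        conv_lhs => rw [h1 I]
        rw [Finset.sum_mul, ← h1 I]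
    _ = _ := by
        rw [Finset.sum_comm]
        simp only [h2, Finset.sum_const, Finset.card_univ, Fintype.card_perm, nsmul_eq_mul, mul_one]

/-! ### unit orientation forms, pointwise -/

section point
variable {H : Type*} [NormedAddCommGroup H] [InnerProductSpace ℝ H] [FiniteDimensional ℝ H]
  {P : H →L[ℝ] H} {r : ℕ} {c c' : Ext H} {e : Fin r → H}

theorem exists_on {V : Submodule ℝ H} (hV : finrank ℝ V = r) :
    ∃ e : Fin r → H, (∀ i, e i ∈ V) ∧ Orthonormal ℝ e := by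
  let b := (stdOrthonormalBasis ℝ V).reindex (finCongr hV)
  exact ⟨fun i => ((b i : V) : H), fun i => (b i).2, b.orthonormal.comp_linearIsometry V.subtypeₗᵢ⟩

theorem exists_fr (hi : ∀ v, P (P v) = P v)
    (hr : finrank ℝ (LinearMap.range (P : H →ₗ[ℝ] H)) = r) :
    ∃ e : Fin r → H, Orthonormal ℝ e ∧ ∀ i, P (e i) = e i := by
  obtain ⟨e, h1, h2⟩ := exists_on hr
  refine ⟨e, h2, fun i => ?_⟩
  obtain ⟨w, hw⟩ := h1 i
  have hw' : P w = e i := hw
  rw [← hw', hi]

theorem expand (hs : ∀ v w, ⟪P v, w⟫ = ⟪v, P w⟫)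
    (hr : finrank ℝ (LinearMap.range (P : H →ₗ[ℝ] H)) = r) (he : Orthonormal ℝ e)
    (hPe : ∀ i, P (e i) = e i) (w : H) : P w = ∑ a, ⟪e a, w⟫ • e a := by
  set V := LinearMap.range (P : H →ₗ[ℝ] H) with hV
  set e' : Fin r → V := fun i => ⟨e i, e i, hPe i⟩ with he'
  have ho : Orthonormal ℝ e' := by
    rw [orthonormal_iff_ite] at he ⊢
    intro i j
    exact he i j
  have hsp : Submodule.span ℝ (Set.range e') = ⊤ :=
    ho.linearIndependent.span_eq_top_of_card_eq_finrank' (by rw [Fintype.card_fin, hr])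
  set b : OrthonormalBasis (Fin r) ℝ V := OrthonormalBasis.mk ho hsp.ge with hb
  have h1 := b.sum_repr' (⟨P w, w, rfl⟩ : V)
  have h2 := congrArg (Subtype.val : V → H) h1
  rw [AddSubmonoidClass.coe_finsetSum] at h2
  refine h2.symm.trans (Finset.sum_congr rfl fun a _ => ?_)
  have h3 : b a = e' a := by rw [hb, OrthonormalBasis.coe_mk]
  rw [h3]
  change ⟪e a, P w⟫ • e a = ⟪e a, w⟫ • e a
  rw [← hs, hPe]

/-- `c` is a unit volume form of the range of the orthogonal projection `P` -/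
structure Un (r : ℕ) (P : H →L[ℝ] H) (c : Ext H) : Prop where
  deg : IsDeg r c
  fix : pb (P : H →ₗ[ℝ] H) c = c
  unit : ∀ e : Fin r → H, Orthonormal ℝ e → (∀ i, P (e i) = e i) → evA H r c e ^ 2 = 1

theorem evA_of_fix (hfix : pb (P : H →ₗ[ℝ] H) c = c) (hs : ∀ v w, ⟪P v, w⟫ = ⟪v, P w⟫)
    (hr : finrank ℝ (LinearMap.range (P : H →ₗ[ℝ] H)) = r) (he : Orthonormal ℝ e)
    (hPe : ∀ i, P (e i) = e i) (v : Fin r → H) :
    evA H r c v = (Matrix.of fun i a => ⟪e a, v i⟫).det * evA H r c e := by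
  conv_lhs => rw [← hfix]
  rw [evA_pb]
  exact evA_comb r c e _ _ fun i => expand hs hr he hPe (v i)

theorem Un.unique (h : Un r P c) (h' : Un r P c') (hi : ∀ v, P (P v) = P v)
    (hs : ∀ v w, ⟪P v, w⟫ = ⟪v, P w⟫) (hr : finrank ℝ (LinearMap.range (P : H →ₗ[ℝ] H)) = r) :
    c' = c ∨ c' = -c := by
  obtain ⟨e, he, hPe⟩ := exists_fr hi hr
  have h1 := h.unit e he hPe
  have h2 := h'.unit e he hPe
  have h3 : evA H r c' e = evA H r c e ∨ evA H r c' e = -evA H r c e :=
    sq_eq_sq_iff_eq_or_eq_neg.1 (by rw [h1, h2])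
  rcases h3 with h3 | h3
  · left
    refine ext_evA fun q => ?_
    by_cases hq : q = r
    · subst hq
      ext v
      rw [evA_of_fix h'.fix hs hr he hPe, evA_of_fix h.fix hs hr he hPe, h3]
    · rw [h'.deg q hq, h.deg q hq]
  · right
    refine ext_evA fun q => ?_
    rw [map_neg]
    by_cases hq : q = r
    · subst hq
      ext v
      rw [AlternatingMap.neg_apply, evA_of_fix h'.fix hs hr he hPe,
        evA_of_fix h.fix hs hr he hPe, h3]
      ring
    · rw [h'.deg q hq, h.deg q hq, neg_zero]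

/-- a unit form evaluated on frames -/
theorem Un.ne_zero (h : Un r P c) (hi : ∀ v, P (P v) = P v)
    (hr : finrank ℝ (LinearMap.range (P : H →ₗ[ℝ] H)) = r) : c ≠ 0 := by
  rintro rfl
  obtain ⟨e, he, hPe⟩ := exists_fr hi hr
  have h1 := h.unit e he hPe
  simp at h1

/-- the square of the norm of an `r`-form -/
def nsq (r : ℕ) (c : Ext H) : ℝ := ((r.factorial : ℝ))⁻¹ *
  ∑ I : Fin r → Fin (finrank ℝ H), evA H r c (fun k => stdOrthonormalBasis ℝ H (I k)) ^ 2

theorem nsq_eq (hfix : pb (P : H →ₗ[ℝ] H) c = c) (hs : ∀ v w, ⟪P v, w⟫ = ⟪v, P w⟫)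
    (hr : finrank ℝ (LinearMap.range (P : H →ₗ[ℝ] H)) = r) (he : Orthonormal ℝ e)
    (hPe : ∀ i, P (e i) = e i) : nsq r c = evA H r c e ^ 2 := by
  set b := stdOrthonormalBasis ℝ H with hb
  set f : Matrix (Fin (finrank ℝ H)) (Fin r) ℝ := Matrix.of fun j a => ⟪e a, b j⟫ with hf
  have hff : f.transpose * f = 1 := by
    ext a a'
    rw [Matrix.mul_apply, Matrix.one_apply, ← (orthonormal_iff_ite.1 he) a a',
      ← b.sum_inner_mul_inner (e a) (e a')]
    refine Finset.sum_congr rfl fun j _ => ?_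
    rw [Matrix.transpose_apply, hf, Matrix.of_apply, Matrix.of_apply, real_inner_comm (b j) (e a')]
  have h1 : ∀ I : Fin r → Fin (finrank ℝ H), evA H r c (fun k => b (I k)) =
      (f.submatrix I id).det * evA H r c e := fun I => by
    rw [evA_of_fix hfix hs hr he hPe]
    rfl
  have h2 := det_sq_sum hff
  rw [Fintype.card_fin] at h2
  unfold nsq
  simp only [← hb, h1, mul_pow]
  rw [← Finset.sum_mul]
  have h3 : ∑ I : Fin r → Fin (finrank ℝ H), (f.submatrix I id).det ^ 2 = (r.factorial : ℝ) := by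
    rw [← h2]
    exact Finset.sum_congr rfl fun I _ => by rw [sq]
  rw [h3, ← mul_assoc, inv_mul_cancel₀ (by exact_mod_cast r.factorial_ne_zero), one_mul]

theorem contDiff_nsq (r : ℕ) : ContDiff ℝ ∞ (nsq (H := H) r) := by
  refine contDiff_const.mul (ContDiff.sum fun I _ => ?_)
  exact (evl r (fun k => stdOrthonormalBasis ℝ H (I k))).contDiff.pow 2

end point

/-! ### fields -/

section field
variable {E H H' : Type*} [NormedAddCommGroup E] [NormedSpace ℝ E] [FiniteDimensional ℝ E]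
  [NormedAddCommGroup H] [InnerProductSpace ℝ H] [FiniteDimensional ℝ H]
  [NormedAddCommGroup H'] [InnerProductSpace ℝ H'] [FiniteDimensional ℝ H']
  {X : Set E} {P : E → H →L[ℝ] H} {P' : E → H' →L[ℝ] H'} {r : ℕ} {o oP : E → Ext H}

/-- unit orientation form of a field of orthogonal projections -/
structure UPr (X : Set E) (r : ℕ) (P : E → H →L[ℝ] H) (o : E → Ext H) : Prop where
  sm : ∀ x ∈ X, ContDiffAt ℝ ∞ o x
  deg : ∀ x, IsDeg r (o x)
  fix : ∀ x ∈ X, pb (P x : H →ₗ[ℝ] H) (o x) = o x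
  unit : ∀ x ∈ X, ∀ e : Fin r → H, Orthonormal ℝ e → (∀ i, P x (e i) = e i) →
    evA H r (o x) e ^ 2 = 1

/-- symmetry on `X` -/
def SyOn (X : Set E) (P : E → H →L[ℝ] H) : Prop := ∀ x ∈ X, ∀ v w, ⟪P x v, w⟫ = ⟪v, P x w⟫

theorem UPr.un (h : UPr X r P o) {x : E} (hx : x ∈ X) : Un r (P x) (o x) :=
  ⟨h.deg x, h.fix x hx, h.unit x hx⟩

theorem UPr.opr (h : UPr X r P o) (hP : PField X r P) : OPr X r P o := by
  refine OPr.of hP h.sm h.deg fun x hx => ?_
  obtain ⟨e, he, hPe⟩ := exists_fr (hP.idem x hx) (hP.rank x hx)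
  refine ⟨e, hPe, fun h0 => ?_⟩
  have h1 := h.unit x hx e he hPe
  rw [h0] at h1
  norm_num at h1

/-- **normalisation** of an orientation form -/
def nrm (r : ℕ) (P : E → H →L[ℝ] H) (oP : E → Ext H) (x : E) : Ext H :=
  (Real.sqrt (nsq r (pb (P x : H →ₗ[ℝ] H) (oP x))))⁻¹ • pb (P x : H →ₗ[ℝ] H) (oP x)

theorem UPr.of_opr (h : OPr X r P oP) (hP : PField X r P) (hs : SyOn X P) :
    UPr X r P (nrm r P oP) := by
  have hfix : ∀ x ∈ X, pb (P x : H →ₗ[ℝ] H) (pb (P x : H →ₗ[ℝ] H) (oP x)) =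
      pb (P x : H →ₗ[ℝ] H) (oP x) := fun x hx => by
    rw [pb_comp]
    congr 1
    congr 1
    ext v
    exact hP.idem x hx v
  have hev : ∀ x ∈ X, ∀ e : Fin r → H, Orthonormal ℝ e → (∀ i, P x (e i) = e i) →
      nsq r (pb (P x : H →ₗ[ℝ] H) (oP x)) = evA H r (pb (P x : H →ₗ[ℝ] H) (oP x)) e ^ 2 ∧
        evA H r (pb (P x : H →ₗ[ℝ] H) (oP x)) e ≠ 0 := by
    intro x hx e he hPe
    refine ⟨nsq_eq (hfix x hx) (hs x hx) (hP.rank x hx) he hPe, ?_⟩
    rw [evA_pb]
    have h3 : (fun i => (P x : H →ₗ[ℝ] H) (e i)) = e := funext hPe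
    rw [h3]
    exact h.ne x hx e he.linearIndependent hPe
  have hpos : ∀ x ∈ X, 0 < nsq r (pb (P x : H →ₗ[ℝ] H) (oP x)) := by
    intro x hx
    obtain ⟨e, he, hPe⟩ := exists_fr (hP.idem x hx) (hP.rank x hx)
    obtain ⟨h1, h2⟩ := hev x hx e he hPe
    rw [h1]; positivity
  have hsm : ∀ x ∈ X, ContDiffAt ℝ ∞ (fun y => pb (P y : H →ₗ[ℝ] H) (oP y)) x := fun x hx =>
    contDiffAt_pb (hP.smooth x hx) (h.sm x hx)
  refine ⟨fun x hx => ?_, fun x => ((h.deg x).pb _).smul _, fun x hx => ?_,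
    fun x hx e he hPe => ?_⟩
  · have h1 : ContDiffAt ℝ ∞ (fun y => nsq r (pb (P y : H →ₗ[ℝ] H) (oP y))) x :=
      (contDiff_nsq r).contDiffAt.comp x (hsm x hx)
    exact ((h1.sqrt (hpos x hx).ne').inv (Real.sqrt_ne_zero'.2 (hpos x hx))).smul (hsm x hx)
  · rw [nrm, map_smul, hfix x hx]
  · obtain ⟨h1, h2⟩ := hev x hx e he hPe
    rw [nrm, map_smul, AlternatingMap.smul_apply, smul_eq_mul, mul_pow, inv_pow,
      Real.sq_sqrt (hpos x hx).le, h1, inv_mul_cancel₀ (pow_ne_zero 2 h2)]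

/-- **transport** along fibrewise injective maps `A x : range (P' x) → range (P x)` -/
theorem opr_pb {A : E → H' →L[ℝ] H} (h : OPr X r P oP)
    (hA : ∀ x ∈ X, ContDiffAt ℝ ∞ A x) (hm : ∀ x ∈ X, ∀ w, P' x w = w → P x (A x w) = A x w)
    (hi : ∀ x ∈ X, ∀ w, P' x w = w → A x w = 0 → w = 0) :
    OPr X r P' (fun x => pb (A x : H' →ₗ[ℝ] H) (oP x)) := by
  refine ⟨fun x hx => contDiffAt_pb (hA x hx) (h.sm x hx), fun x => (h.deg x).pb _,
    fun x hx e he hPe => ?_⟩
  rw [evA_pb]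
  refine h.ne x hx _ ?_ fun i => hm x hx _ (hPe i)
  refine he.map (f := (A x : H' →ₗ[ℝ] H)) ?_
  rw [Submodule.disjoint_def]
  intro w hw h0
  refine hi x hx w ?_ h0
  have h1 : Submodule.span ℝ (Set.range e) ≤
      LinearMap.eqLocus (P' x : H' →ₗ[ℝ] H') LinearMap.id := by
    rw [Submodule.span_le]
    rintro _ ⟨i, rfl⟩
    exact hPe i
  exact h1 hw

/-- change of the base -/
theorem opr_comp {E' : Type*} [NormedAddCommGroup E'] [NormedSpace ℝ E'] [FiniteDimensional ℝ E']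
    {Y : Set E'} {f : E' → E} (h : OPr X r P oP) (hf : CW.SMap Y X f) :
    OPr Y r (fun y => P (f y)) (fun y => oP (f y)) :=
  ⟨fun y hy => ContDiffAt.comp (g := oP) y (h.sm _ (hf.maps hy)) (hf.smooth y hy),
    fun _ => h.deg _, fun _ hy e he hPe => h.ne _ (hf.maps hy) e he hPe⟩

end field

/-! ### `T.OR` -/

section OR
variable {n ι : Type*} [Fintype n] [DecidableEq n] [Fintype ι] [DecidableEq ι]
  {E : Type*} [NormedAddCommGroup E] [NormedSpace ℝ E] [FiniteDimensional ℝ E] {X : Set E}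
  {P : E → EuclideanSpace ℝ n →L[ℝ] EuclideanSpace ℝ n} {r : ℕ}
  {o oP : E → Ext (EuclideanSpace ℝ n)}

/-- the orientation tensor of a form -/
def tW (φ : ι × Fin 2 ≃ Fin r) (c : Ext (EuclideanSpace ℝ n)) (I : ι × Fin 2 → n) : ℝ :=
  evA _ r c (fun k => EuclideanSpace.single (I (φ.symm k)) (1 : ℝ))

theorem exists_pos_frame [Nonempty ι] (φ : ι × Fin 2 ≃ Fin r)
    {P : EuclideanSpace ℝ n →L[ℝ] EuclideanSpace ℝ n} {c : Ext (EuclideanSpace ℝ n)}
    (h : Un r P c) (hi : ∀ v, P (P v) = P v)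
    (hr : finrank ℝ (LinearMap.range (P : EuclideanSpace ℝ n →ₗ[ℝ] EuclideanSpace ℝ n)) = r) :
    ∃ e : Fin r → EuclideanSpace ℝ n, Orthonormal ℝ e ∧ (∀ i, P (e i) = e i) ∧
      evA _ r c e = 1 := by
  obtain ⟨e, he, hPe⟩ := exists_fr hi hr
  rcases mul_self_eq_one_iff.1 ((sq _).symm.trans (h.unit e he hPe)) with h1 | h1
  · exact ⟨e, he, hPe, h1⟩
  · obtain ⟨i0⟩ := ‹Nonempty ι›
    set a := φ (i0, 0) with ha
    set b := φ (i0, 1) with hb
    have hab : a ≠ b := fun hh => by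
      have := φ.injective hh
      simp at this
    refine ⟨e ∘ Equiv.swap a b, he.comp _ (Equiv.swap a b).injective, fun i => hPe _, ?_⟩
    rw [AlternatingMap.map_swap _ _ hab, h1, neg_neg]

theorem UPr.or [Nonempty ι] (φ : ι × Fin 2 ≃ Fin r) (h : UPr X r P o) (hP : PField X r P)
    (hs : SyOn X P) : OR X P (fun x => tW φ (o x)) := by
  refine ⟨hP.smooth, fun x hx I => (evl r _).contDiff.contDiffAt.comp x (h.sm x hx),
    fun x hx => ?_⟩
  obtain ⟨e, he, hPe, h1⟩ := exists_pos_frame φ (h.un hx) (hP.idem x hx) (hP.rank x hx)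
  refine ⟨Matrix.of fun i p => e (φ p) i, ?_, fun v i => ?_, fun I => ?_⟩
  · ext p q
    have h2 := (orthonormal_iff_ite.1 he) (φ p) (φ q)
    rw [PiLp.inner_apply] at h2
    simp only [EmbeddingLike.apply_eq_iff_eq] at h2
    rw [Matrix.mul_apply, Matrix.one_apply, ← h2]
    refine Finset.sum_congr rfl fun a _ => ?_
    rw [RCLike.inner_apply, conj_trivial, Matrix.transpose_apply, Matrix.of_apply, Matrix.of_apply,
      mul_comm]
  · rw [expand (hs x hx) (hP.rank x hx) he hPe v, WithLp.ofLp_sum, Finset.sum_apply]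
    simp only [Matrix.mul_apply, Finset.sum_mul]
    rw [Finset.sum_comm, ← φ.sum_comp]
    refine Finset.sum_congr rfl fun p _ => ?_
    rw [WithLp.ofLp_smul, Pi.smul_apply, smul_eq_mul, PiLp.inner_apply, Finset.sum_mul]
    refine Finset.sum_congr rfl fun j _ => ?_
    rw [RCLike.inner_apply, conj_trivial, Matrix.transpose_apply, Matrix.of_apply, Matrix.of_apply]
    ring
  · rw [tW, evA_of_fix (h.fix x hx) (hs x hx) (hP.rank x hx) he hPe, h1, mul_one]
    have e1 : (Matrix.of fun (k a : Fin r) =>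
        ⟪e a, EuclideanSpace.single (I (φ.symm k)) (1 : ℝ)⟫) =
        ((Matrix.of fun (i : n) (p : ι × Fin 2) => e (φ p) i).submatrix I id).submatrix
          φ.symm φ.symm := by
      ext k a
      simp [EuclideanSpace.inner_single_right]
    rw [e1, Matrix.det_submatrix_equiv_self]

/-- **`T.OR` from an orientation form of even positive rank** -/
theorem OR_of_opr [Nonempty ι] (φ : ι × Fin 2 ≃ Fin r) (h : OPr X r P oP) (hP : PField X r P)
    (hs : SyOn X P) : OR X P (fun x => tW φ (nrm r P oP x)) :=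
  (UPr.of_opr h hP hs).or φ hP hs

end OR

end Crest.Agent.R208.UP
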