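import Crest.Agent.R208.SB3
import Crest.Agent.R208.UP1
import Crest.Agent.R208.GO2
import Crest.Agent.R208.VX2
import Crest.Agent.R208.EW6
import Crest.Agent.R208.XF1c
import Crest.Agent.R208.RI1

/-! Row 208, block SB (helper349), part SB4 = (K3)/(VE7): the vertical field of the unit sphere
bundle of an oriented field of odd rank `2l + 1`, its Euler form `W`: closed, odd under the
antipodal map, `W * W ~ (2^l l!)² p` with `p` the real Chern form `cR (2l) P`, integral
`2 (4π)^l l!` over every fibre. -/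

set_option autoImplicit false
set_option linter.unusedSectionVars false
set_option linter.unusedVariables false

open Set Filter Topology Module
open scoped ContDiff RealInnerProductSpace Nat
open Crest.Agent.R208.F Crest.Agent.R208.FI Crest.Agent.R208.T Crest.Agent.R208.FG
open Crest.Agent.R208.CW (SMap H cc cs IdF ec ec_sq SM)
open Crest.Agent.R208.GO (RR)
open Crest.Agent.R208.UP (SyOn UPr nrm tW OR_of_opr)

noncomputable section

namespace Crest.Agent.R208.SB

variable {E : Type} [NormedAddCommGroup E] [NormedSpace ℝ E] [FiniteDimensional ℝ E]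
  {n ι : Type} [Fintype n] [DecidableEq n] [Fintype ι] [DecidableEq ι]
  {X : Set E} {P : E → EuclideanSpace ℝ n →L[ℝ] EuclideanSpace ℝ n} {r d : ℕ}
  {oP : E → Ext (EuclideanSpace ℝ n)} {oX : E → Ext E}

/-- a field of orthogonal projections of odd rank `r + 1`, `r = 2 card ι`, with an orientation form -/
structure OddB (ι : Type) [Fintype ι] (X : Set E) (r : ℕ)
    (P : E → EuclideanSpace ℝ n →L[ℝ] EuclideanSpace ℝ n) (oP : E → Ext (EuclideanSpace ℝ n)) :
    Prop where
  pf : PField X (r + 1) P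
  sy : SyOn X P
  op : OPr X (r + 1) P oP
  hr : r = 2 * Fintype.card ι

/-- labelling -/
def phi2 (ι : Type) [Fintype ι] [DecidableEq ι] (hr : r = 2 * Fintype.card ι) :
    ι × Fin 2 ≃ Fin r :=
  (kFin ι).trans (finCongr (by omega))

namespace OddB

variable (h : OddB ι X r P oP)
include h

theorem oddS : GQ.OddS (Sph X P) (fun z => P z.1) (r + 1) (fun z => z.2) where
  pf := ⟨fun z hz => (h.pf.smooth _ hz.1.1).comp z contDiffAt_fst, fun z hz => h.pf.idem _ hz.1.1,
    fun z hz => h.pf.rank _ hz.1.1⟩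
  sym z hz := h.sy _ hz.1.1
  sv z _ := contDiffAt_snd
  nv z hz := hz.2
  fix z hz := hz.1.2

theorem pf_RR : PField (Sph X P) r (RR P) := h.oddS.pfield

theorem sy_RR : SyOn (Sph X P) (RR P) := by
  intro z hz v w
  rw [GQ.Pm_apply, GQ.Pm_apply, inner_sub_left, inner_sub_right, h.sy _ hz.1.1,
    real_inner_smul_left, real_inner_smul_right, real_inner_comm v z.2]
  ring

/-- orientation form of the vertical field -/
theorem op_RR : OPr (Sph X P) r (RR P) (fun z => ii z.2 (oP z.1)) := by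
  have h1 : OPr (Sph X P) (r + 1) (fun z => P z.1) (fun z => oP z.1) :=
    h.op.comp (f := Prod.fst) ⟨fun z _ => contDiffAt_fst, fun z hz => hz.1.1⟩
  refine h1.contract h.pf_RR (v := fun z => z.2) (fun z _ => contDiffAt_snd) (fun z hz h0 => ?_)
    (fun z hz => hz.1.2) (fun z hz w hw => ?_) (fun z hz w hw => ?_)
  · have := hz.2
    rw [h0, norm_zero] at this
    exact zero_ne_one this
  · rw [← hw]; exact h.oddS.Q_Pm hz w
  · rw [← hw]; exact h.oddS.inner_Pm hz w

omit h in
/-- the orientation tensor of the vertical field -/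
def Wv (ι : Type) [Fintype ι] [DecidableEq ι] (hr : r = 2 * Fintype.card ι)
    (P : E → EuclideanSpace ℝ n →L[ℝ] EuclideanSpace ℝ n) (oP : E → Ext (EuclideanSpace ℝ n))
    (z : E × EuclideanSpace ℝ n) : (ι × Fin 2 → n) → ℝ :=
  tW (phi2 ι hr) (nrm r (RR P) (fun z => ii z.2 (oP z.1)) z)

theorem orv [Nonempty ι] : OR (Sph X P) (RR P) (Wv ι h.hr P oP) :=
  OR_of_opr _ h.op_RR h.pf_RR h.sy_RR

omit h in
/-- **the vertical Euler form** -/
def eV (ι : Type) [Fintype ι] [DecidableEq ι] (hr : r = 2 * Fintype.card ι)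
    (P : E → EuclideanSpace ℝ n →L[ℝ] EuclideanSpace ℝ n) (oP : E → Ext (EuclideanSpace ℝ n)) :
    E × EuclideanSpace ℝ n → Ext (E × EuclideanSpace ℝ n) :=
  eR (RR P) (Wv ι hr P oP)

theorem ec_eV [Nonempty ι] : EC (Sph X P) (eV ι h.hr P oP) := VX.ec_eR h.orv

omit h in
theorem hom_eV (hr : r = 2 * Fintype.card ι) :
    T.Hom (E := E × EuclideanSpace ℝ n) r (eV ι hr P oP) := by
  intro z q hq
  exact VX.hom_eR (P := RR P) (W := Wv ι hr P oP) z q (by omega)

/-! ### the antipodal map -/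

omit h in
/-- the antipodal map -/
def flip (z : E × EuclideanSpace ℝ n) : E × EuclideanSpace ℝ n := (z.1, -z.2)

omit h in
theorem smap_flip : SMap (Sph X P) (Sph X P) (flip (E := E) (n := n)) :=
  ⟨fun z _ => contDiffAt_fst.prodMk contDiffAt_snd.neg, fun z hz =>
    ⟨⟨hz.1.1, by change P z.1 (-z.2) = -z.2; rw [map_neg, hz.1.2]⟩, by
      change ‖-z.2‖ = 1; rw [norm_neg]; exact hz.2⟩⟩

omit h in
theorem RR_flip (z : E × EuclideanSpace ℝ n) : RR P (flip z) = RR P z := by
  ext1 v
  rw [GQ.Pm_apply, GQ.Pm_apply]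
  change P z.1 v - ⟪-z.2, v⟫ • (-z.2) = _
  rw [inner_neg_left, neg_smul_neg]

omit h in
theorem nrm_neg {V : Type*} [NormedAddCommGroup V] [NormedSpace ℝ V] [FiniteDimensional ℝ V]
    {H' : Type*} [NormedAddCommGroup H'] [InnerProductSpace ℝ H'] [FiniteDimensional ℝ H']
    (r : ℕ) {Q : V → H' →L[ℝ] H'} {Q' : V → H' →L[ℝ] H'} {o o' : V → Ext H'} {x x' : V}
    (hQ : Q x = Q' x') (ho : o x = -o' x') : nrm r Q o x = -nrm r Q' o' x' := by
  have h1 : ∀ c : Ext H', UP.nsq r (-c) = UP.nsq r c := fun c => by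
    unfold UP.nsq
    congr 1
    refine Finset.sum_congr rfl fun I _ => ?_
    rw [map_neg, AlternatingMap.neg_apply, neg_sq]
  rw [nrm, nrm, hQ, ho, map_neg, h1, smul_neg]

omit h in
theorem Wv_flip (hr : r = 2 * Fintype.card ι) (z : E × EuclideanSpace ℝ n) :
    Wv ι hr P oP (flip z) = fun I => -Wv ι hr P oP z I := by
  funext I
  have h1 : nrm r (RR P) (fun z => ii z.2 (oP z.1)) (flip z) =
      -nrm r (RR P) (fun z => ii z.2 (oP z.1)) z := by
    refine nrm_neg r (RR_flip z) ?_
    change ii (-z.2) (oP z.1) = -ii z.2 (oP z.1)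
    rw [map_neg]
    rfl
  rw [Wv, Wv, h1, tW, tW, map_neg]
  rfl

/-- **the vertical Euler form is odd under the antipodal map** -/
theorem flip_eV [Nonempty ι] : Eqv (Sph X P) (F.pull flip (eV ι h.hr P oP)) (-eV ι h.hr P oP) := by
  have h1 : Eqv (Sph X P) (F.pull flip (eR (RR P) (Wv ι h.hr P oP)))
      (eR (fun y => RR P (flip y)) (fun y => Wv ι h.hr P oP (flip y))) :=
    Eqv.of_eq fun x hx => RI.pull_eR h.orv smap_flip hx
  have h2 : (fun y => RR P (flip y)) = RR P := funext RR_flip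
  have h3 : (fun y => Wv ι h.hr P oP (flip y)) = fun y I => -Wv ι h.hr P oP y I :=
    funext fun y => Wv_flip h.hr y
  rw [h2, h3] at h1
  refine h1.trans (Eqv.of_eq fun z hz => ?_)
  have h4 : (wC fun y I => -Wv ι h.hr P oP y I) = fun y I => -wC (Wv ι h.hr P oP) y I := by
    funext y I
    simp only [wC]
    push_cast
    rfl
  rw [eR, h4, CW.ef_neg]
  rfl

end OddB

end Crest.Agent.R208.SB
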