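import Crest.Agent.R208.SN3
import Crest.Agent.R208.FV1

/-! Row 208, block SN (helper900).  SN4: spreads; the map `g : SB X (P ∘ f) → C` extending
`f ∘ pB` from the upper hemispheres. -/

set_option autoImplicit false
set_option linter.unusedSectionVars false

open MeasureTheory Set Filter Topology Module Matrix
open scoped ContDiff RealInnerProductSpace
open Crest.Agent.R208.F Crest.Agent.R208.FI Crest.Agent.R208.CW Crest.Agent.R208.T

noncomputable section

namespace Crest.Agent.R208.SN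

variable {n ι : Type*} [Fintype n] [DecidableEq n] [Fintype ι] [DecidableEq ι]

section or
variable {E E' : Type*} [NormedAddCommGroup E] [NormedSpace ℝ E] [FiniteDimensional ℝ E]
  [NormedAddCommGroup E'] [NormedSpace ℝ E'] [FiniteDimensional ℝ E']
  {X : Set E} {Y : Set E'} {P : E → EuclideanSpace ℝ n →L[ℝ] EuclideanSpace ℝ n}
  {W : E → (ι × Fin 2 → n) → ℝ}

theorem OR_sym (h : OR X P W) {x : E} (hx : x ∈ X) (v w : EuclideanSpace ℝ n) :
    ⟪P x v, w⟫ = ⟪v, P x w⟫ := by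
  obtain ⟨f, -, hP, -⟩ := h.fr x hx
  have hs : ∀ i j, (f * fᵀ) i j = (f * fᵀ) j i := fun i j => by
    simp only [Matrix.mul_apply, transpose_apply]
    exact Finset.sum_congr rfl fun a _ => mul_comm _ _
  rw [PiLp.inner_apply, PiLp.inner_apply]
  simp only [hP, RCLike.inner_apply, conj_trivial, Finset.mul_sum, Finset.sum_mul]
  rw [Finset.sum_comm]
  refine Finset.sum_congr rfl fun j _ => Finset.sum_congr rfl fun i _ => ?_
  rw [hs i j]; ring

theorem OR_comp (h : OR X P W) {f : E' → E} (hf : SMap Y X f) :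
    OR Y (fun y => P (f y)) (fun y => W (f y)) where
  sP y hy := ContDiffAt.comp y (h.sP _ (hf.maps hy)) (hf.smooth y hy)
  sW y hy I := ContDiffAt.comp (g := fun x => W x I) y (h.sW _ (hf.maps hy) I) (hf.smooth y hy)
  fr y hy := h.fr _ (hf.maps hy)

end or

/-- a spread: the planes `V_q = range (P q)`, `q ∈ C`, partition `T \ {0}` -/
structure Spr (T : Submodule ℝ (EuclideanSpace ℝ n)) (C : Set (EuclideanSpace ℝ n))
    (P : EuclideanSpace ℝ n → EuclideanSpace ℝ n →L[ℝ] EuclideanSpace ℝ n)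
    (W : EuclideanSpace ℝ n → (ι × Fin 2 → n) → ℝ)
    (rho : EuclideanSpace ℝ n → EuclideanSpace ℝ n) : Prop where
  or : OR C P W
  rg : ∀ q ∈ C, ∀ v, P q v ∈ T
  sm : ∀ u ∈ T, u ≠ 0 → ContDiffAt ℝ ∞ rho u
  mem : ∀ u ∈ T, u ≠ 0 → rho u ∈ C
  fix : ∀ u ∈ T, u ≠ 0 → P (rho u) u = u
  uniq : ∀ q ∈ C, ∀ u, u ≠ 0 → P q u = u → rho u = q

section step
variable {T : Submodule ℝ (EuclideanSpace ℝ n)} {C : Set (EuclideanSpace ℝ n)}
  {P : EuclideanSpace ℝ n → EuclideanSpace ℝ n →L[ℝ] EuclideanSpace ℝ n}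
  {W : EuclideanSpace ℝ n → (ι × Fin 2 → n) → ℝ} {rho : EuclideanSpace ℝ n → EuclideanSpace ℝ n}
  {E : Type*} [NormedAddCommGroup E] [NormedSpace ℝ E] [FiniteDimensional ℝ E]
  {X : Set E} {f : E → EuclideanSpace ℝ n} {w : EuclideanSpace ℝ n}

/-- cut off: `0` for `t ≥ -1/2`, positive below -/
def bt (t : ℝ) : ℝ := Real.smoothTransition (-(2 * t) - 1)

theorem bt_zero {t : ℝ} (h : -(1 / 2) ≤ t) : bt t = 0 :=
  Real.smoothTransition.zero_of_nonpos (by linarith)

theorem bt_pos {t : ℝ} (h : t < -(1 / 2)) : 0 < bt t :=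
  Real.smoothTransition.pos_of_pos (by linarith)

theorem contDiff_bt : ContDiff ℝ ∞ bt :=
  Real.smoothTransition.contDiff.comp (by fun_prop)

/-- the section -/
def sv (w : EuclideanSpace ℝ n) (z : (E × EuclideanSpace ℝ n) × ℝ) : EuclideanSpace ℝ n :=
  z.1.2 + bt z.2 • w

theorem contDiff_sv (w : EuclideanSpace ℝ n) :
    ContDiff ℝ ∞ (sv w : (E × EuclideanSpace ℝ n) × ℝ → EuclideanSpace ℝ n) :=
  (contDiff_snd.comp contDiff_fst).add ((contDiff_bt.comp contDiff_snd).smul contDiff_const)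

theorem sv_of_ge (w : EuclideanSpace ℝ n) {z : (E × EuclideanSpace ℝ n) × ℝ}
    (h : -(1 / 2) ≤ z.2) : sv w z = z.1.2 := by
  rw [sv, bt_zero h, zero_smul, add_zero]

theorem sv_ne (hw : ∀ x ∈ X, P (f x) w ≠ w) {z : (E × EuclideanSpace ℝ n) × ℝ}
    (hz : z ∈ SB X (fun x => P (f x))) (h1 : z.2 < 1) : sv w z ≠ 0 := by
  obtain ⟨hx, hP, hn⟩ := SB_iff.1 hz
  rcases le_or_gt (-(1 / 2)) z.2 with h | h
  · rw [sv_of_ge w h]
    intro h0
    rw [h0, inner_zero_left, zero_add] at hn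
    nlinarith
  · intro h0
    have hb := bt_pos h
    refine hw _ hx ?_
    have h2 : w = (-(bt z.2)⁻¹) • z.1.2 := by
      have : z.1.2 = -(bt z.2 • w) := eq_neg_of_add_eq_zero_left h0
      rw [this, smul_neg, neg_smul, neg_neg, smul_smul, inv_mul_cancel₀ hb.ne', one_smul]
    rw [h2, map_smul, hP]

theorem sv_mem (h : Spr T C P W rho) (hf : SMap X C f) (hwT : w ∈ T)
    {z : (E × EuclideanSpace ℝ n) × ℝ} (hz : z ∈ SB X (fun x => P (f x))) : sv w z ∈ T := by
  obtain ⟨hx, hP, hn⟩ := SB_iff.1 hz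
  refine T.add_mem ?_ (T.smul_mem _ hwT)
  rw [← hP]
  exact h.rg _ (hf.maps hx) _

theorem rho_sv (h : Spr T C P W rho) (hf : SMap X C f) (hw : ∀ x ∈ X, P (f x) w ≠ w)
    {z : (E × EuclideanSpace ℝ n) × ℝ} (hz : z ∈ SB X (fun x => P (f x)))
    (h0 : -(1 / 2) ≤ z.2) (h1 : z.2 < 1) : rho (sv w z) = f z.1.1 := by
  obtain ⟨hx, hP, hn⟩ := SB_iff.1 hz
  refine h.uniq _ (hf.maps hx) _ (sv_ne hw hz h1) ?_
  rw [sv_of_ge w h0]; exact hP

/-- the pull-back field over `X` -/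
theorem pf (h : Spr T C P W rho) (hf : SMap X C f) :
    PField X (Fintype.card ι * 2) (fun x => P (f x)) := by
  have := (OR_comp h.or hf).pfield
  rwa [mul_comm] at this

theorem exists_g {d : ℕ} (h : Spr T C P W rho) (hX : Clo d X) (hf : SMap X C f) (hwT : w ∈ T)
    (hw : ∀ x ∈ X, P (f x) w ≠ w) :
    ∃ g : (E × EuclideanSpace ℝ n) × ℝ → EuclideanSpace ℝ n, ContDiff ℝ ∞ g ∧
      (∀ z ∈ SB X (fun x => P (f x)), -(1 / 2) ≤ z.2 → g z = f z.1.1) ∧
      ∀ z ∈ SB X (fun x => P (f x)), z.2 < 1 → g z = rho (sv w z) := by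
  classical
  set Z := SB X (fun x => P (f x)) with hZ
  set g0 : (E × EuclideanSpace ℝ n) × ℝ → EuclideanSpace ℝ n := fun z =>
    if 0 < z.2 then f z.1.1 else rho (sv w z) with hg0
  have hZS : Sub (Fintype.card ι * 2 + d) Z := sub_SB hX.sub (pf h hf)
  have hZc : IsClosed Z := (isCompact_SB hX.compact (pf h hf)).isClosed
  obtain ⟨g, hg, hgg⟩ := FV.exists_glue hZS hZc (g := g0) (by
    intro z hz
    rcases lt_or_ge (-(1 / 2)) z.2 with h1 | h1
    · refine ⟨fun z => f z.1.1, ContDiffAt.comp (g := f) z (hf.smooth _ hz.1.1.1) (by fun_prop), ?_⟩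
      have ho : {y : (E × EuclideanSpace ℝ n) × ℝ | -(1 / 2) < y.2} ∈ 𝓝 z :=
        (isOpen_lt continuous_const continuous_snd).mem_nhds h1
      filter_upwards [self_mem_nhdsWithin, mem_nhdsWithin_of_mem_nhds ho] with y hy hy1
      show f y.1.1 = if 0 < y.2 then f y.1.1 else rho (sv w y)
      split_ifs with h2
      · rfl
      · exact (rho_sv h hf hw hy (le_of_lt hy1) (by push Not at h2; linarith)).symm
    · have h1' : z.2 < 0 := by linarith
      refine ⟨fun z => rho (sv w z), ContDiffAt.comp (g := rho) z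
        (h.sm _ (sv_mem h hf hwT hz) (sv_ne hw hz (by linarith))) (contDiff_sv w).contDiffAt, ?_⟩
      have ho : {y : (E × EuclideanSpace ℝ n) × ℝ | y.2 < 0} ∈ 𝓝 z :=
        (isOpen_lt continuous_snd continuous_const).mem_nhds h1'
      filter_upwards [mem_nhdsWithin_of_mem_nhds ho] with y hy1
      show rho (sv w y) = if 0 < y.2 then f y.1.1 else rho (sv w y)
      rw [if_neg (not_lt.2 (le_of_lt hy1))])
  refine ⟨g, hg, fun z hz h1 => ?_, fun z hz h1 => ?_⟩
  · rw [hgg z hz]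
    show (if 0 < z.2 then f z.1.1 else rho (sv w z)) = _
    split_ifs with h2
    · rfl
    · exact rho_sv h hf hw hz h1 (by push Not at h2; linarith)
  · rw [hgg z hz]
    show (if 0 < z.2 then f z.1.1 else rho (sv w z)) = _
    split_ifs with h2
    · exact (rho_sv h hf hw hz (by linarith) h1).symm
    · rfl

/-- the data of one step -/
structure Stp (T : Submodule ℝ (EuclideanSpace ℝ n)) (C : Set (EuclideanSpace ℝ n))
    (P : EuclideanSpace ℝ n → EuclideanSpace ℝ n →L[ℝ] EuclideanSpace ℝ n)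
    (W : EuclideanSpace ℝ n → (ι × Fin 2 → n) → ℝ) (rho : EuclideanSpace ℝ n → EuclideanSpace ℝ n)
    (X : Set E) (f : E → EuclideanSpace ℝ n) (w : EuclideanSpace ℝ n)
    (g : (E × EuclideanSpace ℝ n) × ℝ → EuclideanSpace ℝ n) : Prop where
  spr : Spr T C P W rho
  hf : SMap X C f
  wT : w ∈ T
  hw : ∀ x ∈ X, P (f x) w ≠ w
  sg : ContDiff ℝ ∞ g
  up : ∀ z ∈ SB X (fun x => P (f x)), -(1 / 2) ≤ z.2 → g z = f z.1.1
  lo : ∀ z ∈ SB X (fun x => P (f x)), z.2 < 1 → g z = rho (sv w z)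

variable {g : (E × EuclideanSpace ℝ n) × ℝ → EuclideanSpace ℝ n}

theorem Stp.smap (h : Stp T C P W rho X f w g) : SMap (SB X (fun x => P (f x))) C g :=
  ⟨fun z _ => h.sg.contDiffAt, fun z hz => by
    rcases le_or_gt (-(1 / 2)) z.2 with h1 | h1
    · rw [h.up z hz h1]; exact h.hf.maps hz.1.1.1
    · have h2 : z.2 < 1 := by linarith
      rw [h.lo z hz h2]
      exact h.spr.mem _ (sv_mem h.spr h.hf h.wT hz) (sv_ne h.hw hz h2)⟩

theorem Stp.fix (h : Stp T C P W rho X f w g) {z : (E × EuclideanSpace ℝ n) × ℝ}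
    (hz : z ∈ SB X (fun x => P (f x))) : P (g z) (sv w z) = sv w z := by
  rcases lt_or_ge z.2 1 with h1 | h1
  · rw [h.lo z hz h1]
    exact h.spr.fix _ (sv_mem h.spr h.hf h.wT hz) (sv_ne h.hw hz h1)
  · rw [h.up z hz (by linarith), sv_of_ge w (by linarith)]
    exact hz.1.1.2

end step

end Crest.Agent.R208.SN
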