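import Crest.Agent.R208.GQ2d
import Crest.Agent.R208.GO2
import Crest.Agent.R208.UP2

/-! Row 208, block ZH (helper107), part ZH3: **(V4-c)** Leray–Hirsch for the sphere bundle of an
oriented field of odd rank, through `P ⊕ 1`. -/

set_option autoImplicit false
set_option linter.unusedSectionVars false

open MeasureTheory Set Filter Topology Module
open scoped ContDiff RealInnerProductSpace Matrix
open Crest.Agent.R208.F Crest.Agent.R208.FI Crest.Agent.R208.CW Crest.Agent.R208.T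
open Crest.Agent.R208.NO (pL pU iL iU dsum pL_iL pU_iL pL_iU pU_iU dsum_apply dsum_idem dsum_sym
  dsum_eq_self contDiffAt_dsum finrank_dsum)
open Crest.Agent.R208.SB (OPr)
open Crest.Agent.R208.UP (SyOn UPr)

noncomputable section

namespace Crest.Agent.R208.ZG

section dsum
variable {n : Type} [Fintype n] [DecidableEq n]
  {E : Type} [NormedAddCommGroup E] [NormedSpace ℝ E] [FiniteDimensional ℝ E]
  {X : Set E} {P : E → EuclideanSpace ℝ n →L[ℝ] EuclideanSpace ℝ n} {r d q : ℕ}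
  {oP : E → Ext (EuclideanSpace ℝ n)}

theorem pfield_dsum (hP : PField X r P) : PField X (r + 1) (fun x => dsum (P x)) :=
  ⟨fun x hx => contDiffAt_dsum (hP.smooth x hx), fun x hx => dsum_idem (hP.idem x hx),
    fun x hx => by rw [finrank_dsum (hP.idem x hx), hP.rank x hx]⟩

theorem syOn_dsum (hs : SyOn X P) : SyOn X (fun x => dsum (P x)) := fun x hx =>
  dsum_sym (hs x hx)

theorem norm_iU : ‖iU n 1‖ = 1 := by
  have h1 : ⟪iU n 1, iU n 1⟫ = (1 : ℝ) := by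
    rw [NO.inner_dec, pL_iU, pU_iU, inner_zero_left, zero_add, mul_one]
  rw [real_inner_self_eq_norm_sq] at h1
  nlinarith [norm_nonneg (iU n 1)]

theorem oddS_dsum (hP : PField X r P) (hs : SyOn X P) :
    GQ.OddS X (fun x => dsum (P x)) (r + 1) (fun _ => iU n 1) :=
  ⟨pfield_dsum hP, syOn_dsum hs, fun _ _ => contDiffAt_const, fun _ _ => norm_iU,
    fun x _ => dsum_eq_self.2 (by rw [pL_iU, map_zero])⟩

theorem mE_iM (w : EuclideanSpace ℝ n) : mE (iM n Unit) w = iL n w := by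
  ext i
  rcases i with i | i
  · change ((iM n Unit).mulVec w) (Sum.inl i) = w i
    rw [iM, Matrix.fromRows_mulVec]
    simp
  · change ((iM n Unit).mulVec w) (Sum.inr i) = 0
    rw [iM, Matrix.fromRows_mulVec]
    simp

theorem mE_iMt (w : EuclideanSpace ℝ (n ⊕ Unit)) : mE (iM n Unit)ᵀ w = pL n w := by
  ext i
  change ((iM n Unit)ᵀ.mulVec w) i = w (Sum.inl i)
  rw [iM, Matrix.transpose_fromRows, Matrix.mulVec, dotProduct, Fintype.sum_sum_type]
  simp [Matrix.one_apply]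

theorem Pm_dsum : GQ.Pm (fun x => dsum (P x)) (fun _ => iU n 1) = pushE (iM n Unit) P := by
  funext x
  ext1 w
  change dsum (P x) w - ⟪iU n 1, w⟫ • iU n 1 = mE (iM n Unit) (P x (mE (iM n Unit)ᵀ w))
  rw [mE_iM, mE_iMt, NO.inner_dec, pL_iU, pU_iU, inner_zero_left, zero_add, one_mul, dsum_apply,
    ← map_smul, smul_eq_mul, mul_one, add_sub_cancel_right]

/-- orientation form of `P ⊕ 1` -/
def oD (oP : E → Ext (EuclideanSpace ℝ n)) (x : E) : Ext (EuclideanSpace ℝ (n ⊕ Unit)) :=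
  io (pU n : EuclideanSpace ℝ (n ⊕ Unit) →ₗ[ℝ] ℝ) *
    pb (pL n : EuclideanSpace ℝ (n ⊕ Unit) →ₗ[ℝ] EuclideanSpace ℝ n) (oP x)

theorem opr_dsum (hP : PField X r P) (h : OPr X r P oP) :
    OPr X (r + 1) (fun x => dsum (P x)) (oD oP) := by
  refine OPr.of (pfield_dsum hP) (fun x hx => ?_) (fun x => ?_) (fun x hx => ?_)
  · exact contDiffAt_mul contDiffAt_const ((pbL (pL n)).contDiff.contDiffAt.comp x (h.sm x hx))
  · have h1 := T.IsDeg.mul (CM.isDeg_io (pU n : EuclideanSpace ℝ (n ⊕ Unit) →ₗ[ℝ] ℝ))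
      ((h.deg x).pb (pL n : EuclideanSpace ℝ (n ⊕ Unit) →ₗ[ℝ] EuclideanSpace ℝ n))
    rw [add_comm] at h1
    exact h1
  · obtain ⟨e, he, hPe⟩ := UP.exists_fr (hP.idem x hx) (hP.rank x hx)
    refine ⟨Matrix.vecCons (iU n 1) (fun i => iL n (e i)), fun i => ?_, ?_⟩
    · refine Fin.cases ?_ (fun i => ?_) i
      · exact dsum_eq_self.2 (by
          change P x (pL n (iU n 1)) = pL n (iU n 1)
          rw [pL_iU, map_zero])
      · exact dsum_eq_self.2 (by
          change P x (pL n (iL n (e i))) = pL n (iL n (e i))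
          rw [pL_iL, hPe])
    · have h2 : ii (iU n 1) (oD oP x) =
          pb (pL n : EuclideanSpace ℝ (n ⊕ Unit) →ₗ[ℝ] EuclideanSpace ℝ n) (oP x) := by
        have h3 : (pL n : EuclideanSpace ℝ (n ⊕ Unit) →ₗ[ℝ] EuclideanSpace ℝ n) (iU n 1) = 0 :=
          pL_iU 1
        have h4 : (pU n : EuclideanSpace ℝ (n ⊕ Unit) →ₗ[ℝ] ℝ) (iU n 1) = 1 := pU_iU 1
        rw [oD, ii_io_mul, ii_pb, h3, h4]
        have h5 : ii (0 : EuclideanSpace ℝ n) (oP x) = 0 := by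
          rw [map_zero]; rfl
        rw [h5, map_zero, mul_zero, sub_zero, one_smul]
      rw [evA_ii, h2, evA_pb]
      have h6 : (fun i => (pL n : EuclideanSpace ℝ (n ⊕ Unit) →ₗ[ℝ] EuclideanSpace ℝ n)
          (iL n (e i))) = e := funext fun i => pL_iL (e i)
      rw [h6]
      exact h.ne x hx e he.linearIndependent hPe

/-- **Leray–Hirsch** for the sphere bundle of an oriented field of odd rank `2 l + 1` -/
theorem lh_gen {l : ℕ} (hX : Sub d X) (hXc : IsPreconnected X) (hP : PField X (2 * l + 1) P)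
    (hs : SyOn X P) (ho : OPr X (2 * l + 1) P oP)
    {ε : E × EuclideanSpace ℝ n → Ext (E × EuclideanSpace ℝ n)} (sε : Sm (Sph X P) ε)
    (cε : Cl (Sph X P) ε) (dε : Hom (2 * l) ε)
    (hε : ¬ ∃ a : E → Ext E, Sm X a ∧ Cl X a ∧ Hom (2 * l) a ∧
      Coh (Sph X P) ε (F.pull Prod.fst a)) : GQ.LH X P (2 * l) ε := by
  have hcard : Fintype.card (Fin (l + 1)) = l + 1 := Fintype.card_fin _
  have φ : Fin (l + 1) × Fin 2 ≃ Fin (2 * l + 1 + 1) :=
    finProdFinEquiv.trans (finCongr (by ring))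
  have hOR := UP.OR_of_opr φ (opr_dsum hP ho) (pfield_dsum hP) (syOn_dsum hs)
  have hodd : GQ.OddS X (fun x => dsum (P x)) (2 * Fintype.card (Fin (l + 1)))
      (fun _ => iU n 1) := by
    have := oddS_dsum hP hs
    rwa [show 2 * l + 1 + 1 = 2 * Fintype.card (Fin (l + 1)) by rw [hcard]; ring] at this
  have hS := iM_iso (n := n) Unit
  refine GQ.LH.of_push hS sε cε dε ?_
  rw [← Pm_dsum]
  have so : SMap (Sph X (pushE (iM n Unit) P)) (Sph X P)
    (fun z : E × EuclideanSpace ℝ (n ⊕ Unit) =>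
      ((z.1, mE (iM n Unit)ᵀ z.2) : E × EuclideanSpace ℝ n)) := smap_out hS
  have si : SMap (Sph X P) (Sph X (pushE (iM n Unit) P))
    (fun z : E × EuclideanSpace ℝ n =>
      ((z.1, mE (iM n Unit) z.2) : E × EuclideanSpace ℝ (n ⊕ Unit))) := smap_in hS
  rw [← Pm_dsum] at so si
  refine GQ.lh_OR hX hXc hOR hodd (by rw [hcard]; ring) (sε.pull so) (cε.pull so sε) dε.pull ?_
  rintro ⟨a, sa, ca, da, ea⟩
  refine hε ⟨a, sa, ca, da, ?_⟩
  have e1 := ea.pull si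
  have e2 := (eqv_pull_pull si so (SMap.id _) (fun z _ => by
      change (z.1, mE (iM n Unit)ᵀ (mE (iM n Unit) z.2)) = z
      rw [mE_mE, hS, mE_one]) ε).trans (Eqv.of_eq fun z _ => F.pull_id ε z)
  have e3 := eqv_pull_pull si (smap_fstS (X := X)
    (P := GQ.Pm (fun x => dsum (P x)) (fun _ => iU n 1)))
    (smap_fstS (X := X) (P := P)) (fun _ _ => rfl) a
  exact (Coh.of_eqv e2.symm).trans (e1.trans (Coh.of_eqv e3))

/-- a form with a nonzero integral over one fibre is not a class of the base -/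
theorem not_pull_of_J {k : ℕ} (hk0 : 0 < k) {x0 : E} (hP : PField X (k + 1) P) (hx0 : x0 ∈ X)
    {ε : E × EuclideanSpace ℝ n → Ext (E × EuclideanSpace ℝ n)} (sε : Sm (Sph X P) ε)
    {oF : E × EuclideanSpace ℝ n → Ext (E × EuclideanSpace ℝ n)}
    (ho : Ori k (Sph X P ∩ Prod.fst ⁻¹' {x0}) oF)
    (hJ : J k (Sph X P ∩ Prod.fst ⁻¹' {x0}) oF ε ≠ 0) :
    ¬ ∃ c : E → Ext E, Sm X c ∧ Coh (Sph X P) ε (F.pull Prod.fst c) := by
  rintro ⟨c, hc, hcoh⟩
  have hset : Sph X P ∩ Prod.fst ⁻¹' {x0} = Sph ({x0} : Set E) P := by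
    ext z
    constructor
    · rintro ⟨⟨⟨_, h2⟩, h3⟩, h4⟩
      exact ⟨⟨h4, h2⟩, h3⟩
    · rintro ⟨⟨h1, h2⟩, h3⟩
      have h1' : z.1 = x0 := h1
      exact ⟨⟨⟨by rw [h1']; exact hx0, h2⟩, h3⟩, h1⟩
  rw [hset] at ho hJ
  have hP0 : PField ({x0} : Set E) (k + 1) P :=
    ⟨fun x hx => by rw [hx]; exact hP.smooth _ hx0, fun x hx => by rw [hx]; exact hP.idem _ hx0,
      fun x hx => by rw [hx, hP.rank _ hx0]⟩
  have hsub : Sph ({x0} : Set E) P ⊆ Sph X P := by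
    rw [← hset]; exact Set.inter_subset_left
  have hS : Clo (k + 0) (Sph ({x0} : Set E) P) :=
    SB.clo_Sph ((sub_point x0).clo isCompact_singleton) hP0
  rw [add_zero] at hS
  have hsm : Sm (Sph ({x0} : Set E) P) (F.pull Prod.fst c) := (hc.pull smap_fstS).mono hsub
  rw [SO.J_coh hS ho (sε.mono hsub) hsm (hcoh.mono hsub)] at hJ
  refine hJ (J_eq_zero hS fun z hz w hw => ?_)
  obtain ⟨x, y⟩ := z
  have hx : x = x0 := hz.1.1
  subst hx
  rw [F.pull, evA_pb]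
  have h2 : fderiv ℝ (Prod.fst : E × EuclideanSpace ℝ n → E) (x, y) =
      ContinuousLinearMap.fst ℝ E (EuclideanSpace ℝ n) := fderiv_fst
  rw [h2]
  refine (evA E k (c x)).map_coord_zero ⟨0, hk0⟩ ?_
  have h3 := ((SB.mem_Tan_Sph (sub_point x) hP0 (v := y) hz (a := (w ⟨0, hk0⟩).1)
    (b := (w ⟨0, hk0⟩).2)).1 (hw ⟨0, hk0⟩)).1
  rw [GO.Tan_point, Submodule.mem_bot] at h3
  exact h3

/-- Leray–Hirsch with a form whose integral over one fibre is not zero -/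
theorem lh_of_J {l : ℕ} (hl : 0 < l) (hX : Sub d X) (hXc : IsPreconnected X)
    (hP : PField X (2 * l + 1) P) (hs : SyOn X P) (ho : OPr X (2 * l + 1) P oP)
    {ε : E × EuclideanSpace ℝ n → Ext (E × EuclideanSpace ℝ n)} (sε : Sm (Sph X P) ε)
    (cε : Cl (Sph X P) ε) (dε : Hom (2 * l) ε) {x0 : E} (hx0 : x0 ∈ X)
    {oF : E × EuclideanSpace ℝ n → Ext (E × EuclideanSpace ℝ n)}
    (hoF : Ori (2 * l) (Sph X P ∩ Prod.fst ⁻¹' {x0}) oF)
    (hJ : J (2 * l) (Sph X P ∩ Prod.fst ⁻¹' {x0}) oF ε ≠ 0) : GQ.LH X P (2 * l) ε :=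
  lh_gen hX hXc hP hs ho sε cε dε fun ⟨a, sa, _, _, ea⟩ =>
    not_pull_of_J (by omega) hP hx0 sε hoF hJ ⟨a, sa, ea⟩

/-- Leray–Hirsch with the Euler form of the vertical field -/
theorem lh_RR {ι' : Type} [Fintype ι'] [DecidableEq ι'] [Nonempty ι']
    {W' : E × EuclideanSpace ℝ n → (ι' × Fin 2 → n) → ℝ} (hX : Sub d X)
    (hXc : IsPreconnected X) (hXn : X.Nonempty) (hP : PField X (2 * Fintype.card ι' + 1) P)
    (hs : SyOn X P) (ho : OPr X (2 * Fintype.card ι' + 1) P oP)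
    (hR : OR (Sph X P) (GO.RR P) W') :
    GQ.LH X P (2 * Fintype.card ι') (eR (GO.RR P) W') := by
  obtain ⟨x0, hx0⟩ := hXn
  exact lh_gen hX hXc hP hs ho (CM.sm_eR hR) (CM.cl_eR hR) (CM.hom_eR _ _) fun ⟨a, sa, _, _, ea⟩ =>
    GO.not_pull hP rfl hR hx0 ⟨a, sa, ea⟩

end dsum

end Crest.Agent.R208.ZG
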