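import Crest.Agent.R208.SB5
import Crest.Agent.R208.ZH3
import Crest.Agent.R208.ZH2
import Crest.Agent.R208.RRc365
import Crest.Agent.R208.CW7b
import Crest.Agent.R208.SN4
import Crest.Agent.R208.RR6

/-! Row 208, block SB (helper349), part SB6: the angular form of an oriented field of even rank
`2l`: `kap` on the unit sphere bundle with `d kap = fst^* (eR P W)` and `|∫_fibre kap| = (4π)^l l!`,
from the vertical Euler form of the sphere bundle of `P ⊕ 1` and the half rotation. -/

set_option autoImplicit false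
set_option linter.unusedSectionVars false
set_option linter.unusedVariables false

open MeasureTheory MeasureTheory.Measure Set Filter Topology Module
open scoped ContDiff RealInnerProductSpace
open Crest.Agent.R208.F Crest.Agent.R208.FI Crest.Agent.R208.T Crest.Agent.R208.FG
open Crest.Agent.R208.CW (SMap H cc cs IdF ec ec_sq SM)
open Crest.Agent.R208.GO (RR)
open Crest.Agent.R208.UP (SyOn UPr nrm tW OR_of_opr)
open Crest.Agent.R208.NO (pL pU iL iU dsum pL_iL pU_iL pL_iU pU_iU dsum_apply dsum_eq_self inner_dec)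

noncomputable section

namespace Crest.Agent.R208.SB

variable {E : Type} [NormedAddCommGroup E] [NormedSpace ℝ E] [FiniteDimensional ℝ E]
  {n ι : Type} [Fintype n] [DecidableEq n] [Fintype ι] [DecidableEq ι]
  {X : Set E} {P : E → EuclideanSpace ℝ n →L[ℝ] EuclideanSpace ℝ n} {r d m : ℕ}
  {oP : E → Ext (EuclideanSpace ℝ n)} {W : E → (ι × Fin 2 → n) → ℝ}

/-! ### the half rotation -/

/-- the half rotation -/
def HR (y : (E × EuclideanSpace ℝ n) × ℝ) : E × EuclideanSpace ℝ (n ⊕ Unit) :=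
  (y.1.1, Real.sin (Real.pi * y.2) • iL n y.1.2 + Real.cos (Real.pi * y.2) • iU n 1)

theorem contDiff_HR : ContDiff ℝ ∞ (HR (E := E) (n := n)) := by
  unfold HR
  have h1 : ContDiff ℝ ∞ fun y : (E × EuclideanSpace ℝ n) × ℝ => Real.sin (Real.pi * y.2) :=
    Real.contDiff_sin.comp (contDiff_const.mul contDiff_snd)
  have h2 : ContDiff ℝ ∞ fun y : (E × EuclideanSpace ℝ n) × ℝ => Real.cos (Real.pi * y.2) :=
    Real.contDiff_cos.comp (contDiff_const.mul contDiff_snd)
  exact (contDiff_fst.comp contDiff_fst).prodMk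
    ((h1.smul ((iL n).contDiff.comp (contDiff_snd.comp contDiff_fst))).add (h2.smul contDiff_const))

theorem pL_HR (y : (E × EuclideanSpace ℝ n) × ℝ) :
    pL n (HR y).2 = Real.sin (Real.pi * y.2) • y.1.2 := by
  change pL n (Real.sin (Real.pi * y.2) • iL n y.1.2 + Real.cos (Real.pi * y.2) • iU n 1) = _
  rw [map_add, map_smul, map_smul, pL_iL, pL_iU, smul_zero, add_zero]

theorem pU_HR (y : (E × EuclideanSpace ℝ n) × ℝ) :
    pU n (HR y).2 = Real.cos (Real.pi * y.2) := by
  change pU n (Real.sin (Real.pi * y.2) • iL n y.1.2 + Real.cos (Real.pi * y.2) • iU n 1) = _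
  rw [map_add, map_smul, map_smul, pU_iL, pU_iU, smul_zero, zero_add, smul_eq_mul, mul_one]

theorem norm_sq_dec (w : EuclideanSpace ℝ (n ⊕ Unit)) :
    ‖w‖ ^ 2 = ‖pL n w‖ ^ 2 + pU n w ^ 2 := by
  rw [← real_inner_self_eq_norm_sq, inner_dec, real_inner_self_eq_norm_sq, pow_two (pU n w)]

theorem HR_mem {z : E × EuclideanSpace ℝ n} (hz : z ∈ Sph X P) (t : ℝ) :
    HR (z, t) ∈ Sph X (fun x => dsum (P x)) := by
  refine ⟨⟨hz.1.1, ?_⟩, ?_⟩
  · change dsum (P z.1) (HR (z, t)).2 = (HR (z, t)).2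
    rw [dsum_eq_self, pL_HR, map_smul]
    have := hz.1.2
    rw [this]
  · have h1 := norm_sq_dec (HR (z, t)).2
    rw [pL_HR, pU_HR, norm_smul] at h1
    have h2 : ‖z.2‖ = 1 := hz.2
    have h3 : ‖(HR (z, t)).2‖ ^ 2 = 1 := by
      rw [h1]
      change (‖Real.sin (Real.pi * t)‖ * ‖z.2‖) ^ 2 + Real.cos (Real.pi * t) ^ 2 = 1
      rw [h2, mul_one, Real.norm_eq_abs, sq_abs]
      exact Real.sin_sq_add_cos_sq _
    have h4 : 0 ≤ ‖(HR (z, t)).2‖ := norm_nonneg _
    change ‖(HR (z, t)).2‖ = 1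
    nlinarith

theorem sin_pos' {t : ℝ} (ht : t ∈ Ioo (0 : ℝ) 1) : 0 < Real.sin (Real.pi * t) := by
  have := Real.pi_pos
  exact Real.sin_pos_of_pos_of_lt_pi (mul_pos this ht.1) (by nlinarith [ht.2])

theorem HR_inj {z z' : E × EuclideanSpace ℝ n} {t t' : ℝ} (ht : t ∈ Ioo (0 : ℝ) 1)
    (ht' : t' ∈ Ioo (0 : ℝ) 1) (h : HR (z, t) = HR (z', t')) : z = z' ∧ t = t' := by
  have hπ := Real.pi_pos
  have h1 : Real.cos (Real.pi * t) = Real.cos (Real.pi * t') := by
    have := congrArg (fun y => pU n y.2) h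
    simpa only [pU_HR] using this
  have h2 : Real.pi * t = Real.pi * t' :=
    Real.injOn_cos ⟨by nlinarith [ht.1], by nlinarith [ht.2]⟩
      ⟨by nlinarith [ht'.1], by nlinarith [ht'.2]⟩ h1
  have h3 : t = t' := mul_left_cancel₀ hπ.ne' h2
  subst h3
  have h4 := congrArg (fun y => pL n y.2) h
  simp only [pL_HR] at h4
  have h5 : z.2 = z'.2 := smul_right_injective _ (sin_pos' ht).ne' h4
  have h6 : z.1 = z'.1 := congrArg (fun y => y.1) h
  exact ⟨Prod.ext h6 h5, rfl⟩

theorem HR_dinj {z : E × EuclideanSpace ℝ n} (hz : ‖z.2‖ = 1) {t : ℝ} (ht : t ∈ Ioo (0 : ℝ) 1)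
    {w : E × EuclideanSpace ℝ n} (hw : ⟪z.2, w.2⟫ = 0) {s : ℝ}
    (h0 : fderiv ℝ (HR (E := E) (n := n)) (z, t) (w, s) = 0) : w = 0 ∧ s = 0 := by
  have hπ := Real.pi_pos
  have hc : HasDerivAt (fun τ : ℝ => ((z + τ • w, t + τ * s) : (E × EuclideanSpace ℝ n) × ℝ))
      (w, s) 0 := by
    have h1 : HasDerivAt (fun τ : ℝ => z + τ • w) w 0 := by
      simpa using ((hasDerivAt_id (0 : ℝ)).smul_const w).const_add z
    have h2 : HasDerivAt (fun τ : ℝ => t + τ * s) s 0 := by
      simpa using ((hasDerivAt_id (0 : ℝ)).mul_const s).const_add t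
    exact h1.prodMk h2
  have hf : HasFDerivAt (HR (E := E) (n := n)) (fderiv ℝ (HR (E := E) (n := n)) (z, t))
      ((fun τ : ℝ => ((z + τ • w, t + τ * s) : (E × EuclideanSpace ℝ n) × ℝ)) 0) := by
    have : ((fun τ : ℝ => ((z + τ • w, t + τ * s) : (E × EuclideanSpace ℝ n) × ℝ)) 0) = (z, t) := by
      simp
    rw [this]
    exact (contDiff_HR.differentiable (by simp) _).hasFDerivAt
  have hd := hf.comp_hasDerivAt (0 : ℝ) hc
  rw [h0] at hd
  have d1 : HasDerivAt (fun τ : ℝ => z.1 + τ • w.1) 0 0 := by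
    have h3 : HasDerivAt (fun τ : ℝ => z.1 + τ • w.1)
        ((ContinuousLinearMap.fst ℝ E (EuclideanSpace ℝ (n ⊕ Unit))) 0) 0 :=
      (ContinuousLinearMap.fst ℝ E (EuclideanSpace ℝ (n ⊕ Unit))).hasFDerivAt.comp_hasDerivAt
        (0 : ℝ) hd
    rwa [map_zero] at h3
  have d1' : HasDerivAt (fun τ : ℝ => z.1 + τ • w.1) w.1 0 := by
    simpa using ((hasDerivAt_id (0 : ℝ)).smul_const w.1).const_add z.1
  have e1 : w.1 = 0 := d1'.unique d1
  have d2 : HasDerivAt (fun τ : ℝ => Real.cos (Real.pi * (t + τ * s))) 0 0 := by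
    have h3 := (pU n).hasFDerivAt.comp_hasDerivAt (0 : ℝ)
      ((ContinuousLinearMap.snd ℝ E (EuclideanSpace ℝ (n ⊕ Unit))).hasFDerivAt.comp_hasDerivAt
      (0 : ℝ) hd)
    have h4 : (fun τ : ℝ => Real.cos (Real.pi * (t + τ * s))) =
        (pU n) ∘ (ContinuousLinearMap.snd ℝ E (EuclideanSpace ℝ (n ⊕ Unit))) ∘
          (HR (E := E) (n := n)) ∘
          (fun τ : ℝ => ((z + τ • w, t + τ * s) : (E × EuclideanSpace ℝ n) × ℝ)) := by
      funext τ
      exact (pU_HR ((z + τ • w, t + τ * s) : (E × EuclideanSpace ℝ n) × ℝ)).symm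
    rw [h4]
    simpa using h3
  have a2 : HasDerivAt (fun τ : ℝ => Real.pi * (t + τ * s)) (Real.pi * s) 0 := by
    simpa using (((hasDerivAt_id (0 : ℝ)).mul_const s).const_add t).const_mul Real.pi
  have d2' : HasDerivAt (fun τ : ℝ => Real.cos (Real.pi * (t + τ * s)))
      (-Real.sin (Real.pi * t) * (Real.pi * s)) 0 := by
    have := a2.cos
    simpa using this
  have e2 : s = 0 := by
    have h5 := d2'.unique d2
    have h6 := sin_pos' ht
    have h7 : Real.sin (Real.pi * t) * (Real.pi * s) = 0 := by linarith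
    rcases mul_eq_zero.1 h7 with h | h
    · exact absurd h h6.ne'
    · exact (mul_eq_zero.1 h).resolve_left hπ.ne'
  subst e2
  have d3 : HasDerivAt (fun τ : ℝ => Real.sin (Real.pi * t) • (z.2 + τ • w.2)) 0 0 := by
    have h3 := (pL n).hasFDerivAt.comp_hasDerivAt (0 : ℝ)
      ((ContinuousLinearMap.snd ℝ E (EuclideanSpace ℝ (n ⊕ Unit))).hasFDerivAt.comp_hasDerivAt
      (0 : ℝ) hd)
    have h4 : (fun τ : ℝ => Real.sin (Real.pi * t) • (z.2 + τ • w.2)) =
        (pL n) ∘ (ContinuousLinearMap.snd ℝ E (EuclideanSpace ℝ (n ⊕ Unit))) ∘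
          (HR (E := E) (n := n)) ∘
          (fun τ : ℝ => ((z + τ • w, t + τ * 0) : (E × EuclideanSpace ℝ n) × ℝ)) := by
      funext τ
      have := pL_HR ((z + τ • w, t + τ * 0) : (E × EuclideanSpace ℝ n) × ℝ)
      rw [mul_zero, add_zero] at this
      simp only [Function.comp_apply, mul_zero, add_zero]
      exact this.symm
    rw [h4]
    simpa using h3
  have d3' : HasDerivAt (fun τ : ℝ => Real.sin (Real.pi * t) • (z.2 + τ • w.2))
      (Real.sin (Real.pi * t) • w.2) 0 := by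
    have h5 : HasDerivAt (fun τ : ℝ => z.2 + τ • w.2) w.2 0 := by
      simpa using ((hasDerivAt_id (0 : ℝ)).smul_const w.2).const_add z.2
    exact h5.fun_const_smul _
  have e3 : w.2 = 0 := (smul_eq_zero.1 (d3'.unique d3)).resolve_left (sin_pos' ht).ne'
  exact ⟨Prod.ext e1 e3, rfl⟩

/-! ### one fibre -/

theorem swp_HR {x : E} (hP : PField ({x} : Set E) (m + 1) P) (hm : 1 ≤ m) :
    RRC.Swp m (Sph ({x} : Set E) P) (Sph ({x} : Set E) (fun y => dsum (P y)))
      (HR (E := E) (n := n)) where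
  cloZ := by
    have := clo_Sph ((sub_point x).clo isCompact_singleton) hP
    rwa [add_zero] at this
  cloX := by
    have h1 : PField ({x} : Set E) (m + 1 + 1) (fun y => dsum (P y)) := ZG.pfield_dsum hP
    have := clo_Sph ((sub_point x).clo isCompact_singleton) h1
    rwa [add_zero, add_comm] at this
  sm := fun z _ t => contDiff_HR.contDiffAt
  mem := fun z hz t => HR_mem hz t
  inj := fun z _ z' _ t ht t' ht' h => HR_inj ht ht' h
  dinj := by
    intro z hz t ht w hw s h0
    obtain ⟨y, v⟩ := z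
    have hy : y = x := hz.1.1
    subst hy
    have h1 := ((mem_Tan_Sph (sub_point y) hP hz (a := w.1) (b := w.2)).1 hw).2.2
    exact HR_dinj hz.2 ht h1 h0
  null := by
    have hsub : (Sph ({x} : Set E) (fun y => dsum (P y)) \
        HR '' (Sph ({x} : Set E) P ×ˢ Ioo (0 : ℝ) 1)) ⊆ {(x, iU n 1), (x, iU n (-1))} := by
      rintro ⟨y, w⟩ ⟨hw, hw2⟩
      have hy : y = x := hw.1.1
      subst hy
      have h1 : P y (pL n w) = pL n w := dsum_eq_self.1 hw.1.2
      have h2 : ‖w‖ = 1 := hw.2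
      have h3 := norm_sq_dec w
      rw [h2, one_pow] at h3
      by_cases hL : pL n w = 0
      · rw [hL, norm_zero] at h3
        have h4 : pU n w = 1 ∨ pU n w = -1 := by
          have : (pU n w - 1) * (pU n w + 1) = 0 := by nlinarith
          rcases mul_eq_zero.1 this with h | h
          · left; linarith
          · right; linarith
        have h5 : w = iU n (pU n w) := by
          have := NO.dec w
          rw [hL, map_zero, zero_add] at this
          exact this.symm
        rcases h4 with h | h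
        · left; rw [h] at h5; rw [h5]
        · right; rw [h] at h5; rw [h5]; rfl
      · exfalso
        apply hw2
        have hπ := Real.pi_pos
        have hLp : 0 < ‖pL n w‖ := norm_pos_iff.2 hL
        have h4 : -1 < pU n w := by nlinarith
        have h5 : pU n w < 1 := by nlinarith
        set t := Real.arccos (pU n w) / Real.pi with ht
        have h6 : Real.pi * t = Real.arccos (pU n w) := by rw [ht]; field_simp
        have h7 : Real.cos (Real.pi * t) = pU n w := by
          rw [h6]; exact Real.cos_arccos h4.le h5.le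
        have h8 : Real.sin (Real.pi * t) = ‖pL n w‖ := by
          rw [h6, Real.sin_arccos]
          rw [Real.sqrt_eq_iff_mul_self_eq (by nlinarith) hLp.le]
          nlinarith
        have ht1 : t ∈ Ioo (0 : ℝ) 1 := by
          have a1 : 0 < Real.arccos (pU n w) := Real.arccos_pos.2 h5
          have a2 : Real.arccos (pU n w) < Real.pi := by
            rcases lt_or_eq_of_le (Real.arccos_le_pi (pU n w)) with h | h
            · exact h
            · exact absurd (Real.arccos_eq_pi.1 h) (not_le.2 h4)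
          exact ⟨div_pos a1 hπ, (div_lt_one hπ).2 a2⟩
        refine ⟨((y, ‖pL n w‖⁻¹ • pL n w), t), ⟨⟨⟨rfl, ?_⟩, ?_⟩, ht1⟩, ?_⟩
        · change P y (‖pL n w‖⁻¹ • pL n w) = _
          rw [map_smul, h1]
        · change ‖‖pL n w‖⁻¹ • pL n w‖ = 1
          rw [norm_smul, norm_inv, norm_norm, inv_mul_cancel₀ hLp.ne']
        · refine Prod.ext rfl ?_
          refine NO.ext_pp ?_ ?_
          · rw [pL_HR]
            change Real.sin (Real.pi * t) • ‖pL n w‖⁻¹ • pL n w = pL n w
            rw [h8, smul_smul, mul_inv_cancel₀ hLp.ne', one_smul]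
          · rw [pU_HR]
            exact h7
    refine measure_mono_null (image_mono hsub) ?_
    rcases euclideanHausdorffMeasure_zero_or_top (show 0 < 1 + m by omega)
      (TE (E × EuclideanSpace ℝ (n ⊕ Unit)) '' {(x, iU n 1), (x, iU n (-1))}) with h | h
    · exact h
    · exfalso
      have h1 : (μHE[0] : Measure _) (TE (E × EuclideanSpace ℝ (n ⊕ Unit)) ''
          {(x, iU n 1), (x, iU n (-1))}) < ⊤ := by
        rw [image_pair, euclideanHausdorffMeasure_zero]
        rw [Set.insert_eq]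
        refine (measure_union_le _ _).trans_lt ?_
        rw [hausdorffMeasure_zero_singleton, hausdorffMeasure_zero_singleton]
        exact ENNReal.add_lt_top.2 ⟨ENNReal.one_lt_top, ENNReal.one_lt_top⟩
      exact h1.ne h

/-- **the fibre integral** of the swept form -/
theorem J_sweep [Nonempty ι] {oQ : E → Ext (EuclideanSpace ℝ (n ⊕ Unit))} {x : E}
    (hP : PField ({x} : Set E) (m + 1) P) (hm : 1 ≤ m)
    (ob : OddB ι ({x} : Set E) (1 + m) (fun y => dsum (P y)) oQ)
    {o : E × EuclideanSpace ℝ n → Ext (E × EuclideanSpace ℝ n)} (ho : Ori m (Sph ({x} : Set E) P) o) :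
    |J m (Sph ({x} : Set E) P) o (Hop HR (OddB.eV ι ob.hr (fun y => dsum (P y)) oQ))| =
      2 * XF.tau ι := by
  have hs := swp_HR hP hm
  have h1 := hs.J_eq (ob.ori_oV (mem_singleton x))
    (continuousOn_of_contDiffAt ob.ec_eV.sm)
  rw [ob.J_fibre (mem_singleton x)] at h1
  have hc : IsPreconnected (Sph ({x} : Set E) P) := by
    have := ZG.preconn_fib_Sph hP hm (mem_singleton x)
    rwa [OddB.fibre_eq (mem_singleton x)] at this
  have hτ : 0 < XF.tau ι := by unfold XF.tau; positivity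
  rcases J_ori_connected hs.cloZ (hs.ori (ob.ori_oV (mem_singleton x))) ho hc with h | h
  · rw [h, h1, abs_of_pos (by positivity)]
  · rw [h, h1, abs_neg, abs_of_pos (by positivity)]

/-! ### the two poles -/

/-- the pole section -/
def sp (n : Type) [Fintype n] (x : E) : E × EuclideanSpace ℝ (n ⊕ Unit) := (x, iU n 1)

theorem smap_sp : SMap X (Sph X (fun x => dsum (P x))) (sp (E := E) n) :=
  ⟨fun x _ => contDiffAt_id.prodMk contDiffAt_const, fun x hx =>
    ⟨⟨hx, dsum_eq_self.2 (by change P x (pL n (iU n 1)) = pL n (iU n 1); rw [pL_iU, map_zero])⟩,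
      ZG.norm_iU⟩⟩

theorem RR_sp (x : E) : RR (fun x => dsum (P x)) (sp n x) = pushE (iM n Unit) P x := by
  have h1 := congrFun (ZG.Pm_dsum (P := P)) x
  rw [← h1]
  rfl

theorem eqv_eR_sign {n : Type} [Fintype n] [DecidableEq n]
    {P : E → EuclideanSpace ℝ n →L[ℝ] EuclideanSpace ℝ n}
    {W W' : E → (ι × Fin 2 → n) → ℝ} (hXc : IsPreconnected X) (h : OR X P W) (h' : OR X P W') :
    ∃ ε : ℝ, (ε = 1 ∨ ε = -1) ∧ Eqv X (eR P W') (ε • eR P W) := by
  rcases CW.OF.sign hXc (OR.of h) (OR.of h') with e | e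
  · refine ⟨1, Or.inl rfl, eqv_iff.2 fun x hx => ?_⟩
    have h1 : CW.rs X x (CW.ef (fun y => mtx (P y)) (wC W') x) =
        CW.rs X x (CW.ef (fun y => mtx (P y)) (wC W) x) := by
      rw [CW.rs_ef, CW.rs_ef, e x hx]
    rw [one_smul]
    exact congrArg CW.Cx.re h1
  · refine ⟨-1, Or.inr rfl, eqv_iff.2 fun x hx => ?_⟩
    have h1 : CW.rs X x (CW.ef (fun y => mtx (P y)) (wC W') x) =
        -CW.rs X x (CW.ef (fun y => mtx (P y)) (wC W) x) := by
      rw [CW.rs_ef, CW.rs_ef, e x hx]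
      have : CW.eu (- wC W x) (CW.wv (mtx (P x)) (CW.dl X (fun y => mtx (P y)) x)
          (CW.invM_dl (fun y => mtx (P y)) x))
        = - CW.eu (wC W x) (CW.wv (mtx (P x)) (CW.dl X (fun y => mtx (P y)) x)
          (CW.invM_dl (fun y => mtx (P y)) x)) := CW.eu_neg _ _
      rw [this]
      rfl
    have h2 := congrArg CW.Cx.re h1
    rw [neg_one_smul, Pi.neg_apply, map_neg]
    exact h2

/-- **the angular form** -/
theorem exists_kap [Nonempty ι] (hXc : IsPreconnected X) (hR : OR X P W) :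
    ∃ kap : E × EuclideanSpace ℝ n → Ext (E × EuclideanSpace ℝ n),
      Sm (Sph X P) kap ∧ T.Hom (2 * Fintype.card ι - 1) kap ∧
      Eqv (Sph X P) (F.d kap) (F.pull Prod.fst (eR P W)) ∧
      ∀ x ∈ X, ∀ o, Ori (2 * Fintype.card ι - 1) (Sph ({x} : Set E) P) o →
        |J (2 * Fintype.card ι - 1) (Sph ({x} : Set E) P) o kap| = XF.tau ι := by
  classical
  have hι : 0 < Fintype.card ι := Fintype.card_pos
  obtain ⟨m, hm⟩ : ∃ m, m + 1 = 2 * Fintype.card ι := ⟨2 * Fintype.card ι - 1, by omega⟩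
  rw [show 2 * Fintype.card ι - 1 = m by omega]
  have hm1 : 1 ≤ m := by omega
  have hP : PField X (m + 1) P := hm ▸ hR.pfield
  have hs : SyOn X P := fun x hx v w => SN.OR_sym hR hx v w
  have φ : ι × Fin 2 ≃ Fin (m + 1) := (kFin ι).trans (finCongr (by omega))
  have hoP := opr_of_OR φ hR
  have hQ : PField X (1 + m + 1) (fun x => dsum (P x)) := by
    rw [add_comm 1 m]; exact ZG.pfield_dsum hP
  have hoQ : OPr X (1 + m + 1) (fun x => dsum (P x)) (ZG.oD fun x => oW φ (W x)) := by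
    rw [add_comm 1 m]; exact ZG.opr_dsum hP hoP
  have ob : OddB ι X (1 + m) (fun x => dsum (P x)) (ZG.oD fun x => oW φ (W x)) :=
    ⟨hQ, ZG.syOn_dsum hs, hoQ, by omega⟩
  set Q : E → EuclideanSpace ℝ (n ⊕ Unit) →L[ℝ] EuclideanSpace ℝ (n ⊕ Unit) :=
    fun x => dsum (P x) with hQd
  set oQ := ZG.oD fun x => oW φ (W x) with hoQd
  set e := OddB.eV ι ob.hr Q oQ with he
  have se : Sm (Sph X Q) e := ob.ec_eV.sm
  have ce : Cl (Sph X Q) e := ob.ec_eV.cl
  have sH : Sm (Sph X P) (Hop HR e) := fun z hz =>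
    contDiffAt_Hop (fun t _ => contDiff_HR.contDiffAt) fun t _ => se _ (HR_mem hz t)
  have dH : T.Hom m (Hop HR e) := by
    have h0 := OddB.hom_eV (E := E) (P := Q) (oP := oQ) ob.hr
    have h1 : T.Hom (m + 1) e := fun z q hq => h0 z q (by omega)
    exact Crest.Agent.R208.RR.hom_K (T.Hom.pull h1)
  -- the differential
  have h2 := resZero_Hop (X := Sph X P) (Y := Sph X Q) (Fh := HR) (om := e)
    (fun x _ t _ => contDiff_HR.contDiffAt.of_le (show (2 : WithTop ℕ∞) ≤ ∞ from
      WithTop.coe_le_coe.2 le_top))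
    (fun x hx t _ => HR_mem hx t) (fun y hy => (se y hy).of_le (by exact_mod_cast le_top)) ce
  have h3 : Eqv (Sph X P) (F.d (Hop HR e)) (F.pull (fun y => HR (y, (1 : ℝ))) e -
      F.pull (fun y => HR (y, (0 : ℝ))) e) := by
    refine Eqv.symm ?_
    exact h2
  -- the ends
  have ssp : SMap X (Sph X Q) (sp (E := E) n) := smap_sp
  have sf : SMap (Sph X P) X (Prod.fst : E × EuclideanSpace ℝ n → E) := smap_fstS
  have e0 : Eqv (Sph X P) (F.pull (fun y => HR (y, (0 : ℝ))) e) (F.pull Prod.fst (F.pull (sp n) e)) := by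
    refine (eqv_pull_pull sf ssp ⟨fun z _ => (contDiff_HR.comp
      (contDiff_id.prodMk contDiff_const)).contDiffAt, fun z hz => HR_mem hz 0⟩ (fun z hz => ?_) e).symm
    change sp n z.1 = HR (z, 0)
    unfold HR sp
    simp
  have e1 : Eqv (Sph X P) (F.pull (fun y => HR (y, (1 : ℝ))) e)
      (F.pull Prod.fst (F.pull (sp n) (F.pull OddB.flip e))) := by
    have sfl : SMap (Sph X Q) (Sph X Q) (OddB.flip (E := E) (n := n ⊕ Unit)) := OddB.smap_flip
    have hfs : SMap X (Sph X Q) (fun x => OddB.flip (sp (E := E) n x)) := sfl.comp ssp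
    have a1 : Eqv X (F.pull (sp n) (F.pull OddB.flip e)) (F.pull (fun x => OddB.flip (sp (E := E) n x)) e) :=
      eqv_pull_pull ssp sfl hfs (fun _ _ => rfl) e
    refine Eqv.trans ?_ (Eqv.pull sf a1).symm
    refine (eqv_pull_pull sf hfs ⟨fun z _ => (contDiff_HR.comp
      (contDiff_id.prodMk contDiff_const)).contDiffAt, fun z hz => HR_mem hz 1⟩ (fun z hz => ?_) e).symm
    change OddB.flip (sp n z.1) = HR (z, 1)
    unfold HR sp OddB.flip
    simp
  have e2 : Eqv X (F.pull (sp n) (F.pull OddB.flip e)) (-F.pull (sp n) e) := by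
    have := Eqv.pull ssp ob.flip_eV
    have h5 : F.pull (sp (E := E) n) (-e) = -F.pull (sp n) e := by
      funext x
      rw [F.pull, Pi.neg_apply, map_neg]
      rfl
    rwa [h5] at this
  -- the pole
  have h6 : Eqv X (F.pull (sp n) e) (eR (fun x => RR Q (sp n x)) (fun x => OddB.Wv ι ob.hr Q oQ (sp n x))) :=
    Eqv.of_eq fun x hx => RI.pull_eR ob.orv ssp hx
  have h7 : (fun x => RR Q (sp n x)) = pushE (iM n Unit) P := funext fun x => RR_sp x
  have h8 : OR X (pushE (iM n Unit) P) (fun x => OddB.Wv ι ob.hr Q oQ (sp n x)) := by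
    rw [← h7]
    exact RI.or_comp ob.orv ssp
  have h9 := OR.push (iM_iso (n := n) Unit) hR
  obtain ⟨ε, hε, h10⟩ := eqv_eR_sign hXc h9 h8
  have h11 : Eqv X (F.pull (sp n) e) (ε • eR P W) := by
    rw [h7] at h6
    exact h6.trans (h10.trans ((eqv_eR_push (iM_iso (n := n) Unit) hR).smul ε))
  refine ⟨(-(ε / 2)) • Hop HR e, sH.smul _, dH.smul _, ?_, fun x hx o ho => ?_⟩
  · have h12 := T.d_smul_eqv (X := Sph X P) (-(ε / 2)) sH
    refine h12.trans ?_
    have h13 : Eqv (Sph X P) (F.d (Hop HR e)) ((-2 * ε) • F.pull Prod.fst (eR P W)) := by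
      refine h3.trans ((e1.sub e0).trans ?_)
      have a1 := Eqv.pull sf e2
      have a2 := Eqv.pull sf h11
      refine eqv_iff.2 fun z hz => ?_
      have b1 := eqv_iff.1 a1 z hz
      have b2 := eqv_iff.1 a2 z hz
      have c1 : F.pull (Prod.fst : E × EuclideanSpace ℝ n → E) (-F.pull (sp n) e) z =
          -F.pull Prod.fst (F.pull (sp n) e) z := by
        rw [F.pull, Pi.neg_apply, map_neg]; rfl
      have c2 : F.pull (Prod.fst : E × EuclideanSpace ℝ n → E) (ε • eR P W) z =
          ε • F.pull Prod.fst (eR P W) z := by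
        rw [F.pull, Pi.smul_apply, map_smul]; rfl
      rw [c1, map_neg] at b1
      rw [c2, map_smul] at b2
      rw [Pi.sub_apply, map_sub, b1, b2, Pi.smul_apply, map_smul]
      module
    refine (h13.smul _).trans (Eqv.of_eq fun z hz => ?_)
    have h14 : (-(ε / 2)) * (-2 * ε) = 1 := by rcases hε with rfl | rfl <;> norm_num
    rw [Pi.smul_apply, Pi.smul_apply, smul_smul, h14, one_smul]
  · have hx1 : PField ({x} : Set E) (m + 1) P :=
      ⟨fun y hy => by rw [hy]; exact hP.smooth _ hx, fun y hy => by rw [hy]; exact hP.idem _ hx,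
        fun y hy => by rw [hy]; exact hP.rank _ hx⟩
    have ob1 : OddB ι ({x} : Set E) (1 + m) Q oQ :=
      ⟨ob.pf_pt hx, fun y hy => by rw [hy]; exact ob.sy _ hx,
        ⟨fun y hy => by rw [hy]; exact hoQ.sm _ hx, hoQ.deg,
          fun y hy => by rw [hy]; exact hoQ.ne _ hx⟩, by omega⟩
    have h15 := J_sweep hx1 hm1 ob1 ho
    have h16 : J m (Sph ({x} : Set E) P) o ((-(ε / 2)) • Hop HR e) =
        (-(ε / 2)) * J m (Sph ({x} : Set E) P) o (Hop HR e) := FI.J_smul (-(ε / 2))
    rw [h16, abs_mul]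
    have h17 : |(-(ε / 2))| = 1 / 2 := by
      rcases hε with rfl | rfl
      · norm_num
      · norm_num
    rw [h17]
    have h18 : |J m (Sph ({x} : Set E) P) o (Hop HR e)| = 2 * XF.tau ι := h15
    rw [h18]
    ring

end Crest.Agent.R208.SB
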