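import Crest.Agent.R208.UN2

/-! Row 208, block UN (helper378).  UN3: the value of the coefficient `c` and of `n₁ = c w₀`. -/

set_option autoImplicit false
set_option linter.unusedSectionVars false
set_option linter.unusedVariables false

open MeasureTheory Set Filter Topology Module
open scoped ContDiff RealInnerProductSpace
open Crest.Agent.R208.F Crest.Agent.R208.FI Crest.Agent.R208.CW Crest.Agent.R208.T
open Crest.Agent.R208.CM (Cir Rep Triv Emb Quo Qd MM jj Th)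
open Crest.Agent.R208.SB (OPr OddB oV clo_Sph)
open Crest.Agent.R208.UP (SyOn UPr)

noncomputable section

namespace Crest.Agent.R208.UN

section fib
variable {E E' H n ι : Type} [NormedAddCommGroup E] [NormedSpace ℝ E] [FiniteDimensional ℝ E]
  [NormedAddCommGroup E'] [NormedSpace ℝ E'] [FiniteDimensional ℝ E']
  [NormedAddCommGroup H] [InnerProductSpace ℝ H] [FiniteDimensional ℝ H]
  [Fintype n] [DecidableEq n] [Fintype ι] [DecidableEq ι]
  {X : Set E} {Y : Set E'} {φ : ℝ → E → E} {R : ℝ → H →L[ℝ] H} {q : E → E'}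
  {T : E → H →L[ℝ] EuclideanSpace ℝ n} {P : E → H →L[ℝ] H}
  {P' : E' → EuclideanSpace ℝ n →L[ℝ] EuclideanSpace ℝ n} {oP' : E' → Ext (EuclideanSpace ℝ n)}
  {r : ℕ} {x : E}

/-- **(UN3)** for `W = eV` the vertical Euler form of the sphere bundle over `Y` -/
theorem abs_c [Nonempty ι] (sq : SMap X Y q) (hT : Triv X φ R T)
    (hd : ∀ x ∈ X, P' (q x) = Qd T P x) (hP : PField X (r + 1) P) (ob : OddB ι Y r P' oP')
    (hr : 1 ≤ r) (hx : x ∈ X) {lam : ℝ → ℝ} (hl : ContDiff ℝ ∞ lam) (h0 : lam 0 = 0) {ρ₀ R₀ c : ℝ}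
    (hρ : 0 ≤ ρ₀) (h1 : ρ₀ < lam 1) (hR : 1 ≤ R₀)
    {ξ Ψ : E' × EuclideanSpace ℝ n → Ext (E' × EuclideanSpace ℝ n)} {ξX o : E × H → Ext (E × H)}
    (sξ : Sm (Tot Y P') ξ) (sξX : Sm (Tot X P) ξX) (sΨ : Sm (Tot Y P') Ψ)
    (hξ : Eqv (Tot X P) (F.pull (Th q T) ξ) ξX) (dΨ : Eqv (Tot Y P') ξ (F.d Ψ))
    (cξ : Eqv (Tot Y P' ∩ {z | ρ₀ < ‖z.2‖}) ξ 0)
    (out : Eqv (Tot Y P' ∩ {z | R₀ < ‖z.2‖}) Ψ
      (c • rx (E := E') (H := EuclideanSpace ℝ n) (SB.OddB.eV ι ob.hr P' oP')))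
    (ho : Ori r (Sph X P ∩ (Prod.fst : E × H → E) ⁻¹' {x}) o) :
    |J r (Sph X P ∩ (Prod.fst : E × H → E) ⁻¹' {x}) o (RR.K (F.pull (scl lam) ξX))| =
      |c| * (2 * XF.tau ι) := by
  have hy := sq.maps hx
  have e1 := sph_fib (P := P') hy
  have ho' : Ori r (Sph Y P' ∩ (Prod.fst : E' × EuclideanSpace ℝ n → E') ⁻¹' {q x}) (oV oP') := by
    rw [e1]; exact ob.ori_oV hy
  rw [abs_fib sq hT hd hP ob.pf hr hx hl h0 hρ h1 hR sξ sξX sΨ hξ dΨ cξ out ho ho',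
    ob.J_fibre' hy, abs_of_pos (show (0 : ℝ) < 2 * XF.tau ι by
      have := XF.tau_pos ι; positivity)]

end fib

/-! ### numbers -/

section num
variable {ι ι' : Type*} [Fintype ι] [Fintype ι'] {c w₀ Δ : ℝ}

theorem tau_succ (h : Fintype.card ι = Fintype.card ι' + 1) :
    XF.tau ι = 4 * Real.pi * (Fintype.card ι' + 1 : ℝ) * XF.tau ι' := by
  unfold XF.tau
  rw [h, Nat.factorial_succ, pow_succ]
  push_cast
  ring

/-- `2π |c| 2τ(ι') = τ(ι)` -/
theorem abs_c_eq (h : Fintype.card ι = Fintype.card ι' + 1)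
    (hc : 2 * Real.pi * (|c| * (2 * XF.tau ι')) = XF.tau ι) :
    |c| = Fintype.card ι' + 1 := by
  rw [tau_succ h] at hc
  have h1 := XF.tau_pos ι'
  have h2 := Real.pi_pos
  have h3 : (4 * Real.pi * XF.tau ι') * |c| = (4 * Real.pi * XF.tau ι') * (Fintype.card ι' + 1) := by
    linear_combination hc
  exact mul_left_cancel₀ (by positivity) h3

/-- **(n1)** -/
theorem abs_n1 (hc : 2 * Real.pi * (|c| * (2 * XF.tau ι')) = XF.tau ι)
    (hw : |w₀| = Δ * (2 * XF.tau ι')) : |c * w₀| = Δ * XF.tau ι / (2 * Real.pi) := by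
  have h2 := Real.pi_pos
  rw [abs_mul, hw, eq_div_iff (by positivity)]
  linear_combination Δ * hc

end num

end Crest.Agent.R208.UN
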