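import Crest.Agent.R208.VE12
import Crest.Agent.R208.T2b

/-! Row 208, block UN (helper378).  UN5: the outputs of the evaluation over the quotient (helper812's
VE8-VE12) in the form used by the assembly: constant `n₁`, relation, classes of `vl` and of `x₀`. -/

set_option autoImplicit false
set_option linter.unusedSectionVars false
set_option linter.unusedVariables false

open MeasureTheory Set Filter Topology Module
open scoped ContDiff
open Crest.Agent.R208.F Crest.Agent.R208.FI Crest.Agent.R208.CW Crest.Agent.R208.T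
open Crest.Agent.R208.CM (Cir gen Rep Triv phR Th)
open Crest.Agent.R208.VC
open Crest.Agent.R208.EX (Cn)
open Crest.Agent.R208.TP (QM)
open Crest.Agent.R208.VE

noncomputable section

namespace Crest.Agent.R208.UN

section one
variable {E H : Type} [NormedAddCommGroup E] [NormedSpace ℝ E] [FiniteDimensional ℝ E]
  [NormedAddCommGroup H] [InnerProductSpace ℝ H] [FiniteDimensional ℝ H]
  [MeasurableSpace H] [BorelSpace H] (μ : Measure H) [μ.IsAddHaarMeasure]
  {X : Set E} {P : E → H →L[ℝ] H} {r d : ℕ} {R R₁ : ℝ} {τ' ξ : E × H → Ext (E × H)}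

theorem hom_cut {j : ℕ} (h : Hom j ξ) : Hom j (cutH R ξ) := fun z => by
  rw [cutH]; exact (h z).smul _

/-- the fibre integral of a closed form of degree `r` is a constant -/
theorem exists_n1 (hX : Sub d X) (hXc : IsPreconnected X) (hR : 0 ≤ R) (hP : PField X r P)
    (hC : Co X P R₁ τ') {q' : ℕ} (hτ : Hom q' τ') (hq : q' + r = finrank ℝ H)
    (sx : Sm (Tot X P) ξ) (cl : Cl (Tot X P) ξ) (kx : Cs X P R ξ) (hx : Hom r ξ) :
    ∃ n₁ : ℝ, Coh X (pu μ P τ' R ξ) (n₁ • (1 : E → Ext E)) := by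
  have s1 : Sm X (pu μ P τ' R ξ) := pu_sm μ hR hP hC sx
  have c1 : Cl X (pu μ P τ' R ξ) := pu_cl μ hR hP hC hX sx kx cl
  have h0 : Hom 0 (pu μ P τ' R ξ) := by
    have hx' : Hom (0 + r) (cutH R ξ) := by rw [zero_add]; exact hom_cut hx
    exact TP.hom_push μ (P := P) hτ hx' hq
  obtain ⟨c, hc⟩ := const_of_closed hX hXc s1 c1 h0
  refine ⟨c, Coh.of_eqv (Eqv.of_eq fun x hx => ?_)⟩
  rw [hc x hx, Algebra.algebraMap_eq_smul_one]
  rfl

end one

section main
variable {E E' W V F' : Type} [NormedAddCommGroup E] [NormedSpace ℝ E] [FiniteDimensional ℝ E]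
  [NormedAddCommGroup E'] [NormedSpace ℝ E'] [FiniteDimensional ℝ E']
  [NormedAddCommGroup W] [InnerProductSpace ℝ W] [FiniteDimensional ℝ W]
  [NormedAddCommGroup V] [InnerProductSpace ℝ V] [FiniteDimensional ℝ V]
  [NormedAddCommGroup F'] [NormedSpace ℝ F'] [FiniteDimensional ℝ F']
  [MeasurableSpace V] [BorelSpace V] {μ : Measure V} [μ.IsAddHaarMeasure]
  {X : Set E} {Y : Set E'} {φ : ℝ → E → E} {q : E → E'} {R : ℝ → W →L[ℝ] W}
  {T : E → W →L[ℝ] V} {P : E → W →L[ℝ] W} {P' : E' → V →L[ℝ] V} {r d d' j : ℕ} {S : Set F'}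
  {om : F' → Ext F'} {θ0 : E → Ext E} {e p3 : E' → Ext E'} {f1 : E × W → F'} {ρ R₂ R₁ c w₀ : ℝ}
  {ξ a Q τ' w Ψ : E' × V → Ext (E' × V)}

theorem ev_pow {e : E' → Ext E'} (h : Ev e) : ∀ n : ℕ, Ev (e ^ n)
  | 0 => fun x => by rw [pow_zero, Pi.one_apply, map_one]
  | n + 1 => by rw [pow_succ]; exact (ev_pow h n).mul h

/-- **evaluation of `vl` over the quotient** -/
theorem eval_vl (h : St X Y φ q R T P P' r d d' S om θ0 e f1 ρ)
    (D : Dn X φ q R T P om θ0 f1 ξ a Q)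
    (I : Inp μ d' r Y P' τ' R₁ R₂ e p3 w ξ a Q Ψ c w₀)
    {v : E' × V → Ext (E' × V)} (sv : Sm (Tot Y P') v) {R' : ℝ} (hR' : 0 ≤ R') (hRR : R' ≤ R₂)
    (kv : Cs Y P' R' v) {p p' : ℕ} {l s t : ℝ}
    (hv : Eqv (Tot X P) (F.pull (Th q T) v)
      (vl (phR φ R) (F.d (F.pull (Prod.fst : E × W → E) θ0)) p p' l s t (F.pull f1 om))) :
    Coh Y (pu μ P' τ' R' v)
      (-(l * (2 * c ^ 3 * w₀)) • (p3 * I.x0 * e) - (s * (c * w₀)) • e ^ p
        - (t * (c * w₀)) • (I.x0 * e ^ p')) := by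
  have h1 := pu_radius μ hR' I.hP I.hC hRR sv kv
  have se : ∀ n : ℕ, Sm Y (e ^ n) := fun n => I.se.pow n
  have s2 : Sm (Tot Y P')
      (l • (ξ * Q) - s • (pf (e ^ p) * ξ) - t • (pf (e ^ p') * (a * ξ)) : E' × V → Ext (E' × V)) :=
    (((I.sx.mul I.sQ).smul l).sub ((((se p).pull smap_fst').mul I.sx).smul s)).sub
      ((((se p').pull smap_fst').mul (I.sa.mul I.sx)).smul t)
  have h2 := pu_eqv μ I.R0 I.hP I.hC sv s2 (D.pv h hv)
  exact (Coh.of_eqv (h1.trans h2)).trans (I.main (se p) (Cl.pow I.se I.ce p) (ev_pow I.ee p)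
    (se p') (Cl.pow I.se I.ce p') (ev_pow I.ee p') l s t)

/-- the relation, divided -/
theorem rel_div (I : Inp μ d' r Y P' τ' R₁ R₂ e p3 w ξ a Q Ψ c w₀) (hc : c ≠ 0) (hw : w₀ ≠ 0) :
    Coh Y ((3 : ℝ) • (I.x0 * I.x0) + (c ^ 2) • (p3 * (e * e))) 0 := by
  have h1 := Coh.smul_zero' (3 / (c * w₀)) I.relation
  rw [smul_add, smul_smul, smul_smul] at h1
  convert h1 using 3
  · field_simp
  · field_simp

/-- restriction of `x₀` -/
theorem coh_zs (h : St X Y φ q R T P P' r d d' S om θ0 e f1 ρ)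
    (D : Dn X φ q R T P om θ0 f1 ξ a Q)
    (I : Inp μ d' r Y P' τ' R₁ R₂ e p3 w ξ a Q Ψ c w₀) :
    Coh X (F.pull q I.x0) (F.pull (fun x => f1 (x, 0)) om) := by
  have h1 := (Inp.coh_up h D I).pull (smap_zs (X := X) (P := P))
  have e1 : Eqv X (F.pull (zs (E := E) (H := W)) (F.pull (Th q T) I.A0)) (F.pull q I.x0) := by
    have hz : SMap Y (Tot Y P') (zs (E := E') (H := V)) := smap_zs
    have sk : SMap X (Tot Y P') (fun x => zs (q x)) := hz.comp h.hq.smap
    refine (eqv_pull_pull smap_zs h.hQ.smap sk (fun x hx => ?_) I.A0).trans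
      (eqv_pull_pull h.hq.smap hz sk (fun _ _ => rfl) I.A0).symm
    change (q x, T x 0) = (q x, 0)
    rw [map_zero]
  have e2 : Eqv X (F.pull (zs (E := E) (H := W)) (F.pull f1 om))
      (F.pull (fun x => f1 (x, 0)) om) :=
    eqv_pull_pull smap_zs h.hf (h.hf.comp smap_zs) (fun _ _ => rfl) om
  exact (Coh.of_eqv e1.symm).trans (h1.trans (Coh.of_eqv e2))

end main

end Crest.Agent.R208.UN
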