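import Crest.Agent.R208.UP1
import Crest.Agent.R208.NO2
import Crest.Agent.R208.CM3d

/-! Row 208, block UP (helper566), part UP3: orientation of `P ⊕ 1` from an orientation of `P`. -/

set_option autoImplicit false
set_option linter.unusedSectionVars false
set_option linter.unusedVariables false

open Set Filter Topology Module
open scoped ContDiff RealInnerProductSpace
open Crest.Agent.R208.F Crest.Agent.R208.FI Crest.Agent.R208.T Crest.Agent.R208.SB
open Crest.Agent.R208.NO

noncomputable section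

namespace Crest.Agent.R208.UP

variable {E : Type} [NormedAddCommGroup E] [NormedSpace ℝ E] [FiniteDimensional ℝ E]
  {n : Type} [Fintype n] [DecidableEq n] {X : Set E} {r : ℕ}
  {P : E → EuclideanSpace ℝ n →L[ℝ] EuclideanSpace ℝ n} {oP : E → Ext (EuclideanSpace ℝ n)}

theorem pfield_dsum (hP : PField X r P) : PField X (r + 1) (fun x => dsum (P x)) :=
  ⟨fun x hx => contDiffAt_dsum (hP.smooth x hx), fun x hx => dsum_idem (hP.idem x hx),
    fun x hx => by rw [finrank_dsum (hP.idem x hx), hP.rank x hx]⟩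

theorem syOn_dsum (hs : SyOn X P) : SyOn X (fun x => dsum (P x)) := fun x hx =>
  dsum_sym (hs x hx)

/-- orientation form of `P ⊕ 1` -/
def oD (oP : E → Ext (EuclideanSpace ℝ n)) (x : E) : Ext (EuclideanSpace ℝ (n ⊕ Unit)) :=
  io ((pU n : EuclideanSpace ℝ (n ⊕ Unit) →ₗ[ℝ] ℝ)) *
    pb (pL n : EuclideanSpace ℝ (n ⊕ Unit) →ₗ[ℝ] EuclideanSpace ℝ n) (oP x)

theorem opr_dsum (hP : PField X r P) (h : OPr X r P oP) :
    OPr X (r + 1) (fun x => dsum (P x)) (oD oP) := by
  refine OPr.of (pfield_dsum hP) (fun x hx => ?_) (fun x => ?_) fun x hx => ?_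
  · have h1 : ContDiffAt ℝ ∞ (fun y => pb (pL n : EuclideanSpace ℝ (n ⊕ Unit) →ₗ[ℝ]
        EuclideanSpace ℝ n) (oP y)) x :=
      (pbL (pL n)).contDiff.contDiffAt.comp x (h.sm x hx)
    exact contDiffAt_mul contDiffAt_const h1
  · have h1 := isDeg_mul (CM.isDeg_io ((pU n : EuclideanSpace ℝ (n ⊕ Unit) →ₗ[ℝ] ℝ)))
      ((h.deg x).pb (pL n : EuclideanSpace ℝ (n ⊕ Unit) →ₗ[ℝ] EuclideanSpace ℝ n))
    rwa [add_comm] at h1
  · set R := LinearMap.range (P x : EuclideanSpace ℝ n →ₗ[ℝ] EuclideanSpace ℝ n) with hR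
    let b : Basis (Fin r) ℝ R := Module.finBasisOfFinrankEq ℝ R (hP.rank x hx)
    have hb : ∀ i, P x (b i : EuclideanSpace ℝ n) = b i := by
      intro i
      obtain ⟨w, hw⟩ := (b i).2
      have hw' : P x w = b i := hw
      rw [← hw', hP.idem x hx]
    have hli : LinearIndependent ℝ (fun i => (b i : EuclideanSpace ℝ n)) :=
      b.linearIndependent.map' R.subtype (Submodule.ker_subtype _)
    refine ⟨Matrix.vecCons (iU n 1) (fun i => iL n (b i : EuclideanSpace ℝ n)), fun i => ?_, ?_⟩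
    · refine Fin.cases ?_ (fun i => ?_) i
      · change dsum (P x) (iU n 1) = iU n 1
        rw [dsum_eq_self, pL_iU, map_zero]
      · change dsum (P x) (iL n (b i)) = iL n (b i)
        rw [dsum_eq_self, pL_iL, hb]
    · rw [oD, evA_io_mul, Fin.sum_univ_succ, Finset.sum_eq_zero (fun i _ => ?_), add_zero]
      · have h1 : (pU n : EuclideanSpace ℝ (n ⊕ Unit) →ₗ[ℝ] ℝ)
            (Matrix.vecCons (iU n 1) (fun i => iL n (b i : EuclideanSpace ℝ n)) 0) = 1 := rfl
        rw [h1, evA_pb]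
        simp only [Fin.val_zero, pow_zero, one_mul, Fin.succAbove_zero, Matrix.cons_val_succ]
        have h2 : (fun i => (pL n : EuclideanSpace ℝ (n ⊕ Unit) →ₗ[ℝ] EuclideanSpace ℝ n)
            (iL n (b i : EuclideanSpace ℝ n))) = fun i => (b i : EuclideanSpace ℝ n) := by
          funext i
          exact pL_iL _
        rw [h2]
        exact h.ne x hx _ hli hb
      · have h0 : (pU n : EuclideanSpace ℝ (n ⊕ Unit) →ₗ[ℝ] ℝ)
            (Matrix.vecCons (iU n 1) (fun i => iL n (b i : EuclideanSpace ℝ n)) i.succ) = 0 := rfl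
        rw [h0, mul_zero, zero_mul]

/-- **`P ⊕ 1` is oriented in the sense of `OR`**, rank of `P` odd -/
theorem exists_OR_dsum {ι : Type} [Fintype ι] [DecidableEq ι] [Nonempty ι]
    (φ : ι × Fin 2 ≃ Fin (r + 1)) (hP : PField X r P) (hs : SyOn X P) (h : OPr X r P oP) :
    ∃ W : E → (ι × Fin 2 → n ⊕ Unit) → ℝ, OR X (fun x => dsum (P x)) W :=
  ⟨_, OR_of_opr φ (opr_dsum hP h) (pfield_dsum hP) (syOn_dsum hs)⟩

end Crest.Agent.R208.UP
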