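import Crest.Agent.R208.UP2
import Crest.Agent.R208.UP3
import Crest.Agent.R208.HW2
import Crest.Agent.R208.VE1
import Crest.Agent.R208.THD2

/-! Row 208, block TP (helper382).  TP7: orientations of complements of fields of ODD rank
(`dsum P = P ⊕ 1` oriented ⟹ `1 - P` oriented), the hypothesis `VE.Co`, parity of the target. -/

set_option autoImplicit false
set_option linter.unusedSectionVars false
set_option linter.unusedVariables false

open MeasureTheory Set Filter Topology Module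
open scoped ContDiff Matrix RealInnerProductSpace
open Crest.Agent.R208.F Crest.Agent.R208.FI Crest.Agent.R208.CW Crest.Agent.R208.T
open Crest.Agent.R208.CM
open Crest.Agent.R208.NO

noncomputable section

namespace Crest.Agent.R208.TP

section push
variable {n m : Type} [Fintype n] [DecidableEq n] [Fintype m] [DecidableEq m]
  {E : Type} [NormedAddCommGroup E] [NormedSpace ℝ E] [FiniteDimensional ℝ E]
  {ι : Type} [Fintype ι] [DecidableEq ι]
  {X : Set E} {P : E → EuclideanSpace ℝ n →L[ℝ] EuclideanSpace ℝ n}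
  {S : Matrix m n ℝ}

theorem mE_ext {M M' : Matrix m n ℝ} (h : ∀ v, mE M v = mE M' v) : M = M' := by
  ext i j
  have := congrArg (fun w : EuclideanSpace ℝ m => w i) (h (EuclideanSpace.single j 1))
  rw [← mE_single M j i, ← mE_single M' j i]
  exact this

theorem mE_inv (hS : Sᵀ * S = 1) (v : EuclideanSpace ℝ n) : mE Sᵀ (mE S v) = v := by
  rw [mE_mE, hS, mE_one]

/-- converse of `T.OR.push` -/
theorem OR.of_push {W : E → (ι × Fin 2 → m) → ℝ} (hS : Sᵀ * S = 1) (h : OR X (pushE S P) W) :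
    OR X P (fun x => pushR Sᵀ (W x)) := by
  have hPP : ∀ x, P x = (mE Sᵀ).comp ((pushE S P x).comp (mE S)) := fun x => by
    ext1 v
    change P x v = mE Sᵀ (mE S (P x (mE Sᵀ (mE S v))))
    rw [mE_mE, hS, mE_one, mE_mE, hS, mE_one]
  refine ⟨fun x hx => ?_, fun x hx J => ?_, fun x hx => ?_⟩
  · have h1 : ContDiffAt ℝ ∞ (fun y => (mE Sᵀ).comp ((pushE S P y).comp (mE S))) x :=
      contDiffAt_const.clm_comp ((h.sP x hx).clm_comp contDiffAt_const)
    exact h1.congr_of_eventuallyEq (Eventually.of_forall hPP)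
  · exact ContDiffAt.sum fun I _ => contDiffAt_const.mul (h.sW x hx I)
  · obtain ⟨f, h1, h2, h3⟩ := h.fr x hx
    have e0 : ∀ v, mE (f * fᵀ) v = mE S (P x (mE Sᵀ v)) := fun v => by
      ext k
      rw [mE_apply]
      exact (h2 v k).symm
    have e1 : S * (Sᵀ * (f * fᵀ)) = f * fᵀ := by
      refine mE_ext fun v => ?_
      rw [← mE_mE, ← mE_mE, e0, mE_inv hS]
    have e2 : S * (Sᵀ * f) = f := by
      have := congrArg (fun M => M * f) e1
      simp only [Matrix.mul_assoc, h1, Matrix.mul_one] at this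
      exact this
    refine ⟨Sᵀ * f, ?_, fun v i => ?_, fun J => pushR_frame Sᵀ f h3 J⟩
    · rw [Matrix.transpose_mul, Matrix.transpose_transpose, Matrix.mul_assoc, e2, h1]
    · have e3 : P x v = mE (Sᵀ * f * (Sᵀ * f)ᵀ) v := by
        rw [Matrix.transpose_mul, Matrix.transpose_transpose]
        have : Sᵀ * f * (fᵀ * S) = (Sᵀ * (f * fᵀ)) * S := by simp only [Matrix.mul_assoc]
        rw [this, ← mE_mE, ← mE_mE, e0, mE_inv hS, mE_inv hS]
      rw [e3, mE_apply]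

end push

section dsum
variable {n : Type} [Fintype n] [DecidableEq n]
  {E : Type} [NormedAddCommGroup E] [NormedSpace ℝ E] [FiniteDimensional ℝ E]
  {ι ι' : Type} [Fintype ι] [DecidableEq ι] [Fintype ι'] [DecidableEq ι']
  {X : Set E} {P : E → EuclideanSpace ℝ n →L[ℝ] EuclideanSpace ℝ n} {r : ℕ}
  {o : E → Ext (EuclideanSpace ℝ n)}

theorem mE_iM (v : EuclideanSpace ℝ n) : mE (iM n Unit) v = iL n v := by
  ext i
  rw [mE_apply]
  rcases i with i | i
  · simp [iM, Matrix.one_apply]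
  · simp [iM]

theorem mE_iM_tr (v : EuclideanSpace ℝ (n ⊕ Unit)) : mE (iM n Unit)ᵀ v = pL n v := by
  ext i
  rw [mE_apply]
  simp [iM, Matrix.one_apply]

/-- `1 - (P ⊕ 1) = (1 - P) ⊕ 0` -/
theorem compl_dsum (x : E) :
    (1 : EuclideanSpace ℝ (n ⊕ Unit) →L[ℝ] EuclideanSpace ℝ (n ⊕ Unit)) - dsum (P x) =
      pushE (iM n Unit) (fun x => 1 - P x) x := by
  ext1 v
  change v - dsum (P x) v = mE (iM n Unit) (mE (iM n Unit)ᵀ v - P x (mE (iM n Unit)ᵀ v))
  rw [mE_iM, mE_iM_tr]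
  refine ext_pp ?_ ?_
  · rw [map_sub, pL_dsum, pL_iL]
  · rw [map_sub, pU_dsum, pU_iL, sub_self]

/-- **the complement of a field of odd rank is oriented when `P ⊕ 1` is** -/
theorem exists_OR_compl {W : E → (ι × Fin 2 → n ⊕ Unit) → ℝ}
    (eq : (ι × Fin 2) ⊕ (ι' × Fin 2) ≃ n ⊕ Unit) (h : OR X (fun x => dsum (P x)) W) :
    ∃ W' : E → (ι' × Fin 2 → n) → ℝ, OR X (fun x => 1 - P x) W' := by
  obtain ⟨W', h'⟩ := OR.compl eq h
  have e1 : (fun x => (1 : EuclideanSpace ℝ (n ⊕ Unit) →L[ℝ] EuclideanSpace ℝ (n ⊕ Unit))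
      - dsum (P x)) = pushE (iM n Unit) (fun x => 1 - P x) := funext fun x => compl_dsum x
  rw [e1] at h'
  exact ⟨_, OR.of_push (iM_iso Unit) h'⟩

/-- **the complement of an oriented field of odd rank** -/
theorem exists_OR_compl_opr [Nonempty ι] (φ : ι × Fin 2 ≃ Fin (r + 1))
    (eq : (ι × Fin 2) ⊕ (ι' × Fin 2) ≃ n ⊕ Unit) (hP : PField X r P)
    (hs : UP.SyOn X P) (h : SB.OPr X r P o) :
    ∃ W' : E → (ι' × Fin 2 → n) → ℝ, OR X (fun x => 1 - P x) W' := by
  obtain ⟨W, hW⟩ := UP.exists_OR_dsum φ hP hs h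
  exact exists_OR_compl eq hW

theorem pfield_up' {E' : Type*} [NormedAddCommGroup E'] [NormedSpace ℝ E'] [FiniteDimensional ℝ E']
    {V : Type*} [NormedAddCommGroup V] [InnerProductSpace ℝ V] [FiniteDimensional ℝ V]
    {Q : E → V →L[ℝ] V} {X' : Set E'} {f : E' → E} (hP : PField X r Q) (hf : SMap X' X f) :
    PField X' r (fun y => Q (f y)) :=
  ⟨fun y hy => (hP.smooth _ (hf.maps hy)).comp y (hf.smooth y hy),
    fun _ hy => hP.idem _ (hf.maps hy), fun _ hy => hP.rank _ (hf.maps hy)⟩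

/-- the hypothesis `VE.Co` of the fibre integral -/
theorem co_thomF [Nonempty ι'] {d : ℕ} {W' : E → (ι' × Fin 2 → n) → ℝ} (hX : Sub d X)
    (h : OR X (fun x => 1 - P x) W') : VE.Co X P 3 (thomF (fun x => 1 - P x) W') :=
  ⟨csf_thomF hX h, fun z => thomF_even z⟩

end dsum

/-! ### parity of the target -/
section par
variable {E : Type} [NormedAddCommGroup E] [NormedSpace ℝ E] [FiniteDimensional ℝ E]
  {W : Type*} [NormedAddCommGroup W] [InnerProductSpace ℝ W] [FiniteDimensional ℝ W]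
  {n m : Type} [Fintype n] [DecidableEq n] [Fintype m] [DecidableEq m]
  {X : Set E} {φ : ℝ → E → E} {R : ℝ → W →L[ℝ] W} {T : E → W →L[ℝ] EuclideanSpace ℝ n}
  {P : E → W →L[ℝ] W} {S : Matrix m n ℝ}

theorem triv_mE (hS : Sᵀ * S = 1) (hT : Triv X φ R T) :
    Triv X φ R (fun x => (mE S).comp (T x)) where
  smooth := fun x hx => contDiffAt_const.clm_comp (hT.smooth x hx)
  iso := fun x hx w => by
    change ‖mE S (T x w)‖ = ‖w‖
    rw [norm_mE hS, hT.iso x hx]
  equi := fun x hx t w => by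
    change mE S (T (φ t x) (R t w)) = mE S (T x w)
    rw [hT.equi x hx]

theorem Qd_mE (x : E) : Qd (fun x => (mE S).comp (T x)) P x = pushE S (Qd T P) x := by
  ext1 v
  change mE S (T x (P x (ContinuousLinearMap.adjoint ((mE S).comp (T x)) v))) =
    mE S (T x (P x (ContinuousLinearMap.adjoint (T x) (mE Sᵀ v))))
  rw [ContinuousLinearMap.adjoint_comp, ContinuousLinearMap.comp_apply, adjoint_mE]

/-- an isometry into a Euclidean space of large odd dimension -/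
theorem exists_mat_odd (p r : ℕ) : ∃ (c : ℕ) (S : Matrix (Fin (2 * c + 1)) (Fin p) ℝ),
    Sᵀ * S = 1 ∧ r + 2 ≤ 2 * c + 1 := by
  obtain ⟨k, hk⟩ : ∃ k, p + k = 2 * (p + r + 2) + 1 := ⟨p + 2 * r + 5, by ring⟩
  let e : Fin p ⊕ Fin k ≃ Fin (2 * (p + r + 2) + 1) :=
    finSumFinEquiv.trans (finCongr hk)
  refine ⟨p + r + 2, (iM (Fin p) (Fin k)).submatrix e.symm id, ?_, by omega⟩
  rw [Matrix.transpose_submatrix]
  have := Matrix.submatrix_mul (iM (Fin p) (Fin k))ᵀ (iM (Fin p) (Fin k)) (id : Fin p → Fin p)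
    (e.symm : _ → Fin p ⊕ Fin k) (id : Fin p → Fin p) e.symm.bijective
  rw [← this, iM_iso]
  exact Matrix.submatrix_one_equiv (Equiv.refl _)

end par

/-! ### descended oriented fields of odd rank, with a target of odd dimension -/
section dsc
variable {E : Type} [NormedAddCommGroup E] [NormedSpace ℝ E] [FiniteDimensional ℝ E]
  {W : Type} [NormedAddCommGroup W] [InnerProductSpace ℝ W] [FiniteDimensional ℝ W]
  {X : Set E} {φ : ℝ → E → E} {m s c s' d : ℕ} {g : E → Fin m → ℂ} {R : ℝ → W →L[ℝ] W}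
  {P : E → W →L[ℝ] W}

/-- a descended oriented field of rank `2 s + 1` in a Euclidean space of dimension `2 c + 1`, with
an orientation tensor `W'` of the complement -/
structure DscO (X : Set E) (φ : ℝ → E → E) (g : E → Fin m → ℂ) (R : ℝ → W →L[ℝ] W) (s : ℕ)
    (P : E → W →L[ℝ] W) (c s' : ℕ) (T : E → W →L[ℝ] EuclideanSpace ℝ (Fin (2 * c + 1)))
    (P' : MM m → EuclideanSpace ℝ (Fin (2 * c + 1)) →L[ℝ] EuclideanSpace ℝ (Fin (2 * c + 1)))
    (o' : MM m → Ext (EuclideanSpace ℝ (Fin (2 * c + 1))))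
    (W' : MM m → (Fin (s' + 1) × Fin 2 → Fin (2 * c + 1)) → ℝ) : Prop where
  triv : Triv X φ R T
  smP : ContDiff ℝ ∞ P'
  smo : ContDiff ℝ ∞ o'
  pf : PField (Quo X g) (2 * s + 1) P'
  sy : UP.SyOn (Quo X g) P'
  upr : UP.UPr (Quo X g) (2 * s + 1) P' o'
  eqP : ∀ x ∈ X, P' (jj g x) = Qd T P x
  or : OR (Quo X g) (fun y => 1 - P' y) W'
  dim : 2 * c + 1 = 2 * (s' + 1) + (2 * s + 1)

theorem DscO.opr {T : E → W →L[ℝ] EuclideanSpace ℝ (Fin (2 * c + 1))}
    {P' : MM m → EuclideanSpace ℝ (Fin (2 * c + 1)) →L[ℝ] EuclideanSpace ℝ (Fin (2 * c + 1))}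
    {o' : MM m → Ext (EuclideanSpace ℝ (Fin (2 * c + 1)))}
    {W' : MM m → (Fin (s' + 1) × Fin 2 → Fin (2 * c + 1)) → ℝ}
    (h : DscO X φ g R s P c s' T P' o' W') : SB.OPr (Quo X g) (2 * s + 1) P' o' := h.upr.opr h.pf

/-- the hypothesis `Co` of VE -/
theorem DscO.co {T : E → W →L[ℝ] EuclideanSpace ℝ (Fin (2 * c + 1))}
    {P' : MM m → EuclideanSpace ℝ (Fin (2 * c + 1)) →L[ℝ] EuclideanSpace ℝ (Fin (2 * c + 1))}
    {o' : MM m → Ext (EuclideanSpace ℝ (Fin (2 * c + 1)))}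
    {W' : MM m → (Fin (s' + 1) × Fin 2 → Fin (2 * c + 1)) → ℝ}
    (h : DscO X φ g R s P c s' T P' o' W') (hY : Sub d (Quo X g)) :
    VE.Co (Quo X g) P' 3 (thomF (fun y => 1 - P' y) W') := co_thomF hY h.or

/-- **existence** -/
theorem exists_dscO (hg : Emb X φ g) (h : Cir X φ) (hX : Clo (d + 1) X) (hR : Rep R)
    (hP : PField X (2 * s + 1) P) (hs : UP.SyOn X P)
    (he : ∀ x ∈ X, ∀ t w, P (φ t x) (R t w) = R t (P x w)) {oP : E → Ext W}
    (ho : SB.OPr X (2 * s + 1) P oP) :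
    ∃ (c s' : ℕ) (T : E → W →L[ℝ] EuclideanSpace ℝ (Fin (2 * c + 1)))
      (P' : MM m → EuclideanSpace ℝ (Fin (2 * c + 1)) →L[ℝ] EuclideanSpace ℝ (Fin (2 * c + 1)))
      (o' : MM m → Ext (EuclideanSpace ℝ (Fin (2 * c + 1))))
      (W' : MM m → (Fin (s' + 1) × Fin 2 → Fin (2 * c + 1)) → ℝ),
      DscO X φ g R s P c s' T P' o' W' ∧
        ∀ x ∈ X, o' (jj g x) = UP.od T (UP.nrm (2 * s + 1) P oP) x := by
  obtain ⟨p, T₀, t1, t2, t3⟩ := CM.exists_T hg hR
  have hT₀ : Triv X φ R T₀ := ⟨t1, t2, t3⟩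
  obtain ⟨c, S, hS, hc⟩ := exists_mat_odd p (2 * s + 1)
  have hT := triv_mE hS hT₀
  obtain ⟨P', o', a1, a2, a3, a4, a5, a6, a7, a8⟩ := UP.exists_desc_opr hg h hX hR hT hP hs he ho
  obtain ⟨s', hs'⟩ : ∃ s', c = s + s' + 1 := ⟨c - s - 1, by omega⟩
  obtain ⟨W', hW'⟩ := exists_OR_compl_opr (ι := Fin (s + 1)) (ι' := Fin (s' + 1))
    (P := P') (X := Quo X g) (r := 2 * s + 1)
    (Fintype.equivOfCardEq (by simp; ring))
    (Fintype.equivOfCardEq (by simp; omega)) a3 a4 a6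
  exact ⟨c, s', _, P', o', W', ⟨hT, a1, a2, a3, a4, a5, a7, hW', by omega⟩, a8⟩

/-- **level 2**: the same data over `B' = Quo (XX X k) g'`, all pulled back by `p : B' → B` -/
theorem DscO.xx {n k m' : ℕ} {g' : E × HW.U k → Fin m' → ℂ} {p : MM m' → MM m}
    {T : E → W →L[ℝ] EuclideanSpace ℝ (Fin (2 * c + 1))}
    {P' : MM m → EuclideanSpace ℝ (Fin (2 * c + 1)) →L[ℝ] EuclideanSpace ℝ (Fin (2 * c + 1))}
    {o' : MM m → Ext (EuclideanSpace ℝ (Fin (2 * c + 1)))}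
    {W' : MM m → (Fin (s' + 1) × Fin 2 → Fin (2 * c + 1)) → ℝ}
    (h : DscO X φ g R s P c s' T P' o' W') (H : HW.HD n k X φ g g' p) :
    DscO (HW.XX X k) (HW.ph k φ) g' (fun t => R (2 * t)) s (fun z => P z.1) c s'
      (fun z => T z.1) (fun y => P' (p y)) (fun y => o' (p y)) (fun y => W' (p y)) where
  triv := ⟨fun z hz => (h.triv.smooth _ (HW.mem_XX.1 hz).1).comp z contDiffAt_fst,
    fun z hz w => h.triv.iso _ (HW.mem_XX.1 hz).1 w,
    fun z hz t w => h.triv.equi _ (HW.mem_XX.1 hz).1 (2 * t) w⟩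
  smP := h.smP.comp H.smooth
  smo := h.smo.comp H.smooth
  pf := pfield_up' h.pf H.smap
  sy := fun y hy => h.sy _ (H.smap.maps hy)
  upr := ⟨fun y hy => (h.upr.sm _ (H.smap.maps hy)).comp y (H.smap.smooth y hy),
    fun y => h.upr.deg _, fun y hy => h.upr.fix _ (H.smap.maps hy),
    fun y hy => h.upr.unit _ (H.smap.maps hy)⟩
  eqP := fun z hz => by
    change P' (p (jj g' z)) = _
    rw [H.eq z hz, h.eqP _ (HW.mem_XX.1 hz).1]
    rfl
  or := GP.OR.comp h.or (fun y hy => H.smap.smooth y hy) fun y hy => H.smap.maps hy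
  dim := h.dim

end dsc

end Crest.Agent.R208.TP
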