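import Crest.Agent.R208.VEd589c
import Crest.Agent.R208.TP7

/-! Row 208, block VD (helper589).  VEd589d: one constant `w₀` for every radius; the instance for
descended oriented fields of odd rank (`TP.DscO`). -/

set_option autoImplicit false
set_option linter.unusedSectionVars false
set_option linter.unusedVariables false

open MeasureTheory Set Filter Topology Module
open scoped ContDiff RealInnerProductSpace
open Crest.Agent.R208.F Crest.Agent.R208.FI Crest.Agent.R208.CW Crest.Agent.R208.T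
open Crest.Agent.R208.CM
open Crest.Agent.R208.SB.OddB (eV)

noncomputable section

namespace Crest.Agent.R208.VD

section all
variable {E : Type} [NormedAddCommGroup E] [NormedSpace ℝ E] [FiniteDimensional ℝ E]
  {n ι ι' : Type} [Fintype n] [DecidableEq n] [Fintype ι] [DecidableEq ι]
  [Fintype ι'] [DecidableEq ι']
  {X : Set E} {P : E → EuclideanSpace ℝ n →L[ℝ] EuclideanSpace ℝ n} {r d : ℕ}
  {oP : E → Ext (EuclideanSpace ℝ n)} {W' : E → (ι' × Fin 2 → n) → ℝ} {R : ℝ}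

/-- **W0 and the Thom data, with one constant for all radii** -/
theorem th1_all [Nonempty ι] [Nonempty ι'] (h : SB.OddB ι X r P oP)
    (h' : OR X (fun x => 1 - P x) W') (hX : Sub d X) (hXc : IsPreconnected X) :
    ∃ w₀ : ℝ, |w₀| = w0 n ι ι' ∧ w₀ ≠ 0 ∧ ∀ R : ℝ, 1 ≤ R →
      Coh X (VE.de volume P (thomF (fun x => 1 - P x) W') R (eV ι h.hr P oP))
        (w₀ • (1 : E → Ext E)) ∧
      VE.Th1 volume X P (thomF (fun x => 1 - P x) W') R w₀ (F.d (rx (eV ι h.hr P oP))) := by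
  obtain ⟨w₀, h1, h2, h3, h4⟩ := th1 h h' hX hXc le_rfl
  refine ⟨w₀, h1, h2, fun R hR => ?_⟩
  have e1 : Eqv X (VE.de volume P (thomF (fun x => 1 - P x) W') 1 (eV ι h.hr P oP))
      (VE.de volume P (thomF (fun x => 1 - P x) W') R (eV ι h.hr P oP)) :=
    VE.pu_radius volume zero_le_one h.pf (co_thomF hX h') hR h4.sm h4.cs
  have h5 := (Coh.of_eqv e1.symm).trans h3
  exact ⟨h5, ⟨h4.sm, h4.cl, h4.cs.mono hR, h4.od, h5, h2⟩⟩

end all

section dsc
variable {E : Type} [NormedAddCommGroup E] [NormedSpace ℝ E] [FiniteDimensional ℝ E]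
  {W : Type} [NormedAddCommGroup W] [InnerProductSpace ℝ W] [FiniteDimensional ℝ W]
  {X : Set E} {φ : ℝ → E → E} {m s c s' d : ℕ} {g : E → Fin m → ℂ} {R : ℝ → W →L[ℝ] W}
  {P : E → W →L[ℝ] W} {T : E → W →L[ℝ] EuclideanSpace ℝ (Fin (2 * c + 1))}
  {P' : MM m → EuclideanSpace ℝ (Fin (2 * c + 1)) →L[ℝ] EuclideanSpace ℝ (Fin (2 * c + 1))}
  {o' : MM m → Ext (EuclideanSpace ℝ (Fin (2 * c + 1)))}
  {W' : MM m → (Fin (s' + 1) × Fin 2 → Fin (2 * c + 1)) → ℝ}

theorem hr_fin (s : ℕ) : 2 * s = 2 * Fintype.card (Fin s) := by rw [Fintype.card_fin]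

/-- the descended field as `OddB` -/
theorem oddB (h : TP.DscO X φ g R s P c s' T P' o' W') :
    SB.OddB (Fin s) (Quo X g) (2 * s) P' o' := ⟨h.pf, h.sy, h.opr, hr_fin s⟩

/-- **W0 and the Thom data for descended fields** -/
theorem dsc_th1 (hs : 0 < s) (h : TP.DscO X φ g R s P c s' T P' o' W') (hY : Sub d (Quo X g))
    (hYc : IsPreconnected (Quo X g)) :
    ∃ w₀ : ℝ, |w₀| = w0 (Fin (2 * c + 1)) (Fin s) (Fin (s' + 1)) ∧ w₀ ≠ 0 ∧ ∀ R' : ℝ, 1 ≤ R' →
      Coh (Quo X g) (VE.de volume P' (thomF (fun y => 1 - P' y) W') R'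
        (eV (Fin s) (hr_fin s) P' o')) (w₀ • (1 : MM m → Ext (MM m))) ∧
      VE.Th1 volume (Quo X g) P' (thomF (fun y => 1 - P' y) W') R' w₀
        (F.d (rx (eV (Fin s) (hr_fin s) P' o'))) := by
  have : Nonempty (Fin s) := ⟨⟨0, hs⟩⟩
  exact th1_all (oddB h) h.or hY hYc

/-- the input `hT1` of `EX.exists_ED` -/
theorem dsc_hT1 (hs : 0 < s) (h : TP.DscO X φ g R s P c s' T P' o' W') (hY : Sub d (Quo X g))
    (hYc : IsPreconnected (Quo X g)) :
    ∃ (c₀ : ℝ) (τ : _), VE.Th1 (volume : Measure (EuclideanSpace ℝ (Fin (2 * c + 1))))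
      (Quo X g) P' (thomF (fun y => 1 - P' y) W') (3 / 2) c₀ τ := by
  obtain ⟨w₀, -, -, h3⟩ := dsc_th1 hs h hY hYc
  exact ⟨w₀, _, (h3 (3 / 2) (by norm_num)).2⟩

end dsc

end Crest.Agent.R208.VD
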