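import Crest.Agent.R208.ZA3

/-!
R208, ZA4 (helper221): glue between helper812's class side (VE8-VE11), helper607's coefficients
(EW8) and the hypotheses of `ZA.bound`.
-/

set_option autoImplicit false
set_option linter.unusedSectionVars false

open MeasureTheory Set Filter Topology Module
open scoped ContDiff
open Crest.GeometryTopology.Submanifold
open Crest.Agent.R241.DDefs
open Crest.Agent.R241.D2
open Crest.Agent.R208.F Crest.Agent.R208.FI Crest.Agent.R208.T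
open Crest.Agent.R208.CM
open Crest.Agent.R208.CW (SMap)
open Crest.Agent.R208.L (US)
open Crest.Agent.R208.LB (oUS al)

noncomputable section

namespace Crest.Agent.R208.ZA

section glue

variable {E : Type} [NormedAddCommGroup E] [NormedSpace ℝ E] [FiniteDimensional ℝ E]
  {B : Set E} {oB : E → Ext E} {e x p3 : E → Ext E} {c w₀ : ℝ}

/-- (i) of VE in the form of `ZA.bound` -/
theorem hrel_of (hc : c * w₀ ≠ 0)
    (h : Coh B ((c * w₀) • (x * x) + (c ^ 3 * w₀ / 3) • (p3 * (e * e))) 0) :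
    Coh B ((3 : ℝ) • (x * x) + (c ^ 2) • (p3 * (e * e))) 0 := by
  have h1 := h.smul (3 / (c * w₀))
  rw [smul_add, smul_smul, smul_smul, smul_zero, div_mul_cancel₀ _ hc] at h1
  have h2 : 3 / (c * w₀) * (c ^ 3 * w₀ / 3) = c ^ 2 := by
    have hc0 : c ≠ 0 := left_ne_zero_of_mul hc
    have hw0 : w₀ ≠ 0 := right_ne_zero_of_mul hc
    field_simp
  rwa [h2] at h1

/-- (iii) of VE is `ve l n₁ 1` with `l = c`, `n₁ = c w₀` -/
theorem ve_eq (r s : ℝ) : (-(2 * c ^ 3 * w₀)) • (p3 * x * e) - (r * c * w₀) • e ^ 11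
    - (s * c * w₀) • (x * e ^ 7) = ve c (c * w₀) 1 r s p3 x e := by
  rw [ve]
  have h1 : -(2 * c ^ 3 * w₀) = -(1 * (2 * c ^ 2 * (c * w₀))) := by ring
  rw [h1, mul_assoc r c w₀, mul_assoc s c w₀]

/-- (iv) of VE is the right side `rhsE` of the doubling identity -/
theorem rhs_eq (r s : ℝ) : (-(4 * (2 * c ^ 3 * w₀))) • (p3 * x * e)
    - ((2 : ℝ)⁻¹ ^ 10 * r * c * w₀) • e ^ 11 - ((2 : ℝ)⁻¹ ^ 6 * s * c * w₀) • (x * e ^ 7) =
      rhsE c (c * w₀) r s p3 x e := by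
  rw [rhsE, sub_eq_add_neg, sub_eq_add_neg, ← neg_smul, ← neg_smul]
  have h1 : -(4 * (2 * c ^ 3 * w₀)) = -(4 * (2 * c ^ 2 * (c * w₀))) := by ring
  have h2 : -((2 : ℝ)⁻¹ ^ 10 * r * c * w₀) = -(r / 1024 * (c * w₀)) := by ring
  have h3 : -((2 : ℝ)⁻¹ ^ 6 * s * c * w₀) = -(s / 64 * (c * w₀)) := by ring
  rw [h1, h2, h3]

end glue

end Crest.Agent.R208.ZA
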