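import Crest.Agent.R208.XM7a

/-! Row 208, block XM (helper671).  XM7: **`∫_{S⁴} s₂ = 16 π² (1 + 2 d)`** for the flat model:
`p_1 = 2 mod 4` for an oriented rank 4 bundle over `S⁴` with Euler number `±1`. -/

set_option autoImplicit false
set_option linter.unusedSectionVars false
set_option linter.unusedSimpArgs false
set_option linter.unusedVariables false

open scoped BigOperators ContDiff Topology Quaternion RealInnerProductSpace
open Module Set Filter Matrix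

noncomputable section

namespace Crest.Agent.R208.XM

open Crest.Agent.R208.F Crest.Agent.R208.FI Crest.Agent.R208.CW

/-- statement of the constant computation (XM6) -/
def ConstStmt : Prop := ∀ {f : ℝ → ℝ} (_ : ContDiff ℝ ∞ f) {a b : ℝ} (_ : 0 < a) (_ : a < b)
    (_ : b < 1) (_ : ∀ s ≤ a, f s = 1) (_ : ∀ s, b ≤ s → f s = 0),
    (JC 4 X4 o4 fun y => dC (fn fun z : E5 => if z.1 < 0 then f (‖z.2‖ ^ 2) else 0) y * w3 LV y)
      = 48 * (Real.pi : ℂ) ^ 2 ∨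
    (JC 4 X4 o4 fun y => dC (fn fun z : E5 => if z.1 < 0 then f (‖z.2‖ ^ 2) else 0) y * w3 LV y)
      = -(48 * (Real.pi : ℂ) ^ 2)

section loc
variable {E : Type*} [NormedAddCommGroup E] [NormedSpace ℝ E] [FiniteDimensional ℝ E]
  {n m : Type*} [Fintype n] [Fintype m] [DecidableEq n] {X : Set E} {d : ℕ} {x : E}

theorem dl_congr_loc (hX : Sub d X) (hx : x ∈ X) {A B : E → Matrix n m ℂ} (hA : SM 1 A x)
    (hB : SM 1 B x) (h : ∀ᶠ y in 𝓝 x, y ∈ X → A y = B y) : dl X A x = dl X B x := by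
  refine Matrix.ext fun i j => ?_
  exact rs_dC_congr hX hx (CD.of_fun (hA i j)) (CD.of_fun (hB i j))
    (h.mono fun y hy hyX => by simp only [hy hyX])

theorem rs_sf_congr (hX : Sub d X) (hx : x ∈ X) {A B : E → Matrix n n ℂ} (hA : SM 1 A x)
    (hB : SM 1 B x) (h : ∀ᶠ y in 𝓝 x, y ∈ X → A y = B y) (k : ℕ) :
    rs X x (sf k A x) = rs X x (sf k B x) := by
  rw [rs_sf, rs_sf, dl_congr_loc hX hx hA hB h, h.self_of_nhds hx]

theorem sf_const (M : Matrix n n ℂ) (x : E) : sf 2 (fun _ => M) x = 0 := by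
  rw [sf, DD_const, zero_pow (by norm_num), mul_zero, Matrix.trace_zero]

theorem sf_congr {A B : E → Matrix n n ℂ} (h : A =ᶠ[𝓝 x] B) (k : ℕ) : sf k A x = sf k B x := by
  rw [sf, sf, DD_congr h, h.self_of_nhds]

end loc

theorem LM_qc (a x : ℍ) (m : Fin 4) : ∑ r, LM a m r * qc x r = qc (a * x) m := by
  rw [Fin.sum_univ_four]
  fin_cases m <;> simp [LM, qc] <;> ring

theorem LMRM (a b c : ℍ) (m l : Fin 4) :
    (LM a * (LM b * RM c)) m l = qc (a * (b * (qe l * c))) m := by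
  have h1 : ∀ r, (LM b * RM c) r l = qc (b * (qe l * c)) r := fun r => by
    rw [Matrix.mul_apply]
    simp only [RM_apply]
    exact LM_qc b _ r
  rw [Matrix.mul_apply]
  simp only [h1]
  exact LM_qc a _ m

section main
variable {n : Type*} [Fintype n] [DecidableEq n] {j : ℍ →ₗᵢ[ℝ] EuclideanSpace ℝ n}
  {P : ℍ → EuclideanSpace ℝ n →L[ℝ] EuclideanSpace ℝ n} {s : ℍ → EuclideanSpace ℝ n}
  {e : ℍ → Fin 4 → EuclideanSpace ℝ n} {q : ℍ → ℍ}

/-- matrix of a frame -/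
def Bm (e : Fin 4 → EuclideanSpace ℝ n) : Matrix n (Fin 4) ℂ :=
  Matrix.of fun a i => ((e i a : ℝ) : ℂ)

theorem Bm_tr {e e' : Fin 4 → EuclideanSpace ℝ n} :
    (Bm e)ᵀ * Bm e' = Matrix.of fun i k => ((⟪e i, e' k⟫ : ℝ) : ℂ) := by
  ext i k
  rw [Matrix.mul_apply, Matrix.of_apply, PiLp.inner_apply, Complex.ofReal_sum]
  refine Finset.sum_congr rfl fun a _ => ?_
  simp [Bm, mul_comm]

theorem Bm_on {e : Fin 4 → EuclideanSpace ℝ n} (he : Orthonormal ℝ e) : (Bm e)ᵀ * Bm e = 1 := by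
  rw [Bm_tr]
  ext i k
  rw [Matrix.of_apply, orthonormal_iff_ite.1 he, Matrix.one_apply]
  split_ifs <;> simp

theorem mtx_eq {A : EuclideanSpace ℝ n →L[ℝ] EuclideanSpace ℝ n}
    {e : Fin 4 → EuclideanSpace ℝ n} (h : ∀ x, A x = ∑ i, ⟪e i, x⟫ • e i) :
    T.mtx A = Bm e * (Bm e)ᵀ := by
  ext a b
  rw [T.mtx, Matrix.of_apply, h, Matrix.mul_apply]
  simp only [Bm, Matrix.transpose_apply, Matrix.of_apply]
  rw [WithLp.ofLp_sum, Finset.sum_apply, Complex.ofReal_sum]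
  refine Finset.sum_congr rfl fun i _ => ?_
  simp [EuclideanSpace.inner_single_right, mul_comm]

/-- the frame as a field on `ℝ × ℍ` -/
def BB (e : ℍ → Fin 4 → EuclideanSpace ℝ n) (z : E5) : Matrix n (Fin 4) ℂ := Bm (e z.2)

/-- the clutching matrix -/
def GG (q : ℍ → ℍ) (z : E5) : Matrix (Fin 4) (Fin 4) ℂ :=
  LV z * (LC (q z.2) * RC (star (q z.2)))

/-- what is needed from `Flat.exists_frame` -/
structure FQ (j : ℍ →ₗᵢ[ℝ] EuclideanSpace ℝ n)
    (P : ℍ → EuclideanSpace ℝ n →L[ℝ] EuclideanSpace ℝ n)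
    (e : ℍ → Fin 4 → EuclideanSpace ℝ n) (q : ℍ → ℍ) : Prop where
  es : ∀ v, ‖v‖ ≤ 2 → ∀ i, ContDiffAt ℝ ∞ (fun y => e y i) v
  eo : ∀ v, ‖v‖ ≤ 2 → Orthonormal ℝ (e v) ∧ ∀ i, P v (e v i) = e v i
  qs : ∀ v ∈ An (9 / 10) (99 / 100), ContDiffAt ℝ ∞ q v
  qe : ∀ v ∈ An (9 / 10) (99 / 100), ‖q v‖ = 1 ∧
      ∀ l, e v l = j (‖v‖⁻¹ • v * (q v * (XM.qe l * star (q v))))

theorem lt2_ev {z : E5} (hz : ‖z.2‖ < 2) : ∀ᶠ y : E5 in 𝓝 z, ‖y.2‖ < 2 := by
  have hc : Continuous fun y : E5 => ‖y.2‖ := by fun_prop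
  exact (hc.tendsto z).eventually_lt_const hz

theorem mem_An_of_UU {z : E5} (hz : z ∈ UU) : z.2 ∈ An (9 / 10) (99 / 100) := ⟨hz.1.le, hz.2.le⟩

namespace FQ
variable (h : FQ j P e q)
include h

theorem ofm {z : E5} (hz : ‖z.2‖ < 2) : OFm (BB e) z where
  sm := (lt2_ev hz).mono fun y hy a i => by
    have h1 : ContDiffAt ℝ ∞ (fun y : E5 => e y.2 i) y :=
      (h.es y.2 hy.le i).comp y contDiffAt_snd
    have h2 : ContDiffAt ℝ ∞ (fun y : E5 => e y.2 i a) y :=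
      (EuclideanSpace.proj a : EuclideanSpace ℝ n →L[ℝ] ℝ).contDiff.contDiffAt.comp y h1
    exact Complex.ofRealCLM.contDiff.contDiffAt.comp y h2
  on := (lt2_ev hz).mono fun y hy => Bm_on (h.eo y.2 hy.le).1

theorem uq : UQ (fun z : E5 => q z.2) where
  sm := fun z hz => (h.qs z.2 (mem_An_of_UU hz)).comp z contDiffAt_snd
  un := fun z hz => (h.qe z.2 (mem_An_of_UU hz)).1

theorem BB_eq {z : E5} (hz : z ∈ UU) : BB e z = Bm (fun m => j (XM.qe m)) * GG q z := by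
  have h1 := (h.qe z.2 (mem_An_of_UU hz)).2
  have h2 : GG q z = (LM (vh z) * (LM (q z.2) * RM (star (q z.2)))).map ((↑) : ℝ → ℂ) := by
    rw [GG, map_ofReal_mul, map_ofReal_mul]; rfl
  ext a l
  rw [Matrix.mul_apply, h2]
  simp only [Matrix.map_apply, LMRM]
  change ((e z.2 l a : ℝ) : ℂ) = ∑ m, ((j (XM.qe m) a : ℝ) : ℂ) * _
  rw [h1 l]
  set x : ℍ := ‖z.2‖⁻¹ • z.2 * (q z.2 * (XM.qe l * star (q z.2))) with hx
  have h3 : j x = ∑ m, qc x m • j (XM.qe m) := by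
    conv_lhs => rw [← sum_qc x]
    rw [map_sum]
    exact Finset.sum_congr rfl fun m _ => map_smul _ _ _
  rw [h3, WithLp.ofLp_sum, Finset.sum_apply, Complex.ofReal_sum]
  refine Finset.sum_congr rfl fun m _ => ?_
  simp [mul_comm]
  exact Or.inl rfl

theorem ofmR {z : E5} (hz : z ∈ UU) : OFm (fun y : E5 => RC (star (q y.2))) z := by
  have hst : ContDiff ℝ ∞ (fun a : ℍ => star a) := by
    have : (fun a : ℍ => star a) = fun a => (2 * qc a 0) • (1 : ℍ) - a := by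
      funext a
      ext
      · simp [qc]; ring
      · simp
      · simp
      · simp
    rw [this]
    exact ((contDiff_const.mul (contDiff_qc 0)).smul contDiff_const).sub contDiff_id
  refine OFm_RC ((isOpen_UU.eventually_mem hz).mono fun y hy => ?_)
    ((isOpen_UU.eventually_mem hz).mono fun y hy => ?_)
  · exact hst.contDiffAt.comp y (h.uq.sm y hy)
  · rw [Quaternion.norm_star]; exact h.uq.un y hy

theorem ofmLR {z : E5} (hz : z ∈ UU) :
    OFm (fun y : E5 => LC (q y.2) * RC (star (q y.2))) z := (h.uq.ofm hz).mul (h.ofmR hz)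

theorem ofmG {z : E5} (hz : z ∈ UU) : OFm (GG q) z :=
  (OFm_LV (ne_of_UU hz)).mul (h.ofmLR hz)

theorem w3_GG {z : E5} (hz : z ∈ UU) : w3 (GG q) z = w3 LV z
    + (w3 (fun y : E5 => LC (q y.2)) z + w3 (fun y : E5 => LC (q y.2)) z
      - (3 : ℂ) • dC (mx (fun y : E5 => LC (q y.2)) fun y => RC (star (q y.2))) z)
    - (3 : ℂ) • dC (mx LV fun y : E5 => LC (q y.2) * RC (star (q y.2))) z := by
  have h1 := w3_mul (OFm_LV (ne_of_UU hz)) (h.ofmLR hz)
  have h2 := w3_mul (h.uq.ofm hz) (h.ofmR hz)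
  have h3 : w3 (fun y : E5 => RC (star (q y.2))) z = w3 (fun y : E5 => LC (q y.2)) z :=
    w3_RC_star (h.uq.sm z hz)
  rw [h3] at h2
  rw [h2] at h1
  exact h1

theorem csf_BB {z : E5} (hz : z ∈ UU) : csf (BB e) z = (-(1 : ℂ) / 3) • w3 (GG q) z := by
  have h0 : (Bm fun m => j (XM.qe m))ᵀ * Bm (fun m => j (XM.qe m)) = 1 :=
    Bm_on (qe_on.comp_linearIsometry j)
  have h1 : BB e =ᶠ[𝓝 z] fun y => Bm (fun m => j (XM.qe m)) * GG q y :=
    (isOpen_UU.eventually_mem hz).mono fun y hy => h.BB_eq hy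
  rw [csf_congr h1, csf_const_mul h0 ((h.ofmG hz).sm), csf_sq (h.ofmG hz)]

/-- the transgression -/
theorem Mc_csf {φ : ℝ → ℝ} (hφ : Prof φ) : ∃ d : ℤ,
    Mc 4 X4 o4 (fun z => φ z.1) (csf (BB e))
      = (-(1 : ℂ) / 3) * ((1 + 2 * d) * Mc 4 X4 o4 (fun z => φ z.1) (w3 LV)) := by
  obtain ⟨d, hd⟩ := exists_deg h.uq hφ
  refine ⟨d, ?_⟩
  set w1 : E5 → CF E5 := w3 LV
  set w2 : E5 → CF E5 := w3 fun y : E5 => LC (q y.2)
  set m1 : E5 → CF E5 := mx LV fun y : E5 => LC (q y.2) * RC (star (q y.2)) with hm1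
  set m2 : E5 → CF E5 := mx (fun y : E5 => LC (q y.2)) fun y => RC (star (q y.2)) with hm2
  have c := hφ.cut
  have s1 : Smo (X4 ∩ UU) w1 := smo_w3 uq_vh
  have s2 : Smo (X4 ∩ UU) w2 := smo_w3 h.uq
  have t1 : Smo (X4 ∩ UU) m1 := fun z hz => CD_mx (OFm_LV (ne_of_UU hz.2)).s (h.ofmLR hz.2).s
  have t2 : Smo (X4 ∩ UU) m2 := fun z hz => CD_mx (h.uq.ofm hz.2).s (h.ofmR hz.2).s
  have u1 : Smo (X4 ∩ UU) (fun z => (-3 : ℂ) • dC m1 z) := (t1.dC).csmul _
  have u2 : Smo (X4 ∩ UU) (fun z => (-3 : ℂ) • dC m2 z) := (t2.dC).csmul _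
  have a1 : Smo (X4 ∩ UU) (fun z => w2 z + w2 z) := s2.add s2
  have a2 : Smo (X4 ∩ UU) (fun z => (w2 z + w2 z) + (-3 : ℂ) • dC m2 z) := a1.add u2
  have a3 : Smo (X4 ∩ UU) (fun z => w1 z + ((w2 z + w2 z) + (-3 : ℂ) • dC m2 z)) := s1.add a2
  have a4 : Smo (X4 ∩ UU) (fun z => (w1 z + ((w2 z + w2 z) + (-3 : ℂ) • dC m2 z))
      + (-3 : ℂ) • dC m1 z) := a3.add u1
  have e1 : Mc 4 X4 o4 (fun z => φ z.1) (csf (BB e)) = Mc 4 X4 o4 (fun z => φ z.1)
      (fun z => (-(1 : ℂ) / 3) • ((w1 z + ((w2 z + w2 z) + (-3 : ℂ) • dC m2 z))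
        + (-3 : ℂ) • dC m1 z)) := by
    refine Mc_congr clo_X4 ori_X4 c fun z hz hU => ?_
    rw [h.csf_BB hU, h.w3_GG hU]
    congr 1
    rw [neg_smul, neg_smul, ← sub_eq_add_neg, ← sub_eq_add_neg]
  rw [e1, Mc_smul clo_X4 ori_X4 c a4, Mc_add clo_X4 ori_X4 c a3 u1, Mc_add clo_X4 ori_X4 c s1 a2,
    Mc_add clo_X4 ori_X4 c a1 u2, Mc_add clo_X4 ori_X4 c s2 s2,
    Mc_smul clo_X4 ori_X4 c t1.dC, Mc_smul clo_X4 ori_X4 c t2.dC, Mc_dC clo_X4 ori_X4 c t1,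
    Mc_dC clo_X4 ori_X4 c t2, hd]
  ring

end FQ

/-- **main theorem**, from the constant -/
theorem main_of (hK : ConstStmt) (h : Flat j P s) {Q : E5 → Matrix n n ℂ} (hQ : IdF X4 Q)
    (hQ1 : ∀ z ∈ X4, z.1 < 0 → Q z = T.mtx (P z.2))
    (hQ2 : ∀ z ∈ X4, 0 ≤ z.1 → Q z = T.mtx (P 1)) :
    ∃ d : ℤ, JC 4 X4 o4 (sf 2 Q) = 16 * (Real.pi : ℂ) ^ 2 * (1 + 2 * d) := by
  obtain ⟨e, q, f1, f2, f3, f4⟩ := h.exists_frame
  have hF : FQ j P e q := ⟨f1, f2, f3, f4⟩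
  have hlt : ∀ z ∈ X4, ‖z.2‖ < 2 := fun z hz => by
    rw [mem_X4] at hz
    nlinarith [norm_nonneg z.2, sq_nonneg z.1]
  have hPB : ∀ v, ‖v‖ ≤ 2 → T.mtx (P v) = Bm (e v) * (Bm (e v))ᵀ := fun v hv =>
    mtx_eq fun x => proj_eq_sum (h.idem v) (h.sym v) (h.rk v) (f2 v hv).1 (f2 v hv).2 x
  have hη : Smo X4 (csf (BB e)) := fun z hz => CD_csf (hF.ofm (hlt z hz)).s
  have hBBt : ∀ z ∈ X4, SM ∞ (fun y => BB e y * (BB e y)ᵀ) z := fun z hz =>
    ((hF.ofm (hlt z hz)).s).mul ((hF.ofm (hlt z hz)).s.transpose)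
  have hC : Continuous fun y : E5 => ‖y.2‖ ^ 2 := by fun_prop
  have key : ∀ z ∈ X4, rs X4 z (sf 2 Q z)
      = rs X4 z (fn (fun z : E5 => pr0 z.1) z * dC (csf (BB e)) z) := by
    intro z hz
    have hz' := hz
    rw [mem_X4] at hz'
    rcases lt_or_ge z.1 (-(2 / 5)) with hc | hc
    · -- lower part
      have hc0 : z.1 < 0 := by linarith
      have e1 : rs X4 z (sf 2 Q z) = rs X4 z (sf 2 (fun y => BB e y * (BB e y)ᵀ) z) := by
        refine rs_sf_congr sub_X4 hz (hQ.s1 hz) ((hBBt z hz).of_le one_le_inf) ?_ 2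
        filter_upwards [(continuous_fst.tendsto z).eventually_lt_const hc0] with y hy hyX
        rw [hQ1 y hyX hy, hPB _ (hlt y hyX).le]; rfl
      rw [e1, sf_two_eq (hF.ofm (hlt z hz)) (Q := fun y => BB e y * (BB e y)ᵀ) (Eventually.of_forall fun _ => rfl)]
      congr 1
      have : fn (fun z : E5 => pr0 z.1) z = 1 := by
        rw [fn, prof_pr0.l _ hc.le, Complex.ofReal_one, map_one]
      rw [this, one_mul]
    · -- `Q` is constant on `X` near `z`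
      have hc1 : -(1 / 2 : ℝ) < z.1 := by linarith
      have e1 : rs X4 z (sf 2 Q z) = rs X4 z (sf 2 (fun _ => T.mtx (P 1)) z) := by
        refine rs_sf_congr sub_X4 hz (hQ.s1 hz) (SM.const _) ?_ 2
        filter_upwards [(continuous_fst.tendsto z).eventually_const_lt hc1] with y hy hyX
        rcases lt_or_ge y.1 0 with hy0 | hy0
        · rw [hQ1 y hyX hy0, h.P_const]
          rw [mem_X4] at hyX
          nlinarith
        · exact hQ2 y hyX hy0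
      rw [e1, sf_const, map_zero]
      rcases lt_or_ge (-(1 / 5)) z.1 with hd | hd
      · have : fn (fun z : E5 => pr0 z.1) z = 0 := by
          rw [fn, prof_pr0.r _ hd.le, Complex.ofReal_zero, map_zero]
        rw [this, zero_mul, map_zero]
      · have h34 : (3 / 4 : ℝ) < ‖z.2‖ ^ 2 := by nlinarith
        have e2 : (fun y => BB e y * (BB e y)ᵀ) =ᶠ[𝓝 z] fun _ => T.mtx (P 1) := by
          filter_upwards [(hC.tendsto z).eventually_const_lt h34, lt2_ev (hlt z hz)] with y hy hy2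
          have := hPB y.2 hy2.le
          rw [h.P_const hy.le] at this
          rw [this]; rfl
        have e3 : dC (csf (BB e)) z = 0 := by
          rw [← sf_two_eq (hF.ofm (hlt z hz)) (Q := fun y => BB e y * (BB e y)ᵀ)
            (Eventually.of_forall fun _ => rfl), sf_congr e2, sf_const]
        rw [e3, mul_zero, map_zero]
  have hJ := JC_eq_neg_Mc clo_X4 ori_X4 prof_pr0.cut hη key
  obtain ⟨d, hd⟩ := hF.Mc_csf prof_pr0
  -- the constant
  set f : ℝ → ℝ := fun s => 1 - Real.smoothTransition ((s - 82 / 100) * (100 / 15)) with hf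
  have hfs : ContDiff ℝ ∞ f :=
    contDiff_const.sub (Real.smoothTransition.contDiff.comp (by fun_prop))
  have hf1 : ∀ s ≤ (82 / 100 : ℝ), f s = 1 := fun s hs => by
    rw [hf]; simp only
    rw [Real.smoothTransition.zero_of_nonpos (by linarith), sub_zero]
  have hf0 : ∀ s, (97 / 100 : ℝ) ≤ s → f s = 0 := fun s hs => by
    rw [hf]; simp only
    rw [Real.smoothTransition.one_of_one_le (by linarith), sub_self]
  have hM := Mc_c2 hfs hf1 hf0 prof_pr0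
  have hk := hK hfs (a := 82 / 100) (b := 97 / 100) (by norm_num) (by norm_num) (by norm_num)
    hf1 hf0
  have hk' : Mc 4 X4 o4 (fun z => pr0 z.1) (w3 LV) = 48 * (Real.pi : ℂ) ^ 2 ∨
      Mc 4 X4 o4 (fun z => pr0 z.1) (w3 LV) = -(48 * (Real.pi : ℂ) ^ 2) := by
    rw [hM]; exact hk
  rcases hk' with h48 | h48
  · refine ⟨d, ?_⟩
    rw [hJ, hd, h48]; ring
  · refine ⟨-d - 1, ?_⟩
    rw [hJ, hd, h48]; push_cast; ring

end main

theorem mainStmt_of (hK : ConstStmt) : MainStmt := fun h _ hQ hQ1 hQ2 => main_of hK h hQ hQ1 hQ2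

end Crest.Agent.R208.XM
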