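import Crest.Agent.R208.XM6
import Crest.Agent.R208.XM7
import Crest.Agent.R208.XM8b

/-! Row 208, block XM (helper671, with XM6 of helper833 and XM8 of helper595).  XM7b:
**`MainStmt`** without hypotheses, and **`μ = 2 (1 + 2 d)`** for `k = 4`. -/

set_option autoImplicit false

open MeasureTheory Set Filter Topology Module Matrix
open scoped ContDiff RealInnerProductSpace Quaternion
open Crest.GeometryTopology.Submanifold
open Crest.Agent.R241.DDefs
open Crest.Agent.R241.D2
open Crest.Agent.R208.F Crest.Agent.R208.FI Crest.Agent.R208.CW Crest.Agent.R208.T Crest.Agent.R208.SN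

noncomputable section

namespace Crest.Agent.R208.XM

theorem constStmt : ConstStmt := fun hf _ _ ha hab hb h1 h0 => const_LV hf ha hab hb h1 h0

/-- **`∫_{S⁴} s₂ = 16 π² (1 + 2 d)`** for every flat field of rank four over `S⁴` -/
theorem main : MainStmt := mainStmt_of constStmt

section

variable {n N : ℕ} {κ : ℝ} {S : Set (Euc N)} {G : Geo n N κ S}

/-- **(X10)**: `μ = 2 (1 + 2 d)` for `k = 4` (316's structure) -/
theorem mu_four_XM {ι : Type} [Fintype ι] [DecidableEq ι]
    {W : Euc N × Euc N → (ι × Fin 2 → Fin N) → ℝ}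
    {h : GT.Bla G 4} {m : ℕ} {p : Euc N} {x : Euc N → Ext (Euc N)}
    (D : T.XM h m W p x) {dF : ℕ} (hF : Sub dF (GT.FF S)) (hx : EC S x) {μ : ℝ}
    (hμ : cc hF (GT.idf_mV (FV.vfield_PVB h)) 2 =
      (μ : ℂ) • (FG.xp (((VX.nE ι : ℝ) : ℂ)⁻¹ • rcl hx) + FG.xq (((VX.nE ι : ℝ) : ℂ)⁻¹ • rcl hx))) :
    ∃ d : ℤ, μ = 2 * (1 + 2 * d) := mu_four main D hF hx hμ

end

end Crest.Agent.R208.XM
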