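import Crest.Agent.R208.TX9
import Crest.Agent.R208.CM6b
import Crest.Agent.R208.HY5
import Crest.Agent.R208.SO3

/-! Row 208, VOL4, block (V4-a) (helper316).  ZH1: closed forms of degree `4` on `B = US / S¹`. -/

set_option autoImplicit false
set_option linter.unusedSectionVars false

open MeasureTheory Set Filter Topology Module
open scoped ContDiff RealInnerProductSpace
open Crest.GeometryTopology.Submanifold
open Crest.Agent.R241.DDefs
open Crest.Agent.R241.D2
open Crest.Agent.R208.F Crest.Agent.R208.FI Crest.Agent.R208.CW Crest.Agent.R208.T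
open Crest.Agent.R208.CM
open Crest.Agent.R208.L (US)
open Crest.Agent.R208.LB (al)

noncomputable section

namespace Crest.Agent.R208.ZG

section gys
variable {E E' : Type} [NormedAddCommGroup E] [NormedSpace ℝ E] [FiniteDimensional ℝ E]
  [NormedAddCommGroup E'] [NormedSpace ℝ E'] [FiniteDimensional ℝ E']
  {X : Set E} {B : Set E'} {q : E → E'} {F₀ y b : E' → Ext E'} {x : E → Ext E} {d r J : ℕ} {β : ℝ}

/-- closed forms of degree `4` on the base of a circle bundle, if the closed `2`-forms on `X` are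
exact -/
theorem low_four (hG : HY.Gys X B q F₀) (hB : FI.Sub d B) (hBc : IsPreconnected B)
    (h2 : ExactIn X 2)
    (sy : Sm B y) (cy : Cl B y) (dy : Hom 4 y) (hy : Coh X (F.pull q y) x)
    (sb : Sm B b) (cb : Cl B b) (db : Hom 4 b) (hb : Coh X (F.pull q b) (β • x)) :
    ∃ α : ℝ, Coh B b (α • (F₀ * F₀) + β • y) := by
  have h1 : Coh X (F.pull q (b - β • y)) 0 := by
    rw [pull_sub', pull_smul']
    have := hb.sub (hy.smul β)
    rwa [sub_self] at this
  obtain ⟨c, sc, cc, dc, hc⟩ := hG.high 2 (b - β • y) (sb.sub (sy.smul β))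
    (Cl.sub sb (sy.smul β) cb (Cl.smul β sy cy)) (db.sub (dy.smul β)) h1
  obtain ⟨a, sa, ca, da, ha⟩ := hG.high 0 c sc cc dc
    (h2 _ (sc.pull hG.smap) (cc.pull hG.smap sc) dc.pull)
  obtain ⟨α, hα⟩ := const_of_closed hB hBc sa ca da
  refine ⟨α, ?_⟩
  have e1 : Coh B (c * F₀) (a * F₀ * F₀) := Coh.mul_right hG.sm hG.cl ha
  have e2 : Eqv B (a * F₀ * F₀) (α • (F₀ * F₀)) := Eqv.of_eq fun z hz => by
    rw [Pi.mul_apply, Pi.mul_apply, hα z hz, Pi.smul_apply, Pi.mul_apply, Algebra.smul_def,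
      mul_assoc]
  have e3 := (hc.trans (e1.trans (Coh.of_eqv e2))).add (Coh.refl (β • y))
  rwa [sub_add_cancel] at e3

end gys

variable {n N m m' : ℕ} {κ : ℝ} {S : Set (Euc N)} {G : Geo n N κ S} {p₀ : Euc N}
  {ι : Type} [Fintype ι] [DecidableEq ι] {W₀ : Euc N × Euc N → (ι × Fin 2 → Fin N) → ℝ}
  {x : Euc N → Ext (Euc N)} {g : Euc N × Euc N → Fin m' → ℂ} {Fc y p : MM m' → Ext (MM m')}
  {β : ℝ}

theorem exactIn_two {h : GT.Bla G 4} (D : T.XM h m W₀ p₀ x) : ExactIn (US G) 2 := by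
  intro b sb cb db
  rw [← FV.Sph_S] at *
  have h2 := D.two_k
  obtain ⟨c, hc0, hc⟩ := D.low 2 b (by norm_num) (by omega) sb cb db
  rwa [hc0 (by norm_num), zero_smul] at hc

/-- **(V4-a)** closed forms of degree `4` on `B` -/
theorem low_y {h : GT.Bla G 4} (D : T.XM h m W₀ p₀ x) (hper : HS.Per G)
    (hg : Emb (US G) (gf G) g) (hFc : Curv (US G) g al Fc)
    (hy : SO.CF2 (Quo (US G) g) 4 y)
    (hyU : Coh (US G) (F.pull (jj g) y) (F.pull Prod.fst x))
    (hp : SO.CF2 (Quo (US G) g) 4 p)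
    (hpU : Coh (US G) (F.pull (jj g) p) (β • F.pull Prod.fst x)) :
    ∃ α : ℝ, Coh (Quo (US G) g) p (α • (Fc * Fc) + β • y) := by
  have hX := clo_US' h.bl
  have hc := cir_US h.bl hper
  have hG := HG.gys hg hc hX (conn_al (FV.sub_S h.bl)) hFc
  exact low_four hG (hg.clo_Quo hc hX).sub (HY.preconn_Quo hg (FV.preconn_US h.bl (by
      have := D.two_k; omega))) (exactIn_two D)
    hy.sm hy.cl hy.hom hyU hp.sm hp.cl hp.hom hpU

end Crest.Agent.R208.ZG
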