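import Crest.Agent.R208.ZG8
import Crest.Agent.R208.ZH1
import Crest.Agent.R208.ZH2
import Crest.Agent.R208.ZH3b
import Crest.Agent.R208.SB5
import Crest.Agent.R208.CBN1
import Crest.Agent.R208.UP2
import Crest.Agent.R208.PV3
import Crest.Agent.R208.QV5
import Crest.Agent.R208.FL6
import Crest.Agent.R208.EW8
import Crest.Agent.R208.KP2
import Crest.Agent.R208.KP4
import Crest.Agent.R208.CG7
import Crest.Agent.R208.FV3
import Crest.Agent.R208.XM7b
import Crest.Agent.R208.HN2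
import Crest.Agent.R208.TX10

/-!
R208, ZG9 (helper385): the instance of `in4_final` over the manifold of geodesics.
-/

set_option autoImplicit false
set_option linter.unusedSectionVars false
set_option linter.unusedVariables false

open MeasureTheory Set Filter Topology Module
open scoped ContDiff RealInnerProductSpace
open Crest.Agent.R208.F Crest.Agent.R208.FI Crest.Agent.R208.CW Crest.Agent.R208.T
open Crest.Agent.R208.RR Crest.Agent.R208.CM Crest.Agent.R208.SO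

noncomputable section

namespace Crest.Agent.R208.ZG

open Crest.GeometryTopology.Submanifold
open Crest.Agent.R241.DDefs
open Crest.Agent.R241.D2
open Crest.Agent.R208.L (US)
open Crest.Agent.R208.LB (oUS al)
open Crest.Agent.R208.NN (Wt Rt nuP)
open Crest.Agent.R208.FL (Af Ph)

variable {n N K m : ℕ} {κ : ℝ} {S : Set (Euc N)} {G : Geo n N κ S}
  {ι : Type} [Fintype ι] [DecidableEq ι]
  {W₀ : Euc N × Euc N → (ι × Fin 2 → Fin N) → ℝ} {p₀ : Euc N} {x : Euc N → Ext (Euc N)}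
  {lg : Euc N → Euc N → Euc N} {ρ : Euc N → Euc N} {r C r' Kr Bb w δ ε E₀ η₀ : ℝ} {J₀ : ℕ}
  {PN : Euc N × Euc N → Wt N K →L[ℝ] Wt N K}

/-- change of orientation -/
theorem abs_J_ori {E : Type*} [NormedAddCommGroup E] [NormedSpace ℝ E] [FiniteDimensional ℝ E]
    {X : Set E} {d : ℕ} {o o' : E → Ext E} (hX : Clo d X) (hc : IsPreconnected X)
    (ho : Ori d X o) (ho' : Ori d X o') (a : E → Ext E) : |J d X o' a| = |J d X o a| := by
  rcases J_ori_connected hX ho ho' hc with h | h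
  · rw [h]
  · rw [h, abs_neg]

/-- the pull-back of `y` (inside `in4_final`) -/
theorem coh_pull_y {EZ EB H F' : Type} [NormedAddCommGroup EZ] [NormedSpace ℝ EZ]
    [FiniteDimensional ℝ EZ] [NormedAddCommGroup EB] [NormedSpace ℝ EB] [FiniteDimensional ℝ EB]
    [NormedAddCommGroup H] [InnerProductSpace ℝ H] [FiniteDimensional ℝ H]
    [NormedAddCommGroup F'] [NormedSpace ℝ F'] [FiniteDimensional ℝ F']
    {Z : Set EZ} {B : Set EB} {P : EB → H →L[ℝ] H} {φ : ℝ → EZ → EZ} {q : EZ → EB × H}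
    {e y : EB → Ext EB} {W : EB × H → Ext (EB × H)} {om : F' → Ext F'} {f : EB × H → F'}
    {a : EZ × ℝ → Ext (EZ × ℝ)} {θ : EZ → Ext EZ} {c : ℝ}
    (hW : CF2 (Sph B P) 2 W) (hq : TP.QM Z φ (Sph B P) q) (sθ : Sm Z θ)
    (hθ : Eqv Z (F.d θ) (F.pull q (F.pull Prod.fst e)))
    (ha : Eqv Z (F.pull (sl 1) a) (F.pull q (F.pull f om)))
    (h3 : Coh (Sph B P) (F.pull f om) (F.pull Prod.fst y + (c / 2) • (F.pull Prod.fst e * W))) :
    Coh Z (F.pull q (F.pull Prod.fst y)) (F.pull (sl 1) a) := by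
  have k1 := h3.pull hq.smap
  rw [pull_add', pull_smul', pull_mul'] at k1
  have sW' : Sm Z (F.pull q W) := hW.sm.pull hq.smap
  have cW' : Cl Z (F.pull q W) := Cl.pull hq.smap hW.sm hW.cl
  have k2 : Coh Z (F.pull q (F.pull Prod.fst e) * F.pull q W) 0 := by
    have k3 : Eqv Z (F.pull q (F.pull Prod.fst e) * F.pull q W) (F.d (θ * F.pull q W)) :=
      (hθ.symm.mul (Eqv.refl _)).trans (d_mul_cl sθ sW' cW').symm
    refine ⟨θ * F.pull q W, sθ.mul sW', ?_⟩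
    rw [sub_zero]
    exact k3
  have k4 := (Coh.refl (X := Z) (F.pull q (F.pull Prod.fst y))).add (k2.smul (c / 2))
  rw [smul_zero, add_zero] at k4
  exact (k4.symm.trans k1.symm).trans (Coh.of_eqv ha.symm)

set_option maxHeartbeats 2000000 in
/-- **the instance** -/
theorem in4_of_D1 (h : FL.D1 G 4 K lg ρ r C r' Kr Bb w δ PN ε J₀ E₀ η₀)
    (D : T.XM h.bla m W₀ p₀ x)
    (hTle : ∀ oS, Ori n S oS → |J n S oS (x ^ m)| ≤ XF.tau ι ^ m)
    (hC : ∀ z ∈ US G, ∀ oV, Ori 2 (Sph (US G) PN ∩ Prod.fst ⁻¹' {z}) oV →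
      |J 2 (Sph (US G) PN ∩ Prod.fst ⁻¹' {z}) oV (Wp (FM.phiF h.bla PN) (F.pull Prod.fst
        (RR.K (E := Euc N × Euc N) (F.pull (RRC.EE G) x))))| = 2 * XF.tau ι)
    (hK : ∀ (mm p' : ℕ) (g : Euc N × Euc N → Fin mm → ℂ) (Fc : MM mm → Ext (MM mm))
      (P' : MM mm → EuclideanSpace ℝ (Fin p') →L[ℝ] EuclideanSpace ℝ (Fin p'))
      (oP' : MM mm → Ext (EuclideanSpace ℝ (Fin p')))
      (hod : SB.OddB (Fin 1) (Quo (US G) g) 2 P' oP') (f : MM mm × EuclideanSpace ℝ (Fin p') → Euc N)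
      (y : MM mm → Ext (MM mm)) (c μ α : ℝ),
      Emb (US G) (gf G) g → Curv (US G) g al Fc → UP.UPr (Quo (US G) g) 3 P' oP' →
      SMap (Sph (Quo (US G) g) P') S f → CF2 (Quo (US G) g) 4 y →
      Coh (US G) (F.pull (jj g) y) (F.pull Prod.fst x) →
      Coh (Sph (Quo (US G) g) P') (F.pull f x)
        (F.pull Prod.fst y + (c / 2) • (F.pull Prod.fst Fc * SB.OddB.eV (Fin 1) hod.hr P' oP')) →
      Coh (Quo (US G) g) (EW.cR 2 P') ((α / 4) • (Fc * Fc) + (μ / 4) • y) →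
      |c| = 4 → |μ| = 2 → α ≠ 0 → 4 ≤ |α|) :
    Nonempty (In4 G m) := by
  have hn : n = 4 * m := D.hn
  have hm : 2 ≤ m := D.hm
  have hkn : 4 < n := by omega
  have hB := h.bla.bl
  have hper : HS.Per G := h.bla.ty.per
  have hH := h.neg
  have hUc := clo_US' hB
  have hcir := cir_US hB hper
  have hal : Conn (US G) (gf G) (al (N := N)) := conn_al (FV.sub_S hB)
  have hUpre : IsPreconnected (US G) := FV.preconn_US hB (by omega)
  obtain ⟨m', g, Fc, hg, hBq, hFc⟩ := exists_CM hB hper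
  obtain ⟨pp, Tr, P', oN, oP', hT, cP', co', uN, oprN, pfP', syP', uP', oprP', hdP, hdo⟩ :=
    UP.exists_N_B h.bla (by norm_num) hkn hper hH hg
  set Z := Sph (US G) PN with hZdef
  set B := Quo (US G) g with hBdef
  set q := CM.Th (jj g) Tr with hqdef
  have pfN : PField (US G) 3 PN := UP.pfield_N hH
  have pfP3 : PField B 3 P' := pfP'
  have hcontP : ContinuousOn P' B := fun y hy => (pfP'.smooth y hy).continuousAt.continuousWithinAt
  -- the circle bundle Z → Y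
  have cb := UP.cb_sph (r := 2) hg hcir hUc (NB.rep_per N K) hT pfN (UP.equi_N hH) pfP3 hdP hal hFc
  have hqm : TP.QM Z (Ph G K) (Sph B P') q :=
    UP.qm_sph ((TP.qm_jj hg hcir hUc).tot hcir (NB.rep_per N K) hT pfN (UP.equi_N hH) hcontP hdP) hT
  have hpB : IsPreconnected B := HY.preconn_Quo hg hUpre
  have hZcir : Cir Z (Ph G K) := CG.cir_Sph h.toD0
  have sj : SMap (US G) B (jj g) := (TP.qm_jj hg hcir hUc).smap
  -- the vertical Euler form
  have hod : SB.OddB (Fin 1) B 2 P' oP' := ⟨pfP3, syP', oprP', by simp⟩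
  set WB := SB.OddB.eV (Fin 1) hod.hr P' oP' with hWB
  set τ₁ := XF.tau (Fin 1) with hτ₁
  have hτ₁0 : 0 < τ₁ := XF.tau_pos _
  have hYc : Clo (2 + 2 * (n - 1)) (Sph B P') := SB.clo_Sph hBq pfP3
  have hZc : Clo (2 + (2 * (n - 1) + 1)) Z := SB.clo_Sph hUc pfN
  have hW : CF2 (Sph B P') 2 WB :=
    ⟨hod.ec_eV.sm, hod.ec_eV.cl, SB.OddB.hom_eV _, by decide⟩
  have hUne : (US G).Nonempty := T.nonempty_UST h.bla D.hp
  have hZpre : IsPreconnected Z := preconn_Sph hUc.compact hUpre pfN (by norm_num)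
  obtain ⟨z₀, hz₀⟩ := id hUne
  have hb₀B : jj g z₀ ∈ B := jj_mem hz₀
  have hL : GQ.LH B P' 2 WB := by
    have := lh_RR hBq.sub hpB ⟨jj g z₀, hb₀B⟩ (ι' := Fin 1) (by simpa using pfP3) syP'
      (by simpa using oprP') hod.orv
    have e : 2 * Fintype.card (Fin 1) = 2 := by simp
    rw [e] at this
    exact this
  have hWX : GQ.LH (US G) PN 2 (F.pull q WB) :=
    HN.lh_eV h.bla rfl hkn hH sj hT hdP hod hUne
  have hnH : ∀ β, Sm Z β → Cl Z β → Hom 2 β → ∃ c : ℝ, Coh Z β (c • F.pull q WB) :=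
    HN.hn_eV D rfl hkn hH sj hT hdP hod
  -- the contraction
  have hAf : KP.Ctr Z S (Ph G K) (KP.ft (N := N) (K := K)) (Af G lg ρ w J₀ ε) := KP.ctr_Z h
  have hfl : KP.Flp Z (Ph G K) (KP.ft (N := N) (K := K)) KC.flp := KP.flp_Z h
  have sfoot : SMap Z S (KP.ft (N := N) (K := K)) := KP.smap_ft
  have sft : SMap (US G) S (Prod.fst : Euc N × Euc N → Euc N) :=
    ⟨fun z _ => contDiffAt_fst, fun z hz => hz.1.1⟩
  obtain ⟨f, sf, hf⟩ := exists_end hqm hAf.smap hAf.one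
  have hom4 : CF2 S 4 x := ⟨D.sx, D.cx, D.dx, by decide⟩
  have hBas : KP.Bas Z (Ph G K) (F.pull q WB) := KP.Bas.pull hZcir hqm.smap hqm.act hW.sm hW.cl
    (KP.ev_of_hom hW.hom hW.even)
  have hflB := hod.flip_eV
  have hflq : Eqv Z (F.pull KC.flp (F.pull q WB)) (-F.pull q WB) := by
    have e1 : Eqv Z (F.pull KC.flp (F.pull q WB)) (F.pull q (F.pull SB.OddB.flip WB)) :=
      eqv_pull_pull' CG.smap_flp hqm.smap hqm.smap SB.OddB.smap_flip (fun z hz => by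
        refine Prod.ext rfl ?_
        change Tr z.1 (-z.2) = -(Tr z.1 z.2)
        rw [map_neg]) WB
    refine e1.trans ((hflB.pull hqm.smap).trans (Eqv.of_eq fun z _ => ?_))
    rw [F.pull, Pi.neg_apply, map_neg]; rfl
  have hconn : Conn Z (Ph G K) (F.pull Prod.fst (al (N := N))) :=
    UP.conn_tot (P := PN) hcir (NB.rep_per N K) (UP.equi_N hH) hal (fun z hz => hz.1) hZcir.maps
  have hThd : KP.Thd Z (Ph G K) (F.pull Prod.fst (al (N := N))) :=
    KP.Thd.of hZcir hconn hqm.smap hqm.act cb.curv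
  -- orientations
  obtain ⟨oS, hoS, soS, doS⟩ := GP.exists_ori hB h.bla.ty (by norm_num)
  set T₀ := J n S oS (x ^ m) with hTdef
  have hT0 : T₀ ≠ 0 := D.J_ne hoS
  set τ := XF.tau ι with hτ
  have hτ0 : 0 < τ := XF.tau_pos ι
  have hι : Fintype.card ι = 2 := by have := D.hι; omega
  have hτv : τ = 32 * Real.pi ^ 2 := by
    rw [hτ, XF.tau, hι]; norm_num [Nat.factorial]; ring
  have hτ₁v : τ₁ = 4 * Real.pi := by
    rw [hτ₁, XF.tau, Fintype.card_fin]; norm_num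
  have hπ := Real.pi_pos
  have hdU' : 2 * n - 1 + 1 = 2 * n := by omega
  have d0 : 2 * (n - 1) + 1 = 2 * n - 1 := by omega
  have hUc' : Clo (2 * n - 1) (US G) := by rw [← d0]; exact hUc
  have hoU : Ori (2 * n - 1) (US G) (dp (2 * n - 1) (oUS n N)) :=
    ori_dpz (LB.ori_US (FV.sub_S hB) hB.cpt (by omega) hdU')
  have hosZ : FG.OSubm 2 (2 * n - 1) Z (US G) Prod.fst (SB.oV oN) (dp (2 * n - 1) (oUS n N)) :=
    SB.osubm_Sph hUc' pfN oprN hoU (fun y => T.hom_dp (2 * n - 1) (oUS n N) y)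
  have horN : Ori 2 (Z ∩ Prod.fst ⁻¹' {z₀}) (SB.oV oN) := hosZ.fib z₀
  -- the family
  obtain ⟨c, η, hc0, hF, hcv, hD, hper2⟩ := KP.four h hm hn hoS D.sx D.cx D.dx D.hm_zero' hBas
    hW.hom.pull hflq hThd hnH hosZ hz₀ hτ0 (hC z₀ hz₀ _ horN) (hTle oS hoS)
  set ω₀ := J 2 (Z ∩ Prod.fst ⁻¹' {z₀}) (SB.oV oN) (F.pull q WB) with hω₀
  -- the fibre value
  have hfibB : J 2 (Sph B P' ∩ Prod.fst ⁻¹' {jj g z₀}) (SB.oV oP') WB = 2 * τ₁ :=
    hod.J_fibre' hb₀B
  have horB : Ori 2 (Sph B P' ∩ Prod.fst ⁻¹' {jj g z₀}) (SB.oV oP') := by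
    rw [SB.OddB.fibre_eq hb₀B]; exact hod.ori_oV hb₀B
  have hfibZ : |ω₀| = 2 * τ₁ := by
    obtain ⟨k1, k2⟩ := HN.J_fib_pull sj hT hdP pfN pfP3 hz₀ horB hW.sm
    rw [hω₀, abs_J_ori (HN.clo_fib pfN hz₀) (preconn_fib_Sph pfN (by norm_num) hz₀) k1 horN, k2,
      hfibB, abs_of_pos (by positivity)]
  have hω0 : ω₀ ≠ 0 := by
    intro h0
    rw [h0, abs_zero] at hfibZ
    linarith
  have hωv : |ω₀| = 8 * Real.pi := by rw [hfibZ, hτ₁v]; ring
  have hca : |c| = 4 := by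
    rw [abs_mul, abs_mul, abs_of_pos hπ, hωv, hτv] at hcv
    have h3 : Real.pi ^ 2 * 8 * (|c| - 4) = 0 := by linear_combination hcv
    have h4 : Real.pi ^ 2 * 8 ≠ 0 := by positivity
    have := (mul_eq_zero.1 h3).resolve_left h4
    linarith
  -- dimensions
  have d1 : 2 + 2 * (n - 1) = 8 * m := by omega
  have d2 : 2 * (n - 1) = 8 * m - 2 := by omega
  have d3 : n - 1 = 4 * m - 1 := by omega
  have d4 : 2 + (2 * (n - 1) + 1) = 8 * m + 1 := by omega
  obtain ⟨hoB, -, hJUS⟩ := J_US hB hper hg hFc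
  have hFcd : Hom (2 * (n - 1)) (fun y => Fc y ^ (n - 1)) := T.Hom.pow hFc.hom (n - 1)
  have hosY : FG.OSubm 2 (2 * (n - 1)) (Sph B P') B Prod.fst (SB.oV oP')
      (fun y => Fc y ^ (n - 1)) := SB.osubm_Sph hBq pfP3 oprP' hoB hFcd
  have hfib := abs_int_Sph hBq hpB pfP3 (by norm_num) oprP' hoB hosY.tot hb₀B horB hW.sm hW.cl
    (ζ := fun y => Fc y ^ (n - 1)) (fun y hy => ((T.Sm.pow hFc.sm (n - 1)) y hy).continuousAt.continuousWithinAt)
    (fun y _ j hj => hFcd y j (by omega))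
  rw [hfibB] at hfib
  -- characteristic classes
  have hFF : FI.Sub (2 * n - 4) (GT.FF S) := FV.sub_FF' h.bla (by omega)
  obtain ⟨μ, hμ2, hMid, hμN, hμB⟩ := PV.exists_mu_four_quo D hH hFF D.ec XM.main
    (fun μ hμ => QV.lt_six_all D hFF D.ec μ hμ) hg hcir hUc (NB.rep_per N K) hT pfP' hdP
  have hEC : EC B (EW.cR 2 P') := EW.ec_cfr hBq.sub (EW.idF_of_pfield hod.pf) 2
  set p4 : MM m' → Ext (MM m') := (VX.nE (Fin 1) ^ 2) • EW.cR 2 P' with hp4
  have hnE : VX.nE (Fin 1) = 2 := by simp [VX.nE]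
  have hp : CF2 B 4 p4 :=
    ⟨(hEC.smul _).sm, (hEC.smul _).cl, T.Hom.smul _ (EW.hom_cR 2), by decide⟩
  have hpU : Coh (US G) (F.pull (jj g) p4) (μ • F.pull Prod.fst x) := by
    have h1 := hμB.smul (VX.nE (Fin 1) ^ 2)
    rw [hp4, pull_smul']
    refine h1.trans (Coh.of_eqv (Eqv.of_eq fun z _ => ?_))
    rw [hnE, smul_smul, show (2 : ℝ) ^ 2 * (μ / 4) = μ by ring]
  have h2 : Coh (Sph B P') (WB * WB) (F.pull Prod.fst p4) := by
    rw [hp4, pull_smul']
    exact hod.sq_eV hBq.sub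
  have he : CF2 B 2 Fc := ⟨hFc.sm, hFc.cl, hFc.hom, by decide⟩
  -- the ends of the family
  have ha := pull_end hqm hAf.smap sf hf x
  have hb : Eqv Z (F.pull (sl 1) (F.pull (fun y => Af G lg ρ w J₀ ε (KP.ff KC.flp y)) x))
      (F.pull q (F.pull (f ∘ flp) x)) :=
    pull_end hqm (hAf.flip hfl).smap (f := f ∘ flp) (sf.comp smap_flp) (fun z hz => by
      have h1 := hf (KC.flp z) (KC.flp_mem hz)
      change f (flp (q z)) = _
      rw [KP.ff, ← h1]
      congr 1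
      refine Prod.ext rfl ?_
      change -(Tr z.1 z.2) = Tr z.1 (-z.2)
      rw [map_neg]) x
  have sW1 : Sm Z (F.pull q WB) := hW.sm.pull hqm.smap
  have hh : Eqv Z (F.pull (sl 1) (F.pull Prod.fst (F.pull q WB))) (F.pull q WB) :=
    Eqv.of_eq fun z hz => RR.pull_sl_fst 1 _ sW1 hz
  -- the numbers
  have hYc' : Clo (8 * m) (Sph B P') := by rw [← d1]; exact hYc
  have hBs' : Sub (8 * m - 2) B := by rw [← d2]; exact hBq.sub
  have hSs : Sub (4 * m) S := by rw [← hn]; exact FV.sub_S hB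
  have hZc' : Clo (8 * m + 1) Z := by rw [← d4]; exact hZc
  have hoY : Ori (8 * m) (Sph B P') (fun z => SB.oV oP' z * F.pull Prod.fst (fun y => Fc y ^ (n - 1)) z) := by
    rw [← d1]; exact hosY.tot
  have hs1 : Subm 1 (8 * m) Z (Sph B P') q := by rw [← d1]; exact cb.subm
  have hpf : ∀ i, F.pull (Prod.fst : MM m' × EuclideanSpace ℝ (Fin pp) → MM m') (fun y => Fc y ^ i) =
      F.pull Prod.fst Fc ^ i := fun i => T.pull_pow' Prod.fst Fc i
  have hfib' : |J (8 * m) (Sph B P') (fun z => SB.oV oP' z * F.pull Prod.fst (fun y => Fc y ^ (n - 1)) z)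
      (WB * F.pull Prod.fst Fc ^ (4 * m - 1))| =
      |ω₀| * |J (8 * m - 2) B (fun y => Fc y ^ (n - 1)) (Fc ^ (4 * m - 1))| := by
    rw [← d2, ← d1, ← d3, hfibZ, ← abs_of_pos (by positivity : (0 : ℝ) < 2 * τ₁),
      ← hpf (n - 1)]
    exact hfib
  have hvol : J (2 * n - 1) (US G) (oUS n N) (oUS n N) ≤
      2 * Real.pi * |J (8 * m - 2) B (fun y => Fc y ^ (n - 1)) (Fc ^ (4 * m - 1))| := by
    rw [← d0, hJUS, ← d2, ← d3]
    exact mul_le_mul_of_nonneg_left (le_abs_self _) (by positivity)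
  refine in4_final (e := Fc) (p := p4) (W := WB) (om := x) (f := f) (q := q)
    (φ := Ph G K) (θ := F.pull Prod.fst (al (N := N))) (c := c) (ω₀ := ω₀) (β := μ) (T := T₀)
    hn (by omega) hYc' hoY hBs' hSs he hp hW hL hflB h2 hom4 sf hZc' hZcir hqm hs1 cb.sm cb.hom
    cb.one cb.curv hF ha hb hh hω0 hc0 hT0 hD hper2 hfib' hvol ?_ ?_ ?_
  · intro y hy hco
    exact low_y D hper hg hFc hy (coh_base hWX hqm.smap (fun _ _ => rfl) sj hAf.smap sft hAf.zero
      hy hom4 hco) hp hpU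
  · intro y α hy h3 h4 hα
    have h3' : Coh Z (F.pull q (F.pull Prod.fst y)) (F.pull (sl 1) (F.pull (Af G lg ρ w J₀ ε) x)) :=
      coh_pull_y hW hqm cb.sm cb.curv ha h3
    have k1 := coh_base hWX hqm.smap (fun _ _ => rfl) sj hAf.smap sft hAf.zero hy hom4 h3'
    have k2 : Coh B (EW.cR 2 P') ((α / 4) • (Fc * Fc) + (μ / 4) • y) := by
      have h5 := h4.smul (1 / 4 : ℝ)
      rw [hp4, hnE, smul_add, smul_smul, smul_smul, smul_smul] at h5
      have e1 : (1 / 4 : ℝ) * 2 ^ 2 = 1 := by norm_num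
      rw [e1, one_smul, show (1 / 4 : ℝ) * α = α / 4 by ring,
        show (1 / 4 : ℝ) * μ = μ / 4 by ring] at h5
      exact h5
    have k3 := hK m' pp g Fc P' oP' hod f y c μ α hg hFc uP' sf hy k1 h3 k2 hca hμ2 hα
    have k4 : (2 / ω₀) ^ 2 * α * (2 * Real.pi) ^ 2 = α / 4 := by
      have h6 : ω₀ ^ 2 = 64 * Real.pi ^ 2 := by rw [← sq_abs, hωv]; ring
      rw [div_pow, h6]
      field_simp
      ring
    rw [k4, abs_div, abs_of_pos (by norm_num : (0 : ℝ) < 4)]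
    linarith
  · rw [abs_div, abs_mul, abs_mul, abs_mul, hμ2, hca, hωv, abs_of_pos hπ, abs_two]
    rw [div_le_iff₀ (by positivity)]
    linarith

end Crest.Agent.R208.ZG
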