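import Crest.Agent.R208.ZA5
import Crest.Agent.R208.ZA4
import Crest.Agent.R208.CG12
import Crest.Agent.R208.UN5
import Crest.Agent.R208.UN3
import Crest.Agent.R208.VEd589d
import Crest.Agent.R208.ZG9
import Crest.Agent.R208.GQ4a

/-! Row 208, block SC (helper349): the class side `Cls82` over the package `Gm82`. -/

set_option autoImplicit false
set_option linter.unusedSectionVars false
set_option linter.unusedVariables false

open MeasureTheory Set Filter Topology Module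
open scoped ContDiff RealInnerProductSpace Real
open Crest.GeometryTopology.Submanifold
open Crest.Agent.R241.DDefs Crest.Agent.R241.D Crest.Agent.R241.D2
open Crest.Agent.R208.F Crest.Agent.R208.FI Crest.Agent.R208.CW Crest.Agent.R208.T
open Crest.Agent.R208.CM (Cir gen Rep Triv Qd phR Th gf Emb Quo MM jj Curv)
open Crest.Agent.R208.LB (al)
open Crest.Agent.R208.VC hiding Wt
open Crest.Agent.R208.EX
open Crest.Agent.R208.FT (D2 XI RN xiN gp lev)
open Crest.Agent.R208.FL (D0 D1 Ph)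
open Crest.Agent.R208.NN (Wt Rt nuP)
open Crest.Agent.R208.TP (QM TT CV pu₁ pu₂ push up)
open Crest.Agent.R208.MS (Fam oc En)
open Crest.Agent.R208.EW (cR)
open Crest.Agent.R208.EP (topr)
open Crest.Agent.R208.SN (kGG)

noncomputable section

namespace Crest.Agent.R208.SC

section cls
variable {N K m m' c s' c₂ l₀ : ℕ} {κ : ℝ} {S : Set (Euc N)} {G : Geo 16 N κ S}
  {lg : Euc N → Euc N → Euc N} {ρ : Euc N → Euc N} {r C r' Kr B w δ δ₂ : ℝ}
  {PN : Euc N × Euc N → Wt N K →L[ℝ] Wt N K}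
  {h : GT.Bla G (2 * 3 + 2)} {g : Euc N × Euc N → Fin m → ℂ} {Fc : MM m → Ext (MM m)}
  {g' : (Euc N × Euc N) × HW.U l₀ → Fin m' → ℂ} {p : MM m' → MM m}
  {T : Euc N × Euc N → Wt N K →L[ℝ] EuclideanSpace ℝ (Fin (2 * c + 1))}
  {P' : MM m → EuclideanSpace ℝ (Fin (2 * c + 1)) →L[ℝ] EuclideanSpace ℝ (Fin (2 * c + 1))}
  {o' : MM m → Ext (EuclideanSpace ℝ (Fin (2 * c + 1)))}
  {W' : MM m → (Fin (s' + 1) × Fin 2 → Fin (2 * c + 1)) → ℝ}
  {oN : Euc N × Euc N → Ext (Wt N K)}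
  {T₂ : (Euc N × Euc N) × HW.U l₀ →
    EuclideanSpace ℝ (((Fin K × Fin 2) × Fin N) ⊕ ((Fin K × Fin 2) × Fin N)) →L[ℝ]
      EuclideanSpace ℝ (Fin (2 * c₂))}
  {P₂' : MM m' → EuclideanSpace ℝ (Fin (2 * c₂)) →L[ℝ] EuclideanSpace ℝ (Fin (2 * c₂))}
  {W₂' : MM m' → (Fin (2 * 3 + 1) × Fin 2 → Fin (2 * c₂)) → ℝ}
  {W₀ : Euc N × Euc N → (Fin 4 × Fin 2 → Fin N) → ℝ}
  {p₀ : Euc N} {x : Euc N → Ext (Euc N)} {ε E₀ η : ℝ} {J : ℕ}

/-- the setting of VE over the package -/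
theorem st (Q : Gm82 h K l₀ lg ρ r C r' Kr B w δ δ₂ PN g Fc g' p T P' o' W' oN T₂ P₂' W₂')
    (M : Crest.Agent.R208.T.XM (k := 8) h 2 W₀ p₀ x)
    (h1 : D1 G (2 * 3 + 2) K lg ρ r C r' Kr B w δ PN ε J E₀ η) :
    VE.St (L.US G) (Quo (L.US G) g) (gf G) (jj g) (fun t => Rt (nuP K) t) T PN P' (2 * 3 + 1)
      (2 * (16 - 1) + 1) (2 * (16 - 1)) S x (al (N := N)) Fc (FL.f1 G lg ρ w J ε) (3 / 2) where
  act := Act.of_cir Q.cir
  hq := TP.qm_jj Q.emb Q.cir Q.clo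
  hQ := (TP.qm_jj Q.emb Q.cir Q.clo).tot Q.cir FL.rep_Rt Q.dsc.triv (pfield_PN Q.d0)
    (fun x hx t w => Q.d0.neg.equi x hx t w) Q.dsc.smP.continuous.continuousOn Q.dsc.eqP
  hC := Q.d0.cir
  hT := Q.dsc.triv
  hX := Q.clo.sub
  hP := pfield_PN Q.d0
  hY := (Q.emb.clo_Quo Q.cir Q.clo).sub
  hP' := Q.dsc.pf
  cn := Q.cn
  hf := ⟨h1.fam.smooth, h1.fam.maps⟩
  dat := ⟨M.sx, M.cx, fun z _ => SO.inv_of_hom_even M.dx ⟨4, rfl⟩ z,
      SO.eqv_zero_of_gt (FV.sub_S h.bl) ((M.dx.mul M.dx).mul M.dx) (by norm_num)⟩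
  const := fun y hy h2 t => h1.f1_const hy (by nlinarith [norm_nonneg y.2]) t
  ρ0 := by norm_num
  se := Q.curv.sm
  ce := Q.curv.cl
  ee := VE.Hom.ev Q.curv.hom (by decide)
  he := Q.curv.pull

/-- the closed even forms `p₃` -/
theorem ec_p3 {d : ℕ} {Y : Set (MM m)} (hY : Sub d Y) (hP : PField Y (2 * 3 + 1) P') (t : ℝ) :
    EC Y (t • cR 6 P') := (EW.ec_cfr hY (EW.idF_of_pfield hP) 6).smul t

set_option maxHeartbeats 1600000 in
/-- **the class side** -/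
theorem exists_Cls82
    (Q : Gm82 h K l₀ lg ρ r C r' Kr B w δ δ₂ PN g Fc g' p T P' o' W' oN T₂ P₂' W₂')
    (M : Crest.Agent.R208.T.XM (k := 8) h 2 W₀ p₀ x)
    (h1 : D1 G (2 * 3 + 2) K lg ρ r C r' Kr B w δ PN ε J E₀ η) :
    ∃ (x0 : MM m → Ext (MM m)) (fY : MM m × EuclideanSpace ℝ (Fin (2 * c + 1)) → Euc N)
      (l n₁ : ℝ), ZA.Cls82 G K lg ρ w J ε PN g Fc T P' o' W' x (XF.tau (Fin 4)) x0 fY l n₁ := by
  have hst := st Q M h1
  have hY := hst.hY
  have hYc : IsPreconnected (Quo (L.US G) g) :=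
    GQ.preconn_Quo Q.emb (FV.preconn_US h.bl (by norm_num))
  obtain ⟨z₀, hz₀⟩ : (L.US G).Nonempty := Crest.Agent.R208.T.nonempty_UST h M.hp
  -- the descended forms
  obtain ⟨ξ, a, Qf', D, dξ, da, dQ⟩ := hst.exists_Dn_hom (j := 6) M.dx (by decide)
  -- the vertical Euler form and its constant
  have ob : SB.OddB (Fin 3) (Quo (L.US G) g) (2 * 3) P' o' := VD.oddB Q.dsc
  obtain ⟨w₀, hw1, hw0, hw⟩ := VD.dsc_th1 (by norm_num) Q.dsc hY hYc
  have hCo := Q.dsc.co hY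
  have hec : EC (Sph (Quo (L.US G) g) P') (SB.OddB.eV (Fin 3) (VD.hr_fin 3) P' o') := ob.ec_eV
  have hwh : Hom 6 (SB.OddB.eV (Fin 3) (VD.hr_fin 3) P' o') := SB.OddB.hom_eV _
  have hp3 := ec_p3 hY hst.hP' 2304
  have hp3h : Hom 12 ((2304 : ℝ) • cR 6 P') :=
    Hom.smul _ (fun y => EW.hom_cfr 6 y)
  have W2 : Coh (Sph (Quo (L.US G) g) P')
      (SB.OddB.eV (Fin 3) (VD.hr_fin 3) P' o' * SB.OddB.eV (Fin 3) (VD.hr_fin 3) P' o')
      (VE.pf ((2304 : ℝ) • cR 6 P')) := by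
    have h2 := ob.sq_eV hY
    have hnE : VX.nE (Fin 3) ^ 2 = 2304 := by norm_num [VX.nE, Nat.factorial]
    rwa [hnE, ← pull_smul'] at h2
  -- the number `n₁`
  have hτ : Hom (2 * (s' + 1)) (thomF (fun y => 1 - P' y) W') := fun z => by
    have h2 := thomF_deg (P := fun y => 1 - P' y) (W := W') z
    rwa [Fintype.card_fin] at h2
  obtain ⟨n₁, hn₁⟩ := UN.exists_n1 (volume : Measure (EuclideanSpace ℝ (Fin (2 * c + 1)))) hY hYc
    (R := 3) (by norm_num) hst.hP' hCo hτ (by rw [finrank_euclideanSpace_fin, Q.dsc.dim]) D.smx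
    (D.cl_x hst) ((D.cs_x hst).mono (by norm_num)) dξ
  have hcw : n₁ / w₀ * w₀ = n₁ := div_mul_cancel₀ _ hw0
  -- the input of the evaluation theorem
  obtain ⟨R₂, hR₂, Ψ, I0⟩ := VE.exists_Inp (volume : Measure (EuclideanSpace ℝ (Fin (2 * c + 1))))
    (c := n₁ / w₀) hst D hCo (R₀ := 3) (by norm_num) (by norm_num) hp3.sm hp3.cl
    (VE.Hom.ev hp3h (by decide)) hec.sm hec.cl (VE.Hom.ev hwh (by decide)) W2 hw0
    (hw 3 (by norm_num)).1 (by rw [hcw]; exact hn₁)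
  have I := I0.hom dξ hwh (by decide)
  have hc4 : |n₁ / w₀| = 4 := by
    have h2 := CG.c_val h1 (M := M) (r := 6) rfl (by norm_num) hst D Q.dsc.eqP hz₀ ob rfl I.sΨ I.dΨ
      I.sW I.out (by norm_num)
    rw [h2, Fintype.card_fin]
    norm_num
  have hτ4 : 2 * Real.pi * (|n₁ / w₀| * (2 * XF.tau (Fin 3))) = XF.tau (Fin 4) := by
    rw [hc4, UN.tau_succ (ι := Fin 4) (ι' := Fin 3) (by simp), Fintype.card_fin]
    push_cast
    ring
  have hne : n₁ / w₀ ≠ 0 := fun h0 => by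
    rw [h0, abs_zero] at hc4
    norm_num at hc4
  -- the end map
  have hQs := UP.qm_sph hst.hQ hst.hT
  have s2 : SMap (Sph (L.US G) PN) (Tot (L.US G) PN) (VE.sc (2 : ℝ)) := VE.smap_sc' 2
  obtain ⟨fY, sfY, efY⟩ := ZG.exists_fun hQs (f := fun z => FL.f1 G lg ρ w J ε (VE.sc 2 z))
    (hst.hf.comp s2).smooth (fun z hz t => by
      have hz2 := s2.maps hz
      have h3 : VE.sc 2 (phR (gf G) (fun t => Rt (nuP K) t) t z) =
          phR (gf G) (fun t => Rt (nuP K) t) t (VE.sc 2 z) := by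
        change (_, (2 : ℝ) • Rt (nuP K) t z.2) = (_, Rt (nuP K) t ((2 : ℝ) • z.2))
        rw [map_smul]
        rfl
      change FL.f1 G lg ρ w J ε (VE.sc 2 (phR (gf G) (fun t => Rt (nuP K) t) t z)) = _
      rw [h3]
      refine hst.const _ hz2 ?_ t
      change 3 / 2 < ‖(2 : ℝ) • z.2‖
      have h4 : ‖z.2‖ = 1 := hz.2
      rw [norm_smul, h4]
      norm_num)
  have smfY : SMap (Sph (Quo (L.US G) g) P') S fY := ⟨fun y _ => sfY.contDiffAt, fun y hy => by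
    obtain ⟨z, hz, rfl⟩ := hQs.surj y hy
    rw [efY z hz]
    exact (hst.hf.comp s2).maps hz⟩
  -- the classes
  have k1 : Coh (Sph (Quo (L.US G) g) P') (F.pull fY x) (F.pull Prod.fst I.x0 +
      (-(n₁ / w₀)) • (F.pull Prod.fst Fc * SB.OddB.eV (Fin 3) (VD.hr_fin 3) P' o')) := by
    have e1 := D.sph_fY hst (t := 2) (by norm_num) smfY efY
    have e2 := VE.coh_radii (X := Quo (L.US G) g) (P := P') (s := 2) (t := R₂ + 1) (a := a)
      hst.ρ0 (by norm_num) (by linarith) I.sa (hst.cl_out D)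
    have e3 := I.sph_a (t := R₂ + 1) (by linarith)
    have e4 := (Coh.of_eqv e1.symm).trans (e2.trans e3)
    rwa [sub_eq_add_neg, ← neg_smul] at e4
  have k2 : Coh (L.US G) (F.pull Prod.fst x) (F.pull (jj g) I.x0) := by
    have e1 := UN.coh_zs hst D I
    have hz0 : SMap (L.US G) (Tot (L.US G) PN) (zs (E := Euc N × Euc N) (H := Wt N K)) :=
      smap_zs
    have e2 : Eqv (L.US G) (F.pull (fun z => FL.f1 G lg ρ w J ε (z, (0 : Wt N K))) x)
        (F.pull Prod.fst x) :=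
      eqv_pull_of_eq x (fun z hz => (hst.hf.comp hz0).diff hz) (fun z hz => differentiableAt_fst)
        fun z hz => h1.f1_zero hz
    exact (e1.trans (Coh.of_eqv e2)).symm
  refine ⟨I.x0, fY, -(n₁ / w₀), n₁, ?_⟩
  exact
    { sx := I.sx0
      cx := I.cx0
      dx := I.hom_x0 da (hom_dp _ _) Q.curv.hom
      hx := k2
      hl := by rw [neg_sq, ← sq_abs, hc4]; norm_num
      hrel := by
        rw [neg_sq]
        exact UN.rel_div I hne hw0
      sfY := smfY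
      efY := efY
      hfY := k1
      hn := by
        have h2 := UN.abs_n1 hτ4 hw1
        rw [hcw] at h2
        rw [h2]
        field_simp
      v1 := fun rr ss V' v1 v2 v3 v4 => by
        have h2 := UN.eval_vl hst D I (v := V') (fun z _ => v1.contDiffAt) (R' := 3 / 2)
          (by norm_num) (by linarith) v3 (p := 11) (p' := 7) (l := 1) (s := rr) (t := ss)
          (by rw [VE.vl_one]; exact v4)
        rw [hcw] at h2
        have h3 : (-(1 * (2 * (n₁ / w₀) ^ 3 * w₀)) : ℝ) = -(1 * (2 * (-(n₁ / w₀)) ^ 2 * n₁)) := by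
          rw [neg_sq]
          nth_rewrite 3 [← hcw]
          ring
        rw [ZA.ve, ← h3]
        exact h2
      v2 := fun E hE1 hE2 hE3 V' v1 v2 v3 v4 => by
        have h2 := UN.eval_vl hst D I (v := V') v1 (R' := 2)
          (by norm_num) (by linarith) v3 (p := 11) (p' := 7) (l := 4) (s := E.r * 2 * (1 / 2) ^ 11)
          (t := E.s * 2 * (1 / 2) ^ 7) (by
            refine v4.trans ?_
            rw [hE1, hE2, hE3]
            exact VE.vl_two hst.A hst.dt)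
        rw [hcw] at h2
        have h3 : (-(4 * (2 * (n₁ / w₀) ^ 3 * w₀)) : ℝ) = -(4 * (2 * (-(n₁ / w₀)) ^ 2 * n₁)) := by
          rw [neg_sq]
          nth_rewrite 3 [← hcw]
          ring
        have h4 : E.r * 2 * (1 / 2) ^ 11 * n₁ = E.r / 1024 * n₁ := by ring
        have h5 : E.s * 2 * (1 / 2) ^ 7 * n₁ = E.s / 64 * n₁ := by ring
        rw [h3, h4, h5, sub_eq_add_neg, sub_eq_add_neg, ← neg_smul, ← neg_smul] at h2
        exact h2 }

end cls

end Crest.Agent.R208.SC
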