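import Crest.Agent.R208.SR2
import Crest.Agent.R208.CM6b
import Crest.Agent.R208.JW3
import Crest.Agent.R208.KD1
import Crest.Agent.R208.HN2
import Crest.Agent.R208.KP3
import Crest.Agent.R208.UP2
import Crest.Agent.R208.SB5
import Crest.Agent.R208.TX10
import Crest.Agent.R208.ZH2

/-! Row 208, case (k, n) = (8, 16), block (R) (helper638).  SR3: **(R)** over the manifold of
geodesics: `∫_B e³ x³ = 0` and `|8 l² 2π ∫_B e x² p₃| = τ⁴`. -/

set_option autoImplicit false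
set_option linter.unusedSectionVars false
set_option linter.unusedVariables false

open MeasureTheory Set Filter Topology Module
open scoped ContDiff RealInnerProductSpace
open Crest.GeometryTopology.Submanifold
open Crest.Agent.R241.DDefs
open Crest.Agent.R241.D2
open Crest.Agent.R208.F Crest.Agent.R208.FI Crest.Agent.R208.CW Crest.Agent.R208.T
open Crest.Agent.R208.CM
open Crest.Agent.R208.SO (CF2)
open Crest.Agent.R208.L (US)
open Crest.Agent.R208.LB (oUS al)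
open Crest.Agent.R208.NN (Wt Rt nuP)
open Crest.Agent.R208.FL (Af Ph)
open Crest.Agent.R208.EW (cR)

noncomputable section

namespace Crest.Agent.R208.SR

theorem hom_al {N : ℕ} : T.Hom 1 (al (N := N)) := fun z => isDeg_io _

theorem hom_oUS {N : ℕ} : T.Hom 31 (oUS 16 N) := by
  rw [← CM.oUS_eq (n := 16) (N := N)]
  exact (hom_al (N := N)).mul (T.Hom.pow (hom_al (N := N)).d 15)

section inst

variable {N K m pp : ℕ} {κ : ℝ} {S : Set (Euc N)} {G : Geo 16 N κ S}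
  {ι : Type} [Fintype ι] [DecidableEq ι]
  {W₀ : Euc N × Euc N → (ι × Fin 2 → Fin N) → ℝ} {p₀ : Euc N} {x : Euc N → Ext (Euc N)}
  {lg : Euc N → Euc N → Euc N} {ρ : Euc N → Euc N} {r C r' Kr Bb w δ ε E₀ η₀ : ℝ} {J₀ : ℕ}
  {PN : Euc N × Euc N → Wt N K →L[ℝ] Wt N K}
  {g : Euc N × Euc N → Fin m → ℂ} {Fc x0 : MM m → Ext (MM m)}
  {Tr : Euc N × Euc N → Wt N K →L[ℝ] EuclideanSpace ℝ (Fin pp)}
  {P' : MM m → EuclideanSpace ℝ (Fin pp) →L[ℝ] EuclideanSpace ℝ (Fin pp)}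
  {oP' : MM m → Ext (EuclideanSpace ℝ (Fin pp))}
  {fY : MM m × EuclideanSpace ℝ (Fin pp) → Euc N}

set_option maxHeartbeats 2000000 in
/-- **(R)** -/
theorem rel82 (h : FL.D1 G 8 K lg ρ r C r' Kr Bb w δ PN ε J₀ E₀ η₀)
    (D : T.XM h.bla 2 W₀ p₀ x) (hg : Emb (US G) (gf G) g)
    (hc : Curv (US G) g (al (N := N)) Fc)
    (hT : Triv (US G) (gf G) (fun t => Rt (nuP K) t) Tr)
    (hdP : ∀ z ∈ US G, P' (jj g z) = Qd Tr PN z)
    (hod : SB.OddB (Fin 3) (Quo (US G) g) 6 P' oP')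
    (hx0 : CF2 (Quo (US G) g) 8 x0) {l t3 : ℝ} (ht3 : t3 = 2304)
    (hrel : Coh (Quo (US G) g) ((3 : ℝ) • (x0 * x0) + (l ^ 2) • ((t3 • cR 6 P') * (Fc * Fc))) 0)
    (sfY : SMap (Sph (Quo (US G) g) P') S fY)
    (hfY : ∀ z ∈ Sph (US G) PN, fY (Th (jj g) Tr z) = Af G lg ρ w J₀ ε (z, 1))
    (h3 : Coh (Sph (Quo (US G) g) P') (F.pull fY x)
      (F.pull Prod.fst x0 + l • (F.pull Prod.fst Fc * SB.OddB.eV (Fin 3) hod.hr P' oP'))) :
    J 30 (Quo (US G) g) (Fc ^ 15) (Fc ^ 3 * x0 ^ 3) = 0 ∧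
    |8 * l ^ 2 * (2 * Real.pi * J 30 (Quo (US G) g) (Fc ^ 15)
      (Fc * x0 * x0 * (t3 • cR 6 P')))| = XF.tau ι ^ 4 := by
  have hB := h.bla.bl
  have hper : HS.Per G := h.bla.ty.per
  have hH := h.neg
  have hUc : Clo 31 (US G) := clo_US' hB
  have hcir := cir_US hB hper
  have hUpre : IsPreconnected (US G) := FV.preconn_US hB (by norm_num)
  obtain ⟨oN, oprN⟩ := SB.exists_opr_N h.bla (by norm_num) (by norm_num) hH
  have pfN : PField (US G) 7 PN := UP.pfield_N hH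
  have pfP : PField (Quo (US G) g) 7 P' := hod.pf
  have hBq : Clo 30 (Quo (US G) g) := hg.clo_Quo hcir hUc
  have sj : SMap (US G) (Quo (US G) g) (jj g) := (TP.qm_jj hg hcir hUc).smap
  have sq : SMap (Sph (US G) PN) (Sph (Quo (US G) g) P') (Th (jj g) Tr) := HN.smap_Th sj hT hdP
  have hUne : (US G).Nonempty := T.nonempty_UST h.bla D.hp
  obtain ⟨z₀, hz₀⟩ := id hUne
  -- orientations
  have hoU : Ori 31 (US G) (oUS 16 N) := LB.ori_US (FV.sub_S hB) hB.cpt (by norm_num) (by norm_num)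
  have hosZ : FG.OSubm 6 31 (Sph (US G) PN) (US G) Prod.fst (SB.oV oN) (oUS 16 N) :=
    SB.osubm_Sph hUc pfN oprN hoU hom_oUS
  have horN : Ori 6 (Sph (US G) PN ∩ Prod.fst ⁻¹' {z₀}) (SB.oV oN) := hosZ.fib z₀
  -- the classes
  have hal : Conn (US G) (gf G) (al (N := N)) := conn_al (FV.sub_S hB)
  have he : CF2 (Quo (US G) g) 2 Fc := ⟨hc.sm, hc.cl, hc.hom, by decide⟩
  have hEC : EC (Quo (US G) g) (cR 6 P') := EW.ec_cfr hBq.sub (EW.idF_of_pfield hod.pf) 6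
  have hp : CF2 (Quo (US G) g) 12 (t3 • cR 6 P') :=
    ⟨(hEC.smul _).sm, (hEC.smul _).cl, T.Hom.smul _ (fun y => EW.hom_cfr 6 y), by decide⟩
  have hw : CF2 (Sph (Quo (US G) g) P') 6 (SB.OddB.eV (Fin 3) hod.hr P' oP') :=
    ⟨hod.ec_eV.sm, hod.ec_eV.cl, SB.OddB.hom_eV _, by decide⟩
  have hom : CF2 S 8 x := ⟨D.sx, D.cx, D.dx, by decide⟩
  have hα : Eqv (US G) (F.d (al (N := N))) (F.pull (jj g) Fc) := hc.pull.symm
  have hnE : VX.nE (Fin 3) ^ 2 = t3 := by rw [ht3]; norm_num [VX.nE, Nat.factorial]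
  have h2 : Coh (Sph (Quo (US G) g) P')
      (SB.OddB.eV (Fin 3) hod.hr P' oP' * SB.OddB.eV (Fin 3) hod.hr P' oP')
      (F.pull Prod.fst (t3 • cR 6 P')) := by
    have := hod.sq_eV hBq.sub
    rwa [hnE, ← pull_smul'] at this
  have h1 : Coh (Quo (US G) g) ((3 : ℝ) • (x0 * x0) +
      (l ^ 2) • (Fc * Fc * (t3 • cR 6 P'))) 0 := by
    rwa [(he.mul he).comm]
  -- the fibre value
  have hfibB : J 6 (Sph (Quo (US G) g) P' ∩ Prod.fst ⁻¹' {jj g z₀}) (SB.oV oP')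
      (SB.OddB.eV (Fin 3) hod.hr P' oP') = 2 * XF.tau (Fin 3) := hod.J_fibre' (jj_mem hz₀)
  have horB : Ori 6 (Sph (Quo (US G) g) P' ∩ Prod.fst ⁻¹' {jj g z₀}) (SB.oV oP') := by
    rw [SB.OddB.fibre_eq (jj_mem hz₀)]; exact hod.ori_oV (jj_mem hz₀)
  have hne : J 6 (Sph (US G) PN ∩ Prod.fst ⁻¹' {z₀}) (SB.oV oN)
      (F.pull (Th (jj g) Tr) (SB.OddB.eV (Fin 3) hod.hr P' oP')) ≠ 0 := by
    obtain ⟨k1, k2⟩ := HN.J_fib_pull sj hT hdP pfN pfP hz₀ horB hw.sm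
    have hτ : 0 < XF.tau (Fin 3) := XF.tau_pos _
    rcases J_ori_connected (HN.clo_fib pfN hz₀) k1 horN
      (ZG.preconn_fib_Sph pfN (by norm_num) hz₀) with e | e
    · rw [e, k2, hfibB]; positivity
    · rw [e, k2, hfibB]
      exact neg_ne_zero.2 (by positivity)
  -- the primitive of `p^* x²`
  have hxx : CF2 S 16 (x * x) := hom.mul hom
  have sft : SMap (US G) S (Prod.fst : Euc N × Euc N → Euc N) :=
    ⟨fun z _ => contDiffAt_fst, fun z hz => hz.1.1⟩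
  obtain ⟨oS, hoS, soS, doS⟩ := GP.exists_ori hB h.bla.ty (by norm_num)
  obtain ⟨ζ, sζ, dζ, eζ, jζ⟩ := KD.exists_prim (m := 2) (d := 31) h.bla (by norm_num)
    (by norm_num) (by norm_num) (by norm_num) hoU hoS D.sx D.cx D.dx D.hm_zero'
  have e0 : F.pull (Prod.fst : Euc N × Euc N → Euc N) x ^ 2 = F.pull Prod.fst (x * x) := by
    rw [pow_two, pull_mul']
  have j2 : (J 16 S oS (x ^ 2)) ^ 2 = XF.tau ι ^ 4 := by
    rw [← sq_abs, JW.J_S_two D hoS]; ring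
  rw [e0] at eζ jζ
  rw [j2] at jζ
  set kp : Euc N × Euc N → Ext (Euc N × Euc N) := (1 / 3 : ℝ) • ζ with hkp
  have skp : Sm (US G) kp := sζ.smul _
  have dkp : T.Hom 15 kp := T.Hom.smul _ dζ
  have ekp : Eqv (US G) (F.d kp) (F.pull Prod.fst (x * x)) := by
    refine (d_smul_eqv _ sζ).trans ((eζ.smul (1 / 3 : ℝ)).trans (Eqv.of_eq fun z _ => ?_))
    rw [smul_smul]
    norm_num
  have sal : Sm (US G) (al (N := N)) := fun z _ => LB.contDiff_al.contDiffAt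
  have hJ : ∀ η : MM m → Ext (MM m), ContinuousOn η (Quo (US G) g) →
      J 31 (US G) (oUS 16 N) (al * F.pull (jj g) η) =
        2 * Real.pi * J 30 (Quo (US G) g) (Fc ^ 15) η := (J_US hB hper hg hc).2.1
  have key := SO.main (Z := Sph (US G) PN) (Y := Sph (Quo (US G) g) P') (B := Quo (US G) g)
    (S := S) hosZ.subm hUpre hoU hom_oUS hosZ.cV hosZ.tot (hod.sub_sph hBq.sub) hBq.sub
    (FV.sub_S hB) sq T.smap_fstS sj (fun _ _ => rfl) sal hom_al he hx0 hp hα hw h1 h2 hom sfY h3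
    sft (fun z hz t => h.contDiffAt_Af hz.1 t) (fun z hz t => h.Af_mem hz.1 t)
    (fun z hz => h.Af_zero hz.1 le_rfl) (fun z hz => (hfY z hz).symm) skp dkp ekp hz₀ hne
  have k3 := x3_zero (Z := Sph (US G) PN) (Y := Sph (Quo (US G) g) P') (B := Quo (US G) g)
    (S := S) hosZ.subm hUpre hoU hom_oUS hosZ.cV hosZ.tot (hod.sub_sph hBq.sub) hBq.sub
    (FV.sub_S hB) sq T.smap_fstS sj (fun _ _ => rfl) sal hom_al he hx0 hp hα hw h1 h2 hom sfY h3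
    hz₀ hne
  have cη : ContinuousOn (Fc * x0 * x0 * (t3 • cR 6 P')) (Quo (US G) g) :=
    fun y hy => ((((he.mul hx0).mul hx0).mul hp).sm y hy).continuousAt.continuousWithinAt
  have c3 : ContinuousOn (Fc * Fc * Fc * x0 * x0 * x0) (Quo (US G) g) :=
    fun y hy => ((((((he.mul he).mul he).mul hx0).mul hx0).mul hx0).sm y
      hy).continuousAt.continuousWithinAt
  rw [hJ _ cη] at key
  rw [hJ _ c3] at k3
  have jk : |J 31 (US G) (oUS 16 N) (F.pull Prod.fst (x * x) * kp)| = 1 / 3 * XF.tau ι ^ 4 := by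
    have e1 : F.pull (Prod.fst : Euc N × Euc N → Euc N) (x * x) * kp =
        (1 / 3 : ℝ) • (ζ * F.pull Prod.fst (x * x)) := by
      rw [hkp, mul_smul_comm, (hxx.pull sft).comm]
    have e2 : J 31 (US G) (oUS 16 N) ((1 / 3 : ℝ) • (ζ * F.pull Prod.fst (x * x))) =
        1 / 3 * J 31 (US G) (oUS 16 N) (ζ * F.pull Prod.fst (x * x)) := J_smul _
    rw [e1, e2, abs_mul, jζ, abs_of_pos (by norm_num : (0 : ℝ) < 1 / 3)]
  refine ⟨?_, ?_⟩
  · have h2π : 2 * Real.pi ≠ 0 := by positivity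
    have k4 := (mul_eq_zero.1 k3).resolve_left h2π
    have e3 : Fc ^ 3 * x0 ^ 3 = Fc * Fc * Fc * x0 * x0 * x0 := by
      simp only [pow_succ, pow_zero, one_mul, mul_assoc]
    rw [e3]
    exact k4
  · rw [key] at jk
    have e4 : 8 * l ^ 2 * (2 * Real.pi * J 30 (Quo (US G) g) (Fc ^ 15)
        (Fc * x0 * x0 * (t3 • cR 6 P'))) = 3 * (8 / 3 * l ^ 2 * (2 * Real.pi *
        J 30 (Quo (US G) g) (Fc ^ 15) (Fc * x0 * x0 * (t3 • cR 6 P')))) := by ring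
    rw [e4, abs_mul, jk, abs_of_pos (by norm_num : (0 : ℝ) < 3)]
    ring

/-- **(R)**, with the end value of 812's (ii) -/
theorem rel82' (h : FL.D1 G 8 K lg ρ r C r' Kr Bb w δ PN ε J₀ E₀ η₀)
    (D : T.XM h.bla 2 W₀ p₀ x) (hg : Emb (US G) (gf G) g)
    (hc : Curv (US G) g (al (N := N)) Fc)
    (hT : Triv (US G) (gf G) (fun t => Rt (nuP K) t) Tr)
    (hdP : ∀ z ∈ US G, P' (jj g z) = Qd Tr PN z)
    (hod : SB.OddB (Fin 3) (Quo (US G) g) 6 P' oP')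
    (hx0 : CF2 (Quo (US G) g) 8 x0) {l t3 : ℝ} (ht3 : t3 = 2304)
    (hrel : Coh (Quo (US G) g) ((3 : ℝ) • (x0 * x0) + (l ^ 2) • ((t3 • cR 6 P') * (Fc * Fc))) 0)
    (sfY : SMap (Sph (Quo (US G) g) P') S fY)
    (hfY : ∀ z ∈ Sph (US G) PN, fY (Th (jj g) Tr z) = FL.f1 G lg ρ w J₀ ε (z.1, (2 : ℝ) • z.2))
    (h3 : Coh (Sph (Quo (US G) g) P') (F.pull fY x)
      (F.pull Prod.fst x0 + l • (F.pull Prod.fst Fc * SB.OddB.eV (Fin 3) hod.hr P' oP'))) :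
    J 30 (Quo (US G) g) (Fc ^ 15) (Fc ^ 3 * x0 ^ 3) = 0 ∧
    |8 * l ^ 2 * (2 * Real.pi * J 30 (Quo (US G) g) (Fc ^ 15)
      (Fc * x0 * x0 * (t3 • cR 6 P')))| = XF.tau ι ^ 4 := by
  refine rel82 h D hg hc hT hdP hod hx0 ht3 hrel sfY (fun z hz => ?_) h3
  rw [hfY z hz]
  change FL.f1 G lg ρ w J₀ ε (z.1, (2 : ℝ) • z.2) = FL.f1 G lg ρ w J₀ ε (z.1, FL.gs 1 • z.2)
  rw [FL.gs_two (by norm_num)]

end inst

end Crest.Agent.R208.SR
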