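import Crest.Agent.R208.ZB2
import Crest.Agent.R208.CQ3
import Crest.Agent.R208.QT6
import Crest.Agent.R208.JW3

/-! Row 208, (8,2), block ZB (helper607).  ZB3: the integrality inputs `(n0)`, `(Q0)` from the
relations (i), (ii) of block VE. -/

set_option autoImplicit false
set_option linter.unusedSectionVars false
set_option linter.unusedVariables false

open MeasureTheory Set Filter Topology Module
open scoped ContDiff RealInnerProductSpace Nat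
open Crest.GeometryTopology.Submanifold
open Crest.Agent.R241.DDefs
open Crest.Agent.R241.D2
open Crest.Agent.R208.F Crest.Agent.R208.FI Crest.Agent.R208.CW Crest.Agent.R208.T
open Crest.Agent.R208.CM
open Crest.Agent.R208.L (US)
open Crest.Agent.R208.LB (al)
open Crest.Agent.R208.NN (Wt Rt nuP)
open Crest.Agent.R208.EW (cR)
open Crest.Agent.R208.EP (topr NLp WNp CPk)
open Crest.Agent.R208.SO (CF2)
open Crest.Agent.R208.SB (OddB)

noncomputable section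

namespace Crest.Agent.R208.ZB

/-- the value of `x^m` in 586's form -/
theorem sv {n N k m : ℕ} {κ : ℝ} {S : Set (Euc N)} {G : Geo n N κ S} {p : Euc N}
    {ι : Type} [Fintype ι] [DecidableEq ι] {W : Euc N × Euc N → (ι × Fin 2 → Fin N) → ℝ}
    {x : Euc N → Ext (Euc N)} {h : GT.Bla G k} (D : T.XM h m W p x) : QT.SV n k ι S m p x :=
  fun _ hoS _ hoC => JW.J_S_eq_tau D hoS hoC

variable {N K m c s' : ℕ} {κ δ : ℝ} {S : Set (Euc N)} {G : Geo 16 N κ S} {p : Euc N}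
  {ι : Type} [Fintype ι] [DecidableEq ι] {W : Euc N × Euc N → (ι × Fin 2 → Fin N) → ℝ}
  {x : Euc N → Ext (Euc N)} {h : GT.Bla G 8} {PN : Euc N × Euc N → Wt N K →L[ℝ] Wt N K}
  {g : Euc N × Euc N → Fin m → ℂ} {Fc x0 : MM m → Ext (MM m)}
  {Tr : Euc N × Euc N → Wt N K →L[ℝ] EuclideanSpace ℝ (Fin (2 * c + 1))}
  {P' : MM m → EuclideanSpace ℝ (Fin (2 * c + 1)) →L[ℝ] EuclideanSpace ℝ (Fin (2 * c + 1))}
  {o' : MM m → Ext (EuclideanSpace ℝ (Fin (2 * c + 1)))}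
  {W' : MM m → (Fin (s' + 1) × Fin 2 → Fin (2 * c + 1)) → ℝ}
  {fY : MM m × EuclideanSpace ℝ (Fin (2 * c + 1)) → Euc N} {l t3 : ℝ}

/-- the odd bundle `N` over `B` -/
theorem oddB (hO : TP.DscO (US G) (gf G) g (fun t => Rt (nuP K) t) 3 PN c s' Tr P' o' W') :
    OddB (Fin 3) (Quo (US G) g) 6 P' o' := ⟨hO.pf, hO.sy, hO.opr, rfl⟩

theorem nE_three : VX.nE (Fin 3) ^ 2 = 2304 := by
  rw [VX.nE, Fintype.card_fin, show Nat.factorial 3 = 6 from rfl]; norm_num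

theorem tau_three : XF.tau (Fin 3) = 48 * (2 * Real.pi) ^ 3 := by
  rw [XF.tau, Fintype.card_fin, show Nat.factorial 3 = 6 from rfl]
  push_cast
  ring

/-- `W² = p₃` -/
theorem sq_p3 (hO : TP.DscO (US G) (gf G) g (fun t => Rt (nuP K) t) 3 PN c s' Tr P' o' W')
    (hB : Sub 30 (Quo (US G) g)) (ht3 : t3 = 2304) :
    Coh (Sph (Quo (US G) g) P') (OddB.eV (Fin 3) (oddB hO).hr P' o' *
      OddB.eV (Fin 3) (oddB hO).hr P' o') (F.pull Prod.fst (t3 • cR 6 P')) := by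
  have := (oddB hO).sq_eV hB
  rw [nE_three] at this
  rwa [T.pull_smul', ht3]

/-- **(n0)** -/
theorem n0 (D : T.XM h 2 W p x) (hg : Emb (US G) (gf G) g)
    (hc : Curv (US G) g (al (N := N)) Fc)
    (hO : TP.DscO (US G) (gf G) g (fun t => Rt (nuP K) t) 3 PN c s' Tr P' o' W')
    (s0 : Sm (Quo (US G) g) x0) (c0 : Cl (Quo (US G) g) x0) (d0 : Hom 8 x0)
    (sfY : SMap (Sph (Quo (US G) g) P') S fY)
    (hfY : Coh (Sph (Quo (US G) g) P') (F.pull fY x) (F.pull Prod.fst x0 +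
      l • (F.pull Prod.fst Fc * OddB.eV (Fin 3) (oddB hO).hr P' o'))) :
    ∀ c : CH.Chn (Quo (US G) g) 8, ∃ z : ℤ, 2 * c.I x0 = XF.tau ι * z := by
  have hX : Clo (30 + 1) (US G) := clo_US' h.bl
  have hC := cir_US h.bl h.ty.per
  have hcB : Clo 30 (Quo (US G) g) := hg.clo_Quo hC hX
  have hXc : IsPreconnected (US G) := FV.preconn_US h.bl (by norm_num)
  have hBc : IsPreconnected (Quo (US G) g) := GQ.preconn_Quo hg hXc
  have hne : (Quo (US G) g).Nonempty := by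
    obtain ⟨z, hz⟩ := T.nonempty_UST h D.hp
    exact ⟨jj g z, z, hz, rfl⟩
  have hoB := (ZA.J31 h hg hc).1
  have he : CF2 (Quo (US G) g) 2 Fc := ⟨hc.sm, hc.cl, hc.hom, by decide⟩
  exact QT.n0' CQ.intM D (sv D) (oddB hO) rfl hcB hBc hne hoB (hc.hom.pow 15) he
    ⟨s0, c0, d0, by decide⟩ sfY hfY

/-- **(Q0)** -/
theorem q0 (D : T.XM h 2 W p x) (hg : Emb (US G) (gf G) g)
    (hc : Curv (US G) g (al (N := N)) Fc)
    (hO : TP.DscO (US G) (gf G) g (fun t => Rt (nuP K) t) 3 PN c s' Tr P' o' W')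
    (s0 : Sm (Quo (US G) g) x0) (c0 : Cl (Quo (US G) g) x0) (d0 : Hom 8 x0)
    (ht3 : t3 = 2304) (hl : l ^ 2 = 16)
    (hrel : Coh (Quo (US G) g) ((3 : ℝ) • (x0 * x0) + (l ^ 2) • ((t3 • cR 6 P') * (Fc * Fc))) 0)
    (sfY : SMap (Sph (Quo (US G) g) P') S fY)
    (hfY : Coh (Sph (Quo (US G) g) P') (F.pull fY x) (F.pull Prod.fst x0 +
      l • (F.pull Prod.fst Fc * OddB.eV (Fin 3) (oddB hO).hr P' o'))) :
    ∃ n : ℤ, 4 * J 30 (Quo (US G) g) (Fc ^ 15) (Fc ^ 7 * x0 ^ 2) =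
      (2 * Real.pi) ^ 7 * XF.tau ι ^ 2 * n := by
  have hX : Clo (30 + 1) (US G) := clo_US' h.bl
  have hC := cir_US h.bl h.ty.per
  have hcB : Clo 30 (Quo (US G) g) := hg.clo_Quo hC hX
  have hXc : IsPreconnected (US G) := FV.preconn_US h.bl (by norm_num)
  have hBc : IsPreconnected (Quo (US G) g) := GQ.preconn_Quo hg hXc
  have hoB := (ZA.J31 h hg hc).1
  have ha : Conn (US G) (gf G) (al (N := N)) := conn_al (FV.sub_S h.bl)
  have he : CF2 (Quo (US G) g) 2 Fc := ⟨hc.sm, hc.cl, hc.hom, by decide⟩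
  have h6 : EC (Quo (US G) g) (cR 6 P') := EP.ec_cR hcB.sub hO.pf 6
  have hp : CF2 (Quo (US G) g) (2 * 6) (t3 • cR 6 P') :=
    (⟨h6.sm, h6.cl, EW.hom_cR 6, by decide⟩ : CF2 (Quo (US G) g) (2 * 6) (cR 6 P')).smul _
  obtain ⟨-, n₂, ι₂, _, _, _, _, PL, WL, ε, hL, hj, hε, hLe⟩ :=
    (EZ.euC_line hg hC hX ha hc).pow 5
  have : Nonempty ι₂ := Fintype.card_pos_iff.1 (by omega)
  have hlabs : |l| = 4 := by
    have h1 : |l| ^ 2 = 4 ^ 2 := by rw [sq_abs, hl]; norm_num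
    exact (pow_left_inj₀ (abs_nonneg _) (by norm_num) (by norm_num)).1 h1
  refine QT.q0' (j := 6) (cL := ε * (2 ^ (5 + 1) * ((5 + 1)! : ℝ))) CQ.intM D (sv D) (oddB hO) rfl
    hcB hBc hoB (hc.hom.pow 15) he ⟨s0, c0, d0, by decide⟩ hp ?_ (sq_p3 hO hcB.sub ht3) sfY hfY hL hj
    ?_ hLe rfl ?_
  · rw [show (t3 • cR 6 P') * (Fc * Fc) = Fc * Fc * (t3 • cR 6 P') from hp.comm _] at hrel
    exact hrel
  · rcases hε with rfl | rfl
    · rw [one_mul, abs_of_pos (by positivity)]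
    · rw [neg_one_mul, abs_neg, abs_of_pos (by positivity)]
  · rw [hlabs, tau_three, tau_eight D.hι]
    ring

/-- **the `B`-half of the endgame** from (i), (ii), (v) and the two periods of block (R). -/
theorem exists_BHalf' (D : T.XM h 2 W p x) (H : NB.NegB G 7 (nuP K) δ PN)
    (hg : Emb (US G) (gf G) g) (hc : Curv (US G) g (al (N := N)) Fc)
    (hO : TP.DscO (US G) (gf G) g (fun t => Rt (nuP K) t) 3 PN c s' Tr P' o' W')
    (s0 : Sm (Quo (US G) g) x0) (c0 : Cl (Quo (US G) g) x0) (d0 : Hom 8 x0)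
    (h0 : Coh (US G) (F.pull Prod.fst x) (F.pull (jj g) x0))
    (ht3 : t3 = 2304) (hl : l ^ 2 = 16)
    (hrel : Coh (Quo (US G) g) ((3 : ℝ) • (x0 * x0) + (l ^ 2) • ((t3 • cR 6 P') * (Fc * Fc))) 0)
    (sfY : SMap (Sph (Quo (US G) g) P') S fY)
    (hfY : Coh (Sph (Quo (US G) g) P') (F.pull fY x) (F.pull Prod.fst x0 +
      l • (F.pull Prod.fst Fc * OddB.eV (Fin 3) (oddB hO).hr P' o')))
    (hx3 : J 30 (Quo (US G) g) (Fc ^ 15) (Fc ^ 3 * x0 ^ 3) = 0)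
    (hR : |8 * l ^ 2 * (2 * Real.pi * J 30 (Quo (US G) g) (Fc ^ 15)
      (Fc * x0 * x0 * (t3 • cR 6 P')))| = XF.tau ι ^ 4) :
    ∃ q1 q2 α β₁ ν n₀ : ℝ, BHalf (Quo (US G) g) (Fc ^ 15) Fc x0 (t3 • cR 6 P') (topr 7 1 P' Fc)
      (topr 7 2 P' Fc) (topr 7 (1 / 2) P' Fc) q1 q2 α β₁ ν l t3 n₀ := by
  have hX : Clo (30 + 1) (US G) := clo_US' h.bl
  have hcB : Clo 30 (Quo (US G) g) := hg.clo_Quo (cir_US h.bl h.ty.per) hX
  have hBc : IsPreconnected (Quo (US G) g) :=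
    GQ.preconn_Quo hg (FV.preconn_US h.bl (by norm_num))
  exact exists_BHalf (κ₇ := Fin 7) D H hg hc hO s0 c0 d0 h0 ht3 hl hrel hx3 hR (Fintype.card_fin 7)
    (fun c => CQ.IT_of hcB hBc hO.pf hO.sy (Fintype.card_fin 7) rfl c)
    (n0 D hg hc hO s0 c0 d0 sfY hfY) (q0 D hg hc hO s0 c0 d0 ht3 hl hrel sfY hfY)

end Crest.Agent.R208.ZB
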