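import Crest.Agent.R208.ZA5
import Crest.Agent.R208.ZB3
import Crest.Agent.R208.EX15
import Crest.Agent.R208.EA8
import Crest.Agent.R208.AK21
import Crest.Agent.R208.SR3
import Crest.Agent.R208.VEd589d

/-!
R208, ZA6 (helper221): **the composition of `(k, n) = (8, 16)`**: `ZG.Vol8Stmt` from the class side
`Cls82`.
-/

set_option autoImplicit false
set_option linter.unusedSectionVars false
set_option linter.unusedVariables false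

open MeasureTheory Set Filter Topology Module
open scoped ContDiff RealInnerProductSpace Real
open Crest.GeometryTopology.Submanifold
open Crest.Agent.R241.DDefs Crest.Agent.R241.D Crest.Agent.R241.D2
open Crest.Agent.R208.F Crest.Agent.R208.FI Crest.Agent.R208.CW Crest.Agent.R208.T
open Crest.Agent.R208.CM (Cir gen Rep Triv Qd phR Th gf Emb Quo MM jj Curv)
open Crest.Agent.R208.LB (al)
open Crest.Agent.R208.VC hiding Wt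
open Crest.Agent.R208.EX
open Crest.Agent.R208.FT (D2 XI RN xiN gp lev)
open Crest.Agent.R208.FL (D0 D1 Ph)
open Crest.Agent.R208.NN (Wt Rt nuP)
open Crest.Agent.R208.TP (QM TT CV pu₁ pu₂ push up)
open Crest.Agent.R208.MS (Fam oc En)
open Crest.Agent.R208.EW (cR)
open Crest.Agent.R208.EP (topr)
open Crest.Agent.R208.SN (kGG)

noncomputable section

namespace Crest.Agent.R208.ZA

section comp
variable {N K m m' c s' c₂ : ℕ} {κ : ℝ} {S : Set (Euc N)} {G : Geo 16 N κ S}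
  {lg : Euc N → Euc N → Euc N} {ρ : Euc N → Euc N} {r C r' Kr B w δ δ₂ : ℝ}
  {PN : Euc N × Euc N → Wt N K →L[ℝ] Wt N K}
  {h : GT.Bla G (2 * 3 + 2)} {g : Euc N × Euc N → Fin m → ℂ} {Fc : MM m → Ext (MM m)}
  {g' : (Euc N × Euc N) × HW.U 15 → Fin m' → ℂ} {p : MM m' → MM m}
  {T : Euc N × Euc N → Wt N K →L[ℝ] EuclideanSpace ℝ (Fin (2 * c + 1))}
  {P' : MM m → EuclideanSpace ℝ (Fin (2 * c + 1)) →L[ℝ] EuclideanSpace ℝ (Fin (2 * c + 1))}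
  {o' : MM m → Ext (EuclideanSpace ℝ (Fin (2 * c + 1)))}
  {W' : MM m → (Fin (s' + 1) × Fin 2 → Fin (2 * c + 1)) → ℝ}
  {oN : Euc N × Euc N → Ext (Wt N K)}
  {T₂ : (Euc N × Euc N) × HW.U 15 →
    EuclideanSpace ℝ (((Fin K × Fin 2) × Fin N) ⊕ ((Fin K × Fin 2) × Fin N)) →L[ℝ]
      EuclideanSpace ℝ (Fin (2 * c₂))}
  {P₂' : MM m' → EuclideanSpace ℝ (Fin (2 * c₂)) →L[ℝ] EuclideanSpace ℝ (Fin (2 * c₂))}
  {W₂' : MM m' → (Fin (2 * 3 + 1) × Fin 2 → Fin (2 * c₂)) → ℝ}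
  {ι : Type} [Fintype ι] [DecidableEq ι] {W₀ : Euc N × Euc N → (ι × Fin 2 → Fin N) → ℝ}
  {p₀ : Euc N} {x : Euc N → Ext (Euc N)}

set_option maxHeartbeats 1600000 in
/-- **the composition over the package** -/
theorem comp82 (Q : Gm82 h K 15 lg ρ r C r' Kr B w δ δ₂ PN g Fc g' p T P' o' W' oN T₂ P₂' W₂')
    (M : Crest.Agent.R208.T.XM (k := 8) h 2 W₀ p₀ x)
    (hC : ∀ (ε E₀ η : ℝ) (J : ℕ), D1 G (2 * 3 + 2) K lg ρ r C r' Kr B w δ PN ε J E₀ η →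
      ∃ (x0 : MM m → Ext (MM m)) (fY : MM m × EuclideanSpace ℝ (Fin (2 * c + 1)) → Euc N)
        (l n₁ : ℝ), Cls82 G K lg ρ w J ε PN g Fc T P' o' W' x (XF.tau ι) x0 fY l n₁) :
    |J 30 (Quo (L.US G) g) (Fc ^ 15) (Fc ^ 15)| ≤ 78 * (2 * Real.pi) ^ 15 := by
  have hpi := Real.pi_pos
  have hδ := Q.d0.neg.pos_δ
  have hδ₂ := Q.xi.pos
  have hal : CM.Conn (L.US G) (gf G) (al (N := N)) := CM.conn_al (FV.sub_S h.bl)
  have hXc : IsPreconnected (L.US G) := FV.preconn_US h.bl (by norm_num)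
  have hne : (L.US G).Nonempty := Crest.Agent.R208.T.nonempty_UST h M.hp
  -- the constants
  obtain ⟨ε, hε, hcon⟩ := Q.consts
  have hε₂ : 0 < ε / 3 := by positivity
  obtain ⟨εg, B₀, oK, hO, hB₀, hoK, hA⟩ := AK.a2_slc (s := 3) (K := K) (δ₂ := δ₂) (d := 31)
    (mK := 3 * 7 + 31) h Q.hkn Q.d0.neg Q.d0.rt hε hε₂ hδ₂ (by norm_num) (by norm_num)
  obtain ⟨E₀, η, J, h2, hη, HL, mu, Gm, hnat⟩ := hcon ε hε le_rfl (ε / 3) hε₂ (by linarith)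
    (max (lev δ δ₂ ε (ε / 3)) B₀) (max_lt (FT.lev_lt hδ hδ₂ hε hε₂) hB₀)
  obtain ⟨x0, fY, l, n₁, C⟩ := hC ε E₀ η J h2.toD1
  -- the half on `B`
  obtain ⟨b1, b2⟩ := SR.rel82' h2.toD1 M Q.emb Q.curv Q.dsc.triv Q.dsc.eqP (ZB.oddB Q.dsc)
    ⟨C.sx, C.cx, C.dx, by decide⟩ rfl C.hrel C.sfY C.efY C.hfY
  obtain ⟨q1, q2, α, β₁, ν, n₀, H⟩ := ZB.exists_BHalf' (t3 := 2304) M Q.d0.neg Q.emb
    Q.curv Q.dsc C.sx C.cx C.dx C.hx rfl C.hl C.hrel C.sfY C.hfY b1 b2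
  -- the data `D`
  have hdat : Dat S x := ⟨M.sx, M.cx, fun z _ => SO.inv_of_hom_even M.dx ⟨4, rfl⟩ z,
    SO.eqv_zero_of_gt (FV.sub_S h.bl) ((M.dx.mul M.dx).mul M.dx) (by norm_num)⟩
  have hT1 := VD.dsc_hT1 (by norm_num) Q.dsc (Q.emb.clo_Quo Q.cir Q.clo).sub
    (GQ.preconn_Quo Q.emb hXc)
  have hcls : Cls1 G K lg ρ w J ε x (al (N := N)) 11 7 (r1 l 2304 α β₁) (r2 l 2304 α β₁) PN g T P'
      W' := fun V' v1 v2 v3 v4 =>
    (C.v1 _ _ V' v1 v2 v3 v4).trans (ve_one' H.he H.hx H.hp3 H.hrel H.h3 n₁)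
  obtain ⟨D, hD, d1, d2, d3, d4, d5, d6, d7⟩ := Q.exists_ED h2.toD1 hdat hT1 hcls hnat
  have hlD : lev δ δ₂ ε (ε / 3) ≤ D.B := by rw [d7]; exact le_max_left _ _
  have hBD : B₀ ≤ D.B := by rw [d7]; exact le_max_right _ _
  have hcl2 : EA.Cls2 G K lg ρ w J ε PN g T P' W' D
      (rhsE l n₁ (r1 l 2304 α β₁) (r2 l 2304 α β₁) ((2304 : ℝ) • cR 6 P') x0 Fc) := by
    have := C.v2 D d2 d3 d4
    rwa [d5, d6] at this
  -- the half on `B'`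
  have hι : Fintype.card ι = 4 := by have := M.hι; omega
  have hoU : Ori 31 (L.US G) (LB.oUS 16 N) :=
    LB.ori_US (FV.sub_S h.bl) h.bl.cpt (by norm_num) (by norm_num)
  obtain ⟨u₀, hu₀⟩ := HW.SU_nonempty (k := 15)
  obtain ⟨u, e2, a1, a2, ε7, c₀, P⟩ := EA.primeHalf Q M (by norm_num) C.sx C.cx C.dx C.hx hD d1 d2
    h2 hη hlD d3 d4 hcl2 (HW.mem_SU.1 hu₀) hO (d := 31) (by norm_num) hoU
    (fun s₂ W₂'' V' V hs => ⟨oK, hoK, fun y sy cy dy =>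
      hA hD d1 hBD h2 hη hs (hal.sm.smul (1 / 2)) (hal.hom.smul (1 / 2)) hoU y sy cy dy
        (by norm_num)⟩)
    (AN.tau_nu hι (ZB.abs_nu H.hν2)) C.hn
  exact H.bound Q.hd.smap (fun om ζ so sζ cζ h0 => Q.hd.J_eq_zero hXc hne hal (by norm_num) H.ho so
    sζ cζ h0) P.hu P.he2 P.hua P.he2T P.hκ P.hc P.hE

/-- **`Vol8Stmt` from the class side** -/
theorem vol8_of_cls (hC : ∀ (N K m m' c s' c₂ : ℕ) (κ : ℝ) (S : Set (Euc N)) (G : Geo 16 N κ S)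
      (h : GT.Bla G (2 * 3 + 2)) (lg : Euc N → Euc N → Euc N) (ρ : Euc N → Euc N)
      (r C r' Kr B w δ δ₂ : ℝ) (PN : Euc N × Euc N → Wt N K →L[ℝ] Wt N K)
      (g : Euc N × Euc N → Fin m → ℂ) (Fc : MM m → Ext (MM m))
      (g' : (Euc N × Euc N) × HW.U 15 → Fin m' → ℂ) (p : MM m' → MM m)
      (T : Euc N × Euc N → Wt N K →L[ℝ] EuclideanSpace ℝ (Fin (2 * c + 1)))
      (P' : MM m → EuclideanSpace ℝ (Fin (2 * c + 1)) →L[ℝ] EuclideanSpace ℝ (Fin (2 * c + 1)))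
      (o' : MM m → Ext (EuclideanSpace ℝ (Fin (2 * c + 1))))
      (W' : MM m → (Fin (s' + 1) × Fin 2 → Fin (2 * c + 1)) → ℝ)
      (oN : Euc N × Euc N → Ext (Wt N K))
      (T₂ : (Euc N × Euc N) × HW.U 15 →
        EuclideanSpace ℝ (((Fin K × Fin 2) × Fin N) ⊕ ((Fin K × Fin 2) × Fin N)) →L[ℝ]
          EuclideanSpace ℝ (Fin (2 * c₂)))
      (P₂' : MM m' → EuclideanSpace ℝ (Fin (2 * c₂)) →L[ℝ] EuclideanSpace ℝ (Fin (2 * c₂)))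
      (W₂' : MM m' → (Fin (2 * 3 + 1) × Fin 2 → Fin (2 * c₂)) → ℝ)
      (W₀ : Euc N × Euc N → (Fin 4 × Fin 2 → Fin N) → ℝ) (p₀ : Euc N) (x : Euc N → Ext (Euc N)),
      Gm82 h K 15 lg ρ r C r' Kr B w δ δ₂ PN g Fc g' p T P' o' W' oN T₂ P₂' W₂' →
      Crest.Agent.R208.T.XM (k := 8) h 2 W₀ p₀ x →
      ∀ (ε E₀ η : ℝ) (J : ℕ), D1 G (2 * 3 + 2) K lg ρ r C r' Kr B w δ PN ε J E₀ η →
      ∃ (x0 : MM m → Ext (MM m)) (fY : MM m × EuclideanSpace ℝ (Fin (2 * c + 1)) → Euc N)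
        (l n₁ : ℝ), Cls82 G K lg ρ w J ε PN g Fc T P' o' W' x (XF.tau (Fin 4)) x0 fY l n₁) :
    ZG.Vol8Stmt := by
  refine vol8 fun N κ S G h => ?_
  obtain ⟨K, m, m', c, s', c₂, lg, ρ, r, C, r', Kr, B, w, δ, δ₂, PN, g, Fc, g', p, T, P', o', W',
    oN, T₂, P₂', W₂', Q⟩ := exists_Gm82 (s := 3) h (by norm_num) 15
  obtain ⟨p₀, hp₀⟩ := h.bl.conn.nonempty
  have hι : 2 * Fintype.card (Fin 4) = 8 := by rw [Fintype.card_fin]
  obtain ⟨W₀, hW₀⟩ := Crest.Agent.R208.T.exists_OR_FF h (by norm_num) (by norm_num) hι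
  obtain ⟨M₀, x, M⟩ := Crest.Agent.R208.T.exists_XM h (by norm_num) (by norm_num) hι hW₀ hp₀
  obtain rfl : M₀ = 2 := by have := M.hn; omega
  exact ⟨m, g, Fc, Q.emb, Q.curv, comp82 Q M fun ε E₀ η J h1 => hC N K m m' c s' c₂ κ S G h lg ρ r C
    r' Kr B w δ δ₂ PN g Fc g' p T P' o' W' oN T₂ P₂' W₂' W₀ p₀ x Q M ε E₀ η J h1⟩

end comp

end Crest.Agent.R208.ZA
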