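import Crest.Agent.R208.SC1
import Crest.Agent.R208.ZA6

/-! Row 208, block SC (helper349).  SC2: **`Vol8Stmt`**: helper221's composition ZA6 with the class
side SC1. -/

set_option autoImplicit false
set_option linter.unusedVariables false

namespace Crest.Agent.R208.SC

/-- **the volume of the manifold of geodesics for `(k, n) = (8, 16)`** -/
theorem vol8 : Crest.Agent.R208.ZG.Vol8Stmt :=
  Crest.Agent.R208.ZA.vol8_of_cls fun N K m m' c s' c₂ κ S G h lg ρ r C r' Kr B w δ δ₂ PN g Fc g' p
      T P' o' W' oN T₂ P₂' W₂' W₀ p₀ x Q M ε E₀ η J h1 => exists_Cls82 Q M h1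

end Crest.Agent.R208.SC
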