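import Crest.Agent.R208.SN2
import Crest.Agent.R208.THD0
import Crest.Agent.R208.THD2

/-! Row 208, block SN (helper900).  SN3: orientation of the sphere bundle `SB X P`. -/

set_option autoImplicit false
set_option linter.unusedSectionVars false

open MeasureTheory Set Filter Topology Module Matrix
open scoped ContDiff RealInnerProductSpace
open Crest.Agent.R208.F Crest.Agent.R208.FI Crest.Agent.R208.T

noncomputable section

namespace Crest.Agent.R208.SN

section vol
variable {n ι : Type*} [Fintype n] [DecidableEq n] [Fintype ι] [DecidableEq ι]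

/-- coordinate covector -/
def cvn (i : n) : Module.Dual ℝ (EuclideanSpace ℝ n) :=
  ((EuclideanSpace.proj i : EuclideanSpace ℝ n →L[ℝ] ℝ) : Module.Dual ℝ (EuclideanSpace ℝ n))

/-- form of a tensor -/
def volW (w : (ι × Fin 2 → n) → ℝ) : Ext (EuclideanSpace ℝ n) :=
  ∑ I, w I • ExteriorAlgebra.ιMulti ℝ (Fintype.card ι * 2) fun k => cvn (I ((kFin ι).symm k))

theorem sum_perm (f : Matrix n (ι × Fin 2) ℝ) (σ : Equiv.Perm (ι × Fin 2)) :
    ∑ I : ι × Fin 2 → n, (∏ p, f (I p) (σ p)) •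
      ExteriorAlgebra.ιMulti ℝ (Fintype.card ι * 2) (fun k => cvn (I ((kFin ι).symm k)))
      = ((Equiv.Perm.sign σ : ℤ) : ℝ) • Xi f := by
  classical
  set e := (kFin ι).symm with he
  have h1 : ∑ I : ι × Fin 2 → n, (∏ p, f (I p) (σ p)) •
      ExteriorAlgebra.ιMulti ℝ (Fintype.card ι * 2) (fun k => cvn (I (e k)))
      = ∑ J : Fin (Fintype.card ι * 2) → n, (∏ k, f (J k) (σ (e k))) •
        ExteriorAlgebra.ιMulti ℝ (Fintype.card ι * 2) (fun k => cvn (J k)) := by
    refine Fintype.sum_equiv (Equiv.arrowCongr e.symm (Equiv.refl n)) _ _ fun I => ?_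
    have h2 : ∏ p, f (I p) (σ p) = ∏ k, f (I (e k)) (σ (e k)) :=
      (e.prod_comp (fun p => f (I p) (σ p))).symm
    rw [h2]
    simp [Equiv.arrowCongr]
  rw [h1]
  have h2 : ∀ J : Fin (Fintype.card ι * 2) → n, (∏ k, f (J k) (σ (e k))) •
        ExteriorAlgebra.ιMulti ℝ (Fintype.card ι * 2) (fun k => cvn (J k))
      = (ExteriorAlgebra.ιMulti ℝ (Fintype.card ι * 2)).toMultilinearMap
        (fun k => f (J k) (σ (e k)) • cvn (J k)) := by
    intro J
    rw [MultilinearMap.map_smul_univ]; rfl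
  simp only [h2]
  rw [← MultilinearMap.map_sum (ExteriorAlgebra.ιMulti ℝ (Fintype.card ι * 2)).toMultilinearMap
    (fun k i => f i (σ (e k)) • cvn i)]
  have h3 : (fun k => ∑ i, f i (σ (e k)) • cvn (n := n) i)
      = (fun k => eta f (e k)) ∘ (e.trans (σ.trans e.symm)) := by
    funext k
    simp only [Function.comp, Equiv.trans_apply, Equiv.apply_symm_apply]
    rfl
  have h4 : (ExteriorAlgebra.ιMulti ℝ (Fintype.card ι * 2)).toMultilinearMap
      (fun k => ∑ i, f i (σ (e k)) • cvn (n := n) i)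
      = ExteriorAlgebra.ιMulti ℝ (Fintype.card ι * 2)
        (fun k => ∑ i, f i (σ (e k)) • cvn (n := n) i) := rfl
  rw [h4, h3, AlternatingMap.map_perm]
  have h5 : Equiv.Perm.sign (e.trans (σ.trans e.symm)) = Equiv.Perm.sign σ := by
    have := Equiv.Perm.sign_permCongr e.symm σ
    rw [← this]
    congr 1
  rw [h5, Units.smul_def, ← Int.cast_smul_eq_zsmul ℝ]
  rfl

/-- the form of the tensor of an orthonormal frame -/
theorem volW_frame {f : Matrix n (ι × Fin 2) ℝ} {w : (ι × Fin 2 → n) → ℝ}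
    (hw : ∀ I, w I = (f.submatrix I id).det) :
    volW w = (Fintype.card (Equiv.Perm (ι × Fin 2)) : ℝ) • Xi f := by
  classical
  have h1 : ∀ I, w I = ∑ σ : Equiv.Perm (ι × Fin 2),
      ((Equiv.Perm.sign σ : ℤ) : ℝ) * ∏ p, f (I p) (σ p) := by
    intro I
    rw [hw, ← det_transpose, det_apply']
    refine Finset.sum_congr rfl fun σ _ => ?_
    rfl
  unfold volW
  simp only [h1, Finset.sum_smul, mul_smul]
  rw [Finset.sum_comm]
  have h2 : ∀ σ : Equiv.Perm (ι × Fin 2), ∑ I : ι × Fin 2 → n,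
      ((Equiv.Perm.sign σ : ℤ) : ℝ) • ((∏ p, f (I p) (σ p)) •
      ExteriorAlgebra.ιMulti ℝ (Fintype.card ι * 2) (fun k => cvn (I ((kFin ι).symm k)))) = Xi f := by
    intro σ
    rw [← Finset.smul_sum, sum_perm, smul_smul]
    have : ((Equiv.Perm.sign σ : ℤ) : ℝ) * ((Equiv.Perm.sign σ : ℤ) : ℝ) = 1 := by
      rw [← Int.cast_mul, Int.units_coe_mul_self]; simp
    rw [this, one_smul]
  rw [Finset.sum_congr rfl fun σ _ => h2 σ, Finset.sum_const, Finset.card_univ, Nat.cast_smul_eq_nsmul]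

theorem continuous_volW : Continuous (volW : ((ι × Fin 2 → n) → ℝ) → Ext (EuclideanSpace ℝ n)) := by
  unfold volW
  fun_prop

theorem isDeg_Xi (f : Matrix n (ι × Fin 2) ℝ) : IsDeg (Fintype.card ι * 2) (Xi f) := IsDeg.iMulti _

end vol

section ori
variable {n ι : Type*} [Fintype n] [DecidableEq n] [Fintype ι] [DecidableEq ι]
  {E : Type*} [NormedAddCommGroup E] [NormedSpace ℝ E] [FiniteDimensional ℝ E]
  {X : Set E} {P : E → EuclideanSpace ℝ n →L[ℝ] EuclideanSpace ℝ n} {W : E → (ι × Fin 2 → n) → ℝ}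
  {d : ℕ}

/-- radial vector -/
def rad (z : (E × EuclideanSpace ℝ n) × ℝ) : (E × EuclideanSpace ℝ n) × ℝ := ((0, z.1.2), z.2)

/-- the second component as a linear map -/
def p2 : ((E × EuclideanSpace ℝ n) × ℝ) →ₗ[ℝ] EuclideanSpace ℝ n :=
  LinearMap.snd ℝ E (EuclideanSpace ℝ n) ∘ₗ LinearMap.fst ℝ (E × EuclideanSpace ℝ n) ℝ

/-- the last component as a covector -/
def p3 : Module.Dual ℝ ((E × EuclideanSpace ℝ n) × ℝ) := LinearMap.snd ℝ (E × EuclideanSpace ℝ n) ℝ

/-- vertical orientation form -/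
def oVf (W : E → (ι × Fin 2 → n) → ℝ) (z : (E × EuclideanSpace ℝ n) × ℝ) :
    Ext ((E × EuclideanSpace ℝ n) × ℝ) :=
  ii (rad z) (pb p2 (volW (W z.1.1)) * io p3)

theorem continuousOn_oVf (h : OR X P W) : ContinuousOn (oVf W) (SB X P) := by
  have h1 : ContinuousOn (fun z : (E × EuclideanSpace ℝ n) × ℝ => W z.1.1) (SB X P) := by
    refine continuousOn_pi.2 fun I => ?_
    intro z hz
    have h2 : ContinuousAt (fun y => W y I) z.1.1 := (h.sW _ hz.1.1.1 I).continuousAt
    have h3 : ContinuousAt (fun z : (E × EuclideanSpace ℝ n) × ℝ => z.1.1) z := by fun_prop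
    exact (ContinuousAt.comp (g := fun y => W y I)
      (f := fun z : (E × EuclideanSpace ℝ n) × ℝ => z.1.1) h2 h3).continuousWithinAt
  have h2 : ContinuousOn (fun z : (E × EuclideanSpace ℝ n) × ℝ =>
      pb (p2 (E := E) (n := n)) (volW (W z.1.1)) * io p3) (SB X P) := by
    have h3 : Continuous fun c : Ext (EuclideanSpace ℝ n) =>
        (pb (p2 (E := E) (n := n)) c * io p3 : Ext ((E × EuclideanSpace ℝ n) × ℝ)) := by
      let L : Ext (EuclideanSpace ℝ n) →ₗ[ℝ] Ext ((E × EuclideanSpace ℝ n) × ℝ) :=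
        { toFun := fun c => pb p2 c * io p3
          map_add' := fun a b => by rw [map_add, add_mul]
          map_smul' := fun r a => by rw [map_smul, smul_mul_assoc]; rfl }
      exact L.continuous_of_finiteDimensional
    exact h3.comp_continuousOn (continuous_volW.comp_continuousOn h1)
  let B : ((E × EuclideanSpace ℝ n) × ℝ) →ₗ[ℝ] Ext ((E × EuclideanSpace ℝ n) × ℝ) →L[ℝ]
      Ext ((E × EuclideanSpace ℝ n) × ℝ) :=
    { toFun := fun v => LinearMap.toContinuousLinearMap (ii v)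
      map_add' := fun a b => by ext c; simp
      map_smul' := fun r a => by ext c; simp }
  have hB : Continuous B := B.continuous_of_finiteDimensional
  have h4 : Continuous (rad : (E × EuclideanSpace ℝ n) × ℝ → _) := by unfold rad; fun_prop
  have h5 : ContinuousOn (fun z => B (rad z)) (SB X P) := (hB.comp h4).continuousOn
  exact h5.clm_apply h2

/-- vertical vectors: non vanishing of the vertical orientation form -/
theorem evA_oVf_ne (h : OR X P W) {x : E} {v : EuclideanSpace ℝ n} {t : ℝ}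
    (hz : ((x, v), t) ∈ SB X P)
    {w : Fin (Fintype.card ι * 2) → (E × EuclideanSpace ℝ n) × ℝ} (hw : LinearIndependent ℝ w)
    (hv : ∀ i, ∃ b s, w i = ((0, b), s) ∧ P x b = b ∧ ⟪v, b⟫ + t * s = 0) :
    evA _ (Fintype.card ι * 2) (oVf W ((x, v), t)) w ≠ 0 := by
  classical
  have hx : x ∈ X := hz.1.1.1
  have hPv : P x v = v := hz.1.1.2
  have hvt : ⟪v, v⟫ + t * t = 1 := (SB_iff.1 hz).2.2
  obtain ⟨f, hf, hPf, hWf⟩ := h.fr x hx
  rw [oVf, ← evA_ii, volW_frame hWf]
  set c : ℝ := (Fintype.card (Equiv.Perm (ι × Fin 2)) : ℝ) with hc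
  have hc0 : c ≠ 0 := by rw [hc]; exact_mod_cast Fintype.card_ne_zero
  set u : Fin (Fintype.card ι * 2 + 1) → (E × EuclideanSpace ℝ n) × ℝ :=
    Fin.cons (rad ((x, v), t)) w with hu
  -- the covectors
  set l : Fin (Fintype.card ι * 2 + 1) → Module.Dual ℝ ((E × EuclideanSpace ℝ n) × ℝ) :=
    Fin.append (fun k => eta f ((kFin ι).symm k) ∘ₗ p2) (fun _ : Fin 1 => p3) with hl
  have h1 : pb p2 (c • Xi f) * io (p3 (E := E) (n := n))
      = c • ExteriorAlgebra.ιMulti ℝ (Fintype.card ι * 2 + 1) l := by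
    rw [map_smul, smul_mul_assoc, Xi, pb_iMulti]
    congr 1
    have e1 : io (p3 (E := E) (n := n)) = ExteriorAlgebra.ιMulti ℝ 1 (fun _ : Fin 1 => p3) := by
      rw [ExteriorAlgebra.ιMulti_apply]; simp
    rw [e1, ExteriorAlgebra.ιMulti_mul_ιMulti]
  rw [h1, map_smul, AlternatingMap.smul_apply, evA_iMulti, smul_eq_mul]
  refine mul_ne_zero hc0 fun h0 => ?_
  obtain ⟨a, ha, ha0⟩ := Matrix.exists_vecMul_eq_zero_iff.2 h0
  set y : (E × EuclideanSpace ℝ n) × ℝ := ∑ i, a i • u i with hy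
  have hly : ∀ j, l j y = 0 := fun j => by
    have := congrFun ha0 j
    rw [Matrix.vecMul, dotProduct] at this
    rw [hy, map_sum]
    simp only [map_smul, smul_eq_mul]
    have h2 : ∑ i, a i * (l j) (Matrix.vecCons (rad ((x, v), t)) w i) = 0 := by simpa using this
    exact h2
  -- `y = 0`
  have hu0 : ∀ i, (u i).1.1 = 0 ∧ P x (u i).1.2 = (u i).1.2 := by
    intro i
    refine Fin.cases ?_ (fun i => ?_) i
    · exact ⟨rfl, hPv⟩
    · obtain ⟨b, s, hb, hPb, -⟩ := hv i
      have : u i.succ = w i := by rw [hu, Fin.cons_succ]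
      rw [this, hb]; exact ⟨rfl, hPb⟩
  have hy1 : y.1.1 = 0 := by
    have : y.1.1 = ∑ i, a i • (u i).1.1 := by
      rw [hy]; simp [Prod.fst_sum]
    rw [this]; simp [(hu0 _).1]
  have hy2 : P x y.1.2 = y.1.2 := by
    have : y.1.2 = ∑ i, a i • (u i).1.2 := by
      rw [hy]; simp [Prod.fst_sum, Prod.snd_sum]
    rw [this, map_sum]
    exact Finset.sum_congr rfl fun i _ => by rw [map_smul, (hu0 i).2]
  have hy3 : y.2 = 0 := by
    have := hly (Fin.natAdd _ 0)
    rw [hl, Fin.append_right] at this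
    exact this
  have hy4 : ∀ k : ι × Fin 2, eta f k y.1.2 = 0 := by
    intro k
    have := hly (Fin.castAdd 1 (kFin ι k))
    rw [hl, Fin.append_left, Equiv.symm_apply_apply] at this
    exact this
  have hy5 : y.1.2 = 0 := by
    ext i
    rw [← hy2, hPf]
    have e1 : ∑ j, (f * fᵀ) i j * y.1.2 j = ∑ k, f i k * ∑ j, f j k * y.1.2 j :=
      sum_mul_transpose f i _
    rw [e1]
    refine Finset.sum_eq_zero fun k _ => ?_
    have := hy4 k
    rw [eta_apply] at this
    rw [this, mul_zero]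
  have hy0 : y = 0 := Prod.ext (Prod.ext hy1 hy5) hy3
  -- linear independence of `u`
  have hli : LinearIndependent ℝ u := by
    rw [hu, linearIndependent_finCons]
    refine ⟨hw, fun hmem => ?_⟩
    have key : ∀ q ∈ Submodule.span ℝ (Set.range w), ⟪v, q.1.2⟫ + t * q.2 = 0 := by
      intro q hq
      refine Submodule.span_induction (p := fun q _ => ⟪v, q.1.2⟫ + t * q.2 = 0) ?_ ?_ ?_ ?_ hq
      · rintro _ ⟨i, rfl⟩
        obtain ⟨b, s, hb, -, hs⟩ := hv i
        rw [hb]; exact hs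
      · simp
      · intro p q _ _ hp hq
        have e1 : (p + q).1.2 = p.1.2 + q.1.2 := rfl
        have e2 : (p + q).2 = p.2 + q.2 := rfl
        rw [e1, e2, inner_add_right]; linear_combination hp + hq
      · intro c p _ hp
        have e1 : (c • p).1.2 = c • p.1.2 := rfl
        have e2 : (c • p).2 = c * p.2 := rfl
        rw [e1, e2, real_inner_smul_right]; linear_combination c * hp
    have h3 := key _ hmem
    have h4 : ⟪v, v⟫ + t * t = 0 := h3
    rw [hvt] at h4
    exact one_ne_zero h4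
  exact ha (funext fun i => (Fintype.linearIndependent_iff.1 hli a hy0) i)

theorem ori_SB (hX : Clo d X) {oX : E → Ext E} (hoX : Ori d X oX)
    (h : OR X P W) (hs : ∀ x ∈ X, ∀ v w, ⟪P x v, w⟫ = ⟪v, P x w⟫)
    (hoX0 : ∀ x ∈ X, ∀ q < d, evA E q (oX x) = 0) :
    Ori (Fintype.card ι * 2 + d) (SB X P) (fun z => oVf W z * F.pull pB oX z) := by
  have hP : PField X (Fintype.card ι * 2) P := by
    have := h.pfield
    rwa [mul_comm] at this
  have hS := subm_SB hX hP hs
  refine ori_of hS.cloZ ?_ ?_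
  · exact continuousOn_mul (continuousOn_oVf h) (hS.continuousOn_pull hoX.cont)
  · rintro ⟨⟨x, v⟩, t⟩ hz
    have hx : x ∈ X := hz.1.1.1
    have hF := hS.clo_fibre x
    have hzF : ((x, v), t) ∈ SB X P ∩ pB ⁻¹' {x} := ⟨hz, rfl⟩
    have hTF := hF.finrank_Tan hzF
    let b := Module.finBasisOfFinrankEq ℝ (Tan (SB X P ∩ pB ⁻¹' {x}) ((x, v), t)) hTF
    set w : Fin (Fintype.card ι * 2) → (E × EuclideanSpace ℝ n) × ℝ := fun i => (b i : _) with hw
    have hwi : LinearIndependent ℝ w :=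
      b.linearIndependent.map' (Submodule.subtype _) (Submodule.ker_subtype _)
    have hwT : ∀ i, w i ∈ Tan (SB X P ∩ pB ⁻¹' {x}) ((x, v), t) := fun i => (b i).2
    have hwv : ∀ i, ∃ b s, w i = ((0, b), s) ∧ P x b = b ∧ ⟪v, b⟫ + t * s = 0 := by
      intro i
      have key : ∀ y ∈ Tan (SB X P ∩ pB ⁻¹' {x}) ((x, v), t),
          ∃ b s, y = ((0, b), s) ∧ P x b = b ∧ ⟪v, b⟫ + t * s = 0 := by
        rintro ⟨⟨a, b⟩, s⟩ h1
        obtain ⟨⟨rfl, h2⟩, h3⟩ := (mem_Tan_fib hX hP hs hz).1 h1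
        exact ⟨b, s, rfl, h2, h3⟩
      exact key _ (hwT i)
    -- lifts of a frame of the base
    have hfr := frame_isFrame (hX.finrank_Tan hx)
    have hlift : ∀ i, ∃ y ∈ Tan (SB X P) ((x, v), t),
        fderiv ℝ (pB : (E × EuclideanSpace ℝ n) × ℝ → E) ((x, v), t) y = frame d X x i :=
      fun i => hS.sub _ hz _ (hfr.2 i)
    choose y hyT hy using hlift
    refine ⟨Fin.append w y, ?_, ?_⟩
    · intro i
      refine Fin.addCases (fun i => ?_) (fun i => ?_) i
      · rw [Fin.append_left]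
        exact Tan_mono_of_subset inter_subset_left _ (hwT i)
      · rw [Fin.append_right]; exact hyT i
    · have hpw : ∀ i, (fderiv ℝ (pB : (E × EuclideanSpace ℝ n) × ℝ → E) ((x, v), t) :
          (E × EuclideanSpace ℝ n) × ℝ →ₗ[ℝ] E) (w i) = 0 := by
        intro i
        obtain ⟨b, s, hb, -, -⟩ := hwv i
        have h1 : fderiv ℝ (pB : (E × EuclideanSpace ℝ n) × ℝ → E) ((x, v), t) =
          (ContinuousLinearMap.fst ℝ E (EuclideanSpace ℝ n)).comp
            (ContinuousLinearMap.fst ℝ (E × EuclideanSpace ℝ n) ℝ) :=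
          ((ContinuousLinearMap.fst ℝ E (EuclideanSpace ℝ n)).comp
            (ContinuousLinearMap.fst ℝ (E × EuclideanSpace ℝ n) ℝ)).fderiv
        rw [hb]
        show fderiv ℝ (pB : (E × EuclideanSpace ℝ n) × ℝ → E) ((x, v), t) ((0, b), s) = 0
        rw [h1]; rfl
      have h2 := evA_mul_pb ((fderiv ℝ (pB : (E × EuclideanSpace ℝ n) × ℝ → E) ((x, v), t) :
          (E × EuclideanSpace ℝ n) × ℝ →ₗ[ℝ] E)) (oX x) (hoX0 x hx) y (oVf W ((x, v), t)) w hpw
      have h3 : (oVf W ((x, v), t) * F.pull pB oX ((x, v), t)) = oVf W ((x, v), t) *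
          pb ((fderiv ℝ (pB : (E × EuclideanSpace ℝ n) × ℝ → E) ((x, v), t) :
          (E × EuclideanSpace ℝ n) × ℝ →ₗ[ℝ] E)) (oX x) := rfl
      show evA _ _ (oVf W ((x, v), t) * F.pull pB oX ((x, v), t)) _ ≠ 0
      rw [h3, h2]
      refine mul_ne_zero (evA_oVf_ne h hz hwi hwv) ?_
      have h4 : (fun i => (fderiv ℝ (pB : (E × EuclideanSpace ℝ n) × ℝ → E) ((x, v), t) :
          (E × EuclideanSpace ℝ n) × ℝ →ₗ[ℝ] E) (y i)) = frame d X x := funext fun i => hy i
      rw [h4]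
      exact hoX.ne x hx

end ori

end Crest.Agent.R208.SN
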