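import Crest.Agent.R208.SN4
import Crest.Agent.R208.T3a
import Crest.Agent.R208.DEG2

/-! Row 208, block SN (helper900).  SN5: the form `T_R = (g, R s)^* thomF` on `SB X (P ∘ f)`. -/

set_option autoImplicit false
set_option linter.unusedSectionVars false

open MeasureTheory Set Filter Topology Module Matrix
open scoped ContDiff RealInnerProductSpace
open Crest.Agent.R208.F Crest.Agent.R208.FI Crest.Agent.R208.CW Crest.Agent.R208.T

noncomputable section

namespace Crest.Agent.R208.SN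

variable {n ι : Type*} [Fintype n] [DecidableEq n] [Fintype ι] [DecidableEq ι]

section er
variable {E : Type*} [NormedAddCommGroup E] [NormedSpace ℝ E] [FiniteDimensional ℝ E]
  {X : Set E} {P : E → EuclideanSpace ℝ n →L[ℝ] EuclideanSpace ℝ n}
  {W : E → (ι × Fin 2 → n) → ℝ}

theorem eR_ec (h : OR X P W) : EC X (eR P W) := by
  obtain ⟨⟨h1, h2, h3⟩, -⟩ := mem_Z_iff.1 (ef_mem_Z (OR.of h))
  exact ⟨h1, h2, h3⟩

theorem eR_hom : Hom (2 * Fintype.card ι) (eR P W) := fun x => (degC_ef _ _ x).1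

theorem pull_pow {E' : Type*} [NormedAddCommGroup E'] [NormedSpace ℝ E'] [FiniteDimensional ℝ E']
    (f : E → E') (a : E' → Ext E') (i : ℕ) : F.pull f (a ^ i) = (F.pull f a) ^ i := by
  funext x
  show pb _ ((a (f x)) ^ i) = (pb _ (a (f x))) ^ i
  exact map_pow _ _ _

theorem J_of_eqv {m : ℕ} {o a b : E → Ext E} (hX : Clo m X) (ho : Ori m X o)
    (ha : Sm X a) (hb : Sm X b) (h : Eqv X a b) : J m X o a = J m X o b :=
  J_of_coh hX ho ha hb (Coh.of_eqv h)

end er

section int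
variable {T : Submodule ℝ (EuclideanSpace ℝ n)} {C : Set (EuclideanSpace ℝ n)}
  {P : EuclideanSpace ℝ n → EuclideanSpace ℝ n →L[ℝ] EuclideanSpace ℝ n}
  {W : EuclideanSpace ℝ n → (ι × Fin 2 → n) → ℝ} {rho : EuclideanSpace ℝ n → EuclideanSpace ℝ n}
  {E : Type*} [NormedAddCommGroup E] [NormedSpace ℝ E] [FiniteDimensional ℝ E]
  {X : Set E} {f : E → EuclideanSpace ℝ n} {w : EuclideanSpace ℝ n}
  {g : (E × EuclideanSpace ℝ n) × ℝ → EuclideanSpace ℝ n} {c d : ℕ}

/-- `(g, R s)` -/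
def sR (R : ℝ) (w : EuclideanSpace ℝ n) (g : (E × EuclideanSpace ℝ n) × ℝ → EuclideanSpace ℝ n)
    (z : (E × EuclideanSpace ℝ n) × ℝ) : EuclideanSpace ℝ n × EuclideanSpace ℝ n :=
  (g z, R • sv w z)

theorem contDiff_rsv (R : ℝ) (w : EuclideanSpace ℝ n) :
    ContDiff ℝ ∞ (fun z : (E × EuclideanSpace ℝ n) × ℝ => R • sv w z) :=
  (contDiff_sv w).const_smul R

theorem smap_sR (h : Stp T C P W rho X f w g) (R : ℝ) :
    SMap (SB X (fun x => P (f x))) (Tot C P) (sR R w g) :=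
  ⟨fun z _ => h.sg.contDiffAt.prodMk (contDiff_rsv R w).contDiffAt,
    fun z hz => ⟨h.smap.maps hz, by
      show P (g z) (R • sv w z) = R • sv w z
      rw [map_smul, h.fix hz]⟩⟩

/-- the form -/
def TR (R : ℝ) (w : EuclideanSpace ℝ n) (g : (E × EuclideanSpace ℝ n) × ℝ → EuclideanSpace ℝ n)
    (P : EuclideanSpace ℝ n → EuclideanSpace ℝ n →L[ℝ] EuclideanSpace ℝ n)
    (W : EuclideanSpace ℝ n → (ι × Fin 2 → n) → ℝ) :
    (E × EuclideanSpace ℝ n) × ℝ → Ext ((E × EuclideanSpace ℝ n) × ℝ) :=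
  F.pull (sR R w g) (thomF P W)

theorem coh_TR [Nonempty ι] (hC : Sub c C) (h : Stp T C P W rho X f w g) (R : ℝ) :
    Coh (SB X (fun x => P (f x))) (TR R w g P W) ((2 : ℝ) • F.pull g (eR P W)) := by
  have hcs := csf_thomF hC h.spr.or
  have h1 := coh_homotopy (X := SB X (fun x => P (f x))) (Y := Tot C P)
    (Fh := fun p : ((E × EuclideanSpace ℝ n) × ℝ) × ℝ =>
      ((g p.1, (p.2 * R) • sv w p.1) : EuclideanSpace ℝ n × EuclideanSpace ℝ n))
    (w := thomF P W)
    (fun z _ t _ => by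
      have e1 : ContDiff ℝ ∞ fun p : ((E × EuclideanSpace ℝ n) × ℝ) × ℝ => g p.1 :=
        h.sg.comp contDiff_fst
      have e2 : ContDiff ℝ ∞ fun p : ((E × EuclideanSpace ℝ n) × ℝ) × ℝ => sv w p.1 :=
        (contDiff_sv w).comp contDiff_fst
      exact (e1.prodMk ((contDiff_snd.mul contDiff_const).smul e2)).contDiffAt)
    (fun z hz t _ => ⟨h.smap.maps hz, by
      show P (g z) ((t * R) • sv w z) = (t * R) • sv w z
      rw [map_smul, h.fix hz]⟩) hcs.smooth hcs.closed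
  have h2 : (fun y : (E × EuclideanSpace ℝ n) × ℝ =>
      ((g y, ((1 : ℝ) * R) • sv w y) : EuclideanSpace ℝ n × EuclideanSpace ℝ n)) = sR R w g :=
    funext fun y => by rw [one_mul]; rfl
  simp only [h2] at h1
  refine h1.trans (Coh.of_eqv ?_)
  have h3 : Eqv (SB X (fun x => P (f x))) (F.pull (fun y : (E × EuclideanSpace ℝ n) × ℝ =>
      ((g y, ((0 : ℝ) * R) • sv w y) : EuclideanSpace ℝ n × EuclideanSpace ℝ n)) (thomF P W))
      (F.pull g (F.pull (zs (E := EuclideanSpace ℝ n) (H := EuclideanSpace ℝ n)) (thomF P W))) := by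
    refine (eqv_pull_pull (X₃ := Tot C P) h.smap smap_zs ?_ ?_ _).symm
    · refine ⟨fun z _ => ?_, fun z hz => ⟨h.smap.maps hz, ?_⟩⟩
      · exact h.sg.contDiffAt.prodMk (contDiff_rsv _ w).contDiffAt
      · show P (g z) (((0 : ℝ) * R) • sv w z) = ((0 : ℝ) * R) • sv w z
        rw [zero_mul, zero_smul, map_zero]
    · intro z _
      show (g z, (0 : EuclideanSpace ℝ n)) = (g z, ((0 : ℝ) * R) • sv w z)
      rw [zero_mul, zero_smul]
  refine h3.trans ?_
  have h4 : Eqv C (F.pull (zs (E := EuclideanSpace ℝ n) (H := EuclideanSpace ℝ n)) (thomF P W))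
      ((2 : ℝ) • eR P W) := thomF_zero h.spr.or
  have h5 := h4.pull h.smap
  rwa [pull_smul'] at h5

theorem sm_TR [Nonempty ι] (hC : Sub c C) (h : Stp T C P W rho X f w g) (R : ℝ) :
    Sm (SB X (fun x => P (f x))) (TR R w g P W) :=
  (csf_thomF hC h.spr.or).smooth.pull (smap_sR h R)

theorem cl_TR [Nonempty ι] (hC : Sub c C) (h : Stp T C P W rho X f w g) (R : ℝ) :
    Cl (SB X (fun x => P (f x))) (TR R w g P W) :=
  (csf_thomF hC h.spr.or).closed.pull (smap_sR h R) (csf_thomF hC h.spr.or).smooth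

/-- for large `R` the form vanishes on `t ≤ 1/2` -/
theorem exists_R (hX : Clo d X) (h : Stp T C P W rho X f w g) :
    ∃ R : ℝ, 1 ≤ R ∧ ∀ z ∈ SB X (fun x => P (f x)), z.2 ≤ 1 / 2 → 3 < ‖R • sv w z‖ := by
  set K : Set ((E × EuclideanSpace ℝ n) × ℝ) := SB X (fun x => P (f x)) ∩ {z | z.2 ≤ 1 / 2}
    with hK
  have hKc : IsCompact K := (isCompact_SB hX.compact (pf h.spr h.hf)).inter_right
    (isClosed_le continuous_snd continuous_const)
  rcases K.eq_empty_or_nonempty with he | hne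
  · refine ⟨1, le_rfl, fun z hz hz2 => ?_⟩
    have : z ∈ K := ⟨hz, hz2⟩
    rw [he] at this
    exact this.elim
  · obtain ⟨z0, hz0, hmin⟩ := hKc.exists_isMinOn hne
      ((contDiff_sv (E := E) w).continuous.norm.continuousOn)
    set m := ‖sv w z0‖ with hm
    have hmpos : 0 < m := norm_pos_iff.2 (sv_ne h.hw hz0.1 (by
      have : z0.2 ≤ 1 / 2 := hz0.2
      linarith))
    refine ⟨4 / m + 1, by have : 0 < 4 / m := by positivity
                          linarith, fun z hz hz2 => ?_⟩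
    have h1 : m ≤ ‖sv w z‖ := hmin (show z ∈ K from ⟨hz, hz2⟩)
    have h2 : 0 < 4 / m + 1 := by positivity
    rw [norm_smul, Real.norm_of_nonneg h2.le]
    calc (3 : ℝ) < 4 := by norm_num
      _ = 4 / m * m := by field_simp
      _ ≤ (4 / m + 1) * ‖sv w z‖ := by
          have : 0 < 4 / m := by positivity
          nlinarith

theorem TR_zero [Nonempty ι] (hC : Sub c C) (h : Stp T C P W rho X f w g) {R : ℝ}
    (hR : ∀ z ∈ SB X (fun x => P (f x)), z.2 ≤ 1 / 2 → 3 < ‖R • sv w z‖)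
    {z : (E × EuclideanSpace ℝ n) × ℝ} (hz : z ∈ SB X (fun x => P (f x))) (h2 : z.2 ≤ 1 / 2) :
    TR R w g P W z = 0 :=
  pull_of_zero ((csf_thomF hC h.spr.or).supp _ (hR z hz h2))

theorem smap_pB (P : E → EuclideanSpace ℝ n →L[ℝ] EuclideanSpace ℝ n) :
    SMap (SB X P) X (pB : (E × EuclideanSpace ℝ n) × ℝ → E) :=
  ⟨fun z _ => by unfold pB; fun_prop, fun z hz => hz.1.1.1⟩

/-- `T_R a^i = T_R b^i` -/
theorem TR_mul [Nonempty ι] (hC : Sub c C) (h : Stp T C P W rho X f w g) {R : ℝ}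
    (hR : ∀ z ∈ SB X (fun x => P (f x)), z.2 ≤ 1 / 2 → 3 < ‖R • sv w z‖) (i : ℕ) :
    Eqv (SB X (fun x => P (f x))) (TR R w g P W * (F.pull g (eR P W)) ^ i)
      (TR R w g P W * F.pull pB ((F.pull f (eR P W)) ^ i)) := by
  have hU : IsOpen {z : (E × EuclideanSpace ℝ n) × ℝ | -(1 / 2) < z.2} :=
    isOpen_lt continuous_const continuous_snd
  have hU' : IsOpen {z : (E × EuclideanSpace ℝ n) × ℝ | z.2 < 1 / 2} :=
    isOpen_lt continuous_snd continuous_const
  refine Eqv.of_cover hU hU' (fun z _ => ?_) ?_ ?_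
  · rcases lt_or_ge z.2 (1 / 2) with h1 | h1
    · exact Or.inr h1
    · left
      show -(1 / 2) < z.2
      linarith
  · refine (Eqv.refl _).mul ?_
    rw [pull_pow]
    refine Eqv.pow ?_ i
    refine (eqv_pull_pull (X₂ := X) (X₃ := C) ?_ h.hf ?_ ?_ _).symm
    · exact ⟨fun z hz => (smap_pB _).smooth z hz.1, fun z hz => (smap_pB _).maps hz.1⟩
    · exact ⟨fun z hz => h.smap.smooth z hz.1, fun z hz => h.smap.maps hz.1⟩
    · intro z hz
      exact (h.up z hz.1 (le_of_lt hz.2)).symm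
  · refine Eqv.of_eq fun z hz => ?_
    have h0 := TR_zero hC h hR hz.1 (le_of_lt hz.2)
    rw [Pi.mul_apply, Pi.mul_apply, h0, zero_mul, zero_mul]

/-- **one step of the tower** in terms of the fibre integral -/
theorem step_int [Nonempty ι] (hC : Sub c C) (hX : Clo d X) (hXc : IsPreconnected X)
    {oX : E → Ext E} (hoX : Ori d X oX) (hoX0 : ∀ x ∈ X, ∀ q < d, evA E q (oX x) = 0)
    (h : Stp T C P W rho X f w g) {R : ℝ}
    (hR : ∀ z ∈ SB X (fun x => P (f x)), z.2 ≤ 1 / 2 → 3 < ‖R • sv w z‖) {i : ℕ}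
    (hd : d = 2 * Fintype.card ι * i) {x : E} (hx : x ∈ X) :
    2 * J (Fintype.card ι * 2 + d) (SB X (fun x => P (f x)))
      (fun z => oVf (fun x => W (f x)) z * F.pull pB oX z) ((F.pull g (eR P W)) ^ (i + 1))
      = J (Fintype.card ι * 2) (SB X (fun x => P (f x)) ∩ pB ⁻¹' {x})
          (oVf (fun x => W (f x))) (TR R w g P W) * J d X oX ((F.pull f (eR P W)) ^ i) := by
  have hor := OR_comp h.spr.or h.hf
  have hS := subm_SB hX (pf h.spr h.hf) (fun x hx => OR_sym hor hx)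
  have hoZ := ori_SB hX hoX hor (fun x hx => OR_sym hor hx) hoX0
  have hec := eR_ec h.spr.or
  have sa : Sm (SB X (fun x => P (f x))) (F.pull g (eR P W)) := hec.sm.pull h.smap
  have ca : Cl (SB X (fun x => P (f x))) (F.pull g (eR P W)) := hec.cl.pull h.smap hec.sm
  have sb : Sm X (F.pull f (eR P W)) := hec.sm.pull h.hf
  have sT := sm_TR hC h R
  have e1 : Coh (SB X (fun x => P (f x))) (TR R w g P W * (F.pull g (eR P W)) ^ i)
      ((2 : ℝ) • (F.pull g (eR P W)) ^ (i + 1)) := by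
    have := Coh.mul_right (sa.pow i) (Cl.pow sa ca i) (coh_TR hC h R)
    rwa [smul_mul_assoc, ← pow_succ'] at this
  have e2 := J_of_coh hS.cloZ hoZ (sT.mul (sa.pow i)) ((sa.pow (i + 1)).smul 2) e1
  have e3 := J_of_eqv hS.cloZ hoZ (sT.mul (sa.pow i))
    (sT.mul ((sb.pow i).pull (smap_pB _))) (TR_mul hC h hR i)
  have e4 := fibre_integration_const hS hXc hoX (continuousOn_oVf hor) hoZ hoX0
    (η := TR R w g P W) (om := (F.pull f (eR P W)) ^ i)
    (fun z hz => (sT z hz).of_le (by simp)) (cl_TR hC h R)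
    (fun y hy => ((sb.pow i) y hy).continuousAt.continuousWithinAt)
    (fun y _ q hq => by
      have : Hom (2 * Fintype.card ι * i) ((F.pull f (eR P W)) ^ i) := (eR_hom.pull).pow i
      exact this y q (by omega)) hx
  have e5 : J (Fintype.card ι * 2 + d) (SB X (fun x => P (f x)))
      (fun z => oVf (fun x => W (f x)) z * F.pull pB oX z)
      ((2 : ℝ) • (F.pull g (eR P W)) ^ (i + 1)) = 2 * J (Fintype.card ι * 2 + d)
      (SB X (fun x => P (f x))) (fun z => oVf (fun x => W (f x)) z * F.pull pB oX z)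
      ((F.pull g (eR P W)) ^ (i + 1)) := J_smul 2
  rw [← e5, ← e2, e3]
  exact e4

end int

end Crest.Agent.R208.SN
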