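import Mathlib

/-!
# R208, block SPEC, part 1: the principal square root in a finite dimensional complex algebra
-/

set_option autoImplicit false

namespace Crest.Agent.R208.SP

open Polynomial

/-- a complex square root in the open right half plane -/
theorem exists_sq_re_pos {r : ℂ} (hr : ∀ t : ℝ, 0 ≤ t → r ≠ -(t : ℂ)) :
    ∃ s : ℂ, s ^ 2 = r ∧ 0 < s.re := by
  obtain ⟨s, hs⟩ := IsAlgClosed.exists_pow_nat_eq r (by norm_num : 0 < 2)
  have h0 : s.re ≠ 0 := by
    intro h
    refine hr (s.im ^ 2) (by positivity) ?_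
    rw [← hs]
    apply Complex.ext <;> simp [pow_two, h]
  rcases lt_or_gt_of_ne h0 with h | h
  · exact ⟨-s, by rw [neg_sq, hs], by simpa using h⟩
  · exact ⟨s, hs, h⟩

section Alg

variable {A : Type*} [Ring A] [Algebra ℂ A] [FiniteDimensional ℂ A]

/-- a root of the minimal polynomial is in the spectrum -/
theorem not_isUnit_of_isRoot_minpoly {a : A} {r : ℂ} (hr : (minpoly ℂ a).IsRoot r) :
    ¬ IsUnit (a - algebraMap ℂ A r) := by
  intro hu
  have hint : IsIntegral ℂ a := IsIntegral.of_finite ℂ a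
  obtain ⟨g, hg⟩ := dvd_iff_isRoot.mpr hr
  have hf0 : minpoly ℂ a ≠ 0 := minpoly.ne_zero hint
  have h1 : (a - algebraMap ℂ A r) * aeval a g = 0 := by
    have := minpoly.aeval ℂ a
    rw [hg] at this
    simpa using this
  have h2 : aeval a g = 0 := by
    obtain ⟨u, hu⟩ := hu
    rw [← hu] at h1
    exact (Units.mul_right_eq_zero u).mp h1
  have h3 : minpoly ℂ a ∣ g := minpoly.dvd ℂ a h2
  have hg0 : g ≠ 0 := by
    rintro rfl
    rw [mul_zero] at hg
    exact hf0 hg
  have h4 := natDegree_le_of_dvd h3 hg0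
  have h5 : (minpoly ℂ a).natDegree = 1 + g.natDegree := by
    rw [hg, natDegree_mul (X_sub_C_ne_zero r) hg0, natDegree_X_sub_C]
  omega

/-- If `q` vanishes at all roots of the minimal polynomial then `q(a)` is nilpotent. -/
theorem isNilpotent_aeval {a : A} {q : ℂ[X]} (hq : ∀ r : ℂ, (minpoly ℂ a).IsRoot r → q.IsRoot r) :
    ∃ k : ℕ, minpoly ℂ a ∣ q ^ k := by
  have hint : IsIntegral ℂ a := IsIntegral.of_finite ℂ a
  have hf0 : minpoly ℂ a ≠ 0 := minpoly.ne_zero hint
  obtain ⟨g, k, sqf, hgf, hfg⟩ := exists_squarefree_dvd_pow_of_ne_zero hf0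
  refine ⟨k, hfg.trans (pow_dvd_pow_of_dvd ?_ k)⟩
  have hg0 : g ≠ 0 := sqf.ne_zero
  by_cases hq0 : q = 0
  · rw [hq0]; exact dvd_zero g
  refine (IsAlgClosed.splits g).dvd_of_roots_le_roots hg0 ?_
  have hnd : g.roots.Nodup := nodup_roots (PerfectField.separable_iff_squarefree.mpr sqf)
  rw [Multiset.le_iff_subset hnd]
  intro r hr
  rw [mem_roots hg0] at hr
  rw [mem_roots hq0]
  exact hq r (hr.dvd hgf)

omit [FiniteDimensional ℂ A] in
/-- If `q` does not vanish at the roots of the minimal polynomial then `q(a)` has a polynomial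
inverse. -/
theorem exists_inv_aeval {a : A} {q : ℂ[X]} (hq : ∀ r : ℂ, (minpoly ℂ a).IsRoot r → q.eval r ≠ 0) :
    ∃ u v : ℂ[X], u * minpoly ℂ a + v * q = 1 := by
  have : IsCoprime (minpoly ℂ a) q := by
    rw [Polynomial.isCoprime_iff_aeval_ne_zero_of_isAlgClosed (k := ℂ) ℂ]
    intro r
    by_cases h : (minpoly ℂ a).IsRoot r
    · right; simpa using hq r h
    · left; simpa using h
  obtain ⟨u, v, h⟩ := this
  exact ⟨u, v, h⟩

/-- Existence of the principal square root as a polynomial in `a`. -/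
theorem exists_sqrt (a : A) (ha : ∀ t : ℝ, 0 ≤ t → IsUnit (a + algebraMap ℂ A t)) :
    ∃ p : ℂ[X], aeval a p * aeval a p = a ∧
      ∀ z : ℂ, z.re ≤ 0 → IsUnit (aeval a p - algebraMap ℂ A z) := by
  classical
  have hroot : ∀ r : ℂ, (minpoly ℂ a).IsRoot r → ∀ t : ℝ, 0 ≤ t → r ≠ -(t : ℂ) := by
    intro r hr t ht h
    apply not_isUnit_of_isRoot_minpoly hr
    rw [h]
    simpa using ha t ht
  have hs : ∀ r : ℂ, ∃ s : ℂ, (minpoly ℂ a).IsRoot r → s ^ 2 = r ∧ 0 < s.re := by
    intro r
    by_cases h : (minpoly ℂ a).IsRoot r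
    · obtain ⟨s, hs⟩ := exists_sq_re_pos (hroot r h)
      exact ⟨s, fun _ => hs⟩
    · exact ⟨0, fun h' => absurd h' h⟩
  choose s hs using hs
  have hint : IsIntegral ℂ a := IsIntegral.of_finite ℂ a
  have hf0 : minpoly ℂ a ≠ 0 := minpoly.ne_zero hint
  set p : ℂ[X] := Lagrange.interpolate (minpoly ℂ a).roots.toFinset id s with hp
  have hpe : ∀ r : ℂ, (minpoly ℂ a).IsRoot r → p.eval r = s r := by
    intro r hr
    have := Lagrange.eval_interpolate_at_node (s := (minpoly ℂ a).roots.toFinset) (v := id) s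
      (Set.injOn_id _) (i := r) (by simpa [hf0] using hr)
    exact this
  -- the commutative algebra `ℂ[a]`
  set aa : Algebra.adjoin ℂ {a} := ⟨a, Algebra.self_mem_adjoin_singleton ℂ a⟩ with haa
  have hmin : aeval aa (minpoly ℂ a) = 0 := by
    apply Subtype.ext
    simp [haa, minpoly.aeval]
  set P : (Algebra.adjoin ℂ {a})[X] := X ^ 2 - C aa with hP
  set x : Algebra.adjoin ℂ {a} := aeval aa p with hx
  have h1 : IsNilpotent (aeval x P) := by
    obtain ⟨k, q, hq⟩ := isNilpotent_aeval (a := a) (q := p ^ 2 - X) (by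
      intro r hr
      simp [IsRoot, hpe r hr, (hs r hr).1])
    refine ⟨k, ?_⟩
    have : aeval x P = aeval aa (p ^ 2 - X) := by simp [hP, hx]
    rw [this, ← map_pow, hq, map_mul, hmin, zero_mul]
  have h2 : IsUnit (aeval x (derivative P)) := by
    obtain ⟨u, v, huv⟩ := exists_inv_aeval (a := a) (q := C 2 * p) (by
      intro r hr
      have h3 : s r ≠ 0 := by
        intro h
        have := (hs r hr).2
        rw [h] at this
        simp at this
      simp [hpe r hr, h3])
    have h3 : aeval x (derivative P) = aeval aa (C 2 * p) := by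
      have h2' : (algebraMap ℂ (Algebra.adjoin ℂ {a})) 2 = 1 + 1 := by
        rw [map_ofNat]; norm_num
      simp [hP, hx, h2']
    rw [h3]
    refine IsUnit.of_mul_eq_one (aeval aa v) ?_
    have := congrArg (aeval aa) huv
    rw [map_add, map_mul, map_mul, hmin, mul_zero, zero_add, map_one] at this
    rw [mul_comm]; exact this
  obtain ⟨y, ⟨hy1, hy2⟩, -⟩ := existsUnique_nilpotent_sub_and_aeval_eq_zero h1 h2
  -- write `y` as a polynomial in `a`
  obtain ⟨q, hq⟩ : ∃ q : ℂ[X], aeval a q = (y : A) := by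
    have h := (SetLike.ext_iff.mp (Algebra.adjoin_singleton_eq_range_aeval ℂ a) (y : A)).mp y.2
    obtain ⟨q, hq⟩ := h
    exact ⟨q, hq⟩
  refine ⟨q, ?_, ?_⟩
  · rw [hq]
    have : y * y = aa := by
      have h4 : aeval y P = y * y - aa := by simp [hP, pow_two]
      rw [h4, sub_eq_zero] at hy2
      exact hy2
    have := congrArg Subtype.val this
    simpa [haa] using this
  · intro z hz
    -- `p(a) - z` is a unit and `q(a) - p(a)` is nilpotent
    obtain ⟨u, v, huv⟩ := exists_inv_aeval (a := a) (q := p - C z) (by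
      intro r hr h
      rw [eval_sub, eval_C, hpe r hr, sub_eq_zero] at h
      have := (hs r hr).2
      rw [h] at this
      linarith)
    have h5 : IsUnit (x - algebraMap ℂ _ z) := by
      have h6 : x - algebraMap ℂ _ z = aeval aa (p - C z) := by simp [hx]
      rw [h6]
      refine IsUnit.of_mul_eq_one (aeval aa v) ?_
      have := congrArg (aeval aa) huv
      rw [map_add, map_mul, map_mul, hmin, mul_zero, zero_add, map_one] at this
      rw [mul_comm]; exact this
    have h7 : IsUnit (y - algebraMap ℂ _ z) := by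
      have h8 : y - algebraMap ℂ _ z = (x - algebraMap ℂ _ z) + -(x - y) := by ring
      rw [h8]
      exact hy1.neg.isUnit_add_left_of_commute h5 (Commute.all _ _)
    have h9 := h7.map (Algebra.adjoin ℂ {a}).val
    simpa [hq] using h9

/-- the Sylvester operator is injective -/
theorem sylvester {x y b : A} (hx : ∀ z : ℂ, z.re ≤ 0 → IsUnit (x - algebraMap ℂ A z))
    (hy : ∀ z : ℂ, z.re ≤ 0 → IsUnit (y - algebraMap ℂ A z)) (h : x * b + b * y = 0) : b = 0 := by
  -- `f(x) b = b f(-y)` for every polynomial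
  have h1 : x * b = b * (-y) := by
    rw [mul_neg]; exact eq_neg_of_add_eq_zero_left h
  have h2 : ∀ f : ℂ[X], aeval x f * b = b * aeval (-y) f := by
    intro f
    induction f using Polynomial.induction_on' with
    | add p q hp hq => simp [add_mul, mul_add, hp, hq]
    | monomial n c =>
      have h3 : ∀ n : ℕ, x ^ n * b = b * (-y) ^ n := by
        intro n
        induction n with
        | zero => simp
        | succ n ih => rw [pow_succ, mul_assoc, h1, ← mul_assoc, ih, mul_assoc, ← pow_succ]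
      rw [aeval_monomial, aeval_monomial, mul_assoc, h3, ← mul_assoc, ← mul_assoc,
        Algebra.commutes c b]
  have h3 := h2 (minpoly ℂ x)
  rw [minpoly.aeval, zero_mul] at h3
  have h4 : IsUnit (aeval (-y) (minpoly ℂ x)) := by
    have hint : IsIntegral ℂ x := IsIntegral.of_finite ℂ x
    have h5 := (IsAlgClosed.splits (minpoly ℂ x)).eq_prod_roots
    rw [(minpoly.monic hint).leadingCoeff] at h5
    by_contra hnu
    rw [h5, map_mul, aeval_C, map_one, one_mul] at hnu
    obtain ⟨k, hk, hk2⟩ := spectrum.exists_mem_of_not_isUnit_aeval_prod hnu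
    -- `k` is in the spectrum of `-y` and a root of the minimal polynomial of `x`
    have hk3 : ¬ (k.re ≤ 0) := by
      intro hre
      exact not_isUnit_of_isRoot_minpoly hk2 (hx k hre)
    have hk4 : IsUnit (algebraMap ℂ A k - -y) := by
      have := (hy (-k) (by simp; linarith))
      convert this using 1
      simp; abel
    exact spectrum.mem_iff.mp hk hk4
  obtain ⟨u, hu⟩ := h4
  rw [← hu] at h3
  exact (Units.mul_left_eq_zero u).mp h3.symm

/-- uniqueness of the principal square root -/
theorem sqrt_unique {x y : A} (hx : ∀ z : ℂ, z.re ≤ 0 → IsUnit (x - algebraMap ℂ A z))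
    (hy : ∀ z : ℂ, z.re ≤ 0 → IsUnit (y - algebraMap ℂ A z)) (h : x * x = y * y) : x = y := by
  have : x - y = 0 := by
    refine sylvester hx hy ?_
    rw [mul_sub, sub_mul, h]; abel
  exact sub_eq_zero.mp this

end Alg

end Crest.Agent.R208.SP
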