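import Crest.Agent.R208.SP1

/-!
# R208, block SPEC, part 1b: the principal square root function, commutation, equivariance,
smoothness
-/

set_option autoImplicit false

namespace Crest.Agent.R208.SP

open Polynomial Filter Topology

section Alg

variable {A : Type*} [Ring A] [Algebra ℂ A]

/-- the domain of the principal square root: no spectrum on `(-∞, 0]` -/
def Dom (a : A) : Prop := ∀ t : ℝ, 0 ≤ t → IsUnit (a + algebraMap ℂ A t)

/-- spectrum in the open right half plane -/
def Rhp (x : A) : Prop := ∀ z : ℂ, z.re ≤ 0 → IsUnit (x - algebraMap ℂ A z)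

theorem Rhp.isUnit {x : A} (hx : Rhp x) : IsUnit x := by
  simpa using hx 0 (by simp)

theorem Dom.isUnit {x : A} (hx : Dom x) : IsUnit x := by
  simpa using hx 0 le_rfl

/-- the square of an element with spectrum in the right half plane is in the domain -/
theorem Rhp.dom_mul_self {x : A} (hx : Rhp x) : Dom (x * x) := by
  intro t ht
  have h1 : x * x + algebraMap ℂ A t =
      (x - algebraMap ℂ A (Complex.I * (Real.sqrt t : ℝ))) *
      (x - algebraMap ℂ A (-(Complex.I * (Real.sqrt t : ℝ)))) := by
    have h2 : ((Real.sqrt t : ℝ) : ℂ) * ((Real.sqrt t : ℝ) : ℂ) = (t : ℂ) := by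
      rw [← Complex.ofReal_mul, Real.mul_self_sqrt ht]
    have h3 : algebraMap ℂ A (Complex.I * (Real.sqrt t : ℝ)) *
        algebraMap ℂ A (Complex.I * (Real.sqrt t : ℝ)) = - algebraMap ℂ A t := by
      rw [← map_mul, ← map_neg]
      congr 1
      calc Complex.I * (Real.sqrt t : ℝ) * (Complex.I * (Real.sqrt t : ℝ))
          = (Complex.I * Complex.I) * (((Real.sqrt t : ℝ) : ℂ) * ((Real.sqrt t : ℝ) : ℂ)) := by ring
        _ = -(t : ℂ) := by rw [h2, Complex.I_mul_I]; ring
    rw [map_neg, sub_neg_eq_add, sub_mul, mul_add, mul_add, h3,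
      Algebra.commutes (Complex.I * (Real.sqrt t : ℝ)) x]
    abel
  rw [h1]
  exact (hx _ (by simp)).mul (hx _ (by simp))

variable [FiniteDimensional ℂ A]

open Classical in
/-- the principal square root -/
noncomputable def sq (a : A) : A :=
  if h : Dom a then aeval a (exists_sqrt a h).choose else 0

theorem sq_mul_self {a : A} (h : Dom a) : sq a * sq a = a := by
  unfold sq; rw [dif_pos h]; exact (exists_sqrt a h).choose_spec.1

theorem rhp_sq {a : A} (h : Dom a) : Rhp (sq a) := by
  unfold sq; rw [dif_pos h]; exact (exists_sqrt a h).choose_spec.2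

theorem exists_poly_sq (a : A) : ∃ p : ℂ[X], sq a = aeval a p := by
  by_cases h : Dom a
  · exact ⟨(exists_sqrt a h).choose, by unfold sq; rw [dif_pos h]⟩
  · exact ⟨0, by unfold sq; rw [dif_neg h, map_zero]⟩

theorem sq_eq {x : A} (hx : Rhp x) : sq (x * x) = x :=
  sqrt_unique (rhp_sq hx.dom_mul_self) hx (sq_mul_self hx.dom_mul_self)

theorem sq_eq_of {a x : A} (hx : Rhp x) (h : x * x = a) : sq a = x := by
  rw [← h]; exact sq_eq hx

omit [FiniteDimensional ℂ A] in
theorem aeval_commute {a b : A} (h : Commute a b) (p : ℂ[X]) : Commute (aeval a p) b := by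
  induction p using Polynomial.induction_on' with
  | add p q hp hq => rw [map_add]; exact hp.add_left hq
  | monomial n c =>
    rw [aeval_monomial]
    exact Commute.mul_left (Algebra.commutes c b) (h.pow_left n)

theorem sq_commute {a b : A} (h : Commute a b) : Commute (sq a) b := by
  obtain ⟨p, hp⟩ := exists_poly_sq a
  rw [hp]; exact aeval_commute h p

/-- equivariance under (semilinear) ring homomorphisms: if `σ` is a ring homomorphism which
maps the real part of the scalars to itself up to conjugation -/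
theorem sq_map {B : Type*} [Ring B] [Algebra ℂ B] [FiniteDimensional ℂ B] (σ : A →+* B)
    (τ : ℂ → ℂ) (hτ : ∀ z, (τ z).re = z.re) (hσ : ∀ z, σ (algebraMap ℂ A (τ z)) = algebraMap ℂ B z)
    {a : A} (h : Dom a) : sq (σ a) = σ (sq a) := by
  refine sq_eq_of ?_ (by rw [← map_mul, sq_mul_self h])
  intro z hz
  have := (rhp_sq h (τ z) (by rw [hτ]; exact hz)).map σ
  rwa [map_sub, hσ] at this

end Alg

section Normed

variable {A : Type*} [NormedRing A] [NormedAlgebra ℂ A] [FiniteDimensional ℂ A]

/-- The set of elements with spectrum in the right half plane is open. -/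
theorem isOpen_rhp : IsOpen {x : A | Rhp x} := by
  have : CompleteSpace A := FiniteDimensional.complete ℂ A
  rw [isOpen_iff_mem_nhds]
  intro x₀ hx₀
  set C : ℝ := (‖x₀‖ + 1) * ‖(1 : A)‖ with hC
  set K : Set ℂ := Metric.closedBall 0 C ∩ {z : ℂ | z.re ≤ 0} with hK
  have hKc : IsCompact K :=
    (isCompact_closedBall 0 C).inter_right (isClosed_le Complex.continuous_re continuous_const)
  have hev : ∀ᶠ x in 𝓝 x₀, ∀ z ∈ K, IsUnit (x - algebraMap ℂ A z) := by
    refine hKc.eventually_forall_of_forall_eventually ?_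
    intro z hz
    have hcont : Continuous (fun q : A × ℂ => q.1 - algebraMap ℂ A q.2) :=
      continuous_fst.sub ((continuous_algebraMap ℂ A).comp continuous_snd)
    have := hcont.continuousAt (x := (x₀, z))
    exact this.eventually ((Units.isOpen (R := A)).mem_nhds (hx₀ z hz.2))
  have hb : ∀ᶠ x in 𝓝 x₀, ‖x‖ < ‖x₀‖ + 1 :=
    continuous_norm.continuousAt.eventually (gt_mem_nhds (by linarith))
  filter_upwards [hev, hb] with x hx hxb z hz
  by_cases hzC : ‖z‖ ≤ C
  · exact hx z ⟨by simpa using hzC, hz⟩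
  · have hn : ‖x‖ * ‖(1 : A)‖ < ‖z‖ := by
      refine lt_of_le_of_lt ?_ (not_le.mp hzC)
      exact mul_le_mul_of_nonneg_right hxb.le (norm_nonneg _)
    have h1 : z ∈ resolventSet ℂ x := spectrum.mem_resolventSet_of_norm_lt_mul hn
    have h2 : IsUnit (algebraMap ℂ A z - x) := h1
    have h3 : x - algebraMap ℂ A z = -(algebraMap ℂ A z - x) := by abel
    rw [h3]
    exact h2.neg

/-- The Sylvester operator `Y ↦ XY + YX` as a continuous linear map. -/
noncomputable def syl (x : A) : A →L[ℂ] A :=
  ContinuousLinearMap.mul ℂ A x + (ContinuousLinearMap.mul ℂ A).flip x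

omit [FiniteDimensional ℂ A] in
@[simp] theorem syl_apply (x y : A) : syl x y = x * y + y * x := rfl

theorem syl_injective {x : A} (hx : Rhp x) : Function.Injective (syl x) := by
  rw [injective_iff_map_eq_zero]
  intro b hb
  exact sylvester hx hx hb

omit [FiniteDimensional ℂ A] in
theorem hasFDerivAt_mul_self (x : A) :
    HasFDerivAt (𝕜 := ℂ) (fun x : A => x * x) (syl x) x := by
  have := (hasFDerivAt_id (𝕜 := ℂ) x).mul' (hasFDerivAt_id (𝕜 := ℂ) x)
  refine this.congr_fderiv ?_
  ext y
  simp [syl]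

/-- The principal square root is smooth (complex analytic). -/
theorem contDiffAt_sq {a : A} (ha : Dom a) (n : WithTop ℕ∞) : ContDiffAt ℂ n (sq : A → A) a := by
  have : CompleteSpace A := FiniteDimensional.complete ℂ A
  suffices h : ∀ m : WithTop ℕ∞, m ≠ 0 → ContDiffAt ℂ m (sq : A → A) a by
    by_cases hn : n = 0
    · exact (h 1 one_ne_zero).of_le (by rw [hn]; exact zero_le_one)
    · exact h n hn
  intro m hm
  set f : A → A := fun x => x * x with hf
  set x₀ := sq a with hx₀
  have hr : Rhp x₀ := rhp_sq ha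
  let e : A ≃ₗ[ℂ] A := LinearEquiv.ofInjectiveEndo (syl x₀ : A →ₗ[ℂ] A) (syl_injective hr)
  let E : A ≃L[ℂ] A := e.toContinuousLinearEquiv
  have hE : (E : A →L[ℂ] A) = syl x₀ := by
    ext y; rfl
  have hfd : HasFDerivAt (𝕜 := ℂ) f (E : A →L[ℂ] A) x₀ := by
    rw [hE]; exact hasFDerivAt_mul_self x₀
  have hfc : ContDiffAt ℂ m f x₀ := (contDiff_id.mul contDiff_id).contDiffAt
  have hfx : f x₀ = a := sq_mul_self ha
  set g := hfc.localInverse hfd hm with hg
  have hgc : ContDiffAt ℂ m g a := by
    have := hfc.to_localInverse hfd hm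
    rwa [hfx] at this
  have hga : g a = x₀ := by
    have := hfc.localInverse_apply_image hfd hm
    rwa [hfx] at this
  have hright : ∀ᶠ y in 𝓝 a, f (g y) = y := by
    have := (hfc.hasStrictFDerivAt' hfd hm).eventually_right_inverse
    rwa [hfx] at this
  have hrhp : ∀ᶠ y in 𝓝 a, Rhp (g y) := by
    have h1 : ∀ᶠ x in 𝓝 (g a), Rhp x := by
      rw [hga]; exact isOpen_rhp.mem_nhds hr
    exact hgc.continuousAt.eventually h1
  refine hgc.congr_of_eventuallyEq ?_
  filter_upwards [hright, hrhp] with y h1 h2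
  exact sq_eq_of h2 h1

/-- The domain of the principal square root is open. -/
theorem isOpen_dom : IsOpen {x : A | Dom x} := by
  have : CompleteSpace A := FiniteDimensional.complete ℂ A
  rw [isOpen_iff_mem_nhds]
  intro a ha
  have hm : (1 : WithTop ℕ∞) ≠ 0 := one_ne_zero
  set f : A → A := fun x => x * x with hf
  set x₀ := sq a with hx₀
  have hr : Rhp x₀ := rhp_sq ha
  let e : A ≃ₗ[ℂ] A := LinearEquiv.ofInjectiveEndo (syl x₀ : A →ₗ[ℂ] A) (syl_injective hr)
  let E : A ≃L[ℂ] A := e.toContinuousLinearEquiv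
  have hE : (E : A →L[ℂ] A) = syl x₀ := by
    ext y; rfl
  have hfd : HasFDerivAt (𝕜 := ℂ) f (E : A →L[ℂ] A) x₀ := by
    rw [hE]; exact hasFDerivAt_mul_self x₀
  have hfc : ContDiffAt ℂ 1 f x₀ := (contDiff_id.mul contDiff_id).contDiffAt
  have hfx : f x₀ = a := sq_mul_self ha
  set g := hfc.localInverse hfd hm with hg
  have hgc : ContDiffAt ℂ 1 g a := by
    have := hfc.to_localInverse hfd hm
    rwa [hfx] at this
  have hga : g a = x₀ := by
    have := hfc.localInverse_apply_image hfd hm
    rwa [hfx] at this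
  have hright : ∀ᶠ y in 𝓝 a, f (g y) = y := by
    have := (hfc.hasStrictFDerivAt' hfd hm).eventually_right_inverse
    rwa [hfx] at this
  have hrhp : ∀ᶠ y in 𝓝 a, Rhp (g y) := by
    have h1 : ∀ᶠ x in 𝓝 (g a), Rhp x := by
      rw [hga]; exact isOpen_rhp.mem_nhds hr
    exact hgc.continuousAt.eventually h1
  filter_upwards [hright, hrhp] with y h1 h2
  show Dom y
  rw [← h1]
  exact h2.dom_mul_self

end Normed

end Crest.Agent.R208.SP
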