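import Crest.Agent.R208.SP1b

/-!
# R208, block SPEC, part 2: the polar complex structure of `J` (algebra)

`P` idempotent, `J = P J P` without real eigenvalue on the range of `P`:
`I := J (sq (-J² + (1 - P)))⁻¹` is the complex structure on the range of `P` for which
`Q = (P - i I)/2` is the spectral projection of `J` belonging to the upper half plane.
-/

set_option autoImplicit false

namespace Crest.Agent.R208.SP

open Filter Topology

section Basic

variable {A : Type*} [Ring A]

/-- inverse and commutation -/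
theorem commute_inverse {a b : A} (h : Commute a b) : Commute (Ring.inverse a) b := by
  by_cases ha : IsUnit a
  · obtain ⟨u, rfl⟩ := ha
    rw [Ring.inverse_unit]
    exact Commute.units_inv_left h
  · rw [Ring.inverse_non_unit _ ha]; exact Commute.zero_left _

/-- block units: if `e` is an idempotent commuting with the units `u`, `v`, then
`e u + (1-e) v` is a unit -/
theorem isUnit_block {e u v : A} (he : e * e = e) (hu : IsUnit u) (hv : IsUnit v)
    (hcu : Commute e u) (hcv : Commute e v) : IsUnit (e * u + (1 - e) * v) := by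
  obtain ⟨u, rfl⟩ := hu
  obtain ⟨v, rfl⟩ := hv
  have hcu' : Commute e (↑u⁻¹ : A) := Commute.units_inv_right hcu
  have hcv' : Commute e (↑v⁻¹ : A) := Commute.units_inv_right hcv
  have h1 : (1 - e) * e = 0 := by rw [sub_mul, one_mul, he, sub_self]
  have h2 : e * (1 - e) = 0 := by rw [mul_sub, mul_one, he, sub_self]
  have h3 : (1 - e) * (1 - e) = 1 - e := by rw [mul_sub, mul_one, h1, sub_zero]
  have hcu2 : Commute (1 - e) (u : A) := (Commute.one_left _).sub_left hcu
  have hcv2 : Commute (1 - e) (v : A) := (Commute.one_left _).sub_left hcv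
  have hcu2' : Commute (1 - e) (↑u⁻¹ : A) := (Commute.one_left _).sub_left hcu'
  have hcv2' : Commute (1 - e) (↑v⁻¹ : A) := (Commute.one_left _).sub_left hcv'
  have key : ∀ x y x' y' : A, Commute e x → Commute (1 - e) x → Commute e y → Commute (1 - e) y →
      (e * x + (1 - e) * y) * (e * x' + (1 - e) * y') = e * (x * x') + (1 - e) * (y * y') := by
    intro x y x' y' hx hx2 hy hy2
    have a1 : e * x * (e * x') = e * (x * x') := by
      rw [mul_assoc, ← mul_assoc x, ← hx.eq, mul_assoc, ← mul_assoc e e, he]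
    have a2 : e * x * ((1 - e) * y') = 0 := by
      rw [mul_assoc, ← mul_assoc x, ← hx2.eq, mul_assoc, ← mul_assoc e (1 - e), h2, zero_mul]
    have a3 : (1 - e) * y * (e * x') = 0 := by
      rw [mul_assoc, ← mul_assoc y, ← hy.eq, mul_assoc, ← mul_assoc (1 - e) e, h1, zero_mul]
    have a4 : (1 - e) * y * ((1 - e) * y') = (1 - e) * (y * y') := by
      rw [mul_assoc, ← mul_assoc y, ← hy2.eq, mul_assoc, ← mul_assoc (1 - e) (1 - e), h3]
    rw [add_mul, mul_add, mul_add, a1, a2, a3, a4, add_zero, zero_add]
  refine isUnit_iff_exists.mpr ⟨e * ↑u⁻¹ + (1 - e) * ↑v⁻¹, ?_, ?_⟩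
  · rw [key _ _ _ _ hcu hcu2 hcv hcv2, Units.mul_inv, Units.mul_inv]; simp
  · rw [key _ _ _ _ hcu' hcu2' hcv' hcv2', Units.inv_mul, Units.inv_mul]; simp

end Basic

section Alg

variable {A : Type*} [Ring A] [Algebra ℂ A]

/-- `I` is the polar complex structure of `J` on the range of the idempotent `P`: all eigenvalues
of `J` on the `i`-eigenspace of `I` have positive imaginary part. -/
structure Pol (P J I : A) : Prop where
  PP : P * P = P
  PJ : P * J = J
  JP : J * P = J
  PI : P * I = I
  IP : I * P = I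
  II : I * I = -P
  comm : Commute I J
  rhp : Rhp (-(I * J) + (1 - P))

/-- the basic hypothesis: `J = P J P` has no real eigenvalue on the range of the idempotent `P` -/
structure NoReal (P J : A) : Prop where
  PP : P * P = P
  PJ : P * J = J
  JP : J * P = J
  unit : ∀ t : ℝ, IsUnit (J - algebraMap ℂ A t * P + (1 - P))

theorem NoReal.dom {P J : A} (h : NoReal P J) : Dom (-(J * J) + (1 - P)) := by
  intro t ht
  set s : ℂ := ((Real.sqrt t : ℝ) : ℂ) with hs
  have hss : s * s = (t : ℂ) := by
    rw [hs, ← Complex.ofReal_mul, Real.mul_self_sqrt ht]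
  have hc : ∀ x : A, Commute (algebraMap ℂ A s) x := fun x => Algebra.commutes s x
  have h1 := h.unit (Real.sqrt t)
  have h2 := h.unit (-Real.sqrt t)
  rw [← hs] at h1
  have h2' : IsUnit (J + algebraMap ℂ A s * P + (1 - P)) := by
    have : algebraMap ℂ A ((-Real.sqrt t : ℝ) : ℂ) = - algebraMap ℂ A s := by
      rw [Complex.ofReal_neg, map_neg]
    rw [this, neg_mul, sub_neg_eq_add] at h2
    exact h2
  have hJP : Commute J P := by rw [Commute, SemiconjBy, h.JP, h.PJ]
  have e0 : P * (1 - P) = 0 := by rw [mul_sub, mul_one, h.PP, sub_self]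
  have e1 : (1 - P) * P = 0 := by rw [sub_mul, one_mul, h.PP, sub_self]
  have e2 : J * (1 - P) = 0 := by rw [mul_sub, mul_one, h.JP, sub_self]
  have e3 : (1 - P) * J = 0 := by rw [sub_mul, one_mul, h.PJ, sub_self]
  have e4 : (1 - P) * (1 - P) = 1 - P := by rw [mul_sub, mul_one, e1, sub_zero]
  have h3 : (J - algebraMap ℂ A s * P + (1 - P)) * (J + algebraMap ℂ A s * P + (1 - P)) =
      J * J - algebraMap ℂ A t * P + (1 - P) := by
    have e5 : J * (algebraMap ℂ A s * P) = algebraMap ℂ A s * J := by
      rw [← mul_assoc, ← (hc J).eq, mul_assoc, h.JP]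
    have e6 : algebraMap ℂ A s * P * J = algebraMap ℂ A s * J := by rw [mul_assoc, h.PJ]
    have e7 : algebraMap ℂ A s * P * (algebraMap ℂ A s * P) = algebraMap ℂ A t * P := by
      rw [mul_assoc, ← mul_assoc P, ← (hc P).eq, mul_assoc, h.PP, ← mul_assoc, ← map_mul, hss]
    have e8 : algebraMap ℂ A s * P * (1 - P) = 0 := by rw [mul_assoc, e0, mul_zero]
    have e9 : (1 - P) * (algebraMap ℂ A s * P) = 0 := by
      rw [← mul_assoc, ← (hc _).eq, mul_assoc, e1, mul_zero]
    rw [add_mul, sub_mul, mul_add, mul_add, mul_add, mul_add, mul_add, mul_add, e5, e6, e7, e8,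
      e9, e2, e3, e4]
    abel
  have h4 := h1.mul h2'
  rw [h3] at h4
  -- now `-(J²) + (1-P) + t = - P (J² - t P + (1-P)) + (1-P) (1+t)`
  have h5 : -(J * J) + (1 - P) + algebraMap ℂ A t =
      P * -(J * J - algebraMap ℂ A t * P + (1 - P)) + (1 - P) * (algebraMap ℂ A (1 + t)) := by
    have f1 : P * (J * J) = J * J := by rw [← mul_assoc, h.PJ]
    have f2 : P * (algebraMap ℂ A t * P) = algebraMap ℂ A t * P := by
      rw [← mul_assoc, ← Algebra.commutes (t : ℂ) P, mul_assoc, h.PP]
    rw [mul_neg, mul_add, mul_sub, f1, f2, e0, map_add, map_one, mul_add, mul_one, sub_mul (1 : A),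
      one_mul, ← Algebra.commutes (t : ℂ) P]
    abel
  rw [h5]
  have hcc : Commute P (J * J - algebraMap ℂ A t * P + (1 - P)) := by
    refine ((hJP.symm.mul_right hJP.symm).sub_right ?_).add_right ?_
    · exact Commute.mul_right (Algebra.commutes (t : ℂ) P).symm (Commute.refl _)
    · exact (Commute.one_right _).sub_right (Commute.refl _)
  refine isUnit_block h.PP h4.neg ?_ hcc.neg_right (Algebra.commutes _ _).symm
  refine IsUnit.map (algebraMap ℂ A) ?_
  rw [isUnit_iff_ne_zero]
  intro h0
  have := congrArg Complex.re h0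
  simp at this
  linarith

theorem Pol.commIP {P J I : A} (h : Pol P J I) : Commute I P := by
  rw [Commute, SemiconjBy, h.IP, h.PI]

theorem Pol.commJP {P J I : A} (h : Pol P J I) : Commute J P := by
  rw [Commute, SemiconjBy, h.JP, h.PJ]

/-- the square of `-IJ + (1-P)` -/
theorem Pol.sq_eq {P J I : A} (h : Pol P J I) :
    (-(I * J) + (1 - P)) * (-(I * J) + (1 - P)) = -(J * J) + (1 - P) := by
  have e1 : (1 - P) * (I * J) = 0 := by
    rw [sub_mul, one_mul, ← mul_assoc, h.PI, sub_self]
  have e2 : (I * J) * (1 - P) = 0 := by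
    rw [mul_sub, mul_one, mul_assoc, h.JP, sub_self]
  have e4 : (1 - P) * (1 - P) = 1 - P := by
    rw [mul_sub, mul_one, sub_mul, one_mul, h.PP]; abel
  have e5 : I * J * (I * J) = -(J * J) := by
    rw [mul_assoc, ← mul_assoc J I J, ← h.comm.eq, mul_assoc I J J, ← mul_assoc I I, h.II, neg_mul,
      ← mul_assoc, h.PJ]
  rw [add_mul, mul_add, mul_add, neg_mul_neg, e5, neg_mul, e2, mul_neg, e1, e4]
  abel

variable [FiniteDimensional ℂ A]

/-- the polar complex structure -/
noncomputable def pol (P J : A) : A := J * Ring.inverse (sq (-(J * J) + (1 - P)))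

theorem pol_spec {P J : A} (h : NoReal P J) : Pol P J (pol P J) := by
  set D : A := -(J * J) + (1 - P) with hD
  have hdom : Dom D := h.dom
  set R : A := sq D with hR
  have hRR : R * R = D := sq_mul_self hdom
  have hRr : Rhp R := rhp_sq hdom
  have hJP : Commute J P := by rw [Commute, SemiconjBy, h.JP, h.PJ]
  have hDJ : Commute D J :=
    ((Commute.mul_left (Commute.refl J) (Commute.refl J)).neg_left).add_left
      ((Commute.one_left J).sub_left hJP.symm)
  have hDP : Commute D P :=
    ((Commute.mul_left hJP hJP).neg_left).add_left ((Commute.one_left P).sub_left (Commute.refl P))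
  have hRJ : Commute R J := sq_commute hDJ
  have hRP : Commute R P := sq_commute hDP
  set V : A := Ring.inverse R with hV
  have hVR : V * R = 1 := Ring.inverse_mul_cancel _ hRr.isUnit
  have hRV : R * V = 1 := Ring.mul_inverse_cancel _ hRr.isUnit
  have hVJ : Commute V J := commute_inverse hRJ
  have hVP : Commute V P := commute_inverse hRP
  have e2 : J * (1 - P) = 0 := by rw [mul_sub, mul_one, h.JP, sub_self]
  have e3 : (1 - P) * J = 0 := by rw [sub_mul, one_mul, h.PJ, sub_self]
  have e1 : (1 - P) * P = 0 := by rw [sub_mul, one_mul, h.PP, sub_self]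
  have e4 : (1 - P) * (1 - P) = 1 - P := by rw [mul_sub, mul_one, e1, sub_zero]
  have hIdef : pol P J = J * V := rfl
  have hDP2 : D * P = -(J * J) := by
    rw [hD, add_mul, neg_mul, mul_assoc, h.JP, e1, add_zero]
  have hJJ : J * J = -(D * P) := by rw [hDP2, neg_neg]
  have hVVD : V * V * D = 1 := by
    rw [← hRR, mul_assoc, ← mul_assoc V R R, hVR, one_mul, hVR]
  -- `R (1 - P) = 1 - P`
  have hRq : R * (1 - P) = 1 - P := by
    -- `P R + (1-P)` is also a principal square root of `D`
    have hr2 : Rhp (P * R + (1 - P)) := by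
      intro z hz
      have h6 : P * R + (1 - P) - algebraMap ℂ A z =
          P * (R - algebraMap ℂ A z) + (1 - P) * (algebraMap ℂ A (1 - z)) := by
        rw [map_sub, map_one]
        noncomm_ring
      rw [h6]
      refine isUnit_block h.PP (hRr z hz) ?_ ?_ ?_
      · refine IsUnit.map (algebraMap ℂ A) ?_
        rw [isUnit_iff_ne_zero]
        intro h0
        have := congrArg Complex.re h0
        simp at this
        linarith
      · exact hRP.symm.sub_right (Algebra.commutes _ _).symm
      · exact (Algebra.commutes _ _).symm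
    have hsq : (P * R + (1 - P)) * (P * R + (1 - P)) = D := by
      have g1 : P * R * (P * R) = D * P := by
        rw [mul_assoc, ← mul_assoc R P R, hRP.eq, mul_assoc P R R, ← mul_assoc P P, h.PP, hRR,
          hDP.eq]
      have g2 : P * R * (1 - P) = 0 := by
        rw [mul_sub, mul_one, mul_assoc, hRP.eq, ← mul_assoc, h.PP, sub_self]
      have g3 : (1 - P) * (P * R) = 0 := by rw [← mul_assoc, e1, zero_mul]
      have g4 : D * P + (1 - P) = D := by rw [hDP2]
      rw [add_mul, mul_add, mul_add, g1, g2, g3, e4, zero_add, add_zero, g4]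
    have : R = P * R + (1 - P) := sq_eq_of hr2 hsq
    have g2 : P * R * (1 - P) = 0 := by
      rw [mul_sub, mul_one, mul_assoc, hRP.eq, ← mul_assoc, h.PP, sub_self]
    calc R * (1 - P) = (P * R + (1 - P)) * (1 - P) := by rw [← this]
      _ = 1 - P := by rw [add_mul, g2, e4, zero_add]
  -- `-(I J) + (1-P) = R`
  have hIJ : -(pol P J * J) + (1 - P) = R := by
    have g5 : pol P J * J = -(R * P) := by
      rw [hIdef, mul_assoc, hVJ.eq, ← mul_assoc, hJJ, neg_mul, mul_assoc, ← hVP.eq, ← mul_assoc,
        ← hRR, mul_assoc R R V, hRV, mul_one]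
    rw [g5, neg_neg]
    calc R * P + (1 - P) = R * P + R * (1 - P) := by rw [hRq]
      _ = R := by rw [← mul_add]; simp
  refine ⟨h.PP, h.PJ, h.JP, ?_, ?_, ?_, ?_, ?_⟩
  · rw [hIdef, ← mul_assoc, h.PJ]
  · rw [hIdef, mul_assoc, hVP.eq, ← mul_assoc, h.JP]
  · rw [hIdef, mul_assoc, ← mul_assoc V J V, hVJ.eq, mul_assoc J V V, ← mul_assoc, hJJ]
    have : D * P * (V * V) = P := by
      rw [hDP.eq, mul_assoc]
      have h7 : Commute D (V * V) := by
        have h8 : Commute V D := by
          rw [← hRR]
          have h9 : Commute V R := by rw [Commute, SemiconjBy, hVR, hRV]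
          exact h9.mul_right h9
        exact (h8.mul_left h8).symm
      rw [h7.eq, hVVD, mul_one]
    rw [neg_mul, this]
  · rw [hIdef]; exact (Commute.refl J).mul_left hVJ
  · rw [hIJ]; exact hRr

/-- uniqueness of the polar complex structure -/
theorem Pol.unique {P J I I' : A} (h : Pol P J I) (h' : Pol P J I') : I = I' := by
  have h1 : -(I * J) + (1 - P) = -(I' * J) + (1 - P) := by
    refine sqrt_unique h.rhp h'.rhp ?_
    rw [h.sq_eq, h'.sq_eq]
  have h2 : I * J = I' * J := by
    have := add_right_cancel h1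
    exact neg_inj.mp this
  -- `R = -(I J) + (1 - P)` is invertible and `I R = J` ... `I * (-(I*J)) = J`
  have h3 : I * (-(I * J) + (1 - P)) = J := by
    rw [mul_add, mul_neg, ← mul_assoc, h.II, neg_mul, neg_neg, h.PJ, mul_sub, mul_one, h.IP,
      sub_self, add_zero]
  have h4 : I' * (-(I * J) + (1 - P)) = J := by
    rw [h2, mul_add, mul_neg, ← mul_assoc, h'.II, neg_mul, neg_neg, h.PJ, mul_sub, mul_one, h'.IP,
      sub_self, add_zero]
  obtain ⟨u, hu⟩ := h.rhp.isUnit
  rw [← hu] at h3 h4
  exact (Units.mul_left_inj u).mp (h3.trans h4.symm)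

theorem NoReal.eq_pol {P J I : A} (h : NoReal P J) (hI : Pol P J I) : I = pol P J :=
  hI.unique (pol_spec h)

end Alg

end Crest.Agent.R208.SP
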