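import Crest.Agent.R208.SP2

/-!
# R208, block SPEC, part 3: the spectral idempotent `Q = (P - i I)/2`; Möbius invariance
-/

set_option autoImplicit false

namespace Crest.Agent.R208.SP

open Filter Topology

section Alg

variable {A : Type*} [Ring A] [Algebra ℂ A]

/-- `Q = (P - i I)/2` -/
noncomputable def qp (P I : A) : A := (1 / 2 : ℂ) • (P - Complex.I • I)

/-- `Q' = (P + i I)/2` -/
noncomputable def qm (P I : A) : A := (1 / 2 : ℂ) • (P + Complex.I • I)

theorem qp_add_qm (P I : A) : qp P I + qm P I = P := by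
  rw [qp, qm, ← smul_add, sub_add_add_cancel, ← two_smul ℂ P, smul_smul]
  norm_num

theorem qp_sub_qm (P I : A) : qp P I - qm P I = -(Complex.I • I) := by
  have : (1 / 2 : ℂ) • (P - Complex.I • I) - (1 / 2 : ℂ) • (P + Complex.I • I)
      = (1 / 2 : ℂ) • ((2 : ℂ) • -(Complex.I • I)) := by
    rw [← smul_sub, two_smul]; congr 1; abel
  rw [qp, qm, this, smul_smul]
  norm_num

theorem qm_eq_neg (P I : A) : qm P I = qp P (-I) := by
  rw [qm, qp, smul_neg, sub_neg_eq_add]

variable {P J I : A}

theorem Pol.I_qp (h : Pol P J I) : I * qp P I = Complex.I • qp P I := by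
  rw [qp, mul_smul_comm, mul_sub, mul_smul_comm, h.II, h.IP, smul_comm Complex.I (1 / 2 : ℂ)]
  congr 1
  rw [smul_sub, smul_smul Complex.I Complex.I I, Complex.I_mul_I]
  simp only [smul_neg, neg_smul, one_smul, sub_neg_eq_add]
  rw [add_comm]

theorem Pol.qp_I (h : Pol P J I) : qp P I * I = Complex.I • qp P I := by
  rw [qp, smul_mul_assoc, sub_mul, smul_mul_assoc, h.II, h.PI, smul_comm Complex.I (1 / 2 : ℂ)]
  congr 1
  rw [smul_sub, smul_smul Complex.I Complex.I I, Complex.I_mul_I]
  simp only [smul_neg, neg_smul, one_smul, sub_neg_eq_add]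
  rw [add_comm]

theorem Pol.P_qp (h : Pol P J I) : P * qp P I = qp P I := by
  rw [qp, mul_smul_comm, mul_sub, mul_smul_comm, h.PP, h.PI]

theorem Pol.qp_P (h : Pol P J I) : qp P I * P = qp P I := by
  rw [qp, smul_mul_assoc, sub_mul, smul_mul_assoc, h.PP, h.IP]

theorem Pol.qp_qp (h : Pol P J I) : qp P I * qp P I = qp P I := by
  conv_lhs => enter [1]; rw [qp]
  rw [smul_mul_assoc, sub_mul, smul_mul_assoc, h.P_qp, h.I_qp, smul_smul, Complex.I_mul_I,
    neg_smul, one_smul, sub_neg_eq_add, ← two_smul ℂ, smul_smul]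
  norm_num

theorem Pol.comm_qp (h : Pol P J I) : Commute (qp P I) J := by
  unfold qp
  refine Commute.smul_left (Commute.sub_left ?_ (Commute.smul_left h.comm _)) _
  rw [Commute, SemiconjBy, h.PJ, h.JP]

/-- anything commuting with `P` and `I` commutes with `Q` -/
theorem commute_qp {X : A} (h1 : Commute X P) (h2 : Commute X I) : Commute X (qp P I) := by
  unfold qp
  exact Commute.smul_right (Commute.sub_right h1 (Commute.smul_right h2 _)) _

theorem Pol.neg (h : Pol P J I) : Pol P (-J) (-I) := by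
  refine ⟨h.PP, ?_, ?_, ?_, ?_, ?_, ?_, ?_⟩
  · rw [mul_neg, h.PJ]
  · rw [neg_mul, h.JP]
  · rw [mul_neg, h.PI]
  · rw [neg_mul, h.IP]
  · rw [neg_mul_neg, h.II]
  · exact h.comm.neg_left.neg_right
  · rw [neg_mul_neg]; exact h.rhp

theorem Pol.I_qm (h : Pol P J I) : I * qm P I = -(Complex.I • qm P I) := by
  have := h.neg.I_qp
  rw [← qm_eq_neg] at this
  rw [← this, neg_mul, neg_neg]

theorem Pol.P_qm (h : Pol P J I) : P * qm P I = qm P I := by
  rw [qm_eq_neg]; exact h.neg.P_qp

theorem Pol.qm_P (h : Pol P J I) : qm P I * P = qm P I := by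
  rw [qm_eq_neg]; exact h.neg.qp_P

theorem Pol.qm_qm (h : Pol P J I) : qm P I * qm P I = qm P I := by
  rw [qm_eq_neg]; exact h.neg.qp_qp

theorem Pol.comm_qm (h : Pol P J I) : Commute (qm P I) J := by
  rw [qm_eq_neg]
  have := h.neg.comm_qp
  simpa using this.neg_right

theorem Pol.qp_qm (h : Pol P J I) : qp P I * qm P I = 0 := by
  conv_lhs => enter [1]; rw [qp]
  rw [smul_mul_assoc, sub_mul, smul_mul_assoc, h.P_qm, h.I_qm, smul_neg, smul_smul,
    Complex.I_mul_I, neg_smul, one_smul, neg_neg, sub_self, smul_zero]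

theorem Pol.qm_qp (h : Pol P J I) : qm P I * qp P I = 0 := by
  have := h.neg.qp_qm
  rwa [← qm_eq_neg, qm_eq_neg (I := -I), neg_neg] at this

/-- three block units: if `u`, `v`, `w` are units commuting with the idempotents `Q`, `Q'`,
`1 - P`. -/
theorem Pol.isUnit_block (h : Pol P J I) {u v w : A} (hu : IsUnit u) (hv : IsUnit v)
    (hw : IsUnit w) (hcu : Commute (qp P I) u) (hcv : Commute (qp P I) v)
    (hcw : Commute (qp P I) w) (hPv : Commute P v) (hPw : Commute P w) :
    IsUnit (qp P I * u + qm P I * v + (1 - P) * w) := by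
  -- first `Q' v + (1 - Q') w`
  have hm : qm P I = P - qp P I := by rw [eq_sub_iff_add_eq, add_comm]; exact qp_add_qm P I
  have hcv' : Commute (qm P I) v := by rw [hm]; exact hPv.sub_left hcv
  have hcw' : Commute (qm P I) w := by rw [hm]; exact hPw.sub_left hcw
  have h1 : IsUnit (qm P I * v + (1 - qm P I) * w) :=
    SP.isUnit_block h.qm_qm hv hw hcv' hcw'
  have hqq : Commute (qp P I) (qm P I) := by rw [Commute, SemiconjBy, h.qp_qm, h.qm_qp]
  have h2 : IsUnit (qp P I * u + (1 - qp P I) * (qm P I * v + (1 - qm P I) * w)) := by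
    refine SP.isUnit_block h.qp_qp hu h1 hcu ?_
    exact (hqq.mul_right hcv).add_right (((Commute.one_right _).sub_right hqq).mul_right hcw)
  have h3 : (1 - qp P I) * (qm P I * v + (1 - qm P I) * w) = qm P I * v + (1 - P) * w := by
    have h4 : (1 - qp P I) * qm P I = qm P I := by rw [sub_mul, one_mul, h.qp_qm, sub_zero]
    have h5 : (1 - qp P I) * (1 - qm P I) = 1 - P := by
      rw [mul_sub, mul_one, h4, sub_sub, qp_add_qm]
    rw [mul_add, ← mul_assoc, h4, ← mul_assoc, h5]
  rw [h3, ← add_assoc] at h2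
  exact h2

/-- On the range of `Q` the eigenvalues of `J` have positive imaginary part. -/
theorem Pol.isUnit_upper (h : Pol P J I) {z : ℂ} (hz : z.im ≤ 0) :
    IsUnit (qp P I * (J - algebraMap ℂ A z) + (1 - qp P I)) := by
  -- `Q (J - z) = Q i (R + i z)`
  have h1 : IsUnit ((algebraMap ℂ A Complex.I) *
      (-(I * J) + (1 - P) - algebraMap ℂ A (-(Complex.I * z)))) := by
    refine IsUnit.mul ?_ (h.rhp _ (by simpa using hz))
    exact (IsUnit.mk0 _ Complex.I_ne_zero).map (algebraMap ℂ A)
  have hI : Commute (qp P I) I := by rw [Commute, SemiconjBy, h.qp_I, h.I_qp]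
  have hP : Commute (qp P I) P := by rw [Commute, SemiconjBy, h.qp_P, h.P_qp]
  have hc : Commute (qp P I) ((algebraMap ℂ A Complex.I) *
      (-(I * J) + (1 - P) - algebraMap ℂ A (-(Complex.I * z)))) := by
    refine Commute.mul_right (Algebra.commutes _ _).symm ?_
    refine Commute.sub_right (Commute.add_right ?_ ?_) (Algebra.commutes _ _).symm
    · exact (hI.mul_right h.comm_qp).neg_right
    · exact (Commute.one_right _).sub_right hP
  have h2 := SP.isUnit_block h.qp_qp h1 isUnit_one hc (Commute.one_right _)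
  rw [mul_one] at h2
  have h3 : qp P I * ((algebraMap ℂ A Complex.I) *
      (-(I * J) + (1 - P) - algebraMap ℂ A (-(Complex.I * z)))) =
      qp P I * (J - algebraMap ℂ A z) := by
    rw [← Algebra.smul_def, mul_smul_comm, mul_sub, mul_add, mul_neg, ← mul_assoc, h.qp_I,
      mul_sub, mul_one, h.qp_P, sub_self, add_zero, smul_mul_assoc, mul_sub]
    rw [← Algebra.commutes, ← Algebra.commutes z, ← Algebra.smul_def, ← Algebra.smul_def,
      smul_sub, smul_neg, smul_smul, smul_smul, Complex.I_mul_I, neg_smul, neg_neg, one_smul]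
    congr 2
    rw [mul_neg, ← mul_assoc, Complex.I_mul_I]; ring
  rw [h3] at h2
  exact h2

/-- Affine invariance. -/
theorem Pol.affine (h : Pol P J I) {a b : ℝ} (ha : 0 < a) :
    Pol P (algebraMap ℂ A a * J + algebraMap ℂ A b * P) I := by
  have ca : ∀ (c : ℂ) (x : A), Commute (algebraMap ℂ A c) x := fun c x => Algebra.commutes c x
  refine ⟨h.PP, ?_, ?_, h.PI, h.IP, h.II, ?_, ?_⟩
  · rw [mul_add, ← mul_assoc, ← (ca a P).eq, mul_assoc, h.PJ, ← mul_assoc, ← (ca b P).eq,
      mul_assoc, h.PP]
  · rw [add_mul, mul_assoc, h.JP, mul_assoc, h.PP]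
  · refine Commute.add_right (Commute.mul_right (ca a I).symm h.comm)
      (Commute.mul_right (ca b I).symm h.commIP)
  · intro z hz
    set R : A := -(I * J) + (1 - P) with hR
    have hI : Commute (qp P I) I := by rw [Commute, SemiconjBy, h.qp_I, h.I_qp]
    have hP : Commute (qp P I) P := by rw [Commute, SemiconjBy, h.qp_P, h.P_qp]
    have hcR : Commute (qp P I) R := by
      refine Commute.add_right ?_ ?_
      · exact (hI.mul_right h.comm_qp).neg_right
      · exact (Commute.one_right _).sub_right hP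
    have hPR : Commute P R := by
      refine Commute.add_right ?_ ?_
      · exact (h.commIP.symm.mul_right h.commJP.symm).neg_right
      · exact (Commute.one_right _).sub_right (Commute.refl _)
    have hua : IsUnit (algebraMap ℂ A (a : ℂ)) :=
      (IsUnit.mk0 _ (by exact_mod_cast ha.ne')).map (algebraMap ℂ A)
    -- units of the three blocks
    have u1 : IsUnit (algebraMap ℂ A a * (R - algebraMap ℂ A ((z + b * Complex.I) / a))) := by
      refine hua.mul (h.rhp _ ?_)
      rw [Complex.div_ofReal_re]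
      refine div_nonpos_of_nonpos_of_nonneg ?_ ha.le
      simpa using hz
    have u2 : IsUnit (algebraMap ℂ A a * (R - algebraMap ℂ A ((z - b * Complex.I) / a))) := by
      refine hua.mul (h.rhp _ ?_)
      rw [Complex.div_ofReal_re]
      refine div_nonpos_of_nonpos_of_nonneg ?_ ha.le
      simpa using hz
    have u3 : IsUnit (algebraMap ℂ A (1 - z)) := by
      refine IsUnit.map (algebraMap ℂ A) ?_
      rw [isUnit_iff_ne_zero]
      intro h0
      have := congrArg Complex.re h0
      simp at this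
      linarith
    have hb := h.isUnit_block u1 u2 u3
      ((ca _ _).symm.mul_right (hcR.sub_right (ca _ _).symm))
      ((ca _ _).symm.mul_right (hcR.sub_right (ca _ _).symm))
      (ca _ _).symm
      ((ca _ _).symm.mul_right (hPR.sub_right (ca _ _).symm))
      (ca _ _).symm
    convert hb using 1
    have ha' : (a : ℂ) ≠ 0 := by exact_mod_cast ha.ne'
    -- both sides
    have e1 : algebraMap ℂ A a * (R - algebraMap ℂ A ((z + b * Complex.I) / a)) =
        algebraMap ℂ A a * R - algebraMap ℂ A z - algebraMap ℂ A (b * Complex.I) := by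
      rw [mul_sub, ← map_mul, mul_div_cancel₀ _ ha', map_add]; abel
    have e2 : algebraMap ℂ A a * (R - algebraMap ℂ A ((z - b * Complex.I) / a)) =
        algebraMap ℂ A a * R - algebraMap ℂ A z + algebraMap ℂ A (b * Complex.I) := by
      rw [mul_sub, ← map_mul, mul_div_cancel₀ _ ha', map_sub]; abel
    rw [e1, e2]
    have e3 : qp P I * (algebraMap ℂ A a * R - algebraMap ℂ A z - algebraMap ℂ A (b * Complex.I)) +
        qm P I * (algebraMap ℂ A a * R - algebraMap ℂ A z + algebraMap ℂ A (b * Complex.I)) =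
        (qp P I + qm P I) * (algebraMap ℂ A a * R - algebraMap ℂ A z) -
        (qp P I - qm P I) * algebraMap ℂ A (b * Complex.I) := by
      noncomm_ring
    rw [e3, qp_add_qm, qp_sub_qm]
    have e4 : P * (algebraMap ℂ A a * R) = -(algebraMap ℂ A a * (I * J)) := by
      rw [← mul_assoc, ← (ca a P).eq, mul_assoc, hR, mul_add, mul_neg, ← mul_assoc, h.PI, mul_sub,
        mul_one, h.PP, sub_self, add_zero, mul_neg]
    have e5 : -(Complex.I • I) * algebraMap ℂ A (b * Complex.I) = algebraMap ℂ A b * I := by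
      rw [← Algebra.commutes, ← Algebra.smul_def, ← Algebra.smul_def, smul_neg, smul_smul,
        mul_assoc, Complex.I_mul_I]
      simp
    rw [mul_sub, e4, e5, map_sub, map_one, sub_mul, one_mul, mul_sub, mul_one]
    have e6 : I * (algebraMap ℂ A a * J + algebraMap ℂ A b * P) =
        algebraMap ℂ A a * (I * J) + algebraMap ℂ A b * I := by
      rw [mul_add, ← mul_assoc I, ← (ca a I).eq, mul_assoc, ← mul_assoc I (algebraMap ℂ A b),
        ← (ca b I).eq, mul_assoc, h.IP]
    rw [e6]
    abel

/-- Inversion `J ↦ - J⁻¹`. -/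
theorem Pol.inv (h : Pol P J I) {K : A} (hPK : P * K = K) (hKP : K * P = K) (hKJ : K * J = -P)
    (hJK : J * K = -P) : Pol P K I := by
  -- `I` commutes with `K`
  have hIK : Commute I K := by
    -- `I K = - K J I K = - K I J K = K I P = K I`
    have h1 : K * J * I = -I := by rw [hKJ, neg_mul, h.PI]
    have h2 : I = -(K * J * I) := by rw [h1, neg_neg]
    rw [Commute, SemiconjBy]
    calc I * K = -(K * J * I) * K := by rw [← h2]
      _ = -(K * (I * (J * K))) := by
          rw [neg_mul, mul_assoc K J I, ← h.comm.eq, mul_assoc, mul_assoc]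
      _ = K * I := by rw [hJK, mul_neg, h.IP, mul_neg, neg_neg]
  refine ⟨h.PP, hPK, hKP, h.PI, h.IP, h.II, hIK, ?_⟩
  set R : A := -(I * J) + (1 - P) with hR
  have e1 : (1 - P) * (1 - P) = 1 - P := by
    rw [mul_sub, mul_one, sub_mul, one_mul, h.PP]; abel
  have e2 : (1 - P) * (I * J) = 0 := by rw [sub_mul, one_mul, ← mul_assoc, h.PI, sub_self]
  have e3 : (I * K) * (1 - P) = 0 := by rw [mul_sub, mul_one, mul_assoc, hKP, sub_self]
  have e4 : I * K * (I * J) = P := by
    rw [hIK.eq, mul_assoc, ← mul_assoc I I J, h.II, neg_mul, h.PJ, mul_neg, hKJ, neg_neg]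
  have hSR : (-(I * K) + (1 - P)) * R = 1 := by
    rw [hR, add_mul, mul_add, mul_add, neg_mul_neg, e4, neg_mul, e3, mul_neg, e2, e1]; abel
  have hu := h.rhp.isUnit
  have hS : -(I * K) + (1 - P) = Ring.inverse R := by
    obtain ⟨u, hu'⟩ := hu
    rw [← hR] at hu'
    rw [← hu', Ring.inverse_unit]
    rw [← hu'] at hSR
    exact (Units.inv_eq_of_mul_eq_one_left hSR).symm
  rw [hS]
  intro z hz
  by_cases hz0 : z = 0
  · rw [hz0, map_zero, sub_zero]; exact hu.ringInverse
  · have h5 : Ring.inverse R - algebraMap ℂ A z =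
        Ring.inverse R * (algebraMap ℂ A (-z) * (R - algebraMap ℂ A (1 / z))) := by
      rw [mul_sub, ← map_mul]
      have : -z * (1 / z) = -1 := by field_simp
      rw [this, mul_sub, ← mul_assoc, ← Algebra.commutes, mul_assoc, Ring.inverse_mul_cancel _ hu]
      simp [sub_eq_add_neg, add_comm]
    rw [h5]
    refine hu.ringInverse.mul (IsUnit.mul ?_ (h.rhp _ ?_))
    · exact (IsUnit.mk0 _ (neg_ne_zero.mpr hz0)).map (algebraMap ℂ A)
    · rw [one_div, Complex.inv_re]
      exact div_nonpos_of_nonpos_of_nonneg hz (Complex.normSq_nonneg z)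

/-- `J + (1-P)` is a unit. -/
theorem Pol.isUnit (h : Pol P J I) : IsUnit (J + (1 - P)) := by
  have h1 : (I + (1 - P)) * (-(I * J) + (1 - P)) = J + (1 - P) := by
    have e1 : (1 - P) * (1 - P) = 1 - P := by
      rw [mul_sub, mul_one, sub_mul, one_mul, h.PP]; abel
    have e2 : (1 - P) * (I * J) = 0 := by rw [sub_mul, one_mul, ← mul_assoc, h.PI, sub_self]
    have e3 : I * (1 - P) = 0 := by rw [mul_sub, mul_one, h.IP, sub_self]
    rw [add_mul, mul_add, mul_add, mul_neg, ← mul_assoc, h.II, neg_mul, neg_neg, h.PJ, e3,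
      mul_neg, e2, e1]
    abel
  rw [← h1]
  refine IsUnit.mul ?_ h.rhp.isUnit
  have e1 : (1 - P) * (1 - P) = 1 - P := by
    rw [mul_sub, mul_one, sub_mul, one_mul, h.PP]; abel
  have e2 : (1 - P) * I = 0 := by rw [sub_mul, one_mul, h.PI, sub_self]
  have e3 : I * (1 - P) = 0 := by rw [mul_sub, mul_one, h.IP, sub_self]
  refine isUnit_iff_exists.mpr ⟨-I + (1 - P), ?_, ?_⟩
  · rw [add_mul, mul_add, mul_add, mul_neg, h.II, e3, mul_neg, e2, e1]; abel
  · rw [add_mul, mul_add, mul_add, neg_mul, h.II, neg_mul, e3, e2, e1]; abel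

theorem Pol.noReal (h : Pol P J I) : NoReal P J := by
  refine ⟨h.PP, h.PJ, h.JP, fun t => ?_⟩
  have h1 := (h.affine (a := 1) (b := -t) one_pos).isUnit
  convert h1 using 1
  simp [sub_eq_add_neg]

/-- Rotation (Möbius) invariance: if `(c P + s J) J' = -s P + c J` with `c² + s² = 1`, then `J'`
has the same polar complex structure as `J`. -/
theorem Pol.rotate (h : Pol P J I) {c s : ℝ} (hcs : c ^ 2 + s ^ 2 = 1) {J' : A}
    (hPJ' : P * J' = J') (hJP' : J' * P = J')
    (hJ' : (algebraMap ℂ A c * P + algebraMap ℂ A s * J) * J' =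
      -(algebraMap ℂ A s * P) + algebraMap ℂ A c * J) : Pol P J' I := by
  have ca : ∀ (c : ℂ) (x : A), Commute (algebraMap ℂ A c) x := fun c x => Algebra.commutes c x
  by_cases hs : s = 0
  · subst hs
    have hc : (c : ℂ) ≠ 0 := by
      have : c ≠ 0 := by rintro rfl; norm_num at hcs
      exact_mod_cast this
    have h1 : algebraMap ℂ A c * J' = algebraMap ℂ A c * J := by
      simp only [Complex.ofReal_zero, map_zero, zero_mul, add_zero, neg_zero, zero_add] at hJ'
      rw [mul_assoc, hPJ'] at hJ'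
      exact hJ'
    have h2 : J' = J := by
      have hu : IsUnit (algebraMap ℂ A (c : ℂ)) := (IsUnit.mk0 _ hc).map (algebraMap ℂ A)
      exact hu.mul_left_cancel h1
    rw [h2]; exact h
  · have hs' : (s : ℂ) ≠ 0 := by exact_mod_cast hs
    set a : ℝ := s ^ 2 with ha
    set b : ℝ := c * s with hb
    have hapos : 0 < a := by positivity
    set L : A := algebraMap ℂ A a * J + algebraMap ℂ A b * P with hL
    have hPL : Pol P L I := h.affine hapos
    set K : A := J' - algebraMap ℂ A ((c / s : ℝ) : ℂ) * P with hK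
    have hLdef : L = algebraMap ℂ A s * (algebraMap ℂ A c * P + algebraMap ℂ A s * J) := by
      have t1 : ((s ^ 2 : ℝ) : ℂ) = s * s := by push_cast; ring
      have t2 : ((c * s : ℝ) : ℂ) = s * c := by push_cast; ring
      rw [hL, mul_add, ← mul_assoc, ← mul_assoc, ← map_mul, ← map_mul, ha, hb, t1, t2, add_comm]
    have hcsC : (c : ℂ) ^ 2 + (s : ℂ) ^ 2 = 1 := by exact_mod_cast hcs
    have hLK : L * K = -P := by
      have g1 : L * J' = -(algebraMap ℂ A (s * s) * P) + algebraMap ℂ A (s * c) * J := by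
        rw [hLdef, mul_assoc, hJ', mul_add, mul_neg, ← mul_assoc, ← mul_assoc, ← map_mul,
          ← map_mul]
      have g2 : L * (algebraMap ℂ A ((c / s : ℝ) : ℂ) * P) =
          algebraMap ℂ A (c * c) * P + algebraMap ℂ A (s * c) * J := by
        have hcs1 : ((c / s : ℝ) : ℂ) * s = c := by push_cast; field_simp
        rw [← mul_assoc, ← (ca _ L).eq, mul_assoc, hPL.JP, hLdef, ← mul_assoc, ← map_mul, hcs1,
          mul_add, ← mul_assoc, ← mul_assoc, ← map_mul, ← map_mul, mul_comm (s : ℂ) c]
      have g3 : algebraMap ℂ A (s * s : ℂ) * P + algebraMap ℂ A (c * c) * P = P := by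
        rw [← add_mul, ← map_add]
        have : (s : ℂ) * s + c * c = 1 := by rw [← hcsC]; ring
        rw [this, map_one, one_mul]
      rw [hK, mul_sub, g1, g2]
      calc -(algebraMap ℂ A (s * s : ℂ) * P) + algebraMap ℂ A (s * c : ℂ) * J -
          (algebraMap ℂ A (c * c : ℂ) * P + algebraMap ℂ A (s * c : ℂ) * J)
          = -(algebraMap ℂ A (s * s : ℂ) * P + algebraMap ℂ A (c * c : ℂ) * P) := by abel
        _ = -P := by rw [g3]
    clear_value L
    have hPK : P * K = K := by
      rw [hK, mul_sub, hPJ', ← mul_assoc, ← (ca _ P).eq, mul_assoc, h.PP]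
    have hKP : K * P = K := by
      rw [hK, sub_mul, hJP', mul_assoc, h.PP]
    have hKL : K * L = -P := by
      -- `L + (1-P)` is a unit with right inverse `-K + (1-P)`
      have e1 : (1 - P) * (1 - P) = 1 - P := by
        rw [mul_sub, mul_one, sub_mul, one_mul, h.PP]; abel
      have e2 : (1 - P) * K = 0 := by rw [sub_mul, one_mul, hPK, sub_self]
      have e3 : L * (1 - P) = 0 := by rw [mul_sub, mul_one, hPL.JP, sub_self]
      have e4 : K * (1 - P) = 0 := by rw [mul_sub, mul_one, hKP, sub_self]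
      have e5 : (1 - P) * L = 0 := by rw [sub_mul, one_mul, hPL.PJ, sub_self]
      have h6 : (L + (1 - P)) * (-K + (1 - P)) = 1 := by
        rw [add_mul, mul_add, mul_add, mul_neg, hLK, e3, mul_neg, e2, e1]; abel
      have h7 : (-K + (1 - P)) * (L + (1 - P)) = 1 := by
        obtain ⟨u, hu⟩ := hPL.isUnit
        rw [← hu] at h6 ⊢
        have h8 : (-K + (1 - P)) = ↑u⁻¹ := (Units.inv_eq_of_mul_eq_one_right h6).symm
        rw [h8]; exact Units.inv_mul u
      rw [add_mul, mul_add, mul_add, neg_mul, neg_mul, e4, e5, e1] at h7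
      have h8 : -(K * L) + (1 - P) = 1 := by
        rw [neg_zero, add_zero, zero_add] at h7; exact h7
      have h9 : -(K * L) = P := by
        have := eq_sub_of_add_eq h8
        rw [this]; abel
      rw [← h9, neg_neg]
    have hPKI : Pol P K I := hPL.inv hPK hKP hKL hLK
    have h3 := hPKI.affine (a := 1) (b := c / s) one_pos
    have h4 : algebraMap ℂ A ((1 : ℝ) : ℂ) * K + algebraMap ℂ A ((c / s : ℝ) : ℂ) * P = J' := by
      rw [hK]; simp
    rw [h4] at h3
    exact h3

end Alg

end Crest.Agent.R208.SP
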