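import Crest.Agent.R208.SP5

/-!
# R208, block SPEC, part 4: the intertwiner `S₁ - i S₂ : T_J → F_J`
-/

set_option autoImplicit false

namespace Crest.Agent.R208.SP

open Filter Topology Matrix

section PIso

variable {R : Type*} [CommRing R] {m n : Type*} [Fintype m] [Fintype n]

/-- `S : range P → range P'` and `W : range P' → range P` are mutually inverse
isomorphisms. -/
structure PIso (P : Matrix n n R) (P' : Matrix m m R) (S : Matrix m n R) (W : Matrix n m R) :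
    Prop where
  sp : S * P = S
  ps : P' * S = S
  wp : W * P' = W
  pw : P * W = W
  ws : W * S = P
  sw : S * W = P'

variable {P : Matrix n n R} {P' : Matrix m m R} {S : Matrix m n R} {W : Matrix n m R}

theorem PIso.symm (h : PIso P P' S W) : PIso P' P W S :=
  ⟨h.wp, h.pw, h.sp, h.ps, h.sw, h.ws⟩

theorem PIso.idem (h : PIso P P' S W) : P * P = P := by
  conv_lhs => rw [← h.ws]
  rw [Matrix.mul_assoc, ← Matrix.mul_assoc S, h.sw, h.ps, h.ws]

theorem PIso.idem' (h : PIso P P' S W) : P' * P' = P' := h.symm.idem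

theorem PIso.unique (h : PIso P P' S W) {W' : Matrix n m R} (h' : PIso P P' S W') : W = W' := by
  calc W = W * P' := h.wp.symm
    _ = W * (S * W') := by rw [h'.sw]
    _ = P * W' := by rw [← Matrix.mul_assoc, h.ws]
    _ = W' := h'.pw

theorem PIso.trans {l : Type*} [Fintype l] {P'' : Matrix l l R} {S' : Matrix l m R}
    {W' : Matrix m l R} (h : PIso P P' S W) (h' : PIso P' P'' S' W') :
    PIso P P'' (S' * S) (W * W') := by
  refine ⟨?_, ?_, ?_, ?_, ?_, ?_⟩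
  · rw [Matrix.mul_assoc, h.sp]
  · rw [← Matrix.mul_assoc, h'.ps]
  · rw [Matrix.mul_assoc, h'.wp]
  · rw [← Matrix.mul_assoc, h.pw]
  · rw [Matrix.mul_assoc, ← Matrix.mul_assoc W', h'.ws, h.ps, h.ws]
  · rw [Matrix.mul_assoc, ← Matrix.mul_assoc S, h.sw, h'.pw, h'.sw]

/-- restriction to the range of an idempotent `Q ≤ P`. -/
theorem PIso.restrict (h : PIso P P' S W) {Q : Matrix n n R} (hQ : Q * Q = Q)
    (hPQ : P * Q = Q) : PIso Q (S * Q * W) (S * Q) (Q * W) := by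
  have e1 : W * S * Q = Q := by rw [h.ws, hPQ]
  refine ⟨?_, ?_, ?_, ?_, ?_, ?_⟩
  · rw [Matrix.mul_assoc, hQ]
  · rw [Matrix.mul_assoc, ← Matrix.mul_assoc W, e1, Matrix.mul_assoc, hQ]
  · rw [Matrix.mul_assoc, ← Matrix.mul_assoc W, ← Matrix.mul_assoc W, h.ws, hPQ,
      ← Matrix.mul_assoc, hQ]
  · rw [← Matrix.mul_assoc, hQ]
  · rw [Matrix.mul_assoc, ← Matrix.mul_assoc W, e1, hQ]
  · rw [Matrix.mul_assoc S, ← Matrix.mul_assoc Q, hQ, Matrix.mul_assoc]

end PIso

section Main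

variable {m n : Type*} [Fintype m] [Fintype n] [DecidableEq n] [DecidableEq m]

variable {P I : Matrix n n ℂ} {P' : Matrix m m ℂ} {S₁ S₂ : Matrix m n ℂ} {W₁ : Matrix n m ℂ}

/-- the unit `Q (J + i) + (1 - Q)` -/
noncomputable def uU (P J I : Matrix n n ℂ) : Matrix n n ℂ :=
  qp P I * (J + Complex.I • 1) + (1 - qp P I)

theorem isUnit_uU {J : Matrix n n ℂ} (h : Pol P J I) : IsUnit (uU P J I) := by
  have := h.isUnit_upper (z := -Complex.I) (by simp)
  rwa [map_neg, sub_neg_eq_add, Algebra.algebraMap_eq_smul_one] at this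

theorem commute_qp_add {J : Matrix n n ℂ} (h : Pol P J I) :
    Commute (qp P I) (J + Complex.I • 1) :=
  h.comm_qp.add_right ((Commute.one_right _).smul_right _)

theorem uU_qp {J : Matrix n n ℂ} (h : Pol P J I) :
    uU P J I * qp P I = (J + Complex.I • 1) * qp P I := by
  rw [uU, add_mul, (commute_qp_add h).eq, mul_assoc, h.qp_qp, sub_mul, one_mul, h.qp_qp, sub_self,
    add_zero]

theorem qp_uU {J : Matrix n n ℂ} (h : Pol P J I) :
    qp P I * uU P J I = (J + Complex.I • 1) * qp P I := by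
  rw [uU, mul_add, ← mul_assoc, h.qp_qp, (commute_qp_add h).eq, mul_sub, mul_one, h.qp_qp,
    sub_self, add_zero]

/-- `Ŝ = (S₁ - i S₂) Q` -/
noncomputable def sHat (P I : Matrix n n ℂ) (S₁ S₂ : Matrix m n ℂ) : Matrix m n ℂ :=
  (S₁ - Complex.I • S₂) * qp P I

/-- the inverse of `Ŝ` -/
noncomputable def wHat (P J I : Matrix n n ℂ) (W₁ : Matrix n m ℂ) : Matrix n m ℂ :=
  Complex.I • (qp P I * Ring.inverse (uU P J I) * W₁)

omit [DecidableEq m] in
/-- **The intertwiner.** If `S₁ : range P → range P'` is an isomorphism with inverse `W₁`, and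
`J = W₁ S₂` has the polar complex structure `I`, then `Ŝ = (S₁ - i S₂) Q` is an isomorphism of
`range Q = T_J` onto `range (S₁ Q W₁) = F_J`. -/
theorem PIso.hat (h : PIso P P' S₁ W₁) (h2 : P' * S₂ = S₂) (hI : Pol P (W₁ * S₂) I) :
    PIso (qp P I) (S₁ * qp P I * W₁) (sHat P I S₁ S₂) (wHat P (W₁ * S₂) I W₁) := by
  -- `S₂ = S₁ J`
  obtain ⟨J, hJ⟩ : ∃ J, J = W₁ * S₂ := ⟨_, rfl⟩
  have hS2 : S₂ = S₁ * J := by rw [hJ, ← Matrix.mul_assoc, h.sw, h2]
  rw [← hJ] at hI ⊢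
  have hu : IsUnit (uU P J I) := isUnit_uU hI
  have hQQ : qp P I * qp P I = qp P I := hI.qp_qp
  have hPQ : P * qp P I = qp P I := hI.P_qp
  have hQP : qp P I * P = qp P I := hI.qp_P
  have hUQ : uU P J I * qp P I = (J + Complex.I • 1) * qp P I := uU_qp hI
  have hQU : qp P I * uU P J I = (J + Complex.I • 1) * qp P I := qp_uU hI
  have hS : sHat P I S₁ S₂ = (-Complex.I) • (S₁ * (uU P J I * qp P I)) := by
    have e2 : (1 : Matrix n n ℂ) - Complex.I • J = (-Complex.I) • (J + Complex.I • 1) := by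
      rw [smul_add, smul_smul]
      simp [sub_eq_add_neg, add_comm]
    rw [sHat, hUQ, hS2, ← Matrix.mul_smul]
    have e1 : S₁ - S₁ * (Complex.I • J) = S₁ * (1 - Complex.I • J) := by
      rw [Matrix.mul_sub, Matrix.mul_one]
    rw [e1, Matrix.mul_assoc, e2, smul_mul_assoc, Matrix.mul_smul]
  generalize hU' : uU P J I = U at *
  generalize hQ' : qp P I = Q at *
  have hc : Commute Q U := by rw [Commute, SemiconjBy, hQU, hUQ]
  have hcV : Commute Q (Ring.inverse U) := (commute_inverse hc.symm).symm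
  have hUV : U * Ring.inverse U = 1 := Ring.mul_inverse_cancel _ hu
  have hVU : Ring.inverse U * U = 1 := Ring.inverse_mul_cancel _ hu
  have hW : wHat P J I W₁ = Complex.I • (Q * Ring.inverse U * W₁) := by
    rw [wHat, hU', hQ']
  rw [hS, hW]
  generalize hV' : Ring.inverse U = V at *
  have hII : Complex.I * -Complex.I = 1 := by rw [mul_neg, Complex.I_mul_I, neg_neg]
  have hII' : -Complex.I * Complex.I = 1 := by rw [neg_mul, Complex.I_mul_I, neg_neg]
  have hWSQ : W₁ * (S₁ * Q) = Q := by rw [← Matrix.mul_assoc, h.ws, hPQ]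
  have hQUc : U * Q = Q * U := hc.eq.symm
  have hPUQ : W₁ * (S₁ * (U * Q)) = U * Q := by
    rw [hQUc, ← Matrix.mul_assoc, ← Matrix.mul_assoc, h.ws, hPQ]
  refine ⟨?_, ?_, ?_, ?_, ?_, ?_⟩
  · rw [Matrix.smul_mul, Matrix.mul_assoc, Matrix.mul_assoc, hQQ]
  · rw [Matrix.mul_smul, Matrix.mul_assoc (S₁ * Q), hPUQ, Matrix.mul_assoc S₁,
      ← Matrix.mul_assoc Q, ← hQUc, Matrix.mul_assoc U, hQQ]
  · have e3 : W₁ * (S₁ * (Q * W₁)) = Q * W₁ := by
      rw [← Matrix.mul_assoc, ← Matrix.mul_assoc, h.ws, hPQ]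
    rw [Matrix.smul_mul, Matrix.mul_assoc (Q * V), Matrix.mul_assoc S₁, e3, ← Matrix.mul_assoc,
      Matrix.mul_assoc Q V Q, ← hcV.eq, ← Matrix.mul_assoc Q Q, hQQ]
  · rw [Matrix.mul_smul, ← Matrix.mul_assoc, ← Matrix.mul_assoc, hQQ]
  · rw [Matrix.smul_mul, Matrix.mul_smul, smul_smul, hII, one_smul, Matrix.mul_assoc (Q * V), hPUQ,
      Matrix.mul_assoc Q V, ← Matrix.mul_assoc V U, hVU, Matrix.one_mul, hQQ]
  · rw [Matrix.smul_mul, Matrix.mul_smul, smul_smul, hII', one_smul]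
    rw [Matrix.mul_assoc S₁, Matrix.mul_assoc U Q, ← Matrix.mul_assoc Q (Q * V),
      ← Matrix.mul_assoc Q Q V, hQQ, ← Matrix.mul_assoc U, ← Matrix.mul_assoc U Q V, hQUc,
      Matrix.mul_assoc Q U V, hUV, Matrix.mul_one, Matrix.mul_assoc]

/-- transfer of the polar structure to the range of `P'` -/
theorem PIso.pol (h : PIso P P' S₁ W₁) {J : Matrix n n ℂ} (hI : Pol P J I) :
    Pol P' (S₁ * J * W₁) (S₁ * I * W₁) := by
  have key : ∀ X Y : Matrix n n ℂ, P * Y = Y → S₁ * X * W₁ * (S₁ * Y * W₁) = S₁ * (X * Y) * W₁ := by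
    intro X Y hY
    have : W₁ * (S₁ * Y * W₁) = Y * W₁ := by
      rw [← Matrix.mul_assoc, ← Matrix.mul_assoc, h.ws, hY]
    rw [Matrix.mul_assoc (S₁ * X), this, ← Matrix.mul_assoc, Matrix.mul_assoc S₁]
  refine ⟨h.idem', ?_, ?_, ?_, ?_, ?_, ?_, ?_⟩
  · rw [← Matrix.mul_assoc, ← Matrix.mul_assoc, h.ps]
  · rw [Matrix.mul_assoc, h.wp]
  · rw [← Matrix.mul_assoc, ← Matrix.mul_assoc, h.ps]
  · rw [Matrix.mul_assoc, h.wp]
  · rw [key _ _ hI.PI, hI.II, Matrix.mul_neg, Matrix.neg_mul, h.sp, h.sw]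
  · rw [Commute, SemiconjBy, key _ _ hI.PJ, key _ _ hI.PI, hI.comm.eq]
  · intro z hz
    rw [key _ _ hI.PJ]
    have hu := hI.rhp z hz
    have hz1 : (1 - z) ≠ 0 := by
      intro h0
      have := congrArg Complex.re h0
      simp at this
      linarith
    set R : Matrix n n ℂ := -(I * J) + (1 - P) - algebraMap ℂ _ z with hR
    have hPR : P * R = -(I * J) - z • P := by
      rw [hR, mul_sub, mul_add, mul_neg, ← mul_assoc, hI.PI, mul_sub, mul_one, hI.PP, sub_self,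
        add_zero, ← Algebra.commutes, ← Algebra.smul_def]
    have hPRc : Commute P R := by
      have h1 : Commute P I := hI.commIP.symm
      have h2 : Commute P J := hI.commJP.symm
      exact (((h1.mul_right h2).neg_right).add_right
        ((Commute.one_right _).sub_right (Commute.refl _))).sub_right (Algebra.commutes _ _).symm
    have h1 : -(S₁ * (I * J) * W₁) + (1 - P') - algebraMap ℂ (Matrix m m ℂ) z =
        S₁ * R * W₁ + (1 - z) • (1 - P') := by
      have h2 : S₁ * R * W₁ = -(S₁ * (I * J) * W₁) - z • P' := by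
        have h3 : S₁ * R = S₁ * (P * R) := by rw [← Matrix.mul_assoc, h.sp]
        rw [h3, hPR, Matrix.mul_sub, Matrix.sub_mul, Matrix.mul_neg, Matrix.neg_mul,
          Matrix.mul_smul, Matrix.smul_mul, h.sp, h.sw]
      rw [h2, Algebra.algebraMap_eq_smul_one, sub_smul, one_smul, smul_sub]
      abel
    rw [h1]
    have hRV : R * Ring.inverse R = 1 := Ring.mul_inverse_cancel _ hu
    have hVR : Ring.inverse R * R = 1 := Ring.inverse_mul_cancel _ hu
    have hPV : Commute P (Ring.inverse R) := (commute_inverse hPRc.symm).symm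
    generalize Ring.inverse R = V at hRV hVR hPV
    clear_value R
    have e0 : (1 - P') * (1 - P') = 1 - P' := by
      rw [mul_sub, mul_one, sub_mul, one_mul, h.idem']; abel
    have e1 : ∀ X : Matrix n m ℂ, (1 - P') * (S₁ * X) = 0 := by
      intro X; rw [← Matrix.mul_assoc, Matrix.sub_mul, Matrix.one_mul, h.ps, sub_self,
        Matrix.zero_mul]
    have e2 : ∀ X : Matrix m n ℂ, X * W₁ * (1 - P') = 0 := by
      intro X; rw [Matrix.mul_assoc, Matrix.mul_sub, Matrix.mul_one, h.wp, sub_self,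
        Matrix.mul_zero]
    have key2 : ∀ X Y : Matrix n n ℂ, Commute P X → X * Y = 1 →
        (S₁ * X * W₁ + (1 - z) • (1 - P')) * (S₁ * Y * W₁ + (1 - z)⁻¹ • (1 - P')) = 1 := by
      intro X Y hX hXY
      have e3 : S₁ * X * W₁ * (S₁ * Y * W₁) = P' := by
        have : W₁ * (S₁ * Y * W₁) = P * Y * W₁ := by
          rw [← Matrix.mul_assoc, ← Matrix.mul_assoc, h.ws]
        rw [Matrix.mul_assoc (S₁ * X), this, ← Matrix.mul_assoc, ← Matrix.mul_assoc,
          Matrix.mul_assoc S₁ X P, ← hX.eq, ← Matrix.mul_assoc, h.sp, Matrix.mul_assoc S₁, hXY,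
          Matrix.mul_one, h.sw]
      have e4 : (1 - z) • (1 - P') * (S₁ * Y * W₁) = 0 := by
        rw [Matrix.smul_mul, Matrix.mul_assoc S₁, e1, smul_zero]
      have e5 : S₁ * X * W₁ * ((1 - z)⁻¹ • (1 - P')) = 0 := by
        rw [Matrix.mul_smul, e2, smul_zero]
      have e6 : (1 - z) • (1 - P') * ((1 - z)⁻¹ • (1 - P')) = 1 - P' := by
        rw [Matrix.smul_mul, Matrix.mul_smul, e0, smul_smul, mul_inv_cancel₀ hz1, one_smul]
      rw [add_mul, mul_add, mul_add, e3, e4, e5, e6]; abel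
    exact IsUnit.of_mul_eq_one _ (key2 R V hPRc hRV)

theorem PIso.qp_transfer (h : PIso P P' S₁ W₁) : qp P' (S₁ * I * W₁) = S₁ * qp P I * W₁ := by
  rw [qp, qp, Matrix.mul_smul, Matrix.smul_mul, Matrix.mul_sub, Matrix.sub_mul, h.sp, h.sw,
    Matrix.mul_smul, Matrix.smul_mul]

omit [DecidableEq m] in
/-- **Rotation invariance.** -/
theorem PIso.rotate (h : PIso P P' S₁ W₁) (h2 : P' * S₂ = S₂) (h3 : S₂ * P = S₂)
    (hI : Pol P (W₁ * S₂) I) {c s : ℝ} (hcs : c ^ 2 + s ^ 2 = 1) {W' : Matrix n m ℂ}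
    (h' : PIso P P' ((c : ℂ) • S₁ + (s : ℂ) • S₂) W') :
    Pol P (W' * (-((s : ℂ) • S₁) + (c : ℂ) • S₂)) I ∧
    ((c : ℂ) • S₁ + (s : ℂ) • S₂) * qp P I * W' = S₁ * qp P I * W₁ ∧
    ((c : ℂ) • S₁ + (s : ℂ) • S₂) * I * W' = S₁ * I * W₁ ∧
    sHat P I ((c : ℂ) • S₁ + (s : ℂ) • S₂) (-((s : ℂ) • S₁) + (c : ℂ) • S₂) =
      ((c : ℂ) + s * Complex.I) • sHat P I S₁ S₂ := by
  have hS2 : S₂ = S₁ * (W₁ * S₂) := by rw [← Matrix.mul_assoc, h.sw, h2]
  have hWS : W₁ * ((c : ℂ) • S₁ + (s : ℂ) • S₂) = (c : ℂ) • P + (s : ℂ) • (W₁ * S₂) := by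
    rw [Matrix.mul_add, Matrix.mul_smul, Matrix.mul_smul, h.ws]
  have hS' : (c : ℂ) • S₁ + (s : ℂ) • S₂ = S₁ * ((c : ℂ) • P + (s : ℂ) • (W₁ * S₂)) := by
    rw [Matrix.mul_add, Matrix.mul_smul, Matrix.mul_smul, h.sp, ← hS2]
  have conj : ∀ X : Matrix n n ℂ, P * X = X → Commute X (W₁ * S₂) → X * P = X →
      ((c : ℂ) • S₁ + (s : ℂ) • S₂) * X * W' = S₁ * X * W₁ := by
    intro X hPX hX hXP
    have hc : Commute ((c : ℂ) • P + (s : ℂ) • (W₁ * S₂)) X := by
      refine Commute.add_left (Commute.smul_left ?_ _) (Commute.smul_left hX.symm _)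
      rw [Commute, SemiconjBy, hPX, hXP]
    have e1 : W' = P * W' := h'.pw.symm
    calc ((c : ℂ) • S₁ + (s : ℂ) • S₂) * X * W'
        = S₁ * (((c : ℂ) • P + (s : ℂ) • (W₁ * S₂)) * X) * W' := by
          rw [hS', Matrix.mul_assoc S₁]
      _ = S₁ * X * (((c : ℂ) • P + (s : ℂ) • (W₁ * S₂)) * W') := by
          rw [hc.eq, ← Matrix.mul_assoc, Matrix.mul_assoc (S₁ * X)]
      _ = S₁ * X * (W₁ * (((c : ℂ) • S₁ + (s : ℂ) • S₂) * W')) := by
          rw [← hWS, Matrix.mul_assoc W₁]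
      _ = S₁ * X * W₁ := by rw [h'.sw, h.wp]
  refine ⟨?_, ?_, ?_, ?_⟩
  · refine hI.rotate hcs ?_ ?_ ?_
    · rw [← Matrix.mul_assoc, h'.pw]
    · rw [Matrix.mul_assoc, Matrix.add_mul, Matrix.neg_mul, Matrix.smul_mul, Matrix.smul_mul, h.sp,
        h3]
    · rw [← Algebra.smul_def, ← Algebra.smul_def, ← Algebra.smul_def, ← Algebra.smul_def, ← hWS]
      rw [Matrix.mul_assoc, ← Matrix.mul_assoc _ W', h'.sw, Matrix.mul_add P', Matrix.mul_neg,
        Matrix.mul_smul, Matrix.mul_smul, h.ps, h2, Matrix.mul_add, Matrix.mul_neg,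
        Matrix.mul_smul, Matrix.mul_smul, h.ws]
  · exact conj _ hI.P_qp hI.comm_qp hI.qp_P
  · exact conj _ hI.PI hI.comm hI.IP
  · rw [sHat, sHat, ← Matrix.smul_mul]
    congr 1
    ext i j
    simp only [Matrix.sub_apply, Matrix.add_apply, Matrix.smul_apply, Matrix.neg_apply, smul_eq_mul]
    linear_combination ((s : ℂ) * S₂ i j) * Complex.I_mul_I

end Main

end Crest.Agent.R208.SP
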