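import Crest.Agent.R208.SP3

/-!
# R208, block SPEC, part 5: smoothness of the polar complex structure; real matrices and
real continuous linear maps
-/

set_option autoImplicit false

namespace Crest.Agent.R208.SP

open Filter Topology

section Smooth

variable {A : Type*} [NormedRing A] [NormedAlgebra ℂ A] [FiniteDimensional ℂ A]
  {X : Type*} [NormedAddCommGroup X] [NormedSpace ℝ X]

theorem contDiffAt_pol {P J : X → A} {x : X} {k : WithTop ℕ∞} (hP : ContDiffAt ℝ k P x)
    (hJ : ContDiffAt ℝ k J x) (h : NoReal (P x) (J x)) :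
    ContDiffAt ℝ k (fun y => pol (P y) (J y)) x := by
  have : CompleteSpace A := FiniteDimensional.complete ℂ A
  have hD : ContDiffAt ℝ k (fun y => -(J y * J y) + (1 - P y)) x :=
    (hJ.mul hJ).neg.add (contDiffAt_const.sub hP)
  have h0 : ContDiffAt ℝ k (sq : A → A) (-(J x * J x) + (1 - P x)) :=
    (contDiffAt_sq h.dom k).restrict_scalars ℝ
  have h1 : ContDiffAt ℝ k (fun y => sq (-(J y * J y) + (1 - P y))) x :=
    ContDiffAt.comp (g := (sq : A → A)) (f := fun y => -(J y * J y) + (1 - P y)) x h0 hD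
  have h2 : ContDiffAt ℝ k (fun y => Ring.inverse (sq (-(J y * J y) + (1 - P y)))) x := by
    obtain ⟨u, hu⟩ := (rhp_sq h.dom).isUnit
    have h3 : ContDiffAt ℝ k (Ring.inverse : A → A) (u : A) := contDiffAt_ringInverse ℝ u
    rw [hu] at h3
    exact h3.comp x h1
  exact hJ.mul h2

end Smooth

section Mat

variable {n : Type*} [Fintype n] [DecidableEq n]

/-- complexification of real matrices -/
noncomputable def cx : Matrix n n ℝ →+* Matrix n n ℂ := Complex.ofRealHom.mapMatrix

@[simp] theorem cx_apply (M : Matrix n n ℝ) (i j : n) : cx M i j = (M i j : ℂ) := rfl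

theorem cx_injective : Function.Injective (cx : Matrix n n ℝ → Matrix n n ℂ) := by
  intro M N h
  ext i j
  have := congrFun (congrFun h i) j
  exact Complex.ofReal_injective this

theorem cx_smul (t : ℝ) (M : Matrix n n ℝ) : cx (t • M) = algebraMap ℂ (Matrix n n ℂ) t * cx M := by
  ext i j
  rw [← Algebra.smul_def]
  simp

/-- complex conjugation of matrices -/
noncomputable def cj : Matrix n n ℂ →+* Matrix n n ℂ := (starRingEnd ℂ).mapMatrix

@[simp] theorem cj_apply (M : Matrix n n ℂ) (i j : n) : cj M i j = (starRingEnd ℂ) (M i j) := rfl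

theorem cj_cx (M : Matrix n n ℝ) : cj (cx M) = cx M := by
  ext i j; simp

theorem cj_algebraMap (z : ℂ) :
    cj (algebraMap ℂ (Matrix n n ℂ) ((starRingEnd ℂ) z)) = algebraMap ℂ (Matrix n n ℂ) z := by
  ext i j
  by_cases h : i = j
  · simp [Matrix.algebraMap_matrix_apply, h]
  · simp [Matrix.algebraMap_matrix_apply, h]

/-- a complex matrix fixed by conjugation is real -/
theorem cx_re_of_cj {M : Matrix n n ℂ} (h : cj M = M) : cx (M.map Complex.re) = M := by
  ext i j
  have := congrFun (congrFun h i) j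
  rw [cj_apply] at this
  simpa using (Complex.conj_eq_iff_re.mp this)

theorem Rhp.cj {M : Matrix n n ℂ} (h : Rhp M) : Rhp (cj M) := by
  intro z hz
  have := (h ((starRingEnd ℂ) z) (by simpa using hz)).map (SP.cj (n := n))
  rwa [map_sub, cj_algebraMap] at this

theorem Pol.cj {P J I : Matrix n n ℂ} (h : Pol P J I) : Pol (cj P) (cj J) (cj I) := by
  refine ⟨?_, ?_, ?_, ?_, ?_, ?_, ?_, ?_⟩
  · rw [← map_mul, h.PP]
  · rw [← map_mul, h.PJ]
  · rw [← map_mul, h.JP]
  · rw [← map_mul, h.PI]
  · rw [← map_mul, h.IP]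
  · rw [← map_mul, h.II, map_neg]
  · exact h.comm.map _
  · have := h.rhp.cj
    rw [map_add, map_neg, map_mul, map_sub, map_one] at this
    exact this

/-- Real form of `NoReal`: no real eigenvalue of `J` on the range of `P`. -/
structure NoRealR (P J : Matrix n n ℝ) : Prop where
  PP : P * P = P
  PJ : P * J = J
  JP : J * P = J
  ker : ∀ t : ℝ, ∀ v : n → ℝ, P.mulVec v = v → J.mulVec v = t • v → v = 0

theorem NoRealR.noReal {P J : Matrix n n ℝ} (h : NoRealR P J) : NoReal (cx P) (cx J) := by
  refine ⟨by rw [← map_mul, h.PP], by rw [← map_mul, h.PJ], by rw [← map_mul, h.JP],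
    fun t => ?_⟩
  have h1 : cx J - algebraMap ℂ (Matrix n n ℂ) t * cx P + (1 - cx P) =
      cx (J - t • P + (1 - P)) := by
    rw [map_add, map_sub, cx_smul, map_sub, map_one]
  rw [h1]
  refine IsUnit.map (cx (n := n)) ?_
  rw [← Matrix.mulVec_injective_iff_isUnit]
  intro v w hvw
  have h2 : (J - t • P + (1 - P)).mulVec (v - w) = 0 := by
    rw [Matrix.mulVec_sub, sub_eq_zero]; exact hvw
  set u := v - w with hu
  have h3 : P * (J - t • P + (1 - P)) = J - t • P := by
    rw [mul_add, mul_sub, h.PJ, mul_smul_comm, h.PP, mul_sub, mul_one, h.PP, sub_self, add_zero]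
  have h4 : (J - t • P).mulVec u = 0 := by
    rw [← h3, ← Matrix.mulVec_mulVec, h2, Matrix.mulVec_zero]
  have h5 : (1 - P).mulVec u = 0 := by
    rw [Matrix.add_mulVec, h4, zero_add] at h2; exact h2
  have h6 : P.mulVec u = u := by
    rw [Matrix.sub_mulVec, Matrix.one_mulVec, sub_eq_zero] at h5; exact h5.symm
  have h7 : J.mulVec u = t • u := by
    rw [Matrix.sub_mulVec, Matrix.smul_mulVec, h6, sub_eq_zero] at h4; exact h4
  exact sub_eq_zero.mp (h.ker t u h6 h7)

/-- The polar complex structure of a real matrix. -/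
noncomputable def polR (P J : Matrix n n ℝ) : Matrix n n ℝ := (pol (cx P) (cx J)).map Complex.re

theorem cx_polR {P J : Matrix n n ℝ} (h : NoRealR P J) : cx (polR P J) = pol (cx P) (cx J) := by
  apply cx_re_of_cj
  have h1 := (pol_spec h.noReal).cj
  rw [cj_cx, cj_cx] at h1
  exact h1.unique (pol_spec h.noReal)

/-- Real polar structure: `I` real with `Pol (cx P) (cx J) (cx I)`. -/
def PolR (P J I : Matrix n n ℝ) : Prop := Pol (cx P) (cx J) (cx I)

theorem polR_spec {P J : Matrix n n ℝ} (h : NoRealR P J) : PolR P J (polR P J) := by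
  unfold PolR; rw [cx_polR h]; exact pol_spec h.noReal

theorem PolR.unique {P J I I' : Matrix n n ℝ} (h : PolR P J I) (h' : PolR P J I') : I = I' :=
  cx_injective (Pol.unique h h')

theorem PolR.PP {P J I : Matrix n n ℝ} (h : PolR P J I) : P * P = P :=
  cx_injective (by rw [map_mul]; exact Pol.PP h)

theorem PolR.PI {P J I : Matrix n n ℝ} (h : PolR P J I) : P * I = I :=
  cx_injective (by rw [map_mul]; exact Pol.PI h)

theorem PolR.IP {P J I : Matrix n n ℝ} (h : PolR P J I) : I * P = I :=
  cx_injective (by rw [map_mul]; exact Pol.IP h)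

theorem PolR.PJ {P J I : Matrix n n ℝ} (h : PolR P J I) : P * J = J :=
  cx_injective (by rw [map_mul]; exact Pol.PJ h)

theorem PolR.JP {P J I : Matrix n n ℝ} (h : PolR P J I) : J * P = J :=
  cx_injective (by rw [map_mul]; exact Pol.JP h)

theorem PolR.II {P J I : Matrix n n ℝ} (h : PolR P J I) : I * I = -P :=
  cx_injective (by rw [map_mul, map_neg]; exact Pol.II h)

theorem PolR.comm {P J I : Matrix n n ℝ} (h : PolR P J I) : I * J = J * I :=
  cx_injective (by rw [map_mul, map_mul]; exact (Pol.comm h).eq)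

theorem PolR.affine {P J I : Matrix n n ℝ} (h : PolR P J I) {a b : ℝ} (ha : 0 < a) :
    PolR P (a • J + b • P) I := by
  unfold PolR
  rw [map_add, cx_smul, cx_smul]
  exact Pol.affine h ha

theorem PolR.inv {P J I : Matrix n n ℝ} (h : PolR P J I) {K : Matrix n n ℝ} (hPK : P * K = K)
    (hKP : K * P = K) (hKJ : K * J = -P) : PolR P K I := by
  have hJK : J * K = -P := by
    -- `J + (1-P)` is a unit with left inverse `-K + (1-P)`
    have e1 : (1 - P) * (1 - P) = 1 - P := by
      rw [mul_sub, mul_one, sub_mul, one_mul, h.PP]; abel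
    have e2 : (1 - P) * J = 0 := by rw [sub_mul, one_mul, h.PJ, sub_self]
    have e3 : K * (1 - P) = 0 := by rw [mul_sub, mul_one, hKP, sub_self]
    have e4 : J * (1 - P) = 0 := by rw [mul_sub, mul_one, h.JP, sub_self]
    have e5 : (1 - P) * K = 0 := by rw [sub_mul, one_mul, hPK, sub_self]
    have h6 : (-K + (1 - P)) * (J + (1 - P)) = 1 := by
      rw [add_mul, mul_add, mul_add, neg_mul, hKJ, neg_mul, e3, e2, e1]; abel
    have h7 := mul_eq_one_comm.mp h6
    rw [add_mul, mul_add, mul_add, mul_neg, e4, mul_neg, e5, e1, neg_zero, add_zero, zero_add] at h7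
    have h8 : -(J * K) = P := by rw [eq_sub_of_add_eq h7]; abel
    rw [← h8, neg_neg]
  refine Pol.inv h ?_ ?_ ?_ ?_
  · rw [← map_mul, hPK]
  · rw [← map_mul, hKP]
  · rw [← map_mul, hKJ, map_neg]
  · rw [← map_mul, hJK, map_neg]

theorem PolR.rotate {P J I : Matrix n n ℝ} (h : PolR P J I) {c s : ℝ} (hcs : c ^ 2 + s ^ 2 = 1)
    {J' : Matrix n n ℝ} (hPJ' : P * J' = J') (hJP' : J' * P = J')
    (hJ' : (c • P + s • J) * J' = -(s • P) + c • J) : PolR P J' I := by
  refine Pol.rotate h hcs ?_ ?_ ?_
  · rw [← map_mul, hPJ']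
  · rw [← map_mul, hJP']
  · rw [← cx_smul, ← cx_smul, ← cx_smul, ← cx_smul, ← map_add, ← map_mul, hJ', map_add, map_neg]

theorem PolR.noRealR {P J I : Matrix n n ℝ} (h : PolR P J I) : NoRealR P J := by
  refine ⟨h.PP, h.PJ, h.JP, fun t v hv hJ => ?_⟩
  have h1 := (Pol.noReal h).unit t
  have h2 : cx J - algebraMap ℂ (Matrix n n ℂ) t * cx P + (1 - cx P) =
      cx (J - t • P + (1 - P)) := by
    rw [map_add, map_sub, cx_smul, map_sub, map_one]
  rw [h2] at h1
  have h3 : (cx (J - t • P + (1 - P))).mulVec (fun i => (v i : ℂ)) = 0 := by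
    have h4 : (J - t • P + (1 - P)).mulVec v = 0 := by
      rw [Matrix.add_mulVec, Matrix.sub_mulVec, Matrix.sub_mulVec, Matrix.one_mulVec,
        Matrix.smul_mulVec, hv, hJ]; simp
    ext i
    have h5 := congrFun h4 i
    simp only [Matrix.mulVec, dotProduct, cx_apply, Pi.zero_apply] at h5 ⊢
    rw [← Complex.ofReal_zero, ← h5]
    push_cast
    rfl
  have h6 := Matrix.mulVec_injective_of_isUnit h1
  have h7 : (fun i => (v i : ℂ)) = 0 := by
    apply h6
    rw [h3, Matrix.mulVec_zero]
  ext i
  have := congrFun h7 i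
  simpa using this

section Entries

attribute [local instance] Matrix.linftyOpNormedRing Matrix.linftyOpNormedAlgebra

variable {X : Type*} [NormedAddCommGroup X] [NormedSpace ℝ X]

/-- smoothness of a matrix valued function from the smoothness of its entries -/
theorem contDiffAt_cx {P : X → Matrix n n ℝ} {x : X} {k : WithTop ℕ∞}
    (hP : ∀ i j, ContDiffAt ℝ k (fun y => P y i j) x) : ContDiffAt ℝ k (fun y => cx (P y)) x := by
  have h1 : (fun y => cx (P y)) =
      fun y => ∑ i, ∑ j, (P y i j) • (Matrix.single i j (1 : ℂ) : Matrix n n ℂ) := by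
    funext y
    conv_lhs => rw [Matrix.matrix_eq_sum_single (cx (P y))]
    refine Finset.sum_congr rfl fun i _ => Finset.sum_congr rfl fun j _ => ?_
    rw [Matrix.smul_single]
    simp
  rw [h1]
  exact ContDiffAt.sum fun i _ => ContDiffAt.sum fun j _ => (hP i j).smul contDiffAt_const

/-- real parts of the entries of a smooth complex matrix valued function are smooth -/
theorem contDiffAt_re_entry {M : X → Matrix n n ℂ} {x : X} {k : WithTop ℕ∞}
    (hM : ContDiffAt ℝ k M x) (i j : n) : ContDiffAt ℝ k (fun y => (M y i j).re) x := by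
  let L : Matrix n n ℂ →ₗ[ℝ] ℝ :=
    { toFun := fun M => (M i j).re
      map_add' := by intro a b; simp
      map_smul' := by intro c a; simp }
  have hL : ContDiffAt ℝ k (L.toContinuousLinearMap) (M x) :=
    (L.toContinuousLinearMap).contDiff.contDiffAt
  exact hL.comp x hM

/-- **Smoothness of the polar complex structure** (entrywise). -/
theorem contDiffAt_polR {P J : X → Matrix n n ℝ} {x : X} {k : WithTop ℕ∞}
    (hP : ∀ i j, ContDiffAt ℝ k (fun y => P y i j) x)
    (hJ : ∀ i j, ContDiffAt ℝ k (fun y => J y i j) x) (h : NoRealR (P x) (J x)) (i j : n) :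
    ContDiffAt ℝ k (fun y => polR (P y) (J y) i j) x :=
  contDiffAt_re_entry (contDiffAt_pol (contDiffAt_cx hP) (contDiffAt_cx hJ) h.noReal) i j

end Entries

end Mat

end Crest.Agent.R208.SP
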