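import Crest.Agent.R208.SP6

/-!
# R208, block SPEC, part 7: rank of `T_J`, the twist by `ℓ`, the package over `V_2`/`Gr_2^+`
-/

set_option autoImplicit false

namespace Crest.Agent.R208.SP

open Filter Topology Matrix

/-! ### rank -/

section Rank

variable {n : Type*} [Fintype n] [DecidableEq n]

theorem trace_idem {Q : Matrix n n ℂ} (h : Q * Q = Q) : Q.trace = (Q.rank : ℂ) := by
  have h1 : IsIdempotentElem (Matrix.toLin' Q) := by
    rw [IsIdempotentElem, Module.End.mul_eq_comp, ← Matrix.toLin'_mul, h]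
  have h2 := (LinearMap.IsIdempotentElem.isProj_range _ h1).trace
  rw [LinearMap.trace_eq_matrix_trace ℂ (Pi.basisFun ℂ n), LinearMap.toMatrix_eq_toMatrix',
    LinearMap.toMatrix'_toLin'] at h2
  rw [h2]
  rfl

theorem PolR.trace_I {P J I : Matrix n n ℝ} (h : PolR P J I) : I.trace = 0 := by
  have h1 := trace_idem (Pol.qp_qp h)
  have h2 : (qp (cx P) (cx I)).trace = (1 / 2) * ((P.trace : ℂ) - Complex.I * (I.trace : ℂ)) := by
    rw [qp, Matrix.trace_smul, Matrix.trace_sub, Matrix.trace_smul]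
    simp [Matrix.trace, cx_apply]
  rw [h2] at h1
  have h3 := congrArg Complex.im h1
  simp at h3
  exact h3

theorem PolR.trace_qp {P J I : Matrix n n ℝ} (h : PolR P J I) :
    (qp (cx P) (cx I)).trace = (P.trace : ℂ) / 2 := by
  have h2 : (qp (cx P) (cx I)).trace = (1 / 2) * ((P.trace : ℂ) - Complex.I * (I.trace : ℂ)) := by
    rw [qp, Matrix.trace_smul, Matrix.trace_sub, Matrix.trace_smul]
    simp [Matrix.trace, cx_apply]
  rw [h2, h.trace_I]
  simp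
  ring

theorem trace_idemR {Q : Matrix n n ℝ} (h : Q * Q = Q) : Q.trace = (Q.rank : ℝ) := by
  have h1 : IsIdempotentElem (Matrix.toLin' Q) := by
    rw [IsIdempotentElem, Module.End.mul_eq_comp, ← Matrix.toLin'_mul, h]
  have h2 := (LinearMap.IsIdempotentElem.isProj_range _ h1).trace
  rw [LinearMap.trace_eq_matrix_trace ℝ (Pi.basisFun ℝ n), LinearMap.toMatrix_eq_toMatrix',
    LinearMap.toMatrix'_toLin'] at h2
  rw [h2]
  rfl

/-- the complex rank of `T_J` is half the real rank of `T` -/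
theorem PolR.rank {P J I : Matrix n n ℝ} (h : PolR P J I) :
    2 * (qp (cx P) (cx I)).rank = P.rank := by
  have h1 := trace_idem (Pol.qp_qp h)
  rw [h.trace_qp, trace_idemR h.PP] at h1
  have h2 : ((2 * (qp (cx P) (cx I)).rank : ℕ) : ℂ) = (P.rank : ℂ) := by
    push_cast
    rw [← h1]
    push_cast
    ring
  exact_mod_cast h2

end Rank

/-! ### the twist by `ℓ` -/

section Twist

variable {m n o : Type*} [Fintype m] [Fintype n] [Fintype o] [DecidableEq n]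

/-- orthogonal projection onto the complex line of `u₁ - i u₂` (for orthonormal real `u₁`, `u₂`) -/
noncomputable def qL (u₁ u₂ : o → ℝ) : Matrix o o ℂ :=
  fun a b => (1 / 2) * ((u₁ a - Complex.I * u₂ a) * (u₁ b + Complex.I * u₂ b))

omit [Fintype o] in
/-- `Q_ℓ` depends only on the oriented plane. -/
theorem qL_rotate (u₁ u₂ : o → ℝ) {c s : ℝ} (hcs : c ^ 2 + s ^ 2 = 1) :
    qL (c • u₁ + s • u₂) (-(s • u₁) + c • u₂) = qL u₁ u₂ := by
  have hcsC : (c : ℂ) ^ 2 + (s : ℂ) ^ 2 = 1 := by exact_mod_cast hcs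
  ext a b
  simp only [qL, Pi.add_apply, Pi.smul_apply, Pi.neg_apply, smul_eq_mul, Complex.ofReal_add,
    Complex.ofReal_mul, Complex.ofReal_neg]
  have e1 : ((c : ℂ) * u₁ a + s * u₂ a - Complex.I * (-(s * u₁ a) + c * u₂ a)) =
      (c + Complex.I * s) * (u₁ a - Complex.I * u₂ a) := by
    linear_combination ((s : ℂ) * u₂ a) * Complex.I_mul_I
  have e2 : ((c : ℂ) * u₁ b + s * u₂ b + Complex.I * (-(s * u₁ b) + c * u₂ b)) =
      (c - Complex.I * s) * (u₁ b + Complex.I * u₂ b) := by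
    linear_combination ((s : ℂ) * u₂ b) * Complex.I_mul_I
  have e3 : ((c : ℂ) + Complex.I * s) * (c - Complex.I * s) = 1 := by
    rw [← hcsC]; linear_combination (-(s : ℂ) ^ 2) * Complex.I_mul_I
  rw [e1, e2]
  linear_combination (1 / 2 * ((u₁ a - Complex.I * u₂ a) * (u₁ b + Complex.I * u₂ b))) * e3

/-- the norm of `u₁ - i u₂` is `√2` for unit vectors `u₁`, `u₂` -/
theorem eps_star (u₁ u₂ : o → ℝ) (h11 : u₁ ⬝ᵥ u₁ = 1) (h22 : u₂ ⬝ᵥ u₂ = 1) :
    ∑ c, ((u₁ c : ℂ) + Complex.I * u₂ c) * (u₁ c - Complex.I * u₂ c) = 2 := by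
  have e : ∀ c, ((u₁ c : ℂ) + Complex.I * u₂ c) * (u₁ c - Complex.I * u₂ c) =
      ((u₁ c * u₁ c : ℝ) : ℂ) + ((u₂ c * u₂ c : ℝ) : ℂ) := by
    intro c; push_cast; linear_combination (-(u₂ c : ℂ) ^ 2) * Complex.I_mul_I
  simp_rw [e]
  rw [Finset.sum_add_distrib, ← Complex.ofReal_sum, ← Complex.ofReal_sum]
  have h1 : ∑ i, u₁ i * u₁ i = 1 := h11
  have h2 : ∑ i, u₂ i * u₂ i = 1 := h22
  rw [h1, h2]; norm_num

theorem qL_idem {u₁ u₂ : o → ℝ} (h11 : u₁ ⬝ᵥ u₁ = 1) (h22 : u₂ ⬝ᵥ u₂ = 1) :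
    qL u₁ u₂ * qL u₁ u₂ = qL u₁ u₂ := by
  ext a b
  rw [Matrix.mul_apply]
  have h := eps_star u₁ u₂ h11 h22
  have e : ∀ c, qL u₁ u₂ a c * qL u₁ u₂ c b =
      (1 / 4 * (u₁ a - Complex.I * u₂ a) * (u₁ b + Complex.I * u₂ b)) *
      (((u₁ c : ℂ) + Complex.I * u₂ c) * (u₁ c - Complex.I * u₂ c)) := by
    intro c; simp only [qL]; ring
  simp_rw [e]
  rw [← Finset.mul_sum, h]
  simp only [qL]; ring

/-- The frame-free intertwiner: the matrix `(a, (b,c)) ↦ ∑ c', (B_{c'} Q)_{ab} (Q_ℓ)_{c' c}`. -/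
noncomputable def sT (B : o → Matrix m n ℝ) (Q : Matrix n n ℂ) (L : Matrix o o ℂ) :
    Matrix m (n × o) ℂ :=
  fun a bc => ∑ c', ((B c').map Complex.ofReal * Q) a bc.1 * L c' bc.2

omit [Fintype m] [DecidableEq n] in
theorem sT_eq (B : o → Matrix m n ℝ) (Q : Matrix n n ℂ) (u₁ u₂ : o → ℝ) (a : m) (bc : n × o) :
    sT B Q (qL u₁ u₂) a bc =
      (1 / 2) * (((∑ c, u₁ c • B c).map Complex.ofReal -
        Complex.I • (∑ c, u₂ c • B c).map Complex.ofReal) * Q) a bc.1 *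
        (u₁ bc.2 + Complex.I * u₂ bc.2) := by
  have e : ((∑ c, u₁ c • B c).map Complex.ofReal -
        Complex.I • (∑ c, u₂ c • B c).map Complex.ofReal) =
        ∑ c, ((u₁ c : ℂ) - Complex.I * u₂ c) • (B c).map Complex.ofReal := by
    ext i j
    simp only [Matrix.sub_apply, Matrix.smul_apply, Matrix.map_apply, Matrix.sum_apply,
      smul_eq_mul, Complex.ofReal_sum, Complex.ofReal_mul]
    rw [Finset.mul_sum, ← Finset.sum_sub_distrib]
    refine Finset.sum_congr rfl fun c _ => ?_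
    ring
  rw [e, Matrix.sum_mul, sT, Matrix.sum_apply, Finset.mul_sum, Finset.sum_mul]
  refine Finset.sum_congr rfl fun c _ => ?_
  rw [Matrix.smul_mul, Matrix.smul_apply, smul_eq_mul, qL]
  ring

/-- **`F_J = T_J ⊗ ℓ`**, frame free. `B_c` are the coefficients of the bilinear map
`u ↦ S_u = ∑ u_c B_c`. -/
theorem PIso.tensor [DecidableEq o] {P I : Matrix n n ℂ} {P' : Matrix m m ℂ} {W₁ : Matrix n m ℂ}
    {B : o → Matrix m n ℝ} {u₁ u₂ : o → ℝ}
    (h11 : u₁ ⬝ᵥ u₁ = 1) (h22 : u₂ ⬝ᵥ u₂ = 1)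
    (h : PIso P P' ((∑ c, u₁ c • B c).map Complex.ofReal) W₁)
    (h2 : P' * (∑ c, u₂ c • B c).map Complex.ofReal = (∑ c, u₂ c • B c).map Complex.ofReal)
    (hI : Pol P (W₁ * (∑ c, u₂ c • B c).map Complex.ofReal) I) :
    ∃ W, PIso (Matrix.kroneckerMap (· * ·) (qp P I) (qL u₁ u₂))
      ((∑ c, u₁ c • B c).map Complex.ofReal * qp P I * W₁) (sT B (qp P I) (qL u₁ u₂)) W := by
  have hh := h.hat h2 hI
  set S₁ : Matrix m n ℂ := (∑ c, u₁ c • B c).map Complex.ofReal with hS₁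
  set S₂ : Matrix m n ℂ := (∑ c, u₂ c • B c).map Complex.ofReal with hS₂
  have hS : ∀ a bc, sT B (qp P I) (qL u₁ u₂) a bc =
      (1 / 2) * sHat P I S₁ S₂ a bc.1 * (u₁ bc.2 + Complex.I * u₂ bc.2) := fun a bc =>
    sT_eq B (qp P I) u₁ u₂ a bc
  have hK : ∀ x y : n × o, Matrix.kroneckerMap (· * ·) (qp P I) (qL u₁ u₂) x y =
      qp P I x.1 y.1 * qL u₁ u₂ x.2 y.2 := fun x y => rfl
  set V := wHat P (W₁ * S₂) I W₁ with hV
  let W : Matrix (n × o) m ℂ := fun bc a => V bc.1 a * (u₁ bc.2 - Complex.I * u₂ bc.2)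
  have hW : ∀ bc a, W bc a = V bc.1 a * (u₁ bc.2 - Complex.I * u₂ bc.2) := fun _ _ => rfl
  have hε := eps_star u₁ u₂ h11 h22
  have hss := hh.sp
  have hps := hh.ps
  have hwp := hh.wp
  have hpw := hh.pw
  have hws := hh.ws
  have hsw := hh.sw
  refine ⟨W, ?_, ?_, ?_, ?_, ?_, ?_⟩
  · -- S * (Q ⊗ L) = S
    ext a bc
    rw [Matrix.mul_apply, Fintype.sum_prod_type]
    have e : ∀ b c, sT B (qp P I) (qL u₁ u₂) a (b, c) *
        Matrix.kroneckerMap (· * ·) (qp P I) (qL u₁ u₂) (b, c) bc =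
        (sHat P I S₁ S₂ a b * qp P I b bc.1) * (1 / 4 * (u₁ bc.2 + Complex.I * u₂ bc.2)) *
        (((u₁ c : ℂ) + Complex.I * u₂ c) * (u₁ c - Complex.I * u₂ c)) := by
      intro b c; rw [hS, hK]; simp only [qL]; ring
    simp_rw [e, ← Finset.mul_sum, hε, ← Finset.sum_mul]
    rw [← Matrix.mul_apply, hss, hS]; ring
  · ext a bc
    rw [Matrix.mul_apply]
    have e : ∀ b, (S₁ * qp P I * W₁) a b * sT B (qp P I) (qL u₁ u₂) b bc =
        ((S₁ * qp P I * W₁) a b * sHat P I S₁ S₂ b bc.1) *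
          (1 / 2 * (u₁ bc.2 + Complex.I * u₂ bc.2)) := by
      intro b; rw [hS]; ring
    simp_rw [e, ← Finset.sum_mul]
    rw [← Matrix.mul_apply, hps, hS]; ring
  · ext bc a
    rw [Matrix.mul_apply]
    have e : ∀ b, W bc b * (S₁ * qp P I * W₁) b a =
        (V bc.1 b * (S₁ * qp P I * W₁) b a) * (u₁ bc.2 - Complex.I * u₂ bc.2) := by
      intro b; rw [hW]; ring
    simp_rw [e, ← Finset.sum_mul]
    rw [← Matrix.mul_apply, hwp, hW]
  · ext bc a
    rw [Matrix.mul_apply, Fintype.sum_prod_type]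
    have e : ∀ b c, Matrix.kroneckerMap (· * ·) (qp P I) (qL u₁ u₂) bc (b, c) * W (b, c) a =
        (qp P I bc.1 b * V b a) * (1 / 2 * (u₁ bc.2 - Complex.I * u₂ bc.2)) *
        (((u₁ c : ℂ) + Complex.I * u₂ c) * (u₁ c - Complex.I * u₂ c)) := by
      intro b c; rw [hK, hW]; simp only [qL]; ring
    simp_rw [e, ← Finset.mul_sum, hε, ← Finset.sum_mul]
    rw [← Matrix.mul_apply, hpw, hW]; ring
  · ext bc bc'
    rw [Matrix.mul_apply]
    have e : ∀ b, W bc b * sT B (qp P I) (qL u₁ u₂) b bc' =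
        (V bc.1 b * sHat P I S₁ S₂ b bc'.1) * qL u₁ u₂ bc.2 bc'.2 := by
      intro b; rw [hW, hS]; simp only [qL]; ring
    simp_rw [e, ← Finset.sum_mul]
    rw [← Matrix.mul_apply, hws, hK]
  · ext a a'
    rw [Matrix.mul_apply, Fintype.sum_prod_type]
    have e : ∀ b c, sT B (qp P I) (qL u₁ u₂) a (b, c) * W (b, c) a' =
        (sHat P I S₁ S₂ a b * V b a') * (1 / 2) *
        (((u₁ c : ℂ) + Complex.I * u₂ c) * (u₁ c - Complex.I * u₂ c)) := by
      intro b c; rw [hS, hW]; ring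
    simp_rw [e, ← Finset.mul_sum, hε, ← Finset.sum_mul]
    rw [← Matrix.mul_apply, hsw]; ring

end Twist

end Crest.Agent.R208.SP
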