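import Crest.Agent.R208.SR1

/-! Row 208, case (k, n) = (8, 16), block (R) (helper638).  SR2: `∫_B e³ x³ = 0`. -/

set_option autoImplicit false
set_option linter.unusedSectionVars false

open MeasureTheory Set Filter Topology Module
open scoped ContDiff
open Crest.Agent.R208.F Crest.Agent.R208.FI Crest.Agent.R208.CW Crest.Agent.R208.T
open Crest.Agent.R208.SO (CF2 Conn fib eqv_pull_pull' J_eqv resZero_of_gt)

noncomputable section

namespace Crest.Agent.R208.SR

universe u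

variable {EZ : Type u} [NormedAddCommGroup EZ] [NormedSpace ℝ EZ] [FiniteDimensional ℝ EZ]
  {EU : Type*} [NormedAddCommGroup EU] [NormedSpace ℝ EU] [FiniteDimensional ℝ EU]
  {EY : Type*} [NormedAddCommGroup EY] [NormedSpace ℝ EY] [FiniteDimensional ℝ EY]
  {EB : Type*} [NormedAddCommGroup EB] [NormedSpace ℝ EB] [FiniteDimensional ℝ EB]
  {F' : Type*} [NormedAddCommGroup F'] [NormedSpace ℝ F'] [FiniteDimensional ℝ F']

/-- the ring identity -/
theorem cube_ring {C : Type*} [CommRing C] [Algebra ℝ C] {E X P W : C} {l : ℝ}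
    (h1 : (3 : ℝ) • (X * X) + (l ^ 2) • (E * E * P) = 0) (h2 : W * W = P)
    (h3 : (X + l • (E * W)) ^ 3 = 0)
    (h4 : (3 * l : ℝ) • (E ^ 4 * X ^ 2 * P) + (l ^ 3) • (E ^ 6 * P ^ 2) = 0) :
    E * E * E * X * X * X * W = 0 := by
  have key : (8 : ℝ) • (E * E * E * X * X * X * W) = 0 := by
    simp only [Algebra.smul_def, map_mul, map_pow, map_ofNat] at h1 h3 h4 ⊢
    generalize algebraMap ℝ C l = L at *
    linear_combination (3 * E ^ 3 * X * W) * h1 - (E ^ 3 * W) * h3 + h4 +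
      (3 * L ^ 2 * E ^ 5 * X * W + 3 * L * E ^ 4 * X ^ 2 + L ^ 3 * E ^ 6 * (W ^ 2 + P)) * h2
  have := congrArg (fun z => (8 : ℝ)⁻¹ • z) key
  simpa [smul_smul] using this

set_option maxHeartbeats 1000000 in
/-- **`∫ α ∧ j^*(e³ x³) = 0`**, hypotheses of `SO.final`. -/
theorem x3_zero {U : Set EU} {Z : Set EZ} {Y : Set EY} {B : Set EB} {S : Set F'}
    {oU : EU → Ext EU} {oV : EZ → Ext EZ} {π : EZ → EU} {q : EZ → EY} {ρ : EY → EB} {j : EU → EB}
    (hπ : Subm 6 31 Z U π) (hUc : IsPreconnected U) (hoU : Ori 31 U oU) (dU : Hom 31 oU)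
    (hoV : ContinuousOn oV Z) (hoZ : Ori 37 Z (oV * F.pull π oU))
    (hY : Sub 36 Y) (hB : Sub 30 B) (hS : Sub 16 S)
    (sq : SMap Z Y q) (sρ : SMap Y B ρ) (sj : SMap U B j) (hc : ∀ z ∈ Z, ρ (q z) = j (π z))
    {α : EU → Ext EU} (sα : Sm U α) (dα : Hom 1 α) {e x p : EB → Ext EB} (he : CF2 B 2 e)
    (hx : CF2 B 8 x) (hp : CF2 B 12 p) (hα : Eqv U (F.d α) (F.pull j e))
    {w : EY → Ext EY} (hw : CF2 Y 6 w) {l : ℝ}
    (h1 : Coh B ((3 : ℝ) • (x * x) + (l ^ 2) • (e * e * p)) 0)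
    (h2 : Coh Y (w * w) (F.pull ρ p))
    {om : F' → Ext F'} (hom : CF2 S 8 om) {fY : EY → F'} (sfY : SMap Y S fY)
    (h3 : Coh Y (F.pull fY om) (F.pull ρ x + l • (F.pull ρ e * w)))
    {y : EU} (hy : y ∈ U) (hne : J 6 (Z ∩ π ⁻¹' {y}) oV (F.pull q w) ≠ 0) :
    J 31 U oU (α * F.pull j (e * e * e * x * x * x)) = 0 := by
  set oZ : EZ → Ext EZ := oV * F.pull π oU with hoZd
  have sπ : SMap Z U π := ⟨hπ.smooth, hπ.mapsTo⟩
  have cZ : Clo 37 Z := hπ.cloZ
  have hconn : Conn 36 Z oZ Y q (F.pull π α) (F.pull ρ e) :=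
    { clo := cZ
      ori := hoZ
      sub := hY
      map := sq
      sα := sα.pull sπ
      hα := dα.pull
      sF := he.sm.pull sρ
      cF := he.cl.pull sρ he.sm
      hF := he.hom.pull
      dα := by
        refine (d_pull_eqv sπ sα).trans ((hα.pull sπ).trans ?_)
        exact (eqv_pull_pull' sq sρ sπ sj hc e).symm }
  have ex : CF2 Y 8 (F.pull ρ x) := hx.pull sρ
  have ee : CF2 Y 2 (F.pull ρ e) := he.pull sρ
  have ep : CF2 Y 12 (F.pull ρ p) := hp.pull sρ
  have ha : CF2 Y 8 (F.pull fY om) := hom.pull sfY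
  -- classes
  have x2 : CF2 Y 16 (F.pull ρ x * F.pull ρ x) := ex.mul ex
  have e2 : CF2 Y 4 (F.pull ρ e * F.pull ρ e) := ee.mul ee
  have e2p : CF2 Y 16 (F.pull ρ e * F.pull ρ e * F.pull ρ p) := e2.mul ep
  have ew : CF2 Y 8 (F.pull ρ e * w) := ee.mul hw
  have w2 : CF2 Y 12 (w * w) := hw.mul hw
  have k1 : (3 : ℝ) • (cl ex * cl ex) + (l ^ 2) • (cl ee * cl ee * cl ep) = 0 := by
    have h4 := h1.pull sρ
    rw [pull_add', pull_smul', pull_smul', pull_mul', pull_mul', pull_mul', pull_zero'] at h4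
    have h5 : CF2 Y 16 ((3 : ℝ) • (F.pull ρ x * F.pull ρ x) +
      (l ^ 2) • (F.pull ρ e * F.pull ρ e * F.pull ρ p)) := (x2.smul _).add (e2p.smul _)
    have h6 := (cl_eq_zero h5).2 h4
    rw [cl_add (x2.smul 3) (e2p.smul (l ^ 2)) h5, cl_smul _ x2, cl_smul _ e2p,
      cl_mul ex ex x2, cl_mul e2 ep e2p, cl_mul ee ee e2] at h6
    exact h6
  have k2 : cl hw * cl hw = cl ep := by
    rw [← cl_mul hw hw w2]
    exact (cl_eq w2 ep).2 h2
  have k3 : cl ha = cl ex + l • (cl ee * cl hw) := by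
    rw [← cl_mul ee hw ew, ← cl_smul l ew (ew.smul l), ← cl_add ex (ew.smul l)
      (ex.add (ew.smul l))]
    exact (cl_eq _ _).2 h3
  have k4 : cl ha ^ 3 = 0 := by
    have a2 : CF2 Y 16 (F.pull fY om * F.pull fY om) := ha.mul ha
    have a3 : CF2 Y 24 (F.pull fY om * F.pull fY om * F.pull fY om) := a2.mul ha
    have : cl a3 = 0 := (cl_eq_zero a3).2 (by
      refine Coh.of_eqv ?_
      rw [← pull_mul', ← pull_mul']
      exact resZero_iff.1 (T.ResZero.pull sfY (resZero_of_gt hS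
        ((hom.mul hom).mul hom).hom (by norm_num))))
    rw [pow_three', ← cl_mul ha ha a2, ← cl_mul a2 ha a3]
    exact this
  -- pull-backs from `B` of degree `36`
  have up : ∀ {a : EB → Ext EB} (h : CF2 B 36 a), Coh Y (F.pull ρ a) 0 := fun h =>
    Coh.of_eqv (resZero_iff.1 (T.ResZero.pull sρ (resZero_of_gt hB h.hom (by norm_num))))
  have b1 : CF2 Y 36 (F.pull ρ e * F.pull ρ e * F.pull ρ e * F.pull ρ e * F.pull ρ x *
      F.pull ρ x * F.pull ρ p) := (((((ee.mul ee).mul ee).mul ee).mul ex).mul ex).mul ep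
  have k5 : cl ee ^ 4 * cl ex ^ 2 * cl ep = 0 := by
    have h5 : cl b1 = 0 := (cl_eq_zero b1).2 (by
      have := up ((((((he.mul he).mul he).mul he).mul hx).mul hx).mul hp)
      rwa [pull_mul', pull_mul', pull_mul', pull_mul', pull_mul', pull_mul'] at this)
    rw [cl_mul ((((((ee.mul ee).mul ee).mul ee).mul ex).mul ex)) ep b1,
      cl_mul (((((ee.mul ee).mul ee).mul ee).mul ex)) ex, cl_mul ((((ee.mul ee).mul ee).mul ee)) ex,
      cl_mul (((ee.mul ee).mul ee)) ee, cl_mul ((ee.mul ee)) ee, cl_mul ee ee] at h5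
    rw [← h5]; ring
  have b2 : CF2 Y 36 (F.pull ρ e * F.pull ρ e * F.pull ρ e * F.pull ρ e * F.pull ρ e *
      F.pull ρ e * F.pull ρ p * F.pull ρ p) :=
    ((((((ee.mul ee).mul ee).mul ee).mul ee).mul ee).mul ep).mul ep
  have k6 : cl ee ^ 6 * cl ep ^ 2 = 0 := by
    have h5 : cl b2 = 0 := (cl_eq_zero b2).2 (by
      have := up (((((((he.mul he).mul he).mul he).mul he).mul he).mul hp).mul hp)
      rwa [pull_mul', pull_mul', pull_mul', pull_mul', pull_mul', pull_mul', pull_mul'] at this)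
    rw [cl_mul (((((((ee.mul ee).mul ee).mul ee).mul ee).mul ee).mul ep)) ep b2,
      cl_mul ((((((ee.mul ee).mul ee).mul ee).mul ee).mul ee)) ep,
      cl_mul (((((ee.mul ee).mul ee).mul ee).mul ee)) ee, cl_mul ((((ee.mul ee).mul ee).mul ee)) ee,
      cl_mul (((ee.mul ee).mul ee)) ee, cl_mul ((ee.mul ee)) ee, cl_mul ee ee] at h5
    rw [← h5]; ring
  have k7 : cl ee * cl ee * cl ee * cl ex * cl ex * cl ex * cl hw = 0 := by
    refine cube_ring k1 k2 (by rw [← k3]; exact k4) ?_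
    rw [k5, k6, smul_zero, smul_zero, add_zero]
  have b3 : CF2 Y 30 (F.pull ρ e * F.pull ρ e * F.pull ρ e * F.pull ρ x * F.pull ρ x *
      F.pull ρ x) := ((((ee.mul ee).mul ee).mul ex).mul ex).mul ex
  have b4 : CF2 Y 36 (F.pull ρ e * F.pull ρ e * F.pull ρ e * F.pull ρ x * F.pull ρ x *
      F.pull ρ x * w) := b3.mul hw
  have k8 : Coh Y (F.pull ρ e * F.pull ρ e * F.pull ρ e * F.pull ρ x * F.pull ρ x *
      F.pull ρ x * w) 0 := by
    refine (cl_eq_zero b4).1 ?_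
    rw [cl_mul b3 hw b4, cl_mul ((((ee.mul ee).mul ee).mul ex).mul ex) ex b3,
      cl_mul (((ee.mul ee).mul ee).mul ex) ex, cl_mul ((ee.mul ee).mul ee) ex,
      cl_mul (ee.mul ee) ee, cl_mul ee ee]
    exact k7
  -- integrate
  have l1 : J 37 Z oZ (F.pull π α * F.pull q (F.pull ρ e * F.pull ρ e * F.pull ρ e * F.pull ρ x *
      F.pull ρ x * F.pull ρ x * w)) = J 37 Z oZ (F.pull π α * F.pull q 0) :=
    hconn.coh b4.sm Sm.zero b4.hom Hom.zero (by norm_num) k8
  have l2 : J 37 Z oZ (F.pull π α * F.pull q 0) = 0 := by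
    rw [pull_zero', mul_zero]; exact J_zero
  have hev : CF2 Z 6 (F.pull q w) := hw.pull sq
  have heee : CF2 B 30 (e * e * e * x * x * x) :=
    ((((he.mul he).mul he).mul hx).mul hx).mul hx
  have l3 : Eqv Z (F.pull π α * F.pull q (F.pull ρ e * F.pull ρ e * F.pull ρ e * F.pull ρ x *
      F.pull ρ x * F.pull ρ x * w))
      (F.pull q w * F.pull π (α * F.pull j (e * e * e * x * x * x))) := by
    rw [pull_mul' q, pull_mul' π]
    have c1 : F.pull q w * (F.pull π α * F.pull π (F.pull j (e * e * e * x * x * x))) =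
        F.pull π α * (F.pull π (F.pull j (e * e * e * x * x * x)) * F.pull q w) := by
      rw [hev.comm, mul_assoc]
    rw [c1]
    have c2 : F.pull ρ e * F.pull ρ e * F.pull ρ e * F.pull ρ x * F.pull ρ x * F.pull ρ x =
        F.pull ρ (e * e * e * x * x * x) := by
      rw [pull_mul', pull_mul', pull_mul', pull_mul', pull_mul']
    rw [c2]
    exact (Eqv.refl _).mul ((eqv_pull_pull' sq sρ sπ sj hc _).mul (Eqv.refl _))
  have l4 : J 37 Z oZ (F.pull q w * F.pull π (α * F.pull j (e * e * e * x * x * x))) =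
      J 6 (Z ∩ π ⁻¹' {y}) oV (F.pull q w) *
        J 31 U oU (α * F.pull j (e * e * e * x * x * x)) :=
    fib (by norm_num) hπ hUc hoU dU hoV hoZ hev.sm hev.cl
      (sα.mul (heee.sm.pull sj)) (dα.mul heee.hom.pull) hy
  rw [J_eqv cZ l3, l4, l2] at l1
  exact (mul_eq_zero.1 l1).resolve_left hne

end Crest.Agent.R208.SR
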