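import Crest.Agent.R208.JY3
import Crest.Agent.R208.SR2
import Crest.Agent.R208.HN2
import Crest.Agent.R208.FL6
import Crest.Agent.R208.TP7
import Crest.Agent.R208.ZH2

/-! Row 208, case (k, n) = (8, 16), block (R) (helper88).  SU1: **the instance of (S1') and of
`∫_B e³ x³ = 0`** over the manifold of geodesics. -/

set_option autoImplicit false
set_option linter.unusedSectionVars false
set_option linter.unusedVariables false

open MeasureTheory Set Filter Topology Module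
open scoped ContDiff RealInnerProductSpace
open Crest.GeometryTopology.Submanifold
open Crest.Agent.R241.DDefs
open Crest.Agent.R241.D2
open Crest.Agent.R208.F Crest.Agent.R208.FI Crest.Agent.R208.CW Crest.Agent.R208.T
open Crest.Agent.R208.CM
open Crest.Agent.R208.SO (CF2)
open Crest.Agent.R208.L (US)
open Crest.Agent.R208.LB (al oUS)
open Crest.Agent.R208.NN (Wt Rt nuP)
open Crest.Agent.R208.EW (cR)
open Crest.Agent.R208.FL (Af Ph)
open Crest.Agent.R208.FV (phi PVB)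

noncomputable section

namespace Crest.Agent.R208.SU

variable {N K m c s' : ℕ} {κ : ℝ} {S : Set (Euc N)} {G : Geo 16 N κ S} {p : Euc N}
  {ι : Type} [Fintype ι] [DecidableEq ι] {W₀ : Euc N × Euc N → (ι × Fin 2 → Fin N) → ℝ}
  {x : Euc N → Ext (Euc N)}
  {lg : Euc N → Euc N → Euc N} {ρ : Euc N → Euc N} {r C r' Kr Bb w δ ε E₀ η₀ : ℝ} {J₀ : ℕ}
  {PN : Euc N × Euc N → Wt N K →L[ℝ] Wt N K}
  {g : Euc N × Euc N → Fin m → ℂ} {Fc x0 : MM m → Ext (MM m)}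
  {Tr : Euc N × Euc N → Wt N K →L[ℝ] EuclideanSpace ℝ (Fin (2 * c + 1))}
  {P' : MM m → EuclideanSpace ℝ (Fin (2 * c + 1)) →L[ℝ] EuclideanSpace ℝ (Fin (2 * c + 1))}
  {o' : MM m → Ext (EuclideanSpace ℝ (Fin (2 * c + 1)))}
  {W' : MM m → (Fin (s' + 1) × Fin 2 → Fin (2 * c + 1)) → ℝ}
  {ι' : Type} [Fintype ι'] [DecidableEq ι'] {l t3 : ℝ}
  {fY : MM m × EuclideanSpace ℝ (Fin (2 * c + 1)) → Euc N}

set_option maxHeartbeats 1000000 in
/-- **(b1) and (b2)** -/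
theorem main (h : FL.D1 G 8 K lg ρ r C r' Kr Bb w δ PN ε J₀ E₀ η₀) (D : T.XM h.bla 2 W₀ p x)
    (hg : Emb (US G) (gf G) g) (hc : Curv (US G) g (al (N := N)) Fc)
    (hO : TP.DscO (US G) (gf G) g (fun t => Rt (nuP K) t) 3 PN c s' Tr P' o' W')
    (hod : SB.OddB ι' (Quo (US G) g) 6 P' o')
    (hx0 : CF2 (Quo (US G) g) 8 x0) (ht3 : t3 = 2304)
    (h1 : Coh (Quo (US G) g) ((3 : ℝ) • (x0 * x0) + (l ^ 2) • ((t3 • cR 6 P') * (Fc * Fc))) 0)
    (sfY : SMap (Sph (Quo (US G) g) P') S fY)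
    (hfY : ∀ z ∈ Sph (US G) PN, Af G lg ρ w J₀ ε (z, 1) = fY (CM.Th (jj g) Tr z))
    (h3 : Coh (Sph (Quo (US G) g) P') (F.pull fY x)
      (F.pull Prod.fst x0 + l • (F.pull Prod.fst Fc * SB.OddB.eV ι' hod.hr P' o'))) :
    J 30 (Quo (US G) g) (Fc ^ 15) (Fc ^ 3 * x0 ^ 3) = 0 ∧
    |8 * l ^ 2 * (2 * Real.pi * J 30 (Quo (US G) g) (Fc ^ 15)
      (Fc * x0 * x0 * (t3 • cR 6 P')))| = XF.tau ι ^ 4 := by
  have hB := h.bla.bl
  have hper : HS.Per G := h.bla.ty.per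
  have hH := h.neg
  have hUc : Clo (30 + 1) (US G) := clo_US' hB
  have hcir := cir_US hB hper
  have hal : Conn (US G) (gf G) (al (N := N)) := conn_al (FV.sub_S hB)
  have hUpre : IsPreconnected (US G) := FV.preconn_US hB (by norm_num)
  have hBq : Clo 30 (Quo (US G) g) := hg.clo_Quo hcir hUc
  have hT := hO.triv
  have hdP := hO.eqP
  set Z := Sph (US G) PN with hZdef
  set B := Quo (US G) g with hBdef
  set q := CM.Th (jj g) Tr with hqdef
  have pfN : PField (US G) 7 PN := UP.pfield_N hH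
  have pfP3 : PField B 7 P' := hO.pf
  have hcontP : ContinuousOn P' B := fun y hy => (pfP3.smooth y hy).continuousAt.continuousWithinAt
  have hqm : TP.QM Z (Ph G K) (Sph B P') q :=
    UP.qm_sph ((TP.qm_jj hg hcir hUc).tot hcir (NB.rep_per N K) hT pfN (UP.equi_N hH) hcontP hdP) hT
  have sj : SMap (US G) B (jj g) := (TP.qm_jj hg hcir hUc).smap
  set WB := SB.OddB.eV ι' hod.hr P' o' with hWB
  have : Nonempty ι' := Fintype.card_pos_iff.1 (by have := hod.hr; omega)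
  have hYc : Clo (6 + 30) (Sph B P') := SB.clo_Sph hBq pfP3
  have hW : CF2 (Sph B P') 6 WB :=
    ⟨hod.ec_eV.sm, hod.ec_eV.cl, SB.OddB.hom_eV _, by decide⟩
  obtain ⟨z₀, hz₀⟩ := T.nonempty_UST h.bla D.hp
  have hb₀B : jj g z₀ ∈ B := jj_mem hz₀
  -- orientations
  obtain ⟨oN, oprN⟩ := SB.exists_opr_N h.bla (by norm_num) (by norm_num) hH
  have hoU : Ori 31 (US G) (dp 31 (oUS 16 N)) :=
    ori_dp (LB.ori_US (FV.sub_S hB) hB.cpt (by norm_num) (by norm_num))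
  have hdU : Hom 31 (dp 31 (oUS 16 N)) := fun y => T.hom_dp 31 (oUS 16 N) y
  have hosZ : FG.OSubm 6 31 Z (US G) Prod.fst (SB.oV oN) (dp 31 (oUS 16 N)) :=
    SB.osubm_Sph hUc pfN oprN hoU (fun y => T.hom_dp 31 (oUS 16 N) y)
  -- the fibre value
  have horB : Ori 6 (Sph B P' ∩ Prod.fst ⁻¹' {jj g z₀}) (SB.oV o') := by
    rw [SB.OddB.fibre_eq hb₀B]; exact hod.ori_oV hb₀B
  have hne : J 6 (Z ∩ Prod.fst ⁻¹' {z₀}) (SB.oV oN) (F.pull q WB) ≠ 0 := by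
    obtain ⟨k1, k2⟩ := HN.J_fib_pull sj hT hdP pfN pfP3 hz₀ horB hW.sm
    have k3 : J 6 (Sph B P' ∩ Prod.fst ⁻¹' {jj g z₀}) (SB.oV o') WB = 2 * XF.tau ι' :=
      hod.J_fibre' hb₀B
    have k4 := JV.abs_J_ori (HN.clo_fib pfN hz₀)
      (ZG.preconn_fib_Sph pfN (by norm_num) hz₀) k1 (hosZ.fib z₀) (F.pull q WB)
    intro h0
    rw [h0, abs_zero, k2, k3] at k4
    have := XF.tau_pos ι'
    rw [abs_of_pos (by positivity)] at k4
    linarith
  -- the classes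
  have hEC : EC B (cR 6 P') := EW.ec_cfr hBq.sub (EW.idF_of_pfield hod.pf) 6
  have hp : CF2 B 12 (t3 • cR 6 P') :=
    ⟨(hEC.smul _).sm, (hEC.smul _).cl, T.Hom.smul _ (fun y => EW.hom_cfr 6 y), by decide⟩
  have he : CF2 B 2 Fc := ⟨hc.sm, hc.cl, hc.hom, by decide⟩
  have hnE : VX.nE ι' ^ 2 = t3 := by
    have h4 : Fintype.card ι' = 3 := by have := hod.hr; omega
    rw [VX.nE, h4, ht3, show Nat.factorial 3 = 6 from rfl]
    norm_num
  have h2 : Coh (Sph B P') (WB * WB) (F.pull Prod.fst (t3 • cR 6 P')) := by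
    rw [← hnE, pull_smul']
    exact hod.sq_eV hBq.sub
  have hom : CF2 S 8 x := ⟨D.sx, D.cx, D.dx, by decide⟩
  -- the forms on `US` and on `F`
  obtain ⟨θ, sθ, dθ, eθ⟩ := JY.exists_theta D
  obtain ⟨ν, sν, dν, eν⟩ := D.hm_prim'
  have hν : Eqv (GT.FF S) (F.d ν) (F.pull Prod.fst x * F.pull Prod.fst x +
      F.pull Prod.fst x * F.pull Prod.snd x + F.pull Prod.snd x * F.pull Prod.snd x) := by
    refine eν.symm.trans (Eqv.of_eq fun z _ => ?_)
    rw [Finset.sum_range_succ, Finset.sum_range_succ, Finset.sum_range_succ,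
      Finset.sum_range_zero]
    simp only [pow_zero, pow_one, pow_two, one_mul, mul_one, zero_add, Nat.sub_self,
      Nat.sub_zero, show (2 : ℕ) - 1 = 1 from rfl, Pi.add_apply, Pi.mul_apply]
    abel
  have hφ : SMap (US G) (GT.FF S) (phi G) :=
    ⟨fun z hz => FV.contDiffAt_phi hz.1, fun z hz => FV.phi_mem h.bla.bl hz⟩
  have h1' : Coh B ((3 : ℝ) • (x0 * x0) + (l ^ 2) • (Fc * Fc * (t3 • cR 6 P'))) 0 := by
    rw [(he.mul he).comm]
    exact h1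
  have hα : Eqv (US G) (F.d (al (N := N))) (F.pull (jj g) Fc) := hc.pull.symm
  have sft : SMap (US G) S (Prod.fst : Euc N × Euc N → Euc N) :=
    ⟨fun z _ => contDiffAt_fst, fun z hz => hz.1.1⟩
  have hF : ∀ z ∈ Z, ∀ t : ℝ, ContDiffAt ℝ ∞ (Af G lg ρ w J₀ ε) (z, t) := fun z hz t =>
    h.contDiffAt_Af hz.1 t
  have hm : ∀ z ∈ Z, ∀ t : ℝ, Af G lg ρ w J₀ ε (z, t) ∈ S := fun z hz t => h.Af_mem hz.1 t
  have hF0 : ∀ z ∈ Z, Af G lg ρ w J₀ ε (z, 0) = (Prod.fst : Euc N × Euc N → Euc N) z.1 :=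
    fun z hz => h.Af_zero hz.1 le_rfl
  have hFF : FI.Sub 24 (GT.FF S) := FV.sub_FF' h.bla (by norm_num)
  have key := SO.final (π := (Prod.fst : (Euc N × Euc N) × Wt N K → Euc N × Euc N))
    (ρ := (Prod.fst : MM m × EuclideanSpace ℝ (Fin (2 * c + 1)) → MM m)) (q := q) (j := jj g)
    hosZ.subm hUpre hoU hdU hosZ.cV hosZ.tot hYc.sub hBq.sub (FV.sub_S hB) hqm.smap
    smap_fstS sj (fun _ _ => rfl) hal.sm hal.hom he hx0 hp hα hW h1' h2 hom sfY h3 sft hF hm hF0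
    hfY hz₀ hne hFF hφ smap_fst_FF smap_snd_FF sν dν hν sθ dθ eθ (fun _ _ => rfl)
  have key0 := SR.x3_zero (π := (Prod.fst : (Euc N × Euc N) × Wt N K → Euc N × Euc N))
    (ρ := (Prod.fst : MM m × EuclideanSpace ℝ (Fin (2 * c + 1)) → MM m)) (q := q) (j := jj g)
    hosZ.subm hUpre hoU hdU hosZ.cV hosZ.tot hYc.sub hBq.sub (FV.sub_S hB) hqm.smap
    smap_fstS sj (fun _ _ => rfl) hal.sm hal.hom he hx0 hp hα hW h1' h2 hom sfY h3 hz₀ hne
  have hval := JY.val D (d := 31) (by norm_num) hoU sθ dθ eθ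
  -- passage to `B`
  obtain ⟨-, hJ, -⟩ := CM.J_US hB hper hg hc
  have hoU2 : Ori 31 (US G) (oUS 16 N) := LB.ori_US (FV.sub_S hB) hB.cpt (by norm_num) (by norm_num)
  have hsgn := J_ori_connected hUc hoU2 hoU hUpre
  have cont : ∀ {j : ℕ} {a : MM m → Ext (MM m)}, CF2 B j a → ContinuousOn a B := fun ha y hy =>
    (ha.sm y hy).continuousAt.continuousWithinAt
  have a1 : CF2 B 30 (Fc * Fc * Fc * x0 * x0 * x0) :=
    ((((he.mul he).mul he).mul hx0).mul hx0).mul hx0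
  have a2 : CF2 B 30 (Fc * x0 * x0 * (t3 • cR 6 P')) := ((he.mul hx0).mul hx0).mul hp
  have b1 : J 31 (US G) (oUS 16 N) (al * F.pull (jj g) (Fc * Fc * Fc * x0 * x0 * x0)) =
      2 * Real.pi * J 30 B (Fc ^ 15) (Fc * Fc * Fc * x0 * x0 * x0) := hJ _ (cont a1)
  have b2 : J 31 (US G) (oUS 16 N) (al * F.pull (jj g) (Fc * x0 * x0 * (t3 • cR 6 P'))) =
      2 * Real.pi * J 30 B (Fc ^ 15) (Fc * x0 * x0 * (t3 • cR 6 P')) := hJ _ (cont a2)
  constructor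
  · have c1 : J 31 (US G) (oUS 16 N) (al * F.pull (jj g) (Fc * Fc * Fc * x0 * x0 * x0)) = 0 := by
      rcases hsgn with h4 | h4
      · rw [← h4]; exact key0
      · have := h4 (al * F.pull (jj g) (Fc * Fc * Fc * x0 * x0 * x0))
        rw [key0] at this
        linarith
    rw [c1] at b1
    have c2 : Fc ^ 3 * x0 ^ 3 = Fc * Fc * Fc * x0 * x0 * x0 := by
      rw [pow_three', pow_three', ← mul_assoc, ← mul_assoc]
    rw [c2]
    rcases mul_eq_zero.1 b1.symm with h4 | h4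
    · exact absurd h4 (by positivity)
    · exact h4
  · rw [← b2, ← hval, ← key]
    rcases hsgn with h4 | h4
    · rw [h4]
    · rw [h4, mul_neg, abs_neg]

/-- the oriented odd field over `B` -/
theorem hod_of {n' : ℕ} {G : Geo n' N κ S}
    (hO : TP.DscO (US G) (gf G) g (fun t => Rt (nuP K) t) 3 PN c s' Tr P' o' W') :
    SB.OddB (Fin 3) (Quo (US G) g) 6 P' o' := ⟨hO.pf, hO.sy, hO.opr, by simp⟩

/-- the same, `fY` given by the family `f1` on the sphere bundle of radius `2`, sign as in VE12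
(`l = -c₁`) -/
theorem main_f1 (h : FL.D1 G 8 K lg ρ r C r' Kr Bb w δ PN ε J₀ E₀ η₀) (D : T.XM h.bla 2 W₀ p x)
    (hg : Emb (US G) (gf G) g) (hc : Curv (US G) g (al (N := N)) Fc)
    (hO : TP.DscO (US G) (gf G) g (fun t => Rt (nuP K) t) 3 PN c s' Tr P' o' W')
    (hod : SB.OddB ι' (Quo (US G) g) 6 P' o')
    (s0 : Sm (Quo (US G) g) x0) (c0 : Cl (Quo (US G) g) x0) (d0 : Hom 8 x0) (ht3 : t3 = 2304)
    (h1 : Coh (Quo (US G) g) ((3 : ℝ) • (x0 * x0) + (l ^ 2) • ((t3 • cR 6 P') * (Fc * Fc))) 0)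
    (sfY : SMap (Sph (Quo (US G) g) P') S fY)
    (hfY : ∀ z ∈ Sph (US G) PN, fY (CM.Th (jj g) Tr z) = FL.f1 G lg ρ w J₀ ε (z.1, (2 : ℝ) • z.2))
    (h3 : Coh (Sph (Quo (US G) g) P') (F.pull fY x)
      (F.pull Prod.fst x0 - l • (F.pull Prod.fst Fc * SB.OddB.eV ι' hod.hr P' o'))) :
    J 30 (Quo (US G) g) (Fc ^ 15) (Fc ^ 3 * x0 ^ 3) = 0 ∧
    |8 * l ^ 2 * (2 * Real.pi * J 30 (Quo (US G) g) (Fc ^ 15)
      (Fc * x0 * x0 * (t3 • cR 6 P')))| = XF.tau ι ^ 4 := by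
  have h1' : Coh (Quo (US G) g)
      ((3 : ℝ) • (x0 * x0) + ((-l) ^ 2) • ((t3 • cR 6 P') * (Fc * Fc))) 0 := by
    rw [neg_sq]; exact h1
  have h3' : Coh (Sph (Quo (US G) g) P') (F.pull fY x)
      (F.pull Prod.fst x0 + (-l) • (F.pull Prod.fst Fc * SB.OddB.eV ι' hod.hr P' o')) := by
    rw [neg_smul, ← sub_eq_add_neg]; exact h3
  have := main h D hg hc hO hod ⟨s0, c0, d0, by decide⟩ ht3 h1' sfY (fun z hz => by
    rw [hfY z hz]
    change FL.f1 G lg ρ w J₀ ε (z.1, FL.gs 1 • z.2) = _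
    rw [FL.gs_two (by norm_num)]) h3'
  rwa [neg_sq] at this

end Crest.Agent.R208.SU
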