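import Crest.Agent.R208.SU1

/-! Row 208, case (k, n) = (8, 16), block (R) (helper88).  SU2: `SU.main` with `fY` given by `f1`,
sign `+ l`. -/

set_option autoImplicit false
set_option linter.unusedSectionVars false
set_option linter.unusedVariables false

open MeasureTheory Set Filter Topology Module
open scoped ContDiff RealInnerProductSpace
open Crest.GeometryTopology.Submanifold
open Crest.Agent.R241.DDefs
open Crest.Agent.R241.D2
open Crest.Agent.R208.F Crest.Agent.R208.FI Crest.Agent.R208.CW Crest.Agent.R208.T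
open Crest.Agent.R208.CM
open Crest.Agent.R208.SO (CF2)
open Crest.Agent.R208.L (US)
open Crest.Agent.R208.LB (al oUS)
open Crest.Agent.R208.NN (Wt Rt nuP)
open Crest.Agent.R208.EW (cR)

noncomputable section

namespace Crest.Agent.R208.SU

variable {N K m c s' : ℕ} {κ : ℝ} {S : Set (Euc N)} {G : Geo 16 N κ S} {p : Euc N}
  {ι : Type} [Fintype ι] [DecidableEq ι] {W₀ : Euc N × Euc N → (ι × Fin 2 → Fin N) → ℝ}
  {x : Euc N → Ext (Euc N)}
  {lg : Euc N → Euc N → Euc N} {ρ : Euc N → Euc N} {r C r' Kr Bb w δ ε E₀ η₀ : ℝ} {J₀ : ℕ}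
  {PN : Euc N × Euc N → Wt N K →L[ℝ] Wt N K}
  {g : Euc N × Euc N → Fin m → ℂ} {Fc x0 : MM m → Ext (MM m)}
  {Tr : Euc N × Euc N → Wt N K →L[ℝ] EuclideanSpace ℝ (Fin (2 * c + 1))}
  {P' : MM m → EuclideanSpace ℝ (Fin (2 * c + 1)) →L[ℝ] EuclideanSpace ℝ (Fin (2 * c + 1))}
  {o' : MM m → Ext (EuclideanSpace ℝ (Fin (2 * c + 1)))}
  {W' : MM m → (Fin (s' + 1) × Fin 2 → Fin (2 * c + 1)) → ℝ}
  {ι' : Type} [Fintype ι'] [DecidableEq ι'] {l t3 : ℝ}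
  {fY : MM m × EuclideanSpace ℝ (Fin (2 * c + 1)) → Euc N}

/-- **(b1) and (b2)**, `fY` given by the family `f1` on the sphere bundle of radius `2` -/
theorem main_plus (h : FL.D1 G 8 K lg ρ r C r' Kr Bb w δ PN ε J₀ E₀ η₀) (D : T.XM h.bla 2 W₀ p x)
    (hg : Emb (US G) (gf G) g) (hc : Curv (US G) g (al (N := N)) Fc)
    (hO : TP.DscO (US G) (gf G) g (fun t => Rt (nuP K) t) 3 PN c s' Tr P' o' W')
    (hod : SB.OddB ι' (Quo (US G) g) 6 P' o')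
    (s0 : Sm (Quo (US G) g) x0) (c0 : Cl (Quo (US G) g) x0) (d0 : Hom 8 x0) (ht3 : t3 = 2304)
    (h1 : Coh (Quo (US G) g) ((3 : ℝ) • (x0 * x0) + (l ^ 2) • ((t3 • cR 6 P') * (Fc * Fc))) 0)
    (sfY : SMap (Sph (Quo (US G) g) P') S fY)
    (hfY : ∀ z ∈ Sph (US G) PN, fY (CM.Th (jj g) Tr z) = FL.f1 G lg ρ w J₀ ε (z.1, (2 : ℝ) • z.2))
    (h3 : Coh (Sph (Quo (US G) g) P') (F.pull fY x)
      (F.pull Prod.fst x0 + l • (F.pull Prod.fst Fc * SB.OddB.eV ι' hod.hr P' o'))) :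
    J 30 (Quo (US G) g) (Fc ^ 15) (Fc ^ 3 * x0 ^ 3) = 0 ∧
    |8 * l ^ 2 * (2 * Real.pi * J 30 (Quo (US G) g) (Fc ^ 15)
      (Fc * x0 * x0 * (t3 • cR 6 P')))| = XF.tau ι ^ 4 :=
  main h D hg hc hO hod ⟨s0, c0, d0, by decide⟩ ht3 h1 sfY (fun z hz => by
    rw [hfY z hz]
    change FL.f1 G lg ρ w J₀ ε (z.1, FL.gs 1 • z.2) = _
    rw [FL.gs_two (by norm_num)]) h3

end Crest.Agent.R208.SU
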