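import Crest.Agent.R208.SV1

/-!
R208, block SV (helper336), part 2: uniform pointwise second order expansion of
`|d/dt Exp (γ t) (A t)|^2`.
-/

set_option autoImplicit false

open Set Filter Topology MeasureTheory
open scoped ContDiff RealInnerProductSpace Interval
open Crest.GeometryTopology.Submanifold
open Crest.Agent.R241.DDefs
open Crest.Agent.R241.D2
open Crest.Agent.R208.L (om TanTS dfl)

noncomputable section

namespace Crest.Agent.R208.SV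

section taylor

lemma mvt0 {f f' : ℝ → ℝ} {C s : ℝ} (hs : 0 ≤ s)
    (hf : ∀ r ∈ Icc 0 s, HasDerivAt f (f' r) r) (hb : ∀ r ∈ Icc 0 s, |f' r| ≤ C) :
    |f s - f 0| ≤ C * s := by
  have h := norm_image_sub_le_of_norm_deriv_le_segment' (f := f) (f' := f') (C := C) (a := 0)
    (b := s) (fun x hx => (hf x hx).hasDerivWithinAt)
    (fun x hx => hb x ⟨hx.1, hx.2.le⟩) s ⟨hs, le_rfl⟩
  simpa using h

/-- uniform second order Taylor estimate -/
theorem taylor2 {Z : Type*} [NormedAddCommGroup Z] [NormedSpace ℝ Z] {K : Set Z}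
    (hK : IsCompact K) {g0 g1 g2 : Z × ℝ → ℝ}
    (h1 : ∀ z ∈ K, ∀ s ∈ Icc (0 : ℝ) 1, HasDerivAt (fun s => g0 (z, s)) (g1 (z, s)) s)
    (h2 : ∀ z ∈ K, ∀ s ∈ Icc (0 : ℝ) 1, HasDerivAt (fun s => g1 (z, s)) (g2 (z, s)) s)
    (h3 : ∀ z ∈ K, ∀ s ∈ Icc (0 : ℝ) 1, ContDiffAt ℝ 1 g2 (z, s)) :
    ∃ C, 0 ≤ C ∧ ∀ z ∈ K, ∀ s ∈ Icc (0 : ℝ) 1,
      |g0 (z, s) - g0 (z, 0) - s * g1 (z, 0) - s ^ 2 / 2 * g2 (z, 0)| ≤ C * s ^ 3 := by
  have hcont : ContinuousOn (fun p => fderiv ℝ g2 p (0, 1)) (K ×ˢ Icc (0 : ℝ) 1) := by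
    rintro ⟨z, s⟩ ⟨hz, hs⟩
    have h4 : ContDiffAt ℝ 0 (fderiv ℝ g2) (z, s) := (h3 z hz s hs).fderiv_right (by norm_num)
    exact (h4.continuousAt.clm_apply continuousAt_const).continuousWithinAt
  obtain ⟨C, hC⟩ := (hK.prod isCompact_Icc).exists_bound_of_continuousOn hcont
  refine ⟨max C 0, le_max_right _ _, ?_⟩
  intro z hz s hs
  have hsub : ∀ r ∈ Icc 0 s, r ∈ Icc (0 : ℝ) 1 := fun r hr => ⟨hr.1, hr.2.trans hs.2⟩
  have e2 : ∀ r ∈ Icc (0 : ℝ) 1, HasDerivAt (fun s => g2 (z, s)) (fderiv ℝ g2 (z, r) (0, 1)) r := by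
    intro r hr
    have h5 := ((h3 z hz r hr).differentiableAt (by norm_num)).hasFDerivAt
    have h6 : HasDerivAt (fun s : ℝ => ((z, s) : Z × ℝ)) (0, 1) r :=
      (hasDerivAt_const r z).prodMk (hasDerivAt_id r)
    exact HasFDerivAt.comp_hasDerivAt (f := fun s : ℝ => ((z, s) : Z × ℝ)) r h5 h6
  have b2 : ∀ r ∈ Icc (0 : ℝ) 1, |g2 (z, r) - g2 (z, 0)| ≤ max C 0 * r := by
    intro r hr
    refine mvt0 (f := fun s => g2 (z, s)) hr.1 (fun r' hr' => e2 r' ⟨hr'.1, hr'.2.trans hr.2⟩)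
      fun r' hr' => ?_
    exact (hC (z, r') ⟨hz, hr'.1, hr'.2.trans hr.2⟩).trans (le_max_left _ _)
  have b1 : ∀ r ∈ Icc (0 : ℝ) 1, |g1 (z, r) - g1 (z, 0) - r * g2 (z, 0)| ≤ max C 0 * r * r := by
    intro r hr
    have := mvt0 (f := fun s => g1 (z, s) - s * g2 (z, 0)) (f' := fun s => g2 (z, s) - g2 (z, 0))
      (C := max C 0 * r) hr.1 (fun r' hr' => ?_) fun r' hr' => ?_
    · simp only [zero_mul, sub_zero] at this
      rw [sub_right_comm] at this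
      exact this
    · have h7 := h2 z hz r' ⟨hr'.1, hr'.2.trans hr.2⟩
      have h8 : HasDerivAt (fun s : ℝ => s * g2 (z, 0)) (g2 (z, 0)) r' := by
        simpa using (hasDerivAt_id r').mul_const (g2 (z, 0))
      exact h7.fun_sub h8
    · refine (b2 r' ⟨hr'.1, hr'.2.trans hr.2⟩).trans ?_
      exact mul_le_mul_of_nonneg_left hr'.2 (le_max_right _ _)
  have b0 := mvt0 (f := fun s => g0 (z, s) - s * g1 (z, 0) - s ^ 2 / 2 * g2 (z, 0))
      (f' := fun s => g1 (z, s) - g1 (z, 0) - s * g2 (z, 0))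
      (C := max C 0 * s * s) hs.1 (fun r' hr' => ?_) fun r' hr' => ?_
  · simp only [zero_mul, sub_zero] at b0
    have e : g0 (z, s) - g0 (z, 0) - s * g1 (z, 0) - s ^ 2 / 2 * g2 (z, 0) =
        g0 (z, s) - s * g1 (z, 0) - s ^ 2 / 2 * g2 (z, 0) -
          (g0 (z, 0) - (0 : ℝ) ^ 2 / 2 * g2 (z, 0)) := by ring
    rw [e]
    refine b0.trans (le_of_eq ?_)
    ring
  · have h7 := h1 z hz r' ⟨hr'.1, hr'.2.trans hs.2⟩
    have h8 : HasDerivAt (fun s : ℝ => s * g1 (z, 0)) (g1 (z, 0)) r' := by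
      simpa using (hasDerivAt_id r').mul_const (g1 (z, 0))
    have h9 : HasDerivAt (fun s : ℝ => s ^ 2 / 2 * g2 (z, 0)) (r' * g2 (z, 0)) r' := by
      have := (((hasDerivAt_id r').pow 2).div_const 2).mul_const (g2 (z, 0))
      refine this.congr_deriv ?_
      simp
    exact (h7.fun_sub h8).fun_sub h9
  · refine (b1 r' ⟨hr'.1, hr'.2.trans hs.2⟩).trans ?_
    have := le_max_right C 0
    have h0 := hr'.1
    have h1 := hr'.2
    exact mul_le_mul (mul_le_mul_of_nonneg_left h1 this) h1 h0 (mul_nonneg this hs.1)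

/-- a quadratic polynomial small on `[-δ,δ]` -/
lemma quad_bound {p0 p1 p2 m δ : ℝ} (hδ : 0 < δ)
    (h : ∀ l : ℝ, |l| ≤ δ → |p0 + p1 * l + p2 * l ^ 2| ≤ m) :
    |p0 + p1 + p2| ≤ m * (1 + 1 / δ + 2 / δ ^ 2) := by
  have h0 := h 0 (by simpa using hδ.le)
  have h1 := h δ (by rw [abs_of_pos hδ])
  have h2 := h (-δ) (by rw [abs_neg, abs_of_pos hδ])
  simp only [mul_zero, add_zero, ne_eq, OfNat.ofNat_ne_zero, not_false_eq_true, zero_pow] at h0
  have hp1 : |p1| ≤ m / δ := by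
    rw [le_div_iff₀ hδ]
    have : |p1 * δ| ≤ m := by
      rw [abs_le] at *
      constructor <;> nlinarith [h1.1, h1.2, h2.1, h2.2]
    rwa [abs_mul, abs_of_pos hδ] at this
  have hp2 : |p2| ≤ 2 * m / δ ^ 2 := by
    rw [le_div_iff₀ (by positivity)]
    have : |p2 * δ ^ 2| ≤ 2 * m := by
      rw [abs_le] at *
      constructor <;> nlinarith [h1.1, h1.2, h2.1, h2.2, h0.1, h0.2]
    rwa [abs_mul, abs_of_pos (by positivity : (0:ℝ) < δ ^ 2)] at this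
  calc |p0 + p1 + p2| ≤ |p0| + |p1| + |p2| := abs_add_three _ _ _
    _ ≤ m + m / δ + 2 * m / δ ^ 2 := by gcongr
    _ = m * (1 + 1 / δ + 2 / δ ^ 2) := by field_simp

end taylor

end Crest.Agent.R208.SV
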