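import Crest.Agent.R208.SV3

/-!
R208, block SV (helper336), part 4: the pointwise remainder estimate
`|Rr x y u w| ≤ C ‖y‖ (‖y‖² + ‖w‖²)`.
-/

set_option autoImplicit false

open Set Filter Topology MeasureTheory
open scoped ContDiff RealInnerProductSpace Interval
open Crest.GeometryTopology.Submanifold
open Crest.Agent.R241.DDefs
open Crest.Agent.R241.D2
open Crest.Agent.R208.L (om TanTS dfl)

noncomputable section

namespace Crest.Agent.R208.SV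

variable {n N : ℕ} {κ : ℝ} {S : Set (Euc N)} {G : Geo n N κ S} {q ξ : Euc N × Euc N}

lemma exists_II_bound (G : Geo n N κ S) (hc : IsCompact S) :
    ∃ B, 0 ≤ B ∧ ∀ x ∈ S, ∀ v w : Euc N, ‖II G x v w‖ ≤ B * ‖v‖ * ‖w‖ := by
  have h3 : Continuous (fderiv ℝ G.P) := G.contDiff_P.continuous_fderiv (by simp)
  obtain ⟨B, hB⟩ : ∃ B, ∀ x ∈ S, ‖fderiv ℝ G.P x‖ ≤ B := by
    have hcn : Continuous (fun x => ‖fderiv ℝ G.P x‖) :=
      (continuous_norm (E := Euc N →L[ℝ] Euc N →L[ℝ] Euc N)).comp h3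
    obtain ⟨C, hC⟩ := hc.exists_bound_of_continuousOn (f := fun x => ‖fderiv ℝ G.P x‖)
      hcn.continuousOn
    exact ⟨C, fun x hx => (le_abs_self _).trans (hC x hx)⟩
  refine ⟨max B 0, le_max_right _ _, fun x hx v w => ?_⟩
  calc ‖II G x v w‖ ≤ ‖fderiv ℝ G.P x v‖ * ‖w‖ := (fderiv ℝ G.P x v).le_opNorm w
    _ ≤ ‖fderiv ℝ G.P x‖ * ‖v‖ * ‖w‖ := by gcongr; exact (fderiv ℝ G.P x).le_opNorm v
    _ ≤ max B 0 * ‖v‖ * ‖w‖ := by gcongr; exact (hB x hx).trans (le_max_left _ _)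

lemma norm_P_le {x : Euc N} (hx : x ∈ S) (w : Euc N) : ‖G.P x w‖ ≤ ‖w‖ := by
  rw [G.P_eq x hx]
  exact Submodule.norm_starProjection_apply_le _ _

lemma step2 (hc : IsCompact S) : ∃ C, 0 ≤ C ∧ ∀ x y u w : Euc N,
    TanTS G (x, y) (u, w) → ‖u‖ ≤ 1 → ∀ s : ℝ, 0 < s → s ≤ 1 → ‖y‖ ≤ s →
      |Rr G x y u w| ≤ C * (s * (s ^ 2 + ‖w‖ ^ 2)) := by
  obtain ⟨B, hB0, hB⟩ := exists_II_bound G hc
  obtain ⟨C, hC0, hC⟩ := step1 (G := G) hc (B + 1)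
  refine ⟨4 * C, by positivity, ?_⟩
  intro x y u w h hu s hs0 hs1 hys
  have hq := mem_TS h
  have hx : x ∈ S := hq.1
  have hyT : y ∈ G.T x := hq.2
  have huT : u ∈ G.T x := h.fst_mem
  set w0 := II G x y u with hw0
  set b := G.P x w with hb
  have hbT : b ∈ G.T x := P_mem G hx
  have hw : w = w0 + b := by rw [add_comm]; exact snd_eq h
  have hbw : ‖b‖ ≤ ‖w‖ := norm_P_le hx w
  have key : ∀ l : ℝ, |l| * ‖b‖ ≤ s → |Rr G x y u (w0 + l • b)| ≤ C * s ^ 3 := by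
    intro l hl
    have h1 : TanTS G (x, y) (u, w0 + l • b) :=
      tanTS_mk hx hyT huT ((G.T x).smul_mem l hbT)
    have h2 := tanTS_scale h1 s⁻¹
    have h3 : ‖s⁻¹ • y‖ ≤ 1 := by
      rw [norm_smul, norm_inv, Real.norm_of_nonneg hs0.le, inv_mul_le_iff₀ hs0, mul_one]
      exact hys
    have h4 : ‖s⁻¹ • (w0 + l • b)‖ ≤ B + 1 := by
      rw [norm_smul, norm_inv, Real.norm_of_nonneg hs0.le, inv_mul_le_iff₀ hs0]
      calc ‖w0 + l • b‖ ≤ ‖w0‖ + ‖l • b‖ := norm_add_le _ _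
        _ ≤ B * ‖y‖ * ‖u‖ + |l| * ‖b‖ := by
            rw [norm_smul, Real.norm_eq_abs]
            gcongr
            exact hB x hx y u
        _ ≤ B * s * 1 + s := by gcongr
        _ = s * (B + 1) := by ring
    have h5 := hC x (s⁻¹ • y) u (s⁻¹ • (w0 + l • b)) h2 h3 hu h4 s ⟨hs0.le, hs1⟩
    rwa [smul_inv_smul₀ hs0.ne', smul_inv_smul₀ hs0.ne'] at h5
  by_cases hb0 : b = 0
  · have h6 := key 0 (by simpa using hs0.le)
    rw [hb0, smul_zero, add_zero] at h6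
    rw [hw, hb0, add_zero]
    refine h6.trans ?_
    have : 0 ≤ ‖w0‖ ^ 2 := by positivity
    have h7 : C * s ^ 3 ≤ C * (s * (s ^ 2 + ‖w0‖ ^ 2)) := by
      apply mul_le_mul_of_nonneg_left _ hC0
      nlinarith
    nlinarith [mul_nonneg hC0 (mul_nonneg hs0.le (by positivity : 0 ≤ s ^ 2 + ‖w0‖ ^ 2))]
  · have hbpos : 0 < ‖b‖ := norm_pos_iff.2 hb0
    set δ := s / ‖b‖ with hδ
    have hδ0 : 0 < δ := by positivity
    -- polynomial structure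
    set A := (dfl G (x, y) 1 (u, w0)).1 with hA
    set D := (dfl G (x, y) 1 (0, b)).1 with hD
    have hlin : ∀ l : ℝ, (dfl G (x, y) 1 (u, w0 + l • b)).1 = A + l • D := by
      intro l
      have e : ((u, w0 + l • b) : Euc N × Euc N) = (u, w0) + l • ((0, b) : Euc N × Euc N) := by
        ext1 <;> simp
      rw [e, map_add, map_smul]
      rfl
    have hpoly : ∀ l : ℝ, Rr G x y u (w0 + l • b) =
        (‖A‖ ^ 2 - ‖u‖ ^ 2 - 2 * ⟪u, w0⟫ - ‖w0‖ ^ 2 + ⟪II G x y y, II G x u u⟫) +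
          (2 * ⟪A, D⟫ - 2 * ⟪u, b⟫ - 2 * ⟪w0, b⟫) * l + (‖D‖ ^ 2 - ‖b‖ ^ 2) * l ^ 2 := by
      intro l
      unfold Rr
      rw [hlin, norm_add_sq_real, norm_add_sq_real, inner_smul_right, inner_add_right,
        inner_smul_right, inner_smul_right, norm_smul, norm_smul, mul_pow, mul_pow,
        Real.norm_eq_abs, sq_abs]
      ring
    have h8 := quad_bound (p0 := ‖A‖ ^ 2 - ‖u‖ ^ 2 - 2 * ⟪u, w0⟫ - ‖w0‖ ^ 2 +
        ⟪II G x y y, II G x u u⟫) (p1 := 2 * ⟪A, D⟫ - 2 * ⟪u, b⟫ - 2 * ⟪w0, b⟫)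
        (p2 := ‖D‖ ^ 2 - ‖b‖ ^ 2) (m := C * s ^ 3) hδ0 (fun l hl => by
          rw [← hpoly]
          refine key l ?_
          rwa [hδ, le_div_iff₀ hbpos] at hl)
    have h9 : Rr G x y u w = ‖A‖ ^ 2 - ‖u‖ ^ 2 - 2 * ⟪u, w0⟫ - ‖w0‖ ^ 2 +
        ⟪II G x y y, II G x u u⟫ + (2 * ⟪A, D⟫ - 2 * ⟪u, b⟫ - 2 * ⟪w0, b⟫) +
        (‖D‖ ^ 2 - ‖b‖ ^ 2) := by
      have := hpoly 1
      rw [one_smul, ← hw] at this
      rw [this]; ring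
    rw [h9]
    refine h8.trans ?_
    have h10 : C * s ^ 3 * (1 + 1 / δ + 2 / δ ^ 2) =
        C * (s * (s ^ 2 + s * ‖b‖ + 2 * ‖b‖ ^ 2)) := by
      rw [hδ]; field_simp
    rw [h10]
    have h11 : s * ‖b‖ ≤ (s ^ 2 + ‖b‖ ^ 2) / 2 := by nlinarith [sq_nonneg (s - ‖b‖)]
    have h12 : ‖b‖ ^ 2 ≤ ‖w‖ ^ 2 := by gcongr
    have h13 : s ^ 2 + s * ‖b‖ + 2 * ‖b‖ ^ 2 ≤ 4 * (s ^ 2 + ‖w‖ ^ 2) := by nlinarith [sq_nonneg s]
    calc C * (s * (s ^ 2 + s * ‖b‖ + 2 * ‖b‖ ^ 2)) ≤ C * (s * (4 * (s ^ 2 + ‖w‖ ^ 2))) := by gcongr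
      _ = 4 * C * (s * (s ^ 2 + ‖w‖ ^ 2)) := by ring

/-- **uniform second order expansion** of `|D Exp (x,y) (u,w)|²` -/
theorem pt (hc : IsCompact S) : ∃ C, 0 ≤ C ∧ ∀ x y u w : Euc N,
    TanTS G (x, y) (u, w) → ‖u‖ ≤ 1 → ‖y‖ ≤ 1 →
      |Rr G x y u w| ≤ C * (‖y‖ * (‖y‖ ^ 2 + ‖w‖ ^ 2)) := by
  obtain ⟨C, hC0, hC⟩ := step2 (G := G) hc
  refine ⟨C, hC0, ?_⟩
  intro x y u w h hu hy
  by_cases hy0 : y = 0
  · have h1 : Tendsto (fun s : ℝ => C * (s * (s ^ 2 + ‖w‖ ^ 2))) (𝓝[>] 0)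
        (𝓝 (C * (0 * (0 ^ 2 + ‖w‖ ^ 2)))) := by
      apply Tendsto.mono_left _ nhdsWithin_le_nhds
      have : Continuous fun s : ℝ => C * (s * (s ^ 2 + ‖w‖ ^ 2)) := by fun_prop
      exact this.tendsto 0
    have h2 : ∀ᶠ s in 𝓝[>] (0 : ℝ), |Rr G x y u w| ≤ C * (s * (s ^ 2 + ‖w‖ ^ 2)) := by
      filter_upwards [Ioo_mem_nhdsGT (zero_lt_one : (0:ℝ) < 1)] with s hs
      exact hC x y u w h hu s hs.1 hs.2.le (by rw [hy0, norm_zero]; exact hs.1.le)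
    have h3 := ge_of_tendsto h1 h2
    rw [hy0, norm_zero] at *
    simpa using h3
  · exact hC x y u w h hu ‖y‖ (norm_pos_iff.2 hy0) hy le_rfl

end Crest.Agent.R208.SV
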