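import Mathlib

/-!
R208, block G7, part A (helper742): the synthetic rigid end.  An abstract "Blaschke space" all of
whose geodesic symmetries are distance non-increasing, and whose suspensions `Σ_pq` are not
larger than round spheres, is two-point homogeneous.
-/

set_option autoImplicit false

open Set Filter Topology Real
open scoped RealInnerProductSpace

namespace Crest.Agent.R208.Sym

/-- Abstract data of a Blaschke space of diameter `π` with geodesic symmetries. -/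
structure SymData {E : Type*} [NormedAddCommGroup E] [InnerProductSpace ℝ E] {X : Type*}
    (d : X → X → ℝ) (T : X → Submodule ℝ E) (exp : X → E → X) : Prop where
  self : ∀ x, d x x = 0
  symm : ∀ x y, d x y = d y x
  tri : ∀ x y z, d x z ≤ d x y + d y z
  eq_of : ∀ x y, d x y = 0 → x = y
  exp_zero : ∀ p, exp p 0 = p
  geo : ∀ p, ∀ v ∈ T p, ‖v‖ = 1 → ∀ s t : ℝ, |s - t| ≤ π →
    d (exp p (s • v)) (exp p (t • v)) = |s - t|
  per : ∀ p, ∀ v ∈ T p, ‖v‖ = 1 → exp p (-(π • v)) = exp p (π • v)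
  diam : ∀ x y, d x y ≤ π
  surj : ∀ p x, ∃ v ∈ T p, ‖v‖ = 1 ∧ exp p (d p x • v) = x
  reparam : ∀ p, ∀ v ∈ T p, ‖v‖ = 1 → ∀ t : ℝ, ∃ w ∈ T (exp p (t • v)), ‖w‖ = 1 ∧
    ∀ s : ℝ, exp (exp p (t • v)) (s • w) = exp p ((t + s) • v)
  inj : ∀ p, ∀ v ∈ T p, ‖v‖ = 1 → ∀ w ∈ T p, ‖w‖ = 1 → ∀ t : ℝ, 0 < t → t < π →
    exp p (t • v) = exp p (t • w) → v = w
  corner : ∀ x y z, d x z + d z y = d x y → ∃ v ∈ T x, ‖v‖ = 1 ∧
    exp x (d x z • v) = z ∧ exp x (d x y • v) = y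
  lin : ∀ p q, d p q = π → ∃ V : Submodule ℝ E, ∀ v ∈ T p, ‖v‖ = 1 →
    (exp p (π • v) = q ↔ v ∈ V)
  refl_le : ∀ p, ∀ u ∈ T p, ‖u‖ ≤ π → ∀ v ∈ T p, ‖v‖ ≤ π →
    d (exp p (-u)) (exp p (-v)) ≤ d (exp p u) (exp p v)
  round : ∀ p q, d p q = π → ∀ x ∈ T p, ‖x‖ = 1 → exp p (π • x) = q →
    ∀ y ∈ T p, ‖y‖ = 1 → exp p (π • y) = q → ∀ s ∈ Icc (0 : ℝ) π, ∀ t ∈ Icc (0 : ℝ) π,
    d (exp p (s • x)) (exp p (t • y)) ≤ arccos (cos s * cos t + sin s * sin t * ⟪x, y⟫)
  near : ∀ p, ∀ v ∈ T p, ‖v‖ = 1 → ∃ δ > (0 : ℝ), ∀ w ∈ T p, ‖w‖ = 1 → ‖w - v‖ < δ →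
    d (exp p (π • v)) (exp p (π • w)) < π

/-- a bijective isometry for the distance function `d` -/
def Iso {X : Type*} (d : X → X → ℝ) (Φ : X → X) : Prop :=
  Function.Bijective Φ ∧ ∀ x y, d (Φ x) (Φ y) = d x y

lemma Iso.comp {X : Type*} {d : X → X → ℝ} {Φ Ψ : X → X} (h : Iso d Φ) (h' : Iso d Ψ) :
    Iso d (Φ ∘ Ψ) :=
  ⟨h.1.comp h'.1, fun x y => by simp only [Function.comp_apply]; rw [h.2, h'.2]⟩

lemma Iso.id {X : Type*} {d : X → X → ℝ} : Iso d (fun x : X => x) :=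
  ⟨Function.bijective_id, fun _ _ => rfl⟩

lemma Iso.symm {X : Type*} {d : X → X → ℝ} {Φ : X → X} (h : Iso d Φ) :
    ∃ Ψ : X → X, Iso d Ψ ∧ ∀ x, Ψ (Φ x) = x := by
  obtain ⟨Ψ, h1, h2⟩ := Function.bijective_iff_has_inverse.1 h.1
  refine ⟨Ψ, ⟨⟨h2.injective, h1.surjective⟩, fun x y => ?_⟩, h1⟩
  rw [← h.2, h2 x, h2 y]

namespace SymData

variable {E : Type*} [NormedAddCommGroup E] [InnerProductSpace ℝ E] {X : Type*}
  {d : X → X → ℝ} {T : X → Submodule ℝ E} {exp : X → E → X} (D : SymData d T exp)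

include D

lemma nonneg (x y : X) : 0 ≤ d x y := by
  have h1 := D.tri x y x
  rw [D.self, D.symm y x] at h1
  linarith

lemma geo0 {p : X} {v : E} (hv : v ∈ T p) (hv1 : ‖v‖ = 1) {t : ℝ} (h0 : 0 ≤ t) (h1 : t ≤ π) :
    d p (exp p (t • v)) = t := by
  have h := D.geo p v hv hv1 0 t (by rw [zero_sub, abs_neg, abs_of_nonneg h0]; exact h1)
  rw [zero_smul, D.exp_zero, zero_sub, abs_neg, abs_of_nonneg h0] at h
  exact h

/-- The geodesic symmetry at `p`. -/
lemma exists_refl (p : X) : ∃ s : X → X, Iso d s ∧ (∀ u ∈ T p, ‖u‖ ≤ π → s (exp p u) = exp p (-u)) ∧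
    s p = p ∧ ∀ x, d p x = π → s x = x := by
  choose v hv hv1 hx using D.surj p
  have hn : ∀ x, ‖d p x • v x‖ ≤ π := fun x => by
    rw [norm_smul, hv1, mul_one, Real.norm_eq_abs, abs_of_nonneg (D.nonneg _ _)]
    exact D.diam _ _
  have hm : ∀ x, d p x • v x ∈ T p := fun x => (T p).smul_mem _ (hv x)
  have hw : ∀ u ∈ T p, ‖u‖ ≤ π → exp p (-(d p (exp p u) • v (exp p u))) = exp p (-u) := by
    intro u hu hu1
    apply D.eq_of
    apply le_antisymm _ (D.nonneg _ _)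
    have h1 := D.refl_le p _ (hm (exp p u)) (hn _) u hu hu1
    rw [hx, D.self] at h1
    exact h1
  have hinv : ∀ x, exp p (-(d p (exp p (-(d p x • v x))) • v (exp p (-(d p x • v x))))) = x := by
    intro x
    rw [hw _ ((T p).neg_mem (hm x)) (by rw [norm_neg]; exact hn x), neg_neg, hx]
  refine ⟨fun x => exp p (-(d p x • v x)), ⟨⟨?_, ?_⟩, ?_⟩, ?_, ?_, ?_⟩
  · intro x y hxy
    have h1 := hinv x
    have h2 := hinv y
    simp only at hxy
    rw [hxy] at h1
    rw [← h1, h2]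
  · intro x
    exact ⟨exp p (-(d p x • v x)), hinv x⟩
  · intro x y
    simp only
    apply le_antisymm
    · have h1 := D.refl_le p _ (hm x) (hn x) _ (hm y) (hn y)
      rwa [hx, hx] at h1
    · have h1 := D.refl_le p _ ((T p).neg_mem (hm x)) (by rw [norm_neg]; exact hn x) _
        ((T p).neg_mem (hm y)) (by rw [norm_neg]; exact hn y)
      rwa [neg_neg, neg_neg, hx, hx] at h1
  · intro u hu hu1
    exact hw u hu hu1
  · simp only [D.self, zero_smul, neg_zero, D.exp_zero]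
  · intro x hxp
    have h1 := hx x
    simp only
    rw [hxp] at h1 ⊢
    rw [D.per p _ (hv x) (hv1 x), h1]

/-- The symmetry at a point of a geodesic, seen on this geodesic. -/
lemma refl_geo {z : X} {s : X → X} (hs : ∀ u ∈ T z, ‖u‖ ≤ π → s (exp z u) = exp z (-u))
    {p : X} {v : E} (hv : v ∈ T p) (hv1 : ‖v‖ = 1) {m : ℝ} (hz : exp p (m • v) = z) {t : ℝ}
    (ht : |t - m| ≤ π) : s (exp p (t • v)) = exp p ((2 * m - t) • v) := by
  subst hz
  obtain ⟨w, hw, hw1, hs'⟩ := D.reparam p v hv hv1 m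
  have h1 := hs' (t - m)
  rw [show m + (t - m) = t by ring] at h1
  have h2 := hs' (-(t - m))
  rw [show m + -(t - m) = 2 * m - t by ring] at h2
  rw [← h1, ← h2, hs _ ((T _).smul_mem _ hw), neg_smul]
  rw [norm_smul, hw1, mul_one]
  exact ht

/-- The symmetry at a point of a geodesic, seen on this geodesic. -/
lemma exists_refl_geo {p : X} {v : E} (hv : v ∈ T p) (hv1 : ‖v‖ = 1) (m : ℝ) :
    ∃ s : X → X, Iso d s ∧ (∀ t, |t - m| ≤ π → s (exp p (t • v)) = exp p ((2 * m - t) • v)) ∧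
      (∀ x, d (exp p (m • v)) x = π → s x = x) := by
  obtain ⟨s, hs1, hs2, hs3, hs4⟩ := D.exists_refl (exp p (m • v))
  exact ⟨s, hs1, fun t ht => D.refl_geo hs2 hv hv1 rfl ht, hs4⟩

/-- transitivity on points -/
lemma exists_move (p q : X) : ∃ s : X → X, Iso d s ∧ s p = q := by
  obtain ⟨v, hv, hv1, hx⟩ := D.surj p q
  have h0 := D.nonneg p q
  have h1 := D.diam p q
  obtain ⟨s, hs, hs1, -⟩ := D.exists_refl_geo hv hv1 (d p q / 2)
  refine ⟨s, hs, ?_⟩
  have h2 := hs1 0 (by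
    rw [zero_sub, abs_neg, abs_of_nonneg (by linarith)]; linarith [Real.pi_pos])
  rw [zero_smul, D.exp_zero, sub_zero, show 2 * (d p q / 2) = d p q by ring, hx] at h2
  exact h2

/-- uniqueness of the point at distance `t` on the minimal geodesics from `x` to `y`,
`d x y < π` -/
lemma unique_between {x y z z' : X} (hxy : d x y < π) (h : d x z + d z y = d x y)
    (h' : d x z' + d z' y = d x y) (he : d x z = d x z') : z = z' := by
  obtain ⟨v, hv, hv1, h1, h2⟩ := D.corner x y z h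
  obtain ⟨v', hv', hv1', h1', h2'⟩ := D.corner x y z' h'
  rcases (D.nonneg x y).eq_or_lt with h0 | h0
  · have h3 : x = z := by
      apply D.eq_of
      have := D.nonneg x z
      have := D.nonneg z y
      linarith
    have h4 : x = z' := by
      apply D.eq_of
      have := D.nonneg x z'
      have := D.nonneg z' y
      linarith
    rw [← h3, ← h4]
  · have h3 := D.inj x v hv hv1 v' hv' hv1' (d x y) h0 hxy (by rw [h2, h2'])
    rw [← h1, ← h1', he, h3]

/-- a fixed point of the symmetry at `p` -/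
lemma refl_fixed {p : X} {s : X → X}
    (hs : ∀ u ∈ T p, ‖u‖ ≤ π → s (exp p u) = exp p (-u)) {z : X} (hz : s z = z) :
    z = p ∨ d p z = π := by
  obtain ⟨u, hu, hu1, hx⟩ := D.surj p z
  rcases (D.nonneg p z).eq_or_lt with h0 | h0
  · left
    exact (D.eq_of _ _ h0.symm).symm
  · right
    by_contra hne
    have hlt : d p z < π := lt_of_le_of_ne (D.diam _ _) hne
    have h1 := hs (d p z • u) ((T p).smul_mem _ hu) (by
      rw [norm_smul, hu1, mul_one, Real.norm_eq_abs, abs_of_nonneg h0.le]; exact hlt.le)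
    rw [hx, hz] at h1
    have h2 := D.inj p u hu hu1 (-u) ((T p).neg_mem hu) (by rw [norm_neg, hu1]) (d p z) h0 hlt
      (by rw [hx, smul_neg]; exact h1)
    have h3 : (2 : ℝ) • u = 0 := by
      rw [two_smul]
      nth_rewrite 1 [h2]
      exact neg_add_cancel u
    have h4 : u = 0 := by
      rcases smul_eq_zero.1 h3 with h | h
      · norm_num at h
      · exact h
    rw [h4, norm_zero] at hu1
    exact zero_ne_one hu1

/-- close points of the cut locus of `p` are exchanged by an isometry fixing `p` -/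
lemma step3 {p x y : X} (hx : d p x = π) (hy : d p y = π) (hxy : d x y < π) :
    ∃ s : X → X, Iso d s ∧ s p = p ∧ s x = y := by
  obtain ⟨v, hv, hv1, hvy⟩ := D.surj x y
  have h0 := D.nonneg x y
  set r := d x y with hr
  set z := exp x ((r / 2) • v) with hz
  have hpi := Real.pi_pos
  have hxz : d x z = r / 2 := D.geo0 hv hv1 (by linarith) (by linarith)
  have hzy : d z y = r / 2 := by
    have h1 := D.geo x v hv hv1 (r / 2) r (by
      rw [abs_of_nonpos (by linarith)]; linarith)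
    rw [hvy, abs_of_nonpos (by linarith)] at h1
    rw [hz, h1]; ring
  obtain ⟨s, hs1, hs2, hs3, hs4⟩ := D.exists_refl p
  have hsz : s z = z := by
    symm
    apply D.unique_between (x := x) (y := y) hxy
    · rw [hxz, hzy]; ring
    · have e1 : d x (s z) = r / 2 := by
        rw [← hxz, ← hs1.2 x z, hs4 x hx]
      have e2 : d (s z) y = r / 2 := by
        rw [← hzy, ← hs1.2 z y, hs4 y hy]
      rw [e1, e2]; ring
    · rw [← hs1.2 x z, hs4 x hx]
  have hpz : d p z = π := by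
    rcases D.refl_fixed hs2 hsz with h | h
    · exfalso
      rw [h, D.symm, hx] at hxz
      linarith
    · exact h
  obtain ⟨σ, hσ, hσ1, hσ2⟩ := D.exists_refl_geo hv hv1 (r / 2)
  refine ⟨σ, hσ, hσ2 p (by rw [D.symm]; exact hpz), ?_⟩
  have h2 := hσ1 0 (by
    rw [zero_sub, abs_neg, abs_of_nonneg (by linarith)]; linarith)
  rw [zero_smul, D.exp_zero, sub_zero, show 2 * (r / 2) = r by ring, hvy] at h2
  exact h2

/-- the isometries fixing `p` act transitively on the cut locus of `p` -/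
lemma step3' {p : X} {v w : E} (hv : v ∈ T p) (hv1 : ‖v‖ = 1) (hw : w ∈ T p) (hw1 : ‖w‖ = 1) :
    ∃ s : X → X, Iso d s ∧ s p = p ∧ s (exp p (π • v)) = exp p (π • w) := by
  have hpi := Real.pi_pos
  by_cases hrank : 1 < Module.rank ℝ (T p)
  · have hpre := isPreconnected_sphere hrank (0 : T p) 1
    have key := hpre.induction₂ (P := fun a b : T p => ∃ s : X → X, Iso d s ∧ s p = p ∧
      s (exp p (π • (a : E))) = exp p (π • (b : E))) ?_ ?_ ?_ (x := ⟨v, hv⟩) (y := ⟨w, hw⟩)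
      (by simp [hv1]) (by simp [hw1])
    · exact key
    · intro a ha
      have ha1 : ‖(a : E)‖ = 1 := by simpa using ha
      obtain ⟨δ, hδ, hnear⟩ := D.near p a a.2 ha1
      have h1 : ∀ᶠ b in 𝓝[Metric.sphere (0 : T p) 1] a, b ∈ Metric.sphere (0 : T p) 1 :=
        eventually_mem_nhdsWithin
      have h2 : ∀ᶠ b in 𝓝[Metric.sphere (0 : T p) 1] a, b ∈ Metric.ball a δ :=
        eventually_nhdsWithin_of_eventually_nhds (Metric.ball_mem_nhds a hδ)
      filter_upwards [h1, h2] with b hb hb2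
      have hb1 : ‖(b : E)‖ = 1 := by simpa using hb
      have hb3 : ‖(b : E) - a‖ < δ := by
        rw [Metric.mem_ball, dist_eq_norm] at hb2
        simpa using hb2
      exact D.step3 (D.geo0 a.2 ha1 hpi.le le_rfl) (D.geo0 b.2 hb1 hpi.le le_rfl)
        (hnear b b.2 hb1 hb3)
    · rintro a b c - - - ⟨s, hs1, hs2, hs3⟩ ⟨s', hs1', hs2', hs3'⟩
      exact ⟨s' ∘ s, hs1'.comp hs1, by simp [hs2, hs2'], by simp [hs3, hs3']⟩
    · rintro a b - - ⟨s, hs1, hs2, hs3⟩
      obtain ⟨s', hs', hinv⟩ := hs1.symm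
      refine ⟨s', hs', ?_, ?_⟩
      · have := hinv p
        rwa [hs2] at this
      · rw [← hs3, hinv]
  · -- one-dimensional case
    have h1 : Module.rank ℝ (T p) ≤ 1 := not_lt.1 hrank
    obtain ⟨v₀, hv₀⟩ := rank_le_one_iff.1 h1
    obtain ⟨a, ha⟩ := hv₀ ⟨v, hv⟩
    obtain ⟨b, hb⟩ := hv₀ ⟨w, hw⟩
    have ha' : a • (v₀ : E) = v := congrArg Subtype.val ha
    have hb' : b • (v₀ : E) = w := congrArg Subtype.val hb
    have hvw : w = v ∨ w = -v := by
      have h2 : |a| * ‖(v₀ : E)‖ = 1 := by rw [← hv1, ← ha', norm_smul, Real.norm_eq_abs]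
      have h3 : |b| * ‖(v₀ : E)‖ = 1 := by rw [← hw1, ← hb', norm_smul, Real.norm_eq_abs]
      have h4 : ‖(v₀ : E)‖ ≠ 0 := by
        intro h; rw [h, mul_zero] at h2; exact zero_ne_one h2
      have h5 : |a| = |b| := mul_right_cancel₀ h4 (h2.trans h3.symm)
      rcases abs_eq_abs.1 h5 with h | h
      · left; rw [← ha', ← hb', h]
      · right; rw [← ha', ← hb', h, neg_smul, neg_neg]
    refine ⟨fun x => x, Iso.id, rfl, ?_⟩
    rcases hvw with h | h
    · rw [h]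
    · rw [h, smul_neg, D.per p v hv hv1]

/-- the suspension `Σ_pq` is round -/
lemma round_eq {p q : X} (hpq : d p q = π) {x y : E} (hx : x ∈ T p) (hx1 : ‖x‖ = 1)
    (hxq : exp p (π • x) = q) (hy : y ∈ T p) (hy1 : ‖y‖ = 1) (hyq : exp p (π • y) = q)
    {s t : ℝ} (hs : s ∈ Icc (0 : ℝ) π) (ht : t ∈ Icc (0 : ℝ) π) :
    d (exp p (s • x)) (exp p (t • y)) = arccos (cos s * cos t + sin s * sin t * ⟪x, y⟫) := by
  apply le_antisymm (D.round p q hpq x hx hx1 hxq y hy hy1 hyq s hs t ht)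
  have hx' : exp p (π • (-x)) = q := by rw [smul_neg, D.per p x hx hx1, hxq]
  have h1 := D.round p q hpq y hy hy1 hyq (-x) ((T p).neg_mem hx) (by rw [norm_neg, hx1]) hx' t ht
    (π - s) ⟨by linarith [hs.2], by linarith [hs.1]⟩
  have h2 : exp p ((π - s) • (-x)) = exp p ((s - π) • x) := by
    congr 1
    rw [smul_neg, ← neg_smul]
    congr 1
    ring
  have h3 : d (exp p (s • x)) (exp p ((s - π) • x)) = π := by
    rw [D.geo p x hx hx1 s (s - π) (by rw [show s - (s - π) = π by ring, abs_of_pos pi_pos]),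
      show s - (s - π) = π by ring, abs_of_pos pi_pos]
  have h4 := D.tri (exp p (s • x)) (exp p (t • y)) (exp p ((s - π) • x))
  have h5 : cos t * cos (π - s) + sin t * sin (π - s) * ⟪y, -x⟫
      = -(cos s * cos t + sin s * sin t * ⟪x, y⟫) := by
    rw [cos_pi_sub, sin_pi_sub, inner_neg_right, real_inner_comm y x]
    ring
  rw [h2, h5, arccos_neg] at h1
  linarith

omit D in
/-- cosine of the half angle -/
lemma _root_.Crest.Agent.R208.Sym.inner_bisect {x y : E} (hx1 : ‖x‖ = 1) (hy1 : ‖y‖ = 1)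
    (hne : y ≠ -x) : ∃ w : E, ‖w‖ = 1 ∧ (∃ c : ℝ, w = c • (x + y)) ∧
      arccos ⟪w, x⟫ = arccos ⟪x, y⟫ / 2 ∧ arccos ⟪w, y⟫ = arccos ⟪x, y⟫ / 2 := by
  have hxy0 : x + y ≠ 0 := fun h => hne (by rw [eq_neg_iff_add_eq_zero, add_comm]; exact h)
  have hn0 : 0 < ‖x + y‖ := norm_pos_iff.2 hxy0
  have hsq : ‖x + y‖ ^ 2 = 2 * (1 + ⟪x, y⟫) := by
    rw [norm_add_sq_real, hx1, hy1]; ring
  have h1 : (0 : ℝ) < 1 + ⟪x, y⟫ := by nlinarith [sq_pos_of_pos hn0]
  have hle : ⟪x, y⟫ ≤ (1 : ℝ) := by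
    have := real_inner_le_norm x y
    rwa [hx1, hy1, mul_one] at this
  set θ := arccos ⟪x, y⟫ with hθ
  have hθ0 : 0 ≤ θ := arccos_nonneg _
  have hθ1 : θ ≤ π := arccos_le_pi _
  have hcos : cos θ = ⟪x, y⟫ := cos_arccos (by linarith) hle
  have hc2 : cos (θ / 2) ^ 2 = (1 + ⟪x, y⟫) / 2 := by
    rw [Real.cos_sq, show 2 * (θ / 2) = θ by ring, hcos]; ring
  have hc0 : 0 ≤ cos (θ / 2) := cos_nonneg_of_mem_Icc ⟨by linarith [pi_pos], by linarith⟩
  have hnorm : ‖x + y‖ = 2 * cos (θ / 2) := by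
    have h2 : ‖x + y‖ ^ 2 = (2 * cos (θ / 2)) ^ 2 := by
      rw [hsq, mul_pow, hc2]; ring
    exact (pow_left_inj₀ hn0.le (by linarith) (by norm_num)).1 h2
  have hval : ‖x + y‖⁻¹ * (1 + ⟪x, y⟫) = cos (θ / 2) := by
    have h3 : 1 + ⟪x, y⟫ = 2 * cos (θ / 2) ^ 2 := by rw [hc2]; ring
    have h4 : 0 < cos (θ / 2) := by nlinarith
    rw [hnorm, h3]
    field_simp
  refine ⟨‖x + y‖⁻¹ • (x + y), ?_, ⟨_, rfl⟩, ?_, ?_⟩
  · rw [norm_smul, norm_inv, norm_norm, inv_mul_cancel₀ hn0.ne']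
  · rw [real_inner_smul_left, inner_add_left, real_inner_self_eq_norm_sq, hx1,
      real_inner_comm x y]
    rw [show ((1 : ℝ) ^ 2 + ⟪x, y⟫) = 1 + ⟪x, y⟫ by ring, hval]
    exact arccos_cos (by linarith) (by linarith)
  · rw [real_inner_smul_left, inner_add_left, real_inner_self_eq_norm_sq, hy1]
    rw [show (⟪x, y⟫ + (1 : ℝ) ^ 2) = 1 + ⟪x, y⟫ by ring, hval]
    exact arccos_cos (by linarith) (by linarith)

/-- the stabiliser of `(p,q)` is transitive on the link of `(p,q)` -/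
lemma step5 {p q : X} (hpq : d p q = π) {x y : E} (hx : x ∈ T p) (hx1 : ‖x‖ = 1)
    (hxq : exp p (π • x) = q) (hy : y ∈ T p) (hy1 : ‖y‖ = 1) (hyq : exp p (π • y) = q) :
    ∃ g : X → X, Iso d g ∧ g p = p ∧ g q = q ∧
      ∀ r ∈ Icc (0 : ℝ) π, g (exp p (r • x)) = exp p (r • y) := by
  have hpi := Real.pi_pos
  by_cases hne : y = -x
  · obtain ⟨s, hs1, hs2, hs3, hs4⟩ := D.exists_refl p
    refine ⟨s, hs1, hs3, hs4 q hpq, ?_⟩
    intro r hr
    rw [hs2 _ ((T p).smul_mem _ hx) (by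
      rw [norm_smul, hx1, mul_one, Real.norm_eq_abs, abs_of_nonneg hr.1]; exact hr.2), hne,
      smul_neg]
  obtain ⟨w, hw1, ⟨c, hc⟩, hwx, hwy⟩ := inner_bisect hx1 hy1 hne
  obtain ⟨V, hV⟩ := D.lin p q hpq
  have hwT : w ∈ T p := by rw [hc]; exact (T p).smul_mem _ ((T p).add_mem hx hy)
  have hwV : w ∈ V := by
    rw [hc]
    exact V.smul_mem _ (V.add_mem ((hV x hx hx1).1 hxq) ((hV y hy hy1).1 hyq))
  have hwq : exp p (π • w) = q := (hV w hwT hw1).2 hwV
  have hhalf : (π / 2) ∈ Icc (0 : ℝ) π := ⟨by linarith, by linarith⟩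
  have hlt : arccos ⟪x, y⟫ < π := by
    refine lt_of_le_of_ne (arccos_le_pi _) ?_
    intro h
    rw [arccos_eq_pi] at h
    apply hne
    have h2 : ‖x + y‖ ^ 2 = 2 * (1 + ⟪x, y⟫) := by
      rw [norm_add_sq_real, hx1, hy1]; ring
    have h3 : ‖x + y‖ ^ 2 ≤ 0 := by rw [h2]; linarith
    have h4 : ‖x + y‖ = 0 := by nlinarith [norm_nonneg (x + y)]
    have h5 := norm_eq_zero.1 h4
    rw [eq_neg_iff_add_eq_zero, add_comm]
    exact h5
  set mx := exp p ((π / 2) • x) with hmx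
  set my := exp p ((π / 2) • y) with hmy
  set mw := exp p ((π / 2) • w) with hmw
  have e1 : d mx mw = arccos ⟪x, y⟫ / 2 := by
    rw [D.symm, D.round_eq hpq hwT hw1 hwq hx hx1 hxq hhalf hhalf, ← hwx]
    simp
  have e2 : d mw my = arccos ⟪x, y⟫ / 2 := by
    rw [D.round_eq hpq hwT hw1 hwq hy hy1 hyq hhalf hhalf, ← hwy]
    simp
  have e3 : d mx my = arccos ⟪x, y⟫ := by
    rw [D.round_eq hpq hx hx1 hxq hy hy1 hyq hhalf hhalf]
    simp
  -- the symmetries at `mw` and `mx`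
  obtain ⟨σ, hσ, hσ1, -, -⟩ := D.exists_refl mw
  obtain ⟨τ, hτ, hτ1, hτm, -⟩ := D.exists_refl mx
  have hσp : σ p = q := by
    have h2 := D.refl_geo hσ1 hwT hw1 (m := π / 2) rfl (t := 0)
      (by rw [zero_sub, abs_neg, abs_of_nonneg (by linarith)]; linarith)
    rwa [zero_smul, D.exp_zero, sub_zero, show 2 * (π / 2) = π by ring, hwq] at h2
  have hσq : σ q = p := by
    have h2 := D.refl_geo hσ1 hwT hw1 (m := π / 2) rfl (t := π)
      (by rw [abs_of_nonneg (by linarith)]; linarith)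
    rwa [show 2 * (π / 2) - π = 0 by ring, zero_smul, D.exp_zero, hwq] at h2
  have hτp : τ p = q := by
    have h2 := D.refl_geo hτ1 hx hx1 (m := π / 2) rfl (t := 0)
      (by rw [zero_sub, abs_neg, abs_of_nonneg (by linarith)]; linarith)
    rwa [zero_smul, D.exp_zero, sub_zero, show 2 * (π / 2) = π by ring, hxq] at h2
  have hτq : τ q = p := by
    have h2 := D.refl_geo hτ1 hx hx1 (m := π / 2) rfl (t := π)
      (by rw [abs_of_nonneg (by linarith)]; linarith)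
    rwa [show 2 * (π / 2) - π = 0 by ring, zero_smul, D.exp_zero, hxq] at h2
  have hθ0 := arccos_nonneg ⟪x, y⟫
  have hσmx : σ mx = my := by
    -- minimal geodesic from `mx` to `my` through `mw`
    obtain ⟨v, hv, hv1, h1, h2⟩ := D.corner mx my mw (by rw [e1, e2, e3]; ring)
    rw [e1] at h1
    rw [e3] at h2
    have h3 := D.refl_geo hσ1 hv hv1 h1 (t := 0)
      (by rw [zero_sub, abs_neg, abs_of_nonneg (by linarith)]; linarith)
    rw [zero_smul, D.exp_zero, sub_zero, show 2 * (arccos ⟪x, y⟫ / 2) = arccos ⟪x, y⟫ by ring,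
      h2] at h3
    exact h3
  have hg : Iso d (σ ∘ τ) := hσ.comp hτ
  have hgp : (σ ∘ τ) p = p := by simp only [Function.comp_apply]; rw [hτp, hσq]
  have hgq : (σ ∘ τ) q = q := by simp only [Function.comp_apply]; rw [hτq, hσp]
  have hgm : (σ ∘ τ) mx = my := by simp only [Function.comp_apply]; rw [hτm, hσmx]
  refine ⟨σ ∘ τ, hg, hgp, hgq, ?_⟩
  intro r hr
  set z := (σ ∘ τ) (exp p (r • x)) with hz
  have d1 : d p z = r := by
    rw [hz]
    nth_rewrite 1 [← hgp]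
    rw [hg.2]
    exact D.geo0 hx hx1 hr.1 hr.2
  have d2 : d q z = π - r := by
    rw [hz]
    nth_rewrite 1 [← hgq]
    rw [hg.2, ← hxq, D.geo p x hx hx1 π r (by rw [abs_of_nonneg (by linarith [hr.2])]; linarith [hr.1]),
      abs_of_nonneg (by linarith [hr.2])]
  have d3 : d z my = |r - π / 2| := by
    rw [hz, ← hgm, hg.2, D.geo p x hx hx1 r (π / 2) (by
      rw [abs_le]; constructor <;> linarith [hr.1, hr.2])]
  have d4 : d p my = π / 2 := D.geo0 hy hy1 hhalf.1 hhalf.2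
  rcases le_total r (π / 2) with hle | hge
  · obtain ⟨v, hv, hv1, h1, h2⟩ := D.corner p my z (by
      rw [d1, d3, d4, abs_of_nonpos (by linarith)]; ring)
    rw [d4] at h2
    have h3 := D.inj p v hv hv1 y hy hy1 (π / 2) (by linarith) (by linarith) h2
    rw [d1, h3] at h1
    exact h1.symm
  · have d5 : d q my = π / 2 := by
      rw [← hyq, D.geo p y hy hy1 π (π / 2) (by rw [abs_of_nonneg (by linarith)]; linarith),
        abs_of_nonneg (by linarith)]
      ring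
    obtain ⟨v, hv, hv1, h1, h2⟩ := D.corner q my z (by
      rw [d2, d3, d5, abs_of_nonneg (by linarith)]; ring)
    rw [d5] at h2
    obtain ⟨u, hu, hu1, hus⟩ := D.reparam p y hy hy1 π
    rw [hyq] at hu hus
    have h4 := hus (-(π / 2))
    rw [show π + -(π / 2) = π / 2 by ring] at h4
    have h3 := D.inj q v hv hv1 (-u) ((T q).neg_mem hu) (by rw [norm_neg, hu1]) (π / 2)
      (by linarith) (by linarith) (by rw [h2, smul_neg, ← neg_smul, h4])
    rw [d2, h3, smul_neg, ← neg_smul, hus] at h1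
    rw [← h1]
    congr 2
    ring

/-- **Two-point homogeneity.** -/
theorem twoPoint {p q p' q' : X} (h : d p q = d p' q') :
    ∃ Φ : X → X, Iso d Φ ∧ Φ p = p' ∧ Φ q = q' := by
  obtain ⟨Φ₁, hΦ₁, h1⟩ := D.exists_move p p'
  obtain ⟨v, hv, hv1, hvq⟩ := D.surj p' (Φ₁ q)
  obtain ⟨v', hv', hv1', hvq'⟩ := D.surj p' q'
  have hpi := Real.pi_pos
  have hr : d p' (Φ₁ q) = d p' q' := by rw [← h1, hΦ₁.2, h, h1]
  obtain ⟨Φ₂, hΦ₂, h2, h3⟩ := D.step3' hv hv1 hv' hv1'
  set r := d p' q' with hr'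
  have hr0 : 0 ≤ r := D.nonneg _ _
  have hrπ : r ≤ π := D.diam _ _
  rw [hr] at hvq
  set z := Φ₂ (Φ₁ q) with hz
  have hq' : d p' (exp p' (π • v')) = π := D.geo0 hv' hv1' hpi.le le_rfl
  have dz1 : d p' z = r := by
    rw [hz]
    nth_rewrite 1 [← h2]
    rw [hΦ₂.2, hr]
  have dz2 : d z (exp p' (π • v')) = π - r := by
    rw [hz, ← h3, hΦ₂.2, ← hvq, D.geo p' v hv hv1 r π (by
      rw [abs_of_nonpos (by linarith)]; linarith), abs_of_nonpos (by linarith)]
    ring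
  obtain ⟨w, hw, hw1, hwz, hwq⟩ := D.corner p' (exp p' (π • v')) z (by rw [dz1, dz2, hq']; ring)
  rw [dz1] at hwz
  rw [hq'] at hwq
  obtain ⟨g, hg, hgp, hgq, hgr⟩ := D.step5 hq' hw hw1 hwq hv' hv1' rfl
  refine ⟨g ∘ Φ₂ ∘ Φ₁, hg.comp (hΦ₂.comp hΦ₁), ?_, ?_⟩
  · simp only [Function.comp_apply]
    rw [h1, h2, hgp]
  · simp only [Function.comp_apply]
    rw [← hz, ← hwz, hgr r ⟨hr0, hrπ⟩, hvq']

end SymData

end Crest.Agent.R208.Sym
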