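import Crest.Agent.R208.TDefs

/-! Row 208, block T (helper316).  T1a: fibre integration over `H` of forms on `E × H`, up to
restriction to `X ×ˢ univ`; degrees. -/

set_option autoImplicit false
set_option linter.unusedSectionVars false

open MeasureTheory Set Filter Topology Module
open scoped ContDiff
open Crest.Agent.R208.F Crest.Agent.R208.FI Crest.Agent.R208.CW

noncomputable section

namespace Crest.Agent.R208.T

section degree
variable {E : Type*} [AddCommGroup E] [Module ℝ E] [FiniteDimensional ℝ E]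

theorem evA_pb_smul (q : ℕ) (l : ℝ) (c : Ext E) :
    evA E q (pb (l • (LinearMap.id : E →ₗ[ℝ] E)) c) = l ^ q • evA E q c := by
  ext v
  rw [evA_pb, AlternatingMap.smul_apply]
  have h := (evA E q c).toMultilinearMap.map_smul_univ (fun _ => l) v
  simp only [Finset.prod_const, Finset.card_univ, Fintype.card_fin] at h
  exact h

theorem isDeg_pb_smul {p : ℕ} {c : Ext E} (h : IsDeg p c) (l : ℝ) :
    pb (l • (LinearMap.id : E →ₗ[ℝ] E)) c = l ^ p • c := by
  rw [← sub_eq_zero]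
  refine eq_zero_of_evA fun q => ?_
  rw [map_sub, evA_pb_smul, map_smul]
  by_cases hq : q = p
  · rw [hq, sub_self]
  · rw [h q hq, smul_zero, smul_zero, sub_zero]

theorem isDeg_mul {p q : ℕ} {a b : Ext E} (ha : IsDeg p a) (hb : IsDeg q b) :
    IsDeg (p + q) (a * b) := by
  intro m hm
  have h1 : pb ((2 : ℝ) • (LinearMap.id : E →ₗ[ℝ] E)) (a * b) = (2 : ℝ) ^ (p + q) • (a * b) := by
    rw [map_mul, isDeg_pb_smul ha, isDeg_pb_smul hb, smul_mul_smul_comm, pow_add]
  have h2 := evA_pb_smul m 2 (a * b)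
  rw [h1, map_smul] at h2
  ext v
  have h4 : (2 : ℝ) ^ (p + q) * evA E m (a * b) v = 2 ^ m * evA E m (a * b) v :=
    congrArg (fun L => L v) h2
  have h5 : (2 : ℝ) ^ (p + q) ≠ 2 ^ m := fun h3 =>
    hm ((Nat.pow_right_injective (le_refl 2)) (by exact_mod_cast h3.symm))
  rw [AlternatingMap.zero_apply]
  by_contra h6
  exact h5 (mul_right_cancel₀ h6 h4)

end degree

section degree2
variable {E : Type*} [NormedAddCommGroup E] [NormedSpace ℝ E] [FiniteDimensional ℝ E]

theorem isDeg_iis (vs : List E) {p : ℕ} {c : Ext E} (h : IsDeg (p + vs.length) c) :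
    IsDeg p (iis vs c) := by
  induction vs generalizing c with
  | nil => exact h
  | cons v vs ih =>
    rw [iis_cons]
    exact ih (IsDeg.ii (by rw [List.length_cons] at h; exact h) v)

theorem ii_of_isDeg_zero {c : Ext E} (h : IsDeg 0 c) (v : E) : ii v c = 0 := by
  refine eq_zero_of_evA fun q => ?_
  ext w
  rw [← evA_ii, h (q + 1) (by omega)]
  rfl

theorem iis_eq_zero (vs : List E) {p : ℕ} {c : Ext E} (h : IsDeg p c) (hp : p < vs.length) :
    iis vs c = 0 := by
  induction vs generalizing c p with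
  | nil => simp at hp
  | cons v vs ih =>
    rw [iis_cons]
    cases p with
    | zero => rw [ii_of_isDeg_zero h, map_zero]
    | succ p => exact ih (h.ii v) (by simp at hp; omega)

end degree2

section
variable {E H : Type*} [NormedAddCommGroup E] [NormedSpace ℝ E] [FiniteDimensional ℝ E]
  [NormedAddCommGroup H] [NormedSpace ℝ H] [FiniteDimensional ℝ H]
  [MeasurableSpace H] [BorelSpace H] (μ : Measure H) [μ.IsAddHaarMeasure]
  {X : Set E} {a b : E × H → Ext (E × H)} {R : ℝ} {x : E} {m : ℕ}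

/-- supported in `‖h‖ ≤ R` -/
def Vt (R : ℝ) (a : E × H → Ext (E × H)) : Prop := ∀ z : E × H, R < ‖z.2‖ → a z = 0

theorem ji (x : E) (h : H) :
    (ContinuousLinearMap.inl ℝ E H) x + (ContinuousLinearMap.inr ℝ E H) h = (x, h) := by simp

theorem Vt.mul_right (h : Vt R a) (b : E × H → Ext (E × H)) : Vt R (a * b) := fun z hz => by
  rw [Pi.mul_apply, h z hz, zero_mul]
theorem Vt.mul_left (h : Vt R b) (a : E × H → Ext (E × H)) : Vt R (a * b) := fun z hz => by
  rw [Pi.mul_apply, h z hz, mul_zero]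
theorem Vt.sub (h : Vt R a) (h' : Vt R b) : Vt R (a - b) := fun z hz => by
  rw [Pi.sub_apply, h z hz, h' z hz, sub_zero]
theorem Vt.smul (r : ℝ) (h : Vt R a) : Vt R (r • a) := fun z hz => by
  rw [Pi.smul_apply, h z hz, smul_zero]
theorem Vt.mono {R' : ℝ} (hR : R ≤ R') (h : Vt R a) : Vt R' a := fun z hz => h z (hR.trans_lt hz)

theorem Vt.vg (h : Vt R a) (x : E) :
    VG (ContinuousLinearMap.inl ℝ E H) (ContinuousLinearMap.inr ℝ E H) x R a :=
  Eventually.of_forall fun y w hw => by rw [ji]; exact h (y, w) hw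

theorem Vt.d (h : Vt R a) : Vt R (F.d a) := by
  intro z hz
  have ho : IsOpen {z : E × H | R < ‖z.2‖} := isOpen_lt continuous_const (by fun_prop)
  have h1 : a =ᶠ[𝓝 z] fun _ => 0 := by
    filter_upwards [ho.mem_nhds hz] with w hw using h w hw
  rw [F.d_congr h1, F.d_const]

theorem pI_eq (a : E × H → Ext (E × H)) (x : E) : pI μ a x =
    ∫ h, cH (ContinuousLinearMap.inl ℝ E H) (ContinuousLinearMap.inr ℝ E H) (a (x, h)) ∂μ := by
  rw [pI, prH_eq]
  simp only [ji]

theorem surj_ji : Function.Surjective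
    (jih (ContinuousLinearMap.inl ℝ E H) (ContinuousLinearMap.inr ℝ E H)) := fun z =>
  ⟨z, by rw [jih]; ext <;> simp⟩

theorem Sm.slice (ha : Sm (X ×ˢ (univ : Set H)) a) (hx : x ∈ X) (h : H) :
    ContDiffAt ℝ ∞ a ((ContinuousLinearMap.inl ℝ E H) x + (ContinuousLinearMap.inr ℝ E H) h) := by
  rw [ji]; exact ha _ ⟨hx, mem_univ _⟩

theorem sm_pI (hv : Vt R a) (ha : Sm (X ×ˢ (univ : Set H)) a) : Sm X (pI μ a) := fun x hx =>
  contDiffAt_prH μ (hv.vg x) fun h => ha.slice hx h

theorem d_pI (hv : Vt R a) (ha : Sm (X ×ˢ (univ : Set H)) a) (hx : x ∈ X) :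
    pI μ (F.d a) x = (-1 : ℝ) ^ finrank ℝ H • F.d (pI μ a) x :=
  prH_d μ surj_ji (hv.vg x) fun h => (ha.slice hx h).of_le (by exact_mod_cast le_top)

theorem pI_mul_fst (hv : Vt R a) (ha : Sm (X ×ˢ (univ : Set H)) a) (hx : x ∈ X)
    (β : E → Ext E) : pI μ (a * F.pull (Prod.fst : E × H → E) β) x = pI μ a x * β x :=
  prH_mul_base μ (q := ContinuousLinearMap.fst ℝ E H) (by simp) (by simp) (hv.vg x)
    (fun h => (ha.slice hx h).continuousAt) β

theorem pI_sub (hv : Vt R a) (ha : Sm (X ×ˢ (univ : Set H)) a) (hv' : Vt R b)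
    (hb : Sm (X ×ˢ (univ : Set H)) b) (hx : x ∈ X) : pI μ (a - b) x = pI μ a x - pI μ b x :=
  prH_sub μ (hv.vg x) (fun h => (ha.slice hx h).continuousAt) (hv'.vg x)
    (fun h => (hb.slice hx h).continuousAt)

theorem tan_inl (hx : x ∈ X) (h : H) {w : E} (hw : w ∈ Tan X x) :
    (ContinuousLinearMap.inl ℝ E H) w ∈ Tan (X ×ˢ (univ : Set H)) (x, h) := by
  have h1 : HasFDerivAt (fun y : E => ((y, h) : E × H)) (ContinuousLinearMap.inl ℝ E H) x :=
    (hasFDerivAt_id x).prodMk (hasFDerivAt_const h x)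
  have h2 := fderiv_mapsTo_Tan (Y := X ×ˢ (univ : Set H)) h1.differentiableAt
    (fun z hz => ⟨hz, mem_univ _⟩) hw
  rwa [h1.fderiv] at h2

theorem tan_inr (hx : x ∈ X) (h w : H) :
    (ContinuousLinearMap.inr ℝ E H) w ∈ Tan (X ×ˢ (univ : Set H)) (x, h) := by
  have h1 : HasDerivAt (fun t : ℝ => ((x, h + t • w) : E × H)) (0, w) 0 := by
    refine (hasDerivAt_const (0 : ℝ) x).prodMk ?_
    have := ((hasDerivAt_id (0 : ℝ)).smul_const w).const_add h
    simpa using this
  have h2 : ((x, h + (0 : ℝ) • w) : E × H) = (x, h) := by simp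
  have h3 := mem_Tan_of_curve (X := X ×ˢ (univ : Set H)) h1
    (Eventually.of_forall fun t => ⟨hx, mem_univ _⟩)
  rw [h2] at h3
  exact h3

theorem resZero_pI (hv : Vt R a) (ha : Sm (X ×ˢ (univ : Set H)) a)
    (h : ResZero (X ×ˢ (univ : Set H)) a) : ResZero X (pI μ a) :=
  resZero_prH μ (fun x hx h w hw => by rw [ji]; exact tan_inl hx h hw)
    (fun x hx h w => by rw [ji]; exact tan_inr hx h w)
    (fun x hx h => by rw [ji]; exact ⟨hx, mem_univ _⟩) h (fun x _ => hv.vg x)
    (fun x hx h => (ha.slice hx h).continuousAt)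

theorem eqv_pI (hv : Vt R a) (ha : Sm (X ×ˢ (univ : Set H)) a) (hv' : Vt R b)
    (hb : Sm (X ×ˢ (univ : Set H)) b) (h : Eqv (X ×ˢ (univ : Set H)) a b) :
    Eqv X (pI μ a) (pI μ b) := by
  have h1 := resZero_pI μ (hv.sub hv') (ha.sub hb) h
  refine eqv_iff.2 fun x hx => ?_
  have h2 := h1 x hx
  rwa [pI_sub μ hv ha hv' hb hx, map_sub, sub_eq_zero] at h2

/-! ### naturality and degrees -/

theorem cH_pb {E' G G' : Type*} [NormedAddCommGroup E'] [NormedSpace ℝ E'] [FiniteDimensional ℝ E']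
    [NormedAddCommGroup G] [NormedSpace ℝ G] [FiniteDimensional ℝ G]
    [NormedAddCommGroup G'] [NormedSpace ℝ G'] [FiniteDimensional ℝ G']
    {j : E →L[ℝ] G} {i : H →L[ℝ] G} {j' : E' →L[ℝ] G'} {i' : H →L[ℝ] G'} {A : G →L[ℝ] G'}
    {B : E →L[ℝ] E'} (hi : ∀ h, A (i h) = i' h) (hj : ∀ x, A (j x) = j' (B x)) (c : Ext G') :
    cH j i (pb (A : G →ₗ[ℝ] G') c) = pb (B : E →ₗ[ℝ] E') (cH j' i' c) := by
  rw [cH_apply, cH_apply, iis_pb, pb_comp, pb_comp]
  have h1 : (vfr i).map ((A : G →L[ℝ] G') : G →ₗ[ℝ] G') = vfr i' := by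
    rw [vfr, vfr, List.map_map]
    exact List.map_congr_left fun h _ => hi h
  have h2 : (A : G →ₗ[ℝ] G') ∘ₗ (j : E →ₗ[ℝ] G) = (j' : E' →ₗ[ℝ] G') ∘ₗ (B : E →ₗ[ℝ] E') := by
    ext x; exact hj x
  rw [h1, h2]

theorem pI_pull {E' : Type*} [NormedAddCommGroup E'] [NormedSpace ℝ E'] [FiniteDimensional ℝ E']
    {f : E' → E} {y : E'} (hf : DifferentiableAt ℝ f y) (hv : Vt R a)
    (hc : ∀ h, ContinuousAt a (f y, h)) :
    pI μ (F.pull (fun z : E' × H => ((f z.1, z.2) : E × H)) a) y = F.pull f (pI μ a) y := by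
  have hint : Integrable (fun h => cH (ContinuousLinearMap.inl ℝ E H)
      (ContinuousLinearMap.inr ℝ E H) (a (f y, h))) μ := by
    have := integrable_cH μ (hv.vg (f y)) (fun h => by rw [ji]; exact hc h)
    simpa only [ji] using this
  rw [pI_eq, F.pull, pI_eq]
  have h1 : ∀ h, cH (ContinuousLinearMap.inl ℝ E' H) (ContinuousLinearMap.inr ℝ E' H)
      (F.pull (fun z : E' × H => ((f z.1, z.2) : E × H)) a (y, h)) =
      pbL (fderiv ℝ f y) (cH (ContinuousLinearMap.inl ℝ E H)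
        (ContinuousLinearMap.inr ℝ E H) (a (f y, h))) := by
    intro h
    have h2 : HasFDerivAt (fun z : E' × H => ((f z.1, z.2) : E × H))
        (((fderiv ℝ f y).comp (ContinuousLinearMap.fst ℝ E' H)).prod
          (ContinuousLinearMap.snd ℝ E' H)) (y, h) := by
      have h3 : HasFDerivAt (fun z : E' × H => f z.1)
          ((fderiv ℝ f y).comp (ContinuousLinearMap.fst ℝ E' H)) (y, h) :=
        HasFDerivAt.comp (g := f) (f := fun z : E' × H => z.1) (y, h) hf.hasFDerivAt hasFDerivAt_fst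
      exact h3.prodMk hasFDerivAt_snd
    rw [F.pull, h2.fderiv]
    exact cH_pb (by simp) (by simp) _
  simp only [h1]
  exact (pbL (fderiv ℝ f y)).integral_comp_comm hint

theorem isDeg_integral {α : Type*} [MeasurableSpace α] (ν : Measure α) {f : α → Ext E} {p : ℕ}
    (h : ∀ z, IsDeg p (f z)) : IsDeg p (∫ z, f z ∂ν) := by
  by_cases hf : Integrable f ν
  · intro q hq
    ext v
    let L : Ext E →ₗ[ℝ] ℝ :=
      { toFun := fun c => evA E q c v
        map_add' := fun x y => by rw [map_add]; rfl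
        map_smul' := fun r x => by rw [map_smul]; rfl }
    have h1 := (LinearMap.toContinuousLinearMap L).integral_comp_comm hf
    have h2 : ∀ z, (LinearMap.toContinuousLinearMap L) (f z) = 0 := fun z => by
      change evA E q (f z) v = 0
      rw [h z q hq]; rfl
    simp only [h2, integral_zero] at h1
    exact h1.symm
  · rw [integral_undef hf]; exact IsDeg.zero

theorem isDeg_pI {p : ℕ} (h : ∀ z, IsDeg (p + finrank ℝ H) (a z)) (x : E) :
    IsDeg p (pI μ a x) := by
  rw [pI_eq]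
  refine isDeg_integral μ fun z => ?_
  rw [cH_apply]
  refine IsDeg.pb (isDeg_iis _ ?_) _
  rw [length_vfr]
  exact h _

theorem pI_eq_zero {p : ℕ} (h : ∀ z, IsDeg p (a z)) (hp : p < finrank ℝ H) (x : E) :
    pI μ a x = 0 := by
  rw [pI_eq]
  have h1 : ∀ z, cH (ContinuousLinearMap.inl ℝ E H) (ContinuousLinearMap.inr ℝ E H) (a (x, z)) = 0 := by
    intro z
    rw [cH_apply, iis_eq_zero _ (h _) (by rw [length_vfr]; exact hp), map_zero]
  simp only [h1, integral_zero]

end

end Crest.Agent.R208.T
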