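import Crest.Agent.R208.T3a

/-! Row 208, block T (helper316).  T3b: gluing of primitives, annuli around a point. -/

set_option autoImplicit false
set_option linter.unusedSectionVars false

open MeasureTheory Set Filter Topology Module
open scoped ContDiff
open Crest.Agent.R208.F Crest.Agent.R208.FI Crest.Agent.R208.CW

noncomputable section

namespace Crest.Agent.R208.T

universe u w

section glue
variable {E : Type u} [NormedAddCommGroup E] [NormedSpace ℝ E] [FiniteDimensional ℝ E]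
  {S : Set E} {p : E} {U : Set E} {om ζ η κ : E → Ext E} {m : ℕ}

/-- `0` near `p`, `1` off a compact part of `ball p ε` -/
theorem exists_bump (p : E) {ε : ℝ} (hε : 0 < ε) : ∃ ψ : E → ℝ, ContDiff ℝ ∞ ψ ∧
    (∀ᶠ y in 𝓝 p, ψ y = 0) ∧ ∀ y, ε ≤ dist y p → ψ =ᶠ[𝓝 y] fun _ => 1 := by
  let f : ContDiffBump p := ⟨ε / 4, ε / 2, by positivity, by linarith⟩
  refine ⟨fun y => 1 - f y, contDiff_const.sub f.contDiff, ?_, fun y hy => ?_⟩
  · filter_upwards [Metric.closedBall_mem_nhds p (show 0 < ε / 4 by positivity)] with y hy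
    rw [f.one_of_mem_closedBall hy, sub_self]
  · have ho : IsOpen (Metric.closedBall p (ε / 2))ᶜ := Metric.isClosed_closedBall.isOpen_compl
    have hm : y ∈ (Metric.closedBall p (ε / 2))ᶜ := by
      rw [mem_compl_iff, Metric.mem_closedBall]; linarith
    filter_upwards [ho.mem_nhds hm] with z hz
    rw [mem_compl_iff, Metric.mem_closedBall, not_le] at hz
    rw [f.zero_of_le_dist hz.le, sub_zero]

theorem d_fsmul {g : E → ℝ} {a : E → Ext E} {y : E} (hg : DifferentiableAt ℝ g y)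
    (ha : DifferentiableAt ℝ a y) : F.d (fun y => g y • a y) y =
      io ((fderiv ℝ g y : E →L[ℝ] ℝ) : Module.Dual ℝ E) * a y + g y • F.d a y := F.d_smul hg ha

/-- **gluing** primitives on `S \ {p}` and near `p` -/
theorem glue_prim (hU : IsOpen U) (hpU : p ∈ U)
    (sζ : Sm (S \ {p}) ζ) (eζ : Eqv (S \ {p}) om (F.d ζ))
    (sη : Sm (S ∩ U) η) (eη : Eqv (S ∩ U) om (F.d η))
    (sκ : Sm ((S ∩ U) \ {p}) κ) (eκ : Eqv ((S ∩ U) \ {p}) (ζ - η) (F.d κ)) :
    Coh S om 0 := by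
  obtain ⟨ε, hε, hB⟩ := Metric.isOpen_iff.1 hU p hpU
  obtain ⟨ψ, hψ, hψ0, hψ1⟩ := exists_bump p hε
  have hψd : ∀ y, DifferentiableAt ℝ ψ y := fun y => hψ.contDiffAt.differentiableAt (by simp)
  let dψ : E → Ext E := fun y => io ((fderiv ℝ ψ y : E →L[ℝ] ℝ) : Module.Dual ℝ E)
  have hdψ : dψ = F.d (fun y => ψ y • (1 : Ext E)) := by
    funext y
    rw [d_fsmul (hψd y) (differentiableAt_const _), F.d_const, smul_zero, add_zero, mul_one]
  have sψ1 : Sm S (fun y => ψ y • (1 : Ext E)) := fun y _ => hψ.contDiffAt.smul (contDiffAt_const (c := (1 : Ext E)))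
  have hdψs : ∀ y, ContDiffAt ℝ ∞ dψ y := fun y => by
    rw [hdψ]
    exact contDiffAt_d (hψ.contDiffAt.smul (contDiffAt_const (c := (1 : Ext E)))) (by simp)
  have hddψ : ∀ y, F.d dψ y = 0 := fun y => by
    rw [hdψ]
    exact F.d_d ((hψ.contDiffAt.smul (contDiffAt_const (c := (1 : Ext E)))).of_le two_le)
  have hpc : IsOpen ({p}ᶜ : Set E) := isOpen_compl_singleton
  have hSp : S \ {p} = S ∩ {p}ᶜ := rfl
  have hSUp : (S ∩ U) \ {p} = S ∩ (U ∩ {p}ᶜ) := by ext y; simp [and_assoc]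
  set ξ : E → Ext E := fun y => ψ y • ζ y + (1 - ψ y) • η y + dψ y * κ y with hξ
  -- near `p`
  have n0 : ∀ᶠ y in 𝓝 p, ξ =ᶠ[𝓝 y] η := by
    have h1 := hψ0.eventually_nhds
    filter_upwards [h1] with y hy
    have h2 := hy.eventually_nhds
    filter_upwards [h2] with z hz
    have h3 : ψ z = 0 := hz.self_of_nhds
    have h4 : dψ z = 0 := by
      change io _ = 0
      have h5 : ψ =ᶠ[𝓝 z] fun _ => 0 := hz
      rw [h5.fderiv_eq]
      simp
    simp [hξ, h3, h4]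
  -- outside the ball
  have n1 : ∀ y, ε ≤ dist y p → ξ =ᶠ[𝓝 y] ζ := by
    intro y hy
    have h2 := (hψ1 y hy).eventually_nhds
    filter_upwards [h2] with z hz
    have h3 : ψ z = 1 := hz.self_of_nhds
    have h4 : dψ z = 0 := by
      change io _ = 0
      have h5 : ψ =ᶠ[𝓝 z] fun _ => 1 := hz
      rw [h5.fderiv_eq]
      simp
    simp [hξ, h3, h4]
  have hin : ∀ y, dist y p < ε → y ∈ U := fun y hy => hB hy
  have sξ : Sm S ξ := by
    intro y hy
    by_cases h1 : y = p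
    · subst h1
      exact (sη y ⟨hy, hpU⟩).congr_of_eventuallyEq n0.self_of_nhds
    rcases lt_or_ge (dist y p) ε with h2 | h2
    · have hyU := hin y h2
      have a1 := sζ y ⟨hy, h1⟩
      have a2 := sη y ⟨hy, hyU⟩
      have a3 := sκ y ⟨⟨hy, hyU⟩, h1⟩
      exact ((hψ.contDiffAt.smul a1).add ((contDiffAt_const.sub hψ.contDiffAt).smul a2)).add
        (F.contDiffAt_mul (hdψs y) a3)
    · exact (sζ y ⟨hy, h1⟩).congr_of_eventuallyEq (n1 y h2)
  refine ⟨ξ, sξ, ?_⟩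
  rw [sub_zero]
  refine eqv_iff.2 fun y hy => ?_
  by_cases h1 : y = p
  · subst h1
    rw [F.d_congr n0.self_of_nhds]
    exact eqv_of_open hU eη hy hpU
  rcases lt_or_ge (dist y p) ε with h2 | h2
  · have hyU := hin y h2
    have a1 := (sζ y ⟨hy, h1⟩).differentiableAt (by simp)
    have a2 := (sη y ⟨hy, hyU⟩).differentiableAt (by simp)
    have a3 := (sκ y ⟨⟨hy, hyU⟩, h1⟩).differentiableAt (by simp)
    have a4 : DifferentiableAt ℝ dψ y := (hdψs y).differentiableAt (by simp)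
    have a5 : DifferentiableAt ℝ (fun y => 1 - ψ y) y := (differentiableAt_const _).sub (hψd y)
    have e1 : F.d ξ y = (dψ y * ζ y + ψ y • F.d ζ y) + (-(dψ y) * η y + (1 - ψ y) • F.d η y)
        - dψ y * F.d κ y := by
      have b1 : F.d (fun y => ψ y • ζ y) y = dψ y * ζ y + ψ y • F.d ζ y := d_fsmul (hψd y) a1
      have b2 : F.d (fun y => (1 - ψ y) • η y) y = -(dψ y) * η y + (1 - ψ y) • F.d η y := by
        rw [d_fsmul a5 a2]
        congr 2
        change io _ = - io _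
        rw [← map_neg]
        congr 1
        have : fderiv ℝ (fun y => 1 - ψ y) y = - fderiv ℝ ψ y := by
          rw [fderiv_fun_sub (differentiableAt_const _) (hψd y)]; simp
        rw [this]; rfl
      have b3 : F.d (fun y => dψ y * κ y) y = -(dψ y * F.d κ y) := by
        rw [F.d_mul a4 a3, hddψ, zero_mul, zero_add]
        change inv (io _) * _ = _
        rw [inv_io, neg_mul]
      have c1 : DifferentiableAt ℝ (fun y => ψ y • ζ y) y := (hψd y).smul a1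
      have c2 : DifferentiableAt ℝ (fun y => (1 - ψ y) • η y) y := a5.smul a2
      have c3 : DifferentiableAt ℝ (fun y => dψ y * κ y) y :=
        (F.hasFDerivAt_mul a4.hasFDerivAt a3.hasFDerivAt).differentiableAt
      have : F.d ξ y = F.d (fun y => ψ y • ζ y) y + F.d (fun y => (1 - ψ y) • η y) y +
          F.d (fun y => dψ y * κ y) y := by
        rw [← F.d_add c1 c2]
        exact F.d_add (c1.add c2) c3
      rw [this, b1, b2, b3, ← sub_eq_add_neg]
    have f1 := eqv_of_open hpc (hSp ▸ eζ) hy h1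
    have f2 := eqv_of_open hU eη hy hyU
    have f3 := eqv_of_open (hU.inter hpc) (hSUp ▸ eκ) hy ⟨hyU, h1⟩
    have f4 : pb (Tan S y).subtype (ζ y) - pb (Tan S y).subtype (η y) =
        pb (Tan S y).subtype (F.d κ y) := by rw [← f3, ← map_sub]; rfl
    rw [e1]
    simp only [map_sub, map_add, map_mul, map_neg, map_smul, ← f1, ← f2, ← f4]
    rw [mul_sub, neg_mul, sub_smul, one_smul]
    abel
  · rw [F.d_congr (n1 y h2)]
    exact eqv_of_open hpc (hSp ▸ eζ) hy h1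

end glue

/-! ### polar coordinates at `p` -/
section polar
variable {E : Type u} {H : Type w} [NormedAddCommGroup E] [NormedSpace ℝ E] [FiniteDimensional ℝ E]
  [NormedAddCommGroup H] [InnerProductSpace ℝ H] [FiniteDimensional ℝ H]
  {S U : Set E} {p : E} {P₀ : H →L[ℝ] H} {r : ℝ} {Φ : E × H → E} {Λ : E → E × H} {j n : ℕ}

/-- polar coordinates of `S` at `p`: `Φ (p, v) = exp_p v` for `‖v‖ < r`, `Λ` the inverse. -/
structure Polar (S : Set E) (p : E) (U : Set E) (P₀ : H →L[ℝ] H) (r : ℝ) (Φ : E × H → E)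
    (Λ : E → E × H) : Prop where
  pS : p ∈ S
  oU : IsOpen U
  pU : p ∈ U
  r_pos : 0 < r
  sΦ : SMap (Tot ({p} : Set E) (fun _ => P₀) ∩ {z | ‖z.2‖ < r}) (S ∩ U) Φ
  sΛ : SMap (S ∩ U) (Tot ({p} : Set E) (fun _ => P₀) ∩ {z | ‖z.2‖ < r}) Λ
  ΦΛ : ∀ y ∈ S ∩ U, Φ (Λ y) = y
  Φ0 : ∀ z ∈ Tot ({p} : Set E) (fun _ => P₀), ‖z.2‖ < r → (Φ z = p ↔ z.2 = 0)

/-- the annulus in `T_p` -/
def Ann (p : E) (P₀ : H →L[ℝ] H) (r : ℝ) : Set (E × H) :=
  Tot ({p} : Set E) (fun _ => P₀) ∩ {z | 0 < ‖z.2‖ ∧ ‖z.2‖ < r}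

theorem Ann.mem_smul {z : E × H} (hz : z ∈ Ann p P₀ r) {t : ℝ} (h0 : 0 < t) (h1 : t < r) :
    ((z.1, (t * ‖z.2‖⁻¹) • z.2) : E × H) ∈ Ann p P₀ r := by
  have hz0 := hz.2.1
  have hn : ‖(t * ‖z.2‖⁻¹) • z.2‖ = t := by
    rw [norm_smul, norm_mul, norm_inv, norm_norm, mul_assoc, inv_mul_cancel₀ hz0.ne', mul_one,
      Real.norm_of_nonneg h0.le]
  refine ⟨⟨hz.1.1, ?_⟩, ?_, ?_⟩
  · change P₀ ((t * ‖z.2‖⁻¹) • z.2) = (t * ‖z.2‖⁻¹) • z.2
    rw [map_smul, hz.1.2]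
  · change 0 < ‖(t * ‖z.2‖⁻¹) • z.2‖
    rw [hn]; exact h0
  · change ‖(t * ‖z.2‖⁻¹) • z.2‖ < r
    rw [hn]; exact h1

/-- the sphere of radius `r / 2` -/
def sR (r : ℝ) (z : E × H) : E × H := (z.1, (r / 2) • z.2)

theorem smap_sR (hr : 0 < r) :
    SMap (Sph ({p} : Set E) (fun _ => P₀)) (Ann p P₀ r) (sR (E := E) r) := by
  refine ⟨fun z _ => by unfold sR; fun_prop, fun z hz => ⟨⟨hz.1.1, ?_⟩, ?_⟩⟩
  · change P₀ ((r / 2) • z.2) = (r / 2) • z.2
    rw [map_smul, hz.1.2]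
  · change 0 < ‖(r / 2) • z.2‖ ∧ ‖(r / 2) • z.2‖ < r
    rw [norm_smul, hz.2, mul_one, Real.norm_of_nonneg (by linarith)]
    constructor <;> linarith

theorem smap_rh_ann : SMap (Ann p P₀ r) (Sph ({p} : Set E) (fun _ => P₀)) (rh (E := E) (H := H)) :=
  smap_rh.mono fun z hz => ⟨hz.1, norm_pos_iff.1 hz.2.1⟩

/-- the annulus retracts to the sphere -/
theorem coh_ann (hr : 0 < r) {b : E × H → Ext (E × H)} (hb : Sm (Ann p P₀ r) b)
    (hc : Cl (Ann p P₀ r) b) : Coh (Ann p P₀ r) b (F.pull rh (F.pull (sR r) b)) := by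
  -- the sphere of radius `r/2`
  let s : E × H → E × H := fun z => (z.1, (r / 2) • z.2)
  have hs : SMap (Sph ({p} : Set E) (fun _ => P₀)) (Ann p P₀ r) s := by
    refine ⟨fun z _ => by fun_prop, fun z hz => ⟨⟨hz.1.1, ?_⟩, ?_⟩⟩
    · change P₀ ((r / 2) • z.2) = (r / 2) • z.2
      rw [map_smul, hz.1.2]
    · change 0 < ‖(r / 2) • z.2‖ ∧ ‖(r / 2) • z.2‖ < r
      rw [norm_smul, hz.2, mul_one, Real.norm_of_nonneg (by linarith)]
      constructor <;> linarith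
  have hrh : SMap (Ann p P₀ r) (Sph ({p} : Set E) (fun _ => P₀)) (rh (E := E) (H := H)) :=
    smap_rh.mono fun z hz => ⟨hz.1, norm_pos_iff.1 hz.2.1⟩
  -- the homotopy
  have h3 := coh_homotopy (X := Ann p P₀ r) (Y := Ann p P₀ r) (w := b)
    (Fh := fun q : (E × H) × ℝ =>
      ((q.1.1, (((1 - q.2) * ‖q.1.2‖ + q.2 * (r / 2)) * ‖q.1.2‖⁻¹) • q.1.2) : E × H))
    (fun z hz t _ => by
      have hz0 : z.2 ≠ 0 := norm_pos_iff.1 hz.2.1
      have a1 : ContDiffAt ℝ ∞ (fun q : (E × H) × ℝ => ‖q.1.2‖) (z, t) :=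
        ContDiffAt.comp (g := fun h : H => ‖h‖) (f := fun q : (E × H) × ℝ => q.1.2) (z, t)
          (contDiffAt_norm ℝ hz0) (by fun_prop)
      have a2 : ContDiffAt ℝ ∞ (fun q : (E × H) × ℝ => ‖q.1.2‖⁻¹) (z, t) :=
        a1.inv (norm_ne_zero_iff.2 hz0)
      have a3 : ContDiffAt ℝ ∞ (fun q : (E × H) × ℝ => q.1.1) (z, t) := by fun_prop
      have a4 : ContDiffAt ℝ ∞ (fun q : (E × H) × ℝ => q.1.2) (z, t) := by fun_prop
      have a5 : ContDiffAt ℝ ∞ (fun q : (E × H) × ℝ => q.2) (z, t) := by fun_prop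
      exact a3.prodMk (((((contDiffAt_const.sub a5).mul a1).add (a5.mul contDiffAt_const)).mul
        a2).smul a4))
    (fun z hz t ht => by
      have hz0 := hz.2.1
      have hz1 := hz.2.2
      refine Ann.mem_smul hz ?_ ?_
      · rcases eq_or_lt_of_le ht.2 with h | h
        · rw [h]; linarith
        · have := mul_pos (sub_pos.2 h) hz0
          have := mul_nonneg ht.1 (by linarith : (0 : ℝ) ≤ r / 2)
          linarith
      · have a1 := mul_le_mul_of_nonneg_left hz1.le (sub_nonneg.2 ht.2)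
        rcases eq_or_lt_of_le ht.1 with h | h
        · rw [← h]; linarith
        · have := mul_lt_mul_of_pos_left (by linarith : r / 2 < r) h
          linarith)
    hb hc
  have e1 : Eqv (Ann p P₀ r) (F.pull (fun y : E × H =>
      ((y.1, (((1 - (0 : ℝ)) * ‖y.2‖ + 0 * (r / 2)) * ‖y.2‖⁻¹) • y.2) : E × H)) b) b := by
    have k1 : SMap (Ann p P₀ r) (Ann p P₀ r) (fun y : E × H =>
      ((y.1, (((1 - (0 : ℝ)) * ‖y.2‖ + 0 * (r / 2)) * ‖y.2‖⁻¹) • y.2) : E × H)) := by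
      refine ⟨fun z hz => ?_, fun z hz => ?_⟩
      · have hz0 : z.2 ≠ 0 := norm_pos_iff.1 hz.2.1
        have a1 : ContDiffAt ℝ ∞ (fun q : E × H => ‖q.2‖) z :=
          (contDiffAt_norm ℝ hz0).comp z contDiffAt_snd
        exact contDiffAt_fst.prodMk ((((contDiffAt_const.mul a1).add contDiffAt_const).mul
          (a1.inv (norm_ne_zero_iff.2 hz0))).smul contDiffAt_snd)
      · have := Ann.mem_smul hz hz.2.1 hz.2.2
        simpa using this
    refine (eqv_pull_of_eq b (fun z hz => k1.diff hz) (fun z _ => differentiableAt_id)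
      (fun z hz => ?_)).trans (Eqv.of_eq fun z _ => F.pull_id b z)
    have hz0 := hz.2.1
    refine Prod.ext rfl ?_
    change (((1 - (0 : ℝ)) * ‖z.2‖ + 0 * (r / 2)) * ‖z.2‖⁻¹) • z.2 = z.2
    rw [sub_zero, one_mul, zero_mul, add_zero, mul_inv_cancel₀ hz0.ne', one_smul]
  have e2 : Eqv (Ann p P₀ r) (F.pull (fun y : E × H =>
      ((y.1, (((1 - (1 : ℝ)) * ‖y.2‖ + 1 * (r / 2)) * ‖y.2‖⁻¹) • y.2) : E × H)) b)
      (F.pull rh (F.pull s b)) := by
    have k1 : SMap (Ann p P₀ r) (Ann p P₀ r) (fun y : E × H =>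
      ((y.1, (((1 - (1 : ℝ)) * ‖y.2‖ + 1 * (r / 2)) * ‖y.2‖⁻¹) • y.2) : E × H)) := by
      refine ⟨fun z hz => ?_, fun z hz => ?_⟩
      · have hz0 : z.2 ≠ 0 := norm_pos_iff.1 hz.2.1
        have a1 : ContDiffAt ℝ ∞ (fun q : E × H => ‖q.2‖) z :=
          (contDiffAt_norm ℝ hz0).comp z contDiffAt_snd
        exact contDiffAt_fst.prodMk ((((contDiffAt_const.mul a1).add contDiffAt_const).mul
          (a1.inv (norm_ne_zero_iff.2 hz0))).smul contDiffAt_snd)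
      · have := Ann.mem_smul hz (t := r / 2) (by linarith) (by linarith)
        simpa using this
    refine (eqv_pull_pull hrh hs k1 (fun z _ => ?_) b).symm
    refine Prod.ext rfl ?_
    change (r / 2) • (‖z.2‖⁻¹ • z.2) = (((1 - (1 : ℝ)) * ‖z.2‖ + 1 * (r / 2)) * ‖z.2‖⁻¹) • z.2
    rw [smul_smul, sub_self, zero_mul, zero_add, one_mul]
  exact (Coh.of_eqv e1.symm).trans (h3.symm.trans (Coh.of_eqv e2))

/-- closed forms on the annulus -/
theorem exactIn_ann (hr : 0 < r) (h : ExactIn (Sph ({p} : Set E) (fun _ => P₀)) j) :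
    ExactIn (Ann p P₀ r) j := by
  intro b hb hc hd
  have h1 := h _ (hb.pull (smap_sR hr)) (hc.pull (smap_sR hr) hb) hd.pull
  have h2 := h1.pull (smap_rh_ann (r := r))
  rw [pull_zero'] at h2
  exact (coh_ann hr hb hc).trans h2

/-- closed forms of degree `1 ≤ j` on the punctured ball of `S` around `p` -/
theorem Polar.exactIn (h : Polar S p U P₀ r Φ Λ)
    (hS : ExactIn (Sph ({p} : Set E) (fun _ => P₀)) j) : ExactIn ((S ∩ U) \ {p}) j := by
  have h1 : SMap ((S ∩ U) \ {p}) (Ann p P₀ r) Λ := by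
    refine ⟨fun y hy => h.sΛ.smooth y hy.1, fun y hy => ?_⟩
    have h2 := h.sΛ.maps hy.1
    refine ⟨h2.1, norm_pos_iff.2 fun h3 => hy.2 ?_, h2.2⟩
    have h4 := (h.Φ0 _ h2.1 h2.2).2 h3
    rwa [h.ΦΛ y hy.1] at h4
  have h2 : SMap (Ann p P₀ r) ((S ∩ U) \ {p}) Φ := by
    refine ⟨fun z hz => h.sΦ.smooth z ⟨hz.1, hz.2.2⟩, fun z hz => ⟨h.sΦ.maps ⟨hz.1, hz.2.2⟩,
      fun h3 => ?_⟩⟩
    have h4 := (h.Φ0 z hz.1 hz.2.2).1 h3
    have := hz.2.1
    rw [h4, norm_zero] at this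
    exact lt_irrefl _ this
  exact (exactIn_ann h.r_pos hS).transport h1 h2 fun y hy => h.ΦΛ y hy.1

/-- pulling back by a constant map -/
theorem pull_const_map {c : E} {b : E → Ext E} (hj : 1 ≤ j) (hb : Hom j b) :
    F.pull (fun _ : E => c) b = 0 := by
  funext y
  rw [F.pull, fderiv_fun_const]
  refine ext_evA fun q => ?_
  ext v
  by_cases hq : q = j
  · subst hq
    have h1 : evA E q (pb (((0 : E →L[ℝ] E) : E →ₗ[ℝ] E)) (b c)) v =
        evA E q (b c) (fun _ => (0 : E)) := by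
      rw [evA_pb]; rfl
    have h2 : evA E q (b c) (fun _ => (0 : E)) = 0 :=
      AlternatingMap.map_coord_zero _ (⟨0, hj⟩ : Fin q) rfl
    change evA E q (pb (((0 : E →L[ℝ] E) : E →ₗ[ℝ] E)) (b c)) v = evA E q 0 v
    rw [h1, h2, map_zero]; rfl
  · change evA E q (pb _ (b c)) v = evA E q 0 v
    rw [((hb c).pb _) q hq, map_zero]

/-- closed forms of positive degree are exact on the ball around `p` -/
theorem Polar.exactIn_ball' (h : Polar S p U P₀ r Φ Λ) (hj : 1 ≤ j) : ExactIn (S ∩ U) j := by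
  intro b hb hc hd
  have hm : ∀ y ∈ S ∩ U, ∀ t ∈ Icc (0 : ℝ) 1, (((Λ y).1, t • (Λ y).2) : E × H) ∈
      Tot ({p} : Set E) (fun _ => P₀) ∩ {z | ‖z.2‖ < r} := by
    intro y hy t ht
    obtain ⟨⟨h1, h2⟩, h3⟩ := h.sΛ.maps hy
    refine ⟨⟨h1, ?_⟩, ?_⟩
    · change P₀ (t • (Λ y).2) = t • (Λ y).2
      rw [map_smul, h2]
    · change ‖t • (Λ y).2‖ < r
      rw [norm_smul, Real.norm_of_nonneg ht.1]
      have h4 : ‖(Λ y).2‖ < r := h3
      have := mul_le_mul_of_nonneg_right ht.2 (norm_nonneg (Λ y).2)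
      linarith
  have hsm : ∀ y ∈ S ∩ U, ∀ t ∈ Icc (0 : ℝ) 1, ContDiffAt ℝ ∞
      (fun q : E × ℝ => Φ ((Λ q.1).1, q.2 • (Λ q.1).2)) (y, t) := by
    intro y hy t ht
    have a1 : ContDiffAt ℝ ∞ (fun q : E × ℝ => Λ q.1) (y, t) :=
      ContDiffAt.comp (g := Λ) (f := fun q : E × ℝ => q.1) (y, t) (h.sΛ.smooth y hy) (by fun_prop)
    have a2 : ContDiffAt ℝ ∞ (fun q : E × ℝ => (((Λ q.1).1, q.2 • (Λ q.1).2) : E × H)) (y, t) :=
      (contDiffAt_fst.comp _ a1).prodMk (contDiffAt_snd.smul (contDiffAt_snd.comp _ a1))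
    exact ContDiffAt.comp (g := Φ) (y, t) (h.sΦ.smooth _ (hm y hy t ht)) a2
  have h1 := coh_homotopy (X := S ∩ U) (Y := S ∩ U)
    (Fh := fun q : E × ℝ => Φ ((Λ q.1).1, q.2 • (Λ q.1).2)) (w := b) hsm
    (fun y hy t ht => h.sΦ.maps (hm y hy t ht)) hb hc
  have k1 : ∀ t ∈ Icc (0 : ℝ) 1, SMap (S ∩ U) S (fun y : E => Φ ((Λ y).1, t • (Λ y).2)) :=
    fun t ht => ⟨fun y hy => ContDiffAt.comp
      (g := fun q : E × ℝ => Φ ((Λ q.1).1, q.2 • (Λ q.1).2)) (f := fun y : E => (y, t)) y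
      (hsm y hy t ht) (contDiffAt_id.prodMk contDiffAt_const),
      fun y hy => (h.sΦ.maps (hm y hy t ht)).1⟩
  have e1 : Eqv (S ∩ U) (F.pull (fun y : E => Φ ((Λ y).1, (1 : ℝ) • (Λ y).2)) b) b := by
    refine (eqv_pull_of_eq b (fun y hy => (k1 1 (by simp)).diff hy) (fun y _ => differentiableAt_id)
      (fun y hy => ?_)).trans (Eqv.of_eq fun z _ => F.pull_id b z)
    change Φ ((Λ y).1, (1 : ℝ) • (Λ y).2) = y
    rw [one_smul]; exact h.ΦΛ y hy
  have e2 : Eqv (S ∩ U) (F.pull (fun y : E => Φ ((Λ y).1, (0 : ℝ) • (Λ y).2)) b) 0 := by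
    refine (eqv_pull_of_eq (g := fun _ : E => p) b (fun y hy => (k1 0 (by simp)).diff hy)
      (fun y _ => differentiableAt_const _) (fun y hy => ?_)).trans ?_
    · obtain ⟨⟨h1, h2⟩, h3⟩ := hm y hy 0 (by simp)
      exact (h.Φ0 _ ⟨h1, h2⟩ h3).2 (zero_smul ℝ _)
    · rw [pull_const_map hj hd]; exact Eqv.refl _
  exact (Coh.of_eqv e1.symm).trans (h1.trans (Coh.of_eqv e2))

/-- closed forms of positive degree are exact on the ball around `p` -/
theorem Polar.exactIn_ball (h : Polar S p U P₀ r Φ Λ) (hj : 1 ≤ j) {b : E → Ext E} (hb : Sm S b)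
    (hc : Cl S b) (hd : Hom j b) : Coh (S ∩ U) b 0 :=
  h.exactIn_ball' hj b (hb.mono inter_subset_left) (hc.mono inter_subset_left) hd

end polar

end Crest.Agent.R208.T
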