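import Crest.Agent.R208.T3a

/-! Row 208, block TG (helper88).  TG1: the upper half of the Gysin sequence for an oriented even rank
bundle: fibre integration of closed forms on the sphere bundle. -/

set_option autoImplicit false
set_option linter.unusedSectionVars false

open MeasureTheory Set Filter Topology Module
open scoped ContDiff
open Crest.Agent.R208.F Crest.Agent.R208.FI Crest.Agent.R208.CW

noncomputable section

namespace Crest.Agent.R208.T

universe u w

variable {E : Type u} {H : Type w} [NormedAddCommGroup E] [NormedSpace ℝ E] [FiniteDimensional ℝ E]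
  [NormedAddCommGroup H] [InnerProductSpace ℝ H] [FiniteDimensional ℝ H]
  {X : Set E} {P : E → H →L[ℝ] H} {r d : ℕ} {R c₀ : ℝ} {e : E → Ext E}
  {τ τ' om : E × H → Ext (E × H)}

/-- a closed form on the sphere bundle whose compactly supported coboundary is exact comes from the
base. -/
theorem sph_of_exact {R' : ℝ} (hR' : 2 ≤ R') (hc0 : c₀ ≠ 0)
    {j : ℕ} {b : E × H → Ext (E × H)}
    (hb : Sm (Sph X P) b) (hd : Hom j b)
    {L : E × H → Ext (E × H)} (sL : Sm (Tot X P) L)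
    (vL : ∀ z : E × H, 2 * R' + 1 < ‖z.2‖ → L z = 0)
    (eL : Eqv (Tot X P) (c₀ • F.d (rx b)) (F.d L)) :
    ∃ c : E → Ext E, Sm X c ∧ Cl X c ∧ Hom j c ∧ Coh (Sph X P) b (F.pull Prod.fst c) := by
  set a := rx b with ha
  have sa : Sm (Tot X P) a := hb.rx
  set ξ := c₀ • a - L with hξ
  have sξ : Sm (Tot X P) ξ := (sa.smul c₀).sub sL
  have cξ : Cl (Tot X P) ξ := by
    rw [Cl, resZero_iff]
    refine (d_sub_eqv (sa.smul c₀) sL).trans ?_
    have h1 : Eqv (Tot X P) (F.d (c₀ • a)) (F.d L) := (d_smul_eqv c₀ sa).trans eL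
    have := h1.sub (Eqv.refl (F.d L))
    rwa [sub_self] at this
  have k1 := coh_z0 sξ cξ
  set ρ : ℝ := 2 * R' + 2 with hρ
  have hρ1 : 1 < ρ := by rw [hρ]; linarith
  let s : E × H → E × H := fun z => (z.1, ρ • z.2)
  have hs : SMap (Sph X P) (Tot X P ∩ {z | 1 < ‖z.2‖}) s := by
    refine ⟨fun z _ => by fun_prop, fun z hz => ⟨⟨hz.1.1, ?_⟩, ?_⟩⟩
    · change P z.1 (ρ • z.2) = ρ • z.2
      rw [map_smul, hz.1.2]
    · change 1 < ‖ρ • z.2‖
      rw [norm_smul, hz.2, mul_one, Real.norm_of_nonneg (by linarith)]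
      exact hρ1
  have hs' : SMap (Sph X P) (Tot X P) s := ⟨hs.smooth, fun z hz => (hs.maps hz).1⟩
  have k2 := k1.pull hs'
  have k3 : Eqv (Sph X P) (F.pull s ξ) (c₀ • b) := by
    rw [hξ, pull_sub', pull_smul']
    have h1 : Eqv (Sph X P) (F.pull s L) 0 := Eqv.of_eq fun z hz => by
      refine pull_of_zero (vL _ ?_)
      change 2 * R' + 1 < ‖ρ • z.2‖
      rw [norm_smul, hz.2, mul_one, Real.norm_of_nonneg (by linarith), hρ]
      linarith
    have h2 : Eqv (Sph X P) (F.pull s a) b := by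
      have h3 : Eqv (Sph X P) (F.pull s a) (F.pull s (F.pull rh b)) := Eqv.of_eq fun z hz => by
        rw [F.pull, F.pull, ha, (rx_near_out b (hs.maps hz).2).eq_of_nhds]
      refine h3.trans ((eqv_pull_pull hs (smap_rh') (SMap.id _) (fun z hz => ?_) b).trans
        (Eqv.of_eq fun z _ => F.pull_id b z))
      refine Prod.ext rfl ?_
      change ‖ρ • z.2‖⁻¹ • (ρ • z.2) = z.2
      rw [norm_smul, hz.2, mul_one, Real.norm_of_nonneg (by linarith), smul_smul,
        inv_mul_cancel₀ (by linarith), one_smul]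
    have := (h2.smul c₀).sub h1
    rwa [sub_zero] at this
  have k4 : Eqv (Sph X P) (F.pull s (F.pull z0 ξ)) (F.pull Prod.fst (F.pull zs ξ)) := by
    have h1 : SMap (Sph X P) (Tot X P) (z0 (E := E) (H := H)) :=
      ⟨fun _ _ => contDiffAt_fst.prodMk contDiffAt_const, fun z hz => ⟨hz.1.1, map_zero (P z.1)⟩⟩
    exact (eqv_pull_pull hs' smap_z0 h1 (fun _ _ => rfl) ξ).trans
      (eqv_pull_pull smap_fstS smap_zs h1 (fun _ _ => rfl) ξ).symm
  have k5 : Coh (Sph X P) (c₀ • b) (F.pull Prod.fst (F.pull zs ξ)) :=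
    (Coh.of_eqv k3.symm).trans (k2.trans (Coh.of_eqv k4))
  have k6 := (k5.smul c₀⁻¹).dp j
  have h7 : c₀⁻¹ • c₀ • b = b := by rw [smul_smul, inv_mul_cancel₀ hc0, one_smul]
  rw [h7, hd.dp_eq, ← pull_smul', dp_pull] at k6
  have s1 : Sm X (c₀⁻¹ • F.pull zs ξ) := (sξ.pull smap_zs).smul _
  exact ⟨dp j (c₀⁻¹ • F.pull zs ξ), s1.dp j,
    Cl.dp j s1 (Cl.smul _ (sξ.pull smap_zs) (cξ.pull smap_zs sξ)), hom_dp _ _, k6⟩

variable [MeasurableSpace H] [BorelSpace H] {μ : Measure H} [μ.IsAddHaarMeasure]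

/-- fibre integral of a form on the unit sphere bundle (`τ'` a Thom form of `1 - P`) -/
def push (μ : Measure H) (P : E → H →L[ℝ] H) (τ' : E × H → Ext (E × H))
    (b : E × H → Ext (E × H)) : E → Ext E := pI μ (thE' P τ' (cutH 1 (F.d (rx b))))

theorem eqv_d_rx {b : E × H → Ext (E × H)} (hb : Sm (Sph X P) b) (hc : Cl (Sph X P) b) :
    Eqv (Tot X P ∩ {z | 1 < ‖z.2‖}) (F.d (rx b)) 0 := by
  refine (d_rx hb).trans ?_
  have := Eqv.pull (smap_rh') (resZero_iff.1 hc)
  rwa [pull_zero'] at this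

theorem csf_rx (hX : Sub d X) (hP : PField X r P) {b : E × H → Ext (E × H)}
    (hb : Sm (Sph X P) b) (hc : Cl (Sph X P) b) : CSF X P (max R 2) (cutH 1 (F.d (rx b))) :=
  (csf_cutH hX hP zero_le_one hb.rx.d (d_d' hb.rx) (eqv_d_rx hb hc)).mono
    (by rw [show (1 : ℝ) + 1 = 2 by norm_num]; exact le_max_right R 2)

/-- the Thom lemma for the coboundary of `b` -/
theorem push_spec (hX : Sub d X) (hP : PField X r P) (hT : ThomPair μ X P r R c₀ e τ τ')
    {b : E × H → Ext (E × H)} (hb : Sm (Sph X P) b) (hc : Cl (Sph X P) b) :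
    Sm X (push μ P τ' b) ∧ Cl X (push μ P τ' b) ∧
      ∃ L : E × H → Ext (E × H), Sm (Tot X P) L ∧
        (∀ z : E × H, 2 * max R 2 + 1 < ‖z.2‖ → L z = 0) ∧
        Eqv (Tot X P) (c₀ • cutH 1 (F.d (rx b)) - F.pull Prod.fst (push μ P τ' b) * τ) (F.d L) :=
  thom μ hX hP (hT.mono (le_max_left R 2)) (le_trans (by norm_num) (le_max_right R 2))
    (csf_rx hX hP hb hc)

theorem sm_push (hX : Sub d X) (hP : PField X r P) (hT : ThomPair μ X P r R c₀ e τ τ')
    {b : E × H → Ext (E × H)} (hb : Sm (Sph X P) b) (hc : Cl (Sph X P) b) :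
    Sm X (push μ P τ' b) := (push_spec hX hP hT hb hc).1

theorem cl_push (hX : Sub d X) (hP : PField X r P) (hT : ThomPair μ X P r R c₀ e τ τ')
    {b : E × H → Ext (E × H)} (hb : Sm (Sph X P) b) (hc : Cl (Sph X P) b) :
    Cl X (push μ P τ' b) := (push_spec hX hP hT hb hc).2.1

theorem hom_push (hT : ThomPair μ X P r R c₀ e τ τ')
    (hrN : r ≤ finrank ℝ H) {i j : ℕ} (hij : j + 1 = i + r) {b : E × H → Ext (E × H)}
    (hd : Hom j b) : Hom i (push μ P τ' b) := fun x => by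
  refine isDeg_pI μ (p := i) (fun z => ?_) x
  have h1 : IsDeg ((finrank ℝ H - r) + (j + 1)) (thE' P τ' (cutH 1 (F.d (rx b))) z) :=
    isDeg_mul ((hT.deg' _).pb _) ((Hom.cutH (Hom.d hd.rx) _).pb _)
  have h2 : (finrank ℝ H - r) + (j + 1) = i + finrank ℝ H := by omega
  rwa [h2] at h1

theorem push_mul_e (hX : Sub d X) (hP : PField X r P) (hT : ThomPair μ X P r R c₀ e τ τ')
    {b : E × H → Ext (E × H)} (hb : Sm (Sph X P) b) (hc : Cl (Sph X P) b) :
    Coh X (push μ P τ' b * e) 0 := by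
  obtain ⟨-, -, L, sL, -, eL⟩ := push_spec hX hP hT hb hc
  set c := push μ P τ' b with hcdef
  have he : Eqv (Tot X P) (cutH 1 (F.d (rx b))) (F.d (rx b)) :=
    eqv_cutH' zero_le_one (eqv_d_rx hb hc)
  have k1 : Coh (Tot X P) (c₀ • cutH 1 (F.d (rx b))) (F.pull Prod.fst c * τ) := ⟨L, sL, eL⟩
  have k2 := k1.pull (smap_zs (X := X) (P := P))
  rw [pull_smul', pull_mul'] at k2
  have k3 : Eqv X (F.pull zs (cutH 1 (F.d (rx b)))) 0 := by
    refine (Eqv.pull smap_zs he).trans (Eqv.of_eq fun x _ => ?_)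
    refine pull_of_zero ?_
    have : rx b =ᶠ[𝓝 (zs (E := E) (H := H) x)] fun _ => 0 :=
      rx_near_zero b (by rw [zs]; simp)
    rw [F.d_congr this, F.d_const]
  have k4 : Eqv X (F.pull zs (F.pull (Prod.fst : E × H → E) c)) c :=
    (eqv_pull_pull smap_zs (smap_fst' (X := X) (P := P)) (SMap.id X) (fun _ _ => rfl) c).trans
      (Eqv.of_eq fun x _ => F.pull_id c x)
  have k5 : Eqv X (c₀ • F.pull zs (cutH 1 (F.d (rx b)))) 0 := by
    have := k3.smul c₀
    rwa [smul_zero] at this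
  exact ((Coh.of_eqv k5.symm).trans (k2.trans (Coh.of_eqv (k4.mul hT.zero)))).symm

theorem exists_base_of_push (hX : Sub d X) (hP : PField X r P)
    (hT : ThomPair μ X P r R c₀ e τ τ') {j : ℕ} {b : E × H → Ext (E × H)}
    (hb : Sm (Sph X P) b) (hc : Cl (Sph X P) b) (hd : Hom j b) (h : Coh X (push μ P τ' b) 0) :
    ∃ a : E → Ext E, Sm X a ∧ Cl X a ∧ Hom j a ∧ Coh (Sph X P) b (F.pull Prod.fst a) := by
  obtain ⟨-, -, L, sL, vL, eL⟩ := push_spec hX hP hT hb hc
  set c := push μ P τ' b with hcdef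
  have he : Eqv (Tot X P) (cutH 1 (F.d (rx b))) (F.d (rx b)) :=
    eqv_cutH' zero_le_one (eqv_d_rx hb hc)
  obtain ⟨γ, sγ, eγ⟩ := h
  rw [sub_zero] at eγ
  have sγ' : Sm (Tot X P) (F.pull (Prod.fst : E × H → E) γ) := sγ.pull smap_fst'
  set L' := F.pull (Prod.fst : E × H → E) γ * τ + L with hL'
  have sL' : Sm (Tot X P) L' := (sγ'.mul hT.csf.smooth).add sL
  have vL' : ∀ z : E × H, 2 * max R 2 + 1 < ‖z.2‖ → L' z = 0 := fun z hz => by
    have h1 : R < ‖z.2‖ := by
      have : R ≤ max R 2 := le_max_left R 2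
      have : 2 ≤ max R 2 := le_max_right R 2
      linarith
    rw [hL', Pi.add_apply, Pi.mul_apply, hT.csf.supp z h1, vL z hz, mul_zero, add_zero]
  have eL' : Eqv (Tot X P) (c₀ • F.d (rx b)) (F.d L') := by
    refine ((he.symm.smul c₀).trans ?_)
    have h1 : Eqv (Tot X P) (F.d (F.pull (Prod.fst : E × H → E) γ * τ))
        (F.pull (Prod.fst : E × H → E) c * τ) := by
      refine (d_mul_eqv sγ' hT.csf.smooth).trans ?_
      have h2 : Eqv (Tot X P) (F.d (F.pull (Prod.fst : E × H → E) γ)) (F.pull Prod.fst c) :=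
        (d_pull_eqv smap_fst' sγ).trans (Eqv.pull smap_fst' eγ.symm)
      have h3 := (h2.mul (Eqv.refl τ)).add
        ((Eqv.refl (fun z => F.inv (F.pull (Prod.fst : E × H → E) γ z))).mul
          (resZero_iff.1 hT.csf.closed))
      rwa [mul_zero, add_zero] at h3
    have h4 := (d_add_eqv (sγ'.mul hT.csf.smooth) sL).trans (h1.add eL.symm)
    rw [add_sub_cancel] at h4
    exact h4.symm
  exact sph_of_exact (le_max_right R 2) hT.ne hb hd sL' vL' eL'

/-- **upper half of the Gysin sequence**: a closed form `b` of degree `j = i + r - 1` on the sphere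
bundle has a fibre integral `c` (closed of degree `i` on the base) with `c e ~ 0`; if `c ~ 0` then
`b` comes from the base. -/
theorem sph_push (hX : Sub d X) (hP : PField X r P) (hT : ThomPair μ X P r R c₀ e τ τ')
    (hrN : r ≤ finrank ℝ H) {i j : ℕ} (hij : j + 1 = i + r) {b : E × H → Ext (E × H)}
    (hb : Sm (Sph X P) b) (hc : Cl (Sph X P) b) (hd : Hom j b) :
    ∃ c : E → Ext E, Sm X c ∧ Cl X c ∧ Hom i c ∧ Coh X (c * e) 0 ∧ (Coh X c 0 →
      ∃ a : E → Ext E, Sm X a ∧ Cl X a ∧ Hom j a ∧ Coh (Sph X P) b (F.pull Prod.fst a)) :=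
  ⟨push μ P τ' b, sm_push hX hP hT hb hc, cl_push hX hP hT hb hc, hom_push hT hrN hij hd,
    push_mul_e hX hP hT hb hc, exists_base_of_push hX hP hT hb hc hd⟩

end Crest.Agent.R208.T
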