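import Crest.Agent.R208.TG1

/-! Row 208, block TG (helper88).  TG2: formal properties of the fibre integral `push` on the sphere
bundle of an oriented even rank field: linearity, projection formula, invariance under cohomology. -/

set_option autoImplicit false
set_option linter.unusedSectionVars false

open MeasureTheory Set Filter Topology Module
open scoped ContDiff
open Crest.Agent.R208.F Crest.Agent.R208.FI Crest.Agent.R208.CW

noncomputable section

namespace Crest.Agent.R208.T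

universe u w

variable {E : Type u} {H : Type w} [NormedAddCommGroup E] [NormedSpace ℝ E] [FiniteDimensional ℝ E]
  [NormedAddCommGroup H] [InnerProductSpace ℝ H] [FiniteDimensional ℝ H]
  {X : Set E} {P : E → H →L[ℝ] H} {r d : ℕ} {R R' c₀ : ℝ} {e : E → Ext E}
  {τ τ' om om' : E × H → Ext (E × H)}

/-- `d (inv a) ~ 0` for closed `a` -/
theorem d_inv_eqv {E : Type*} [NormedAddCommGroup E] [NormedSpace ℝ E] [FiniteDimensional ℝ E]
    {X : Set E} {a : E → Ext E} (ha : Sm X a) :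
    Eqv X (F.d fun x => F.inv (a x)) (fun x => - F.inv (F.d a x)) := by
  refine Eqv.of_eq fun x hx => ?_
  have h5 : HasFDerivAt (fun x => F.inv (a x)) ((invL (E := E)).comp (fderiv ℝ a x)) x :=
    (invL (E := E)).hasFDerivAt.comp x (ha.diff hx).hasFDerivAt
  rw [F.d_of_hasFDerivAt h5, F.d, wd_apply, wd_apply, _root_.map_sum, ← Finset.sum_neg_distrib]
  refine Finset.sum_congr rfl fun i _ => ?_
  rw [map_mul, inv_io, neg_mul, neg_neg]; rfl

theorem cl_inv {E : Type*} [NormedAddCommGroup E] [NormedSpace ℝ E] [FiniteDimensional ℝ E]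
    {X : Set E} {a : E → Ext E} (ha : Sm X a) (hc : Cl X a) : Cl X fun x => F.inv (a x) := by
  rw [Cl, resZero_iff]
  refine (d_inv_eqv ha).trans (eqv_iff.2 fun x hx => ?_)
  rw [map_neg, pb_inv, hc x hx]
  simp

variable [MeasurableSpace H] [BorelSpace H] {μ : Measure H} [μ.IsAddHaarMeasure]

section phi
variable (μ)

/-- `om ↦ ∫_H γ^* τ' · (nβ)^* om` depends only on the restriction of `om` to `Tot X P` -/
theorem phi_congr (hP : PField X r P) (hτ' : CSF X (fun x => 1 - P x) R τ')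
    (h1 : Sm (Tot X P) om) (v1 : ∀ z : E × H, R' < ‖z.2‖ → om z = 0)
    (h2 : Sm (Tot X P) om') (v2 : ∀ z : E × H, R' < ‖z.2‖ → om' z = 0)
    (h : Eqv (Tot X P) om om') : Eqv X (pI μ (thE' P τ' om)) (pI μ (thE' P τ' om')) := by
  set M := max R R' with hM
  have w' : ∀ z : E × H, M < ‖z.2‖ → τ' z = 0 := fun z hz => hτ'.supp z ((le_max_left _ _).trans_lt hz)
  refine eqv_pI μ (vt_eta' (R := M) w' fun z hz => v1 z ((le_max_right _ _).trans_lt hz))
    (sm_eta' hP hτ'.smooth h1) (vt_eta' (R := M) w' fun z hz => v2 z ((le_max_right _ _).trans_lt hz))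
    (sm_eta' hP hτ'.smooth h2) ?_
  exact (Eqv.refl _).mul (Eqv.pull (smap_nbet hP) h)

theorem phi_sub (hP : PField X r P) (hτ' : CSF X (fun x => 1 - P x) R τ')
    (h1 : Sm (Tot X P) om) (v1 : ∀ z : E × H, R' < ‖z.2‖ → om z = 0)
    (h2 : Sm (Tot X P) om') (v2 : ∀ z : E × H, R' < ‖z.2‖ → om' z = 0) :
    Eqv X (pI μ (thE' P τ' (om - om'))) (pI μ (thE' P τ' om) - pI μ (thE' P τ' om')) := by
  set M := max R R' with hM
  have w' : ∀ z : E × H, M < ‖z.2‖ → τ' z = 0 := fun z hz => hτ'.supp z ((le_max_left _ _).trans_lt hz)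
  have e1 : thE' P τ' (om - om') = thE' P τ' om - thE' P τ' om' := by
    rw [thE', thE', thE', pull_sub', mul_sub]
  refine Eqv.of_eq fun x hx => ?_
  rw [e1]
  exact pI_sub μ (vt_eta' (R := M) w' fun z hz => v1 z ((le_max_right _ _).trans_lt hz))
    (sm_eta' hP hτ'.smooth h1) (vt_eta' (R := M) w' fun z hz => v2 z ((le_max_right _ _).trans_lt hz))
    (sm_eta' hP hτ'.smooth h2) hx

theorem phi_mul_fst (hP : PField X r P) (hτ' : CSF X (fun x => 1 - P x) R τ')
    (h1 : Sm (Tot X P) om) (v1 : ∀ z : E × H, R' < ‖z.2‖ → om z = 0) (a : E → Ext E) :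
    Eqv X (pI μ (thE' P τ' (om * F.pull Prod.fst a))) (pI μ (thE' P τ' om) * a) := by
  set M := max R R' with hM
  have w' : ∀ z : E × H, M < ‖z.2‖ → τ' z = 0 := fun z hz => hτ'.supp z ((le_max_left _ _).trans_lt hz)
  have hv := vt_eta' (P := P) (R := M) w' fun z hz => v1 z ((le_max_right _ _).trans_lt hz)
  have hs := sm_eta' hP hτ'.smooth h1
  have e2 : Eqv (X ×ˢ (univ : Set H)) (thE' P τ' (om * F.pull Prod.fst a))
      (thE' P τ' om * F.pull Prod.fst a) := by
    have k1 : Eqv (X ×ˢ (univ : Set H))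
        (F.pull (nbet P) (F.pull (Prod.fst : E × H → E) a)) (F.pull Prod.fst a) := by
      refine eqv_pull_pull (smap_nbet hP) (smap_fst' (X := X) (P := P)) ?_ (fun _ _ => rfl) a
      exact ⟨fun _ _ => contDiffAt_fst, fun _ hz => hz.1⟩
    rw [thE', pull_mul', ← mul_assoc]
    exact (Eqv.refl _).mul k1
  -- the pulled back form need not be smooth: use pointwise equality
  refine Eqv.of_eq fun x hx => ?_
  have e3 : pI μ (thE' P τ' (om * F.pull Prod.fst a)) x =
      pI μ (thE' P τ' om * F.pull Prod.fst a) x := by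
    rw [pI_eq, pI_eq]
    refine integral_congr_ae (Eventually.of_forall fun h => ?_)
    have k2 : thE' P τ' (om * F.pull (Prod.fst : E × H → E) a) (x, h) =
        (thE' P τ' om * F.pull (Prod.fst : E × H → E) a) (x, h) := by
      rw [thE', pull_mul', thE']
      simp only [Pi.mul_apply]
      rw [← mul_assoc]
      congr 1
      exact F.pull_comp ((smap_nbet hP).diff ⟨hx, mem_univ _⟩) differentiableAt_fst
    exact congrArg _ k2
  rw [e3]
  exact pI_mul_fst μ hv hs hx a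

/-- exact forms with compact vertical support go to exact forms -/
theorem phi_exact (hX : Sub d X) (hP : PField X r P) (hτ' : CSF X (fun x => 1 - P x) R τ')
    (h1 : Sm (Tot X P) om) (v1 : ∀ z : E × H, R' < ‖z.2‖ → om z = 0)
    {K : E × H → Ext (E × H)} (hK : Sm (Tot X P) K) (vK : ∀ z : E × H, R' < ‖z.2‖ → K z = 0)
    (h : Eqv (Tot X P) om (F.d K)) : Coh X (pI μ (thE' P τ' om)) 0 := by
  set M := max R R' with hM
  have w' : ∀ z : E × H, M < ‖z.2‖ → τ' z = 0 := fun z hz => hτ'.supp z ((le_max_left _ _).trans_lt hz)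
  have vK' : ∀ z : E × H, M < ‖z.2‖ → K z = 0 := fun z hz => vK z ((le_max_right _ _).trans_lt hz)
  have vdK : ∀ z : E × H, R' < ‖z.2‖ → F.d K z = 0 := by
    intro z hz
    have : K =ᶠ[𝓝 z] fun _ => 0 := by
      filter_upwards [(isOpen_out R').mem_nhds hz] with y hy using vK y hy
    rw [F.d_congr this, F.d_const]
  -- `ti = inv τ'`
  set ti : E × H → Ext (E × H) := fun z => F.inv (τ' z) with hti
  have sti : Sm (Tot X (fun x => 1 - P x)) ti := hτ'.smooth.inv
  have cti : Cl (Tot X (fun x => 1 - P x)) ti := cl_inv hτ'.smooth hτ'.closed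
  have wti : ∀ z : E × H, M < ‖z.2‖ → ti z = 0 := fun z hz => by
    change F.inv (τ' z) = 0
    rw [w' z hz, map_zero]
  set G := thE' P ti K with hG
  have vG : Vt (2 * M) G := vt_eta' wti vK'
  have sG : Sm (X ×ˢ (univ : Set H)) G := sm_eta' hP sti hK
  have dG : Eqv (X ×ˢ (univ : Set H)) (F.d G) (thE' P τ' (F.d K)) := by
    have a1 : Sm (X ×ˢ (univ : Set H)) (F.pull (gam P) ti) := sti.pull (smap_gam hP)
    have a2 : Sm (X ×ˢ (univ : Set H)) (F.pull (nbet P) K) := hK.pull (smap_nbet hP)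
    refine (d_mul_eqv a1 a2).trans ?_
    have a3 : Eqv (X ×ˢ (univ : Set H)) (F.d (F.pull (gam P) ti)) 0 :=
      resZero_iff.1 (cti.pull (smap_gam hP) sti)
    have a4 : Eqv (X ×ˢ (univ : Set H)) (F.d (F.pull (nbet P) K)) (F.pull (nbet P) (F.d K)) :=
      d_pull_eqv (smap_nbet hP) hK
    have a5 : (fun z => F.inv (F.pull (gam P) ti z)) = F.pull (gam P) τ' := by
      funext z
      change F.inv (pb _ (F.inv (τ' (gam P z)))) = pb _ (τ' (gam P z))
      rw [pb_inv, F.inv_inv]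
    have a6 := (a3.mul (Eqv.refl (F.pull (nbet P) K))).add
      ((Eqv.refl (fun z => F.inv (F.pull (gam P) ti z))).mul a4)
    rw [zero_mul, zero_add, a5] at a6
    rw [a5]
    exact a6
  have k1 : Eqv X (pI μ (thE' P τ' om)) (pI μ (thE' P τ' (F.d K))) :=
    phi_congr μ hP hτ' h1 v1 hK.d vdK h
  have k2 : Eqv X (pI μ (F.d G)) (pI μ (thE' P τ' (F.d K))) :=
    eqv_pI μ vG.d sG.d (vt_eta' (R := M) w' fun z hz => vdK z ((le_max_right _ _).trans_lt hz))
      (sm_eta' hP hτ'.smooth hK.d) dG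
  have k3 : Eqv X (pI μ (F.d G)) ((-1 : ℝ) ^ finrank ℝ H • F.d (pI μ G)) :=
    Eqv.of_eq fun x hx => d_pI μ vG sG hx
  refine ⟨(-1 : ℝ) ^ finrank ℝ H • pI μ G, (sm_pI μ vG sG).smul _, ?_⟩
  rw [sub_zero]
  refine k1.trans (k2.symm.trans (k3.trans ?_))
  exact (d_smul_eqv _ (sm_pI μ vG sG)).symm

end phi

/-! ### the fibre integral -/

theorem rx_sub_g (b b' : E × H → Ext (E × H)) : rx (b - b') = rx b - rx b' := by
  funext z
  change kp z.2 • F.pull rh (b - b') z = kp z.2 • F.pull rh b z - kp z.2 • F.pull rh b' z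
  rw [pull_sub', Pi.sub_apply, smul_sub]

theorem cutH_supp {a : E × H → Ext (E × H)} (hR : 0 ≤ R) :
    ∀ z : E × H, R + 1 < ‖z.2‖ → cutH R a z = 0 := fun z hz => by
  rw [cutH, chi_zero hR hz.le, zero_smul]

theorem push_sub (hP : PField X r P) (hT : ThomPair μ X P r R c₀ e τ τ')
    {b b' : E × H → Ext (E × H)} (hb : Sm (Sph X P) b) (hb' : Sm (Sph X P) b') :
    Eqv X (push μ P τ' (b - b')) (push μ P τ' b - push μ P τ' b') := by
  have v1 : ∀ b : E × H → Ext (E × H), ∀ z : E × H, (1 : ℝ) + 1 < ‖z.2‖ →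
      cutH 1 (F.d (rx b)) z = 0 := fun b => cutH_supp zero_le_one
  refine (phi_congr μ (om' := cutH 1 (F.d (rx b)) - cutH 1 (F.d (rx b'))) hP hT.csf'
    ((hb.sub hb').rx.d.cutH) (v1 _) (hb.rx.d.cutH.sub hb'.rx.d.cutH)
    (fun z hz => by rw [Pi.sub_apply, v1 b z hz, v1 b' z hz, sub_zero]) ?_).trans
    (phi_sub μ hP hT.csf' hb.rx.d.cutH (v1 _) hb'.rx.d.cutH (v1 _))
  refine Eqv.of_eq fun z hz => ?_
  change chi 1 z.2 • F.d (rx (b - b')) z = chi 1 z.2 • F.d (rx b) z - chi 1 z.2 • F.d (rx b') z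
  rw [← smul_sub, rx_sub_g]
  congr 1
  exact F.d_sub (hb.rx.diff hz) (hb'.rx.diff hz)

/-- right projection formula -/
theorem push_mul_pull (hP : PField X r P) (hT : ThomPair μ X P r R c₀ e τ τ')
    {b : E × H → Ext (E × H)} (hb : Sm (Sph X P) b) {a : E → Ext E} (ha : Sm X a) (hac : Cl X a) :
    Eqv X (push μ P τ' (b * F.pull Prod.fst a)) (push μ P τ' b * a) := by
  have v1 : ∀ b : E × H → Ext (E × H), ∀ z : E × H, (1 : ℝ) + 1 < ‖z.2‖ →
      cutH 1 (F.d (rx b)) z = 0 := fun b => cutH_supp zero_le_one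
  have sa : Sm (Tot X P) (F.pull (Prod.fst : E × H → E) a) := ha.pull smap_fst'
  have sa' : Sm (Sph X P) (F.pull (Prod.fst : E × H → E) a) := ha.pull smap_fstS
  refine (phi_congr μ (om' := cutH 1 (F.d (rx b)) * F.pull Prod.fst a) hP hT.csf'
    ((hb.mul sa').rx.d.cutH) (v1 _) (hb.rx.d.cutH.mul sa)
    (fun z hz => by rw [Pi.mul_apply, v1 b z hz, zero_mul]) ?_).trans
    (phi_mul_fst μ hP hT.csf' hb.rx.d.cutH (v1 _) a)
  -- `rx (b * fst^* a) = rx b * fst^* a`
  have e1 : rx (b * F.pull (Prod.fst : E × H → E) a) = rx b * F.pull Prod.fst a := by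
    funext z
    change kp z.2 • F.pull rh (b * F.pull Prod.fst a) z = (kp z.2 • F.pull rh b z) * _
    by_cases h0 : z.2 = 0
    · rw [h0, kp_zero (by rw [norm_zero]; norm_num), zero_smul, zero_smul, zero_mul]
    · rw [pull_mul', Pi.mul_apply, smul_mul_assoc]
      congr 2
      have hd : DifferentiableAt ℝ (rh (E := E) (H := H)) z := by
        have h1 : ContDiffAt ℝ ∞ (fun z : E × H => ‖z.2‖) z :=
          (contDiffAt_norm ℝ h0).comp z contDiffAt_snd
        have h2 : ContDiffAt ℝ ∞ (rh (E := E) (H := H)) z :=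
          contDiffAt_fst.prodMk ((h1.inv (norm_ne_zero_iff.2 h0)).smul contDiffAt_snd)
        exact h2.differentiableAt (by simp)
      exact F.pull_comp hd differentiableAt_fst
  have e2 : Eqv (Tot X P) (F.d (rx (b * F.pull Prod.fst a))) (F.d (rx b) * F.pull Prod.fst a) := by
    rw [e1]
    refine (d_mul_eqv hb.rx sa).trans ?_
    have k1 : Eqv (Tot X P) (F.d (F.pull (Prod.fst : E × H → E) a)) 0 :=
      resZero_iff.1 (hac.pull smap_fst' ha)
    have k2 := (Eqv.refl (X := Tot X P) (F.d (rx b) * F.pull (Prod.fst : E × H → E) a)).add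
      ((Eqv.refl (fun z => F.inv (rx b z))).mul k1)
    rwa [mul_zero, add_zero] at k2
  refine eqv_iff.2 fun z hz => ?_
  change pb _ (chi 1 z.2 • F.d (rx (b * F.pull Prod.fst a)) z) =
    pb _ ((chi 1 z.2 • F.d (rx b) z) * F.pull Prod.fst a z)
  rw [smul_mul_assoc, map_smul, map_smul, eqv_iff.1 e2 z hz]
  rfl

/-- the fibre integral of an exact form is exact -/
theorem push_exact (hX : Sub d X) (hP : PField X r P) (hT : ThomPair μ X P r R c₀ e τ τ')
    {b : E × H → Ext (E × H)} (hb : Sm (Sph X P) b) (h : Coh (Sph X P) b 0) :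
    Coh X (push μ P τ' b) 0 := by
  obtain ⟨η, sη, eη⟩ := h
  rw [sub_zero] at eη
  have hsub : Sub (d + r) (Tot X P) := hP.sub_tot hX
  -- `K = χ (rx b - d (rx η))`, `d K = χ d (rx b)` on `Tot`
  set K0 := rx b - F.d (rx η) with hK0
  have sK0 : Sm (Tot X P) K0 := hb.rx.sub sη.rx.d
  have e0 : Eqv (Tot X P ∩ {z | 1 < ‖z.2‖}) K0 0 := by
    have h1 : Eqv (Tot X P ∩ {z | 1 < ‖z.2‖}) (rx b) (F.pull rh b) := Eqv.of_eq fun z hz =>
      (rx_near_out b hz.2).eq_of_nhds
    have h2 := (h1.trans (Eqv.pull (smap_rh') eη)).sub (d_rx sη)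
    rwa [sub_self] at h2
  have eK : Eqv (Tot X P) (cutH 1 K0) K0 := eqv_cutH' zero_le_one e0
  have ed : Eqv (Tot X P) (F.d (cutH 1 K0)) (F.d (rx b)) := by
    refine (eK.d hsub sK0.cutH sK0).trans ((d_sub_eqv hb.rx sη.rx.d).trans ?_)
    have := (Eqv.refl (X := Tot X P) (F.d (rx b))).sub (resZero_iff.1 (d_d' sη.rx))
    rwa [sub_zero] at this
  have e1 : Eqv (Tot X P ∩ {z | 1 < ‖z.2‖}) (F.d (rx b)) 0 := by
    have hsub' := Sub.inter_open' hsub (isOpen_out (E := E) (H := H) 1)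
    have h3 := (e0.d hsub' (sK0.mono inter_subset_left) Sm.zero)
    rw [d_zero'] at h3
    have h4 : Eqv (Tot X P ∩ {z | 1 < ‖z.2‖}) (F.d K0) (F.d (rx b) - F.d (F.d (rx η))) :=
      d_sub_eqv (hb.rx.mono inter_subset_left) (sη.rx.d.mono inter_subset_left)
    have h5 : Eqv (Tot X P ∩ {z | 1 < ‖z.2‖}) (F.d (F.d (rx η))) 0 :=
      resZero_iff.1 (d_d' (sη.rx.mono inter_subset_left))
    have h6 := (h4.symm.trans h3).add h5
    rwa [sub_add_cancel, add_zero] at h6
  have e2 : Eqv (Tot X P) (cutH 1 (F.d (rx b))) (F.d (cutH 1 K0)) :=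
    (eqv_cutH' zero_le_one e1).trans ed.symm
  exact phi_exact μ (R' := 1 + 1) hX hP hT.csf' hb.rx.d.cutH (cutH_supp zero_le_one) sK0.cutH
    (cutH_supp zero_le_one) e2

theorem push_coh (hX : Sub d X) (hP : PField X r P) (hT : ThomPair μ X P r R c₀ e τ τ')
    {b b' : E × H → Ext (E × H)} (hb : Sm (Sph X P) b) (hb' : Sm (Sph X P) b')
    (h : Coh (Sph X P) b b') : Coh X (push μ P τ' b) (push μ P τ' b') := by
  have h1 : Coh (Sph X P) (b - b') 0 := by
    obtain ⟨η, s, e'⟩ := h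
    exact ⟨η, s, by rw [sub_zero]; exact e'⟩
  have h2 := push_exact hX hP hT (hb.sub hb') h1
  obtain ⟨η, s, e'⟩ := (Coh.of_eqv (push_sub hP hT hb hb').symm).trans h2
  rw [sub_zero] at e'
  exact ⟨η, s, e'⟩

/-- the fibre integral of a form from the base is exact -/
theorem push_pull (hX : Sub d X) (hP : PField X r P) (hT : ThomPair μ X P r R c₀ e τ τ')
    {a : E → Ext E} (ha : Sm X a) (hac : Cl X a) :
    Coh X (push μ P τ' (F.pull Prod.fst a)) 0 := by
  have sa : Sm (Tot X P) (F.pull (Prod.fst : E × H → E) a) := ha.pull smap_fst'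
  have sa' : Sm (Sph X P) (F.pull (Prod.fst : E × H → E) a) := ha.pull smap_fstS
  have hsub : Sub (d + r) (Tot X P) := hP.sub_tot hX
  set b := F.pull (Prod.fst : E × H → E) a with hb
  set K0 := rx b - b with hK0
  have sK0 : Sm (Tot X P) K0 := sa'.rx.sub sa
  have e0 : Eqv (Tot X P ∩ {z | 1 < ‖z.2‖}) K0 0 := by
    have h1 : Eqv (Tot X P ∩ {z | 1 < ‖z.2‖}) (rx b) b := by
      refine (Eqv.of_eq fun z hz => (rx_near_out b hz.2).eq_of_nhds).trans ?_
      exact eqv_pull_pull smap_rh' smap_fstS ⟨fun _ _ => contDiffAt_fst, fun _ hz => hz.1.1⟩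
        (fun _ _ => rfl) a
    have h2 := h1.sub (Eqv.refl b)
    rwa [sub_self] at h2
  have eK : Eqv (Tot X P) (cutH 1 K0) K0 := eqv_cutH' zero_le_one e0
  have hcb : Eqv (Tot X P) (F.d b) 0 := resZero_iff.1 (hac.pull smap_fst' ha)
  have ed : Eqv (Tot X P) (F.d (cutH 1 K0)) (F.d (rx b)) := by
    refine (eK.d hsub sK0.cutH sK0).trans ((d_sub_eqv sa'.rx sa).trans ?_)
    have := (Eqv.refl (X := Tot X P) (F.d (rx b))).sub hcb
    rwa [sub_zero] at this
  have e1 : Eqv (Tot X P ∩ {z | 1 < ‖z.2‖}) (F.d (rx b)) 0 :=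
    eqv_d_rx sa' (hac.pull smap_fstS ha)
  have e2 : Eqv (Tot X P) (cutH 1 (F.d (rx b))) (F.d (cutH 1 K0)) :=
    (eqv_cutH' zero_le_one e1).trans ed.symm
  exact phi_exact μ (R' := 1 + 1) hX hP hT.csf' sa'.rx.d.cutH (cutH_supp zero_le_one) sK0.cutH
    (cutH_supp zero_le_one) e2

end Crest.Agent.R208.T
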