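import Crest.Agent.R208.TX2b

/-! Row 208, block T (helper316).  TX2c: the top power of the dual form of `C` is not exact. -/

set_option autoImplicit false
set_option linter.unusedSectionVars false

open MeasureTheory Set Filter Topology Module
open scoped ContDiff
open Crest.Agent.R208.F Crest.Agent.R208.FI Crest.Agent.R208.CW

noncomputable section

namespace Crest.Agent.R208.T

universe u w

section tube
variable {E : Type u} {H : Type w} [NormedAddCommGroup E] [NormedSpace ℝ E] [FiniteDimensional ℝ E]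
  [NormedAddCommGroup H] [InnerProductSpace ℝ H] [FiniteDimensional ℝ H]
  {S C U : Set E} {p : E} {r ρ : ℝ} {Ψ : E × H → E} {Gt : E → E × H}
  {i l n dC q : ℕ} {P : E → H →L[ℝ] H} {k : ℕ} {m : ℕ} {e x : E → Ext E}
  {τ τt τ' : E × H → Ext (E × H)} {R c₀ : ℝ}
  [MeasurableSpace H] [BorelSpace H] (μ : Measure H) [μ.IsAddHaarMeasure]

set_option maxHeartbeats 1000000 in
theorem Tube.top_exact (h : Tube S C p P ρ Ψ Gt) 
    (hGΨ : ∀ z ∈ Tot C P ∩ {z | ‖z.2‖ < ρ}, Gt (Ψ z) = z) (hpS : p ∈ S)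
    (hC : Sub dC C) (hCc : IsPreconnected C) (hP : PField C k P) (hkN : k ≤ finrank ℝ H)
    (hT : ThomPair μ C P k R c₀ e τt τ') (hq : q + 1 = k) (hke : Even k)
    (hτ : CSF C P 3 τ) (dτ : Hom k τ) (h0 : Eqv C (F.pull zs τ) e)
    (se : Sm C e) (ce : Cl C e) (de : Hom k e) (hne : ¬ Coh C e 0)
    (sx : Sm S x) (cx : Cl S x) (dx : Hom k x)
    (exG : Eqv (S \ {p}) x (F.pull Gt τ)) (nx : x =ᶠ[𝓝 p] fun _ => 0)
    (hsmall : ∀ V : Set E, IsOpen V → p ∈ V → ∃ U ⊆ V, IsOpen U ∧ p ∈ U ∧ ExactIn (S ∩ U) i)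
    (near : ∀ V : Set E, IsOpen V → p ∈ V → ∃ s₀ : ℝ, 3 < s₀ ∧ s₀ < ρ ∧
      ∀ z ∈ Sph C P, Ψ (z.1, s₀ • z.2) ∈ V)
    (hi : k * (l + 1) = i + 1) (hdC : dC < i) (hex : Coh S (x ^ (l + 1)) 0) :
    Coh C (x ^ l) 0 := by
  have hCS : C ⊆ S := fun y hy => (h.CS hy).1
  have hGt : SMap (S \ {p}) (Tot C P) Gt := ⟨h.sG.smooth, fun y hy => (h.sG.maps hy).1⟩
  have hg : SMap (S \ {p}) C (fun y => (Gt y).1) := h.smapC
  have sxl : Sm S (x ^ l) := sx.pow l
  have cxl : Cl S (x ^ l) := Cl.pow sx cx l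
  have dxl : Hom (k * l) (x ^ l) := dx.pow l
  -- `τ = fst^* e + dσ`
  have k0 : Coh (Tot C P) (τ - F.pull Prod.fst e) 0 := by
    have a1 := coh_z0 hτ.smooth hτ.closed
    have a2 : Eqv (Tot C P) (F.pull (z0 (E := E) (H := H)) τ) (F.pull Prod.fst e) := by
      refine (eqv_pull_pull smap_fst' smap_zs (smap_z0 (X := C) (P := P)) (fun _ _ => rfl)
        τ).symm.trans ?_
      exact h0.pull smap_fst'
    have a3 := (a1.trans (Coh.of_eqv a2)).sub (Coh.refl (F.pull (Prod.fst : E × H → E) e))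
    rwa [sub_self] at a3
  obtain ⟨σ, sσ, dσ, eσ⟩ := k0.prim (i := q) (by rw [hq]; exact dτ.sub de.pull)
  -- `x ^ l = g^* x ^ l + dβ`
  obtain ⟨β, sβ, eβ⟩ := h.coh_base (sxl.mono sdiff_subset) (cxl.mono sdiff_subset)
  -- the primitive on the tube
  set g : E → E := fun y => (Gt y).1 with hgd
  set ζ₀ : E → Ext E := F.pull Gt σ * F.pull g (x ^ l) with hζ₀
  set ζ : E → Ext E := ζ₀ + x * β with hζ
  have sx' : Sm (S \ {p}) x := sx.mono sdiff_subset
  have sgx : Sm (S \ {p}) (F.pull g (x ^ l)) := (sxl.mono hCS).pull hg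
  have cgx : Cl (S \ {p}) (F.pull g (x ^ l)) := (cxl.mono hCS).pull hg (sxl.mono hCS)
  have sGσ : Sm (S \ {p}) (F.pull Gt σ) := sσ.pull hGt
  have sζ₀ : Sm (S \ {p}) ζ₀ := sGσ.mul sgx
  have sζ : Sm (S \ {p}) ζ := sζ₀.add (sx'.mul sβ)
  have eζ : Eqv (S \ {p}) (x ^ (l + 1)) (F.d ζ) := by
    have hxe : (fun y => F.inv (x y)) = x := by rw [dx.inv, hke.neg_one_pow, one_smul]
    -- `x (x^l - g^* x^l) = d (x β)`
    have a1 : Eqv (S \ {p}) (x * (x ^ l - F.pull g (x ^ l))) (F.d (x * β)) := by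
      have b1 := d_mul_eqv sx' sβ
      have b2 := ((resZero_iff.1 (cx.mono sdiff_subset)).mul (Eqv.refl β)).add
        ((Eqv.refl (X := S \ {p}) (fun y => F.inv (x y))).mul eβ.symm)
      rw [zero_mul, zero_add, hxe] at b2
      have b3 : Eqv (S \ {p}) (F.d x * β + (fun y => F.inv (x y)) * F.d β)
          (x * (x ^ l - F.pull g (x ^ l))) := by rw [hxe]; exact b2
      exact (b1.trans b3).symm
    -- `x g^* x^l = d ζ₀`
    have a2 : Eqv (S \ {p}) (x * F.pull g (x ^ l)) (F.d ζ₀) := by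
      have b1 := d_mul_eqv sGσ sgx
      have b2 : Eqv (S \ {p}) (F.d (F.pull Gt σ)) (F.pull Gt τ - F.pull g e) := by
        refine (d_pull_eqv hGt sσ).trans ((eσ.symm.pull hGt).trans ?_)
        rw [pull_sub']
        exact (Eqv.refl _).sub (eqv_pull_pull hGt smap_fst' hg (fun _ _ => rfl) e)
      have b3 := (b2.mul (Eqv.refl (F.pull g (x ^ l)))).add
        ((Eqv.refl (X := S \ {p}) (fun y => F.inv (F.pull Gt σ y))).mul (resZero_iff.1 cgx))
      rw [mul_zero, add_zero, sub_mul, ← pull_mul'] at b3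
      have b4 : Eqv (S \ {p}) (F.pull g (e * x ^ l)) 0 := by
        have c1 : Eqv C (e * x ^ l) 0 := eqv_of_gt hC (de.mul dxl) (by
          have : k + k * l = k * (l + 1) := by ring
          omega)
        have := c1.pull hg
        rwa [pull_zero'] at this
      have b5 := b3.trans ((Eqv.refl (F.pull Gt τ * F.pull g (x ^ l))).sub b4)
      rw [sub_zero] at b5
      exact ((b1.trans b5).trans (exG.symm.mul (Eqv.refl _))).symm
    have a3 := (a2.add a1).trans (d_add_eqv sζ₀ (sx'.mul sβ)).symm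
    have a4 : x * F.pull g (x ^ l) + x * (x ^ l - F.pull g (x ^ l)) = x ^ (l + 1) := by
      rw [← mul_add, add_sub_cancel, ← pow_succ']
    rwa [a4] at a3
  -- the global primitive
  have dxl1 : Hom (i + 1) (x ^ (l + 1)) := hi ▸ dx.pow (l + 1)
  obtain ⟨α, sα, dα, eα⟩ := hex.prim dxl1
  have eζ' : Eqv (S \ {p}) (x ^ (l + 1)) (F.d (dp i ζ)) := by
    have := eζ.dp (i + 1)
    rw [dxl1.dp_eq] at this
    exact this.trans (Eqv.of_eq fun y hy => dp_d i (sζ.diff hy))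
  have hψ : Coh (S \ {p}) (α - dp i ζ) 0 := by
    have a1 : Sm (S \ {p}) (α - dp i ζ) := (sα.mono sdiff_subset).sub (sζ.dp i)
    have a2 : Cl (S \ {p}) (α - dp i ζ) := by
      rw [Cl, resZero_iff]
      refine (d_sub_eqv (sα.mono sdiff_subset) (sζ.dp i)).trans ?_
      have := (eα.mono_tan sdiff_subset).symm.sub eζ'.symm
      rwa [sub_self] at this
    have a3 := h.coh_base a1 a2
    have a4 : Eqv C (α - dp i ζ) 0 := eqv_of_gt hC (dα.sub (hom_dp i ζ)) hdC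
    have a5 := a4.pull hg
    rw [pull_zero'] at a5
    exact a3.trans (Coh.of_eqv a5)
  -- near `p`
  obtain ⟨V, hVs, hV, hpV⟩ := eventually_nhds_iff.1 nx
  obtain ⟨U, hUV, hU, hpU, hUe⟩ := hsmall V hV hpV
  have hx0 : ∀ y ∈ U, x y = 0 := fun y hy => hVs y (hUV hy)
  have hα : Coh (S ∩ U) α 0 := by
    refine hUe α (sα.mono inter_subset_left) ?_ dα
    rw [Cl, resZero_iff]
    refine (eα.mono_tan inter_subset_left).symm.trans (Eqv.of_eq fun y hy => ?_)
    rw [Pi.pow_apply, hx0 y hy.2, zero_pow (by omega)]; rfl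
  have hA1 : (S ∩ U) \ {p} ⊆ S \ {p} := fun y hy => ⟨hy.1.1, hy.2⟩
  have hA2 : (S ∩ U) \ {p} ⊆ S ∩ U := sdiff_subset
  have dζ₀ : Hom i ζ₀ := by
    have := (Hom.pull dσ (f := Gt)).mul (Hom.pull dxl (f := g))
    have h3 : q + k * l = i := by
      have : k * (l + 1) = k * l + k := by ring
      omega
    rwa [h3] at this
  have hζ0 : Coh ((S ∩ U) \ {p}) ζ₀ 0 := by
    have a1 := (hα.mono hA2).sub (hψ.mono hA1)
    rw [sub_sub_cancel, sub_zero] at a1
    refine (Coh.of_eqv (Eqv.of_eq fun y hy => ?_)).trans a1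
    change ζ₀ y = dpl i (ζ₀ y + x y * β y)
    rw [hx0 y hy.1.2, zero_mul, add_zero]
    exact (dpl_of_isDeg (dζ₀ y)).symm
  -- pull back to the sphere bundle of `C`
  obtain ⟨s₀, hs3, hsρ, hsU⟩ := near U hU hpU
  let s : E × H → E × H := fun z => (z.1, s₀ • z.2)
  have hsn : ∀ z ∈ Sph C P, ‖(s z).2‖ = s₀ := fun z hz => by
    change ‖s₀ • z.2‖ = s₀
    rw [norm_smul, hz.2, mul_one, Real.norm_of_nonneg (by linarith)]
  have hs : SMap (Sph C P) (Tot C P) s := by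
    refine ⟨fun z _ => by fun_prop, fun z hz => ⟨hz.1.1, ?_⟩⟩
    change P z.1 (s₀ • z.2) = s₀ • z.2
    rw [map_smul, hz.1.2]
  have hsm : ∀ z ∈ Sph C P, s z ∈ Tot C P ∩ {z | ‖z.2‖ < ρ} := fun z hz =>
    ⟨hs.maps hz, by rw [mem_ofPred_eq, hsn z hz]; exact hsρ⟩
  have hj : SMap (Sph C P) ((S ∩ U) \ {p}) (fun z => Ψ (s z)) := by
    refine ⟨fun z hz => (h.sΨ.smooth _ (hsm z hz)).comp z (hs.smooth z hz), fun z hz => ?_⟩
    have h3 := h.sΨ.maps (hsm z hz)
    exact ⟨⟨h3.1, hsU z hz⟩, h3.2⟩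
  have hj' : SMap (Sph C P) (S \ {p}) (fun z => Ψ (s z)) := ⟨hj.smooth, fun z hz => hA1 (hj.maps hz)⟩
  have e1 := hζ0.pull hj
  rw [pull_zero', hζ₀, pull_mul'] at e1
  have e2 : Eqv (Sph C P) (F.pull (fun z => Ψ (s z)) (F.pull Gt σ)) (F.pull s σ) :=
    eqv_pull_pull hj' hGt hs (fun z hz => hGΨ _ (hsm z hz)) σ
  have e3 : Eqv (Sph C P) (F.pull (fun z => Ψ (s z)) (F.pull g (x ^ l)))
      (F.pull Prod.fst (x ^ l)) :=
    eqv_pull_pull hj' hg smap_fstS (fun z hz => by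
      change (Gt (Ψ (s z))).1 = z.1
      rw [hGΨ _ (hsm z hz)]) _
  have e4 : Coh (Sph C P) (F.pull s σ * F.pull Prod.fst (x ^ l)) 0 :=
    (Coh.of_eqv (e2.mul e3)).symm.trans e1
  -- the angular form
  set κ := -(F.pull s σ) with hκ
  have sκ : Sm (Sph C P) κ := (sσ.pull hs).neg
  have eκ : Eqv (Sph C P) (F.d κ) (F.pull Prod.fst e) := by
    rw [hκ, d_neg']
    have b1 : Eqv (Sph C P) (F.d (F.pull s σ)) (F.pull s τ - F.pull s (F.pull Prod.fst e)) := by
      refine (d_pull_eqv hs sσ).trans ((eσ.symm.pull hs).trans ?_)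
      rw [pull_sub']; exact Eqv.refl _
    have b2 : Eqv (Sph C P) (F.pull s τ) 0 := Eqv.of_eq fun z hz =>
      pull_of_zero (hτ.supp _ (by rw [hsn z hz]; exact hs3))
    have b3 : Eqv (Sph C P) (F.pull s (F.pull (Prod.fst : E × H → E) e)) (F.pull Prod.fst e) :=
      eqv_pull_pull hs smap_fst' smap_fstS (fun _ _ => rfl) e
    have b4 := (b1.trans (b2.sub b3)).neg
    rwa [zero_sub, neg_neg] at b4
  refine thom_inj μ hC hCc hP hkN hT hq (κ := κ) (e' := e) (η := 0) sκ (Hom.neg (Hom.pull dσ))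
    se ce de eκ hne (sxl.mono hCS) (cxl.mono hCS) Sm.zero ?_ ?_
  · rw [d_zero']
    exact (eqv_of_gt hC (de.mul dxl) (by
      have : k + k * l = k * (l + 1) := by ring
      omega)).symm
  · rw [pull_zero', sub_zero, hκ, neg_mul]
    have := e4.neg
    rwa [neg_zero] at this

end tube

end Crest.Agent.R208.T
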