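import Crest.Agent.R208.TG2
import Crest.Agent.R208.TX2c
import Crest.Agent.R208.TI5

/-! Row 208, block T (helper88).  TG3a: the upper half of the Gysin sequence for oriented projection
fields of any codimension; the sphere bundle of a field whose rank is the dimension of the base. -/

set_option autoImplicit false
set_option linter.unusedSectionVars false

open MeasureTheory Set Filter Topology Module
open scoped ContDiff Matrix
open Crest.Agent.R208.F Crest.Agent.R208.FI Crest.Agent.R208.CW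

noncomputable section

namespace Crest.Agent.R208.T

variable {n : Type} [Fintype n] [DecidableEq n]
  {E : Type} [NormedAddCommGroup E] [NormedSpace ℝ E] [FiniteDimensional ℝ E]
  {ι : Type} [Fintype ι] [DecidableEq ι]
  {X : Set E} {P : E → EuclideanSpace ℝ n →L[ℝ] EuclideanSpace ℝ n}
  {W : E → (ι × Fin 2 → n) → ℝ} {d : ℕ}

/-- the Euler form is exact on the sphere bundle -/
theorem fst_euler_exact {H : Type*} [NormedAddCommGroup H] [InnerProductSpace ℝ H]
    [FiniteDimensional ℝ H] {P : E → H →L[ℝ] H} {R : ℝ} {e : E → Ext E}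
    {τ : E × H → Ext (E × H)} (hτ : CSF X P R τ)
    (h0 : Eqv X (F.pull (zs (E := E) (H := H)) τ) e) :
    Coh (Sph X P) (F.pull Prod.fst e) 0 := by
  have a1 := coh_z0 hτ.smooth hτ.closed
  have a2 : Eqv (Tot X P) (F.pull (z0 (E := E) (H := H)) τ) (F.pull Prod.fst e) := by
    refine (eqv_pull_pull smap_fst' smap_zs (smap_z0 (X := X) (P := P)) (fun _ _ => rfl)
      τ).symm.trans ?_
    exact h0.pull smap_fst'
  have a3 : Coh (Tot X P) τ (F.pull Prod.fst e) := a1.trans (Coh.of_eqv a2)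
  set ρ : ℝ := max R 0 + 1 with hρ
  have hρ0 : 0 < ρ := by rw [hρ]; positivity
  have hρR : R < ρ := lt_of_le_of_lt (le_max_left R 0) (by rw [hρ]; linarith)
  let s : E × H → E × H := fun z => (z.1, ρ • z.2)
  have hs : SMap (Sph X P) (Tot X P) s := by
    refine ⟨fun z _ => by fun_prop, fun z hz => ⟨hz.1.1, ?_⟩⟩
    change P z.1 (ρ • z.2) = ρ • z.2
    rw [map_smul, hz.1.2]
  have a4 := a3.pull hs
  have b2 : Eqv (Sph X P) (F.pull s τ) 0 := Eqv.of_eq fun z hz => by
    refine pull_of_zero (hτ.supp _ ?_)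
    change R < ‖ρ • z.2‖
    rw [norm_smul, hz.2, mul_one, Real.norm_of_nonneg hρ0.le]
    exact hρR
  have b3 : Eqv (Sph X P) (F.pull s (F.pull (Prod.fst : E × H → E) e)) (F.pull Prod.fst e) :=
    eqv_pull_pull hs smap_fst' smap_fstS (fun _ _ => rfl) e
  exact (Coh.of_eqv b3.symm).trans (a4.symm.trans (Coh.of_eqv b2))

/-- the Euler form of an oriented field is exact on the sphere bundle -/
theorem OR.fst_eR_exact (hX : Sub d X) [Nonempty ι] (h : OR X P W) :
    Coh (Sph X P) (F.pull Prod.fst (eR P W)) 0 := by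
  have h1 := (fst_euler_exact (csf_thomF hX h) (thomF_zero h)).smul 2⁻¹
  rwa [pull_smul', smul_smul, inv_mul_cancel₀ two_ne_zero, one_smul, smul_zero] at h1

theorem sph_up_OR {ι' : Type} [Fintype ι'] [DecidableEq ι'] [Nonempty ι] [Nonempty ι']
    (eq : (ι × Fin 2) ⊕ (ι' × Fin 2) ≃ n) (hX : Sub d X) (hc : IsPreconnected X)
    (hne : X.Nonempty) (h : OR X P W) {i j : ℕ} (hij : j + 1 = i + 2 * Fintype.card ι)
    {b : E × EuclideanSpace ℝ n → Ext (E × EuclideanSpace ℝ n)} (hb : Sm (Sph X P) b)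
    (hcl : Cl (Sph X P) b) (hd : Hom j b) :
    ∃ c : E → Ext E, Sm X c ∧ Cl X c ∧ Hom i c ∧ Coh X (c * eR P W) 0 ∧ (Coh X c 0 →
      ∃ a : E → Ext E, Sm X a ∧ Cl X a ∧ Hom j a ∧ Coh (Sph X P) b (F.pull Prod.fst a)) := by
  obtain ⟨W', c₀, hT⟩ := exists_thomPair thd_holds eq hX hc hne h
  obtain ⟨c, h1, h2, h3, h4, h5⟩ := sph_push hX h.pfield hT (T.card_le eq) hij hb hcl hd
  refine ⟨c, h1, h2, h3, ?_, h5⟩
  have h6 := h4.smul 2⁻¹
  rwa [smul_zero, mul_smul_comm, smul_smul, inv_mul_cancel₀ two_ne_zero, one_smul] at h6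

/-- **upper half of the Gysin sequence** for oriented projection fields of any codimension -/
theorem sph_up_all [Nonempty ι] (hX : Sub d X) (hc : IsPreconnected X)
    (h : OR X P W) {i j : ℕ} (hij : j + 1 = i + 2 * Fintype.card ι)
    {b : E × EuclideanSpace ℝ n → Ext (E × EuclideanSpace ℝ n)} (hb : Sm (Sph X P) b)
    (hcl : Cl (Sph X P) b) (hd : Hom j b) :
    ∃ c : E → Ext E, Sm X c ∧ Cl X c ∧ Hom i c ∧ Coh X (c * eR P W) 0 ∧ (Coh X c 0 →
      ∃ a : E → Ext E, Sm X a ∧ Cl X a ∧ Hom j a ∧ Coh (Sph X P) b (F.pull Prod.fst a)) := by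
  rcases X.eq_empty_or_nonempty with rfl | hne
  · exact ⟨0, Sm.zero, fun x hx => hx.elim, Hom.zero, Coh.of_eqv (Eqv.of_eq fun z hz => hz.elim),
      fun _ => ⟨0, Sm.zero, fun x hx => hx.elim, Hom.zero,
        Coh.of_eqv (Eqv.of_eq fun z hz => hz.1.1.elim)⟩⟩
  obtain ⟨q, r, eq, -⟩ := exists_par h hne
  have hS := iM_iso (n := n) (Fin q)
  have h' := h.push hS
  obtain ⟨c, sc, cc, dc, ec, hc'⟩ := sph_up_OR eq hX hc hne h' hij (hb.pull (smap_out hS))
    (hcl.pull (smap_out hS) hb) (hd.pull)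
  refine ⟨c, sc, cc, dc, (Coh.of_eqv ((Eqv.refl c).mul (eqv_eR_push hS h))).symm.trans ec, ?_⟩
  intro h0
  obtain ⟨a, sa, ca, da, ea⟩ := hc' h0
  refine ⟨a, sa, ca, da, ?_⟩
  have e1 := ea.pull (smap_in hS)
  have e2 : Eqv (Sph X P) (F.pull (fun z : E × EuclideanSpace ℝ n =>
        ((z.1, mE (iM n (Fin q)) z.2) : E × EuclideanSpace ℝ (n ⊕ Fin q)))
      (F.pull (fun z : E × EuclideanSpace ℝ (n ⊕ Fin q) =>
        ((z.1, mE (iM n (Fin q))ᵀ z.2) : E × EuclideanSpace ℝ n)) b)) b :=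
    (eqv_pull_pull (smap_in hS) (smap_out hS) (SMap.id _) (fun z _ => by
      change (z.1, mE (iM n (Fin q))ᵀ (mE (iM n (Fin q)) z.2)) = z
      rw [mE_mE, hS, mE_one]) b).trans (Eqv.of_eq fun z _ => F.pull_id b z)
  have e3 := eqv_pull_pull (smap_in (X := X) (P := P) hS) (smap_fstS (X := X)
    (P := pushE (iM n (Fin q)) P)) (smap_fstS (X := X) (P := P)) (fun _ _ => rfl) a
  exact (Coh.of_eqv e2.symm).trans (e1.trans (Coh.of_eqv e3))

section classes
variable {x : E → Ext E} {k r : ℕ}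

/-- the classes of a space in degrees `2 ≤ j < r` -/
def Mid (X : Set E) (x : E → Ext E) (k r : ℕ) : Prop :=
  ∀ (j : ℕ) (b : E → Ext E), 2 ≤ j → j < r → Sm X b → Cl X b → Hom j b →
    ∃ c : ℝ, (¬ k ∣ j → c = 0) ∧ Coh X b (c • x ^ (j / k))

/-- `r = dim X`, `e` not exact, `H¹ = 0`, `H^j` generated by `x ^ (j / k)` for `2 ≤ j < r`: closed forms
of degree `r - 1 ≤ j < r + k - 1` on the sphere bundle come from the base. -/
theorem sph_mid_base [Nonempty ι] (hι : 2 * Fintype.card ι = r) (hX : Sub r X)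
    (hc : IsPreconnected X) (h : OR X P W) (hkr : k ≤ r) (h1 : ExactIn X 1) (hM : Mid X x k r)
    (he : ¬ Coh X (eR P W) 0) {j : ℕ} (hj : r ≤ j + 1) (hj' : j + 1 < r + k)
    {b : E × EuclideanSpace ℝ n → Ext (E × EuclideanSpace ℝ n)} (hb : Sm (Sph X P) b)
    (hcl : Cl (Sph X P) b) (hd : Hom j b) :
    ∃ a : E → Ext E, Sm X a ∧ Cl X a ∧ Hom j a ∧ Coh (Sph X P) b (F.pull Prod.fst a) := by
  obtain ⟨i, hi⟩ := Nat.exists_eq_add_of_le' hj
  obtain ⟨c, sc, cc, dc, ec, hc'⟩ := sph_up_all (i := i) hX hc h (by omega) hb hcl hd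
  refine hc' ?_
  rcases Nat.eq_zero_or_pos i with rfl | hi0
  · obtain ⟨t, ht⟩ := const_of_closed hX hc sc cc dc
    have e1 : Eqv X c (t • (1 : E → Ext E)) := Eqv.of_eq fun y hy => by
      rw [ht y hy, Algebra.algebraMap_eq_smul_one]; rfl
    have e2 : Coh X (t • eR P W) 0 := by
      refine (Coh.of_eqv ?_).trans ec
      have := (e1.mul (Eqv.refl (eR P W))).symm
      rwa [smul_mul_assoc, one_mul] at this
    have ht0 : t = 0 := by
      by_contra h0
      refine he ?_
      have := e2.smul t⁻¹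
      rwa [smul_smul, inv_mul_cancel₀ h0, one_smul, smul_zero] at this
    rw [ht0, zero_smul] at e1
    exact Coh.of_eqv e1
  · rcases Nat.lt_or_ge i 2 with h2 | h2
    · have : i = 1 := by omega
      subst this
      exact h1 c sc cc dc
    · obtain ⟨t, ht, hct⟩ := hM i c h2 (by omega) sc cc dc
      have hki : ¬ k ∣ i := fun hdv => by
        have := Nat.le_of_dvd hi0 hdv
        omega
      rw [ht hki, zero_smul] at hct
      exact hct

/-- **closed forms of degree `r - 1 ≤ j < r + k - 1` on the sphere bundle are exact** -/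
theorem sph_mid_exact [Nonempty ι] (hι : 2 * Fintype.card ι = r) (hX : Sub r X)
    (hc : IsPreconnected X) (h : OR X P W) (hr : 3 ≤ r) (hk : 2 ≤ k) (hkr : k ∣ r)
    (h1 : ExactIn X 1) (hM : Mid X x k r) (hD : Dim1 X r)
    (he : ¬ Coh X (eR P W) 0) {j : ℕ} (hj : r ≤ j + 1) (hj' : j + 1 < r + k) :
    ExactIn (Sph X P) j := by
  intro b hb hcl hd
  have hkr' : k ≤ r := Nat.le_of_dvd (by omega) hkr
  obtain ⟨a, sa, ca, da, ea⟩ := sph_mid_base hι hX hc h hkr' h1 hM he hj hj' hb hcl hd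
  rcases Nat.lt_trichotomy j r with h2 | h2 | h2
  · obtain ⟨t, ht, hct⟩ := hM j a (by omega) h2 sa ca da
    have hkj : ¬ k ∣ j := fun hdv => by
      have h3 : k ∣ r - j := Nat.dvd_sub hkr hdv
      have h4 : r - j = 1 := by omega
      rw [h4, Nat.dvd_one] at h3
      omega
    rw [ht hkj, zero_smul] at hct
    have := hct.pull (smap_fstS (X := X) (P := P))
    rw [pull_zero'] at this
    exact ea.trans this
  · subst h2
    obtain ⟨s, t, hst, hs⟩ := hD a (eR P W) sa ca da h.ec_eR.sm h.ec_eR.cl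
      (by have := hom_eR (P := P) (W := W); rwa [hι] at this)
    have hs0 : s ≠ 0 := by
      intro h0
      refine he ?_
      rw [h0, zero_smul, zero_sub] at hs
      have ht : t ≠ 0 := by
        rcases hst with h3 | h3
        · exact absurd h0 h3
        · exact h3
      have := hs.smul (-t⁻¹)
      rwa [smul_neg, smul_smul, neg_mul, inv_mul_cancel₀ ht, neg_smul, one_smul, neg_neg,
        smul_zero] at this
    have h3 : Coh X a ((s⁻¹ * t) • eR P W) := by
      have := (hs.smul s⁻¹).add (Coh.refl ((s⁻¹ * t) • eR P W))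
      rwa [smul_sub, smul_smul, smul_smul, inv_mul_cancel₀ hs0, one_smul, sub_add_cancel,
        smul_zero, zero_add] at this
    have h4 := h3.pull (smap_fstS (X := X) (P := P))
    rw [pull_smul'] at h4
    have h5 := (h.fst_eR_exact hX).smul (s⁻¹ * t)
    rw [smul_zero] at h5
    exact ea.trans (h4.trans h5)
  · have h3 := (Coh.of_eqv (eqv_of_gt hX da h2)).pull (smap_fstS (X := X) (P := P))
    rw [pull_zero'] at h3
    exact ea.trans h3

/-- **the classes of the sphere bundle** in degrees `< r + k - 1` -/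
theorem sph_classes [Nonempty ι] (hι : 2 * Fintype.card ι = r) (hX : Sub r X)
    (hc : IsPreconnected X) (h : OR X P W) (hr : 3 ≤ r) (hk : 2 ≤ k) (hkr : k ∣ r)
    (h1 : ExactIn X 1) (hM : Mid X x k r) (hD : Dim1 X r)
    (he : ¬ Coh X (eR P W) 0) (j : ℕ)
    (b : E × EuclideanSpace ℝ n → Ext (E × EuclideanSpace ℝ n)) (hj : 0 < j)
    (hj' : j < r + k - 1) (hb : Sm (Sph X P) b) (hcl : Cl (Sph X P) b) (hd : Hom j b) :
    ∃ c : ℝ, (¬ k ∣ j → c = 0) ∧ Coh (Sph X P) b (c • F.pull Prod.fst x ^ (j / k)) := by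
  rcases Nat.lt_or_ge (j + 1) r with h2 | h2
  · obtain ⟨a, sa, ca, da, ea⟩ := sph_low_all hX hc h (by omega) hb hcl hd
    rcases Nat.lt_or_ge j 2 with h3 | h3
    · have : j = 1 := by omega
      subst this
      refine ⟨0, fun _ => rfl, ?_⟩
      rw [zero_smul]
      have := (h1 a sa ca da).pull (smap_fstS (X := X) (P := P))
      rw [pull_zero'] at this
      exact ea.trans this
    · obtain ⟨t, ht, hct⟩ := hM j a h3 (by omega) sa ca da
      refine ⟨t, ht, ?_⟩
      have := hct.pull (smap_fstS (X := X) (P := P))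
      rw [pull_smul', pull_pow'] at this
      exact ea.trans this
  · refine ⟨0, fun _ => rfl, ?_⟩
    rw [zero_smul]
    exact sph_mid_exact hι hX hc h hr hk hkr h1 hM hD he h2 (by omega) b hb hcl hd

end classes

end Crest.Agent.R208.T
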