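import Crest.Agent.R208.TDefs

/-! Row 208, block TH-B (helper854).  THB1: smoothness and algebra of the model map `SS`,
complexification of oriented projection fields. -/

set_option autoImplicit false
set_option linter.unusedSectionVars false
set_option linter.unusedSimpArgs false
set_option linter.unusedVariables false

open MeasureTheory Set Filter Topology Module Matrix
open scoped ContDiff
open Crest.Agent.R208.F Crest.Agent.R208.FI Crest.Agent.R208.CW

noncomputable section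

namespace Crest.Agent.R208.T

/-! ### scalar functions -/

theorem ph_contDiff : ContDiff ℝ ∞ ph :=
  contDiff_const.mul (Real.smoothTransition.contDiff.comp
    ((contDiff_const.mul contDiff_id).sub contDiff_const))

theorem ph_of_le {s : ℝ} (h : s ≤ 1 / 2) : ph s = 0 := by
  rw [ph, Real.smoothTransition.zero_of_nonpos (by linarith), mul_zero]

theorem ph_of_ge {s : ℝ} (h : 1 ≤ s) : ph s = Real.pi := by
  rw [ph, Real.smoothTransition.one_of_one_le (by linarith), mul_one]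

theorem ca_of_le {s : ℝ} (h : s ≤ 1 / 2) : ca s = 0 := by
  rw [ca, ph_of_le h, Real.cos_zero, sub_self, zero_div]

theorem cb_of_le {s : ℝ} (h : s ≤ 1 / 2) : cb s = 0 := by
  rw [cb, ph_of_le h, Real.sin_zero, neg_zero, zero_div]

theorem ca_of_ge {s : ℝ} (h : 1 ≤ s) : ca s = -2 / s := by
  rw [ca, ph_of_ge h, Real.cos_pi]; norm_num

theorem cb_of_ge {s : ℝ} (h : 1 ≤ s) : cb s = 0 := by
  rw [cb, ph_of_ge h, Real.sin_pi, neg_zero, zero_div]

theorem ca_contDiff : ContDiff ℝ ∞ ca := by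
  rw [contDiff_iff_contDiffAt]
  intro s
  rcases lt_or_ge s (1 / 2) with h | h
  · have : ca =ᶠ[𝓝 s] fun _ => 0 := by
      filter_upwards [Iio_mem_nhds h] with t ht using ca_of_le (le_of_lt ht)
    exact contDiffAt_const.congr_of_eventuallyEq this
  · exact ((Real.contDiff_cos.comp ph_contDiff).sub contDiff_const).contDiffAt.div contDiffAt_id
      (by linarith)

theorem cb_contDiff : ContDiff ℝ ∞ cb := by
  rw [contDiff_iff_contDiffAt]
  intro s
  rcases lt_or_ge s (1 / 2) with h | h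
  · have : cb =ᶠ[𝓝 s] fun _ => 0 := by
      filter_upwards [Iio_mem_nhds h] with t ht using cb_of_le (le_of_lt ht)
    exact contDiffAt_const.congr_of_eventuallyEq this
  · have hs : s ≠ 0 := by linarith
    exact (Real.contDiff_sin.comp ph_contDiff).neg.contDiffAt.div (Real.contDiffAt_sqrt hs)
      (Real.sqrt_pos.2 (by linarith)).ne'

/-- the key identity: `SS` is isometric -/
theorem ca_cb {s : ℝ} (hs : 0 < s) : 2 * ca s + ca s ^ 2 * s + cb s ^ 2 = 0 := by
  have h1 : Real.sqrt s ^ 2 = s := Real.sq_sqrt hs.le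
  have h2 := Real.sin_sq_add_cos_sq (ph s)
  rw [ca, cb, div_pow, div_pow, h1, neg_sq]
  field_simp
  nlinarith

section model
variable {n : Type*} [Fintype n] [DecidableEq n]

theorem nsq (v : EuclideanSpace ℝ n) : ‖v‖ ^ 2 = ∑ i, v i * v i := by
  rw [EuclideanSpace.norm_sq_eq]
  exact Finset.sum_congr rfl fun i _ => by rw [Real.norm_eq_abs, sq_abs, sq]

theorem contDiff_coord (i : n) : ContDiff ℝ ∞ fun v : EuclideanSpace ℝ n => v i :=
  (EuclideanSpace.proj i : EuclideanSpace ℝ n →L[ℝ] ℝ).contDiff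

theorem contDiff_ca : ContDiff ℝ ∞ fun v : EuclideanSpace ℝ n => ca (‖v‖ ^ 2) :=
  ca_contDiff.comp (contDiff_norm_sq ℝ)

theorem contDiff_cb : ContDiff ℝ ∞ fun v : EuclideanSpace ℝ n => cb (‖v‖ ^ 2) :=
  cb_contDiff.comp (contDiff_norm_sq ℝ)

theorem contDiff_SS (a : n ⊕ Unit) (j : n) :
    ContDiff ℝ ∞ fun v : EuclideanSpace ℝ n => SS v a j := by
  rcases a with i | u
  · have h : ContDiff ℝ ∞ fun v : EuclideanSpace ℝ n => ca (‖v‖ ^ 2) * v i * v j :=
      (contDiff_ca.mul (contDiff_coord i)).mul (contDiff_coord j)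
    exact contDiff_const.add (Complex.ofRealCLM.contDiff.comp h)
  · have h : ContDiff ℝ ∞ fun v : EuclideanSpace ℝ n => cb (‖v‖ ^ 2) * v j :=
      contDiff_cb.mul (contDiff_coord j)
    exact Complex.ofRealCLM.contDiff.comp h

theorem SM_SS (v : EuclideanSpace ℝ n) : SM ∞ (SS (n := n)) v := fun a j =>
  (contDiff_SS a j).contDiffAt

theorem SS_transpose_mul (v : EuclideanSpace ℝ n) : (SS v)ᵀ * SS v = 1 := by
  have key : (2 * ca (‖v‖ ^ 2) + ca (‖v‖ ^ 2) ^ 2 * ‖v‖ ^ 2 + cb (‖v‖ ^ 2) ^ 2) * ‖v‖ ^ 2 = 0 := by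
    rcases (sq_nonneg ‖v‖).eq_or_lt with h | h
    · rw [← h, mul_zero]
    · rw [ca_cb h, zero_mul]
  refine Matrix.ext fun j k => ?_
  rw [Matrix.mul_apply, Fintype.sum_sum_type]
  simp only [transpose_apply, SS, of_apply, Finset.univ_unique, Finset.sum_const,
    Finset.card_singleton, one_smul]
  set c := ca (‖v‖ ^ 2) with hc
  set b := cb (‖v‖ ^ 2) with hb
  have e1 : ∀ i : n, ((if i = j then (1 : ℂ) else 0) + ((c * v i * v j : ℝ) : ℂ)) *
      ((if i = k then (1 : ℂ) else 0) + ((c * v i * v k : ℝ) : ℂ))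
      = (if i = j then (if i = k then (1 : ℂ) else 0) else 0)
        + (if i = j then ((c * v i * v k : ℝ) : ℂ) else 0)
        + (if i = k then ((c * v i * v j : ℝ) : ℂ) else 0)
        + ((c ^ 2 * v j * v k : ℝ) : ℂ) * ((v i * v i : ℝ) : ℂ) := by
    intro i
    push_cast
    split_ifs <;> ring
  simp only [e1, Finset.sum_add_distrib, Finset.sum_ite_eq', Finset.mem_univ, if_true,
    ← Finset.mul_sum]
  have e2 : (∑ i, ((v i * v i : ℝ) : ℂ)) = ((‖v‖ ^ 2 : ℝ) : ℂ) := by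
    rw [nsq]; push_cast; rfl
  rw [e2, Matrix.one_apply]
  have e3 : c * v j * v k + c * v k * v j + c ^ 2 * v j * v k * ‖v‖ ^ 2 + b * v j * (b * v k) = 0 := by
    by_cases hv : ‖v‖ ^ 2 = 0
    · have : v = 0 := by simpa using hv
      subst this; simp
    · have : (2 * c + c ^ 2 * ‖v‖ ^ 2 + b ^ 2) = 0 := (mul_eq_zero.1 key).resolve_right hv
      linear_combination (v j * v k) * this
  have e4 : ((c * v j * v k : ℝ) : ℂ) + ((c * v k * v j : ℝ) : ℂ)
      + ((c ^ 2 * v j * v k : ℝ) : ℂ) * ((‖v‖ ^ 2 : ℝ) : ℂ) + ((b * v j : ℝ) : ℂ) * ((b * v k : ℝ) : ℂ)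
      = 0 := by exact_mod_cast e3
  linear_combination e4

/-- the standard embedding -/
def S0 (n : Type*) [Fintype n] [DecidableEq n] : Matrix (n ⊕ Unit) n ℂ := Matrix.fromRows 1 0

theorem S0_transpose_mul : (S0 n)ᵀ * S0 n = 1 := by
  rw [S0, Matrix.transpose_fromRows, Matrix.fromCols_mul_fromRows, transpose_one, Matrix.one_mul,
    Matrix.mul_zero, add_zero]

theorem SS_zero : SS (0 : EuclideanSpace ℝ n) = S0 n := by
  refine Matrix.ext fun a j => ?_
  rcases a with i | u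
  · simp [SS, S0, Matrix.one_apply]
  · simp [SS, S0]

/-- the complexified reflection -/
def Rf (v : EuclideanSpace ℝ n) : Matrix n n ℂ :=
  Matrix.of fun i j => (if i = j then 1 else 0) + (((-2 / ‖v‖ ^ 2) * v i * v j : ℝ) : ℂ)

theorem SS_of_ge {v : EuclideanSpace ℝ n} (hv : 1 ≤ ‖v‖) : SS v = S0 n * Rf v := by
  have h : (1 : ℝ) ≤ ‖v‖ ^ 2 := by nlinarith
  rw [S0, Matrix.fromRows_mul, Matrix.one_mul, Matrix.zero_mul]
  refine Matrix.ext fun a j => ?_
  rcases a with i | u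
  · simp only [SS, of_apply, Matrix.fromRows_apply_inl, Rf, ca_of_ge h]
  · simp only [SS, of_apply, Matrix.fromRows_apply_inr, cb_of_ge h, zero_mul, Complex.ofReal_zero,
      Matrix.zero_apply]

theorem Rf_transpose (v : EuclideanSpace ℝ n) : (Rf v)ᵀ = Rf v := by
  refine Matrix.ext fun i j => ?_
  simp only [transpose_apply, Rf, of_apply]
  congr 1
  · simp only [eq_comm]
  · congr 1; ring

/-- complex column of a real vector -/
def col (v : EuclideanSpace ℝ n) : Matrix n Unit ℂ := Matrix.of fun i _ => ((v i : ℝ) : ℂ)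

theorem Rf_eq (v : EuclideanSpace ℝ n) :
    Rf v = 1 + (((-2 / ‖v‖ ^ 2 : ℝ)) : ℂ) • (col v * (col v)ᵀ) := by
  refine Matrix.ext fun i j => ?_
  rw [Matrix.add_apply, Matrix.smul_apply, Matrix.mul_apply, Matrix.one_apply]
  simp only [Rf, of_apply, col, transpose_apply, Finset.univ_unique, Finset.sum_const,
    Finset.card_singleton, one_smul, smul_eq_mul]
  push_cast
  ring

theorem col_transpose_mul (v : EuclideanSpace ℝ n) :
    (col v)ᵀ * col v = (((‖v‖ ^ 2 : ℝ)) : ℂ) • (1 : Matrix Unit Unit ℂ) := by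
  refine Matrix.ext fun i j => ?_
  rw [Matrix.mul_apply, Matrix.smul_apply, Matrix.one_apply, if_pos (Subsingleton.elim _ _), nsq]
  simp only [col, transpose_apply, of_apply, smul_eq_mul, mul_one]
  push_cast
  rfl

theorem Rf_mul_self {v : EuclideanSpace ℝ n} (hv : v ≠ 0) : Rf v * Rf v = 1 := by
  have h0 : (((‖v‖ ^ 2 : ℝ)) : ℂ) ≠ 0 := by
    have : ‖v‖ ≠ 0 := norm_ne_zero_iff.2 hv
    exact_mod_cast pow_ne_zero 2 this
  rw [Rf_eq, Matrix.add_mul, Matrix.one_mul, Matrix.smul_mul,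
    Matrix.mul_add, Matrix.mul_one, Matrix.mul_smul, Matrix.mul_assoc,
    ← Matrix.mul_assoc (col v)ᵀ, col_transpose_mul, Matrix.smul_mul, Matrix.one_mul,
    Matrix.mul_smul, smul_smul]
  have : ((-2 / ‖v‖ ^ 2 : ℝ) : ℂ) * ((‖v‖ ^ 2 : ℝ) : ℂ) = -2 := by
    rw [← Complex.ofReal_mul, div_mul_cancel₀]
    · norm_num
    · exact_mod_cast h0
  rw [this, smul_add, smul_smul, add_assoc, ← add_smul, ← add_smul]
  have h2 : ((-2 / ‖v‖ ^ 2 : ℝ) : ℂ) + (((-2 / ‖v‖ ^ 2 : ℝ) : ℂ) + ((-2 / ‖v‖ ^ 2 : ℝ) : ℂ) * -2) = 0 := by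
    ring
  rw [h2, zero_smul, add_zero]

end model

end Crest.Agent.R208.T
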