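import Crest.Agent.R208.TDefs

/-! Row 208, block TH-D0 (helper423), part a: products of two-forms, curvature of the complement of
a unit section of a constant bundle. -/

set_option autoImplicit false
set_option linter.unusedSectionVars false

open Module Set Matrix
open scoped ContDiff
open Crest.Agent.R208.F Crest.Agent.R208.FI Crest.Agent.R208.CW

noncomputable section

namespace Crest.Agent.R208.T

section alg
variable {T : Type*} [AddCommGroup T] [Module ℝ T] {ι : Type*} [Fintype ι] [DecidableEq ι]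

/-- the two-form `l ∧ m`, as an even complex form -/
def m2 (l m : Module.Dual ℝ T) : EvC T := ⟨Cx.ofR (io l * io m), by
  change invC _ = _
  refine Cx.ext ?_ ?_
  · simp
  · simp⟩

theorem m2_coe (l m : Module.Dual ℝ T) : (m2 l m : CF T) = Cx.ofR (io l * io m) := rfl

/-- enumeration of the index set -/
def kFin (ι : Type*) [Fintype ι] : (ι × Fin 2) ≃ Fin (Fintype.card ι * 2) :=
  (Equiv.prodCongr (Fintype.equivFin ι) (Equiv.refl _)).trans finProdFinEquiv

theorem prod_m2 (l : ι × Fin 2 → Module.Dual ℝ T) :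
    ((∏ j, m2 (l (j, 0)) (l (j, 1)) : EvC T) : CF T)
      = Cx.ofR (ExteriorAlgebra.ιMulti ℝ (Fintype.card ι * 2) fun k => l ((kFin ι).symm k)) := by
  set r := Fintype.card ι
  set e := Fintype.equivFin ι
  have h1 : (∏ j, m2 (l (j, 0)) (l (j, 1)) : EvC T)
      = (List.ofFn fun i : Fin r => m2 (l (e.symm i, 0)) (l (e.symm i, 1))).prod := by
    rw [List.prod_ofFn, ← e.symm.prod_comp]
  have h2 : ∀ L : List (EvC T), ((L.prod : EvC T) : CF T) = (L.map (EvC T).val).prod :=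
    fun L => map_list_prod (EvC T).val L
  have h3 : ∀ L : List (Ext T), Cx.ofR L.prod = (L.map (Cx.ofR (R := Ext T))).prod :=
    fun L => map_list_prod (Cx.ofR (R := Ext T)) L
  rw [h1, h2, ExteriorAlgebra.ιMulti_apply, List.ofFn_mul, List.prod_flatten, h3, List.map_ofFn,
    List.map_ofFn, List.map_ofFn]
  congr 1
  refine congrArg List.ofFn (funext fun i => ?_)
  have h4 : ∀ (b : Fin 2) (hb : (i : ℕ) * 2 + b < r * 2),
      (kFin ι).symm ⟨(i : ℕ) * 2 + b, hb⟩ = (e.symm i, b) := by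
    intro b hb
    rw [Equiv.symm_apply_eq]
    apply Fin.ext
    simp [kFin, e]
    ring
  simp only [Function.comp, h4, List.ofFn_succ, List.ofFn_zero, List.prod_cons, List.prod_nil,
    mul_one]
  rfl

/-- the wedge of all covectors -/
def Xw (l : ι × Fin 2 → Module.Dual ℝ T) : Ext T :=
  ExteriorAlgebra.ιMulti ℝ (Fintype.card ι * 2) fun k => l ((kFin ι).symm k)

theorem Xw_perm (l : ι × Fin 2 → Module.Dual ℝ T) (σ : Equiv.Perm (ι × Fin 2)) :
    Xw (fun p => l (σ p)) = ((Equiv.Perm.sign σ : ℤ) : ℝ) • Xw l := by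
  have h := (ExteriorAlgebra.ιMulti ℝ (Fintype.card ι * 2) (M := Module.Dual ℝ T)).map_perm
    (fun k => l ((kFin ι).symm k)) ((kFin ι).permCongr σ)
  have e1 : (fun k => l ((kFin ι).symm k)) ∘ ((kFin ι).permCongr σ)
      = fun k => l (σ ((kFin ι).symm k)) := by
    funext k
    simp [Equiv.permCongr_apply]
  rw [e1, Equiv.Perm.sign_permCongr] at h
  rw [Xw, h, Xw]
  rcases Int.units_eq_one_or (Equiv.Perm.sign σ) with hs | hs <;> rw [hs] <;> simp

/-- the matrix `θ θᵀ` of two-forms -/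
def th (l : ι × Fin 2 → Module.Dual ℝ T) : Matrix (ι × Fin 2) (ι × Fin 2) (EvC T) :=
  Matrix.of fun a b => m2 (l a) (l b)

theorem pfS_th (l : ι × Fin 2 → Module.Dual ℝ T) :
    ((PF.pfS (th l) : EvC T) : CF T)
      = Cx.ofR (((Fintype.card (ι × Fin 2)).factorial : ℝ) • Xw l) := by
  have e1 : ∀ (s : Finset (Equiv.Perm (ι × Fin 2))) (g : Equiv.Perm (ι × Fin 2) → EvC T),
      ((∑ i ∈ s, g i : EvC T) : CF T) = ∑ i ∈ s, (g i : CF T) := fun s g =>
    map_sum (EvC T).val g s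
  rw [PF.pfS, e1]
  have h1 : ∀ σ : Equiv.Perm (ι × Fin 2),
      (((((Equiv.Perm.sign σ : ℤ) : EvC T) * ∏ j, th l (σ (j, 0)) (σ (j, 1)) : EvC T)) : CF T)
        = Cx.ofR (Xw l) := by
    intro σ
    have h2 := prod_m2 (fun p => l (σ p))
    have h3 : (∏ j, th l (σ (j, 0)) (σ (j, 1)) : EvC T)
        = ∏ j, m2 (l (σ (j, 0))) (l (σ (j, 1))) := rfl
    have h4 : ((((Equiv.Perm.sign σ : ℤ) : EvC T) * ∏ j, th l (σ (j, 0)) (σ (j, 1)) : EvC T) : CF T)
        = ((Equiv.Perm.sign σ : ℤ) : CF T) * ((∏ j, th l (σ (j, 0)) (σ (j, 1)) : EvC T) : CF T) := by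
      rw [← map_intCast (EvC T).val]
      rfl
    rw [h4, h3, h2]
    change _ * Cx.ofR (Xw fun p => l (σ p)) = _
    rw [Xw_perm]
    rcases Int.units_eq_one_or (Equiv.Perm.sign σ) with hs | hs <;> rw [hs] <;> simp
  rw [Finset.sum_congr rfl fun σ _ => h1 σ, Finset.sum_const, Finset.card_univ, Fintype.card_perm,
    ← map_nsmul, Nat.cast_smul_eq_nsmul]

theorem th_lin {l η : ι × Fin 2 → Module.Dual ℝ T} (L : Matrix (ι × Fin 2) (ι × Fin 2) ℝ)
    (h : ∀ a, l a = ∑ b, L a b • η b) :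
    ((PF.pfS (th l) : EvC T) : CF T)
      = Cx.ofR ((((Fintype.card (ι × Fin 2)).factorial : ℝ) * L.det) • Xw η) := by
  have h1 : th l = ((hv T (L.map ((↑) : ℝ → ℂ)))ᵀ)ᵀ * th η * (hv T (L.map ((↑) : ℝ → ℂ)))ᵀ := by
    rw [transpose_transpose]
    refine Matrix.ext fun a b => Subtype.ext ?_
    rw [expand_frame]
    have e1 : ∀ (s : Finset (ι × Fin 2)) (g : (ι × Fin 2) → EvC T),
      ((∑ i ∈ s, g i : EvC T) : CF T) = ∑ i ∈ s, (g i : CF T) := fun s g =>
        map_sum (EvC T).val g s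
    rw [e1]
    simp only [e1]
    have h2 : (th l a b : CF T) = Cx.ofR (io (l a) * io (l b)) := rfl
    rw [h2, h a, h b, map_sum, map_sum, Finset.sum_mul, map_sum]
    refine Finset.sum_congr rfl fun p _ => ?_
    rw [Finset.mul_sum, map_sum]
    refine Finset.sum_congr rfl fun q _ => ?_
    have h3 : (((L.map ((↑) : ℝ → ℂ)) a p * (L.map ((↑) : ℝ → ℂ)) b q) • th η p q : EvC T)
        = (((L a p * L b q : ℝ) : ℂ) • th η p q : EvC T) := by
      simp [Matrix.map_apply]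
    rw [h3]
    change _ = ((L a p * L b q : ℝ) : ℂ) • (Cx.ofR (io (η p) * io (η q)) : CF T)
    rw [map_smul, map_smul]
    refine Cx.ext ?_ ?_
    · simp [smul_smul, mul_comm]
    · simp
  rw [h1, PF.pfS_congr, det_transpose]
  have h4 : (hv T (L.map ((↑) : ℝ → ℂ))).det = algebraMap ℂ (EvC T) ((L.det : ℝ) : ℂ) := by
    have e2 : ((L.det : ℝ) : ℂ) = (L.map ((↑) : ℝ → ℂ)).det := by
      have := RingHom.map_det (algebraMap ℝ ℂ) L
      exact this
    rw [e2]
    exact (RingHom.map_det (algebraMap ℂ (EvC T)) _).symm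
  rw [h4, ← Algebra.smul_def]
  change ((L.det : ℝ) : ℂ) • ((PF.pfS (th η) : EvC T) : CF T) = _
  rw [pfS_th]
  refine Cx.ext ?_ ?_
  · rw [Cx.csmul_re, Cx.ofR_re, Cx.ofR_re, Cx.ofR_im, smul_zero, sub_zero, Complex.ofReal_re,
      smul_smul, mul_comm]
  · rw [Cx.csmul_im, Cx.ofR_im, Cx.ofR_im, smul_zero, Complex.ofReal_im, zero_smul, add_zero]

end alg

section field
variable {G : Type*} [NormedAddCommGroup G] [NormedSpace ℝ G] [FiniteDimensional ℝ G]
  {N ι : Type*} [Fintype N] [DecidableEq N] [Fintype ι] [DecidableEq ι] {x : G}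

/-- complexified real matrix -/
abbrev mc {α β : Type*} (f : Matrix α β ℝ) : Matrix α β ℂ := f.map ((↑) : ℝ → ℂ)

/-- a real vector field as a column -/
def Uc (u : G → N → ℝ) (y : G) : Matrix N Unit ℂ := Matrix.of fun a _ => ((u y a : ℝ) : ℂ)

theorem DD_Uc {u : G → N → ℝ} (hu : ∀ a, ContDiffAt ℝ 1 (fun y => u y a) x) (a : N) (t : Unit) :
    DD (Uc u) x a t = Cx.ofR (io ((fderiv ℝ (fun y => u y a) x : G →L[ℝ] ℝ) : Module.Dual ℝ G)) := by
  rw [DD_apply]
  refine Cx.ext ?_ ?_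
  · change F.d (fun y => (algebraMap ℂ (CF G) (Uc u y a t)).re) x = _
    have h1 : (fun y => (algebraMap ℂ (CF G) (Uc u y a t)).re) = fun y => u y a • (1 : Ext G) := by
      funext y
      rw [Cx.algebraMap_re, Algebra.algebraMap_eq_smul_one]
      rfl
    rw [h1, F.d_smul ((hu a).differentiableAt (by norm_num)) (differentiableAt_const _), F.d_const,
      smul_zero, add_zero, mul_one, Cx.ofR_re]
  · change F.d (fun y => (algebraMap ℂ (CF G) (Uc u y a t)).im) x = _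
    have h1 : (fun y => (algebraMap ℂ (CF G) (Uc u y a t)).im) = fun _ => (0 : Ext G) := by
      funext y
      rw [Cx.algebraMap_im]
      change algebraMap ℝ _ ((u y a : ℂ)).im = 0
      rw [Complex.ofReal_im, map_zero]
    rw [h1, F.d_const, Cx.ofR_im]

theorem SM_Uc {k : WithTop ℕ∞} {u : G → N → ℝ} (hu : ∀ a, ContDiffAt ℝ k (fun y => u y a) x) :
    SM k (Uc u) x := fun a _ => Complex.ofRealCLM.contDiff.contDiffAt.comp x (hu a)

theorem Om_complement {P : G → Matrix N N ℂ} {Q : Matrix N N ℂ} {u : G → N → ℝ}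
    {f : Matrix N (ι × Fin 2) ℝ}
    (hP : ∀ y, P y = Q - Uc u y * (Uc u y)ᵀ) (hu : ∀ a, ContDiffAt ℝ 1 (fun y => u y a) x)
    (hf1 : fᵀ * f = 1) (hfP : mc f * (mc f)ᵀ = P x)
    (huu : ∑ a, u x a * u x a = 1) (hfu : ∀ p, ∑ a, f a p * u x a = 0) :
    (hv G (mc f))ᵀ * Om P x * hv G (mc f)
      = th fun p => ∑ a, f a p • ((fderiv ℝ (fun y => u y a) x : G →L[ℝ] ℝ) : Module.Dual ℝ G) := by
  have hf1' : (mc f)ᵀ * mc f = 1 := by
    have : (mc f)ᵀ * mc f = mc (fᵀ * f) := by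
      ext a b
      simp [Matrix.mul_apply]
    rw [this, hf1]
    ext a b
    by_cases h : a = b
    · subst h; simp
    · simp [Matrix.one_apply_ne h]
  have hUU : (Uc u x)ᵀ * Uc u x = 1 := by
    ext a b
    rw [Matrix.mul_apply, Matrix.one_apply]
    simp only [transpose_apply, Uc, Matrix.of_apply]
    rw [if_pos trivial]
    exact_mod_cast huu
  have hfU : (mc f)ᵀ * Uc u x = 0 := by
    ext a b
    rw [Matrix.mul_apply, Matrix.zero_apply]
    simp only [transpose_apply, Uc, Matrix.of_apply, Matrix.map_apply]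
    exact_mod_cast hfu a
  have hUf : (Uc u x)ᵀ * mc f = 0 := by
    have := congrArg Matrix.transpose hfU
    rwa [transpose_mul, transpose_transpose, transpose_zero] at this
  have hPf : P x * mc f = mc f := by rw [← hfP, Matrix.mul_assoc, hf1', Matrix.mul_one]
  have hfPt : (mc f)ᵀ * P x = (mc f)ᵀ := by rw [← hfP, ← Matrix.mul_assoc, hf1', Matrix.one_mul]
  have hU := SM_Uc (x := x) hu
  set D := DD (Uc u) x with hD
  have hDt : DD (fun y => (Uc u y)ᵀ) x = Dᵀ := rfl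
  have hDP : DD P x = -(D * (hat G (Uc u x))ᵀ + hat G (Uc u x) * Dᵀ) := by
    have h1 : P = fun y => Q + (-1 : ℂ) • (Uc u y * (Uc u y)ᵀ) := by
      funext y
      rw [hP y, neg_one_smul, sub_eq_add_neg]
    have h2 : P = fun y => Q + (-Uc u y) * (Uc u y)ᵀ := by
      funext y
      rw [hP y, Matrix.neg_mul, sub_eq_add_neg]
    have hN : SM 1 (fun y => -Uc u y) x := fun a b => (hU a b).neg
    have hDN : DD (fun y => -Uc u y) x = -D := by
      refine Matrix.ext fun a b => ?_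
      rw [Matrix.neg_apply, hD, DD_apply, DD_apply, ← dC_neg]
      congr 1
      funext y
      rw [Matrix.neg_apply, map_neg]
    have hhN : hat G (-Uc u x) = -hat G (Uc u x) := by
      refine Matrix.ext fun a b => ?_
      exact map_neg (algebraMap ℂ (CF G)) _
    rw [h2, DD_add (SM.const Q) (hN.mul hU.transpose), DD_const, zero_add, DD_mul hN hU.transpose,
      hDN, hDt, hhN, Matrix.neg_mul, Matrix.neg_mul, neg_add]
    rfl
  refine vl_inj ?_
  have e3 : vl ((hv G (mc f))ᵀ) = hat G (mc f)ᵀ := rfl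
  rw [vl_mul, vl_mul, vl_Om, vl_hv, e3]
  have e4 : hat G (mc f)ᵀ * (hat G (P x) * (DD P x * DD P x) * hat G (P x)) * hat G (mc f)
      = hat G (mc f)ᵀ * (DD P x * DD P x) * hat G (mc f) := by
    calc _ = (hat G (mc f)ᵀ * hat G (P x)) * (DD P x * DD P x) * (hat G (P x) * hat G (mc f)) := by
          simp only [Matrix.mul_assoc]
      _ = _ := by rw [← hat_mul, ← hat_mul, hPf, hfPt]
  have ht : (hat G (Uc u x))ᵀ = hat G (Uc u x)ᵀ := rfl
  have z1 : hat G (mc f)ᵀ * hat G (Uc u x) = 0 := by rw [← hat_mul, hfU, hat_zero]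
  have z2 : hat G (Uc u x)ᵀ * hat G (mc f) = 0 := by rw [← hat_mul, hUf, hat_zero]
  have z3 : hat G (Uc u x)ᵀ * hat G (Uc u x) = 1 := by rw [← hat_mul, hUU, hat_one]
  rw [e4, hDP, ht]
  have e5 : hat G (mc f)ᵀ * (-(D * hat G (Uc u x)ᵀ + hat G (Uc u x) * Dᵀ)
        * -(D * hat G (Uc u x)ᵀ + hat G (Uc u x) * Dᵀ)) * hat G (mc f)
      = (hat G (mc f)ᵀ * D) * (Dᵀ * hat G (mc f)) := by
    rw [neg_mul_neg]
    calc _ = (hat G (mc f)ᵀ * D) * hat G (Uc u x)ᵀ * D * (hat G (Uc u x)ᵀ * hat G (mc f))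
          + (hat G (mc f)ᵀ * D) * (hat G (Uc u x)ᵀ * hat G (Uc u x)) * (Dᵀ * hat G (mc f))
          + (hat G (mc f)ᵀ * hat G (Uc u x)) * Dᵀ * D * (hat G (Uc u x)ᵀ * hat G (mc f))
          + (hat G (mc f)ᵀ * hat G (Uc u x)) * Dᵀ * hat G (Uc u x) * (Dᵀ * hat G (mc f)) := by
          simp only [Matrix.mul_add, Matrix.add_mul, Matrix.mul_assoc]
          abel
      _ = _ := by rw [z1, z2, z3]; simp
  rw [e5]
  refine Matrix.ext fun a b => ?_
  have h5 : ∀ p t, (hat G (mc f)ᵀ * D) p t = Cx.ofR (io (∑ a, f a p •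
      ((fderiv ℝ (fun y => u y a) x : G →L[ℝ] ℝ) : Module.Dual ℝ G))) := by
    intro p t
    rw [Matrix.mul_apply, map_sum, map_sum]
    refine Finset.sum_congr rfl fun c _ => ?_
    rw [hD, DD_Uc hu, map_smul]
    change algebraMap ℂ (CF G) ((f c p : ℝ) : ℂ) * _ = _
    rw [← Algebra.smul_def]
    refine Cx.ext ?_ ?_
    · rw [Cx.csmul_re, Cx.ofR_re, Cx.ofR_re, Cx.ofR_im, smul_zero, sub_zero, Complex.ofReal_re]
    · rw [Cx.csmul_im, Cx.ofR_im, Cx.ofR_im, smul_zero, Complex.ofReal_im, zero_smul, add_zero]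
  have h6 : ∀ p t, (Dᵀ * hat G (mc f)) t p = Cx.ofR (io (∑ a, f a p •
      ((fderiv ℝ (fun y => u y a) x : G →L[ℝ] ℝ) : Module.Dual ℝ G))) := by
    intro p t
    rw [← h5 p t, Matrix.mul_apply, Matrix.mul_apply]
    refine Finset.sum_congr rfl fun c _ => ?_
    exact (alg_comm _ _).symm
  rw [Matrix.mul_apply]
  simp only [h5, h6, Finset.univ_unique, Finset.sum_singleton, ← map_mul]
  rfl

theorem ef_complement {P : G → Matrix N N ℂ} {Wt : G → (ι × Fin 2 → N) → ℂ} {Q : Matrix N N ℂ}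
    {u : G → N → ℝ} {f : Matrix N (ι × Fin 2) ℝ}
    (hP : ∀ y, P y = Q - Uc u y * (Uc u y)ᵀ) (hu : ∀ a, ContDiffAt ℝ 1 (fun y => u y a) x)
    (hf1 : fᵀ * f = 1) (hfP : mc f * (mc f)ᵀ = P x)
    (huu : ∑ a, u x a * u x a = 1) (hfu : ∀ p, ∑ a, f a p * u x a = 0)
    (hW : ∀ I, Wt x I = ((mc f).submatrix I id).det) :
    ef P Wt x = ((PF.pfS (th fun p => ∑ a, f a p •
      ((fderiv ℝ (fun y => u y a) x : G →L[ℝ] ℝ) : Module.Dual ℝ G)) : EvC G) : CF G) := by
  rw [ef, eu_frame hW, Om_complement hP hu hf1 hfP huu hfu]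

end field

end Crest.Agent.R208.T
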