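import Crest.Agent.R208.THD0a
import Crest.Agent.R208.THB4

/-! Row 208, block TH-D0 (helper423), part b: algebra of the model frame, the determinant, and the
derivatives of the model section. -/

set_option autoImplicit false
set_option linter.unusedSectionVars false

open Module Set Matrix Filter Topology
open scoped ContDiff
open Crest.Agent.R208.F Crest.Agent.R208.FI Crest.Agent.R208.CW

noncomputable section

namespace Crest.Agent.R208.T

/-! ### determinant -/

theorem det_rank_one {κ : Type*} [Fintype κ] [DecidableEq κ] [Nonempty κ] (s β : ℝ) (y : κ → ℝ) :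
    (s • (1 : Matrix κ κ ℝ) + β • Matrix.vecMulVec y y).det
      = s ^ (Fintype.card κ - 1) * (s + β * (y ⬝ᵥ y)) := by
  have key : ∀ s : ℝ, s ≠ 0 → (s • (1 : Matrix κ κ ℝ) + β • Matrix.vecMulVec y y).det
      = s ^ (Fintype.card κ - 1) * (s + β * (y ⬝ᵥ y)) := by
    intro s hs
    have h1 : s • (1 : Matrix κ κ ℝ) + β • Matrix.vecMulVec y y
        = s • (1 + Matrix.replicateCol Unit ((s⁻¹ * β) • y) * Matrix.replicateRow Unit y) := by
      ext a b
      simp [Matrix.mul_apply, Matrix.vecMulVec_apply]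
      field_simp
    rw [h1, det_smul, det_one_add_replicateCol_mul_replicateRow, dotProduct_smul, smul_eq_mul]
    have hc : Fintype.card κ = (Fintype.card κ - 1) + 1 := by
      have := Fintype.card_pos (α := κ); omega
    conv_lhs => rw [hc, pow_succ]
    field_simp
  have hf : Continuous fun s : ℝ => (s • (1 : Matrix κ κ ℝ) + β • Matrix.vecMulVec y y).det := by
    refine Continuous.matrix_det ?_
    fun_prop
  have hg : Continuous fun s : ℝ => s ^ (Fintype.card κ - 1) * (s + β * (y ⬝ᵥ y)) := by fun_prop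
  have := Continuous.ext_on (dense_compl_singleton (0 : ℝ)) hf hg (fun s hs => key s hs)
  exact congrFun this s

/-! ### the model frame -/

section frame
variable {n κ : Type*} [Fintype n] [DecidableEq n] [Fintype κ] [DecidableEq κ]
  {f : Matrix n κ ℝ} {y : κ → ℝ} {v : n → ℝ} {c b co : ℝ}

/-- real model frame -/
def mF (f : Matrix n κ ℝ) (v : n → ℝ) (y : κ → ℝ) (c b : ℝ) : Matrix (n ⊕ Unit) κ ℝ :=
  Matrix.of fun a p => match a with
    | Sum.inl i => f i p + c * v i * y p
    | Sum.inr _ => b * y p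

/-- real model section -/
def mU (v : n → ℝ) (b co : ℝ) : n ⊕ Unit → ℝ
  | Sum.inl i => -b * v i
  | Sum.inr _ => co

theorem sum_fv (hf : fᵀ * f = 1) (hv : ∀ i, v i = ∑ p, f i p * y p) (p : κ) :
    ∑ i, f i p * v i = y p := by
  simp only [hv, Finset.mul_sum]
  rw [Finset.sum_comm]
  have h1 : ∀ q, ∑ i, f i p * (f i q * y q) = (if p = q then 1 else 0) * y q := by
    intro q
    have := congrFun (congrFun hf p) q
    rw [Matrix.mul_apply, Matrix.one_apply] at this
    rw [← this, Finset.sum_mul]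
    exact Finset.sum_congr rfl fun i _ => by rw [transpose_apply]; ring
  simp [h1]

theorem sum_vv (hf : fᵀ * f = 1) (hv : ∀ i, v i = ∑ p, f i p * y p) :
    ∑ i, v i * v i = ∑ p, y p * y p := by
  have h1 : ∀ i, v i * v i = ∑ p, y p * (f i p * v i) := by
    intro i
    conv_lhs => rw [hv i, Finset.sum_mul]
    exact Finset.sum_congr rfl fun p _ => by rw [← hv i]; ring
  simp only [h1]
  rw [Finset.sum_comm]
  refine Finset.sum_congr rfl fun p _ => ?_
  rw [← Finset.mul_sum, sum_fv hf hv]

theorem mF_orth (hf : fᵀ * f = 1) (hv : ∀ i, v i = ∑ p, f i p * y p)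
    (h3 : 2 * c + c ^ 2 * (∑ p, y p * y p) + b ^ 2 = 0) : (mF f v y c b)ᵀ * mF f v y c b = 1 := by
  ext p q
  have e := congrFun (congrFun hf p) q
  rw [Matrix.mul_apply] at e
  rw [Matrix.mul_apply, Fintype.sum_sum_type, ← e]
  simp only [transpose_apply, mF, Matrix.of_apply, Finset.univ_unique, Finset.sum_singleton]
  have e1 : ∀ i, (f i p + c * v i * y p) * (f i q + c * v i * y q)
      = f i p * f i q + c * y q * (f i p * v i) + c * y p * (f i q * v i)
        + c ^ 2 * y p * y q * (v i * v i) := fun i => by ring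
  simp only [e1, Finset.sum_add_distrib, ← Finset.mul_sum, sum_fv hf hv, sum_vv hf hv]
  linear_combination (y p * y q) * h3

theorem mF_range (hv : ∀ i, v i = ∑ p, f i p * y p)
    (h1 : 1 + c * (∑ p, y p * y p) = co) (h2 : b ^ 2 * (∑ p, y p * y p) + co ^ 2 = 1)
    (h3 : 2 * c + c ^ 2 * (∑ p, y p * y p) + b ^ 2 = 0) (a a' : n ⊕ Unit) :
    (mF f v y c b * (mF f v y c b)ᵀ) a a'
      = (Matrix.fromBlocks (f * fᵀ) 0 0 (1 : Matrix Unit Unit ℝ)) a a'
        - mU v b co a * mU v b co a' := by
  rw [Matrix.mul_apply]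
  rcases a with i | t <;> rcases a' with j | t'
  · simp only [transpose_apply, mF, Matrix.of_apply, Matrix.fromBlocks_apply₁₁, mU]
    rw [Matrix.mul_apply]
    have e1 : ∀ p, (f i p + c * v i * y p) * (f j p + c * v j * y p)
        = f i p * fᵀ p j + c * v j * (f i p * y p) + c * v i * (f j p * y p)
          + c ^ 2 * v i * v j * (y p * y p) := fun p => by rw [transpose_apply]; ring
    simp only [e1, Finset.sum_add_distrib, ← Finset.mul_sum, ← hv]
    linear_combination (v i * v j) * h3
  · simp only [transpose_apply, mF, Matrix.of_apply, Matrix.fromBlocks_apply₁₂, mU,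
      Matrix.zero_apply]
    have e1 : ∀ p, (f i p + c * v i * y p) * (b * y p)
        = b * (f i p * y p) + b * c * v i * (y p * y p) := fun p => by ring
    simp only [e1, Finset.sum_add_distrib, ← Finset.mul_sum, ← hv]
    linear_combination (b * v i) * h1
  · simp only [transpose_apply, mF, Matrix.of_apply, Matrix.fromBlocks_apply₂₁, mU,
      Matrix.zero_apply]
    have e1 : ∀ p, (b * y p) * (f j p + c * v j * y p)
        = b * (f j p * y p) + b * c * v j * (y p * y p) := fun p => by ring
    simp only [e1, Finset.sum_add_distrib, ← Finset.mul_sum, ← hv]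
    linear_combination (b * v j) * h1
  · simp only [transpose_apply, mF, Matrix.of_apply, Matrix.fromBlocks_apply₂₂, mU,
      Matrix.one_apply]
    have e1 : ∀ p, (b * y p) * (b * y p) = b ^ 2 * (y p * y p) := fun p => by ring
    simp only [e1, ← Finset.mul_sum]
    rw [if_pos trivial]
    linear_combination h2

theorem mU_unit (hf : fᵀ * f = 1) (hv : ∀ i, v i = ∑ p, f i p * y p)
    (h2 : b ^ 2 * (∑ p, y p * y p) + co ^ 2 = 1) : ∑ a, mU v b co a * mU v b co a = 1 := by
  rw [Fintype.sum_sum_type]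
  simp only [mU, Finset.univ_unique, Finset.sum_singleton]
  have e1 : ∀ i, (-b * v i) * (-b * v i) = b ^ 2 * (v i * v i) := fun i => by ring
  simp only [e1, ← Finset.mul_sum, sum_vv hf hv]
  linear_combination h2

theorem mF_mU (hf : fᵀ * f = 1) (hv : ∀ i, v i = ∑ p, f i p * y p)
    (h1 : 1 + c * (∑ p, y p * y p) = co) (p : κ) :
    ∑ a, mF f v y c b a p * mU v b co a = 0 := by
  rw [Fintype.sum_sum_type]
  simp only [mF, mU, Matrix.of_apply, Finset.univ_unique, Finset.sum_singleton]
  have e1 : ∀ i, (f i p + c * v i * y p) * (-b * v i)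
      = -b * (f i p * v i) + -(b * c * y p) * (v i * v i) := fun i => by ring
  simp only [e1, Finset.sum_add_distrib, ← Finset.mul_sum, sum_fv hf hv, sum_vv hf hv]
  linear_combination (-b * y p) * h1

end frame

/-! ### scalar identities -/

theorem sc1 {s : ℝ} (hs : 0 ≤ s) : 1 + ca s * s = Real.cos (ph s) := by
  rcases hs.eq_or_lt with h | h
  · rw [← h, ph_of_le (by norm_num), Real.cos_zero, mul_zero, add_zero]
  · rw [ca, div_mul_cancel₀ _ h.ne']; ring

theorem sc2 {s : ℝ} (hs : 0 ≤ s) : cb s ^ 2 * s + Real.cos (ph s) ^ 2 = 1 := by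
  rcases hs.eq_or_lt with h | h
  · rw [← h, ph_of_le (by norm_num), Real.cos_zero, mul_zero]; norm_num
  · rw [cb, div_pow, Real.sq_sqrt hs, div_mul_cancel₀ _ h.ne', neg_sq]
    exact Real.sin_sq_add_cos_sq _

theorem sc3 {s : ℝ} (hs : 0 ≤ s) : 2 * ca s + ca s ^ 2 * s + cb s ^ 2 = 0 := by
  rcases hs.eq_or_lt with h | h
  · rw [← h, ca_of_le (by norm_num), cb_of_le (by norm_num)]; norm_num
  · exact ca_cb h

theorem deriv_cb {s : ℝ} (hs : 0 < s) :
    deriv cb s * s = - Real.cos (ph s) * deriv ph s * Real.sqrt s + Real.sin (ph s) / (2 * Real.sqrt s) := by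
  have h1 : HasDerivAt ph (deriv ph s) s :=
    ((ph_contDiff.differentiable (by simp)) s).hasDerivAt
  have h2 : HasDerivAt (fun t => -Real.sin (ph t)) (-(Real.cos (ph s) * deriv ph s)) s :=
    (h1.sin).neg
  have h3 := Real.hasDerivAt_sqrt hs.ne'
  have hq : Real.sqrt s ≠ 0 := (Real.sqrt_pos.2 hs).ne'
  have h4 : HasDerivAt cb _ s := h2.div h3 hq
  rw [h4.deriv]
  have h5 : Real.sqrt s ^ 2 = s := Real.sq_sqrt hs.le
  generalize Real.sqrt s = q at *
  subst h5
  field_simp
  ring

/-- the eigenvalue in the radial direction -/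
theorem sc4 {s : ℝ} (hs : 0 ≤ s) :
    -cb s + (-2 * deriv cb s * (1 + ca s * s) - ca s * cb s
      - 2 * cb s * (Real.sin (ph s) * deriv ph s)) * s = 2 * Real.sqrt s * deriv ph s := by
  rw [sc1 hs]
  rcases hs.eq_or_lt with h | h
  · rw [← h, cb_of_le (by norm_num)]; simp
  · have h1 := deriv_cb h
    have h5 : Real.sqrt s ^ 2 = s := Real.sq_sqrt hs
    have hq : Real.sqrt s ≠ 0 := (Real.sqrt_pos.2 h).ne'
    have h6 : cb s = -Real.sin (ph s) / Real.sqrt s := rfl
    have h7 : ca s * s = Real.cos (ph s) - 1 := by rw [← sc1 hs]; ring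
    have h8 := Real.sin_sq_add_cos_sq (ph s)
    have h9 : cb s * s = - Real.sin (ph s) * Real.sqrt s := by
      rw [h6, div_mul_eq_mul_div, div_eq_iff hq, mul_assoc, ← sq, h5]
    have h10 : Real.sin (ph s) / (2 * Real.sqrt s) = - cb s / 2 := by
      rw [h6]; field_simp
    rw [h10] at h1
    linear_combination (-2 * Real.cos (ph s)) * h1 - cb s * h7
      + (-2 * Real.sin (ph s) * deriv ph s) * h9 + 2 * Real.sqrt s * deriv ph s * h8

end Crest.Agent.R208.T
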