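import Crest.Agent.R208.T2

/-! Row 208, block TP (helper382).  TP1: vertical integration `push` of forms with compact vertical
support on total spaces of projection fields: smooth, closed, natural, linear over the base, and
the Thom lemma restricted to the zero section. -/

set_option autoImplicit false
set_option linter.unusedSectionVars false

open MeasureTheory Set Filter Topology Module
open scoped ContDiff
open Crest.Agent.R208.F Crest.Agent.R208.FI Crest.Agent.R208.CW Crest.Agent.R208.T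

noncomputable section

namespace Crest.Agent.R208.TP

section one
variable {E H : Type*} [NormedAddCommGroup E] [NormedSpace ℝ E] [FiniteDimensional ℝ E]
  [NormedAddCommGroup H] [InnerProductSpace ℝ H] [FiniteDimensional ℝ H]
  [MeasurableSpace H] [BorelSpace H] (μ : Measure H) [μ.IsAddHaarMeasure]
  {X : Set E} {P : E → H →L[ℝ] H} {r d : ℕ} {R R' : ℝ} {τ' om om' : E × H → Ext (E × H)}

/-- vertical integration of `om` along `P`; `τ'` is a closed form with compact vertical support on
the complementary field `1 - P`. -/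
def push (P : E → H →L[ℝ] H) (τ' om : E × H → Ext (E × H)) : E → Ext E := pI μ (thE' P τ' om)

theorem _root_.Crest.Agent.R208.T.Vt.add {a b : E × H → Ext (E × H)} (h : Vt R a) (h' : Vt R b) :
    Vt R (a + b) := fun z hz => by
  rw [Pi.add_apply, h z hz, h' z hz, add_zero]

theorem vt_th (hτ' : Vt R τ') (hω : Vt R' om) : Vt (2 * max R R') (thE' P τ' om) :=
  vt_eta' (hτ'.mono (le_max_left _ _)) (hω.mono (le_max_right _ _))

theorem sm_push (hP : PField X r P) (hτ' : CSF X (fun x => 1 - P x) R τ')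
    (sω : Sm (Tot X P) om) (vω : Vt R' om) : Sm X (push μ P τ' om) :=
  sm_pI μ (vt_th hτ'.supp vω) (sm_eta' hP hτ'.smooth sω)

theorem cl_push (hP : PField X r P) (hτ' : CSF X (fun x => 1 - P x) R τ')
    (sω : Sm (Tot X P) om) (vω : Vt R' om) (cω : Cl (Tot X P) om) : Cl X (push μ P τ' om) := by
  intro x hx
  have v := vt_th (P := P) hτ'.supp vω
  have s := sm_eta' hP hτ'.smooth sω
  have h1 := resZero_pI μ v.d s.d (cl_eta' hP hτ'.smooth sω hτ'.closed cω) x hx
  rw [d_pI μ v s hx, map_smul] at h1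
  exact (smul_eq_zero.1 h1).resolve_left (pow_ne_zero _ (by norm_num))

theorem hom_push {j q : ℕ} (hτ' : Hom q τ') (hω : Hom (j + r) om) (hq : q + r = finrank ℝ H) :
    Hom j (push μ P τ' om) := fun x => by
  refine isDeg_pI μ (fun z => ?_) x
  have := (Hom.pull (f := gam P) hτ').mul (Hom.pull (f := nbet P) hω)
  have h1 : q + (j + r) = j + finrank ℝ H := by omega
  rw [h1] at this
  exact this z

theorem thE'_add (P : E → H →L[ℝ] H) (τ' om om' : E × H → Ext (E × H)) :
    thE' P τ' (om + om') = thE' P τ' om + thE' P τ' om' := by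
  rw [thE', pull_add', mul_add]; rfl
theorem thE'_sub (P : E → H →L[ℝ] H) (τ' om om' : E × H → Ext (E × H)) :
    thE' P τ' (om - om') = thE' P τ' om - thE' P τ' om' := by
  rw [thE', pull_sub', mul_sub]; rfl
theorem thE'_smul (P : E → H →L[ℝ] H) (τ' om : E × H → Ext (E × H)) (c : ℝ) :
    thE' P τ' (c • om) = c • thE' P τ' om := by
  rw [thE', pull_smul', mul_smul_comm]; rfl

theorem push_congr (hP : PField X r P) (hτ' : CSF X (fun x => 1 - P x) R τ')
    (s : Sm (Tot X P) om) (v : Vt R' om) (s' : Sm (Tot X P) om') (v' : Vt R' om')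
    (h : Eqv (Tot X P) om om') : Eqv X (push μ P τ' om) (push μ P τ' om') :=
  eqv_pI μ (vt_th hτ'.supp v) (sm_eta' hP hτ'.smooth s) (vt_th hτ'.supp v')
    (sm_eta' hP hτ'.smooth s') ((Eqv.refl _).mul (Eqv.pull (smap_nbet hP) h))

theorem push_sub (hP : PField X r P) (hτ' : CSF X (fun x => 1 - P x) R τ')
    (s : Sm (Tot X P) om) (v : Vt R' om) (s' : Sm (Tot X P) om') (v' : Vt R' om') :
    Eqv X (push μ P τ' (om - om')) (push μ P τ' om - push μ P τ' om') := by
  refine Eqv.of_eq fun x hx => ?_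
  rw [push, thE'_sub]
  exact pI_sub μ (vt_th hτ'.supp v) (sm_eta' hP hτ'.smooth s) (vt_th hτ'.supp v')
    (sm_eta' hP hτ'.smooth s') hx

theorem push_smul (c : ℝ) (om : E × H → Ext (E × H)) :
    push μ P τ' (c • om) = c • push μ P τ' om := by
  funext x
  rw [Pi.smul_apply, push, push, thE'_smul, pI_eq, pI_eq, ← integral_smul]
  refine integral_congr_ae (Eventually.of_forall fun h => ?_)
  change cH _ _ (c • thE' P τ' om (x, h)) = c • cH _ _ (thE' P τ' om (x, h))
  rw [map_smul]

theorem push_zero : push μ P τ' (0 : E × H → Ext (E × H)) = 0 := by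
  have h := push_smul μ (P := P) (τ' := τ') 0 (0 : E × H → Ext (E × H))
  rwa [zero_smul, zero_smul] at h

theorem push_add (hP : PField X r P) (hτ' : CSF X (fun x => 1 - P x) R τ')
    (s : Sm (Tot X P) om) (v : Vt R' om) (s' : Sm (Tot X P) om') (v' : Vt R' om') :
    Eqv X (push μ P τ' (om + om')) (push μ P τ' om + push μ P τ' om') := by
  have h1 : om + om' = om - ((-1 : ℝ) • om') := by
    rw [neg_one_smul, sub_neg_eq_add]
  rw [h1]
  refine (push_sub μ hP hτ' s v (s'.smul _) (v'.smul _)).trans ?_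
  rw [push_smul, neg_one_smul, sub_neg_eq_add]
  exact Eqv.refl _

/-- `push` commutes with `d` up to sign -/
theorem push_d (hP : PField X r P) (hτ' : CSF X (fun x => 1 - P x) R τ')
    (hev : ∀ z, F.inv (τ' z) = τ' z) (s : Sm (Tot X P) om) (v : Vt R' om) :
    Eqv X (push μ P τ' (F.d om)) ((-1 : ℝ) ^ finrank ℝ H • F.d (push μ P τ' om)) := by
  have sγ : Sm (X ×ˢ (univ : Set H)) (F.pull (gam P) τ') := hτ'.smooth.pull (smap_gam hP)
  have cγ : Cl (X ×ˢ (univ : Set H)) (F.pull (gam P) τ') := hτ'.closed.pull (smap_gam hP) hτ'.smooth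
  have sν : Sm (X ×ˢ (univ : Set H)) (F.pull (nbet P) om) := s.pull (smap_nbet hP)
  have e1 : Eqv (X ×ˢ (univ : Set H)) (thE' P τ' (F.d om)) (F.d (thE' P τ' om)) := by
    refine Eqv.symm ((d_mul_eqv sγ sν).trans ?_)
    have h1 : (fun z => F.inv (F.pull (gam P) τ' z)) = F.pull (gam P) τ' := by
      funext z
      rw [F.pull, ← pb_inv, hev]
    rw [h1]
    have h2 := ((resZero_iff.1 cγ).mul (Eqv.refl (F.pull (nbet P) om))).add
      ((Eqv.refl (F.pull (gam P) τ')).mul (d_pull_eqv (smap_nbet hP) s))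
    rwa [zero_mul, zero_add] at h2
  have v1 := vt_th (P := P) hτ'.supp v
  have s1 := sm_eta' hP hτ'.smooth s
  refine (eqv_pI μ (vt_th hτ'.supp v.d) (sm_eta' hP hτ'.smooth s.d) v1.d s1.d e1).trans ?_
  exact Eqv.of_eq fun x hx => d_pI μ v1 s1 hx

/-- forms which differ by `d` of a form with compact vertical support have cohomologous push -/
theorem push_coh (hP : PField X r P) (hτ' : CSF X (fun x => 1 - P x) R τ')
    (hev : ∀ z, F.inv (τ' z) = τ' z) (s : Sm (Tot X P) om) (v : Vt R' om)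
    (s' : Sm (Tot X P) om') (v' : Vt R' om') {L : E × H → Ext (E × H)} (sL : Sm (Tot X P) L)
    (vL : Vt R' L) (h : Eqv (Tot X P) (om - om') (F.d L)) :
    Coh X (push μ P τ' om) (push μ P τ' om') := by
  refine ⟨(-1 : ℝ) ^ finrank ℝ H • push μ P τ' L, (sm_push μ hP hτ' sL vL).smul _, ?_⟩
  refine (push_sub μ hP hτ' s v s' v').symm.trans ?_
  refine (push_congr μ hP hτ' (s.sub s') (v.sub v') sL.d vL.d h).trans ?_
  refine (push_d μ hP hτ' hev sL vL).trans ?_
  exact (d_smul_eqv _ (sm_push μ hP hτ' sL vL)).symm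

/-- linearity over the base -/
theorem push_mul_fst (hP : PField X r P) (hτ' : CSF X (fun x => 1 - P x) R τ')
    (s : Sm (Tot X P) om) (v : Vt R' om) {β : E → Ext E} {x : E} (hx : x ∈ X) :
    push μ P τ' (om * F.pull Prod.fst β) x = push μ P τ' om x * β x := by
  have v1 := vt_th (P := P) hτ'.supp v
  have s1 := sm_eta' hP hτ'.smooth s
  rw [← show pI μ (thE' P τ' om * F.pull (Prod.fst : E × H → E) β) x =
    push μ P τ' om x * β x from pI_mul_fst μ v1 s1 hx β, push, pI_eq, pI_eq]
  refine integral_congr_ae (Eventually.of_forall fun h => ?_)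
  have hz : (x, h) ∈ X ×ˢ (univ : Set H) := ⟨hx, mem_univ _⟩
  have h1 : F.pull (nbet P) (F.pull (Prod.fst : E × H → E) β) (x, h) =
      F.pull (Prod.fst : E × H → E) β (x, h) :=
    F.pull_comp (om := β) ((smap_nbet hP).diff hz) differentiableAt_fst
  change cH _ _ (F.pull (gam P) τ' (x, h) * F.pull (nbet P) (om * F.pull Prod.fst β) (x, h)) =
    cH _ _ (F.pull (gam P) τ' (x, h) * F.pull (nbet P) om (x, h) * F.pull Prod.fst β (x, h))
  rw [pull_mul', Pi.mul_apply, h1, mul_assoc]

end one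

section change
variable {E H E' : Type*} [NormedAddCommGroup E] [NormedSpace ℝ E] [FiniteDimensional ℝ E]
  [NormedAddCommGroup E'] [NormedSpace ℝ E'] [FiniteDimensional ℝ E']
  [NormedAddCommGroup H] [InnerProductSpace ℝ H] [FiniteDimensional ℝ H]
  [MeasurableSpace H] [BorelSpace H] (μ : Measure H) [μ.IsAddHaarMeasure]
  {X : Set E} {X' : Set E'} {P : E → H →L[ℝ] H} {r d : ℕ} {R R' : ℝ}
  {τ' om : E × H → Ext (E × H)} {f : E' → E}

/-- `(y,h) ↦ (f y,h)` -/
def up (f : E' → E) (z : E' × H) : E × H := (f z.1, z.2)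

theorem smap_up (hf : SMap X' X f) : SMap (Tot X' (fun y => P (f y))) (Tot X P) (up f) :=
  ⟨fun z hz => ((hf.smooth z.1 hz.1).comp z contDiffAt_fst).prodMk contDiffAt_snd,
    fun _ hz => ⟨hf.maps hz.1, hz.2⟩⟩

theorem smap_up' (hf : SMap X' X f) :
    SMap (X' ×ˢ (univ : Set H)) (X ×ˢ (univ : Set H)) (up f) :=
  ⟨fun z hz => ((hf.smooth z.1 hz.1).comp z contDiffAt_fst).prodMk contDiffAt_snd,
    fun _ hz => ⟨hf.maps hz.1, mem_univ _⟩⟩

theorem pfield_up (hP : PField X r P) (hf : SMap X' X f) : PField X' r (fun y => P (f y)) :=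
  ⟨fun x hx => (hP.smooth _ (hf.maps hx)).comp x (hf.smooth x hx),
    fun _ hx => hP.idem _ (hf.maps hx), fun _ hx => hP.rank _ (hf.maps hx)⟩

theorem vt_up (h : Vt R om) : Vt R (F.pull (up f) om) := fun z hz => pull_of_zero (h (up f z) hz)

theorem csf_up (hf : SMap X' X f) (h : CSF X P R om) :
    CSF X' (fun y => P (f y)) R (F.pull (up f) om) :=
  ⟨h.smooth.pull (smap_up hf), vt_up h.supp, h.closed.pull (smap_up hf) h.smooth⟩

/-- base change -/
theorem push_up (hP : PField X r P) (hf : SMap X' X f) (hτ' : CSF X (fun x => 1 - P x) R τ')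
    (s : Sm (Tot X P) om) (v : Vt R' om) {y : E'} (hy : y ∈ X') :
    push μ (fun y => P (f y)) (F.pull (up f) τ') (F.pull (up f) om) y =
      F.pull f (push μ P τ' om) y := by
  have v1 := vt_th (P := P) hτ'.supp v
  have s1 := sm_eta' hP hτ'.smooth s
  have hP' := pfield_up hP hf
  rw [← show pI μ (F.pull (fun z : E' × H => ((f z.1, z.2) : E × H)) (thE' P τ' om)) y =
    F.pull f (push μ P τ' om) y from pI_pull μ (hf.diff hy) v1
      (fun h => (s1 (f y, h) ⟨hf.maps hy, mem_univ _⟩).continuousAt), push, pI_eq, pI_eq]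
  refine integral_congr_ae (Eventually.of_forall fun h => ?_)
  have hz : (y, h) ∈ X' ×ˢ (univ : Set H) := ⟨hy, mem_univ _⟩
  have hu := smap_up' (H := H) hf
  have e1 : F.pull (gam (fun y => P (f y))) (F.pull (up f) τ') (y, h) =
      F.pull (up f) (F.pull (gam P) τ') (y, h) := by
    have a1 := F.pull_comp (om := τ') ((smap_gam hP').diff hz)
      ((smap_up (P := fun x => 1 - P x) hf).diff ((smap_gam hP').maps hz))
    have a2 := F.pull_comp (om := τ') (hu.diff hz) ((smap_gam hP).diff (hu.maps hz))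
    exact a1.trans a2.symm
  have e2 : F.pull (nbet (fun y => P (f y))) (F.pull (up f) om) (y, h) =
      F.pull (up f) (F.pull (nbet P) om) (y, h) := by
    have a1 := F.pull_comp (om := om) ((smap_nbet hP').diff hz)
      ((smap_up (P := P) hf).diff ((smap_nbet hP').maps hz))
    have a2 := F.pull_comp (om := om) (hu.diff hz) ((smap_nbet hP).diff (hu.maps hz))
    exact a1.trans a2.symm
  change cH _ _ (F.pull (gam (fun y => P (f y))) (F.pull (up f) τ') (y, h) *
    F.pull (nbet (fun y => P (f y))) (F.pull (up f) om) (y, h)) =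
    cH _ _ (F.pull (up f) (thE' P τ' om) (y, h))
  rw [e1, e2, thE', pull_mul']
  rfl

end change

section thomzs
universe u w
variable {E : Type u} {H : Type w} [NormedAddCommGroup E] [NormedSpace ℝ E] [FiniteDimensional ℝ E]
  [NormedAddCommGroup H] [InnerProductSpace ℝ H] [FiniteDimensional ℝ H]
  [MeasurableSpace H] [BorelSpace H] (μ : Measure H) [μ.IsAddHaarMeasure]
  {X : Set E} {P : E → H →L[ℝ] H} {r d : ℕ} {R c₀ : ℝ} {e : E → Ext E}
  {τ τ' om : E × H → Ext (E × H)}

/-- **Thom lemma on the zero section** -/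
theorem thom_zs (hX : Sub d X) (hP : PField X r P) (hT : ThomPair μ X P r R c₀ e τ τ')
    (hR : 0 ≤ R) (hω : CSF X P R om) :
    Coh X (c₀ • F.pull zs om) (push μ P τ' om * e) := by
  obtain ⟨sc, cc, L, sL, -, eL⟩ := thom μ hX hP hT hR hω
  set c' := pI μ (thE' P τ' om) with hc'
  have k1 : Coh (Tot X P) (c₀ • om) (F.pull Prod.fst c' * τ) := ⟨L, sL, eL⟩
  have k2 := k1.pull (smap_zs (X := X) (P := P))
  rw [pull_smul', pull_mul'] at k2
  have k4 : Eqv X (F.pull zs (F.pull (Prod.fst : E × H → E) c')) c' :=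
    (eqv_pull_pull smap_zs (smap_fst' (X := X) (P := P)) (SMap.id X) (fun _ _ => rfl) c').trans
      (Eqv.of_eq fun x _ => F.pull_id c' x)
  exact k2.trans (Coh.of_eqv (k4.mul hT.zero))

end thomzs

end Crest.Agent.R208.TP
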