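import Crest.Agent.R208.CM3
import Crest.Agent.R208.CM4b
import Crest.Agent.R208.TP2

/-! Row 208, block TP (helper382).  TP3: quotient maps of circle actions (abstract), descent of
basic forms, total spaces. -/

set_option autoImplicit false
set_option linter.unusedSectionVars false
set_option linter.unusedVariables false

open MeasureTheory Set Filter Topology Module
open scoped ContDiff RealInnerProductSpace
open Crest.Agent.R208.F Crest.Agent.R208.FI Crest.Agent.R208.CW Crest.Agent.R208.T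
open Crest.Agent.R208.CM

noncomputable section

namespace Crest.Agent.R208.TP

section qm
variable {E E' : Type*} [NormedAddCommGroup E] [NormedSpace ℝ E] [FiniteDimensional ℝ E]
  [NormedAddCommGroup E'] [NormedSpace ℝ E'] [FiniteDimensional ℝ E']
  {X : Set E} {Y : Set E'} {φ : ℝ → E → E} {q : E → E'}

/-- `q : X → Y` is the quotient map of the circle action `φ`, with smooth local sections -/
structure QM (X : Set E) (φ : ℝ → E → E) (Y : Set E') (q : E → E') : Prop where
  smap : SMap X Y q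
  act : ∀ x ∈ X, ∀ t, q (φ t x) = q x
  sep : ∀ x ∈ X, ∀ y ∈ X, q x = q y → ∃ t, y = φ t x
  ker : ∀ x ∈ X, ∀ v ∈ Tan X x, fderiv ℝ q x v = 0 → ∃ c : ℝ, v = c • gen φ x
  sec : ∀ x ∈ X, ∃ (σ : E' → E) (O' : Set E'), IsOpen O' ∧ q x ∈ O' ∧ ContDiffOn ℝ ∞ σ O' ∧
    (∀ y ∈ O', σ y ∈ X) ∧ (∀ y ∈ Y ∩ O', q (σ y) = y) ∧ σ (q x) = x
  surj : ∀ y ∈ Y, ∃ x ∈ X, q x = y
  clos : IsClosed Y

namespace QM

theorem tan (hq : QM X φ Y q) {x : E} (hx : x ∈ X) :
    Tan Y (q x) ≤ (Tan X x).map (fderiv ℝ q x : E →ₗ[ℝ] E') := by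
  obtain ⟨σ, O', a1, a2, a3, a5, a6, a4⟩ := hq.sec x hx
  have hσd : HasFDerivAt σ (fderiv ℝ σ (q x)) (q x) :=
    ((a3.contDiffAt (a1.mem_nhds a2)).differentiableAt (by simp)).hasFDerivAt
  have hqd : HasFDerivAt q (fderiv ℝ q x) (σ (q x)) := by
    rw [a4]; exact (hq.smap.diff hx).hasFDerivAt
  have hcomp : HasFDerivAt (fun z => q (σ z)) ((fderiv ℝ q x).comp (fderiv ℝ σ (q x))) (q x) :=
    HasFDerivAt.comp (g := q) (f := σ) (q x) hqd hσd
  intro w hw
  have e1 := fderiv_eq_of_eqOn (X := Y) (f := fun z => q (σ z)) (g := fun z => z)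
    hcomp.differentiableAt differentiableAt_id (by
      filter_upwards [nhdsWithin_le_nhds (a1.mem_nhds a2), self_mem_nhdsWithin] with z hz hzY
      exact a6 _ ⟨hzY, hz⟩) hw
  rw [hcomp.fderiv] at e1
  have e2 : fderiv ℝ (fun z : E' => z) (q x) w = w := by
    rw [fderiv_fun_id]; rfl
  rw [e2] at e1
  refine ⟨fderiv ℝ σ (q x) w, ?_, e1⟩
  have h3 := fderiv_mem_Tan (X := X) (h := σ) (y := q x) hσd.differentiableAt (by
    filter_upwards [a1.mem_nhds a2] with z hz using a5 _ hz) w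
  rw [a4] at h3
  exact h3

/-- forms on the quotient are determined by their pull-backs, pointwise -/
theorem pt_of_pull (hq : QM X φ Y q) {x : E} (hx : x ∈ X) {c c' : Ext E'}
    (h : pb (Tan X x).subtype (pb (fderiv ℝ q x : E →ₗ[ℝ] E') c) =
      pb (Tan X x).subtype (pb (fderiv ℝ q x : E →ₗ[ℝ] E') c')) :
    pb (Tan Y (q x)).subtype c = pb (Tan Y (q x)).subtype c' := by
  have hmem : ∀ v : Tan X x, fderiv ℝ q x v ∈ Tan Y (q x) := fun v =>
    fderiv_mapsTo_Tan (hq.smap.diff hx) (fun z hz => hq.smap.maps hz) v.2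
  let A : Tan X x →ₗ[ℝ] Tan Y (q x) :=
    (((fderiv ℝ q x : E →L[ℝ] E') : E →ₗ[ℝ] E') ∘ₗ (Tan X x).subtype).codRestrict _ hmem
  have hA : Function.Surjective A := by
    rintro ⟨w, hw⟩
    obtain ⟨v, hv, rfl⟩ := hq.tan hx hw
    exact ⟨⟨v, hv⟩, rfl⟩
  apply pb_injective hA
  rw [pb_comp, pb_comp] at h
  rw [pb_comp, pb_comp]
  exact h

theorem eqv_of_pull (hq : QM X φ Y q) {a b : E' → Ext E'}
    (h : Eqv X (F.pull q a) (F.pull q b)) : Eqv Y a b := by
  refine eqv_iff.2 fun y hy => ?_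
  obtain ⟨x, hx, rfl⟩ := hq.surj y hy
  exact hq.pt_of_pull hx (eqv_iff.1 h x hx)

theorem cl_of_pull (hq : QM X φ Y q) {a : E' → Ext E'} (ha : Sm Y a) (hab : Cl X (F.pull q a)) :
    Cl Y a := by
  rw [Cl, resZero_iff] at hab ⊢
  refine hq.eqv_of_pull ?_
  rw [pull_zero']
  exact (d_pull_eqv hq.smap ha).symm.trans hab

/-- **descent of basic forms** -/
theorem exists_basic (hq : QM X φ Y q) (h : Cir X φ) {om : E → Ext E}
    (hs : Sm X om) (hinv : ∀ t, Eqv X (F.pull (φ t) om) om)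
    (hor : Eqv X (fun x => ii (gen φ x) (om x)) 0) :
    ∃ om' : E' → Ext E', ContDiff ℝ ∞ om' ∧ Eqv X (F.pull q om') om := by
  have hinv' : ∀ x ∈ X, ∀ t, pb (Tan X x).subtype (F.pull (φ t) om x) =
      pb (Tan X x).subtype (om x) := fun x hx t => eqv_iff.1 (hinv t) x hx
  have hor' : ∀ x ∈ X, pb (Tan X x).subtype (ii (gen φ x) (om x)) = 0 := fun x hx => by
    have := eqv_iff.1 hor x hx
    rw [this]; exact map_zero _
  suffices hk : ∃ s : E' → Ext E', ContDiff ℝ ∞ s ∧
      ∀ y ∈ Y, s y ∈ {c : Ext E' | ∀ x ∈ X, q x = y →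
        pb (Tan X x).subtype (pb (fderiv ℝ q x : E →ₗ[ℝ] E') c) =
          pb (Tan X x).subtype (om x)} by
    obtain ⟨s, hs', hsA⟩ := hk
    exact ⟨s, hs', eqv_iff.2 fun x hx => hsA _ (hq.smap.maps hx) x hx rfl⟩
  refine exists_glueC (X := Y) hq.clos
    (fun y => {c : Ext E' | ∀ x ∈ X, q x = y →
      pb (Tan X x).subtype (pb (fderiv ℝ q x : E →ₗ[ℝ] E') c) =
        pb (Tan X x).subtype (om x)}) (fun y hy => ?_) (fun y hy => ?_)
  · have : {c : Ext E' | ∀ x ∈ X, q x = y →
        pb (Tan X x).subtype (pb (fderiv ℝ q x : E →ₗ[ℝ] E') c) =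
          pb (Tan X x).subtype (om x)} = ⋂ x ∈ {x ∈ X | q x = y},
        (((pb (Tan X x).subtype : Ext E →ₐ[ℝ] Ext (Tan X x)).toLinearMap ∘ₗ
          (pb (fderiv ℝ q x : E →ₗ[ℝ] E') : Ext E' →ₐ[ℝ] Ext E).toLinearMap) ⁻¹'
            {pb (Tan X x).subtype (om x)}) := by
      ext w
      simp only [mem_setOf_eq, mem_iInter]
      exact ⟨fun h x hx => h x hx.1 hx.2, fun h x hx hxy => h x ⟨hx, hxy⟩⟩
    rw [this]
    exact convex_iInter₂ fun x hx => (convex_singleton _).linear_preimage _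
  · obtain ⟨x, hx, rfl⟩ := hq.surj y hy
    obtain ⟨σ, O', a1, a2, a3, a5, a6, a4⟩ := hq.sec x hx
    refine ⟨O', F.pull σ om, a1, a2, fun y hy => ContDiffAt.contDiffWithinAt ?_, ?_⟩
    · exact contDiffAt_pull (a3.contDiffAt (a1.mem_nhds hy)) (by simp) (hs _ (a5 y hy))
    · rintro y ⟨hyQ, hyO⟩ x' hx' rfl
      have hσX := a5 _ hyO
      obtain ⟨t, ht⟩ := hq.sep x' hx' _ hσX (by rw [a6 _ ⟨hyQ, hyO⟩])
      -- the two tangent maps
      have hσd : HasFDerivAt σ (fderiv ℝ σ (q x')) (q x') :=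
        ((a3.contDiffAt (a1.mem_nhds hyO)).differentiableAt (by simp)).hasFDerivAt
      have hjd : HasFDerivAt q (fderiv ℝ q x') x' := (hq.smap.diff hx').hasFDerivAt
      have hφd : HasFDerivAt (φ t) (fderiv ℝ (φ t) x') x' :=
        ((h.smooth_right t hx').differentiableAt (by simp)).hasFDerivAt
      have hjd2 : HasFDerivAt q (fderiv ℝ q (φ t x')) (φ t x') :=
        (hq.smap.diff (h.maps t hx')).hasFDerivAt
      have hσj : HasFDerivAt (fun z => σ (q z))
          ((fderiv ℝ σ (q x')).comp (fderiv ℝ q x')) x' :=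
        HasFDerivAt.comp (g := σ) (f := q) x' hσd hjd
      have hjφ : HasFDerivAt (fun z => q (φ t z))
          ((fderiv ℝ q (φ t x')).comp (fderiv ℝ (φ t) x')) x' :=
        HasFDerivAt.comp (g := q) (f := φ t) x' hjd2 hφd
      have hjO : ∀ᶠ z in 𝓝 x', q z ∈ O' :=
        (hq.smap.smooth x' hx').continuousAt.eventually (a1.mem_nhds hyO)
      have hA : ∀ v ∈ Tan X x', fderiv ℝ σ (q x') (fderiv ℝ q x' v) ∈ Tan X (φ t x') := by
        intro v hv
        have e1 : fderiv ℝ (fun z => σ (q z)) x' v = fderiv ℝ σ (q x') (fderiv ℝ q x' v) := by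
          rw [hσj.fderiv]; rfl
        rw [← e1, ← ht]
        refine fderiv_mem_Tan (h := fun z => σ (q z)) hσj.differentiableAt ?_ v
        filter_upwards [hjO] with z hz using a5 _ hz
      have hB : ∀ v ∈ Tan X x', fderiv ℝ (φ t) x' v ∈ Tan X (φ t x') := fun v hv =>
        fderiv_mapsTo_Tan hφd.differentiableAt (fun z hz => h.maps t hz) hv
      set A : Tan X x' →ₗ[ℝ] Tan X (φ t x') :=
        LinearMap.codRestrict _ (((fderiv ℝ σ (q x') : E' →ₗ[ℝ] E) ∘ₗ
          (fderiv ℝ q x' : E →ₗ[ℝ] E')) ∘ₗ (Tan X x').subtype) (fun v => hA v v.2) with hAd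
      set B : Tan X x' →ₗ[ℝ] Tan X (φ t x') :=
        LinearMap.codRestrict _ ((fderiv ℝ (φ t) x' : E →ₗ[ℝ] E) ∘ₗ (Tan X x').subtype)
          (fun v => hB v v.2) with hBd
      have hAs : (Tan X (φ t x')).subtype ∘ₗ A = ((fderiv ℝ σ (q x') : E' →ₗ[ℝ] E) ∘ₗ
          (fderiv ℝ q x' : E →ₗ[ℝ] E')) ∘ₗ (Tan X x').subtype := by
        rw [hAd]; rfl
      have hBs : (Tan X (φ t x')).subtype ∘ₗ B =
          (fderiv ℝ (φ t) x' : E →ₗ[ℝ] E) ∘ₗ (Tan X x').subtype := by
        rw [hBd]; rfl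
      have key : pb A (pb (Tan X (φ t x')).subtype (om (φ t x'))) =
          pb B (pb (Tan X (φ t x')).subtype (om (φ t x'))) := by
        refine pb_eq_of_sub_mem A B ⟨gen φ (φ t x'), h.gen_mem (h.maps t hx')⟩ _ ?_ ?_
        · rw [ii_pb]
          exact hor' _ (h.maps t hx')
        · intro v
          have h1 : ((A v : E) - (B v : E)) ∈ Tan X (φ t x') :=
            (Tan X (φ t x')).sub_mem (A v).2 (B v).2
          have h2 : fderiv ℝ q (φ t x') ((A v : E) - (B v : E)) = 0 := by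
            rw [map_sub]
            have e1 : fderiv ℝ q (φ t x') (B v : E) = fderiv ℝ q x' v := by
              have := fderiv_eq_of_eqOn (X := X) (f := fun z => q (φ t z)) (g := q)
                hjφ.differentiableAt
                hjd.differentiableAt (eventually_nhdsWithin_of_forall fun z hz => hq.act z hz t)
                v.2
              rw [hjφ.fderiv] at this
              exact this
            have e2 : fderiv ℝ q (φ t x') (A v : E) = fderiv ℝ q x' v := by
              have hjd3 : HasFDerivAt q (fderiv ℝ q (φ t x')) (σ (q x')) := by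
                rw [ht]; exact hjd2
              have hcomp : HasFDerivAt (fun z => q (σ (q z)))
                  ((fderiv ℝ q (φ t x')).comp
                    ((fderiv ℝ σ (q x')).comp (fderiv ℝ q x'))) x' :=
                HasFDerivAt.comp (g := q) (f := fun z => σ (q z)) x' hjd3 hσj
              have := fderiv_eq_of_eqOn (X := X) (f := fun z => q (σ (q z))) (g := q)
                hcomp.differentiableAt hjd.differentiableAt (by
                  filter_upwards [nhdsWithin_le_nhds hjO, self_mem_nhdsWithin] with z hz hzX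
                  exact a6 _ ⟨hq.smap.maps hzX, hz⟩) v.2
              rw [hcomp.fderiv] at this
              exact this
            rw [e1, e2, sub_self]
          obtain ⟨c, hc⟩ := hq.ker _ (h.maps t hx') _ h1 h2
          exact ⟨c, Subtype.ext hc⟩
      rw [pb_comp, pb_comp, hAs, hBs] at key
      rw [← hinv' x' hx' t]
      change pb (Tan X x').subtype (pb (fderiv ℝ q x' : E →ₗ[ℝ] E')
        (pb (fderiv ℝ σ (q x') : E' →ₗ[ℝ] E) (om (σ (q x'))))) =
        pb (Tan X x').subtype (pb (fderiv ℝ (φ t) x' : E →ₗ[ℝ] E) (om (φ t x')))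
      rw [pb_comp, pb_comp, pb_comp, ht]
      exact key

end QM

end qm

section emb
variable {E : Type} [NormedAddCommGroup E] [NormedSpace ℝ E] [FiniteDimensional ℝ E]
  {X : Set E} {φ : ℝ → E → E} {m : ℕ} {g : E → Fin m → ℂ} {n : ℕ}

/-- the quotient map of 971 -/
theorem qm_jj (hg : Emb X φ g) (h : Cir X φ) (hX : Clo (n + 1) X) :
    QM X φ (Quo X g) (jj g) where
  smap := hg.smap_jj
  act := fun x hx t => hg.jj_act hx t
  sep := fun x hx y hy hxy => (hg.jj_eq_iff hx hy).1 hxy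
  ker := fun x hx v hv h0 => (hg.ker_jj h hx hv).1 h0
  sec := fun x hx => by
    obtain ⟨σ, O', a1, a2, a3, a4, a5, a6⟩ := hg.exists_sec h hX hx
    exact ⟨σ, O', a1, a2, a3, a5, a6, a4⟩
  surj := fun _ hy => hy
  clos := (hg.isCompact_Quo hX.compact).isClosed

end emb

end Crest.Agent.R208.TP
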