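import Crest.Agent.R208.TPL2
import Crest.Agent.R208.CM3

/-! Row 208, block TP (helper382).  TPL3: open embeddings of submanifolds; extension of forms by
zero. -/

set_option autoImplicit false
set_option linter.unusedSectionVars false
set_option linter.unusedVariables false
set_option maxHeartbeats 1000000

open MeasureTheory Set Filter Topology Module
open scoped ContDiff
open Crest.Agent.R208.F Crest.Agent.R208.FI Crest.Agent.R208.CW Crest.Agent.R208.T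
open Crest.Agent.R208.CM

noncomputable section

namespace Crest.Agent.R208.TP

section oe
variable {E E' : Type*} [NormedAddCommGroup E] [NormedSpace ℝ E] [FiniteDimensional ℝ E]
  [NormedAddCommGroup E'] [NormedSpace ℝ E'] [FiniteDimensional ℝ E']
  {Z : Set E} {K : Set E'} {Ψ : E → E'} {m : ℕ}

/-- `Ψ : Z → K` is an open embedding -/
structure OE (Z : Set E) (K : Set E') (Ψ : E → E') : Prop where
  smap : SMap Z K Ψ
  inj : InjOn Ψ Z
  sec : ∀ z ∈ Z, ∃ (σ : E' → E) (O : Set E'), IsOpen O ∧ Ψ z ∈ O ∧ ContDiffOn ℝ ∞ σ O ∧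
    (∀ y ∈ O, σ y ∈ Z) ∧ (∀ y ∈ K ∩ O, Ψ (σ y) = y) ∧ σ (Ψ z) = z

/-- injective immersions between submanifolds of the same dimension are open embeddings -/
theorem OE.of_immersion (hZ : Sub m Z) (hK : Sub m K) (hs : SMap Z K Ψ) (hi : InjOn Ψ Z)
    (hd : ∀ z ∈ Z, ∀ v ∈ Tan Z z, fderiv ℝ Ψ z v = 0 → v = 0) : OE Z K Ψ := by
  refine ⟨hs, hi, fun z hz => ?_⟩
  obtain ⟨f, W, hf, u, hu, rfl⟩ := hZ z hz
  obtain ⟨g, WK, OK, ℓ, hL, hkO⟩ := hK.exists_loc (hs.maps hz)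
  have hcf : ContinuousOn (fun u => Ψ (f u)) W := fun v hv =>
    ((hs.smooth _ (hf.mem hv)).continuousAt.comp (f := f)
      (hf.contDiffAt hv).continuousAt).continuousWithinAt
  set W' := W ∩ (fun u => Ψ (f u)) ⁻¹' OK with hW'
  have hW'o : IsOpen W' := hcf.isOpen_inter_preimage hf.isOpen hL.oO
  have hu' : u ∈ W' := ⟨hu, hkO⟩
  have hfd := (hf.differentiableAt hu).hasFDerivAt
  have hΨd := (hs.diff hz).hasFDerivAt
  have hℓd : HasFDerivAt ℓ (fderiv ℝ ℓ (Ψ (f u))) (Ψ (f u)) :=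
    ((hL.lC' hkO).differentiableAt (by simp)).hasFDerivAt
  have hTs : ∀ v ∈ W', ContDiffAt ℝ ∞ (fun u => ℓ (Ψ (f u))) v := fun v hv =>
    (hL.lC' hv.2).comp (f := fun u => Ψ (f u)) v
      ((hs.smooth _ (hf.mem hv.1)).comp (f := f) v (hf.contDiffAt hv.1))
  have hTd : HasFDerivAt (fun u => ℓ (Ψ (f u)))
      ((fderiv ℝ ℓ (Ψ (f u))).comp ((fderiv ℝ Ψ (f u)).comp (fderiv ℝ f u))) u :=
    HasFDerivAt.comp (g := ℓ) (f := fun u => Ψ (f u)) u hℓd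
      (HasFDerivAt.comp (g := Ψ) (f := f) u hΨd hfd)
  have hinj : Function.Injective (fderiv ℝ (fun u => ℓ (Ψ (f u))) u) := by
    rw [hTd.fderiv]
    refine (injective_iff_map_eq_zero _).2 fun v hv => ?_
    have h1 : fderiv ℝ f u v ∈ Tan Z (f u) := hf.fderiv_mem hu v
    have h2 : fderiv ℝ Ψ (f u) (fderiv ℝ f u v) ∈ Tan K (Ψ (f u)) :=
      fderiv_mapsTo_Tan (hs.diff hz) (fun y hy => hs.maps hy) h1
    have h3 : fderiv ℝ Ψ (f u) (fderiv ℝ f u v) = 0 := by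
      have hgd : HasFDerivAt g (fderiv ℝ g (ℓ (Ψ (f u)))) (ℓ (Ψ (f u))) :=
        ((hL.fC' (hL.maps _ hkO)).differentiableAt (by simp)).hasFDerivAt
      have hgl := HasFDerivAt.comp (g := g) (f := ℓ) (Ψ (f u)) hgd hℓd
      have h4 := fderiv_eq_of_eqOn (X := K) (f := fun y => g (ℓ y)) (g := fun y => y)
        hgl.differentiableAt differentiableAt_id (by
          filter_upwards [nhdsWithin_le_nhds (hL.oO.mem_nhds hkO), self_mem_nhdsWithin] with y hy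
            hyK
          exact hL.right_inv hyK hy) h2
      have h5 : fderiv ℝ (fun y => g (ℓ y)) (Ψ (f u)) = (fderiv ℝ g (ℓ (Ψ (f u)))).comp
        (fderiv ℝ ℓ (Ψ (f u))) := hgl.fderiv
      rw [h5, fderiv_fun_id] at h4
      have h6 : fderiv ℝ ℓ (Ψ (f u)) (fderiv ℝ Ψ (f u) (fderiv ℝ f u v)) = 0 := hv
      have h7 : fderiv ℝ g (ℓ (Ψ (f u))) (fderiv ℝ ℓ (Ψ (f u)) (fderiv ℝ Ψ (f u)
        (fderiv ℝ f u v))) = fderiv ℝ Ψ (f u) (fderiv ℝ f u v) := h4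
      rw [h6, map_zero] at h7
      exact h7.symm
    have h8 := hd _ hz _ h1 h3
    exact hf.inj u hu (by rw [h8, map_zero])
  obtain ⟨τ, W₁, b1, b2, b3, b4, b5, b6, -, -, -⟩ := exists_local_inverse hW'o hTs hu' hinj
  refine ⟨fun y => f (τ (ℓ y)), OK ∩ ℓ ⁻¹' W₁,
    hL.lC.continuousOn.isOpen_inter_preimage hL.oO b1, ⟨hkO, b2⟩, ?_, ?_, ?_, ?_⟩
  · rintro y ⟨hy, hy1⟩
    exact ((hf.contDiffAt (b4 hy1).1).comp (f := fun y => τ (ℓ y)) y
      ((b6 _ hy1).comp (f := ℓ) y (hL.lC' hy))).contDiffWithinAt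
  · rintro y ⟨hy, hy1⟩
    exact hf.mem (b4 hy1).1
  · rintro y ⟨hyK, hy, hy1⟩
    have h1 := b4 hy1
    have h2 : ℓ (Ψ (f (τ (ℓ y)))) = ℓ y := b5 _ hy1
    have h3 : Ψ (f (τ (ℓ y))) ∈ K := hs.maps (hf.mem h1.1)
    rw [← hL.right_inv h3 h1.2, h2, hL.right_inv hyK hy]
  · change f (τ (ℓ (Ψ (f u)))) = f u
    rw [show τ (ℓ (Ψ (f u))) = u from b3]

namespace OE

theorem tan (hΨ : OE Z K Ψ) {z : E} (hz : z ∈ Z) :
    Tan K (Ψ z) ≤ (Tan Z z).map (fderiv ℝ Ψ z : E →ₗ[ℝ] E') := by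
  obtain ⟨σ, O', a1, a2, a3, a5, a6, a4⟩ := hΨ.sec z hz
  have hσd : HasFDerivAt σ (fderiv ℝ σ (Ψ z)) (Ψ z) :=
    ((a3.contDiffAt (a1.mem_nhds a2)).differentiableAt (by simp)).hasFDerivAt
  have hqd : HasFDerivAt Ψ (fderiv ℝ Ψ z) (σ (Ψ z)) := by
    rw [a4]; exact (hΨ.smap.diff hz).hasFDerivAt
  have hcomp : HasFDerivAt (fun y => Ψ (σ y)) ((fderiv ℝ Ψ z).comp (fderiv ℝ σ (Ψ z))) (Ψ z) :=
    HasFDerivAt.comp (g := Ψ) (f := σ) (Ψ z) hqd hσd
  intro w hw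
  have e1 := fderiv_eq_of_eqOn (X := K) (f := fun y => Ψ (σ y)) (g := fun y => y)
    hcomp.differentiableAt differentiableAt_id (by
      filter_upwards [nhdsWithin_le_nhds (a1.mem_nhds a2), self_mem_nhdsWithin] with y hy hyK
      exact a6 _ ⟨hyK, hy⟩) hw
  rw [hcomp.fderiv, fderiv_fun_id] at e1
  refine ⟨fderiv ℝ σ (Ψ z) w, ?_, e1⟩
  have h3 := fderiv_mem_Tan (X := Z) (h := σ) (y := Ψ z) hσd.differentiableAt (by
    filter_upwards [a1.mem_nhds a2] with y hy using a5 _ hy) w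
  rw [a4] at h3
  exact h3

/-- forms on the image are determined by their pull-backs, pointwise -/
theorem pt_of_pull (hΨ : OE Z K Ψ) {z : E} (hz : z ∈ Z) {c c' : Ext E'}
    (h : pb (Tan Z z).subtype (pb (fderiv ℝ Ψ z : E →ₗ[ℝ] E') c) =
      pb (Tan Z z).subtype (pb (fderiv ℝ Ψ z : E →ₗ[ℝ] E') c')) :
    pb (Tan K (Ψ z)).subtype c = pb (Tan K (Ψ z)).subtype c' := by
  have hmem : ∀ v : Tan Z z, fderiv ℝ Ψ z v ∈ Tan K (Ψ z) := fun v =>
    fderiv_mapsTo_Tan (hΨ.smap.diff hz) (fun z hz => hΨ.smap.maps hz) v.2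
  let A : Tan Z z →ₗ[ℝ] Tan K (Ψ z) :=
    (((fderiv ℝ Ψ z : E →L[ℝ] E') : E →ₗ[ℝ] E') ∘ₗ (Tan Z z).subtype).codRestrict _ hmem
  have hA : Function.Surjective A := by
    rintro ⟨w, hw⟩
    obtain ⟨v, hv, rfl⟩ := hΨ.tan hz hw
    exact ⟨⟨v, hv⟩, rfl⟩
  apply pb_injective hA
  rw [pb_comp, pb_comp] at h
  rw [pb_comp, pb_comp]
  exact h

theorem eqv_of_pull (hΨ : OE Z K Ψ) {a b : E' → Ext E'} (h : Eqv Z (F.pull Ψ a) (F.pull Ψ b))
    (h' : ∀ k ∈ K, k ∉ Ψ '' Z → pb (Tan K k).subtype (a k) = pb (Tan K k).subtype (b k)) :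
    Eqv K a b := by
  refine eqv_iff.2 fun k hk => ?_
  by_cases hkZ : k ∈ Ψ '' Z
  · obtain ⟨z, hz, rfl⟩ := hkZ
    exact hΨ.pt_of_pull hz (eqv_iff.1 h z hz)
  · exact h' k hk hkZ

/-- **extension by zero** -/
theorem exists_ext (hΨ : OE Z K Ψ) (hK : IsClosed K) {C : Set E} (hC : IsCompact C)
    (hCZ : C ⊆ Z) {a : E → Ext E} (ha : Sm Z a)
    (h0 : ∀ z ∈ Z, z ∉ C → pb (Tan Z z).subtype (a z) = 0) :
    ∃ a' : E' → Ext E', ContDiff ℝ ∞ a' ∧ Eqv Z (F.pull Ψ a') a ∧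
      ∀ k ∈ K, k ∉ Ψ '' C → pb (Tan K k).subtype (a' k) = 0 := by
  set A : E' → Set (Ext E') := fun k => {c | (∀ z ∈ Z, Ψ z = k →
    pb (Tan Z z).subtype (pb (fderiv ℝ Ψ z : E →ₗ[ℝ] E') c) = pb (Tan Z z).subtype (a z)) ∧
      (k ∉ Ψ '' C → pb (Tan K k).subtype c = 0)} with hA
  have hΨC : IsClosed (Ψ '' C) := (hC.image_of_continuousOn fun z hz =>
    (hΨ.smap.smooth z (hCZ hz)).continuousAt.continuousWithinAt).isClosed
  suffices hk : ∃ s : E' → Ext E', ContDiff ℝ ∞ s ∧ ∀ k ∈ K, s k ∈ A k by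
    obtain ⟨s, hs, hsA⟩ := hk
    exact ⟨s, hs, eqv_iff.2 fun z hz => (hsA _ (hΨ.smap.maps hz)).1 z hz rfl,
      fun k hk hkC => (hsA k hk).2 hkC⟩
  refine exists_glueC (X := K) hK A (fun k hk => ?_) (fun k hk => ?_)
  · intro c hc c' hc' s t hs ht hst
    refine ⟨fun z hz hzk => ?_, fun hkC => ?_⟩
    · rw [map_add, map_add, map_smul, map_smul, map_smul, map_smul, hc.1 z hz hzk,
        hc'.1 z hz hzk, ← add_smul, hst, one_smul]
    · rw [map_add, map_smul, map_smul, hc.2 hkC, hc'.2 hkC, smul_zero, smul_zero, add_zero]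
  · by_cases hkZ : k ∈ Ψ '' Z
    · obtain ⟨z₀, hz₀, rfl⟩ := hkZ
      obtain ⟨σ, O', a1, a2, a3, a5, a6, a4⟩ := hΨ.sec z₀ hz₀
      refine ⟨O', F.pull σ a, a1, a2, fun y hy => ContDiffAt.contDiffWithinAt ?_, ?_⟩
      · exact contDiffAt_pull (a3.contDiffAt (a1.mem_nhds hy)) (by simp) (ha _ (a5 y hy))
      · rintro y ⟨hyK, hyO⟩
        refine ⟨?_, fun hyC => ?_⟩
        · rintro z hz rfl
          have hσz : σ (Ψ z) = z := hΨ.inj (a5 _ hyO) hz (a6 _ ⟨hyK, hyO⟩)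
          have hσd : HasFDerivAt σ (fderiv ℝ σ (Ψ z)) (Ψ z) :=
            ((a3.contDiffAt (a1.mem_nhds hyO)).differentiableAt (by simp)).hasFDerivAt
          have hΨd := (hΨ.smap.diff hz).hasFDerivAt
          have hcomp : HasFDerivAt (fun y => σ (Ψ y)) ((fderiv ℝ σ (Ψ z)).comp (fderiv ℝ Ψ z)) z :=
            HasFDerivAt.comp (g := σ) (f := Ψ) z hσd hΨd
          have hO : ∀ᶠ y in 𝓝 z, Ψ y ∈ O' :=
            (hΨ.smap.smooth z hz).continuousAt.eventually (a1.mem_nhds hyO)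
          have e1 : ∀ v ∈ Tan Z z, fderiv ℝ σ (Ψ z) (fderiv ℝ Ψ z v) = v := by
            intro v hv
            have := fderiv_eq_of_eqOn (X := Z) (f := fun y => σ (Ψ y)) (g := fun y => y)
              hcomp.differentiableAt differentiableAt_id (by
                filter_upwards [nhdsWithin_le_nhds hO, self_mem_nhdsWithin] with y hy hyZ
                exact hΨ.inj (a5 _ hy) hyZ (a6 _ ⟨hΨ.smap.maps hyZ, hy⟩)) hv
            rw [hcomp.fderiv, fderiv_fun_id] at this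
            exact this
          have e2 : ((fderiv ℝ σ (Ψ z) : E' →ₗ[ℝ] E) ∘ₗ (fderiv ℝ Ψ z : E →ₗ[ℝ] E')) ∘ₗ
              (Tan Z z).subtype = (Tan Z z).subtype := by
            ext v; exact e1 v v.2
          rw [F.pull, pb_comp, pb_comp, ← LinearMap.comp_assoc, e2, hσz]
        · have hzC : σ y ∉ C := fun h => hyC ⟨σ y, h, a6 y ⟨hyK, hyO⟩⟩
          have hσd : DifferentiableAt ℝ σ y :=
            (a3.contDiffAt (a1.mem_nhds hyO)).differentiableAt (by simp)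
          have hmem : ∀ v : Tan K y, fderiv ℝ σ y v ∈ Tan Z (σ y) := fun v =>
            fderiv_mem_Tan (X := Z) (h := σ) (y := y) hσd (by
              filter_upwards [a1.mem_nhds hyO] with w hw using a5 _ hw) v
          let B : Tan K y →ₗ[ℝ] Tan Z (σ y) :=
            (((fderiv ℝ σ y : E' →L[ℝ] E) : E' →ₗ[ℝ] E) ∘ₗ (Tan K y).subtype).codRestrict _ hmem
          have hB : ((fderiv ℝ σ y : E' →L[ℝ] E) : E' →ₗ[ℝ] E) ∘ₗ (Tan K y).subtype
              = (Tan Z (σ y)).subtype ∘ₗ B := by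
            ext v; rfl
          rw [F.pull, pb_comp, hB, ← pb_comp, h0 _ (a5 y hyO) hzC, map_zero]
    · have hkC : k ∉ Ψ '' C := fun h => hkZ (image_mono hCZ h)
      refine ⟨(Ψ '' C)ᶜ, fun _ => 0, hΨC.isOpen_compl, hkC, contDiffOn_const, ?_⟩
      rintro y ⟨hyK, hyC⟩
      refine ⟨?_, fun _ => map_zero _⟩
      rintro z hz rfl
      rw [map_zero, map_zero, h0 z hz fun h => hyC ⟨z, h, rfl⟩]

end OE

end oe

end Crest.Agent.R208.TP
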