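import Crest.Agent.R208.AK5
import Crest.Agent.R208.KG9
import Crest.Agent.R208.TP2
import Crest.Agent.R208.SB3

/-!
Row 208, block TU (helper10), part TU1: the tube `Psi` from the total space of `P₂ ⊕ P₁` over `US`
into the nested sphere bundle `N4 h` (and the two-arc version): smoothness, values, injectivity,
injectivity of the derivative on the tangent spaces.
-/

set_option autoImplicit false
set_option linter.unusedSectionVars false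

open Set Filter Topology MeasureTheory
open scoped ContDiff RealInnerProductSpace Interval
open Crest.GeometryTopology.Submanifold
open Crest.Agent.R241.DDefs
open Crest.Agent.R241.D2
open Crest.Agent.R241.D3c
open Crest.Agent.R208.NN (V0 qq)
open Crest.Agent.R208.FV (PVB phi phi_mem PV_eq_self)
open Crest.Agent.R208.FI (Tan Sub Clo PField Tot)
open Crest.Agent.R208.KG (N2 N3 N4 nest4 nest2)
open Crest.Agent.R208.AK (nrm norm_nrm nrm_self contDiffAt_nrm norm_sq_add add_ne_zero' kap V0_inner)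

noncomputable section

namespace Crest.Agent.R208.TU

variable {n N k : ℕ} {κ : ℝ} {S : Set (Euc N)} {G : Geo n N κ S}

/-! ### the inverse of `u ↦ nrm (v + u)` -/

/-- inverse of `u ↦ nrm (v + u)` -/
def inv1 (v x : Euc N) : Euc N := (⟪x, v⟫ : ℝ)⁻¹ • x - v

lemma inner_nrm {v u : Euc N} (hv : ‖v‖ = 1) (hu : ⟪u, v⟫ = 0) :
    (⟪nrm (v + u), v⟫ : ℝ) = ‖v + u‖⁻¹ := by
  rw [nrm, real_inner_smul_left, inner_add_left, hu, real_inner_self_eq_norm_sq, hv]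
  ring

lemma inner_nrm_pos {v u : Euc N} (hv : ‖v‖ = 1) (hu : ⟪u, v⟫ = 0) :
    (0 : ℝ) < ⟪nrm (v + u), v⟫ := by
  rw [inner_nrm hv hu]
  exact inv_pos.2 (norm_pos_iff.2 (add_ne_zero' hv hu))

lemma inv1_nrm {v u : Euc N} (hv : ‖v‖ = 1) (hu : ⟪u, v⟫ = 0) : inv1 v (nrm (v + u)) = u := by
  have h0 : ‖v + u‖ ≠ 0 := norm_ne_zero_iff.2 (add_ne_zero' hv hu)
  rw [inv1, inner_nrm hv hu, inv_inv, nrm, smul_smul, mul_inv_cancel₀ h0, one_smul,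
    add_sub_cancel_left]

lemma contDiffAt_inv1 {v x : Euc N} (h : (⟪x, v⟫ : ℝ) ≠ 0) :
    ContDiffAt ℝ ∞ (fun p : Euc N × Euc N => inv1 p.1 p.2) (v, x) := by
  have h1 : ContDiffAt ℝ ∞ (fun p : Euc N × Euc N => (⟪p.2, p.1⟫ : ℝ)) (v, x) :=
    contDiffAt_snd.inner ℝ contDiffAt_fst
  exact ((h1.inv h).smul contDiffAt_snd).sub contDiffAt_fst

/-- functions which agree on `X` have the same derivative on the tangent space -/
theorem fderiv_eq_on {E F : Type*} [NormedAddCommGroup E] [NormedSpace ℝ E]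
    [NormedAddCommGroup F] [NormedSpace ℝ F] {X : Set E} {f g : E → F} {x : E}
    (hf : DifferentiableAt ℝ f x) (hg : DifferentiableAt ℝ g x) (h : ∀ y ∈ X, f y = g y) {v : E}
    (hv : v ∈ Tan X x) : fderiv ℝ f x v = fderiv ℝ g x v := by
  induction hv using Submodule.span_induction with
  | mem v hv =>
    obtain ⟨γ, h0, hγ, hX⟩ := hv
    subst h0
    have h1 : HasDerivAt (fun t => f (γ t)) (fderiv ℝ f (γ 0) v) 0 :=
      hf.hasFDerivAt.comp_hasDerivAt 0 hγ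
    have h2 : HasDerivAt (fun t => g (γ t)) (fderiv ℝ g (γ 0) v) 0 :=
      hg.hasFDerivAt.comp_hasDerivAt 0 hγ
    have h3 : (fun t => f (γ t)) =ᶠ[𝓝 0] fun t => g (γ t) := by
      filter_upwards [hX] with t h3 using h _ h3
    exact (h1.congr_of_eventuallyEq h3.symm).unique h2
  | zero => rw [map_zero, map_zero]
  | add x y _ _ hx hy => rw [map_add, map_add, hx, hy]
  | smul a x _ hx => rw [map_smul, map_smul, hx]

variable {H₁ H₂ : Type*} [NormedAddCommGroup H₁] [InnerProductSpace ℝ H₁] [FiniteDimensional ℝ H₁]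
  [NormedAddCommGroup H₂] [InnerProductSpace ℝ H₂] [FiniteDimensional ℝ H₂]
  {P₁ : Euc N × Euc N → H₁ →L[ℝ] H₁} {P₂ : Euc N × Euc N → H₂ →L[ℝ] H₂}

/-- linear map from the fibres of `P₂ ⊕ P₁` to `V₀³` (first entry zero), injective. -/
structure LinK (h : GT.Bla G k) (P₂ : Euc N × Euc N → H₂ →L[ℝ] H₂)
    (P₁ : Euc N × Euc N → H₁ →L[ℝ] H₁)
    (Lz : Euc N × Euc N → (H₂ × H₁) →L[ℝ] (Fin 4 → Euc N)) : Prop where
  smooth : ∀ z ∈ L.US G, ContDiffAt ℝ ∞ Lz z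
  mem : ∀ z ∈ L.US G, ∀ ζ : H₂ × H₁, P₂ z ζ.1 = ζ.1 → P₁ z ζ.2 = ζ.2 → ∀ i, Lz z ζ i ∈ V0 G z
  zero : ∀ z ∈ L.US G, ∀ ζ : H₂ × H₁, P₂ z ζ.1 = ζ.1 → P₁ z ζ.2 = ζ.2 → Lz z ζ 0 = 0
  inj : ∀ z ∈ L.US G, ∀ ζ : H₂ × H₁, P₂ z ζ.1 = ζ.1 → P₁ z ζ.2 = ζ.2 → Lz z ζ = 0 → ζ = 0

/-- the two-arc version, one field -/
structure LinK2 (h : GT.Bla G k) (P₁ : Euc N × Euc N → H₁ →L[ℝ] H₁)
    (Lz : Euc N × Euc N → H₁ →L[ℝ] (Fin 2 → Euc N)) : Prop where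
  smooth : ∀ z ∈ L.US G, ContDiffAt ℝ ∞ Lz z
  mem : ∀ z ∈ L.US G, ∀ ζ : H₁, P₁ z ζ = ζ → ∀ i, Lz z ζ i ∈ V0 G z
  zero : ∀ z ∈ L.US G, ∀ ζ : H₁, P₁ z ζ = ζ → Lz z ζ 0 = 0
  inj : ∀ z ∈ L.US G, ∀ ζ : H₁, P₁ z ζ = ζ → Lz z ζ = 0 → ζ = 0

variable {h : GT.Bla G k} {Lz : Euc N × Euc N → (H₂ × H₁) →L[ℝ] (Fin 4 → Euc N)}
  {L2 : Euc N × Euc N → H₁ →L[ℝ] (Fin 2 → Euc N)}

/-- entries of the linear map -/
def Li (Lz : Euc N × Euc N → (H₂ × H₁) →L[ℝ] (Fin 4 → Euc N))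
    (x : ((Euc N × Euc N) × H₂) × H₁) (i : Fin 4) : Euc N := Lz x.1.1 (x.1.2, x.2) i

/-- the tube around the diagonal -/
def Psi (Lz : Euc N × Euc N → (H₂ × H₁) →L[ℝ] (Fin 4 → Euc N))
    (x : ((Euc N × Euc N) × H₂) × H₁) : (((Euc N × Euc N) × Euc N) × Euc N) × Euc N :=
  (((x.1.1, nrm (x.1.1.2 + Li Lz x 1)), nrm (x.1.1.2 + Li Lz x 2)), nrm (x.1.1.2 + Li Lz x 3))

/-- the two-arc tube -/
def Psi2 (L2 : Euc N × Euc N → H₁ →L[ℝ] (Fin 2 → Euc N)) (x : (Euc N × Euc N) × H₁) :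
    (Euc N × Euc N) × Euc N := (x.1, nrm (x.1.2 + L2 x.1 x.2 1))

@[simp] lemma Psi_base (x : ((Euc N × Euc N) × H₂) × H₁) : (Psi Lz x).1.1.1 = x.1.1 := rfl

@[simp] lemma Psi2_base (x : (Euc N × Euc N) × H₁) : (Psi2 L2 x).1 = x.1 := rfl

lemma mem_TT {x : ((Euc N × Euc N) × H₂) × H₁} : x ∈ TP.TT (L.US G) P₂ P₁ ↔
    x.1.1 ∈ L.US G ∧ P₂ x.1.1 x.1.2 = x.1.2 ∧ P₁ x.1.1 x.2 = x.2 := by
  constructor
  · rintro ⟨⟨h1, h2⟩, h3⟩
    exact ⟨h1, h2, h3⟩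
  · rintro ⟨h1, h2, h3⟩
    exact ⟨⟨h1, h2⟩, h3⟩

namespace LinK

variable {x : ((Euc N × Euc N) × H₂) × H₁}

lemma Li_mem (hL : LinK h P₂ P₁ Lz) (hx : x ∈ TP.TT (L.US G) P₂ P₁) (i : Fin 4) :
    Li Lz x i ∈ V0 G x.1.1 := by
  rw [mem_TT] at hx
  exact hL.mem _ hx.1 (x.1.2, x.2) hx.2.1 hx.2.2 i

lemma Li_zero (hL : LinK h P₂ P₁ Lz) (hx : x ∈ TP.TT (L.US G) P₂ P₁) : Li Lz x 0 = 0 := by
  rw [mem_TT] at hx
  exact hL.zero _ hx.1 (x.1.2, x.2) hx.2.1 hx.2.2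

lemma smooth_Lz (hL : LinK h P₂ P₁ Lz) (hx : x.1.1 ∈ L.US G) :
    ContDiffAt ℝ ∞ (fun x : ((Euc N × Euc N) × H₂) × H₁ => Lz x.1.1 (x.1.2, x.2)) x := by
  have h1 : ContDiffAt ℝ ∞ (fun x : ((Euc N × Euc N) × H₂) × H₁ => Lz x.1.1) x :=
    ContDiffAt.comp (g := Lz) (f := fun x : ((Euc N × Euc N) × H₂) × H₁ => x.1.1) x
      (hL.smooth _ hx) (by fun_prop)
  exact h1.clm_apply (by fun_prop)

lemma smooth_Li (hL : LinK h P₂ P₁ Lz) (hx : x.1.1 ∈ L.US G) (i : Fin 4) :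
    ContDiffAt ℝ ∞ (fun x => Li Lz x i) x :=
  contDiffAt_pi.1 (hL.smooth_Lz hx) i

/-- **(1)** smoothness -/
theorem smooth_Psi (hL : LinK h P₂ P₁ Lz) (hx : x ∈ TP.TT (L.US G) P₂ P₁) :
    ContDiffAt ℝ ∞ (Psi Lz) x := by
  have hz := (mem_TT.1 hx).1
  have key : ∀ i, ContDiffAt ℝ ∞ (fun x : ((Euc N × Euc N) × H₂) × H₁ =>
      nrm (x.1.1.2 + Li Lz x i)) x := fun i =>
    ContDiffAt.comp (g := (nrm : Euc N → Euc N))
      (f := fun x : ((Euc N × Euc N) × H₂) × H₁ => x.1.1.2 + Li Lz x i) x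
      (contDiffAt_nrm (add_ne_zero' hz.2 (V0_inner (hL.Li_mem hx i))))
      (ContDiffAt.add (by fun_prop) (hL.smooth_Li hz i))
  exact ((ContDiffAt.prodMk (by fun_prop) (key 1)).prodMk (key 2)).prodMk (key 3)

lemma qq_eq {z : Euc N × Euc N} (hz : z ∈ L.US G) : qq G z = Exp G z.1 (Real.pi • z.2) :=
  (Exp_smul G hz.1.1 hz.1.2 _).symm

/-- the link condition in the form of `N4` -/
lemma nrm_link (h : GT.Bla G k) {z : Euc N × Euc N} (hz : z ∈ L.US G) {u : Euc N}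
    (hu : u ∈ V0 G z) :
    PVB h (phi G z) (nrm (z.2 + u)) = nrm (z.2 + u) ∧ ‖nrm (z.2 + u)‖ = 1 := by
  refine ⟨?_, norm_nrm (add_ne_zero' hz.2 (V0_inner hu))⟩
  refine (KG.PVB_eq_self h hz).2 ?_
  have h1 := (NN.mem_V0.1 hu).1
  rw [qq_eq hz] at h1
  exact Submodule.smul_mem _ _ (Submodule.add_mem _ (KG.mem_Vs_self hz) h1)

/-- **(1)** values -/
theorem Psi_mem (hL : LinK h P₂ P₁ Lz) (hx : x ∈ TP.TT (L.US G) P₂ P₁) : Psi Lz x ∈ N4 h := by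
  have hz := (mem_TT.1 hx).1
  have key := fun i => nrm_link h hz (hL.Li_mem hx i)
  exact ⟨⟨⟨⟨⟨⟨hz, (key 1).1⟩, (key 1).2⟩, (key 2).1⟩, (key 2).2⟩, (key 3).1⟩, (key 3).2⟩

theorem smap_Psi (hL : LinK h P₂ P₁ Lz) : CW.SMap (TP.TT (L.US G) P₂ P₁) (N4 h) (Psi Lz) :=
  ⟨fun _ hx => hL.smooth_Psi hx, fun _ hx => hL.Psi_mem hx⟩

/-- relation with 952's chains -/
theorem nest4_Psi (hL : LinK h P₂ P₁ Lz) (hx : x ∈ TP.TT (L.US G) P₂ P₁) :
    nest4 (Psi Lz x) = kap x.1.1 (Lz x.1.1 (x.1.2, x.2)) := by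
  have hz := (mem_TT.1 hx).1
  have h0 : Lz x.1.1 (x.1.2, x.2) 0 = 0 := hL.Li_zero hx
  unfold nest4 kap Psi
  refine Prod.ext rfl ?_
  funext i
  fin_cases i
  · change x.1.1.2 = nrm (x.1.1.2 + Lz x.1.1 (x.1.2, x.2) 0)
    rw [h0, add_zero, nrm_self hz.2]
  · rfl
  · rfl
  · rfl

/-- on the zero section the tube is the diagonal -/
theorem Psi_zero {z : Euc N × Euc N} (hz : z ∈ L.US G) :
    Psi Lz ((z, (0 : H₂)), (0 : H₁)) = (((z, z.2), z.2), z.2) := by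
  have h0 : ∀ i, Li Lz ((z, (0 : H₂)), (0 : H₁)) i = 0 := by
    intro i
    have : ((0 : H₂), (0 : H₁)) = 0 := rfl
    unfold Li
    simp only [this, map_zero, Pi.zero_apply]
  unfold Psi
  simp only [h0, add_zero, nrm_self hz.2]

end LinK

/-- the smooth left inverse up to the linear map -/
def gi (κ : (((Euc N × Euc N) × Euc N) × Euc N) × Euc N) :
    (Euc N × Euc N) × Euc N × Euc N × Euc N :=
  (κ.1.1.1, inv1 κ.1.1.1.2 κ.1.1.2, inv1 κ.1.1.1.2 κ.1.2, inv1 κ.1.1.1.2 κ.2)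

/-- the same on the source -/
def gl (Lz : Euc N × Euc N → (H₂ × H₁) →L[ℝ] (Fin 4 → Euc N))
    (x : ((Euc N × Euc N) × H₂) × H₁) : (Euc N × Euc N) × Euc N × Euc N × Euc N :=
  (x.1.1, Li Lz x 1, Li Lz x 2, Li Lz x 3)

namespace LinK

variable {x : ((Euc N × Euc N) × H₂) × H₁}

lemma gi_Psi (hL : LinK h P₂ P₁ Lz) (hx : x ∈ TP.TT (L.US G) P₂ P₁) :
    gi (Psi Lz x) = gl Lz x := by
  have hz := (mem_TT.1 hx).1
  have key := fun i => inv1_nrm hz.2 (V0_inner (hL.Li_mem hx i))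
  unfold gi gl Psi
  simp only [key]

lemma smooth_gi (hL : LinK h P₂ P₁ Lz) (hx : x ∈ TP.TT (L.US G) P₂ P₁) :
    ContDiffAt ℝ ∞ gi (Psi Lz x) := by
  have hz := (mem_TT.1 hx).1
  have key := fun i => (inner_nrm_pos hz.2 (V0_inner (hL.Li_mem hx i))).ne'
  unfold gi
  refine ContDiffAt.prodMk (by fun_prop) (ContDiffAt.prodMk ?_ (ContDiffAt.prodMk ?_ ?_))
  · exact ContDiffAt.comp (g := fun p : Euc N × Euc N => inv1 p.1 p.2)
      (f := fun κ : (((Euc N × Euc N) × Euc N) × Euc N) × Euc N => (κ.1.1.1.2, κ.1.1.2)) (Psi Lz x)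
      (contDiffAt_inv1 (key 1)) (by fun_prop)
  · exact ContDiffAt.comp (g := fun p : Euc N × Euc N => inv1 p.1 p.2)
      (f := fun κ : (((Euc N × Euc N) × Euc N) × Euc N) × Euc N => (κ.1.1.1.2, κ.1.2)) (Psi Lz x)
      (contDiffAt_inv1 (key 2)) (by fun_prop)
  · exact ContDiffAt.comp (g := fun p : Euc N × Euc N => inv1 p.1 p.2)
      (f := fun κ : (((Euc N × Euc N) × Euc N) × Euc N) × Euc N => (κ.1.1.1.2, κ.2)) (Psi Lz x)
      (contDiffAt_inv1 (key 3)) (by fun_prop)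

lemma Lz_eq_zero (hL : LinK h P₂ P₁ Lz) {z : Euc N × Euc N} (hz : z ∈ L.US G) {ζ : H₂ × H₁}
    (h2 : P₂ z ζ.1 = ζ.1) (h1 : P₁ z ζ.2 = ζ.2) (e1 : Lz z ζ 1 = 0) (e2 : Lz z ζ 2 = 0)
    (e3 : Lz z ζ 3 = 0) : ζ = 0 := by
  refine hL.inj z hz ζ h2 h1 (funext fun i => ?_)
  fin_cases i
  · exact hL.zero z hz ζ h2 h1
  · exact e1
  · exact e2
  · exact e3

/-- **(2)** the tube is injective -/
theorem injOn (hL : LinK h P₂ P₁ Lz) : InjOn (Psi Lz) (TP.TT (L.US G) P₂ P₁) := by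
  intro x hx y hy hxy
  have h1 : gl Lz x = gl Lz y := by rw [← hL.gi_Psi hx, ← hL.gi_Psi hy, hxy]
  obtain ⟨⟨z, ν⟩, w⟩ := x
  obtain ⟨⟨z', ν'⟩, w'⟩ := y
  simp only [gl, Li, Prod.mk.injEq] at h1
  obtain ⟨rfl, e1, e2, e3⟩ := h1
  obtain ⟨hz, a2, a1⟩ := mem_TT.1 hx
  obtain ⟨-, b2, b1⟩ := mem_TT.1 hy
  simp only at hz a2 a1 b2 b1
  have h3 : ((ν, w) - (ν', w') : H₂ × H₁) = 0 := by
    refine hL.Lz_eq_zero hz ?_ ?_ ?_ ?_ ?_
    · change P₂ z (ν - ν') = ν - ν'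
      rw [map_sub, a2, b2]
    · change P₁ z (w - w') = w - w'
      rw [map_sub, a1, b1]
    · rw [map_sub, Pi.sub_apply, e1, sub_self]
    · rw [map_sub, Pi.sub_apply, e2, sub_self]
    · rw [map_sub, Pi.sub_apply, e3, sub_self]
  have h4 := sub_eq_zero.1 h3
  simp only [Prod.mk.injEq] at h4
  rw [h4.1, h4.2]

/-- derivative of the entries -/
lemma hasFDerivAt_Li (hL : LinK h P₂ P₁ Lz) (hx : x.1.1 ∈ L.US G) (ξ : ((Euc N × Euc N) × H₂) × H₁)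
    (i : Fin 4) : fderiv ℝ (fun x => Li Lz x i) x ξ =
      fderiv ℝ Lz x.1.1 ξ.1.1 (x.1.2, x.2) i + Lz x.1.1 (ξ.1.2, ξ.2) i := by
  have h1 : HasFDerivAt (fun x : ((Euc N × Euc N) × H₂) × H₁ => x.1.1)
      ((ContinuousLinearMap.fst ℝ (Euc N × Euc N) H₂).comp
        (ContinuousLinearMap.fst ℝ ((Euc N × Euc N) × H₂) H₁)) x :=
    HasFDerivAt.comp (g := (Prod.fst : (Euc N × Euc N) × H₂ → Euc N × Euc N)) x
      hasFDerivAt_fst hasFDerivAt_fst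
  have h2' : HasFDerivAt (fun x : ((Euc N × Euc N) × H₂) × H₁ => x.1.2)
      ((ContinuousLinearMap.snd ℝ (Euc N × Euc N) H₂).comp
        (ContinuousLinearMap.fst ℝ ((Euc N × Euc N) × H₂) H₁)) x :=
    HasFDerivAt.comp (g := (Prod.snd : (Euc N × Euc N) × H₂ → H₂)) x
      hasFDerivAt_snd hasFDerivAt_fst
  have h2'' : HasFDerivAt (fun x : ((Euc N × Euc N) × H₂) × H₁ => x.2)
      (ContinuousLinearMap.snd ℝ ((Euc N × Euc N) × H₂) H₁) x := hasFDerivAt_snd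
  have h2 := h2'.prodMk h2''
  have h3 : HasFDerivAt Lz (fderiv ℝ Lz x.1.1) x.1.1 :=
    ((hL.smooth _ hx).differentiableAt (by simp)).hasFDerivAt
  have h4 := (HasFDerivAt.comp (g := Lz) x h3 h1).clm_apply h2
  have h5 := (hasFDerivAt_pi'.1 h4) i
  have h6 : HasFDerivAt (fun x : ((Euc N × Euc N) × H₂) × H₁ => Li Lz x i) _ x := h5
  rw [h6.fderiv]
  simp [add_comm]

/-- **(2)** the derivative of the tube is injective on the tangent spaces -/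
theorem fderiv_inj (hL : LinK h P₂ P₁ Lz) {r₁ r₂ : ℕ} (hP₂ : PField (L.US G) r₂ P₂)
    (hP₁ : PField (L.US G) r₁ P₁)
    (hx : x ∈ TP.TT (L.US G) P₂ P₁) {ξ : ((Euc N × Euc N) × H₂) × H₁}
    (hξ : ξ ∈ Tan (TP.TT (L.US G) P₂ P₁) x) (h0 : fderiv ℝ (Psi Lz) x ξ = 0) : ξ = 0 := by
  have hz := (mem_TT.1 hx).1
  have d1 : DifferentiableAt ℝ (Psi Lz) x := (hL.smooth_Psi hx).differentiableAt (by simp)
  have d2 : DifferentiableAt ℝ gi (Psi Lz x) := (hL.smooth_gi hx).differentiableAt (by simp)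
  have d3 : ∀ i, DifferentiableAt ℝ (fun x => Li Lz x i) x := fun i =>
    (hL.smooth_Li hz i).differentiableAt (by simp)
  have hgl : HasFDerivAt (gl Lz) (((ContinuousLinearMap.fst ℝ (Euc N × Euc N) H₂).comp
        (ContinuousLinearMap.fst ℝ ((Euc N × Euc N) × H₂) H₁)).prod
      ((fderiv ℝ (fun x => Li Lz x 1) x).prod ((fderiv ℝ (fun x => Li Lz x 2) x).prod
        (fderiv ℝ (fun x => Li Lz x 3) x)))) x := by
    have h1 : HasFDerivAt (fun x : ((Euc N × Euc N) × H₂) × H₁ => x.1.1)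
      ((ContinuousLinearMap.fst ℝ (Euc N × Euc N) H₂).comp
        (ContinuousLinearMap.fst ℝ ((Euc N × Euc N) × H₂) H₁)) x :=
      HasFDerivAt.comp (g := (Prod.fst : (Euc N × Euc N) × H₂ → Euc N × Euc N)) x
        hasFDerivAt_fst hasFDerivAt_fst
    exact h1.prodMk ((d3 1).hasFDerivAt.prodMk ((d3 2).hasFDerivAt.prodMk (d3 3).hasFDerivAt))
  have h1 : fderiv ℝ (gi ∘ Psi Lz) x ξ = fderiv ℝ (gl Lz) x ξ :=
    fderiv_eq_on (X := TP.TT (L.US G) P₂ P₁) (d2.comp x d1) hgl.differentiableAt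
      (fun y hy => hL.gi_Psi hy) hξ
  rw [fderiv_comp x d2 d1, ContinuousLinearMap.comp_apply, h0, map_zero, hgl.fderiv] at h1
  have h2 := h1.symm
  simp only [ContinuousLinearMap.prod_apply, ContinuousLinearMap.comp_apply,
    ContinuousLinearMap.coe_fst', Prod.mk_eq_zero] at h2
  obtain ⟨e0, e1, e2, e3⟩ := h2
  rw [hL.hasFDerivAt_Li hz, e0, map_zero] at e1 e2 e3
  simp only [zero_apply, Pi.zero_apply, zero_add] at e1 e2 e3
  obtain ⟨⟨a, b⟩, c⟩ := ξ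
  simp only at e0 e1 e2 e3
  subst e0
  have hξ' : (((0 : Euc N × Euc N), b), c) ∈ Tan (Tot (Tot (L.US G) P₂) (fun z => P₁ z.1))
    (x.1, x.2) := hξ
  have hP₁' : PField (Tot (L.US G) P₂) r₁ (fun z : (Euc N × Euc N) × H₂ => P₁ z.1) :=
    ⟨fun z hz => ContDiffAt.comp (g := P₁) (f := fun z : (Euc N × Euc N) × H₂ => z.1) z
      (hP₁.smooth _ hz.1) contDiffAt_fst, fun z hz => hP₁.idem _ hz.1, fun z hz => hP₁.rank _ hz.1⟩
  have t1 := hP₁'.deriv_mem (x := x.1) ⟨hz, (mem_TT.1 hx).2.1⟩ hξ'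
  have t2 := hP₂.deriv_mem (x := x.1.1) (v := x.1.2) hz t1.1
  have hb : P₂ x.1.1 b = b := by
    have := t2.2
    rw [map_zero] at this
    simp only [zero_apply] at this
    exact (sub_eq_zero.1 this).symm
  have hc : P₁ x.1.1 c = c := by
    have h3 : fderiv ℝ (fun z : (Euc N × Euc N) × H₂ => P₁ z.1) x.1 ((0 : Euc N × Euc N), b) = 0 := by
      have h4 : HasFDerivAt (fun z : (Euc N × Euc N) × H₂ => P₁ z.1)
          ((fderiv ℝ P₁ x.1.1).comp (ContinuousLinearMap.fst ℝ (Euc N × Euc N) H₂)) x.1 := by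
        exact HasFDerivAt.comp x.1
          (((hP₁.smooth _ hz).differentiableAt (by simp)).hasFDerivAt) hasFDerivAt_fst
      rw [h4.fderiv]
      simp
    have := t1.2
    rw [h3] at this
    simp only [zero_apply] at this
    exact (sub_eq_zero.1 this).symm
  have h5 : ((b, c) : H₂ × H₁) = 0 := hL.Lz_eq_zero hz (ζ := (b, c)) hb hc e1 e2 e3
  simp only [Prod.mk_eq_zero] at h5
  rw [h5.1, h5.2]
  rfl

end LinK

end Crest.Agent.R208.TU
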