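import Crest.Agent.R208.TU9
import Crest.Agent.R208.TX3
import Crest.Agent.R208.AN2

/-!
Row 208, block TU (helper10), part TU11: the flat step of (A2): the integral over `N4` of the
relative form `om` of a `Pair`, times a closed form of the base, is the integral of the form of the
flat loops; with helper601's `abs_vs_flat` this gives its absolute value.
-/

set_option autoImplicit false
set_option linter.unusedSectionVars false
set_option linter.unusedVariables false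

open Set Filter Topology MeasureTheory Module
open scoped ContDiff RealInnerProductSpace Interval
open Crest.GeometryTopology.Submanifold
open Crest.Agent.R241.DDefs
open Crest.Agent.R241.D2
open Crest.Agent.R241.D3c
open Crest.Agent.R208.F Crest.Agent.R208.FI Crest.Agent.R208.CW Crest.Agent.R208.T
open Crest.Agent.R208.KG (OK N2 N3 N4 nest4 nest2 idx)
open Crest.Agent.R208.EX

noncomputable section

namespace Crest.Agent.R208.TU

variable {n N k d r m e mK : ℕ} {κ : ℝ} {S : Set (Euc N)} {G : Geo n N κ S} {ε τ : ℝ}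
  {H₁ H₂ : Type} [NormedAddCommGroup H₁] [InnerProductSpace ℝ H₁] [FiniteDimensional ℝ H₁]
  [NormedAddCommGroup H₂] [InnerProductSpace ℝ H₂] [FiniteDimensional ℝ H₂]
  {P₁ : Euc N × Euc N → H₁ →L[ℝ] H₁} {P₂ : Euc N × Euc N → H₂ →L[ℝ] H₂}
  {h : GT.Bla G k} {Lz : Euc N × Euc N → (H₂ × H₁) →L[ℝ] (Fin 4 → Euc N)}
  {c : (((Euc N × Euc N) × Euc N) × Euc N) × Euc N → ℝ} {ρ ρ₁ : ℝ} {D : ED N}
  {α y oU : Euc N × Euc N → Ext (Euc N × Euc N)}
  {om oK : (((Euc N × Euc N) × Euc N) × Euc N) × Euc N →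
      Ext ((((Euc N × Euc N) × Euc N) × Euc N) × Euc N)}
  {V : ((Euc N × Euc N) × H₂) × H₁ → Ext (((Euc N × Euc N) × H₂) × H₁)}

/-- the form of the flat loops is smooth -/
theorem sm_vs_FK (hD : D.OK) (hDS : D.S = S) (hO : OK G 4 ε) (h : GT.Bla G k)
    (hX : Sub m (N4 h)) (hα : Sm (L.US G) α) (hα1 : Hom 1 α) {t : ℝ} (ht : t ∈ Icc (0 : ℝ) 1) :
    Sm (N4 h) (D.vs (F.pull bN α) (FK G ε t)) := by
  have hf : LF D.S (N4 h) (FK G ε t) := by rw [hDS]; exact lf_N4 hO h ht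
  exact ED.sm_vs hD hX (hα.pull smap_bN) hα1.pull hf

/-- the form of the flat loops is closed -/
theorem cl_vs_FK (hD : D.OK) (hDS : D.S = S) (hO : OK G 4 ε) (h : GT.Bla G k)
    (hX : Sub m (N4 h)) (hα : Sm (L.US G) α) (hα1 : Hom 1 α) {t : ℝ} (ht : t ∈ Icc (0 : ℝ) 1) :
    Cl (N4 h) (D.vs (F.pull bN α) (FK G ε t)) := by
  have hf : LF D.S (N4 h) (FK G ε t) := by rw [hDS]; exact lf_N4 hO h ht
  exact ED.cl_vs hD hX (hα.pull smap_bN) hα1.pull hf

/-- **the flat step**: only the class of `om` matters -/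
theorem Pair.J_flat (pr : Pair D h P₂ P₁ Lz ε c ρ ρ₁ α om V) (hD : D.OK) (hDS : D.S = S)
    (hO : OK G 4 ε) (hX : Clo m (N4 h)) (ho : Ori m (N4 h) oK) (hα : Sm (L.US G) α)
    (hα1 : Hom 1 α) (sy : Sm (L.US G) y) (cy : Cl (L.US G) y) :
    J m (N4 h) oK (om * F.pull (fun z => z.1.1.1) y) =
      J m (N4 h) oK (D.vs (F.pull bN α) (FK G ε 1) * F.pull (fun z => z.1.1.1) y) := by
  have hb : SMap (N4 h) (L.US G) bN := smap_bN
  have s1 : Sm (N4 h) (F.pull bN y) := sy.pull hb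
  have c1 : Cl (N4 h) (F.pull bN y) := cy.pull hb sy
  have sv := sm_vs_FK hD hDS hO h hX.sub hα hα1 (t := 1) ⟨zero_le_one, le_rfl⟩
  exact J_coh hX ho (pr.rel.1.mul s1) (sv.mul s1) (pr.flat.mul_right s1 c1)

/-- **(A2), the value on `N4`** for any orientations -/
theorem Pair.abs_flat (pr : Pair D h P₂ P₁ Lz ε c ρ ρ₁ α om V) (hk : 2 ≤ k) (ev : Even k)
    (hkn : k < n) (hO : OK G 4 ε) (hD : D.OK) (hDS : D.S = S) (hα : Sm (L.US G) α)
    (hα1 : Hom 1 α) (hp : 1 ≤ D.p) (hq : 1 ≤ D.q)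
    (hs : Sm S D.om) (hcl : Cl S D.om) (hom : Hom k D.om)
    {z₀ : Euc N × Euc N} (hz₀ : z₀ ∈ L.US G)
    (hτ : ∀ oF : Euc N × Euc N → Ext (Euc N × Euc N),
      Ori (k - 1) (L.US G ∩ NB.ph G ⁻¹' {NB.ph G z₀}) oF →
      |J (k - 1) (L.US G ∩ NB.ph G ⁻¹' {NB.ph G z₀}) oF (RR.K (F.pull (RRC.EE G) D.om))| = τ)
    (hd : d + 1 = 2 * n) (hed : k + e = d) (hmK : mK = 3 * (k - 1) + d)
    (hoU : Ori d (L.US G) oU) (hoK : Ori mK (N4 h) oK)
    (sy : Sm (L.US G) y) (cy : Cl (L.US G) y) (dy : Hom e y) :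
    (2 * Real.pi) ^ 2 * |J mK (N4 h) oK (om * F.pull (fun z => z.1.1.1) y)| =
      3 * τ ^ 3 * |J d (L.US G) oU (F.pull Prod.fst D.om * y)| := by
  have hX : Clo mK (N4 h) := by
    obtain ⟨r, rfl⟩ : ∃ r, k = r + 1 := ⟨k - 1, by omega⟩
    obtain rfl : mK = r + (r + (r + d)) := by omega
    exact clo_N4 h rfl hd
  rw [pr.J_flat hD hDS hO hX hoK hα hα1 sy cy]
  exact AN.abs_vs_flat h hk ev hkn hO hD hDS (hα.pull smap_bN) hα1.pull hp hq hs hcl hom hz₀ hτ hd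
    hed hmK hoU hoK sy cy dy

end Crest.Agent.R208.TU
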