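import Crest.Agent.R208.TU1

/-!
Row 208, block TU (helper10), part TU1b: the two-arc version of TU1 (one field of projections).
-/

set_option autoImplicit false
set_option linter.unusedSectionVars false

open Set Filter Topology MeasureTheory
open scoped ContDiff RealInnerProductSpace Interval
open Crest.GeometryTopology.Submanifold
open Crest.Agent.R241.DDefs
open Crest.Agent.R241.D2
open Crest.Agent.R241.D3c
open Crest.Agent.R208.NN (V0 qq)
open Crest.Agent.R208.FV (PVB phi phi_mem PV_eq_self)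
open Crest.Agent.R208.FI (Tan Sub Clo PField Tot)
open Crest.Agent.R208.KG (N2 N3 N4 nest4 nest2)
open Crest.Agent.R208.AK (nrm norm_nrm nrm_self contDiffAt_nrm norm_sq_add add_ne_zero' kap V0_inner)

noncomputable section

namespace Crest.Agent.R208.TU

variable {n N k : ℕ} {κ : ℝ} {S : Set (Euc N)} {G : Geo n N κ S}
  {H₁ : Type*} [NormedAddCommGroup H₁] [InnerProductSpace ℝ H₁] [FiniteDimensional ℝ H₁]
  {P₁ : Euc N × Euc N → H₁ →L[ℝ] H₁} {h : GT.Bla G k}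
  {L2 : Euc N × Euc N → H₁ →L[ℝ] (Fin 2 → Euc N)}

namespace LinK2

variable {x : (Euc N × Euc N) × H₁}

lemma L_mem (hL : LinK2 h P₁ L2) (hx : x ∈ Tot (L.US G) P₁) (i : Fin 2) :
    L2 x.1 x.2 i ∈ V0 G x.1 := hL.mem _ hx.1 _ hx.2 i

lemma smooth_L (hL : LinK2 h P₁ L2) (hx : x.1 ∈ L.US G) :
    ContDiffAt ℝ ∞ (fun x : (Euc N × Euc N) × H₁ => L2 x.1 x.2) x := by
  have h1 : ContDiffAt ℝ ∞ (fun x : (Euc N × Euc N) × H₁ => L2 x.1) x :=
    ContDiffAt.comp (g := L2) (f := fun x : (Euc N × Euc N) × H₁ => x.1) x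
      (hL.smooth _ hx) (by fun_prop)
  exact h1.clm_apply (by fun_prop)

lemma smooth_Li (hL : LinK2 h P₁ L2) (hx : x.1 ∈ L.US G) (i : Fin 2) :
    ContDiffAt ℝ ∞ (fun x : (Euc N × Euc N) × H₁ => L2 x.1 x.2 i) x :=
  contDiffAt_pi.1 (hL.smooth_L hx) i

/-- **(1)** smoothness -/
theorem smooth_Psi (hL : LinK2 h P₁ L2) (hx : x ∈ Tot (L.US G) P₁) :
    ContDiffAt ℝ ∞ (Psi2 L2) x := by
  have hz : x.1 ∈ L.US G := hx.1
  have key : ContDiffAt ℝ ∞ (fun x : (Euc N × Euc N) × H₁ => nrm (x.1.2 + L2 x.1 x.2 1)) x :=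
    ContDiffAt.comp (g := (nrm : Euc N → Euc N))
      (f := fun x : (Euc N × Euc N) × H₁ => x.1.2 + L2 x.1 x.2 1) x
      (contDiffAt_nrm (add_ne_zero' hz.2 (V0_inner (hL.L_mem hx 1))))
      (ContDiffAt.add (by fun_prop) (hL.smooth_Li hz 1))
  exact ContDiffAt.prodMk (by fun_prop) key

/-- **(1)** values -/
theorem Psi_mem (hL : LinK2 h P₁ L2) (hx : x ∈ Tot (L.US G) P₁) : Psi2 L2 x ∈ N2 h := by
  have key := LinK.nrm_link h hx.1 (hL.L_mem hx 1)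
  exact ⟨⟨hx.1, key.1⟩, key.2⟩

theorem smap_Psi (hL : LinK2 h P₁ L2) : CW.SMap (Tot (L.US G) P₁) (N2 h) (Psi2 L2) :=
  ⟨fun _ hx => hL.smooth_Psi hx, fun _ hx => hL.Psi_mem hx⟩

/-- relation with 952's chains -/
theorem nest2_Psi (hL : LinK2 h P₁ L2) (hx : x ∈ Tot (L.US G) P₁) :
    nest2 (Psi2 L2 x) = kap x.1 (L2 x.1 x.2) := by
  have hz : x.1 ∈ L.US G := hx.1
  have h0 : L2 x.1 x.2 0 = 0 := hL.zero _ hz _ hx.2
  unfold nest2 kap Psi2
  refine Prod.ext rfl ?_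
  funext i
  fin_cases i
  · change x.1.2 = nrm (x.1.2 + L2 x.1 x.2 0)
    rw [h0, add_zero, nrm_self hz.2]
  · rfl

theorem Psi_zero {z : Euc N × Euc N} (hz : z ∈ L.US G) :
    Psi2 L2 (z, (0 : H₁)) = (z, z.2) := by
  unfold Psi2
  simp only [map_zero, Pi.zero_apply, add_zero, nrm_self hz.2]

lemma L_eq_zero (hL : LinK2 h P₁ L2) {z : Euc N × Euc N} (hz : z ∈ L.US G) {ζ : H₁}
    (h1 : P₁ z ζ = ζ) (e1 : L2 z ζ 1 = 0) : ζ = 0 := by
  refine hL.inj z hz ζ h1 (funext fun i => ?_)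
  fin_cases i
  · exact hL.zero z hz ζ h1
  · exact e1

end LinK2

/-- left inverse up to the linear map -/
def gi2 (κ : (Euc N × Euc N) × Euc N) : (Euc N × Euc N) × Euc N := (κ.1, inv1 κ.1.2 κ.2)

namespace LinK2

variable {x : (Euc N × Euc N) × H₁}

lemma gi_Psi (hL : LinK2 h P₁ L2) (hx : x ∈ Tot (L.US G) P₁) :
    gi2 (Psi2 L2 x) = (x.1, L2 x.1 x.2 1) := by
  have hz : x.1 ∈ L.US G := hx.1
  have key := inv1_nrm hz.2 (V0_inner (hL.L_mem hx 1))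
  unfold gi2 Psi2
  simp only [key]

lemma smooth_gi (hL : LinK2 h P₁ L2) (hx : x ∈ Tot (L.US G) P₁) :
    ContDiffAt ℝ ∞ gi2 (Psi2 L2 x) := by
  have hz : x.1 ∈ L.US G := hx.1
  have key := (inner_nrm_pos hz.2 (V0_inner (hL.L_mem hx 1))).ne'
  unfold gi2
  refine ContDiffAt.prodMk (by fun_prop) ?_
  exact ContDiffAt.comp (g := fun p : Euc N × Euc N => inv1 p.1 p.2)
      (f := fun κ : (Euc N × Euc N) × Euc N => (κ.1.2, κ.2)) (Psi2 L2 x)
      (contDiffAt_inv1 key) (by fun_prop)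

/-- **(2)** the tube is injective -/
theorem injOn (hL : LinK2 h P₁ L2) : InjOn (Psi2 L2) (Tot (L.US G) P₁) := by
  intro x hx y hy hxy
  have h1 : (x.1, L2 x.1 x.2 1) = (y.1, L2 y.1 y.2 1) := by
    rw [← hL.gi_Psi hx, ← hL.gi_Psi hy, hxy]
  obtain ⟨z, w⟩ := x
  obtain ⟨z', w'⟩ := y
  simp only [Prod.mk.injEq] at h1
  obtain ⟨rfl, e1⟩ := h1
  have a1 : P₁ z w = w := hx.2
  have b1 : P₁ z w' = w' := hy.2
  have h3 : w - w' = 0 := by
    refine hL.L_eq_zero hx.1 ?_ ?_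
    · rw [map_sub, a1, b1]
    · rw [map_sub, Pi.sub_apply, e1, sub_self]
  rw [sub_eq_zero.1 h3]

/-- derivative of the entries -/
lemma fderiv_Li (hL : LinK2 h P₁ L2) (hx : x.1 ∈ L.US G) (ξ : (Euc N × Euc N) × H₁)
    (i : Fin 2) : fderiv ℝ (fun x : (Euc N × Euc N) × H₁ => L2 x.1 x.2 i) x ξ =
      fderiv ℝ L2 x.1 ξ.1 x.2 i + L2 x.1 ξ.2 i := by
  have h1 : HasFDerivAt (fun x : (Euc N × Euc N) × H₁ => x.1)
      (ContinuousLinearMap.fst ℝ (Euc N × Euc N) H₁) x := hasFDerivAt_fst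
  have h2 : HasFDerivAt (fun x : (Euc N × Euc N) × H₁ => x.2)
      (ContinuousLinearMap.snd ℝ (Euc N × Euc N) H₁) x := hasFDerivAt_snd
  have h3 : HasFDerivAt L2 (fderiv ℝ L2 x.1) x.1 :=
    ((hL.smooth _ hx).differentiableAt (by simp)).hasFDerivAt
  have h4 := (HasFDerivAt.comp (g := L2) x h3 h1).clm_apply h2
  have h5 := (hasFDerivAt_pi'.1 h4) i
  have h6 : HasFDerivAt (fun x : (Euc N × Euc N) × H₁ => L2 x.1 x.2 i) _ x := h5
  rw [h6.fderiv]
  simp [add_comm]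

/-- **(2)** the derivative of the tube is injective on the tangent spaces -/
theorem fderiv_inj (hL : LinK2 h P₁ L2) {r₁ : ℕ} (hP₁ : PField (L.US G) r₁ P₁)
    (hx : x ∈ Tot (L.US G) P₁) {ξ : (Euc N × Euc N) × H₁}
    (hξ : ξ ∈ Tan (Tot (L.US G) P₁) x) (h0 : fderiv ℝ (Psi2 L2) x ξ = 0) : ξ = 0 := by
  have hz : x.1 ∈ L.US G := hx.1
  have d1 : DifferentiableAt ℝ (Psi2 L2) x := (hL.smooth_Psi hx).differentiableAt (by simp)
  have d2 : DifferentiableAt ℝ gi2 (Psi2 L2 x) := (hL.smooth_gi hx).differentiableAt (by simp)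
  have d3 : DifferentiableAt ℝ (fun x : (Euc N × Euc N) × H₁ => L2 x.1 x.2 1) x :=
    (hL.smooth_Li hz 1).differentiableAt (by simp)
  have hgl : HasFDerivAt (fun x : (Euc N × Euc N) × H₁ => (x.1, L2 x.1 x.2 1))
      ((ContinuousLinearMap.fst ℝ (Euc N × Euc N) H₁).prod
        (fderiv ℝ (fun x : (Euc N × Euc N) × H₁ => L2 x.1 x.2 1) x)) x :=
    hasFDerivAt_fst.prodMk d3.hasFDerivAt
  have h1 : fderiv ℝ (gi2 ∘ Psi2 L2) x ξ =
      fderiv ℝ (fun x : (Euc N × Euc N) × H₁ => (x.1, L2 x.1 x.2 1)) x ξ :=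
    fderiv_eq_on (X := Tot (L.US G) P₁) (d2.comp x d1) hgl.differentiableAt
      (fun y hy => hL.gi_Psi hy) hξ
  rw [fderiv_comp x d2 d1, ContinuousLinearMap.comp_apply, h0, map_zero, hgl.fderiv] at h1
  have h2 := h1.symm
  simp only [ContinuousLinearMap.prod_apply, ContinuousLinearMap.coe_fst', Prod.mk_eq_zero] at h2
  obtain ⟨e0, e1⟩ := h2
  rw [hL.fderiv_Li hz, e0, map_zero] at e1
  simp only [zero_apply, Pi.zero_apply, zero_add] at e1
  obtain ⟨a, c⟩ := ξ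
  simp only at e0 e1
  subst e0
  have t2 := hP₁.deriv_mem (x := x.1) (v := x.2) hz hξ
  have hc : P₁ x.1 c = c := by
    have := t2.2
    rw [map_zero] at this
    simp only [zero_apply] at this
    exact (sub_eq_zero.1 this).symm
  rw [hL.L_eq_zero hz hc e1]
  rfl

end LinK2

end Crest.Agent.R208.TU
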