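import Crest.Agent.R208.TU1b

/-!
Row 208, block TU (helper10), part TU2: **gap**: points of `N4 h` (`N2 h`) near the diagonal lie on
the tube, with small coordinates.
-/

set_option autoImplicit false
set_option linter.unusedSectionVars false

open Set Filter Topology MeasureTheory Module
open scoped ContDiff RealInnerProductSpace Interval
open Crest.GeometryTopology.Submanifold
open Crest.Agent.R241.DDefs
open Crest.Agent.R241.D2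
open Crest.Agent.R241.D3c
open Crest.Agent.R208.NN (V0 qq)
open Crest.Agent.R208.FV (PVB phi phi_mem PV_eq_self)
open Crest.Agent.R208.FI (Tan Sub Clo PField Tot)
open Crest.Agent.R208.KG (N2 N3 N4 nest4 nest2 idx)
open Crest.Agent.R208.AK (nrm norm_nrm nrm_self contDiffAt_nrm norm_sq_add add_ne_zero' kap V0_inner)

noncomputable section

namespace Crest.Agent.R208.TU

variable {n N k : ℕ} {κ : ℝ} {S : Set (Euc N)} {G : Geo n N κ S}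

/-! ### one entry -/

lemma inner_eq {v w : Euc N} (hv : ‖v‖ = 1) (hw : ‖w‖ = 1) :
    (⟪w, v⟫ : ℝ) = 1 - ‖w - v‖ ^ 2 / 2 := by
  have := norm_sub_sq_real w v
  rw [hv, hw] at this
  linarith

lemma nrm_inv1 {v w : Euc N} (hw : ‖w‖ = 1) (h : (0 : ℝ) < ⟪w, v⟫) :
    nrm (v + inv1 v w) = w := by
  rw [inv1, add_sub_cancel, nrm, norm_smul, hw, mul_one, Real.norm_eq_abs,
    abs_of_pos (inv_pos.2 h), inv_inv, smul_smul, mul_inv_cancel₀ h.ne', one_smul]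

lemma inner_inv1 {v w : Euc N} (hv : ‖v‖ = 1) (h : (0 : ℝ) < ⟪w, v⟫) :
    (⟪inv1 v w, v⟫ : ℝ) = 0 := by
  rw [inv1, inner_sub_left, real_inner_smul_left, inv_mul_cancel₀ h.ne', real_inner_self_eq_norm_sq,
    hv]
  ring

lemma norm_inv1_sq {v w : Euc N} (hv : ‖v‖ = 1) (hw : ‖w‖ = 1) (h1 : ‖w - v‖ ^ 2 ≤ 1) :
    ‖inv1 v w‖ ^ 2 ≤ 4 * ‖w - v‖ ^ 2 := by
  have h2 := inner_eq hv hw
  have h0 : (0 : ℝ) ≤ ‖w - v‖ ^ 2 := sq_nonneg _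
  set s := ‖w - v‖ ^ 2 with hs
  set c : ℝ := ⟪w, v⟫ with hc
  have hc2 : (1 : ℝ) / 2 ≤ c := by rw [h2]; linarith
  have hc0 : 0 < c := by linarith
  have h3 : ‖inv1 v w‖ ^ 2 = c⁻¹ ^ 2 - 1 := by
    rw [inv1, norm_sub_sq_real, norm_smul, hw, hv, real_inner_smul_left, ← hc,
      inv_mul_cancel₀ hc0.ne', Real.norm_eq_abs, mul_pow, sq_abs]
    ring
  rw [h3, inv_pow, sub_le_iff_le_add, inv_le_comm₀ (by positivity) (by positivity)]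
  rw [inv_le_iff_one_le_mul₀ (by positivity)]
  have : c = 1 - s / 2 := h2
  rw [this] at hc2 ⊢
  nlinarith [mul_nonneg h0 h0, mul_nonneg h0 (sub_nonneg.2 h1), mul_nonneg (mul_nonneg h0 h0)
    (sub_nonneg.2 h1)]

/-- `inv1` of an element of the link lies in `V₀` -/
lemma inv1_mem {z : Euc N × Euc N} (h : GT.Bla G k) (hz : z ∈ L.US G) {w : Euc N}
    (hw : PVB h (phi G z) w = w) (h0 : (0 : ℝ) < ⟪w, z.2⟫) : inv1 z.2 w ∈ V0 G z := by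
  rw [NN.mem_V0]
  refine ⟨?_, inner_inv1 hz.2 h0⟩
  have h1 := (KG.PVB_eq_self h hz).1 hw
  rw [← LinK.qq_eq hz] at h1
  exact Submodule.sub_mem _ (Submodule.smul_mem _ _ h1) (NN.mem_Vs hz)

/-! ### the fibres -/

variable {H : Type*} [NormedAddCommGroup H] [InnerProductSpace ℝ H] [FiniteDimensional ℝ H]
  {H₁ H₂ : Type*} [NormedAddCommGroup H₁] [InnerProductSpace ℝ H₁] [FiniteDimensional ℝ H₁]
  [NormedAddCommGroup H₂] [InnerProductSpace ℝ H₂] [FiniteDimensional ℝ H₂]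
  {P₁ : Euc N × Euc N → H₁ →L[ℝ] H₁} {P₂ : Euc N × Euc N → H₂ →L[ℝ] H₂}
  {h : GT.Bla G k} {Lz : Euc N × Euc N → (H₂ × H₁) →L[ℝ] (Fin 4 → Euc N)}
  {L2 : Euc N × Euc N → H₁ →L[ℝ] (Fin 2 → Euc N)} {r₁ r₂ : ℕ}

/-- surjectivity from the rank count -/
theorem LinK.surj (hL : LinK h P₂ P₁ Lz) (hP₂ : PField (L.US G) r₂ P₂)
    (hP₁ : PField (L.US G) r₁ P₁) (hr : r₁ + r₂ + 3 = 3 * k) {z : Euc N × Euc N}
    (hz : z ∈ L.US G) {a b c : Euc N} (ha : a ∈ V0 G z) (hb : b ∈ V0 G z) (hc : c ∈ V0 G z) :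
    ∃ ζ : H₂ × H₁, P₂ z ζ.1 = ζ.1 ∧ P₁ z ζ.2 = ζ.2 ∧ Lz z ζ 1 = a ∧ Lz z ζ 2 = b ∧
      Lz z ζ 3 = c := by
  set R₂ := LinearMap.range (P₂ z : H₂ →ₗ[ℝ] H₂) with hR₂
  set R₁ := LinearMap.range (P₁ z : H₁ →ₗ[ℝ] H₁) with hR₁
  have e₂ : ∀ y : R₂, P₂ z (y : H₂) = y := by
    rintro ⟨_, y, rfl⟩; exact hP₂.idem z hz y
  have e₁ : ∀ y : R₁, P₁ z (y : H₁) = y := by
    rintro ⟨_, y, rfl⟩; exact hP₁.idem z hz y
  let B : (R₂ × R₁) →ₗ[ℝ] (Fin 4 → Euc N) :=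
    (Lz z : (H₂ × H₁) →ₗ[ℝ] (Fin 4 → Euc N)) ∘ₗ (R₂.subtype.prodMap R₁.subtype)
  have hB : ∀ y i, B y i = Lz z ((y.1 : H₂), (y.2 : H₁)) i := fun y i => rfl
  have hm : ∀ y i, B y i ∈ V0 G z := fun y i => hL.mem z hz _ (e₂ y.1) (e₁ y.2) i
  let T : Fin 4 → (R₂ × R₁) →ₗ[ℝ] V0 G z := fun i =>
    (LinearMap.proj i ∘ₗ B).codRestrict (V0 G z) (fun y => hm y i)
  let A : (R₂ × R₁) →ₗ[ℝ] (V0 G z × V0 G z × V0 G z) := (T 1).prod ((T 2).prod (T 3))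
  have hT : ∀ i y, ((T i y : V0 G z) : Euc N) = Lz z ((y.1 : H₂), (y.2 : H₁)) i := fun i y => rfl
  have hAinj : Function.Injective A := by
    rw [← LinearMap.ker_eq_bot, LinearMap.ker_eq_bot']
    intro y hy
    have h1 : T 1 y = 0 := congrArg Prod.fst hy
    have h2 : T 2 y = 0 := congrArg (fun q => q.2.1) hy
    have h3 : T 3 y = 0 := congrArg (fun q => q.2.2) hy
    have h4 := hL.Lz_eq_zero hz (ζ := ((y.1 : H₂), (y.2 : H₁))) (e₂ y.1) (e₁ y.2)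
      (by rw [← hT, h1]; rfl) (by rw [← hT, h2]; rfl) (by rw [← hT, h3]; rfl)
    rw [Prod.mk_eq_zero] at h4
    exact Prod.ext (Subtype.ext h4.1) (Subtype.ext h4.2)
  have hdim : finrank ℝ (R₂ × R₁) = finrank ℝ (V0 G z × V0 G z × V0 G z) := by
    have h5 := NN.finrank_V0 h hz
    rw [finrank_prod, finrank_prod, finrank_prod, hP₂.rank z hz, hP₁.rank z hz]
    omega
  have hsurj := (LinearMap.injective_iff_surjective_of_finrank_eq_finrank hdim).1 hAinj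
  obtain ⟨y, hy⟩ := hsurj (⟨a, ha⟩, ⟨b, hb⟩, ⟨c, hc⟩)
  refine ⟨((y.1 : H₂), (y.2 : H₁)), e₂ y.1, e₁ y.2, ?_, ?_, ?_⟩
  · have h1 : T 1 y = ⟨a, ha⟩ := congrArg Prod.fst hy
    rw [← hT, h1]
  · have h1 : T 2 y = ⟨b, hb⟩ := congrArg (fun q => q.2.1) hy
    rw [← hT, h1]
  · have h1 : T 3 y = ⟨c, hc⟩ := congrArg (fun q => q.2.2) hy
    rw [← hT, h1]

/-- the two-arc version -/
theorem LinK2.surj (hL : LinK2 h P₁ L2) (hP₁ : PField (L.US G) r₁ P₁) (hr : r₁ + 1 = k)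
    {z : Euc N × Euc N} (hz : z ∈ L.US G) {a : Euc N} (ha : a ∈ V0 G z) :
    ∃ ζ : H₁, P₁ z ζ = ζ ∧ L2 z ζ 1 = a := by
  set R₁ := LinearMap.range (P₁ z : H₁ →ₗ[ℝ] H₁) with hR₁
  have e₁ : ∀ y : R₁, P₁ z (y : H₁) = y := by
    rintro ⟨_, y, rfl⟩; exact hP₁.idem z hz y
  let B : R₁ →ₗ[ℝ] (Fin 2 → Euc N) := (L2 z : H₁ →ₗ[ℝ] (Fin 2 → Euc N)) ∘ₗ R₁.subtype
  have hm : ∀ y i, B y i ∈ V0 G z := fun y i => hL.mem z hz _ (e₁ y) i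
  let A : R₁ →ₗ[ℝ] V0 G z := (LinearMap.proj 1 ∘ₗ B).codRestrict (V0 G z) (fun y => hm y 1)
  have hT : ∀ y, ((A y : V0 G z) : Euc N) = L2 z (y : H₁) 1 := fun y => rfl
  have hAinj : Function.Injective A := by
    rw [← LinearMap.ker_eq_bot, LinearMap.ker_eq_bot']
    intro y hy
    exact Subtype.ext (hL.L_eq_zero hz (e₁ y) (by rw [← hT, hy]; rfl))
  have hdim : finrank ℝ R₁ = finrank ℝ (V0 G z) := by
    have h5 := NN.finrank_V0 h hz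
    rw [hP₁.rank z hz]
    omega
  obtain ⟨y, hy⟩ := (LinearMap.injective_iff_surjective_of_finrank_eq_finrank hdim).1 hAinj ⟨a, ha⟩
  exact ⟨(y : H₁), e₁ y, by rw [← hT, hy]⟩

/-- uniform bound of the inverse -/
theorem LinK.exists_bound (hS : IsCompact S) (hL : LinK h P₂ P₁ Lz) (hP₂ : PField (L.US G) r₂ P₂)
    (hP₁ : PField (L.US G) r₁ P₁) : ∃ C : ℝ, 0 < C ∧ ∀ z ∈ L.US G, ∀ ζ : H₂ × H₁,
      P₂ z ζ.1 = ζ.1 → P₁ z ζ.2 = ζ.2 → ‖ζ‖ ≤ C * ‖Lz z ζ‖ := by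
  have hK : IsCompact (L.US G ×ˢ Metric.sphere (0 : H₂ × H₁) 1) :=
    (LB.isCompact_US (G := G) hS).prod (isCompact_sphere _ _)
  have c₂ : ContinuousOn P₂ (L.US G) := fun x hx =>
    (hP₂.smooth x hx).continuousAt.continuousWithinAt
  have c₁ : ContinuousOn P₁ (L.US G) := fun x hx =>
    (hP₁.smooth x hx).continuousAt.continuousWithinAt
  have cL : ContinuousOn Lz (L.US G) := fun x hx =>
    (hL.smooth x hx).continuousAt.continuousWithinAt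
  -- the compact set of unit vectors of the fibres
  have d₂ : ContinuousOn (fun y : (Euc N × Euc N) × (H₂ × H₁) => P₂ y.1 y.2.1 - y.2.1)
      (L.US G ×ˢ Metric.sphere (0 : H₂ × H₁) 1) :=
    ((c₂.comp continuousOn_fst fun z hz => hz.1).clm_apply (by fun_prop)).sub (by fun_prop)
  have d₁ : ContinuousOn (fun y : (Euc N × Euc N) × (H₂ × H₁) => P₁ y.1 y.2.2 - y.2.2)
      (L.US G ×ˢ Metric.sphere (0 : H₂ × H₁) 1) :=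
    ((c₁.comp continuousOn_fst fun z hz => hz.1).clm_apply (by fun_prop)).sub (by fun_prop)
  have dL : ContinuousOn (fun y : (Euc N × Euc N) × (H₂ × H₁) => ‖Lz y.1 y.2‖)
      (L.US G ×ˢ Metric.sphere (0 : H₂ × H₁) 1) :=
    ((cL.comp continuousOn_fst fun z hz => hz.1).clm_apply (by fun_prop)).norm
  -- sum of three nonnegative functions is positive on the compact set
  have hcont : ContinuousOn (fun y : (Euc N × Euc N) × (H₂ × H₁) =>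
      ‖Lz y.1 y.2‖ + (‖P₂ y.1 y.2.1 - y.2.1‖ + ‖P₁ y.1 y.2.2 - y.2.2‖))
      (L.US G ×ˢ Metric.sphere (0 : H₂ × H₁) 1) := dL.add (d₂.norm.add d₁.norm)
  have hpos : ∀ y ∈ L.US G ×ˢ Metric.sphere (0 : H₂ × H₁) 1,
      0 < ‖Lz y.1 y.2‖ + (‖P₂ y.1 y.2.1 - y.2.1‖ + ‖P₁ y.1 y.2.2 - y.2.2‖) := by
    rintro ⟨z, ζ⟩ ⟨hz, hζ⟩
    by_contra hcon
    push Not at hcon
    have n1 := norm_nonneg (Lz z ζ)
    have n2 := norm_nonneg (P₂ z ζ.1 - ζ.1)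
    have n3 := norm_nonneg (P₁ z ζ.2 - ζ.2)
    have f1 : ‖Lz z ζ‖ = 0 := by simp only at hcon; linarith
    have f2 : ‖P₂ z ζ.1 - ζ.1‖ = 0 := by simp only at hcon; linarith
    have f3 : ‖P₁ z ζ.2 - ζ.2‖ = 0 := by simp only at hcon; linarith
    have h0 := hL.inj z hz ζ (sub_eq_zero.1 (norm_eq_zero.1 f2))
      (sub_eq_zero.1 (norm_eq_zero.1 f3)) (norm_eq_zero.1 f1)
    have hζ' : ‖ζ‖ = 1 := by simpa using hζ
    rw [h0, norm_zero] at hζ'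
    exact zero_ne_one hζ'
  obtain ⟨c, hc, hc'⟩ : ∃ c : ℝ, 0 < c ∧ ∀ y ∈ L.US G ×ˢ Metric.sphere (0 : H₂ × H₁) 1,
      c ≤ ‖Lz y.1 y.2‖ + (‖P₂ y.1 y.2.1 - y.2.1‖ + ‖P₁ y.1 y.2.2 - y.2.2‖) := by
    rcases (L.US G ×ˢ Metric.sphere (0 : H₂ × H₁) 1).eq_empty_or_nonempty with he | hne
    · exact ⟨1, one_pos, fun y hy => by rw [he] at hy; exact absurd hy (Set.notMem_empty y)⟩
    · obtain ⟨y₀, hy₀, hmin⟩ := hK.exists_isMinOn hne hcont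
      exact ⟨_, hpos y₀ hy₀, fun y hy => hmin hy⟩
  refine ⟨c⁻¹, inv_pos.2 hc, fun z hz ζ hζ2 hζ1 => ?_⟩
  rcases eq_or_ne ζ 0 with rfl | hne
  · simp
  have hn : 0 < ‖ζ‖ := norm_pos_iff.2 hne
  have h1 := hc' (z, ‖ζ‖⁻¹ • ζ) ⟨hz, by
    rw [mem_sphere_zero_iff_norm, norm_smul, norm_inv, norm_norm, inv_mul_cancel₀ hn.ne']⟩
  simp only [Prod.smul_fst, Prod.smul_snd, map_smul, hζ2, hζ1, sub_self, norm_zero, add_zero] at h1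
  rw [norm_smul, norm_inv, norm_norm] at h1
  rw [inv_mul_eq_div, le_div_iff₀ hc, mul_comm]
  calc c * ‖ζ‖ ≤ (‖ζ‖⁻¹ * ‖Lz z ζ‖) * ‖ζ‖ := by gcongr
    _ = ‖Lz z ζ‖ := by field_simp

/-- the two-arc version -/
theorem LinK2.exists_bound (hS : IsCompact S) (hL : LinK2 h P₁ L2)
    (hP₁ : PField (L.US G) r₁ P₁) : ∃ C : ℝ, 0 < C ∧ ∀ z ∈ L.US G, ∀ ζ : H₁,
      P₁ z ζ = ζ → ‖ζ‖ ≤ C * ‖L2 z ζ‖ := by
  have hK : IsCompact (L.US G ×ˢ Metric.sphere (0 : H₁) 1) :=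
    (LB.isCompact_US (G := G) hS).prod (isCompact_sphere _ _)
  have c₁ : ContinuousOn P₁ (L.US G) := fun x hx =>
    (hP₁.smooth x hx).continuousAt.continuousWithinAt
  have cL : ContinuousOn L2 (L.US G) := fun x hx =>
    (hL.smooth x hx).continuousAt.continuousWithinAt
  have d₁ : ContinuousOn (fun y : (Euc N × Euc N) × H₁ => P₁ y.1 y.2 - y.2)
      (L.US G ×ˢ Metric.sphere (0 : H₁) 1) :=
    ((c₁.comp continuousOn_fst fun z hz => hz.1).clm_apply (by fun_prop)).sub (by fun_prop)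
  have dL : ContinuousOn (fun y : (Euc N × Euc N) × H₁ => ‖L2 y.1 y.2‖)
      (L.US G ×ˢ Metric.sphere (0 : H₁) 1) :=
    ((cL.comp continuousOn_fst fun z hz => hz.1).clm_apply (by fun_prop)).norm
  have hcont : ContinuousOn (fun y : (Euc N × Euc N) × H₁ => ‖L2 y.1 y.2‖ + ‖P₁ y.1 y.2 - y.2‖)
      (L.US G ×ˢ Metric.sphere (0 : H₁) 1) := dL.add d₁.norm
  have hpos : ∀ y ∈ L.US G ×ˢ Metric.sphere (0 : H₁) 1,
      0 < ‖L2 y.1 y.2‖ + ‖P₁ y.1 y.2 - y.2‖ := by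
    rintro ⟨z, ζ⟩ ⟨hz, hζ⟩
    by_contra hcon
    push Not at hcon
    have n1 := norm_nonneg (L2 z ζ)
    have n3 := norm_nonneg (P₁ z ζ - ζ)
    have f1 : ‖L2 z ζ‖ = 0 := by simp only at hcon; linarith
    have f3 : ‖P₁ z ζ - ζ‖ = 0 := by simp only at hcon; linarith
    have h0 := hL.inj z hz ζ (sub_eq_zero.1 (norm_eq_zero.1 f3)) (norm_eq_zero.1 f1)
    have hζ' : ‖ζ‖ = 1 := by simpa using hζ
    rw [h0, norm_zero] at hζ'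
    exact zero_ne_one hζ'
  obtain ⟨c, hc, hc'⟩ : ∃ c : ℝ, 0 < c ∧ ∀ y ∈ L.US G ×ˢ Metric.sphere (0 : H₁) 1,
      c ≤ ‖L2 y.1 y.2‖ + ‖P₁ y.1 y.2 - y.2‖ := by
    rcases (L.US G ×ˢ Metric.sphere (0 : H₁) 1).eq_empty_or_nonempty with he | hne
    · exact ⟨1, one_pos, fun y hy => by rw [he] at hy; exact absurd hy (Set.notMem_empty y)⟩
    · obtain ⟨y₀, hy₀, hmin⟩ := hK.exists_isMinOn hne hcont
      exact ⟨_, hpos y₀ hy₀, fun y hy => hmin hy⟩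
  refine ⟨c⁻¹, inv_pos.2 hc, fun z hz ζ hζ1 => ?_⟩
  rcases eq_or_ne ζ 0 with rfl | hne
  · simp
  have hn : 0 < ‖ζ‖ := norm_pos_iff.2 hne
  have h1 := hc' (z, ‖ζ‖⁻¹ • ζ) ⟨hz, by
    rw [mem_sphere_zero_iff_norm, norm_smul, norm_inv, norm_norm, inv_mul_cancel₀ hn.ne']⟩
  simp only [map_smul, hζ1, sub_self, norm_zero, add_zero] at h1
  rw [norm_smul, norm_inv, norm_norm] at h1
  rw [inv_mul_eq_div, le_div_iff₀ hc, mul_comm]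
  calc c * ‖ζ‖ ≤ (‖ζ‖⁻¹ * ‖L2 z ζ‖) * ‖ζ‖ := by gcongr
    _ = ‖L2 z ζ‖ := by field_simp

/-! ### the gap -/

lemma norm_le_of_sq {x : Euc N} {c ρ : ℝ} (hρ : 0 ≤ ρ) (hc : ‖x‖ ^ 2 ≤ c)
    (h1 : c ≤ ρ ^ 2) : ‖x‖ ≤ ρ := by
  have := hc.trans h1
  exact (pow_le_pow_iff_left₀ (norm_nonneg _) hρ two_ne_zero).1 this

/-- **(3) gap**, four arcs -/
theorem LinK.gap (hS : IsCompact S) (hL : LinK h P₂ P₁ Lz) (hP₂ : PField (L.US G) r₂ P₂)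
    (hP₁ : PField (L.US G) r₁ P₁) (hr : r₁ + r₂ + 3 = 3 * k) {ρ : ℝ} (hρ : 0 < ρ) :
    ∃ c : ℝ, 0 < c ∧ ∀ κ' ∈ N4 h, (∀ i, ‖(nest4 κ').2 i - (nest4 κ').2 0‖ ^ 2 < c) →
      ∃ x ∈ TP.TT (L.US G) P₂ P₁, ‖x.1.2‖ < ρ ∧ ‖x.2‖ < ρ ∧ Psi Lz x = κ' := by
  obtain ⟨C, hC, hCb⟩ := hL.exists_bound hS hP₂ hP₁
  set σ : ℝ := ρ / (4 * C) with hσ
  have hσ0 : 0 < σ := by positivity
  refine ⟨min 1 (σ ^ 2), lt_min one_pos (by positivity), fun κ' hκ' hi => ?_⟩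
  obtain ⟨⟨⟨z, v1⟩, v2⟩, v3⟩ := κ'
  obtain ⟨⟨⟨⟨⟨⟨hz, p1⟩, q1⟩, p2⟩, q2⟩, p3⟩, q3⟩ := hκ'
  simp only at hz p1 q1 p2 q2 p3 q3
  have k1 : ‖v1 - z.2‖ ^ 2 < min 1 (σ ^ 2) := hi 1
  have k2 : ‖v2 - z.2‖ ^ 2 < min 1 (σ ^ 2) := hi 2
  have k3 : ‖v3 - z.2‖ ^ 2 < min 1 (σ ^ 2) := hi 3
  have key : ∀ {v : Euc N}, PVB h (phi G z) v = v → ‖v‖ = 1 →
      ‖v - z.2‖ ^ 2 < min 1 (σ ^ 2) → (0:ℝ) < ⟪v, z.2⟫ ∧ inv1 z.2 v ∈ V0 G z ∧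
        ‖inv1 z.2 v‖ ≤ 2 * σ := by
    intro v hv hv1 hvs
    obtain ⟨a1, a2⟩ := lt_min_iff.1 hvs
    have h0 : (0 : ℝ) < ⟪v, z.2⟫ := by
      rw [inner_eq hz.2 hv1]
      linarith
    refine ⟨h0, inv1_mem h hz hv h0, ?_⟩
    refine norm_le_of_sq (by positivity) (norm_inv1_sq hz.2 hv1 a1.le) ?_
    rw [mul_pow]
    linarith
  obtain ⟨i1, m1, n1⟩ := key p1 q1 k1
  obtain ⟨i2, m2, n2⟩ := key p2 q2 k2
  obtain ⟨i3, m3, n3⟩ := key p3 q3 k3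
  obtain ⟨ζ, e₂, e₁, l1, l2, l3⟩ := hL.surj hP₂ hP₁ hr hz m1 m2 m3
  have hn : ‖Lz z ζ‖ ≤ 2 * σ := by
    rw [pi_norm_le_iff_of_nonneg (by positivity)]
    intro i
    fin_cases i
    · change ‖Lz z ζ 0‖ ≤ 2 * σ
      rw [hL.zero z hz ζ e₂ e₁, norm_zero]
      positivity
    · change ‖Lz z ζ 1‖ ≤ 2 * σ
      rw [l1]; exact n1
    · change ‖Lz z ζ 2‖ ≤ 2 * σ
      rw [l2]; exact n2
    · change ‖Lz z ζ 3‖ ≤ 2 * σ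
      rw [l3]; exact n3
  have hζ : ‖ζ‖ < ρ := by
    refine (hCb z hz ζ e₂ e₁).trans_lt ?_
    calc C * ‖Lz z ζ‖ ≤ C * (2 * σ) := by gcongr
      _ = ρ / 2 := by rw [hσ]; field_simp; ring
      _ < ρ := by linarith
  refine ⟨((z, ζ.1), ζ.2), mem_TT.2 ⟨hz, e₂, e₁⟩, (norm_fst_le ζ).trans_lt hζ,
    (norm_snd_le ζ).trans_lt hζ, ?_⟩
  unfold Psi Li
  simp only [Prod.mk.eta, l1, l2, l3, nrm_inv1 q1 i1, nrm_inv1 q2 i2, nrm_inv1 q3 i3]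

/-- **(3) gap**, two arcs -/
theorem LinK2.gap (hS : IsCompact S) (hL : LinK2 h P₁ L2)
    (hP₁ : PField (L.US G) r₁ P₁) (hr : r₁ + 1 = k) {ρ : ℝ} (hρ : 0 < ρ) :
    ∃ c : ℝ, 0 < c ∧ ∀ κ' ∈ N2 h, ‖κ'.2 - κ'.1.2‖ ^ 2 < c →
      ∃ x ∈ Tot (L.US G) P₁, ‖x.2‖ < ρ ∧ Psi2 L2 x = κ' := by
  obtain ⟨C, hC, hCb⟩ := hL.exists_bound hS hP₁
  set σ : ℝ := ρ / (4 * C) with hσ
  have hσ0 : 0 < σ := by positivity
  refine ⟨min 1 (σ ^ 2), lt_min one_pos (by positivity), fun κ' hκ' k1 => ?_⟩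
  obtain ⟨z, v1⟩ := κ'
  obtain ⟨⟨hz, p1⟩, q1⟩ := hκ'
  simp only at hz p1 q1 k1
  obtain ⟨a1, a2⟩ := lt_min_iff.1 k1
  have i1 : (0 : ℝ) < ⟪v1, z.2⟫ := by
    rw [inner_eq hz.2 q1]
    linarith
  have m1 := inv1_mem h hz p1 i1
  have n1 : ‖inv1 z.2 v1‖ ≤ 2 * σ := by
    refine norm_le_of_sq (by positivity) (norm_inv1_sq hz.2 q1 a1.le) ?_
    rw [mul_pow]
    linarith
  obtain ⟨ζ, e₁, l1⟩ := hL.surj hP₁ hr hz m1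
  have hn : ‖L2 z ζ‖ ≤ 2 * σ := by
    rw [pi_norm_le_iff_of_nonneg (by positivity)]
    intro i
    fin_cases i
    · change ‖L2 z ζ 0‖ ≤ 2 * σ
      rw [hL.zero z hz ζ e₁, norm_zero]
      positivity
    · change ‖L2 z ζ 1‖ ≤ 2 * σ
      rw [l1]; exact n1
  have hζ : ‖ζ‖ < ρ := by
    refine (hCb z hz ζ e₁).trans_lt ?_
    calc C * ‖L2 z ζ‖ ≤ C * (2 * σ) := by gcongr
      _ = ρ / 2 := by rw [hσ]; field_simp; ring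
      _ < ρ := by linarith
  refine ⟨(z, ζ), ⟨hz, e₁⟩, hζ, ?_⟩
  unfold Psi2
  simp only [l1, nrm_inv1 q1 i1]

/-- the gap in terms of the sum of squares -/
theorem LinK.gap_sum (hS : IsCompact S) (hL : LinK h P₂ P₁ Lz) (hP₂ : PField (L.US G) r₂ P₂)
    (hP₁ : PField (L.US G) r₁ P₁) (hr : r₁ + r₂ + 3 = 3 * k) {ρ : ℝ} (hρ : 0 < ρ) :
    ∃ c : ℝ, 0 < c ∧ ∀ κ' ∈ N4 h, (∑ i, ‖(nest4 κ').2 i - (nest4 κ').2 0‖ ^ 2 < c) →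
      ∃ x ∈ TP.TT (L.US G) P₂ P₁, ‖x.1.2‖ < ρ ∧ ‖x.2‖ < ρ ∧ Psi Lz x = κ' := by
  obtain ⟨c, hc, h1⟩ := hL.gap hS hP₂ hP₁ hr hρ
  refine ⟨c, hc, fun κ' hκ' hs => h1 κ' hκ' fun i => lt_of_le_of_lt ?_ hs⟩
  exact Finset.single_le_sum (f := fun i => ‖(nest4 κ').2 i - (nest4 κ').2 0‖ ^ 2)
    (fun j _ => sq_nonneg _) (Finset.mem_univ i)

/-- the gap in terms of the energy of the rounded loops: off the tube the energy is smaller than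
`4π` by a definite amount -/
theorem LinK.gap_En (hS : IsCompact S) (hL : LinK h P₂ P₁ Lz) (hP₂ : PField (L.US G) r₂ P₂)
    (hP₁ : PField (L.US G) r₁ P₁) (hr : r₁ + r₂ + 3 = 3 * k) {ρ ε c : ℝ} (hρ : 0 < ρ) (hc : 0 < c)
    (hE : ∀ z ∈ KG.Km G 4, ∀ i, MS.En (KG.F G 4 ε z 0) ≤
        4 * Real.pi - c * ‖z.2 i - z.2 (idx 4 0)‖ ^ 2) :
    ∃ δ : ℝ, 0 < δ ∧ ∀ κ' ∈ N4 h, 4 * Real.pi - δ < MS.En (KG.F G 4 ε (nest4 κ') 0) →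
      ∃ x ∈ TP.TT (L.US G) P₂ P₁, ‖x.1.2‖ < ρ ∧ ‖x.2‖ < ρ ∧ Psi Lz x = κ' := by
  obtain ⟨c', hc', h1⟩ := hL.gap hS hP₂ hP₁ hr hρ
  refine ⟨c * c', by positivity, fun κ' hκ' hs => h1 κ' hκ' fun i => ?_⟩
  have h2 := hE (nest4 κ') (KG.nest4_mem h hκ') i
  have h3 : c * ‖(nest4 κ').2 i - (nest4 κ').2 (idx 4 0)‖ ^ 2 < c * c' := by linarith
  exact lt_of_mul_lt_mul_left h3 hc.le

/-- the same for two arcs -/
theorem LinK2.gap_En (hS : IsCompact S) (hL : LinK2 h P₁ L2)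
    (hP₁ : PField (L.US G) r₁ P₁) (hr : r₁ + 1 = k) {ρ ε c : ℝ} (hρ : 0 < ρ) (hc : 0 < c)
    (hE : ∀ z ∈ KG.Km G 2, ∀ i, MS.En (KG.F G 2 ε z 0) ≤
        Real.pi - c * ‖z.2 i - z.2 (idx 2 0)‖ ^ 2) :
    ∃ δ : ℝ, 0 < δ ∧ ∀ κ' ∈ N2 h, Real.pi - δ < MS.En (KG.F G 2 ε (nest2 κ') 0) →
      ∃ x ∈ Tot (L.US G) P₁, ‖x.2‖ < ρ ∧ Psi2 L2 x = κ' := by
  obtain ⟨c', hc', h1⟩ := hL.gap hS hP₁ hr hρ
  refine ⟨c * c', by positivity, fun κ' hκ' hs => h1 κ' hκ' ?_⟩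
  have h2 := hE (nest2 κ') (KG.nest2_mem h hκ') 1
  have h3 : c * ‖(nest2 κ').2 1 - (nest2 κ').2 (idx 2 0)‖ ^ 2 < c * c' := by linarith
  exact lt_of_mul_lt_mul_left h3 hc.le

end Crest.Agent.R208.TU
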