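import Crest.Agent.R208.TU2

/-!
Row 208, block TU (helper10), part TU3: composition of oriented submersions; the nested sphere
bundles `N2`, `N3`, `N4` over `US` are closed manifolds, oriented submersions over each other and
over `US`.
-/

set_option autoImplicit false
set_option linter.unusedSectionVars false
set_option linter.unusedVariables false

open Set Filter Topology MeasureTheory Module
open scoped ContDiff RealInnerProductSpace Interval
open Crest.GeometryTopology.Submanifold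
open Crest.Agent.R241.DDefs
open Crest.Agent.R241.D2
open Crest.Agent.R241.D3c
open Crest.Agent.R208.F Crest.Agent.R208.FI Crest.Agent.R208.T Crest.Agent.R208.FG
open Crest.Agent.R208.FV (PVB phi phi_mem PV_eq_self pfield_PVB contDiffAt_phi)
open Crest.Agent.R208.KG (N2 N3 N4 nest4 nest2 idx)
open Crest.Agent.R208.SB (OPr oV contDiffAt_oV isDeg_oV osubm_Sph subm_Sph clo_Sph exists_opr_V)

noncomputable section

namespace Crest.Agent.R208.TU

/-! ### composition -/

section comp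
variable {A B C : Type*} [NormedAddCommGroup A] [NormedSpace ℝ A] [FiniteDimensional ℝ A]
  [NormedAddCommGroup B] [NormedSpace ℝ B] [FiniteDimensional ℝ B]
  [NormedAddCommGroup C] [NormedSpace ℝ C] [FiniteDimensional ℝ C]
  {W : Set A} {Z : Set B} {X : Set C} {g : A → B} {f : B → C} {r₁ r₂ d : ℕ}
  {oW : A → Ext A} {oZ : B → Ext B} {oX : C → Ext C}

theorem subm_comp (h' : Subm r₂ (r₁ + d) W Z g) (h : Subm r₁ d Z X f) :
    Subm (r₂ + r₁) d W X (f ∘ g) where
  cloZ := by rw [Nat.add_assoc]; exact h'.cloZ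
  cloX := h.cloX
  smooth w hw := (h.smooth _ (h'.mapsTo hw)).comp w (h'.smooth w hw)
  mapsTo w hw := h.mapsTo (h'.mapsTo hw)
  sub := by
    intro w hw a ha
    obtain ⟨b, hb, hba⟩ := h.sub _ (h'.mapsTo hw) a ha
    obtain ⟨c, hc, hcb⟩ := h'.sub w hw b hb
    refine ⟨c, hc, ?_⟩
    rw [fderiv_comp w ((h.smooth _ (h'.mapsTo hw)).differentiableAt (by simp))
      ((h'.smooth w hw).differentiableAt (by simp)), ContinuousLinearMap.comp_apply, hcb, hba]

/-- **composition of oriented submersions** -/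
theorem osubm_comp (h' : OSubm r₂ (r₁ + d) W Z g oW (fun z => oZ z * pull f oX z))
    (h : OSubm r₁ d Z X f oZ oX) :
    OSubm (r₂ + r₁) d W X (f ∘ g) (fun w => oW w * pull g oZ w) oX where
  subm := subm_comp h'.subm h.subm
  cV := continuousOn_mul h'.cV (h'.subm.continuousOn_pull h.cV)
  base := h.base
  dY := h.dY
  tot := by
    have h1 := h'.tot
    have key : ∀ w ∈ W, oW w * pull g oZ w * pull (f ∘ g) oX w =
        oW w * pull g (fun z => oZ z * pull f oX z) w := by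
      intro w hw
      rw [pull_mul, mul_assoc, ← pull_comp ((h'.subm.smooth w hw).differentiableAt (by simp))
        ((h.subm.smooth _ (h'.subm.mapsTo hw)).differentiableAt (by simp))]
    rw [Nat.add_assoc]
    refine ⟨h1.cont.congr fun w hw => key w hw, fun w hw => ?_⟩
    have h2 := h1.ne w hw
    rw [← key w hw] at h2
    exact h2

end comp

/-! ### the nested sphere bundles -/

variable {n N k d r : ℕ} {κ : ℝ} {S : Set (Euc N)} {G : Geo n N κ S}

theorem smap_phi (h : GT.Bla G k) : CW.SMap (L.US G) (GT.FF S) (phi G) :=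
  ⟨fun _ hz => contDiffAt_phi hz.1, fun _ hz => phi_mem h.bl hz⟩

theorem pfield_phi (h : GT.Bla G k) : PField (L.US G) k (fun z => PVB h (phi G z)) :=
  ⟨fun z hz => ((pfield_PVB h).smooth _ ((smap_phi h).maps hz)).comp z ((smap_phi h).smooth z hz),
    fun z hz => (pfield_PVB h).idem _ ((smap_phi h).maps hz),
    fun z hz => (pfield_PVB h).rank _ ((smap_phi h).maps hz)⟩

theorem smap_N2 (h : GT.Bla G k) :
    CW.SMap (N2 h) (L.US G) (Prod.fst : (Euc N × Euc N) × Euc N → Euc N × Euc N) :=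
  ⟨fun _ _ => contDiffAt_fst, fun _ hz => hz.1.1⟩

theorem smap_N3 (h : GT.Bla G k) :
    CW.SMap (N3 h) (N2 h) (Prod.fst : ((Euc N × Euc N) × Euc N) × Euc N → _) :=
  ⟨fun _ _ => contDiffAt_fst, fun _ hz => hz.1.1⟩

theorem smap_N4 (h : GT.Bla G k) :
    CW.SMap (N4 h) (N3 h) (Prod.fst : (((Euc N × Euc N) × Euc N) × Euc N) × Euc N → _) :=
  ⟨fun _ _ => contDiffAt_fst, fun _ hz => hz.1.1⟩

theorem pfield_N2 (h : GT.Bla G k) :
    PField (N2 h) k (fun z : (Euc N × Euc N) × Euc N => PVB h (phi G z.1)) :=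
  ⟨fun z hz => ((pfield_phi h).smooth _ ((smap_N2 h).maps hz)).comp z ((smap_N2 h).smooth z hz),
    fun z hz => (pfield_phi h).idem _ ((smap_N2 h).maps hz),
    fun z hz => (pfield_phi h).rank _ ((smap_N2 h).maps hz)⟩

theorem pfield_N3 (h : GT.Bla G k) :
    PField (N3 h) k (fun z : ((Euc N × Euc N) × Euc N) × Euc N => PVB h (phi G z.1.1)) :=
  ⟨fun z hz => ((pfield_N2 h).smooth _ ((smap_N3 h).maps hz)).comp z ((smap_N3 h).smooth z hz),
    fun z hz => (pfield_N2 h).idem _ ((smap_N3 h).maps hz),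
    fun z hz => (pfield_N2 h).rank _ ((smap_N3 h).maps hz)⟩

section clo

theorem clo_N2 (h : GT.Bla G k) (hr : r + 1 = k) (hd : d + 1 = 2 * n) : Clo (r + d) (N2 h) := by
  subst hr
  exact clo_Sph (SB.clo_US h hd) (pfield_phi h)

theorem clo_N3 (h : GT.Bla G k) (hr : r + 1 = k) (hd : d + 1 = 2 * n) :
    Clo (r + (r + d)) (N3 h) := by
  subst hr
  exact clo_Sph (clo_N2 h rfl hd) (pfield_N2 h)

theorem clo_N4 (h : GT.Bla G k) (hr : r + 1 = k) (hd : d + 1 = 2 * n) :
    Clo (r + (r + (r + d))) (N4 h) := by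
  subst hr
  exact clo_Sph (clo_N3 h rfl hd) (pfield_N3 h)

theorem subm_N2 (h : GT.Bla G k) (hr : r + 1 = k) (hd : d + 1 = 2 * n) :
    Subm r d (N2 h) (L.US G) Prod.fst := by
  subst hr
  exact subm_Sph (SB.clo_US h hd) (pfield_phi h)

theorem subm_N3 (h : GT.Bla G k) (hr : r + 1 = k) (hd : d + 1 = 2 * n) :
    Subm r (r + d) (N3 h) (N2 h) Prod.fst := by
  subst hr
  exact subm_Sph (clo_N2 h rfl hd) (pfield_N2 h)

theorem subm_N4 (h : GT.Bla G k) (hr : r + 1 = k) (hd : d + 1 = 2 * n) :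
    Subm r (r + (r + d)) (N4 h) (N3 h) Prod.fst := by
  subst hr
  exact subm_Sph (clo_N3 h rfl hd) (pfield_N3 h)

/-- **`N4 h → US G` is a submersion** with fibres of dimension `3 (k - 1)` -/
theorem subm_N4_US (h : GT.Bla G k) (hr : r + 1 = k) (hd : d + 1 = 2 * n) :
    Subm (r + r + r) d (N4 h) (L.US G) (fun z => z.1.1.1) := by
  have h1 := subm_comp (subm_N3 h hr hd) (subm_N2 h hr hd)
  have h2 := subm_N4 h hr hd
  have h3 : Subm r ((r + r) + d) (N4 h) (N3 h) Prod.fst := by rw [Nat.add_assoc]; exact h2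
  have h4 := subm_comp h3 h1
  have h5 : Subm (r + (r + r)) d (N4 h) (L.US G) (fun z => z.1.1.1) := h4
  rwa [← Nat.add_assoc] at h5

end clo

/-! ### orientations -/

section ori

/-- orientation form of the link bundle over `US` -/
theorem exists_opr (h : GT.Bla G k) (hk : 2 ≤ k) (hkn : k < n) :
    ∃ oP, OPr (L.US G) k (fun z => PVB h (phi G z)) oP := by
  obtain ⟨oP, hoP⟩ := exists_opr_V h hk hkn
  exact ⟨_, hoP.comp (smap_phi h)⟩

variable {oP oX : Euc N × Euc N → Ext (Euc N × Euc N)}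

end ori

section ori2
variable {oP : Euc N × Euc N → Ext (Euc N)} {oX : Euc N × Euc N → Ext (Euc N × Euc N)}

theorem opr_N2 {h : GT.Bla G k} (ho : OPr (L.US G) k (fun z => PVB h (phi G z)) oP) :
    OPr (N2 h) k (fun z : (Euc N × Euc N) × Euc N => PVB h (phi G z.1)) (fun z => oP z.1) :=
  ho.comp (smap_N2 h)

theorem opr_N3 {h : GT.Bla G k} (ho : OPr (L.US G) k (fun z => PVB h (phi G z)) oP) :
    OPr (N3 h) k (fun z : ((Euc N × Euc N) × Euc N) × Euc N => PVB h (phi G z.1.1))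
      (fun z => oP z.1.1) :=
  (opr_N2 ho).comp (smap_N3 h)

/-- vertical form of `N2 → US` -/
def w2 (oP : Euc N × Euc N → Ext (Euc N)) :
    (Euc N × Euc N) × Euc N → Ext ((Euc N × Euc N) × Euc N) := oV oP

/-- vertical form of `N3 → N2` -/
def w3 (oP : Euc N × Euc N → Ext (Euc N)) :
    ((Euc N × Euc N) × Euc N) × Euc N → Ext (((Euc N × Euc N) × Euc N) × Euc N) :=
  oV (fun z : (Euc N × Euc N) × Euc N => oP z.1)

/-- vertical form of `N4 → N3` -/
def w4 (oP : Euc N × Euc N → Ext (Euc N)) :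
    (((Euc N × Euc N) × Euc N) × Euc N) × Euc N →
      Ext ((((Euc N × Euc N) × Euc N) × Euc N) × Euc N) :=
  oV (fun z : ((Euc N × Euc N) × Euc N) × Euc N => oP z.1.1)

/-- orientation of `N2` -/
def o2 (oP : Euc N × Euc N → Ext (Euc N)) (oX : Euc N × Euc N → Ext (Euc N × Euc N)) :
    (Euc N × Euc N) × Euc N → Ext ((Euc N × Euc N) × Euc N) :=
  fun z => w2 oP z * pull Prod.fst oX z

/-- orientation of `N3` -/
def o3 (oP : Euc N × Euc N → Ext (Euc N)) (oX : Euc N × Euc N → Ext (Euc N × Euc N)) :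
    ((Euc N × Euc N) × Euc N) × Euc N → Ext (((Euc N × Euc N) × Euc N) × Euc N) :=
  fun z => w3 oP z * pull Prod.fst (o2 oP oX) z

/-- orientation of `N4` -/
def o4 (oP : Euc N × Euc N → Ext (Euc N)) (oX : Euc N × Euc N → Ext (Euc N × Euc N)) :
    (((Euc N × Euc N) × Euc N) × Euc N) × Euc N →
      Ext ((((Euc N × Euc N) × Euc N) × Euc N) × Euc N) :=
  fun z => w4 oP z * pull Prod.fst (o3 oP oX) z

variable {h : GT.Bla G k}

theorem isDeg_o2 (ho : OPr (L.US G) (r + 1) (fun z => PVB h (phi G z)) oP)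
    (hd : ∀ x, IsDeg d (oX x)) (z) : IsDeg (r + d) (o2 oP oX z) :=
  isDeg_mul (isDeg_oV ho z) ((hd _).pb _)

/-- **`N2 → US`** -/
theorem osubm_N2 (hr : r + 1 = k) (hd : d + 1 = 2 * n)
    (ho : OPr (L.US G) k (fun z => PVB h (phi G z)) oP) (hoX : Ori d (L.US G) oX)
    (hdX : ∀ x, IsDeg d (oX x)) :
    OSubm r d (N2 h) (L.US G) Prod.fst (w2 oP) oX := by
  subst hr
  exact osubm_Sph (SB.clo_US h hd) (pfield_phi h) ho hoX hdX

/-- **`N3 → N2`** -/
theorem osubm_N3 (hr : r + 1 = k) (hd : d + 1 = 2 * n)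
    (ho : OPr (L.US G) k (fun z => PVB h (phi G z)) oP) (hoX : Ori d (L.US G) oX)
    (hdX : ∀ x, IsDeg d (oX x)) :
    OSubm r (r + d) (N3 h) (N2 h) Prod.fst (w3 oP) (o2 oP oX) := by
  have h2 := osubm_N2 hr hd ho hoX hdX
  subst hr
  exact osubm_Sph (clo_N2 h rfl hd) (pfield_N2 h) (opr_N2 ho) h2.tot (isDeg_o2 ho hdX)

theorem isDeg_o3 (ho : OPr (L.US G) (r + 1) (fun z => PVB h (phi G z)) oP)
    (hd : ∀ x, IsDeg d (oX x)) (z) : IsDeg (r + (r + d)) (o3 oP oX z) := by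
  have h1 : ∀ x, IsDeg (r + 1) (oP x) := ho.deg
  exact isDeg_mul (((h1 _).ii _).pb _) ((isDeg_o2 ho hd _).pb _)

/-- **`N4 → N3`** -/
theorem osubm_N4 (hr : r + 1 = k) (hd : d + 1 = 2 * n)
    (ho : OPr (L.US G) k (fun z => PVB h (phi G z)) oP) (hoX : Ori d (L.US G) oX)
    (hdX : ∀ x, IsDeg d (oX x)) :
    OSubm r (r + (r + d)) (N4 h) (N3 h) Prod.fst (w4 oP) (o3 oP oX) := by
  have h2 := osubm_N3 hr hd ho hoX hdX
  subst hr
  exact osubm_Sph (clo_N3 h rfl hd) (pfield_N3 h) (opr_N3 ho) h2.tot (isDeg_o3 ho hdX)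

/-- total vertical form of `N3 → US` -/
def v3 (oP : Euc N × Euc N → Ext (Euc N)) :
    ((Euc N × Euc N) × Euc N) × Euc N → Ext (((Euc N × Euc N) × Euc N) × Euc N) :=
  fun z => w3 oP z * pull Prod.fst (w2 oP) z

/-- total vertical form of `N4 → US` -/
def v4 (oP : Euc N × Euc N → Ext (Euc N)) :
    (((Euc N × Euc N) × Euc N) × Euc N) × Euc N →
      Ext ((((Euc N × Euc N) × Euc N) × Euc N) × Euc N) :=
  fun z => w4 oP z * pull Prod.fst (v3 oP) z

/-- **`N3 → US`** -/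
theorem osubm_N3_US (hr : r + 1 = k) (hd : d + 1 = 2 * n)
    (ho : OPr (L.US G) k (fun z => PVB h (phi G z)) oP) (hoX : Ori d (L.US G) oX)
    (hdX : ∀ x, IsDeg d (oX x)) :
    OSubm (r + r) d (N3 h) (L.US G) (fun z => z.1.1) (v3 oP) oX :=
  osubm_comp (osubm_N3 hr hd ho hoX hdX) (osubm_N2 hr hd ho hoX hdX)

/-- the two ways of building the orientation of `N3` agree -/
theorem o3_eq (z : ((Euc N × Euc N) × Euc N) × Euc N) :
    v3 oP z * pull (fun z : ((Euc N × Euc N) × Euc N) × Euc N => z.1.1) oX z = o3 oP oX z := by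
  unfold o3 o2 v3
  rw [pull_mul, mul_assoc, pull_comp differentiableAt_fst differentiableAt_fst]
  rfl

/-- the two ways of building the orientation of `N4` agree -/
theorem o4_eq (z : (((Euc N × Euc N) × Euc N) × Euc N) × Euc N) :
    v4 oP z * pull (fun z : (((Euc N × Euc N) × Euc N) × Euc N) × Euc N => z.1.1.1) oX z =
      o4 oP oX z := by
  have h1 : o3 oP oX = 
      (fun z => v3 oP z * pull (fun z : ((Euc N × Euc N) × Euc N) × Euc N => z.1.1) oX z) :=
    funext fun z => (o3_eq z).symm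
  have h2 : DifferentiableAt ℝ (fun z : ((Euc N × Euc N) × Euc N) × Euc N => z.1.1) z.1 := by
    fun_prop
  unfold o4 v4
  rw [h1, pull_mul, mul_assoc, pull_comp differentiableAt_fst h2]
  rfl

/-- **`N4 → US`** is an oriented submersion of relative dimension `3 (k - 1)` -/
theorem osubm_N4_US (hr : r + 1 = k) (hd : d + 1 = 2 * n)
    (ho : OPr (L.US G) k (fun z => PVB h (phi G z)) oP) (hoX : Ori d (L.US G) oX)
    (hdX : ∀ x, IsDeg d (oX x)) :
    OSubm (r + (r + r)) d (N4 h) (L.US G) (fun z => z.1.1.1) (v4 oP) oX := by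
  have h1 := osubm_N3_US hr hd ho hoX hdX
  have h2 := osubm_N4 hr hd ho hoX hdX
  have e : o3 oP oX =
      (fun z => v3 oP z * pull (fun z : ((Euc N × Euc N) × Euc N) × Euc N => z.1.1) oX z) :=
    funext fun z => (o3_eq z).symm
  rw [e] at h2
  have h3 : OSubm r ((r + r) + d) (N4 h) (N3 h) Prod.fst (w4 oP)
      (fun z => v3 oP z * pull (fun z : ((Euc N × Euc N) × Euc N) × Euc N => z.1.1) oX z) := by
    rw [Nat.add_assoc]
    exact h2
  have h4 := osubm_comp (r₂ := r) (r₁ := r + r) (d := d) (W := N4 h) (Z := N3 h) (X := L.US G)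
    (g := (Prod.fst : (((Euc N × Euc N) × Euc N) × Euc N) × Euc N → _))
    (f := fun z : ((Euc N × Euc N) × Euc N) × Euc N => z.1.1)
    (oW := w4 oP) (oZ := v3 oP) (oX := oX) h3 h1
  exact h4

/-! smoothness and degree of the vertical forms -/

theorem contDiffAt_w2 (ho : OPr (L.US G) k (fun z => PVB h (phi G z)) oP)
    {z : (Euc N × Euc N) × Euc N} (hz : z ∈ N2 h) : ContDiffAt ℝ ∞ (w2 oP) z :=
  contDiffAt_oV ho hz.1.1

theorem contDiffAt_w3 (ho : OPr (L.US G) k (fun z => PVB h (phi G z)) oP)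
    {z : ((Euc N × Euc N) × Euc N) × Euc N} (hz : z ∈ N3 h) : ContDiffAt ℝ ∞ (w3 oP) z :=
  contDiffAt_oV (opr_N2 ho) hz.1.1

theorem contDiffAt_w4 (ho : OPr (L.US G) k (fun z => PVB h (phi G z)) oP)
    {z : (((Euc N × Euc N) × Euc N) × Euc N) × Euc N} (hz : z ∈ N4 h) :
    ContDiffAt ℝ ∞ (w4 oP) z :=
  contDiffAt_oV (opr_N3 ho) hz.1.1

theorem contDiffAt_v3 (ho : OPr (L.US G) k (fun z => PVB h (phi G z)) oP)
    {z : ((Euc N × Euc N) × Euc N) × Euc N} (hz : z ∈ N3 h) : ContDiffAt ℝ ∞ (v3 oP) z :=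
  contDiffAt_mul (contDiffAt_w3 ho hz)
    (contDiffAt_pull (n := ∞) contDiffAt_fst (by simp) (contDiffAt_w2 ho hz.1.1))

theorem contDiffAt_v4 (ho : OPr (L.US G) k (fun z => PVB h (phi G z)) oP)
    {z : (((Euc N × Euc N) × Euc N) × Euc N) × Euc N} (hz : z ∈ N4 h) :
    ContDiffAt ℝ ∞ (v4 oP) z :=
  contDiffAt_mul (contDiffAt_w4 ho hz)
    (contDiffAt_pull (n := ∞) contDiffAt_fst (by simp) (contDiffAt_v3 ho hz.1.1))

theorem hom_w2 (hr : r + 1 = k) (ho : OPr (L.US G) k (fun z => PVB h (phi G z)) oP) :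
    Hom r (w2 oP) := by
  subst hr
  intro z
  exact isDeg_oV ho z

theorem hom_w3 (hr : r + 1 = k) (ho : OPr (L.US G) k (fun z => PVB h (phi G z)) oP) :
    Hom r (w3 oP) := by
  subst hr
  intro z
  have h1 : ∀ x, IsDeg (r + 1) (oP x) := ho.deg
  exact ((h1 _).ii _).pb _

theorem hom_w4 (hr : r + 1 = k) (ho : OPr (L.US G) k (fun z => PVB h (phi G z)) oP) :
    Hom r (w4 oP) := by
  subst hr
  intro z
  have h1 : ∀ x, IsDeg (r + 1) (oP x) := ho.deg
  exact ((h1 _).ii _).pb _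

theorem hom_v3 (hr : r + 1 = k) (ho : OPr (L.US G) k (fun z => PVB h (phi G z)) oP) :
    Hom (r + r) (v3 oP) := fun z => isDeg_mul (hom_w3 hr ho z) ((hom_w2 hr ho _).pb _)

theorem hom_v4 (hr : r + 1 = k) (ho : OPr (L.US G) k (fun z => PVB h (phi G z)) oP) :
    Hom (r + (r + r)) (v4 oP) := fun z => isDeg_mul (hom_w4 hr ho z) ((hom_v3 hr ho _).pb _)

end ori2

end Crest.Agent.R208.TU
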