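import Crest.Agent.R208.KG4

/-!
Row 208, block TU (helper10), part TU4: **circle form**: a smooth `2π`-periodic family over a
compact set comes from a smooth map on `Z × S¹ ⊂ Y × ℂ`.
-/

set_option autoImplicit false
set_option linter.unusedSectionVars false

open Set Filter Topology
open scoped ContDiff

noncomputable section

namespace Crest.Agent.R208.TU

variable {Y F : Type*} [NormedAddCommGroup Y] [NormedSpace ℝ Y] [FiniteDimensional ℝ Y]
  [NormedAddCommGroup F] [NormedSpace ℝ F] {Z : Set Y} {H : Y × ℝ → F}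

lemma per_int {f : ℝ → F} (hp : ∀ t, f (t + 2 * Real.pi) = f t) {a b : ℝ}
    (hab : (a : Real.Angle) = b) : f a = f b := by
  obtain ⟨l, hl⟩ := Real.Angle.angle_eq_iff_two_pi_dvd_sub.1 hab
  have h1 : Function.Periodic f (2 * Real.pi) := hp
  have h2 : a = b + l * (2 * Real.pi) := by linarith
  rw [h2]
  exact (h1.int_mul l) b

lemma angle_arg_exp (t : ℝ) :
    ((Complex.arg (Complex.exp (t * Complex.I)) : ℝ) : Real.Angle) = (t : Real.Angle) := by
  have h1 := Complex.arg_cos_add_sin_mul_I_coe_angle (t : Real.Angle)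
  rw [Real.Angle.cos_coe, Real.Angle.sin_coe] at h1
  rw [Complex.exp_mul_I, ← Complex.ofReal_cos, ← Complex.ofReal_sin]
  exact h1

/-- **circle form** of a smooth `2π`-periodic family -/
theorem exists_circle (hZ : IsCompact Z) (hs : ∀ y ∈ Z, ∀ t, ContDiffAt ℝ ∞ H (y, t))
    (hp : ∀ y ∈ Z, ∀ t, H (y, t + 2 * Real.pi) = H (y, t)) :
    ∃ Hc : Y × ℂ → F, (∀ y ∈ Z, ∀ u : ℂ, ‖u‖ = 1 → ContDiffAt ℝ ∞ Hc (y, u)) ∧
      ∀ y ∈ Z, ∀ t : ℝ, Hc (y, Complex.exp (t * Complex.I)) = H (y, t) := by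
  obtain ⟨f, hf, hf'⟩ := GP.exists_extension (E := Y × ℂ) (F := F)
    (K := Z ×ˢ Metric.sphere (0 : ℂ) 1) (hZ.prod (isCompact_sphere _ _))
    (f := fun q => H (q.1, Complex.arg q.2)) (by
      rintro ⟨y₀, u₀⟩ ⟨hy₀, hu₀⟩
      have hu0 : u₀ ≠ 0 := by
        intro h
        rw [h] at hu₀
        simp at hu₀
      have hone : u₀ / u₀ = 1 := div_self hu0
      have hmem1 : (1 : ℂ) ∈ Complex.slitPlane := Complex.one_mem_slitPlane
      have hev : ∀ᶠ q in 𝓝 ((y₀, u₀) : Y × ℂ), q.2 / u₀ ∈ Complex.slitPlane := by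
        have c1 : ContinuousAt (fun q : Y × ℂ => q.2 / u₀) (y₀, u₀) := by fun_prop
        refine c1.eventually_mem (Complex.isOpen_slitPlane.mem_nhds ?_)
        change u₀ / u₀ ∈ _
        rw [hone]; exact hmem1
      obtain ⟨U, hUP, hUo, hU⟩ := eventually_nhds_iff.1 hev
      refine ⟨U, fun q => H (q.1, Complex.arg u₀ + Complex.arg (q.2 / u₀)), hUo, hU, ?_, ?_⟩
      · rintro ⟨y, u⟩ ⟨⟨hy, hu⟩, hqU⟩
        have hq := hUP _ hqU
        have h2 : ContDiffAt ℝ ∞ (fun q : Y × ℂ => Complex.arg (q.2 / u₀)) (y, u) :=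
          ContDiffAt.comp (f := fun q : Y × ℂ => q.2 / u₀) (y, u)
            (KG.contDiffAt_arg hq) (by fun_prop)
        exact ContDiffAt.comp (g := H) (f := fun q : Y × ℂ =>
          (q.1, Complex.arg u₀ + Complex.arg (q.2 / u₀))) (y, u) (hs y hy _)
          (contDiffAt_fst.prodMk (contDiffAt_const.add h2))
      · rintro ⟨y, u⟩ ⟨⟨hy, hu⟩, hqU⟩
        have hu1 : u ≠ 0 := by
          intro h
          rw [h] at hu
          simp at hu
        have h1 : ((Complex.arg u₀ + Complex.arg (u / u₀) : ℝ) : Real.Angle) =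
            ((Complex.arg u : ℝ) : Real.Angle) := by
          have h2 := Complex.arg_mul_coe_angle hu0 (div_ne_zero hu1 hu0)
          rw [mul_div_cancel₀ _ hu0] at h2
          rw [h2]
          rfl
        exact per_int (f := fun t => H (y, t)) (hp y hy) h1)
  refine ⟨f, fun y hy u hu => hf _ ⟨hy, by rw [mem_sphere_zero_iff_norm]; exact hu⟩,
    fun y hy t => ?_⟩
  have h1 : ‖Complex.exp (t * Complex.I)‖ = 1 := Complex.norm_exp_ofReal_mul_I t
  rw [hf' (y, Complex.exp (t * Complex.I)) ⟨hy, by rw [mem_sphere_zero_iff_norm]; exact h1⟩]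
  exact per_int (f := fun t => H (y, t)) (hp y hy) (angle_arg_exp t)

/-- values in a set are preserved -/
theorem exists_circle' (hZ : IsCompact Z) (hs : ∀ y ∈ Z, ∀ t, ContDiffAt ℝ ∞ H (y, t))
    (hp : ∀ y ∈ Z, ∀ t, H (y, t + 2 * Real.pi) = H (y, t)) {S : Set F}
    (hS : ∀ y ∈ Z, ∀ t, H (y, t) ∈ S) :
    ∃ Hc : Y × ℂ → F, (∀ y ∈ Z, ∀ u : ℂ, ‖u‖ = 1 → ContDiffAt ℝ ∞ Hc (y, u)) ∧
      (∀ y ∈ Z, ∀ t : ℝ, Hc (y, Complex.exp (t * Complex.I)) = H (y, t)) ∧
      ∀ y ∈ Z, ∀ u : ℂ, ‖u‖ = 1 → Hc (y, u) ∈ S := by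
  obtain ⟨Hc, h1, h2⟩ := exists_circle hZ hs hp
  refine ⟨Hc, h1, h2, fun y hy u hu => ?_⟩
  have h3 : Complex.exp (Complex.arg u * Complex.I) = u := by
    have := Complex.norm_mul_exp_arg_mul_I u
    rw [hu] at this
    simpa using this
  rw [← h3, h2 y hy]
  exact hS y hy _

end Crest.Agent.R208.TU
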