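import Crest.Agent.R208.TU5
import Crest.Agent.R208.AK11

/-!
Row 208, block TU (helper10), part TU6: **the instance of `LinK`**: the chain map of helper952
(antiperiodic part `j ν = (w₁, w₂) ↦ (a, -b, -a, b)`, periodic part `w ↦ (u, -u, u, -u)`, minus the
zeroth entry) is injective on the fibres of `P₂ ⊕ PN`.
-/

set_option autoImplicit false
set_option linter.unusedSectionVars false
set_option linter.unusedVariables false

open Set Filter Topology MeasureTheory Module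
open scoped ContDiff RealInnerProductSpace Interval
open Crest.GeometryTopology.Submanifold
open Crest.Agent.R241.DDefs
open Crest.Agent.R241.D2
open Crest.Agent.R241.D3c
open Crest.Agent.R208.NN (V0 qq Wt nuP)
open Crest.Agent.R208.FI (Tan Sub Clo PField Tot)
open Crest.Agent.R208.KG (OK N2 N3 N4 nest4 nest2 idx)
open Crest.Agent.R208.AK (HC PP PP_eq Lall LP LA uN zan mkZ cP)

noncomputable section

namespace Crest.Agent.R208.TU

variable {n N k Kn : ℕ} {κ : ℝ} {S : Set (Euc N)} {G : Geo n N κ S} {z : Euc N × Euc N}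
  {δ ε c : ℝ} {PN : Euc N × Euc N → Wt N Kn →L[ℝ] Wt N Kn}

theorem pfield_NB {ν : Fin Kn → ℝ} {r : ℕ} (H : NB.NegB G r ν δ PN) : PField (L.US G) r PN :=
  ⟨H.smooth, fun z _ w => H.idem z w, H.rank⟩

/-- a chain `(a + u, -b - u, -a + u, b - u)` with equal entries vanishes -/
lemma chain_zero {N : ℕ} {a b u : Euc N} (h1 : (-b + -u) - (a + u) = 0)
    (h2 : (-a + u) - (a + u) = 0) (h3 : (b + -u) - (a + u) = 0) : a = 0 ∧ b = 0 ∧ u = 0 := by
  have ha : a = 0 := by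
    have : (-2 : ℝ) • a = 0 := by
      have e : (-a + u) - (a + u) = (-2 : ℝ) • a := by rw [neg_smul, two_smul]; abel
      rw [← e, h2]
    exact (smul_eq_zero.1 this).resolve_left (by norm_num)
  subst ha
  have hb : b = 0 := by
    have : (2 : ℝ) • b = 0 := by
      have e : ((b + -u) - (0 + u)) - ((-b + -u) - (0 + u)) = (2 : ℝ) • b := by
        rw [two_smul]; abel
      rw [← e, h3, h1, sub_self]
    exact (smul_eq_zero.1 this).resolve_left (by norm_num)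
  subst hb
  have hu : (-2 : ℝ) • u = 0 := by
    have e : (-(0 : Euc N) + -u) - (0 + u) = (-2 : ℝ) • u := by
      rw [neg_smul, two_smul, neg_zero]; abel
    rw [← e, h1]
  exact ⟨rfl, rfl, (smul_eq_zero.1 hu).resolve_left (by norm_num)⟩

variable {H₂ : Type*} [NormedAddCommGroup H₂] [InnerProductSpace ℝ H₂] [FiniteDimensional ℝ H₂]
  {P₂ : Euc N × Euc N → H₂ →L[ℝ] H₂} {j : H₂ →L[ℝ] Wt N Kn × Wt N Kn}

/-- entries of the chain map -/
lemma Lall_entry (h : GT.Bla G k) (z : Euc N × Euc N) (ζ : H₂ × Wt N Kn) :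
    Lall h ε δ PN j z ζ = fun i => ![KR.uu h PN z (j ζ.1).1, -KR.uu h PN z (j ζ.1).2,
        -KR.uu h PN z (j ζ.1).1, KR.uu h PN z (j ζ.1).2] i +
      cP i • uN h ε δ PN z ζ.2 := by
  funext i
  rw [AK.Lall_apply, Pi.add_apply, AK.LA_apply, AK.zan_eq]
  rfl

/-- **the instance of `LinK`** -/
theorem linK_rem (hS : IsCompact S) (hO : OK G 4 ε) (h : GT.Bla G k) (hk : 1 ≤ k)
    (H : NB.NegB G (k - 1) (nuP Kn) δ PN) (hc0 : 0 < c) (hc : HC G ε c)
    (hj : ∀ z ∈ L.US G, ∀ ν, P₂ z ν = ν → PP PN PN z (j ν) = j ν)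
    (hji : ∀ z ∈ L.US G, ∀ ν, P₂ z ν = ν → j ν = 0 → ν = 0) :
    LinK h P₂ PN (AK.rem (Lall h ε δ PN j)) := by
  have hL := (AK.linC_Lall (P₂ := P₂) (j := j) hO h hk H hc0 hc hj).rem
  obtain ⟨cu, hcu, hcu'⟩ := AK.exists_le_uu hS h hk H
  refine ⟨hL.smooth, fun z hz ζ h2 h1 i => ?_, fun z hz ζ _ _ => AK.rem_zero z ζ,
    fun z hz ζ h2 h1 h0 => ?_⟩
  · exact hL.mem z hz ζ (PP_eq.2 ⟨h2, h1⟩) i
  have hjz := hj z hz _ h2
  rw [PP_eq] at hjz
  set a := KR.uu h PN z (j ζ.1).1 with ha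
  set b := KR.uu h PN z (j ζ.1).2 with hb
  set u := uN h ε δ PN z ζ.2 with hu
  have e : ∀ i, ![a, -b, -a, b] i + cP i • u - (![a, -b, -a, b] 0 + cP 0 • u) = 0 := by
    intro i
    have := congrFun h0 i
    rw [AK.rem_apply, Lall_entry] at this
    exact this
  have e1 : (-b + -u) - (a + u) = 0 := by
    have := e 1
    have k1 : cP 1 = -1 := rfl
    have k0 : cP 0 = 1 := rfl
    rw [k1, k0, neg_one_smul, one_smul] at this
    exact this
  have e2 : (-a + u) - (a + u) = 0 := by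
    have := e 2
    have k1 : cP 2 = 1 := rfl
    have k0 : cP 0 = 1 := rfl
    rw [k1, k0, one_smul] at this
    exact this
  have e3 : (b + -u) - (a + u) = 0 := by
    have := e 3
    have k1 : cP 3 = -1 := rfl
    have k0 : cP 0 = 1 := rfl
    rw [k1, k0, neg_one_smul, one_smul] at this
    exact this
  obtain ⟨ha0, hb0, hu0⟩ := chain_zero e1 e2 e3
  have key : ∀ w, PN z w = w → KR.uu h PN z w = 0 → w = 0 := by
    intro w hw h00
    have := hcu' z hz w hw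
    rw [h00, norm_zero] at this
    have h5 : ‖w‖ ≤ 0 := by
      by_contra hcon
      push Not at hcon
      have : 0 < cu * ‖w‖ := by positivity
      linarith
    exact norm_le_zero_iff.1 h5
  have j1 : (j ζ.1).1 = 0 := key _ hjz.1 ha0
  have j2 : (j ζ.1).2 = 0 := key _ hjz.2 hb0
  have z1 : ζ.1 = 0 := hji z hz _ h2 (Prod.ext j1 j2)
  have z2 : ζ.2 = 0 := by
    have h3 := (AK.uN_spec hO h H hc0 hc hz h1).2
    have h4 : AK.psi h ε δ PN z u = ζ.2 := by rw [AK.psi_apply hO h H hz]; exact h3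
    rw [← h4, hu0, map_zero]
  exact Prod.ext z1 z2

/-- the same from 952's quantitative form of the injectivity of `j` -/
theorem linK_rem' (hS : IsCompact S) (hO : OK G 4 ε) (h : GT.Bla G k) (hk : 1 ≤ k)
    (H : NB.NegB G (k - 1) (nuP Kn) δ PN) (hc0 : 0 < c) (hc : HC G ε c)
    (hj : ∀ z ∈ L.US G, ∀ ν, P₂ z ν = ν → PP PN PN z (j ν) = j ν) {cj : ℝ} (hcj : 0 < cj)
    (hjc : ∀ z ∈ L.US G, ∀ ν, P₂ z ν = ν → cj * ‖ν‖ ^ 2 ≤ ‖j ν‖ ^ 2) :
    LinK h P₂ PN (AK.rem (Lall h ε δ PN j)) := by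
  refine linK_rem hS hO h hk H hc0 hc hj fun z hz ν hν h0 => ?_
  have h1 := hjc z hz ν hν
  rw [h0, norm_zero, zero_pow two_ne_zero] at h1
  have h2 : ‖ν‖ ^ 2 ≤ 0 := by
    by_contra hcon
    push Not at hcon
    have : 0 < cj * ‖ν‖ ^ 2 := by positivity
    linarith
  have h3 : ‖ν‖ = 0 := pow_eq_zero_iff two_ne_zero |>.1 (le_antisymm h2 (sq_nonneg _))
  exact norm_eq_zero.1 h3

/-- the rank count for `r₂ = 2 (k - 1)`, `r₁ = k - 1` -/
theorem rank_count {k r₂ : ℕ} (hk : 1 ≤ k) (hr₂ : r₂ = 2 * (k - 1)) : (k - 1) + r₂ + 3 = 3 * k := by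
  omega

/-- the energy hypothesis of `gap_En` from 952's `HC` -/
theorem HC.en (hO : OK G 4 ε) (hc0 : 0 < c) (hc : HC G ε c) : ∀ κ' ∈ KG.Km G 4, ∀ i,
    MS.En (KG.F G 4 ε κ' 0) ≤ 4 * Real.pi - c / 4 * ‖κ'.2 i - κ'.2 (idx 4 0)‖ ^ 2 := by
  intro κ' hκ' i
  have h1 := hc κ' hκ'
  have h2 := KG.norm_sub_le_jsq κ' i
  push_cast at h1 h2
  have h3 : c / 4 * ‖κ'.2 i - κ'.2 (idx 4 0)‖ ^ 2 ≤ c / 4 * (4 * KG.jsq κ') := by gcongr
  have h4 : (4 : ℝ) ^ 2 * Real.pi / 4 = 4 * Real.pi := by ring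
  rw [h4] at h1
  linarith

end Crest.Agent.R208.TU
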