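import Crest.Agent.R208.TX3

/-! Row 208, block T (helper316).  TX4: antisymmetry of the pairing, `h_m(x₁, x₂) = 0` (X1d) and
non-degeneracy (X1c), abstract form. -/

set_option autoImplicit false
set_option linter.unusedSectionVars false

open MeasureTheory Set Filter Topology Module
open scoped ContDiff
open Crest.Agent.R208.F Crest.Agent.R208.FI Crest.Agent.R208.CW

noncomputable section

namespace Crest.Agent.R208.T

universe u u' w w'

section comm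
variable {E : Type*} [NormedAddCommGroup E] [NormedSpace ℝ E] [FiniteDimensional ℝ E]
  {a b : E → Ext E} {k : ℕ}

theorem Hom.commute (ha : Hom k a) (hk : Even k) (b : E → Ext E) : Commute a b := by
  funext x
  have h1 : F.inv (a x) = a x := by rw [inv_deg (ha x), hk.neg_one_pow, one_smul]
  exact even_mul_comm h1 (b x)

/-- complete homogeneous polynomial `∑ a^i b^(m-i)` -/
def hm (m : ℕ) (a b : E → Ext E) : E → Ext E := ∑ i ∈ Finset.range (m + 1), a ^ i * b ^ (m - i)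

theorem hm_mul (hab : Commute a b) (m : ℕ) : (b - a) * hm m a b = b ^ (m + 1) - a ^ (m + 1) := by
  have h1 := hab.mul_geom_sum₂ (m + 1)
  have h2 : (∑ i ∈ Finset.range (m + 1), a ^ i * b ^ (m + 1 - 1 - i)) = hm m a b := by
    rw [hm]; simp
  rw [h2] at h1
  rw [← neg_sub a b, neg_mul, h1, neg_sub]

theorem Hom.sum {ι : Type*} {s : Finset ι} {f : ι → E → Ext E} {j : ℕ}
    (h : ∀ i ∈ s, Hom j (f i)) : Hom j (∑ i ∈ s, f i) := by
  classical
  induction s using Finset.induction_on with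
  | empty => exact Hom.zero
  | insert a s ha ih =>
    rw [Finset.sum_insert ha]
    exact (h a (Finset.mem_insert_self _ _)).add
      (ih fun i hi => h i (Finset.mem_insert_of_mem hi))

theorem Sm.sum {ι : Type*} {X : Set E} {s : Finset ι} {f : ι → E → Ext E}
    (h : ∀ i ∈ s, Sm X (f i)) : Sm X (∑ i ∈ s, f i) := by
  classical
  induction s using Finset.induction_on with
  | empty => exact Sm.zero
  | insert a s ha ih =>
    rw [Finset.sum_insert ha]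
    exact (h a (Finset.mem_insert_self _ _)).add
      (ih fun i hi => h i (Finset.mem_insert_of_mem hi))

theorem Cl.sum {ι : Type*} {X : Set E} {s : Finset ι} {f : ι → E → Ext E}
    (h : ∀ i ∈ s, Sm X (f i)) (hc : ∀ i ∈ s, Cl X (f i)) : Cl X (∑ i ∈ s, f i) := by
  classical
  induction s using Finset.induction_on with
  | empty => exact Cl.const 0
  | insert a s ha ih =>
    rw [Finset.sum_insert ha]
    exact Cl.add (h a (Finset.mem_insert_self _ _))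
      (Sm.sum fun i hi => h i (Finset.mem_insert_of_mem hi)) (hc a (Finset.mem_insert_self _ _))
      (ih (fun i hi => h i (Finset.mem_insert_of_mem hi))
        fun i hi => hc i (Finset.mem_insert_of_mem hi))

theorem Eqv.sum {ι : Type*} {X : Set E} {s : Finset ι} {f g : ι → E → Ext E}
    (h : ∀ i ∈ s, Eqv X (f i) (g i)) : Eqv X (∑ i ∈ s, f i) (∑ i ∈ s, g i) := by
  classical
  induction s using Finset.induction_on with
  | empty => exact Eqv.refl _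
  | insert a s ha ih =>
    rw [Finset.sum_insert ha, Finset.sum_insert ha]
    exact (h a (Finset.mem_insert_self _ _)).add
      (ih fun i hi => h i (Finset.mem_insert_of_mem hi))

theorem hom_hm {m : ℕ} (ha : Hom k a) (hb : Hom k b) : Hom (k * m) (hm m a b) :=
  Hom.sum fun i hi => by
    have := (ha.pow i).mul (hb.pow (m - i))
    rwa [← mul_add, Nat.add_sub_cancel' (by rw [Finset.mem_range] at hi; omega)] at this

theorem sm_hm {X : Set E} {m : ℕ} (ha : Sm X a) (hb : Sm X b) : Sm X (hm m a b) :=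
  Sm.sum fun i _ => (ha.pow i).mul (hb.pow _)

theorem cl_hm {X : Set E} {m : ℕ} (ha : Sm X a) (hb : Sm X b) (ca : Cl X a) (cb : Cl X b) :
    Cl X (hm m a b) :=
  Cl.sum (fun i _ => (ha.pow i).mul (hb.pow _))
    fun i _ => Cl.mul (ha.pow i) (hb.pow _) (Cl.pow ha ca i) (Cl.pow hb cb _)

theorem pull_sum' {E' : Type*} [NormedAddCommGroup E'] [NormedSpace ℝ E'] [FiniteDimensional ℝ E']
    {ι : Type*} (s : Finset ι) (f : E' → E) (g : ι → E → Ext E) :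
    F.pull f (∑ i ∈ s, g i) = ∑ i ∈ s, F.pull f (g i) := by
  classical
  induction s using Finset.induction_on with
  | empty => exact pull_zero' f
  | insert a s ha ih => rw [Finset.sum_insert ha, Finset.sum_insert ha, pull_add', ih]

theorem pull_hm {E' : Type*} [NormedAddCommGroup E'] [NormedSpace ℝ E'] [FiniteDimensional ℝ E']
    (f : E' → E) (m : ℕ) : F.pull f (hm m a b) = hm m (F.pull f a) (F.pull f b) := by
  rw [hm, hm, pull_sum']
  refine Finset.sum_congr rfl fun i _ => ?_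
  rw [pull_mul', pull_pow', pull_pow']

theorem eqv_hm {X : Set E} {m : ℕ} {a' b' : E → Ext E} (h : Eqv X a a') (h' : Eqv X b b') :
    Eqv X (hm m a b) (hm m a' b') := Eqv.sum fun i _ => (h.pow i).mul (h'.pow _)

end comm

section swap
variable {E : Type u} {H : Type w} {E₂ : Type u'} {H₂ : Type w'}
  [NormedAddCommGroup E] [NormedSpace ℝ E] [FiniteDimensional ℝ E]
  [NormedAddCommGroup H] [InnerProductSpace ℝ H] [FiniteDimensional ℝ H]
  [NormedAddCommGroup E₂] [NormedSpace ℝ E₂] [FiniteDimensional ℝ E₂]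
  [NormedAddCommGroup H₂] [InnerProductSpace ℝ H₂] [FiniteDimensional ℝ H₂]
  {S : Set E} {PS : E → H →L[ℝ] H} {X : Set E₂} {PX : E₂ → H₂ →L[ℝ] H₂}
  {π₁ π₂ : E₂ → E} {fS : E₂ × H₂ → E × H} {gS : E × H → E₂ × H₂} {φ : E × H → E × H}
  {R c₀ RX cX : ℝ} {e : E → Ext E} {τ τ' : E × H → Ext (E × H)} {eX : E₂ → Ext E₂}
  {τX τX' : E₂ × H₂ → Ext (E₂ × H₂)} {κ : E₂ × H₂ → Ext (E₂ × H₂)}
  {n k m q dU dX i j : ℕ} {oU o : E × H → Ext (E × H)} {x : E → Ext E}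
  [MeasurableSpace H] [BorelSpace H] (μ : Measure H) [μ.IsAddHaarMeasure]
  [MeasurableSpace H₂] [BorelSpace H₂] (μ₂ : Measure H₂) [μ₂.IsAddHaarMeasure]

/-- the geometry of the unit tangent bundle `Sph S PS ≅ Sph X PX` of `S`, with the flip `φ` -/
structure UD (n k q dU : ℕ) (S : Set E) (PS : E → H →L[ℝ] H) (X : Set E₂)
    (PX : E₂ → H₂ →L[ℝ] H₂) (π₁ π₂ : E₂ → E) (fS : E₂ × H₂ → E × H) (gS : E × H → E₂ × H₂)
    (φ : E × H → E × H) (oU : E × H → Ext (E × H)) (x : E → Ext E)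
    (κ : E₂ × H₂ → Ext (E₂ × H₂)) : Prop where
  hπ₁ : SMap X S π₁
  hπ₂ : SMap X S π₂
  hf : SMap (Sph X PX) (Sph S PS) fS
  hg : SMap (Sph S PS) (Sph X PX) gS
  hgf : ∀ z ∈ Sph X PX, gS (fS z) = z
  hfst : ∀ w ∈ Sph S PS, π₁ (gS w).1 = w.1
  hφ : SMap (Sph S PS) (Sph S PS) φ
  hφ₁ : ∀ w ∈ Sph S PS, π₁ (gS (φ w)).1 = π₂ (gS w).1
  hφ₂ : ∀ w ∈ Sph S PS, π₂ (gS (φ w)).1 = π₁ (gS w).1
  hU : Clo dU (Sph S PS)
  ho : Ori dU (Sph S PS) oU
  hJφ : ∀ b, Sm (Sph S PS) b → Hom dU b → J dU (Sph S PS) oU (F.pull φ b) = J dU (Sph S PS) oU b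
  hexq : ExactIn (Sph S PS) q
  sx : Sm S x
  cx : Cl S x
  dx : Hom k x
  hke : Even k
  hq : q + 1 = k
  sκ : Sm (Sph X PX) κ
  dκ : Hom q κ
  eκ : Eqv (Sph X PX) (F.d κ) (F.pull Prod.fst (F.pull π₂ x - F.pull π₁ x))

theorem UD.s1 (D : UD n k q dU S PS X PX π₁ π₂ fS gS φ oU x κ) :
    SMap (Sph S PS) S (fun w => π₁ (gS w).1) := D.hπ₁.comp (smap_fstS.comp D.hg)

theorem UD.s2 (D : UD n k q dU S PS X PX π₁ π₂ fS gS φ oU x κ) :
    SMap (Sph S PS) S (fun w => π₂ (gS w).1) := D.hπ₂.comp (smap_fstS.comp D.hg)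

/-- `x₁`, `x₂` on the unit tangent bundle -/
def y1 (π₁ : E₂ → E) (gS : E × H → E₂ × H₂) (x : E → Ext E) : E × H → Ext (E × H) :=
  F.pull (fun w => π₁ (gS w).1) x

theorem UD.sm1 (D : UD n k q dU S PS X PX π₁ π₂ fS gS φ oU x κ) : Sm (Sph S PS) (y1 π₁ gS x) :=
  D.sx.pull D.s1
theorem UD.sm2 (D : UD n k q dU S PS X PX π₁ π₂ fS gS φ oU x κ) : Sm (Sph S PS) (y1 π₂ gS x) :=
  D.sx.pull D.s2
theorem UD.cl1 (D : UD n k q dU S PS X PX π₁ π₂ fS gS φ oU x κ) : Cl (Sph S PS) (y1 π₁ gS x) :=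
  D.cx.pull D.s1 D.sx
theorem UD.cl2 (D : UD n k q dU S PS X PX π₁ π₂ fS gS φ oU x κ) : Cl (Sph S PS) (y1 π₂ gS x) :=
  D.cx.pull D.s2 D.sx

theorem UD.smκ (D : UD n k q dU S PS X PX π₁ π₂ fS gS φ oU x κ) : Sm (Sph S PS) (F.pull gS κ) :=
  D.sκ.pull D.hg

theorem UD.pull_fst (D : UD n k q dU S PS X PX π₁ π₂ fS gS φ oU x κ) (i : ℕ) :
    Eqv (Sph S PS) (F.pull Prod.fst (x ^ i)) (y1 π₁ gS x ^ i) := by
  rw [pull_pow']
  refine Eqv.pow (Eqv.symm ?_) i
  exact eqv_pull_of_eq x (fun w hw => D.s1.diff hw) (fun w hw => smap_fstS.diff hw) D.hfst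

theorem UD.pull3 (D : UD n k q dU S PS X PX π₁ π₂ fS gS φ oU x κ) {π : E₂ → E}
    (hπ : SMap X S π) (a : E → Ext E) :
    Eqv (Sph S PS) (F.pull gS (F.pull Prod.fst (F.pull π a))) (y1 π gS a) := by
  have h1 : SMap (Sph X PX) S (fun z => π z.1) := hπ.comp smap_fstS
  have h2 : SMap (Sph S PS) S (fun w => π (gS w).1) := h1.comp D.hg
  have e1 : Eqv (Sph X PX) (F.pull Prod.fst (F.pull π a)) (F.pull (fun z : E₂ × H₂ => π z.1) a) :=
    eqv_pull_pull smap_fstS hπ h1 (fun _ _ => rfl) a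
  exact (e1.pull D.hg).trans (eqv_pull_pull D.hg h1 h2 (fun _ _ => rfl) a)

theorem UD.dκ' (D : UD n k q dU S PS X PX π₁ π₂ fS gS φ oU x κ) :
    Eqv (Sph S PS) (F.d (F.pull gS κ)) (y1 π₂ gS x - y1 π₁ gS x) := by
  refine (d_pull_eqv D.hg D.sκ).trans ((D.eκ.pull D.hg).trans ?_)
  rw [pull_sub', pull_sub']
  exact (D.pull3 D.hπ₂ x).sub (D.pull3 D.hπ₁ x)

/-- the flip on `κ` -/
theorem UD.flip (D : UD n k q dU S PS X PX π₁ π₂ fS gS φ oU x κ) :
    ∃ ζ, Sm (Sph S PS) ζ ∧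
      Eqv (Sph S PS) (F.pull φ (F.pull gS κ)) (F.d ζ - F.pull gS κ) := by
  have s3 : Sm (Sph S PS) (F.pull φ (F.pull gS κ)) := D.smκ.pull D.hφ
  have e1 : Eqv (Sph S PS) (F.pull φ (y1 π₂ gS x)) (y1 π₁ gS x) :=
    eqv_pull_pull D.hφ D.s2 D.s1 D.hφ₂ x
  have e2 : Eqv (Sph S PS) (F.pull φ (y1 π₁ gS x)) (y1 π₂ gS x) :=
    eqv_pull_pull D.hφ D.s1 D.s2 D.hφ₁ x
  have e3 : Eqv (Sph S PS) (F.d (F.pull φ (F.pull gS κ))) (y1 π₁ gS x - y1 π₂ gS x) := by
    refine (d_pull_eqv D.hφ D.smκ).trans ((D.dκ'.pull D.hφ).trans ?_)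
    rw [pull_sub']
    exact e1.sub e2
  have c1 : Cl (Sph S PS) (F.pull φ (F.pull gS κ) + F.pull gS κ) := by
    rw [Cl, resZero_iff]
    refine (d_add_eqv s3 D.smκ).trans ((e3.add D.dκ').trans ?_)
    rw [sub_add_sub_cancel, sub_self]
    exact Eqv.refl _
  obtain ⟨ζ, sζ, eζ⟩ := D.hexq _ (s3.add D.smκ) c1 (D.dκ.pull.pull.add D.dκ.pull)
  refine ⟨ζ, sζ, ?_⟩
  rw [sub_zero] at eζ
  have := eζ.sub (Eqv.refl (F.pull gS κ))
  rwa [add_sub_cancel_right] at this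

/-- **antisymmetry of the pairing** -/
theorem UD.antisymm (D : UD n k q dU S PS X PX π₁ π₂ fS gS φ oU x κ)
    (hij : q + (k * i + k * j) = dU) :
    J dU (Sph S PS) oU (F.pull gS κ * (y1 π₁ gS x ^ i * y1 π₂ gS x ^ j)) =
      - J dU (Sph S PS) oU (F.pull gS κ * (y1 π₁ gS x ^ j * y1 π₂ gS x ^ i)) := by
  set K := F.pull gS κ with hK
  set a := y1 π₁ gS x with ha
  set b := y1 π₂ gS x with hb
  have sK : Sm (Sph S PS) K := D.smκ
  have sa : Sm (Sph S PS) a := D.sm1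
  have sb : Sm (Sph S PS) b := D.sm2
  have da : Hom k a := Hom.pull D.dx
  have db : Hom k b := Hom.pull D.dx
  have hab : Commute a b := da.commute D.hke b
  have s1 : Sm (Sph S PS) (K * (a ^ i * b ^ j)) := sK.mul ((sa.pow i).mul (sb.pow j))
  have d1 : Hom dU (K * (a ^ i * b ^ j)) := by
    have := (Hom.pull D.dκ (f := gS)).mul ((da.pow i).mul (db.pow j))
    rwa [hij] at this
  rw [← D.hJφ _ s1 d1]
  obtain ⟨ζ, sζ, eζ⟩ := D.flip
  have e1 : Eqv (Sph S PS) (F.pull φ b) a := eqv_pull_pull D.hφ D.s2 D.s1 D.hφ₂ x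
  have e2 : Eqv (Sph S PS) (F.pull φ a) b := eqv_pull_pull D.hφ D.s1 D.s2 D.hφ₁ x
  have e3 : Eqv (Sph S PS) (F.pull φ (K * (a ^ i * b ^ j)))
      (F.d ζ * (a ^ j * b ^ i) - K * (a ^ j * b ^ i)) := by
    rw [pull_mul', pull_mul', pull_pow', pull_pow', ← sub_mul]
    refine eζ.mul ?_
    refine ((e2.pow i).mul (e1.pow j)).trans ?_
    rw [(hab.pow_pow j i).eq]
    exact Eqv.refl _
  rw [J_of_eqv D.hU e3]
  have s2 : Sm (Sph S PS) (a ^ j * b ^ i) := (sa.pow j).mul (sb.pow i)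
  have c2 : Cl (Sph S PS) (a ^ j * b ^ i) := Cl.mul (sa.pow j) (sb.pow i) (Cl.pow sa D.cl1 j)
    (Cl.pow sb D.cl2 i)
  have h3 : J dU (Sph S PS) oU (F.d ζ * (a ^ j * b ^ i) - K * (a ^ j * b ^ i)) =
      J dU (Sph S PS) oU (F.d ζ * (a ^ j * b ^ i)) - J dU (Sph S PS) oU (K * (a ^ j * b ^ i)) :=
    J_sub D.hU D.ho (sζ.d.mul s2).contOn (sK.mul s2).contOn
  have h4 : J dU (Sph S PS) oU (F.d ζ * (a ^ j * b ^ i)) = 0 := by
    refine J_of_exact D.hU D.ho (ζ * (a ^ j * b ^ i)) (sζ.mul s2) ?_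
    refine Eqv.symm ((d_mul_eqv sζ s2).trans ?_)
    have := (Eqv.refl (F.d ζ * (a ^ j * b ^ i))).add
      ((Eqv.refl (fun w => F.inv (ζ w))).mul (resZero_iff.1 c2))
    rwa [mul_zero, add_zero] at this
  rw [h3, h4, zero_sub]

end swap

end Crest.Agent.R208.T
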