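import Crest.Agent.R208.TX4

/-! Row 208, block T (helper316).  TX5: `h_m(x₁, x₂) = 0` (X1d) and non-degeneracy of the pairing
(X1c), abstract form. -/

set_option autoImplicit false
set_option linter.unusedSectionVars false

open MeasureTheory Set Filter Topology Module
open scoped ContDiff
open Crest.Agent.R208.F Crest.Agent.R208.FI Crest.Agent.R208.CW

noncomputable section

namespace Crest.Agent.R208.T

universe u u' w w'

variable {E : Type u} {H : Type w} {E₂ : Type u'} {H₂ : Type w'}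
  [NormedAddCommGroup E] [NormedSpace ℝ E] [FiniteDimensional ℝ E]
  [NormedAddCommGroup H] [InnerProductSpace ℝ H] [FiniteDimensional ℝ H]
  [NormedAddCommGroup E₂] [NormedSpace ℝ E₂] [FiniteDimensional ℝ E₂]
  [NormedAddCommGroup H₂] [InnerProductSpace ℝ H₂] [FiniteDimensional ℝ H₂]
  {S : Set E} {PS : E → H →L[ℝ] H} {X : Set E₂} {PX : E₂ → H₂ →L[ℝ] H₂}
  {π₁ π₂ : E₂ → E} {fS : E₂ × H₂ → E × H} {gS : E × H → E₂ × H₂} {φ : E × H → E × H}
  {R c₀ RX cX : ℝ} {e : E → Ext E} {τ τ' : E × H → Ext (E × H)} {eX : E₂ → Ext E₂}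
  {τX τX' : E₂ × H₂ → Ext (E₂ × H₂)} {κ : E₂ × H₂ → Ext (E₂ × H₂)}
  {n k m q dU dX i j : ℕ} {oU o : E × H → Ext (E × H)} {x : E → Ext E}
  [MeasurableSpace H] [BorelSpace H] (μ : Measure H) [μ.IsAddHaarMeasure]
  [MeasurableSpace H₂] [BorelSpace H₂] (μ₂ : Measure H₂) [μ₂.IsAddHaarMeasure]

theorem UD.ypow_zero (D : UD n k q dU S PS X PX π₁ π₂ fS gS φ oU x κ) (hS : FI.Sub n S)
    {l : ℕ} (hl : n < k * l) : Eqv (Sph S PS) (y1 π₁ gS x ^ l) 0 := by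
  rw [y1, ← pull_pow']
  have := (eqv_of_gt hS (D.dx.pow l) hl).pull D.s1
  rwa [pull_zero'] at this

/-- forms on the unit tangent bundle and on `Sph X PX` -/
theorem UD.coh_back (D : UD n k q dU S PS X PX π₁ π₂ fS gS φ oU x κ)
    {b : E₂ × H₂ → Ext (E₂ × H₂)} (h : Coh (Sph S PS) (F.pull gS b) 0) : Coh (Sph X PX) b 0 := by
  have h1 := h.pull D.hf
  rw [pull_zero'] at h1
  refine (Coh.of_eqv ?_).trans h1
  exact ((eqv_pull_pull D.hf D.hg (SMap.id _) D.hgf b).trans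
    (Eqv.of_eq fun z _ => F.pull_id b z)).symm

theorem UD.pullκ (D : UD n k q dU S PS X PX π₁ π₂ fS gS φ oU x κ) (i j : ℕ) :
    Eqv (Sph S PS) (F.pull gS (κ * F.pull Prod.fst (F.pull π₁ x ^ i * F.pull π₂ x ^ j)))
      (F.pull gS κ * (y1 π₁ gS x ^ i * y1 π₂ gS x ^ j)) := by
  rw [pull_mul', pull_mul', pull_mul', pull_pow', pull_pow', pull_pow', pull_pow']
  exact (Eqv.refl _).mul (((D.pull3 D.hπ₁ x).pow i).mul ((D.pull3 D.hπ₂ x).pow j))

set_option maxHeartbeats 1000000 in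
/-- **(X1c)** the pairing of `x₁^(m'+1)` and `x₂^m'` is not zero. -/
theorem UD.pair_ne (D : UD n k q dU S PS X PX π₁ π₂ fS gS φ oU x κ) {m' : ℕ}
    (hS : FI.Sub n S) (hSc : IsPreconnected S) (hP : PField S n PS) (hnN : n ≤ finrank ℝ H)
    (hT : ThomPair μ S PS n R c₀ e τ τ') (hdU : dU + 1 = n + n) (hn : 2 ≤ n)
    (hkm : k * (m' + 1) = n) (hD : Dim1 S n)
    (so : Sm (Sph S PS) o) (dO : Hom dU o) (ho' : J dU (Sph S PS) oU o ≠ 0)
    (hX : FI.Sub dX X) (hXc : IsPreconnected X) (hdX : dX < n + n) (hPX : PField X k PX)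
    (hkN : k ≤ finrank ℝ H₂) (hTX : ThomPair μ₂ X PX k RX cX eX τX τX')
    (hne : ¬ Coh X (F.pull π₂ x - F.pull π₁ x) 0)
    (hne2 : ¬ Coh X (F.pull π₁ x ^ (m' + 1) * F.pull π₂ x ^ m') 0) :
    J dU (Sph S PS) oU (F.pull gS κ * (y1 π₁ gS x ^ (m' + 1) * y1 π₂ gS x ^ m')) ≠ 0 := by
  intro hJ
  refine hne2 ?_
  have s1 : Sm X (F.pull π₁ x) := D.sx.pull D.hπ₁
  have s2 : Sm X (F.pull π₂ x) := D.sx.pull D.hπ₂
  have c1 : Cl X (F.pull π₁ x) := D.cx.pull D.hπ₁ D.sx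
  have c2 : Cl X (F.pull π₂ x) := D.cx.pull D.hπ₂ D.sx
  have d1 : Hom k (F.pull π₁ x) := D.dx.pull
  have d2 : Hom k (F.pull π₂ x) := D.dx.pull
  have hkm' : k * m' + k = n := by rw [← hkm]; ring
  have hb : Sm (Sph S PS) (F.pull gS κ * (y1 π₁ gS x ^ (m' + 1) * y1 π₂ gS x ^ m')) :=
    D.smκ.mul ((D.sm1.pow _).mul (D.sm2.pow _))
  have hdb : Hom dU (F.pull gS κ * (y1 π₁ gS x ^ (m' + 1) * y1 π₂ gS x ^ m')) := by
    have := (Hom.pull D.dκ (f := gS)).mul (((Hom.pull D.dx : Hom k (y1 π₁ gS x)).pow (m' + 1)).mul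
      ((Hom.pull D.dx : Hom k (y1 π₂ gS x)).pow m'))
    have h4 : q + (k * (m' + 1) + k * m') = dU := by
      have := D.hq
      omega
    rwa [h4] at this
  have h1 := (exact_of_J_sph μ hS hSc hP hnN hT D.hU D.ho hdU hn hD so dO ho' hb hdb hJ).2
  have h2 := D.coh_back ((Coh.of_eqv (D.pullκ (m' + 1) m')).trans h1)
  have sh : Sm X (F.pull π₁ x ^ (m' + 1) * F.pull π₂ x ^ m') := (s1.pow _).mul (s2.pow _)
  have ch : Cl X (F.pull π₁ x ^ (m' + 1) * F.pull π₂ x ^ m') :=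
    Cl.mul (s1.pow _) (s2.pow _) (Cl.pow s1 c1 _) (Cl.pow s2 c2 _)
  have dh : Hom (k * (m' + 1) + k * m') (F.pull π₁ x ^ (m' + 1) * F.pull π₂ x ^ m') :=
    (d1.pow _).mul (d2.pow _)
  refine thom_inj μ₂ hX hXc hPX hkN hTX D.hq (κ := κ) (e' := F.pull π₂ x - F.pull π₁ x) (η := 0)
    D.sκ D.dκ (s2.sub s1) (Cl.sub s2 s1 c2 c1) (d2.sub d1) D.eκ hne sh ch Sm.zero ?_ ?_
  · rw [d_zero']
    exact (eqv_of_gt hX ((d2.sub d1).mul dh) (by omega)).symm
  · rw [pull_zero', sub_zero]; exact h2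

set_option maxHeartbeats 2000000 in
/-- **(X1d)** `h_m(x₁, x₂) = 0` -/
theorem UD.hm_exact (D : UD n k q dU S PS X PX π₁ π₂ fS gS φ oU x κ) {m' : ℕ}
    (hS : FI.Sub n S) (hSc : IsPreconnected S) (hP : PField S n PS) (hnN : n ≤ finrank ℝ H)
    (hT : ThomPair μ S PS n R c₀ e τ τ') (hdU : dU + 1 = n + n) (hn : 2 ≤ n)
    (hkm : k * (m' + 1) = n) (hD : Dim1 S n)
    (so : Sm (Sph S PS) o) (dO : Hom dU o) (ho' : J dU (Sph S PS) oU o ≠ 0)
    (hSk : ∀ b, Sm S b → Cl S b → Hom k b → ∃ t : ℝ, Coh S b (t • x))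
    (hxm : ¬ Coh S (x ^ (m' + 1)) 0)
    (hX : FI.Sub dX X) (hXc : IsPreconnected X) (hPX : PField X k PX)
    (hkN : k ≤ finrank ℝ H₂) (hTX : ThomPair μ₂ X PX k RX cX eX τX τX')
    (hne : ¬ Coh X (F.pull π₂ x - F.pull π₁ x) 0) :
    Coh X (hm (m' + 1) (F.pull π₁ x) (F.pull π₂ x)) 0 := by
  have hq1 : 1 ≤ q := by
    obtain ⟨a, ha⟩ := D.hke
    have := D.hq
    omega
  have hkm' : k * m' + k = n := by rw [← hkm]; ring
  set x1 := F.pull π₁ x with hx1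
  set x2 := F.pull π₂ x with hx2
  have s1 : Sm X x1 := D.sx.pull D.hπ₁
  have s2 : Sm X x2 := D.sx.pull D.hπ₂
  have c1 : Cl X x1 := D.cx.pull D.hπ₁ D.sx
  have c2 : Cl X x2 := D.cx.pull D.hπ₂ D.sx
  have d1 : Hom k x1 := D.dx.pull
  have d2 : Hom k x2 := D.dx.pull
  set h := hm (m' + 1) x1 x2 with hh
  have sh : Sm X h := sm_hm s1 s2
  have ch : Cl X h := cl_hm s1 s2 c1 c2
  have dh : Hom n h := hkm ▸ hom_hm d1 d2
  have eh : Eqv X ((x2 - x1) * h) 0 := by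
    rw [hh, hm_mul (d1.commute D.hke x2)]
    have hx : Eqv S (x ^ (m' + 1 + 1)) 0 := eqv_of_gt hS (D.dx.pow _) (by
      have : k * (m' + 1 + 1) = k * (m' + 1) + k := by ring
      have := D.hq
      omega)
    have a1 := hx.pull D.hπ₁
    have a2 := hx.pull D.hπ₂
    rw [pull_zero', pull_pow'] at a1 a2
    have := a2.sub a1
    rwa [sub_zero] at this
  -- the closed form `λ = κ h`
  have sh1 : Sm (Sph X PX) (F.pull Prod.fst h) := sh.pull smap_fstS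
  have ch1 : Cl (Sph X PX) (F.pull Prod.fst h) := ch.pull smap_fstS sh
  set lam := κ * F.pull (Prod.fst : E₂ × H₂ → E₂) h with hlam
  have slam : Sm (Sph X PX) lam := D.sκ.mul sh1
  have clam : Cl (Sph X PX) lam := by
    rw [Cl, resZero_iff]
    refine (d_mul_eqv D.sκ sh1).trans ?_
    have a1 := (D.eκ.mul (Eqv.refl (F.pull (Prod.fst : E₂ × H₂ → E₂) h))).add
      ((Eqv.refl (X := Sph X PX) (fun w => F.inv (κ w))).mul (resZero_iff.1 ch1))
    rw [mul_zero, add_zero, ← pull_mul'] at a1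
    refine a1.trans ?_
    have := eh.pull (smap_fstS (X := X) (P := PX))
    rwa [pull_zero'] at this
  set lam' := F.pull gS lam with hlam'
  have sl : Sm (Sph S PS) lam' := slam.pull D.hg
  have cl : Cl (Sph S PS) lam' := clam.pull D.hg slam
  have dl : Hom (q + n) lam' := (D.dκ.mul dh.pull).pull
  obtain ⟨sf, cf⟩ := sm_cl_fi μ hS hP hT sl cl
  have df : Hom k (fi μ PS τ' lam') := hom_fi μ hnN hT.deg' (by have := D.hq; omega) dl
  obtain ⟨t, ht⟩ := hSk _ sf cf df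
  -- the integral of `λ x₁^m'`
  have sxm : Sm S (x ^ m') := D.sx.pow m'
  have cxm : Cl S (x ^ m') := Cl.pow D.sx D.cx m'
  have sxm1 : Sm (Sph S PS) (F.pull Prod.fst (x ^ m')) := sxm.pull smap_fstS
  set b := lam' * F.pull (Prod.fst : E × H → E) (x ^ m') with hb
  have sb : Sm (Sph S PS) b := sl.mul sxm1
  have db : Hom dU b := by
    have := dl.mul (Hom.pull (D.dx.pow m') (f := (Prod.fst : E × H → E)))
    have h4 : q + n + k * m' = dU := by have := D.hq; omega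
    rwa [h4] at this
  set K := F.pull gS κ with hK
  set a₁ := y1 π₁ gS x with ha₁
  set a₂ := y1 π₂ gS x with ha₂
  have da₁ : Hom k a₁ := Hom.pull D.dx
  have hcomm : Commute a₁ a₂ := da₁.commute D.hke a₂
  have eb : Eqv (Sph S PS) b (K * (a₁ ^ m' * a₂ ^ (m' + 1)) + K * (a₁ ^ (m' + 1) * a₂ ^ m')) := by
    have b1 : Eqv (Sph S PS) b (K * (hm (m' + 1) a₁ a₂ * a₁ ^ m')) := by
      rw [hb, hlam', hlam, pull_mul', mul_assoc]
      refine (Eqv.refl _).mul (Eqv.mul ?_ (D.pull_fst m'))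
      rw [hh, pull_hm, pull_hm]
      exact eqv_hm (D.pull3 D.hπ₁ x) (D.pull3 D.hπ₂ x)
    refine b1.trans ?_
    rw [← mul_add]
    refine (Eqv.refl K).mul ?_
    have b2 : hm (m' + 1) a₁ a₂ * a₁ ^ m' =
        (∑ i ∈ Finset.range m', a₁ ^ (i + 1 + 1) * a₂ ^ (m' + 1 - (i + 1 + 1)) * a₁ ^ m') +
        (a₁ ^ (m' + 1) * a₂ ^ m' + a₁ ^ m' * a₂ ^ (m' + 1)) := by
      rw [hm, Finset.sum_range_succ', Finset.sum_range_succ', add_mul, add_mul, Finset.sum_mul,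
        add_assoc]
      congr 2
      · rw [zero_add, pow_one, Nat.add_sub_cancel, mul_assoc, (hcomm.pow_pow m' m').symm.eq,
          ← mul_assoc, ← pow_succ']
      · rw [pow_zero, one_mul, Nat.sub_zero, (hcomm.pow_pow m' (m' + 1)).symm.eq]
    rw [b2]
    have b3 : Eqv (Sph S PS)
        (∑ i ∈ Finset.range m', a₁ ^ (i + 1 + 1) * a₂ ^ (m' + 1 - (i + 1 + 1)) * a₁ ^ m') 0 := by
      have b4 : (∑ i ∈ Finset.range m', (0 : E × H → Ext (E × H))) = 0 := Finset.sum_const_zero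
      rw [← b4]
      refine Eqv.sum fun i _ => ?_
      have b5 : a₁ ^ (i + 1 + 1) * a₂ ^ (m' + 1 - (i + 1 + 1)) * a₁ ^ m' =
          a₁ ^ (i + 1 + 1 + m') * a₂ ^ (m' + 1 - (i + 1 + 1)) := by
        rw [mul_assoc, (hcomm.pow_pow m' _).symm.eq, ← mul_assoc, ← pow_add]
      rw [b5]
      have b6 : Eqv (Sph S PS) (a₁ ^ (i + 1 + 1 + m')) 0 := D.ypow_zero hS (by
        have h7 : k * (i + 1 + 1 + m') = k * i + k + (k * m' + k) := by ring
        have := D.hq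
        omega)
      have := b6.mul (Eqv.refl (a₂ ^ (m' + 1 - (i + 1 + 1))))
      rwa [zero_mul] at this
    have := b3.add (Eqv.refl (a₁ ^ (m' + 1) * a₂ ^ m' + a₁ ^ m' * a₂ ^ (m' + 1)))
    rw [zero_add] at this
    rwa [add_comm (a₁ ^ m' * a₂ ^ (m' + 1))]
  have hJ : J dU (Sph S PS) oU b = 0 := by
    rw [J_of_eqv D.hU eb]
    have h3 : J dU (Sph S PS) oU (K * (a₁ ^ m' * a₂ ^ (m' + 1)) + K * (a₁ ^ (m' + 1) * a₂ ^ m')) =
        J dU (Sph S PS) oU (K * (a₁ ^ m' * a₂ ^ (m' + 1))) +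
        J dU (Sph S PS) oU (K * (a₁ ^ (m' + 1) * a₂ ^ m')) :=
      J_add D.hU D.ho (D.smκ.mul ((D.sm1.pow _).mul (D.sm2.pow _))).contOn
        (D.smκ.mul ((D.sm1.pow _).mul (D.sm2.pow _))).contOn
    rw [h3, D.antisymm (i := m') (j := m' + 1) (by
      have h7 : k * (m' + 1) = k * m' + k := by ring
      have := D.hq
      omega)]
    exact neg_add_cancel _
  -- the fibre integral is exact
  have h1 := (exact_of_J_sph μ hS hSc hP hnN hT D.hU D.ho hdU hn hD so dO ho' sb db hJ).1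
  have h2 := (Coh.of_eqv (fi_mul μ hS hP hT sl cl sxm cxm)).symm.trans h1
  have h3 := (Coh.mul_right sxm cxm ht).symm.trans h2
  rw [smul_mul_assoc, ← pow_succ'] at h3
  have ht0 : t = 0 := by
    by_contra hne'
    exact hxm (h3.smul_zero_of_ne hne')
  rw [ht0, zero_smul] at ht
  obtain ⟨c, sc, cc, dc, hc⟩ := sph_of_fi μ hS hP hT sl cl dl ht
  have h4 := (eqv_of_gt hS dc (by omega)).pull (smap_fstS (X := S) (P := PS))
  rw [pull_zero'] at h4
  have h5 : Coh (Sph X PX) lam 0 := D.coh_back (hc.trans (Coh.of_eqv h4))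
  refine thom_inj μ₂ hX hXc hPX hkN hTX D.hq (κ := κ) (e' := x2 - x1) (η := 0)
    D.sκ D.dκ (s2.sub s1) (Cl.sub s2 s1 c2 c1) (d2.sub d1) D.eκ hne sh ch Sm.zero ?_ ?_
  · rw [d_zero']; exact eh.symm
  · rw [pull_zero', sub_zero]; exact h5

end Crest.Agent.R208.T
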