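import Crest.Agent.R208.TX5
import Crest.Agent.R208.TI5
import Crest.Agent.R208.FG1d
import Crest.Agent.R208.GP2e

/-! Row 208, block T (helper316).  TX6: (X1a) `k ∣ n`, `∫_{C_p} e^(m-1) ≠ 0`, and (X1b)
`snd^* x ~ fst^* x - ε` on `F`. -/

set_option autoImplicit false
set_option linter.unusedSectionVars false

open MeasureTheory Set Filter Topology Module
open scoped ContDiff RealInnerProductSpace
open Crest.GeometryTopology.Submanifold
open Crest.Agent.R241.DDefs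
open Crest.Agent.R241.D2
open Crest.Agent.R208.F Crest.Agent.R208.FI Crest.Agent.R208.CW

noncomputable section

namespace Crest.Agent.R208.T

universe u u' w w'

section classes
variable {E : Type u} {E₂ : Type u'} {H₂ : Type w'}
  [NormedAddCommGroup E] [NormedSpace ℝ E] [FiniteDimensional ℝ E]
  [NormedAddCommGroup E₂] [NormedSpace ℝ E₂] [FiniteDimensional ℝ E₂]
  [NormedAddCommGroup H₂] [InnerProductSpace ℝ H₂] [FiniteDimensional ℝ H₂]
  {S C : Set E} {X : Set E₂} {PX : E₂ → H₂ →L[ℝ] H₂} {p : E}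
  {π₁ π₂ : E₂ → E} {ιC : E → E₂} {n k d j : ℕ} {ep : E₂ → Ext E₂} {x e : E → Ext E}

/-- restriction of `π₁^* x`, `π₂^* x` to the fibre `C` of `π₂` -/
theorem restr_class (hπ₁ : SMap X S π₁) (hπ₂ : SMap X S π₂) (hk : 1 ≤ k)
    (dx : Hom k x) (hι : SMap C X ιC) (hCS : C ⊆ S) (hι1 : ∀ q ∈ C, π₁ (ιC q) = q)
    (hι2 : ∀ q ∈ C, π₂ (ιC q) = p) :
    Eqv C (F.pull ιC (F.pull π₁ x)) x ∧ Eqv C (F.pull ιC (F.pull π₂ x)) 0 := by
  constructor
  · exact (eqv_pull_pull hι hπ₁ ⟨fun _ _ => contDiffAt_id, fun q hq => hCS hq⟩ hι1 x).trans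
        (Eqv.of_eq fun q _ => F.pull_id x q)
  · rcases C.eq_empty_or_nonempty with hC | ⟨q₀, hq₀⟩
    · exact Eqv.of_eq fun q hq => by rw [hC] at hq; exact hq.elim
    · have hp : p ∈ S := by rw [← hι2 q₀ hq₀]; exact hπ₂.maps (hι.maps hq₀)
      refine (eqv_pull_pull (k := fun _ => p) hι hπ₂ ⟨fun _ _ => contDiffAt_const, fun q _ => hp⟩
        hι2 x).trans ?_
      rw [pull_const_map hk dx]; exact Eqv.refl _

/-- **(X1b)** the class of the second projection; the fibre over `p` is a fibre of `π₂` -/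
theorem snd_class' (hπ₁ : SMap X S π₁) (hπ₂ : SMap X S π₂) (hk : 1 ≤ k)
    (sx : Sm S x) (cx : Cl S x) (dx : Hom k x)
    (hF : ∀ b, Sm X b → Cl X b → Hom k b → ∃ s t : ℝ, Coh X b (s • F.pull π₁ x + t • ep))
    (hι : SMap C X ιC) (hCS : C ⊆ S) (hι1 : ∀ q ∈ C, π₁ (ιC q) = q) (hι2 : ∀ q ∈ C, π₂ (ιC q) = p)
    (hε : Coh C (F.pull ιC ep) e) (hxC : Coh C x e) (hne : ¬ Coh C e 0)
    (hsph : Coh (Sph X PX) (F.pull Prod.fst ep) 0)
    (hhom : Coh (Sph X PX) (F.pull Prod.fst (F.pull π₁ x)) (F.pull Prod.fst (F.pull π₂ x)))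
    (hxU : ¬ Coh (Sph X PX) (F.pull Prod.fst (F.pull π₁ x)) 0) :
    Coh X (F.pull π₂ x) (F.pull π₁ x - ep) := by
  obtain ⟨s, t, hst⟩ := hF (F.pull π₂ x) (sx.pull hπ₂) (cx.pull hπ₂ sx) dx.pull
  obtain ⟨a2, a3⟩ := restr_class hπ₁ hπ₂ hk dx hι hCS hι1 hι2
  have hs : s = 1 := by
    have a1 := hst.pull (smap_fstS (X := X) (P := PX))
    rw [pull_add', pull_smul', pull_smul'] at a1
    have a2 := (Coh.refl (X := Sph X PX) (s • F.pull Prod.fst (F.pull π₁ x))).add (hsph.smul t)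
    rw [smul_zero, add_zero] at a2
    have a3 := (hhom.trans (a1.trans a2)).sub (Coh.refl (s • F.pull Prod.fst (F.pull π₁ x)))
    rw [sub_self] at a3
    by_contra hne'
    refine hxU ?_
    have a6 : (F.pull Prod.fst (F.pull π₁ x) : E₂ × H₂ → Ext (E₂ × H₂)) -
        s • F.pull Prod.fst (F.pull π₁ x) = (1 - s) • F.pull Prod.fst (F.pull π₁ x) := by
      rw [sub_smul, one_smul]
    rw [a6] at a3
    exact a3.smul_zero_of_ne (sub_ne_zero.2 (Ne.symm hne'))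
  -- restriction to `C`
  have ht : t = -1 := by
    have a1 := hst.pull hι
    rw [pull_add', pull_smul', pull_smul', hs, one_smul] at a1
    have a4 : Coh C 0 ((1 + t) • e) := by
      refine (Coh.of_eqv a3.symm).trans (a1.trans ?_)
      have := ((Coh.of_eqv a2).trans hxC).add (hε.smul t)
      rwa [add_smul, one_smul]
    by_contra hne'
    refine hne ?_
    exact a4.symm.smul_zero_of_ne (by
      intro h; exact hne' (by linarith))
  rw [hs, ht, one_smul, neg_smul, one_smul, ← sub_eq_add_neg] at hst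
  exact hst

/-- the same class restricted to another fibre -/
theorem restr_snd_class {C' : Set E} {p' : E} {e' : E → Ext E} {ι' : E → E₂}
    (hπ₁ : SMap X S π₁) (hπ₂ : SMap X S π₂) (hk : 1 ≤ k)
    (dx : Hom k x) (hι : SMap C' X ι') (hCS : C' ⊆ S)
    (hι1 : ∀ q ∈ C', π₁ (ι' q) = q) (hι2 : ∀ q ∈ C', π₂ (ι' q) = p')
    (hε : Coh C' (F.pull ι' ep) e') (h : Coh X (F.pull π₂ x) (F.pull π₁ x - ep)) :
    Coh C' x e' := by
  obtain ⟨a2, a3⟩ := restr_class hπ₁ hπ₂ hk dx hι hCS hι1 hι2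
  have a1 := h.pull hι
  rw [pull_sub'] at a1
  have b := ((Coh.of_eqv a3.symm).trans a1).trans ((Coh.of_eqv a2).sub hε)
  have c := b.symm.add (Coh.refl e')
  rwa [sub_add_cancel, zero_add] at c

end classes

/-! ### (X1a) -/
section a
variable {n N k : ℕ} {κ : ℝ} {S : Set (Euc N)} {G : Geo n N κ S} {p : Euc N}
  {ι : Type} [Fintype ι] [DecidableEq ι]

/-- the cut locus is oriented by a smooth form of top degree -/
theorem exists_ori_Cut (h : GT.Bla G k) (hk : 2 ≤ k) (hkn : k < n) (hp : p ∈ S) :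
    ∃ o : Euc N → Ext (Euc N), Ori (n - k) (GP.Cut S p) o ∧ Sm (GP.Cut S p) o ∧
      Hom (n - k) o := by
  obtain ⟨w, hw, hwe⟩ := FG.exists_orient_TC h hk hkn
  have hF : ∀ q ∈ GP.Cut S p, (p, q) ∈ GT.FF S := fun q hq => ⟨hp, hq.1, hq.2⟩
  have hs : ∀ q ∈ GP.Cut S p, ContDiffAt ℝ ∞ (fun q => w (p, q)) q := fun q hq =>
    (hw _ (hF q hq)).comp q (contDiffAt_const.prodMk contDiffAt_id)
  refine ⟨fun q => GP.fm (n - k) N (w (p, q)), ?_, ?_, fun q => GP.isDeg_fm _⟩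
  · refine GP.ori_of_field (FV.clo_Cut h hp)
      (fun q hq => (hs q hq).continuousAt.continuousWithinAt) fun q hq => ?_
    obtain ⟨e, h1, h2, h3⟩ := hwe _ (hF q hq)
    refine ⟨e, h1, fun a => ?_, h3⟩
    rw [FV.Tan_Cut h (hF q hq)]
    exact h2 a
  · exact fun q hq => (GP.fmL (n - k) N).contDiff.contDiffAt.comp q (hs q hq)

/-- **(X1a)** -/
theorem X1a {W : Euc N → (ι × Fin 2 → Fin N) → ℝ} (h : GT.Bla G k) (hk : 2 ≤ k) (hkn : k < n)
    (hp : p ∈ S) (hι : 2 * Fintype.card ι = k) (hW : OR (GP.Cut S p) (FV.PC h p) W)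
    {o : Euc N → Ext (Euc N)} (ho : Ori (n - k) (GP.Cut S p) o) :
    ∃ m : ℕ, 1 ≤ m ∧ n = k * (m + 1) ∧
      J (n - k) (GP.Cut S p) o (eR (FV.PC h p) W ^ m) ≠ 0 := by
  obtain ⟨o₁, h1, h2, h3⟩ := exists_ori_Cut h hk hkn hp
  have hC := FV.clo_Cut h hp
  have hc := cl_of_top hC.sub h3
  obtain ⟨c, hc0, hcoh⟩ := Cut_classes h hk hkn hp hι hW (n - k) h2 hc h3
  have hpos : 0 < J (n - k) (GP.Cut S p) o₁ o₁ := J_pos hC h1 (FV.nonempty_Cut h.bl h.ty hp)
  -- the integral with respect to `o`: a nowhere zero multiple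
  have hne1 : ¬ Coh (GP.Cut S p) o₁ 0 := fun h0 => by
    rw [J_exact hC h1 h0] at hpos; exact lt_irrefl _ hpos
  have hcne : c ≠ 0 := by
    rintro rfl
    rw [zero_smul] at hcoh
    exact hne1 hcoh
  have hdvd : k ∣ n - k := by
    by_contra hnd
    exact hcne (hc0 hnd)
  obtain ⟨m, hm⟩ := hdvd
  have hm1 : 1 ≤ m := by
    rcases Nat.eq_zero_or_pos m with rfl | hm0
    · rw [mul_zero] at hm; omega
    · exact hm0
  refine ⟨m, hm1, by rw [mul_add, mul_one, ← hm]; omega, ?_⟩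
  have hq : (n - k) / k = m := by rw [hm]; exact Nat.mul_div_cancel_left m (by omega)
  rw [hq] at hcoh
  intro hJ
  -- `o₁` has non-zero integral for `o` as well
  have hpos' : J (n - k) (GP.Cut S p) o o₁ ≠ 0 := by
    rcases J_ori_connected hC h1 ho (FV.preconn_Cut h.bl h.ty (by omega) hp) with h4 | h4
    · rw [h4]; exact hpos.ne'
    · rw [h4]; exact neg_ne_zero.2 hpos.ne'
  have e1 := J_coh hC ho h2 ((hW.ec_eR.sm.pow m).smul c) hcoh
  rw [J_smulT, hJ, mul_zero] at e1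
  exact hpos' e1

end a

end Crest.Agent.R208.T
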