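import Crest.Agent.R208.TX6b
import Crest.Agent.R208.HY4

/-! Row 208, block T (helper316).  TX7: `x^m` is not exact on `S`. -/

set_option autoImplicit false
set_option linter.unusedSectionVars false

open MeasureTheory Set Filter Topology Module
open scoped ContDiff RealInnerProductSpace Matrix
open Crest.GeometryTopology.Submanifold
open Crest.Agent.R241.DDefs
open Crest.Agent.R241.D2
open Crest.Agent.R208.F Crest.Agent.R208.FI Crest.Agent.R208.CW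

noncomputable section

namespace Crest.Agent.R208.T

section push
variable {n m : Type} [Fintype n] [DecidableEq n] [Fintype m] [DecidableEq m]
  {E : Type} [NormedAddCommGroup E] [NormedSpace ℝ E] [FiniteDimensional ℝ E]
  {S C : Set E} {p : E} {P : E → EuclideanSpace ℝ n →L[ℝ] EuclideanSpace ℝ n}
  {M : Matrix m n ℝ} {ρ : ℝ} {Ψ : E × EuclideanSpace ℝ n → E}
  {Gt : E → E × EuclideanSpace ℝ n}

/-- the tube over the pushed field -/
theorem Tube.push (h : Tube S C p P ρ Ψ Gt) (hM : Mᵀ * M = 1) :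
    Tube S C p (pushE M P) ρ (fun z => Ψ (z.1, mE Mᵀ z.2)) (fun y => ((Gt y).1, mE M (Gt y).2)) where
  CS := h.CS
  sΨ := by
    have hm : ∀ z ∈ Tot C (pushE M P) ∩ {z : E × EuclideanSpace ℝ m | ‖z.2‖ < ρ},
        ((z.1, mE Mᵀ z.2) : E × EuclideanSpace ℝ n) ∈ Tot C P ∩ {z | ‖z.2‖ < ρ} := by
      intro z hz
      obtain ⟨h1, h2⟩ := tot_out hM hz.1
      refine ⟨⟨hz.1.1, h1⟩, ?_⟩
      change ‖mE Mᵀ z.2‖ < ρ
      rw [← norm_mE hM, h2]
      exact hz.2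
    refine ⟨fun z hz => ?_, fun z hz => h.sΨ.maps (hm z hz)⟩
    have h1 : ContDiffAt ℝ ∞ (fun z : E × EuclideanSpace ℝ m =>
        ((z.1, mE Mᵀ z.2) : E × EuclideanSpace ℝ n)) z :=
      contDiffAt_fst.prodMk ((mE Mᵀ).contDiff.contDiffAt.comp z contDiffAt_snd)
    exact ContDiffAt.comp (g := Ψ) z (h.sΨ.smooth _ (hm z hz)) h1
  sG := by
    refine ⟨fun y hy => ?_, fun y hy => ?_⟩
    · have h1 := h.sG.smooth y hy
      exact h1.fst.prodMk ((mE M).contDiff.contDiffAt.comp y h1.snd)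
    · obtain ⟨⟨h1, h2⟩, h3⟩ := h.sG.maps hy
      refine ⟨⟨h1, ?_⟩, ?_⟩
      · change mE M (P (Gt y).1 (mE Mᵀ (mE M (Gt y).2))) = mE M (Gt y).2
        rw [mE_mE, hM, mE_one, h2]
      · change ‖mE M (Gt y).2‖ < ρ
        rw [norm_mE hM]; exact h3
  ΨG := fun q hq => by
    change Ψ ((Gt q).1, mE Mᵀ (mE M (Gt q).2)) = q
    rw [mE_mE, hM, mE_one]
    exact h.ΨG q hq
  Ψ0 := fun q hq => by
    change Ψ (q, mE Mᵀ 0) = q
    rw [map_zero]; exact h.Ψ0 q hq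
  G0 := fun q hq => by
    change ((Gt q).1, mE M (Gt q).2) = (q, 0)
    rw [h.G0 q hq, map_zero]
  far := by
    obtain ⟨V, hV, hpV, hfar⟩ := h.far
    refine ⟨V, hV, hpV, fun q hq hqp => ?_⟩
    change 3 < ‖mE M (Gt q).2‖
    rw [norm_mE hM]; exact hfar q hq hqp

end push

variable {n N k m : ℕ} {κ : ℝ} {S : Set (Euc N)} {G : Geo n N κ S} {p : Euc N}
  {ι : Type} [Fintype ι] [DecidableEq ι] {W : Euc N × Euc N → (ι × Fin 2 → Fin N) → ℝ}
  {x : Euc N → Ext (Euc N)}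

/-- the tube, with both inverse properties -/
theorem exists_Tube'' (h : GT.Bla G k) (hp : p ∈ S) : ∃ Gt : Euc N → Euc N × Euc N,
    Tube S (GP.Cut S p) p (FV.PC h p) Real.pi (GP.Psi G) Gt ∧
      (∀ z ∈ Tot (GP.Cut S p) (FV.PC h p) ∩ {z | ‖z.2‖ < Real.pi}, Gt (GP.Psi G z) = z) := by
  obtain ⟨Gt, h1, h2, h3, h4, h5, h6⟩ := GP.exists_Gt h.bl h.ty (FV.sub_S h.bl) hp
  have h3π : (0 : ℝ) < Real.pi - 3 := by linarith [Real.pi_gt_three]
  obtain ⟨U, Λ, h7, h8, -⟩ := GP.exists_polar (G := G) h.bl hp h3π (by linarith)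
  refine ⟨Gt, ⟨fun q hq => ⟨hq.1, GP.ne_of_Cut h.bl hp hq⟩, h1, h2, h3, fun q hq => Exp_zero G hq.1,
    h5, U, h7.oU, h7.pU, fun q hq hqp => ?_⟩, h4⟩
  rw [h6 q ⟨hq.1, hqp⟩]
  have := (h8 q hq.1).1 hq.2
  linarith

/-- small balls -/
theorem exists_ball (h : GT.Bla G k) (hp : p ∈ S) {V : Set (Euc N)} (hV : IsOpen V) (hpV : p ∈ V) :
    ∃ ε : ℝ, 0 < ε ∧ ε < 1 / 10 ∧ ∀ y ∈ S, intrinsicDist S p y < ε → y ∈ V := by
  obtain ⟨ε, hε, hB⟩ := Metric.isOpen_iff.1 hV p hpV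
  refine ⟨min ε (1 / 11), lt_min hε (by norm_num), (min_le_right _ _).trans_lt (by norm_num),
    fun y hy hd => hB ?_⟩
  rw [Metric.mem_ball, dist_eq_norm]
  exact (chord_le_intrinsicDist (h.bl.joined hp hy)).trans_lt (hd.trans_le (min_le_left _ _))

theorem hsmall_S (h : GT.Bla G k) (hp : p ∈ S) {i : ℕ} (hi : 1 ≤ i) (V : Set (Euc N))
    (hV : IsOpen V) (hpV : p ∈ V) : ∃ U ⊆ V, IsOpen U ∧ p ∈ U ∧ ExactIn (S ∩ U) i := by
  obtain ⟨ε, hε, hε1, hB⟩ := exists_ball h hp hV hpV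
  obtain ⟨U, Λ, h7, h8, -⟩ := GP.exists_polar (G := G) h.bl hp hε
    (by linarith [Real.pi_gt_three])
  refine ⟨U ∩ V, inter_subset_right, h7.oU.inter hV, ⟨h7.pU, hpV⟩, ?_⟩
  have : S ∩ (U ∩ V) = S ∩ U := by
    ext y
    constructor
    · rintro ⟨h1, h2, -⟩; exact ⟨h1, h2⟩
    · rintro ⟨h1, h2⟩; exact ⟨h1, h2, hB y h1 ((h8 y h1).1 h2)⟩
  rw [this]
  exact h7.exactIn_ball' hi

/-- a parity choice, for two ranks at once -/
theorem exists_par₂ {N a b : ℕ} (ha : 2 * a ≤ N) (hb : 2 * b ≤ N) (α β : Type) [Fintype α]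
    [Fintype β] (hα : Fintype.card α = a) (hβ : Fintype.card β = b) :
    ∃ q r s : ℕ, Nonempty ((α × Fin 2) ⊕ (Fin (r + 1) × Fin 2) ≃ Fin N ⊕ Fin q) ∧
      Nonempty ((β × Fin 2) ⊕ (Fin (s + 1) × Fin 2) ≃ Fin N ⊕ Fin q) := by
  rcases Nat.even_or_odd N with ⟨c, hc⟩ | ⟨c, hc⟩
  · refine ⟨2, c - a, c - b, ⟨Fintype.equivOfCardEq ?_⟩, ⟨Fintype.equivOfCardEq ?_⟩⟩ <;>
    · simp only [Fintype.card_sum, Fintype.card_prod, Fintype.card_fin]
      omega
  · refine ⟨1, c - a, c - b, ⟨Fintype.equivOfCardEq ?_⟩, ⟨Fintype.equivOfCardEq ?_⟩⟩ <;>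
    · simp only [Fintype.card_sum, Fintype.card_prod, Fintype.card_fin]
      omega

set_option maxHeartbeats 1000000 in
/-- **(X1c)**, first part: `x^m` is not exact on `S` -/
theorem XM.xm_ne {h : GT.Bla G k} (D : XM h m W p x) : ¬ Coh S (x ^ m) 0 := by
  intro hex
  have hk := D.hk
  have hkn := D.hkn
  have h2k := D.two_k
  have hp := D.hp
  have hι := D.hι
  have : Nonempty ι := Fintype.card_pos_iff.1 (by omega)
  have hWp := OR_Cut h hp D.hW
  obtain ⟨o, ho, -, -⟩ := exists_ori_Cut h hk hkn hp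
  obtain ⟨l, hl1, hl2, hJ⟩ := X1a h hk hkn hp hι hWp ho
  have hml : m = l + 1 := by
    have h1 := D.hn
    rw [hl2] at h1
    exact (Nat.eq_of_mul_eq_mul_left (by omega) h1).symm
  have hC := FV.clo_Cut h hp
  have hCc := FV.preconn_Cut h.bl h.ty (by omega) hp
  obtain ⟨Gt, hG, hGΨ⟩ := exists_Tube'' h hp
  obtain ⟨q, r, eq, -⟩ := exists_par hWp (FV.nonempty_Cut h.bl h.ty hp)
  set M := iM (Fin N) (Fin q) with hMdef
  have hM : Mᵀ * M = 1 := iM_iso (Fin q)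
  have hO := hWp.push hM
  have hG' := hG.push hM
  obtain ⟨W', c₀, hT⟩ := exists_thomPair thd_holds eq hC.sub hCc (FV.nonempty_Cut h.bl h.ty hp) hO
  set P' := pushE M (FV.PC h p) with hP'
  have hdτ : Hom k (thomF P' (fun x => pushR M (W (x, p)))) := by
    intro z
    have := thomF_deg (P := P') (W := fun x => pushR M (W (x, p))) z
    rwa [hι] at this
  obtain ⟨x', sx', cx', dx', ex', exG', nx'⟩ := hG'.exists_dual' (FV.sub_S h.bl)
    (csf_thomF hC.sub hO) hdτ (thomF_zero hO)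
  have hkN : k ≤ finrank ℝ (EuclideanSpace ℝ (Fin N ⊕ Fin q)) := by
    rw [finrank_euclideanSpace, ← Fintype.card_congr eq, Fintype.card_sum, Fintype.card_prod,
      Fintype.card_prod, Fintype.card_fin, Fintype.card_fin]
    omega
  set e' := (2 : ℝ) • eR P' (fun x => pushR M (W (x, p))) with he'
  have hee : Eqv (GP.Cut S p) e' ((2 : ℝ) • eR (FV.PC h p) (fun x => W (x, p))) :=
    (eqv_eR_push hM hWp).smul 2
  -- `x' ~ 2 x`
  obtain ⟨c, -, hc⟩ := S_classes h hk hkn hp hι hWp D.sx D.cx D.dx D.ex k x' (by omega) hkn sx' cx'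
    dx'
  rw [Nat.div_self (by omega), pow_one] at hc
  have hCS : GP.Cut S p ⊆ S := fun _ hq => hq.1
  have hx' : Coh S (x' ^ m) 0 := by
    have h1 := Coh.powT sx' cx' (D.sx.smul c) (Cl.smul c D.sx D.cx) hc m
    have h2 := h1.trans (by
      rw [smul_pow]
      exact hex.smul (c ^ m))
    rwa [smul_zero] at h2
  rw [hml] at hx'
  have key := Tube.top_exact (l := l) (i := n - 1) (dC := n - k) (q := k - 1) volume hG'
    (fun z hz => ?_) hp hC.sub hCc (by have := hO.pfield; rwa [hι] at this) hkN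
    (by rw [hι] at hT; exact hT) (by omega) D.hke (csf_thomF hC.sub hO) hdτ (thomF_zero hO)
    (hO.ec_eR.sm.smul 2) (Cl.smul 2 hO.ec_eR.sm hO.ec_eR.cl)
    ((show Hom k (eR P' _) from by have := hom_eR (P := P') (W := fun x => pushR M (W (x, p))); rwa [hι] at this).smul 2) ?_ sx' cx'
    dx' exG' nx' (fun V hV hpV => hsmall_S h hp (by omega) V hV hpV) ?_ (by omega) (by omega) hx'
  · -- the contradiction
    have h1 : Eqv (GP.Cut S p) (x' ^ l) (((2 : ℝ) ^ l) • eR (FV.PC h p) (fun x => W (x, p)) ^ l) := by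
      have := (ex'.trans hee).pow l
      rwa [smul_pow] at this
    have h2 := ((Coh.of_eqv h1.symm).trans key).smul_zero_of_ne (by positivity)
    exact hJ (J_exact hC ho h2)
  · -- `Gt Ψ = id`
    obtain ⟨h1, h2⟩ := tot_out hM hz.1
    have h3 : ((z.1, mE Mᵀ z.2) : Euc N × Euc N) ∈
        Tot (GP.Cut S p) (FV.PC h p) ∩ {z | ‖z.2‖ < Real.pi} := by
      refine ⟨⟨hz.1.1, h1⟩, ?_⟩
      change ‖mE Mᵀ z.2‖ < Real.pi
      rw [← norm_mE hM, h2]
      exact hz.2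
    change ((Gt (GP.Psi G (z.1, mE Mᵀ z.2))).1, mE M (Gt (GP.Psi G (z.1, mE Mᵀ z.2))).2) = z
    rw [hGΨ _ h3, h2]
  · -- `e'` is not exact
    intro h0
    exact euler_ne h hk hkn hp hι hWp
      (((Coh.of_eqv hee.symm).trans h0).smul_zero_of_ne two_ne_zero)
  · -- near `p`
    intro V hV hpV
    obtain ⟨ε, hε, hε1, hB⟩ := exists_ball h hp hV hpV
    have hπ := Real.pi_gt_d2
    refine ⟨Real.pi - ε / 2, by linarith, by linarith, fun z hz => ?_⟩
    obtain ⟨h1, h2⟩ := tot_out hM hz.1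
    have hn1 : ‖mE Mᵀ ((Real.pi - ε / 2) • z.2)‖ = Real.pi - ε / 2 := by
      rw [map_smul, norm_smul, ← norm_mE hM (mE Mᵀ z.2), h2, hz.2, mul_one,
        Real.norm_of_nonneg (by linarith)]
    have h3 : ((z.1, mE Mᵀ ((Real.pi - ε / 2) • z.2)) : Euc N × Euc N) ∈
        Tot (GP.Cut S p) (FV.PC h p) := by
      refine ⟨hz.1.1, ?_⟩
      change FV.PC h p z.1 (mE Mᵀ ((Real.pi - ε / 2) • z.2)) = mE Mᵀ ((Real.pi - ε / 2) • z.2)
      rw [map_smul, map_smul, h1]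
    have h4 := GP.dist_Psi h.bl h.ty (FV.sub_S h.bl) hp h3 (by
      change ‖mE Mᵀ ((Real.pi - ε / 2) • z.2)‖ ≤ Real.pi
      rw [hn1]; linarith)
    refine hB _ ?_ ?_
    · refine (hG.sΨ.maps (x := (z.1, mE Mᵀ ((Real.pi - ε / 2) • z.2))) ⟨h3, ?_⟩).1
      change ‖mE Mᵀ ((Real.pi - ε / 2) • z.2)‖ < Real.pi
      rw [hn1]; linarith
    · change intrinsicDist S p (GP.Psi G (z.1, mE Mᵀ ((Real.pi - ε / 2) • z.2))) < ε
      rw [h4]
      change Real.pi - ‖mE Mᵀ ((Real.pi - ε / 2) • z.2)‖ < ε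
      rw [hn1]; linarith

end Crest.Agent.R208.T
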