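import Crest.Agent.R208.VE3
import Crest.Agent.R208.RR0
import Crest.Agent.R208.SB1
import Crest.Agent.R208.SN8

/-! Row 208, block UN (helper378).  UN1: the radial integral of an exact form over the sphere of a
fibre. -/

set_option autoImplicit false
set_option linter.unusedSectionVars false
set_option linter.unusedVariables false

open MeasureTheory Set Filter Topology Module
open scoped ContDiff
open Crest.Agent.R208.F Crest.Agent.R208.FI Crest.Agent.R208.CW Crest.Agent.R208.T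

noncomputable section

namespace Crest.Agent.R208.UN

universe u w

variable {E : Type u} {H : Type w} [NormedAddCommGroup E] [NormedSpace ℝ E] [FiniteDimensional ℝ E]
  [NormedAddCommGroup H] [InnerProductSpace ℝ H] [FiniteDimensional ℝ H]
  {X : Set E} {P : E → H →L[ℝ] H} {r d : ℕ} {R c : ℝ}
  {W ξ Ψ o : E × H → Ext (E × H)} {lam : ℝ → ℝ} {Z : Set (E × H)} {x : E}

/-- the dilation by `t` in the fibres -/
def dl (t : ℝ) (q : E × H) : E × H := (q.1, t • q.2)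

/-- `(q, s) ↦ (q.1, lam s • q.2)` -/
def scl (lam : ℝ → ℝ) (y : (E × H) × ℝ) : E × H := (y.1.1, lam y.2 • y.1.2)

theorem contDiff_dl (t : ℝ) : ContDiff ℝ ∞ (dl (E := E) (H := H) t) := by unfold dl; fun_prop

theorem contDiff_scl (hl : ContDiff ℝ ∞ lam) : ContDiff ℝ ∞ (scl (E := E) (H := H) lam) := by
  unfold scl
  exact (contDiff_fst.comp contDiff_fst).prodMk
    ((hl.comp contDiff_snd).smul (contDiff_snd.comp contDiff_fst))

theorem smap_dl (t : ℝ) : SMap (Tot X P) (Tot X P) (dl (E := E) (H := H) t) :=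
  ⟨fun _ _ => (contDiff_dl t).contDiffAt, fun z hz => ⟨hz.1, by
    change P z.1 (t • z.2) = t • z.2
    rw [map_smul, hz.2]⟩⟩

theorem smap_scl (hl : ContDiff ℝ ∞ lam) :
    SMap (RR.Cyl (Tot X P)) (Tot X P) (scl (E := E) (H := H) lam) :=
  ⟨fun _ _ => (contDiff_scl hl).contDiffAt, fun y hy => ⟨hy.1.1, by
    change P y.1.1 (lam y.2 • y.1.2) = lam y.2 • y.1.2
    rw [map_smul, hy.1.2]⟩⟩

theorem cyl_mono {A B : Set E} (h : A ⊆ B) : RR.Cyl A ⊆ RR.Cyl B := fun _ hy => ⟨h hy.1, hy.2⟩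

theorem smap_dl_out {t : ℝ} (hR : 1 ≤ R) (ht : R < t) :
    SMap (Sph X P) (Tot X P ∩ {z | R < ‖z.2‖}) (dl (E := E) (H := H) t) := by
  refine ⟨fun _ _ => (contDiff_dl t).contDiffAt, fun z hz => ⟨(smap_dl t).maps hz.1, ?_⟩⟩
  change R < ‖t • z.2‖
  rw [norm_smul, hz.2, mul_one, Real.norm_of_nonneg (by linarith)]
  exact ht

/-- Stokes along the rays -/
theorem J_K_ray (hr : 1 ≤ r) (hZ : Clo r Z) (hZS : Z ⊆ Sph X P) (hx : ∀ z ∈ Z, z.1 = x)
    (ho : Ori r Z o) (hl : ContDiff ℝ ∞ lam) (h0 : lam 0 = 0)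
    (sξ : Sm (Tot X P) ξ) (sΨ : Sm (Tot X P) Ψ) (dΨ : Eqv (Tot X P) ξ (F.d Ψ)) :
    J r Z o (RR.K (F.pull (scl lam) ξ)) = J r Z o (F.pull (dl (lam 1)) Ψ) := by
  have hZT : Z ⊆ Tot X P := fun z hz => (hZS hz).1
  have hs : SMap (RR.Cyl Z) (Tot X P) (scl (E := E) (H := H) lam) :=
    (smap_scl hl).mono (cyl_mono hZT)
  set w := F.pull (scl (E := E) (H := H) lam) Ψ with hw
  have sw : Sm (RR.Cyl Z) w := sΨ.pull hs
  have e1 : Eqv (RR.Cyl Z) (F.pull (scl lam) ξ) (F.d w) :=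
    (Eqv.pull hs dΨ).trans (d_pull_eqv hs sΨ).symm
  rw [RR.JK_congr hZ (sξ.pull hs) sw.d e1, RR.JK_d hZ ho sw]
  -- the outer end
  have e2 : Eqv Z (F.pull (RR.sl 1) w) (F.pull (dl (lam 1)) Ψ) :=
    eqv_pull_pull (RR.smap_sl 1) hs ((smap_dl _).mono hZT) (fun z _ => rfl) Ψ
  -- the inner end
  have e3 : Eqv Z (F.pull (RR.sl 0) w) (F.pull (fun _ : E × H => ((x, 0) : E × H)) Ψ) := by
    refine (Eqv.of_eq fun z hz => ?_ : Eqv Z (F.pull (RR.sl 0) w)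
      (F.pull (fun z => scl lam (RR.sl 0 z)) Ψ)).trans
      (eqv_pull_of_eq Ψ (fun z hz => ?_) (fun z hz => differentiableAt_const _) fun z hz => ?_)
    · exact F.pull_comp ((RR.smap_sl (Z := Z) 0).diff hz) (hs.diff ((RR.smap_sl 0).maps hz))
    · exact (hs.comp (RR.smap_sl 0)).diff hz
    · change (z.1, lam 0 • z.2) = (x, 0)
      rw [h0, zero_smul, hx z hz]
  have e4 : J r Z o (F.pull (RR.sl 0) w) = 0 := by
    rw [RR.J_eqv hZ e3]
    refine J_eq_zero hZ fun z hz v hv => ?_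
    rw [F.pull, evA_pb]
    have hne : Nonempty (Fin r) := ⟨⟨0, hr⟩⟩
    obtain ⟨i⟩ := hne
    refine (evA (E × H) r _).map_coord_zero i ?_
    change fderiv ℝ (fun _ : E × H => ((x, 0) : E × H)) z (v i) = 0
    rw [fderiv_const_apply]
    rfl
  rw [e4, sub_zero, RR.J_eqv hZ e2]

/-- the integral of `dl t ^* Ψ` does not depend on `t` in the region where `Ψ` is closed -/
theorem J_dl_eq (hZ : Clo r Z) (hZS : Z ⊆ Sph X P) (ho : Ori r Z o) {ρ₀ t t' : ℝ} (hρ : 0 ≤ ρ₀)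
    (ht : ρ₀ < t) (ht' : ρ₀ < t') (sξ : Sm (Tot X P) ξ) (sΨ : Sm (Tot X P) Ψ)
    (dΨ : Eqv (Tot X P) ξ (F.d Ψ)) (cξ : Eqv (Tot X P ∩ {z | ρ₀ < ‖z.2‖}) ξ 0) :
    J r Z o (F.pull (dl t') Ψ) = J r Z o (F.pull (dl t) Ψ) := by
  have hZT : Z ⊆ Tot X P := fun z hz => (hZS hz).1
  set mu : ℝ → ℝ := fun s => t + (t' - t) * Real.smoothTransition s with hmu
  have hmc : ContDiff ℝ ∞ mu :=
    contDiff_const.add (contDiff_const.mul Real.smoothTransition.contDiff)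
  have hmb : ∀ s, ρ₀ < mu s := fun s => by
    have h1 := Real.smoothTransition.nonneg s
    have h2 := Real.smoothTransition.le_one s
    have h3 : mu s = (1 - Real.smoothTransition s) * t + Real.smoothTransition s * t' := by
      simp only [hmu]; ring
    rw [h3]
    rcases eq_or_lt_of_le h1 with h4 | h4
    · rw [← h4]; linarith
    · nlinarith
  have hm0 : mu 0 = t := by simp [hmu]
  have hm1 : mu 1 = t' := by simp [hmu]
  have hs : SMap (RR.Cyl Z) (Tot X P) (scl (E := E) (H := H) mu) :=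
    (smap_scl hmc).mono (cyl_mono hZT)
  have hs' : SMap (RR.Cyl Z) (Tot X P ∩ {z | ρ₀ < ‖z.2‖}) (scl (E := E) (H := H) mu) :=
    ⟨hs.smooth, fun y hy => ⟨hs.maps hy, by
      change ρ₀ < ‖mu y.2 • y.1.2‖
      rw [norm_smul, (hZS hy.1).2, mul_one, Real.norm_of_nonneg (hρ.trans (hmb _).le)]
      exact hmb _⟩⟩
  set w := F.pull (scl (E := E) (H := H) mu) Ψ with hw
  have sw : Sm (RR.Cyl Z) w := sΨ.pull hs
  have e1 : Eqv (RR.Cyl Z) (F.d w) 0 := by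
    have h1 := (Eqv.pull hs dΨ).trans (d_pull_eqv hs sΨ).symm
    have h2 := Eqv.pull hs' cξ
    rw [pull_zero'] at h2
    exact h1.symm.trans h2
  have s0 : Sm (RR.Cyl Z) (0 : (E × H) × ℝ → Ext ((E × H) × ℝ)) := fun _ _ => contDiffAt_const
  have h3 := RR.JK_congr (o := o) hZ sw.d s0 e1
  have h0 : RR.K (E := E × H) (0 : (E × H) × ℝ → Ext ((E × H) × ℝ)) = 0 := by
    have h4 := RR.K_smul (E := E × H) (w := 0) (0 : ℝ)
    rwa [zero_smul, zero_smul] at h4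
  rw [RR.JK_d hZ ho sw, h0] at h3
  have h5 : J r Z o (0 : E × H → Ext (E × H)) = 0 := by
    have h6 := RR.J_smul' (d := r) (Z := Z) (o := o) (a := 0) (0 : ℝ)
    rwa [zero_smul, zero_mul] at h6
  rw [h5, sub_eq_zero] at h3
  have e2 : Eqv Z (F.pull (RR.sl 1) w) (F.pull (dl t') Ψ) :=
    eqv_pull_pull (RR.smap_sl 1) hs ((smap_dl _).mono hZT) (fun z _ => by
      change (z.1, mu 1 • z.2) = (z.1, t' • z.2)
      rw [hm1]) Ψ
  have e3 : Eqv Z (F.pull (RR.sl 0) w) (F.pull (dl t) Ψ) :=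
    eqv_pull_pull (RR.smap_sl 0) hs ((smap_dl _).mono hZT) (fun z _ => by
      change (z.1, mu 0 • z.2) = (z.1, t • z.2)
      rw [hm0]) Ψ
  rw [← RR.J_eqv hZ e2, ← RR.J_eqv hZ e3]
  exact h3

/-- the outer value -/
theorem J_dl_out (hZ : Clo r Z) (hZS : Z ⊆ Sph X P) {t : ℝ} (hR : 1 ≤ R) (h1 : R < t)
    (out : Eqv (Tot X P ∩ {z | R < ‖z.2‖}) Ψ (c • rx W)) :
    J r Z o (F.pull (dl t) Ψ) = c * J r Z o W := by
  have hd : SMap Z (Tot X P ∩ {z | R < ‖z.2‖}) (dl (E := E) (H := H) t) :=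
    (smap_dl_out hR h1).mono hZS
  have a2 : Eqv Z (F.pull (dl t) Ψ) (F.pull (dl t) (c • rx W)) := Eqv.pull hd out
  have hd1 : SMap Z (Tot X P ∩ {z | 1 < ‖z.2‖}) (dl (E := E) (H := H) t) :=
    (smap_dl_out le_rfl (hR.trans_lt h1)).mono hZS
  have a3 : Eqv Z (F.pull (dl t) (rx W)) (F.pull (dl t) (F.pull rh W)) :=
    Eqv.pull hd1 (VE.eqv_rx W)
  have a4 : Eqv Z (F.pull (dl t) (F.pull rh W)) (F.pull (fun z => z) W) := by
    refine eqv_pull_pull hd1 smap_rh' ⟨fun _ _ => contDiffAt_id, fun z hz => hZS hz⟩ ?_ W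
    intro z hz
    have hz1 : ‖z.2‖ = 1 := (hZS hz).2
    have hl1 : 0 < t := by linarith
    change (z.1, ‖t • z.2‖⁻¹ • t • z.2) = z
    rw [norm_smul, hz1, mul_one, Real.norm_of_nonneg hl1.le, smul_smul, inv_mul_cancel₀ hl1.ne',
      one_smul]
  have a5 : F.pull (fun z : E × H => z) W = W := funext fun z => pull_id W z
  rw [a5] at a4
  rw [pull_smul'] at a2
  rw [RR.J_eqv hZ (a2.trans ((a3.trans a4).smul c)), RR.J_smul']

/-- **(UN1)** the integral of `K (sc^* ξ)` over the sphere of one fibre, `ξ = dΨ`, `ξ = 0` outside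
the ball of radius `ρ₀ < lam 1`, `Ψ = c rx W` outside the ball of radius `R` (any `R ≥ 1`) -/
theorem J_fib_K (hr : 1 ≤ r) (hZ : Clo r Z) (hZS : Z ⊆ Sph X P) (hx : ∀ z ∈ Z, z.1 = x)
    (ho : Ori r Z o) (hl : ContDiff ℝ ∞ lam) (h0 : lam 0 = 0) {ρ₀ : ℝ} (hρ : 0 ≤ ρ₀)
    (h1 : ρ₀ < lam 1) (hR : 1 ≤ R)
    (sξ : Sm (Tot X P) ξ) (sΨ : Sm (Tot X P) Ψ)
    (dΨ : Eqv (Tot X P) ξ (F.d Ψ)) (cξ : Eqv (Tot X P ∩ {z | ρ₀ < ‖z.2‖}) ξ 0)
    (out : Eqv (Tot X P ∩ {z | R < ‖z.2‖}) Ψ (c • rx W)) :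
    J r Z o (RR.K (F.pull (scl lam) ξ)) = c * J r Z o W := by
  have h2 : ρ₀ < max (R + 1) (ρ₀ + 1) := lt_of_lt_of_le (by linarith) (le_max_right _ _)
  have h3 : R < max (R + 1) (ρ₀ + 1) := lt_of_lt_of_le (by linarith) (le_max_left _ _)
  rw [J_K_ray hr hZ hZS hx ho hl h0 sξ sΨ dΨ, J_dl_eq hZ hZS ho hρ h2 h1 sξ sΨ dΨ cξ,
    J_dl_out hZ hZS hR h3 out]

end Crest.Agent.R208.UN
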