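import Crest.Agent.R208.UN1
import Crest.Agent.R208.HN2
import Crest.Agent.R208.CG1
import Crest.Agent.R208.ZH2

/-! Row 208, block UN (helper378).  UN2: the radial integral over a sphere of the negative bundle in
terms of the coefficient `c` over the quotient. -/

set_option autoImplicit false
set_option linter.unusedSectionVars false
set_option linter.unusedVariables false

open MeasureTheory Set Filter Topology Module
open scoped ContDiff RealInnerProductSpace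
open Crest.Agent.R208.F Crest.Agent.R208.FI Crest.Agent.R208.CW Crest.Agent.R208.T
open Crest.Agent.R208.CM (Cir Rep Triv Emb Quo Qd MM jj Th)
open Crest.Agent.R208.SB (OPr OddB oV clo_Sph)
open Crest.Agent.R208.UP (SyOn UPr)

noncomputable section

namespace Crest.Agent.R208.UN

/-! ### orientations -/

section ori
variable {E H : Type} [NormedAddCommGroup E] [NormedSpace ℝ E] [FiniteDimensional ℝ E]
  [NormedAddCommGroup H] [InnerProductSpace ℝ H] [FiniteDimensional ℝ H]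
  {X : Set E} {P : E → H →L[ℝ] H} {r : ℕ} {x : E} {o o' om : E × H → Ext (E × H)}

/-- the absolute value of a fibre integral does not depend on the orientation -/
theorem abs_fib_ori (hP : PField X (r + 1) P) (hr : 1 ≤ r) (hx : x ∈ X)
    (ho : Ori r (Sph X P ∩ (Prod.fst : E × H → E) ⁻¹' {x}) o)
    (ho' : Ori r (Sph X P ∩ (Prod.fst : E × H → E) ⁻¹' {x}) o') :
    |J r (Sph X P ∩ (Prod.fst : E × H → E) ⁻¹' {x}) o om| =
      |J r (Sph X P ∩ (Prod.fst : E × H → E) ⁻¹' {x}) o' om| := by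
  rcases J_ori_connected (HN.clo_fib hP hx) ho ho' (ZG.preconn_fib_Sph hP hr hx) with e | e
  · rw [e]
  · rw [e, abs_neg]

theorem sph_fib (hx : x ∈ X) :
    Sph X P ∩ (Prod.fst : E × H → E) ⁻¹' {x} = Sph ({x} : Set E) P := by
  ext z
  constructor
  · rintro ⟨⟨⟨h1, h2⟩, h3⟩, h4⟩
    exact ⟨⟨h4, h2⟩, h3⟩
  · rintro ⟨⟨h1, h2⟩, h3⟩
    have h1' : z.1 = x := h1
    exact ⟨⟨⟨by rw [h1']; exact hx, h2⟩, h3⟩, h1⟩

end ori

section fib
variable {E E' H V : Type} [NormedAddCommGroup E] [NormedSpace ℝ E] [FiniteDimensional ℝ E]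
  [NormedAddCommGroup E'] [NormedSpace ℝ E'] [FiniteDimensional ℝ E']
  [NormedAddCommGroup H] [InnerProductSpace ℝ H] [FiniteDimensional ℝ H]
  [NormedAddCommGroup V] [InnerProductSpace ℝ V] [FiniteDimensional ℝ V]
  {X : Set E} {Y : Set E'} {φ : ℝ → E → E} {R : ℝ → H →L[ℝ] H} {q : E → E'}
  {T : E → H →L[ℝ] V} {P : E → H →L[ℝ] H} {P' : E' → V →L[ℝ] V} {r : ℕ} {x : E}

theorem smap_ThT (sq : SMap X Y q) (hT : Triv X φ R T) (hd : ∀ x ∈ X, P' (q x) = Qd T P x) :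
    SMap (Tot X P) (Tot Y P') (Th q T) := by
  refine ⟨fun z hz => ?_, fun z hz => ⟨sq.maps hz.1, ?_⟩⟩
  · refine ((sq.smooth z.1 hz.1).comp z contDiffAt_fst).prodMk ?_
    exact ((hT.smooth z.1 hz.1).comp z contDiffAt_fst).clm_apply contDiffAt_snd
  · change P' (q z.1) (T z.1 z.2) = T z.1 z.2
    rw [hd _ hz.1, hT.Qd_T hz.1, hz.2]

/-- `K` of the radial pull-back commutes with the fibre maps -/
theorem K_Th (sq : SMap X Y q) (hT : Triv X φ R T) (hd : ∀ x ∈ X, P' (q x) = Qd T P x)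
    {lam : ℝ → ℝ} (hl : ContDiff ℝ ∞ lam) {ξ : E' × V → Ext (E' × V)}
    {ξX : E × H → Ext (E × H)} (sξ : Sm (Tot Y P') ξ) (sξX : Sm (Tot X P) ξX)
    (hξ : Eqv (Tot X P) (F.pull (Th q T) ξ) ξX) :
    Eqv (Sph X P) (RR.K (E := E × H) (F.pull (scl lam) ξX))
      (F.pull (Th q T) (RR.K (E := E' × V) (F.pull (scl lam) ξ))) := by
  have hS : Sph X P ⊆ Tot X P := fun z hz => hz.1
  have hS' : Sph Y P' ⊆ Tot Y P' := fun z hz => hz.1
  have hs : SMap (RR.Cyl (Sph X P)) (Tot X P) (scl (E := E) (H := H) lam) :=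
    (smap_scl hl).mono (cyl_mono hS)
  have hs' : SMap (RR.Cyl (Sph Y P')) (Tot Y P') (scl (E := E') (H := V) lam) :=
    (smap_scl hl).mono (cyl_mono hS')
  have hTh := smap_ThT sq hT hd
  have hThS := HN.smap_Th sq hT hd
  have hfx : SMap (RR.Cyl (Sph X P)) (RR.Cyl (Sph Y P'))
      (CG.fx (E := E × H) (E' := E' × V) (Th q T) fun t => t) :=
    ⟨fun y hy => ((hThS.smooth y.1 hy.1).comp y contDiffAt_fst).prodMk contDiffAt_snd,
      fun y hy => ⟨hThS.maps hy.1, mem_univ _⟩⟩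
  have sv : Sm (RR.Cyl (Sph Y P')) (F.pull (scl lam) ξ) := sξ.pull hs'
  have e1 : Eqv (RR.Cyl (Sph X P)) (F.pull (scl lam) ξX)
      (F.pull (CG.fx (E := E × H) (E' := E' × V) (Th q T) fun t => t) (F.pull (scl lam) ξ)) := by
    have a1 : Eqv (RR.Cyl (Sph X P)) (F.pull (scl lam) ξX)
        (F.pull (scl lam) (F.pull (Th q T) ξ)) := (Eqv.pull hs hξ).symm
    have a2 := eqv_pull_pull hs hTh (hTh.comp hs) (fun _ _ => rfl) ξ
    have a3 := eqv_pull_pull hfx hs' (hTh.comp hs) (fun y hy => ?_) ξ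
    · exact a1.trans (a2.trans a3.symm)
    · change (q y.1.1, lam y.2 • T y.1.1 y.1.2) = (q y.1.1, T y.1.1 (lam y.2 • y.1.2))
      rw [map_smul]
  have e2 := RR.K_eqv (sξX.pull hs) (sv.pull hfx) e1
  refine e2.trans (Eqv.of_eq fun z hz => ?_)
  exact (CG.pull_K (E := E × H) (E' := E' × V) (f := Th q T) (hThS.diff hz) sv
    (hThS.maps hz)).symm

/-- **(UN2)** the radial integral over the fibre over `x` -/
theorem abs_fib (sq : SMap X Y q) (hT : Triv X φ R T) (hd : ∀ x ∈ X, P' (q x) = Qd T P x)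
    (hP : PField X (r + 1) P) (hP' : PField Y (r + 1) P') (hr : 1 ≤ r) (hx : x ∈ X)
    {lam : ℝ → ℝ} (hl : ContDiff ℝ ∞ lam) (h0 : lam 0 = 0) {ρ₀ R₀ c : ℝ} (hρ : 0 ≤ ρ₀)
    (h1 : ρ₀ < lam 1) (hR : 1 ≤ R₀)
    {ξ Ψ W o' : E' × V → Ext (E' × V)} {ξX o : E × H → Ext (E × H)}
    (sξ : Sm (Tot Y P') ξ) (sξX : Sm (Tot X P) ξX) (sΨ : Sm (Tot Y P') Ψ)
    (hξ : Eqv (Tot X P) (F.pull (Th q T) ξ) ξX) (dΨ : Eqv (Tot Y P') ξ (F.d Ψ))
    (cξ : Eqv (Tot Y P' ∩ {z | ρ₀ < ‖z.2‖}) ξ 0)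
    (out : Eqv (Tot Y P' ∩ {z | R₀ < ‖z.2‖}) Ψ (c • rx W))
    (ho : Ori r (Sph X P ∩ (Prod.fst : E × H → E) ⁻¹' {x}) o)
    (ho' : Ori r (Sph Y P' ∩ (Prod.fst : E' × V → E') ⁻¹' {q x}) o') :
    |J r (Sph X P ∩ (Prod.fst : E × H → E) ⁻¹' {x}) o (RR.K (F.pull (scl lam) ξX))| =
      |c| * |J r (Sph Y P' ∩ (Prod.fst : E' × V → E') ⁻¹' {q x}) o' W| := by
  have cx := HN.clo_fib hP hx
  have cy := HN.clo_fib hP' (sq.maps hx)
  have hs' : SMap (RR.Cyl (Sph Y P')) (Tot Y P') (scl (E := E') (H := V) lam) :=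
    (smap_scl hl).mono (cyl_mono fun z hz => hz.1)
  have sK : Sm (Sph Y P') (RR.K (E := E' × V) (F.pull (scl lam) ξ)) :=
    RR.Sm.K (E := E' × V) (sξ.pull hs')
  obtain ⟨h2, h3⟩ := HN.J_fib_pull sq hT hd hP hP' hx ho' sK
  have h4 := (K_Th sq hT hd hl sξ sξX hξ).mono_tan
    (inter_subset_left : Sph X P ∩ (Prod.fst : E × H → E) ⁻¹' {x} ⊆ Sph X P)
  rw [abs_fib_ori hP hr hx ho h2, RR.J_eqv cx h4, h3]
  have h5 := J_fib_K (x := q x) hr cy inter_subset_left (fun z hz => hz.2) ho' hl h0 hρ h1 hR sξ sΨ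
    dΨ cξ out
  rw [h5, abs_mul]

end fib

end Crest.Agent.R208.UN
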