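import Crest.Agent.R208.UN3
import Crest.Agent.R208.CG11
import Crest.Agent.R208.VE10

/-! Row 208, block UN (helper378).  UN4: the coefficient `c` and `n₁ = c w₀` of the evaluation over
`B` from (L7). -/

set_option autoImplicit false
set_option linter.unusedSectionVars false
set_option linter.unusedVariables false

open MeasureTheory Set Filter Topology Module
open scoped ContDiff RealInnerProductSpace
open Crest.GeometryTopology.Submanifold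
open Crest.Agent.R241.DDefs
open Crest.Agent.R241.D2
open Crest.Agent.R208.GT
open Crest.Agent.R208.F Crest.Agent.R208.FI Crest.Agent.R208.CW Crest.Agent.R208.T
open Crest.Agent.R208.FL Crest.Agent.R208.NN Crest.Agent.R208.NB
open Crest.Agent.R208.CM (Cir Rep Triv Emb Quo Qd MM jj Th phR gf)
open Crest.Agent.R208.SB (OPr OddB oV)

noncomputable section

namespace Crest.Agent.R208.UN

variable {n N K k : ℕ} {κ : ℝ} {S : Set (Euc N)} {G : Geo n N κ S} {lg : Euc N → Euc N → Euc N}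
  {ρ : Euc N → Euc N} {r C r' Kr B w δ : ℝ} {PN : Euc N × Euc N → Wt N K →L[ℝ] Wt N K}
  {ε E₀ η : ℝ} {J₀ : ℕ} {om : Euc N → Ext (Euc N)} {z : Euc N × Euc N}
  {E' nn ι : Type} [NormedAddCommGroup E'] [NormedSpace ℝ E'] [FiniteDimensional ℝ E']
  [Fintype nn] [DecidableEq nn] [Fintype ι] [DecidableEq ι] [Nonempty ι]
  {Y : Set E'} {q : Euc N × Euc N → E'}
  {T : Euc N × Euc N → Wt N K →L[ℝ] EuclideanSpace ℝ nn}
  {P' : E' → EuclideanSpace ℝ nn →L[ℝ] EuclideanSpace ℝ nn}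
  {oP' : E' → Ext (EuclideanSpace ℝ nn)} {rk d d' : ℕ} {θ0 : Euc N × Euc N → Ext (Euc N × Euc N)}
  {e p3 : E' → Ext E'} {ρ₀ R₀ R₁ c w₀ Δ t : ℝ}
  {ξ a Q Ψ τ' : E' × EuclideanSpace ℝ nn → Ext (E' × EuclideanSpace ℝ nn)}

/-- **the coefficient `c`**: `2π |c| 2τ(ι) = t`, `t` the value of (L7) -/
theorem c_of_L7 (h : D1 G k K lg ρ r C r' Kr B w δ PN ε J₀ E₀ η) (hk : Even k) (h4 : 4 ≤ k)
    (hkn : k < n) (so : Sm S om) (co : Cl S om) (hz : z ∈ L.US G)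
    {oF : (Euc N × Euc N) × Wt N K → Ext ((Euc N × Euc N) × Wt N K)}
    (hF : Ori (k - 2) (R208.T.Sph (L.US G) PN ∩
      (Prod.fst : (Euc N × Euc N) × Wt N K → Euc N × Euc N) ⁻¹' {z}) oF)
    (hC : |FI.J (k - 2) (R208.T.Sph (L.US G) PN ∩ Prod.fst ⁻¹' {z}) oF
        (RR.Wp (FM.phiF h.bla PN) (F.pull (Prod.fst : (Euc N × Euc N) × Wt N K → Euc N × Euc N)
          (RR.K (F.pull (RRC.EE G) om))))| = 2 * t)
    (hSt : VE.St (L.US G) Y (gf G) q (fun t => Rt (nuP K) t) T PN P' rk d d' S om θ0 e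
      (f1 G lg ρ w J₀ ε) ρ₀) (hρ : ρ₀ < 2)
    (D : VE.Dn (L.US G) (gf G) q (fun t => Rt (nuP K) t) T PN om θ0 (f1 G lg ρ w J₀ ε) ξ a Q)
    (hd : ∀ x ∈ L.US G, P' (q x) = Qd T PN x) (ob : OddB ι Y (k - 2) P' oP')
    (hR : 1 ≤ R₀) (sΨ : Sm (Tot Y P') Ψ) (dΨ : Eqv (Tot Y P') ξ (F.d Ψ))
    (out : Eqv (Tot Y P' ∩ {z | R₀ < ‖z.2‖}) Ψ
      (c • rx (E := E') (H := EuclideanSpace ℝ nn) (SB.OddB.eV ι ob.hr P' oP'))) :
    2 * Real.pi * (|c| * (2 * XF.tau ι)) = t := by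
  have hP : PField (L.US G) (k - 2 + 1) PN := by
    have := UP.pfield_N h.neg
    rwa [show k - 1 = k - 2 + 1 by omega] at this
  have h1 := CG.L7_xi h hk h4 hkn so co hz hF hC
  have sxi : Sm (Tot (L.US G) PN) (VC.xi (Ph G K) (F.pull (f1 G lg ρ w J₀ ε) om)) :=
    VC.sm_xi hSt.A hSt.dt.sm
  have hx : Eqv (Tot (L.US G) PN) (F.pull (Th q T) ξ)
      (VC.xi (Ph G K) (F.pull (f1 G lg ρ w J₀ ε) om)) := D.px
  have hl0 : gs 0 = 0 := gs_zero le_rfl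
  have hl1 : ρ₀ < gs 1 := by rw [gs_two (by norm_num)]; exact hρ
  have h2 := abs_c (ι := ι) (x := z) hSt.hq.smap hSt.hT hd hP ob (by omega) hz contDiff_gs hl0
    hSt.ρ0 hl1 hR D.smx sxi sΨ hx dΨ (D.cs_x hSt) out hF
  rw [← h1, ← h2]
  rfl

end Crest.Agent.R208.UN
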