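import Mathlib

/-!
# The (V2) lemma of 591 (#10936), part a: the number sequences

`F b a i = [z^i] (1-z)^a / (1-2z)^b`, and the positivity of the bracket.
-/

namespace Crest.Agent.R208.V2

open Finset

noncomputable section

/-- generalised binomial coefficient. -/
def bn (a : ℝ) : ℕ → ℝ
  | 0 => 1
  | k + 1 => bn a k * (a - k) / (k + 1)

@[simp] theorem bn_zero (a : ℝ) : bn a 0 = 1 := rfl

theorem bn_succ (a : ℝ) (k : ℕ) : bn a (k + 1) = bn a k * (a - k) / (k + 1) := rfl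

theorem bn_succ_mul (a : ℝ) (k : ℕ) : (k + 1) * bn a (k + 1) = bn a k * (a - k) := by
  rw [bn_succ]
  field_simp

theorem bn_pascal (a : ℝ) (k : ℕ) : bn (a + 1) (k + 1) = bn a (k + 1) + bn a k := by
  induction k with
  | zero => simp [bn]
  | succ k ih =>
    rw [bn_succ (a + 1) (k + 1), ih]
    have h := bn_succ_mul a k
    have h2 := bn_succ_mul a (k + 1)
    have hk : ((k : ℝ) + 1 + 1) ≠ 0 := by positivity
    push_cast at *
    field_simp
    linear_combination -h - h2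

theorem bn_absorb (a : ℝ) (t : ℕ) : a * bn (a - 1) t = (a - t) * bn a t := by
  induction t with
  | zero => simp
  | succ t ih =>
    rw [bn_succ, bn_succ]
    have hk : ((t : ℝ) + 1) ≠ 0 := by positivity
    push_cast
    field_simp
    linear_combination (a - 1 - t) * ih

theorem bn_pos {a : ℝ} {t : ℕ} (h : (t : ℝ) < a + 1) : 0 < bn a t := by
  induction t with
  | zero => simp
  | succ t ih =>
    rw [bn_succ]
    push_cast at h
    have h1 : 0 < bn a t := ih (by linarith)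
    have h2 : 0 < a - t := by linarith
    positivity

/-- `F b a i = [z^i] (1-z)^a / (1-2z)^b`. -/
def F : ℕ → ℝ → ℕ → ℝ
  | 0, a, i => (-1) ^ i * bn a i
  | _ + 1, _, 0 => 1
  | b + 1, a, i + 1 => 2 * F (b + 1) a i + F b a (i + 1)

@[simp] theorem F_zero_right (b : ℕ) (a : ℝ) : F b a 0 = 1 := by
  cases b <;> simp [F]

theorem F_zero_left (a : ℝ) (i : ℕ) : F 0 a i = (-1) ^ i * bn a i := by
  cases i <;> simp [F]

theorem F_succ (b : ℕ) (a : ℝ) (i : ℕ) : F (b + 1) a (i + 1) = 2 * F (b + 1) a i + F b a (i + 1) := by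
  rw [F]

theorem F_pascal (b : ℕ) (a : ℝ) (i : ℕ) : F b (a + 1) (i + 1) = F b a (i + 1) - F b a i := by
  induction b generalizing i with
  | zero =>
    rw [F_zero_left, F_zero_left, F_zero_left, bn_pascal]
    ring
  | succ b ihb =>
    induction i with
    | zero =>
      rw [F_succ, F_succ, ihb]
      simp
      ring
    | succ i ihi =>
      rw [F_succ, ihi, ihb, F_succ b a (i + 1), F_succ b a i]
      ring

/-- the boundary numbers. -/
def om (i : ℕ) : ℝ := F 0 ((i : ℝ) / 2 - 1) i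

def ga (i : ℕ) : ℝ := F 1 ((i : ℝ) / 2) i

def be : ℕ → ℝ
  | 0 => 0
  | i + 1 => F 1 (((i + 1 : ℕ) : ℝ) / 2) i

def ee : ℕ → ℝ
  | 0 => 0
  | i + 1 => F 2 (((i + 1 : ℕ) : ℝ) / 2) i

def al : ℕ → ℝ
  | 0 => 0
  | i + 1 => F 3 (((i + 1 : ℕ) : ℝ) / 2 + 1) i

theorem om_F (i : ℕ) : F 0 ((i : ℝ) / 2) (i + 1) = 2 * F 0 ((i : ℝ) / 2) (i + 2) := by
  rw [F_zero_left, F_zero_left, bn_succ _ (i + 1)]
  have hk : ((i : ℝ) + 1 + 1) ≠ 0 := by positivity
  push_cast
  field_simp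
  ring

theorem om_add_two (i : ℕ) : om (i + 2) = F 0 ((i : ℝ) / 2) (i + 2) := by
  unfold om
  congr 1
  push_cast
  ring

theorem ga_add_two (i : ℕ) : ga (i + 2) = 2 * ga i + 3 * om (i + 2) := by
  unfold ga
  have e : ((i + 2 : ℕ) : ℝ) / 2 = (i : ℝ) / 2 + 1 := by push_cast; ring
  rw [e, F_pascal 1 _ (i + 1), F_succ 0 _ (i + 1), F_succ 0 _ i, om_add_two, om_F]
  ring

theorem be_add_two (i : ℕ) : be (i + 2) = ga i + 2 * om (i + 2) := by
  show F 1 (((i + 1 + 1 : ℕ) : ℝ) / 2) (i + 1) = _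
  unfold ga
  have e : ((i + 1 + 1 : ℕ) : ℝ) / 2 = (i : ℝ) / 2 + 1 := by push_cast; ring
  rw [e, F_pascal 1 _ i, F_succ 0 _ i, om_add_two, om_F]
  ring

theorem F_two_aux (i : ℕ) : F 2 ((i : ℝ) / 2) i = 2 * ee i + ga i := by
  cases i with
  | zero => simp [ee, ga]
  | succ i =>
    rw [F_succ 1]
    rfl

theorem ee_add_two (i : ℕ) : ee (i + 2) = 2 * ee i + 3 * ga i + 2 * om (i + 2) := by
  show F 2 (((i + 1 + 1 : ℕ) : ℝ) / 2) (i + 1) = _
  have e : ((i + 1 + 1 : ℕ) : ℝ) / 2 = (i : ℝ) / 2 + 1 := by push_cast; ring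
  rw [e, F_pascal 2 _ i, F_succ 1 _ i, F_succ 0 _ i, F_two_aux, om_add_two, om_F]
  unfold ga
  ring

theorem F_three_aux (i : ℕ) : F 3 ((i : ℝ) / 2 + 1) i = 2 * al i + F 2 ((i : ℝ) / 2 + 1) i := by
  cases i with
  | zero => simp [al]
  | succ i =>
    rw [F_succ 2]
    rfl

theorem al_add_two (i : ℕ) : al (i + 2) = 2 * al i + (3 * ee (i + 2) - be (i + 2)) / 2 := by
  have h1 : al (i + 2) = F 3 ((i : ℝ) / 2 + 1 + 1) (i + 1) := by
    show F 3 (((i + 1 + 1 : ℕ) : ℝ) / 2 + 1) (i + 1) = _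
    congr 1
    push_cast
    ring
  have h2 : ee (i + 2) = F 2 ((i : ℝ) / 2 + 1) (i + 1) := by
    show F 2 (((i + 1 + 1 : ℕ) : ℝ) / 2) (i + 1) = _
    congr 1
    push_cast
    ring
  have h3 : be (i + 2) = F 1 ((i : ℝ) / 2 + 1) (i + 1) := by
    show F 1 (((i + 1 + 1 : ℕ) : ℝ) / 2) (i + 1) = _
    congr 1
    push_cast
    ring
  rw [h1, F_pascal, F_succ 2, F_three_aux, h2, h3]
  have h4 := F_succ 1 ((i : ℝ) / 2 + 1) i
  linarith

theorem om_succ (i : ℕ) : om (i + 2) = -((i : ℝ) / (4 * (i + 1))) * om i := by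
  rw [om_add_two, om, F_zero_left, F_zero_left, bn_succ, bn_succ]
  have h := bn_absorb ((i : ℝ) / 2) i
  have h1 : ((i : ℝ) + 1) ≠ 0 := by positivity
  have h2 : ((i : ℝ) + 1 + 1) ≠ 0 := by positivity
  have h3 : bn ((i : ℝ) / 2) i * ((i : ℝ) / 2 - i) = (i : ℝ) / 2 * bn ((i : ℝ) / 2 - 1) i := by
    rw [h]; ring
  rw [h3]
  push_cast
  rw [pow_add]
  field_simp
  ring

theorem om_zero : om 0 = 1 := by simp [om]

theorem om_one : om 1 = 1 / 2 := by
  unfold om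
  rw [F_zero_left, bn_succ]
  norm_num

theorem om_two : om 2 = 0 := by
  rw [om_succ 0]
  simp

theorem om_bound : ∀ i : ℕ, (i : ℝ) * |om i| ≤ 1 / 2
  | 0 => by simp
  | 1 => by rw [om_one]; norm_num [abs_of_pos]
  | i + 2 => by
    have ih := om_bound i
    rw [om_succ, abs_mul, abs_neg, abs_of_nonneg (by positivity : (0 : ℝ) ≤ (i : ℝ) / (4 * (i + 1)))]
    have h1 : ((i + 2 : ℕ) : ℝ) * ((i : ℝ) / (4 * (i + 1)) * |om i|)
        = (((i : ℝ) + 2) / (4 * (i + 1))) * ((i : ℝ) * |om i|) := by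
      push_cast
      ring
    rw [h1]
    have h2 : ((i : ℝ) + 2) / (4 * (i + 1)) ≤ 1 := by
      rw [div_le_one (by positivity)]
      nlinarith [(Nat.cast_nonneg i : (0 : ℝ) ≤ i)]
    calc _ ≤ 1 * (1 / 2 : ℝ) := mul_le_mul h2 ih (by positivity) (by norm_num)
      _ = 1 / 2 := by norm_num

theorem om_bound2 (i : ℕ) : ((i : ℝ) + 2) * |om (i + 2)| ≤ 1 / 4 := by
  have ih := om_bound i
  rw [om_succ, abs_mul, abs_neg, abs_of_nonneg (by positivity : (0 : ℝ) ≤ (i : ℝ) / (4 * (i + 1)))]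
  have h1 : ((i : ℝ) + 2) * ((i : ℝ) / (4 * (i + 1)) * |om i|)
      = (((i : ℝ) + 2) / (4 * (i + 1))) * ((i : ℝ) * |om i|) := by
    ring
  rw [h1]
  have h2 : ((i : ℝ) + 2) / (4 * (i + 1)) ≤ 1 / 2 := by
    rw [div_le_iff₀ (by positivity)]
    nlinarith [(Nat.cast_nonneg i : (0 : ℝ) ≤ i)]
  calc _ ≤ (1 / 2) * (1 / 2 : ℝ) := mul_le_mul h2 ih (by positivity) (by norm_num)
    _ = 1 / 4 := by norm_num

theorem om_small (i : ℕ) : |om (i + 2)| ≤ 1 / 8 := by
  have h := om_bound2 i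
  have h0 : (0 : ℝ) ≤ i := Nat.cast_nonneg i
  have h1 : (0 : ℝ) ≤ |om (i + 2)| := abs_nonneg _
  nlinarith

theorem ga_zero : ga 0 = 1 := by simp [ga]

theorem ga_one : ga 1 = 3 / 2 := by
  unfold ga
  rw [F_succ, F_zero_left, bn_succ]
  norm_num

theorem ga_ge : ∀ i : ℕ, 1 ≤ ga i
  | 0 => by rw [ga_zero]
  | 1 => by rw [ga_one]; norm_num
  | i + 2 => by
    have ih := ga_ge i
    have h := abs_le.1 (om_small i)
    rw [ga_add_two]
    linarith [h.1]

theorem ga_ge' (i : ℕ) : 13 / 8 ≤ ga (i + 2) := by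
  have ih := ga_ge i
  have h := abs_le.1 (om_small i)
  rw [ga_add_two]
  linarith [h.1]

theorem be_one : be 1 = 1 := by simp [be]
theorem ee_one : ee 1 = 1 := by simp [ee]
theorem al_one : al 1 = 1 := by simp [al]

theorem ee_nonneg : ∀ i : ℕ, 0 ≤ ee i
  | 0 => le_refl _
  | 1 => by rw [ee_one]; norm_num
  | i + 2 => by
    have ih := ee_nonneg i
    have h := abs_le.1 (om_small i)
    have h1 := ga_ge i
    rw [ee_add_two]
    linarith [h.1]

/-- the key inequality. -/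
theorem al_ge : ∀ i : ℕ, ((i : ℝ) / 2 + 2) * (ga i + om (i + 2)) + 1 ≤ al (i + 2)
  | 0 => by
    rw [al_add_two, ee_add_two, be_add_two, om_two, ga_zero]
    simp only [ee, al]
    norm_num
  | 1 => by
    rw [al_add_two, ee_add_two, be_add_two, om_succ, om_one, ga_one, ee_one, al_one]
    norm_num
  | i + 2 => by
    have ih := al_ge i
    have hg := ga_ge' i
    have he := ee_nonneg (i + 2)
    have h2 := om_bound2 i
    have h4 := om_bound2 (i + 2)
    have a2 := abs_le.1 (le_refl |om (i + 2)|)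
    have a4 := abs_le.1 (le_refl |om (i + 4)|)
    have n2 : (0 : ℝ) ≤ |om (i + 2)| := abs_nonneg _
    have n4 : (0 : ℝ) ≤ |om (i + 4)| := abs_nonneg _
    have h0 : (0 : ℝ) ≤ i := Nat.cast_nonneg i
    have e1 := al_add_two (i + 2)
    have e2 := ee_add_two (i + 2)
    have e3 := be_add_two (i + 2)
    have e4 := ga_add_two i
    show (((i + 2 : ℕ) : ℝ) / 2 + 2) * (ga (i + 2) + om (i + 4)) + 1 ≤ al (i + 4)
    change al (i + 4) = _ at e1
    change ee (i + 4) = _ + 2 * om (i + 4) at e2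
    change be (i + 4) = _ + 2 * om (i + 4) at e3
    push_cast at *
    have p1 : ((i : ℝ) / 2 + 2) * om (i + 2) ≤ 1 / 4 := by
      have : ((i : ℝ) / 2 + 2) * om (i + 2) ≤ ((i : ℝ) + 2) * |om (i + 2)| := by
        have : ((i : ℝ) / 2 + 2) * om (i + 2) ≤ ((i : ℝ) / 2 + 2) * |om (i + 2)| :=
          mul_le_mul_of_nonneg_left (le_abs_self _) (by positivity)
        nlinarith
      linarith
    have p2 : ((i : ℝ) / 2 + 1) * om (i + 4) ≤ 1 / 4 := by
      have h5 : ((i : ℝ) / 2 + 1) * om (i + 4) ≤ ((i : ℝ) / 2 + 1) * |om (i + 4)| :=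
        mul_le_mul_of_nonneg_left (le_abs_self _) (by positivity)
      have h6 : ((i : ℝ) / 2 + 1) * |om (i + 4)| ≤ ((i : ℝ) + 2 + 2) * |om (i + 2 + 2)| := by
        show ((i : ℝ) / 2 + 1) * |om (i + 4)| ≤ ((i : ℝ) + 2 + 2) * |om (i + 4)|
        nlinarith
      linarith
    nlinarith

/-- the lower bound of the bracket is positive. -/
def gm : ℕ → ℝ
  | 0 => 0
  | 1 => 0
  | i + 2 => ga i

theorem br_pos : ∀ i : ℕ, 0 < 2 * al (i + 1) - (((i + 1 : ℕ) : ℝ) / 2 + 1) * (be (i + 1) + gm (i + 1))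
  | 0 => by
    rw [al_one, be_one]
    simp only [gm]
    norm_num
  | i + 1 => by
    have h := al_ge i
    show 0 < 2 * al (i + 2) - (((i + 2 : ℕ) : ℝ) / 2 + 1) * (be (i + 2) + ga i)
    rw [be_add_two]
    push_cast at *
    linarith

/-- the bracket of `J_i`. -/
theorem bracket_pos (i t : ℕ) (h : 1 ≤ i + t) :
    0 < 2 * al i - ((i : ℝ) / 2 + 1) * be i
      + 4 * t * (((i : ℝ) / 2 + 1) / ((i : ℝ) / 2 + t)) * ga i
      - ((i : ℝ) / 2) * (((i : ℝ) / 2 + 1) / ((i : ℝ) / 2 + t)) * gm i := by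
  have hg := ga_ge i
  have h0 : (0 : ℝ) ≤ i := Nat.cast_nonneg i
  have ht : (0 : ℝ) ≤ t := Nat.cast_nonneg t
  rcases i with _ | i
  · have ht1 : (1 : ℝ) ≤ t := by exact_mod_cast (by omega : 1 ≤ t)
    simp only [al, be, gm]
    norm_num
    positivity
  · have hb := br_pos i
    have hgm : 0 ≤ gm (i + 1) := by
      rcases i with _ | i
      · exact le_refl _
      · exact le_trans zero_le_one (ga_ge i)
    have hs : (0 : ℝ) < ((i + 1 : ℕ) : ℝ) / 2 := by positivity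
    set s : ℝ := ((i + 1 : ℕ) : ℝ) / 2 with hsdef
    have hst : 0 < s + t := by linarith
    have e1 : s * ((s + 1) / (s + t)) ≤ s + 1 := by
      rw [mul_div_assoc', div_le_iff₀ hst]
      nlinarith
    have e2 : 0 ≤ 4 * (t : ℝ) * ((s + 1) / (s + t)) * ga (i + 1) := by positivity
    have e3 : s * ((s + 1) / (s + t)) * gm (i + 1) ≤ (s + 1) * gm (i + 1) :=
      mul_le_mul_of_nonneg_right e1 hgm
    nlinarith

end

end Crest.Agent.R208.V2
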