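import Crest.Agent.R208.V2a

/-!
# The (V2) lemma, part b: the bigraded power series

`S T = ∑_{t,i} T t i X^(2t+i)`;  `W ν b a = (1 - νX + X²)^a / (1 - 2νX)^b`.
-/

namespace Crest.Agent.R208.V2

open Finset PowerSeries

noncomputable section

/-- the power series with bigraded coefficients. -/
def S (T : ℕ → ℕ → ℝ) : PowerSeries ℝ :=
  PowerSeries.mk fun j => ∑ t ∈ range (j + 1), if 2 * t ≤ j then T t (j - 2 * t) else 0

theorem coeff_S (T : ℕ → ℕ → ℝ) (j : ℕ) :
    coeff j (S T) = ∑ t ∈ range (j + 1), if 2 * t ≤ j then T t (j - 2 * t) else 0 := by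
  rw [S, coeff_mk]

theorem S_congr {T T' : ℕ → ℕ → ℝ} (h : ∀ t i, T t i = T' t i) : S T = S T' := by
  have : T = T' := by
    funext t i
    exact h t i
  rw [this]

theorem S_add (T T' : ℕ → ℕ → ℝ) : S T + S T' = S fun t i => T t i + T' t i := by
  ext j
  rw [map_add, coeff_S, coeff_S, coeff_S, ← Finset.sum_add_distrib]
  refine Finset.sum_congr rfl fun t _ => ?_
  split_ifs <;> simp

theorem S_smul (r : ℝ) (T : ℕ → ℕ → ℝ) : C r * S T = S fun t i => r * T t i := by
  ext j
  rw [coeff_C_mul, coeff_S, coeff_S, Finset.mul_sum]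
  refine Finset.sum_congr rfl fun t _ => ?_
  split_ifs <;> simp

/-- shift in `i`. -/
def shi (T : ℕ → ℕ → ℝ) : ℕ → ℕ → ℝ := fun t i => match i with
  | 0 => 0
  | i + 1 => T t i

/-- shift in `t`. -/
def sht (T : ℕ → ℕ → ℝ) : ℕ → ℕ → ℝ := fun t i => match t with
  | 0 => 0
  | t + 1 => T t i

@[simp] theorem shi_zero (T : ℕ → ℕ → ℝ) (t : ℕ) : shi T t 0 = 0 := rfl
@[simp] theorem shi_succ (T : ℕ → ℕ → ℝ) (t i : ℕ) : shi T t (i + 1) = T t i := rfl
@[simp] theorem sht_zero (T : ℕ → ℕ → ℝ) (i : ℕ) : sht T 0 i = 0 := rfl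
@[simp] theorem sht_succ (T : ℕ → ℕ → ℝ) (t i : ℕ) : sht T (t + 1) i = T t i := rfl

theorem X_mul_S (T : ℕ → ℕ → ℝ) : X * S T = S (shi T) := by
  ext j
  cases j with
  | zero => simp [coeff_S]
  | succ j =>
    rw [coeff_succ_X_mul, coeff_S, coeff_S, Finset.sum_range_succ _ (j + 1)]
    have h : ¬ 2 * (j + 1) ≤ j + 1 := by omega
    rw [if_neg h, add_zero]
    refine Finset.sum_congr rfl fun t _ => ?_
    by_cases h1 : 2 * t ≤ j
    · rw [if_pos h1, if_pos (by omega)]
      have : j + 1 - 2 * t = (j - 2 * t) + 1 := by omega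
      rw [this, shi_succ]
    · rw [if_neg h1]
      by_cases h2 : 2 * t ≤ j + 1
      · rw [if_pos h2]
        have : j + 1 - 2 * t = 0 := by omega
        rw [this, shi_zero]
      · rw [if_neg h2]

theorem X_sq_mul_S (T : ℕ → ℕ → ℝ) : X ^ 2 * S T = S (sht T) := by
  ext j
  rcases j with _ | _ | j
  · simp [coeff_S, pow_two, mul_assoc]
  · rw [pow_two, mul_assoc, coeff_succ_X_mul, coeff_zero_X_mul, coeff_S, Finset.sum_range_succ,
      Finset.sum_range_succ]
    simp
  · rw [pow_two, mul_assoc, coeff_succ_X_mul, coeff_succ_X_mul, coeff_S, coeff_S,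
      Finset.sum_range_succ' _ (j + 1 + 1), Finset.sum_range_succ _ (j + 1)]
    have h : ¬ 2 * (j + 1 + 1) ≤ j + 1 + 1 := by omega
    rw [if_neg h, add_zero]
    simp only [sht_zero, ite_self, add_zero]
    refine Finset.sum_congr rfl fun t _ => ?_
    by_cases h1 : 2 * t ≤ j
    · rw [if_pos h1, if_pos (by omega)]
      have : j + 1 + 1 - 2 * (t + 1) = j - 2 * t := by omega
      rw [this, sht_succ]
    · rw [if_neg h1, if_neg (by omega)]

/-- Euler operator. -/
theorem euler_S (T : ℕ → ℕ → ℝ) :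
    X * (d⁄dX ℝ (S T)) = S fun t i => (2 * t + i) * T t i := by
  ext j
  cases j with
  | zero => simp [coeff_S]
  | succ j =>
    rw [coeff_succ_X_mul, coeff_derivative, coeff_S, coeff_S, Finset.sum_mul]
    refine Finset.sum_congr rfl fun t _ => ?_
    split_ifs with h
    · have : ((j + 1 - 2 * t : ℕ) : ℝ) = j + 1 - 2 * t := by
        rw [Nat.cast_sub h]
        push_cast
        ring
      rw [this]
      ring
    · simp

/-- `(1 - νX + X²)^a / (1 - 2νX)^b`. -/
def W (ν : ℝ) (b : ℕ) (a : ℝ) : PowerSeries ℝ :=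
  S fun t i => bn a t * ν ^ i * F b (a - t) i

theorem W_u (ν : ℝ) (b : ℕ) (a : ℝ) : (1 - C (2 * ν) * X) * W ν (b + 1) a = W ν b a := by
  have h : (1 - C (2 * ν) * X) * W ν (b + 1) a
      = W ν (b + 1) a + C (-(2 * ν)) * (X * W ν (b + 1) a) := by
    rw [map_neg]
    ring
  rw [h, W, X_mul_S, S_smul, S_add, W]
  refine S_congr fun t i => ?_
  cases i with
  | zero => simp
  | succ i =>
    rw [shi_succ, F_succ]
    ring

theorem W_q (ν : ℝ) (b : ℕ) (a : ℝ) :
    (1 - C ν * X + X ^ 2) * W ν b a = W ν b (a + 1) := by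
  have h : (1 - C ν * X + X ^ 2) * W ν b a
      = W ν b a + C (-ν) * (X * W ν b a) + X ^ 2 * W ν b a := by
    rw [map_neg]
    ring
  rw [h, W, X_mul_S, S_smul, X_sq_mul_S, S_add, S_add, W]
  refine S_congr fun t i => ?_
  have key : ∀ t, bn a t * ν ^ i * F b (a - t) i + -ν * shi (fun t i => bn a t * ν ^ i * F b (a - t) i) t i
      = bn a t * ν ^ i * F b (a + 1 - t) i := by
    intro t
    cases i with
    | zero => simp
    | succ i =>
      rw [shi_succ]
      have e : a + 1 - (t : ℝ) = (a - t) + 1 := by ring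
      rw [e, F_pascal]
      ring
  rw [key]
  cases t with
  | zero => simp
  | succ t =>
    rw [sht_succ, bn_pascal]
    have e : a + 1 - ((t + 1 : ℕ) : ℝ) = a - t := by push_cast; ring
    rw [e]
    ring

theorem constantCoeff_W (ν : ℝ) (b : ℕ) (a : ℝ) : constantCoeff (W ν b a) = 1 := by
  rw [← coeff_zero_eq_constantCoeff_apply, W, coeff_S]
  simp

/-- the differential equation of `q^a`. -/
theorem W_ode (ν a : ℝ) :
    (1 - C ν * X + X ^ 2) * (X * d⁄dX ℝ (W ν 0 a))
      = C a * ((-(C ν * X) + 2 * X ^ 2) * W ν 0 a) := by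
  have hl : (1 - C ν * X + X ^ 2) * (X * d⁄dX ℝ (W ν 0 a))
      = X * d⁄dX ℝ (W ν 0 a) + C (-ν) * (X * (X * d⁄dX ℝ (W ν 0 a)))
        + X ^ 2 * (X * d⁄dX ℝ (W ν 0 a)) := by
    rw [map_neg]
    ring
  have hr : C a * ((-(C ν * X) + 2 * X ^ 2) * W ν 0 a)
      = C (-(a * ν)) * (X * W ν 0 a) + C (2 * a) * (X ^ 2 * W ν 0 a) := by
    rw [map_neg, map_mul, map_mul]
    have : (C (2 : ℝ) : PowerSeries ℝ) = 2 := by
      rw [map_ofNat]
    rw [this]
    ring
  rw [hl, hr, W, euler_S, X_mul_S, X_sq_mul_S, X_mul_S, X_sq_mul_S, S_smul, S_smul, S_smul,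
    S_add, S_add, S_add]
  refine S_congr fun t i => ?_
  -- `E t i = bn a t * bn (a - t) i`
  have hE1 : ∀ t i : ℕ, ((i : ℝ) + 1) * (bn a t * bn (a - t) (i + 1))
      = (a - t - i) * (bn a t * bn (a - t) i) := by
    intro t i
    have := bn_succ_mul (a - t) i
    linear_combination bn a t * this
  have hE2 : ∀ t i : ℕ, ((t : ℝ) + 1) * (bn a (t + 1) * bn (a - (t + 1 : ℕ)) i)
      = (a - t - i) * (bn a t * bn (a - t) i) := by
    intro t i
    have h1 := bn_succ_mul a t
    have h2 := bn_absorb (a - t) i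
    have e : a - ((t + 1 : ℕ) : ℝ) = a - t - 1 := by push_cast; ring
    rw [e]
    linear_combination bn (a - t - 1) i * h1 + bn a t * h2
  simp only [F_zero_left]
  rcases t with _ | t
  · rcases i with _ | i
    · simp
    · simp only [shi_succ, sht_zero]
      have h1 := hE1 0 i
      simp only [Nat.cast_zero, sub_zero, bn_zero, one_mul] at h1
      push_cast
      simp only [bn_zero, sub_zero, one_mul]
      rw [pow_succ ν, pow_succ (-1 : ℝ)]
      linear_combination -(ν ^ i * ν * (-1) ^ i) * h1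
  · rcases i with _ | i
    · simp only [shi_zero, sht_succ]
      have h1 := hE2 t 0
      simp only [bn_zero, mul_one] at h1
      simp only [bn_zero, pow_zero, mul_one]
      push_cast at *
      linear_combination 2 * h1
    · simp only [shi_succ, sht_succ]
      have h1 := hE1 (t + 1) i
      have h2 := hE2 t (i + 1)
      have h3 := hE2 t i
      have h4 := hE1 t i
      rw [pow_succ ν, pow_succ (-1 : ℝ)]
      push_cast at *
      linear_combination (-(ν ^ i * ν * (-1) ^ i)) * (h1 + 2 * h2 + h3 - h4)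

end

end Crest.Agent.R208.V2
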