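import Crest.Agent.R208.V2c

/-!
# The (V2) lemma, part d: the form with the Euler operator, and the contradiction with (H1).
-/

namespace Crest.Agent.R208.V2

open Finset PowerSeries

noncomputable section

/-- `θ g` and `θ² g` from `c = e^g`. -/
theorem theta_eq (k : ℕ) (μ : ℝ) (c L : PowerSeries ℝ) (hc0 : constantCoeff c = 1)
    (hc : c ^ 2 * (1 + C (2 * μ) * X) ^ 2 = (1 + C μ * X + X ^ 2) ^ k)
    (hL : c * L = X * d⁄dX ℝ c) :
    (X * d⁄dX ℝ L) * ((1 + C μ * X + X ^ 2) ^ 2 * (1 + C (2 * μ) * X) ^ 2)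
      = C ((k : ℝ) / 2) * X * (C μ + 4 * X + C μ * X ^ 2) * (1 + C (2 * μ) * X) ^ 2
        - C (2 * μ) * X * (1 + C μ * X + X ^ 2) ^ 2 := by
  have hc0' : c ≠ 0 := by
    rintro rfl
    simp at hc0
  have c3 : (C (2 * μ) : PowerSeries ℝ) = 2 * C μ := by rw [map_mul, map_ofNat]
  have c4 : (2 : PowerSeries ℝ) * C ((k : ℝ) / 2) = (k : PowerSeries ℝ) := by
    have : (2 : PowerSeries ℝ) = C (2 : ℝ) := by rw [map_ofNat]
    rw [this, ← map_mul]
    have h2 : (2 : ℝ) * ((k : ℝ) / 2) = (k : ℝ) := by ring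
    rw [h2, map_natCast]
  rw [c3] at hc ⊢
  set M : PowerSeries ℝ := C μ with hM
  have dM : d⁄dX ℝ M = 0 := derivative_C
  set q : PowerSeries ℝ := 1 + M * X + X ^ 2 with hq
  set u : PowerSeries ℝ := 1 + 2 * M * X with hu
  have dq : d⁄dX ℝ q = M + 2 * X := by
    rw [hq, map_add, map_add, Derivation.leibniz, dM, derivative_X, derivative_pow, derivative_X,
      derivative_one]
    simp only [smul_eq_mul]
    push_cast
    ring
  have du : d⁄dX ℝ u = 2 * M := by
    rw [hu, map_add, Derivation.leibniz, Derivation.leibniz, dM, derivative_X, derivative_one]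
    simp only [smul_eq_mul]
    have : d⁄dX ℝ (2 : PowerSeries ℝ) = 0 := by
      have : (2 : PowerSeries ℝ) = C (2 : ℝ) := by rw [map_ofNat]
      rw [this, derivative_C]
    rw [this]
    ring
  have d2 : d⁄dX ℝ (2 : PowerSeries ℝ) = 0 := by
    have : (2 : PowerSeries ℝ) = C (2 : ℝ) := by rw [map_ofNat]
    rw [this, derivative_C]
  have dk : d⁄dX ℝ (k : PowerSeries ℝ) = 0 := by
    have : (k : PowerSeries ℝ) = C (k : ℝ) := by rw [map_natCast]
    rw [this, derivative_C]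
  have hq0 : q ≠ 0 := by
    intro h
    have : constantCoeff q = 1 := by rw [hq]; simp
    rw [h] at this
    simp at this
  have hu0 : u ≠ 0 := by
    intro h
    have : constantCoeff u = 1 := by rw [hu]; simp
    rw [h] at this
    simp at this
  clear_value q u M
  -- first derivative of `hc`
  have h1 : 2 * q * u * L = (k : PowerSeries ℝ) * u * (M * X + 2 * X ^ 2) - 2 * q * (2 * M * X) := by
    have hd : X * d⁄dX ℝ (c ^ 2 * u ^ 2) = X * d⁄dX ℝ (q ^ k) := by rw [hc]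
    rw [Derivation.leibniz, derivative_pow, derivative_pow, derivative_pow, du, dq] at hd
    simp only [smul_eq_mul] at hd
    rcases k with _ | k
    · -- `k = 0`
      simp only [pow_zero, Nat.cast_zero, zero_mul, mul_zero] at hd hc ⊢
      have hcc : c * c ≠ 0 := mul_ne_zero hc0' hc0'
      apply mul_left_cancel₀ (mul_ne_zero hcc hu0)
      push_cast at hd
      have e1 : c * c * u * (2 * q * u * L) = 2 * q * c * u ^ 2 * (c * L) := by ring
      rw [e1, hL]
      have e2 : X * (c ^ 2 * (2 * u ^ (2 - 1) * (2 * M)) + u ^ 2 * (2 * c ^ (2 - 1) * d⁄dX ℝ c))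
        = 0 := hd
      have e3 : (2 - 1 : ℕ) = 1 := rfl
      rw [e3] at e2
      linear_combination q * e2
    · have hcc : c * c ≠ 0 := mul_ne_zero hc0' hc0'
      apply mul_left_cancel₀ (mul_ne_zero hcc hu0)
      rw [Nat.add_sub_cancel] at hd
      have e1 : c * c * u * (2 * q * u * L) = 2 * q * c * u ^ 2 * (c * L) := by ring
      rw [e1, hL]
      have e3 : (2 - 1 : ℕ) = 1 := rfl
      rw [e3] at hd
      push_cast at hd ⊢
      rw [pow_succ] at hc
      linear_combination q * hd - ((k : PowerSeries ℝ) + 1) * (M + 2 * X) * X * hc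
  -- second derivative
  have h2 : X * d⁄dX ℝ (2 * q * u * L) = X * d⁄dX ℝ ((k : PowerSeries ℝ) * u * (M * X + 2 * X ^ 2)
      - 2 * q * (2 * M * X)) := by rw [h1]
  have dX2 : d⁄dX ℝ (M * X + 2 * X ^ 2) = M + 4 * X := by
    rw [map_add, Derivation.leibniz, Derivation.leibniz, derivative_pow, derivative_X, d2, dM]
    simp only [smul_eq_mul]
    push_cast
    ring
  have dMX : d⁄dX ℝ (2 * M * X) = 2 * M := by
    rw [Derivation.leibniz, Derivation.leibniz, derivative_X, d2, dM]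
    simp only [smul_eq_mul]
    ring
  rw [map_sub, Derivation.leibniz (a := 2 * q * u), Derivation.leibniz (a := 2 * q) (b := u),
    Derivation.leibniz (a := 2) (b := q), Derivation.leibniz (a := (k : PowerSeries ℝ) * u),
    Derivation.leibniz (a := (k : PowerSeries ℝ)) (b := u),
    Derivation.leibniz (a := 2 * q) (b := 2 * M * X), Derivation.leibniz (a := 2) (b := q),
    dX2, dMX, d2, dk, du, dq] at h2
  simp only [smul_eq_mul] at h2
  have h20 : (2 : PowerSeries ℝ) ≠ 0 := by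
    intro h
    have := congrArg constantCoeff h
    rw [map_ofNat, map_zero] at this
    norm_num at this
  apply mul_left_cancel₀ h20
  have c5 : (2 : PowerSeries ℝ) * (C ((k : ℝ) / 2) * X * (M + 4 * X + M * X ^ 2) * u ^ 2
      - 2 * M * X * q ^ 2) = (k : PowerSeries ℝ) * X * (M + 4 * X + M * X ^ 2) * u ^ 2 - 4 * M * X * q ^ 2 := by
    rw [← c4]; ring
  rw [c5]
  have h2' : 2 * q * u * (X * d⁄dX ℝ L) = X * ((k : PowerSeries ℝ) * (2 * M) * (M * X + 2 * X ^ 2)
      + (k : PowerSeries ℝ) * u * (M + 4 * X)) - X * (2 * (M + 2 * X) * (2 * M * X) + 2 * q * (2 * M))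
      - X * (2 * (M + 2 * X) * u + 2 * q * (2 * M)) * L := by
    linear_combination h2
  have h3 : 2 * ((X * d⁄dX ℝ L) * (q ^ 2 * u ^ 2)) = (2 * q * u * (X * d⁄dX ℝ L)) * (q * u) := by ring
  rw [h3, h2']
  have h4 : (X * ((k : PowerSeries ℝ) * (2 * M) * (M * X + 2 * X ^ 2)
      + (k : PowerSeries ℝ) * u * (M + 4 * X)) - X * (2 * (M + 2 * X) * (2 * M * X) + 2 * q * (2 * M))
      - X * (2 * (M + 2 * X) * u + 2 * q * (2 * M)) * L) * (q * u)
      = (X * ((k : PowerSeries ℝ) * (2 * M) * (M * X + 2 * X ^ 2)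
      + (k : PowerSeries ℝ) * u * (M + 4 * X)) - X * (2 * (M + 2 * X) * (2 * M * X) + 2 * q * (2 * M))) * (q * u)
      - X * ((M + 2 * X) * u + q * (2 * M)) * (2 * q * u * L) := by ring
  rw [h4, h1, hq, hu]
  ring

/-- **(V2)**, Euler operator form: `[x^(m-1)] e^g θ²g = 0` forces `m` even and `μ = 0`. -/
theorem V2_theta (m : ℕ) (hm : 2 ≤ m) (μ : ℝ) (c L : PowerSeries ℝ)
    (hc0 : constantCoeff c = 1)
    (hc : c ^ 2 * (1 + C (2 * μ) * X) ^ 2 = (1 + C μ * X + X ^ 2) ^ (m + 1))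
    (hL : c * L = X * d⁄dX ℝ c)
    (h : coeff (m - 1) (c * (X * d⁄dX ℝ L)) = 0) : Even m ∧ μ = 0 := by
  refine V2_main m hm μ c (X * d⁄dX ℝ L) hc0 hc ?_ h
  have := theta_eq (m + 1) μ c L hc0 hc hL
  rw [this]
  push_cast
  rfl

/-- for `μ = 0` the odd coefficients of `c` vanish. -/
theorem coeff_odd_of_mu_zero (k n : ℕ) (hn : Odd n) (c : PowerSeries ℝ)
    (hc0 : constantCoeff c = 1)
    (hc : c ^ 2 * (1 + C (2 * (0 : ℝ)) * X) ^ 2 = (1 + C (0 : ℝ) * X + X ^ 2) ^ k) :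
    coeff n c = 0 := by
  have h := c_eq (ν := 0) (k := k) hc0 (by
    rw [mul_zero, map_zero] at hc ⊢
    simpa using hc)
  rw [h, W, coeff_S]
  refine Finset.sum_eq_zero fun t _ => ?_
  split_ifs with h1
  · obtain ⟨r, hr⟩ := hn
    have : n - 2 * t ≠ 0 := by omega
    rw [zero_pow this]
    ring
  · rfl

/-- **(H1) and (V2) are contradictory** (the case `k ≥ 12` of the exotic exclusion): if
`c = (1 + μX + X²)^((m+1)/2) / (1 + 2μX)` and `L = θ log c`, then `[X^(m-1)] c ≠ 0` implies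
`[X^(m-1)] c θL ≠ 0`. -/
theorem H1_V2 (m : ℕ) (hm : 2 ≤ m) (μ : ℝ) (c L : PowerSeries ℝ)
    (hc0 : constantCoeff c = 1)
    (hc : c ^ 2 * (1 + C (2 * μ) * X) ^ 2 = (1 + C μ * X + X ^ 2) ^ (m + 1))
    (hL : c * L = X * d⁄dX ℝ c) (h1 : coeff (m - 1) c ≠ 0) :
    coeff (m - 1) (c * (X * d⁄dX ℝ L)) ≠ 0 := by
  intro h
  obtain ⟨he, rfl⟩ := V2_theta m hm μ c L hc0 hc hL h
  refine h1 (coeff_odd_of_mu_zero (m + 1) (m - 1) ?_ c hc0 hc)
  exact Nat.Even.sub_odd (by omega) he odd_one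

end

end Crest.Agent.R208.V2
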