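import Crest.Agent.R208.VC1

/-! Row 208, block VC (helper997), part VC2: the algebra of one orbit.  For a continuous curve `w`
of even forms on a vector space `T` and a vector `V` the element `PSI V w`, its naturality, its
invariance under time shifts and the doubling formula `PSI (2V) (w(2·)) = 4 PSI V w`. -/

set_option autoImplicit false
set_option linter.unusedSectionVars false
set_option linter.unusedVariables false

open MeasureTheory Set Filter Topology Module
open scoped ContDiff
open Crest.Agent.R208.F Crest.Agent.R208.FI Crest.Agent.R208.CW Crest.Agent.R208.T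

noncomputable section

namespace Crest.Agent.R208.VC

section alg
variable {T : Type*} [AddCommGroup T] [Module ℝ T]

/-- odd elements have square zero -/
theorem odd_sq {a : Ext T} (h : F.inv a = -a) : a * a = 0 := by
  have h1 := odd_comm h a
  rw [h, neg_mul] at h1
  have h2 : (2 : ℝ) • (a * a) = 0 := by
    rw [two_smul]; nth_rewrite 1 [h1]; exact neg_add_cancel _
  exact (smul_eq_zero.1 h2).resolve_left two_ne_zero

theorem odd_ii {a : Ext T} (h : F.inv a = a) (v : T) : F.inv (ii v a) = - ii v a := by
  rw [F.inv_ii, h]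

theorem even_ii {a : Ext T} (h : F.inv a = -a) (v : T) : F.inv (ii v a) = ii v a := by
  rw [F.inv_ii, h, map_neg, neg_neg]

theorem odd_odd_odd {a b : Ext T} (h : F.inv a = -a) : a * b * a = 0 := by
  rw [odd_comm h b, mul_assoc, odd_sq h, mul_zero]

end alg

section curve
variable {T : Type*} [NormedAddCommGroup T] [NormedSpace ℝ T] [FiniteDimensional ℝ T]
  {T' : Type*} [NormedAddCommGroup T'] [NormedSpace ℝ T'] [FiniteDimensional ℝ T']
  {V : T} {w : ℝ → Ext T}

/-- the average of the curve -/
def MM (w : ℝ → Ext T) : Ext T := ∫ r in (0 : ℝ)..1, w r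

/-- the weighted average `2π ∫_0^1 (1-τ) ι_V w(s+τ) dτ` -/
def LAM (V : T) (w : ℝ → Ext T) (s : ℝ) : Ext T :=
  ∫ τ in (0 : ℝ)..1, (2 * Real.pi * (1 - τ)) • ii V (w (s + τ))

/-- `∫ (w² + A w) Λ` -/
def YA (V : T) (w : ℝ → Ext T) : Ext T :=
  ∫ s in (0 : ℝ)..1, (w s * w s + MM w * w s) * LAM V w s

/-- the 29-form along one orbit -/
def PSI (V : T) (w : ℝ → Ext T) : Ext T := ii V (MM w) * ii V (YA V w)

theorem continuous_ii (V : T) (hw : Continuous w) : Continuous fun s => ii V (w s) :=
  (iiL V).continuous.comp hw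

theorem continuous_mul' {v w : ℝ → Ext T} (hv : Continuous v) (hw : Continuous w) :
    Continuous fun s => v s * w s := by
  rw [continuous_iff_continuousAt]
  intro s
  have h1 : ContDiffAt ℝ 0 (fun p : Ext T × Ext T => p.1 * p.2) (v s, w s) :=
    F.contDiffAt_mul contDiffAt_fst contDiffAt_snd
  exact h1.continuousAt.comp (f := fun s => (v s, w s)) (hv.prodMk hw).continuousAt

theorem LAM_eq (V : T) (hw : Continuous w) (s : ℝ) :
    LAM V w s = ii V (∫ τ in (0 : ℝ)..1, (2 * Real.pi * (1 - τ)) • w (s + τ)) := by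
  have h1 : IntervalIntegrable (fun τ => (2 * Real.pi * (1 - τ)) • w (s + τ)) volume 0 1 := by
    apply Continuous.intervalIntegrable
    exact (by fun_prop : Continuous fun τ : ℝ => 2 * Real.pi * (1 - τ)).smul
      (hw.comp (by fun_prop))
  have h2 := (iiL V).intervalIntegral_comp_comm h1
  rw [iiL_apply] at h2
  rw [← h2, LAM]
  refine intervalIntegral.integral_congr fun τ _ => ?_
  simp only [iiL_apply, map_smul]

theorem continuous_LAM (V : T) (hw : Continuous w) : Continuous (LAM V w) := by
  have h0 : Continuous (Function.uncurry fun (s : ℝ) (τ : ℝ) =>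
      (2 * Real.pi * (1 - τ)) • ii V (w (s + τ))) := by
    have h1 : Continuous fun p : ℝ × ℝ => ii V (w (p.1 + p.2)) :=
      (continuous_ii V hw).comp (by fun_prop)
    have h2 : Continuous fun p : ℝ × ℝ => 2 * Real.pi * (1 - p.2) := by fun_prop
    exact h2.smul h1
  exact intervalIntegral.continuous_parametric_intervalIntegral_of_continuous' h0 0 1

theorem continuous_int (V : T) (hw : Continuous w) :
    Continuous fun s => (w s * w s + MM w * w s) * LAM V w s :=
  continuous_mul' ((continuous_mul' hw hw).add (continuous_mul' continuous_const hw))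
    (continuous_LAM V hw)

/-! ### naturality -/

theorem pb_MM (A : T' →ₗ[ℝ] T) (hw : Continuous w) : pb A (MM w) = MM fun s => pb A (w s) :=
  ((LinearMap.toContinuousLinearMap (pb A).toLinearMap).intervalIntegral_comp_comm
    (hw.intervalIntegrable 0 1)).symm

theorem continuous_pb (A : T' →ₗ[ℝ] T) (hw : Continuous w) : Continuous fun s => pb A (w s) :=
  (LinearMap.toContinuousLinearMap (pb A).toLinearMap).continuous.comp hw

theorem pb_int (A : T' →ₗ[ℝ] T) {f : ℝ → Ext T} (hf : Continuous f) :
    pb A (∫ s in (0 : ℝ)..1, f s) = ∫ s in (0 : ℝ)..1, pb A (f s) :=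
  ((LinearMap.toContinuousLinearMap (pb A).toLinearMap).intervalIntegral_comp_comm
    (hf.intervalIntegrable 0 1)).symm

theorem pb_LAM (A : T' →ₗ[ℝ] T) (V' : T') (hw : Continuous w) (s : ℝ) :
    pb A (LAM (A V') w s) = LAM V' (fun s => pb A (w s)) s := by
  have h0 : Continuous fun τ : ℝ => (2 * Real.pi * (1 - τ)) • ii (A V') (w (s + τ)) :=
    (by fun_prop : Continuous fun τ : ℝ => 2 * Real.pi * (1 - τ)).smul
      ((continuous_ii (A V') hw).comp (by fun_prop))
  rw [LAM, pb_int A h0, LAM]
  refine intervalIntegral.integral_congr fun τ _ => ?_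
  simp only [map_smul, ii_pb]

theorem pb_YA (A : T' →ₗ[ℝ] T) (V' : T') (hw : Continuous w) :
    pb A (YA (A V') w) = YA V' fun s => pb A (w s) := by
  rw [YA, pb_int A (continuous_int _ hw), YA]
  refine intervalIntegral.integral_congr fun s _ => ?_
  simp only [map_mul, map_add, pb_MM A hw, pb_LAM A V' hw]

theorem pb_PSI (A : T' →ₗ[ℝ] T) (V' : T') (hw : Continuous w) :
    pb A (PSI (A V') w) = PSI V' fun s => pb A (w s) := by
  rw [PSI, map_mul, ← ii_pb, ← ii_pb, pb_MM A hw, pb_YA A V' hw, PSI]

/-! ### shifts -/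

theorem int_shift {f : ℝ → Ext T} (hf : Function.Periodic f 1) (r : ℝ) :
    ∫ s in (0 : ℝ)..1, f (s + r) = ∫ s in (0 : ℝ)..1, f s := by
  rw [intervalIntegral.integral_comp_add_right f r, zero_add, add_comm 1 r]
  have := hf.intervalIntegral_add_eq r 0
  rwa [zero_add] at this

theorem int_double {f : ℝ → Ext T} (hc : Continuous f) (hf : Function.Periodic f 1) :
    ∫ s in (0 : ℝ)..1, f (2 * s) = ∫ s in (0 : ℝ)..1, f s := by
  have h1 := intervalIntegral.integral_comp_mul_left f (c := 2) (a := 0) (b := 1) two_ne_zero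
  rw [h1, mul_zero, mul_one]
  have h2 : ∫ s in (0 : ℝ)..2, f s = (∫ s in (0 : ℝ)..1, f s) + ∫ s in (1 : ℝ)..2, f s :=
    (intervalIntegral.integral_add_adjacent_intervals (hc.intervalIntegrable _ _)
      (hc.intervalIntegrable _ _)).symm
  have h3 := hf.intervalIntegral_add_eq 1 0
  rw [zero_add, one_add_one_eq_two] at h3
  rw [h2, h3, ← two_smul ℝ, smul_smul, inv_mul_cancel₀ two_ne_zero, one_smul]

theorem MM_shift (hp : Function.Periodic w 1) (r : ℝ) : MM (fun s => w (s + r)) = MM w :=
  int_shift hp r

theorem LAM_shift (V : T) (w : ℝ → Ext T) (r s : ℝ) :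
    LAM V (fun s => w (s + r)) s = LAM V w (s + r) := by
  rw [LAM, LAM]
  refine intervalIntegral.integral_congr fun τ _ => ?_
  simp only [show s + τ + r = s + r + τ by ring]

theorem LAM_periodic (V : T) (hp : Function.Periodic w 1) : Function.Periodic (LAM V w) 1 := by
  intro s
  rw [← LAM_shift]
  congr 1
  funext r
  exact hp r

theorem YA_shift (V : T) (hp : Function.Periodic w 1) (r : ℝ) :
    YA V (fun s => w (s + r)) = YA V w := by
  rw [YA, MM_shift hp]
  simp only [LAM_shift]
  refine int_shift (f := fun s => (w s * w s + MM w * w s) * LAM V w s) (fun s => ?_) r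
  simp only [hp s, LAM_periodic V hp s]

theorem PSI_shift (V : T) (hp : Function.Periodic w 1) (r : ℝ) :
    PSI V (fun s => w (s + r)) = PSI V w := by
  rw [PSI, MM_shift hp, YA_shift V hp, PSI]

/-! ### doubling -/

theorem MM_double (hw : Continuous w) (hp : Function.Periodic w 1) : MM (fun s => w (2 * s)) = MM w :=
  int_double hw hp

theorem LAM_double (V : T) (hw : Continuous w) (hp : Function.Periodic w 1) (s : ℝ) :
    LAM ((2 : ℝ) • V) (fun s => w (2 * s)) s = LAM V w (2 * s) + Real.pi • ii V (MM w) := by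
  have hc : ∀ g : ℝ → ℝ, Continuous g → Continuous fun u : ℝ => g u • ii V (w (2 * s + u)) :=
    fun g hg => hg.smul ((continuous_ii V hw).comp (by fun_prop))
  have e1 : LAM ((2 : ℝ) • V) (fun s => w (2 * s)) s =
      ∫ τ in (0 : ℝ)..1, (fun u : ℝ => (4 * Real.pi * (1 - u / 2)) • ii V (w (2 * s + u))) (2 * τ) := by
    rw [LAM]
    refine intervalIntegral.integral_congr fun τ _ => ?_
    simp only [map_smul, LinearMap.smul_apply, smul_smul]
    congr 1
    · ring
    · ring_nf
  have e2 : ∫ τ in (0 : ℝ)..1, (fun u : ℝ => (4 * Real.pi * (1 - u / 2)) • ii V (w (2 * s + u))) (2 * τ)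
      = ∫ u in (0 : ℝ)..2, (2 * Real.pi * (1 - u / 2)) • ii V (w (2 * s + u)) := by
    rw [intervalIntegral.integral_comp_mul_left
      (fun u : ℝ => (4 * Real.pi * (1 - u / 2)) • ii V (w (2 * s + u))) two_ne_zero, mul_zero,
      mul_one, ← intervalIntegral.integral_smul]
    refine intervalIntegral.integral_congr fun u _ => ?_
    simp only [smul_smul]
    congr 1
    ring
  have e3 : ∫ u in (0 : ℝ)..2, (2 * Real.pi * (1 - u / 2)) • ii V (w (2 * s + u)) =
      (∫ u in (0 : ℝ)..1, (2 * Real.pi * (1 - u / 2)) • ii V (w (2 * s + u))) +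
      ∫ u in (1 : ℝ)..2, (2 * Real.pi * (1 - u / 2)) • ii V (w (2 * s + u)) :=
    (intervalIntegral.integral_add_adjacent_intervals
      ((hc _ (by fun_prop)).intervalIntegrable _ _) ((hc _ (by fun_prop)).intervalIntegrable _ _)).symm
  have e4 : ∫ u in (1 : ℝ)..2, (2 * Real.pi * (1 - u / 2)) • ii V (w (2 * s + u)) =
      ∫ u in (0 : ℝ)..1, (2 * Real.pi * (1 - (u + 1) / 2)) • ii V (w (2 * s + u)) := by
    have h1 := intervalIntegral.integral_comp_add_right
      (fun u : ℝ => (2 * Real.pi * (1 - u / 2)) • ii V (w (2 * s + u))) (a := 0) (b := 1) 1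
    rw [zero_add, one_add_one_eq_two] at h1
    rw [← h1]
    refine intervalIntegral.integral_congr fun u _ => ?_
    simp only [← add_assoc, hp (2 * s + u)]
  have e5 : LAM V w (2 * s) = ∫ u in (0 : ℝ)..1, (2 * Real.pi * (1 - u)) • ii V (w (2 * s + u)) := rfl
  have e6 : ii V (MM w) = ∫ u in (0 : ℝ)..1, ii V (w (2 * s + u)) := by
    have h1 : MM w = ∫ u in (0 : ℝ)..1, w (2 * s + u) := by
      rw [MM, ← int_shift hp (2 * s)]
      refine intervalIntegral.integral_congr fun u _ => ?_
      simp only [add_comm]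
    rw [h1]
    exact ((iiL V).intervalIntegral_comp_comm
      ((hw.comp (by fun_prop : Continuous fun u : ℝ => 2 * s + u)).intervalIntegrable 0 1)).symm
  rw [e1, e2, e3, e4, e5, e6, ← intervalIntegral.integral_smul,
    ← intervalIntegral.integral_add ((hc _ (by fun_prop)).intervalIntegrable _ _)
      ((hc _ (by fun_prop)).intervalIntegrable _ _),
    ← intervalIntegral.integral_add ((hc _ (by fun_prop)).intervalIntegrable _ _)
      ((hc (fun _ => Real.pi) continuous_const).intervalIntegrable _ _)]
  refine intervalIntegral.integral_congr fun u _ => ?_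
  simp only [← add_smul]
  congr 1
  ring

theorem YA_double (V : T) (hw : Continuous w) (hp : Function.Periodic w 1) :
    YA ((2 : ℝ) • V) (fun s => w (2 * s)) =
      YA V w + Real.pi • (((∫ s in (0 : ℝ)..1, w s * w s) + MM w * MM w) * ii V (MM w)) := by
  rw [YA, MM_double hw hp]
  simp only [LAM_double V hw hp]
  have h1 : ∫ s in (0 : ℝ)..1, (w (2 * s) * w (2 * s) + MM w * w (2 * s)) *
      (LAM V w (2 * s) + Real.pi • ii V (MM w)) =
      ∫ s in (0 : ℝ)..1, (w s * w s + MM w * w s) * (LAM V w s + Real.pi • ii V (MM w)) := by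
    refine int_double (f := fun s => (w s * w s + MM w * w s) * (LAM V w s + Real.pi • ii V (MM w)))
      (continuous_mul' ((continuous_mul' hw hw).add (continuous_mul' continuous_const hw))
        ((continuous_LAM V hw).add continuous_const)) (fun s => ?_)
    simp only [hp s, LAM_periodic V hp s]
  have hq : Continuous fun s => w s * w s + MM w * w s :=
    (continuous_mul' hw hw).add (continuous_mul' continuous_const hw)
  rw [h1]
  have h2 : ∀ s, (w s * w s + MM w * w s) * (LAM V w s + Real.pi • ii V (MM w)) =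
      (w s * w s + MM w * w s) * LAM V w s +
        Real.pi • ((w s * w s + MM w * w s) * ii V (MM w)) := fun s => by
    rw [mul_add, mul_smul_comm]
  simp only [h2]
  have h6' : Continuous fun s => (w s * w s + MM w * w s) * ii V (MM w) :=
    continuous_mul' hq continuous_const
  have h6 : Continuous fun s => Real.pi • ((w s * w s + MM w * w s) * ii V (MM w)) :=
    h6'.const_smul Real.pi
  rw [intervalIntegral.integral_add ((continuous_int V hw).intervalIntegrable _ _)
    (h6.intervalIntegrable _ _), intervalIntegral.integral_smul]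
  congr 2
  have h3 : ∫ s in (0 : ℝ)..1, (w s * w s + MM w * w s) * ii V (MM w) =
      (∫ s in (0 : ℝ)..1, (w s * w s + MM w * w s)) * ii V (MM w) :=
    ((mulL T).flip (ii V (MM w))).intervalIntegral_comp_comm (hq.intervalIntegrable 0 1)
  have h4 : ∫ s in (0 : ℝ)..1, MM w * w s = MM w * MM w :=
    (mulL T (MM w)).intervalIntegral_comp_comm (hw.intervalIntegrable 0 1)
  rw [h3, intervalIntegral.integral_add ((continuous_mul' hw hw).intervalIntegrable _ _)
    ((continuous_mul' continuous_const hw).intervalIntegrable _ _), h4]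

theorem inv_int {f : ℝ → Ext T} (hf : Continuous f) :
    F.inv (∫ s in (0 : ℝ)..1, f s) = ∫ s in (0 : ℝ)..1, F.inv (f s) :=
  ((invL (E := T)).intervalIntegral_comp_comm (hf.intervalIntegrable 0 1)).symm

theorem inv_MM (hw : Continuous w) (he : ∀ s, F.inv (w s) = w s) : F.inv (MM w) = MM w := by
  rw [MM, inv_int hw]; simp only [he]

/-- **doubling** -/
theorem PSI_double (V : T) (hw : Continuous w) (hp : Function.Periodic w 1)
    (he : ∀ s, F.inv (w s) = w s) :
    PSI ((2 : ℝ) • V) (fun s => w (2 * s)) = (4 : ℝ) • PSI V w := by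
  have hM := inv_MM hw he
  have ho := odd_ii hM V
  generalize hQ : (∫ s in (0 : ℝ)..1, w s * w s) + MM w * MM w = Q at *
  have h7 : ii V (Q * ii V (MM w)) = ii V Q * ii V (MM w) := by
    rw [ii_mul, ii_ii, mul_zero, add_zero]
  rw [PSI, MM_double hw hp, YA_double V hw hp, hQ, map_smul, LinearMap.smul_apply,
    LinearMap.smul_apply, map_add, map_smul, h7, smul_mul_smul_comm, mul_add, mul_smul_comm,
    ← mul_assoc, odd_odd_odd ho, smul_zero, add_zero, PSI]
  norm_num

end curve

end Crest.Agent.R208.VC
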