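import Crest.Agent.R208.VC3

/-! Row 208, block VC (helper997), part VC4: differentials.  `Av` and `xi` are closed,
`d YY = Av³`, `d (ι YY) = -3 Av² ξ`, `psi` is closed and horizontal. -/

set_option autoImplicit false
set_option linter.unusedSectionVars false
set_option linter.unusedVariables false

open MeasureTheory Set Filter Topology Module
open scoped ContDiff
open Crest.Agent.R208.F Crest.Agent.R208.FI Crest.Agent.R208.CW Crest.Agent.R208.T
open Crest.Agent.R208.CM (Cir gen)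

noncomputable section

namespace Crest.Agent.R208.VC

universe u v
variable {E : Type u} [NormedAddCommGroup E] [NormedSpace ℝ E] [FiniteDimensional ℝ E]
  {F' : Type v} [NormedAddCommGroup F'] [NormedSpace ℝ F'] [FiniteDimensional ℝ F']
  {m : ℕ} {X : Set E} {φ : ℝ → E → E} {a b : E → Ext E} {x : E} {g : E × ℝ → Ext E}

theorem rs_d_I1 (hg : SmT X g) (hx : x ∈ X) :
    rsL X x (F.d (I1 g) x) = ∫ t in (0 : ℝ)..1, rsL X x (F.d (fun y => g (y, t)) x) := by
  rw [d_I1 hg hx]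
  exact ((rsL X x).intervalIntegral_comp_comm ((SmT.d hg).int hx 0 1)).symm

theorem cl_iff : Cl X a ↔ ∀ x ∈ X, rsL X x (F.d a x) = 0 := Iff.rfl

theorem cl_I1 (hg : SmT X g) (hc : ∀ t, Cl X (fun y => g (y, t))) : Cl X (I1 g) := by
  rw [cl_iff]
  intro x hx
  rw [rs_d_I1 hg hx]
  have : ∀ t : ℝ, rsL X x (F.d (fun y => g (y, t)) x) = 0 := fun t => hc t x hx
  simp [this]

theorem eqv_Wn (h : Act X φ) (s : ℝ) :
    Eqv X (fun y => Wn φ b (y, s)) (F.pull (φ (2 * Real.pi * s)) b) :=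
  Eqv.of_eq fun y hy => Wn_eq h hy s

theorem cl_Wn (h : Act X φ) (hX : Sub m X) (hb : Sm X b) (hc : Cl X b) (s : ℝ) :
    Cl X (fun y => Wn φ b (y, s)) :=
  Cl.of_eqv hX ((smT_Wn h hb).slice s) (hb.pull (smap h _)) (eqv_Wn h s)
    (Cl.pull (smap h _) hb hc)

theorem cl_Av (h : Act X φ) (hX : Sub m X) (hb : Sm X b) (hc : Cl X b) : Cl X (Av φ b) :=
  cl_I1 (smT_Wn h hb) (cl_Wn h hX hb hc)

theorem cl_xi (h : Act X φ) (hX : Sub m X) (hb : Sm X b) (hc : Cl X b) : Cl X (xi φ b) := by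
  have h1 := Inv.d_iV h hX (sm_Av h hb) (inv_Av h hb)
  have h2 := Eqv.iV h (resZero_iff.1 (cl_Av h hX hb hc))
  have h3 : iV φ (0 : E → Ext E) = 0 := funext fun x => map_zero _
  rw [h3] at h2
  rw [Cl, resZero_iff]
  have h4 := h2.neg
  rw [neg_zero] at h4
  exact h1.trans h4

/-! ### the differential of `Λ` -/

theorem ftc_aux {T : Type*} [NormedAddCommGroup T] [NormedSpace ℝ T] [FiniteDimensional ℝ T]
    {w D : ℝ → Ext T} (hw : Continuous w) (hD : Continuous D)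
    (hd : ∀ t, HasDerivAt w ((2 * Real.pi) • D t) t) :
    ∫ t in (0 : ℝ)..1, (2 * Real.pi * (1 - t)) • D t = (∫ t in (0 : ℝ)..1, w t) - w 0 := by
  have e4 : ∀ t ∈ uIcc (0 : ℝ) 1, HasDerivAt (fun t => (1 - t) • w t)
      ((2 * Real.pi * (1 - t)) • D t - w t) t := by
    intro t _
    have h1 : HasDerivAt (fun t : ℝ => 1 - t) (-1) t := by
      simpa using (hasDerivAt_id t).const_sub 1
    have h2 := h1.smul (hd t)
    have h3 : (1 - t) • (2 * Real.pi) • D t + (-1 : ℝ) • w t = (2 * Real.pi * (1 - t)) • D t - w t := by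
      rw [smul_smul, neg_smul, one_smul, mul_comm (1 - t), ← sub_eq_add_neg]
    rw [h3] at h2
    exact h2
  have hc1 : Continuous fun t : ℝ => (2 * Real.pi * (1 - t)) • D t :=
    (by fun_prop : Continuous fun t : ℝ => 2 * Real.pi * (1 - t)).smul hD
  have e5 := intervalIntegral.integral_eq_sub_of_hasDerivAt e4
    ((hc1.sub hw).intervalIntegrable 0 1)
  rw [intervalIntegral.integral_sub (hc1.intervalIntegrable 0 1) (hw.intervalIntegrable 0 1),
    sub_self, zero_smul, sub_zero, one_smul, zero_sub, sub_eq_iff_eq_add] at e5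
  rw [e5]
  abel

theorem smT_k (h : Act X φ) (hb : Sm X b) (s : ℝ) :
    SmT X (fun p : E × ℝ => ii (gen φ p.1) (Wn φ b (p.1, s + p.2))) :=
  SmT.iV h ((smT_Wn h hb).time (f := fun t => s + t) (by fun_prop))

theorem smT_kk (h : Act X φ) (hb : Sm X b) (s : ℝ) :
    SmT X (fun p : E × ℝ => (2 * Real.pi * (1 - p.2)) • ii (gen φ p.1) (Wn φ b (p.1, s + p.2))) :=
  fun y hy t => by
    have h1 : ContDiffAt ℝ ∞ (fun p : E × ℝ => 2 * Real.pi * (1 - p.2)) (y, t) := by fun_prop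
    exact h1.smul (smT_k h hb s y hy t)

theorem Lf_slice (φ : ℝ → E → E) (b : E → Ext E) (s : ℝ) : (fun y => Lf φ b (y, s)) =
    I1 (fun p : E × ℝ => (2 * Real.pi * (1 - p.2)) • ii (gen φ p.1) (Wn φ b (p.1, s + p.2))) := rfl

theorem rs_d_Lf (h : Act X φ) (hX : Sub m X) (hb : Sm X b) (hc : Cl X b) (hx : x ∈ X) (s : ℝ) :
    rsL X x (F.d (fun y => Lf φ b (y, s)) x) = MM (cv X φ b x) - cv X φ b x s := by
  have e1 : rsL X x (F.d (fun y => Lf φ b (y, s)) x) =
      ∫ t in (0 : ℝ)..1, rsL X x (F.d (fun y => (2 * Real.pi * (1 - t)) •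
        ii (gen φ y) (Wn φ b (y, s + t))) x) := by
    rw [Lf_slice, rs_d_I1 (smT_kk h hb s) hx]
  have e2 : ∀ t, rsL X x (F.d (fun y => (2 * Real.pi * (1 - t)) •
      ii (gen φ y) (Wn φ b (y, s + t))) x) = (2 * Real.pi * (1 - t)) •
      rsL X x (F.d (fun y => ii (gen φ y) (Wn φ b (y, s + t))) x) := by
    intro t
    rw [← map_smul]
    congr 1
    exact F.d_const_smul _ (((smT_k h hb s).slice t).diff hx)
  simp only [e2] at e1
  have hw : Continuous fun t => cv X φ b x (s + t) := (continuous_cv h hb hx).comp (by fun_prop)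
  have hD : Continuous fun t => rsL X x (F.d (fun y => ii (gen φ y) (Wn φ b (y, s + t))) x) :=
    (rsL X x).continuous.comp ((SmT.d (smT_k h hb s)).continuous hx)
  have e3 : ∀ t, HasDerivAt (fun t => cv X φ b x (s + t))
      ((2 * Real.pi) • rsL X x (F.d (fun y => ii (gen φ y) (Wn φ b (y, s + t))) x)) t := by
    intro t
    have h1 := hasDerivAt_cl h hX hb hc hx (2 * Real.pi * (s + t))
    have h2 : HasDerivAt (fun t : ℝ => 2 * Real.pi * (s + t)) (2 * Real.pi) t := by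
      simpa using ((hasDerivAt_id t).const_add s).const_mul (2 * Real.pi)
    exact HasDerivAt.scomp (g₁ := fun r => rsL X x (Wt φ b (x, r))) t h1 h2
  have e6 : ∫ t in (0 : ℝ)..1, cv X φ b x (s + t) = MM (cv X φ b x) := by
    have h1 : ∫ t in (0 : ℝ)..1, cv X φ b x (t + s) = ∫ t in (0 : ℝ)..1, cv X φ b x t :=
      int_shift (f := cv X φ b x) (cvp b h hx) s
    simp only [add_comm s]
    exact h1
  have e7 := ftc_aux hw hD e3
  rw [e6, add_zero] at e7
  rw [e1, e7]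

/-! ### the differential of `YY` -/

theorem cv_cube (h : Act X φ) (h3 : Eqv X (b * b * b) 0) (hx : x ∈ X) (s : ℝ) :
    cv X φ b x s * cv X φ b x s * cv X φ b x s = 0 := by
  have h1 := eqv_iff.1 (h3.pull (smap h (2 * Real.pi * s))) x hx
  rw [pull_mul', pull_mul', pull_zero', Pi.zero_apply, map_zero, Pi.mul_apply, Pi.mul_apply,
    map_mul, map_mul, ← Wn_eq h hx] at h1
  exact h1

theorem alg_aux {T : Type*} [NormedAddCommGroup T] [NormedSpace ℝ T] [FiniteDimensional ℝ T]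
    {A w : Ext T} (hw : F.inv w = w) (hcube : w * w * w = 0) :
    (w * w + A * w) * (A - w) = A * A * w := by
  have hcomm : w * A = A * w := even_comm hw _
  rw [mul_sub, add_mul, add_mul, hcube, zero_add, mul_assoc w w A, hcomm, ← mul_assoc w A w, hcomm,
    mul_assoc A w A, hcomm, ← mul_assoc]
  abel

/-- the even factor of `Yg` -/
def cc (φ : ℝ → E → E) (b : E → Ext E) (s : ℝ) : E → Ext E :=
  (fun y => Wn φ b (y, s)) * (fun y => Wn φ b (y, s)) + Av φ b * (fun y => Wn φ b (y, s))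

theorem sm_cc (h : Act X φ) (hb : Sm X b) (s : ℝ) : Sm X (cc φ b s) :=
  (((smT_Wn h hb).slice s).mul ((smT_Wn h hb).slice s)).add
    ((sm_Av h hb).mul ((smT_Wn h hb).slice s))

theorem cl_cc (h : Act X φ) (hX : Sub m X) (hb : Sm X b) (hc : Cl X b) (s : ℝ) :
    Cl X (cc φ b s) := by
  have hsW := (smT_Wn h hb).slice s
  have hcW := cl_Wn h hX hb hc s
  exact Cl.add (hsW.mul hsW) ((sm_Av h hb).mul hsW) (Cl.mul hsW hsW hcW hcW)
      (Cl.mul (sm_Av h hb) hsW (cl_Av h hX hb hc) hcW)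

theorem rs_cc (h : Act X φ) (hb : Sm X b) (hx : x ∈ X) (s : ℝ) : rsL X x (cc φ b s x) =
    cv X φ b x s * cv X φ b x s + MM (cv X φ b x) * cv X φ b x s := by
  rw [← rs_Av h hb hx, rsL_apply, rsL_apply, cc, Pi.add_apply, Pi.mul_apply, Pi.mul_apply,
    map_add, map_mul, map_mul]
  rfl

theorem inv_cc (h : Act X φ) (hb : Sm X b) (he : ∀ x ∈ X, F.inv (b x) = b x) (hx : x ∈ X) (s : ℝ) :
    F.inv (rsL X x (cc φ b s x)) = rsL X x (cc φ b s x) := by
  have hM : F.inv (MM (cv X φ b x)) = MM (cv X φ b x) :=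
    inv_MM (w := cv X φ b x) (continuous_cv h hb hx) (cv_even h he hx)
  have hw : F.inv (cv X φ b x s) = cv X φ b x s := cv_even h he hx s
  rw [rs_cc h hb hx, map_add, map_mul, map_mul, hM, hw]

theorem Yg_slice (φ : ℝ → E → E) (b : E → Ext E) (s : ℝ) :
    (fun y => Yg φ b (y, s)) = cc φ b s * (fun y => Lf φ b (y, s)) := rfl

theorem rs_d_mul {a c : E → Ext E} (ha : Sm X a) (hc : Sm X c) (hx : x ∈ X) :
    rsL X x (F.d (a * c) x) = rsL X x (F.d a x) * rsL X x (c x) +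
      F.inv (rsL X x (a x)) * rsL X x (F.d c x) := by
  have e1 := eqv_iff.1 (d_mul_eqv ha hc) x hx
  rw [rsL_apply, e1, Pi.add_apply, Pi.mul_apply, Pi.mul_apply, map_add, map_mul, map_mul, pb_inv]
  rfl

theorem rs_d_Yg (h : Act X φ) (hX : Sub m X) (hb : Sm X b) (hc : Cl X b)
    (he : ∀ x ∈ X, F.inv (b x) = b x) (h3 : Eqv X (b * b * b) 0) (hx : x ∈ X) (s : ℝ) :
    rsL X x (F.d (fun y => Yg φ b (y, s)) x) =
      MM (cv X φ b x) * MM (cv X φ b x) * cv X φ b x s := by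
  have e2 : rsL X x (F.d (cc φ b s) x) = 0 := cl_cc h hX hb hc s x hx
  rw [Yg_slice, rs_d_mul (sm_cc h hb s) ((smT_Lf h hb).slice s) hx, e2, zero_mul, zero_add,
    inv_cc h hb he hx, rs_cc h hb hx, rs_d_Lf h hX hb hc hx s]
  exact alg_aux (cv_even h he hx s) (cv_cube h h3 hx s)

/-- **`d YY = Av³`** -/
theorem dYY (h : Act X φ) (hX : Sub m X) (hb : Sm X b) (hc : Cl X b)
    (he : ∀ x ∈ X, F.inv (b x) = b x) (h3 : Eqv X (b * b * b) 0) :
    Eqv X (F.d (YY φ b)) (Av φ b * Av φ b * Av φ b) := by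
  refine eqv_iff.2 fun x hx => ?_
  have e1 : pb (Tan X x).subtype (F.d (YY φ b) x) =
      ∫ s in (0 : ℝ)..1, rsL X x (F.d (fun y => Yg φ b (y, s)) x) := rs_d_I1 (smT_Yg h hb) hx
  have e2 : pb (Tan X x).subtype (Av φ b x) = MM (cv X φ b x) := rs_Av h hb hx
  rw [e1, Pi.mul_apply, Pi.mul_apply, map_mul, map_mul, e2]
  simp only [rs_d_Yg h hX hb hc he h3 hx]
  exact (mulL _ (MM (cv X φ b x) * MM (cv X φ b x))).intervalIntegral_comp_comm
    ((continuous_cv h hb hx).intervalIntegrable 0 1)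

/-- **`d (ι_V YY) = -3 Av² ξ`** -/
theorem d_iYY (h : Act X φ) (hX : Sub m X) (hb : Sm X b) (hc : Cl X b)
    (he : ∀ x ∈ X, F.inv (b x) = b x) (h3 : Eqv X (b * b * b) 0) :
    Eqv X (F.d (iV φ (YY φ b))) (-((3 : ℝ) • (Av φ b * Av φ b * xi φ b))) := by
  refine (Inv.d_iV h hX (sm_YY h hb) (inv_YY h hb)).trans (Eqv.neg ?_)
  refine (Eqv.iV h (dYY h hX hb hc he h3)).trans (Eqv.of_eq fun x hx => ?_)
  have hA := Av_even h hb he hx
  have h1 : ∀ c : Ext E, c * Av φ b x = Av φ b x * c := fun c => (even_comm hA c).symm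
  show ii (gen φ x) (Av φ b x * Av φ b x * Av φ b x) = (3 : ℝ) • (Av φ b x * Av φ b x * xi φ b x)
  have h2 : ii (gen φ x) (Av φ b x) = xi φ b x := rfl
  rw [ii_mul, ii_mul, map_mul, hA, h2, h1 (xi φ b x), h1 (_ + _), mul_add, ← mul_assoc,
    show (3 : ℝ) = 1 + 1 + 1 by norm_num, add_smul, add_smul, one_smul]

/-! ### horizontal forms -/

/-- horizontal forms -/
def Hz (X : Set E) (φ : ℝ → E → E) (a : E → Ext E) : Prop := Eqv X (iV φ a) 0

theorem hz_iff (h : Act X φ) : Hz X φ a ↔ ∀ x (hx : x ∈ X), ii (tg h hx) (rsL X x (a x)) = 0 := by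
  rw [Hz, eqv_iff]
  refine forall₂_congr fun x hx => ?_
  rw [iV, pb_ii_tan (h.gen_mem hx), Pi.zero_apply, map_zero]
  rfl

theorem Hz.of_eqv (h : Act X φ) (hab : Eqv X a b) (hb : Hz X φ b) : Hz X φ a :=
  (Eqv.iV h hab).trans hb

theorem hz_iV (φ : ℝ → E → E) (a : E → Ext E) : Hz X φ (iV φ a) :=
  Eqv.of_eq fun x _ => ii_ii _ _

theorem Hz.add (ha : Hz X φ a) (hb : Hz X φ b) : Hz X φ (a + b) := by
  have h1 : iV φ (a + b) = iV φ a + iV φ b := funext fun x => map_add _ _ _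
  rw [Hz, h1]
  have := Eqv.add ha hb
  rwa [add_zero] at this
theorem Hz.smul (r : ℝ) (ha : Hz X φ a) : Hz X φ (r • a) := by
  have h1 : iV φ (r • a) = r • iV φ a := funext fun x => map_smul (ii (gen φ x)) r (a x)
  rw [Hz, h1]
  have := Eqv.smul r ha
  rwa [smul_zero] at this
theorem Hz.neg (ha : Hz X φ a) : Hz X φ (-a) := by
  have := ha.smul (-1); simpa using this
theorem Hz.sub (ha : Hz X φ a) (hb : Hz X φ b) : Hz X φ (a - b) := by
  rw [sub_eq_add_neg]; exact ha.add hb.neg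
theorem iV_mul (φ : ℝ → E → E) (a b : E → Ext E) :
    iV φ (a * b) = iV φ a * b + (fun x => F.inv (a x)) * iV φ b := funext fun x => ii_mul _ _ _
theorem Hz.mul (ha : Hz X φ a) (hb : Hz X φ b) : Hz X φ (a * b) := by
  rw [Hz, iV_mul]
  have := (Eqv.mul ha (Eqv.refl b)).add ((Eqv.refl (fun x => F.inv (a x))).mul hb)
  rwa [zero_mul, mul_zero, add_zero] at this

theorem hz_xi (φ : ℝ → E → E) (b : E → Ext E) : Hz X φ (xi φ b) := hz_iV φ _
theorem hz_psi (φ : ℝ → E → E) (b : E → Ext E) : Hz X φ (psi φ b) := (hz_iV φ _).mul (hz_iV φ _)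

theorem xi_sq (h : Act X φ) (hb : Sm X b) (he : ∀ x ∈ X, F.inv (b x) = b x) (hx : x ∈ X) :
    xi φ b x * xi φ b x = 0 := odd_sq (xi_odd h hb he hx)

theorem hz_Av_xi (h : Act X φ) (hb : Sm X b) (he : ∀ x ∈ X, F.inv (b x) = b x) :
    Hz X φ (Av φ b * xi φ b) := by
  rw [Hz, iV_mul]
  refine Eqv.of_eq fun x hx => ?_
  show xi φ b x * xi φ b x + F.inv (Av φ b x) * ii (gen φ x) (ii (gen φ x) (Av φ b x)) = 0
  rw [xi_sq h hb he hx, ii_ii, mul_zero, add_zero]

theorem cl_Av_xi (h : Act X φ) (hX : Sub m X) (hb : Sm X b) (hc : Cl X b) :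
    Cl X (Av φ b * xi φ b) :=
  Cl.mul (sm_Av h hb) (sm_xi h hb) (cl_Av h hX hb hc) (cl_xi h hX hb hc)

/-- **`psi` is closed** -/
theorem cl_psi (h : Act X φ) (hX : Sub m X) (hb : Sm X b) (hc : Cl X b)
    (he : ∀ x ∈ X, F.inv (b x) = b x) (h3 : Eqv X (b * b * b) 0) : Cl X (psi φ b) := by
  rw [Cl, resZero_iff]
  refine (d_mul_eqv (sm_xi h hb) (sm_iYY h hb)).trans ?_
  have h1 := (Eqv.mul (resZero_iff.1 (cl_xi h hX hb hc)) (Eqv.refl (iV φ (YY φ b)))).add
    ((Eqv.refl (fun x => F.inv (xi φ b x))).mul (d_iYY h hX hb hc he h3))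
  refine h1.trans (Eqv.of_eq fun x hx => ?_)
  have hxi := xi_odd h hb he hx
  have hA := Av_even h hb he hx
  show 0 * _ + F.inv (xi φ b x) * (-((3 : ℝ) • (Av φ b x * Av φ b x * xi φ b x))) = 0
  rw [zero_mul, zero_add, hxi, neg_mul_neg, mul_smul_comm, ← mul_assoc, odd_odd_odd hxi, smul_zero]

end Crest.Agent.R208.VC
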