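import Crest.Agent.R208.VC4

/-! Row 208, block VC (helper997), part VC5: homotopies: natural primitives, invariant, horizontal
and vanishing where the loops are constant; the form
`vv = psi - r e^p ξ - s e^q Av ξ`. -/

set_option autoImplicit false
set_option linter.unusedSectionVars false
set_option linter.unusedVariables false

open MeasureTheory Set Filter Topology Module
open scoped ContDiff
open Crest.Agent.R208.F Crest.Agent.R208.FI Crest.Agent.R208.CW Crest.Agent.R208.T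
open Crest.Agent.R208.CM (Cir gen)

noncomputable section

namespace Crest.Agent.R208.VC

universe u v
variable {E : Type u} [NormedAddCommGroup E] [NormedSpace ℝ E] [FiniteDimensional ℝ E]
  {F' : Type v} [NormedAddCommGroup F'] [NormedSpace ℝ F'] [FiniteDimensional ℝ F']
  {m : ℕ} {X : Set E} {φ : ℝ → E → E} {a b : E → Ext E} {x : E} {I : Set ℝ} {t : ℝ}

/-! ### the product with an interval -/

/-- the action on `X × I` -/
def pr (φ : ℝ → E → E) (t : ℝ) (p : E × ℝ) : E × ℝ := (φ t p.1, p.2)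

theorem Act.pr (h : Act X φ) (I : Set ℝ) : Act (X ×ˢ I) (VC.pr φ) where
  smooth := fun t p hp => by
    have h1 : ContDiffAt ℝ ∞ (fun q : ℝ × (E × ℝ) => φ q.1 q.2.1) (t, p) :=
      ContDiffAt.comp (g := fun q : ℝ × E => φ q.1 q.2) (f := fun q : ℝ × (E × ℝ) => (q.1, q.2.1))
        (t, p) (h.smooth t p.1 hp.1) (by fun_prop)
    exact h1.prodMk (by fun_prop)
  maps := fun t p hp => ⟨h.maps t hp.1, hp.2⟩
  zero := fun p hp => Prod.ext (h.zero p.1 hp.1) rfl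
  add := fun s t p hp => Prod.ext (h.add s t p.1 hp.1) rfl
  per := fun p hp => Prod.ext (h.per p.1 hp.1) rfl

theorem gen_pr (h : Act X φ) (hx : x ∈ X) (t : ℝ) : gen (pr φ) (x, t) = (gen φ x, 0) := by
  have h1 := h.hasDerivAt hx 0
  rw [h.zero x hx] at h1
  exact (h1.prodMk (hasDerivAt_const (0 : ℝ) t)).deriv

theorem smap_at (ht : t ∈ I) : SMap X (X ×ˢ I) (fun y => (y, t)) :=
  ⟨fun _ _ => contDiffAt_id.prodMk contDiffAt_const, fun _ hy => ⟨hy, ht⟩⟩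

theorem smap_fst (X : Set E) (I : Set ℝ) : SMap (X ×ˢ I) X (fun p : E × ℝ => p.1) :=
  ⟨fun _ _ => contDiffAt_fst, fun _ hy => hy.1⟩

theorem sub_prod (hX : Sub m X) (hI : IsOpen I) : Sub (m + 1) (X ×ˢ I) :=
  hX.prod (sub_open (by simp) hI)

theorem mem_tan_time (hI : IsOpen I) (hx : x ∈ X) (ht : t ∈ I) :
    ((0 : E), (1 : ℝ)) ∈ Tan (X ×ˢ I) (x, t) := by
  have h1 : HasDerivAt (fun s : ℝ => (x, s)) ((0 : E), (1 : ℝ)) t :=
    (hasDerivAt_const t x).prodMk (hasDerivAt_id t)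
  exact mem_Tan_of_curve h1 (Filter.mem_of_superset (hI.mem_nhds ht) fun s hs => ⟨hx, hs⟩)

theorem mem_tan_space (ht : t ∈ I) {w : E} (hw : w ∈ Tan X x) :
    (w, (0 : ℝ)) ∈ Tan (X ×ˢ I) (x, t) := by
  have h0 : HasFDerivAt (fun y : E => (y, t)) (ContinuousLinearMap.inl ℝ E ℝ) x :=
    (hasFDerivAt_id x).prodMk (hasFDerivAt_const t x)
  have h1 := fderiv_mapsTo_Tan (Y := X ×ˢ I) (h := fun y : E => (y, t)) h0.differentiableAt
    (fun z hz => ⟨hz, ht⟩) hw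
  rw [h0.fderiv] at h1
  exact h1

/-- the inclusion of tangent spaces -/
def tin (X : Set E) (x : E) (ht : t ∈ I) : Tan X x →ₗ[ℝ] Tan (X ×ˢ I) (x, t) :=
  LinearMap.codRestrict _ ((LinearMap.inl ℝ E ℝ) ∘ₗ (Tan X x).subtype) fun w =>
    mem_tan_space ht w.2

theorem rs_hopL (hI : IsOpen I) (hx : x ∈ X) (ht : t ∈ I) (c : Ext (E × ℝ)) :
    rsL X x (hopL (ContinuousLinearMap.inl ℝ E ℝ) ((0, 1) : E × ℝ) c) =
      pb (tin X x ht) (ii ⟨_, mem_tan_time hI hx ht⟩ (rsL (X ×ˢ I) (x, t) c)) := by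
  rw [rsL_apply, rsL_apply, ← pb_ii_tan, pb_comp, hopL_apply, pb_comp]
  rfl

/-! ### the primitive -/

/-- the primitive `∫_0^1 ι_{∂t} Ψ dt` -/
def eta (Ψ : E × ℝ → Ext (E × ℝ)) : E → Ext E := Hop (fun p => p) Ψ

variable {Ψ : E × ℝ → Ext (E × ℝ)}

theorem eta_eq (x : E) : eta Ψ x =
    ∫ t in (0 : ℝ)..1, hopL (ContinuousLinearMap.inl ℝ E ℝ) ((0, 1) : E × ℝ) (Ψ (x, t)) := by
  rw [eta, Hop, hop, I1]
  refine intervalIntegral.integral_congr fun t _ => ?_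
  simp only [hopg, jv_inl]
  rw [F.pull_id]

theorem sm_eta (hI : Icc (0 : ℝ) 1 ⊆ I) (hΨ : Sm (X ×ˢ I) Ψ) : Sm X (eta Ψ) := fun x hx =>
  contDiffAt_Hop (fun t _ => contDiffAt_id) fun t ht => hΨ _ ⟨hx, hI ht⟩

/-- **the homotopy formula** -/
theorem d_eta (hI : Icc (0 : ℝ) 1 ⊆ I) (hΨ : Sm (X ×ˢ I) Ψ) (hc : Cl (X ×ˢ I) Ψ) :
    Eqv X (F.pull (fun y => (y, (1 : ℝ))) Ψ - F.pull (fun y => (y, (0 : ℝ))) Ψ) (F.d (eta Ψ)) := by
  have h1 := resZero_Hop (X := X) (Y := X ×ˢ I) (Fh := fun p : E × ℝ => p) (om := Ψ)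
    (fun _ _ _ _ => contDiffAt_id) (fun x hx t ht => ⟨hx, hI ht⟩)
    (fun y hy => (hΨ y hy).of_le (by exact_mod_cast le_top)) hc
  exact h1

theorem int_eta (hI : Icc (0 : ℝ) 1 ⊆ I) (hΨ : Sm (X ×ˢ I) Ψ) (hx : x ∈ X) :
    IntervalIntegrable (fun t => hopL (ContinuousLinearMap.inl ℝ E ℝ) ((0, 1) : E × ℝ) (Ψ (x, t)))
      volume 0 1 := by
  refine ContinuousOn.intervalIntegrable ?_
  rw [uIcc_of_le zero_le_one]
  intro t ht
  refine ContinuousAt.continuousWithinAt ?_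
  have h1 : ContinuousAt Ψ (x, t) := (hΨ _ ⟨hx, hI ht⟩).continuousAt
  have h2 : ContinuousAt (fun t : ℝ => Ψ (x, t)) t :=
    ContinuousAt.comp (g := Ψ) (f := fun t : ℝ => (x, t)) h1 (by fun_prop)
  exact (hopL (ContinuousLinearMap.inl ℝ E ℝ) ((0, 1) : E × ℝ)).continuous.continuousAt.comp h2

theorem clm_eta {K : Type*} [NormedAddCommGroup K] [NormedSpace ℝ K] [CompleteSpace K]
    (hI : Icc (0 : ℝ) 1 ⊆ I) (hΨ : Sm (X ×ˢ I) Ψ) (hx : x ∈ X) (L : Ext E →L[ℝ] K) :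
    L (eta Ψ x) = ∫ t in (0 : ℝ)..1,
      L (hopL (ContinuousLinearMap.inl ℝ E ℝ) ((0, 1) : E × ℝ) (Ψ (x, t))) := by
  rw [eta_eq]
  exact (L.intervalIntegral_comp_comm (int_eta hI hΨ hx)).symm

theorem integral_congr_Icc {K : Type*} [NormedAddCommGroup K] [NormedSpace ℝ K] {f g : ℝ → K}
    (h : ∀ t ∈ Icc (0 : ℝ) 1, f t = g t) : ∫ t in (0 : ℝ)..1, f t = ∫ t in (0 : ℝ)..1, g t := by
  refine intervalIntegral.integral_congr ?_
  rw [uIcc_of_le zero_le_one]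
  exact h

/-- the primitive only depends on the restriction -/
theorem rs_eta_congr {Ψ' : E × ℝ → Ext (E × ℝ)} (hIo : IsOpen I) (hI : Icc (0 : ℝ) 1 ⊆ I)
    (hΨ : Sm (X ×ˢ I) Ψ) (hΨ' : Sm (X ×ˢ I) Ψ') (hx : x ∈ X)
    (he : ∀ t ∈ Icc (0 : ℝ) 1, rsL (X ×ˢ I) (x, t) (Ψ (x, t)) = rsL (X ×ˢ I) (x, t) (Ψ' (x, t))) :
    rsL X x (eta Ψ x) = rsL X x (eta Ψ' x) := by
  rw [clm_eta hI hΨ hx, clm_eta hI hΨ' hx]
  refine integral_congr_Icc fun t ht => ?_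
  rw [rs_hopL hIo hx (hI ht), rs_hopL hIo hx (hI ht), he t ht]

theorem eqv_eta {Ψ' : E × ℝ → Ext (E × ℝ)} (hIo : IsOpen I) (hI : Icc (0 : ℝ) 1 ⊆ I)
    (hΨ : Sm (X ×ˢ I) Ψ) (hΨ' : Sm (X ×ˢ I) Ψ') (he : Eqv (X ×ˢ I) Ψ Ψ') :
    Eqv X (eta Ψ) (eta Ψ') := eqv_iff.2 fun x hx =>
  rs_eta_congr hIo hI hΨ hΨ' hx fun t ht => eqv_iff.1 he (x, t) ⟨hx, hI ht⟩

theorem rs_eta_eq_zero (hIo : IsOpen I) (hI : Icc (0 : ℝ) 1 ⊆ I) (hΨ : Sm (X ×ˢ I) Ψ) (hx : x ∈ X)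
    (h0 : ∀ t ∈ Icc (0 : ℝ) 1, rsL (X ×ˢ I) (x, t) (Ψ (x, t)) = 0) : rsL X x (eta Ψ x) = 0 := by
  rw [clm_eta hI hΨ hx]
  have : ∀ t ∈ Icc (0 : ℝ) 1, rsL X x (hopL (ContinuousLinearMap.inl ℝ E ℝ) ((0, 1) : E × ℝ)
      (Ψ (x, t))) = 0 := fun t ht => by
    rw [rs_hopL hIo hx (hI ht), h0 t ht, map_zero, map_zero]
  rw [integral_congr_Icc (g := fun _ => 0) this]
  simp

/-- **naturality of the primitive** -/
theorem nat_eta {X' : Set F'} {g : F' → E} (hI : Icc (0 : ℝ) 1 ⊆ I) (hΨ : Sm (X ×ˢ I) Ψ)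
    (hg : SMap X' X g) {y : F'} (hy : y ∈ X') :
    F.pull g (eta Ψ) y = eta (F.pull (fun p : F' × ℝ => (g p.1, p.2)) Ψ) y := by
  have h0 := clm_eta hI hΨ (hg.maps hy) (pbL (fderiv ℝ g y))
  rw [F.pull, ← pbL_apply, h0, eta_eq]
  refine intervalIntegral.integral_congr fun t _ => ?_
  have h1 : HasFDerivAt (fun p : F' × ℝ => (g p.1, p.2))
      ((fderiv ℝ g y).prodMap (ContinuousLinearMap.id ℝ ℝ)) (y, t) :=
    HasFDerivAt.prodMap (y, t) (hg.diff hy).hasFDerivAt (hasFDerivAt_id t)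
  simp only [pbL_apply, hopL_apply, F.pull]
  rw [h1.fderiv, ii_pb, pb_comp, pb_comp]
  have h2 : (((fderiv ℝ g y).prodMap (ContinuousLinearMap.id ℝ ℝ) : F' × ℝ →L[ℝ] E × ℝ) :
      F' × ℝ →ₗ[ℝ] E × ℝ) (0, 1) = (0, 1) := by
    show (fderiv ℝ g y 0, (1 : ℝ)) = (0, 1)
    rw [map_zero]
  have h3 : ((ContinuousLinearMap.inl ℝ E ℝ : E →L[ℝ] E × ℝ) : E →ₗ[ℝ] E × ℝ) ∘ₗ
      ((fderiv ℝ g y : F' →L[ℝ] E) : F' →ₗ[ℝ] E) =
      (((fderiv ℝ g y).prodMap (ContinuousLinearMap.id ℝ ℝ) : F' × ℝ →L[ℝ] E × ℝ) :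
      F' × ℝ →ₗ[ℝ] E × ℝ) ∘ₗ
      ((ContinuousLinearMap.inl ℝ F' ℝ : F' →L[ℝ] F' × ℝ) : F' →ₗ[ℝ] F' × ℝ) := by
    ext w <;> simp
  rw [h2, h3]

theorem smap_pr (h : Act X φ) (t : ℝ) : SMap (X ×ˢ I) (X ×ˢ I) (pr φ t) := smap (h.pr I) t

theorem inv_eta (h : Act X φ) (hIo : IsOpen I) (hI : Icc (0 : ℝ) 1 ⊆ I) (hΨ : Sm (X ×ˢ I) Ψ)
    (hi : Inv (X ×ˢ I) (pr φ) Ψ) : Inv X φ (eta Ψ) := fun t =>
  (Eqv.of_eq fun y hy => nat_eta hI hΨ (smap h t) hy).trans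
    (eqv_eta hIo hI (hΨ.pull (smap_pr h t)) hΨ (hi t))

theorem tin_tg (h : Act X φ) (hx : x ∈ X) (ht : t ∈ I) :
    tin X x ht (tg h hx) = tg (h.pr I) (x := (x, t)) ⟨hx, ht⟩ :=
  Subtype.ext (gen_pr h hx t).symm

theorem hz_eta (h : Act X φ) (hIo : IsOpen I) (hI : Icc (0 : ℝ) 1 ⊆ I) (hΨ : Sm (X ×ˢ I) Ψ)
    (hz : Hz (X ×ˢ I) (pr φ) Ψ) : Hz X φ (eta Ψ) := by
  rw [hz_iff h]
  intro x hx
  have h0 := clm_eta hI hΨ hx ((iiL (tg h hx)).comp (rsL X x))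
  rw [ContinuousLinearMap.comp_apply, iiL_apply] at h0
  rw [h0]
  have : ∀ t ∈ Icc (0 : ℝ) 1, ((iiL (tg h hx)).comp (rsL X x))
      (hopL (ContinuousLinearMap.inl ℝ E ℝ) ((0, 1) : E × ℝ) (Ψ (x, t))) = 0 := fun t ht => by
    rw [ContinuousLinearMap.comp_apply, iiL_apply, rs_hopL hIo hx (hI ht), ii_pb, tin_tg h hx,
      ii_comm, (hz_iff (h.pr I)).1 hz (x, t) ⟨hx, hI ht⟩, map_zero, neg_zero, map_zero]
  rw [integral_congr_Icc (g := fun _ => 0) this]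
  simp

/-! ### data -/

/-- the hypotheses on the 8-form -/
structure Dat (X : Set E) (b : E → Ext E) : Prop where
  sm : Sm X b
  cl : Cl X b
  ev : ∀ x ∈ X, F.inv (b x) = b x
  cube : Eqv X (b * b * b) 0

theorem Dat.pull {Y : Set F'} {f : E → F'} {w : F' → Ext F'} (hf : SMap X Y f) (h : Dat Y w) :
    Dat X (F.pull f w) where
  sm := h.sm.pull hf
  cl := Cl.pull hf h.sm h.cl
  ev := fun x hx => by rw [F.pull, ← pb_inv, h.ev _ (hf.maps hx)]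
  cube := by
    have := h.cube.pull hf
    rwa [pull_mul', pull_mul', pull_zero'] at this

theorem Dat.mono {X' : Set E} (hs : X' ⊆ X) (h : Dat X b) : Dat X' b :=
  ⟨h.sm.mono hs, h.cl.mono hs, fun x hx => h.ev x (hs hx), h.cube.mono_tan hs⟩

/-- basic closed even forms -/
structure Bas (X : Set E) (φ : ℝ → E → E) (e : E → Ext E) : Prop where
  sm : Sm X e
  cl : Cl X e
  ev : ∀ x ∈ X, F.inv (e x) = e x
  inv : Inv X φ e
  hz : Hz X φ e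

variable {e : E → Ext E}

theorem Hz.pull {X' : Set F'} {φ' : ℝ → F' → F'} {g : F' → E} (h : Act X φ) (h' : Act X' φ')
    (hg : SMap X' X g) (heq : ∀ t, ∀ y ∈ X', g (φ' t y) = φ t (g y)) (ha : Hz X φ a) :
    Hz X' φ' (F.pull g a) := by
  rw [hz_iff h']
  intro y hy
  rw [pb_dr, ii_pb, dr_gen h h' hg heq hy]
  have h1 := eqv_iff.1 ha (g y) (hg.maps hy)
  rw [Pi.zero_apply, map_zero] at h1
  have h2 := pb_pull_eq_zero (X := X') (hg.diff hy) hg.maps h1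
  rw [pb_comp] at h2
  exact h2

theorem Inv.pull {X' : Set F'} {φ' : ℝ → F' → F'} {g : F' → E} (h : Act X φ) (h' : Act X' φ')
    (hg : SMap X' X g) (heq : ∀ t, ∀ y ∈ X', g (φ' t y) = φ t (g y)) (ha : Inv X φ a) :
    Inv X' φ' (F.pull g a) := by
  intro t
  refine eqv_iff.2 fun y hy => ?_
  have h2 : F.pull g (F.pull (φ t) a) y = F.pull (fun z => φ t (g z)) a y :=
    F.pull_comp (hg.diff hy) ((smap h _).diff (hg.maps hy))
  have h3 : F.pull (φ' t) (F.pull g a) y = F.pull (fun z => g (φ' t z)) a y :=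
    F.pull_comp ((smap h' _).diff hy) (hg.diff (h'.maps _ hy))
  have h4 := eqv_iff.1 ((ha t).pull hg) y hy
  rw [h2] at h4
  rw [h3, ← h4]
  exact Eqv.pull_congr ((hg.comp (smap h' _)).diff hy) (((smap h _).comp hg).diff hy) hy
    fun z hz => heq _ z hz

theorem Bas.pull {X' : Set F'} {φ' : ℝ → F' → F'} {g : F' → E} (h : Act X φ) (h' : Act X' φ')
    (hg : SMap X' X g) (heq : ∀ t, ∀ y ∈ X', g (φ' t y) = φ t (g y)) (he : Bas X φ e) :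
    Bas X' φ' (F.pull g e) where
  sm := he.sm.pull hg
  cl := Cl.pull hg he.sm he.cl
  ev := fun x hx => by rw [F.pull, ← pb_inv, he.ev _ (hg.maps hx)]
  inv := Inv.pull h h' hg heq he.inv
  hz := Hz.pull h h' hg heq he.hz

theorem Bas.one : Bas X φ 1 where
  sm := fun _ _ => contDiffAt_const
  cl := Cl.const 1
  ev := fun x _ => map_one _
  inv := fun t => Eqv.of_eq fun y _ => map_one _
  hz := Eqv.of_eq fun y _ => ii_one _

theorem Bas.mul {e' : E → Ext E} (he : Bas X φ e) (he' : Bas X φ e') : Bas X φ (e * e') where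
  sm := he.sm.mul he'.sm
  cl := Cl.mul he.sm he'.sm he.cl he'.cl
  ev := fun x hx => by rw [Pi.mul_apply, map_mul, he.ev x hx, he'.ev x hx]
  inv := he.inv.mul he'.inv
  hz := he.hz.mul he'.hz

theorem Bas.pow (he : Bas X φ e) (n : ℕ) : Bas X φ (e ^ n) := by
  induction n with
  | zero => rw [pow_zero]; exact Bas.one
  | succ n ih => rw [pow_succ]; exact ih.mul he

theorem pull_pow' {f : E → F'} (w : F' → Ext F') (n : ℕ) : F.pull f (w ^ n) = F.pull f w ^ n :=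
  funext fun x => map_pow (pb _) _ _

/-! ### the form `vv` -/

/-- `psi - r e^p ξ - s e^q Av ξ` -/
def vv (φ : ℝ → E → E) (e : E → Ext E) (p q : ℕ) (r s : ℝ) (b : E → Ext E) : E → Ext E :=
  psi φ b - r • (e ^ p * xi φ b) - s • (e ^ q * (Av φ b * xi φ b))

variable {p q : ℕ} {r s : ℝ}

theorem sm_vv (h : Act X φ) (he : Bas X φ e) (hb : Dat X b) : Sm X (vv φ e p q r s b) :=
  ((sm_psi h hb.sm).sub (((he.pow p).sm.mul (sm_xi h hb.sm)).smul r)).sub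
    (((he.pow q).sm.mul ((sm_Av h hb.sm).mul (sm_xi h hb.sm))).smul s)

theorem cl_vv (h : Act X φ) (hX : Sub m X) (he : Bas X φ e) (hb : Dat X b) :
    Cl X (vv φ e p q r s b) := by
  have h1 := (he.pow p).sm.mul (sm_xi h hb.sm)
  have h2 := (he.pow q).sm.mul ((sm_Av h hb.sm).mul (sm_xi h hb.sm))
  refine Cl.sub ((sm_psi h hb.sm).sub (h1.smul r)) (h2.smul s) (Cl.sub (sm_psi h hb.sm)
    (h1.smul r) (cl_psi h hX hb.sm hb.cl hb.ev hb.cube) (Cl.smul r h1 ?_)) (Cl.smul s h2 ?_)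
  · exact Cl.mul (he.pow p).sm (sm_xi h hb.sm) (he.pow p).cl (cl_xi h hX hb.sm hb.cl)
  · exact Cl.mul (he.pow q).sm ((sm_Av h hb.sm).mul (sm_xi h hb.sm)) (he.pow q).cl
      (cl_Av_xi h hX hb.sm hb.cl)

theorem inv_vv (h : Act X φ) (he : Bas X φ e) (hb : Dat X b) : Inv X φ (vv φ e p q r s b) :=
  ((inv_psi h hb.sm).sub (((he.pow p).inv.mul (inv_xi h hb.sm)).smul r)).sub
    (((he.pow q).inv.mul ((inv_Av h hb.sm).mul (inv_xi h hb.sm))).smul s)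

theorem hz_vv (h : Act X φ) (he : Bas X φ e) (hb : Dat X b) : Hz X φ (vv φ e p q r s b) :=
  ((hz_psi φ b).sub (((he.pow p).hz.mul (hz_xi φ b)).smul r)).sub
    (((he.pow q).hz.mul (hz_Av_xi h hb.sm hb.ev)).smul s)

theorem nat_vv {X' : Set F'} {φ' : ℝ → F' → F'} {g : F' → E} (h : Act X φ) (h' : Act X' φ')
    (hg : SMap X' X g) (heq : ∀ t, ∀ y ∈ X', g (φ' t y) = φ t (g y)) (hb : Sm X b) :
    Eqv X' (F.pull g (vv φ e p q r s b)) (vv φ' (F.pull g e) p q r s (F.pull g b)) := by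
  rw [vv, pull_sub', pull_sub', pull_smul', pull_smul', pull_mul', pull_mul', pull_mul', pull_pow',
    pull_pow', vv]
  exact ((nat_psi h h' hg heq hb).sub (((Eqv.refl _).mul (nat_xi h h' hg heq hb)).smul r)).sub
    (((Eqv.refl _).mul ((nat_Av h h' hg heq hb).mul (nat_xi h h' hg heq hb))).smul s)

theorem eqv_vv {e' : E → Ext E} (h : Act X φ) (ha : Sm X a) (hb : Sm X b) (hab : Eqv X a b)
    (hee : Eqv X e e') : Eqv X (vv φ e p q r s a) (vv φ e' p q r s b) := by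
  have hpow : ∀ n : ℕ, Eqv X (e ^ n) (e' ^ n) := fun n => by
    induction n with
    | zero => rw [pow_zero, pow_zero]; exact Eqv.refl _
    | succ n ih => rw [pow_succ, pow_succ]; exact ih.mul hee
  exact ((eqv_psi h ha hb hab).sub (((hpow p).mul (eqv_xi h ha hb hab)).smul r)).sub
    (((hpow q).mul ((eqv_Av h ha hb hab).mul (eqv_xi h ha hb hab))).smul s)

theorem rs_vv_eq_zero (h : Act X φ) (hb : Sm X b) (hx : x ∈ X)
    (h0 : ∀ s, ii (tg h hx) (cv X φ b x s) = 0) : rsL X x (vv φ e p q r s b x) = 0 := by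
  have h1 := rs_xi_eq_zero h hb hx h0
  have h2 := rs_psi_eq_zero h hb hx h0
  rw [rsL_apply] at h1 h2 ⊢
  rw [vv, Pi.sub_apply, Pi.sub_apply, Pi.smul_apply, Pi.smul_apply, Pi.mul_apply, Pi.mul_apply,
    Pi.mul_apply, map_sub, map_sub, map_smul, map_smul, map_mul, map_mul, map_mul, h1, h2,
    mul_zero, mul_zero, mul_zero, smul_zero, smul_zero, sub_zero, sub_zero]

/-- **doubling** -/
theorem vv_dbl (h : Act X φ) (hb : Dat X b) :
    Eqv X (vv (dbl φ) ((1 / 2 : ℝ) • e) p q r s b)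
      ((4 : ℝ) • psi φ b - (r * 2 * (1 / 2) ^ p) • (e ^ p * xi φ b) -
        (s * 2 * (1 / 2) ^ q) • (e ^ q * (Av φ b * xi φ b))) := by
  rw [vv]
  have h1 := psi_dbl h hb.sm hb.ev
  have h2 := xi_dbl h hb.sm
  have h3 := Av_dbl h hb.sm
  refine ((h1.sub (((Eqv.refl _).mul h2).smul r)).sub
    (((Eqv.refl _).mul (h3.mul h2)).smul s)).trans (Eqv.of_eq fun x hx => ?_)
  have e1 : (((1 / 2 : ℝ) • e) ^ p) x = ((1 / 2 : ℝ) ^ p) • (e ^ p) x := by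
    rw [smul_pow]; rfl
  have e2 : (((1 / 2 : ℝ) • e) ^ q) x = ((1 / 2 : ℝ) ^ q) • (e ^ q) x := by
    rw [smul_pow]; rfl
  simp only [Pi.sub_apply, Pi.smul_apply, Pi.mul_apply, e1, e2, smul_mul_assoc, mul_smul_comm,
    smul_smul]

/-! ### homotopies -/

theorem Bas.pr (h : Act X φ) (he : Bas X φ e) (I : Set ℝ) :
    Bas (X ×ˢ I) (VC.pr φ) (F.pull (fun p : E × ℝ => p.1) e) :=
  he.pull h (h.pr I) (smap_fst X I) fun t y hy => rfl

theorem pull_at_fst (e : E → Ext E) (t : ℝ) :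
    F.pull (fun y : E => (y, t)) (F.pull (fun p : E × ℝ => p.1) e) = e := by
  funext y
  have h1 : DifferentiableAt ℝ (fun y : E => (y, t)) y := by fun_prop
  have h2 : DifferentiableAt ℝ (fun p : E × ℝ => p.1) (y, t) := by fun_prop
  rw [F.pull_comp h1 h2]
  exact F.pull_id e y

/-- **homotopy theorem for `vv`** -/
theorem hom_vv (h : Act X φ) (hX : Sub m X) (hIo : IsOpen I) (hI : Icc (0 : ℝ) 1 ⊆ I)
    (he : Bas X φ e) {B : E × ℝ → Ext (E × ℝ)} (hB : Dat (X ×ˢ I) B) :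
    Eqv X (vv φ e p q r s (F.pull (fun y => (y, (1 : ℝ))) B) -
      vv φ e p q r s (F.pull (fun y => (y, (0 : ℝ))) B))
      (F.d (eta (vv (pr φ) (F.pull (fun p : E × ℝ => p.1) e) p q r s B))) := by
  have h1 : ∀ t ∈ I, Eqv X (F.pull (fun y => (y, t)) (vv (pr φ) (F.pull (fun p : E × ℝ => p.1) e)
      p q r s B)) (vv φ e p q r s (F.pull (fun y => (y, t)) B)) := fun t ht => by
    have := nat_vv (X' := X) (φ' := φ) (e := F.pull (fun p : E × ℝ => p.1) e) (p := p) (q := q)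
      (r := r) (s := s) (h.pr I) h (smap_at ht) (fun t y hy => rfl) hB.sm
    rwa [pull_at_fst] at this
  refine (Eqv.sub (h1 1 (hI (right_mem_Icc.2 zero_le_one)))
    (h1 0 (hI (left_mem_Icc.2 zero_le_one)))).symm.trans ?_
  exact d_eta hI (sm_vv (h.pr I) (he.pr h I) hB)
    (cl_vv (h.pr I) (sub_prod hX hIo) (he.pr h I) hB)

theorem sm_hom (h : Act X φ) (hI : Icc (0 : ℝ) 1 ⊆ I)
    (he : Bas X φ e) {B : E × ℝ → Ext (E × ℝ)} (hB : Dat (X ×ˢ I) B) :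
    Sm X (eta (vv (pr φ) (F.pull (fun p : E × ℝ => p.1) e) p q r s B)) :=
  sm_eta hI (sm_vv (h.pr I) (he.pr h I) hB)

theorem inv_hom (h : Act X φ) (hIo : IsOpen I) (hI : Icc (0 : ℝ) 1 ⊆ I)
    (he : Bas X φ e) {B : E × ℝ → Ext (E × ℝ)} (hB : Dat (X ×ˢ I) B) :
    Inv X φ (eta (vv (pr φ) (F.pull (fun p : E × ℝ => p.1) e) p q r s B)) :=
  inv_eta h hIo hI (sm_vv (h.pr I) (he.pr h I) hB) (inv_vv (h.pr I) (he.pr h I) hB)

theorem hz_hom (h : Act X φ) (hIo : IsOpen I) (hI : Icc (0 : ℝ) 1 ⊆ I)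
    (he : Bas X φ e) {B : E × ℝ → Ext (E × ℝ)} (hB : Dat (X ×ˢ I) B) :
    Hz X φ (eta (vv (pr φ) (F.pull (fun p : E × ℝ => p.1) e) p q r s B)) :=
  hz_eta h hIo hI (sm_vv (h.pr I) (he.pr h I) hB) (hz_vv (h.pr I) (he.pr h I) hB)

/-- the primitive vanishes where the homotopy consists of constant loops -/
theorem rs_hom_eq_zero (h : Act X φ) (hIo : IsOpen I) (hI : Icc (0 : ℝ) 1 ⊆ I)
    (he : Bas X φ e) {B : E × ℝ → Ext (E × ℝ)} (hB : Dat (X ×ˢ I) B) (hx : x ∈ X)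
    (h0 : ∀ t (ht : t ∈ Icc (0 : ℝ) 1), ∀ s,
      ii (tg (h.pr I) (x := (x, t)) ⟨hx, hI ht⟩) (cv (X ×ˢ I) (pr φ) B (x, t) s) = 0) :
    rsL X x (eta (vv (pr φ) (F.pull (fun p : E × ℝ => p.1) e) p q r s B) x) = 0 :=
  rs_eta_eq_zero hIo hI (sm_vv (h.pr I) (he.pr h I) hB) hx fun t ht =>
    rs_vv_eq_zero (h.pr I) hB.sm ⟨hx, hI ht⟩ (h0 t ht)

/-- the case `B = Fh^* w`: constant loops `t ↦ Fh (φ_t x, r)`, `r ∈ [0,1]` -/
theorem rs_hom_pull_eq_zero (h : Act X φ) (hIo : IsOpen I) (hI : Icc (0 : ℝ) 1 ⊆ I)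
    (he : Bas X φ e) {Y : Set F'} {Fh : E × ℝ → F'} {w : F' → Ext F'} (hF : SMap (X ×ˢ I) Y Fh)
    (hw : Dat Y w) (hx : x ∈ X)
    (h0 : ∀ t ∈ Icc (0 : ℝ) 1, ∀ r, Fh (φ r x, t) = Fh (x, t)) :
    rsL X x (eta (vv (pr φ) (F.pull (fun p : E × ℝ => p.1) e) p q r s (F.pull Fh w)) x) = 0 :=
  rs_hom_eq_zero h hIo hI he (hw.pull hF) hx fun t ht =>
    ii_cv_pull (h.pr I) _ (fun r => hF.diff ⟨h.maps r hx, hI ht⟩) fun r => h0 t ht r

end Crest.Agent.R208.VC
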