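import Crest.Agent.R208.VE10
import Crest.Agent.R208.TP6
import Crest.Agent.R208.EA3

/-! Row 208, block VE (helper812).  VE11: homogeneous versions. -/

set_option autoImplicit false
set_option linter.unusedSectionVars false
set_option linter.unusedVariables false

open MeasureTheory Set Filter Topology Module
open scoped ContDiff
open Crest.Agent.R208.F Crest.Agent.R208.FI Crest.Agent.R208.CW Crest.Agent.R208.T
open Crest.Agent.R208.CM (Cir gen Rep Triv phR Th)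
open Crest.Agent.R208.VC
open Crest.Agent.R208.EX (Cn)
open Crest.Agent.R208.TP (QM)

noncomputable section

namespace Crest.Agent.R208.VE

section gen
variable {E : Type*} [NormedAddCommGroup E] [NormedSpace ℝ E] [FiniteDimensional ℝ E]
  {X : Set E} {φ : ℝ → E → E} {a b θ e : E → Ext E} {j : ℕ}

theorem Hom.ev (h : Hom j a) (hj : Even j) : Ev a := fun x => by
  rw [inv_deg (h x), hj.neg_one_pow, one_smul]

theorem Hom.od (h : Hom j a) (hj : Odd j) : Od a := fun x => by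
  rw [inv_deg (h x), hj.neg_one_pow, neg_one_smul]

theorem hom_aH (hθ : Hom 1 θ) (hb : Hom (j + 2) b) : Hom (j + 2) (aH φ θ b) := by
  have h1 := hθ.mul (EA.hom_xi (φ := φ) (k := j + 1) hb)
  rw [show 1 + (j + 1) = j + 2 by ring] at h1
  exact (EA.hom_Av hb).sub h1

theorem hom_Qf (hb : Hom (j + 2) b) : Hom (3 * j + 4) (Qf φ b) := fun x => by
  have h1 := EA.hom_YY (φ := φ) (k := j + 1) hb x
  rw [show j + 1 + 1 + (j + 1 + 1) + (j + 1) = 3 * j + 4 + 1 by ring] at h1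
  exact IsDeg.ii h1 _

theorem dp_eqv (h : Eqv X a b) (hb : Hom j b) : Eqv X (dp j a) b := by
  have := Eqv.dp j h
  rwa [hb.dp_eq] at this

end gen

section rx
variable {E H : Type*} [NormedAddCommGroup E] [NormedSpace ℝ E] [FiniteDimensional ℝ E]
  [NormedAddCommGroup H] [InnerProductSpace ℝ H] [FiniteDimensional ℝ H]
  {w : E × H → Ext (E × H)} {j : ℕ}

theorem hom_rx (h : Hom j w) : Hom j (rx w) := fun z => by
  have h1 : IsDeg j (F.pull rh w z) := (h (rh z)).pb _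
  rw [rx]
  exact h1.smul _

end rx

section main
variable {E E' W V F' : Type} [NormedAddCommGroup E] [NormedSpace ℝ E] [FiniteDimensional ℝ E]
  [NormedAddCommGroup E'] [NormedSpace ℝ E'] [FiniteDimensional ℝ E']
  [NormedAddCommGroup W] [InnerProductSpace ℝ W] [FiniteDimensional ℝ W]
  [NormedAddCommGroup V] [InnerProductSpace ℝ V] [FiniteDimensional ℝ V]
  [NormedAddCommGroup F'] [NormedSpace ℝ F'] [FiniteDimensional ℝ F']
  {X : Set E} {Y : Set E'} {φ : ℝ → E → E} {q : E → E'} {R : ℝ → W →L[ℝ] W}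
  {T : E → W →L[ℝ] V} {P : E → W →L[ℝ] W} {P' : E' → V →L[ℝ] V} {r d d' j : ℕ} {S : Set F'}
  {om : F' → Ext F'} {θ0 : E → Ext E} {e p3 : E' → Ext E'} {f1 : E × W → F'} {ρ R₀ R₁ c w₀ : ℝ}
  {ξ a Q τ' w Ψ : E' × V → Ext (E' × V)}

theorem Dn.hom (h : St X Y φ q R T P P' r d d' S om θ0 e f1 ρ)
    (D : Dn X φ q R T P om θ0 f1 ξ a Q) (hb : Hom (j + 2) om) (hj : Even j) :
    Dn X φ q R T P om θ0 f1 (dp (j + 1) ξ) (dp (j + 2) a) (dp (3 * j + 4) Q) where
  sx := TP.contDiff_dp _ D.sx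
  sa := TP.contDiff_dp _ D.sa
  sQ := TP.contDiff_dp _ D.sQ
  ox := Hom.od (hom_dp _ _) hj.add_one
  ea := Hom.ev (hom_dp _ _) (by
    obtain ⟨k, hk⟩ := hj; exact ⟨k + 1, by omega⟩)
  px := by
    rw [← dp_pull]
    exact dp_eqv D.px (EA.hom_xi (k := j + 1) hb.pull)
  pa := by
    rw [← dp_pull]
    exact dp_eqv D.pa (hom_aH h.cn.hom.pull hb.pull)
  pQ := by
    rw [← dp_pull]
    exact dp_eqv D.pQ (hom_Qf hb.pull)

theorem St.exists_Dn_hom (h : St X Y φ q R T P P' r d d' S om θ0 e f1 ρ)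
    (hb : Hom (j + 2) om) (hj : Even j) :
    ∃ ξ a Q : E' × V → Ext (E' × V), Dn X φ q R T P om θ0 f1 ξ a Q ∧ Hom (j + 1) ξ ∧
      Hom (j + 2) a ∧ Hom (3 * j + 4) Q := by
  obtain ⟨ξ, a, Q, D⟩ := h.exists_Dn
  exact ⟨_, _, _, D.hom h hb hj, hom_dp _ _, hom_dp _ _, hom_dp _ _⟩

variable [MeasurableSpace V] [BorelSpace V] (μ : Measure V) [μ.IsAddHaarMeasure]

theorem Inp.hom {μ : Measure V} (I : Inp μ d' r Y P' τ' R₁ R₀ e p3 w ξ a Q Ψ c w₀)
    (hx : Hom (j + 1) ξ) (hw : Hom j w) (hj : Even j) :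
    Inp μ d' r Y P' τ' R₁ R₀ e p3 w ξ a Q (dp j Ψ) c w₀ :=
  { I with
    sΨ := T.Sm.dp j I.sΨ
    eΨ := Hom.ev (hom_dp _ _) hj
    dΨ := by
      have h1 := Eqv.dp (j + 1) I.dΨ
      rw [hx.dp_eq] at h1
      exact h1.trans (Eqv.of_eq fun z hz => dp_d j (I.sΨ.diff hz))
    out := by
      have h1 := Eqv.dp j I.out
      rwa [((hom_rx hw).smul c).dp_eq] at h1 }

theorem Inp.hom_x0 {μ : Measure V} (I : Inp μ d' r Y P' τ' R₁ R₀ e p3 w ξ a Q Ψ c w₀)
    (ha : Hom (j + 2) a) (hΨ : Hom j Ψ) (he : Hom 2 e) : Hom (j + 2) I.x0 := by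
  have h1 : Hom (2 + j) (pf e * Ψ : E' × V → Ext (E' × V)) := Hom.mul he.pull hΨ
  rw [add_comm] at h1
  exact (ha.add h1).pull

end main

end Crest.Agent.R208.VE
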