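import Crest.Agent.R208.VE11

/-! Row 208, block VE (helper812).  VE12: the outputs over the quotient: fibre integrals of the forms
`vv`, the class of the family on the far sphere bundle, the restriction of `x₀`. -/

set_option autoImplicit false
set_option linter.unusedSectionVars false
set_option linter.unusedVariables false

open MeasureTheory Set Filter Topology Module
open scoped ContDiff
open Crest.Agent.R208.F Crest.Agent.R208.FI Crest.Agent.R208.CW Crest.Agent.R208.T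
open Crest.Agent.R208.CM (Cir gen Rep Triv phR Th)
open Crest.Agent.R208.VC
open Crest.Agent.R208.EX (Cn)
open Crest.Agent.R208.TP (QM)

noncomputable section

namespace Crest.Agent.R208.VE

section sc
variable {E H : Type*} [NormedAddCommGroup E] [NormedSpace ℝ E] [FiniteDimensional ℝ E]
  [NormedAddCommGroup H] [InnerProductSpace ℝ H] [FiniteDimensional ℝ H]
  {X : Set E} {P : E → H →L[ℝ] H} {ρ t : ℝ}

/-- scaling of the fibres -/
def sc (t : ℝ) (z : E × H) : E × H := (z.1, t • z.2)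

theorem smap_sc (ht : 0 < t) (h : ρ < t) :
    SMap (Sph X P) (Tot X P ∩ {z | ρ < ‖z.2‖}) (sc (E := E) (H := H) t) := by
  refine ⟨fun z _ => contDiffAt_fst.prodMk (contDiffAt_snd.const_smul t), fun z hz =>
    ⟨⟨hz.1.1, ?_⟩, ?_⟩⟩
  · change P z.1 (t • z.2) = t • z.2
    rw [map_smul, hz.1.2]
  · change ρ < ‖t • z.2‖
    have h1 : ‖z.2‖ = 1 := hz.2
    rw [norm_smul, h1, mul_one, Real.norm_of_nonneg ht.le]
    exact h

theorem smap_sc' (t : ℝ) : SMap (Sph X P) (Tot X P) (sc (E := E) (H := H) t) := by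
  refine ⟨fun z _ => contDiffAt_fst.prodMk (contDiffAt_snd.const_smul t), fun z hz =>
    ⟨hz.1.1, ?_⟩⟩
  change P z.1 (t • z.2) = t • z.2
  rw [map_smul, hz.1.2]

theorem rh_sc (ht : 0 < t) {z : E × H} (hz : z ∈ Sph X P) : rh (sc t z) = z := by
  have h1 : ‖z.2‖ = 1 := hz.2
  change (z.1, ‖t • z.2‖⁻¹ • (t • z.2)) = z
  rw [norm_smul, h1, mul_one, Real.norm_of_nonneg ht.le, smul_smul, inv_mul_cancel₀ ht.ne',
    one_smul]

/-- restriction of a radial extension to a far sphere bundle -/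
theorem pull_sc_rx (w : E × H → Ext (E × H)) (ht : 1 < t) :
    Eqv (Sph X P) (F.pull (sc t) (rx w)) w := by
  have ht0 : 0 < t := zero_lt_one.trans ht
  have h1 : Eqv (Sph X P) (F.pull (sc t) (rx w)) (F.pull (sc t) (F.pull rh w)) :=
    Eqv.pull (smap_sc ht0 ht) (eqv_rx w)
  refine h1.trans ((eqv_pull_pull (smap_sc ht0 ht) smap_rh' (SMap.id (Sph X P)) (fun z hz =>
    rh_sc ht0 hz) w).trans (Eqv.of_eq fun z _ => F.pull_id w z))

/-- far out on the total space, restriction to the sphere bundle of radius `t` -/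
theorem pull_sc_out {w Ψ : E × H → Ext (E × H)} {c R : ℝ} (hR : 1 ≤ R) (ht : R < t)
    (h : Eqv (Tot X P ∩ {z | R < ‖z.2‖}) Ψ (c • rx w)) :
    Eqv (Sph X P) (F.pull (sc t) Ψ) (c • w) := by
  have ht1 : 1 < t := lt_of_le_of_lt hR ht
  have h1 := Eqv.pull (smap_sc (X := X) (P := P) (zero_lt_one.trans ht1) ht) h
  rw [pull_smul'] at h1
  exact h1.trans ((pull_sc_rx w ht1).smul c)

/-- the pull-back of a form of the base -/
theorem pull_sc_pf (β : E → Ext E) (t : ℝ) :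
    Eqv (Sph X P) (F.pull (sc t) (pf β : E × H → Ext (E × H))) (pf β) :=
  eqv_pull_pull (smap_sc' t) smap_fst' smap_fstS (fun _ _ => rfl) β

end sc

section inp
variable {E H : Type} [NormedAddCommGroup E] [NormedSpace ℝ E] [FiniteDimensional ℝ E]
  [NormedAddCommGroup H] [InnerProductSpace ℝ H] [FiniteDimensional ℝ H]
  [MeasurableSpace H] [BorelSpace H] {μ : Measure H} [μ.IsAddHaarMeasure]
  {d r : ℕ} {X : Set E} {P : E → H →L[ℝ] H} {τ' : E × H → Ext (E × H)} {R₁ R ρ s t : ℝ}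
  {e p3 : E → Ext E} {w ξ a Q Ψ : E × H → Ext (E × H)} {c w₀ : ℝ}

/-- the class of `a` on a far sphere bundle -/
theorem Inp.sph_a (h : Inp μ d r X P τ' R₁ R e p3 w ξ a Q Ψ c w₀) (ht : R < t) :
    Coh (Sph X P) (F.pull (sc t) a)
      ((pf h.x0 : E × H → Ext (E × H)) - c • ((pf e : E × H → Ext (E × H)) * w)) := by
  have h1 : (F.pull (sc t) a : E × H → Ext (E × H)) =
      F.pull (sc t) h.A0 - F.pull (sc t) (pf e : E × H → Ext (E × H)) * F.pull (sc t) Ψ := by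
    conv_lhs => rw [h.a_eq]
    rw [pull_sub', pull_mul']
  rw [h1]
  refine Coh.sub ?_ (Coh.of_eqv ?_)
  · exact (h.coh_A0.pull (smap_sc' t)).trans (Coh.of_eqv (pull_sc_pf h.x0 t))
  · have h2 := (pull_sc_pf (X := X) (P := P) e t).mul (pull_sc_out h.hR ht h.out)
    rwa [mul_smul_comm] at h2

/-- far sphere bundles of different radii -/
theorem coh_radii (hρ : 0 ≤ ρ) (hs : ρ < s) (ht : ρ < t)
    (sa : Sm (Tot X P) a) (ca : Cl (Tot X P ∩ {z | ρ < ‖z.2‖}) a) :
    Coh (Sph X P) (F.pull (sc s) a) (F.pull (sc t) a) := by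
  have h1 := coh_homotopy (X := Sph X P) (Y := Tot X P ∩ {z | ρ < ‖z.2‖})
    (Fh := fun p : (E × H) × ℝ => sc (t + p.2 * (s - t)) p.1) (w := a)
    (fun z _ u _ => by unfold sc; fun_prop) (fun z hz u hu => by
      have h2 : ρ < t + u * (s - t) := by
        rcases le_total s t with h | h
        · nlinarith [hu.1, hu.2]
        · nlinarith [hu.1, hu.2]
      exact (smap_sc (lt_of_le_of_lt hρ h2) h2).maps hz)
    (sa.mono inter_subset_left) ca
  have e1 : (fun y : E × H => sc (t + 1 * (s - t)) y) = sc s := by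
    funext y; congr 1; ring
  have e2 : (fun y : E × H => sc (t + 0 * (s - t)) y) = sc t := by
    funext y; congr 1; ring
  rw [e1, e2] at h1
  exact h1

end inp

section main
variable {E E' W V F' : Type} [NormedAddCommGroup E] [NormedSpace ℝ E] [FiniteDimensional ℝ E]
  [NormedAddCommGroup E'] [NormedSpace ℝ E'] [FiniteDimensional ℝ E']
  [NormedAddCommGroup W] [InnerProductSpace ℝ W] [FiniteDimensional ℝ W]
  [NormedAddCommGroup V] [InnerProductSpace ℝ V] [FiniteDimensional ℝ V]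
  [NormedAddCommGroup F'] [NormedSpace ℝ F'] [FiniteDimensional ℝ F']
  {X : Set E} {Y : Set E'} {φ : ℝ → E → E} {q : E → E'} {R : ℝ → W →L[ℝ] W}
  {T : E → W →L[ℝ] V} {P : E → W →L[ℝ] W} {P' : E' → V →L[ℝ] V} {r d d' j : ℕ} {S : Set F'}
  {om : F' → Ext F'} {θ0 : E → Ext E} {e p3 : E' → Ext E'} {f1 : E × W → F'} {ρ R₂ R₁ c w₀ : ℝ}
  {ξ a Q τ' w Ψ : E' × V → Ext (E' × V)}

/-- far out `a` is the form of the family -/
theorem St.aH_out (h : St X Y φ q R T P P' r d d' S om θ0 e f1 ρ) :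
    Eqv (Tot X P ∩ {z | ρ < ‖z.2‖})
      (aH (phR φ R) (F.pull (Prod.fst : E × W → E) θ0) (F.pull f1 om)) (F.pull f1 om) := by
  refine eqv_iff.2 fun z hz => ?_
  have ho : IsOpen {z : E × W | ρ < ‖z.2‖} := isOpen_lt continuous_const (by fun_prop)
  have h1 := rs_aH_const ho h.A h.cn' (fun x hx => h.hf.diff hx) h.dt.sm
    (fun x hx => h.const x hx.1 hx.2) hz
  exact EX.rs_sub (X' := Tot X P ∩ {z | ρ < ‖z.2‖}) inter_subset_left h1

theorem St.cl_out (h : St X Y φ q R T P P' r d d' S om θ0 e f1 ρ)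
    (D : Dn X φ q R T P om θ0 f1 ξ a Q) : Cl (Tot Y P' ∩ {z | ρ < ‖z.2‖}) a := by
  rw [Cl, resZero_iff]
  have h1 := (D.d_a h).mono_tan (X' := Tot Y P' ∩ {z | ρ < ‖z.2‖}) inter_subset_left
  have h2 := ((Eqv.refl (pf e : E' × V → Ext (E' × V))).mul (D.cs_x h)).neg
  rw [mul_zero, neg_zero] at h2
  exact h1.trans h2

/-- **the family on the far sphere bundle** -/
theorem Dn.sph_fY (h : St X Y φ q R T P P' r d d' S om θ0 e f1 ρ)
    (D : Dn X φ q R T P om θ0 f1 ξ a Q) {t : ℝ} (ht : ρ < t) {fY : E' × V → F'}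
    (sf : SMap (Sph Y P') S fY) (hf : ∀ z ∈ Sph X P, fY (Th q T z) = f1 (sc t z)) :
    Eqv (Sph Y P') (F.pull (sc t) a) (F.pull fY om) := by
  have ht0 : 0 < t := lt_of_le_of_lt h.ρ0 ht
  have hQs := UP.qm_sph h.hQ h.hT
  refine hQs.eqv_of_pull ?_
  have sTs : SMap (Sph X P) (Tot Y P') (fun z => sc t (Th q T z)) :=
    (smap_sc' t).comp hQs.smap
  have h1 : Eqv (Sph X P) (F.pull (Th q T) (F.pull (sc t) a)) (F.pull (fun z => sc t (Th q T z)) a) :=
    eqv_pull_pull hQs.smap (smap_sc' t) sTs (fun _ _ => rfl) a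
  have h2 : Eqv (Sph X P) (F.pull (sc t) (F.pull (Th q T) a)) (F.pull (fun z => sc t (Th q T z)) a) :=
    eqv_pull_pull (smap_sc' t) h.hQ.smap sTs (fun z hz => by
      change (q z.1, T z.1 (t • z.2)) = (q z.1, t • T z.1 z.2)
      rw [map_smul]) a
  have h3 : Eqv (Sph X P) (F.pull (sc t) (F.pull (Th q T) a)) (F.pull (sc t) (F.pull f1 om)) :=
    (Eqv.pull (smap_sc' t) D.pa).trans (Eqv.pull (smap_sc ht0 ht) h.aH_out)
  have h4 : Eqv (Sph X P) (F.pull (sc t) (F.pull f1 om)) (F.pull (fun z => f1 (sc t z)) om) :=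
    eqv_pull_pull (smap_sc' t) h.hf (h.hf.comp (smap_sc' t)) (fun _ _ => rfl) om
  have h5 : Eqv (Sph X P) (F.pull (Th q T) (F.pull fY om)) (F.pull (fun z => f1 (sc t z)) om) :=
    eqv_pull_pull hQs.smap sf (h.hf.comp (smap_sc' t)) hf om
  exact (h1.trans h2.symm).trans ((h3.trans h4).trans h5.symm)

/-- the class upstairs -/
theorem Inp.coh_up [MeasurableSpace V] [BorelSpace V] {μ : Measure V} [μ.IsAddHaarMeasure]
    (h : St X Y φ q R T P P' r d d' S om θ0 e f1 ρ)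
    (D : Dn X φ q R T P om θ0 f1 ξ a Q)
    (I : Inp μ d' r Y P' τ' R₁ R₂ e p3 w ξ a Q Ψ c w₀) :
    Coh (Tot X P) (F.pull (Th q T) I.A0) (F.pull f1 om) := by
  set φ' := phR φ R with hφ'
  set b := F.pull f1 om with hb
  set θ : E × W → Ext (E × W) := F.pull (Prod.fst : E × W → E) θ0 with hθ
  have hA := h.A
  have hcn : Cn (Tot X P) φ' θ := h.cn'
  set Ψ' := F.pull (Th q T) Ψ with hΨ'
  have sΨ' : Sm (Tot X P) Ψ' := I.sΨ.pull h.hQ.smap
  have e1 : Eqv (Tot X P) (F.d Ψ') (xi φ' b) :=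
    (d_pull_eqv h.hQ.smap I.sΨ).trans ((I.dΨ.symm.pull h.hQ.smap).trans D.px)
  have e2 : Eqv (Tot X P) (F.pull (Th q T) I.A0) (aH φ' θ b + F.d θ * Ψ') := by
    have h1 : F.pull (Th q T) I.A0 = F.pull (Th q T) a + F.pull (Th q T) (pf e) * Ψ' := by
      rw [Inp.A0, pull_add', pull_mul']
    rw [h1]
    exact D.pa.add ((D.pull_e h).mul (Eqv.refl Ψ'))
  have sθ : Sm (Tot X P) θ := hcn.sm
  have e3 : Eqv (Tot X P) (F.d (θ * Ψ')) (F.d θ * Ψ' - θ * xi φ' b) := by
    refine (d_mul' sθ sΨ').trans ?_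
    have h2 : iv θ = -θ := funext fun z => th_odd hcn z
    rw [h2, neg_mul, ← sub_eq_add_neg]
    exact (Eqv.refl _).sub ((Eqv.refl θ).mul e1)
  have e4 : Eqv (Tot X P) (aH φ' θ b + F.d θ * Ψ') (Av φ' b + F.d (θ * Ψ')) := by
    refine Eqv.trans (Eqv.of_eq fun z _ => ?_) ((Eqv.refl (Av φ' b)).add e3.symm)
    change Av φ' b z - θ z * xi φ' b z + F.d θ z * Ψ' z =
      Av φ' b z + (F.d θ z * Ψ' z - θ z * xi φ' b z)
    abel
  have e5 : Coh (Tot X P) (Av φ' b + F.d (θ * Ψ')) (b + 0) :=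
    Coh.add (coh_Av hA h.sT h.dt.sm h.dt.cl) ⟨θ * Ψ', sθ.mul sΨ', by
      rw [sub_zero]; exact Eqv.refl _⟩
  rw [add_zero] at e5
  exact (Coh.of_eqv (e2.trans e4)).trans e5

end main

end Crest.Agent.R208.VE
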