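import Crest.Agent.R208.VE1

/-! Row 208, block VE (helper812).  VE2: comparison of `pu (d g)` with the fibre integral over the
sphere bundle; products with closed forms. -/

set_option autoImplicit false
set_option linter.unusedSectionVars false
set_option linter.unusedVariables false

open MeasureTheory Set Filter Topology Module
open scoped ContDiff
open Crest.Agent.R208.F Crest.Agent.R208.FI Crest.Agent.R208.CW Crest.Agent.R208.T

noncomputable section

namespace Crest.Agent.R208.VE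

universe u w

section gen
variable {E F' : Type*} [NormedAddCommGroup E] [NormedSpace ℝ E] [FiniteDimensional ℝ E]
  [NormedAddCommGroup F'] [NormedSpace ℝ F'] [FiniteDimensional ℝ F']
  {X : Set E} {Y : Set F'} {a b c : E → Ext E} {m : ℕ}

/-- grade involution of a form -/
def iv (a : E → Ext E) : E → Ext E := fun x => F.inv (a x)

theorem iv_iv (a : E → Ext E) : iv (iv a) = a := funext fun x => F.inv_inv (a x)

theorem Sm.iv (h : Sm X a) : Sm X (iv a) := T.Sm.inv h

theorem d_iv (ha : Sm X a) : Eqv X (F.d (iv a)) (- iv (F.d a)) := by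
  refine Eqv.of_eq fun x hx => ?_
  exact d_inv (ha.diff hx)

theorem Eqv.iv (h : Eqv X a b) : Eqv X (iv a) (iv b) := by
  refine eqv_iff.2 fun x hx => ?_
  change pb _ (F.inv (a x)) = pb _ (F.inv (b x))
  rw [pb_inv, pb_inv, eqv_iff.1 h x hx]

theorem iv_zero : iv (0 : E → Ext E) = 0 := funext fun x => map_zero _

theorem Cl.iv (ha : Sm X a) (h : Cl X a) : Cl X (iv a) := by
  rw [Cl, resZero_iff] at *
  have := (d_iv ha).trans (VE.Eqv.iv h).neg
  rwa [iv_zero, neg_zero] at this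

theorem d_mul' (ha : Sm X a) (hb : Sm X b) :
    Eqv X (F.d (a * b)) (F.d a * b + iv a * F.d b) := d_mul_eqv ha hb

theorem Coh.of_sub (h : Coh X (a - b) 0) : Coh X a b := by
  obtain ⟨ξ, h1, h2⟩ := h
  exact ⟨ξ, h1, by rwa [sub_zero] at h2⟩

theorem Coh.zero_of_eqv (h : Eqv X a 0) : Coh X a 0 := Coh.of_eqv h

/-- even forms -/
def Ev (a : E → Ext E) : Prop := ∀ x, F.inv (a x) = a x

theorem Ev.comm (h : Ev a) (b : E → Ext E) : a * b = b * a :=
  funext fun x => even_mul_comm (h x) (b x)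

theorem Ev.iv_eq (h : Ev a) : iv a = a := funext h

theorem Ev.mul (h : Ev a) (h' : Ev b) : Ev (a * b) := fun x => by
  rw [Pi.mul_apply, map_mul, h x, h' x]

theorem Ev.add (h : Ev a) (h' : Ev b) : Ev (a + b) := fun x => by
  rw [Pi.add_apply, map_add, h x, h' x]

theorem Ev.smul (c : ℝ) (h : Ev a) : Ev (c • a) := fun x => by
  rw [Pi.smul_apply, map_smul, h x]

theorem Ev.sub (h : Ev a) (h' : Ev b) : Ev (a - b) := fun x => by
  rw [Pi.sub_apply, map_sub, h x, h' x]

theorem Ev.pull {f : E → F'} {w : F' → Ext F'} (h : Ev w) : Ev (F.pull f w) := fun x => by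
  rw [F.pull, ← pb_inv, h]

end gen

variable {E : Type u} {H : Type w} [NormedAddCommGroup E] [NormedSpace ℝ E] [FiniteDimensional ℝ E]
  [NormedAddCommGroup H] [InnerProductSpace ℝ H] [FiniteDimensional ℝ H]
  {X : Set E} {P : E → H →L[ℝ] H} {r d : ℕ} {R R' R₁ : ℝ}
  {τ' om om' a b c g : E × H → Ext (E × H)} {β : E → Ext E}

/-- pull-back to the total space -/
abbrev pf (β : E → Ext E) : E × H → Ext (E × H) := F.pull (Prod.fst : E × H → E) β

/-! ### radial extensions -/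

theorem rx_mul_out (b c : E × H → Ext (E × H)) {z : E × H} (hz : 1 < ‖z.2‖) :
    rx (b * c) z = rx b z * rx c z := by
  rw [rx, rx, rx, kp_one hz.le, one_smul, one_smul, one_smul, pull_mul', Pi.mul_apply]

theorem rx_pull_out (β : E → Ext E) {z : E × H} (hz : 1 < ‖z.2‖) :
    rx (pf β) z = pf β z := by
  have h0 : z.2 ≠ 0 := fun h => by rw [h, norm_zero] at hz; linarith
  rw [rx, kp_one hz.le, one_smul, F.pull_comp ?_ differentiableAt_fst]
  · rfl
  · have h1 : DifferentiableAt ℝ (fun z : E × H => ‖z.2‖) z :=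
      (contDiffAt_norm ℝ h0 (n := 1)).differentiableAt (by norm_num) |>.comp z differentiableAt_snd
    exact differentiableAt_fst.prodMk ((h1.inv (norm_ne_zero_iff.2 h0)).smul differentiableAt_snd)

theorem eqv_rx (q : E × H → Ext (E × H)) :
    Eqv (Tot X P ∩ {z | 1 < ‖z.2‖}) (rx q) (F.pull rh q) :=
  Eqv.of_eq fun z hz => by rw [rx, kp_one (le_of_lt hz.2), one_smul]

theorem eqv_rx_mul (b c : E × H → Ext (E × H)) :
    Eqv (Tot X P ∩ {z | 1 < ‖z.2‖}) (rx (b * c)) (rx b * rx c) :=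
  Eqv.of_eq fun z hz => rx_mul_out b c hz.2

theorem rx_add (b c : E × H → Ext (E × H)) : rx (b + c) = rx b + rx c := funext fun z => by
  simp only [rx, Pi.add_apply, pull_add', smul_add]

theorem rx_sub (b c : E × H → Ext (E × H)) : rx (b - c) = rx b - rx c := funext fun z => by
  simp only [rx, Pi.sub_apply, pull_sub', smul_sub]

theorem rx_smul (t : ℝ) (b : E × H → Ext (E × H)) : rx (t • b) = t • rx b := funext fun z => by
  simp only [rx, Pi.smul_apply, pull_smul']; rw [smul_comm]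

theorem cs_drx (hb : Sm (Sph X P) b) (hc : Cl (Sph X P) b) : Cs X P 1 (F.d (rx b)) := by
  refine (d_rx hb).trans ?_
  have := Eqv.pull (smap_rh') (resZero_iff.1 hc)
  rwa [pull_zero'] at this

/-- `rx (b * pull fst β)` near every point -/
theorem rx_mul_pull (b : E × H → Ext (E × H)) (β : E → Ext E) (z : E × H) :
    rx (b * pf β) z = rx b z * pf β z := by
  by_cases h0 : z.2 = 0
  · rw [rx, rx, kp_zero (by rw [h0]; simp), zero_smul, zero_smul, zero_mul]
  · rw [rx, rx, pull_mul', Pi.mul_apply, smul_mul_assoc, F.pull_comp ?_ differentiableAt_fst]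
    · rfl
    · have h1 : DifferentiableAt ℝ (fun z : E × H => ‖z.2‖) z :=
        (contDiffAt_norm ℝ h0 (n := 1)).differentiableAt (by norm_num) |>.comp z
          differentiableAt_snd
      exact differentiableAt_fst.prodMk ((h1.inv (norm_ne_zero_iff.2 h0)).smul differentiableAt_snd)

variable [MeasurableSpace H] [BorelSpace H] (μ : Measure H) [μ.IsAddHaarMeasure]

/-- fibre integral over the sphere bundle -/
def de (P : E → H →L[ℝ] H) (τ' : E × H → Ext (E × H)) (R : ℝ) (b : E × H → Ext (E × H)) :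
    E → Ext E := pu μ P τ' R (F.d (rx b))

section
variable (hX : Sub d X) (hR : 1 ≤ R) (hP : PField X r P) (hC : Co X P R₁ τ')
include hX hR hP hC

theorem pu_zero : pu μ P τ' R (0 : E × H → Ext (E × H)) = 0 := by
  have := pu_smul μ (zero_le_one.trans hR) hP hC 0 (0 : E × H → Ext (E × H))
  simpa using this

/-- `pu (d g)` only depends on `g` far out -/
theorem pu_d_out (hb : Sm (Sph X P) b) (hg : Sm (Tot X P) g)
    (h : Cs X P R (g - rx b)) : Coh X (pu μ P τ' R (F.d g)) (de μ P τ' R b) := by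
  have hR0 := zero_le_one.trans hR
  refine Coh.of_sub ?_
  have h1 := pu_sub μ hR0 hP hC hg.d (T.Sm.rx hb).d
  have h2 := pu_eqv μ hR0 hP hC (hg.sub (T.Sm.rx hb)).d (hg.d.sub (T.Sm.rx hb).d)
    (d_sub_eqv hg (T.Sm.rx hb))
  exact (Coh.of_eqv (h1.symm.trans h2.symm)).trans
    (pu_coh μ hR0 hP hC hX (hg.sub (T.Sm.rx hb)) h)

theorem de_sm (hb : Sm (Sph X P) b) : Sm X (de μ P τ' R b) :=
  pu_sm μ (zero_le_one.trans hR) hP hC (T.Sm.rx hb).d

theorem de_smul (t : ℝ) (b : E × H → Ext (E × H)) (hb : Sm (Sph X P) b) :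
    Eqv X (de μ P τ' R (t • b)) (t • de μ P τ' R b) := by
  have hR0 := zero_le_one.trans hR
  rw [de, rx_smul, de, ← pu_smul μ hR0 hP hC]
  exact pu_eqv μ hR0 hP hC ((T.Sm.rx hb).smul t).d ((T.Sm.rx hb).d.smul t)
    (d_smul_eqv t (T.Sm.rx hb))

theorem de_add (hb : Sm (Sph X P) b) (hc : Sm (Sph X P) c) :
    Eqv X (de μ P τ' R (b + c)) (de μ P τ' R b + de μ P τ' R c) := by
  have hR0 := zero_le_one.trans hR
  rw [de, rx_add]
  refine Eqv.trans ?_ (pu_add μ hR0 hP hC (T.Sm.rx hb).d (T.Sm.rx hc).d)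
  exact pu_eqv μ hR0 hP hC ((T.Sm.rx hb).add (T.Sm.rx hc)).d
    ((T.Sm.rx hb).d.add (T.Sm.rx hc).d) (d_add_eqv (T.Sm.rx hb) (T.Sm.rx hc))

theorem de_sub (hb : Sm (Sph X P) b) (hc : Sm (Sph X P) c) :
    Eqv X (de μ P τ' R (b - c)) (de μ P τ' R b - de μ P τ' R c) := by
  have hR0 := zero_le_one.trans hR
  rw [de, rx_sub]
  refine Eqv.trans ?_ (pu_sub μ hR0 hP hC (T.Sm.rx hb).d (T.Sm.rx hc).d)
  exact pu_eqv μ hR0 hP hC ((T.Sm.rx hb).sub (T.Sm.rx hc)).d
    ((T.Sm.rx hb).d.sub (T.Sm.rx hc).d) (d_sub_eqv (T.Sm.rx hb) (T.Sm.rx hc))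

/-- projection formula -/
theorem de_mul (hb : Sm (Sph X P) b) (hβ : Sm X β) (hβc : Cl X β) :
    Eqv X (de μ P τ' R (b * pf β)) (de μ P τ' R b * β) := by
  have hR0 := zero_le_one.trans hR
  have h0 : rx (b * pf β) = rx b * pf β :=
    funext fun z => rx_mul_pull b β z
  have s1 : Sm (Tot X P) (pf β) := hβ.pull smap_fst'
  have c1 : Cl (Tot X P) (pf β) := hβc.pull smap_fst' hβ
  rw [de, h0]
  refine Eqv.trans ?_ (pu_mul μ hR0 hP hC (T.Sm.rx hb).d β)
  refine pu_eqv μ hR0 hP hC ((T.Sm.rx hb).mul s1).d ((T.Sm.rx hb).d.mul s1) ?_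
  refine (d_mul' (T.Sm.rx hb) s1).trans ?_
  have := (Eqv.refl (X := Tot X P) (F.d (rx b) * pf β)).add
    ((Eqv.refl (iv (rx b))).mul (resZero_iff.1 c1))
  rwa [mul_zero, add_zero] at this

theorem de_base (hβ : Sm X β) (hβc : Cl X β) : Coh X (de μ P τ' R (pf β)) 0 := by
  have hR0 := zero_le_one.trans hR
  have s1 : Sm (Tot X P) (pf β) := hβ.pull smap_fst'
  have s2 : Sm (Sph X P) (pf β) := hβ.pull smap_fstS
  have c1 : Cl (Tot X P) (pf β) := hβc.pull smap_fst' hβ
  have h1 : Cs X P R (pf β - rx (pf β)) := by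
    refine Cs.mono (R := 1) ?_ hR
    refine Eqv.of_eq fun z hz => ?_
    rw [Pi.sub_apply, rx_pull_out β hz.2, sub_self]; rfl
  refine (pu_d_out μ hX hR hP hC s2 s1 h1).symm.trans (Coh.of_eqv ?_)
  have := pu_eqv μ hR0 hP hC s1.d Sm.zero (resZero_iff.1 c1)
  rwa [pu_zero μ hX hR hP hC] at this

theorem de_exact (hb : Sm (Sph X P) b) : Coh X (de μ P τ' R (F.d b)) 0 := by
  have hR0 := zero_le_one.trans hR
  have s1 : Sm (Tot X P) (F.d (rx b)) := (T.Sm.rx hb).d
  have h1 : Cs X P R (F.d (rx b) - rx (F.d b)) := by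
    refine Cs.mono (R := 1) ?_ hR
    have h2 : Eqv (Tot X P ∩ {z | 1 < ‖z.2‖}) (rx (F.d b)) (F.pull rh (F.d b)) :=
      Eqv.of_eq fun z hz => by rw [rx, kp_one (le_of_lt hz.2), one_smul]
    have := (d_rx hb).sub h2
    rwa [sub_self] at this
  refine (pu_d_out μ hX hR hP hC hb.d s1 h1).symm.trans (Coh.of_eqv ?_)
  have := pu_eqv μ hR0 hP hC s1.d Sm.zero (resZero_iff.1 (d_d' (T.Sm.rx hb)))
  rwa [pu_zero μ hX hR hP hC] at this

theorem de_coh (hb : Sm (Sph X P) b) (hc : Sm (Sph X P) c) (h : Coh (Sph X P) b c) :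
    Coh X (de μ P τ' R b) (de μ P τ' R c) := by
  have hR0 := zero_le_one.trans hR
  obtain ⟨γ, sγ, eγ⟩ := h
  refine Coh.of_sub ?_
  have h1 := de_sub μ hX hR hP hC hb hc
  refine (Coh.of_eqv h1.symm).trans ?_
  refine Coh.trans ?_ (de_exact μ hX hR hP hC sγ)
  -- `de` only depends on the restriction to the sphere bundle
  have h2 : Cs X P R (rx (b - c) - rx (F.d γ)) := by
    refine Cs.mono (R := 1) ?_ hR
    have e2 : Eqv (Tot X P ∩ {z | 1 < ‖z.2‖}) (F.pull rh (b - c)) (F.pull rh (F.d γ)) :=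
      Eqv.pull smap_rh' eγ
    have e3 : Eqv (Tot X P ∩ {z | 1 < ‖z.2‖}) (rx (b - c)) (rx (F.d γ)) :=
      (eqv_rx (b - c)).trans (e2.trans (eqv_rx (F.d γ)).symm)
    have e4 : Eqv (Tot X P ∩ {z | 1 < ‖z.2‖}) (rx (F.d γ)) (rx (F.d γ)) := Eqv.refl _
    have e5 := Eqv.sub e3 e4
    rw [sub_self] at e5
    exact e5
  exact pu_d_out μ hX hR hP hC sγ.d (T.Sm.rx (hb.sub hc)) h2

/-- products of compactly supported closed forms with closed forms -/
theorem pu_mul_closed (hs : Sm (Tot X P) a) (hcs : Cs X P R a) (hc : Cl (Tot X P) a)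
    (hz : Sm (Tot X P) b) (hzc : Cl (Tot X P) b) :
    Coh X (pu μ P τ' R (a * b)) (pu μ P τ' R a * F.pull zs b) := by
  have hR0 := zero_le_one.trans hR
  have k1 : Coh (Tot X P) b (pf (F.pull zs b)) := by
    refine (coh_z0 hz hzc).trans (Coh.of_eqv (Eqv.symm ?_))
    refine Eqv.of_eq fun z hz' => ?_
    exact F.pull_comp (f := (Prod.fst : E × H → E)) differentiableAt_fst ((smap_zs (X := X) (P := P)).diff hz'.1)
  obtain ⟨ξ, sξ, eξ⟩ := k1
  set q : E × H → Ext (E × H) := pf (F.pull zs b) with hq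
  have sz : Sm X (F.pull zs b) := hz.pull smap_zs
  have sq : Sm (Tot X P) q := sz.pull smap_fst'
  have h1 : Coh X (pu μ P τ' R (a * b)) (pu μ P τ' R (a * q)) := by
    refine Coh.of_sub ((Coh.of_eqv ((pu_sub μ hR0 hP hC (hs.mul hz) (hs.mul sq)).symm)).trans ?_)
    have h2 : Eqv (Tot X P) (a * b - a * q) (F.d (iv a * ξ)) := by
      rw [← mul_sub]
      refine ((Eqv.refl a).mul eξ).trans (Eqv.symm ?_)
      refine (d_mul' (VE.Sm.iv hs) sξ).trans ?_
      rw [iv_iv]
      have h3 : Eqv (Tot X P) (F.d (iv a) * ξ) 0 := by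
        have := (resZero_iff.1 (VE.Cl.iv hs hc)).mul (Eqv.refl ξ)
        rwa [zero_mul] at this
      have := h3.add (Eqv.refl (a * F.d ξ))
      rwa [zero_add] at this
    have s3 : Sm (Tot X P) (iv a * ξ) := (VE.Sm.iv hs).mul sξ
    have h4 : Cs X P R (iv a * ξ) := by
      refine Cs.mul_right ?_ ξ
      have := VE.Eqv.iv hcs
      rwa [iv_zero] at this
    exact (Coh.of_eqv (pu_eqv μ hR0 hP hC ((hs.mul hz).sub (hs.mul sq)) s3.d h2)).trans
      (pu_coh μ hR0 hP hC hX s3 h4)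
  exact h1.trans (Coh.of_eqv (pu_mul μ hR0 hP hC hs _))

end

end Crest.Agent.R208.VE
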