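import Crest.Agent.R208.VE2

/-! Row 208, block VE (helper812).  VE3: evaluation of `ξ a²`, `ξ a`, `ξ Q` on the total space of an
odd rank bundle: the algebra of (8,2). -/

set_option autoImplicit false
set_option linter.unusedSectionVars false
set_option linter.unusedVariables false

open MeasureTheory Set Filter Topology Module
open scoped ContDiff
open Crest.Agent.R208.F Crest.Agent.R208.FI Crest.Agent.R208.CW Crest.Agent.R208.T

noncomputable section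

namespace Crest.Agent.R208.VE

universe u w

section center
variable {A : Type*} [Ring A] [Algebra ℝ A]

/-- expansion of a square -/
theorem sq_expand {a A0 e p : A} (hA : ∀ x, A0 * x = x * A0) (he : ∀ x, e * x = x * e)
    (h : a = A0 - e * p) :
    a * a = A0 * A0 - (2 : ℝ) • (p * (A0 * e)) + (p * p) * (e * e) := by
  subst h
  have h1 : e * p = p * e := he p
  have h2 : A0 * (p * e) = p * (A0 * e) := by rw [← mul_assoc, hA p, mul_assoc]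
  have h3 : (p * e) * A0 = p * (A0 * e) := by rw [mul_assoc, he A0]
  have h4 : (p * e) * (p * e) = (p * p) * (e * e) := by
    rw [mul_assoc, ← mul_assoc e p e, he p, mul_assoc, mul_assoc]
  rw [h1, mul_sub, sub_mul, sub_mul, h2, h3, h4, two_smul]
  abel

end center

section lem
variable {E : Type*} [NormedAddCommGroup E] [NormedSpace ℝ E] [FiniteDimensional ℝ E]
  {X : Set E} {a b c x e p : E → Ext E} {m : ℕ}

theorem Coh.mul_left (hc : Sm X c) (hcc : Cl X c) (hce : Ev c) (h : Coh X a b) :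
    Coh X (c * a) (c * b) := by
  rw [hce.comm a, hce.comm b]; exact Coh.mul_right hc hcc h

theorem Coh.mul_zero_right (hc : Sm X c) (hcc : Cl X c) (h : Coh X a 0) : Coh X (a * c) 0 := by
  have := Coh.mul_right hc hcc h; rwa [zero_mul] at this

theorem Coh.smul_zero' (t : ℝ) (h : Coh X a 0) : Coh X (t • a) 0 := by
  have := Coh.smul t h; rwa [smul_zero] at this

theorem d_sq (ha : Sm X a) (he : Ev a) : Eqv X (F.d (a * a)) ((2 : ℝ) • (F.d a * a)) := by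
  refine (d_mul' ha ha).trans (Eqv.of_eq fun x _ => ?_)
  rw [he.iv_eq, he.comm (F.d a), two_smul]

theorem d_cube (ha : Sm X a) (he : Ev a) :
    Eqv X (F.d (a * a * a)) ((3 : ℝ) • (F.d a * (a * a))) := by
  refine (d_mul' (ha.mul ha) ha).trans ?_
  have h1 := (d_sq ha he).mul (Eqv.refl a)
  have h2 := h1.add (Eqv.refl (iv (a * a) * F.d a))
  refine h2.trans (Eqv.of_eq fun x _ => ?_)
  rw [(he.mul he).iv_eq, (he.mul he).comm (F.d a), smul_mul_assoc, mul_assoc]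
  have : (3 : ℝ) = 2 + 1 := by norm_num
  rw [this, add_smul, one_smul]

theorem d_four (ha : Sm X a) (he : Ev a) :
    Eqv X (F.d (a * a * a * a)) ((4 : ℝ) • (F.d a * (a * a * a))) := by
  refine (d_mul' ((ha.mul ha).mul ha) ha).trans ?_
  have h1 := (d_cube ha he).mul (Eqv.refl a)
  have h2 := h1.add (Eqv.refl (iv (a * a * a) * F.d a))
  refine h2.trans (Eqv.of_eq fun x _ => ?_)
  rw [((he.mul he).mul he).iv_eq, ((he.mul he).mul he).comm (F.d a), smul_mul_assoc, mul_assoc]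
  have : (4 : ℝ) = 3 + 1 := by norm_num
  rw [this, add_smul, one_smul]

end lem

variable {E : Type u} {H : Type w} [NormedAddCommGroup E] [NormedSpace ℝ E] [FiniteDimensional ℝ E]
  [NormedAddCommGroup H] [InnerProductSpace ℝ H] [FiniteDimensional ℝ H]
  [MeasurableSpace H] [BorelSpace H] (μ : Measure H) [μ.IsAddHaarMeasure]

/-- the input of the evaluation -/
structure Inp (μ : Measure H) (d r : ℕ) (X : Set E) (P : E → H →L[ℝ] H)
    (τ' : E × H → Ext (E × H)) (R₁ R : ℝ) (e p3 : E → Ext E) (W ξ a Q Ψ : E × H → Ext (E × H))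
    (c w₀ : ℝ) : Prop where
  hX : Sub d X
  hP : PField X r P
  hC : Co X P R₁ τ'
  hR : 1 ≤ R
  se : Sm X e
  ce : Cl X e
  ee : Ev e
  sp : Sm X p3
  cp : Cl X p3
  ep : Ev p3
  sW : Sm (Sph X P) W
  cW : Cl (Sph X P) W
  eW : Ev W
  W2 : Coh (Sph X P) (W * W) (pf p3)
  W0 : Coh X (de μ P τ' R W) (w₀ • (1 : E → Ext E))
  sx : Sm (Tot X P) ξ
  sa : Sm (Tot X P) a
  sQ : Sm (Tot X P) Q
  sΨ : Sm (Tot X P) Ψ
  ea : Ev a
  eΨ : Ev Ψ
  dΨ : Eqv (Tot X P) ξ (F.d Ψ)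
  out : Eqv (Tot X P ∩ {z | R < ‖z.2‖}) Ψ (c • rx W)
  cx : Cs X P R ξ
  da : Eqv (Tot X P) (F.d a) (-(pf e * ξ))
  dQ : Eqv (Tot X P) (F.d Q) (-((3 : ℝ) • (a * a * ξ)))
  cQ : Cs X P R Q

namespace Inp

variable {μ} {d r : ℕ} {X : Set E} {P : E → H →L[ℝ] H} {τ' : E × H → Ext (E × H)} {R₁ R : ℝ}
  {e p3 : E → Ext E} {W ξ a Q Ψ : E × H → Ext (E × H)} {c w₀ : ℝ}
  (h : Inp μ d r X P τ' R₁ R e p3 W ξ a Q Ψ c w₀)

include h

theorem R0 : 0 ≤ R := zero_le_one.trans h.hR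

theorem spf : Sm (Tot X P) (pf e : E × H → Ext (E × H)) := h.se.pull smap_fst'
theorem cpf : Cl (Tot X P) (pf e : E × H → Ext (E × H)) := h.ce.pull smap_fst' h.se
theorem epf : Ev (pf e : E × H → Ext (E × H)) := h.ee.pull

theorem clx : Cl (Tot X P) ξ :=
  Cl.of_eqv (h.hP.sub_tot h.hX) h.sx h.sΨ.d h.dΨ (d_d' h.sΨ)

/-- closed representative of `x₀` on the total space -/
def A0 (_ : Inp μ d r X P τ' R₁ R e p3 W ξ a Q Ψ c w₀) : E × H → Ext (E × H) := a + pf e * Ψ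

/-- the class `x₀` on the base -/
def x0 (_ : Inp μ d r X P τ' R₁ R e p3 W ξ a Q Ψ c w₀) : E → Ext E := F.pull zs (a + pf e * Ψ)

theorem sA0 : Sm (Tot X P) h.A0 := h.sa.add (h.spf.mul h.sΨ)

theorem eA0 : Ev h.A0 := h.ea.add (h.epf.mul h.eΨ)

theorem cA0 : Cl (Tot X P) h.A0 := by
  rw [Cl, resZero_iff]
  refine (d_add_eqv h.sa (h.spf.mul h.sΨ)).trans ?_
  have h1 : Eqv (Tot X P) (F.d ((pf e : E × H → Ext (E × H)) * Ψ))
      ((pf e : E × H → Ext (E × H)) * ξ) := by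
    refine (d_mul' h.spf h.sΨ).trans ?_
    rw [h.epf.iv_eq]
    have h2 : Eqv (Tot X P) (F.d (pf e : E × H → Ext (E × H)) * Ψ) (0 * Ψ) :=
      (resZero_iff.1 h.cpf).mul (Eqv.refl Ψ)
    have h3 : Eqv (Tot X P) ((pf e : E × H → Ext (E × H)) * F.d Ψ)
      ((pf e : E × H → Ext (E × H)) * ξ) := (Eqv.refl _).mul h.dΨ.symm
    have h4 := h2.add h3
    rw [zero_mul, zero_add] at h4
    exact h4
  have := h.da.add h1
  rwa [neg_add_cancel] at this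

theorem sx0 : Sm X h.x0 := h.sA0.pull smap_zs
theorem cx0 : Cl X h.x0 := h.cA0.pull smap_zs h.sA0
theorem ex0 : Ev h.x0 := h.eA0.pull

theorem a_eq : a = h.A0 - pf e * Ψ := by rw [A0, add_sub_cancel_right]

theorem coh_A0 : Coh (Tot X P) h.A0 (pf h.x0) := by
  refine (coh_z0 h.sA0 h.cA0).trans (Coh.of_eqv (Eqv.symm ?_))
  refine Eqv.of_eq fun z hz' => ?_
  exact F.pull_comp (f := (Prod.fst : E × H → E)) differentiableAt_fst
    ((smap_zs (X := X) (P := P)).diff hz'.1)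

/-! ### the fibre integrals of `ξ Ψ^j` -/

theorem out_mul {f g : E × H → Ext (E × H)} {s t : ℝ}
    (hf : Eqv (Tot X P ∩ {z | R < ‖z.2‖}) f (s • rx W))
    {V : E × H → Ext (E × H)}
    (hg : Eqv (Tot X P ∩ {z | R < ‖z.2‖}) g (t • rx V)) :
    Eqv (Tot X P ∩ {z | R < ‖z.2‖}) (g * f) ((t * s) • rx (V * W)) := by
  have h1 := hg.mul hf
  rw [smul_mul_smul_comm] at h1
  refine h1.trans (Eqv.smul _ ?_)
  exact Eqv.mono_tan (X := Tot X P ∩ {z | 1 < ‖z.2‖})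
    (fun z hz => ⟨hz.1, lt_of_le_of_lt h.hR hz.2⟩) (eqv_rx_mul V W).symm

theorem pu_out {g b : E × H → Ext (E × H)} {t : ℝ} (hb : Sm (Sph X P) b) (hg : Sm (Tot X P) g)
    (ho : Eqv (Tot X P ∩ {z | R < ‖z.2‖}) g (t • rx b)) :
    Coh X (pu μ P τ' R (F.d g)) (t • de μ P τ' R b) := by
  have h1 : Cs X P R (g - rx (t • b)) := by
    rw [rx_smul]
    have := ho.sub (Eqv.refl (t • rx b))
    rwa [sub_self] at this
  exact (pu_d_out μ h.hX h.hR h.hP h.hC (hb.smul t) hg h1).trans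
    (Coh.of_eqv (de_smul μ h.hX h.hR h.hP h.hC t b hb))

theorem c1 : Coh X (pu μ P τ' R ξ) ((c * w₀) • (1 : E → Ext E)) := by
  have h1 := pu_eqv μ h.R0 h.hP h.hC h.sx h.sΨ.d h.dΨ
  refine (Coh.of_eqv h1).trans ((h.pu_out h.sW h.sΨ h.out).trans ?_)
  have := h.W0.smul c
  rwa [smul_smul] at this

theorem c2 : Coh X (pu μ P τ' R (ξ * Ψ)) 0 := by
  have s2 : Sm (Tot X P) (Ψ * Ψ) := h.sΨ.mul h.sΨ
  have h1 := h.pu_out (h.sW.mul h.sW) s2 (h.out_mul h.out h.out)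
  have h2 : Coh X (de μ P τ' R (W * W)) 0 :=
    (de_coh μ h.hX h.hR h.hP h.hC (h.sW.mul h.sW) (h.sp.pull smap_fstS) h.W2).trans
      (de_base μ h.hX h.hR h.hP h.hC h.sp h.cp)
  have h3 : Coh X (pu μ P τ' R (F.d (Ψ * Ψ))) 0 := h1.trans (Coh.smul_zero' _ h2)
  have h4 : Eqv (Tot X P) (F.d (Ψ * Ψ)) ((2 : ℝ) • (ξ * Ψ)) :=
    (d_sq h.sΨ h.eΨ).trans ((h.dΨ.symm.mul (Eqv.refl Ψ)).smul 2)
  have h5 := pu_eqv μ h.R0 h.hP h.hC s2.d ((h.sx.mul h.sΨ).smul 2) h4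
  rw [pu_smul μ h.R0 h.hP h.hC] at h5
  have h6 := Coh.smul_zero' (2⁻¹ : ℝ) ((Coh.of_eqv h5.symm).trans h3)
  rwa [smul_smul, inv_mul_cancel₀ two_ne_zero, one_smul] at h6

theorem c3 : Coh X (pu μ P τ' R (ξ * (Ψ * Ψ))) ((c ^ 3 * w₀ / 3) • p3) := by
  have s2 : Sm (Tot X P) (Ψ * Ψ) := h.sΨ.mul h.sΨ
  have s3 : Sm (Tot X P) (Ψ * Ψ * Ψ) := s2.mul h.sΨ
  have h1 := h.pu_out ((h.sW.mul h.sW).mul h.sW) s3 (h.out_mul h.out (h.out_mul h.out h.out))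
  have hpS : Sm (Sph X P) (pf p3 : E × H → Ext (E × H)) := h.sp.pull smap_fstS
  have h2 : Coh (Sph X P) (W * W * W) (W * pf p3) := by
    have := Coh.mul_right h.sW h.cW h.W2
    rwa [h.eW.comm (pf p3)]
  have h3 : Coh X (de μ P τ' R (W * W * W)) (w₀ • p3) := by
    refine (de_coh μ h.hX h.hR h.hP h.hC ((h.sW.mul h.sW).mul h.sW) (h.sW.mul hpS) h2).trans ?_
    refine (Coh.of_eqv (de_mul μ h.hX h.hR h.hP h.hC h.sW h.sp h.cp)).trans ?_
    have := Coh.mul_right h.sp h.cp h.W0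
    rwa [smul_mul_assoc, one_mul] at this
  have h4 : Coh X (pu μ P τ' R (F.d (Ψ * Ψ * Ψ))) ((c * c * c) • (w₀ • p3)) := h1.trans (h3.smul _)
  have h5 : Eqv (Tot X P) (F.d (Ψ * Ψ * Ψ)) ((3 : ℝ) • (ξ * (Ψ * Ψ))) :=
    (d_cube h.sΨ h.eΨ).trans ((h.dΨ.symm.mul (Eqv.refl (Ψ * Ψ))).smul 3)
  have h6 := pu_eqv μ h.R0 h.hP h.hC s3.d ((h.sx.mul s2).smul 3) h5
  rw [pu_smul μ h.R0 h.hP h.hC] at h6
  have h7 := ((Coh.of_eqv h6.symm).trans h4).smul (3⁻¹ : ℝ)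
  rw [smul_smul, inv_mul_cancel₀ three_ne_zero, one_smul, smul_smul, smul_smul] at h7
  convert h7 using 2
  ring

theorem c4 : Coh X (pu μ P τ' R (ξ * (Ψ * Ψ * Ψ))) 0 := by
  have s2 : Sm (Tot X P) (Ψ * Ψ) := h.sΨ.mul h.sΨ
  have s3 : Sm (Tot X P) (Ψ * Ψ * Ψ) := s2.mul h.sΨ
  have s4 : Sm (Tot X P) (Ψ * Ψ * Ψ * Ψ) := s3.mul h.sΨ
  have sW2 := h.sW.mul h.sW
  have h1 := h.pu_out ((sW2.mul h.sW).mul h.sW) s4
    (h.out_mul h.out (h.out_mul h.out (h.out_mul h.out h.out)))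
  have hpS : Sm (Sph X P) (pf p3 : E × H → Ext (E × H)) := h.sp.pull smap_fstS
  have cpS : Cl (Sph X P) (pf p3 : E × H → Ext (E × H)) := h.cp.pull smap_fstS h.sp
  have h2 : Coh (Sph X P) (W * W * W * W) (pf (p3 * p3)) := by
    rw [mul_assoc (W * W) W W, pf, pull_mul']
    refine (Coh.mul_right sW2 (Cl.mul h.sW h.sW h.cW h.cW) h.W2).trans ?_
    exact Coh.mul_left hpS cpS h.ep.pull h.W2
  have h3 : Coh X (de μ P τ' R (W * W * W * W)) 0 :=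
    (de_coh μ h.hX h.hR h.hP h.hC ((sW2.mul h.sW).mul h.sW)
      ((h.sp.mul h.sp).pull smap_fstS) h2).trans
      (de_base μ h.hX h.hR h.hP h.hC (h.sp.mul h.sp) (Cl.mul h.sp h.sp h.cp h.cp))
  have h4 : Coh X (pu μ P τ' R (F.d (Ψ * Ψ * Ψ * Ψ))) 0 := h1.trans (Coh.smul_zero' _ h3)
  have h5 : Eqv (Tot X P) (F.d (Ψ * Ψ * Ψ * Ψ)) ((4 : ℝ) • (ξ * (Ψ * Ψ * Ψ))) :=
    (d_four h.sΨ h.eΨ).trans ((h.dΨ.symm.mul (Eqv.refl (Ψ * Ψ * Ψ))).smul 4)
  have h6 := pu_eqv μ h.R0 h.hP h.hC s4.d ((h.sx.mul s3).smul 4) h5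
  rw [pu_smul μ h.R0 h.hP h.hC] at h6
  have h7 := Coh.smul_zero' (4⁻¹ : ℝ) ((Coh.of_eqv h6.symm).trans h4)
  rwa [smul_smul, inv_mul_cancel₀ four_ne_zero, one_smul] at h7

end Inp

end Crest.Agent.R208.VE
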