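import Crest.Agent.R208.VE5

/-! Row 208, block VE (helper812).  VE6: injectivity of the fibre integral in odd rank. -/

set_option autoImplicit false
set_option linter.unusedSectionVars false
set_option linter.unusedVariables false

open MeasureTheory Set Filter Topology Module
open scoped ContDiff
open Crest.Agent.R208.F Crest.Agent.R208.FI Crest.Agent.R208.CW Crest.Agent.R208.T

noncomputable section

namespace Crest.Agent.R208.VE

universe u w

section gen
variable {E : Type*} [NormedAddCommGroup E] [NormedSpace ℝ E] [FiniteDimensional ℝ E]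
  {X : Set E} {κ o o' U q L : E → Ext E} {c₀ : ℝ}

theorem d_mul_cl (hκ : Sm X κ) (ho : Sm X o) (hc : Cl X o) :
    Eqv X (F.d (κ * o)) (F.d κ * o) := by
  refine (d_mul' hκ ho).trans ?_
  have := (Eqv.refl (X := X) (F.d κ * o)).add ((Eqv.refl (iv κ)).mul (resZero_iff.1 hc))
  rwa [mul_zero, add_zero] at this

theorem fin_aux (sL : Sm X L) (sκ : Sm X κ) (so : Sm X o) (co : Cl X o)
    (eL : Eqv X (U * o - q) (F.d L)) (hU : Eqv X U (c₀ • (1 : E → Ext E) + F.d κ))
    (eo : Eqv X o o') : Eqv X (c₀ • o' - q) (F.d (L - κ * o)) := by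
  have d2 : Eqv X (F.d (L - κ * o)) (F.d L - F.d κ * o) :=
    (d_sub_eqv sL (sκ.mul so)).trans ((Eqv.refl _).sub (d_mul_cl sκ so co))
  refine Eqv.symm (d2.trans ?_)
  have d3 := (eL.symm.trans ((hU.mul (Eqv.refl o)).sub (Eqv.refl q))).sub
    (Eqv.refl (X := X) (F.d κ * o))
  refine d3.trans ?_
  have d4 : (c₀ • (1 : E → Ext E) + F.d κ) * o - q - F.d κ * o = c₀ • o - q := by
    rw [add_mul, smul_mul_assoc, one_mul]; abel
  rw [d4]
  exact (eo.smul c₀).sub (Eqv.refl _)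

theorem pull_unit {E' : Type*} [NormedAddCommGroup E'] [NormedSpace ℝ E'] [FiniteDimensional ℝ E']
    {Y : Set E'} {f : E' → E} (hf : SMap Y X f) (sκ : Sm X κ)
    (hU : Eqv X U (c₀ • (1 : E → Ext E) + F.d κ)) :
    Eqv Y (F.pull f U) (c₀ • (1 : E' → Ext E') + F.d (F.pull f κ)) := by
  refine (Eqv.pull hf hU).trans ?_
  rw [pull_add']
  refine Eqv.add (Eqv.of_eq fun z _ => ?_) (d_pull_eqv hf sκ).symm
  change pb _ (c₀ • (1 : Ext E)) = c₀ • (1 : Ext E')
  rw [map_smul, map_one]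

end gen

variable {E : Type u} {H : Type w} [NormedAddCommGroup E] [NormedSpace ℝ E] [FiniteDimensional ℝ E]
  [NormedAddCommGroup H] [InnerProductSpace ℝ H] [FiniteDimensional ℝ H]
  {X : Set E} {P : E → H →L[ℝ] H} {r d : ℕ} {R R' R₁ c₀ : ℝ} {e : E → Ext E}
  {τ τ' om : E × H → Ext (E × H)}

theorem thE'_iv (he : Ev τ') :
    (thE' P τ' (iv om) : E × H → Ext (E × H)) = (iv (thE' P τ' om) : E × H → Ext (E × H)) := by
  funext z
  have h1 : F.inv (F.pull (gam P) τ' z) = F.pull (gam P) τ' z := by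
    rw [F.pull, ← pb_inv, he]
  have h2 : F.pull (nbet P) (iv om) z = F.inv (F.pull (nbet P) om z) := by
    rw [pull_iv]; rfl
  have h3 : (iv (thE' P τ' om) : E × H → Ext (E × H)) z =
      F.inv (F.pull (gam P) τ' z * F.pull (nbet P) om z) := rfl
  rw [h3, map_mul, h1, ← h2]
  rfl

theorem cutH_iv (a : E × H → Ext (E × H)) :
    (cutH R (iv a) : E × H → Ext (E × H)) = (iv (cutH R a) : E × H → Ext (E × H)) := by
  funext z
  exact (map_smul (F.inv (E := E × H)) (chi R z.2) (a z)).symm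

/-- `(x,h) ↦ (x,-h)` -/
def ngg (z : E × H) : E × H := (z.1, -z.2)

theorem smap_ngg : SMap (Tot X P) (Tot X P) (ngg (E := E) (H := H)) :=
  ⟨fun z _ => contDiffAt_fst.prodMk contDiffAt_snd.neg, fun z hz => ⟨hz.1, by
    change P z.1 (-z.2) = -z.2
    rw [map_neg, hz.2]⟩⟩

theorem cutH_ngg (a : E × H → Ext (E × H)) :
    (F.pull ngg (cutH R a) : E × H → Ext (E × H)) = cutH R (F.pull ngg a) := by
  funext z
  have h1 : (cutH R a : E × H → Ext (E × H)) (ngg z) = chi R z.2 • a (ngg z) := by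
    change chi R (-z.2) • a (ngg z) = chi R z.2 • a (ngg z)
    rw [chi, chi, norm_neg]
  rw [F.pull, h1]
  exact map_smul (pbL (fderiv ℝ ngg z)) (chi R z.2) (a (ngg z))

/-- `β^* (neg^* τ) = nbet^* τ` -/
theorem thE_ngg (hP : PField X r P) (τ' τ : E × H → Ext (E × H)) :
    Eqv (X ×ˢ (univ : Set H)) (thE P τ' (F.pull ngg τ)) (thE' P τ' τ) := by
  refine (Eqv.refl _).mul ?_
  exact eqv_pull_pull (smap_bet hP) smap_ngg (smap_nbet hP) (fun _ _ => rfl) τ

theorem Od.pull {E' : Type*} [NormedAddCommGroup E'] [NormedSpace ℝ E'] [FiniteDimensional ℝ E']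
    {f : E' → E} {a : E → Ext E} (h : Od a) : Od (F.pull f a) := fun x => by
  rw [F.pull, ← pb_inv, h, map_neg]

theorem Od.cutH {a : E × H → Ext (E × H)} (h : Od a) : Od (cutH R a) := fun z => by
  have h1 : F.inv (a z) = - a z := h z
  have h2 : F.inv ((T.cutH R a : E × H → Ext (E × H)) z) = chi R z.2 • F.inv (a z) :=
    map_smul (F.inv (E := E × H)) (chi R z.2) (a z)
  rw [h2, h1, smul_neg]; rfl

variable [MeasurableSpace H] [BorelSpace H] (μ : Measure H) [μ.IsAddHaarMeasure]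

theorem pu_iv (hR : 0 ≤ R) (hP : PField X r P)
    (hC : Co X P R₁ τ') (hs : Sm (Tot X P) om) :
    Eqv X (pu μ P τ' R (iv om)) ((-1 : ℝ) ^ finrank ℝ H • iv (pu μ P τ' R om)) := by
  refine Eqv.of_eq fun x hx => ?_
  have h1 := pI_iv μ (vt_th hR hP hC om) (sm_th hR hP hC hs) hx
  have h2 : pu μ P τ' R (iv om) = pI μ (iv (thE' P τ' (cutH R om))) := by
    rw [pu, cutH_iv, thE'_iv hC.even]
  rw [h2]
  change _ = (-1 : ℝ) ^ finrank ℝ H • F.inv (pI μ (thE' P τ' (cutH R om)) x)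
  rw [h1, smul_smul, ← mul_pow, neg_one_mul, neg_neg, one_pow, one_smul]

/-- Thom data in odd rank: `τ` closed, odd, compact vertical support, fibre integral `c₀ ≠ 0` -/
structure Th1 (μ : Measure H) (X : Set E) (P : E → H →L[ℝ] H) (τ' : E × H → Ext (E × H))
    (R c₀ : ℝ) (τ : E × H → Ext (E × H)) : Prop where
  sm : Sm (Tot X P) τ
  cl : Cl (Tot X P) τ
  cs : Cs X P R τ
  od : Od τ
  one : Coh X (pu μ P τ' R τ) (c₀ • (1 : E → Ext E))
  ne : c₀ ≠ 0

theorem smul_one_eq (c : ℝ) : (c • (1 : E → Ext E)) = fun _ => algebraMap ℝ (Ext E) c :=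
  funext fun _ => (Algebra.algebraMap_eq_smul_one c).symm

set_option maxHeartbeats 1000000 in
/-- **closed forms with compact vertical support on the total space are determined by their fibre
integral** (odd rank) -/
theorem thom_cs_odd (hX : Sub d X) (hP : PField X r P) (hC : Co X P R₁ τ') (hR : 0 ≤ R)
    (hT : Th1 μ X P τ' R c₀ τ) (so : Sm (Tot X P) om) (co : Cl (Tot X P) om)
    (ko : Cs X P R om) :
    ∃ R', 0 ≤ R' ∧ ∃ L : E × H → Ext (E × H), Sm (Tot X P) L ∧ (∀ z, R' < ‖z.2‖ → L z = 0) ∧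
      Eqv (Tot X P) (c₀ • om - pf (pu μ P τ' R (iv om)) * F.pull ngg (cutH R τ)) (F.d L) := by
  have hY := hP.sub_tot hX
  set R₂ := max R₁ (R + 1) with hR₂
  have hR₂0 : 0 ≤ R₂ := le_trans (by linarith) (le_max_right _ _)
  set τc : E × H → Ext (E × H) := cutH R τ with hτc
  set oc : E × H → Ext (E × H) := cutH R om with hoc
  have eτ : Eqv (Tot X P) τc τ := Cs.cut hR hT.cs
  have eo : Eqv (Tot X P) oc om := Cs.cut hR ko
  have sτc : Sm (Tot X P) τc := hT.sm.cutH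
  have soc : Sm (Tot X P) oc := so.cutH
  have cτc : Cl (Tot X P) τc := Cl.of_eqv hY sτc hT.sm eτ hT.cl
  have coc : Cl (Tot X P) oc := Cl.of_eqv hY soc so eo co
  set τn : E × H → Ext (E × H) := F.pull ngg τc with hτn
  have vτ : ∀ z : E × H, R₂ < ‖z.2‖ → τn z = 0 := by
    intro z hz
    refine pull_of_zero (f := ngg) (Vt.cutH hR (ngg z) ?_)
    change R + 1 < ‖-z.2‖
    rw [norm_neg]
    exact lt_of_le_of_lt (le_max_right _ _) hz
  have vo : ∀ z : E × H, R₂ < ‖z.2‖ → oc z = 0 := fun z hz =>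
    Vt.cutH hR z (lt_of_le_of_lt (le_max_right _ _) hz)
  have hτ' : CSF X (fun x => 1 - P x) R₂ τ' :=
    ⟨hC.csf.smooth, fun z hz => hC.csf.supp z (lt_of_le_of_lt (le_max_left _ _) hz), hC.csf.closed⟩
  have hτ : CSF X P R₂ τn := ⟨sτc.pull smap_ngg, vτ, cτc.pull smap_ngg sτc⟩
  have hω : CSF X P R₂ oc := ⟨soc, vo, coc⟩
  obtain ⟨L, sL, vL, eL⟩ := thom_odd μ hX hP hτ' hτ (Od.pull (Od.cutH hT.od)) hR₂0 hω
  -- the unit
  have v1 : Vt (2 * R₂) (thE P τ' τn) := vt_eta hτ'.supp hτ.supp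
  have s1 := sm_eta hP hτ'.smooth hτ.smooth
  have u1 : Eqv X (pI μ (thE P τ' τn)) (pu μ P τ' R τ) :=
    eqv_pI μ v1 s1 (vt_th hR hP hC τ) (sm_th hR hP hC hT.sm) (thE_ngg hP τ' τc)
  have u2 : pI μ (thE' P τ' (iv oc)) = pu μ P τ' R (iv om) := by
    rw [pu, cutH_iv]
  obtain ⟨κ, sκ, eκ⟩ := hT.one
  have u3 : Eqv X (pI μ (thE P τ' τn)) (c₀ • (1 : E → Ext E) + F.d κ) := by
    have := (Eqv.refl (X := X) (c₀ • (1 : E → Ext E))).add eκ
    rw [add_sub_cancel] at this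
    exact u1.trans this
  have u4 := pull_unit (smap_fst' (X := X) (P := P)) sκ u3
  have sκ' : Sm (Tot X P) (pf κ : E × H → Ext (E × H)) := sκ.pull smap_fst'
  -- conclusion
  refine ⟨max (2 * R₂ + 1) (R + 1), le_max_of_le_left (by linarith),
    L - pf κ * oc, sL.sub (sκ'.mul soc), fun z hz => ?_, ?_⟩
  · have z1 : L z = 0 := vL z (lt_of_le_of_lt (le_max_left _ _) hz)
    have z2 : oc z = 0 := Vt.cutH hR z (lt_of_le_of_lt (le_max_right _ _) hz)
    change L z - F.pull Prod.fst κ z * oc z = 0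
    rw [z1, z2, mul_zero, sub_zero]
  · exact fin_aux sL sκ' soc coc (by rw [← u2]; exact eL) u4 eo

end Crest.Agent.R208.VE
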