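import Crest.Agent.R208.VE7
import Crest.Agent.R208.EX7

/-! Row 208, block VE (helper812).  VE8: the horizontal form `aH = Av b - θ ξ` and the forms
`ξ`, `ι YY` upstairs. -/

set_option autoImplicit false
set_option linter.unusedSectionVars false
set_option linter.unusedVariables false

open MeasureTheory Set Filter Topology Module
open scoped ContDiff
open Crest.Agent.R208.F Crest.Agent.R208.FI Crest.Agent.R208.CW Crest.Agent.R208.T
open Crest.Agent.R208.CM (Cir gen)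
open Crest.Agent.R208.VC
open Crest.Agent.R208.EX (Cn)

noncomputable section

namespace Crest.Agent.R208.VE

universe u v

section up
variable {E : Type u} [NormedAddCommGroup E] [NormedSpace ℝ E] [FiniteDimensional ℝ E]
  {F' : Type v} [NormedAddCommGroup F'] [NormedSpace ℝ F'] [FiniteDimensional ℝ F']
  {m : ℕ} {X : Set E} {φ : ℝ → E → E} {a b θ e : E → Ext E} {x : E} {p q : ℕ} {l r s : ℝ}

/-- horizontal part of the average -/
def aH (φ : ℝ → E → E) (θ b : E → Ext E) : E → Ext E := Av φ b - θ * xi φ b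

theorem sm_aH (h : Act X φ) (hθ : Cn X φ θ) (hb : Sm X b) : Sm X (aH φ θ b) :=
  (sm_Av h hb).sub (hθ.sm.mul (sm_xi h hb))

theorem inv_aH (h : Act X φ) (hθ : Cn X φ θ) (hb : Sm X b) : Inv X φ (aH φ θ b) :=
  (inv_Av h hb).sub (hθ.inv.mul (inv_xi h hb))

theorem th_odd (hθ : Cn X φ θ) (x : E) : F.inv (θ x) = - θ x := EX.inv_of_hom1 hθ.hom x

theorem ev_aH (h : Act X φ) (hθ : Cn X φ θ) (hb : Sm X b) (he : ∀ x ∈ X, F.inv (b x) = b x)
    (hx : x ∈ X) : F.inv (aH φ θ b x) = aH φ θ b x := by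
  have h1 := Av_even h hb he hx
  have h2 := xi_odd h hb he hx
  change F.inv (Av φ b x - θ x * xi φ b x) = Av φ b x - θ x * xi φ b x
  rw [map_sub, map_mul, h1, h2, th_odd hθ x, neg_mul_neg]

theorem hz_aH (h : Act X φ) (hθ : Cn X φ θ) (hb : Sm X b) (he : ∀ x ∈ X, F.inv (b x) = b x) :
    Hz X φ (aH φ θ b) := by
  refine Eqv.of_eq fun x hx => ?_
  change ii (gen φ x) (Av φ b x - θ x * xi φ b x) = 0
  have h1 : ii (gen φ x) (Av φ b x) = xi φ b x := rfl
  have h2 : ii (gen φ x) (xi φ b x) = 0 := ii_ii _ _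
  rw [map_sub, ii_mul, hθ.unit x hx, one_mul, h1, h2, mul_zero, add_zero, sub_self]

theorem d_aH (h : Act X φ) (hX : Sub m X) (hθ : Cn X φ θ) (hb : Sm X b) (hc : Cl X b) :
    Eqv X (F.d (aH φ θ b)) (-(F.d θ * xi φ b)) := by
  refine (d_sub_eqv (sm_Av h hb) (hθ.sm.mul (sm_xi h hb))).trans ?_
  have h1 : Eqv X (F.d (Av φ b)) 0 := resZero_iff.1 (cl_Av h hX hb hc)
  have h2 : Eqv X (F.d (θ * xi φ b)) (F.d θ * xi φ b) := d_mul_cl hθ.sm (sm_xi h hb)
    (cl_xi h hX hb hc)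
  have := h1.sub h2
  rwa [zero_sub] at this

theorem aH_mul_xi (h : Act X φ) (hθ : Cn X φ θ) (hb : Sm X b) (he : ∀ x ∈ X, F.inv (b x) = b x)
    (hx : x ∈ X) : aH φ θ b x * xi φ b x = Av φ b x * xi φ b x := by
  change (Av φ b x - θ x * xi φ b x) * xi φ b x = _
  rw [sub_mul, mul_assoc, xi_sq h hb he hx, mul_zero, sub_zero]

/-- the form `ι YY` -/
def Qf (φ : ℝ → E → E) (b : E → Ext E) : E → Ext E := iV φ (YY φ b)

theorem sm_Qf (h : Act X φ) (hb : Sm X b) : Sm X (Qf φ b) := sm_iYY h hb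
theorem inv_Qf (h : Act X φ) (hb : Sm X b) : Inv X φ (Qf φ b) := Inv.iV h (inv_YY h hb)
theorem hz_Qf (φ : ℝ → E → E) (b : E → Ext E) : Hz X φ (Qf φ b) := hz_iV φ _

theorem d_Qf (h : Act X φ) (hX : Sub m X) (hθ : Cn X φ θ) (hb : Dat X b) :
    Eqv X (F.d (Qf φ b)) (-((3 : ℝ) • (aH φ θ b * aH φ θ b * xi φ b))) := by
  refine (d_iYY h hX hb.sm hb.cl hb.ev hb.cube).trans (Eqv.of_eq fun x hx => ?_)
  have h1 := aH_mul_xi h hθ hb.sm hb.ev hx
  have h2 := ev_aH h hθ hb.sm hb.ev hx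
  have h3 := Av_even h hb.sm hb.ev hx
  change -((3 : ℝ) • (Av φ b x * Av φ b x * xi φ b x)) =
    -((3 : ℝ) • (aH φ θ b x * aH φ θ b x * xi φ b x))
  have h4 : aH φ θ b x * aH φ θ b x * xi φ b x = Av φ b x * Av φ b x * xi φ b x := by
    rw [mul_assoc (aH φ θ b x), h1, ← mul_assoc (aH φ θ b x), even_comm h2 (Av φ b x),
      mul_assoc (Av φ b x), h1, mul_assoc]
  rw [h4]

/-- vanishing of `ι YY` at the points with constant orbit loops -/
theorem rs_Qf_eq_zero (h : Act X φ) (hb : Sm X b) (he : ∀ x ∈ X, F.inv (b x) = b x) (hx : x ∈ X)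
    (h0 : ∀ s, ii (tg h hx) (cv X φ b x s) = 0) : rsL X x (Qf φ b x) = 0 := by
  have h1 : ii (tg h hx) (MM (cv X φ b x)) = 0 := by
    rw [← rs_xi h hb hx]; exact rs_xi_eq_zero h hb hx h0
  rw [Qf, rs_iYY h hb he hx]
  simp [h0, h1]

/-- the general form -/
def vl (φ : ℝ → E → E) (e : E → Ext E) (p q : ℕ) (l r s : ℝ) (b : E → Ext E) : E → Ext E :=
  l • psi φ b - r • (e ^ p * xi φ b) - s • (e ^ q * (Av φ b * xi φ b))

theorem vl_one : vl φ e p q 1 r s b = vv φ e p q r s b := by rw [vl, vv, one_smul]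

theorem vl_two (h : Act X φ) (hb : Dat X b) :
    Eqv X (vv (dbl φ) ((1 / 2 : ℝ) • e) p q r s b)
      (vl φ e p q 4 (r * 2 * (1 / 2) ^ p) (s * 2 * (1 / 2) ^ q) b) := vv_dbl h hb

theorem vl_eqv (h : Act X φ) (hθ : Cn X φ θ) (hb : Dat X b) :
    Eqv X (vl φ e p q l r s b) (l • (xi φ b * Qf φ b) - r • (e ^ p * xi φ b) -
      s • (e ^ q * (aH φ θ b * xi φ b))) := by
  refine Eqv.of_eq fun x hx => ?_
  have h1 := aH_mul_xi h hθ hb.sm hb.ev hx
  change l • (xi φ b x * Qf φ b x) - r • ((e ^ p) x * xi φ b x) -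
    s • ((e ^ q) x * (Av φ b x * xi φ b x)) = l • (xi φ b x * Qf φ b x) -
    r • ((e ^ p) x * xi φ b x) - s • ((e ^ q) x * (aH φ θ b x * xi φ b x))
  rw [h1]

/-- at the points with constant orbit loops the average is the form itself -/
theorem rs_aH_const {f : E → F'} {om : F' → Ext F'} {U : Set E} (hU : IsOpen U) (h : Act X φ)
    (hθ : Cn X φ θ) (hf : ∀ x ∈ X, DifferentiableAt ℝ f x) (hb : Sm X (F.pull f om))
    (hc : ∀ x ∈ X ∩ U, ∀ t, f (φ t x) = f x) (hx : x ∈ X ∩ U) :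
    rsL X x (aH φ θ (F.pull f om) x) = rsL X x (F.pull f om x) := by
  have h0 : ∀ s, ii (tg h hx.1) (cv X φ (F.pull f om) x s) = 0 :=
    ii_cv_pull h hx.1 (fun t => hf _ (h.maps t hx.1)) (hc x hx)
  have h1 := rs_xi_eq_zero h hb hx.1 h0
  have h2 : ∀ s, cv X φ (F.pull f om) x s = rsL X x (F.pull f om x) := by
    intro s
    rw [cv, Wn_eq h hx.1]
    have e1 : F.pull (φ (2 * Real.pi * s)) (F.pull f om) x =
        F.pull (fun z => f (φ (2 * Real.pi * s) z)) om x :=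
      F.pull_comp ((smap h _).diff hx.1) (hf _ (h.maps _ hx.1))
    rw [e1, rsL_apply, rsL_apply]
    have e3 : Eqv (X ∩ U) (F.pull (fun z => f (φ (2 * Real.pi * s) z)) om) (F.pull f om) :=
      eqv_pull_of_eq om (fun z hz => (hf _ (h.maps _ hz.1)).comp z ((smap h _).diff hz.1))
        (fun z hz => hf z hz.1) fun z hz => hc z hz _
    have e4 := T.eqv_of_open hU e3 hx.1 hx.2
    exact e4
  have h3 : rsL X x (Av φ (F.pull f om) x) = rsL X x (F.pull f om x) := by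
    rw [rs_Av h hb hx.1, MM]
    simp only [h2]
    simp
  rw [rsL_apply] at h1 h3
  rw [rsL_apply, rsL_apply, aH, Pi.sub_apply, Pi.mul_apply, map_sub, map_mul, h1, mul_zero,
    sub_zero, h3, rsL_apply]

end up

end Crest.Agent.R208.VE
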