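import Crest.Agent.R208.VE8
import Crest.Agent.R208.CBN1

/-! Row 208, block VE (helper812).  VE9: the forms `ξ`, `a`, `Q` on the total space of the descended
field over the quotient. -/

set_option autoImplicit false
set_option linter.unusedSectionVars false
set_option linter.unusedVariables false

open MeasureTheory Set Filter Topology Module
open scoped ContDiff
open Crest.Agent.R208.F Crest.Agent.R208.FI Crest.Agent.R208.CW Crest.Agent.R208.T
open Crest.Agent.R208.CM (Cir gen Rep Triv phR Th)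
open Crest.Agent.R208.VC
open Crest.Agent.R208.EX (Cn)
open Crest.Agent.R208.TP (QM)

noncomputable section

namespace Crest.Agent.R208.VE

section desc
variable {E E' : Type*} [NormedAddCommGroup E] [NormedSpace ℝ E] [FiniteDimensional ℝ E]
  [NormedAddCommGroup E'] [NormedSpace ℝ E'] [FiniteDimensional ℝ E']
  {X : Set E} {Y : Set E'} {φ : ℝ → E → E} {q : E → E'} {om : E → Ext E}

theorem contDiff_iv {a : E → Ext E} (h : ContDiff ℝ ∞ a) : ContDiff ℝ ∞ (iv a) :=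
  (invL (E := E)).contDiff.comp h

/-- descent of basic forms with a parity: `s = 1` even, `s = -1` odd -/
theorem exists_basic_par (hq : QM X φ Y q) (h : Cir X φ) (hs : Sm X om) (hi : Inv X φ om)
    (hz : Hz X φ om) {s : ℝ} (hss : s * s = 1) (he : ∀ x ∈ X, F.inv (om x) = s • om x) :
    ∃ om' : E' → Ext E', ContDiff ℝ ∞ om' ∧ (∀ y, F.inv (om' y) = s • om' y) ∧
      Eqv X (F.pull q om') om := by
  obtain ⟨V, sV, eV⟩ := hq.exists_basic h hs hi hz
  refine ⟨(1 / 2 : ℝ) • (V + s • iv V), ?_, fun y => ?_, ?_⟩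
  · exact (sV.add ((contDiff_iv sV).const_smul s)).const_smul (1 / 2 : ℝ)
  · change F.inv ((1 / 2 : ℝ) • (V y + s • F.inv (V y))) = s • ((1 / 2 : ℝ) • (V y + s • F.inv (V y)))
    rw [map_smul, map_add, map_smul, F.inv_inv, smul_comm s, smul_add s, smul_smul s s, hss,
      one_smul, add_comm]
  · rw [pull_smul', pull_add', pull_smul', pull_iv]
    have h1 : Eqv X (iv (F.pull q V)) (iv om) := VE.Eqv.iv eV
    have h2 : Eqv X (iv om) (s • om) := Eqv.of_eq fun x hx => he x hx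
    have h3 := ((eV.add ((h1.trans h2).smul s)).smul (1 / 2 : ℝ))
    refine h3.trans (Eqv.of_eq fun x hx => ?_)
    change (1 / 2 : ℝ) • (om x + s • s • om x) = om x
    rw [smul_smul, hss, one_smul, ← two_smul ℝ (om x), smul_smul]
    norm_num

theorem exists_basic_ev (hq : QM X φ Y q) (h : Cir X φ) (hs : Sm X om) (hi : Inv X φ om)
    (hz : Hz X φ om) (he : ∀ x ∈ X, F.inv (om x) = om x) :
    ∃ om' : E' → Ext E', ContDiff ℝ ∞ om' ∧ Ev om' ∧ Eqv X (F.pull q om') om := by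
  obtain ⟨V, h1, h2, h3⟩ := exists_basic_par hq h hs hi hz (s := 1) (by norm_num)
    (fun x hx => by rw [one_smul]; exact he x hx)
  exact ⟨V, h1, fun y => by rw [h2 y, one_smul], h3⟩

theorem exists_basic_od (hq : QM X φ Y q) (h : Cir X φ) (hs : Sm X om) (hi : Inv X φ om)
    (hz : Hz X φ om) (he : ∀ x ∈ X, F.inv (om x) = - om x) :
    ∃ om' : E' → Ext E', ContDiff ℝ ∞ om' ∧ Od om' ∧ Eqv X (F.pull q om') om := by
  obtain ⟨V, h1, h2, h3⟩ := exists_basic_par hq h hs hi hz (s := -1) (by norm_num)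
    (fun x hx => by rw [neg_smul, one_smul]; exact he x hx)
  exact ⟨V, h1, fun y => by rw [h2 y, neg_smul, one_smul], h3⟩

end desc

section setting
variable {E E' W V F' : Type} [NormedAddCommGroup E] [NormedSpace ℝ E] [FiniteDimensional ℝ E]
  [NormedAddCommGroup E'] [NormedSpace ℝ E'] [FiniteDimensional ℝ E']
  [NormedAddCommGroup W] [InnerProductSpace ℝ W] [FiniteDimensional ℝ W]
  [NormedAddCommGroup V] [InnerProductSpace ℝ V] [FiniteDimensional ℝ V]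
  [NormedAddCommGroup F'] [NormedSpace ℝ F'] [FiniteDimensional ℝ F']

/-- the setting: a family `f1` over the total space of `P` over `X`, and the quotient -/
structure St (X : Set E) (Y : Set E') (φ : ℝ → E → E) (q : E → E') (R : ℝ → W →L[ℝ] W)
    (T : E → W →L[ℝ] V) (P : E → W →L[ℝ] W) (P' : E' → V →L[ℝ] V) (r d d' : ℕ) (S : Set F')
    (om : F' → Ext F') (θ0 : E → Ext E) (e : E' → Ext E') (f1 : E × W → F') (ρ : ℝ) : Prop where
  act : Act X φ
  hq : QM X φ Y q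
  hQ : QM (Tot X P) (phR φ R) (Tot Y P') (Th q T)
  hC : Cir (Tot X P) (phR φ R)
  hT : Triv X φ R T
  hX : Sub d X
  hP : PField X r P
  hY : Sub d' Y
  hP' : PField Y r P'
  cn : Cn X φ θ0
  hf : SMap (Tot X P) S f1
  dat : Dat S om
  const : ∀ y ∈ Tot X P, ρ < ‖y.2‖ → ∀ t, f1 (phR φ R t y) = f1 y
  ρ0 : 0 ≤ ρ
  se : Sm Y e
  ce : Cl Y e
  ee : Ev e
  he : Eqv X (F.pull q e) (F.d θ0)

/-- descended forms -/
structure Dn (X : Set E) (φ : ℝ → E → E) (q : E → E') (R : ℝ → W →L[ℝ] W)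
    (T : E → W →L[ℝ] V) (P : E → W →L[ℝ] W) (om : F' → Ext F') (θ0 : E → Ext E)
    (f1 : E × W → F') (ξ a Q : E' × V → Ext (E' × V)) : Prop where
  sx : ContDiff ℝ ∞ ξ
  sa : ContDiff ℝ ∞ a
  sQ : ContDiff ℝ ∞ Q
  ox : Od ξ
  ea : Ev a
  px : Eqv (Tot X P) (F.pull (Th q T) ξ) (xi (phR φ R) (F.pull f1 om))
  pa : Eqv (Tot X P) (F.pull (Th q T) a)
    (aH (phR φ R) (F.pull (Prod.fst : E × W → E) θ0) (F.pull f1 om))
  pQ : Eqv (Tot X P) (F.pull (Th q T) Q) (Qf (phR φ R) (F.pull f1 om))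

variable {X : Set E} {Y : Set E'} {φ : ℝ → E → E} {q : E → E'} {R : ℝ → W →L[ℝ] W}
  {T : E → W →L[ℝ] V} {P : E → W →L[ℝ] W} {P' : E' → V →L[ℝ] V} {r d d' : ℕ} {S : Set F'}
  {om : F' → Ext F'} {θ0 : E → Ext E} {e : E' → Ext E'} {f1 : E × W → F'} {ρ : ℝ}
  {ξ a Q : E' × V → Ext (E' × V)}

namespace St

variable (h : St X Y φ q R T P P' r d d' S om θ0 e f1 ρ)
include h

theorem A : Act (Tot X P) (phR φ R) := Act.of_cir h.hC
theorem dt : Dat (Tot X P) (F.pull f1 om) := h.dat.pull h.hf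
theorem sT : Sub (d + r) (Tot X P) := h.hP.sub_tot h.hX
theorem sT' : Sub (d' + r) (Tot Y P') := h.hP'.sub_tot h.hY

theorem cn' : Cn (Tot X P) (phR φ R) (F.pull (Prod.fst : E × W → E) θ0) :=
  h.cn.pull h.act h.A smap_fst' fun _ _ _ => rfl

theorem exists_Dn : ∃ ξ a Q : E' × V → Ext (E' × V), Dn X φ q R T P om θ0 f1 ξ a Q := by
  have hb := h.dt
  have hA := h.A
  obtain ⟨ξ, x1, x2, x3⟩ := exists_basic_od h.hQ h.hC (sm_xi hA hb.sm) (inv_xi hA hb.sm)
    (hz_xi _ _) fun x hx => xi_odd hA hb.sm hb.ev hx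
  obtain ⟨a, a1, a2, a3⟩ := exists_basic_ev h.hQ h.hC (sm_aH hA h.cn' hb.sm)
    (inv_aH hA h.cn' hb.sm) (hz_aH hA h.cn' hb.sm hb.ev) fun x hx => ev_aH hA h.cn' hb.sm hb.ev hx
  obtain ⟨Q, q1, q3⟩ := h.hQ.exists_basic h.hC (sm_Qf hA hb.sm) (inv_Qf hA hb.sm) (hz_Qf _ _)
  exact ⟨ξ, a, Q, x1, a1, q1, x2, a2, x3, a3, q3⟩

/-- the orbit loops are constant outside -/
theorem cv0 {z : E × W} (hz : z ∈ Tot X P) (h1 : ρ < ‖z.2‖) (s : ℝ) :
    ii (tg h.A hz) (cv (Tot X P) (phR φ R) (F.pull f1 om) z s) = 0 :=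
  ii_cv_pull h.A hz (fun t => h.hf.diff (h.A.maps t hz)) (h.const z hz h1) s

/-- a form on the quotient whose pull-back vanishes outside -/
theorem cs_of {v : E' × V → Ext (E' × V)} {w : E × W → Ext (E × W)}
    (hv : Eqv (Tot X P) (F.pull (Th q T) v) w)
    (h0 : ∀ z ∈ Tot X P, ρ < ‖z.2‖ → rsL (Tot X P) z (w z) = 0) : Cs Y P' ρ v := by
  refine eqv_iff.2 fun y hy => ?_
  obtain ⟨z, hz, rfl⟩ := h.hQ.surj y hy.1
  have h1 : ρ < ‖z.2‖ := by
    have h2 : ρ < ‖(Th q T z).2‖ := hy.2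
    have h3 : ‖(Th q T z).2‖ = ‖z.2‖ := h.hT.iso _ hz.1 _
    rwa [h3] at h2
  have h2 : pb (Tan (Tot Y P') (Th q T z)).subtype (v (Th q T z)) =
      pb (Tan (Tot Y P') (Th q T z)).subtype 0 := by
    refine h.hQ.pt_of_pull hz ?_
    have h3 := eqv_iff.1 hv z hz
    have h4 := h0 z hz h1
    rw [rsL_apply] at h4
    rw [h4] at h3
    rw [map_zero, map_zero]
    exact h3
  have h5 : rsL (Tot Y P') (Th q T z) (v (Th q T z)) = rsL (Tot Y P') (Th q T z) 0 := by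
    rw [rsL_apply, rsL_apply]; exact h2
  exact EX.rs_sub (X' := Tot Y P' ∩ {z | ρ < ‖z.2‖}) inter_subset_left h5

end St

namespace Dn

variable (h : St X Y φ q R T P P' r d d' S om θ0 e f1 ρ)
  (D : Dn X φ q R T P om θ0 f1 ξ a Q)
include h D

theorem cs_x : Cs Y P' ρ ξ := h.cs_of D.px fun z hz h1 =>
  rs_xi_eq_zero h.A h.dt.sm hz (h.cv0 hz h1)

theorem cs_Q : Cs Y P' ρ Q := h.cs_of D.pQ fun z hz h1 =>
  rs_Qf_eq_zero h.A h.dt.sm h.dt.ev hz (h.cv0 hz h1)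

omit h in
theorem smx : Sm (Tot Y P') ξ := fun _ _ => D.sx.contDiffAt
omit h in
theorem sma : Sm (Tot Y P') a := fun _ _ => D.sa.contDiffAt
omit h in
theorem smQ : Sm (Tot Y P') Q := fun _ _ => D.sQ.contDiffAt

theorem cl_x : Cl (Tot Y P') ξ := h.hQ.cl_of_pull D.smx
  (Cl.of_eqv h.sT (D.smx.pull h.hQ.smap) (sm_xi h.A h.dt.sm) D.px
    (cl_xi h.A h.sT h.dt.sm h.dt.cl))

/-- the pull-back of `pf e` -/
theorem pull_e : Eqv (Tot X P) (F.pull (Th q T) (pf e : E' × V → Ext (E' × V)))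
    (F.d (F.pull (Prod.fst : E × W → E) θ0)) := by
  have h1 : Eqv (Tot X P) (F.pull (Th q T) (pf e : E' × V → Ext (E' × V)))
      (F.pull (Prod.fst : E × W → E) (F.pull q e)) :=
    (eqv_pull_pull h.hQ.smap smap_fst' (h.hq.smap.comp smap_fst') (fun _ _ => rfl) e).trans
      (eqv_pull_pull smap_fst' h.hq.smap (h.hq.smap.comp smap_fst') (fun _ _ => rfl) e).symm
  exact h1.trans ((h.he.pull smap_fst').trans (d_pull_eqv smap_fst' h.cn.sm).symm)

theorem d_a : Eqv (Tot Y P') (F.d a) (-(pf e * ξ)) := by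
  refine h.hQ.eqv_of_pull ?_
  have h1 : Eqv (Tot X P) (F.pull (Th q T) (F.d a))
      (F.d (aH (phR φ R) (F.pull (Prod.fst : E × W → E) θ0) (F.pull f1 om))) :=
    (d_pull_eqv h.hQ.smap D.sma).symm.trans
      (Crest.Agent.R208.T.Eqv.d h.sT (D.sma.pull h.hQ.smap) (sm_aH h.A h.cn' h.dt.sm) D.pa)
  refine (h1.trans (d_aH h.A h.sT h.cn' h.dt.sm h.dt.cl)).trans ?_
  rw [pull_neg', pull_mul']
  exact ((pull_e h D).mul D.px).neg.symm

theorem d_Q : Eqv (Tot Y P') (F.d Q) (-((3 : ℝ) • (a * a * ξ))) := by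
  refine h.hQ.eqv_of_pull ?_
  have h1 : Eqv (Tot X P) (F.pull (Th q T) (F.d Q)) (F.d (Qf (phR φ R) (F.pull f1 om))) :=
    (d_pull_eqv h.hQ.smap D.smQ).symm.trans
      (Crest.Agent.R208.T.Eqv.d h.sT (D.smQ.pull h.hQ.smap) (sm_Qf h.A h.dt.sm) D.pQ)
  refine (h1.trans (d_Qf h.A h.sT h.cn' h.dt)).trans ?_
  rw [pull_neg', pull_smul', pull_mul', pull_mul']
  exact (((D.pa.mul D.pa).mul D.px).smul (3 : ℝ)).neg.symm

/-- the form `vl` on the quotient -/
theorem pv {v : E' × V → Ext (E' × V)} {p p' : ℕ} {l s t : ℝ}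
    (hv : Eqv (Tot X P) (F.pull (Th q T) v)
      (vl (phR φ R) (F.d (F.pull (Prod.fst : E × W → E) θ0)) p p' l s t (F.pull f1 om))) :
    Eqv (Tot Y P') v (l • (ξ * Q) - s • (pf (e ^ p) * ξ) - t • (pf (e ^ p') * (a * ξ))) := by
  refine h.hQ.eqv_of_pull ?_
  refine (hv.trans (vl_eqv h.A h.cn' h.dt)).trans ?_
  have hp : ∀ n : ℕ, Eqv (Tot X P) (F.pull (Th q T) (pf (e ^ n) : E' × V → Ext (E' × V)))
      (F.d (F.pull (Prod.fst : E × W → E) θ0) ^ n) := fun n => by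
    have h1 : (pf (e ^ n) : E' × V → Ext (E' × V)) = (pf e : E' × V → Ext (E' × V)) ^ n :=
      VC.pull_pow' e n
    rw [h1, VC.pull_pow']
    exact EX.eqv_pow (pull_e h D) n
  rw [pull_sub', pull_sub', pull_smul', pull_smul', pull_smul', pull_mul', pull_mul', pull_mul',
    pull_mul']
  exact ((((D.px.mul D.pQ).smul l).sub (((hp p).mul D.px).smul s)).sub
    (((hp p').mul (D.pa.mul D.px)).smul t)).symm

end Dn

end setting

end Crest.Agent.R208.VE
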