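import Crest.Agent.R208.LC2
import Crest.Agent.R208.SB5
import Crest.Agent.R208.VE7

/-! Row 208, block VD (helper589).  VEd589a: the fibre integral `VE.pu` at a point, against the Thom
form of the complement, as an integral over `Eu r` in an orthonormal frame of the fibre. -/

set_option autoImplicit false
set_option linter.unusedSectionVars false
set_option linter.unusedVariables false

open MeasureTheory Set Filter Topology Module Matrix
open scoped ContDiff
open Crest.Agent.R208.F Crest.Agent.R208.FI Crest.Agent.R208.CW Crest.Agent.R208.T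
open Crest.Agent.R208.SN (kGG)

noncomputable section

namespace Crest.Agent.R208.VD

section A
variable {n ι' : Type*} [Fintype n] [DecidableEq n] [Fintype ι'] [DecidableEq ι']
  {E E' : Type*} [NormedAddCommGroup E] [NormedSpace ℝ E] [FiniteDimensional ℝ E]
  [NormedAddCommGroup E'] [NormedSpace ℝ E'] [FiniteDimensional ℝ E']
  {X : Set E} {P : E → EuclideanSpace ℝ n →L[ℝ] EuclideanSpace ℝ n}
  {W' : E → (ι' × Fin 2 → n) → ℝ} {x : E} {g : Matrix n (ι' × Fin 2) ℝ} {r d : ℕ}
  {f : Fin r → EuclideanSpace ℝ n} {R R₁ : ℝ}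

theorem hasFDerivAt_cst (x : E) (z : E' × EuclideanSpace ℝ n) :
    HasFDerivAt (LC.cst E' x : E' × EuclideanSpace ℝ n → E × EuclideanSpace ℝ n)
      ((0 : E' × EuclideanSpace ℝ n →L[ℝ] E).prod
        (ContinuousLinearMap.snd ℝ E' (EuclideanSpace ℝ n))) z :=
  (hasFDerivAt_const x z).prodMk hasFDerivAt_snd

theorem diff_cst (x : E) (z : E' × EuclideanSpace ℝ n) :
    DifferentiableAt ℝ (LC.cst E' x : E' × EuclideanSpace ℝ n → E × EuclideanSpace ℝ n) z :=
  (hasFDerivAt_cst x z).differentiableAt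

theorem diff_P {z : E × EuclideanSpace ℝ n} (hP : DifferentiableAt ℝ P z.1) :
    DifferentiableAt ℝ (fun z : E × EuclideanSpace ℝ n => P z.1 z.2) z := by
  have h1 : DifferentiableAt ℝ (fun z : E × EuclideanSpace ℝ n => P z.1) z :=
    DifferentiableAt.comp (g := P) (f := fun z : E × EuclideanSpace ℝ n => z.1) z hP
      differentiableAt_fst
  exact h1.clm_apply differentiableAt_snd

theorem diff_gam {z : E × EuclideanSpace ℝ n} (hP : DifferentiableAt ℝ P z.1) :
    DifferentiableAt ℝ (gam P) z :=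
  differentiableAt_fst.prodMk (differentiableAt_snd.sub (diff_P hP))

theorem diff_nbet {z : E × EuclideanSpace ℝ n} (hP : DifferentiableAt ℝ P z.1) :
    DifferentiableAt ℝ (nbet P) z :=
  differentiableAt_fst.prodMk (diff_P hP).neg

set_option maxHeartbeats 1000000 in
theorem pull_cst_thE' (hP : DifferentiableAt ℝ P x)
    (τ' om : E × EuclideanSpace ℝ n → Ext (E × EuclideanSpace ℝ n)) (z : E' × EuclideanSpace ℝ n) :
    F.pull (LC.cst E' x) (thE' P τ' om) z =
      thE' (fun _ : E' => P x) (F.pull (LC.cst E' x) τ') (F.pull (LC.cst E' x) om) z := by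
  have d0 := diff_cst x z
  have hP' : DifferentiableAt ℝ P (LC.cst E' x z).1 := hP
  have hc : DifferentiableAt ℝ (fun _ : E' => P x) z.1 := differentiableAt_const _
  have g1 : (gam P ∘ LC.cst E' x : E' × EuclideanSpace ℝ n → E × EuclideanSpace ℝ n) =
      LC.cst E' x ∘ gam (fun _ : E' => P x) := funext fun z => rfl
  have g2 : (nbet P ∘ LC.cst E' x : E' × EuclideanSpace ℝ n → E × EuclideanSpace ℝ n) =
      LC.cst E' x ∘ nbet (fun _ : E' => P x) := funext fun z => rfl
  have e1 : F.pull (LC.cst E' x) (F.pull (gam P) τ') z =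
      F.pull (gam (fun _ : E' => P x)) (F.pull (LC.cst E' x) τ') z := by
    rw [F.pull_comp d0 (diff_gam hP'), F.pull_comp (diff_gam hc) (diff_cst x _), g1]
  have e2 : F.pull (LC.cst E' x) (F.pull (nbet P) om) z =
      F.pull (nbet (fun _ : E' => P x)) (F.pull (LC.cst E' x) om) z := by
    rw [F.pull_comp d0 (diff_nbet hP'), F.pull_comp (diff_nbet hc) (diff_cst x _), g2]
  rw [thE', thE', pull_mul', Pi.mul_apply, Pi.mul_apply, e1, e2]

theorem isDeg_cF {c : Ext (E × EuclideanSpace ℝ n)} (hc : IsDeg r c) : IsDeg 0 (LC.cF E f c) := by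
  rw [LC.cF_apply]
  exact (isDeg_iisF (q := 0) _ (by rwa [zero_add])).pb _

theorem cF_eq {c : Ext (E × EuclideanSpace ℝ n)} (hc : IsDeg r c) : LC.cF E f c =
    (evA (E × EuclideanSpace ℝ n) r c (fun k => ((0 : E), f k))) • (1 : Ext E) := by
  rw [eq_algebraMap_of_isDeg (isDeg_cF hc) ![], LC.evA_cF, Algebra.algebraMap_eq_smul_one]
  congr 1
  have h1 : Fin.append (fun k => ((0 : E), f k)) (fun k : Fin 0 => ((![] k : E),
      (0 : EuclideanSpace ℝ n))) = fun k => ((0 : E), f k) := by
    rw [Fin.append_right_nil _ _ rfl]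
    rfl
  exact congrArg _ h1

theorem evA_pull_cst {q : ℕ} (w : E × EuclideanSpace ℝ n → Ext (E × EuclideanSpace ℝ n))
    (z : E' × EuclideanSpace ℝ n) (v : Fin q → EuclideanSpace ℝ n) :
    evA (E' × EuclideanSpace ℝ n) q (F.pull (LC.cst E' x) w z) (fun k => ((0 : E'), v k)) =
      evA (E × EuclideanSpace ℝ n) q (w (x, z.2)) (fun k => ((0 : E), v k)) := by
  rw [F.pull, evA_pb, (hasFDerivAt_cst x z).fderiv]
  rfl

/-- **the fibre integral at a point** -/
theorem pu_val [Nonempty ι'] (hD : LC.Dat P W' x g f) (hx : x ∈ X) (hR : 0 ≤ R)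
    (hP : PField X r P) (hC : VE.Co X P R₁ (thomF (fun x => 1 - P x) W'))
    {om : E × EuclideanSpace ℝ n → Ext (E × EuclideanSpace ℝ n)} (hs : Sm (Tot X P) om)
    (hom : T.Hom r om) :
    VE.pu volume P (thomF (fun x => 1 - P x) W') R om x = algebraMap ℝ (Ext E)
      (kGG ι' * (hD.adp.mat.det * (-1) ^ r) * ∫ b : Eu r, evA (E × EuclideanSpace ℝ n) r
        (cutH R om (x, LC.cmb f b)) (fun k => ((0 : E), f k))) := by
  set τ' : E × EuclideanSpace ℝ n → Ext (E × EuclideanSpace ℝ n) :=
    thomF (fun x => 1 - P x) W' with hτ'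
  set w := cutH R om with hw
  have homw : T.Hom r w := T.Hom.cutH hom
  have hPd : DifferentiableAt ℝ P x := hD.cd.differentiableAt (by simp)
  have v1 := VE.vt_th hR hP hC om
  have s1 := VE.sm_th hR hP hC hs
  -- degrees
  have hfr : finrank ℝ (EuclideanSpace ℝ n) = 2 * Fintype.card ι' + r := by
    rw [hD.adp.finrank]; ring
  have hdeg : ∀ z, IsDeg (0 + finrank ℝ (EuclideanSpace ℝ n)) (thE' P τ' w z) := by
    intro z
    rw [zero_add, hfr]
    exact IsDeg.mul ((thomF_deg _).pb _) ((homw _).pb _)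
  have h0 := eq_algebraMap_of_isDeg (isDeg_pI (volume : Measure (EuclideanSpace ℝ n)) hdeg x) ![]
  set s := evA E 0 (pI (volume : Measure (EuclideanSpace ℝ n)) (thE' P τ' w) x) ![] with hs'
  have h1 := pI_pull (volume : Measure (EuclideanSpace ℝ n)) (E' := E) (f := fun _ : E => x)
    (y := x) (differentiableAt_const x) v1 (fun v => (s1 (x, v) ⟨hx, mem_univ _⟩).continuousAt)
  have h2 : F.pull (fun _ : E => x) (pI (volume : Measure (EuclideanSpace ℝ n)) (thE' P τ' w)) x =
      algebraMap ℝ (Ext E) s := by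
    change pb _ (pI (volume : Measure (EuclideanSpace ℝ n)) (thE' P τ' w) x) = _
    rw [h0, AlgHom.commutes]
  have h3 : pI (volume : Measure (EuclideanSpace ℝ n))
      (F.pull (fun z : E × EuclideanSpace ℝ n => (x, z.2)) (thE' P τ' w)) x =
      TP.push volume (fun _ : E => P x) (F.pull (LC.cst E x) τ') (F.pull (LC.cst E x) w) x := by
    rw [TP.push, pI_eq, pI_eq]
    refine integral_congr_ae (Eventually.of_forall fun v => ?_)
    exact congrArg _ (pull_cst_thE' hPd τ' w (x, v))
  have h4 := LC.push_const hD (F.pull (LC.cst E x) w) x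
  have h5 : ∀ b : Eu r, LC.cF E f (F.pull (LC.cst E x) w (x, LC.cmb f b)) =
      (evA (E × EuclideanSpace ℝ n) r (w (x, LC.cmb f b)) (fun k => ((0 : E), f k))) •
        (1 : Ext E) := by
    intro b
    have h6 : IsDeg r (F.pull (LC.cst E x) w (x, LC.cmb f b)) := (homw _).pb _
    rw [cF_eq h6, evA_pull_cst]
  simp only [h5] at h4
  rw [integral_smul_const, smul_smul] at h4
  change pI volume (thE' P τ' w) x = _
  rw [h0, ← h2, ← h1, h3, h4, Algebra.algebraMap_eq_smul_one]

end A

end Crest.Agent.R208.VD
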