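import Crest.Agent.R208.VEd589a

/-! Row 208, block VD (helper589).  VEd589b: the value of `d (rx b)` on adapted frames of the fibre,
the polar integral. -/

set_option autoImplicit false
set_option linter.unusedSectionVars false
set_option linter.unusedVariables false

open MeasureTheory Set Filter Topology Module Matrix
open scoped ContDiff RealInnerProductSpace Nat
open Crest.Agent.R208.F Crest.Agent.R208.FI Crest.Agent.R208.CW Crest.Agent.R208.T
open Crest.Agent.R208.SN (kGG)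

noncomputable section

namespace Crest.Agent.R208.VD

/-! ### the radial profile -/

/-- `4 ks t * t` is the derivative of the radial profile -/
def ks (t : ℝ) : ℝ := deriv Real.smoothTransition (2 * t ^ 2 - 1)

theorem hasDerivAt_st (s : ℝ) :
    HasDerivAt Real.smoothTransition (deriv Real.smoothTransition s) s :=
  ((Real.smoothTransition.contDiff (n := 1)).differentiable (by norm_num) s).hasDerivAt

theorem hasDerivAt_kap (t : ℝ) :
    HasDerivAt (fun t : ℝ => Real.smoothTransition (2 * t ^ 2 - 1)) (4 * ks t * t) t := by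
  have h1 : HasDerivAt (fun t : ℝ => 2 * t ^ 2 - 1) (2 * (2 * t)) t := by
    have := ((hasDerivAt_pow 2 t).const_mul 2).sub_const 1
    simpa using this
  have h2 := (hasDerivAt_st (2 * t ^ 2 - 1)).comp t h1
  refine h2.congr_deriv ?_
  rw [ks]
  ring

theorem ks_big {t : ℝ} (ht : 1 < t) : ks t = 0 := by
  have h1 : Real.smoothTransition =ᶠ[𝓝 (2 * t ^ 2 - 1)] fun _ => 1 := by
    have h2 : (1 : ℝ) < 2 * t ^ 2 - 1 := by nlinarith
    filter_upwards [lt_mem_nhds h2] with s hs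
    exact Real.smoothTransition.one_of_one_le hs.le
  rw [ks, h1.deriv_eq, deriv_const]

theorem continuous_ks : Continuous ks := by
  have h1 : Continuous (deriv Real.smoothTransition) :=
    (Real.smoothTransition.contDiff (n := 1)).continuous_deriv le_rfl
  exact h1.comp (by fun_prop)

/-- `∫_0^∞ (4 ks t t) = 1` -/
theorem int_ks : ∫ t in Ioi (0 : ℝ), 4 * ks t * t = 1 := by
  have h1 : ∫ t in Ioi (0 : ℝ), 4 * ks t * t = ∫ t in (0 : ℝ)..1, 4 * ks t * t := by
    rw [intervalIntegral.integral_of_le zero_le_one]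
    refine (setIntegral_eq_of_subset_of_forall_sdiff_eq_zero measurableSet_Ioi
      Ioc_subset_Ioi_self fun t ht => ?_)
    have h2 : 1 < t := by
      by_contra h
      exact ht.2 ⟨ht.1, not_lt.1 h⟩
    rw [ks_big h2]; ring
  rw [h1, intervalIntegral.integral_eq_sub_of_hasDerivAt (fun t _ => hasDerivAt_kap t)
    (((continuous_const.mul continuous_ks).mul continuous_id).intervalIntegrable 0 1)]
  rw [Real.smoothTransition.one_of_one_le (by norm_num),
    Real.smoothTransition.zero_of_nonpos (by norm_num), sub_zero]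

/-- the polar integral -/
theorem int_polar (l : ℕ) :
    ∫ b : Eu (2 * l + 1), 4 * ks ‖b‖ * ‖b‖ * ((‖b‖⁻¹) ^ (2 * l) * (((2 * l)! : ℕ) : ℝ)) =
      2 * ((4 * Real.pi) ^ l * (l ! : ℝ)) := by
  have h1 := integral_fun_norm_addHaar (volume : Measure (Eu (2 * l + 1)))
    (fun t : ℝ => 4 * ks t * t * ((t⁻¹) ^ (2 * l) * (((2 * l)! : ℕ) : ℝ)))
  have hfr : finrank ℝ (Eu (2 * l + 1)) = 2 * l + 1 := finrank_euclideanSpace_fin
  have h2 : ∫ y in Ioi (0 : ℝ), y ^ (finrank ℝ (Eu (2 * l + 1)) - 1) •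
      (4 * ks y * y * ((y⁻¹) ^ (2 * l) * (((2 * l)! : ℕ) : ℝ))) = (((2 * l)! : ℕ) : ℝ) := by
    have h3 : ∀ y ∈ Ioi (0 : ℝ), y ^ (finrank ℝ (Eu (2 * l + 1)) - 1) •
        (4 * ks y * y * ((y⁻¹) ^ (2 * l) * (((2 * l)! : ℕ) : ℝ))) =
        (4 * ks y * y) * (((2 * l)! : ℕ) : ℝ) := by
      intro y hy
      have hy0 : y ≠ 0 := ne_of_gt hy
      rw [hfr, Nat.add_sub_cancel, smul_eq_mul]
      have h4 : y ^ (2 * l) * (y⁻¹) ^ (2 * l) = 1 := by
        rw [← mul_pow, mul_inv_cancel₀ hy0, one_pow]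
      linear_combination (4 * ks y * y * (((2 * l)! : ℕ) : ℝ)) * h4
    rw [setIntegral_congr_fun measurableSet_Ioi h3, integral_mul_const, int_ks, one_mul]
  rw [h2] at h1
  rw [h1, hfr]
  have h5 : (volume : Measure (Eu (2 * l + 1))).real (Metric.ball 0 1) =
      Real.pi ^ l * 2 ^ (l + 1) / (((2 * l + 1)‼ : ℕ) : ℝ) := by
    rw [Measure.real, InnerProductSpace.volume_ball_of_dim_odd hfr, ENNReal.ofReal_one, one_pow,
      one_mul, ENNReal.toReal_ofReal (by positivity), hfr]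
  rw [h5, nsmul_eq_mul, smul_eq_mul]
  have h6 : (((2 * l + 1)! : ℕ) : ℝ) = (((2 * l + 1)‼ : ℕ) : ℝ) * (2 ^ l * (l ! : ℝ)) := by
    rw [Nat.factorial_eq_mul_doubleFactorial, Nat.doubleFactorial_two_mul]
    push_cast
    ring
  have h7 : (((2 * l + 1)! : ℕ) : ℝ) = ((2 * l + 1 : ℕ) : ℝ) * (((2 * l)! : ℕ) : ℝ) := by
    rw [Nat.factorial_succ]; push_cast; ring
  have h8 : (((2 * l + 1)‼ : ℕ) : ℝ) ≠ 0 := by
    have := Nat.doubleFactorial_pos (2 * l + 1)
    positivity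
  have h9 : (4 : ℝ) ^ l = 2 ^ l * 2 ^ l := by rw [← mul_pow]; norm_num
  field_simp
  rw [mul_pow, h9]
  rw [h6] at h7
  linear_combination (-(Real.pi ^ l * 2 ^ (l + 1))) * h7

/-! ### adapted frames of the fibre -/
section fr
variable {E H : Type*} [NormedAddCommGroup E] [NormedSpace ℝ E] [FiniteDimensional ℝ E]
  [NormedAddCommGroup H] [InnerProductSpace ℝ H] [FiniteDimensional ℝ H]
  {X : Set E} {P : E → H →L[ℝ] H} {r d : ℕ} {b : E × H → Ext (E × H)}

theorem diff_nrm {z : E × H} (hz : z.2 ≠ 0) :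
    DifferentiableAt ℝ (fun z : E × H => ‖z.2‖) z := by
  have h1 : DifferentiableAt ℝ (fun h : H => ‖h‖) z.2 :=
    (contDiffAt_norm ℝ hz (n := 1)).differentiableAt (by norm_num)
  exact DifferentiableAt.comp (g := fun h : H => ‖h‖) (f := fun z : E × H => z.2) z h1
    differentiableAt_snd

theorem hasFDerivAt_nsq (z : E × H) : HasFDerivAt (fun z : E × H => ‖z.2‖ ^ 2)
    (2 • ((innerSL ℝ z.2).comp (ContinuousLinearMap.snd ℝ E H))) z :=
  (hasFDerivAt_snd (𝕜 := ℝ) (p := z)).norm_sq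

theorem fderiv_nrm {z : E × H} (hz : z.2 ≠ 0) {w : E × H} (hw : ⟪z.2, w.2⟫ = 0) :
    fderiv ℝ (fun z : E × H => ‖z.2‖) z w = 0 := by
  have h1 : HasFDerivAt (fun z : E × H => ‖z.2‖ ^ 2) _ z := (diff_nrm hz).hasFDerivAt.pow 2
  have h3 := congrArg (fun L : E × H →L[ℝ] ℝ => L w) (h1.unique (hasFDerivAt_nsq z))
  have h4 : (2 * ‖z.2‖) * fderiv ℝ (fun z : E × H => ‖z.2‖) z w = 2 * ⟪z.2, w.2⟫ := by
    simpa using h3
  rw [hw, mul_zero] at h4
  exact (mul_eq_zero.1 h4).resolve_left (mul_ne_zero two_ne_zero (norm_ne_zero_iff.2 hz))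

theorem fderiv_rh {z : E × H} (hz : z.2 ≠ 0) {w : H} (hw : ⟪z.2, w⟫ = 0) :
    fderiv ℝ (rh (E := E) (H := H)) z (0, w) = (0, ‖z.2‖⁻¹ • w) := by
  have hn := (diff_nrm hz).hasFDerivAt
  have h0 : ‖z.2‖ ≠ 0 := norm_ne_zero_iff.2 hz
  have h1 : HasFDerivAt (fun z : E × H => ‖z.2‖⁻¹)
      ((-(‖z.2‖ ^ 2)⁻¹) • fderiv ℝ (fun z : E × H => ‖z.2‖) z) z :=
    HasDerivAt.comp_hasFDerivAt z (hasDerivAt_inv h0) hn
  have h2 : HasFDerivAt (fun z : E × H => ‖z.2‖⁻¹ • z.2) _ z :=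
    h1.fun_smul (hasFDerivAt_snd (𝕜 := ℝ) (p := z))
  have h3 : HasFDerivAt (rh (E := E) (H := H)) _ z :=
    (hasFDerivAt_fst (𝕜 := ℝ) (p := z)).prodMk h2
  rw [h3.fderiv]
  have h4 : fderiv ℝ (fun z : E × H => ‖z.2‖) z ((0 : E), w) = 0 := fderiv_nrm hz hw
  simp [h4]

theorem hasFDerivAt_kp (z : E × H) : HasFDerivAt (fun z : E × H => kp z.2)
    ((4 * ks ‖z.2‖) • ((innerSL ℝ z.2).comp (ContinuousLinearMap.snd ℝ E H))) z := by
  have h1 := ((hasFDerivAt_nsq z).const_mul (2 : ℝ)).sub_const (1 : ℝ)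
  have h2 : HasFDerivAt (fun z : E × H => kp z.2) _ z :=
    HasDerivAt.comp_hasFDerivAt z (hasDerivAt_st (2 * ‖z.2‖ ^ 2 - 1)) h1
  refine h2.congr_fderiv ?_
  ext w
  · simp [ks]
  · simp [ks]; ring

theorem fderiv_kp (z : E × H) (w : H) : fderiv ℝ (fun z : E × H => kp z.2) z ((0 : E), w) =
    4 * ks ‖z.2‖ * ⟪z.2, w⟫ := by
  rw [(hasFDerivAt_kp z).fderiv]
  simp

/-- **`d (rx b)` on an adapted frame of the fibre** -/
theorem evA_drx (hX : Sub d X) (hP : PField X (r + 1) P) (hb : Sm (Sph X P) b)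
    (hc : Cl (Sph X P) b) {z : E × H} (hz : z ∈ Tot X P) (hz0 : z.2 ≠ 0) {e : Fin r → H}
    (hPe : ∀ i, P z.1 (e i) = e i) (hin : ∀ i, ⟪z.2, e i⟫ = 0) :
    evA (E × H) (r + 1) (F.d (rx b) z)
      (Matrix.vecCons ((0 : E), ‖z.2‖⁻¹ • z.2) (fun i => ((0 : E), e i))) =
      4 * ks ‖z.2‖ * ‖z.2‖ * ((‖z.2‖⁻¹) ^ r * evA (E × H) r (b (rh z)) (fun i => ((0 : E), e i))) := by
  have hn0 : ‖z.2‖ ≠ 0 := norm_ne_zero_iff.2 hz0
  have hzr := smap_rh (X := X) (P := P) |>.maps ⟨hz, hz0⟩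
  have sp := (hb.pull smap_rh) z ⟨hz, hz0⟩
  have e1 : F.d (rx b) z = io ((fderiv ℝ (fun z : E × H => kp z.2) z : E × H →L[ℝ] ℝ) :
      Module.Dual ℝ (E × H)) * F.pull rh b z + kp z.2 • F.pull rh (F.d b) z := by
    have h1 := F.d_smul (hasFDerivAt_kp z).differentiableAt (sp.differentiableAt (by simp))
    have h2 : F.d (F.pull rh b) z = F.pull rh (F.d b) z :=
      F.d_pull (smap_rh.c2 ⟨hz, hz0⟩) (hb.diff hzr)
    rw [h2] at h1
    exact h1
  -- the second term vanishes on tangent vectors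
  have e2 : Eqv (Tot X P ∩ {z | z.2 ≠ 0}) (F.pull rh (F.d b)) 0 := by
    have := Eqv.pull smap_rh (resZero_iff.1 hc)
    rwa [pull_zero'] at this
  have e3 := eqv_of_open T.isOpen_ne e2 hz hz0
  have ht : ∀ w : H, P z.1 w = w → ((0 : E), w) ∈ Tan (Tot X P) z := fun w hw =>
    SB.vert_mem hX hP hz.1 hz.2 hw
  set A : Fin (r + 1) → E × H := Matrix.vecCons ((0 : E), ‖z.2‖⁻¹ • z.2) (fun i => ((0 : E), e i))
    with hA
  have hAt : ∀ i, A i ∈ Tan (Tot X P) z := by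
    intro i
    refine Fin.cases ?_ (fun i => ?_) i
    · exact ht _ (by rw [map_smul]; exact congrArg _ hz.2)
    · exact ht _ (hPe i)
  have e4 : evA (E × H) (r + 1) (F.pull rh (F.d b) z) A = 0 := by
    have h1 := evA_pb (r + 1) (Tan (Tot X P) z).subtype (F.pull rh (F.d b) z)
      (fun i => (⟨A i, hAt i⟩ : Tan (Tot X P) z))
    rw [e3, Pi.zero_apply, map_zero, map_zero] at h1
    exact h1.symm
  rw [e1, map_add, AlternatingMap.add_apply, map_smul, AlternatingMap.smul_apply, e4, smul_zero,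
    add_zero, evA_io_mul, Fin.sum_univ_succ, Finset.sum_eq_zero, add_zero]
  · have h0 : (fun j => A (Fin.succAbove 0 j)) = fun i => ((0 : E), e i) := by
      funext j
      rw [Fin.succAbove_zero]
      rfl
    have h1 : (((fderiv ℝ (fun z : E × H => kp z.2) z : E × H →L[ℝ] ℝ) :
      Module.Dual ℝ (E × H)) (A 0)) = 4 * ks ‖z.2‖ * ‖z.2‖ := by
      refine (fderiv_kp z (‖z.2‖⁻¹ • z.2)).trans ?_
      rw [inner_smul_right, real_inner_self_eq_norm_sq]
      field_simp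
    have h2 : evA (E × H) r (F.pull rh b z) (fun i => ((0 : E), e i)) =
        (‖z.2‖⁻¹) ^ r * evA (E × H) r (b (rh z)) (fun i => ((0 : E), e i)) := by
      rw [F.pull, evA_pb]
      have h3 : (fun i => ((fderiv ℝ (rh (E := E) (H := H)) z : E × H →L[ℝ] E × H) :
          E × H →ₗ[ℝ] E × H) ((0 : E), e i)) = fun i => ‖z.2‖⁻¹ • ((0 : E), e i) := by
        funext i
        refine (fderiv_rh hz0 (hin i)).trans ?_
        rw [Prod.smul_mk, smul_zero]
      rw [h3]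
      have h4 := (evA (E × H) r (b (rh z))).map_smul_univ (fun _ => ‖z.2‖⁻¹)
        (fun i => ((0 : E), e i))
      rw [h4]
      simp
    rw [h0, h1, h2]
    simp
  · intro i _
    have h5 : (((fderiv ℝ (fun z : E × H => kp z.2) z : E × H →L[ℝ] ℝ) :
      Module.Dual ℝ (E × H)) (A i.succ)) = 0 := by
      refine (fderiv_kp z (e i)).trans ?_
      rw [hin i, mul_zero]
    rw [h5, mul_zero, zero_mul]

end fr

end Crest.Agent.R208.VD
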