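import Crest.Agent.R208.VEd589b
import Crest.Agent.R208.LC3
import Crest.Agent.R208.SN9

/-! Row 208, block VD (helper589).  VEd589c: **W0**: the fibre integral of the vertical Euler form of
an oriented field of odd rank, in the normalisation of `VE.de`, and the Thom data `d (rx eV)`. -/

set_option autoImplicit false
set_option linter.unusedSectionVars false
set_option linter.unusedVariables false

open MeasureTheory Set Filter Topology Module Matrix
open scoped ContDiff RealInnerProductSpace Nat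
open Crest.Agent.R208.F Crest.Agent.R208.FI Crest.Agent.R208.CW Crest.Agent.R208.T
open Crest.Agent.R208.SN (kGG)
open Crest.Agent.R208.SB (oV)
open Crest.Agent.R208.SB.OddB (eV)

noncomputable section

namespace Crest.Agent.R208.VD

/-! ### change of orthonormal frames -/
section ch
variable {H : Type*} [NormedAddCommGroup H] [InnerProductSpace ℝ H] [FiniteDimensional ℝ H]
  {m : ℕ} {Q : H →L[ℝ] H} {A f : Fin m → H}

theorem frame_change (hs : ∀ v w, ⟪Q v, w⟫ = ⟪v, Q w⟫)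
    (hr : finrank ℝ (LinearMap.range (Q : H →ₗ[ℝ] H)) = m) (hA : Orthonormal ℝ A)
    (hQA : ∀ i, Q (A i) = A i) (hf : Orthonormal ℝ f) (hQf : ∀ i, Q (f i) = f i) :
    ∃ M : Matrix (Fin m) (Fin m) ℝ, (∀ k, f k = ∑ l, M k l • A l) ∧ (M.det = 1 ∨ M.det = -1) := by
  set M : Matrix (Fin m) (Fin m) ℝ := Matrix.of fun k l => ⟪A l, f k⟫ with hM
  have h1 : ∀ k, f k = ∑ l, M k l • A l := fun k =>
    (hQf k).symm.trans (UP.expand hs hr hA hQA (f k))
  refine ⟨M, h1, ?_⟩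
  have h2 : M * M.transpose = 1 := by
    ext k k'
    rw [Matrix.mul_apply, Matrix.one_apply]
    have h3 := (orthonormal_iff_ite.1 hf) k' k
    conv_lhs at h3 => rw [h1 k]
    rw [inner_sum] at h3
    simp only [inner_smul_right] at h3
    have h4 : ∑ l, M k l * ⟪f k', A l⟫ = ∑ j, M k j * M.transpose j k' := by
      refine Finset.sum_congr rfl fun l _ => ?_
      rw [Matrix.transpose_apply, hM, Matrix.of_apply, Matrix.of_apply, real_inner_comm (A l)]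
    rw [← h4, h3]
    by_cases h : k = k'
    · rw [if_pos h, if_pos h.symm]
    · rw [if_neg h, if_neg fun h' => h h'.symm]
  have h5 := congrArg Matrix.det h2
  rw [Matrix.det_mul, Matrix.det_transpose, Matrix.det_one] at h5
  exact mul_self_eq_one_iff.1 h5

end ch

section gen
variable {E H : Type*} [NormedAddCommGroup E] [NormedSpace ℝ E] [FiniteDimensional ℝ E]
  [NormedAddCommGroup H] [InnerProductSpace ℝ H] [FiniteDimensional ℝ H]
  {X : Set E} {P : E → H →L[ℝ] H} {r d : ℕ} {b : E × H → Ext (E × H)} {oP : E → Ext H} {c : ℝ}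

theorem sum_mk {m : ℕ} (a : Fin m → ℝ) (A : Fin m → H) :
    (∑ l, a l • ((0 : E), A l)) = ((0 : E), ∑ l, a l • A l) := by
  refine Prod.ext ?_ ?_
  · rw [Prod.fst_sum]; simp
  · rw [Prod.snd_sum]; rfl

/-- the orthonormal frame `(u, e)` -/
theorem on_cons {u : H} {e : Fin r → H} (hu : ‖u‖ = 1) (h2 : ∀ i, ⟪u, e i⟫ = 0)
    (h3 : Orthonormal ℝ e) : Orthonormal ℝ (Matrix.vecCons u e) := by
  classical
  rw [orthonormal_iff_ite]
  intro i j
  refine Fin.cases ?_ (fun i => ?_) i <;> refine Fin.cases ?_ (fun j => ?_) j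
  · change ⟪u, u⟫ = _
    rw [real_inner_self_eq_norm_sq, hu]; simp
  · change ⟪u, e j⟫ = _
    rw [h2 j, if_neg]
    exact fun h => (Fin.succ_ne_zero j) h.symm
  · change ⟪e i, u⟫ = _
    rw [real_inner_comm, h2 i, if_neg]
    exact Fin.succ_ne_zero i
  · change ⟪e i, e j⟫ = _
    rw [(orthonormal_iff_ite.1 h3) i j]
    simp [Fin.succ_inj]

theorem evA_fr_pt (hX : Sub d X) (hP : PField X (r + 1) P)
    (hs : ∀ x ∈ X, ∀ v w, ⟪P x v, w⟫ = ⟪v, P x w⟫) (hb : Sm (Sph X P) b) (hc : Cl (Sph X P) b)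
    (hfr : ∀ z ∈ Sph X P, ∃ e : Fin r → H, (∀ i, P z.1 (e i) = e i) ∧ (∀ i, ⟪z.2, e i⟫ = 0) ∧
      Orthonormal ℝ e ∧ evA (E × H) r (b z) (fun i => ((0 : E), e i)) = c ∧
      0 < evA (E × H) r (oV oP z) (fun i => ((0 : E), e i))) {x : E} (hx : x ∈ X)
    {f : Fin (r + 1) → H} (hf : Orthonormal ℝ f) (hPf : ∀ i, P x (f i) = f i) {v : H}
    (hv : P x v = v) (hv0 : v ≠ 0) :
    ∃ δ : ℝ, (δ = 1 ∨ δ = -1) ∧ 0 < δ * evA H (r + 1) (oP x) f ∧
      evA (E × H) (r + 1) (F.d (rx b) (x, v)) (fun k => ((0 : E), f k)) =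
        δ * (4 * ks ‖v‖ * ‖v‖ * ((‖v‖⁻¹) ^ r * c)) := by
  have hn0 : ‖v‖ ≠ 0 := norm_ne_zero_iff.2 hv0
  have hz : ((x, v) : E × H) ∈ Tot X P := ⟨hx, hv⟩
  have hz0 : ((x, v) : E × H).2 ≠ 0 := hv0
  have hzr : rh ((x, v) : E × H) ∈ Sph X P := (smap_rh (X := X) (P := P)).maps ⟨hz, hz0⟩
  obtain ⟨e, h1, h2, h3, h4, h5⟩ := hfr _ hzr
  have h1' : ∀ i, P x (e i) = e i := h1
  have h2u : ∀ i, ⟪‖v‖⁻¹ • v, e i⟫ = 0 := h2
  have h2' : ∀ i, ⟪v, e i⟫ = 0 := fun i => by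
    have h6 := h2u i
    rw [real_inner_smul_left] at h6
    exact (mul_eq_zero.1 h6).resolve_left (inv_ne_zero hn0)
  have hPu : P x (‖v‖⁻¹ • v) = ‖v‖⁻¹ • v := by rw [map_smul, hv]
  have hun : ‖‖v‖⁻¹ • v‖ = 1 := by
    rw [norm_smul, norm_inv, norm_norm, inv_mul_cancel₀ hn0]
  have hAP : ∀ i, P x (Matrix.vecCons (‖v‖⁻¹ • v) e i) = Matrix.vecCons (‖v‖⁻¹ • v) e i := by
    intro i
    refine Fin.cases ?_ (fun i => ?_) i
    · exact hPu
    · exact h1' i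
  have hAo := on_cons hun h2u h3
  obtain ⟨M, hM1, hM2⟩ := frame_change (hs x hx) (hP.rank x hx) hAo hAP hf hPf
  refine ⟨M.det, hM2, ?_, ?_⟩
  · have e1 := evA_comb (r + 1) (oP x) _ f M hM1
    have e2 : evA H (r + 1) (oP x) (Matrix.vecCons (‖v‖⁻¹ • v) e) =
        evA (E × H) r (oV oP (rh ((x, v) : E × H))) (fun i => ((0 : E), e i)) := by
      rw [evA_ii, oV, evA_pb]
      rfl
    rw [e1, e2, ← mul_assoc]
    have h7 : 0 < M.det * M.det := by
      rcases hM2 with h | h <;> rw [h] <;> norm_num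
    exact mul_pos h7 h5
  · have e1 := evA_comb (r + 1) (F.d (rx b) (x, v))
      (Matrix.vecCons ((0 : E), ‖v‖⁻¹ • v) (fun i => ((0 : E), e i)))
      (fun k => ((0 : E), f k)) M (fun k => by
        have e2 : (Matrix.vecCons ((0 : E), ‖v‖⁻¹ • v) (fun i => ((0 : E), e i)) :
            Fin (r + 1) → E × H) = fun l => ((0 : E), Matrix.vecCons (‖v‖⁻¹ • v) e l) := by
          funext l
          refine Fin.cases ?_ (fun l => ?_) l <;> rfl
        rw [e2, sum_mk, ← hM1 k])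
    have e3 := evA_drx hX hP hb hc hz hz0 h1' h2'
    rw [h4] at e3
    rw [e1]
    exact congrArg _ e3

theorem evA_fr_gen (hX : Sub d X) (hP : PField X (r + 1) P)
    (hs : ∀ x ∈ X, ∀ v w, ⟪P x v, w⟫ = ⟪v, P x w⟫) (hb : Sm (Sph X P) b) (hc : Cl (Sph X P) b)
    (hfr : ∀ z ∈ Sph X P, ∃ e : Fin r → H, (∀ i, P z.1 (e i) = e i) ∧ (∀ i, ⟪z.2, e i⟫ = 0) ∧
      Orthonormal ℝ e ∧ evA (E × H) r (b z) (fun i => ((0 : E), e i)) = c ∧
      0 < evA (E × H) r (oV oP z) (fun i => ((0 : E), e i))) {x : E} (hx : x ∈ X)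
    {f : Fin (r + 1) → H} (hf : Orthonormal ℝ f) (hPf : ∀ i, P x (f i) = f i) :
    ∃ sg : ℝ, (sg = 1 ∨ sg = -1) ∧ ∀ v, P x v = v →
      evA (E × H) (r + 1) (F.d (rx b) (x, v)) (fun k => ((0 : E), f k)) =
        sg * (4 * ks ‖v‖ * ‖v‖ * ((‖v‖⁻¹) ^ r * c)) := by
  classical
  refine ⟨if 0 < evA H (r + 1) (oP x) f then 1 else -1, by split_ifs <;> simp, fun v hv => ?_⟩
  by_cases hv0 : v = 0
  · subst hv0
    have h2 := rx_near_zero b (z := ((x, (0 : H)) : E × H)) (by simp)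
    have h1 : F.d (rx b) (x, (0 : H)) = 0 := by
      rw [F.d_congr h2, F.d_const]
    rw [h1, map_zero]
    simp
  · obtain ⟨δ, hM, hp, he⟩ := evA_fr_pt hX hP hs hb hc hfr hx hf hPf hv hv0
    rw [he]
    congr 1
    rcases hM with h | h
    · rw [h, one_mul] at hp
      rw [h, if_pos hp]
    · rw [h] at hp
      rw [h, if_neg (by linarith)]

end gen

section C
variable {E : Type} [NormedAddCommGroup E] [NormedSpace ℝ E] [FiniteDimensional ℝ E]
  {n ι ι' : Type} [Fintype n] [DecidableEq n] [Fintype ι] [DecidableEq ι]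
  [Fintype ι'] [DecidableEq ι']
  {X : Set E} {P : E → EuclideanSpace ℝ n →L[ℝ] EuclideanSpace ℝ n} {r d : ℕ}
  {oP : E → Ext (EuclideanSpace ℝ n)} {W' : E → (ι' × Fin 2 → n) → ℝ} {R : ℝ}

/-- the value of `d (rx eV)` on a frame of the fibre -/
theorem evA_fr [Nonempty ι] (h : SB.OddB ι X r P oP) (hX : Sub d X) {x : E} (hx : x ∈ X)
    {f : Fin (r + 1) → EuclideanSpace ℝ n} (hf : Orthonormal ℝ f) (hPf : ∀ i, P x (f i) = f i) :
    ∃ sg : ℝ, (sg = 1 ∨ sg = -1) ∧ ∀ v, P x v = v →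
      evA (E × EuclideanSpace ℝ n) (r + 1) (F.d (rx (eV ι h.hr P oP)) (x, v))
        (fun k => ((0 : E), f k)) =
        sg * (4 * ks ‖v‖ * ‖v‖ * ((‖v‖⁻¹) ^ r * ((r ! : ℕ) : ℝ))) :=
  evA_fr_gen hX h.pf h.sy h.ec_eV.sm h.ec_eV.cl (fun z hz => h.exists_fr hz) hx hf hPf

theorem co_thomF [Nonempty ι'] (hX : Sub d X) (h' : OR X (fun x => 1 - P x) W') :
    VE.Co X P 3 (thomF (fun x => 1 - P x) W') :=
  ⟨csf_thomF hX h', fun z => thomF_even z⟩

/-- the integrand -/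
theorem cut_val {E H : Type*} [NormedAddCommGroup E] [NormedSpace ℝ E] [FiniteDimensional ℝ E]
    [NormedAddCommGroup H] [InnerProductSpace ℝ H] [FiniteDimensional ℝ H]
    {w : E × H → Ext (E × H)} {q : ℕ} {x : E} {v : H} {F : Fin q → E × H} {sg c : ℝ}
    (hR : 1 ≤ R) (h : evA (E × H) q (w (x, v)) F =
      sg * (4 * ks ‖v‖ * ‖v‖ * ((‖v‖⁻¹) ^ r * c))) :
    evA (E × H) q (cutH R w (x, v)) F = sg * (4 * ks ‖v‖ * ‖v‖ * ((‖v‖⁻¹) ^ r * c)) := by
  have hR0 := zero_le_one.trans hR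
  have h4 : evA (E × H) q (cutH R w (x, v)) F = chi R v * evA (E × H) q (w (x, v)) F := by
    rw [cutH, map_smul, AlternatingMap.smul_apply, smul_eq_mul]
  rw [h4, h]
  rcases le_or_gt ‖v‖ R with h5 | h5
  · rw [chi_one hR0 h5, one_mul]
  · rw [ks_big (lt_of_le_of_lt hR h5)]; ring

theorem kGG_pos [Nonempty ι'] : 0 < kGG ι' := by rw [SN.kGG_eq]; positivity

theorem int_val {k δ sg : ℝ} {l : ℕ} (hk : 0 ≤ k) (hsg : sg = 1 ∨ sg = -1) {D : ℝ} (hD : |δ| = D)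
    {F : Eu (2 * l + 1) → ℝ} (hF : ∀ b, F b =
      sg * (4 * ks ‖b‖ * ‖b‖ * ((‖b‖⁻¹) ^ (2 * l) * (((2 * l)! : ℕ) : ℝ)))) (q : ℕ) :
    |k * (δ * (-1) ^ q) * ∫ b : Eu (2 * l + 1), F b| =
      D * k * (2 * ((4 * Real.pi) ^ l * (l ! : ℝ))) := by
  simp only [hF]
  rw [integral_const_mul, int_polar]
  have hsga : |sg| = 1 := by rcases hsg with h | h <;> rw [h] <;> simp
  have h0 : (0 : ℝ) ≤ 2 * ((4 * Real.pi) ^ l * (l ! : ℝ)) := by positivity
  rw [abs_mul, abs_mul, abs_mul, abs_mul, hD, abs_pow, abs_neg, abs_one, one_pow, mul_one, hsga,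
    one_mul, abs_of_nonneg hk, abs_of_nonneg h0]
  ring

/-- **W0 at a point** -/
theorem W0_pt_gen [Nonempty ι'] {l : ℕ} {b : E × EuclideanSpace ℝ n → Ext (E × EuclideanSpace ℝ n)}
    (h' : OR X (fun x => 1 - P x) W') (hX : Sub d X) (hP : PField X (2 * l + 1) P)
    (hs : ∀ x ∈ X, ∀ v w, ⟪P x v, w⟫ = ⟪v, P x w⟫) (hb : Sm (Sph X P) b) (hc : Cl (Sph X P) b)
    (hbh : T.Hom (2 * l) b)
    (hfr : ∀ z ∈ Sph X P, ∃ e : Fin (2 * l) → EuclideanSpace ℝ n, (∀ i, P z.1 (e i) = e i) ∧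
      (∀ i, ⟪z.2, e i⟫ = 0) ∧ Orthonormal ℝ e ∧
      evA (E × EuclideanSpace ℝ n) (2 * l) (b z) (fun i => ((0 : E), e i)) =
        (((2 * l)! : ℕ) : ℝ) ∧
      0 < evA (E × EuclideanSpace ℝ n) (2 * l) (oV oP z) (fun i => ((0 : E), e i)))
    (hR : 1 ≤ R) {x : E} (hx : x ∈ X) :
    ∃ s : ℝ, |s| = LC.del (EuclideanSpace ℝ n) * kGG ι' * (2 * ((4 * Real.pi) ^ l * (l ! : ℝ))) ∧
      VE.de volume P (thomF (fun x => 1 - P x) W') R b x = algebraMap ℝ (Ext E) s := by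
  have hR0 := zero_le_one.trans hR
  have hC := co_thomF hX h'
  obtain ⟨g, f, hD⟩ := LC.exists_dat h' hP hx
  obtain ⟨sg, hsg, hv⟩ := evA_fr_gen hX hP hs hb hc hfr hx hD.adp.on'' hD.pf
  have h1 := pu_val hD hx hR0 hP hC (T.Sm.rx hb).d (T.Hom.rx hbh).d
  refine ⟨_, ?_, h1⟩
  refine int_val kGG_pos.le hsg hD.adp.abs_det (fun b' => ?_) _
  have h3 := cut_val hR (hv (LC.cmb f b') (hD.P_f b'))
  rw [LC.norm_cmb hD.adp.on''] at h3
  exact h3

theorem W0_pt [Nonempty ι] [Nonempty ι'] (h : SB.OddB ι X r P oP)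
    (h' : OR X (fun x => 1 - P x) W') (hX : Sub d X) (hR : 1 ≤ R) {x : E} (hx : x ∈ X) :
    ∃ s : ℝ, |s| = LC.del (EuclideanSpace ℝ n) * kGG ι' * (2 * XF.tau ι) ∧
      VE.de volume P (thomF (fun x => 1 - P x) W') R (eV ι h.hr P oP) x =
        algebraMap ℝ (Ext E) s := by
  obtain rfl := h.hr
  exact W0_pt_gen h' hX h.pf h.sy h.ec_eV.sm h.ec_eV.cl (SB.OddB.hom_eV h.hr)
    (fun z hz => h.exists_fr hz) hR hx

/-- **W0** -/
theorem W0 [Nonempty ι] [Nonempty ι'] (h : SB.OddB ι X r P oP)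
    (h' : OR X (fun x => 1 - P x) W') (hX : Sub d X) (hXc : IsPreconnected X) (hR : 1 ≤ R) :
    ∃ ε : ℝ, (ε = 1 ∨ ε = -1) ∧ ∀ x ∈ X,
      VE.de volume P (thomF (fun x => 1 - P x) W') R (eV ι h.hr P oP) x =
        ((ε * (LC.del (EuclideanSpace ℝ n) * kGG ι' * (2 * XF.tau ι))) •
          (1 : E → Ext E)) x := by
  have hR0 := zero_le_one.trans hR
  have hC := co_thomF hX h'
  set D := VE.de volume P (thomF (fun x => 1 - P x) W') R (eV ι h.hr P oP) with hDd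
  have sD : Sm X D := VE.de_sm volume hX hR h.pf hC h.ec_eV.sm
  set c := LC.del (EuclideanSpace ℝ n) * kGG ι' * (2 * XF.tau ι) with hc
  have hcp : 0 < c := by
    have h1 : 0 < kGG ι' := by rw [SN.kGG_eq]; positivity
    have h2 := LC.del_pos (EuclideanSpace ℝ n)
    have h3 := XF.tau_pos ι
    positivity
  have hpt : ∀ x ∈ X, |evA E 0 (D x) ![]| = c ∧
      D x = algebraMap ℝ (Ext E) (evA E 0 (D x) ![]) := by
    intro x hx
    obtain ⟨s, h1, h2⟩ := W0_pt h h' hX hR hx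
    have h3 : D x = algebraMap ℝ (Ext E) s := h2
    rw [h3, evA_zero_algebraMap]
    exact ⟨h1, rfl⟩
  have hcont : ContinuousOn (fun x => evA E 0 (D x) ![]) X := by
    intro x hx
    let Lm : Ext E →ₗ[ℝ] ℝ :=
      { toFun := fun c => evA E 0 c ![]
        map_add' := fun a b => by simp
        map_smul' := fun r a => by simp }
    exact ((LinearMap.toContinuousLinearMap Lm).continuous.continuousAt.comp
      (sD x hx).continuousAt).continuousWithinAt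
  obtain ⟨ε, hε, hεp⟩ := LC.sign_const hXc hcont (fun x hx h0 => by
    have := (hpt x hx).1
    rw [h0, abs_zero] at this
    exact hcp.ne this)
  refine ⟨ε, hε, fun x hx => ?_⟩
  obtain ⟨h1, h2⟩ := hpt x hx
  have h3 := hεp x hx
  have h4 : evA E 0 (D x) ![] = ε * c := by
    rcases hε with h | h
    · rw [h, one_mul] at h3 ⊢
      rw [← h1, abs_of_pos h3]
    · rw [h] at h3 ⊢
      have h5 : evA E 0 (D x) ![] < 0 := by linarith
      rw [← h1, abs_of_neg h5]; ring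
  rw [h2, h4, Algebra.algebraMap_eq_smul_one]
  rfl

/-- the exterior derivative of an even form is odd, everywhere -/
theorem od_d {b : E → Ext E} (hb : VE.Ev b) : VE.Od (F.d b) := by
  intro x
  by_cases hd : DifferentiableAt ℝ b x
  · have h1 := d_inv hd
    have h2 : (fun y => F.inv (b y)) = b := funext hb
    rw [h2] at h1
    rw [eq_comm, neg_eq_iff_eq_neg]
    exact h1
  · rw [F.d, fderiv_zero_of_not_differentiableAt hd]
    simp

theorem ev_rx {b : E × EuclideanSpace ℝ n → Ext (E × EuclideanSpace ℝ n)} (hb : VE.Ev b) :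
    VE.Ev (rx b) := by
  intro z
  rw [rx, map_smul, F.pull, ← pb_inv, hb]

/-- the positive number `|w₀|` -/
def w0 (n ι ι' : Type) [Fintype n] [Fintype ι] [Fintype ι'] : ℝ :=
  LC.del (EuclideanSpace ℝ n) * kGG ι' * (2 * XF.tau ι)

theorem w0_pos [Nonempty ι'] : 0 < w0 n ι ι' := by
  have h1 : 0 < kGG ι' := by rw [SN.kGG_eq]; positivity
  have h2 := LC.del_pos (EuclideanSpace ℝ n)
  have h3 := XF.tau_pos ι
  rw [w0]
  positivity

/-- **W0 and the Thom data**: one constant for `de (eV)` and `pu (d (rx eV))`, every radius -/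
theorem th1 [Nonempty ι] [Nonempty ι'] (h : SB.OddB ι X r P oP)
    (h' : OR X (fun x => 1 - P x) W') (hX : Sub d X) (hXc : IsPreconnected X) (hR : 1 ≤ R) :
    ∃ w₀ : ℝ, |w₀| = w0 n ι ι' ∧ w₀ ≠ 0 ∧
      Coh X (VE.de volume P (thomF (fun x => 1 - P x) W') R (eV ι h.hr P oP))
        (w₀ • (1 : E → Ext E)) ∧
      VE.Th1 volume X P (thomF (fun x => 1 - P x) W') R w₀ (F.d (rx (eV ι h.hr P oP))) := by
  obtain ⟨ε, hε, h1⟩ := W0 h h' hX hXc hR
  have hw := w0_pos (n := n) (ι := ι) (ι' := ι')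
  have hc : Coh X (VE.de volume P (thomF (fun x => 1 - P x) W') R (eV ι h.hr P oP))
      ((ε * w0 n ι ι') • (1 : E → Ext E)) := Coh.of_eqv (Eqv.of_eq h1)
  have hne : ε * w0 n ι ι' ≠ 0 := by
    rcases hε with h | h <;> rw [h] <;> simp [hw.ne']
  refine ⟨ε * w0 n ι ι', ?_, hne, hc, ?_⟩
  · rcases hε with h | h <;> rw [h] <;> simp [abs_of_pos hw]
  · exact ⟨(T.Sm.rx h.ec_eV.sm).d, d_d' (T.Sm.rx h.ec_eV.sm),
      (VE.cs_drx h.ec_eV.sm h.ec_eV.cl).mono hR, od_d (ev_rx h.ec_eV.inv), hc, hne⟩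

end C

end Crest.Agent.R208.VD
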