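import Crest.Agent.R208.CW4
import Crest.Agent.R208.DEG2

/-!
R208, block (X3) (helper683), part VX1: the Chern series of a real bundle of even rank `k` over a
space whose even classes of degree `< 2k` live in degree `k` only.
-/

set_option autoImplicit false
set_option linter.unusedSectionVars false

open MeasureTheory Set Filter Topology Module
open scoped ContDiff
open Crest.Agent.R208.F Crest.Agent.R208.FI Crest.Agent.R208.CW
open Crest.Agent.R208.T (HD)

noncomputable section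

namespace Crest.Agent.R208.VX

variable {E : Type*} [NormedAddCommGroup E] [NormedSpace ℝ E] [FiniteDimensional ℝ E]
  {n : Type*} [Fintype n] [DecidableEq n] {X : Set E} {dX k : ℕ}

theorem cc_congr (hX : Sub dX X) {Q Q' : E → Matrix n n ℂ} (hQ : IdF X Q) (hQ' : IdF X Q')
    (h : ∀ x ∈ X, Q x = Q' x) (j : ℕ) : cc hX hQ j = cc hX hQ' j := by
  rw [cc_eq_el, cc_eq_el]
  exact el_congr fun i _ _ => sc_congr hX hQ hQ' h i

theorem cc_conj_eq (hX : Sub dX X) {Q : E → Matrix n n ℂ} (hQ : IdF X Q) (j : ℕ) :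
    cc hX hQ.conj j = H.conj X (cc hX hQ j) := by
  rw [cc_eq_el, cc_eq_el, el_map]
  exact el_congr fun i _ _ => sc_conj hX hQ i

/-- odd Chern classes of a real bundle vanish -/
theorem cc_real_odd (hX : Sub dX X) {Q : E → Matrix n n ℂ} (hQ : IdF X Q)
    (hr : ∀ x ∈ X, (Q x).map (starRingEnd ℂ) = Q x) {j : ℕ} (hj : Odd j) : cc hX hQ j = 0 := by
  have h1 := cc_conj hX hQ j
  rw [cc_congr hX hQ.conj hQ hr j, hj.neg_one_pow, neg_one_mul] at h1
  have h2 : (2 : ℂ) • cc hX hQ j = 0 := by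
    rw [two_smul]; nth_rewrite 1 [h1]; exact neg_add_cancel _
  have h3 := congrArg (fun a => (2 : ℂ)⁻¹ • a) h2
  simpa only [smul_smul, smul_zero, inv_mul_cancel₀ (two_ne_zero' ℂ), one_smul] using h3

/-- Chern classes of a real bundle are real -/
theorem conj_cc_real (hX : Sub dX X) {Q : E → Matrix n n ℂ} (hQ : IdF X Q)
    (hr : ∀ x ∈ X, (Q x).map (starRingEnd ℂ) = Q x) (j : ℕ) :
    H.conj X (cc hX hQ j) = cc hX hQ j := by
  rw [← cc_conj_eq, cc_congr hX hQ.conj hQ hr j]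

/-- a symmetric class in the span of `a`, `b` is a multiple of `a + b` -/
theorem symm_span {A : Type*} [CommRing A] [Algebra ℂ A] (σ : A →ₐ[ℂ] A) {a b c : A}
    (hab : σ a = b) (hba : σ b = a) (hc : σ c = c) {α β : ℂ} (h : c = α • a + β • b) :
    c = ((α + β) / 2) • (a + b) := by
  have h1 : c = α • b + β • a := by
    rw [← hc, h, map_add, map_smul, map_smul, hab, hba]
  have h2 : c = (2 : ℂ)⁻¹ • (c + c) := by
    rw [← two_smul ℂ c, smul_smul, inv_mul_cancel₀ (two_ne_zero' ℂ), one_smul]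
  rw [h2]
  conv_lhs => rw [show c + c = (α • a + β • b) + (α • b + β • a) by rw [← h, ← h1]]
  module

theorem real_smul {c a : H X} {μ : ℂ} (hc : H.conj X c = c) (ha : H.conj X a = a)
    (h : c = μ • a) : c = ((μ.re : ℝ) : ℂ) • a := by
  have h1 : c = (starRingEnd ℂ μ) • a := by
    rw [← hc, h, H.conj_smul, ha]
  have h2 : c = (2 : ℂ)⁻¹ • (c + c) := by
    rw [← two_smul ℂ c, smul_smul, inv_mul_cancel₀ (two_ne_zero' ℂ), one_smul]
  have h3 : μ + starRingEnd ℂ μ = 2 * ((μ.re : ℝ) : ℂ) := by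
    rw [Complex.add_conj]; push_cast; ring
  rw [h2]
  conv_lhs => rw [show c + c = μ • a + (starRingEnd ℂ μ) • a by rw [← h, ← h1]]
  rw [← add_smul, h3, smul_smul]
  congr 1
  ring

/-- **Chern series of a real bundle of even rank `k`** -/
theorem cs_real (hX : Sub dX X) {Q : E → Matrix n n ℂ} (hQ : IdF X Q)
    (hr : ∀ x ∈ X, (Q x).map (starRingEnd ℂ) = Q x) (hk : Even k) (hk2 : 2 ≤ k)
    (hrk : ∀ x ∈ X, (Q x).rank ≤ k) {a b : H X}
    (h0 : ∀ j, 0 < j → j < k → 2 * j ≠ k → HD X (2 * j) = ⊥)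
    (hmid : ∃ α β : ℂ, cc hX hQ (k / 2) = α • a + β • b)
    (σ : H X →ₐ[ℂ] H X) (hab : σ a = b) (hba : σ b = a)
    (hσ : σ (cc hX hQ (k / 2)) = cc hX hQ (k / 2))
    (ha : H.conj X a = a) (hb : H.conj X b = b) (htop : cc hX hQ k = (a - b) ^ 2) :
    ∃ μ : ℝ, (Odd (k / 2) → μ = 0) ∧ cc hX hQ (k / 2) = (μ : ℂ) • (a + b) ∧
      cs hX hQ = 1 + PowerSeries.C ((μ : ℂ) • (a + b)) * PowerSeries.X ^ (k / 2) +
        PowerSeries.C ((a - b) ^ 2) * PowerSeries.X ^ k := by
  have key : ∃ μ : ℝ, (Odd (k / 2) → μ = 0) ∧ cc hX hQ (k / 2) = (μ : ℂ) • (a + b) := by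
    by_cases hodd : Odd (k / 2)
    · exact ⟨0, fun _ => rfl, by rw [cc_real_odd hX hQ hr hodd]; simp⟩
    · obtain ⟨α, β, h1⟩ := hmid
      exact ⟨_, fun h => absurd h hodd, real_smul (conj_cc_real hX hQ hr _)
        (by rw [map_add, ha, hb]) (symm_span σ hab hba hσ h1)⟩
  obtain ⟨μ, h1, h2⟩ := key
  refine ⟨μ, h1, h2, ?_⟩
  obtain ⟨m, hm⟩ := hk
  have hm0 : 0 < m := by omega
  have hkm : k / 2 = m := by omega
  ext j
  rw [coeff_cs, map_add, map_add, PowerSeries.coeff_one, PowerSeries.coeff_C_mul,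
    PowerSeries.coeff_C_mul, PowerSeries.coeff_X_pow, PowerSeries.coeff_X_pow]
  rcases Nat.eq_zero_or_pos j with rfl | hj
  · rw [cc_zero, if_pos rfl, if_neg (by omega), if_neg (by omega)]; simp
  · rw [if_neg (by omega : ¬ j = 0)]
    by_cases hj1 : j = k / 2
    · rw [if_pos hj1, if_neg (by omega), hj1, h2]; simp
    · by_cases hj2 : j = k
      · rw [if_neg (by omega), if_pos hj2, hj2, htop]; simp
      · rw [if_neg hj1, if_neg hj2]
        simp only [mul_zero, add_zero]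
        rcases lt_or_ge j k with hlt | hge
        · have h3 := T.cc_mem_HD hX hQ j
          rw [h0 j hj hlt (by omega)] at h3
          exact (Submodule.mem_bot ℂ).1 h3
        · exact cc_eq_zero hX hQ fun x hx => lt_of_le_of_lt (hrk x hx) (by omega)

end Crest.Agent.R208.VX
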