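import Crest.Agent.R208.GQ1b
import Crest.Agent.R208.TI3
import Crest.Agent.R208.CW8b
import Crest.Agent.R208.CW7b

/-! Row 208, block XE (helper126), (X4').  XE1: the abstract form of the computation of the Euler
class of `T_p C_q`: division of the Whitney formula by the Euler class of `V`. -/

set_option autoImplicit false
set_option linter.unusedSectionVars false

open MeasureTheory Set Filter Topology Module
open scoped ContDiff RealInnerProductSpace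
open Crest.Agent.R208.F Crest.Agent.R208.FI Crest.Agent.R208.CW Crest.Agent.R208.T

noncomputable section

namespace Crest.Agent.R208.XE

/-! ### algebra -/
section alg
variable {R : Type*} [CommRing R]

/-- `(a - b) ∑ (i + 1) a^i b^(m-1-i) = (m + 1) a^m - ∑ a^i b^(m-i)` -/
theorem alg_id (a b : R) (m : ℕ) :
    (a - b) * ∑ i ∈ Finset.range m, ((i + 1 : ℕ) : R) * (a ^ i * b ^ (m - 1 - i))
      = ((m + 1 : ℕ) : R) * a ^ m - ∑ i ∈ Finset.range (m + 1), a ^ i * b ^ (m - i) := by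
  induction m with
  | zero => simp
  | succ m ih =>
    have e1 : ∑ i ∈ Finset.range (m + 1), ((i + 1 : ℕ) : R) * (a ^ i * b ^ (m + 1 - 1 - i))
        = b * (∑ i ∈ Finset.range m, ((i + 1 : ℕ) : R) * (a ^ i * b ^ (m - 1 - i)))
          + ((m + 1 : ℕ) : R) * a ^ m := by
      rw [Finset.sum_range_succ, Finset.mul_sum]
      congr 1
      · refine Finset.sum_congr rfl fun i hi => ?_
        have hi' := Finset.mem_range.1 hi
        have : m + 1 - 1 - i = (m - 1 - i) + 1 := by omega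
        rw [this, pow_succ]; ring
      · have : m + 1 - 1 - m = 0 := by omega
        rw [this, pow_zero, mul_one]
    have e2 : ∑ i ∈ Finset.range (m + 1 + 1), a ^ i * b ^ (m + 1 - i)
        = b * (∑ i ∈ Finset.range (m + 1), a ^ i * b ^ (m - i)) + a ^ (m + 1) := by
      rw [Finset.sum_range_succ, Finset.mul_sum]
      congr 1
      · refine Finset.sum_congr rfl fun i hi => ?_
        have hi' := Finset.mem_range.1 hi
        have : m + 1 - i = (m - i) + 1 := by omega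
        rw [this, pow_succ]; ring
      · rw [Nat.sub_self, pow_zero, mul_one]
    rw [e1, e2, mul_add, mul_left_comm, ih]
    push_cast
    ring

end alg

section gen
universe u
variable {E : Type u} [NormedAddCommGroup E] [NormedSpace ℝ E] [FiniteDimensional ℝ E]
  {X : Set E} {x₁ x₂ : E → Ext E}

/-- the form `∑ (i + 1) x₁^i x₂^(m-1-i)` -/
def pS (x₁ x₂ : E → Ext E) (m : ℕ) : E → Ext E :=
  ∑ i ∈ Finset.range m, ((i : ℝ) + 1) • (x₁ ^ i * x₂ ^ (m - 1 - i))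

/-- the form `∑ x₁^i x₂^(m-i)` -/
def hS (x₁ x₂ : E → Ext E) (m : ℕ) : E → Ext E :=
  ∑ i ∈ Finset.range (m + 1), x₁ ^ i * x₂ ^ (m - i)

theorem ec_pS (h₁ : EC X x₁) (h₂ : EC X x₂) (m : ℕ) : EC X (pS x₁ x₂ m) :=
  EC.sum fun i _ => ((h₁.pow i).mul (h₂.pow (m - 1 - i))).smul _

theorem ec_hS (h₁ : EC X x₁) (h₂ : EC X x₂) (m : ℕ) : EC X (hS x₁ x₂ m) :=
  EC.sum fun i _ => (h₁.pow i).mul (h₂.pow (m - i))

theorem rcl_pS (h₁ : EC X x₁) (h₂ : EC X x₂) (m : ℕ) : rcl (ec_pS h₁ h₂ m)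
    = ∑ i ∈ Finset.range m, ((i + 1 : ℕ) : CW.H X) * (rcl h₁ ^ i * rcl h₂ ^ (m - 1 - i)) := by
  refine (rcl_sum _ fun i => ((h₁.pow i).mul (h₂.pow (m - 1 - i))).smul ((i : ℝ) + 1)).trans ?_
  refine Finset.sum_congr rfl fun i _ => ?_
  rw [rcl_smul _ ((h₁.pow i).mul (h₂.pow (m - 1 - i))), rcl_mul (h₁.pow i) (h₂.pow (m - 1 - i)),
    rcl_pow h₁, rcl_pow h₂, Algebra.smul_def]
  congr 1
  push_cast
  simp

theorem rcl_hS (h₁ : EC X x₁) (h₂ : EC X x₂) (m : ℕ) : rcl (ec_hS h₁ h₂ m)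
    = ∑ i ∈ Finset.range (m + 1), rcl h₁ ^ i * rcl h₂ ^ (m - i) := by
  refine (rcl_sum _ fun i => (h₁.pow i).mul (h₂.pow (m - i))).trans ?_
  refine Finset.sum_congr rfl fun i _ => ?_
  rw [rcl_mul (h₁.pow i) (h₂.pow (m - i)), rcl_pow h₁, rcl_pow h₂]

theorem Hom.sum {j : ℕ} {κ : Type*} {s : Finset κ} {w : κ → E → Ext E}
    (h : ∀ i ∈ s, Hom j (w i)) : Hom j (∑ i ∈ s, w i) := by
  classical
  induction s using Finset.induction_on with
  | empty => rw [Finset.sum_empty]; exact Hom.zero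
  | insert i s hi ih =>
    rw [Finset.sum_insert hi]
    exact (h i (Finset.mem_insert_self _ _)).add (ih fun i hi => h i (Finset.mem_insert_of_mem hi))

theorem hom_pS {k : ℕ} (h₁ : Hom k x₁) (h₂ : Hom k x₂) (m : ℕ) :
    Hom (k * (m - 1)) (pS x₁ x₂ m) := by
  refine Hom.sum fun i hi => Hom.smul _ ?_
  have hi' := Finset.mem_range.1 hi
  have := (h₁.pow i).mul (h₂.pow (m - 1 - i))
  rw [← Nat.mul_add] at this
  have e : i + (m - 1 - i) = m - 1 := by omega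
  rwa [e] at this

theorem hom_hS {k : ℕ} (h₁ : Hom k x₁) (h₂ : Hom k x₂) (m : ℕ) :
    Hom (k * m) (hS x₁ x₂ m) := by
  refine Hom.sum fun i hi => ?_
  have hi' := Finset.mem_range.1 hi
  have := (h₁.pow i).mul (h₂.pow (m - i))
  rw [← Nat.mul_add] at this
  have e : i + (m - i) = m := by omega
  rwa [e] at this

/-- **the key relation** in cohomology -/
theorem key_rel {e f : E → Ext E} (he : EC X e) (hf : EC X f) (h₁ : EC X x₁) (h₂ : EC X x₂)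
    {m : ℕ} {c : ℝ} (hx : Coh X x₂ (x₁ - e)) (hef : Coh X (e * f) (c • x₁ ^ m))
    (hh : Coh X (hS x₁ x₂ m) 0) :
    Coh X ((f - (c / (m + 1)) • pS x₁ x₂ m) * e) 0 := by
  have hm : ((m : ℝ) + 1) ≠ 0 := by positivity
  set ρ : ℝ := c / (m + 1) with hρ
  have hA := ec_pS h₁ h₂ m
  have hb : EC X (f + (-1 : ℝ) • (ρ • pS x₁ x₂ m)) := hf.add ((hA.smul ρ).smul (-1))
  have e0 : f - ρ • pS x₁ x₂ m = f + (-1 : ℝ) • (ρ • pS x₁ x₂ m) := by
    rw [neg_one_smul, sub_eq_add_neg]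
  rw [e0]
  have hxe : EC X (x₁ + (-1 : ℝ) • e) := h₁.add (he.smul (-1))
  have r1 : rcl h₂ = rcl h₁ - rcl he := by
    have h3 : Coh X x₂ (x₁ + (-1 : ℝ) • e) := by
      rwa [neg_one_smul, ← sub_eq_add_neg]
    rw [rcl_congr h₂ hxe h3, rcl_add h₁ (he.smul (-1)), rcl_smul _ he]
    simp [sub_eq_add_neg]
  have r2 : rcl he * rcl hf = (c : ℂ) • rcl h₁ ^ m := by
    rw [← rcl_mul he hf, rcl_congr (he.mul hf) ((h₁.pow m).smul c) hef,
      rcl_smul _ (h₁.pow m), rcl_pow]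
  have r3 : ∑ i ∈ Finset.range (m + 1), rcl h₁ ^ i * rcl h₂ ^ (m - i) = 0 := by
    rw [← rcl_hS h₁ h₂ m]
    exact (rcl_eq_zero_iff _).2 hh
  refine (rcl_eq_zero_iff (hb.mul he)).1 ?_
  rw [rcl_mul hb he, rcl_add hf ((hA.smul ρ).smul (-1)), rcl_smul _ (hA.smul ρ), rcl_smul _ hA,
    rcl_pS h₁ h₂ m]
  have r4 := alg_id (rcl h₁) (rcl h₂) m
  rw [r3, sub_zero] at r4
  have r5 : rcl h₁ - rcl h₂ = rcl he := by rw [r1]; ring
  rw [r5] at r4
  rw [add_mul, mul_comm (rcl hf), r2, smul_mul_assoc, smul_mul_assoc, mul_comm _ (rcl he), r4]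
  have r6 : ((m + 1 : ℕ) : CW.H X) * rcl h₁ ^ m = ((m + 1 : ℝ) : ℂ) • rcl h₁ ^ m := by
    rw [Algebra.smul_def]
    congr 1
    push_cast
    simp
  rw [r6, smul_smul, smul_smul, ← add_smul]
  have r7 : (c : ℂ) + ((-1 : ℝ) : ℂ) * ((ρ : ℂ) * ((m + 1 : ℝ) : ℂ)) = 0 := by
    rw [hρ]
    have : ((m : ℂ) + 1) ≠ 0 := by exact_mod_cast hm
    push_cast
    field_simp
    ring
  have r8 : (c : ℂ) + ((-1 : ℝ) : ℂ) * (ρ : ℂ) * ((m + 1 : ℝ) : ℂ) = 0 := by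
    rw [mul_assoc]; exact r7
  rw [r8, zero_smul]

end gen

section div
variable {n : Type} [Fintype n] [DecidableEq n]
  {E : Type} [NormedAddCommGroup E] [NormedSpace ℝ E] [FiniteDimensional ℝ E]
  {ι ι₁ ι' : Type} [Fintype ι] [DecidableEq ι] [Fintype ι₁] [DecidableEq ι₁] [Fintype ι']
  [DecidableEq ι']
  {X : Set E} {P P₁ : E → EuclideanSpace ℝ n →L[ℝ] EuclideanSpace ℝ n}
  {W : E → (ι × Fin 2 → n) → ℝ} {W₁ : E → (ι₁ × Fin 2 → n) → ℝ} {d k m : ℕ}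
  {x₁ x₂ : E → Ext E}

/-- **(X4′), abstract form**: `P ⊕ P₁` with `e(P) e(P₁) ~ c x₁^m`, `x₂ ~ x₁ - e(P)`,
`h_m(x₁, x₂) ~ 0`, and `H^(k m - 1)` of the sphere bundle of `P` zero. -/
theorem euler_div [Nonempty ι] (hX : Sub d X) (hXc : IsPreconnected X) (h : OR X P W)
    (h' : OR X P₁ W₁) (hk : 2 * Fintype.card ι = k) (hk₁ : 2 * Fintype.card ι₁ = k * (m - 1))
    (hm : 1 ≤ m) (h₁ : EC X x₁) (h₂ : EC X x₂) (d₁ : Hom k x₁) (d₂ : Hom k x₂) {c : ℝ}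
    (hx : Coh X x₂ (x₁ - eR P W)) (hef : Coh X (eR P W * eR P₁ W₁) (c • x₁ ^ m))
    (hh : Coh X (hS x₁ x₂ m) 0) (hE : ExactIn (Sph X P) (k * m - 1)) :
    Coh X (eR P₁ W₁) ((c / (m + 1)) • pS x₁ x₂ m) := by
  have key := key_rel h.ec_eR h'.ec_eR h₁ h₂ hx hef hh
  have hA := ec_pS h₁ h₂ m
  have hb : EC X (eR P₁ W₁ + (-1 : ℝ) • ((c / (m + 1)) • pS x₁ x₂ m)) :=
    h'.ec_eR.add ((hA.smul _).smul (-1))
  have e0 : eR P₁ W₁ - (c / (m + 1)) • pS x₁ x₂ m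
      = eR P₁ W₁ + (-1 : ℝ) • ((c / (m + 1)) • pS x₁ x₂ m) := by
    rw [neg_one_smul, sub_eq_add_neg]
  have hd : Hom (k * (m - 1)) (eR P₁ W₁ - (c / (m + 1)) • pS x₁ x₂ m) := by
    refine Hom.sub ?_ ((hom_pS d₁ d₂ m).smul _)
    rw [← hk₁]
    exact hom_eR
  have h3 := GQ.div_all hX hXc h (by rw [e0]; exact hb.sm) (by rw [e0]; exact hb.cl) hd key (by
    rw [hk]
    have e : k * (m - 1) + k = k * m := by
      obtain ⟨j, rfl⟩ : ∃ j, m = j + 1 := ⟨m - 1, by omega⟩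
      rw [Nat.add_sub_cancel, Nat.mul_succ]
    rw [e]
    exact hE)
  rw [e0] at h3
  refine (rcl_eq_iff h'.ec_eR (hA.smul _)).1 ?_
  have h4 := (rcl_eq_zero_iff hb).2 h3
  rw [rcl_add h'.ec_eR ((hA.smul _).smul (-1)), rcl_smul _ (hA.smul _)] at h4
  have h5 : (((-1 : ℝ) : ℝ) : ℂ) • rcl (hA.smul (c / (m + 1))) = - rcl (hA.smul (c / (m + 1))) := by
    simp
  rw [h5, ← sub_eq_add_neg, sub_eq_zero] at h4
  exact h4

/-- Whitney with a given orientation of the sum, up to sign -/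
theorem whitney_sign (hXc : IsPreconnected X) (h : OR X P W) (h' : OR X P₁ W₁)
    (h0 : ∀ x ∈ X, ∀ v, P x (P₁ x v) = 0) {Q : E → EuclideanSpace ℝ n →L[ℝ] EuclideanSpace ℝ n}
    {V : E → ((ι ⊕ ι₁) × Fin 2 → n) → ℝ} (hQ : OR X Q V) (hs : ∀ x ∈ X, Q x = P x + P₁ x) :
    ∃ s : ℝ, (s = 1 ∨ s = -1) ∧ Coh X (eR P W * eR P₁ W₁)
      ((s * ((Fintype.card ι + Fintype.card ι₁).choose (Fintype.card ι) : ℝ)⁻¹) • eR Q V) := by
  have h1 := T.OR.coh_add h h' h0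
  have hs1 := h.add h' h0
  set C : ℝ := ((Fintype.card ι + Fintype.card ι₁).choose (Fintype.card ι) : ℝ) with hC
  have hC0 : C ≠ 0 := by
    rw [hC]
    exact_mod_cast (Nat.choose_pos (Nat.le_add_right _ _)).ne'
  have hQ' : OF X (fun x => mtx (P x + P₁ x)) (wC V) := by
    refine ⟨fun x hx => hs1.of.sP x hx, hQ.of.sW, fun x hx => ?_⟩
    have := hQ.of.fr x hx
    rwa [hs x hx] at this
  have e1 : rcl h.ec_eR * rcl h'.ec_eR = (C⁻¹ : ℂ) • rcl hs1.ec_eR := by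
    have h2 := rcl_congr hs1.ec_eR ((h.ec_eR.mul h'.ec_eR).smul C) h1
    rw [rcl_smul _ (h.ec_eR.mul h'.ec_eR), rcl_mul h.ec_eR h'.ec_eR] at h2
    rw [h2, smul_smul, inv_mul_cancel₀ (by exact_mod_cast hC0), one_smul]
  have e2 : rcl hQ.ec_eR = ec hQ' := by
    rw [hQ.rcl_eR]
    exact ec_congr _ _ (fun x hx => by rw [hs x hx]) fun _ _ => rfl
  rcases ec_sign hXc hs1.of hQ' with e | e
  · refine ⟨1, Or.inl rfl, (rcl_eq_iff (h.ec_eR.mul h'.ec_eR) (hQ.ec_eR.smul _)).1 ?_⟩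
    rw [rcl_mul h.ec_eR h'.ec_eR, rcl_smul _ hQ.ec_eR, e1, e2, e, hs1.rcl_eR, one_mul]
    push_cast
    rfl
  · refine ⟨-1, Or.inr rfl, (rcl_eq_iff (h.ec_eR.mul h'.ec_eR) (hQ.ec_eR.smul _)).1 ?_⟩
    rw [rcl_mul h.ec_eR h'.ec_eR, rcl_smul _ hQ.ec_eR, e1, e2, e, hs1.rcl_eR]
    push_cast
    simp

end div

end Crest.Agent.R208.XE
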