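import Crest.Agent.R208.XF1c
import Crest.Agent.R208.SN10

/-! Row 208, block XF (helper885).  XF3: the Euler number of the bundle `T_p ⊖ V_pq` over the cut
locus of `p` is `± 1`: for fixed `h ∈ T_p` the section `q ↦ h - P_q h` has exactly one zero, and
it is non degenerate. -/

set_option autoImplicit false
set_option linter.unusedSectionVars false

open MeasureTheory Set Filter Topology Module Matrix
open scoped ContDiff RealInnerProductSpace
open Crest.GeometryTopology.Submanifold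
open Crest.Agent.R241.DDefs
open Crest.Agent.R241.D2
open Crest.Agent.R208.F Crest.Agent.R208.FI Crest.Agent.R208.CW Crest.Agent.R208.T
open Crest.Agent.R208.SN

noncomputable section

namespace Crest.Agent.R208.XF

section abstract
variable {n ι κ : Type*} [Fintype n] [DecidableEq n] [Fintype ι] [DecidableEq ι]
  [Fintype κ] [DecidableEq κ]
  {T : Submodule ℝ (EuclideanSpace ℝ n)} {C : Set (EuclideanSpace ℝ n)}
  {P F : EuclideanSpace ℝ n → EuclideanSpace ℝ n →L[ℝ] EuclideanSpace ℝ n}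
  {W : EuclideanSpace ℝ n → (ι × Fin 2 → n) → ℝ}
  {W' : EuclideanSpace ℝ n → (κ × Fin 2 → n) → ℝ}
  {rho : EuclideanSpace ℝ n → EuclideanSpace ℝ n} {oC : EuclideanSpace ℝ n → Ext (EuclideanSpace ℝ n)}

/-- the projections of an `OR` are idempotent -/
theorem OR_idem (h : OR C P W) {x : EuclideanSpace ℝ n} (hx : x ∈ C) (v : EuclideanSpace ℝ n) :
    P x (P x v) = P x v := (OR.pfield h).idem x hx v

/-- **nondegeneracy** of the section `q ↦ h - P_q h` of a spread -/
theorem spr_nondeg (hS : Spr T C P W rho) {m : ℕ} (hC : Sub m C) {h : EuclideanSpace ℝ n}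
    (hT : h ∈ T) (h0 : h ≠ 0) {q : EuclideanSpace ℝ n} (hq : q ∈ C) (hPq : P q h = h)
    {v : EuclideanSpace ℝ n} (hv : v ∈ Tan C q)
    (hd : fderiv ℝ (fun q => h - P q h) q v = 0) : v = 0 := by
  have hPs : ContDiffAt ℝ ∞ P q := hS.or.sP q hq
  have hPd : DifferentiableAt ℝ (fun q => P q h) q :=
    (hPs.differentiableAt (by simp)).clm_apply (differentiableAt_const h)
  have h1 : fderiv ℝ (fun q => P q h) q v = 0 := by
    have h2 : HasFDerivAt (fun q => h - P q h) (-(fderiv ℝ (fun q => P q h) q)) q :=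
      hPd.hasFDerivAt.const_sub h
    rw [h2.fderiv] at hd
    simpa using hd
  have hrd : DifferentiableAt ℝ rho (P q h) := by
    rw [hPq]
    exact (hS.sm h hT h0).differentiableAt (by simp)
  have hcomp : HasFDerivAt (fun q => rho (P q h))
      ((fderiv ℝ rho (P q h)).comp (fderiv ℝ (fun q => P q h) q)) q :=
    hrd.hasFDerivAt.comp q hPd.hasFDerivAt
  -- `rho (P q h) = q` on `C` near `q`
  have hev : ∀ᶠ y in 𝓝 q, P y h ≠ 0 := by
    have : ContinuousAt (fun q => P q h) q := hPd.continuousAt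
    exact this.eventually_ne (by rw [hPq]; exact h0)
  have hfix : ∀ y ∈ C, P y h ≠ 0 → rho (P y h) = y := fun y hy hy0 =>
    hS.uniq y hy _ hy0 (OR_idem hS.or hy h)
  have h3 : fderiv ℝ (fun q => rho (P q h)) q v = v := by
    have hle : Tan C q ≤ LinearMap.ker ((fderiv ℝ (fun q => rho (P q h)) q -
        ContinuousLinearMap.id ℝ _ : EuclideanSpace ℝ n →L[ℝ] EuclideanSpace ℝ n) :
        EuclideanSpace ℝ n →ₗ[ℝ] EuclideanSpace ℝ n) := by
      rw [Tan, Submodule.span_le]
      rintro w ⟨γ, rfl, hγ, hCγ⟩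
      have h4 : HasDerivAt (fun t => rho (P (γ t) h)) (fderiv ℝ (fun q => rho (P q h)) (γ 0) w) 0 :=
        hcomp.differentiableAt.hasFDerivAt.comp_hasDerivAt 0 hγ
      have h5 : (fun t => rho (P (γ t) h)) =ᶠ[𝓝 0] γ := by
        filter_upwards [hCγ, hγ.continuousAt.eventually hev] with t ht ht' using hfix _ ht ht'
      have h6 := (hγ.congr_of_eventuallyEq h5).unique h4
      change fderiv ℝ (fun q => rho (P q h)) (γ 0) w - w = 0
      rw [← h6, sub_self]
    have := hle hv
    exact sub_eq_zero.1 this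
  rw [← h3, hcomp.fderiv, ContinuousLinearMap.comp_apply, h1, map_zero]

/-- **(XF3), abstract form**: the complement of a spread has Euler number `± 1`. -/
theorem eR_compl [Nonempty κ] (hS : Spr T C P W rho) (hC : Clo (Fintype.card κ * 2) C)
    (hoC : Ori (Fintype.card κ * 2) C oC) (hF : OR C F W')
    (hFP : ∀ q ∈ C, ∀ v ∈ T, F q v = v - P q v) (hT : ∃ h ∈ T, h ≠ 0) :
    ∃ ε : ℝ, (ε = 1 ∨ ε = -1) ∧ J (Fintype.card κ * 2) C oC (eR F W') = ε * tau κ := by
  classical
  obtain ⟨h, hh, h0⟩ := hT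
  have hz : h - P (rho h) h = 0 := by rw [hS.fix h hh h0, sub_self]
  obtain ⟨ε, hε, hJ⟩ := zero_locus (s := fun q => h - P q h) (Z := {rho h}) hC hoC hF
    (fun q hq => contDiffAt_const.sub ((hS.or.sP q hq).clm_apply contDiffAt_const))
    (fun q hq => by
      rw [hFP q hq _ (T.sub_mem hh (hS.rg q hq h)), map_sub, OR_idem hS.or hq, sub_self, sub_zero])
    (fun z hz => by rw [Finset.mem_singleton.1 hz]; exact hS.mem h hh h0)
    (fun z hz' => by rw [Finset.mem_singleton.1 hz']; exact hz)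
    (fun q hq hq0 => by
      rw [Finset.mem_singleton]
      exact (hS.uniq q hq h h0 (sub_eq_zero.1 hq0).symm).symm)
    (fun z hz' v hv hd => by
      rw [Finset.mem_singleton] at hz'
      subst hz'
      exact spr_nondeg hS hC.sub hh h0 (hS.mem h hh h0) (hS.fix h hh h0) hv hd)
  refine ⟨ε (rho h), hε _ (Finset.mem_singleton_self _), ?_⟩
  rw [hJ, Finset.sum_singleton, mul_comm]

end abstract

variable {n N k : ℕ} {κ : ℝ} {S : Set (Euc N)} {G : Geo n N κ S} {p : Euc N}
  {ι' : Type*} [Fintype ι'] [DecidableEq ι']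
  {F : Euc N → Euc N →L[ℝ] Euc N} {W' : Euc N → (ι' × Fin 2 → Fin N) → ℝ}

/-- **(XF3)**: over the cut locus `C_p` the Euler number of `F_1 = T_p ⊖ V_pq` is `± 1`. -/
theorem J_F1 (h : GT.Bla G k) (hk : 2 ≤ k) (hke : Even k) (hkn : k < n)
    (hι' : 2 * Fintype.card ι' = n - k) (hp : p ∈ S)
    {oC : Euc N → Ext (Euc N)} (hoC : Ori (n - k) (GP.Cut S p) oC)
    (hF : OR (GP.Cut S p) F W')
    (hFP : ∀ q ∈ GP.Cut S p, ∀ v ∈ G.T p, F q v = v - PL h p q v) :
    ∃ ε : ℝ, (ε = 1 ∨ ε = -1) ∧ J (n - k) (GP.Cut S p) oC (eR F W') = ε * tau ι' := by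
  obtain ⟨r, hr⟩ := hke
  have hιc : 2 * Fintype.card (Fin r) = k := by rw [Fintype.card_fin]; omega
  obtain ⟨Wt, -, hW⟩ := exists_OR_PL h hk (by omega) hp hιc
  have : Nonempty ι' := Fintype.card_pos_iff.1 (by omega)
  have e : n - k = Fintype.card ι' * 2 := by omega
  have hC : Clo (n - k) (GP.Cut S p) := FV.clo_Cut h hp
  rw [e] at hoC hC ⊢
  refine eR_compl (spr_Cut h hp hW) hC hoC hF hFP ?_
  have h1 : 0 < finrank ℝ (G.T p) := by rw [G.finrank_T p hp]; omega
  have : Nontrivial (G.T p) := Module.nontrivial_of_finrank_pos h1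
  obtain ⟨u, hu⟩ := exists_ne (0 : G.T p)
  exact ⟨u, u.2, fun h0 => hu (Subtype.ext h0)⟩

end Crest.Agent.R208.XF
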