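import Crest.Agent.R208.XE2
import Crest.Agent.R208.TX7b
import Crest.Agent.R208.XF3

/-! Row 208, block XE (helper126).  XE3: (X4′) the Euler class of `T_p C_q` over `F`, and (EN) the
Euler class of `S` is not zero, both from (X1c), (X1d) and the integral of the Euler form of
`T_p C_q` over the cut locus. -/

set_option autoImplicit false
set_option linter.unusedSectionVars false

open MeasureTheory Set Filter Topology Module
open scoped ContDiff RealInnerProductSpace Matrix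
open Crest.GeometryTopology.Submanifold
open Crest.Agent.R241.DDefs
open Crest.Agent.R241.D2
open Crest.Agent.R208.F Crest.Agent.R208.FI Crest.Agent.R208.CW Crest.Agent.R208.T

noncomputable section

namespace Crest.Agent.R208.XE

/-! ### algebra -/
section alg
variable {A : Type*} [CommRing A] [Algebra ℂ A] {x₁ x₂ e f : A} {m : ℕ}

theorem pow_mul_e (h21 : x₂ = x₁ - e) (hy : x₁ ^ (m + 1) = 0) (j : ℕ) :
    x₁ ^ m * e ^ j = x₁ ^ m * (-x₂) ^ j := by
  have he : e = x₁ - x₂ := by rw [h21]; ring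
  induction j with
  | zero => simp
  | succ j ih =>
    calc x₁ ^ m * e ^ (j + 1) = (x₁ ^ m * e ^ j) * e := by rw [pow_succ]; ring
      _ = (x₁ ^ m * (-x₂) ^ j) * (x₁ - x₂) := by rw [ih, he]
      _ = x₁ ^ m * (-x₂) ^ (j + 1) + (-x₂) ^ j * x₁ ^ (m + 1) := by
          rw [pow_succ (-x₂), pow_succ x₁]; ring
      _ = x₁ ^ m * (-x₂) ^ (j + 1) := by rw [hy, mul_zero, add_zero]

/-- independence of the monomials `x₁^a e^(m-a)`, `1 ≤ a ≤ m` -/
theorem indep (h21 : x₂ = x₁ - e) (hy : x₁ ^ (m + 1) = 0) (hne : x₁ ^ m * x₂ ^ (m - 1) ≠ 0)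
    (g : ℕ → ℂ) (h0 : g 0 = 0)
    (hs : ∑ a ∈ Finset.range (m + 1), g a • (x₁ ^ a * e ^ (m - a)) = 0) (a : ℕ) (ha : a ≤ m) :
    g a = 0 := by
  induction a using Nat.strong_induction_on with
  | _ a ih =>
    by_contra hga
    have ha1 : 1 ≤ a := by
      by_contra hlt
      have : a = 0 := by omega
      exact hga (this ▸ h0)
    have h1 := congrArg (fun t => x₁ ^ (m - a) * t) hs
    simp only [mul_zero] at h1
    rw [Finset.mul_sum, Finset.sum_eq_single_of_mem a (Finset.mem_range.2 (by omega))] at h1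
    · have h2 : x₁ ^ m * e ^ (m - a) = 0 := by
        have h3 : g a • (x₁ ^ m * e ^ (m - a)) = 0 := by
          rw [← h1, mul_smul_comm, ← mul_assoc, ← pow_add, Nat.sub_add_cancel ha]
        exact (smul_eq_zero_iff_right hga).1 h3
      rw [pow_mul_e h21 hy] at h2
      have h4 : x₁ ^ m * x₂ ^ (m - a) = 0 := by
        have h5 : x₁ ^ m * x₂ ^ (m - a) = (-1) ^ (m - a) * (x₁ ^ m * (-x₂) ^ (m - a)) := by
          rw [mul_left_comm, ← mul_pow]; simp
        rw [h5, h2, mul_zero]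
      apply hne
      have h6 : m - 1 = (m - a) + (a - 1) := by omega
      rw [h6, pow_add, ← mul_assoc, h4, zero_mul]
    · intro b hb hba
      have hb' := Finset.mem_range.1 hb
      rcases lt_or_gt_of_ne hba with h2 | h2
      · rw [ih b h2 (by omega), zero_smul, mul_zero]
      · rw [mul_smul_comm, ← mul_assoc, ← pow_add]
        have h3 : m - a + b = (m + 1) + (b - a - 1) := by omega
        rw [h3, pow_add, hy, zero_mul, zero_mul, smul_zero]

/-- the division without division -/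
theorem ring_main (hm : 1 ≤ m) (h21 : x₂ = x₁ - e) (hy : x₁ ^ (m + 1) = 0)
    (hne : x₁ ^ m * x₂ ^ (m - 1) ≠ 0) {c ρ : ℂ} (hef : e * f = c • x₁ ^ m)
    (hh : ∑ i ∈ Finset.range (m + 1), x₁ ^ i * x₂ ^ (m - i) = 0) (g : ℕ → ℂ) (h0 : g 0 = 0)
    (hb : f - ρ • ∑ i ∈ Finset.range m, ((i + 1 : ℕ) : A) * (x₁ ^ i * x₂ ^ (m - 1 - i))
      = ∑ a ∈ Finset.range m, g a • (x₁ ^ a * e ^ (m - 1 - a))) :
    f = ρ • ∑ i ∈ Finset.range m, ((i + 1 : ℕ) : A) * (x₁ ^ i * x₂ ^ (m - 1 - i)) ∧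
      c = ρ * (m + 1) := by
  have h1 := alg_id x₁ x₂ m
  rw [hh, sub_zero] at h1
  have h2 : x₁ - x₂ = e := by rw [h21]; ring
  rw [h2] at h1
  set c' : ℂ := c - ρ * (m + 1) with hc'
  have h3 : e * (∑ a ∈ Finset.range m, g a • (x₁ ^ a * e ^ (m - 1 - a))) = c' • x₁ ^ m := by
    rw [← hb, mul_sub, hef, mul_smul_comm, h1, hc', sub_smul, mul_smul]
    congr 2
    rw [Algebra.smul_def]
    simp
  have h4 : ∑ a ∈ Finset.range (m + 1), (fun a => if a = m then -c' else g a) a •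
      (x₁ ^ a * e ^ (m - a)) = 0 := by
    rw [Finset.sum_range_succ]
    have h5 : ∑ a ∈ Finset.range m, (fun a => if a = m then -c' else g a) a •
        (x₁ ^ a * e ^ (m - a)) = c' • x₁ ^ m := by
      rw [← h3, Finset.mul_sum]
      refine Finset.sum_congr rfl fun a ha => ?_
      have ha' := Finset.mem_range.1 ha
      have h6 : m - a = (m - 1 - a) + 1 := by omega
      simp only [if_neg ha'.ne]
      rw [h6, pow_succ, mul_smul_comm]
      congr 1
      ring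
    rw [h5]
    simp
  have h7 := indep h21 hy hne _ (by
    have : (0 : ℕ) ≠ m := by omega
    simp only [if_neg this, h0]) h4
  have h8 : c' = 0 := by
    have := h7 m le_rfl
    simpa using this
  have h9 : ∀ a ∈ Finset.range m, g a = 0 := fun a ha => by
    have ha' := Finset.mem_range.1 ha
    have := h7 a ha'.le
    simpa only [if_neg ha'.ne] using this
  refine ⟨?_, sub_eq_zero.1 h8⟩
  have h10 : ∑ a ∈ Finset.range m, g a • (x₁ ^ a * e ^ (m - 1 - a)) = 0 :=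
    Finset.sum_eq_zero fun a ha => by rw [h9 a ha, zero_smul]
  rw [h10] at hb
  exact sub_eq_zero.1 hb

end alg

/-! ### geometry -/
section geo
variable {n N k m : ℕ} {κ : ℝ} {S : Set (Euc N)} {G : Geo n N κ S} {p : Euc N}
  {ι ι₁ : Type} [Fintype ι] [DecidableEq ι] [Fintype ι₁] [DecidableEq ι₁]
  {W : Euc N × Euc N → (ι × Fin 2 → Fin N) → ℝ} {W₁ : Euc N × Euc N → (ι₁ × Fin 2 → Fin N) → ℝ}
  {x : Euc N → Ext (Euc N)} {h : GT.Bla G k}

theorem ec_x (D : XM h m W p x) : EC S x := by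
  obtain ⟨r, hr⟩ := D.hke
  refine EC.of_hom (j := r) D.sx D.cx ?_
  rw [two_mul, ← hr]
  exact D.dx

theorem ec_x1 (D : XM h m W p x) : EC (GT.FF S) (F.pull Prod.fst x) := (ec_x D).pull smap_fst_FF

theorem ec_x2 (D : XM h m W p x) : EC (GT.FF S) (F.pull Prod.snd x) := (ec_x D).pull smap_snd_FF

/-- the fibre `{p} × C_p` -/
theorem smap_CutL (hp : p ∈ S) : SMap (GP.Cut S p) (GT.FF S) (fun q : Euc N => (p, q)) :=
  ⟨fun _ _ => contDiffAt_const.prodMk contDiffAt_id, fun _ hq => ⟨hp, hq.1, hq.2⟩⟩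

theorem nk_eq (D : XM h m W p x) : n - k = k * (m - 1) := by
  have h1 := D.hn
  have h2 := D.hm
  obtain ⟨j, rfl⟩ : ∃ j, m = j + 1 := ⟨m - 1, by omega⟩
  rw [h1, Nat.add_sub_cancel, Nat.mul_succ, Nat.add_sub_cancel]

theorem nk_div (D : XM h m W p x) : (n - k) / k = m - 1 := by
  have := D.hk
  rw [nk_eq D]
  exact Nat.mul_div_cancel_left _ (by omega)

/-- the power `e^(m-1)` is not exact on the cut locus -/
theorem cut_ne (D : XM h m W p x) :
    ¬ Coh (GP.Cut S p) (eR (FV.PC h p) (fun q => W (q, p)) ^ (m - 1)) 0 := by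
  intro h0
  have hk := D.hk
  obtain ⟨o, ho, -, -⟩ := exists_ori_Cut h D.hk D.hkn D.hp
  obtain ⟨m', h1, h2, hJ⟩ := X1a h D.hk D.hkn D.hp D.hι (OR_Cut h D.hp D.hW) ho
  have h3 : m' = m - 1 := by
    have h4 : k * (m' + 1) = k * m := by rw [← h2, ← D.hn]
    have := Nat.eq_of_mul_eq_mul_left (by omega) h4
    omega
  rw [h3] at hJ
  exact hJ (J_exact (FV.clo_Cut h D.hp) ho h0)

/-- `e(T_p C_q)` on `{p} × C_p` -/
theorem restr_F1 (D : XM h m W p x) (hW₁ : OR (GT.FF S) (F1 h) W₁) (hι₁ : 2 * Fintype.card ι₁ = n - k) :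
    ∃ c₀ : ℝ, c₀ ≠ 0 ∧ Coh (GP.Cut S p) (F.pull (fun q : Euc N => (p, q)) (eR (F1 h) W₁))
      (c₀ • eR (FV.PC h p) (fun q => W (q, p)) ^ (m - 1)) := by
  have hp := D.hp
  have hF : OR (GP.Cut S p) (fun q => F1 h (p, q)) (fun q => W₁ (p, q)) :=
    GP.OR.comp hW₁ (f := fun q : Euc N => (p, q)) (smap_CutL hp).smooth (smap_CutL hp).maps
  obtain ⟨o, ho, -, -⟩ := exists_ori_Cut h D.hk D.hkn hp
  obtain ⟨ε, hε, hJ⟩ := XF.J_F1 h D.hk D.hke D.hkn hι₁ hp ho hF (fun q hq v hv => by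
    change G.P p v - FV.PVB h (p, q) v = v - FV.PVB h (p, q) v
    rw [(P_eq_self G hp).1 hv])
  have hd : Hom (n - k) (eR (fun q => F1 h (p, q)) fun q => W₁ (p, q)) := by
    rw [← hι₁]; exact hom_eR
  obtain ⟨c₀, -, hc⟩ := Cut_classes h D.hk D.hkn hp D.hι (OR_Cut h hp D.hW) (n - k) hF.ec_eR.sm
    hF.ec_eR.cl hd
  rw [nk_div D] at hc
  refine ⟨c₀, ?_, (Coh.of_eqv (eqv_pull_eR hW₁ (smap_CutL hp))).trans hc⟩
  rintro rfl
  rw [zero_smul] at hc
  have h1 := J_exact (FV.clo_Cut h hp) ho hc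
  rw [hJ] at h1
  have h2 := XF.tau_pos ι₁
  rcases hε with rfl | rfl
  · rw [one_mul] at h1; exact h2.ne' h1
  · rw [neg_one_mul, neg_eq_zero] at h1; exact h2.ne' h1

/-- the Whitney formula on `F`: `e(V) e(F₁) ~ c x₁^m`; `c = c₀ t` with `e(TM) ~ t x^m` -/
theorem whitney_F (D : XM h m W p x) (hW₁ : OR (GT.FF S) (F1 h) W₁)
    (hι₁ : 2 * Fintype.card ι₁ = n - k) {V : Euc N → ((ι ⊕ ι₁) × Fin 2 → Fin N) → ℝ}
    (hV : OR S G.P V) :
    ∃ t c₀ : ℝ, c₀ ≠ 0 ∧ Coh S (eR G.P V) (t • x ^ m) ∧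
      Coh (GT.FF S) (eR (FV.PVB h) W * eR (F1 h) W₁) ((c₀ * t) • F.pull Prod.fst x ^ m) := by
  have hk := D.hk
  have hι := D.hι
  have hkn := D.hkn
  have hn' : 2 * Fintype.card (ι ⊕ ι₁) = n := by
    rw [Fintype.card_sum]; omega
  have hdV : Hom n (eR G.P V) := by
    have := hom_eR (P := G.P) (W := V)
    rwa [hn'] at this
  have hdx : Hom n (x ^ m) := by
    have := D.dx.pow m
    rwa [← D.hn] at this
  have hxm := (ec_x D).pow m
  obtain ⟨s, t, hst, hco⟩ := D.dim1 (x ^ m) (eR G.P V) hxm.sm hxm.cl hdx hV.ec_eR.sm hV.ec_eR.cl hdV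
  have ht : t ≠ 0 := by
    rintro rfl
    rw [zero_smul, sub_zero] at hco
    have hs : s ≠ 0 := by rcases hst with h1 | h1
                          · exact h1
                          · exact absurd rfl h1
    exact D.xm_ne (hco.smul_zero_of_ne hs)
  have h1 : Coh S (eR G.P V) ((s / t) • x ^ m) := by
    refine (rcl_eq_iff hV.ec_eR (hxm.smul _)).1 ?_
    have e0 : s • x ^ m - t • eR G.P V = s • x ^ m + (-1 : ℝ) • (t • eR G.P V) := by
      rw [neg_one_smul, sub_eq_add_neg]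
    rw [e0] at hco
    have h2 := (rcl_eq_zero_iff ((hxm.smul s).add ((hV.ec_eR.smul t).smul (-1)))).2 hco
    rw [rcl_add (hxm.smul s) ((hV.ec_eR.smul t).smul (-1)), rcl_smul _ (hV.ec_eR.smul t),
      rcl_smul _ hV.ec_eR, rcl_smul _ hxm] at h2
    rw [rcl_smul _ hxm]
    have ht' : (t : ℂ) ≠ 0 := by exact_mod_cast ht
    have h3 : (t : ℂ) • rcl hV.ec_eR = (s : ℂ) • rcl hxm := by
      have h4 : (((-1 : ℝ) : ℝ) : ℂ) • (t : ℂ) • rcl hV.ec_eR = - ((t : ℂ) • rcl hV.ec_eR) := by simp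
      rw [h4, ← sub_eq_add_neg, sub_eq_zero] at h2
      exact h2.symm
    have h5 : rcl hV.ec_eR = (t : ℂ)⁻¹ • ((t : ℂ) • rcl hV.ec_eR) := by
      rw [smul_smul, inv_mul_cancel₀ ht', one_smul]
    rw [h5, h3, smul_smul]
    congr 1
    push_cast
    field_simp
  have hQ : OR (GT.FF S) (fun z : Euc N × Euc N => G.P z.1) (fun z => V z.1) :=
    GP.OR.comp hV (f := fun z : Euc N × Euc N => z.1) (fun _ _ => contDiffAt_fst)
      fun z hz => hz.1
  obtain ⟨σ, hσ, hw⟩ := whitney_sign (FV.preconn_FF' h (by omega)) D.hW hW₁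
    (fun z hz v => PV_F1 h hz v) hQ (fun z _ => by
      change G.P z.1 = FV.PVB h z + (G.P z.1 - FV.PVB h z)
      abel)
  set C : ℝ := (((Fintype.card ι + Fintype.card ι₁).choose (Fintype.card ι) : ℕ) : ℝ) with hC
  have hC0 : C ≠ 0 := by
    rw [hC]
    exact_mod_cast (Nat.choose_pos (Nat.le_add_right _ _)).ne'
  refine ⟨s / t, σ * C⁻¹, mul_ne_zero ?_ (inv_ne_zero hC0), h1, hw.trans ?_⟩
  · rcases hσ with rfl | rfl
    · exact one_ne_zero
    · exact neg_ne_zero.2 one_ne_zero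
  · have h6 : Coh (GT.FF S) (eR (fun z : Euc N × Euc N => G.P z.1) (fun z => V z.1))
        ((s / t) • F.pull Prod.fst x ^ m) := by
      refine (Coh.of_eqv (eqv_pull_eR hV smap_fst_FF).symm).trans ?_
      have := h1.pull (smap_fst_FF (S := S))
      rwa [pull_smul', pull_pow'] at this
    have h7 := h6.smul (σ * C⁻¹)
    rwa [smul_smul] at h7

end geo

end Crest.Agent.R208.XE
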