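import Crest.Agent.R208.XE3
import Crest.Agent.R208.GS1

/-! Row 208, block XE (helper126).  XE4: (X4′) and (EN), the theorems. -/

set_option autoImplicit false
set_option linter.unusedSectionVars false

open MeasureTheory Set Filter Topology Module
open scoped ContDiff RealInnerProductSpace Matrix
open Crest.GeometryTopology.Submanifold
open Crest.Agent.R241.DDefs
open Crest.Agent.R241.D2
open Crest.Agent.R208.F Crest.Agent.R208.FI Crest.Agent.R208.CW Crest.Agent.R208.T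

noncomputable section

namespace Crest.Agent.R208.XE

variable {n N k m : ℕ} {κ : ℝ} {S : Set (Euc N)} {G : Geo n N κ S} {p : Euc N}
  {ι ι₁ ι' : Type} [Fintype ι] [DecidableEq ι] [Fintype ι₁] [DecidableEq ι₁] [Fintype ι']
  [DecidableEq ι']
  {W : Euc N × Euc N → (ι × Fin 2 → Fin N) → ℝ} {W₁ : Euc N × Euc N → (ι₁ × Fin 2 → Fin N) → ℝ}
  {x : Euc N → Ext (Euc N)} {h : GT.Bla G k}

/-- `x₁ ^ (m + 1) = 0` -/
theorem x1_pow (D : XM h m W p x) : rcl (ec_x1 D) ^ (m + 1) = 0 := by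
  have hd : Hom (k * (m + 1)) (x ^ (m + 1)) := D.dx.pow (m + 1)
  have h1 : Coh S (x ^ (m + 1)) 0 := Coh.of_eqv (eqv_zero_of_gt (FV.sub_S h.bl) (by
    have := D.hn
    have := D.hk
    rw [Nat.mul_succ]
    omega) hd)
  have h2 : rcl ((ec_x D).pow (m + 1)) = 0 := (rcl_eq_zero_iff _).2 h1
  rw [rcl_pow (ec_x D)] at h2
  have h3 : rcl (ec_x1 D) = H.map smap_fst_FF (rcl (ec_x D)) := rcl_pull _ _
  rw [h3, ← map_pow, h2, map_zero]

/-- the class of `x₁^m x₂^(m-1)` -/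
theorem mix_ne (D : XM h m W p x) : rcl (ec_x1 D) ^ m * rcl (ec_x2 D) ^ (m - 1) ≠ 0 := by
  intro h0
  refine D.mix_ne ((rcl_eq_zero_iff (((ec_x1 D).pow m).mul ((ec_x2 D).pow (m - 1)))).1 ?_)
  rw [rcl_mul ((ec_x1 D).pow m) ((ec_x2 D).pow (m - 1)), rcl_pow (ec_x1 D), rcl_pow (ec_x2 D), h0]

/-- the class of the second projection -/
theorem x2_eq (D : XM h m W p x) : rcl (ec_x2 D) = rcl (ec_x1 D) - rcl D.hW.ec_eR := by
  have hxe : EC (GT.FF S) (F.pull Prod.fst x + (-1 : ℝ) • eR (FV.PVB h) W) :=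
    (ec_x1 D).add (D.hW.ec_eR.smul (-1))
  have h3 : Coh (GT.FF S) (F.pull Prod.snd x) (F.pull Prod.fst x + (-1 : ℝ) • eR (FV.PVB h) W) := by
    rw [neg_one_smul, ← sub_eq_add_neg]
    exact D.snd_class
  rw [rcl_congr (ec_x2 D) hxe h3, rcl_add (ec_x1 D) (D.hW.ec_eR.smul (-1)), rcl_smul _ D.hW.ec_eR]
  simp [sub_eq_add_neg]

/-- the classes on `{p} × C_p` -/
theorem map_x1 (D : XM h m W p x) : H.map (smap_CutL D.hp) (rcl (ec_x1 D)) = 0 := by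
  have hk := D.hk
  obtain ⟨-, h2⟩ := restr_class (C := GP.Cut S p) (ιC := fun q : Euc N => (p, q)) (p := p)
    (smap_snd_FF (S := S)) smap_fst_FF (by omega) D.dx (smap_CutL D.hp) (fun _ hq => hq.1)
    (fun _ _ => rfl) (fun _ _ => rfl)
  rw [← rcl_pull (smap_CutL D.hp) (ec_x1 D)]
  exact (rcl_eq_zero_iff _).2 (Coh.of_eqv h2)

theorem map_x2 (D : XM h m W p x) :
    H.map (smap_CutL D.hp) (rcl (ec_x2 D)) = rcl (OR_Cut h D.hp D.hW).ec_eR := by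
  have hk := D.hk
  obtain ⟨h1, -⟩ := restr_class (C := GP.Cut S p) (ιC := fun q : Euc N => (p, q)) (p := p)
    (smap_snd_FF (S := S)) smap_fst_FF (by omega) D.dx (smap_CutL D.hp) (fun _ hq => hq.1)
    (fun _ _ => rfl) (fun _ _ => rfl)
  rw [← rcl_pull (smap_CutL D.hp) (ec_x2 D)]
  exact (rcl_eq_iff _ _).2 (Coh.of_eqv (h1.trans D.ex))

theorem cut_pow_ne (D : XM h m W p x) : rcl (OR_Cut h D.hp D.hW).ec_eR ^ (m - 1) ≠ 0 := by
  intro h0
  refine cut_ne D ((rcl_eq_zero_iff ((OR_Cut h D.hp D.hW).ec_eR.pow (m - 1))).1 ?_)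
  rw [rcl_pow (OR_Cut h D.hp D.hW).ec_eR, h0]

/-- **(X4′)** the Euler class of `T_p C_q`, together with the Euler class of `S` -/
theorem main' (D : XM h m W p x) (hW₁ : OR (GT.FF S) (F1 h) W₁)
    (hι₁ : 2 * Fintype.card ι₁ = n - k) {V : Euc N → ((ι ⊕ ι₁) × Fin 2 → Fin N) → ℝ}
    (hV : OR S G.P V)
    (hrel : Coh (GT.FF S) (hS (F.pull Prod.fst x) (F.pull Prod.snd x) m) 0) :
    ∃ ρ t : ℝ, ρ ≠ 0 ∧ t ≠ 0 ∧ Coh (GT.FF S) (eR (F1 h) W₁)
      (ρ • pS (F.pull Prod.fst x) (F.pull Prod.snd x) m) ∧ Coh S (eR G.P V) (t • x ^ m) := by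
  have hk := D.hk
  have hm := D.hm
  have hkn := D.hkn
  have h1 := ec_x1 D
  have h2 := ec_x2 D
  have hpS := ec_pS h1 h2 m
  obtain ⟨c₀, hc₀, hres⟩ := restr_F1 D hW₁ hι₁
  obtain ⟨t, c₁, hc₁, hT, hWh⟩ := whitney_F D hW₁ hι₁ hV
  -- the difference
  have hb : EC (GT.FF S) (eR (F1 h) W₁ + (-1 : ℝ) •
      (c₀ • pS (F.pull Prod.fst x) (F.pull Prod.snd x) m)) :=
    hW₁.ec_eR.add ((hpS.smul c₀).smul (-1))
  have hd : Hom (n - k) (eR (F1 h) W₁ + (-1 : ℝ) •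
      (c₀ • pS (F.pull Prod.fst x) (F.pull Prod.snd x) m)) := by
    refine Hom.add ?_ (((Hom.smul _ ?_)).smul _)
    · rw [← hι₁]; exact hom_eR
    · rw [nk_eq D]; exact hom_pS D.dx.pull D.dx.pull m
  obtain ⟨g, -, hg⟩ := FF_classes h hk hkn D.hke D.hne D.hp D.hι D.hW D.sx D.cx D.dx D.ex (n - k) _
    ⟨Fintype.card ι₁, by omega⟩ (by omega) hb.sm hb.cl hd
  have hm1 : (n - k) / k + 1 = m := by rw [nk_div D]; omega
  have hE := D.hW.ec_eR
  have hmono : ∀ a, EC (GT.FF S) (F.pull Prod.fst x ^ a * eR (FV.PVB h) W ^ ((n - k) / k - a)) :=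
    fun a => (h1.pow a).mul (hE.pow _)
  have hb1 : rcl hb = rcl hW₁.ec_eR - (c₀ : ℂ) •
      ∑ i ∈ Finset.range m, ((i + 1 : ℕ) : CW.H (GT.FF S)) * (rcl h1 ^ i * rcl h2 ^ (m - 1 - i)) := by
    rw [rcl_add hW₁.ec_eR ((hpS.smul c₀).smul (-1)), rcl_smul _ (hpS.smul c₀), rcl_smul _ hpS,
      rcl_pS h1 h2 m]
    simp [sub_eq_add_neg]
  have hb2 : rcl hb = ∑ a ∈ Finset.range m, (g a : ℂ) • (rcl h1 ^ a * rcl hE ^ (m - 1 - a)) := by
    rw [rcl_congr hb (EC.sum fun a _ => (hmono a).smul (g a)) hg,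
      rcl_sum _ fun a => (hmono a).smul (g a), hm1]
    refine Finset.sum_congr rfl fun a _ => ?_
    rw [rcl_smul _ (hmono a), rcl_mul (h1.pow a) (hE.pow _), rcl_pow h1, rcl_pow hE, nk_div D]
  -- restriction to `{p} × C_p`
  have hY := (OR_Cut h D.hp D.hW).ec_eR
  have r1 : H.map (smap_CutL D.hp) (rcl h1) = 0 := map_x1 D
  have r2 : H.map (smap_CutL D.hp) (rcl h2) = rcl hY := map_x2 D
  have r3 : H.map (smap_CutL D.hp) (rcl hE) = - rcl hY := by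
    have h3 : rcl hE = rcl h1 - rcl h2 := by
      rw [x2_eq D]; ring
    rw [h3, map_sub, r1, r2, zero_sub]
  have r4 : H.map (smap_CutL D.hp) (rcl hW₁.ec_eR) = (c₀ : ℂ) • rcl hY ^ (m - 1) := by
    rw [← rcl_pull (smap_CutL D.hp) hW₁.ec_eR,
      rcl_congr (hW₁.ec_eR.pull (smap_CutL D.hp)) ((hY.pow (m - 1)).smul c₀) hres,
      rcl_smul _ (hY.pow (m - 1)), rcl_pow hY]
  have hg0 : (g 0 : ℂ) = 0 := by
    have h3 := congrArg (H.map (smap_CutL D.hp)) (hb1.symm.trans hb2)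
    rw [map_sub, map_smul, map_sum, map_sum, r4] at h3
    have h4 : ∑ i ∈ Finset.range m, H.map (smap_CutL D.hp)
        (((i + 1 : ℕ) : CW.H (GT.FF S)) * (rcl h1 ^ i * rcl h2 ^ (m - 1 - i)))
        = rcl hY ^ (m - 1) := by
      rw [Finset.sum_eq_single_of_mem 0 (Finset.mem_range.2 (by omega))]
      · rw [map_mul, map_mul, map_pow, map_pow, r2]
        simp
      · intro i _ hi
        rw [map_mul, map_mul, map_pow, r1, zero_pow hi, zero_mul, mul_zero]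
    have h5 : ∑ a ∈ Finset.range m, H.map (smap_CutL D.hp)
        ((g a : ℂ) • (rcl h1 ^ a * rcl hE ^ (m - 1 - a)))
        = (g 0 : ℂ) • (- rcl hY) ^ (m - 1) := by
      rw [Finset.sum_eq_single_of_mem 0 (Finset.mem_range.2 (by omega))]
      · rw [map_smul, map_mul, map_pow, map_pow, r3]
        simp
      · intro i _ hi
        rw [map_smul, map_mul, map_pow, r1, zero_pow hi, zero_mul, smul_zero]
    rw [h4, h5, sub_self] at h3
    have h6 : (g 0 : ℂ) • rcl hY ^ (m - 1) = 0 := by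
      have h7 : (g 0 : ℂ) • rcl hY ^ (m - 1)
          = (-1) ^ (m - 1) * ((g 0 : ℂ) • (- rcl hY) ^ (m - 1)) := by
        rw [mul_smul_comm, ← mul_pow]; simp
      rw [h7, ← h3, mul_zero]
    by_contra hne
    exact cut_pow_ne D ((smul_eq_zero_iff_right hne).1 h6)
  have hef : rcl hE * rcl hW₁.ec_eR = ((c₁ * t : ℝ) : ℂ) • rcl h1 ^ m := by
    rw [← rcl_mul hE hW₁.ec_eR, rcl_congr (hE.mul hW₁.ec_eR) ((h1.pow m).smul _) hWh,
      rcl_smul _ (h1.pow m), rcl_pow h1]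
  have hh : ∑ i ∈ Finset.range (m + 1), rcl h1 ^ i * rcl h2 ^ (m - i) = 0 := by
    rw [← rcl_hS h1 h2 m]
    exact (rcl_eq_zero_iff _).2 hrel
  obtain ⟨k1, k2⟩ := ring_main (by omega) (x2_eq D) (x1_pow D) (mix_ne D) hef hh
    (fun a => (g a : ℂ)) hg0 (hb1.symm.trans hb2)
  refine ⟨c₀, t, hc₀, ?_, ?_, hT⟩
  · rintro rfl
    rw [mul_zero] at k2
    have hm0 : ((m : ℂ) + 1) ≠ 0 := by exact_mod_cast Nat.succ_ne_zero m
    have : (c₀ : ℂ) = 0 := by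
      have := (mul_eq_zero.1 k2.symm).resolve_right hm0
      exact this
    exact hc₀ (by exact_mod_cast this)
  · refine (rcl_eq_iff hW₁.ec_eR (hpS.smul c₀)).1 ?_
    rw [rcl_smul _ hpS, rcl_pS h1 h2 m]
    exact k1

/-- **(EN)** the Euler class of `S` is not zero, for every orientation -/
theorem euler_S' (D : XM h m W p x) (hι' : 2 * Fintype.card ι' = n)
    {V : Euc N → (ι' × Fin 2 → Fin N) → ℝ} (hV : OR S G.P V)
    (hrel : Coh (GT.FF S) (hS (F.pull Prod.fst x) (F.pull Prod.snd x) m) 0) :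
    ¬ Coh S (eR G.P V) 0 := by
  intro h0
  have hk := D.hk
  have hkn := D.hkn
  have hι := D.hι
  obtain ⟨a, ha⟩ := D.hne
  have hc₁ : 2 * Fintype.card (Fin (a - Fintype.card ι)) + k = n := by
    rw [Fintype.card_fin]; omega
  obtain ⟨W₁, hW₁⟩ := exists_OR_F1 h hk ⟨a, ha⟩ hι hc₁ D.hW
  have hcard : Fintype.card ((ι ⊕ Fin (a - Fintype.card ι)) × Fin 2) = Fintype.card (ι' × Fin 2) := by
    simp only [Fintype.card_sum, Fintype.card_prod, Fintype.card_fin]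
    omega
  have σ := Fintype.equivOfCardEq hcard
  have hV' := GS.OR_rel σ hV
  obtain ⟨ρ, t, -, ht, -, hT⟩ := main' D hW₁ (by rw [Fintype.card_fin]; omega) hV' hrel
  have h1 : rcl hV'.ec_eR = 0 := by
    have h2 := GS.ec_rel σ hV
    rw [hV'.rcl_eR, h2]
    have h3 : ec hV.of = 0 := by
      rw [← hV.rcl_eR]
      exact (rcl_eq_zero_iff _).2 h0
    rw [h3, smul_zero]
  have hxm := (ec_x D).pow m
  rw [rcl_congr hV'.ec_eR (hxm.smul t) hT, rcl_smul _ hxm] at h1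
  have ht' : (t : ℂ) ≠ 0 := by exact_mod_cast ht
  exact D.xm_ne ((rcl_eq_zero_iff hxm).1 ((smul_eq_zero_iff_right ht').1 h1))

/-- **(X4′)** -/
theorem euler_F1' (D : XM h m W p x) (hW₁ : OR (GT.FF S) (F1 h) W₁)
    (hι₁ : 2 * Fintype.card ι₁ = n - k)
    (hrel : Coh (GT.FF S) (hS (F.pull Prod.fst x) (F.pull Prod.snd x) m) 0) :
    ∃ ρ : ℝ, ρ ≠ 0 ∧ Coh (GT.FF S) (eR (F1 h) W₁)
      (ρ • pS (F.pull Prod.fst x) (F.pull Prod.snd x) m) := by
  have hkn := D.hkn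
  have hι := D.hι
  obtain ⟨V, hV⟩ := GP.exists_OR_S (G := G) h.bl h.ty D.hk (ι := ι ⊕ ι₁) (by
    rw [Fintype.card_sum]; omega)
  obtain ⟨ρ, t, hρ, -, h1, -⟩ := main' D hW₁ hι₁ hV hrel
  exact ⟨ρ, hρ, h1⟩

end Crest.Agent.R208.XE
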