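import Crest.Agent.R208.FH12

/-! Row 208, block XF (helper885).  XF1a: the local limit `λ → ∞` of `∫ (f, λ g)^* τ` at a
nondegenerate zero of `g`. -/

set_option autoImplicit false
set_option linter.unusedSectionVars false

open MeasureTheory MeasureTheory.Measure Set Filter Topology Module
open scoped ContDiff
open Crest.Agent.R208.F Crest.Agent.R208.FI

noncomputable section

namespace Crest.Agent.R208.XF

variable {E H : Type*} [NormedAddCommGroup E] [NormedSpace ℝ E] [FiniteDimensional ℝ E]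
  [NormedAddCommGroup H] [NormedSpace ℝ H] [FiniteDimensional ℝ H] {d : ℕ}

/-- joint continuity of `(A, c) ↦ top (A^* c)` -/
theorem continuous_top_pb :
    Continuous fun q : (Eu d →L[ℝ] E) × Ext E => top d (pb (q.1 : Eu d →ₗ[ℝ] E) q.2) := by
  have : (fun q : (Eu d →L[ℝ] E) × Ext E => pb (q.1 : Eu d →ₗ[ℝ] E) q.2) =
      fun q => ∑ J, (extBasis E).coord J q.2 • pb (q.1 : Eu d →ₗ[ℝ] E) (extBasis E J) := by
    funext q
    conv_lhs => rw [← (extBasis E).sum_repr q.2]
    simp only [_root_.map_sum, map_smul]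
    rfl
  have h1 : Continuous (fun q : (Eu d →L[ℝ] E) × Ext E => pb (q.1 : Eu d →ₗ[ℝ] E) q.2) := by
    rw [this]
    refine continuous_finsetSum _ fun J _ => ?_
    exact ((LinearMap.toContinuousLinearMap ((extBasis E).coord J)).continuous.comp
      continuous_snd).smul ((contDiff_pb_apply (n := 0) (extBasis E J)).continuous.comp
      continuous_fst)
  exact continuous_top.comp h1

/-- scaling of the linear map -/
theorem top_pb_smul (A : Eu d →L[ℝ] E) (c : Ext E) (σ : ℝ) :
    top d (pb ((σ • A : Eu d →L[ℝ] E) : Eu d →ₗ[ℝ] E) c) =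
      σ ^ d * top d (pb (A : Eu d →ₗ[ℝ] E) c) := by
  rw [top_pb, top_pb]
  have h := (evA E d c).toMultilinearMap.map_smul_univ (fun _ : Fin d => σ)
    (fun i => A (sb d i))
  simp only [Finset.prod_const, Finset.card_univ, Fintype.card_fin, smul_eq_mul] at h
  exact h

/-- the derivative of `u ↦ (f u, λ g u)` -/
theorem fderiv_pair {f : Eu d → E} {g : Eu d → H} {u : Eu d} (lam : ℝ)
    (hf : DifferentiableAt ℝ f u) (hg : DifferentiableAt ℝ g u) :
    fderiv ℝ (fun u => (f u, lam • g u)) u = (fderiv ℝ f u).prod (lam • fderiv ℝ g u) := by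
  have h := DifferentiableAt.fderiv_prodMk (f₂ := fun u => lam • g u) hf (hg.fun_const_smul lam)
  rw [h, fderiv_fun_const_smul hg]

theorem continuous_clm_prod :
    Continuous fun q : (Eu d →L[ℝ] E) × (Eu d →L[ℝ] H) => q.1.prod q.2 :=
  (ContinuousLinearMap.prodₗᵢ (𝕜 := ℝ) (E := Eu d) (F := E) (G := H) ℝ).continuous

theorem aesm_comp {F : Eu d → ℝ} (hF : AEStronglyMeasurable F volume) (u0 : Eu d) {σ : ℝ}
    (hσ : σ ≠ 0) : AEStronglyMeasurable (fun y => F (u0 + σ • y)) volume := by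
  have h2 : Measure.QuasiMeasurePreserving (fun y : Eu d => σ • y) volume volume := by
    refine ⟨(continuous_const_smul _).measurable, ?_⟩
    rw [Measure.map_addHaar_smul _ hσ]
    exact Measure.smul_absolutelyContinuous
  have h1 : Measure.QuasiMeasurePreserving (fun y : Eu d => u0 + σ • y) volume volume :=
    (measurePreserving_add_left volume u0).quasiMeasurePreserving.comp h2
  exact hF.comp_quasiMeasurePreserving h1

/-- the measurability of the integrand -/
theorem aesm_Th {f : Eu d → E} {g : Eu d → H} {u0 : Eu d} {ρ : ℝ} {τ : E × H → Ext (E × H)}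
    {lam : ℝ} (hf : ContinuousOn f (Metric.ball u0 ρ)) (hg : ContinuousOn g (Metric.ball u0 ρ))
    (hf' : ContinuousOn (fderiv ℝ f) (Metric.ball u0 ρ))
    (hg' : ContinuousOn (fderiv ℝ g) (Metric.ball u0 ρ))
    (hτ : ∀ u ∈ Metric.ball u0 ρ, ContinuousAt τ (f u, lam • g u)) :
    AEStronglyMeasurable ((Metric.ball u0 ρ).indicator fun u =>
      top d (pb (((lam⁻¹ • fderiv ℝ f u).prod (fderiv ℝ g u) : Eu d →L[ℝ] E × H) :
        Eu d →ₗ[ℝ] E × H) (τ (f u, lam • g u)))) volume := by
  rw [aestronglyMeasurable_indicator_iff Metric.isOpen_ball.measurableSet]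
  refine ContinuousOn.aestronglyMeasurable ?_ Metric.isOpen_ball.measurableSet
  have h1 : ContinuousOn (fun u => (lam⁻¹ • fderiv ℝ f u).prod (fderiv ℝ g u))
      (Metric.ball u0 ρ) :=
    continuous_clm_prod.comp_continuousOn ((hf'.const_smul lam⁻¹).prodMk hg')
  have h2 : ContinuousOn (fun u => τ (f u, lam • g u)) (Metric.ball u0 ρ) := by
    intro u hu
    have h5 : ContinuousWithinAt (fun u => (f u, lam • g u)) (Metric.ball u0 ρ) u :=
      (hf u hu).prodMk ((hg u hu).const_smul lam)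
    exact ContinuousAt.comp_continuousWithinAt (g := τ) (f := fun u => (f u, lam • g u))
      (hτ u hu) h5
  have h3 : ContinuousOn (fun u => ((lam⁻¹ • fderiv ℝ f u).prod (fderiv ℝ g u),
      τ (f u, lam • g u))) (Metric.ball u0 ρ) := h1.prodMk h2
  exact Continuous.comp_continuousOn
    (g := fun q : (Eu d →L[ℝ] E × H) × Ext (E × H) => top d (pb (q.1 : Eu d →ₗ[ℝ] E × H) q.2))
    (f := fun u => ((lam⁻¹ • fderiv ℝ f u).prod (fderiv ℝ g u), τ (f u, lam • g u)))
    continuous_top_pb h3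

theorem local_limit {f : Eu d → E} {g : Eu d → H} {u0 : Eu d} {ρ c R : ℝ} (hρ : 0 < ρ)
    (hc : 0 < c) {P : E → H →L[ℝ] H} {τ : E × H → Ext (E × H)}
    (hf : ∀ u ∈ Metric.closedBall u0 ρ, ContDiffAt ℝ 1 f u)
    (hg : ∀ u ∈ Metric.closedBall u0 ρ, ContDiffAt ℝ 1 g u) (hg0 : g u0 = 0)
    (hgc : ∀ u ∈ Metric.closedBall u0 ρ, c * ‖u - u0‖ ≤ ‖g u‖)
    (hP : ∀ u ∈ Metric.closedBall u0 ρ, ContinuousAt P (f u))
    (hPg : ∀ u ∈ Metric.closedBall u0 ρ, P (f u) (g u) = g u)
    (hτ : ∀ u ∈ Metric.closedBall u0 ρ, ∀ v, P (f u) v = v → ContinuousAt τ (f u, v))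
    (hτR : ∀ z : E × H, R < ‖z.2‖ → τ z = 0) :
    Tendsto (fun lam : ℝ => ∫ u in Metric.ball u0 ρ,
        top d (F.pull (fun u => (f u, lam • g u)) τ u)) atTop
      (𝓝 (∫ y : Eu d, top d (pb (((0 : Eu d →L[ℝ] E).prod (fderiv ℝ g u0) :
        Eu d →L[ℝ] E × H) : Eu d →ₗ[ℝ] E × H) (τ (f u0, fderiv ℝ g u0 y))))) := by
  set cB := Metric.closedBall u0 ρ with hcB
  set L := fderiv ℝ g u0 with hL
  have hcBc : IsCompact cB := isCompact_closedBall _ _
  have hu0 : u0 ∈ cB := Metric.mem_closedBall_self hρ.le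
  have hdf : ∀ u ∈ cB, DifferentiableAt ℝ f u := fun u hu => (hf u hu).differentiableAt (by norm_num)
  have hdg : ∀ u ∈ cB, DifferentiableAt ℝ g u := fun u hu => (hg u hu).differentiableAt (by norm_num)
  have hfc : ContinuousOn f cB := fun u hu => (hf u hu).continuousAt.continuousWithinAt
  have hgc' : ContinuousOn g cB := fun u hu => (hg u hu).continuousAt.continuousWithinAt
  have hf' : ∀ u ∈ cB, ContinuousAt (fderiv ℝ f) u := fun u hu =>
    ((hf u hu).fderiv_right (m := 0) (by norm_num)).continuousAt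
  have hg' : ∀ u ∈ cB, ContinuousAt (fderiv ℝ g) u := fun u hu =>
    ((hg u hu).fderiv_right (m := 0) (by norm_num)).continuousAt
  -- the integrand
  let A : ℝ → Eu d → (Eu d →L[ℝ] E × H) := fun lam u =>
    (lam⁻¹ • fderiv ℝ f u).prod (fderiv ℝ g u)
  let Th : ℝ → Eu d → ℝ := fun lam u => top d (pb (A lam u : Eu d →ₗ[ℝ] E × H) (τ (f u, lam • g u)))
  let Φ : ℝ → Eu d → ℝ := fun lam y =>
    (Metric.ball u0 ρ).indicator (Th lam) (u0 + lam⁻¹ • y)
  have key1 : ∀ lam : ℝ, 0 < lam → ∀ u ∈ cB,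
      top d (F.pull (fun u => (f u, lam • g u)) τ u) = lam ^ d * Th lam u := by
    intro lam hlam u hu
    have h1 : fderiv ℝ (fun u => (f u, lam • g u)) u = lam • A lam u := by
      rw [fderiv_pair lam (hdf u hu) (hdg u hu)]
      ext v
      · simp [A, hlam.ne']
      · simp [A]
    rw [F.pull, h1, top_pb_smul]
  have key2 : ∀ lam : ℝ, 0 < lam → ∫ u in Metric.ball u0 ρ,
      top d (F.pull (fun u => (f u, lam • g u)) τ u) = ∫ y, Φ lam y := by
    intro lam hlam
    have h1 : ∫ u in Metric.ball u0 ρ, top d (F.pull (fun u => (f u, lam • g u)) τ u) =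
        ∫ u, (Metric.ball u0 ρ).indicator (fun u => lam ^ d * Th lam u) u := by
      rw [integral_indicator Metric.isOpen_ball.measurableSet]
      refine setIntegral_congr_fun Metric.isOpen_ball.measurableSet fun u hu => ?_
      exact key1 lam hlam u (Metric.ball_subset_closedBall hu)
    rw [h1]
    have h2 : (fun u => (Metric.ball u0 ρ).indicator (fun u => lam ^ d * Th lam u) u) =
        fun u => lam ^ d * (Metric.ball u0 ρ).indicator (Th lam) u := by
      funext u
      by_cases hu : u ∈ Metric.ball u0 ρ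
      · rw [indicator_of_mem hu, indicator_of_mem hu]
      · rw [indicator_of_notMem hu, indicator_of_notMem hu, mul_zero]
    rw [h2, integral_const_mul]
    have h3 : ∫ y, Φ lam y = |((lam⁻¹ ^ finrank ℝ (Eu d))⁻¹)| •
        ∫ y, (Metric.ball u0 ρ).indicator (Th lam) (u0 + y) :=
      Measure.integral_comp_smul volume
        (fun y => (Metric.ball u0 ρ).indicator (Th lam) (u0 + y)) lam⁻¹
    rw [h3, integral_add_left_eq_self (fun y => (Metric.ball u0 ρ).indicator (Th lam) y) u0,
      finrank_euclideanSpace_fin, inv_pow, _root_.inv_inv, abs_of_pos (pow_pos hlam d), smul_eq_mul]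
  -- compactness and the bound
  set Kb : Set (E × H) := {z | ∃ u ∈ cB, f u = z.1 ∧ P z.1 z.2 = z.2 ∧ ‖z.2‖ ≤ R} with hKb
  have hKbc : IsCompact Kb := by
    have h1 : IsCompact (cB ×ˢ Metric.closedBall (0 : H) R) :=
      hcBc.prod (isCompact_closedBall _ _)
    have h2 : IsClosed ((cB ×ˢ Metric.closedBall (0 : H) R) ∩
        {q : Eu d × H | P (f q.1) q.2 - q.2 ∈ ({0} : Set H)}) := by
      refine ContinuousOn.preimage_isClosed_of_isClosed ?_ h1.isClosed isClosed_singleton
      have h3 : ContinuousOn (fun q : Eu d × H => P (f q.1)) (cB ×ˢ Metric.closedBall (0 : H) R) := by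
        intro q hq
        have h4 : ContinuousAt (fun q : Eu d × H => P (f q.1)) q := by
          have h5 : ContinuousAt (fun q : Eu d × H => f q.1) q :=
            ContinuousAt.comp (g := f) (f := Prod.fst) (hf q.1 hq.1).continuousAt continuousAt_fst
          exact ContinuousAt.comp (g := P) (f := fun q : Eu d × H => f q.1) (hP q.1 hq.1) h5
        exact h4.continuousWithinAt
      exact (h3.clm_apply continuousOn_snd).sub continuousOn_snd
    have h3 : IsCompact ((cB ×ˢ Metric.closedBall (0 : H) R) ∩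
        {q : Eu d × H | P (f q.1) q.2 - q.2 ∈ ({0} : Set H)}) :=
      h1.of_isClosed_subset h2 inter_subset_left
    have h4 : Kb = (fun q : Eu d × H => (f q.1, q.2)) '' ((cB ×ˢ Metric.closedBall (0 : H) R) ∩
        {q : Eu d × H | P (f q.1) q.2 - q.2 ∈ ({0} : Set H)}) := by
      ext z
      constructor
      · rintro ⟨u, hu, h5, h6, h7⟩
        refine ⟨(u, z.2), ⟨⟨hu, by simpa using h7⟩, ?_⟩, Prod.ext h5 rfl⟩
        simp only [mem_ofPred_eq, mem_singleton_iff, h5, h6, sub_self]
      · rintro ⟨q, ⟨⟨h5, h6⟩, h7⟩, rfl⟩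
        refine ⟨q.1, h5, rfl, ?_, by simpa using h6⟩
        simpa [sub_eq_zero] using h7
    rw [h4]
    refine h3.image_of_continuousOn ?_
    refine ContinuousOn.prodMk ?_ continuousOn_snd
    exact hfc.comp continuousOn_fst fun q hq => hq.1.1
  have hτKb : ContinuousOn τ Kb := by
    rintro z ⟨u, hu, h5, h6, -⟩
    have : ContinuousAt τ (f u, z.2) := hτ u hu z.2 (by rw [h5]; exact h6)
    have h7 : (f u, z.2) = z := Prod.ext h5 rfl
    rw [h7] at this
    exact this.continuousWithinAt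
  have hM1 : ∃ M1, ∀ u ∈ cB, ‖fderiv ℝ f u‖ ≤ M1 := hcBc.exists_bound_of_continuousOn
    fun u hu => (hf' u hu).continuousWithinAt
  have hM2 : ∃ M2, ∀ u ∈ cB, ‖fderiv ℝ g u‖ ≤ M2 := hcBc.exists_bound_of_continuousOn
    fun u hu => (hg' u hu).continuousWithinAt
  obtain ⟨M1, hM1⟩ := hM1
  obtain ⟨M2, hM2⟩ := hM2
  have hM : ∃ M, ∀ q ∈ (Metric.closedBall (0 : Eu d →L[ℝ] E × H) (max M1 M2)) ×ˢ (τ '' Kb),
      ‖top d (pb (q.1 : Eu d →ₗ[ℝ] E × H) q.2)‖ ≤ M :=
    ((isCompact_closedBall _ _).prod (hKbc.image_of_continuousOn hτKb)).exists_bound_of_continuousOn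
      continuous_top_pb.continuousOn
  obtain ⟨M, hM⟩ := hM
  have hA : ∀ lam : ℝ, 1 ≤ lam → ∀ u ∈ cB, ‖A lam u‖ ≤ max M1 M2 := by
    intro lam hlam u hu
    refine ContinuousLinearMap.opNorm_le_bound _ ?_ fun v => ?_
    · exact le_max_of_le_left ((norm_nonneg _).trans (hM1 u hu))
    · change ‖(lam⁻¹ • fderiv ℝ f u v, fderiv ℝ g u v)‖ ≤ _
      rw [Prod.norm_def]
      refine max_le ?_ ?_
      · rw [norm_smul, norm_inv, Real.norm_of_nonneg (by linarith)]
        have h1 : lam⁻¹ ≤ 1 := inv_le_one_of_one_le₀ hlam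
        have h2 := (fderiv ℝ f u).le_opNorm v
        have h3 := hM1 u hu
        have h4 : ‖fderiv ℝ f u v‖ ≤ max M1 M2 * ‖v‖ :=
          h2.trans (mul_le_mul_of_nonneg_right (h3.trans (le_max_left _ _)) (norm_nonneg _))
        calc lam⁻¹ * ‖fderiv ℝ f u v‖ ≤ 1 * ‖fderiv ℝ f u v‖ :=
              mul_le_mul_of_nonneg_right h1 (norm_nonneg _)
          _ ≤ _ := by rw [one_mul]; exact h4
      · exact ((fderiv ℝ g u).le_opNorm v).trans
          (mul_le_mul_of_nonneg_right ((hM2 u hu).trans (le_max_right _ _)) (norm_nonneg _))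
  have hzero : ∀ lam : ℝ, 0 < lam → ∀ y : Eu d, R / c < ‖y‖ → Φ lam y = 0 := by
    intro lam hlam y hy
    by_cases hu : u0 + lam⁻¹ • y ∈ Metric.ball u0 ρ
    · have hu' := Metric.ball_subset_closedBall hu
      change (Metric.ball u0 ρ).indicator (Th lam) (u0 + lam⁻¹ • y) = 0
      rw [indicator_of_mem hu]
      have h1 := hgc _ hu'
      rw [add_sub_cancel_left, norm_smul, norm_inv, Real.norm_of_nonneg hlam.le] at h1
      have h2 : R < ‖lam • g (u0 + lam⁻¹ • y)‖ := by
        rw [norm_smul, Real.norm_of_nonneg hlam.le]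
        rw [div_lt_iff₀ hc] at hy
        calc R < ‖y‖ * c := hy
          _ = lam * (c * (lam⁻¹ * ‖y‖)) := by field_simp
          _ ≤ _ := mul_le_mul_of_nonneg_left h1 hlam.le
      change top d (pb _ (τ (f (u0 + lam⁻¹ • y), lam • g (u0 + lam⁻¹ • y)))) = 0
      rw [hτR _ h2, map_zero, map_zero]
    · exact indicator_of_notMem hu _
  have hbound : ∀ lam : ℝ, 1 ≤ lam → ∀ y : Eu d,
      ‖Φ lam y‖ ≤ (Metric.closedBall (0 : Eu d) (R / c)).indicator (fun _ => max M 0) y := by
    intro lam hlam y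
    have hlam0 : 0 < lam := by linarith
    by_cases hy : ‖y‖ ≤ R / c
    · rw [indicator_of_mem (by simpa using hy)]
      by_cases hu : u0 + lam⁻¹ • y ∈ Metric.ball u0 ρ
      · have hu' := Metric.ball_subset_closedBall hu
        change ‖(Metric.ball u0 ρ).indicator (Th lam) (u0 + lam⁻¹ • y)‖ ≤ _
        rw [indicator_of_mem hu]
        set u := u0 + lam⁻¹ • y with hudef
        change ‖top d (pb (A lam u : Eu d →ₗ[ℝ] E × H) (τ (f u, lam • g u)))‖ ≤ _
        by_cases hR : ‖lam • g u‖ ≤ R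
        · refine (hM (A lam u, τ (f u, lam • g u)) ⟨?_, ?_⟩).trans (le_max_left _ _)
          · simpa using hA lam hlam u hu'
          · exact ⟨_, ⟨u, hu', rfl, by
              change P (f u) (lam • g u) = lam • g u
              rw [map_smul, hPg u hu'], hR⟩, rfl⟩
        · rw [hτR _ (not_le.1 hR), map_zero, map_zero, norm_zero]
          exact le_max_right _ _
      · change ‖(Metric.ball u0 ρ).indicator (Th lam) (u0 + lam⁻¹ • y)‖ ≤ _
        rw [indicator_of_notMem hu, norm_zero]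
        exact le_max_right _ _
    · rw [hzero lam hlam0 y (not_le.1 hy), norm_zero]
      exact indicator_nonneg (fun _ _ => le_max_right _ _) _
  -- pointwise convergence
  have hLy : ∀ y : Eu d, Tendsto (fun lam : ℝ => lam • g (u0 + lam⁻¹ • y)) atTop (𝓝 (L y)) := by
    intro y
    have h1 : HasFDerivAt g L u0 := (hdg u0 hu0).hasFDerivAt
    have h2 := h1.lim y (c := fun lam : ℝ => lam) (l := (atTop : Filter ℝ))
      tendsto_norm_atTop_atTop
    refine h2.congr fun lam => ?_
    rw [hg0, sub_zero]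
  have hu0y : ∀ y : Eu d, Tendsto (fun lam : ℝ => u0 + lam⁻¹ • y) atTop (𝓝 u0) := by
    intro y
    have h1 : Tendsto (fun lam : ℝ => u0 + lam⁻¹ • y) atTop (𝓝 (u0 + (0 : ℝ) • y)) :=
      tendsto_const_nhds.add (tendsto_inv_atTop_zero.smul_const y)
    simpa using h1
  have hPL : ∀ y : Eu d, P (f u0) (L y) = L y := by
    intro y
    have h1 : Tendsto (fun lam : ℝ => P (f (u0 + lam⁻¹ • y)) (lam • g (u0 + lam⁻¹ • y))) atTop
        (𝓝 (P (f u0) (L y))) := by
      have h2 : Tendsto (fun lam : ℝ => P (f (u0 + lam⁻¹ • y))) atTop (𝓝 (P (f u0))) :=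
        ((hP u0 hu0).tendsto.comp (hf u0 hu0).continuousAt.tendsto).comp (hu0y y)
      exact (isBoundedBilinearMap_apply (𝕜 := ℝ) (E := H) (F := H)).continuous.continuousAt.tendsto.comp
        (h2.prodMk_nhds (hLy y))
    have h3 : ∀ᶠ lam : ℝ in atTop, P (f (u0 + lam⁻¹ • y)) (lam • g (u0 + lam⁻¹ • y)) =
        lam • g (u0 + lam⁻¹ • y) := by
      filter_upwards [(hu0y y).eventually (Metric.closedBall_mem_nhds u0 hρ)] with lam hlam
      rw [map_smul, hPg _ hlam]
    exact tendsto_nhds_unique (h1.congr' h3) (hLy y)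
  have hpt : ∀ y : Eu d, Tendsto (fun lam => Φ lam y) atTop
      (𝓝 (top d (pb (((0 : Eu d →L[ℝ] E).prod L : Eu d →L[ℝ] E × H) : Eu d →ₗ[ℝ] E × H)
        (τ (f u0, L y))))) := by
    intro y
    have h1 : Tendsto (fun lam : ℝ => A lam (u0 + lam⁻¹ • y)) atTop
        (𝓝 ((0 : Eu d →L[ℝ] E).prod L)) := by
      have h2 : Tendsto (fun lam : ℝ => lam⁻¹ • fderiv ℝ f (u0 + lam⁻¹ • y)) atTop (𝓝 0) := by
        have h3 := (tendsto_inv_atTop_zero (𝕜 := ℝ)).smul ((hf' u0 hu0).tendsto.comp (hu0y y))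
        rw [zero_smul] at h3
        exact h3
      have h3 : Tendsto (fun lam : ℝ => fderiv ℝ g (u0 + lam⁻¹ • y)) atTop (𝓝 L) :=
        (hg' u0 hu0).tendsto.comp (hu0y y)
      exact (continuous_clm_prod (d := d) (E := E) (H := H)).continuousAt.tendsto.comp
        (h2.prodMk_nhds h3)
    have h5 : Tendsto (fun lam : ℝ => τ (f (u0 + lam⁻¹ • y), lam • g (u0 + lam⁻¹ • y))) atTop
        (𝓝 (τ (f u0, L y))) := by
      have h6 := hτ u0 hu0 (L y) (hPL y)
      exact h6.tendsto.comp (((hf u0 hu0).continuousAt.tendsto.comp (hu0y y)).prodMk_nhds (hLy y))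
    have h7 := (continuous_top_pb (d := d) (E := E × H)).continuousAt.tendsto.comp
      (h1.prodMk_nhds h5)
    refine h7.congr' ?_
    filter_upwards [(hu0y y).eventually (Metric.ball_mem_nhds u0 hρ)] with lam hlam
    change _ = (Metric.ball u0 ρ).indicator (Th lam) (u0 + lam⁻¹ • y)
    rw [indicator_of_mem (Metric.mem_ball.2 hlam)]
    rfl
  -- conclusion
  have hfin : Tendsto (fun lam => ∫ y, Φ lam y) atTop
      (𝓝 (∫ y : Eu d, top d (pb (((0 : Eu d →L[ℝ] E).prod L :
        Eu d →L[ℝ] E × H) : Eu d →ₗ[ℝ] E × H) (τ (f u0, L y))))) := by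
    refine tendsto_integral_filter_of_dominated_convergence
      ((Metric.closedBall (0 : Eu d) (R / c)).indicator (fun _ => max M 0)) ?_ ?_ ?_ ?_
    · filter_upwards [eventually_gt_atTop 0] with lam hlam
      refine aesm_comp (F := (Metric.ball u0 ρ).indicator (Th lam)) ?_ u0
        (inv_ne_zero (ne_of_gt hlam))
      refine aesm_Th (hfc.mono Metric.ball_subset_closedBall)
        (hgc'.mono Metric.ball_subset_closedBall)
        (fun u hu => (hf' u (Metric.ball_subset_closedBall hu)).continuousWithinAt)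
        (fun u hu => (hg' u (Metric.ball_subset_closedBall hu)).continuousWithinAt)
        (fun u hu => ?_)
      have hu' := Metric.ball_subset_closedBall hu
      exact hτ u hu' _ (by rw [map_smul, hPg u hu'])
    · filter_upwards [eventually_ge_atTop 1] with lam hlam
      exact Eventually.of_forall (hbound lam hlam)
    · exact (integrable_indicator_iff Metric.isClosed_closedBall.measurableSet).2
        (integrableOn_const ((isCompact_closedBall _ _).measure_lt_top.ne))
    · exact Eventually.of_forall hpt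
  refine hfin.congr' ?_
  filter_upwards [eventually_gt_atTop 0] with lam hlam
  exact (key2 lam hlam).symm

end Crest.Agent.R208.XF
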