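import Crest.Agent.R208.FI2b
import Crest.Agent.R208.FI1e
import Mathlib.Analysis.Quaternion

/-! Row 208, block XM (helper671).  XM1: the unit sphere `S⁴` in `ℝ × ℍ` as a closed oriented
connected submanifold. -/

set_option autoImplicit false
set_option linter.unusedSectionVars false
set_option linter.unusedSimpArgs false
set_option linter.unusedVariables false

open scoped BigOperators ContDiff Topology Quaternion RealInnerProductSpace
open Module Set Filter

noncomputable section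

namespace Crest.Agent.R208.XM

open Crest.Agent.R208.F Crest.Agent.R208.FI

instance : FiniteDimensional ℝ ℍ :=
  LinearEquiv.finiteDimensional Quaternion.linearIsometryEquivTuple.toLinearEquiv.symm

/-- the ambient space -/
abbrev E5 := ℝ × ℍ

theorem finrank_E5 : finrank ℝ E5 = 5 := by
  rw [Module.finrank_prod, Module.finrank_self, Quaternion.finrank_eq_four]

/-- the equation of the sphere -/
def gX (z : E5) : ℝ := z.1 ^ 2 + ‖z.2‖ ^ 2 - 1

/-- the unit sphere of `ℝ × ℍ` -/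
def X4 : Set E5 := {z ∈ (univ : Set E5) | gX z = 0}

theorem mem_X4 {z : E5} : z ∈ X4 ↔ z.1 ^ 2 + ‖z.2‖ ^ 2 = 1 := by
  constructor
  · rintro ⟨-, h⟩
    have : z.1 ^ 2 + ‖z.2‖ ^ 2 - 1 = 0 := h
    linarith
  · intro h
    refine ⟨mem_univ _, ?_⟩
    change z.1 ^ 2 + ‖z.2‖ ^ 2 - 1 = 0
    linarith

theorem contDiff_gX : ContDiff ℝ ∞ gX := by
  unfold gX
  exact ((contDiff_fst.pow 2).add (contDiff_snd.norm_sq ℝ)).sub contDiff_const

theorem fderiv_gX (z w : E5) : fderiv ℝ gX z w = 2 * z.1 * w.1 + 2 * ⟪z.2, w.2⟫ := by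
  have h1 : HasFDerivAt (fun z : E5 => z.1 ^ 2) ((2 * z.1) • ContinuousLinearMap.fst ℝ ℝ ℍ) z := by
    have := (hasFDerivAt_fst (𝕜 := ℝ) (p := z)).pow 2
    refine this.congr_fderiv ?_
    ext <;> simp
  have h2 : HasFDerivAt (fun z : E5 => ‖z.2‖ ^ 2)
      (2 • (innerSL ℝ z.2).comp (ContinuousLinearMap.snd ℝ ℝ ℍ)) z :=
    (hasFDerivAt_snd (𝕜 := ℝ) (p := z)).norm_sq
  have h3 : HasFDerivAt gX ((2 * z.1) • ContinuousLinearMap.fst ℝ ℝ ℍ
      + 2 • (innerSL ℝ z.2).comp (ContinuousLinearMap.snd ℝ ℝ ℍ)) z :=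
    (h1.add h2).sub_const 1
  rw [h3.fderiv]
  simp [two_smul]
  ring

theorem surj_gX (z : E5) (hz : gX z = 0) (y : ℝ) :
    ∃ v ∈ Tan (univ : Set E5) z, fderiv ℝ gX z v = y := by
  have hT : Tan (univ : Set E5) z = ⊤ := by
    rw [eq_top_iff]
    intro v _
    have h1 : HasDerivAt (fun t : ℝ => z + t • v) v 0 := by
      simpa using ((hasDerivAt_id (0 : ℝ)).smul_const v).const_add z
    have h2 := mem_Tan_of_curve (X := (univ : Set E5)) h1
      (Filter.Eventually.of_forall fun _ => mem_univ _)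
    simpa using h2
  refine ⟨(y / 2) • z, by rw [hT]; trivial, ?_⟩
  have h0 : z.1 ^ 2 + ‖z.2‖ ^ 2 = 1 := by
    have : z.1 ^ 2 + ‖z.2‖ ^ 2 - 1 = 0 := hz
    linarith
  rw [fderiv_gX]
  simp only [Prod.smul_fst, Prod.smul_snd, smul_eq_mul, real_inner_smul_right,
    real_inner_self_eq_norm_sq]
  have : 2 * z.1 * (y / 2 * z.1) + 2 * (y / 2 * ‖z.2‖ ^ 2) = y * (z.1 ^ 2 + ‖z.2‖ ^ 2) := by ring
  rw [this, h0, mul_one]

theorem sub_X4 : Sub 4 X4 := by
  have h := Sub.level (sub_open (n := 5) finrank_E5 (isOpen_univ (X := E5))) (g := gX)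
    (fun x _ => contDiff_gX.contDiffAt) (fun x _ hx y => surj_gX x hx y)
  rwa [show 5 - finrank ℝ ℝ = 4 by rw [Module.finrank_self]] at h

theorem isCompact_X4 : IsCompact X4 := by
  refine Metric.isCompact_of_isClosed_isBounded ?_ ?_
  · have : X4 = gX ⁻¹' {0} := by
      ext z; simp [X4]
    rw [this]
    exact isClosed_singleton.preimage contDiff_gX.continuous
  · refine (Metric.isBounded_iff_subset_closedBall 0).2 ⟨1, fun z hz => ?_⟩
    rw [mem_X4] at hz
    rw [mem_closedBall_zero_iff, Prod.norm_def, max_le_iff]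
    constructor
    · rw [Real.norm_eq_abs]
      exact abs_le_one_iff_mul_self_le_one.2 (by nlinarith [norm_nonneg z.2, sq_nonneg ‖z.2‖])
    · nlinarith [norm_nonneg z.2, sq_nonneg z.1]

theorem clo_X4 : Clo 4 X4 := sub_X4.clo isCompact_X4

theorem mem_Tan_X4 {z : E5} (hz : z ∈ X4) {w : E5} :
    w ∈ Tan X4 z ↔ z.1 * w.1 + ⟪z.2, w.2⟫ = 0 := by
  have h := Sub.Tan_level (sub_open (n := 5) finrank_E5 (isOpen_univ (X := E5))) (g := gX)
    (fun x _ => contDiff_gX.contDiffAt) (fun x _ hx y => surj_gX x hx y) (x := z) (mem_univ _) hz.2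
  have hT : Tan (univ : Set E5) z = ⊤ := by
    rw [eq_top_iff]
    intro v _
    have h1 : HasDerivAt (fun t : ℝ => z + t • v) v 0 := by
      simpa using ((hasDerivAt_id (0 : ℝ)).smul_const v).const_add z
    have h2 := mem_Tan_of_curve (X := (univ : Set E5)) h1
      (Filter.Eventually.of_forall fun _ => mem_univ _)
    simpa using h2
  change Tan X4 z = _ at h
  rw [h, hT, top_inf_eq, LinearMap.mem_ker]
  change fderiv ℝ gX z w = 0 ↔ _
  rw [fderiv_gX]
  constructor <;> intro h' <;> linarith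

theorem preconn_X4 : IsPreconnected X4 := by
  have hc : IsPreconnected (Metric.closedBall (0 : ℍ) 1) :=
    (convex_closedBall (0 : ℍ) 1).isPreconnected
  have h1 : IsPreconnected ((fun v : ℍ => ((√(1 - ‖v‖ ^ 2), v) : E5)) '' Metric.closedBall 0 1) :=
    hc.image _ (by fun_prop)
  have h2 : IsPreconnected ((fun v : ℍ => ((-√(1 - ‖v‖ ^ 2), v) : E5)) '' Metric.closedBall 0 1) :=
    hc.image _ (by fun_prop)
  have hx : X4 = ((fun v : ℍ => ((√(1 - ‖v‖ ^ 2), v) : E5)) '' Metric.closedBall 0 1)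
      ∪ ((fun v : ℍ => ((-√(1 - ‖v‖ ^ 2), v) : E5)) '' Metric.closedBall 0 1) := by
    ext z
    constructor
    · intro hz
      rw [mem_X4] at hz
      have hv : z.2 ∈ Metric.closedBall (0 : ℍ) 1 := by
        rw [mem_closedBall_zero_iff]
        nlinarith [norm_nonneg z.2, sq_nonneg z.1]
      have hs : √(1 - ‖z.2‖ ^ 2) = |z.1| := by
        rw [show 1 - ‖z.2‖ ^ 2 = z.1 ^ 2 by linarith, Real.sqrt_sq_eq_abs]
      rcases le_total 0 z.1 with h | h
      · left
        exact ⟨z.2, hv, Prod.ext (by simp only [hs]; exact abs_of_nonneg h) rfl⟩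
      · right
        exact ⟨z.2, hv, Prod.ext (by simp only [hs]; rw [abs_of_nonpos h, neg_neg]) rfl⟩
    · rintro (⟨v, hv, rfl⟩ | ⟨v, hv, rfl⟩) <;>
      · rw [mem_X4]
        rw [mem_closedBall_zero_iff] at hv
        have : 0 ≤ 1 - ‖v‖ ^ 2 := by nlinarith [norm_nonneg v]
        simp only [neg_sq, Real.sq_sqrt this]
        ring
  rw [hx]
  refine h1.union ((0, 1) : E5) ?_ ?_ h2
  · exact ⟨1, by simp, by simp⟩
  · exact ⟨1, by simp, by simp⟩

/-! ### orientation -/

/-- a basis of `ℝ × ℍ` -/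
def b5 : Basis (Fin 5) ℝ E5 := (Module.finBasis ℝ E5).reindex (finCongr finrank_E5)

/-- a volume form -/
def vol5 : Ext E5 := ExteriorAlgebra.ιMulti ℝ 5 fun i => b5.coord i

theorem evA_vol5 : evA E5 5 vol5 b5 = 1 := by
  rw [vol5, evA_iMulti]
  have : (Matrix.of fun i j => b5.coord j (b5 i)) = (1 : Matrix (Fin 5) (Fin 5) ℝ) := by
    ext i j
    simp [Matrix.one_apply, Finsupp.single_apply]
  rw [this, Matrix.det_one]

theorem evA_vol5_ne {w : Fin 5 → E5} (hw : LinearIndependent ℝ w) : evA E5 5 vol5 w ≠ 0 := by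
  set b : Basis (Fin 5) ℝ E5 := basisOfLinearIndependentOfCardEqFinrank hw
    (by rw [finrank_E5]; simp) with hb
  have hbw : ∀ i, b i = w i := fun i => by rw [hb]; simp
  have h := evA_comb 5 vol5 w b5 (Matrix.of fun i j => b.repr (b5 i) j) fun i => by
    simp only [Matrix.of_apply]
    conv_lhs => rw [← b.sum_repr (b5 i)]
    exact Finset.sum_congr rfl fun j _ => by rw [hbw]
  rw [evA_vol5] at h
  intro h0
  rw [h0, mul_zero] at h
  exact one_ne_zero h

/-- the orientation form of `S⁴` -/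
def o4 (z : E5) : Ext E5 := ii z vol5

theorem contDiff_o4 : ContDiff ℝ ∞ o4 := by
  have : o4 = fun z => LinearMap.toContinuousLinearMap
    ((LinearMap.applyₗ vol5 : (Ext E5 →ₗ[ℝ] Ext E5) →ₗ[ℝ] Ext E5) ∘ₗ (ii : E5 →ₗ[ℝ] _)) z := rfl
  rw [this]
  exact ContinuousLinearMap.contDiff _

theorem ori_X4 : Ori 4 X4 o4 := by
  refine ori_of clo_X4 contDiff_o4.continuous.continuousOn fun z hz => ?_
  have hfin : finrank ℝ (Tan X4 z) = 4 := clo_X4.finrank_Tan hz
  let b : Basis (Fin 4) ℝ (Tan X4 z) := (Module.finBasis ℝ (Tan X4 z)).reindex (finCongr hfin)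
  refine ⟨fun i => (b i : E5), fun i => (b i).2, ?_⟩
  change evA E5 4 (ii z vol5) _ ≠ 0
  rw [← evA_ii]
  refine evA_vol5_ne ?_
  have hli : LinearIndependent ℝ (fun i => (b i : E5)) :=
    b.linearIndependent.map' (Tan X4 z).subtype (Submodule.ker_subtype _)
  change LinearIndependent ℝ (Fin.cons z (fun i => (b i : E5)) : Fin 5 → E5)
  rw [linearIndependent_finCons]
  refine ⟨hli, fun hmem => ?_⟩
  have h1 : z ∈ Tan X4 z := by
    refine (Submodule.span_le.2 ?_) hmem
    rintro _ ⟨i, rfl⟩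
    exact (b i).2
  rw [mem_Tan_X4 hz, real_inner_self_eq_norm_sq] at h1
  rw [mem_X4] at hz
  nlinarith

end Crest.Agent.R208.XM
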