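import Crest.Agent.R208.CW1

/-! Row 208, block XM (helper671).  XM2: connection forms of orthonormal frames, the Chern-Simons
form, gauge transformations, additivity of `tr (g⁻¹ dg)³`. -/

set_option autoImplicit false
set_option linter.unusedSectionVars false
set_option linter.unusedSimpArgs false
set_option linter.unusedVariables false

open scoped BigOperators ContDiff Topology
open Module Set Matrix

noncomputable section

namespace Crest.Agent.R208.XM

open Crest.Agent.R208.F Crest.Agent.R208.FI Crest.Agent.R208.CW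

section alg
variable {T : Type*} [AddCommGroup T] [Module ℝ T] {n m : Type*} [Fintype n] [Fintype m]

/-- graded cyclicity of the trace -/
theorem tr_odd {X : Matrix n m (CF T)} (hX : invM X = -X) (Y : Matrix m n (CF T)) :
    (X * Y).trace = (invM Y * X).trace := by
  simp only [Matrix.trace, Matrix.diag_apply, Matrix.mul_apply]
  rw [Finset.sum_comm]
  refine Finset.sum_congr rfl fun i _ => Finset.sum_congr rfl fun j _ => ?_
  have h : invC (X j i) = - X j i := congrFun (congrFun hX j) i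
  exact odd_commC h _

theorem invM_mul' {l : Type*} [Fintype l] (A : Matrix n m (CF T)) (B : Matrix m l (CF T)) :
    invM (A * B) = invM A * invM B := invM_mul A B

variable {A X Y Z : Matrix n n (CF T)}

theorem tr_oo (hX : invM X = -X) (hY : invM Y = -Y) : (X * Y).trace = -(Y * X).trace := by
  rw [tr_odd hX, hY, neg_mul, Matrix.trace_neg]

theorem tr_oe (hX : invM X = -X) (hY : invM Y = Y) : (X * Y).trace = (Y * X).trace := by
  rw [tr_odd hX, hY]

/-- cyclicity for three odd factors -/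
theorem tr_ooo (hX : invM X = -X) (hY : invM Y = -Y) (hZ : invM Z = -Z) :
    (X * Y * Z).trace = (Y * Z * X).trace := by
  rw [Matrix.mul_assoc X Y Z]
  exact tr_oe hX (by rw [invM_mul, hY, hZ, neg_mul_neg])

theorem tr_four (hA : invM A = -A) : (A * A * A * A).trace = 0 := by
  have h : (A * A * A * A).trace = -(A * A * A * A).trace := by
    have e : A * A * A * A = A * (A * A * A) := by simp only [Matrix.mul_assoc]
    conv_lhs => rw [e, tr_oo hA (by rw [invM_mul, invM_mul, hA, neg_mul_neg, mul_neg])]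
  have h2 : (2 : ℂ) • (A * A * A * A).trace = 0 := by
    rw [two_smul]
    nth_rewrite 1 [h]
    rw [neg_add_cancel]
  have h3 := congrArg (fun c => ((2 : ℂ)⁻¹) • c) h2
  simpa [smul_smul] using h3

end alg

section clc
variable {E : Type*} [NormedAddCommGroup E] [NormedSpace ℝ E] [FiniteDimensional ℝ E]
  {n m l : Type*} [Fintype n] [Fintype m] [Fintype l] [DecidableEq n] [DecidableEq m]
  [DecidableEq l] {x : E}

theorem DD_congr {M N : E → Matrix n m ℂ} (h : M =ᶠ[𝓝 x] N) : DD M x = DD N x := by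
  refine Matrix.ext fun i j => ?_
  exact dC_congr (h.mono fun y hy => by simp only [hy])

theorem DD_congr_nhds {M N : E → Matrix n m ℂ} (h : M =ᶠ[𝓝 x] N) : DD M =ᶠ[𝓝 x] DD N :=
  h.eventually_nhds.mono fun _ hy => DD_congr hy

theorem dM_congr {M N : E → Matrix n m (CF E)} (h : M =ᶠ[𝓝 x] N) : dM M x = dM N x := by
  refine Matrix.ext fun i j => ?_
  exact dC_congr (h.mono fun y hy => by simp only [hy])

theorem dC_trace' {A : E → Matrix n n (CF E)} (hA : MD 1 A x) :
    dC (fun y => (A y).trace) x = (dM A x).trace := dC_trace hA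

theorem one_le_inf' : (1 : WithTop ℕ∞) ≤ ∞ := one_le_inf

/-- the connection form `Bᵀ dB` of a frame -/
def cA (B : E → Matrix n m ℂ) (y : E) : Matrix m m (CF E) := hat E (B y)ᵀ * DD B y

theorem invM_cA (B : E → Matrix n m ℂ) (y : E) : invM (cA B y) = - cA B y := by
  rw [cA, invM_mul, invM_hat, invM_DD, Matrix.mul_neg]

theorem MD_cA {B : E → Matrix n m ℂ} (hB : SM ∞ B x) : MD ∞ (cA B) x :=
  hB.transpose.hat.mul (hB.MD_DD inf_add_one)

/-- a frame: smooth and orthonormal near `x` -/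
structure OFm (B : E → Matrix n m ℂ) (x : E) : Prop where
  sm : ∀ᶠ y in 𝓝 x, SM ∞ B y
  on : ∀ᶠ y in 𝓝 x, (B y)ᵀ * B y = 1

theorem OFm.s {B : E → Matrix n m ℂ} (h : OFm B x) : SM ∞ B x := h.sm.self_of_nhds
theorem OFm.o {B : E → Matrix n m ℂ} (h : OFm B x) : (B x)ᵀ * B x = 1 := h.on.self_of_nhds

theorem OFm.ev {B : E → Matrix n m ℂ} (h : OFm B x) : ∀ᶠ y in 𝓝 x, OFm B y := by
  filter_upwards [h.sm.eventually_nhds, h.on.eventually_nhds] with y h1 h2 using ⟨h1, h2⟩

theorem DD_tr_mul {B : E → Matrix n m ℂ} (h : OFm B x) :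
    DD (fun y => (B y)ᵀ) x * hat E (B x) = - cA B x := by
  have h1 := DD_mul (E := E) (h.s.transpose.of_le one_le_inf) (h.s.of_le one_le_inf)
  have h2 : DD (fun y => (B y)ᵀ * B y) x = 0 := by
    rw [DD_congr (N := fun _ => 1) h.on, DD_const]
  rw [h2] at h1
  rw [cA, eq_neg_iff_add_eq_zero]
  exact h1.symm

theorem dM_cA {B : E → Matrix n m ℂ} (h : SM ∞ B x) :
    dM (cA B) x = DD (fun y => (B y)ᵀ) x * DD B x := by
  have h1 : MD 1 (fun y => hat E (B y)ᵀ) x := (h.transpose.hat).of_le one_le_inf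
  have h2 : MD 1 (DD B) x := (h.MD_DD inf_add_one).of_le one_le_inf
  have h3 := dM_mul h1 h2
  rw [dM_DD (h.of_le two_le), Matrix.mul_zero, add_zero] at h3
  exact h3

theorem dM_dM_cA {B : E → Matrix n m ℂ} (h : ∀ᶠ y in 𝓝 x, SM ∞ B y) :
    dM (dM (cA B)) x = 0 := by
  have h1 : dM (cA B) =ᶠ[𝓝 x] fun y => DD (fun y => (B y)ᵀ) y * DD B y := by
    filter_upwards [h] with y hy using dM_cA hy
  have hs := h.self_of_nhds
  rw [dM_congr h1, dM_mul ((hs.transpose.MD_DD inf_add_one).of_le one_le_inf)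
    ((hs.MD_DD inf_add_one).of_le one_le_inf), dM_DD (hs.of_le two_le),
    dM_DD (hs.transpose.of_le two_le), Matrix.zero_mul, Matrix.mul_zero, add_zero]

theorem invM_dM_cA {B : E → Matrix n m ℂ} (h : SM ∞ B x) : invM (dM (cA B) x) = dM (cA B) x := by
  rw [dM_cA h, invM_mul, invM_DD, invM_DD, Matrix.neg_mul, Matrix.mul_neg, neg_neg]

/-- the Chern-Simons form -/
def csf (B : E → Matrix n m ℂ) (y : E) : CF E :=
  (cA B y * dM (cA B) y).trace + ((2 : ℂ) / 3) • (cA B y * cA B y * cA B y).trace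

theorem CD_csf {B : E → Matrix n m ℂ} (h : SM ∞ B x) : CD ∞ (csf B) x := by
  have h1 := MD_cA h
  exact (h1.mul (h1.dM inf_add_one)).trace.add (((h1.mul h1).mul h1).trace.csmul _)

theorem third (c : CF E) : ((2 : ℂ) / 3) • (c + c + c) = c + c := by
  have : c + c + c = (3 : ℂ) • c := by
    rw [show (3 : ℂ) = 1 + 1 + 1 by norm_num, add_smul, add_smul, one_smul]
  rw [this, smul_smul, show (2 : ℂ) / 3 * 3 = 1 + 1 by norm_num, add_smul, one_smul]

/-- `d CS = tr F²` -/
theorem dC_csf {B : E → Matrix n m ℂ} (h : ∀ᶠ y in 𝓝 x, SM ∞ B y) :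
    dC (csf B) x = ((dM (cA B) x + cA B x * cA B x) * (dM (cA B) x + cA B x * cA B x)).trace := by
  have hs := h.self_of_nhds
  have h1 : MD 1 (cA B) x := (MD_cA hs).of_le one_le_inf
  have h2 : MD 1 (dM (cA B)) x := ((MD_cA hs).dM inf_add_one).of_le one_le_inf
  have ho := invM_cA B x
  have he := invM_dM_cA hs
  set A := cA B x with hA
  set D := dM (cA B) x with hD
  have e1 : dC (fun y => (cA B y * dM (cA B) y).trace) x = (D * D).trace := by
    rw [dC_trace (h1.mul h2), dM_mul h1 h2, dM_dM_cA h, mul_zero, add_zero]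
  have e2 : dC (fun y => (cA B y * cA B y * cA B y).trace) x
      = (D * (A * A)).trace + (D * (A * A)).trace + (D * (A * A)).trace := by
    rw [dC_trace ((h1.mul h1).mul h1), dM_mul (h1.mul h1) h1, dM_mul h1 h1, invM_mul]
    rw [← hA, ← hD, ho, Matrix.trace_add, add_mul, Matrix.trace_add, neg_mul, neg_mul,
      Matrix.trace_neg, neg_mul_neg]
    have f1 : (A * D * A).trace = -(D * (A * A)).trace := by
      rw [Matrix.mul_assoc A D A, tr_oo ho (by rw [invM_mul, he, ho, mul_neg]), Matrix.mul_assoc]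
    have f2 : (A * A * D).trace = (D * (A * A)).trace := by
      rw [Matrix.mul_assoc A A D, tr_oo ho (by rw [invM_mul, he, ho, neg_mul]), f1, neg_neg]
    rw [f1, f2, neg_neg, Matrix.mul_assoc]
  have e3 : dC (csf B) x = (D * D).trace + ((2 : ℂ) / 3) • ((D * (A * A)).trace
      + (D * (A * A)).trace + (D * (A * A)).trace) := by
    rw [← e1, ← e2, ← dC_csmul _ (((h1.mul h1).mul h1).trace)]
    exact dC_add (h1.mul h2).trace ((((h1.mul h1).mul h1).trace).csmul _)
  rw [e3, third]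
  have f2 : (A * A * D).trace = (D * (A * A)).trace := by
    have f1 : (A * D * A).trace = -(D * (A * A)).trace := by
      rw [Matrix.mul_assoc A D A, tr_oo ho (by rw [invM_mul, he, ho, mul_neg]), Matrix.mul_assoc]
    rw [Matrix.mul_assoc A A D, tr_oo ho (by rw [invM_mul, he, ho, neg_mul]), f1, neg_neg]
  have f4 : (A * A * (A * A)).trace = 0 := by
    rw [← Matrix.mul_assoc]; exact tr_four ho
  rw [mul_add, add_mul, add_mul, Matrix.trace_add, Matrix.trace_add, Matrix.trace_add, f2, f4,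
    add_zero, add_assoc]

/-- **`s_2` of the field of a frame is `d CS`** -/
theorem sf_two_eq {B : E → Matrix n m ℂ} (h : OFm B x) {Q : E → Matrix n n ℂ}
    (hQ : Q =ᶠ[𝓝 x] fun y => B y * (B y)ᵀ) : sf 2 Q x = dC (csf B) x := by
  have hb1 : SM 1 B x := h.s.of_le one_le_inf
  have hq1 : Q x = B x * (B x)ᵀ := hQ.self_of_nhds
  have hδ : DD Q x = DD B x * hat E (B x)ᵀ + hat E (B x) * DD (fun y => (B y)ᵀ) x := by
    rw [DD_congr hQ, DD_mul hb1 hb1.transpose]
  have hCB : hat E (B x)ᵀ * hat E (B x) = 1 := by rw [← hat_mul, h.o, hat_one]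
  set b := hat E (B x) with hb
  set c := hat E (B x)ᵀ with hc
  set db := DD B x with hdb
  set dc := DD (fun y => (B y)ᵀ) x with hdc
  have hdcb : dc * b = -(c * db) := DD_tr_mul h
  have hA : cA B x = c * db := rfl
  have hDA : dM (cA B) x = dc * db := dM_cA h.s
  have hqh : hat E (Q x) = b * c := by rw [hq1, hat_mul]
  have r1 : ∀ Y : Matrix m n (CF E), c * (b * Y) = Y := fun Y => by
    rw [← Matrix.mul_assoc, hCB, Matrix.one_mul]
  have r1' : ∀ Y : Matrix m m (CF E), c * (b * Y) = Y := fun Y => by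
    rw [← Matrix.mul_assoc, hCB, Matrix.one_mul]
  have r2 : ∀ Y : Matrix m n (CF E), dc * (b * Y) = -(c * (db * Y)) :=
    fun Y => by rw [← Matrix.mul_assoc, hdcb, Matrix.neg_mul, Matrix.mul_assoc]
  have r2' : ∀ Y : Matrix m m (CF E), dc * (b * Y) = -(c * (db * Y)) :=
    fun Y => by rw [← Matrix.mul_assoc, hdcb, Matrix.neg_mul, Matrix.mul_assoc]
  have hqq : hat E (Q x) * hat E (Q x) = hat E (Q x) := by
    rw [hqh, Matrix.mul_assoc, r1]
  -- `δ = δ q + q δ`
  have hδq : DD Q x = DD Q x * hat E (Q x) + hat E (Q x) * DD Q x := by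
    rw [hδ, hqh]
    simp only [Matrix.add_mul, Matrix.mul_add, Matrix.mul_assoc, r1, r1', r2, r2', Matrix.mul_neg,
      Matrix.neg_mul]
    abel
  have h4 := idem_pow hqq hδq 2
  have hF : c * (DD Q x * DD Q x) * b = dM (cA B) x + cA B x * cA B x := by
    rw [hδ, hDA, hA]
    simp only [Matrix.add_mul, Matrix.mul_add, Matrix.mul_assoc, r1, r1', r2, r2', hCB, hdcb,
      Matrix.mul_neg, Matrix.neg_mul, Matrix.mul_one]
    abel
  have hF' : c * (DD Q x * (DD Q x * b)) = dM (cA B) x + cA B x * cA B x := by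
    rw [← hF]; simp only [Matrix.mul_assoc]
  rw [dC_csf h.sm, sf, h4]
  set F := dM (cA B) x + cA B x * cA B x with hFd
  have r3 : ∀ Y : Matrix m n (CF E),
      c * (DD Q x * (DD Q x * (b * Y))) = F * Y := fun Y => by
    rw [← hF']; simp only [Matrix.mul_assoc]
  have r3' : ∀ Y : Matrix m m (CF E),
      c * (DD Q x * (DD Q x * (b * Y))) = F * Y := fun Y => by
    rw [← hF']; simp only [Matrix.mul_assoc]
  have e5 : hat E (Q x) * (hat E (Q x) * (DD Q x * DD Q x) * hat E (Q x)) ^ 2 = b * (F * F * c) := by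
    rw [hqh, sq]
    simp only [Matrix.mul_assoc, r1, r3, r3']
  rw [e5, hb, trace_hat_comm, ← hb, Matrix.mul_assoc (F * F) c b, hCB, Matrix.mul_one]

end clc

/-! ### square frames -/

section sq
variable {E : Type*} [NormedAddCommGroup E] [NormedSpace ℝ E] [FiniteDimensional ℝ E]
  {n m : Type*} [Fintype n] [Fintype m] [DecidableEq n] [DecidableEq m] {x : E}

theorem OFm.mul {g : E → Matrix n m ℂ} {h : E → Matrix m m ℂ} (hg : OFm g x) (hh : OFm h x) :
    OFm (fun y => g y * h y) x where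
  sm := by filter_upwards [hg.sm, hh.sm] with y h1 h2 using h1.mul h2
  on := by
    filter_upwards [hg.on, hh.on] with y h1 h2
    rw [Matrix.transpose_mul, Matrix.mul_assoc, ← Matrix.mul_assoc (g y)ᵀ, h1, Matrix.one_mul, h2]

theorem OFm.o' {g : E → Matrix m m ℂ} (h : OFm g x) : g x * (g x)ᵀ = 1 :=
  mul_eq_one_comm.1 h.o

theorem OFm.congr {g g' : E → Matrix n m ℂ} (h : OFm g x) (hg : g' =ᶠ[𝓝 x] g) : OFm g' x where
  sm := by
    filter_upwards [h.sm, hg.eventually_nhds] with y h1 h2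
    intro i j
    exact (h1 i j).congr_of_eventuallyEq (h2.mono fun z hz => by simp only [hz])
  on := by filter_upwards [h.on, hg] with y h1 h2; rw [h2, h1]

/-- `(Bᵀ dB)³` -/
def w3 (B : E → Matrix n m ℂ) (y : E) : CF E := (cA B y * cA B y * cA B y).trace

theorem invC_w3 (B : E → Matrix n m ℂ) (y : E) : invC (w3 B y) = - w3 B y := by
  rw [w3, invC_trace, invM_mul, invM_mul, invM_cA, neg_mul_neg, mul_neg, Matrix.trace_neg]

theorem CD_w3 {B : E → Matrix n m ℂ} (h : SM ∞ B x) : CD ∞ (w3 B) x :=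
  (((MD_cA h).mul (MD_cA h)).mul (MD_cA h)).trace

theorem cA_congr {B B' : E → Matrix n m ℂ} (h : B =ᶠ[𝓝 x] B') : cA B x = cA B' x := by
  rw [cA, cA, DD_congr h, h.self_of_nhds]

theorem w3_congr {B B' : E → Matrix n m ℂ} (h : B =ᶠ[𝓝 x] B') : w3 B x = w3 B' x := by
  rw [w3, w3, cA_congr h]

theorem w3_congr_nhds {B B' : E → Matrix n m ℂ} (h : B =ᶠ[𝓝 x] B') : w3 B =ᶠ[𝓝 x] w3 B' :=
  h.eventually_nhds.mono fun _ hy => w3_congr hy

theorem csf_congr {B B' : E → Matrix n m ℂ} (h : B =ᶠ[𝓝 x] B') : csf B x = csf B' x := by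
  have h1 : cA B =ᶠ[𝓝 x] cA B' := h.eventually_nhds.mono fun _ hy => cA_congr hy
  rw [csf, csf, dM_congr h1, cA_congr h]

theorem DD_const_mul {B₀ : Matrix n m ℂ} {g : E → Matrix m m ℂ} (hg : SM ∞ g x) :
    DD (fun y => B₀ * g y) x = hat E B₀ * DD g x := by
  rw [DD_mul (A := fun _ => B₀) (SM.const B₀) (hg.of_le one_le_inf), DD_const, Matrix.zero_mul, zero_add]

/-- constant gauge factors on the left do not matter -/
theorem cA_const_mul {B₀ : Matrix n m ℂ} (h0 : B₀ᵀ * B₀ = 1) {g : E → Matrix m m ℂ}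
    (hg : SM ∞ g x) : cA (fun y => B₀ * g y) x = cA g x := by
  rw [cA, DD_const_mul hg, Matrix.transpose_mul, hat_mul, cA]
  calc hat E (g x)ᵀ * hat E B₀ᵀ * (hat E B₀ * DD g x)
      = hat E (g x)ᵀ * (hat E B₀ᵀ * hat E B₀) * DD g x := by simp only [Matrix.mul_assoc]
    _ = _ := by rw [← hat_mul, h0, hat_one, Matrix.mul_one]

theorem csf_const_mul {B₀ : Matrix n m ℂ} (h0 : B₀ᵀ * B₀ = 1) {g : E → Matrix m m ℂ}
    (hg : ∀ᶠ y in 𝓝 x, SM ∞ g y) : csf (fun y => B₀ * g y) x = csf g x := by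
  have h1 : cA (fun y => B₀ * g y) =ᶠ[𝓝 x] cA g := hg.mono fun y hy => cA_const_mul h0 hy
  rw [csf, csf, dM_congr h1, h1.self_of_nhds]

variable {g h : E → Matrix m m ℂ}

theorem DD_eq (hg : OFm g x) : DD g x = hat E (g x) * cA g x := by
  rw [cA, ← Matrix.mul_assoc, ← hat_mul, hg.o', hat_one, Matrix.one_mul]

theorem DDt_eq (hg : OFm g x) : DD (fun y => (g y)ᵀ) x = -(cA g x * hat E (g x)ᵀ) := by
  have h1 := DD_tr_mul hg
  calc DD (fun y => (g y)ᵀ) x = DD (fun y => (g y)ᵀ) x * (hat E (g x) * hat E (g x)ᵀ) := by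
        rw [← hat_mul, hg.o', hat_one, Matrix.mul_one]
    _ = _ := by rw [← Matrix.mul_assoc, h1, Matrix.neg_mul]

theorem dM_cA_sq (hg : OFm g x) : dM (cA g) x = -(cA g x * cA g x) := by
  rw [dM_cA hg.s, DD_eq hg, ← Matrix.mul_assoc, DD_tr_mul hg, Matrix.neg_mul]

/-- Chern-Simons form of a gauge transformation -/
theorem csf_sq (hg : OFm g x) : csf g x = (-(1 : ℂ) / 3) • w3 g x := by
  rw [csf, dM_cA_sq hg, w3, Matrix.mul_neg, Matrix.trace_neg, ← Matrix.mul_assoc]
  set c := (cA g x * cA g x * cA g x).trace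
  rw [show -c = (-1 : ℂ) • c by rw [neg_smul, one_smul], ← add_smul]
  norm_num

theorem dC_w3 {B : E → Matrix n m ℂ} (hs : SM ∞ B x) :
    dC (w3 B) x = (dM (cA B) x * (cA B x * cA B x)).trace
      + (dM (cA B) x * (cA B x * cA B x)).trace + (dM (cA B) x * (cA B x * cA B x)).trace := by
  have h1 : MD 1 (cA B) x := (MD_cA hs).of_le one_le_inf
  have h2 : MD 1 (dM (cA B)) x := ((MD_cA hs).dM inf_add_one).of_le one_le_inf
  have ho := invM_cA B x
  have he := invM_dM_cA hs
  set A := cA B x with hA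
  set D := dM (cA B) x with hD
  change dC (fun y => (cA B y * cA B y * cA B y).trace) x = _
  rw [dC_trace ((h1.mul h1).mul h1), dM_mul (h1.mul h1) h1, dM_mul h1 h1, invM_mul]
  rw [← hA, ← hD, ho, Matrix.trace_add, add_mul, Matrix.trace_add, neg_mul, neg_mul,
    Matrix.trace_neg, neg_mul_neg]
  have f1 : (A * D * A).trace = -(D * (A * A)).trace := by
    rw [Matrix.mul_assoc A D A, tr_oo ho (by rw [invM_mul, he, ho, mul_neg]), Matrix.mul_assoc]
  have f2 : (A * A * D).trace = (D * (A * A)).trace := by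
    rw [Matrix.mul_assoc A A D, tr_oo ho (by rw [invM_mul, he, ho, neg_mul]), f1, neg_neg]
  rw [f1, f2, neg_neg, Matrix.mul_assoc]

/-- `tr (g⁻¹ dg)³` is closed -/
theorem dC_w3_sq (hg : OFm g x) : dC (w3 g) x = 0 := by
  have h4 : (cA g x * cA g x * (cA g x * cA g x)).trace = 0 := by
    rw [← Matrix.mul_assoc]; exact tr_four (invM_cA g x)
  rw [dC_w3 hg.s, dM_cA_sq hg, Matrix.neg_mul, Matrix.trace_neg, h4]
  simp

/-- gauge transformation of the connection form -/
theorem cA_mul (hg : OFm g x) (hh : OFm h x) :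
    cA (fun y => g y * h y) x = hat E (h x)ᵀ * cA g x * hat E (h x) + cA h x := by
  rw [cA, DD_mul (hg.s.of_le one_le_inf) (hh.s.of_le one_le_inf), Matrix.transpose_mul, hat_mul,
    Matrix.mul_add, cA, cA]
  congr 1
  · simp only [Matrix.mul_assoc]
  · calc hat E (h x)ᵀ * hat E (g x)ᵀ * (hat E (g x) * DD h x)
        = hat E (h x)ᵀ * (hat E (g x)ᵀ * hat E (g x)) * DD h x := by
          simp only [Matrix.mul_assoc]
      _ = _ := by rw [← hat_mul, hg.o, hat_one, Matrix.mul_one]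

/-- the mixed term -/
def mx (g h : E → Matrix m m ℂ) (y : E) : CF E :=
  (hat E (h y)ᵀ * cA g y * hat E (h y) * cA h y).trace

theorem CD_mx (hg : SM ∞ g x) (hh : SM ∞ h x) : CD ∞ (mx g h) x :=
  ((((hh.transpose.hat).mul (MD_cA hg)).mul hh.hat).mul (MD_cA hh)).trace

/-- **additivity** of `tr (g⁻¹ dg)³` modulo exact forms -/
theorem w3_mul (hg : OFm g x) (hh : OFm h x) :
    w3 (fun y => g y * h y) x = w3 g x + w3 h x - (3 : ℂ) • dC (mx g h) x := by
  have hgs : MD 1 (cA g) x := (MD_cA hg.s).of_le one_le_inf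
  have hhs : MD 1 (cA h) x := (MD_cA hh.s).of_le one_le_inf
  have hht : MD 1 (fun y => hat E (h y)ᵀ) x := hh.s.transpose.hat.of_le one_le_inf
  have hhh : MD 1 (fun y => hat E (h y)) x := hh.s.hat.of_le one_le_inf
  set θ := cA g x with hθ
  set ψ := cA h x with hψ
  set a := hat E (h x) with ha
  set b := hat E (h x)ᵀ with hb
  have hθo : invM θ = -θ := invM_cA g x
  have hψo : invM ψ = -ψ := invM_cA h x
  have hab : a * b = 1 := by rw [ha, hb, ← hat_mul, hh.o', hat_one]
  have hba : b * a = 1 := by rw [ha, hb, ← hat_mul, hh.o, hat_one]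
  set φ := b * θ * a with hφ
  have hφo : invM φ = -φ := by
    rw [hφ, invM_mul, invM_mul, hθo, ha, hb, invM_hat, invM_hat, mul_neg, neg_mul]
  have hdφ : dM (fun y => hat E (h y)ᵀ * cA g y * hat E (h y)) x
      = -(ψ * φ) - φ * φ - φ * ψ := by
    rw [dM_mul (hht.mul hgs) hhh, dM_mul hht hgs, invM_mul, invM_hat]
    have e1 : dM (fun y => hat E (h y)ᵀ) x = -(ψ * b) := DDt_eq hh
    have e2 : dM (fun y => hat E (h y)) x = a * ψ := DD_eq hh
    rw [e1, e2, dM_cA_sq hg, ← hθ, hθo, ← hb, ← ha]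
    have e3 : φ * φ = b * (θ * θ) * a := by
      rw [hφ]
      calc b * θ * a * (b * θ * a) = b * θ * (a * b) * θ * a := by noncomm_ring
        _ = _ := by rw [hab]; noncomm_ring
    rw [e3, hφ]
    noncomm_ring
  have hdmx : dC (mx g h) x = -(φ * φ * ψ).trace - (φ * ψ * ψ).trace := by
    change dC (fun y => (hat E (h y)ᵀ * cA g y * hat E (h y) * cA h y).trace) x = _
    rw [dC_trace (((hht.mul hgs).mul hhh).mul hhs), dM_mul ((hht.mul hgs).mul hhh) hhs, hdφ,
      dM_cA_sq hh, ← hψ]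
    change ((-(ψ * φ) - φ * φ - φ * ψ) * ψ + invM φ * -(ψ * ψ)).trace = _
    rw [hφo]
    have e1 : (ψ * φ * ψ).trace = (φ * ψ * ψ).trace := tr_ooo hψo hφo hψo
    have e2 : (-(ψ * φ) - φ * φ - φ * ψ) * ψ + -φ * -(ψ * ψ)
        = -(ψ * φ * ψ) - φ * φ * ψ - φ * ψ * ψ + φ * ψ * ψ := by noncomm_ring
    rw [e2, Matrix.trace_add, Matrix.trace_sub, Matrix.trace_sub, Matrix.trace_neg, e1]
    abel
  have hw : w3 g x = (φ * φ * φ).trace := by
    have e1 : φ * φ * φ = b * (θ * θ * θ * a) := by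
      rw [hφ]
      calc b * θ * a * (b * θ * a) * (b * θ * a)
          = b * θ * (a * b) * θ * (a * b) * θ * a := by noncomm_ring
        _ = _ := by rw [hab]; noncomm_ring
    rw [e1, hb, trace_hat_comm, ← hb, Matrix.mul_assoc (θ * θ * θ) a b, hab, Matrix.mul_one]
    rfl
  rw [hdmx, hw]
  change (cA (fun y => g y * h y) x * cA (fun y => g y * h y) x
    * cA (fun y => g y * h y) x).trace = _
  rw [cA_mul hg hh, ← hθ, ← hψ, ← ha, ← hb, ← hφ]
  change _ = (φ * φ * φ).trace + (ψ * ψ * ψ).trace - (3 : ℂ) • _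
  have e1 : (φ * ψ * φ).trace = (φ * φ * ψ).trace := by
    rw [tr_ooo hφo hψo hφo, tr_ooo hψo hφo hφo]
  have e2 : (ψ * φ * φ).trace = (φ * φ * ψ).trace := tr_ooo hψo hφo hφo
  have e3 : (ψ * φ * ψ).trace = (φ * ψ * ψ).trace := tr_ooo hψo hφo hψo
  have e4 : (ψ * ψ * φ).trace = (φ * ψ * ψ).trace := by
    rw [tr_ooo hψo hψo hφo, e3]
  have e5 : (φ + ψ) * (φ + ψ) * (φ + ψ) = φ * φ * φ + φ * φ * ψ + φ * ψ * φ + φ * ψ * ψ
      + ψ * φ * φ + ψ * φ * ψ + ψ * ψ * φ + ψ * ψ * ψ := by noncomm_ring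
  rw [e5]
  simp only [Matrix.trace_add, e1, e2, e3, e4]
  set u := (φ * φ * ψ).trace
  set v := (φ * ψ * ψ).trace
  have e6 : (3 : ℂ) • (-u - v) = -(u + u + u) - (v + v + v) := by
    rw [show (3 : ℂ) = 1 + 1 + 1 by norm_num, add_smul, add_smul, one_smul]
    abel
  rw [e6]
  abel

end sq

end Crest.Agent.R208.XM
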