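import Crest.Agent.R208.XM2
import Crest.Agent.R208.FH11

/-! Row 208, block XM (helper671).  XM3: cut-off functions and the functional
`w ↦ ∫_X dχ ∧ w`. -/

set_option autoImplicit false
set_option linter.unusedSectionVars false
set_option linter.unusedSimpArgs false
set_option linter.unusedVariables false

open scoped BigOperators ContDiff Topology
open Module Set Filter

noncomputable section

namespace Crest.Agent.R208.XM

open Crest.Agent.R208.F Crest.Agent.R208.FI Crest.Agent.R208.CW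

section cut
variable {E : Type*} [NormedAddCommGroup E] [NormedSpace ℝ E] [FiniteDimensional ℝ E]
  {n : ℕ} {X U : Set E} {o : E → Ext E} {χ χ' : E → ℝ} {w w' η : E → CF E} {z : E}

/-- a real function as a form -/
def fn (χ : E → ℝ) (y : E) : CF E := algebraMap ℂ (CF E) ((χ y : ℝ) : ℂ)

theorem CD_fn (h : ContDiffAt ℝ ∞ χ z) : CD ∞ (fn χ) z :=
  CD.of_fun (Complex.ofRealCLM.contDiff.contDiffAt.comp z h)

theorem invC_fn (χ : E → ℝ) (y : E) : invC (fn χ y) = fn χ y := invC_algebraMap _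

theorem fn_mul_comm (χ : E → ℝ) (y : E) (c : CF E) : fn χ y * c = c * fn χ y :=
  Algebra.commutes _ _

/-- a cut-off function: smooth along `X`, locally constant off `U` -/
structure Cut (X U : Set E) (χ : E → ℝ) : Prop where
  sm : ∀ z ∈ X, ContDiffAt ℝ ∞ χ z
  lc : ∀ z ∈ X, z ∉ U → ∃ c : ℝ, χ =ᶠ[𝓝 z] fun _ => c

theorem Cut.dC_eq (h : Cut X U χ) (hz : z ∈ X) (hU : z ∉ U) : dC (fn χ) =ᶠ[𝓝 z] fun _ => 0 := by
  obtain ⟨c, hc⟩ := h.lc z hz hU
  have h1 : fn χ =ᶠ[𝓝 z] fun _ => algebraMap ℂ (CF E) ((c : ℝ) : ℂ) :=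
    hc.mono fun y hy => by simp only [fn, hy]
  refine (dC_congr_nhds h1).trans (Filter.Eventually.of_forall fun y => ?_)
  exact dC_const _ _

theorem Cut.smo (h : Cut X U χ) (hw : Smo (X ∩ U) w) : Smo X (fun y => dC (fn χ) y * w y) := by
  intro z hz
  by_cases hU : z ∈ U
  · exact ((CD_fn (h.sm z hz)).dC inf_add_one).mul (hw z ⟨hz, hU⟩)
  · refine (CD.const (0 : CF E)).congr ?_
    filter_upwards [h.dC_eq hz hU] with y hy
    rw [hy, zero_mul]

/-- `∫_X dχ ∧ w` -/
def Mc (n : ℕ) (X : Set E) (o : E → Ext E) (χ : E → ℝ) (w : E → CF E) : ℂ :=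
  JC n X o fun y => dC (fn χ) y * w y

variable (hX : Clo n X) (ho : Ori n X o)
include hX ho

theorem Mc_add (h : Cut X U χ) (hw : Smo (X ∩ U) w) (hw' : Smo (X ∩ U) w') :
    Mc n X o χ (fun y => w y + w' y) = Mc n X o χ w + Mc n X o χ w' := by
  rw [Mc, Mc, Mc, ← JC_add hX ho (h.smo hw) (h.smo hw')]
  congr 1
  funext y
  exact mul_add _ _ _

theorem Mc_smul (h : Cut X U χ) (hw : Smo (X ∩ U) w) (c : ℂ) :
    Mc n X o χ (fun y => c • w y) = c * Mc n X o χ w := by
  rw [Mc, Mc, ← JC_csmul hX ho c (h.smo hw)]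
  congr 1
  funext y
  exact mul_smul_comm _ _ _

theorem Mc_congr (h : Cut X U χ) (he : ∀ z ∈ X, z ∈ U → w z = w' z) :
    Mc n X o χ w = Mc n X o χ w' := by
  refine JC_congr hX fun z hz => ?_
  by_cases hU : z ∈ U
  · rw [he z hz hU]
  · rw [(h.dC_eq hz hU).self_of_nhds, zero_mul, zero_mul]

theorem Mc_dC (h : Cut X U χ) (hη : Smo (X ∩ U) η) : Mc n X o χ (dC η) = 0 := by
  have h1 : JC n X o (dC fun y => dC (fn χ) y * η y) = 0 := JC_dC hX ho (h.smo hη)
  have h2 : JC n X o (dC fun y => dC (fn χ) y * η y)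
      = JC n X o ((-1 : ℂ) • fun y => dC (fn χ) y * dC η y) := by
    refine JC_congr hX fun z hz => ?_
    congr 1
    by_cases hU : z ∈ U
    · have h3 := ((CD_fn (h.sm z hz)).dC inf_add_one)
      rw [dC_mul (h3.of_le one_le_inf) ((hη z ⟨hz, hU⟩).of_le one_le_inf),
        dC_dC ((CD_fn (h.sm z hz)).of_le two_le), zero_mul, zero_add]
      have h4 : invC (dC (fn χ) z) = - dC (fn χ) z := by
        have := dC_invC' (fn χ) z
        simp only [invC_fn] at this
        exact (neg_eq_iff_eq_neg.2 this).symm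
      rw [h4]
      simp only [Pi.smul_apply, neg_smul, one_smul, neg_mul]
    · have h3 : (fun y => dC (fn χ) y * η y) =ᶠ[𝓝 z] fun _ => 0 := by
        filter_upwards [h.dC_eq hz hU] with y hy
        rw [hy, zero_mul]
      rw [dC_congr h3, dC_const]
      simp only [Pi.smul_apply, (h.dC_eq hz hU).self_of_nhds, zero_mul, smul_zero]
  rw [h1] at h2
  rw [JC_csmul hX ho _ (h.smo (w := dC η) fun z hz => (hη z hz).dC inf_add_one)] at h2
  have h3 : (-1 : ℂ) * Mc n X o χ (dC η) = 0 := h2.symm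
  simpa using h3

theorem Mc_indep (h : Cut X U χ) (h' : Cut X U χ') (he : ∀ z ∈ X, z ∉ U → χ =ᶠ[𝓝 z] χ')
    (hw : Smo (X ∩ U) w) (hc : ∀ z ∈ X, z ∈ U → dC w z = 0) :
    Mc n X o χ w = Mc n X o χ' w := by
  have hs : Smo X (fun y => (fn χ y - fn χ' y) * w y) := by
    intro z hz
    by_cases hU : z ∈ U
    · exact ((CD_fn (h.sm z hz)).sub (CD_fn (h'.sm z hz))).mul (hw z ⟨hz, hU⟩)
    · refine (CD.const (0 : CF E)).congr ?_
      filter_upwards [he z hz hU] with y hy
      rw [fn, fn, hy, sub_self, zero_mul]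
  have h1 : JC n X o (dC fun y => (fn χ y - fn χ' y) * w y) = 0 := JC_dC hX ho hs
  have h2 : JC n X o (dC fun y => (fn χ y - fn χ' y) * w y)
      = JC n X o ((fun y => dC (fn χ) y * w y) + (-1 : ℂ) • fun y => dC (fn χ') y * w y) := by
    refine JC_congr hX fun z hz => ?_
    congr 1
    simp only [Pi.add_apply, Pi.smul_apply, neg_smul, one_smul]
    by_cases hU : z ∈ U
    · have c1 := CD_fn (h.sm z hz)
      have c2 := CD_fn (h'.sm z hz)
      rw [dC_mul ((c1.sub c2).of_le one_le_inf) ((hw z ⟨hz, hU⟩).of_le one_le_inf), hc z hz hU,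
        mul_zero, add_zero, dC_sub (c1.of_le one_le_inf) (c2.of_le one_le_inf), sub_mul,
        sub_eq_add_neg]
      rfl
    · have h3 : (fun y => (fn χ y - fn χ' y) * w y) =ᶠ[𝓝 z] fun _ => 0 := by
        filter_upwards [he z hz hU] with y hy
        rw [fn, fn, hy, sub_self, zero_mul]
      rw [dC_congr h3, dC_const]
      change 0 = dC (fn χ) z * w z + -(dC (fn χ') z * w z)
      rw [(h.dC_eq hz hU).self_of_nhds, (h'.dC_eq hz hU).self_of_nhds]
      simp
  rw [h1, JC_add hX ho (h.smo hw) ((h'.smo hw).csmul _), JC_csmul hX ho _ (h'.smo hw)] at h2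
  have h3 : (0 : ℂ) = Mc n X o χ w + (-1) * Mc n X o χ' w := h2
  linear_combination -h3

/-- transgression -/
theorem JC_eq_neg_Mc (h : Cut X U χ) (hη : Smo X η) (hw : ∀ z ∈ X, rs X z (w z)
      = rs X z (fn χ z * dC η z)) : JC n X o w = - Mc n X o χ η := by
  have hs : Smo X (fun y => fn χ y * η y) := fun z hz => (CD_fn (h.sm z hz)).mul (hη z hz)
  have hη' : Smo (X ∩ U) η := fun z hz => hη z hz.1
  have h1 : JC n X o (dC fun y => fn χ y * η y) = 0 := JC_dC hX ho hs
  have h2 : JC n X o (dC fun y => fn χ y * η y)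
      = JC n X o ((fun y => dC (fn χ) y * η y) + fun y => fn χ y * dC η y) := by
    refine JC_congr hX fun z hz => ?_
    rw [dC_mul ((CD_fn (h.sm z hz)).of_le one_le_inf) ((hη z hz).of_le one_le_inf), invC_fn]
    rfl
  rw [h1, JC_add hX ho (h.smo hη') fun z hz =>
    (CD_fn (h.sm z hz)).mul ((hη z hz).dC inf_add_one)] at h2
  have h3 : JC n X o w = JC n X o fun y => fn χ y * dC η y := JC_congr hX hw
  rw [h3]
  have h4 : (0 : ℂ) = Mc n X o χ η + JC n X o fun y => fn χ y * dC η y := h2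
  linear_combination -h4

end cut

section deg
variable {E F : Type*} [NormedAddCommGroup E] [NormedSpace ℝ E] [FiniteDimensional ℝ E]
  [NormedAddCommGroup F] [NormedSpace ℝ F] [FiniteDimensional ℝ F]
  {n : ℕ} {X : Set E} {Y : Set F} {oX : E → Ext E} {oY : F → Ext F} {f : E → F}

/-- degree, complex forms -/
theorem exists_deg_JC (hX : Clo n X) (hoX : Ori n X oX) (hY : Clo n Y) (hoY : Ori n Y oY)
    (hYc : IsPreconnected Y) (hf : SMap X Y f) :
    ∃ d : ℤ, ∀ om : F → CF F, Smo Y om → JC n X oX (pullC f om) = d * JC n Y oY om := by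
  obtain ⟨d, hd⟩ := exists_degree hX hoX hY hoY hYc (fun x hx => hf.c2 hx) hf.maps
  refine ⟨d, fun om hom => ?_⟩
  have h1 := hd (fun y => (om y).re) hom.cont_re
  have h2 := hd (fun y => (om y).im) hom.cont_im
  apply Complex.ext
  · change J n X oX (pull f fun y => (om y).re) = _
    rw [h1]
    simp [JC]
  · change J n X oX (pull f fun y => (om y).im) = _
    rw [h2]
    simp [JC]

end deg

end Crest.Agent.R208.XM
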