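import Crest.Agent.R208.XM1
import Crest.Agent.R208.XM3

/-! Row 208, block XM (helper671).  XM4: the real and complex matrices of quaternionic left and
right multiplications; the tautological field `LV z = L_(v/|v|)`, `z = (t, v)`. -/

set_option autoImplicit false
set_option linter.unusedSectionVars false
set_option linter.unusedSimpArgs false
set_option linter.unusedVariables false

open scoped BigOperators ContDiff Topology Quaternion RealInnerProductSpace
open Module Set Filter Matrix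

noncomputable section

namespace Crest.Agent.R208.XM

open Crest.Agent.R208.F Crest.Agent.R208.FI Crest.Agent.R208.CW

/-- matrix of `x ↦ a * x` in the basis `1, i, j, k` -/
def LM (a : ℍ) : Matrix (Fin 4) (Fin 4) ℝ :=
  !![a.re, -a.imI, -a.imJ, -a.imK; a.imI, a.re, -a.imK, a.imJ;
    a.imJ, a.imK, a.re, -a.imI; a.imK, -a.imJ, a.imI, a.re]

/-- matrix of `x ↦ x * b` in the basis `1, i, j, k` -/
def RM (b : ℍ) : Matrix (Fin 4) (Fin 4) ℝ :=
  !![b.re, -b.imI, -b.imJ, -b.imK; b.imI, b.re, b.imK, -b.imJ;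
    b.imJ, -b.imK, b.re, b.imI; b.imK, b.imJ, -b.imI, b.re]

/-- complexified matrices -/
def LC (a : ℍ) : Matrix (Fin 4) (Fin 4) ℂ := (LM a).map ((↑) : ℝ → ℂ)
def RC (a : ℍ) : Matrix (Fin 4) (Fin 4) ℂ := (RM a).map ((↑) : ℝ → ℂ)

/-- components of a quaternion -/
def qc (a : ℍ) (i : Fin 4) : ℝ := ![a.re, a.imI, a.imJ, a.imK] i

/-- the basis quaternions -/
def qe (i : Fin 4) : ℍ := ![⟨1, 0, 0, 0⟩, ⟨0, 1, 0, 0⟩, ⟨0, 0, 1, 0⟩, ⟨0, 0, 0, 1⟩] i

@[simp] theorem qe0_re : (qe 0).re = 1 := rfl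
@[simp] theorem qe0_imI : (qe 0).imI = 0 := rfl
@[simp] theorem qe0_imJ : (qe 0).imJ = 0 := rfl
@[simp] theorem qe0_imK : (qe 0).imK = 0 := rfl
@[simp] theorem qe1_re : (qe 1).re = 0 := rfl
@[simp] theorem qe1_imI : (qe 1).imI = 1 := rfl
@[simp] theorem qe1_imJ : (qe 1).imJ = 0 := rfl
@[simp] theorem qe1_imK : (qe 1).imK = 0 := rfl
@[simp] theorem qe2_re : (qe 2).re = 0 := rfl
@[simp] theorem qe2_imI : (qe 2).imI = 0 := rfl
@[simp] theorem qe2_imJ : (qe 2).imJ = 1 := rfl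
@[simp] theorem qe2_imK : (qe 2).imK = 0 := rfl
@[simp] theorem qe3_re : (qe 3).re = 0 := rfl
@[simp] theorem qe3_imI : (qe 3).imI = 0 := rfl
@[simp] theorem qe3_imJ : (qe 3).imJ = 0 := rfl
@[simp] theorem qe3_imK : (qe 3).imK = 1 := rfl

theorem LM_apply (a : ℍ) (i j : Fin 4) : LM a i j = qc (a * qe j) i := by
  fin_cases i <;> fin_cases j <;> simp [LM, qc]

theorem RM_apply (a : ℍ) (i j : Fin 4) : RM a i j = qc (qe j * a) i := by
  fin_cases i <;> fin_cases j <;> simp [RM, qc]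

theorem qc_eq_inner (a : ℍ) (i : Fin 4) : qc a i = ⟪qe i, a⟫ := by
  rw [Quaternion.inner_def]
  fin_cases i <;> simp [qc]

theorem LM_mul (a b : ℍ) : LM (a * b) = LM a * LM b := by
  ext i j
  fin_cases i <;> fin_cases j <;>
    simp [LM, Matrix.mul_apply, Fin.sum_univ_four] <;> ring

theorem RM_mul (a b : ℍ) : RM (a * b) = RM b * RM a := by
  ext i j
  fin_cases i <;> fin_cases j <;>
    simp [RM, Matrix.mul_apply, Fin.sum_univ_four] <;> ring

theorem LM_RM (a b : ℍ) : LM a * RM b = RM b * LM a := by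
  ext i j
  fin_cases i <;> fin_cases j <;>
    simp [RM, LM, Matrix.mul_apply, Fin.sum_univ_four] <;> ring

theorem LM_star (a : ℍ) : LM (star a) = (LM a)ᵀ := by
  ext i j
  fin_cases i <;> fin_cases j <;> simp [LM, Matrix.transpose_apply]

theorem RM_star (a : ℍ) : RM (star a) = (RM a)ᵀ := by
  ext i j
  fin_cases i <;> fin_cases j <;> simp [RM, Matrix.transpose_apply]

theorem LM_one : LM 1 = 1 := by
  ext i j
  fin_cases i <;> fin_cases j <;> simp [LM]

theorem RM_one : RM 1 = 1 := by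
  ext i j
  fin_cases i <;> fin_cases j <;> simp [RM]

/-- the matrix of the conjugation -/
def kap : Matrix (Fin 4) (Fin 4) ℝ := !![1, 0, 0, 0; 0, -1, 0, 0; 0, 0, -1, 0; 0, 0, 0, -1]

theorem kap_sq : kap * kap = 1 := by
  ext i j
  fin_cases i <;> fin_cases j <;> simp [kap, Matrix.mul_apply, Fin.sum_univ_four]

theorem kap_t : kapᵀ = kap := by
  ext i j
  fin_cases i <;> fin_cases j <;> simp [kap, Matrix.transpose_apply]

theorem RM_star_eq (a : ℍ) : RM (star a) = kap * LM a * kap := by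
  ext i j
  fin_cases i <;> fin_cases j <;>
    simp [RM, LM, kap, Matrix.mul_apply, Fin.sum_univ_four]

theorem star_mul_self_of_norm {a : ℍ} (h : ‖a‖ = 1) : star a * a = 1 := by
  rw [Quaternion.star_mul_self, Quaternion.normSq_eq_norm_mul_self, h]
  simp

theorem self_mul_star_of_norm {a : ℍ} (h : ‖a‖ = 1) : a * star a = 1 := by
  rw [Quaternion.self_mul_star, Quaternion.normSq_eq_norm_mul_self, h]
  simp

theorem map_ofReal_mul {n m l : Type*} [Fintype m] (A : Matrix n m ℝ) (B : Matrix m l ℝ) :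
    (A * B).map ((↑) : ℝ → ℂ) = A.map ((↑) : ℝ → ℂ) * B.map ((↑) : ℝ → ℂ) :=
  Matrix.map_mul (f := Complex.ofRealHom)

theorem LC_mul (a b : ℍ) : LC (a * b) = LC a * LC b := by
  rw [LC, LM_mul, map_ofReal_mul]
  rfl

theorem RC_mul (a b : ℍ) : RC (a * b) = RC b * RC a := by
  rw [RC, RM_mul, map_ofReal_mul]
  rfl

theorem LC_orth {a : ℍ} (h : ‖a‖ = 1) : (LC a)ᵀ * LC a = 1 := by
  have h1 : (LC a)ᵀ = LC (star a) := by
    rw [LC, LC, LM_star, Matrix.transpose_map]
  rw [h1, ← LC_mul, star_mul_self_of_norm h, LC, LM_one]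
  exact Matrix.map_one _ Complex.ofReal_zero Complex.ofReal_one

theorem RC_orth {a : ℍ} (h : ‖a‖ = 1) : (RC a)ᵀ * RC a = 1 := by
  have h1 : (RC a)ᵀ = RC (star a) := by
    rw [RC, RC, RM_star, Matrix.transpose_map]
  rw [h1, ← RC_mul, self_mul_star_of_norm h, RC, RM_one]
  exact Matrix.map_one _ Complex.ofReal_zero Complex.ofReal_one

/-! ### smoothness -/

section smooth
variable {G : Type*} [NormedAddCommGroup G] [NormedSpace ℝ G] {k : WithTop ℕ∞} {x : G}

theorem contDiff_qc (i : Fin 4) : ContDiff ℝ k (fun a : ℍ => qc a i) := by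
  have : (fun a : ℍ => qc a i) = fun a => innerSL ℝ (qe i) a := by
    funext a; rw [qc_eq_inner]; rfl
  rw [this]
  exact ContinuousLinearMap.contDiff _

theorem SM_of_real {n m : Type*} [Fintype n] [Fintype m] {M : G → Matrix n m ℝ}
    (h : ∀ i j, ContDiffAt ℝ k (fun y => M y i j) x) :
    SM k (fun y => (M y).map ((↑) : ℝ → ℂ)) x := fun i j =>
  Complex.ofRealCLM.contDiff.contDiffAt.comp x (h i j)

theorem SM_LC {a : G → ℍ} (h : ContDiffAt ℝ k a x) : SM k (fun y => LC (a y)) x := by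
  refine SM_of_real fun i j => ?_
  simp only [LM_apply]
  exact (contDiff_qc i).contDiffAt.comp x (h.mul contDiffAt_const)

theorem SM_RC {a : G → ℍ} (h : ContDiffAt ℝ k a x) : SM k (fun y => RC (a y)) x := by
  refine SM_of_real fun i j => ?_
  simp only [RM_apply]
  exact (contDiff_qc i).contDiffAt.comp x (contDiffAt_const.mul h)

end smooth

section frames
variable {E : Type*} [NormedAddCommGroup E] [NormedSpace ℝ E] [FiniteDimensional ℝ E] {x : E}

theorem OFm_LC {a : E → ℍ} (h : ∀ᶠ y in 𝓝 x, ContDiffAt ℝ ∞ a y) (h1 : ∀ᶠ y in 𝓝 x, ‖a y‖ = 1) :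
    OFm (fun y => LC (a y)) x :=
  ⟨h.mono fun _ hy => SM_LC hy, h1.mono fun _ hy => LC_orth hy⟩

theorem OFm_RC {a : E → ℍ} (h : ∀ᶠ y in 𝓝 x, ContDiffAt ℝ ∞ a y) (h1 : ∀ᶠ y in 𝓝 x, ‖a y‖ = 1) :
    OFm (fun y => RC (a y)) x :=
  ⟨h.mono fun _ hy => SM_RC hy, h1.mono fun _ hy => RC_orth hy⟩

/-- `tr (R_(q̄)⁻¹ dR_(q̄))³ = tr (L_q⁻¹ dL_q)³` -/
theorem w3_RC_star {a : E → ℍ} (h : ContDiffAt ℝ ∞ a x) :
    w3 (fun y => RC (star (a y))) x = w3 (fun y => LC (a y)) x := by
  set K : Matrix (Fin 4) (Fin 4) ℂ := kap.map ((↑) : ℝ → ℂ) with hK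
  have hKK : K * K = 1 := by
    rw [hK, ← map_ofReal_mul, kap_sq]
    exact Matrix.map_one _ Complex.ofReal_zero Complex.ofReal_one
  have hKt : Kᵀ = K := by rw [hK, ← Matrix.transpose_map, kap_t]
  have hR : (fun y => RC (star (a y))) = fun y => K * LC (a y) * K := by
    funext y
    rw [RC, RM_star_eq, map_ofReal_mul, map_ofReal_mul]
    rfl
  have hL : SM ∞ (fun y => LC (a y)) x := SM_LC h
  have hDD : DD (fun y => K * LC (a y) * K) x = hat E K * DD (fun y => LC (a y)) x * hat E K := by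
    rw [DD_mul (A := fun y => K * LC (a y)) (B := fun _ => K)
      (((SM.const K).mul hL).of_le one_le_inf) (SM.const K), DD_const, Matrix.mul_zero, add_zero,
      DD_const_mul hL]
  have hc : cA (fun y => K * LC (a y) * K) x = hat E K * cA (fun y => LC (a y)) x * hat E K := by
    rw [cA, hDD, Matrix.transpose_mul, Matrix.transpose_mul, hKt, hat_mul, hat_mul, cA]
    have e1 : hat E K * hat E K = 1 := by rw [← hat_mul, hKK, hat_one]
    calc hat E K * (hat E (LC (a x))ᵀ * hat E K) * (hat E K * DD (fun y => LC (a y)) x * hat E K)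
        = hat E K * (hat E (LC (a x))ᵀ * (hat E K * hat E K) * DD (fun y => LC (a y)) x)
          * hat E K := by simp only [Matrix.mul_assoc]
      _ = _ := by rw [e1, Matrix.mul_one]
  have e1 : hat E K * hat E K = 1 := by rw [← hat_mul, hKK, hat_one]
  rw [hR, w3, hc, w3]
  set A := cA (fun y => LC (a y)) x
  have e2 : hat E K * A * hat E K * (hat E K * A * hat E K) * (hat E K * A * hat E K)
      = hat E K * (A * A * A * hat E K) := by
    calc hat E K * A * hat E K * (hat E K * A * hat E K) * (hat E K * A * hat E K)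
        = hat E K * (A * (hat E K * hat E K) * A * (hat E K * hat E K) * A * hat E K) := by
          simp only [Matrix.mul_assoc]
      _ = _ := by rw [e1]; simp only [Matrix.mul_one]
  rw [e2, trace_hat_comm, Matrix.mul_assoc (A * A * A), e1, Matrix.mul_one]

end frames

/-! ### the tautological field -/

/-- `v ↦ v / |v|` -/
def vh (z : E5) : ℍ := ‖z.2‖⁻¹ • z.2

theorem norm_vh {z : E5} (h : z.2 ≠ 0) : ‖vh z‖ = 1 := by
  rw [vh, norm_smul, norm_inv, norm_norm, inv_mul_cancel₀ (norm_ne_zero_iff.2 h)]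

theorem contDiffAt_vh {z : E5} (h : z.2 ≠ 0) : ContDiffAt ℝ ∞ vh z :=
  ((contDiffAt_snd.norm ℝ h).inv (norm_ne_zero_iff.2 h)).smul contDiffAt_snd

/-- `z = (t, v) ↦ L_(v/|v|)` -/
def LV (z : E5) : Matrix (Fin 4) (Fin 4) ℂ := LC (vh z)

theorem ne_ev {z : E5} (h : z.2 ≠ 0) : ∀ᶠ y : E5 in 𝓝 z, y.2 ≠ 0 :=
  continuous_snd.continuousAt.eventually_ne h

theorem OFm_LV {z : E5} (h : z.2 ≠ 0) : OFm LV z :=
  OFm_LC ((ne_ev h).mono fun _ hy => contDiffAt_vh hy) ((ne_ev h).mono fun _ hy => norm_vh hy)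

end Crest.Agent.R208.XM
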