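import Mathlib

/-! Row 208, block XM (helper671).  XM5a: smooth moving frames over balls, smooth Gram-Schmidt,
orthonormal frames with prescribed first vector. -/

set_option autoImplicit false
set_option linter.unusedSectionVars false
set_option linter.unusedSimpArgs false
set_option linter.unusedVariables false

open Set Filter Topology Module Metric
open scoped ContDiff RealInnerProductSpace

noncomputable section

namespace Crest.Agent.R208.XM

/-- **smooth moving frame** over a ball. -/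
theorem star_frame_smooth {V E F : Type*} [NormedAddCommGroup V] [NormedSpace ℝ V]
    [FiniteDimensional ℝ V]
    [NormedAddCommGroup E] [NormedSpace ℝ E] [NormedAddCommGroup F] [NormedSpace ℝ F]
    {P : V → (E →L[ℝ] E)} (hP : ContDiff ℝ ∞ P) (hid : ∀ x v, P x (P x v) = P x v) (R : ℝ)
    {B₀ : F →L[ℝ] E} (hB₀ : Function.Injective B₀) (hPB : ∀ v, P 0 (B₀ v) = B₀ v) :
    ∃ B : V → (F →L[ℝ] E), ContDiff ℝ ∞ B ∧
      ∀ x, ‖x‖ ≤ R → Function.Injective (B x) ∧ ∀ v, P x (B x v) = B x v := by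
  classical
  set A : Set V := closedBall 0 R with hAdef
  have hA : IsCompact A := isCompact_closedBall _ _
  have hst : ∀ x ∈ A, ∀ t ∈ Icc (0 : ℝ) 1, t • x ∈ A := by
    intro x hx t ht
    rw [hAdef, mem_closedBall_zero_iff] at hx ⊢
    rw [norm_smul, Real.norm_eq_abs, abs_of_nonneg ht.1]
    nlinarith [norm_nonneg x, ht.1, ht.2]
  have hc : ContinuousOn (fun q : V × ℝ => P (q.2 • q.1)) (A ×ˢ Icc (0 : ℝ) 1) :=
    (hP.continuous.comp (by fun_prop)).continuousOn
  have huc := (hA.prod isCompact_Icc).uniformContinuousOn_of_continuous hc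
  rw [Metric.uniformContinuousOn_iff] at huc
  obtain ⟨δ, hδ, hδ'⟩ := huc (1 / 2) (by norm_num)
  obtain ⟨m, hm⟩ := exists_nat_gt (1 / δ)
  have hm0 : (0 : ℝ) < m := lt_trans (by positivity) hm
  have hmδ : 1 / (m : ℝ) < δ := by
    rw [div_lt_iff₀ hm0]
    rw [div_lt_iff₀ hδ] at hm
    linarith
  set s : ℕ → ℝ := fun i => i / m with hs
  have hs01 : ∀ i ≤ m, s i ∈ Icc (0 : ℝ) 1 := fun i hi => ⟨by positivity, by
    rw [hs]; simp only
    rw [div_le_one hm0]; exact_mod_cast hi⟩
  have hstep : ∀ x ∈ A, ∀ i, i + 1 ≤ m → ‖P (s (i + 1) • x) - P (s i • x)‖ < 1 / 2 := by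
    intro x hx i hi
    have h1 := hδ' (x, s (i + 1)) ⟨hx, hs01 _ hi⟩ (x, s i) ⟨hx, hs01 _ (by omega)⟩ (by
      rw [Prod.dist_eq, dist_self, max_eq_right dist_nonneg, Real.dist_eq]
      have h2 : s (i + 1) - s i = 1 / m := by rw [hs]; simp only; push_cast; ring
      rw [h2, abs_of_pos (by positivity)]
      exact hmδ)
    rw [dist_eq_norm] at h1
    exact h1
  let w : ℕ → V → (F →L[ℝ] E) := fun i =>
    Nat.rec (fun _ => B₀) (fun j wj x => (P (s (j + 1) • x)).comp (wj x)) i
  have hw0 : ∀ x, w 0 x = B₀ := fun _ => rfl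
  have hws : ∀ i x, w (i + 1) x = (P (s (i + 1) • x)).comp (w i x) := fun _ _ => rfl
  have hwc : ∀ i, ContDiff ℝ ∞ (w i) := by
    intro i
    induction i with
    | zero => exact contDiff_const
    | succ i ih =>
      have h2 : ContDiff ℝ ∞ (fun x => P (s (i + 1) • x)) :=
        hP.comp (contDiff_const.smul contDiff_id)
      exact h2.clm_comp ih
  have hwm : ∀ i ≤ m, ∀ x ∈ A, (∀ v, P (s i • x) (w i x v) = w i x v) ∧
      ∀ v, v ≠ 0 → w i x v ≠ 0 := by
    intro i
    induction i with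
    | zero =>
      intro _ x _
      have h1 : s 0 = 0 := by rw [hs]; simp
      rw [h1, zero_smul, hw0]
      exact ⟨hPB, fun v hv h => hv (hB₀ (by rw [h, map_zero]))⟩
    | succ i ih =>
      intro hi x hx
      obtain ⟨h1, h2⟩ := ih (by omega) x hx
      have hmem : s (i + 1) • x ∈ A := hst x hx _ (hs01 _ hi)
      rw [hws]
      refine ⟨fun v => hid _ _, fun v hv h => ?_⟩
      have h' : P (s (i + 1) • x) (w i x v) = 0 := h
      have h3 := (P (s (i + 1) • x) - P (s i • x)).le_opNorm (w i x v)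
      rw [sub_apply, h', h1, zero_sub, norm_neg] at h3
      have h4 : 0 < ‖w i x v‖ := norm_pos_iff.2 (h2 v hv)
      nlinarith [hstep x hx i hi]
  have hsm : s m = 1 := by rw [hs]; simp only; exact div_self hm0.ne'
  refine ⟨w m, hwc m, fun x hx => ?_⟩
  obtain ⟨h1, h2⟩ := hwm m le_rfl x (by rw [hAdef, mem_closedBall_zero_iff]; exact hx)
  rw [hsm, one_smul] at h1
  refine ⟨?_, h1⟩
  intro a b hab
  by_contra hne
  exact h2 (a - b) (sub_ne_zero.2 hne) (by rw [map_sub, hab, sub_self])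

open InnerProductSpace in
/-- smoothness of Gram-Schmidt -/
theorem contDiffAt_gramSchmidt {G H : Type*} [NormedAddCommGroup G] [NormedSpace ℝ G]
    [NormedAddCommGroup H] [InnerProductSpace ℝ H] {m : ℕ} {r : WithTop ℕ∞} {u : G → Fin m → H}
    {x : G} (hu : ∀ i, ContDiffAt ℝ r (fun y => u y i) x) (hli : LinearIndependent ℝ (u x)) :
    ∀ (i : Fin m), ContDiffAt ℝ r (fun y => gramSchmidt ℝ (u y) i) x := by
  intro i
  induction i using WellFoundedLT.induction with
  | ind i ih =>
    have h1 : (fun y => gramSchmidt ℝ (u y) i) = fun y => u y i - ∑ j ∈ Finset.Iio i,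
        (⟪gramSchmidt ℝ (u y) j, u y i⟫ / ‖gramSchmidt ℝ (u y) j‖ ^ 2) • gramSchmidt ℝ (u y) j := by
      funext y
      have := gramSchmidt_def'' ℝ (u y) i
      simp only [RCLike.ofReal_real_eq_id, id_eq] at this
      exact eq_sub_of_add_eq this.symm
    rw [h1]
    refine (hu i).sub (ContDiffAt.sum fun j hj => ?_)
    have hj' : j < i := Finset.mem_Iio.1 hj
    have h0 : gramSchmidt ℝ (u x) j ≠ 0 := gramSchmidt_ne_zero j hli
    have h2 := ih j hj'
    refine ((h2.inner ℝ (hu i)).div (h2.norm_sq ℝ) ?_).smul h2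
    exact pow_ne_zero 2 (norm_ne_zero_iff.2 h0)

open InnerProductSpace in
theorem contDiffAt_gramSchmidtNormed {G H : Type*} [NormedAddCommGroup G] [NormedSpace ℝ G]
    [NormedAddCommGroup H] [InnerProductSpace ℝ H] {m : ℕ} {r : WithTop ℕ∞} {u : G → Fin m → H}
    {x : G} (hu : ∀ i, ContDiffAt ℝ r (fun y => u y i) x) (hli : LinearIndependent ℝ (u x))
    (i : Fin m) : ContDiffAt ℝ r (fun y => gramSchmidtNormed ℝ (u y) i) x := by
  have h0 : gramSchmidt ℝ (u x) i ≠ 0 := gramSchmidt_ne_zero i hli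
  have h1 := contDiffAt_gramSchmidt hu hli i
  have h2 : (fun y => gramSchmidtNormed ℝ (u y) i)
      = fun y => ‖gramSchmidt ℝ (u y) i‖⁻¹ • gramSchmidt ℝ (u y) i := by
    funext y
    simp [gramSchmidtNormed]
  rw [h2]
  exact ((h1.norm ℝ h0).inv (norm_ne_zero_iff.2 h0)).smul h1

open InnerProductSpace in
/-- **orthonormal frame with prescribed first vector** -/
theorem exists_onframe {V H : Type*} [NormedAddCommGroup V] [NormedSpace ℝ V]
    [FiniteDimensional ℝ V] [NormedAddCommGroup H] [InnerProductSpace ℝ H]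
    [FiniteDimensional ℝ H] {m : ℕ}
    {P : V → H →L[ℝ] H} (sP : ContDiff ℝ ∞ P) {s : V → H} (ss : ContDiff ℝ ∞ s)
    (idem : ∀ v x, P v (P v x) = P v x) (sym : ∀ v x y, ⟪P v x, y⟫ = ⟪x, P v y⟫)
    (rk : ∀ v, finrank ℝ (LinearMap.range (P v : H →ₗ[ℝ] H)) = m + 1)
    (Ps : ∀ v, P v (s v) = s v) (s0 : ∀ v, s v ≠ 0) (R : ℝ) :
    ∃ e : V → Fin (m + 1) → H, (∀ v, ‖v‖ ≤ R → ∀ i, ContDiffAt ℝ ∞ (fun y => e y i) v) ∧
      ∀ v, ‖v‖ ≤ R → Orthonormal ℝ (e v) ∧ (∀ i, P v (e v i) = e v i) ∧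
        e v 0 = ‖s v‖⁻¹ • s v := by
  -- the complement of `s`
  set c : V → ℝ := fun v => (‖s v‖ ^ 2)⁻¹ with hc
  have hc0 : ∀ v, ‖s v‖ ^ 2 ≠ 0 := fun v => pow_ne_zero 2 (norm_ne_zero_iff.2 (s0 v))
  set S : V → H →L[ℝ] H := fun v => c v • (innerSL ℝ (s v)).smulRight (s v) with hS
  have hSa : ∀ v x, S v x = (c v * ⟪s v, x⟫) • s v := fun v x => by
    simp [hS, smul_smul]
  set Q : V → H →L[ℝ] H := fun v => P v - S v with hQ
  have hQa : ∀ v x, Q v x = P v x - (c v * ⟪s v, x⟫) • s v := fun v x => by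
    rw [hQ]; simp only [sub_apply, hSa]
  have hcS : ContDiff ℝ ∞ c := (ss.norm_sq ℝ).inv hc0
  have hSS : ContDiff ℝ ∞ S := by
    refine hcS.smul ?_
    have h1 : ContDiff ℝ ∞ fun v => innerSL ℝ (s v) := (innerSL ℝ (E := H)).contDiff.comp ss
    exact h1.smulRight ss
  have hsQ : ContDiff ℝ ∞ Q := sP.sub hSS
  have hsP : ∀ v x, ⟪s v, P v x⟫ = ⟪s v, x⟫ := fun v x => by rw [← sym, Ps]
  have hcs : ∀ v, c v * ⟪s v, s v⟫ = 1 := fun v => by
    rw [hc, real_inner_self_eq_norm_sq]; exact inv_mul_cancel₀ (hc0 v)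
  have hQs : ∀ v x, ⟪s v, Q v x⟫ = 0 := fun v x => by
    rw [hQa, inner_sub_right, hsP, real_inner_smul_right]
    have := hcs v
    linear_combination (-⟪s v, x⟫) * this
  have hPQ : ∀ v x, P v (Q v x) = Q v x := fun v x => by
    rw [hQa, map_sub, idem, map_smul, Ps]
  have hQid : ∀ v x, Q v (Q v x) = Q v x := fun v x => by
    rw [hQa v (Q v x), hPQ, hQs, mul_zero, zero_smul, sub_zero]
  have hQfix : ∀ v x, Q v x = x ↔ P v x = x ∧ ⟪s v, x⟫ = 0 := fun v x => by
    constructor
    · intro h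
      rw [← h]
      exact ⟨hPQ v x, hQs v x⟩
    · rintro ⟨h1, h2⟩
      rw [hQa, h1, h2, mul_zero, zero_smul, sub_zero]
  -- the initial frame
  have hker : ∃ B₀ : EuclideanSpace ℝ (Fin m) →L[ℝ] H, Function.Injective B₀ ∧
      ∀ v, Q 0 (B₀ v) = B₀ v := by
    set W : Submodule ℝ H := LinearMap.range (P 0 : H →ₗ[ℝ] H) with hW
    set K : Submodule ℝ H := W ⊓ (ℝ ∙ s 0)ᗮ with hK
    have hfix : ∀ x ∈ K, Q 0 x = x := by
      rintro x ⟨⟨y, rfl⟩, hx⟩
      rw [hQfix]
      refine ⟨idem 0 y, ?_⟩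
      exact Submodule.mem_orthogonal_singleton_iff_inner_right.1 hx
    have hfin : m ≤ finrank ℝ K := by
      have h1 := Submodule.finrank_add_inf_finrank_orthogonal
        (K₁ := ℝ ∙ s 0) (K₂ := W) (by
          rw [Submodule.span_singleton_le_iff_mem]
          exact ⟨s 0, Ps 0⟩)
      rw [rk 0, finrank_span_singleton (s0 0)] at h1
      have h2 : (ℝ ∙ s 0)ᗮ ⊓ W = K := inf_comm _ _
      rw [h2] at h1
      omega
    set bm : Basis (Fin m) ℝ (EuclideanSpace ℝ (Fin m)) :=
      (EuclideanSpace.basisFun (Fin m) ℝ).toBasis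
    set bK := Module.finBasis ℝ K
    set f : EuclideanSpace ℝ (Fin m) →ₗ[ℝ] K := bm.constr ℕ (bK ∘ Fin.castLE hfin) with hfdef
    have hf : Function.Injective f := bm.injective_constr_of_linearIndependent
      (bK.linearIndependent.comp _ (Fin.castLE_injective hfin))
    refine ⟨LinearMap.toContinuousLinearMap (K.subtype ∘ₗ f), ?_, fun v => ?_⟩
    · exact K.injective_subtype.comp hf
    · exact hfix _ (f v).2
  obtain ⟨B₀, hB₀, hQB⟩ := hker
  obtain ⟨B, hB, hBi⟩ := star_frame_smooth hsQ hQid R hB₀ hQB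
  set u : V → Fin (m + 1) → H := fun v =>
    Fin.cons (s v) (fun i : Fin m => B v (EuclideanSpace.single i 1)) with hu
  have hus : ∀ i, ContDiff ℝ ∞ (fun v => u v i) := by
    intro i
    refine Fin.cases ?_ (fun i => ?_) i
    · simpa [hu] using ss
    · simp only [hu, Fin.cons_succ]
      exact hB.clm_apply contDiff_const
  have hli : ∀ v, ‖v‖ ≤ R → LinearIndependent ℝ (u v) := by
    intro v hv
    rw [hu]
    rw [linearIndependent_finCons]
    have hinj := (hBi v hv).1
    constructor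
    · have h1 : LinearIndependent ℝ (fun i : Fin m => EuclideanSpace.single i (1 : ℝ)) := by
        have := (EuclideanSpace.basisFun (Fin m) ℝ).orthonormal.linearIndependent
        have h3 : ⇑(EuclideanSpace.basisFun (Fin m) ℝ)
            = fun i : Fin m => EuclideanSpace.single i (1 : ℝ) := by
          funext i; exact EuclideanSpace.basisFun_apply _ _ _
        rwa [h3] at this
      exact h1.map' (B v : EuclideanSpace ℝ (Fin m) →ₗ[ℝ] H) (LinearMap.ker_eq_bot.2 hinj)
    · intro hmem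
      have h2 : ∀ x ∈ Submodule.span ℝ (Set.range fun i : Fin m => B v (EuclideanSpace.single i 1)),
          ⟪s v, x⟫ = 0 := by
        intro x hx
        induction hx using Submodule.span_induction with
        | mem x h =>
          obtain ⟨i, rfl⟩ := h
          exact ((hQfix v _).1 ((hBi v hv).2 _)).2
        | zero => exact inner_zero_right _
        | add x y _ _ hx hy => rw [inner_add_right, hx, hy, add_zero]
        | smul a x _ hx => rw [real_inner_smul_right, hx, mul_zero]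
      exact s0 v (inner_self_eq_zero.1 (h2 _ hmem))
  refine ⟨fun v => gramSchmidtNormed ℝ (u v), fun v hv i => ?_, fun v hv => ⟨?_, ?_, ?_⟩⟩
  · exact contDiffAt_gramSchmidtNormed (fun i => (hus i).contDiffAt) (hli v hv) i
  · exact gramSchmidtNormed_orthonormal (hli v hv)
  · intro i
    have h1 : ∀ x ∈ Submodule.span ℝ (Set.range (u v)), P v x = x := by
      intro x hx
      induction hx using Submodule.span_induction with
      | mem x h =>
        obtain ⟨i, rfl⟩ := h
        refine Fin.cases ?_ (fun i => ?_) i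
        · simpa [hu] using Ps v
        · simp only [hu, Fin.cons_succ]
          exact ((hQfix v _).1 ((hBi v hv).2 _)).1
      | zero => exact map_zero _
      | add x y _ _ hx hy => rw [map_add, hx, hy]
      | smul a x _ hx => rw [map_smul, hx]
    refine h1 _ ?_
    rw [← span_gramSchmidt ℝ (u v), ← span_gramSchmidtNormed_range]
    exact Submodule.subset_span ⟨i, rfl⟩
  · have h1 : gramSchmidt ℝ (u v) 0 = s v := by
      rw [gramSchmidt_def]
      have : Finset.Iio (0 : Fin (m + 1)) = ∅ := by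
        ext j; simp
      rw [this, Finset.sum_empty, sub_zero]
      simp [hu]
    simp [gramSchmidtNormed, h1]

end Crest.Agent.R208.XM
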