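import Crest.Agent.R208.XM4
import Crest.Agent.R208.GP3a

/-! Row 208, block XM (helper671).  XM5b: lifting of orthonormal pairs of imaginary quaternions
`(h₁, h₂) = (q i q⁻¹, q j q⁻¹)` over an annulus in `ℍ`. -/

set_option autoImplicit false
set_option linter.unusedSectionVars false
set_option linter.unusedSimpArgs false
set_option linter.unusedVariables false

open scoped BigOperators ContDiff Topology Quaternion RealInnerProductSpace
open Module Set Filter Metric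

noncomputable section

namespace Crest.Agent.R208.XM

open Crest.Agent.R208.GP

/-- orthonormal pair of imaginary quaternions -/
structure Im2 (h₁ h₂ : ℍ) : Prop where
  r1 : h₁.re = 0
  r2 : h₂.re = 0
  n1 : ‖h₁‖ = 1
  n2 : ‖h₂‖ = 1
  o : ⟪h₁, h₂⟫ = 0

theorem inner_comp (a b : ℍ) :
    ⟪a, b⟫ = a.re * b.re + a.imI * b.imI + a.imJ * b.imJ + a.imK * b.imK := by
  rw [Quaternion.inner_def]
  simp

theorem norm_comp (a : ℍ) : ‖a‖ ^ 2 = a.re ^ 2 + a.imI ^ 2 + a.imJ ^ 2 + a.imK ^ 2 := by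
  rw [← real_inner_self_eq_norm_sq, inner_comp]; ring

theorem sq_imag {h : ℍ} (hr : h.re = 0) (hn : ‖h‖ = 1) : h * h = -1 := by
  have h1 := norm_comp h
  rw [hn, hr] at h1
  ext <;> simp [hr] <;> nlinarith

namespace Im2
variable {h₁ h₂ : ℍ} (h : Im2 h₁ h₂)
include h

theorem s1 : h₁ * h₁ = -1 := sq_imag h.r1 h.n1
theorem s2 : h₂ * h₂ = -1 := sq_imag h.r2 h.n2

theorem anti : h₂ * h₁ = -(h₁ * h₂) := by
  have h1 := h.o
  rw [inner_comp, h.r1, h.r2] at h1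
  ext <;> simp [h.r1, h.r2] <;> nlinarith

theorem st1 : star h₁ = -h₁ := by ext <;> simp [h.r1]
theorem st2 : star h₂ = -h₂ := by ext <;> simp [h.r2]
theorem st12 : star (h₁ * h₂) = -(h₁ * h₂) := by
  rw [star_mul, h.st1, h.st2, neg_mul_neg, h.anti]
theorem re12 : (h₁ * h₂).re = 0 := by
  have := h.st12
  have h1 := congrArg QuaternionAlgebra.re this
  simp only [Quaternion.re_star, Quaternion.re_neg] at h1
  linarith

end Im2

theorem im_qe {i : Fin 4} (hi : i ≠ 0) : (qe i).re = 0 := by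
  fin_cases i
  · exact absurd rfl hi
  all_goals rfl

theorem star_qe {i : Fin 4} (hi : i ≠ 0) : star (qe i) = - qe i := by
  fin_cases i
  · exact absurd rfl hi
  all_goals (ext <;> simp)

theorem qe1_sq : qe 1 * qe 1 = -1 := by ext <;> simp
theorem qe2_sq : qe 2 * qe 2 = -1 := by ext <;> simp
theorem qe3_sq : qe 3 * qe 3 = -1 := by ext <;> simp
theorem qe12 : qe 1 * qe 2 = qe 3 := by ext <;> simp
theorem qe21 : qe 2 * qe 1 = - qe 3 := by ext <;> simp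
theorem qe0 : qe 0 = 1 := rfl

/-- the operator `x ↦ h x e` -/
def TT (h e : ℍ) : ℍ →L[ℝ] ℍ :=
  (ContinuousLinearMap.mul ℝ ℍ h).comp ((ContinuousLinearMap.mul ℝ ℍ).flip e)

theorem TT_apply (h e x : ℍ) : TT h e x = h * x * e := by
  simp [TT, mul_assoc]

/-- the projection to the line `{x | h₁ x = x i, h₂ x = x j}` -/
def Pi (h₁ h₂ : ℍ) : ℍ →L[ℝ] ℍ :=
  (1 / 4 : ℝ) • (ContinuousLinearMap.id ℝ ℍ - TT h₁ (qe 1) - TT h₂ (qe 2) - TT (h₁ * h₂) (qe 3))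

theorem Pi_apply (h₁ h₂ x : ℍ) : Pi h₁ h₂ x
    = (1 / 4 : ℝ) • (x - h₁ * x * qe 1 - h₂ * x * qe 2 - h₁ * h₂ * x * qe 3) := by
  simp [Pi, TT_apply]

section fix
variable {h₁ h₂ : ℍ} (h : Im2 h₁ h₂)
include h

theorem Pi_left1 (x : ℍ) : h₁ * Pi h₁ h₂ x = Pi h₁ h₂ x * qe 1 := by
  rw [Pi_apply, mul_smul_comm, smul_mul_assoc]
  congr 1
  have e1 : h₁ * (h₁ * x * qe 1) = - (x * qe 1) := by
    rw [← mul_assoc, ← mul_assoc, h.s1]; noncomm_ring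
  have e2 : h₁ * (h₁ * h₂ * x * qe 3) = - (h₂ * x * qe 3) := by
    rw [show h₁ * (h₁ * h₂ * x * qe 3) = (h₁ * h₁) * h₂ * x * qe 3 by noncomm_ring, h.s1]
    noncomm_ring
  have e3 : h₁ * x * qe 1 * qe 1 = - (h₁ * x) := by rw [mul_assoc, qe1_sq]; noncomm_ring
  have e4 : h₂ * x * qe 2 * qe 1 = - (h₂ * x * qe 3) := by rw [mul_assoc, qe21]; noncomm_ring
  have q31 : qe 3 * qe 1 = qe 2 := by ext <;> simp
  have e5 : h₁ * h₂ * x * qe 3 * qe 1 = h₁ * h₂ * x * qe 2 := by rw [mul_assoc, q31]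
  rw [mul_sub, mul_sub, mul_sub, sub_mul, sub_mul, sub_mul, e1, e2, e3, e4, e5]
  noncomm_ring

theorem Pi_left2 (x : ℍ) : h₂ * Pi h₁ h₂ x = Pi h₁ h₂ x * qe 2 := by
  rw [Pi_apply, mul_smul_comm, smul_mul_assoc]
  congr 1
  have e1 : h₂ * (h₂ * x * qe 2) = - (x * qe 2) := by
    rw [← mul_assoc, ← mul_assoc, h.s2]; noncomm_ring
  have e2 : h₂ * (h₁ * h₂ * x * qe 3) = h₁ * x * qe 3 := by
    rw [show h₂ * (h₁ * h₂ * x * qe 3) = (h₂ * h₁) * h₂ * x * qe 3 by noncomm_ring, h.anti,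
      show -(h₁ * h₂) * h₂ * x * qe 3 = -(h₁ * (h₂ * h₂) * x * qe 3) by noncomm_ring, h.s2]
    noncomm_ring
  have e3 : h₂ * x * qe 2 * qe 2 = - (h₂ * x) := by rw [mul_assoc, qe2_sq]; noncomm_ring
  have e4 : h₁ * x * qe 1 * qe 2 = h₁ * x * qe 3 := by rw [mul_assoc, qe12]
  have q32 : qe 3 * qe 2 = - qe 1 := by ext <;> simp
  have e5 : h₁ * h₂ * x * qe 3 * qe 2 = - (h₁ * h₂ * x * qe 1) := by
    rw [mul_assoc, q32]; noncomm_ring
  have e6 : h₂ * (h₁ * x * qe 1) = -(h₁ * h₂ * x * qe 1) := by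
    rw [show h₂ * (h₁ * x * qe 1) = (h₂ * h₁) * x * qe 1 by noncomm_ring, h.anti]; noncomm_ring
  rw [mul_sub, mul_sub, mul_sub, sub_mul, sub_mul, sub_mul, e1, e2, e3, e4, e5, e6]
  noncomm_ring

theorem Pi_fix {x : ℍ} (e1 : h₁ * x = x * qe 1) (e2 : h₂ * x = x * qe 2) : Pi h₁ h₂ x = x := by
  rw [Pi_apply, e1, e2]
  have e3 : h₁ * h₂ * x = x * qe 3 := by
    rw [mul_assoc, e2, ← mul_assoc, e1, mul_assoc, qe12]
  rw [e3]
  have f1 : x * qe 1 * qe 1 = -x := by rw [mul_assoc, qe1_sq]; noncomm_ring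
  have f2 : x * qe 2 * qe 2 = -x := by rw [mul_assoc, qe2_sq]; noncomm_ring
  have f3 : x * qe 3 * qe 3 = -x := by rw [mul_assoc, qe3_sq]; noncomm_ring
  rw [f1, f2, f3]
  have : x - -x - -x - -x = (4 : ℝ) • x := by
    rw [show (4 : ℝ) = 1 + 1 + 1 + 1 by norm_num, add_smul, add_smul, add_smul, one_smul]; abel
  rw [this, smul_smul]
  norm_num

omit h in
theorem inner_TT {a e : ℍ} (ha : star a = -a) (he : star e = -e) (x y : ℍ) :
    ⟪a * x * e, y⟫ = ⟪x, a * y * e⟫ := by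
  have h1 : (a * x * e * star y).re = (x * star (a * y * e)).re := by
    rw [star_mul, star_mul, he, ha]
    have e1 : x * (-e * (star y * -a)) = (x * e * star y) * a := by noncomm_ring
    have e2 : a * x * e * star y = a * (x * e * star y) := by noncomm_ring
    rw [e1, e2]
    simp only [Quaternion.re_mul]
    ring
  rw [Quaternion.inner_def, Quaternion.inner_def, h1]

theorem Pi_sym (x y : ℍ) : ⟪Pi h₁ h₂ x, y⟫ = ⟪x, Pi h₁ h₂ y⟫ := by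
  rw [Pi_apply, Pi_apply, real_inner_smul_left, real_inner_smul_right]
  simp only [inner_sub_left, inner_sub_right]
  rw [inner_TT h.st1 (star_qe (by decide)), inner_TT h.st2 (star_qe (by decide)),
    inner_TT h.st12 (star_qe (by decide))]

omit h in
theorem tr_TT (a e : ℍ) : ∑ l, ⟪a * qe l * e, qe l⟫ = 4 * a.re * e.re := by
  rw [Fin.sum_univ_four]
  simp only [inner_comp, Quaternion.re_mul, Quaternion.imI_mul, Quaternion.imJ_mul,
    Quaternion.imK_mul, qe0_re, qe0_imI, qe0_imJ, qe0_imK, qe1_re, qe1_imI, qe1_imJ, qe1_imK,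
    qe2_re, qe2_imI, qe2_imJ, qe2_imK, qe3_re, qe3_imI, qe3_imJ, qe3_imK]
  ring

theorem tr_Pi : ∑ l, ⟪Pi h₁ h₂ (qe l), qe l⟫ = 1 := by
  simp only [Pi_apply, real_inner_smul_left, inner_sub_left]
  rw [← Finset.mul_sum]
  simp only [Finset.sum_sub_distrib]
  rw [tr_TT, tr_TT, tr_TT, h.r1, h.r2, h.re12]
  have h4 : ∑ l, ⟪qe l, qe l⟫ = 4 := by
    have := tr_TT 1 1
    simp only [one_mul, mul_one] at this
    rw [this]; simp
  rw [h4]
  norm_num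

omit h in
/-- the centraliser of `i` and `j` -/
theorem real_of_comm {z : ℍ} (h1 : z * qe 1 = qe 1 * z) (h2 : z * qe 2 = qe 2 * z) :
    z = (z.re : ℍ) := by
  have a1 := congrArg QuaternionAlgebra.imK h1
  have a2 := congrArg QuaternionAlgebra.imJ h1
  have a3 := congrArg QuaternionAlgebra.imK h2
  simp at a1 a2 a3
  ext
  · simp
  · simp; linarith
  · simp; linarith
  · simp; linarith

theorem R1_Pi : R1 (Pi h₁ h₂) := by
  -- a nonzero fixed vector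
  have hex : ∃ l, Pi h₁ h₂ (qe l) ≠ 0 := by
    by_contra hcon
    push Not at hcon
    have := tr_Pi h
    simp only [hcon, inner_zero_left, Finset.sum_const_zero] at this
    exact zero_ne_one this
  obtain ⟨l, hl⟩ := hex
  set y := Pi h₁ h₂ (qe l) with hy
  set u : ℍ := ‖y‖⁻¹ • y with hu
  have hun : ‖u‖ = 1 := by
    rw [hu, norm_smul, norm_inv, norm_norm, inv_mul_cancel₀ (norm_ne_zero_iff.2 hl)]
  have hu0 : u ≠ 0 := by intro h0; rw [h0, norm_zero] at hun; exact zero_ne_one hun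
  have u1 : h₁ * u = u * qe 1 := by
    rw [hu, mul_smul_comm, smul_mul_assoc, Pi_left1 h]
  have u2 : h₂ * u = u * qe 2 := by
    rw [hu, mul_smul_comm, smul_mul_assoc, Pi_left2 h]
  refine ⟨u, hun, fun x => ?_⟩
  set w := Pi h₁ h₂ x with hw
  have w1 : h₁ * w = w * qe 1 := Pi_left1 h x
  have w2 : h₂ * w = w * qe 2 := Pi_left2 h x
  have z1 : (u⁻¹ * w) * qe 1 = qe 1 * (u⁻¹ * w) := by
    have e1 : qe 1 = u⁻¹ * h₁ * u := by rw [mul_assoc, u1, ← mul_assoc, inv_mul_cancel₀ hu0, one_mul]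
    calc (u⁻¹ * w) * qe 1 = u⁻¹ * (h₁ * w) := by rw [w1, mul_assoc]
      _ = u⁻¹ * h₁ * (u * u⁻¹) * w := by rw [mul_inv_cancel₀ hu0]; noncomm_ring
      _ = (u⁻¹ * h₁ * u) * (u⁻¹ * w) := by noncomm_ring
      _ = _ := by rw [← e1]
  have z2 : (u⁻¹ * w) * qe 2 = qe 2 * (u⁻¹ * w) := by
    have e1 : qe 2 = u⁻¹ * h₂ * u := by rw [mul_assoc, u2, ← mul_assoc, inv_mul_cancel₀ hu0, one_mul]
    calc (u⁻¹ * w) * qe 2 = u⁻¹ * (h₂ * w) := by rw [w2, mul_assoc]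
      _ = u⁻¹ * h₂ * (u * u⁻¹) * w := by rw [mul_inv_cancel₀ hu0]; noncomm_ring
      _ = (u⁻¹ * h₂ * u) * (u⁻¹ * w) := by noncomm_ring
      _ = _ := by rw [← e1]
  have z3 := real_of_comm z1 z2
  set c := (u⁻¹ * w).re
  have hwc : w = c • u := by
    calc w = u * (u⁻¹ * w) := by rw [← mul_assoc, mul_inv_cancel₀ hu0, one_mul]
      _ = u * (c : ℍ) := by rw [z3]
      _ = c • u := by rw [Quaternion.mul_coe_eq_smul]
  have hc : c = ⟪u, x⟫ := by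
    have e1 : ⟪u, w⟫ = c := by
      rw [hwc, real_inner_smul_right, real_inner_self_eq_norm_sq, hun]; ring
    rw [← e1, hw, ← Pi_sym h, Pi_fix h u1 u2]
  rw [hwc, hc]

/-- fixed vectors conjugate `(i, j)` to `(h₁, h₂)` -/
theorem of_fix {q : ℍ} (hq : Pi h₁ h₂ q = q) : h₁ * q = q * qe 1 ∧ h₂ * q = q * qe 2 := by
  have h1 := Pi_left1 h q
  have h2 := Pi_left2 h q
  rw [hq] at h1 h2
  exact ⟨h1, h2⟩

end fix

section smooth
variable {G : Type*} [NormedAddCommGroup G] [NormedSpace ℝ G] {k : WithTop ℕ∞} {x : G}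

theorem contDiffAt_TT {a : G → ℍ} (ha : ContDiffAt ℝ k a x) (e : ℍ) :
    ContDiffAt ℝ k (fun y => TT (a y) e) x :=
  ((ContinuousLinearMap.mul ℝ ℍ).contDiff.contDiffAt.comp x ha).clm_comp contDiffAt_const

theorem contDiffAt_Pi {h₁ h₂ : G → ℍ} (h1 : ContDiffAt ℝ k h₁ x) (h2 : ContDiffAt ℝ k h₂ x) :
    ContDiffAt ℝ k (fun y => Pi (h₁ y) (h₂ y)) x := by
  have e : ContDiffAt ℝ k (fun y => (1 / 4 : ℝ) • (ContinuousLinearMap.id ℝ ℍ - TT (h₁ y) (qe 1)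
      - TT (h₂ y) (qe 2) - TT (h₁ y * h₂ y) (qe 3))) x :=
    ContDiffAt.const_smul (1 / 4 : ℝ) (((contDiffAt_const.sub (contDiffAt_TT h1 _)).sub
      (contDiffAt_TT h2 _)).sub (contDiffAt_TT (h1.mul h2) _))
  exact e

end smooth

/-- the closed annulus -/
def An (r₁ r₂ : ℝ) : Set ℍ := {v | r₁ ≤ ‖v‖ ∧ ‖v‖ ≤ r₂}

theorem isCompact_An (r₁ r₂ : ℝ) : IsCompact (An r₁ r₂) := by
  refine Metric.isCompact_of_isClosed_isBounded ?_ ?_
  · exact (isClosed_le continuous_const continuous_norm).inter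
      (isClosed_le continuous_norm continuous_const)
  · exact (Metric.isBounded_iff_subset_closedBall 0).2 ⟨r₂, fun v hv => by
      rw [mem_closedBall_zero_iff]; exact hv.2⟩

/-- **lift of an orthonormal pair over an annulus** -/
theorem exists_lift {r₁ r₂ : ℝ} (h0 : 0 < r₁) (hr : r₁ < r₂) {h₁ h₂ : ℍ → ℍ}
    (s1 : ∀ v ∈ An r₁ r₂, ContDiffAt ℝ ∞ h₁ v) (s2 : ∀ v ∈ An r₁ r₂, ContDiffAt ℝ ∞ h₂ v)
    (h : ∀ v ∈ An r₁ r₂, Im2 (h₁ v) (h₂ v)) :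
    ∃ q : ℍ → ℍ, (∀ v ∈ An r₁ r₂, ContDiffAt ℝ ∞ q v) ∧ ∀ v ∈ An r₁ r₂,
      ‖q v‖ = 1 ∧ h₁ v * q v = q v * qe 1 ∧ h₂ v * q v = q v * qe 2 := by
  set R : ℍ → ℍ →L[ℝ] ℍ := fun v => Pi (h₁ v) (h₂ v) with hR
  have hRs : ∀ v ∈ An r₁ r₂, ContDiffAt ℝ ∞ R v := fun v hv => contDiffAt_Pi (s1 v hv) (s2 v hv)
  have hR1 : ∀ v ∈ An r₁ r₂, R1 (R v) := fun v hv => R1_Pi (h v hv)
  have hRc : ContinuousOn R (An r₁ r₂) := fun v hv => (hRs v hv).continuousAt.continuousWithinAt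
  set ρ : ℝ → ℝ := fun t => r₁ + t * (r₂ - r₁) with hρ
  have hm : ∀ z ∈ (Icc (0 : ℝ) 1) ×ˢ sphere (0 : ℍ) 1, ρ z.1 • z.2 ∈ An r₁ r₂ := by
    rintro ⟨t, u⟩ ⟨ht, hu⟩
    have hu' : ‖u‖ = 1 := by simpa using hu
    have h1 : 0 < ρ t := by
      have := mul_nonneg ht.1 (sub_pos.2 hr).le
      simp only [hρ]; linarith
    change r₁ ≤ ‖ρ t • u‖ ∧ ‖ρ t • u‖ ≤ r₂
    rw [norm_smul, hu', mul_one, Real.norm_eq_abs, abs_of_pos h1]
    simp only [hρ]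
    constructor
    · nlinarith [ht.1]
    · nlinarith [ht.2]
  obtain ⟨w, hw, hw1⟩ := lift_prod_sphere (V := ℝ) (F := ℍ) (W := ℍ) (A := Icc (0 : ℝ) 1)
    isCompact_Icc (by simp) (fun x hx t ht => by
      rw [smul_eq_mul]
      exact ⟨mul_nonneg ht.1 hx.1, by nlinarith [hx.1, hx.2, ht.1, ht.2]⟩)
    (by rw [Quaternion.finrank_eq_four]; norm_num)
    (P := fun z => R (ρ z.1 • z.2))
    (hRc.comp (by fun_prop) hm) (fun z hz => hR1 _ (hm z hz))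
  set q₀ : ℍ → ℍ := fun v => w ((‖v‖ - r₁) / (r₂ - r₁), ‖v‖⁻¹ • v) with hq₀
  have hd : 0 < r₂ - r₁ := sub_pos.2 hr
  have hmem : ∀ v ∈ An r₁ r₂, ((‖v‖ - r₁) / (r₂ - r₁), ‖v‖⁻¹ • v) ∈
      (Icc (0 : ℝ) 1) ×ˢ sphere (0 : ℍ) 1 := by
    rintro v ⟨hv1, hv2⟩
    have hv0 : 0 < ‖v‖ := lt_of_lt_of_le h0 hv1
    refine ⟨⟨div_nonneg (by linarith) hd.le, (div_le_one hd).2 (by linarith)⟩, ?_⟩
    simp [norm_smul, inv_mul_cancel₀ hv0.ne']
  have hback : ∀ v ∈ An r₁ r₂, ρ ((‖v‖ - r₁) / (r₂ - r₁)) • (‖v‖⁻¹ • v) = v := by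
    rintro v ⟨hv1, hv2⟩
    have hv0 : 0 < ‖v‖ := lt_of_lt_of_le h0 hv1
    have : ρ ((‖v‖ - r₁) / (r₂ - r₁)) = ‖v‖ := by
      simp only [hρ]; rw [div_mul_cancel₀ _ hd.ne']; ring
    rw [this, smul_smul, mul_inv_cancel₀ hv0.ne', one_smul]
  have hq₀c : ContinuousOn q₀ (An r₁ r₂) := by
    refine hw.comp (ContinuousOn.prodMk ?_ ?_) hmem
    · exact ((continuous_norm.sub continuous_const).div_const _).continuousOn
    · refine ContinuousOn.smul (ContinuousOn.inv₀ continuous_norm.continuousOn ?_) continuousOn_id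
      rintro v ⟨hv1, -⟩
      exact (lt_of_lt_of_le h0 hv1).ne'
  have hq₀1 : ∀ v ∈ An r₁ r₂, ‖q₀ v‖ = 1 ∧ R v (q₀ v) = q₀ v := by
    intro v hv
    have := hw1 _ (hmem v hv)
    simp only [hback v hv] at this
    exact this
  obtain ⟨q, hqs, hq⟩ := smooth_lift (isCompact_An r₁ r₂) hRs hR1 hq₀c hq₀1
  refine ⟨q, hqs, fun v hv => ?_⟩
  rw [hq v hv]
  obtain ⟨h1, h2⟩ := hq₀1 v hv
  exact ⟨h1, of_fix (h v hv) h2⟩

end Crest.Agent.R208.XM
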