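import Crest.Agent.R208.XM4

/-! Row 208, block XM (helper671).  XM5c: the concrete cut-off functions on `S⁴`, and the degree:
`∫ dχ tr (L_q⁻¹ dL_q)³ = d ∫ dχ tr (L_v⁻¹ dL_v)³`, `d` an integer. -/

set_option autoImplicit false
set_option linter.unusedSectionVars false
set_option linter.unusedSimpArgs false
set_option linter.unusedVariables false

open scoped BigOperators ContDiff Topology Quaternion RealInnerProductSpace
open Module Set Filter Matrix

noncomputable section

namespace Crest.Agent.R208.XM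

open Crest.Agent.R208.F Crest.Agent.R208.FI Crest.Agent.R208.CW

section nat
variable {E F : Type*} [NormedAddCommGroup E] [NormedSpace ℝ E] [FiniteDimensional ℝ E]
  [NormedAddCommGroup F] [NormedSpace ℝ F] [FiniteDimensional ℝ F]
  {n m : Type*} [Fintype n] [Fintype m] [DecidableEq n] [DecidableEq m] {x : E}

/-- naturality of the connection form -/
theorem pullC_w3 {f : E → F} {B : F → Matrix n m ℂ} (hf : ContDiffAt ℝ 2 f x)
    (hB : SM 1 B (f x)) : pullC f (w3 B) x = w3 (fun y => B (f y)) x := by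
  set φ : CF F →+* CF E := pbC ((fderiv ℝ f x : E →L[ℝ] F) : E →ₗ[ℝ] F) with hφ
  have h1 : pullC f (w3 B) x = φ ((cA B (f x) * cA B (f x) * cA B (f x)).trace) := rfl
  have h2 : φ ((cA B (f x) * cA B (f x) * cA B (f x)).trace)
      = ((cA B (f x) * cA B (f x) * cA B (f x)).map φ).trace := map_sum φ _ _
  have h3 : (DD B (f x)).map φ = DD (fun y => B (f y)) x := pbC_DD hf hB
  have h4 : (hat F (B (f x))ᵀ).map φ = hat E (B (f x))ᵀ :=
    Matrix.ext fun i j => pbC_algebraMap _ _
  have h5 : (cA B (f x)).map φ = cA (fun y => B (f y)) x := by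
    rw [cA, Matrix.map_mul, h3, h4, cA]
  rw [h1, h2, Matrix.map_mul, Matrix.map_mul, h5]
  rfl

theorem pullC_dfn {f : E → F} {χ : F → ℝ} (hf : ContDiffAt ℝ 2 f x) (hχ : ContDiffAt ℝ ∞ χ (f x)) :
    pullC f (dC (fn χ)) x = dC (fn fun y => χ (f y)) x := by
  rw [← dC_pullC hf ((CD_fn hχ).of_le one_le_inf)]
  congr 1
  funext y
  exact pbC_algebraMap _ _

end nat

/-- the annulus region -/
def UU : Set E5 := {z | 9 / 10 < ‖z.2‖ ∧ ‖z.2‖ < 99 / 100}

theorem isOpen_UU : IsOpen UU := by
  have hc : Continuous fun z : E5 => ‖z.2‖ := by fun_prop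
  exact (isOpen_lt continuous_const hc).inter (isOpen_lt hc continuous_const)

theorem ne_of_UU {z : E5} (h : z ∈ UU) : z.2 ≠ 0 := fun h0 => by
  have := h.1
  rw [h0, norm_zero] at this
  norm_num at this

/-- off the annulus -/
theorem off_UU {z : E5} (hz : z ∈ X4) (hU : z ∉ UU) : z.1 < -(2 / 5) ∨ -(1 / 5) < z.1 := by
  rw [mem_X4] at hz
  by_contra hcon
  push Not at hcon
  obtain ⟨h1, h2⟩ := hcon
  apply hU
  have h3 : z.1 ^ 2 ≤ 4 / 25 := by nlinarith
  have h4 : 1 / 25 ≤ z.1 ^ 2 := by nlinarith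
  constructor
  · by_contra h5
    push Not at h5
    nlinarith [norm_nonneg z.2]
  · by_contra h5
    push Not at h5
    nlinarith [norm_nonneg z.2]

/-- profile of a cut-off -/
structure Prof (φ : ℝ → ℝ) : Prop where
  sm : ContDiff ℝ ∞ φ
  l : ∀ t ≤ -(2 / 5 : ℝ), φ t = 1
  r : ∀ t, -(1 / 5 : ℝ) ≤ t → φ t = 0

theorem Prof.cut {φ : ℝ → ℝ} (h : Prof φ) : Cut X4 UU (fun z => φ z.1) where
  sm := fun z _ => (h.sm.comp contDiff_fst).contDiffAt
  lc := fun z hz hU => by
    rcases off_UU hz hU with h1 | h1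
    · refine ⟨1, ?_⟩
      filter_upwards [(continuous_fst.tendsto z).eventually_lt_const h1] with y hy
      exact h.l _ hy.le
    · refine ⟨0, ?_⟩
      filter_upwards [(continuous_fst.tendsto z).eventually_const_lt h1] with y hy
      exact h.r _ hy.le

theorem Prof.agree {φ ψ : ℝ → ℝ} (h : Prof φ) (h' : Prof ψ) {z : E5} (hz : z ∈ X4) (hU : z ∉ UU) :
    (fun z : E5 => φ z.1) =ᶠ[𝓝 z] fun z => ψ z.1 := by
  rcases off_UU hz hU with h1 | h1
  · filter_upwards [(continuous_fst.tendsto z).eventually_lt_const h1] with y hy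
    rw [h.l _ hy.le, h'.l _ hy.le]
  · filter_upwards [(continuous_fst.tendsto z).eventually_const_lt h1] with y hy
    rw [h.r _ hy.le, h'.r _ hy.le]

/-- the standard profile -/
def pr0 (t : ℝ) : ℝ := 1 - Real.smoothTransition (5 * t + 2)

theorem prof_pr0 : Prof pr0 where
  sm := contDiff_const.sub (Real.smoothTransition.contDiff.comp (by fun_prop))
  l := fun t ht => by
    rw [pr0, Real.smoothTransition.zero_of_nonpos (by linarith), sub_zero]
  r := fun t ht => by
    rw [pr0, Real.smoothTransition.one_of_one_le (by linarith), sub_self]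

/-- the angle -/
def an (t : ℝ) : ℝ := Real.pi * Real.smoothTransition (5 * t + 2)

theorem contDiff_an : ContDiff ℝ ∞ an :=
  contDiff_const.mul (Real.smoothTransition.contDiff.comp (by fun_prop))

theorem an_l {t : ℝ} (ht : t ≤ -(2 / 5 : ℝ)) : an t = 0 := by
  rw [an, Real.smoothTransition.zero_of_nonpos (by linarith), mul_zero]

theorem an_r {t : ℝ} (ht : -(1 / 5 : ℝ) ≤ t) : an t = Real.pi := by
  rw [an, Real.smoothTransition.one_of_one_le (by linarith), mul_one]

theorem an_mid {t : ℝ} (h1 : -(2 / 5 : ℝ) < t) (h2 : t < -(1 / 5 : ℝ)) : 0 < Real.sin (an t) := by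
  apply Real.sin_pos_of_pos_of_lt_pi
  · exact mul_pos Real.pi_pos (Real.smoothTransition.pos_of_pos (by linarith))
  · rw [an]
    have : Real.smoothTransition (5 * t + 2) < 1 := Real.smoothTransition.lt_one_of_lt_one (by linarith)
    nlinarith [Real.pi_pos]

theorem prof_an {φ : ℝ → ℝ} (h : Prof φ) : Prof (fun t => φ (-Real.cos (an t))) where
  sm := h.sm.comp ((Real.contDiff_cos.comp contDiff_an).neg)
  l := fun t ht => by
    rw [an_l ht, Real.cos_zero]
    exact h.l _ (by norm_num)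
  r := fun t ht => by
    rw [an_r ht, Real.cos_pi]
    exact h.r _ (by norm_num)

section deg
variable {q : E5 → ℍ}

/-- smooth unit quaternion field on the annulus region -/
structure UQ (q : E5 → ℍ) : Prop where
  sm : ∀ z ∈ UU, ContDiffAt ℝ ∞ q z
  un : ∀ z ∈ UU, ‖q z‖ = 1

theorem UQ.ofm (hq : UQ q) {z : E5} (hz : z ∈ UU) : OFm (fun y => LC (q y)) z :=
  OFm_LC ((isOpen_UU.eventually_mem hz).mono fun y hy => hq.sm y hy)
    ((isOpen_UU.eventually_mem hz).mono fun y hy => hq.un y hy)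

theorem uq_vh : UQ vh where
  sm := fun z hz => contDiffAt_vh (ne_of_UU hz)
  un := fun z hz => norm_vh (ne_of_UU hz)

/-- the suspension map -/
def Ph (q : E5 → ℍ) (z : E5) : E5 := (-Real.cos (an z.1), Real.sin (an z.1) • q z)

theorem Ph_off {z : E5} (hz : z ∈ X4) (hU : z ∉ UU) :
    ∃ c : E5, Ph q =ᶠ[𝓝 z] (fun _ => c) ∧ Real.sin (an z.1) = 0 := by
  rcases off_UU hz hU with h1 | h1
  · refine ⟨(-1, 0), ?_, by rw [an_l h1.le, Real.sin_zero]⟩
    filter_upwards [(continuous_fst.tendsto z).eventually_lt_const h1] with y hy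
    rw [Ph, an_l hy.le, Real.cos_zero, Real.sin_zero, zero_smul]
  · refine ⟨(1, 0), ?_, by rw [an_r h1.le, Real.sin_pi]⟩
    filter_upwards [(continuous_fst.tendsto z).eventually_const_lt h1] with y hy
    rw [Ph, an_r hy.le, Real.cos_pi, Real.sin_pi, zero_smul, neg_neg]

theorem smap_Ph (hq : UQ q) : SMap X4 X4 (Ph q) where
  smooth := fun z hz => by
    by_cases hU : z ∈ UU
    · have h1 : ContDiffAt ℝ ∞ (fun z : E5 => an z.1) z :=
        (contDiff_an.comp contDiff_fst).contDiffAt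
      exact ((Real.contDiff_cos.contDiffAt.comp z h1).neg).prodMk
        ((Real.contDiff_sin.contDiffAt.comp z h1).smul (hq.sm z hU))
    · obtain ⟨c, hc, -⟩ := Ph_off (q := q) hz hU
      exact contDiffAt_const.congr_of_eventuallyEq hc
  maps := fun z hz => by
    rw [mem_X4]
    change (-Real.cos (an z.1)) ^ 2 + ‖Real.sin (an z.1) • q z‖ ^ 2 = 1
    by_cases hU : z ∈ UU
    · rw [norm_smul, hq.un z hU, mul_one, Real.norm_eq_abs, sq_abs, neg_sq]
      exact Real.cos_sq_add_sin_sq _
    · obtain ⟨c, hc, h0⟩ := Ph_off (q := q) hz hU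
      rw [h0, zero_smul, norm_zero, neg_sq]
      have := Real.cos_sq_add_sin_sq (an z.1)
      rw [h0] at this
      exact this

theorem smo_w3 (hq : UQ q) : Smo (X4 ∩ UU) (w3 fun y => LC (q y)) := fun z hz =>
  CD_w3 (SM_LC (hq.sm z hz.2))

theorem closed_w3 (hq : UQ q) : ∀ z ∈ X4, z ∈ UU → dC (w3 fun y => LC (q y)) z = 0 :=
  fun z _ hU => dC_w3_sq (hq.ofm hU)

theorem not_UU_of {c : ℝ} : ((c, 0) : E5) ∉ UU := fun h => ne_of_UU h rfl

/-- **the degree** -/
theorem exists_deg (hq : UQ q) {φ : ℝ → ℝ} (h : Prof φ) : ∃ d : ℤ,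
    Mc 4 X4 o4 (fun z => φ z.1) (w3 fun y => LC (q y))
      = d * Mc 4 X4 o4 (fun z => φ z.1) (w3 LV) := by
  obtain ⟨d, hd⟩ := exists_deg_JC clo_X4 ori_X4 clo_X4 ori_X4 preconn_X4 (smap_Ph hq)
  refine ⟨d, ?_⟩
  have h1 := hd (fun y => dC (fn fun z : E5 => φ z.1) y * w3 LV y) (h.cut.smo (smo_w3 uq_vh))
  have h2 : JC 4 X4 o4 (pullC (Ph q) fun y => dC (fn fun z : E5 => φ z.1) y * w3 LV y)
      = Mc 4 X4 o4 (fun z => φ (-Real.cos (an z.1))) (w3 fun y => LC (q y)) := by
    refine JC_congr clo_X4 fun z hz => ?_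
    congr 1
    have hs : ContDiffAt ℝ 2 (Ph q) z := (smap_Ph hq).c2 hz
    have hmul : pullC (Ph q) (fun y => dC (fn fun z : E5 => φ z.1) y * w3 LV y) z
        = pullC (Ph q) (dC (fn fun z : E5 => φ z.1)) z * pullC (Ph q) (w3 LV) z :=
      map_mul (pbC _) _ _
    have hd1 : pullC (Ph q) (dC (fn fun z : E5 => φ z.1)) z
        = dC (fn fun z : E5 => φ (-Real.cos (an z.1))) z :=
      pullC_dfn hs ((h.sm.comp contDiff_fst).contDiffAt)
    rw [hmul]
    by_cases h0 : Real.sin (an z.1) = 0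
    · -- `Ph q z = (c, 0)`
      have h3 : Ph q z ∉ UU := by
        rw [Ph, h0, zero_smul]; exact not_UU_of
      have h4 : dC (fn fun z : E5 => φ z.1) (Ph q z) = 0 :=
        (h.cut.dC_eq ((smap_Ph hq).maps hz) h3).self_of_nhds
      have h5 : pullC (Ph q) (dC (fn fun z : E5 => φ z.1)) z = 0 := by
        change pbC _ (dC (fn fun z : E5 => φ z.1) (Ph q z)) = 0
        rw [h4, map_zero]
      rw [← hd1, h5, zero_mul, zero_mul]
    · have hU : z ∈ UU := by
        by_contra hU
        exact h0 (Ph_off (q := q) hz hU).choose_spec.2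
      have hpos : 0 < Real.sin (an z.1) := by
        refine lt_of_le_of_ne ?_ (Ne.symm h0)
        apply Real.sin_nonneg_of_nonneg_of_le_pi
        · exact mul_nonneg Real.pi_pos.le (Real.smoothTransition.nonneg _)
        · have := Real.smoothTransition.le_one (5 * z.1 + 2)
          rw [an]; nlinarith [Real.pi_pos]
      have hne : (Ph q z).2 ≠ 0 := by
        change Real.sin (an z.1) • q z ≠ 0
        refine smul_ne_zero h0 fun h6 => ?_
        have := hq.un z hU
        rw [h6, norm_zero] at this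
        exact zero_ne_one this
      have h7 : (fun y => LV (Ph q y)) =ᶠ[𝓝 z] fun y => LC (q y) := by
        have hc : Continuous fun y : E5 => Real.sin (an y.1) :=
          Real.continuous_sin.comp (contDiff_an.continuous.comp continuous_fst)
        filter_upwards [(hc.tendsto z).eventually_const_lt hpos, isOpen_UU.eventually_mem hU]
          with y hy hyU
        rw [LV, vh]
        change LC (‖Real.sin (an y.1) • q y‖⁻¹ • (Real.sin (an y.1) • q y)) = _
        rw [norm_smul, hq.un y hyU, mul_one, Real.norm_eq_abs, abs_of_pos hy, smul_smul,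
          inv_mul_cancel₀ hy.ne', one_smul]
      rw [hd1, pullC_w3 hs ((OFm_LV hne).s.of_le one_le_inf), w3_congr h7]
  rw [h2] at h1
  rw [Mc_indep clo_X4 ori_X4 h.cut (prof_an h).cut (fun z hz hU => h.agree (prof_an h) hz hU)
    (smo_w3 hq) (closed_w3 hq), h1]
  rfl

end deg

/-! ### the cut-off of the constant computation -/

/-- cut-off on the lower hemisphere, as a function of `‖v‖²` -/
def c2 (f : ℝ → ℝ) (z : E5) : ℝ := if z.1 < 0 then f (‖z.2‖ ^ 2) else 0

section c2
variable {f : ℝ → ℝ} (hf : ContDiff ℝ ∞ f) (h1 : ∀ s ≤ (82 / 100 : ℝ), f s = 1)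
  (h0 : ∀ s, (97 / 100 : ℝ) ≤ s → f s = 0)
include hf h1 h0

theorem c2_agree {φ : ℝ → ℝ} (h : Prof φ) {z : E5} (hz : z ∈ X4) (hU : z ∉ UU) :
    (fun z : E5 => φ z.1) =ᶠ[𝓝 z] c2 f := by
  have hz' := hz
  rw [mem_X4] at hz'
  by_cases hn : 9 / 10 < ‖z.2‖
  · have hn2 : 99 / 100 ≤ ‖z.2‖ := by
      by_contra hcon
      push Not at hcon
      exact hU ⟨hn, hcon⟩
    have h3 : (97 / 100 : ℝ) < ‖z.2‖ ^ 2 := by nlinarith
    have h4 : -(1 / 5 : ℝ) < z.1 := by nlinarith
    have hc : Continuous fun y : E5 => ‖y.2‖ ^ 2 := by fun_prop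
    filter_upwards [(continuous_fst.tendsto z).eventually_const_lt h4,
      (hc.tendsto z).eventually_const_lt h3] with y hy1 hy2
    rw [h.r _ hy1.le, c2]
    split_ifs
    · rw [h0 _ hy2.le]
    · rfl
  · push Not at hn
    have h3 : ‖z.2‖ ^ 2 ≤ 81 / 100 := by nlinarith [norm_nonneg z.2]
    have h3' : ‖z.2‖ ^ 2 < 82 / 100 := by linarith
    have h4 : 19 / 100 ≤ z.1 ^ 2 := by linarith
    have hc : Continuous fun y : E5 => ‖y.2‖ ^ 2 := by fun_prop
    rcases lt_or_ge z.1 0 with h5 | h5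
    · have h6 : z.1 < -(2 / 5 : ℝ) := by nlinarith
      filter_upwards [(continuous_fst.tendsto z).eventually_lt_const h6,
        (hc.tendsto z).eventually_lt_const h3'] with y hy1 hy2
      have : y.1 < 0 := by linarith
      rw [h.l _ hy1.le, c2, if_pos this, h1 _ hy2.le]
    · have h6 : 0 < z.1 := by
        rcases h5.lt_or_eq with h | h
        · exact h
        · rw [← h] at h4; norm_num at h4
      filter_upwards [(continuous_fst.tendsto z).eventually_const_lt h6] with y hy1
      rw [h.r _ (by linarith), c2, if_neg (by linarith)]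

theorem cut_c2 : Cut X4 UU (c2 f) where
  sm := fun z hz => by
    rw [mem_X4] at hz
    rcases lt_trichotomy z.1 0 with h | h | h
    · have : c2 f =ᶠ[𝓝 z] fun z => f (‖z.2‖ ^ 2) := by
        filter_upwards [(continuous_fst.tendsto z).eventually_lt_const h] with y hy
        rw [c2, if_pos hy]
      exact ((hf.comp (contDiff_snd.norm_sq ℝ)).contDiffAt).congr_of_eventuallyEq this
    · have hc : Continuous fun y : E5 => ‖y.2‖ ^ 2 := by fun_prop
      have h3 : (97 / 100 : ℝ) < ‖z.2‖ ^ 2 := by rw [h] at hz; nlinarith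
      have : c2 f =ᶠ[𝓝 z] fun z => 0 := by
        filter_upwards [(hc.tendsto z).eventually_const_lt h3] with y hy
        rw [c2]
        split_ifs
        · rw [h0 _ hy.le]
        · rfl
      exact contDiffAt_const.congr_of_eventuallyEq this
    · have : c2 f =ᶠ[𝓝 z] fun z => 0 := by
        filter_upwards [(continuous_fst.tendsto z).eventually_const_lt h] with y hy
        rw [c2, if_neg (by linarith)]
      exact contDiffAt_const.congr_of_eventuallyEq this
  lc := fun z hz hU => by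
    obtain ⟨c, hc⟩ := prof_pr0.cut.lc z hz hU
    exact ⟨c, (c2_agree hf h1 h0 prof_pr0 hz hU).symm.trans hc⟩

/-- the constant, in terms of the standard cut-off -/
theorem Mc_c2 {φ : ℝ → ℝ} (h : Prof φ) :
    Mc 4 X4 o4 (fun z => φ z.1) (w3 LV) = Mc 4 X4 o4 (c2 f) (w3 LV) :=
  Mc_indep clo_X4 ori_X4 h.cut (cut_c2 hf h1 h0) (fun z hz hU => c2_agree hf h1 h0 h hz hU)
    (smo_w3 uq_vh) (closed_w3 uq_vh)

end c2

end Crest.Agent.R208.XM
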