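import Crest.Agent.R208.XM6a

/-! Row 208, block XM (helper833).  XM6: the integral `∫ dχ ∧ tr (L⁻¹dL)³ = ± 48 π²` (const_LV). -/

set_option autoImplicit false
set_option linter.unusedSectionVars false
set_option linter.unusedSimpArgs false
set_option linter.unusedVariables false

open scoped BigOperators ContDiff Topology Quaternion RealInnerProductSpace
open Module Set Filter Matrix MeasureTheory

noncomputable section

namespace Crest.Agent.R208.XM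

open Crest.Agent.R208.F Crest.Agent.R208.FI Crest.Agent.R208.CW

/-! ### the cut-off -/

/-- cut-off -/
def chf (f : ℝ → ℝ) (z : E5) : ℝ := if z.1 < 0 then f (‖z.2‖ ^ 2) else 0

theorem inner_lr (z w : E5) : ⟪z.2, w.2⟫ = ‖z.2‖ * lr z w := by
  rw [← inner_vh]
  by_cases h : z.2 = 0
  · rw [h]; simp
  · have hne : ‖z.2‖ ≠ 0 := norm_ne_zero_iff.2 h
    rw [vh, real_inner_smul_left, ← mul_assoc, mul_inv_cancel₀ hne, one_mul]

theorem chf_ev {f : ℝ → ℝ} {z : E5} (hz : z.1 < 0) :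
    chf f =ᶠ[𝓝 z] fun y => f (‖y.2‖ ^ 2) := by
  have h1 : ∀ᶠ y : E5 in 𝓝 z, y.1 < 0 := continuous_fst.continuousAt.eventually (gt_mem_nhds hz)
  filter_upwards [h1] with y hy
  rw [chf, if_pos hy]

theorem hasFDerivAt_chf {f : ℝ → ℝ} (hf : ContDiff ℝ ∞ f) {z : E5} (hz : z.1 < 0) :
    HasFDerivAt (chf f) (deriv f (‖z.2‖ ^ 2) •
      (2 • (innerSL ℝ z.2).comp (ContinuousLinearMap.snd ℝ ℝ ℍ))) z := by
  have h1 : HasFDerivAt (fun z : E5 => ‖z.2‖ ^ 2)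
      (2 • (innerSL ℝ z.2).comp (ContinuousLinearMap.snd ℝ ℝ ℍ)) z :=
    (hasFDerivAt_snd (𝕜 := ℝ) (p := z)).norm_sq
  have h2 : HasDerivAt f (deriv f (‖z.2‖ ^ 2)) (‖z.2‖ ^ 2) :=
    ((hf.differentiable (by simp)).differentiableAt).hasDerivAt
  exact (h2.comp_hasFDerivAt z h1).congr_of_eventuallyEq (chf_ev hz)

theorem dC_chf {f : ℝ → ℝ} (hf : ContDiff ℝ ∞ f) {z : E5} (hz : z.1 < 0) :
    dC (fn (chf f)) z = Cx.ofR (io ((2 * deriv f (‖z.2‖ ^ 2) * ‖z.2‖) • lr z)) := by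
  rw [dC_fn (hasFDerivAt_chf hf hz).differentiableAt, (hasFDerivAt_chf hf hz).fderiv]
  congr 2
  refine LinearMap.ext fun w => ?_
  change deriv f (‖z.2‖ ^ 2) * (2 • ⟪z.2, w.2⟫) = (2 * deriv f (‖z.2‖ ^ 2) * ‖z.2‖) * lr z w
  rw [inner_lr, nsmul_eq_mul]
  push_cast
  ring

theorem dC_chf_zero {f : ℝ → ℝ} {b : ℝ} (hb : b < 1) (h0 : ∀ s, b ≤ s → f s = 0) {z : E5}
    (hzX : z ∈ X4) (hz : 0 ≤ z.1) : dC (fn (chf f)) z = 0 := by
  have h1 : ∀ᶠ y : E5 in 𝓝 z, 0 < y.1 ∨ b < ‖y.2‖ ^ 2 := by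
    have ho : IsOpen {y : E5 | 0 < y.1 ∨ b < ‖y.2‖ ^ 2} :=
      (isOpen_lt continuous_const continuous_fst).union
        (isOpen_lt continuous_const (continuous_snd.norm.pow 2))
    refine ho.mem_nhds ?_
    rcases hz.lt_or_eq with h | h
    · exact Or.inl h
    · right
      rw [mem_X4, ← h] at hzX
      change b < ‖z.2‖ ^ 2
      nlinarith
  have h2 : chf f =ᶠ[𝓝 z] fun _ => 0 := by
    filter_upwards [h1] with y hy
    rw [chf]
    split_ifs with h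
    · rcases hy with hy | hy
      · exact absurd h (not_lt.2 hy.le)
      · exact h0 _ hy.le
    · rfl
  have h3 : HasFDerivAt (chf f) (0 : E5 →L[ℝ] ℝ) z :=
    (hasFDerivAt_const (0 : ℝ) z).congr_of_eventuallyEq h2
  rw [dC_fn h3.differentiableAt, h3.fderiv]
  simp

/-! ### the integrand -/

/-- the integrand -/
def omf (f : ℝ → ℝ) (z : E5) : CF E5 := dC (fn (chf f)) z * w3 LV z

/-- its real value on the lower half-sphere -/
def omr (f : ℝ → ℝ) (z : E5) : Ext E5 :=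
  -(24 • ((2 * deriv f (‖z.2‖ ^ 2) * ‖z.2‖) • (io (lr z) * (io (P1 z) * (io (P2 z) * io (P3 z))))))

theorem omf_eq {f : ℝ → ℝ} (hf : ContDiff ℝ ∞ f) {z : E5} (hz : z.1 < 0) :
    omf f z = Cx.ofR (omr f z) := by
  rw [omf, omr, dC_chf hf hz]
  by_cases h : z.2 = 0
  · rw [h]; simp
  · rw [w3_LV h, ← map_mul, map_smul, smul_mul_assoc, mul_neg, mul_smul_comm, mul_assoc (io (P1 z)),
      smul_neg, smul_comm]

theorem omf_zero {f : ℝ → ℝ} {b : ℝ} (hb : b < 1) (h0 : ∀ s, b ≤ s → f s = 0) {z : E5}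
    (hzX : z ∈ X4) (hz : 0 ≤ z.1) : omf f z = 0 := by
  rw [omf, dC_chf_zero hb h0 hzX hz, zero_mul]

/-! ### the chart -/

/-- coordinates -/
abbrev qL : Eu 4 ≃ₗᵢ[ℝ] ℍ := Quaternion.linearIsometryEquivTuple.symm

/-- the chart of the lower half-sphere -/
def ph (u : Eu 4) : E5 := (-√(1 - ‖u‖ ^ 2), qL u)

theorem loc_ph : ∃ O ℓ, Loc X4 ph (Metric.ball 0 1) O ℓ := by
  have hlt : ∀ u ∈ Metric.ball (0 : Eu 4) 1, 0 < 1 - ‖u‖ ^ 2 := by
    intro u hu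
    rw [mem_ball_zero_iff] at hu
    nlinarith [norm_nonneg u]
  refine ⟨_, _, Loc.mk' (O := {z : E5 | z.1 < 0}) (ℓ := fun z => qL.symm z.2) Metric.isOpen_ball
    (isOpen_lt continuous_fst continuous_const) ?_ ?_ ?_ ?_⟩
  · refine ContDiffOn.prodMk ?_ ?_
    · refine (ContDiffOn.sqrt ?_ fun u hu => (hlt u hu).ne').neg
      exact contDiffOn_const.sub (contDiff_norm_sq ℝ).contDiffOn
    · exact qL.contDiff.contDiffOn
  · exact (qL.symm.contDiff.comp contDiff_snd).contDiffOn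
  · apply Subset.antisymm
    · rintro _ ⟨u, hu, rfl⟩
      refine ⟨?_, ?_⟩
      · rw [mem_X4]
        change (-√(1 - ‖u‖ ^ 2)) ^ 2 + ‖qL u‖ ^ 2 = 1
        rw [qL.norm_map, neg_sq, Real.sq_sqrt (hlt u hu).le]
        ring
      · change -√(1 - ‖u‖ ^ 2) < 0
        rw [neg_lt_zero]
        exact Real.sqrt_pos.2 (hlt u hu)
    · rintro z ⟨hz, hz0⟩
      rw [mem_X4] at hz
      change z.1 < 0 at hz0
      have hn : ‖qL.symm z.2‖ = ‖z.2‖ := qL.symm.norm_map _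
      refine ⟨qL.symm z.2, ?_, ?_⟩
      · rw [mem_ball_zero_iff, hn]
        nlinarith [norm_nonneg z.2, sq_nonneg (‖z.2‖ - 1)]
      · refine Prod.ext ?_ (qL.apply_symm_apply _)
        change -√(1 - ‖qL.symm z.2‖ ^ 2) = z.1
        rw [hn, show 1 - ‖z.2‖ ^ 2 = z.1 ^ 2 by linarith, Real.sqrt_sq_eq_abs, abs_of_neg hz0,
          neg_neg]
  · intro u hu
    exact qL.symm_apply_apply u

theorem chart_ph : Chart 4 X4 ph (Metric.ball 0 1) := by
  obtain ⟨O, ℓ, h⟩ := loc_ph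
  exact h.chart

theorem ph_neg {u : Eu 4} (hu : u ∈ Metric.ball (0 : Eu 4) 1) : (ph u).1 < 0 := by
  rw [mem_ball_zero_iff] at hu
  change -√(1 - ‖u‖ ^ 2) < 0
  rw [neg_lt_zero]
  exact Real.sqrt_pos.2 (by nlinarith [norm_nonneg u])

theorem mem_image_ph {z : E5} (hz : z ∈ X4) (hz0 : z.1 < 0) : z ∈ ph '' Metric.ball 0 1 := by
  rw [mem_X4] at hz
  have hn : ‖qL.symm z.2‖ = ‖z.2‖ := qL.symm.norm_map _
  refine ⟨qL.symm z.2, ?_, ?_⟩
  · rw [mem_ball_zero_iff, hn]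
    nlinarith [norm_nonneg z.2, sq_nonneg (‖z.2‖ - 1)]
  · refine Prod.ext ?_ (qL.apply_symm_apply _)
    change -√(1 - ‖qL.symm z.2‖ ^ 2) = z.1
    rw [hn, show 1 - ‖z.2‖ ^ 2 = z.1 ^ 2 by linarith, Real.sqrt_sq_eq_abs, abs_of_neg hz0,
      neg_neg]

theorem fderiv_ph_snd {u : Eu 4} (hu : u ∈ Metric.ball (0 : Eu 4) 1) (v : Eu 4) :
    (fderiv ℝ ph u v).2 = qL v := by
  have h1 := (chart_ph.differentiableAt hu).hasFDerivAt.snd
  have h2 : HasFDerivAt (fun x => (ph x).2) (qL.toContinuousLinearEquiv : Eu 4 →L[ℝ] ℍ) u :=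
    qL.toContinuousLinearEquiv.hasFDerivAt
  have h3 := h1.unique h2
  exact congrArg (fun L : Eu 4 →L[ℝ] ℍ => L v) h3

theorem qc_qL_sb (i j : Fin 4) : qc (qL (sb 4 i)) j = if j = i then 1 else 0 := by
  rw [OrthonormalBasis.coe_toBasis, EuclideanSpace.basisFun_apply]
  fin_cases i <;> fin_cases j <;> simp [qc, qL]

theorem evA_four (l0 l1 l2 l3 : Module.Dual ℝ E5) (w : Fin 4 → E5) :
    evA E5 4 (io l0 * (io l1 * (io l2 * io l3))) w
      = Matrix.det (Matrix.of fun i j => (![l0, l1, l2, l3] : Fin 4 → Module.Dual ℝ E5) j (w i)) := by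
  have h : io l0 * (io l1 * (io l2 * io l3))
      = ExteriorAlgebra.ιMulti ℝ 4 (![l0, l1, l2, l3] : Fin 4 → Module.Dual ℝ E5) := by
    have h3 : (io l3 : Ext E5) = ExteriorAlgebra.ιMulti ℝ 1 ![l3] := by
      have := io_mul_iMulti l3 0 ![]
      rw [ExteriorAlgebra.ιMulti_zero_apply, mul_one] at this
      exact this
    rw [h3, io_mul_iMulti, io_mul_iMulti, io_mul_iMulti]
  rw [h, evA_iMulti]

theorem det_aux {z : E5} (hs : av 0 z ^ 2 + av 1 z ^ 2 + av 2 z ^ 2 + av 3 z ^ 2 = 1)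
    (w : Fin 4 → E5) (hl : ∀ i j : Fin 4, lq j (w i) = if j = i then 1 else 0) :
    Matrix.det (Matrix.of fun i j => (![lr z, P1 z, P2 z, P3 z] : Fin 4 → Module.Dual ℝ E5) j (w i))
      = (‖z.2‖⁻¹) ^ 3 := by
  have e : (Matrix.of fun i j => (![lr z, P1 z, P2 z, P3 z] : Fin 4 → Module.Dual ℝ E5) j (w i))
      = !![av 0 z, ‖z.2‖⁻¹ * (-av 1 z), ‖z.2‖⁻¹ * (-av 2 z), ‖z.2‖⁻¹ * (-av 3 z);
          av 1 z, ‖z.2‖⁻¹ * av 0 z, ‖z.2‖⁻¹ * (-av 3 z), ‖z.2‖⁻¹ * av 2 z;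
          av 2 z, ‖z.2‖⁻¹ * av 3 z, ‖z.2‖⁻¹ * av 0 z, ‖z.2‖⁻¹ * (-av 1 z);
          av 3 z, ‖z.2‖⁻¹ * (-av 2 z), ‖z.2‖⁻¹ * av 1 z, ‖z.2‖⁻¹ * av 0 z] := by
    refine Matrix.ext fun i j => ?_
    fin_cases i <;> fin_cases j <;>
      simp only [Matrix.of_apply, Matrix.cons_val', Matrix.cons_val_zero, Matrix.cons_val_one,
        Matrix.cons_val, Matrix.cons_val_fin_one, Fin.zero_eta, Fin.mk_one, Fin.reduceFinMk, lr,
        P1, P2, P3, LinearMap.add_apply, LinearMap.sub_apply, LinearMap.smul_apply, smul_eq_mul,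
        hl] <;> simp
  rw [e, Matrix.det_succ_row_zero]
  simp only [Fin.sum_univ_four, Matrix.det_fin_three]
  simp [Fin.succAbove, Matrix.submatrix]
  have hs2 : (av 0 z ^ 2 + av 1 z ^ 2 + av 2 z ^ 2 + av 3 z ^ 2) ^ 2 = 1 := by
    rw [hs]; norm_num
  linear_combination (‖z.2‖⁻¹) ^ 3 * hs2

theorem top_omr {f : ℝ → ℝ} {u : Eu 4} (hu : u ∈ Metric.ball (0 : Eu 4) 1) (hf0 : deriv f 0 = 0) :
    top 4 (pb ((fderiv ℝ ph u : Eu 4 →L[ℝ] E5) : Eu 4 →ₗ[ℝ] E5) (omr f (ph u)))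
      = -48 * deriv f (‖u‖ ^ 2) * (‖u‖ ^ 2)⁻¹ := by
  have hn : ‖(ph u).2‖ = ‖u‖ := qL.norm_map u
  rw [top_pb, omr, hn]
  rcases eq_or_ne u 0 with rfl | hu0
  · simp [hf0]
  have hz : (ph u).2 ≠ 0 := by
    intro h
    apply hu0
    rw [← norm_eq_zero, ← hn, h, norm_zero]
  have hr : ‖u‖ ≠ 0 := norm_ne_zero_iff.2 hu0
  have hs := sum_av_sq hz
  have hl : ∀ i j : Fin 4, lq j (fderiv ℝ ph u (sb 4 i)) = if j = i then 1 else 0 := by
    intro i j
    rw [lq_apply, fderiv_ph_snd hu, qc_qL_sb]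
  rw [map_neg, map_nsmul, map_smul, AlternatingMap.neg_apply, AlternatingMap.smul_apply,
    AlternatingMap.smul_apply, evA_four]
  rw [det_aux hs (fun i => (fderiv ℝ ph u : Eu 4 →ₗ[ℝ] E5) (sb 4 i)) hl, hn]
  simp only [nsmul_eq_mul, smul_eq_mul]
  field_simp
  push_cast
  ring

/-! ### the radial integral -/

theorem vol_ball4 : (volume : Measure (Eu 4)).real (Metric.ball 0 1) = Real.pi ^ 2 / 2 := by
  rw [Measure.real, EuclideanSpace.volume_ball]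
  have h1 : √Real.pi ^ 4 = Real.pi ^ 2 := by
    rw [show (4 : ℕ) = 2 * 2 by norm_num, pow_mul, Real.sq_sqrt Real.pi_nonneg]
  have h2 : Real.Gamma ((4 : ℕ) / 2 + 1) = 2 := by
    rw [show ((4 : ℕ) : ℝ) / 2 + 1 = ((2 : ℕ) : ℝ) + 1 by norm_num, Real.Gamma_nat_eq_factorial]
    norm_num
  rw [Fintype.card_fin, h1, h2, ENNReal.ofReal_one, one_pow, one_mul, ENNReal.toReal_ofReal]
  positivity

theorem deriv_zero_of_ge {f : ℝ → ℝ} {b : ℝ} (h0 : ∀ s, b ≤ s → f s = 0) {s : ℝ} (hs : b < s) :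
    deriv f s = 0 := by
  have h : f =ᶠ[𝓝 s] fun _ => 0 := by
    filter_upwards [lt_mem_nhds hs] with t ht using h0 t ht.le
  rw [h.deriv_eq, deriv_const]

theorem int_radial {f : ℝ → ℝ} (hf : ContDiff ℝ ∞ f) {a b : ℝ} (ha : 0 < a) (hab : a < b)
    (hb : b < 1) (h1 : ∀ s ≤ a, f s = 1) (h0 : ∀ s, b ≤ s → f s = 0) :
    ∫ u in Metric.ball (0 : Eu 4) 1, (-48 * deriv f (‖u‖ ^ 2) * (‖u‖ ^ 2)⁻¹)
      = 48 * Real.pi ^ 2 := by
  rw [setIntegral_eq_integral_of_forall_compl_eq_zero]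
  swap
  · intro u hu
    rw [mem_ball_zero_iff, not_lt] at hu
    rw [deriv_zero_of_ge h0 (s := ‖u‖ ^ 2) (by nlinarith), mul_zero, zero_mul]
  have e := integral_fun_norm_addHaar (volume : Measure (Eu 4))
    (fun y : ℝ => -48 * deriv f (y ^ 2) * (y ^ 2)⁻¹)
  rw [e, vol_ball4, finrank_euclideanSpace, Fintype.card_fin]
  have hg : ContDiff ℝ 1 fun y : ℝ => f (y ^ 2) :=
    (hf.comp (contDiff_id.pow 2)).of_le (by exact_mod_cast le_top)
  have hc : HasCompactSupport fun y : ℝ => f (y ^ 2) := by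
    refine HasCompactSupport.intro (isCompact_Icc (a := (-1 : ℝ)) (b := 1)) fun y hy => ?_
    refine h0 _ ?_
    rw [mem_Icc, not_and_or, not_le, not_le] at hy
    rcases hy with hy | hy <;> nlinarith
  have e2 := hc.integral_Ioi_deriv_eq hg 0
  have e3 : ∫ y in Ioi (0 : ℝ), y ^ (4 - 1) • (-48 * deriv f (y ^ 2) * (y ^ 2)⁻¹)
      = ∫ y in Ioi (0 : ℝ), -24 * deriv (fun y : ℝ => f (y ^ 2)) y := by
    refine setIntegral_congr_fun measurableSet_Ioi fun y hy => ?_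
    have hy0 : y ≠ 0 := (mem_Ioi.1 hy).ne'
    have hd : HasDerivAt (fun y : ℝ => f (y ^ 2)) (deriv f (y ^ 2) * (2 * y)) y := by
      have h2 : HasDerivAt (fun y : ℝ => y ^ 2) (2 * y) y := by simpa using hasDerivAt_pow 2 y
      exact ((hf.differentiable (by simp)).differentiableAt).hasDerivAt.comp y h2
    simp only [hd.deriv, smul_eq_mul]
    field_simp
    norm_num
    ring
  rw [e3, integral_const_mul, e2]
  have : f (0 ^ 2) = 1 := h1 _ (by rw [zero_pow two_ne_zero]; exact ha.le)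
  simp only [this, nsmul_eq_mul, smul_eq_mul]
  push_cast
  ring

/-! ### the constant -/

theorem const_LV {f : ℝ → ℝ} (hf : ContDiff ℝ ∞ f) {a b : ℝ} (ha : 0 < a) (hab : a < b) (hb : b < 1)
    (h1 : ∀ s ≤ a, f s = 1) (h0 : ∀ s, b ≤ s → f s = 0) :
    (JC 4 X4 o4 fun y => dC (fn fun z : E5 => if z.1 < 0 then f (‖z.2‖ ^ 2) else 0) y * w3 LV y)
        = 48 * Real.pi ^ 2
    ∨ (JC 4 X4 o4 fun y => dC (fn fun z : E5 => if z.1 < 0 then f (‖z.2‖ ^ 2) else 0) y * w3 LV y)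
        = -(48 * Real.pi ^ 2) := by
  change JC 4 X4 o4 (omf f) = _ ∨ JC 4 X4 o4 (omf f) = _
  have him : J 4 X4 o4 (fun x => (omf f x).im) = 0 := by
    refine J_eq_zero clo_X4 fun x hx w _ => ?_
    rcases lt_or_ge x.1 0 with h | h
    · rw [omf_eq hf h]
      simp
    · rw [omf_zero hb h0 hx h]
      simp
  have hre : J 4 X4 o4 (fun x => (omf f x).re)
      = ∫ u in Metric.ball (0 : Eu 4) 1, top 4 (pull ph (fun x => (omf f x).re) u)
        * Real.sign (top 4 (pull ph o4 u)) := by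
    refine J_eq_chart clo_X4 chart_ph fun x hx hx2 => ?_
    have h : 0 ≤ x.1 := by
      by_contra hcon
      exact hx2 (mem_image_ph hx (not_le.1 hcon))
    rw [omf_zero hb h0 hx h]
    simp
  obtain ⟨ε, hε⟩ := chart_ph.exists_sign ori_X4 (convex_ball (0 : Eu 4) 1).isPreconnected
  have hf0 : deriv f 0 = 0 := by
    have h : f =ᶠ[𝓝 0] fun _ => 1 := by
      filter_upwards [gt_mem_nhds ha] with t ht using h1 t ht.le
    rw [h.deriv_eq, deriv_const]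
  have hre2 : J 4 X4 o4 (fun x => (omf f x).re) = 48 * Real.pi ^ 2 * ε := by
    rw [hre, ← int_radial hf ha hab hb h1 h0, ← integral_mul_const]
    refine setIntegral_congr_fun measurableSet_ball fun u hu => ?_
    simp only [hε u hu]
    congr 1
    rw [← top_omr hu hf0, pull, omf_eq hf (ph_neg hu)]
    simp
  have hε1 : ε = 1 ∨ ε = -1 := by
    have h0b : (0 : Eu 4) ∈ Metric.ball (0 : Eu 4) 1 := by simp
    rw [← hε 0 h0b]
    rcases lt_or_gt_of_ne (chart_ph.top_ne_zero ori_X4 h0b) with h | h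
    · right; exact Real.sign_of_neg h
    · left; exact Real.sign_of_pos h
  have hJ : JC 4 X4 o4 (omf f) = ((48 * Real.pi ^ 2 * ε : ℝ) : ℂ) := by
    refine Complex.ext ?_ ?_
    · rw [Complex.ofReal_re]; exact hre2
    · rw [Complex.ofReal_im]; exact him
  rw [hJ]
  rcases hε1 with h | h
  · left; rw [h]; push_cast; ring
  · right; rw [h]; push_cast; ring

end Crest.Agent.R208.XM
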