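import Crest.Agent.R208.XMDefs
import Crest.Agent.R208.XM5a
import Crest.Agent.R208.XM5b
import Crest.Agent.R208.XM5c

/-! Row 208, block XM (helper671).  XM7a: frames of the flat model and their quaternionic form on
the annulus. -/

set_option autoImplicit false
set_option linter.unusedSectionVars false
set_option linter.unusedSimpArgs false
set_option linter.unusedVariables false

open scoped BigOperators ContDiff Topology Quaternion RealInnerProductSpace
open Module Set Filter Matrix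

noncomputable section

namespace Crest.Agent.R208.XM

open Crest.Agent.R208.F Crest.Agent.R208.FI Crest.Agent.R208.CW

theorem qe_on : Orthonormal ℝ qe := by
  rw [orthonormal_iff_ite]
  intro i j
  rw [inner_comp]
  fin_cases i <;> fin_cases j <;> simp

theorem sum_qc (a : ℍ) : ∑ m, qc a m • qe m = a := by
  rw [Fin.sum_univ_four]
  ext <;> simp [qc]

theorem inner_mul_left (a x y : ℍ) : ⟪a * x, a * y⟫ = ‖a‖ ^ 2 * ⟪x, y⟫ := by
  rw [norm_comp, inner_comp, inner_comp]
  simp only [Quaternion.re_mul, Quaternion.imI_mul, Quaternion.imJ_mul, Quaternion.imK_mul]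
  ring

theorem inner_mul_right (a x y : ℍ) : ⟪x * a, y * a⟫ = ‖a‖ ^ 2 * ⟪x, y⟫ := by
  rw [norm_comp, inner_comp, inner_comp]
  simp only [Quaternion.re_mul, Quaternion.imI_mul, Quaternion.imJ_mul, Quaternion.imK_mul]
  ring

theorem preconn_An {r₁ r₂ : ℝ} (h0 : 0 < r₁) : IsPreconnected (An r₁ r₂) := by
  have h1 : IsPreconnected (Metric.sphere (0 : ℍ) 1) := by
    refine isPreconnected_sphere ?_ 0 1
    rw [← Module.finrank_eq_rank, Quaternion.finrank_eq_four]
    norm_num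
  have h2 : IsPreconnected (Icc r₁ r₂ ×ˢ Metric.sphere (0 : ℍ) 1) := isPreconnected_Icc.prod h1
  have h3 : (fun p : ℝ × ℍ => p.1 • p.2) '' (Icc r₁ r₂ ×ˢ Metric.sphere (0 : ℍ) 1) = An r₁ r₂ := by
    ext v
    constructor
    · rintro ⟨⟨r, u⟩, ⟨hr, hu⟩, rfl⟩
      have hu' : ‖u‖ = 1 := by simpa using hu
      have : ‖r • u‖ = r := by
        rw [norm_smul, hu', mul_one, Real.norm_eq_abs, abs_of_pos (lt_of_lt_of_le h0 hr.1)]
      change r₁ ≤ ‖r • u‖ ∧ ‖r • u‖ ≤ r₂
      rw [this]; exact hr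
    · rintro ⟨hv1, hv2⟩
      have hv0 : 0 < ‖v‖ := lt_of_lt_of_le h0 hv1
      refine ⟨(‖v‖, ‖v‖⁻¹ • v), ⟨⟨hv1, hv2⟩, ?_⟩, ?_⟩
      · simp [norm_smul, inv_mul_cancel₀ hv0.ne']
      · simp only [smul_smul, mul_inv_cancel₀ hv0.ne', one_smul]
  rw [← h3]
  exact h2.image _ (by fun_prop)

/-- a projection of rank `4` in terms of an orthonormal frame of its range -/
theorem proj_eq_sum {H : Type*} [NormedAddCommGroup H] [InnerProductSpace ℝ H]
    [FiniteDimensional ℝ H] {m : ℕ} {P : H →L[ℝ] H} (idem : ∀ x, P (P x) = P x)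
    (sym : ∀ x y, ⟪P x, y⟫ = ⟪x, P y⟫)
    (rk : finrank ℝ (LinearMap.range (P : H →ₗ[ℝ] H)) = m) {e : Fin m → H} (he : Orthonormal ℝ e)
    (hPe : ∀ i, P (e i) = e i) (x : H) : P x = ∑ i, ⟪e i, x⟫ • e i := by
  have h1 : Submodule.span ℝ (Set.range e) ≤ LinearMap.range (P : H →ₗ[ℝ] H) := by
    rw [Submodule.span_le]
    rintro _ ⟨i, rfl⟩
    exact ⟨e i, hPe i⟩
  have h2 : Submodule.span ℝ (Set.range e) = LinearMap.range (P : H →ₗ[ℝ] H) := by
    refine Submodule.eq_of_le_of_finrank_eq h1 ?_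
    rw [rk, finrank_span_eq_card he.linearIndependent, Fintype.card_fin]
  have h3 : P x ∈ Submodule.span ℝ (Set.range e) := by
    rw [h2]; exact ⟨x, rfl⟩
  obtain ⟨c, hc⟩ := (Submodule.mem_span_range_iff_exists_fun ℝ).1 h3
  rw [← hc]
  refine Finset.sum_congr rfl fun i _ => ?_
  congr 1
  have h4 : ⟪e i, P x⟫ = c i := by
    rw [← hc]; exact he.inner_right_fintype c i
  rw [← h4, ← sym, hPe]

section flat
variable {n : Type*} [Fintype n] [DecidableEq n] {j : ℍ →ₗᵢ[ℝ] EuclideanSpace ℝ n}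
  {P : ℍ → EuclideanSpace ℝ n →L[ℝ] EuclideanSpace ℝ n} {s : ℍ → EuclideanSpace ℝ n}

theorem Flat.P_eq (h : Flat j P s) {v : ℍ} (hv : 3 / 4 ≤ ‖v‖ ^ 2) (x : EuclideanSpace ℝ n) :
    P v x = ∑ m, ⟪j (qe m), x⟫ • j (qe m) :=
  proj_eq_sum (h.idem v) (h.sym v) (h.rk v) (qe_on.comp_linearIsometry j)
    (fun i => (h.out v hv).2 _) x

theorem Flat.P_const (h : Flat j P s) {v : ℍ} (hv : 3 / 4 ≤ ‖v‖ ^ 2) : P v = P 1 := by
  ext1 x
  rw [h.P_eq hv, h.P_eq (v := 1) (by simp; norm_num)]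

/-- **frame and lift** -/
theorem Flat.exists_frame (h : Flat j P s) : ∃ (e : ℍ → Fin 4 → EuclideanSpace ℝ n) (q : ℍ → ℍ),
    (∀ v, ‖v‖ ≤ 2 → ∀ i, ContDiffAt ℝ ∞ (fun y => e y i) v) ∧
    (∀ v, ‖v‖ ≤ 2 → Orthonormal ℝ (e v) ∧ ∀ i, P v (e v i) = e v i) ∧
    (∀ v ∈ An (9 / 10) (99 / 100), ContDiffAt ℝ ∞ q v) ∧
    (∀ v ∈ An (9 / 10) (99 / 100), ‖q v‖ = 1 ∧
      ∀ l, e v l = j (‖v‖⁻¹ • v * (q v * (qe l * star (q v))))) := by
  obtain ⟨e, hes, he⟩ := exists_onframe h.sP h.ss h.idem h.sym h.rk h.Ps h.s0 2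
  set A : Set ℍ := An (9 / 10) (99 / 100) with hA
  have hA2 : ∀ v ∈ A, ‖v‖ ≤ 2 := fun v hv => hv.2.trans (by norm_num)
  have hA3 : ∀ v ∈ A, 3 / 4 ≤ ‖v‖ ^ 2 := fun v hv => by nlinarith [hv.1]
  have hA0 : ∀ v ∈ A, v ≠ 0 := fun v hv h0 => by
    have := hv.1
    rw [h0, norm_zero] at this
    norm_num at this
  set u : ℍ → ℍ := fun v => ‖v‖⁻¹ • v with hu
  have hun : ∀ v ∈ A, ‖u v‖ = 1 := fun v hv => by
    rw [hu]
    simp only
    rw [norm_smul, norm_inv, norm_norm, inv_mul_cancel₀ (norm_ne_zero_iff.2 (hA0 v hv))]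
  have hus : ∀ v ∈ A, ContDiffAt ℝ ∞ u v := fun v hv =>
    ((contDiffAt_norm ℝ (hA0 v hv)).inv (norm_ne_zero_iff.2 (hA0 v hv))).smul contDiffAt_id
  -- coordinates
  set y : Fin 4 → ℍ → ℍ := fun l v => ∑ m, ⟪j (qe m), e v l⟫ • qe m with hy
  have hjy : ∀ v ∈ A, ∀ l, j (y l v) = e v l := fun v hv l => by
    rw [hy]
    simp only [map_sum, map_smul]
    rw [← h.P_eq (hA3 v hv), (he v (hA2 v hv)).2.1]
  have hys : ∀ v ∈ A, ∀ l, ContDiffAt ℝ ∞ (y l) v := fun v hv l =>
    ContDiffAt.sum fun m _ => (contDiffAt_const.inner ℝ (hes v (hA2 v hv) l)).smul contDiffAt_const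
  have hyy : ∀ v ∈ A, ∀ l m, ⟪y l v, y m v⟫ = if l = m then 1 else 0 := fun v hv l m => by
    rw [← j.inner_map_map, hjy v hv, hjy v hv]
    exact orthonormal_iff_ite.1 (he v (hA2 v hv)).1 l m
  have hy0 : ∀ v ∈ A, y 0 v = u v := fun v hv => by
    apply j.injective
    rw [hjy v hv, (he v (hA2 v hv)).2.2, (h.out v (hA3 v hv)).1, j.norm_map, hu]
    simp only [map_smul]
  -- the imaginary quaternions
  set hh : Fin 4 → ℍ → ℍ := fun l v => star (u v) * y l v with hhh
  have hst : ContDiff ℝ ∞ (fun a : ℍ => star a) := by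
    have : (fun a : ℍ => star a) = fun a => (2 * qc a 0) • (1 : ℍ) - a := by
      funext a
      ext
      · simp [qc]; ring
      · simp
      · simp
      · simp
    rw [this]
    exact ((contDiff_const.mul (contDiff_qc 0)).smul contDiff_const).sub contDiff_id
  have hhs : ∀ v ∈ A, ∀ l, ContDiffAt ℝ ∞ (hh l) v := fun v hv l =>
    (hst.contDiffAt.comp v (hus v hv)).mul (hys v hv l)
  have hh0 : ∀ v ∈ A, hh 0 v = 1 := fun v hv => by
    rw [hhh]; simp only
    rw [hy0 v hv, star_mul_self_of_norm (hun v hv)]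
  have hhi : ∀ v ∈ A, ∀ l m, ⟪hh l v, hh m v⟫ = if l = m then 1 else 0 := fun v hv l m => by
    rw [hhh]; simp only
    rw [inner_mul_left, Quaternion.norm_star, hun v hv, hyy v hv]; simp
  have hre : ∀ v ∈ A, ∀ l, l ≠ 0 → (hh l v).re = 0 := fun v hv l hl => by
    have h1 := hhi v hv 0 l
    rw [hh0 v hv, if_neg hl.symm, inner_comp] at h1
    simpa using h1
  have hnn : ∀ v ∈ A, ∀ l, ‖hh l v‖ = 1 := fun v hv l => by
    have h1 := hhi v hv l l
    rw [if_pos rfl, real_inner_self_eq_norm_sq] at h1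
    have h2 : 0 ≤ ‖hh l v‖ := norm_nonneg _
    nlinarith
  have him : ∀ v ∈ A, Im2 (hh 1 v) (hh 2 v) := fun v hv =>
    ⟨hre v hv 1 (by decide), hre v hv 2 (by decide), hnn v hv 1, hnn v hv 2, by
      rw [hhi v hv]; simp⟩
  obtain ⟨q, hqs, hq⟩ := exists_lift (by norm_num) (by norm_num) (fun v hv => hhs v hv 1)
    (fun v hv => hhs v hv 2) him
  have hqn : ∀ v ∈ A, ‖q v‖ = 1 := fun v hv => (hq v hv).1
  have hqq : ∀ v ∈ A, q v * star (q v) = 1 := fun v hv => self_mul_star_of_norm (hqn v hv)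
  have hqq' : ∀ v ∈ A, star (q v) * q v = 1 := fun v hv => star_mul_self_of_norm (hqn v hv)
  have h1q : ∀ v ∈ A, hh 1 v = q v * (qe 1 * star (q v)) := fun v hv => by
    rw [← mul_assoc, ← (hq v hv).2.1, mul_assoc, hqq v hv, mul_one]
  have h2q : ∀ v ∈ A, hh 2 v = q v * (qe 2 * star (q v)) := fun v hv => by
    rw [← mul_assoc, ← (hq v hv).2.2, mul_assoc, hqq v hv, mul_one]
  -- the sign
  set w : ℍ → ℍ := fun v => star (q v) * hh 3 v * q v with hw
  have hww : ∀ v ∈ A, ∀ l, ⟪qe l, w v⟫ = ⟪q v * (qe l * star (q v)), hh 3 v⟫ := fun v hv l => by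
    have e1 : q v * (qe l * star (q v)) = q v * qe l * star (q v) := by rw [mul_assoc]
    have e2 : hh 3 v = q v * w v * star (q v) := by
      rw [hw]; simp only
      calc hh 3 v = (q v * star (q v)) * hh 3 v * (q v * star (q v)) := by
            rw [hqq v hv, one_mul, mul_one]
        _ = _ := by noncomm_ring
    rw [e1]
    conv_rhs => rw [e2]
    rw [inner_mul_right, inner_mul_left, Quaternion.norm_star, hqn v hv]; simp
  have hw0 : ∀ v ∈ A, (w v).re = 0 := fun v hv => by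
    have h1 := hww v hv 0
    rw [qe0, one_mul, hqq v hv, ← hh0 v hv, hhi v hv, if_neg (by decide)] at h1
    rw [inner_comp] at h1
    rw [hh0 v hv] at h1
    simpa using h1
  have hw1 : ∀ v ∈ A, (w v).imI = 0 := fun v hv => by
    have h1 := hww v hv 1
    rw [← h1q v hv, hhi v hv, if_neg (by decide), inner_comp] at h1
    simpa using h1
  have hw2 : ∀ v ∈ A, (w v).imJ = 0 := fun v hv => by
    have h1 := hww v hv 2
    rw [← h2q v hv, hhi v hv, if_neg (by decide), inner_comp] at h1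
    simpa using h1
  have hwn : ∀ v ∈ A, (w v).imK ^ 2 = 1 := fun v hv => by
    have h1 : ‖w v‖ ^ 2 = 1 := by
      rw [hw]; simp only
      rw [norm_mul, norm_mul, Quaternion.norm_star, hqn v hv, hnn v hv]; norm_num
    rw [norm_comp, hw0 v hv, hw1 v hv, hw2 v hv] at h1
    nlinarith
  have hwc : ContinuousOn (fun v => (w v).imK) A := by
    refine Quaternion.continuous_imK.comp_continuousOn ?_
    have hqc : ContinuousOn q A := fun v hv => (hqs v hv).continuousAt.continuousWithinAt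
    have h3c : ContinuousOn (hh 3) A := fun v hv => (hhs v hv 3).continuousAt.continuousWithinAt
    exact ((continuous_star.comp_continuousOn hqc).mul h3c).mul hqc
  obtain ⟨σ, hσ, hσw⟩ : ∃ σ : ℝ, σ * σ = 1 ∧ ∀ v ∈ A, (w v).imK = σ := by
    have hpre : IsPreconnected A := preconn_An (by norm_num)
    have h9 : ((9 / 10 : ℝ) • (1 : ℍ)) ∈ A := by
      constructor
      · rw [norm_smul, norm_one, mul_one, Real.norm_eq_abs, abs_of_pos (by norm_num)]
      · rw [norm_smul, norm_one, mul_one, Real.norm_eq_abs, abs_of_pos (by norm_num)]; norm_num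
    refine ⟨(w ((9 / 10 : ℝ) • (1 : ℍ))).imK, by rw [← sq]; exact hwn _ h9, fun v hv => ?_⟩
    have himg := hpre.image _ hwc
    have hcase : ∀ a ∈ A, (w a).imK = 1 ∨ (w a).imK = -1 := fun a ha =>
      mul_self_eq_one_iff.1 (by rw [← sq]; exact hwn a ha)
    by_contra hne
    have hz : (0 : ℝ) ∈ (fun v => (w v).imK) '' A := by
      have hoc := himg.ordConnected
      rcases hcase v hv with h1 | h1 <;> rcases hcase _ h9 with h2 | h2
      · exact absurd (h1.trans h2.symm) hne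
      · exact hoc.out ⟨_, h9, h2⟩ ⟨v, hv, h1⟩ ⟨by norm_num, by norm_num⟩
      · exact hoc.out ⟨v, hv, h1⟩ ⟨_, h9, h2⟩ ⟨by norm_num, by norm_num⟩
      · exact absurd (h1.trans h2.symm) hne
    obtain ⟨a, ha, ha0⟩ := hz
    have := hwn a ha
    simp only at ha0
    rw [ha0] at this
    norm_num at this
  have h3q : ∀ v ∈ A, σ • hh 3 v = q v * (qe 3 * star (q v)) := fun v hv => by
    have e1 : w v = σ • qe 3 := by
      ext
      · simp [hw0 v hv]
      · simp [hw1 v hv]
      · simp [hw2 v hv]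
      · simp [hσw v hv]
    have e2 : hh 3 v = q v * w v * star (q v) := by
      rw [hw]; simp only
      calc hh 3 v = (q v * star (q v)) * hh 3 v * (q v * star (q v)) := by
            rw [hqq v hv, one_mul, mul_one]
        _ = _ := by noncomm_ring
    rw [e2, e1, mul_smul_comm, smul_mul_assoc, smul_smul, hσ, one_smul, mul_assoc]
  set sg : Fin 4 → ℝ := fun l => if l = 3 then σ else 1 with hsg
  have hsg2 : ∀ l, sg l * sg l = 1 := fun l => by
    rw [hsg]; simp only; split_ifs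
    · exact hσ
    · norm_num
  refine ⟨fun v l => sg l • e v l, q, fun v hv i => (hes v hv i).const_smul (sg i),
    fun v hv => ⟨?_, fun i => by rw [map_smul, (he v hv).2.1]⟩, hqs, fun v hv => ⟨hqn v hv, ?_⟩⟩
  · have h1 := orthonormal_iff_ite.1 (he v hv).1
    rw [orthonormal_iff_ite]
    intro i k
    rw [real_inner_smul_left, real_inner_smul_right, h1]
    split_ifs with hik
    · rw [hik]; have := hsg2 k; linarith
    · ring
  · have hyh : ∀ l, y l v = u v * hh l v := fun l => by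
      rw [hhh]; simp only
      rw [← mul_assoc, self_mul_star_of_norm (hun v hv), one_mul]
    intro l
    change sg l • e v l = j (u v * (q v * (qe l * star (q v))))
    rw [← hjy v hv l, ← map_smul, hyh, ← mul_smul_comm]
    congr 2
    fin_cases l
    · simp only [hsg, Fin.zero_eta]
      rw [if_neg (by decide), one_smul]
      change hh 0 v = _
      rw [hh0 v hv, qe0, one_mul, hqq v hv]
    · simp only [hsg]
      rw [if_neg (by decide), one_smul]
      exact h1q v hv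
    · simp only [hsg]
      rw [if_neg (by decide), one_smul]
      exact h2q v hv
    · simp only [hsg]
      rw [if_pos (by decide)]
      exact h3q v hv

end flat

end Crest.Agent.R208.XM
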