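import Crest.Agent.R208.XM1
import Crest.Agent.R208.SN9

/-! Row 208, block XM (helper595).  XM8a: the map `f : S⁴ → C` of one step of the spread tower over
a point and the family of planes over the ball (input of helper671's `main`). -/

set_option autoImplicit false
set_option linter.unusedSectionVars false

open MeasureTheory Set Filter Topology Module Matrix
open scoped ContDiff RealInnerProductSpace Quaternion
open Crest.Agent.R208.F Crest.Agent.R208.FI Crest.Agent.R208.CW Crest.Agent.R208.T Crest.Agent.R208.SN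

noncomputable section

namespace Crest.Agent.R208.XM

universe u

section phi
variable {K : Type*} [NormedAddCommGroup K] [InnerProductSpace ℝ K] [FiniteDimensional ℝ K]

/-- the diffeomorphism of `S⁴` with `SB {q} P` -/
def Phi (q : K) (j : ℍ →ₗᵢ[ℝ] K) (z : E5) : (K × K) × ℝ := ((q, j z.2), z.1)

theorem contDiff_Phi (q : K) (j : ℍ →ₗᵢ[ℝ] K) : ContDiff ℝ ∞ (Phi q j) :=
  (contDiff_const.prodMk (j.contDiff.comp contDiff_snd)).prodMk contDiff_fst

theorem fderiv_Phi (q : K) (j : ℍ →ₗᵢ[ℝ] K) (z v : E5) :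
    fderiv ℝ (Phi q j) z v = ((0, j v.2), v.1) := by
  have h : HasFDerivAt (Phi q j) (((0 : E5 →L[ℝ] K).prod
      (j.toContinuousLinearMap ∘L ContinuousLinearMap.snd ℝ ℝ ℍ)).prod
      (ContinuousLinearMap.fst ℝ ℝ ℍ)) z :=
    ((hasFDerivAt_const q z).prodMk
      ((j.toContinuousLinearMap.hasFDerivAt (x := z.2)).comp z hasFDerivAt_snd)).prodMk
        hasFDerivAt_fst
  rw [h.fderiv]; rfl

theorem fderiv_Phi_inj (q : K) (j : ℍ →ₗᵢ[ℝ] K) (z v : E5) (h : fderiv ℝ (Phi q j) z v = 0) :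
    v = 0 := by
  rw [fderiv_Phi] at h
  have h1 : j v.2 = 0 := congrArg (fun y : (K × K) × ℝ => y.1.2) h
  have h2 : v.1 = 0 := congrArg (fun y : (K × K) × ℝ => y.2) h
  refine Prod.ext h2 (j.injective ?_)
  rw [h1]; exact (map_zero j).symm

theorem bijOn_Phi {P : K → K →L[ℝ] K} {q : K} {j : ℍ →ₗᵢ[ℝ] K} (hj : ∀ v, P q (j v) = j v)
    (hj' : ∀ x, P q x = x → ∃ v, j v = x) : BijOn (Phi q j) X4 (SB {q} P) := by
  refine ⟨fun z hz => ?_, fun z _ z' _ h => ?_, fun y hy => ?_⟩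
  · refine SB_iff.2 ⟨mem_singleton _, hj _, ?_⟩
    rw [mem_X4] at hz
    show ⟪j z.2, j z.2⟫ + z.1 * z.1 = 1
    rw [real_inner_self_eq_norm_sq, j.norm_map]; linarith [sq z.1]
  · have h1 : j z.2 = j z'.2 := congrArg (fun y : (K × K) × ℝ => y.1.2) h
    have h2 : z.1 = z'.1 := congrArg (fun y : (K × K) × ℝ => y.2) h
    exact Prod.ext h2 (j.injective h1)
  · obtain ⟨hx, hP, hn⟩ := SB_iff.1 hy
    have hx' : y.1.1 = q := hx
    rw [hx'] at hP
    obtain ⟨v, hv⟩ := hj' _ hP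
    refine ⟨(y.2, v), ?_, Prod.ext (Prod.ext hx'.symm hv) rfl⟩
    rw [mem_X4]
    show y.2 ^ 2 + ‖v‖ ^ 2 = 1
    rw [← j.norm_map v, hv, ← real_inner_self_eq_norm_sq]
    linarith [sq y.2]

theorem exists_j {P0 : K →L[ℝ] K} (hid : ∀ v, P0 (P0 v) = P0 v)
    (hr : finrank ℝ (LinearMap.range (P0 : K →ₗ[ℝ] K)) = 4) :
    ∃ j : ℍ →ₗᵢ[ℝ] K, (∀ v, P0 (j v) = j v) ∧ ∀ x, P0 x = x → ∃ v, j v = x := by
  set V := LinearMap.range (P0 : K →ₗ[ℝ] K) with hV
  have hf : finrank ℝ ℍ = finrank ℝ V := by rw [Quaternion.finrank_eq_four, hr]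
  let e : ℍ ≃ₗᵢ[ℝ] V := (stdOrthonormalBasis ℝ ℍ).equiv (stdOrthonormalBasis ℝ V) (finCongr hf)
  refine ⟨V.subtypeₗᵢ.comp e.toLinearIsometry, fun v => ?_, fun x hx => ?_⟩
  · obtain ⟨y, hy⟩ := (e v).2
    show P0 (e v : K) = (e v : K)
    rw [← hy]; exact hid y
  · refine ⟨e.symm ⟨x, ⟨x, hx⟩⟩, ?_⟩
    show ((e (e.symm ⟨x, ⟨x, hx⟩⟩) : V) : K) = x
    rw [e.apply_symm_apply]

end phi

section bb

/-- the cut off as a function on the ball -/
def bb (v : ℍ) : ℝ := bt (-√(1 - ‖v‖ ^ 2))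

theorem bb_zero {v : ℍ} (h : 3 / 4 ≤ ‖v‖ ^ 2) : bb v = 0 := by
  refine bt_zero ?_
  have : √(1 - ‖v‖ ^ 2) ≤ 1 / 2 := by
    rw [show (1 / 2 : ℝ) = √((1 / 2) ^ 2) by rw [Real.sqrt_sq (by norm_num)]]
    exact Real.sqrt_le_sqrt (by linarith)
  linarith

theorem bb_pos_zero : bb 0 ≠ 0 := by
  have : (0 : ℝ) < bb 0 := bt_pos (by rw [norm_zero]; norm_num)
  exact this.ne'

theorem contDiff_bb : ContDiff ℝ ∞ bb := by
  rw [contDiff_iff_contDiffAt]
  intro v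
  rcases lt_or_ge (‖v‖ ^ 2) (7 / 8) with h | h
  · have h1 : ContDiffAt ℝ ∞ (fun v : ℍ => 1 - ‖v‖ ^ 2) v :=
      contDiffAt_const.sub (contDiff_norm_sq ℝ).contDiffAt
    have h2 : (1 : ℝ) - ‖v‖ ^ 2 ≠ 0 := by
      intro h0; linarith
    exact (contDiff_bt.contDiffAt (x := -√(1 - ‖v‖ ^ 2))).comp v (h1.sqrt h2).neg
  · have : bb =ᶠ[𝓝 v] fun _ => 0 := by
      have ho : {y : ℍ | 3 / 4 < ‖y‖ ^ 2} ∈ 𝓝 v :=
        (isOpen_lt continuous_const (continuous_norm.pow 2)).mem_nhds (by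
          show 3 / 4 < ‖v‖ ^ 2; linarith)
      filter_upwards [ho] with y hy
      exact bb_zero (le_of_lt hy)
    exact contDiffAt_const.congr_of_eventuallyEq this

theorem bt_X4 {z : E5} (hz : z ∈ X4) (h : z.1 ≤ 0) : bt z.1 = bb z.2 := by
  rw [mem_X4] at hz
  rw [bb, show 1 - ‖z.2‖ ^ 2 = z.1 ^ 2 by linarith, Real.sqrt_sq_eq_abs, abs_of_nonpos h, neg_neg]

end bb

section main
variable {n : Type u} {ι : Type*} [Fintype n] [DecidableEq n] [Fintype ι] [DecidableEq ι]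
  {T : Submodule ℝ (EuclideanSpace ℝ n)} {C : Set (EuclideanSpace ℝ n)}
  {P : EuclideanSpace ℝ n → EuclideanSpace ℝ n →L[ℝ] EuclideanSpace ℝ n}
  {W : EuclideanSpace ℝ n → (ι × Fin 2 → n) → ℝ} {rho : EuclideanSpace ℝ n → EuclideanSpace ℝ n}
  {q w : EuclideanSpace ℝ n} {j : ℍ →ₗᵢ[ℝ] EuclideanSpace ℝ n}

/-- the section on the ball -/
def sj (j : ℍ →ₗᵢ[ℝ] EuclideanSpace ℝ n) (w : EuclideanSpace ℝ n) (v : ℍ) : EuclideanSpace ℝ n :=
  j v + bb v • w

theorem contDiff_sj : ContDiff ℝ ∞ (sj j w) :=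
  j.contDiff.add (contDiff_bb.smul contDiff_const)

theorem sj_out {v : ℍ} (h : 3 / 4 ≤ ‖v‖ ^ 2) : sj j w v = j v := by
  rw [sj, bb_zero h, zero_smul, add_zero]

theorem sj_ne (hj : ∀ v, P q (j v) = j v) (hw : P q w ≠ w) (v : ℍ) : sj j w v ≠ 0 := by
  intro h0
  rcases eq_or_ne (bb v) 0 with hb | hb
  · rw [sj, hb, zero_smul, add_zero] at h0
    have : v = 0 := j.injective (by rw [h0]; exact (map_zero j).symm)
    rw [this] at hb
    exact bb_pos_zero hb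
  · refine hw ?_
    have h2 : w = (-(bb v)⁻¹) • j v := by
      have : j v = -(bb v • w) := eq_neg_of_add_eq_zero_left h0
      rw [this, smul_neg, neg_smul, neg_neg, smul_smul, inv_mul_cancel₀ hb, one_smul]
    rw [h2, map_smul, hj]

theorem sj_mem (h : Spr T C P W rho) (hq : q ∈ C) (hj : ∀ v, P q (j v) = j v) (hwT : w ∈ T)
    (v : ℍ) : sj j w v ∈ T := by
  refine T.add_mem ?_ (T.smul_mem _ hwT)
  rw [← hj]; exact h.rg _ hq _

theorem rho_j (h : Spr T C P W rho) (hq : q ∈ C) (hj : ∀ v, P q (j v) = j v) {v : ℍ}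
    (hv : v ≠ 0) : rho (j v) = q :=
  h.uniq _ hq _ (fun h0 => hv (j.injective (by rw [h0]; exact (map_zero j).symm))) (hj v)

/-- **the data over `S⁴`**, for a spread of 4-planes -/
theorem exists_flat (h : Spr T C P W rho) (hc : Fintype.card ι = 2) {c : ℕ} (hC : Sub c C)
    (hq : q ∈ C) (hT : 4 < finrank ℝ T) :
    ∃ (f : E5 → EuclideanSpace ℝ n) (j : ℍ →ₗᵢ[ℝ] EuclideanSpace ℝ n)
      (P' : ℍ → EuclideanSpace ℝ n →L[ℝ] EuclideanSpace ℝ n) (s : ℍ → EuclideanSpace ℝ n),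
      ContDiff ℝ ∞ f ∧ SMap X4 C f ∧ |J 4 X4 o4 (F.pull f (eR P W))| = |kGG ι| / 2 ∧
      ContDiff ℝ ∞ P' ∧ ContDiff ℝ ∞ s ∧ (∀ v x, P' v (P' v x) = P' v x) ∧
      (∀ v x y, ⟪P' v x, y⟫ = ⟪x, P' v y⟫) ∧
      (∀ v, finrank ℝ (LinearMap.range (P' v : EuclideanSpace ℝ n →ₗ[ℝ] EuclideanSpace ℝ n)) = 4) ∧
      (∀ v, P' v (s v) = s v) ∧ (∀ v, s v ≠ 0) ∧
      (∀ v, 3 / 4 ≤ ‖v‖ ^ 2 → s v = j v ∧ ∀ w : ℍ, P' v (j w) = j w) ∧
      (∀ z ∈ X4, z.1 < 0 → P (f z) = P' z.2) ∧ ∀ z ∈ X4, 0 ≤ z.1 → P (f z) = P' 1 := by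
  have : Nonempty ι := Fintype.card_pos_iff.1 (by omega)
  have hpf := h.or.pfield
  have hL0 := Lv.zero (ι := ι) (P := P) (W := W) hq
  obtain ⟨w, hwT, hw⟩ := exists_w h hL0.clo.sub hL0.sm (by omega)
  obtain ⟨g, h1, h2, h3⟩ := exists_g h hL0.clo hL0.sm hwT hw
  have hL := hL0.step hC h ⟨h, hL0.sm, hwT, hw, h1, h2, h3⟩
  have hw' : P q w ≠ w := hw q rfl
  obtain ⟨j, hj, hj'⟩ := exists_j (P0 := P q) (fun v => hpf.idem q hq v)
    (by rw [hpf.rank q hq, hc])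
  have hb : BijOn (Phi q j) X4 (SB {q} P) := bijOn_Phi hj hj'
  set o := fun z : (EuclideanSpace ℝ n × EuclideanSpace ℝ n) × ℝ =>
    oVf (fun x => W (id x)) z * F.pull pB (1 : EuclideanSpace ℝ n → Ext (EuclideanSpace ℝ n)) z with ho
  have e4 : 2 * Fintype.card ι * (0 + 1) = 4 := by omega
  have hclo : Clo 4 (SB {q} P) := by have := hL.clo; rwa [e4] at this
  have hori : Ori 4 (SB {q} P) o := by have := hL.ori; rwa [e4] at this
  have hval : |J 4 (SB {q} P) o (F.pull g (eR P W))| = |kGG ι| / 2 := by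
    have := hL.val
    rwa [e4, zero_add, pow_one, pow_one] at this
  have hconn : IsPreconnected (SB {q} P) := hL.conn
  have hdeg := deg_bijOn clo_X4 ori_X4 preconn_X4 hclo hori hL.ne
    (fun x _ => ((contDiff_Phi q j).contDiffAt.of_le (by simp))) hb
    (fun x _ v _ hv => fderiv_Phi_inj q j x v hv)
  obtain ⟨-, hsp⟩ := deg_spec clo_X4 ori_X4 hclo hori hconn
    (fun x _ => ((contDiff_Phi q j).contDiffAt (x := x)).of_le (WithTop.coe_le_coe.2 le_top))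
    hb.mapsTo
  have hes : Sm C (eR P W) := (eR_ec h.or).sm
  have hcont : ContinuousOn (F.pull g (eR P W)) (SB {q} P) := fun y hy =>
    (contDiffAt_pull (h1.contDiffAt) (by simp) (hes _ (hL.sm.maps hy))).continuousAt.continuousWithinAt
  have hJ : J 4 X4 o4 (F.pull (fun z => g (Phi q j z)) (eR P W))
      = deg 4 X4 o4 (SB {q} P) o (Phi q j) * J 4 (SB {q} P) o (F.pull g (eR P W)) := by
    rw [← hsp _ hcont]
    congr 1
    funext z
    exact (pull_comp ((contDiff_Phi q j).differentiable (by simp) z)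
      (h1.differentiable (by simp) _)).symm
  refine ⟨fun z => g (Phi q j z), j, fun v => P (rho (sj j w v)), sj j w,
    h1.comp (contDiff_Phi q j), ?_, ?_, ?_, contDiff_sj, ?_, ?_, ?_, ?_, ?_, ?_, ?_, ?_⟩
  · exact hL.sm.comp ⟨fun x _ => (contDiff_Phi q j).contDiffAt, hb.mapsTo⟩
  · rw [hJ, abs_mul, hval]
    rcases hdeg with hd | hd
    · rw [hd, abs_one, one_mul]
    · rw [hd, abs_neg, abs_one, one_mul]
  · rw [contDiff_iff_contDiffAt]
    intro v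
    have h4 := h.sm _ (sj_mem h hq hj hwT v) (sj_ne hj hw' v)
    exact ContDiffAt.comp (g := P) v
      (h.or.sP _ (h.mem _ (sj_mem h hq hj hwT v) (sj_ne hj hw' v)))
      (ContDiffAt.comp (g := rho) v h4 contDiff_sj.contDiffAt)
  · exact fun v x => hpf.idem _ (h.mem _ (sj_mem h hq hj hwT v) (sj_ne hj hw' v)) x
  · exact fun v x y => OR_sym h.or (h.mem _ (sj_mem h hq hj hwT v) (sj_ne hj hw' v)) x y
  · intro v
    rw [hpf.rank _ (h.mem _ (sj_mem h hq hj hwT v) (sj_ne hj hw' v)), hc]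
  · exact fun v => h.fix _ (sj_mem h hq hj hwT v) (sj_ne hj hw' v)
  · exact sj_ne hj hw'
  · intro v hv
    have hv0 : v ≠ 0 := by rintro rfl; rw [norm_zero] at hv; norm_num at hv
    refine ⟨sj_out hv, fun x => ?_⟩
    show P (rho (sj j w v)) (j x) = j x
    rw [sj_out hv, rho_j h hq hj hv0]
    exact hj x
  · intro z hz hz0
    have h4 : g (Phi q j z) = rho (sv w (Phi q j z)) := h3 _ (hb.mapsTo hz) (by
      show z.1 < 1; linarith)
    have h5 : sv w (Phi q j z) = sj j w z.2 := by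
      rw [sv, sj, ← bt_X4 hz hz0.le]; rfl
    show P (g (Phi q j z)) = P (rho (sj j w z.2))
    rw [h4, h5]
  · intro z hz hz0
    have h4 : g (Phi q j z) = q := h2 _ (hb.mapsTo hz) (by
      show -(1 / 2) ≤ z.1; linarith)
    show P (g (Phi q j z)) = P (rho (sj j w 1))
    rw [h4, sj_out (by rw [norm_one]; norm_num), rho_j h hq hj one_ne_zero]

end main

end Crest.Agent.R208.XM
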