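import Crest.Agent.R208.QC646
import Crest.Agent.R208.ZG4

/-!
R208, ZA1 (helper221): **the abstract endgame of `(k, n) = (8, 16)`** from forms on `B` (the
manifold of geodesics, dimension 30) and `B'` (the quotient of `US × S³¹`), all classes
unnormalised.
-/

set_option autoImplicit false
set_option linter.unusedSectionVars false

open MeasureTheory Set Filter Topology Module
open scoped ContDiff
open Crest.Agent.R208.F Crest.Agent.R208.FI Crest.Agent.R208.CW Crest.Agent.R208.T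
open Crest.Agent.R208.SO

noncomputable section

namespace Crest.Agent.R208.ZA

variable {EB EB' : Type} [NormedAddCommGroup EB] [NormedSpace ℝ EB] [FiniteDimensional ℝ EB]
  [NormedAddCommGroup EB'] [NormedSpace ℝ EB'] [FiniteDimensional ℝ EB']

/-- the first coefficient of `v` -/
def r1 (l t3 α β₁ : ℝ) : ℝ := 2 / 3 * l ^ 4 * t3 ^ 2 * α * β₁

/-- the second coefficient of `v` -/
def r2 (l t3 α β₁ : ℝ) : ℝ := 2 / 3 * l ^ 4 * t3 ^ 2 * β₁ ^ 2 - 2 * l ^ 2 * t3 * α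

/-- the fibre integral of `l' ξ Q - s e¹¹ ξ - t e⁷ a ξ` (812's `VE.main`), `n₁ = ∫ ξ`. -/
def ve (l n₁ l' s t : ℝ) (p3 x e : EB → Ext EB) : EB → Ext EB :=
  (-(l' * (2 * l ^ 2 * n₁))) • (p3 * x * e) - (s * n₁) • e ^ 11 - (t * n₁) • (x * e ^ 7)

theorem map_smul_real {X : Set EB} {Y : Set EB'} {f : EB' → EB} (hf : SMap Y X f) (r : ℝ)
    (c : CW.H X) : H.map hf (r • c) = r • H.map hf c := by
  have : r • c = (r : ℂ) • c := rfl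
  rw [this, map_smul]; rfl

/-- **(VE)** with `v` exact: `-2 l² p₃ x₀ e ~ r₁ e¹¹ + r₂ e⁷ x₀`. -/
theorem ve_one {B : Set EB} {e x p3 : EB → Ext EB} (he : CF2 B 2 e) (hx : CF2 B 8 x)
    (hp3 : CF2 B 12 p3) {α β₁ l t3 : ℝ}
    (h1 : Coh B ((3 : ℝ) • (x * x) + (l ^ 2) • (e * e * p3)) 0)
    (h3 : Coh B p3 (t3 • (α • e ^ 6 + β₁ • (e ^ 2 * x)))) (n₁ : ℝ) :
    Coh B (ve l n₁ 1 (r1 l t3 α β₁) (r2 l t3 α β₁) p3 x e) 0 := by
  have Ee : EC B e := ZG.CF2.ec he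
  have Ex : EC B x := ZG.CF2.ec hx
  have Ep : EC B p3 := ZG.CF2.ec hp3
  have k1 : EC B ((3 : ℝ) • (x * x) + (l ^ 2) • (e * e * p3)) :=
    ((Ex.mul Ex).smul 3).add (((Ee.mul Ee).mul Ep).smul _)
  have k2 : EC B (t3 • (α • e ^ 6 + β₁ • (e ^ 2 * x))) :=
    (((Ee.pow 6).smul α).add (((Ee.pow 2).mul Ex).smul β₁)).smul t3
  have q1 := (rcl_eq_zero_iff k1).2 h1
  have q2 := rcl_congr Ep k2 h3
  rw [rcl_add ((Ex.mul Ex).smul 3) (((Ee.mul Ee).mul Ep).smul _), ZG.rcl_smul' 3 (Ex.mul Ex),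
    ZG.rcl_smul' (l ^ 2) ((Ee.mul Ee).mul Ep), rcl_mul Ex Ex, rcl_mul (Ee.mul Ee) Ep,
    rcl_mul Ee Ee] at q1
  rw [ZG.rcl_smul' t3 (((Ee.pow 6).smul α).add (((Ee.pow 2).mul Ex).smul β₁)),
    rcl_add ((Ee.pow 6).smul α) (((Ee.pow 2).mul Ex).smul β₁), ZG.rcl_smul' α (Ee.pow 6),
    ZG.rcl_smul' β₁ ((Ee.pow 2).mul Ex), rcl_mul (Ee.pow 2) Ex, rcl_pow Ee, rcl_pow Ee] at q2
  have k3 : EC B ((-(1 * (2 * l ^ 2 * n₁))) • (p3 * x * e)) := ((Ep.mul Ex).mul Ee).smul _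
  have k4 : EC B ((r1 l t3 α β₁ * n₁) • e ^ 11) := (Ee.pow 11).smul _
  have k5 : EC B ((r2 l t3 α β₁ * n₁) • (x * e ^ 7)) := (Ex.mul (Ee.pow 7)).smul _
  have k6 : EC B ((-(1 * (2 * l ^ 2 * n₁))) • (p3 * x * e) - (r1 l t3 α β₁ * n₁) • e ^ 11) := by
    have := k3.add (k4.smul (-1))
    rwa [neg_one_smul, ← sub_eq_add_neg] at this
  have k7 : EC B (ve l n₁ 1 (r1 l t3 α β₁) (r2 l t3 α β₁) p3 x e) := by
    have := k6.add (k5.smul (-1))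
    rwa [neg_one_smul, ← sub_eq_add_neg] at this
  refine (rcl_eq_zero_iff k7).1 ?_
  have e1 : rcl k7 = (-(1 * (2 * l ^ 2 * n₁))) • (rcl Ep * rcl Ex * rcl Ee)
      - (r1 l t3 α β₁ * n₁) • rcl Ee ^ 11 - (r2 l t3 α β₁ * n₁) • (rcl Ex * rcl Ee ^ 7) := by
    rw [← rcl_pow Ee, ← rcl_pow Ee, ← rcl_mul Ep Ex, ← rcl_mul (Ep.mul Ex) Ee,
      ← rcl_mul Ex (Ee.pow 7), ← ZG.rcl_smul' _ ((Ep.mul Ex).mul Ee),
      ← ZG.rcl_smul' _ (Ee.pow 11), ← ZG.rcl_smul' _ (Ex.mul (Ee.pow 7)),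
      ← ZG.rcl_sub k3 k4 k6, ← ZG.rcl_sub k6 k5 k7]
    rfl
  rw [e1, q2]
  generalize rcl Ee = E at q1 q2 ⊢
  generalize rcl Ex = X at q1 q2 ⊢
  rw [q2] at q1
  unfold r1 r2
  have r0 : (3 : CW.H B) * algebraMap ℝ (CW.H B) (2 / 3) = 2 := by
    rw [← map_ofNat (algebraMap ℝ (CW.H B)) 3, ← map_mul]
    norm_num [map_ofNat]
  simp only [Algebra.smul_def, map_mul, map_pow, map_neg, map_sub, map_ofNat, map_one] at q1 ⊢
  generalize algebraMap ℝ (CW.H B) (2 / 3) = r at r0 ⊢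
  generalize algebraMap ℝ (CW.H B) n₁ = n
  generalize algebraMap ℝ (CW.H B) l = L at q1 ⊢
  generalize algebraMap ℝ (CW.H B) t3 = t at q1 ⊢
  generalize algebraMap ℝ (CW.H B) α = a at q1 ⊢
  generalize algebraMap ℝ (CW.H B) β₁ = b at q1 ⊢
  linear_combination (-(r * L ^ 2 * n * t * b * E ^ 3)) * q1 +
    (L ^ 2 * n * t * b * E ^ 3 * X ^ 2) * r0

section alg

variable {A : Type*} [CommRing A] [Algebra ℝ A]

theorem mon (a b : ℝ) (E X : A) (i j : ℕ) :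
    (a • E) ^ i * (b • X) ^ j = (a ^ i * b ^ j) • (E ^ i * X ^ j) := by
  rw [smul_pow, smul_pow, smul_mul_smul_comm]

/-- the relation `12 ê³ x̂² = -α ê¹¹ - β ê⁷ x̂` -/
theorem rel_norm {E X P3 : A} {l t3 α β₁ ν P : ℝ} (hP : P ≠ 0) (hν : ν ≠ 0)
    (h1 : (3 : ℝ) • (X * X) + (l ^ 2) • (E * E * P3) = 0)
    (h2 : P3 = t3 • (α • E ^ 6 + β₁ • (E ^ 2 * X))) (hnl : ν ^ 2 * l ^ 2 * t3 = 36) :
    (12 : ℝ) • ((P⁻¹ • E) ^ 3 * ((ν / (12 * P ^ 4)) • X) ^ 2) =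
      -(α • (P⁻¹ • E) ^ 11) - (12 * β₁ / ν) • ((P⁻¹ • E) ^ 7 * ((ν / (12 * P ^ 4)) • X)) := by
  have rel0 : E ^ 3 * X ^ 2 = ((-(1 / 3)) * (l ^ 2 * t3 * α)) • E ^ 11 +
      ((-(1 / 3)) * (l ^ 2 * t3 * β₁)) • (E ^ 7 * X) := by
    rw [h2] at h1
    have r0 : (3 : A) * algebraMap ℝ A (-(1 / 3)) = -1 := by
      rw [← map_ofNat (algebraMap ℝ A) 3, ← map_mul]
      norm_num
    simp only [Algebra.smul_def, map_mul, map_pow, map_ofNat] at h1 ⊢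
    generalize algebraMap ℝ A (-(1 / 3)) = r at r0 ⊢
    linear_combination (-(r * E ^ 3)) * h1 + (E ^ 3 * X ^ 2) * r0
  have m1 := mon P⁻¹ (ν / (12 * P ^ 4)) E X 3 2
  have m2 := mon P⁻¹ (ν / (12 * P ^ 4)) E X 7 1
  rw [pow_one, pow_one, pow_one] at m2
  rw [m1, m2, smul_pow, rel0, smul_add, smul_add, smul_smul, smul_smul, smul_smul, smul_smul,
    smul_smul, smul_smul, sub_eq_add_neg, ← neg_smul, ← neg_smul]
  have hl : l ^ 2 * t3 = 36 / ν ^ 2 := by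
    field_simp
    linarith
  congr 2
  · rw [show l ^ 2 * t3 * α = 36 / ν ^ 2 * α by rw [← hl]]
    field_simp
    norm_num
  · rw [show l ^ 2 * t3 * β₁ = 36 / ν ^ 2 * β₁ by rw [← hl]]
    field_simp
    norm_num

/-- `c₇(N_C ⊗ L^a)` in unnormalised classes -/
theorem tp_norm {E X : A} {q1 q2 α β₁ ν P : ℝ} (hP : P ≠ 0) (hν : ν ≠ 0) (a : ℝ) :
    (a ^ 7 - q1 * a ^ 5 + q2 * a ^ 3 - α * a) • E ^ 7 + (ν * a ^ 3 - β₁ * a) • (X * E ^ 3) =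
      P ^ 7 • QA.c7 (P⁻¹ • E) ((ν / (12 * P ^ 4)) • X) q1 q2 α (12 * β₁ / ν) a := by
  have m2 := mon P⁻¹ (ν / (12 * P ^ 4)) E X 3 1
  rw [pow_one, pow_one, pow_one] at m2
  rw [QA.c7, m2, smul_pow, smul_add, smul_smul, smul_smul, smul_smul, smul_smul, mul_comm X]
  have e1 : P ^ 7 * (a ^ 7 - q1 * a ^ 5 + q2 * a ^ 3 - α * a) * P⁻¹ ^ 7 =
      a ^ 7 - q1 * a ^ 5 + q2 * a ^ 3 - α * a := by
    field_simp
  have e2 : P ^ 7 * (12 * a ^ 3 - 12 * β₁ / ν * a) * (P⁻¹ ^ 3 * (ν / (12 * P ^ 4))) =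
      ν * a ^ 3 - β₁ * a := by
    field_simp
  rw [e1, e2]

/-- `v` is exact on the level of classes -/
theorem ve_alg {E X P3 : A} {l t3 α β₁ : ℝ} (n : ℝ)
    (h1 : (3 : ℝ) • (X * X) + (l ^ 2) • (E * E * P3) = 0)
    (h2 : P3 = t3 • (α • E ^ 6 + β₁ • (E ^ 2 * X))) :
    (2 * l ^ 2 * n) • (P3 * X * E) =
      -((r1 l t3 α β₁ * n) • E ^ 11) - (r2 l t3 α β₁ * n) • (X * E ^ 7) := by
  rw [h2] at h1 ⊢
  unfold r1 r2
  have r0 : (3 : A) * algebraMap ℝ A (2 / 3) = 2 := by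
    rw [← map_ofNat (algebraMap ℝ A) 3, ← map_mul]
    norm_num [map_ofNat]
  simp only [Algebra.smul_def, map_mul, map_pow, map_sub, map_ofNat] at h1 ⊢
  generalize algebraMap ℝ A (2 / 3) = r at r0 ⊢
  generalize algebraMap ℝ A n = n
  generalize algebraMap ℝ A l = L at h1 ⊢
  generalize algebraMap ℝ A t3 = t at h1 ⊢
  generalize algebraMap ℝ A α = a at h1 ⊢
  generalize algebraMap ℝ A β₁ = b at h1 ⊢
  linear_combination (r * L ^ 2 * n * t * b * E ^ 3) * h1 -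
    (L ^ 2 * n * t * b * E ^ 3 * X ^ 2) * r0

/-- the doubled `v` in normalised classes -/
theorem ve_norm {E X P3 : A} {l t3 α β₁ ν P : ℝ} (n : ℝ) (hP : P ≠ 0) (hν : ν ≠ 0)
    (h1 : (3 : ℝ) • (X * X) + (l ^ 2) • (E * E * P3) = 0)
    (h2 : P3 = t3 • (α • E ^ 6 + β₁ • (E ^ 2 * X))) (hnl : ν ^ 2 * l ^ 2 * t3 = 36) :
    (-(4 * (2 * l ^ 2 * n))) • (P3 * X * E) - (r1 l t3 α β₁ / 1024 * n) • E ^ 11
      - (r2 l t3 α β₁ / 64 * n) • (X * E ^ 7) =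
    (n * 1728 / ν ^ 3 * P ^ 11) •
      (((4 - 1 / 1024) * (α * (12 * β₁ / ν) / 24)) • (P⁻¹ • E) ^ 11
        + ((4 - 1 / 64) * (((12 * β₁ / ν) ^ 2 - 12 * α) / 24)) •
          ((P⁻¹ • E) ^ 7 * ((ν / (12 * P ^ 4)) • X))) := by
  have m2 := mon P⁻¹ (ν / (12 * P ^ 4)) E X 7 1
  rw [pow_one, pow_one, pow_one] at m2
  have e0 : (-(4 * (2 * l ^ 2 * n))) • (P3 * X * E) = (-4 : ℝ) • ((2 * l ^ 2 * n) • (P3 * X * E)) := by
    rw [smul_smul]; congr 1; ring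
  have hl : l ^ 2 * t3 = 36 / ν ^ 2 := by
    field_simp
    linarith
  have hr1 : r1 l t3 α β₁ = 864 * α * β₁ / ν ^ 4 := by
    have : r1 l t3 α β₁ = 2 / 3 * (l ^ 2 * t3) ^ 2 * α * β₁ := by unfold r1; ring
    rw [this, hl]; field_simp; ring
  have hr2 : r2 l t3 α β₁ = 864 * β₁ ^ 2 / ν ^ 4 - 72 * α / ν ^ 2 := by
    have : r2 l t3 α β₁ = 2 / 3 * (l ^ 2 * t3) ^ 2 * β₁ ^ 2 - 2 * (l ^ 2 * t3) * α := by
      unfold r2; ring
    rw [this, hl]; field_simp; ring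
  rw [e0, ve_alg n h1 h2, m2, smul_pow, hr1, hr2, mul_comm X (E ^ 7)]
  rw [smul_add, smul_smul, smul_smul, smul_smul, smul_smul]
  have c1 : n * 1728 / ν ^ 3 * P ^ 11 * ((4 - 1 / 1024) * (α * (12 * β₁ / ν) / 24)) * P⁻¹ ^ 11 =
      4 * (864 * α * β₁ / ν ^ 4 * n) - 864 * α * β₁ / ν ^ 4 / 1024 * n := by
    field_simp
    ring
  have c2 : n * 1728 / ν ^ 3 * P ^ 11 * ((4 - 1 / 64) * (((12 * β₁ / ν) ^ 2 - 12 * α) / 24)) *
      (P⁻¹ ^ 7 * (ν / (12 * P ^ 4))) =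
      4 * ((864 * β₁ ^ 2 / ν ^ 4 - 72 * α / ν ^ 2) * n) -
        (864 * β₁ ^ 2 / ν ^ 4 - 72 * α / ν ^ 2) / 64 * n := by
    field_simp
    ring
  rw [c1, c2]
  module

end alg

/-- **the endgame on the level of classes.** -/
theorem alg_bound {A A' : Type*} [CommRing A] [Algebra ℝ A] [CommRing A'] [Algebra ℝ A']
    (I : A →ₗ[ℝ] ℝ) {E X P3 T1 T2 : A} {E' X' P3' U E2 : A'}
    {q1 q2 α β₁ ν P l t3 n₀ a1 a2 ε7 c₀ n₁ : ℝ} (hP0 : 0 < P) (hν : ν ≠ 0)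
    (hnl : ν ^ 2 * l ^ 2 * t3 = 36)
    (h3 : P3 = t3 • (α • E ^ 6 + β₁ • (E ^ 2 * X)))
    (hrel : (3 : ℝ) • (X * X) + (l ^ 2) • (E * E * P3) = 0)
    (h3' : P3' = t3 • (α • E' ^ 6 + β₁ • (E' ^ 2 * X')))
    (hrel' : (3 : ℝ) • (X' * X') + (l ^ 2) • (E' * E' * P3') = 0)
    (hx3 : I (E ^ 3 * X ^ 3) = 0)
    (hS : |2 * α * ν ^ 2 * I (E ^ 7 * X ^ 2)| = 144 * P ^ 15)
    (hβ : ∃ n : ℤ, 12 * β₁ / ν = n) (hn : ∃ n : ℤ, 2 * n₀ = n)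
    (hα : ∃ n : ℤ, α + 12 * β₁ / ν * n₀ = n)
    (hr : ∃ n : ℤ, ν ^ 2 * I (E ^ 7 * X ^ 2) = 36 * P ^ 15 * n)
    (z0 : ∃ n : ℤ, I (E ^ 15) = P ^ 15 * n)
    (hT1 : T1 = ((1 : ℝ) ^ 7 - q1 * 1 ^ 5 + q2 * 1 ^ 3 - α * 1) • E ^ 7 +
      (ν * 1 ^ 3 - β₁ * 1) • (X * E ^ 3))
    (hT2 : T2 = ((2 : ℝ) ^ 7 - q1 * 2 ^ 5 + q2 * 2 ^ 3 - α * 2) • E ^ 7 +
      (ν * 2 ^ 3 - β₁ * 2) • (X * E ^ 3))
    (z1 : ∃ n : ℤ, I (E ^ 8 * T1) = P ^ 15 * n) (z2 : ∃ n : ℤ, I (E ^ 8 * T2) = P ^ 15 * n)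
    (hU : U = a1 • E' ^ 4 + a2 • X')
    (hE2 : E2 = ε7 • (((1 / 2 : ℝ) ^ 7 - q1 * (1 / 2) ^ 5 + q2 * (1 / 2) ^ 3 - α * (1 / 2)) • E' ^ 7 +
      (ν * (1 / 2) ^ 3 - β₁ * (1 / 2)) • (X' * E' ^ 3)))
    (hκ : |ε7 * a2 * ν ^ 2| = 432 * |c₀ * n₁|) (hc : c₀ * n₁ ≠ 0)
    (hlin : ∀ u v : ℝ, u • E' ^ 11 + v • (E' ^ 7 * X') = 0 → u = 0 ∧ v = 0)
    (hPr : c₀ • ((-(4 * (2 * l ^ 2 * n₁))) • (P3' * X' * E')
      - (r1 l t3 α β₁ / 1024 * n₁) • E' ^ 11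
      - (r2 l t3 α β₁ / 64 * n₁) • (X' * E' ^ 7)) = U * E2) :
    |I (E ^ 15)| ≤ 78 * P ^ 15 := by
  have hP : P ≠ 0 := hP0.ne'
  have hP15 : (P ^ 15 : ℝ) ≠ 0 := pow_ne_zero _ hP
  set x : A := (ν / (12 * P ^ 4)) • X with hx
  set e : A := P⁻¹ • E with he
  set x' : A' := (ν / (12 * P ^ 4)) • X' with hx'
  set e' : A' := P⁻¹ • E' with he'
  set β : ℝ := 12 * β₁ / ν with hβd
  have ha2 : a2 ≠ 0 := by
    rintro rfl
    rw [mul_zero, zero_mul, abs_zero] at hκ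
    exact hc (by simpa using hκ.symm)
  have k1 : ∀ i j : ℕ, e ^ i * x ^ j = (P⁻¹ ^ i * (ν / (12 * P ^ 4)) ^ j) • (E ^ i * X ^ j) :=
    fun i j => mon _ _ _ _ _ _
  have i15 : I (e ^ 15) = I (E ^ 15) / P ^ 15 := by
    have := k1 15 0
    rw [pow_zero, pow_zero, pow_zero, mul_one, mul_one, mul_one] at this
    rw [this, map_smul, smul_eq_mul]
    field_simp
  have i7 : I (e ^ 7 * x ^ 2) = ν ^ 2 * I (E ^ 7 * X ^ 2) / (144 * P ^ 15) := by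
    rw [k1 7 2, map_smul, smul_eq_mul]
    field_simp
    ring
  have i3 : I (e ^ 3 * x ^ 3) = 0 := by
    rw [k1 3 3, map_smul, hx3, smul_zero]
  have ic : ∀ a : ℝ, I (e ^ 8 * QA.c7 e x q1 q2 α β a) =
      I (E ^ 8 * ((a ^ 7 - q1 * a ^ 5 + q2 * a ^ 3 - α * a) • E ^ 7 +
        (ν * a ^ 3 - β₁ * a) • (X * E ^ 3))) / P ^ 15 := by
    intro a
    rw [tp_norm hP hν a, mul_smul_comm, map_smul, smul_eq_mul, ← he, ← hx, ← hβd]
    generalize QA.c7 e x q1 q2 α β a = W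
    rw [he, smul_pow, smul_mul_assoc, map_smul, smul_eq_mul]
    generalize I (E ^ 8 * W) = i
    field_simp
  have hmain := QA.class_main I (e := e) (x := x) (e' := e') (x' := x') (α := α) (β := β)
    (n₀ := n₀) (q1 := q1) (q2 := q2) (g := 1 / 64 - q1 / 16 + q2 / 4 - α)
    (η := a1 * ν / (4 * a2)) (κ := ε7 * a2 * ν ^ 2 / (432 * (c₀ * n₁)))
    (rel_norm hP hν hrel h3 hnl) i3 (by
      rw [i7]
      have : 2 * α * (ν ^ 2 * I (E ^ 7 * X ^ 2) / (144 * P ^ 15)) =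
        2 * α * ν ^ 2 * I (E ^ 7 * X ^ 2) / (144 * P ^ 15) := by ring
      rw [this, abs_div, hS, abs_of_pos (by positivity), div_self (by positivity)])
    hβ hn hα (by
      obtain ⟨n, hn⟩ := hr
      refine ⟨n, ?_⟩
      rw [i7, hn]
      field_simp
      ring) (by
      obtain ⟨n, hn⟩ := z0
      refine ⟨n, ?_⟩
      rw [i15, hn]
      field_simp) (by
      obtain ⟨n, hn⟩ := z1
      refine ⟨n, ?_⟩
      rw [ic, ← hT1, hn]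
      field_simp) (by
      obtain ⟨n, hn⟩ := z2
      refine ⟨n, ?_⟩
      rw [ic, ← hT2, hn]
      field_simp) rfl (by
      have h432 : (0 : ℝ) < 432 * |c₀ * n₁| := mul_pos (by norm_num) (abs_pos.2 hc)
      have : |ε7 * a2 * ν ^ 2 / (432 * (c₀ * n₁))| = 1 := by
        rw [abs_div, hκ, abs_mul 432, abs_of_pos (by norm_num : (0 : ℝ) < 432), div_self h432.ne']
      rcases eq_or_eq_neg_of_abs_eq this with h | h
      · exact Or.inl h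
      · exact Or.inr h) (by
      intro u v huv
      have := hlin (u * P⁻¹ ^ 11) (v * (P⁻¹ ^ 7 * (ν / (12 * P ^ 4)))) (by
        rw [← huv, he', hx', smul_pow, smul_smul]
        have m2 := mon P⁻¹ (ν / (12 * P ^ 4)) E' X' 7 1
        rw [pow_one, pow_one, pow_one] at m2
        rw [m2, smul_smul])
      obtain ⟨hu, hv⟩ := this
      constructor
      · rcases mul_eq_zero.1 hu with h | h
        · exact h
        · exact absurd h (by positivity)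
      · rcases mul_eq_zero.1 hv with h | h
        · exact h
        · exfalso
          revert h
          have : P⁻¹ ^ 7 * (ν / (12 * P ^ 4)) ≠ 0 := by
            refine mul_ne_zero (by positivity) (div_ne_zero hν (by positivity))
          exact this) (rel_norm hP hν hrel' h3' hnl) (by
      rw [ve_norm n₁ hP hν hrel' h3' hnl] at hPr
      rw [tp_norm hP hν (1 / 2), QA.c7_half] at hE2
      have hU' : U = (4 * P ^ 4 * a2 / ν) • ((a1 * ν / (4 * a2)) • e' ^ 4 + (3 : ℝ) • x') := by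
        have g1 : 4 * P ^ 4 * a2 / ν * (a1 * ν / (4 * a2) * P⁻¹ ^ 4) = a1 := by
          field_simp
        have g2 : 4 * P ^ 4 * a2 / ν * (3 * (ν / (12 * P ^ 4))) = a2 := by
          field_simp
          ring
        rw [hU, he', hx', smul_pow, smul_add, smul_smul 3,
          smul_smul (a1 * ν / (4 * a2)), smul_smul, smul_smul, g1, g2]
      rw [← he', ← hx', ← hβd] at hPr hE2
      rw [hE2, hU'] at hPr
      generalize hQ : ((4 - 1 / 1024) * (α * β / 24)) • e' ^ 11 +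
        ((4 - 1 / 64) * ((β ^ 2 - 12 * α) / 24)) • (e' ^ 7 * x') = Q at hPr ⊢
      generalize hV : (a1 * ν / (4 * a2)) • e' ^ 4 + (3 : ℝ) • x' = V at hPr ⊢
      generalize hW : (1 / 2 : ℝ) • ((1 / 64 - q1 / 16 + q2 / 4 - α) • e' ^ 7 +
        (3 - β) • (e' ^ 3 * x')) = W at hPr ⊢
      rw [smul_smul, smul_smul, smul_mul_smul_comm, mul_comm V W] at hPr
      have hK : c₀ * (n₁ * 1728 / ν ^ 3 * P ^ 11) ≠ 0 := by
        have h1 : c₀ ≠ 0 := left_ne_zero_of_mul hc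
        have h2 : n₁ ≠ 0 := right_ne_zero_of_mul hc
        positivity
      have hq : Q = (c₀ * (n₁ * 1728 / ν ^ 3 * P ^ 11))⁻¹ •
          ((4 * P ^ 4 * a2 / ν * (ε7 * P ^ 7)) • (W * V)) := by
        rw [← hPr, smul_smul, inv_mul_cancel₀ hK, one_smul]
      rw [hq, smul_smul]
      congr 1
      have h1 : c₀ ≠ 0 := left_ne_zero_of_mul hc
      have h2 : n₁ ≠ 0 := right_ne_zero_of_mul hc
      field_simp
      ring)
  rw [i15, abs_div, abs_of_pos (by positivity : (0 : ℝ) < P ^ 15), div_le_iff₀ (by positivity)]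
    at hmain
  exact hmain

end Crest.Agent.R208.ZA
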