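import Crest.Agent.R208.ZA3
import Crest.Agent.R208.EX13
import Crest.Agent.R208.EA7
import Crest.Agent.R208.SB5
import Crest.Agent.R208.LC6

/-!
R208, ZA5 (helper221): exactness of `v` from the half on `B` (`ve_one'`), and **the interface of
the class side** (`Cls82`) of the final composition of `(k, n) = (8, 16)`.
-/

set_option autoImplicit false
set_option linter.unusedSectionVars false
set_option linter.unusedVariables false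

open MeasureTheory Set Filter Topology Module
open scoped ContDiff RealInnerProductSpace Real
open Crest.GeometryTopology.Submanifold
open Crest.Agent.R241.DDefs Crest.Agent.R241.D Crest.Agent.R241.D2
open Crest.Agent.R208.F Crest.Agent.R208.FI Crest.Agent.R208.CW Crest.Agent.R208.T
open Crest.Agent.R208.CM (Cir gen Rep Triv Qd phR Th gf Emb Quo MM jj Curv)
open Crest.Agent.R208.LB (al)
open Crest.Agent.R208.VC hiding Wt
open Crest.Agent.R208.EX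
open Crest.Agent.R208.FT (D2 XI RN xiN gp lev)
open Crest.Agent.R208.FL (D0 D1 Ph)
open Crest.Agent.R208.NN (Wt Rt nuP)
open Crest.Agent.R208.TP (QM TT CV pu₁ pu₂ push up)
open Crest.Agent.R208.MS (Fam oc En)
open Crest.Agent.R208.EW (cR)
open Crest.Agent.R208.EP (topr)
open Crest.Agent.R208.SN (kGG)

noncomputable section

namespace Crest.Agent.R208.ZA

/-! ### `v` is exact, from the half on `B` -/
section ve
variable {EB : Type} [NormedAddCommGroup EB] [NormedSpace ℝ EB] [FiniteDimensional ℝ EB]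
  {B : Set EB} {e x p3 : EB → Ext EB}

theorem ve_one' (Ee : EC B e) (Ex : EC B x) (Ep : EC B p3) {α β₁ l t3 : ℝ}
    (h1 : Coh B ((3 : ℝ) • (x * x) + (l ^ 2) • (p3 * (e * e))) 0)
    (h3 : Coh B p3 (t3 • (α • e ^ 6 + β₁ • (x * e ^ 2)))) (n₁ : ℝ) :
    Coh B (ve l n₁ 1 (r1 l t3 α β₁) (r2 l t3 α β₁) p3 x e) 0 := by
  have q1 := rcl_rel Ee Ex Ep h1
  have q2 := rcl_p3 Ee Ex Ep h3
  have k3 : EC B ((-(1 * (2 * l ^ 2 * n₁))) • (p3 * x * e)) := ((Ep.mul Ex).mul Ee).smul _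
  have k4 : EC B ((r1 l t3 α β₁ * n₁) • e ^ 11) := (Ee.pow 11).smul _
  have k5 : EC B ((r2 l t3 α β₁ * n₁) • (x * e ^ 7)) := (Ex.mul (Ee.pow 7)).smul _
  have k6 : EC B ((-(1 * (2 * l ^ 2 * n₁))) • (p3 * x * e) - (r1 l t3 α β₁ * n₁) • e ^ 11) := by
    have := k3.add (k4.smul (-1))
    rwa [neg_one_smul, ← sub_eq_add_neg] at this
  have k7 : EC B (ve l n₁ 1 (r1 l t3 α β₁) (r2 l t3 α β₁) p3 x e) := by
    have := k6.add (k5.smul (-1))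
    rwa [neg_one_smul, ← sub_eq_add_neg] at this
  refine (rcl_eq_zero_iff k7).1 ?_
  have e1 : rcl k7 = (-(1 * (2 * l ^ 2 * n₁))) • (rcl Ep * rcl Ex * rcl Ee)
      - (r1 l t3 α β₁ * n₁) • rcl Ee ^ 11 - (r2 l t3 α β₁ * n₁) • (rcl Ex * rcl Ee ^ 7) := by
    rw [← rcl_pow Ee, ← rcl_pow Ee, ← rcl_mul Ep Ex, ← rcl_mul (Ep.mul Ex) Ee,
      ← rcl_mul Ex (Ee.pow 7), ← ZG.rcl_smul' _ ((Ep.mul Ex).mul Ee),
      ← ZG.rcl_smul' _ (Ee.pow 11), ← ZG.rcl_smul' _ (Ex.mul (Ee.pow 7)),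
      ← ZG.rcl_sub k3 k4 k6, ← ZG.rcl_sub k6 k5 k7]
    rfl
  rw [e1, q2]
  generalize rcl Ee = E at q1 q2 ⊢
  generalize rcl Ex = X at q1 q2 ⊢
  rw [q2] at q1
  unfold r1 r2
  have r0 : (3 : CW.H B) * algebraMap ℝ (CW.H B) (2 / 3) = 2 := by
    rw [← map_ofNat (algebraMap ℝ (CW.H B)) 3, ← map_mul]
    norm_num [map_ofNat]
  simp only [Algebra.smul_def, map_mul, map_pow, map_neg, map_sub, map_ofNat, map_one] at q1 ⊢
  generalize algebraMap ℝ (CW.H B) (2 / 3) = r at r0 ⊢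
  generalize algebraMap ℝ (CW.H B) n₁ = n
  generalize algebraMap ℝ (CW.H B) l = L at q1 ⊢
  generalize algebraMap ℝ (CW.H B) t3 = t at q1 ⊢
  generalize algebraMap ℝ (CW.H B) α = a at q1 ⊢
  generalize algebraMap ℝ (CW.H B) β₁ = b at q1 ⊢
  linear_combination (-(r * L ^ 2 * n * t * b * E ^ 3)) * q1 +
    (L ^ 2 * n * t * b * E ^ 3 * X ^ 2) * r0

end ve

/-! ### the class side -/
section cls
variable {N K m m' c s' c₂ : ℕ} {κ : ℝ} {S : Set (Euc N)} {G : Geo 16 N κ S}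
  {lg : Euc N → Euc N → Euc N} {ρ : Euc N → Euc N} {r C r' Kr B w δ δ₂ : ℝ}
  {PN : Euc N × Euc N → Wt N K →L[ℝ] Wt N K}
  {h : GT.Bla G (2 * 3 + 2)} {g : Euc N × Euc N → Fin m → ℂ} {Fc : MM m → Ext (MM m)}
  {g' : (Euc N × Euc N) × HW.U 15 → Fin m' → ℂ} {p : MM m' → MM m}
  {T : Euc N × Euc N → Wt N K →L[ℝ] EuclideanSpace ℝ (Fin (2 * c + 1))}
  {P' : MM m → EuclideanSpace ℝ (Fin (2 * c + 1)) →L[ℝ] EuclideanSpace ℝ (Fin (2 * c + 1))}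
  {o' : MM m → Ext (EuclideanSpace ℝ (Fin (2 * c + 1)))}
  {W' : MM m → (Fin (s' + 1) × Fin 2 → Fin (2 * c + 1)) → ℝ}
  {oN : Euc N × Euc N → Ext (Wt N K)}
  {T₂ : (Euc N × Euc N) × HW.U 15 →
    EuclideanSpace ℝ (((Fin K × Fin 2) × Fin N) ⊕ ((Fin K × Fin 2) × Fin N)) →L[ℝ]
      EuclideanSpace ℝ (Fin (2 * c₂))}
  {P₂' : MM m' → EuclideanSpace ℝ (Fin (2 * c₂)) →L[ℝ] EuclideanSpace ℝ (Fin (2 * c₂))}
  {W₂' : MM m' → (Fin (2 * 3 + 1) × Fin 2 → Fin (2 * c₂)) → ℝ}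
  {ι : Type} [Fintype ι] [DecidableEq ι] {W₀ : Euc N × Euc N → (ι × Fin 2 → Fin N) → ℝ}
  {p₀ : Euc N} {x : Euc N → Ext (Euc N)} {x0 : MM m → Ext (MM m)} {l n₁ : ℝ}
  {ε ε₂ : ℝ}

/-- **the class side** (helper812's VE8-VE12, helper378's UN*) over the package for
`(k, n) = (8, 16)`; `p₃ = 48² cR 6 P'` -/
structure Cls82 (G : Geo 16 N κ S) (K : ℕ) (lg : Euc N → Euc N → Euc N) (ρ : Euc N → Euc N) (w : ℝ)
    (J : ℕ) (ε : ℝ) (PN : Euc N × Euc N → Wt N K →L[ℝ] Wt N K) (g : Euc N × Euc N → Fin m → ℂ)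
    (Fc : MM m → Ext (MM m))
    (T : Euc N × Euc N → Wt N K →L[ℝ] EuclideanSpace ℝ (Fin (2 * c + 1)))
    (P' : MM m → EuclideanSpace ℝ (Fin (2 * c + 1)) →L[ℝ] EuclideanSpace ℝ (Fin (2 * c + 1)))
    (o' : MM m → Ext (EuclideanSpace ℝ (Fin (2 * c + 1))))
    (W' : MM m → (Fin (s' + 1) × Fin 2 → Fin (2 * c + 1)) → ℝ) (x : Euc N → Ext (Euc N)) (τ : ℝ)
    (x0 : MM m → Ext (MM m)) (fY : MM m × EuclideanSpace ℝ (Fin (2 * c + 1)) → Euc N)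
    (l n₁ : ℝ) : Prop where
  sx : Sm (Quo (L.US G) g) x0
  cx : Cl (Quo (L.US G) g) x0
  dx : Hom 8 x0
  hx : Coh (L.US G) (F.pull Prod.fst x) (F.pull (jj g) x0)
  hl : l ^ 2 = 16
  hrel : Coh (Quo (L.US G) g)
    ((3 : ℝ) • (x0 * x0) + (l ^ 2) • (((2304 : ℝ) • cR 6 P') * (Fc * Fc))) 0
  sfY : SMap (Sph (Quo (L.US G) g) P') S fY
  efY : ∀ z ∈ Sph (L.US G) PN, fY (Th (jj g) T z) = FL.f1 G lg ρ w J ε (z.1, (2 : ℝ) • z.2)
  hfY : Coh (Sph (Quo (L.US G) g) P') (F.pull fY x) (F.pull Prod.fst x0 +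
      l • (F.pull Prod.fst Fc * SB.OddB.eV (Fin 3) (r := 6) rfl P' o'))
  hn : 2 * Real.pi * |n₁| = LC.del (EuclideanSpace ℝ (Fin (2 * c + 1))) * kGG (Fin (s' + 1)) * τ
  v1 : ∀ (rr ss : ℝ) (V' : MM m × EuclideanSpace ℝ (Fin (2 * c + 1)) →
      Ext (MM m × EuclideanSpace ℝ (Fin (2 * c + 1)))),
    ContDiff ℝ ∞ V' → Cl (Tot (Quo (L.US G) g) P') V' → VE.Cs (Quo (L.US G) g) P' (3 / 2) V' →
    Eqv (Tot (L.US G) PN) (F.pull (Th (jj g) T) V') (vf1 G K lg ρ w J ε x (al (N := N)) 11 7 rr ss) →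
    Coh (Quo (L.US G) g)
      (VE.pu (volume : Measure (EuclideanSpace ℝ (Fin (2 * c + 1)))) P'
        (thomF (fun y => 1 - P' y) W') (3 / 2) V')
      (ve l n₁ 1 rr ss ((2304 : ℝ) • cR 6 P') x0 Fc)
  v2 : ∀ D : ED N, D.om = x → D.p = 11 → D.q = 7 → EA.Cls2 G K lg ρ w J ε PN g T P' W' D
    (rhsE l n₁ D.r D.s ((2304 : ℝ) • cR 6 P') x0 Fc)

end cls

end Crest.Agent.R208.ZA
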