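import Crest.Agent.R208.ZA3
import Crest.Agent.R208.TP8
import Crest.Agent.R208.HY6
import Crest.Agent.R208.HG1
import Crest.Agent.R208.EW9
import Crest.Agent.R208.EZ3
import Crest.Agent.R208.GQ7b
import Crest.Agent.R208.PV2

/-! Row 208, (8,2), block ZB (helper607): the half of the hypotheses of `ZA.bound` which lives on
`B = US / S¹`.  ZB1: the coefficients `q1 q2 α β ν`. -/

set_option autoImplicit false
set_option linter.unusedSectionVars false
set_option linter.unusedVariables false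

open MeasureTheory Set Filter Topology Module
open scoped ContDiff RealInnerProductSpace
open Crest.GeometryTopology.Submanifold
open Crest.Agent.R241.DDefs
open Crest.Agent.R241.D2
open Crest.Agent.R208.F Crest.Agent.R208.FI Crest.Agent.R208.CW Crest.Agent.R208.T
open Crest.Agent.R208.CM
open Crest.Agent.R208.L (US)
open Crest.Agent.R208.LB (al)
open Crest.Agent.R208.NN (Wt Rt nuP)
open Crest.Agent.R208.EW (cR)
open Crest.Agent.R208.EP (topr)

noncomputable section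

namespace Crest.Agent.R208.ZB

section xne
variable {n N k m : ℕ} {κ : ℝ} {S : Set (Euc N)} {G : Geo n N κ S} {p : Euc N}
  {ι : Type} [Fintype ι] [DecidableEq ι] {W : Euc N × Euc N → (ι × Fin 2 → Fin N) → ℝ}
  {x : Euc N → Ext (Euc N)}

/-- `x` is not exact on the unit tangent bundle -/
theorem x_ne_US {h : GT.Bla G k} (D : T.XM h m W p x) : ¬ Coh (US G) (F.pull Prod.fst x) 0 := by
  intro h0
  rw [← FV.Sph_S] at h0
  exact D.x_ne (T.low_S h D.hk D.hne D.sx D.cx D.dx D.hkn h0)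

end xne

variable {N K m c s' : ℕ} {κ δ : ℝ} {S : Set (Euc N)} {G : Geo 16 N κ S} {p : Euc N}
  {ι : Type} [Fintype ι] [DecidableEq ι] {W : Euc N × Euc N → (ι × Fin 2 → Fin N) → ℝ}
  {x : Euc N → Ext (Euc N)} {h : GT.Bla G 8} {PN : Euc N × Euc N → Wt N K →L[ℝ] Wt N K}
  {g : Euc N × Euc N → Fin m → ℂ} {Fc x0 : MM m → Ext (MM m)}
  {Tr : Euc N × Euc N → Wt N K →L[ℝ] EuclideanSpace ℝ (Fin (2 * c + 1))}
  {P' : MM m → EuclideanSpace ℝ (Fin (2 * c + 1)) →L[ℝ] EuclideanSpace ℝ (Fin (2 * c + 1))}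
  {o' : MM m → Ext (EuclideanSpace ℝ (Fin (2 * c + 1)))}
  {W' : MM m → (Fin (s' + 1) × Fin 2 → Fin (2 * c + 1)) → ℝ}

/-- **the coefficients**: `ν² = 1 / 1024` (`μ² = 36`). -/
theorem coeffs (D : T.XM h 2 W p x) (H : NB.NegB G 7 (nuP K) δ PN)
    (hg : Emb (US G) (gf G) g) (hc : Curv (US G) g (al (N := N)) Fc)
    (hO : TP.DscO (US G) (gf G) g (fun t => Rt (nuP K) t) 3 PN c s' Tr P' o' W')
    (s0 : Sm (Quo (US G) g) x0) (c0 : Cl (Quo (US G) g) x0) (d0 : Hom 8 x0)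
    (h0 : Coh (US G) (F.pull Prod.fst x) (F.pull (jj g) x0)) :
    ∃ ν q1 q2 α β : ℝ, ν ^ 2 = 1 / 1024 ∧ Coh (Quo (US G) g) (cR 2 P') (q1 • Fc ^ 2) ∧
      Coh (Quo (US G) g) (cR 4 P') (q2 • Fc ^ 4 + ν • x0) ∧
      Coh (Quo (US G) g) (cR 6 P') (α • Fc ^ 6 + β • (x0 * Fc ^ 2)) := by
  have hX : Clo (30 + 1) (US G) := clo_US' h.bl
  have hC := cir_US h.bl h.ty.per
  have hB := (hg.clo_Quo hC hX).sub
  have hXc : IsPreconnected (US G) := FV.preconn_US h.bl (by norm_num)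
  have hBc : IsPreconnected (Quo (US G) g) := GQ.preconn_Quo hg hXc
  have hF : Sub (2 * 16 - 8) (GT.FF S) := FV.sub_FF' h (by norm_num)
  have hxe : EC S x := D.ec
  obtain ⟨μ, -, h2, h3⟩ := FG.cs_V D hF hxe
  have hμ := GQ.mu_sq D hF hxe μ h3
  have hN : Coh (US G) (cR 4 PN) ((2 * μ / VX.nE ι) • F.pull Prod.fst x) :=
    PV.coh_cR h D.hkn H hX.sub hF hxe h2
  have hpf := UP.pfield_N H
  have hp : Coh (US G) (F.pull (jj g) (cR 4 P')) ((2 * μ / VX.nE ι) • F.pull Prod.fst x) :=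
    (EW.pull_cR hg hC hX (NB.rep_per N K) hO.triv hpf hO.pf hO.eqP 4).trans hN
  have hG := HG.gys hg hC hX (conn_al (FV.sub_S h.bl)) hc
  obtain ⟨q1, q2, α, β, a1, a2, a3⟩ := EW.exists_coeffs hG hB hBc hO.pf (HY.low_US D)
    (by norm_num) (D.sx.pull HY.smap_fst_US) (D.cx.pull HY.smap_fst_US D.sx) s0 c0 d0 h0
    (x_ne_US D) hp
  refine ⟨2 * μ / VX.nE ι, q1, q2, α, β, ?_, a1, a2, a3⟩
  have hι : Fintype.card ι = 4 := by have := D.hι; omega
  have h4 : VX.nE ι = 384 := by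
    rw [VX.nE, hι, show Nat.factorial 4 = 24 from rfl]; norm_num
  rw [h4, div_pow, mul_pow, hμ]
  norm_num

end Crest.Agent.R208.ZB
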