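import Crest.Agent.R208.ZB1
import Crest.Agent.R208.CQ2

/-! Row 208, (8,2), block ZB (helper607).  ZB2: **the half of the hypotheses of `ZA.bound` which
lives on `B = US / S¹`**, from the relation, the fundamental relation of the periods and the
integrality inputs. -/

set_option autoImplicit false
set_option linter.unusedSectionVars false
set_option linter.unusedVariables false

open MeasureTheory Set Filter Topology Module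
open scoped ContDiff RealInnerProductSpace
open Crest.GeometryTopology.Submanifold
open Crest.Agent.R241.DDefs
open Crest.Agent.R241.D2
open Crest.Agent.R208.F Crest.Agent.R208.FI Crest.Agent.R208.CW Crest.Agent.R208.T
open Crest.Agent.R208.CM
open Crest.Agent.R208.L (US)
open Crest.Agent.R208.LB (al)
open Crest.Agent.R208.NN (Wt Rt nuP)
open Crest.Agent.R208.EW (cR)
open Crest.Agent.R208.EP (topr NLp WNp CPk)

noncomputable section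

namespace Crest.Agent.R208.ZB

/-! ### the literal list of hypotheses -/
section lst
variable {EB EB' : Type*} [NormedAddCommGroup EB] [NormedSpace ℝ EB] [FiniteDimensional ℝ EB]
  [NormedAddCommGroup EB'] [NormedSpace ℝ EB'] [FiniteDimensional ℝ EB']

/-- the hypotheses of `ZA.bound` on `B` -/
structure BHalf (B : Set EB) (oB e x p3 T1 T2 Th : EB → Ext EB)
    (q1 q2 α β₁ ν l t3 n₀ : ℝ) : Prop where
  hB : Clo 30 B
  ho : Ori 30 B oB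
  he : EC B e
  hx : EC B x
  hp3 : EC B p3
  hT1 : EC B T1
  hT2 : EC B T2
  hTh : EC B Th
  hν : ν ≠ 0
  hν2 : ν ^ 2 = 1 / 1024
  hnl : ν ^ 2 * l ^ 2 * t3 = 36
  h3 : Coh B p3 (t3 • (α • e ^ 6 + β₁ • (x * e ^ 2)))
  h1 : Coh B T1 (((1 : ℝ) ^ 7 - q1 * 1 ^ 5 + q2 * 1 ^ 3 - α * 1) • e ^ 7 +
      (ν * 1 ^ 3 - β₁ * 1) • (x * e ^ 3))
  h2 : Coh B T2 (((2 : ℝ) ^ 7 - q1 * 2 ^ 5 + q2 * 2 ^ 3 - α * 2) • e ^ 7 +
      (ν * 2 ^ 3 - β₁ * 2) • (x * e ^ 3))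
  hh : Coh B Th (((1 / 2 : ℝ) ^ 7 - q1 * (1 / 2) ^ 5 + q2 * (1 / 2) ^ 3 - α * (1 / 2)) • e ^ 7 +
      (ν * (1 / 2) ^ 3 - β₁ * (1 / 2)) • (x * e ^ 3))
  hrel : Coh B ((3 : ℝ) • (x * x) + (l ^ 2) • (p3 * (e * e))) 0
  hx3 : J 30 B oB (e ^ 3 * x ^ 3) = 0
  hS : |2 * α * ν ^ 2 * J 30 B oB (e ^ 7 * x ^ 2)| = 144 * (2 * Real.pi) ^ 15
  hβ : ∃ n : ℤ, 12 * β₁ / ν = n
  hn : ∃ n : ℤ, 2 * n₀ = n
  hα : ∃ n : ℤ, α + 12 * β₁ / ν * n₀ = n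
  hr : ∃ n : ℤ, ν ^ 2 * J 30 B oB (e ^ 7 * x ^ 2) = 36 * (2 * Real.pi) ^ 15 * n
  z0 : ∃ n : ℤ, J 30 B oB (e ^ 15) = (2 * Real.pi) ^ 15 * n
  z1 : ∃ n : ℤ, J 30 B oB (e ^ 8 * T1) = (2 * Real.pi) ^ 15 * n
  z2 : ∃ n : ℤ, J 30 B oB (e ^ 8 * T2) = (2 * Real.pi) ^ 15 * n

/-- `ZA.bound` from the half on `B` -/
theorem BHalf.bound {B : Set EB} {B' : Set EB'} {oB e x p3 T1 T2 Th : EB → Ext EB} {p : EB' → EB}
    {q1 q2 α β₁ ν l t3 n₀ : ℝ} (H : BHalf B oB e x p3 T1 T2 Th q1 q2 α β₁ ν l t3 n₀)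
    (sp : SMap B' B p)
    (hinj : ∀ om η : EB → Ext EB, Sm B om → Sm B η → Cl B η → Coh B' (F.pull p om) 0 →
      J 30 B oB (om * η) = 0)
    {a1 a2 ε7 c₀ n₁ : ℝ} {u e2 : EB' → Ext EB'} (hu : EC B' u) (he2 : EC B' e2)
    (hua : Coh B' u (F.pull p (a1 • e ^ 4 + a2 • x)))
    (he2T : Coh B' e2 (ε7 • F.pull p Th))
    (hκ : |ε7 * a2 * ν ^ 2| = 432 * |c₀ * n₁|) (hc : c₀ * n₁ ≠ 0)
    (hE : Coh B' (c₀ • F.pull p (ZA.rhsE l n₁ (ZA.r1 l t3 α β₁) (ZA.r2 l t3 α β₁) p3 x e))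
      (u * e2)) :
    |J 30 B oB (e ^ 15)| ≤ 78 * (2 * Real.pi) ^ 15 :=
  ZA.bound H.hB H.ho sp hinj H.he H.hx H.hp3 H.hT1 H.hT2 H.hTh H.hν H.hnl H.h3 H.h1 H.h2 H.hh
    H.hrel H.hx3 H.hS H.hβ H.hn H.hα H.hr H.z0 H.z1 H.z2 hu he2 hua he2T hκ hc hE

end lst

variable {N K m c s' : ℕ} {κ δ : ℝ} {S : Set (Euc N)} {G : Geo 16 N κ S} {p : Euc N}
  {ι : Type} [Fintype ι] [DecidableEq ι] {W : Euc N × Euc N → (ι × Fin 2 → Fin N) → ℝ}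
  {x : Euc N → Ext (Euc N)} {h : GT.Bla G 8} {PN : Euc N × Euc N → Wt N K →L[ℝ] Wt N K}
  {g : Euc N × Euc N → Fin m → ℂ} {Fc x0 : MM m → Ext (MM m)}
  {Tr : Euc N × Euc N → Wt N K →L[ℝ] EuclideanSpace ℝ (Fin (2 * c + 1))}
  {P' : MM m → EuclideanSpace ℝ (Fin (2 * c + 1)) →L[ℝ] EuclideanSpace ℝ (Fin (2 * c + 1))}
  {o' : MM m → Ext (EuclideanSpace ℝ (Fin (2 * c + 1)))}
  {W' : MM m → (Fin (s' + 1) × Fin 2 → Fin (2 * c + 1)) → ℝ}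
  {κ₇ : Type} [Fintype κ₇] [DecidableEq κ₇] {l t3 : ℝ}

/-- the value of `τ` -/
theorem tau_eight (hι : 2 * Fintype.card ι = 8) : XF.tau ι = 384 * (2 * Real.pi) ^ 4 := by
  have h4 : Fintype.card ι = 4 := by omega
  rw [XF.tau, h4, show Nat.factorial 4 = 24 from rfl]
  push_cast
  ring

theorem abs_nu {ν : ℝ} (h : ν ^ 2 = 1 / 1024) : |ν| = 1 / 32 := by
  have h1 : |ν| ^ 2 = (1 / 32) ^ 2 := by rw [sq_abs, h]; norm_num
  exact (pow_left_inj₀ (abs_nonneg _) (by norm_num) (by norm_num)).1 h1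

/-- **the `B`-half of the endgame.**  `p3 = t3 • cR 6 P'`, `t3 = 48²`. -/
theorem exists_BHalf (D : T.XM h 2 W p x) (H : NB.NegB G 7 (nuP K) δ PN)
    (hg : Emb (US G) (gf G) g) (hc : Curv (US G) g (al (N := N)) Fc)
    (hO : TP.DscO (US G) (gf G) g (fun t => Rt (nuP K) t) 3 PN c s' Tr P' o' W')
    (s0 : Sm (Quo (US G) g) x0) (c0 : Cl (Quo (US G) g) x0) (d0 : Hom 8 x0)
    (h0 : Coh (US G) (F.pull Prod.fst x) (F.pull (jj g) x0))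
    (ht3 : t3 = 2304) (hl : l ^ 2 = 16)
    (hrel : Coh (Quo (US G) g) ((3 : ℝ) • (x0 * x0) + (l ^ 2) • ((t3 • cR 6 P') * (Fc * Fc))) 0)
    (hx3 : J 30 (Quo (US G) g) (Fc ^ 15) (Fc ^ 3 * x0 ^ 3) = 0)
    (hR : |8 * l ^ 2 * (2 * Real.pi * J 30 (Quo (US G) g) (Fc ^ 15)
      (Fc * x0 * x0 * (t3 • cR 6 P')))| = XF.tau ι ^ 4)
    (h7 : Fintype.card κ₇ = 7)
    (IT : ∀ c : CH.Chn (Quo (US G) g) 12, ∃ z : ℤ, J 14 (c.Z ×ˢ CPk 1) (QS.oP c)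
      (fun z => QS.cP c z • F.pull (QS.fP c) (eR (NLp P') (WNp κ₇ P')) z) = XF.tau κ₇ * z)
    (hn0 : ∀ c : CH.Chn (Quo (US G) g) 8, ∃ z : ℤ, 2 * c.I x0 = XF.tau ι * z)
    (hr : ∃ n : ℤ, 4 * J 30 (Quo (US G) g) (Fc ^ 15) (Fc ^ 7 * x0 ^ 2) =
      (2 * Real.pi) ^ 7 * XF.tau ι ^ 2 * n) :
    ∃ q1 q2 α β₁ ν n₀ : ℝ, BHalf (Quo (US G) g) (Fc ^ 15) Fc x0 (t3 • cR 6 P') (topr 7 1 P' Fc)
      (topr 7 2 P' Fc) (topr 7 (1 / 2) P' Fc) q1 q2 α β₁ ν l t3 n₀ := by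
  have hX : Clo (30 + 1) (US G) := clo_US' h.bl
  have hC := cir_US h.bl h.ty.per
  have hcB : Clo 30 (Quo (US G) g) := hg.clo_Quo hC hX
  have hB := hcB.sub
  have hXc : IsPreconnected (US G) := FV.preconn_US h.bl (by norm_num)
  have ha : Conn (US G) (gf G) (al (N := N)) := conn_al (FV.sub_S h.bl)
  have hoB := (ZA.J31 h hg hc).1
  obtain ⟨ν, q1, q2, α, β, hν2, a1, a2, a3⟩ := coeffs D H hg hc hO s0 c0 d0 h0
  have hE : EC (Quo (US G) g) Fc := EW.curvEC hc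
  have hx0 : EC (Quo (US G) g) x0 := EC.of_hom (j := 4) s0 c0 d0
  have h6 : EC (Quo (US G) g) (cR 6 P') := EP.ec_cR hB hO.pf 6
  have hp3 : EC (Quo (US G) g) (t3 • cR 6 P') := h6.smul t3
  have hνa := abs_nu hν2
  have hν : ν ≠ 0 := by
    rintro rfl
    norm_num at hν2
  have hnl : ν ^ 2 * l ^ 2 * t3 = 36 := by rw [hν2, hl, ht3]; norm_num
  have hτ : XF.tau ι * |ν| = 12 * (2 * Real.pi) ^ 4 := by
    rw [hνa, tau_eight D.hι]; ring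
  have h3 : Coh (Quo (US G) g) (t3 • cR 6 P') (t3 • (α • Fc ^ 6 + β • (x0 * Fc ^ 2))) :=
    a3.smul t3
  obtain ⟨n₀, f1, f2, f3⟩ := CQ.fields D h.ty.per hg hc hO.pf hO.sy h7 s0 c0 d0 h0.symm
    (by rw [mul_comm]; exact hτ) a3 IT hn0
  exact ⟨q1, q2, α, β, ν, n₀,
    { hB := hcB
      ho := hoB
      he := hE
      hx := hx0
      hp3 := hp3
      hT1 := EP.ec_topr hB hO.pf hE
      hT2 := EP.ec_topr hB hO.pf hE
      hTh := EP.ec_topr hB hO.pf hE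
      hν := hν
      hν2 := hν2
      hnl := hnl
      h3 := h3
      h1 := EW.coh_topr_seven hB hO.pf hE hx0 a1 a2 a3 1
      h2 := EW.coh_topr_seven hB hO.pf hE hx0 a1 a2 a3 2
      hh := EW.coh_topr_seven hB hO.pf hE hx0 a1 a2 a3 (1 / 2)
      hrel := hrel
      hx3 := hx3
      hS := ZA.hS_of hcB hoB hE hx0 hp3 h3 hx3 hν hnl hτ hR
      hβ := f1
      hn := f2
      hα := f3
      hr := ZA.hr_of hτ hr
      z0 := EZ.z0 hg hC hX ha hc hoB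
      z1 := EZ.z1 hg hC hX hXc ha hc hoB hO.pf hO.sy
      z2 := EZ.z2 hg hC hX hXc ha hc hoB hO.pf hO.sy }⟩

end Crest.Agent.R208.ZB
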