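import Crest.Agent.R208.ZB3
import Crest.Agent.R208.SR3

/-! Row 208, (8,2), block ZB (helper607).  ZB4: the `B`-half of the endgame from (i), (ii), (v) of
block VE only. -/

set_option autoImplicit false
set_option linter.unusedSectionVars false
set_option linter.unusedVariables false

open MeasureTheory Set Filter Topology Module
open scoped ContDiff RealInnerProductSpace Nat
open Crest.GeometryTopology.Submanifold
open Crest.Agent.R241.DDefs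
open Crest.Agent.R241.D2
open Crest.Agent.R208.F Crest.Agent.R208.FI Crest.Agent.R208.CW Crest.Agent.R208.T
open Crest.Agent.R208.CM
open Crest.Agent.R208.L (US)
open Crest.Agent.R208.LB (al)
open Crest.Agent.R208.NN (Wt Rt nuP)
open Crest.Agent.R208.EW (cR)
open Crest.Agent.R208.EP (topr)
open Crest.Agent.R208.SO (CF2)
open Crest.Agent.R208.SB (OddB)

noncomputable section

namespace Crest.Agent.R208.ZB

variable {N K m c s' : ℕ} {κ : ℝ} {S : Set (Euc N)} {G : Geo 16 N κ S} {p : Euc N}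
  {ι : Type} [Fintype ι] [DecidableEq ι] {W : Euc N × Euc N → (ι × Fin 2 → Fin N) → ℝ}
  {x : Euc N → Ext (Euc N)} {h : GT.Bla G 8} {PN : Euc N × Euc N → Wt N K →L[ℝ] Wt N K}
  {lg : Euc N → Euc N → Euc N} {ρ : Euc N → Euc N} {r C r' Kr Bb w δ ε E₀ η₀ : ℝ} {J₀ : ℕ}
  {g : Euc N × Euc N → Fin m → ℂ} {Fc x0 : MM m → Ext (MM m)}
  {Tr : Euc N × Euc N → Wt N K →L[ℝ] EuclideanSpace ℝ (Fin (2 * c + 1))}
  {P' : MM m → EuclideanSpace ℝ (Fin (2 * c + 1)) →L[ℝ] EuclideanSpace ℝ (Fin (2 * c + 1))}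
  {o' : MM m → Ext (EuclideanSpace ℝ (Fin (2 * c + 1)))}
  {W' : MM m → (Fin (s' + 1) × Fin 2 → Fin (2 * c + 1)) → ℝ}
  {fY : MM m × EuclideanSpace ℝ (Fin (2 * c + 1)) → Euc N} {l t3 : ℝ}

/-- **the `B`-half of the endgame** from (i), (ii), (v). -/
theorem exists_BHalf₂ (h1 : FL.D1 G 8 K lg ρ r C r' Kr Bb w δ PN ε J₀ E₀ η₀)
    (D : T.XM h 2 W p x) (hg : Emb (US G) (gf G) g) (hc : Curv (US G) g (al (N := N)) Fc)
    (hO : TP.DscO (US G) (gf G) g (fun t => Rt (nuP K) t) 3 PN c s' Tr P' o' W')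
    (s0 : Sm (Quo (US G) g) x0) (c0 : Cl (Quo (US G) g) x0) (d0 : Hom 8 x0)
    (h0 : Coh (US G) (F.pull Prod.fst x) (F.pull (jj g) x0))
    (ht3 : t3 = 2304) (hl : l ^ 2 = 16)
    (hrel : Coh (Quo (US G) g) ((3 : ℝ) • (x0 * x0) + (l ^ 2) • ((t3 • cR 6 P') * (Fc * Fc))) 0)
    (sfY : SMap (Sph (Quo (US G) g) P') S fY)
    (hfY : ∀ z ∈ Sph (US G) PN, fY (Th (jj g) Tr z) = FL.f1 G lg ρ w J₀ ε (z.1, (2 : ℝ) • z.2))
    (h3 : Coh (Sph (Quo (US G) g) P') (F.pull fY x) (F.pull Prod.fst x0 +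
      l • (F.pull Prod.fst Fc * OddB.eV (Fin 3) (oddB hO).hr P' o'))) :
    ∃ q1 q2 α β₁ ν n₀ : ℝ, BHalf (Quo (US G) g) (Fc ^ 15) Fc x0 (t3 • cR 6 P') (topr 7 1 P' Fc)
      (topr 7 2 P' Fc) (topr 7 (1 / 2) P' Fc) q1 q2 α β₁ ν l t3 n₀ := by
  obtain ⟨a, b⟩ := SR.rel82' h1 D hg hc hO.triv hO.eqP (oddB hO) ⟨s0, c0, d0, by decide⟩ ht3 hrel sfY
    hfY h3
  exact exists_BHalf' D h1.neg hg hc hO s0 c0 d0 h0 ht3 hl hrel sfY h3 a b

end Crest.Agent.R208.ZB
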