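import Crest.Agent.R208.I7
import Crest.Agent.R208.K7
import Crest.Agent.R208.IC2
import Crest.Agent.R208.N9
import Crest.Agent.R208.JT15
import Crest.Agent.R208.OD3
import Crest.Agent.R208.G3s
import Crest.Prelude

/-!
R208, block ZF (helper349): the final assembly.  The four Props `TypesEven`, `VolTwo`, `VolFour`,
`VolCayley` are exactly what is still missing.
-/

set_option autoImplicit false

open MeasureTheory Measure Set
open Crest.GeometryTopology.Submanifold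
open Crest.Agent.R241.DDefs
open Crest.Agent.R241.D2
open Crest.Agent.R208.L (cst)
open Crest.Agent.R208.I (IM Typ)

noncomputable section

namespace Crest.Agent.R208.ZF

/-- **(Z1)** -/
def TypesEven : Prop :=
  ∀ (n N : ℕ) (κ : ℝ) (S : Set (Euc N)) (G : Geo n N κ S) (k : ℕ), Bl n N κ S G Real.pi →
    Typ G k → Even k → 2 ≤ k → k < n →
      (∃ m, 2 ≤ m ∧ n = k * m) ∧ (k = 2 ∨ k = 4 ∨ (k = 8 ∧ n = 16))

/-- **(Z2)** -/
def VolTwo : Prop :=
  ∀ (n N : ℕ) (κ : ℝ) (S : Set (Euc N)) (G : Geo n N κ S) (m : ℕ), Bl n N κ S G Real.pi →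
    Typ G 2 → 2 ≤ m → n = 2 * m → μHE[n] S ≤ cst n * IM (2 - 1) (n - 2)

/-- **(Z3)** -/
def VolFour : Prop :=
  ∀ (n N : ℕ) (κ : ℝ) (S : Set (Euc N)) (G : Geo n N κ S) (m : ℕ), Bl n N κ S G Real.pi →
    Typ G 4 → 2 ≤ m → n = 4 * m → μHE[n] S ≤ cst n * IM (4 - 1) (n - 4)

/-- **(Z4)** -/
def VolCayley : Prop :=
  ∀ (N : ℕ) (κ : ℝ) (S : Set (Euc N)) (G : Geo 16 N κ S), Bl 16 N κ S G Real.pi →
    Typ G 8 → μHE[16] S ≤ cst 16 * IM (8 - 1) (16 - 8)

theorem volLe (h1 : TypesEven) (h2 : VolTwo) (h3 : VolFour) (h4 : VolCayley) : I.VolLe := by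
  intro n N κ S G k hB hT _
  rcases lt_or_ge k n with hkn | hkn
  · rcases Nat.even_or_odd k with he | ho
    · have hk2 : 2 ≤ k := by
        obtain ⟨j, hj⟩ := he
        have := hT.one_le
        omega
      obtain ⟨⟨m, hm, hn⟩, h5⟩ := h1 n N κ S G k hB hT he hk2 hkn
      rcases h5 with rfl | rfl | ⟨rfl, rfl⟩
      · exact h2 n N κ S G m hB hT hm hn
      · exact h3 n N κ S G m hB hT hm hn
      · exact h4 N κ S G hB hT
    · rcases Nat.lt_or_ge 1 k with h5 | h5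
      · exact (OD.absurd hB hT ho h5 hkn).elim
      · exact JT.volLe_ends hB hT (Or.inr (le_antisymm h5 hT.one_le))
  · exact JT.volLe_ends hB hT (Or.inl (le_antisymm hT.le hkn))

theorem multConst {n N : ℕ} {κ : ℝ} {S : Set (Euc N)} {G : Geo n N κ S}
    (hB : Bl n N κ S G Real.pi) : K.MultConst G Real.pi :=
  IC.multConst Real.pi_pos (fun z hz t h0 h1 b hb hb0 => I.no_conj hB hz.1 hz.2 h0 h1 hb hb0)

theorem two_pt (h1 : TypesEven) (h2 : VolTwo) (h3 : VolFour) (h4 : VolCayley) :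
    ∀ (n N : ℕ) (κ : ℝ) (S : Set (Euc N)) (G : Geo n N κ S), Bl n N κ S G Real.pi → TwoPt S :=
  I.main N.core N.eq_case (fun _ _ _ _ _ hB => multConst hB) (volLe h1 h2 h3 h4)

/-- **S0321 from (Z1)-(Z4)** -/
theorem main (h1 : TypesEven) (h2 : VolTwo) (h3 : VolFour) (h4 : VolCayley)
    (n N : ℕ) (hn : 1 ≤ n) (S : Set (EuclideanSpace ℝ (Fin N))) (hS : IsSubmanifold n N S)
    (hcpt : IsCompact S) (hconn : IsConnected S)
    (hmin : ∀ γ : ℝ → EuclideanSpace ℝ (Fin N), IsGeodesicIn S γ → (∀ t, ‖deriv γ t‖ = 1) →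
      ∀ a b : ℝ, a ≤ b → b - a ≤ intrinsicDiam S → intrinsicDist S (γ a) (γ b) = b - a) :
    ∀ p q p' q' : S, intrinsicDist S p q = intrinsicDist S p' q' →
      ∃ Φ : S → S, IsIntrinsicIsometry S Φ ∧ Φ p = p' ∧ Φ q = q' :=
  of_pi (two_pt h1 h2 h3 h4) hn hS hcpt hconn hmin

end Crest.Agent.R208.ZF
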