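import Crest.Agent.R208.I7
import Crest.Agent.R208.IC2
import Crest.Agent.R208.K7
import Crest.Agent.R208.N9
import Crest.Agent.R208.OD3
import Crest.Agent.R208.JT15
import Crest.Agent.R208.GT1
import Crest.Agent.R208.NU4

/-!
R208, ZG1 (helper385): the assembly (Z5).  The conclusion of `S0321` from the statements about the
even types `2 ≤ k < n`.
-/

set_option autoImplicit false

open MeasureTheory Measure Set Filter Topology Module Metric
open scoped ContDiff RealInnerProductSpace ENNReal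
open Crest.GeometryTopology.Submanifold
open Crest.Agent.R241.DDefs
open Crest.Agent.R241.D2
open Crest.Agent.R208.L (US cst)
open Crest.Agent.R208.LB (oUS)
open Crest.Agent.R208.FI (J)

noncomputable section

namespace Crest.Agent.R208.ZG

/-- the multiplicity is constant -/
theorem multConst {n N : ℕ} {κ : ℝ} {S : Set (Euc N)} {G : Geo n N κ S}
    (hB : Bl n N κ S G Real.pi) : K.MultConst G Real.pi :=
  IC.multConst hB.D_pos fun _ hz _ h0 h1 _ hb hb0 => I.no_conj hB hz.1 hz.2 h0 h1 hb hb0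

/-- **(Z1)**: the even types. -/
def TypesStmt : Prop :=
  ∀ (n N : ℕ) (κ : ℝ) (S : Set (Euc N)) (G : Geo n N κ S) (k : ℕ), GT.Bla G k → Even k → 2 ≤ k →
    k < n → (∃ m : ℕ, 2 ≤ m ∧ n = k * m) ∧ (k = 2 ∨ k = 4 ∨ (k = 8 ∧ n = 16))

/-- **(Z2)**: the volume of the unit tangent bundle for `k = 2`. -/
def Vol2Stmt : Prop :=
  ∀ (n N : ℕ) (κ : ℝ) (S : Set (Euc N)) (G : Geo n N κ S), GT.Bla G 2 → ∀ m : ℕ, 2 ≤ m →
    n = 2 * m → J (2 * n - 1) (US G) (oUS n N) (oUS n N) ≤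
      (2 * Real.pi) ^ n * ((2 * m).choose m : ℝ)

/-- **(Z3)**: the volume of the unit tangent bundle for `k = 4`. -/
def Vol4Stmt : Prop :=
  ∀ (n N : ℕ) (κ : ℝ) (S : Set (Euc N)) (G : Geo n N κ S), GT.Bla G 4 → ∀ m : ℕ, 2 ≤ m →
    n = 4 * m → J (2 * n - 1) (US G) (oUS n N) (oUS n N) ≤
      (2 * Real.pi) ^ n * (2 * NU.i0 2 (2 * m))

/-- **(Z4)**: the volume of the unit tangent bundle for `k = 8`, `n = 16`. -/
def Vol8Stmt : Prop :=
  ∀ (N : ℕ) (κ : ℝ) (S : Set (Euc N)) (G : Geo 16 N κ S), GT.Bla G 8 →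
    J 31 (US G) (oUS 16 N) (oUS 16 N) ≤ (2 * Real.pi) ^ 16 * (2 * 39)

/-- **`VolLe` from (Z1)–(Z4)** -/
theorem volLe (z1 : TypesStmt) (z2 : Vol2Stmt) (z3 : Vol4Stmt) (z4 : Vol8Stmt) : I.VolLe := by
  intro n N κ S G k hB hT _
  have hS := hB.sub
  have hc := hB.cpt
  by_cases he : k = n ∨ k = 1
  · exact JT.volLe_ends hB hT he
  push Not at he
  obtain ⟨hkn, hk1⟩ := he
  have h1 := hT.one_le
  have h2 := hT.le
  rcases Nat.even_or_odd k with hk | hk
  swap
  · exact (OD.absurd hB hT hk (by omega) (by omega)).elim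
  have hBla : GT.Bla G k := ⟨hB, hT⟩
  obtain ⟨⟨m, hm, hnm⟩, h3⟩ := z1 n N κ S G k hBla hk (by omega) (by omega)
  rcases h3 with rfl | rfl | ⟨rfl, rfl⟩
  · have h4 := z2 n N κ S G hBla m hm hnm
    have h5 := NU.volLe_of_J (G := G) 1 m le_rfl (by omega) hnm (d := 2 * n - 1) (by omega) hS hc
      (by rw [← NU.choose_eq m (by omega)]; exact h4)
    exact h5
  · have h4 := z3 n N κ S G hBla m hm hnm
    have h5 := NU.volLe_of_J (G := G) 2 (2 * m) (by omega) (by omega) (by omega)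
      (d := 2 * n - 1) (by omega) hS hc h4
    exact h5
  · have h4 := z4 N κ S G hBla
    have h5 := NU.volLe_of_J (G := G) 4 8 (by omega) (by omega) (by omega)
      (d := 31) (by omega) hS hc (by rw [NU.i0_cayley]; exact h4)
    exact h5

/-- **(Z5)**: the conclusion of `S0321` -/
theorem twoPt (z1 : TypesStmt) (z2 : Vol2Stmt) (z3 : Vol4Stmt) (z4 : Vol8Stmt)
    (n N : ℕ) (hn : 1 ≤ n) (S : Set (EuclideanSpace ℝ (Fin N))) (hS : IsSubmanifold n N S)
    (hcpt : IsCompact S) (hconn : IsConnected S)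
    (hmin : ∀ γ : ℝ → EuclideanSpace ℝ (Fin N), IsGeodesicIn S γ → (∀ t, ‖deriv γ t‖ = 1) →
      ∀ a b : ℝ, a ≤ b → b - a ≤ intrinsicDiam S → intrinsicDist S (γ a) (γ b) = b - a) :
    ∀ p q p' q' : S, intrinsicDist S p q = intrinsicDist S p' q' →
      ∃ Φ : S → S, IsIntrinsicIsometry S Φ ∧ Φ p = p' ∧ Φ q = q' :=
  of_pi (I.main Crest.Agent.R208.N.core Crest.Agent.R208.N.eq_case (fun _ _ _ _ _ hB => multConst hB) (volLe z1 z2 z3 z4))
    hn hS hcpt hconn hmin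

end Crest.Agent.R208.ZG
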