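import Crest.Agent.R208.ZG9
import Crest.Agent.R208.ZT2

/-!
R208, ZG10 (helper385): `Vol4Stmt` from the three numerical inputs.
-/

set_option autoImplicit false
set_option linter.unusedSectionVars false
set_option linter.unusedVariables false

open MeasureTheory Set Filter Topology Module
open scoped ContDiff RealInnerProductSpace
open Crest.Agent.R208.F Crest.Agent.R208.FI Crest.Agent.R208.CW Crest.Agent.R208.T
open Crest.Agent.R208.RR Crest.Agent.R208.CM Crest.Agent.R208.SO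

noncomputable section

namespace Crest.Agent.R208.ZG

open Crest.GeometryTopology.Submanifold
open Crest.Agent.R241.DDefs
open Crest.Agent.R241.D2
open Crest.Agent.R208.L (US)
open Crest.Agent.R208.LB (oUS al)
open Crest.Agent.R208.NN (Wt Rt nuP)
open Crest.Agent.R208.FL (Af Ph)

/-- `|∫_S x^m| ≤ τ^m` -/
def TleStmt : Prop :=
  ∀ (n N m : ℕ) (κ : ℝ) (S : Set (Euc N)) (G : Geo n N κ S) (h : GT.Bla G 4)
    (W₀ : Euc N × Euc N → (Fin 2 × Fin 2 → Fin N) → ℝ) (p₀ : Euc N) (x : Euc N → Ext (Euc N)),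
    T.XM h m W₀ p₀ x → ∀ oS, Ori n S oS → |J n S oS (x ^ m)| ≤ XF.tau (Fin 2) ^ m

/-- the value of the rotation family on the fibres -/
def RotStmt : Prop :=
  ∀ (n N K m : ℕ) (κ : ℝ) (S : Set (Euc N)) (G : Geo n N κ S) (h : GT.Bla G 4)
    (W₀ : Euc N × Euc N → (Fin 2 × Fin 2 → Fin N) → ℝ) (p₀ : Euc N) (x : Euc N → Ext (Euc N))
    (δ : ℝ) (PN : Euc N × Euc N → Wt N K →L[ℝ] Wt N K),
    NB.NegB G (4 - 1) (nuP K) δ PN → T.XM h m W₀ p₀ x →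
    ∀ z ∈ US G, ∀ oV, Ori 2 (Sph (US G) PN ∩ Prod.fst ⁻¹' {z}) oV →
      |J 2 (Sph (US G) PN ∩ Prod.fst ⁻¹' {z}) oV (Wp (FM.phiF h PN) (F.pull Prod.fst
        (RR.K (E := Euc N × Euc N) (F.pull (RRC.EE G) x))))| = 2 * XF.tau (Fin 2)

/-- **(K10)** -/
def K10Stmt : Prop :=
  ∀ (n N m : ℕ) (κ : ℝ) (S : Set (Euc N)) (G : Geo n N κ S) (h : GT.Bla G 4)
    (W₀ : Euc N × Euc N → (Fin 2 × Fin 2 → Fin N) → ℝ) (p₀ : Euc N) (x : Euc N → Ext (Euc N)),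
    T.XM h m W₀ p₀ x →
    ∀ (mm p' : ℕ) (g : Euc N × Euc N → Fin mm → ℂ) (Fc : MM mm → Ext (MM mm))
      (P' : MM mm → EuclideanSpace ℝ (Fin p') →L[ℝ] EuclideanSpace ℝ (Fin p'))
      (oP' : MM mm → Ext (EuclideanSpace ℝ (Fin p')))
      (hod : SB.OddB (Fin 1) (Quo (US G) g) 2 P' oP') (f : MM mm × EuclideanSpace ℝ (Fin p') → Euc N)
      (y : MM mm → Ext (MM mm)) (c μ α : ℝ),
      Emb (US G) (gf G) g → Curv (US G) g al Fc → UP.UPr (Quo (US G) g) 3 P' oP' →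
      SMap (Sph (Quo (US G) g) P') S f → CF2 (Quo (US G) g) 4 y →
      Coh (US G) (F.pull (jj g) y) (F.pull Prod.fst x) →
      Coh (Sph (Quo (US G) g) P') (F.pull f x)
        (F.pull Prod.fst y + (c / 2) • (F.pull Prod.fst Fc * SB.OddB.eV (Fin 1) hod.hr P' oP')) →
      Coh (Quo (US G) g) (EW.cR 2 P') ((α / 4) • (Fc * Fc) + (μ / 4) • y) →
      |c| = 4 → |μ| = 2 → α ≠ 0 → 4 ≤ |α|

/-- **`Vol4Stmt` from the three inputs** -/
theorem vol4_of_inputs (h1 : TleStmt) (h2 : RotStmt) (h3 : K10Stmt) : Vol4Stmt := by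
  refine vol4_of fun n N κ S G hG m hm hn => ?_
  obtain ⟨m', W, p, x, D⟩ := ZT.exists_XM hG (by decide) (by norm_num) (by omega)
  have hmm : m' = m := by have := D.hn; omega
  subst hmm
  have hπ := Real.pi_pos
  obtain ⟨lg, ρ, r, C, r', Kr, K, δ, PN, w₀, hw₀, hw⟩ :=
    FL.exists_D0 hG le_rfl (by linarith : Real.pi < 4 * Real.pi)
  obtain ⟨ε₀, hε₀, hε⟩ := (hw w₀ hw₀ le_rfl).exists_D1
  obtain ⟨E₀, η, -, -, J₀, hJ⟩ := hε ε₀ hε₀ le_rfl 0 hπ 1 one_pos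
  have hD1 := hJ J₀ le_rfl
  exact in4_of_D1 hD1 D (h1 n N m' κ S G hG W p x D)
    (h2 n N K m' κ S G hG W p x δ PN hD1.neg D)
    (h3 n N m' κ S G hG W p x D)

end Crest.Agent.R208.ZG
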