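import Crest.Agent.R208.ZG10
import Crest.Agent.R208.KX8
import Crest.Agent.R208.JW3
import Crest.Agent.R208.CG10

/-!
R208, ZG11 (helper385): the inputs of `Vol4Stmt`.
-/

set_option autoImplicit false
set_option linter.unusedSectionVars false
set_option linter.unusedVariables false

open MeasureTheory Set Filter Topology Module
open scoped ContDiff RealInnerProductSpace
open Crest.Agent.R208.F Crest.Agent.R208.FI Crest.Agent.R208.CW Crest.Agent.R208.T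
open Crest.Agent.R208.RR Crest.Agent.R208.CM Crest.Agent.R208.SO

noncomputable section

namespace Crest.Agent.R208.ZG

open Crest.GeometryTopology.Submanifold
open Crest.Agent.R241.DDefs
open Crest.Agent.R241.D2
open Crest.Agent.R208.L (US)
open Crest.Agent.R208.LB (oUS al)
open Crest.Agent.R208.NN (Wt Rt nuP)
open Crest.Agent.R208.FL (Af Ph)

theorem tle : TleStmt := fun _ _ _ _ _ _ _ _ _ _ D _ hoS => JW.J_S_le D hoS

variable {n N K k m : ℕ} {κ : ℝ} {S : Set (Euc N)} {G : Geo n N κ S} {z : Euc N × Euc N}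

/-- the fibres of `US → F` are orientable -/
theorem exists_ori_Fb (h : GT.Bla G k) (hk : 2 ≤ k) (hkn : k < n) (hz : z ∈ US G) :
    ∃ oF, Ori (k - 1) (JX.Fb G z) oF := by
  have hF := FV.phi_mem h.bl hz
  obtain ⟨oP, hoP⟩ := SB.exists_opr_V h hk hkn
  obtain ⟨r, rfl⟩ : ∃ r, k = r + 1 := ⟨k - 1, by omega⟩
  have h1 := CG.ori_fib (FV.pfield_PVB h) hoP hF
  have hcF := JX.clo_Fb h hk z
  have hcS := JX.clo_Sb h hk hF
  have e0 : JX.Sb h (FV.phi G z) = T.Sph (GT.FF S) (FV.PVB h) ∩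
      (Prod.fst : (Euc N × Euc N) × Euc N → Euc N × Euc N) ⁻¹' {FV.phi G z} :=
    JV.Sph_point (P := FV.PVB h) hF
  rw [← e0] at h1
  have hb := JX.bij_up h hz
  refine ⟨F.pull (FV.up G) (SB.oV oP), Ori.pull hcF hcS (fun y hy =>
    ((SB.dif_US h).fw.smooth y hy.1).of_le (by exact_mod_cast le_top)) hb.mapsTo
    (fun y hy v hv h0 => ?_) h1⟩
  exact (SB.dif_US h).inj hy.1 (Tan_mono_of_subset (fun a ha => ha.1) y hv) h0

/-- 316's (C) -/
def CStmt : Prop :=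
  ∀ (n N K : ℕ) (κ : ℝ) (S : Set (Euc N)) (G : Geo n N κ S) (h : GT.Bla G 4) (δ : ℝ)
    (PN : Euc N × Euc N → Wt N K →L[ℝ] Wt N K), 4 < n → NB.NegB G (4 - 1) (nuP K) δ PN →
    ∀ kap : Euc N × Euc N → Ext (Euc N × Euc N), Sm (US G) kap → Hom 3 kap → ∀ z ∈ US G,
    ∀ oF oW, Ori 2 (Sph (US G) PN ∩ Prod.fst ⁻¹' {z}) oF →
      Ori 3 (US G ∩ NB.ph G ⁻¹' {NB.ph G z}) oW →
      |J 2 (Sph (US G) PN ∩ Prod.fst ⁻¹' {z}) oF (Wp (FM.phiF h PN) (F.pull Prod.fst kap))| =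
        2 * |J 3 (US G ∩ NB.ph G ⁻¹' {NB.ph G z}) oW kap|

theorem rot_of (hC : CStmt) : RotStmt := by
  intro n N K m κ S G h W₀ p₀ x δ PN hN D z hz oV ho
  have hn := D.hn
  have hm := D.hm
  obtain ⟨oF, hoF⟩ := exists_ori_Fb h (by norm_num) (by omega) hz
  have hoF' : Ori 3 (US G ∩ NB.ph G ⁻¹' {NB.ph G z}) oF := by
    rw [JX.Fb_ph hz]; exact hoF
  rw [hC n N K κ S G h δ PN (by omega) hN _ (JX.sm_KE D.sx)
    (JX.hom_KE (by exact D.dx) (by norm_num)) z hz oV oF ho hoF', JX.Fb_ph hz]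
  have := KX.valF D hz hoF
  rw [this]

end Crest.Agent.R208.ZG
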