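import Crest.Agent.R208.ZG12
import Crest.Agent.R208.KP6

/-!
R208, ZG13 (helper385): 316's (C) (from 545's (H) and ZG12), and `Vol4Stmt` from `K10Stmt`.
-/

set_option autoImplicit false
set_option linter.unusedSectionVars false
set_option linter.unusedVariables false

open MeasureTheory MeasureTheory.Measure Set Filter Topology Module
open scoped ContDiff RealInnerProductSpace
open Crest.Agent.R208.F Crest.Agent.R208.FI Crest.Agent.R208.CW Crest.Agent.R208.T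
open Crest.Agent.R208.RR Crest.Agent.R208.SO

noncomputable section

namespace Crest.Agent.R208.ZG

open Crest.GeometryTopology.Submanifold
open Crest.Agent.R241.DDefs
open Crest.Agent.R241.D2
open Crest.Agent.R208.L (US)
open Crest.Agent.R208.NN (Wt Rt nuP)

variable {n N k K m : ℕ} {κ : ℝ} {S : Set (Euc N)} {G : Geo n N κ S} {z : Euc N × Euc N}
  {δ : ℝ} {PN : Euc N × Euc N → Wt N K →L[ℝ] Wt N K}
  {ι : Type} [Fintype ι] [DecidableEq ι]
  {W₀ : Euc N × Euc N → (ι × Fin 2 → Fin N) → ℝ} {p₀ : Euc N} {x : Euc N → Ext (Euc N)}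

/-- **(C)** -/
theorem two_fib (h : GT.Bla G k) (H : NB.NegB G (k - 1) (nuP K) δ PN) (hk : Even k) (hk4 : 4 ≤ k)
    (hkn : k < n) {kap : Euc N × Euc N → Ext (Euc N × Euc N)} (skap : Sm (US G) kap)
    (hz : z ∈ US G) {oF : (Euc N × Euc N) × Wt N K → Ext ((Euc N × Euc N) × Wt N K)}
    {oW : Euc N × Euc N → Ext (Euc N × Euc N)}
    (hoF : Ori (k - 2) (Sph (US G) PN ∩ Prod.fst ⁻¹' {z}) oF)
    (hoW : Ori (k - 1) (JX.Fb G z) oW) :
    |J (k - 2) (Sph (US G) PN ∩ Prod.fst ⁻¹' {z}) oF (Wp (FM.phiF h PN) (F.pull Prod.fst kap))| =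
      2 * |J (k - 1) (JX.Fb G z) oW kap| := by
  rw [← abs_Hr h (by omega) hkn hz H skap hoF hoW]
  exact KP.abs_two_half h H hk hk4 hkn skap hz hoF

/-- **(C) for `kap = K(E^* x)`** -/
theorem two_tau {h : GT.Bla G k} (D : T.XM h m W₀ p₀ x) (H : NB.NegB G (k - 1) (nuP K) δ PN)
    (hk : Even k) (hk4 : 4 ≤ k) (hkn : k < n) (hz : z ∈ US G)
    {oF : (Euc N × Euc N) × Wt N K → Ext ((Euc N × Euc N) × Wt N K)}
    (hoF : Ori (k - 2) (Sph (US G) PN ∩ Prod.fst ⁻¹' {z}) oF) :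
    |J (k - 2) (Sph (US G) PN ∩ Prod.fst ⁻¹' {z}) oF (Wp (FM.phiF h PN) (F.pull Prod.fst
      (RR.K (E := Euc N × Euc N) (F.pull (RRC.EE G) x))))| = 2 * XF.tau ι := by
  obtain ⟨oW, hoW⟩ := exists_ori_Fb h (by omega) hkn hz
  rw [two_fib h H hk hk4 hkn (JX.sm_KE D.sx) hz hoF hoW]
  congr 1
  exact KX.valF D hz hoW

theorem rot : RotStmt := by
  intro n N K m κ S G h W₀ p₀ x δ PN hN D z hz oV ho
  have hn := D.hn
  have hm := D.hm
  exact two_tau D hN (by decide) le_rfl (by omega) hz ho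

/-- **`Vol4Stmt` up to (K10)** -/
theorem vol4_of_K10 (h3 : K10Stmt) : Vol4Stmt := vol4_of_inputs tle rot h3

end Crest.Agent.R208.ZG
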