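import Crest.Agent.R208.ZG13
import Crest.Agent.R208.QK1

/-!
R208, ZG14 (helper385): `Vol4Stmt`.
-/

namespace Crest.Agent.R208.ZG

/-- **(K10)** -/
theorem k10 : K10Stmt := by
  intro n N m κ S G h W₀ p₀ x D mm p' g Fc P' oP' hod f y c μ α hg hc _ sf hy _ hA hp _ hμ hα
  exact QK.four_le D hg hc hod sf hy hA hp hμ hα

/-- **the volume of the unit tangent bundle for `k = 4`** -/
theorem vol4 : Vol4Stmt := vol4_of_K10 k10

end Crest.Agent.R208.ZG
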