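import Crest.Agent.R208.ZG4

/-!
R208, ZG5 (helper385): `α ≠ 0` for `k = 4`: if `w² = β x` then `J (w^(2m+1) e^(2m-1)) = 0`.
-/

set_option autoImplicit false
set_option linter.unusedSectionVars false

open MeasureTheory Set Filter Topology Module
open scoped ContDiff
open Crest.Agent.R208.F Crest.Agent.R208.FI Crest.Agent.R208.CW Crest.Agent.R208.T
open Crest.Agent.R208.SO

noncomputable section

namespace Crest.Agent.R208.ZG

/-- the middle terms cancel -/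
theorem mid_cancel {A : Type*} [CommRing A] {m : ℕ} (hm : 1 ≤ m) {p q : A} (hp : p ^ (m + 1) = 0)
    (hq : q ^ (m + 1) = 0) : (p + q) * (p - q) ^ (2 * m - 1) = 0 := by
  obtain ⟨c, rfl⟩ : ∃ c, m = c + 1 := ⟨m - 1, by omega⟩
  have h1 : (p - q) ^ (2 * c + 1) = p ^ c * (-q) ^ (c + 1) * ((2 * c + 1).choose c : A) +
      p ^ (c + 1) * (-q) ^ c * ((2 * c + 1).choose (c + 1) : A) := by
    rw [sub_eq_add_neg, add_pow, Finset.sum_eq_add_of_mem c (c + 1)
      (Finset.mem_range.2 (by omega)) (Finset.mem_range.2 (by omega)) (by omega)]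
    · rw [show 2 * c + 1 - c = c + 1 by omega, show 2 * c + 1 - (c + 1) = c by omega]
    · intro i hi hne
      have hi' := Finset.mem_range.1 hi
      rcases lt_or_ge i c with h | h
      · have h2 : (-q) ^ (2 * c + 1 - i) = 0 := by
          rw [neg_pow, show 2 * c + 1 - i = (c + 1 + 1) + (c - 1 - i) by omega, pow_add q, hq,
            zero_mul, mul_zero]
        rw [h2, mul_zero, zero_mul]
      · have h2 : p ^ i = 0 := by
          have h3 : i ≠ c := hne.1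
          have h4 : i ≠ c + 1 := hne.2
          rw [show i = (c + 1 + 1) + (i - (c + 1 + 1)) by omega, pow_add, hp, zero_mul]
        rw [h2, zero_mul, zero_mul]
  have h2 : ((2 * c + 1).choose (c + 1)) = (2 * c + 1).choose c := by
    rw [show (2 * c + 1).choose (c + 1) = (2 * c + 1).choose (2 * c + 1 - (c + 1)) from
      (Nat.choose_symm (by omega)).symm]
    congr 1
    omega
  rw [show 2 * (c + 1) - 1 = 2 * c + 1 by omega, h1, h2]
  rw [neg_pow q c, neg_pow q (c + 1), pow_succ (-1 : A) c]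
  have e1 : p * p ^ (c + 1) = 0 := by rw [← pow_succ', hp]
  have e2 : q * q ^ (c + 1) = 0 := by rw [← pow_succ', hq]
  generalize ((2 * c + 1).choose c : A) = b
  linear_combination (((-1) ^ c * q ^ c * b) * e1 - ((-1) ^ c * p ^ c * b) * e2)

section forms

variable {m : ℕ}
  {EY EB F' : Type} [NormedAddCommGroup EY] [NormedSpace ℝ EY] [FiniteDimensional ℝ EY]
  [NormedAddCommGroup EB] [NormedSpace ℝ EB] [FiniteDimensional ℝ EB]
  [NormedAddCommGroup F'] [NormedSpace ℝ F'] [FiniteDimensional ℝ F']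

/-- **`α ≠ 0`** -/
theorem alpha_ne {Y : Set EY} {B : Set EB} {S' : Set F'} {oY : EY → Ext EY} {ρ : EY → EB}
    (hm : 1 ≤ m) (hY : Clo (8 * m) Y) (hoY : Ori (8 * m) Y oY)
    (hS : Sub (4 * m) S') (sρ : SMap Y B ρ)
    {e x p : EB → Ext EB} (he : CF2 B 2 e) (hx : CF2 B 4 x) (hp : CF2 B 4 p)
    {w : EY → Ext EY} (hw : CF2 Y 2 w) {α β l : ℝ} (hl : l ≠ 0)
    (h1 : Coh B p (α • (e * e) + β • x)) (h2 : Coh Y (w * w) (F.pull ρ p))
    {om : F' → Ext F'} (hom : CF2 S' 4 om) {f f' : EY → F'} (sf : SMap Y S' f) (sf' : SMap Y S' f')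
    (h3 : Coh Y (F.pull f om) (F.pull ρ x + l • (F.pull ρ e * w)))
    (h3' : Coh Y (F.pull f' om) (F.pull ρ x - l • (F.pull ρ e * w)))
    (hJ : J (8 * m) Y oY (w ^ (2 * m + 1) * F.pull ρ e ^ (2 * m - 1)) ≠ 0) : α ≠ 0 := by
  intro hα
  apply hJ
  have Ee : EC Y (F.pull ρ e) := (CF2.ec he).pull sρ
  have Ex : EC Y (F.pull ρ x) := (CF2.ec hx).pull sρ
  have Ep : EC Y (F.pull ρ p) := (CF2.ec hp).pull sρ
  have Ew : EC Y w := CF2.ec hw
  have Eo : EC S' om := CF2.ec hom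
  have hW : rcl Ew ^ 2 = β • rcl Ex := by
    have k1 : Coh Y (w * w) (β • F.pull ρ x) := by
      refine h2.trans ?_
      have := Coh.pull sρ h1
      rwa [hα, zero_smul, zero_add, pull_smul'] at this
    have k2 := rcl_congr (Ew.mul Ew) (Ex.smul β) k1
    rw [rcl_mul Ew Ew, rcl_smul' β Ex] at k2
    rw [sq]; exact k2
  have hom0 : ∀ {g : EY → F'} (sg : SMap Y S' g), rcl (Eo.pull sg) ^ (m + 1) = 0 := by
    intro g sg
    rw [rcl_pull sg Eo, ← map_pow, ← rcl_pow]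
    have k1 : Coh S' (om ^ (m + 1)) 0 := Coh.of_eqv (eqv_zero_of_gt hS (p := 4 * (m + 1))
      (Hom.pow hom.hom (m + 1)) (by omega))
    rw [(rcl_eq_zero_iff (Eo.pow (m + 1))).2 k1, map_zero]
  have hAe : EC Y (F.pull ρ x + l • (F.pull ρ e * w)) := Ex.add ((Ee.mul Ew).smul l)
  have hBe : EC Y (F.pull ρ x - l • (F.pull ρ e * w)) := by
    have := Ex.add ((Ee.mul Ew).smul (-l))
    rwa [neg_smul, ← sub_eq_add_neg] at this
  have rA : rcl hAe = rcl Ex + l • (rcl Ee * rcl Ew) := by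
    rw [rcl_add Ex ((Ee.mul Ew).smul l), rcl_smul' l (Ee.mul Ew), rcl_mul Ee Ew]
  have rB : rcl hBe = rcl Ex - l • (rcl Ee * rcl Ew) := by
    rw [rcl_sub Ex ((Ee.mul Ew).smul l) hBe, rcl_smul' l (Ee.mul Ew), rcl_mul Ee Ew]
  have hA : (rcl Ex + l • (rcl Ee * rcl Ew)) ^ (m + 1) = 0 := by
    rw [← rA, ← rcl_congr (Eo.pull sf) hAe h3]; exact hom0 sf
  have hB' : (rcl Ex - l • (rcl Ee * rcl Ew)) ^ (m + 1) = 0 := by
    rw [← rB, ← rcl_congr (Eo.pull sf') hBe h3']; exact hom0 sf'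
  have key := mid_cancel hm hA hB'
  have e1 : rcl Ex + l • (rcl Ee * rcl Ew) + (rcl Ex - l • (rcl Ee * rcl Ew)) =
      (2 : ℝ) • rcl Ex := by rw [two_smul]; abel
  have e2 : rcl Ex + l • (rcl Ee * rcl Ew) - (rcl Ex - l • (rcl Ee * rcl Ew)) =
      (2 * l) • (rcl Ee * rcl Ew) := by rw [mul_smul, two_smul]; abel
  rw [e1, e2, smul_pow, smul_mul_smul_comm] at key
  have key2 : rcl Ex * (rcl Ee * rcl Ew) ^ (2 * m - 1) = 0 := by
    have h5 : (2 * (2 * l) ^ (2 * m - 1) : ℝ) ≠ 0 :=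
      mul_ne_zero two_ne_zero (pow_ne_zero _ (mul_ne_zero two_ne_zero hl))
    have h6 := congrArg (fun z => (2 * (2 * l) ^ (2 * m - 1) : ℝ)⁻¹ • z) key
    simp only [smul_zero] at h6
    rwa [smul_smul, inv_mul_cancel₀ h5, one_smul] at h6
  have k1 : rcl ((Ew.pow (2 * m + 1)).mul (Ee.pow (2 * m - 1))) = 0 := by
    rw [rcl_mul (Ew.pow (2 * m + 1)) (Ee.pow (2 * m - 1)), rcl_pow Ew, rcl_pow Ee]
    have h6 : rcl Ew ^ (2 * m + 1) * rcl Ee ^ (2 * m - 1) =
        rcl Ew ^ 2 * (rcl Ee * rcl Ew) ^ (2 * m - 1) := by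
      rw [mul_pow, show 2 * m + 1 = 2 + (2 * m - 1) by omega, pow_add]
      ring
    rw [h6, hW, smul_mul_assoc, key2, smul_zero]
  have k2 := intR_rcl hY hoY ((Ew.pow (2 * m + 1)).mul (Ee.pow (2 * m - 1)))
  rw [k1, map_zero] at k2
  exact k2.symm

end forms

end Crest.Agent.R208.ZG
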