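import Crest.Agent.R208.TP4
import Crest.Agent.R208.RR5
import Crest.Agent.R208.GQ2d
import Crest.Agent.R208.ZG5

/-!
R208, ZG6 (helper385): sphere bundles as quotients, horizontal forms with horizontal differential are
invariant, the relation `A - B ~ c e w` on `Y` from a family.
-/

set_option autoImplicit false
set_option linter.unusedSectionVars false
set_option linter.unusedVariables false

open MeasureTheory Set Filter Topology Module
open scoped ContDiff RealInnerProductSpace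
open Crest.Agent.R208.F Crest.Agent.R208.FI Crest.Agent.R208.CW Crest.Agent.R208.T
open Crest.Agent.R208.RR Crest.Agent.R208.CM Crest.Agent.R208.SO

noncomputable section

namespace Crest.Agent.R208.ZG

universe u

section inv
variable {E : Type u} [NormedAddCommGroup E] [NormedSpace ℝ E] [FiniteDimensional ℝ E]
  {d : ℕ} {Z : Set E} {x : E} {φ : ℝ → E → E} {γ : E → Ext E}

/-- the flow map `(x, t) ↦ φ (r t) x` -/
def Fr (φ : ℝ → E → E) (r : ℝ) (q : E × ℝ) : E := φ (r * q.2) q.1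

theorem contDiffAt_Fr (hφ : Cir Z φ) (hx : x ∈ Z) (r t : ℝ) :
    ContDiffAt ℝ ∞ (Fr φ r) (x, t) := by
  have h1 := hφ.smooth (r * t) x hx
  have h2 : ContDiffAt ℝ ∞ (fun q : E × ℝ => ((r * q.2, q.1) : ℝ × E)) (x, t) :=
    ((contDiff_const.mul contDiff_snd).prodMk contDiff_fst).contDiffAt
  exact ContDiffAt.comp (g := fun q : ℝ × E => φ q.1 q.2) (x, t) h1 h2

theorem Fr_mem (hφ : Cir Z φ) (hx : x ∈ Z) (r t : ℝ) : Fr φ r (x, t) ∈ Z := hφ.maps _ hx

theorem fderiv_Fr_inl (hφ : Cir Z φ) (hx : x ∈ Z) (r t : ℝ) :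
    (fderiv ℝ (Fr φ r) (x, t)).comp (ContinuousLinearMap.inl ℝ E ℝ) =
      fderiv ℝ (φ (r * t)) x := by
  have h1 : HasFDerivAt (Fr φ r) (fderiv ℝ (Fr φ r) (x, t)) (x, t) :=
    ((contDiffAt_Fr hφ hx r t).differentiableAt (by simp)).hasFDerivAt
  have hj : HasFDerivAt (fun y : E => (y, t)) (ContinuousLinearMap.inl ℝ E ℝ) x :=
    (hasFDerivAt_id x).prodMk (hasFDerivAt_const t x)
  exact (h1.comp x hj).fderiv.symm

theorem fderiv_Fr_inr (hφ : Cir Z φ) (hx : x ∈ Z) (r t : ℝ) :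
    fderiv ℝ (Fr φ r) (x, t) ((0, 1) : E × ℝ) = r • gen φ (φ (r * t) x) := by
  have h1 : HasFDerivAt (Fr φ r) (fderiv ℝ (Fr φ r) (x, t)) (x, t) :=
    ((contDiffAt_Fr hφ hx r t).differentiableAt (by simp)).hasFDerivAt
  have h2 : HasDerivAt (fun s : ℝ => ((x, s) : E × ℝ)) ((0, 1) : E × ℝ) t :=
    (hasDerivAt_const t x).prodMk (hasDerivAt_id t)
  have h3 := h1.comp_hasDerivAt t h2
  have h4 := hφ.hasDerivAt hx (r * t)
  have h5 : HasDerivAt (fun s : ℝ => r * s) r t := by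
    simpa using (hasDerivAt_id t).const_mul r
  have h6 := h4.scomp t h5
  exact h3.unique h6

theorem hopL_Fr (hφ : Cir Z φ) (hx : x ∈ Z) (r t : ℝ) :
    hopL (ContinuousLinearMap.inl ℝ E ℝ) ((0, 1) : E × ℝ) (F.pull (Fr φ r) γ (x, t)) =
      r • pb ((fderiv ℝ (φ (r * t)) x : E →L[ℝ] E) : E →ₗ[ℝ] E)
        (ii (gen φ (φ (r * t) x)) (γ (φ (r * t) x))) := by
  rw [hopL_apply, F.pull, ii_pb]
  change pb _ (pb _ (ii (fderiv ℝ (Fr φ r) (x, t) ((0, 1) : E × ℝ)) _)) = _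
  rw [fderiv_Fr_inr hφ hx, pb_comp]
  have h1 : ((fderiv ℝ (Fr φ r) (x, t) : E × ℝ →L[ℝ] E) : E × ℝ →ₗ[ℝ] E) ∘ₗ
      ((ContinuousLinearMap.inl ℝ E ℝ : E →L[ℝ] E × ℝ) : E →ₗ[ℝ] E × ℝ) =
      ((fderiv ℝ (φ (r * t)) x : E →L[ℝ] E) : E →ₗ[ℝ] E) := by
    rw [← fderiv_Fr_inl hφ hx]; rfl
  rw [h1, map_smul, LinearMap.smul_apply, map_smul]
  rfl

theorem hop_Fr_hz (hφ : Cir Z φ) (sγ : Sm Z γ) (hγ : Hz Z (gen φ) γ) (r : ℝ) :
    Eqv Z (hop (ContinuousLinearMap.inl ℝ E ℝ) ((0, 1) : E × ℝ) (F.pull (Fr φ r) γ)) 0 := by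
  refine eqv_iff.2 fun x hx => ?_
  let R : Ext E →L[ℝ] Ext (Tan Z x) :=
    LinearMap.toContinuousLinearMap (pb (Tan Z x).subtype).toLinearMap
  have hi : IntervalIntegrable (fun t => hopL (ContinuousLinearMap.inl ℝ E ℝ) ((0, 1) : E × ℝ)
      (F.pull (Fr φ r) γ (x, t))) volume 0 1 := by
    refine Continuous.intervalIntegrable ?_ _ _
    refine (hopL _ _).continuous.comp ?_
    rw [continuous_iff_continuousAt]
    intro t
    have h1 : ContinuousAt (F.pull (Fr φ r) γ) ((fun s : ℝ => ((x, s) : E × ℝ)) t) :=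
      (contDiffAt_pull (m := ∞) (contDiffAt_Fr hφ hx r t) (by simp)
        (sγ _ (Fr_mem hφ hx r t))).continuousAt
    exact h1.comp (f := fun s : ℝ => ((x, s) : E × ℝ)) (by fun_prop : Continuous
      (fun s : ℝ => ((x, s) : E × ℝ))).continuousAt
  have h0 : hop (ContinuousLinearMap.inl ℝ E ℝ) ((0, 1) : E × ℝ) (F.pull (Fr φ r) γ) x =
      ∫ t in (0 : ℝ)..1, hopL (ContinuousLinearMap.inl ℝ E ℝ) ((0, 1) : E × ℝ)
        (F.pull (Fr φ r) γ (x, t)) := by
    rw [hop, I1]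
    simp only [hopg, jv_inl]
  rw [h0, Pi.zero_apply, map_zero]
  have h1 : pb (Tan Z x).subtype (∫ t in (0 : ℝ)..1, hopL (ContinuousLinearMap.inl ℝ E ℝ)
      ((0, 1) : E × ℝ) (F.pull (Fr φ r) γ (x, t))) = R (∫ t in (0 : ℝ)..1,
      hopL (ContinuousLinearMap.inl ℝ E ℝ) ((0, 1) : E × ℝ) (F.pull (Fr φ r) γ (x, t))) := rfl
  rw [h1, ← ContinuousLinearMap.intervalIntegral_comp_comm _ hi]
  have h2 : ∀ t : ℝ, R (hopL (ContinuousLinearMap.inl ℝ E ℝ) ((0, 1) : E × ℝ)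
      (F.pull (Fr φ r) γ (x, t))) = 0 := by
    intro t
    rw [hopL_Fr hφ hx]
    have h3 : Rs Z (φ (r * t) x) (ii (gen φ (φ (r * t) x)) (γ (φ (r * t) x))) = 0 :=
      hγ _ (hφ.maps _ hx)
    have h4 := pb_pull_eq_zero (X := Z) (Y := Z) (f := φ (r * t)) (x := x)
      ((hφ.smooth_right (r * t) hx).differentiableAt (by simp)) (hφ.maps (r * t)) h3
    change Rs Z x (r • _) = 0
    rw [map_smul]
    exact (congrArg (fun z => r • z) h4).trans (smul_zero r)
  simp only [h2, intervalIntegral.integral_zero]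

/-- a horizontal form with horizontal differential is invariant -/
theorem inv_of_hz {n : ℕ} (hZ : Sub n Z) (hφ : Cir Z φ) (sγ : Sm Z γ) (hγ : Hz Z (gen φ) γ)
    (hdγ : Hz Z (gen φ) (F.d γ)) : Inv Z φ γ := by
  intro r
  have h1 : ∀ x ∈ Z, F.d (hop (ContinuousLinearMap.inl ℝ E ℝ) ((0, 1) : E × ℝ)
      (F.pull (Fr φ r) γ)) x + hop (ContinuousLinearMap.inl ℝ E ℝ) ((0, 1) : E × ℝ)
      (F.pull (Fr φ r) (F.d γ)) x =
      F.pull (fun y => Fr φ r (y, 1)) γ x - F.pull (fun y => Fr φ r (y, 0)) γ x := by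
    intro x hx
    have := d_hop_pull (j := ContinuousLinearMap.inl ℝ E ℝ) (v := ((0, 1) : E × ℝ))
      (Fh := Fr φ r) (om := γ) (x := x) (fun t _ => by
        rw [jv_inl]; exact (contDiffAt_Fr hφ hx r t).of_le two_le)
      (fun t _ => by
        rw [jv_inl]; exact (sγ _ (Fr_mem hφ hx r t)).of_le (by exact_mod_cast le_top))
    simp only [jv_inl] at this
    exact this
  have s1 : Sm Z (hop (ContinuousLinearMap.inl ℝ E ℝ) ((0, 1) : E × ℝ) (F.pull (Fr φ r) γ)) :=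
    fun x hx => contDiffAt_Hop (fun t _ => contDiffAt_Fr hφ hx r t) fun t _ =>
      sγ _ (Fr_mem hφ hx r t)
  have e1 := (hop_Fr_hz hφ sγ hγ r).d hZ s1 Sm.zero
  have e2 := hop_Fr_hz hφ sγ.d hdγ r
  have hs : ∀ t : ℝ, ∀ x ∈ Z, DifferentiableAt ℝ (fun y => Fr φ r (y, t)) x := fun t x hx =>
    show DifferentiableAt ℝ (φ (r * t)) x from (hφ.smooth_right _ hx).differentiableAt (by simp)
  have e3 : Eqv Z (F.pull (fun y => Fr φ r (y, 1)) γ) (F.pull (φ r) γ) :=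
    eqv_pull_of_eq γ (hs 1) (fun x hx => (hφ.smooth_right _ hx).differentiableAt (by simp))
      fun y hy => by simp only [Fr, mul_one]
  have e4 : Eqv Z (F.pull (fun y => Fr φ r (y, 0)) γ) γ := by
    have := eqv_pull_of_eq γ (hs 0) (g := fun y => y) (fun x hx => differentiableAt_id)
      (X := Z) fun y hy => by simp only [Fr, mul_zero]; exact hφ.zero y hy
    rwa [show F.pull (fun y : E => y) γ = γ from funext fun y => pull_id γ y] at this
  refine eqv_iff.2 fun x hx => ?_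
  have h3 := congrArg (Rs Z x) (h1 x hx)
  rw [map_add, map_sub, eqv_iff.1 e1 x hx, eqv_iff.1 e2 x hx, eqv_iff.1 e3 x hx,
    eqv_iff.1 e4 x hx, Pi.zero_apply, map_zero, add_zero] at h3
  have h4 : F.d (0 : E → Ext E) x = 0 := d_const 0 x
  rw [h4, map_zero] at h3
  exact (sub_eq_zero.1 h3.symm)

end inv

section rel
variable {E E' : Type} [NormedAddCommGroup E] [NormedSpace ℝ E] [FiniteDimensional ℝ E]
  [NormedAddCommGroup E'] [NormedSpace ℝ E'] [FiniteDimensional ℝ E']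
  {n m : ℕ} {Z : Set E} {Y : Set E'} {φ : ℝ → E → E} {q : E → E'}
  {a b h η : E × ℝ → Ext (E × ℝ)} {θ : E → Ext E} {c : ℝ} {A B W e : E' → Ext E'}

/-- the relation `A - B ~ c e w` on the quotient, from the family at time `1` -/
theorem rel_quo (hZ : Sub n Z) (hφ : Cir Z φ) (hq : TP.QM Z φ Y q) (sθ : Sm Z θ)
    (H : Fam Z (gen φ) m a b h η (c • θ) c) (ha : Eqv Z (F.pull (sl 1) a) (F.pull q A))
    (hb : Eqv Z (F.pull (sl 1) b) (F.pull q B)) (hh : Eqv Z (F.pull (sl 1) h) (F.pull q W))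
    (hθ : Eqv Z (F.d θ) (F.pull q e)) : Coh Y (A - B) (c • (e * W)) := by
  set η1 := F.pull (sl 1) η with hη1
  have sη1 : Sm Z η1 := H.sη.pull (smap_sl 1)
  have dcθ : Eqv Z (F.d (c • θ)) (c • F.d θ) := d_smul_eqv c sθ
  have r1 : Eqv Z (F.pull (sl 1) (a - b)) (F.d (c • θ) * F.pull (sl 1) h + F.d η1) := by
    have h1 := H.rel.pull (smap_sl 1)
    rw [pull_add', pull_mul'] at h1
    refine h1.trans (Eqv.add ?_ (pull_sl_d 1 H.sη))
    have h2 := pull_sl_dcyl hZ 1 H.sθ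
    rw [one_smul] at h2
    exact h2.mul (Eqv.refl _)
  have r2 : Eqv Z (F.d η1) (F.pull (sl 1) (a - b) - F.d (c • θ) * F.pull (sl 1) h) := by
    have h1 := r1.sub (Eqv.refl (F.d (c • θ) * F.pull (sl 1) h))
    rw [add_sub_cancel_left] at h1
    exact h1.symm
  have z1 : Hz Z (gen φ) (F.d η1) := Hz.eqv H.Vt r2 (H.hz_ρ.sub (H.dθ.mul H.h1))
  have i1 : Inv Z φ η1 := inv_of_hz hZ hφ sη1 H.η1 z1
  obtain ⟨ηY, s2, e2⟩ := hq.exists_basic hφ sη1 i1 (eqv_iff.2 fun x hx => by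
    rw [H.η1 x hx, Pi.zero_apply, map_zero])
  have sY : Sm Y ηY := fun y _ => s2.contDiffAt
  refine ⟨ηY, sY, hq.eqv_of_pull ?_⟩
  have e3 : Eqv Z (F.pull q (F.d ηY)) (F.d η1) :=
    (d_pull_eqv hq.smap sY).symm.trans (e2.d hZ (sY.pull hq.smap) sη1)
  refine Eqv.trans ?_ e3.symm
  refine Eqv.trans ?_ r2.symm
  rw [pull_sub', pull_sub', pull_smul', pull_mul', pull_sub']
  refine (ha.symm.sub hb.symm).sub ?_
  have e4 := (dcθ.trans (hθ.smul c)).symm.mul hh.symm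
  rwa [smul_mul_assoc] at e4

end rel

section split
variable {EB H F' : Type} [NormedAddCommGroup EB] [NormedSpace ℝ EB] [FiniteDimensional ℝ EB]
  [NormedAddCommGroup H] [InnerProductSpace ℝ H] [FiniteDimensional ℝ H]
  [NormedAddCommGroup F'] [NormedSpace ℝ F'] [FiniteDimensional ℝ F']
  {B : Set EB} {P : EB → H →L[ℝ] H} {W : EB × H → Ext (EB × H)} {S' : Set F'}
  {f : EB × H → F'} {om : F' → Ext F'} {e : EB → Ext EB} {c : ℝ}

/-- `(x, v) ↦ (x, -v)` -/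
def flp (z : EB × H) : EB × H := (z.1, -z.2)

theorem contDiff_flp : ContDiff ℝ ∞ (flp : EB × H → EB × H) := contDiff_fst.prodMk contDiff_snd.neg

theorem smap_flp : SMap (Sph B P) (Sph B P) flp :=
  ⟨fun _ _ => contDiff_flp.contDiffAt, fun z hz => by
    refine ⟨⟨hz.1.1, ?_⟩, ?_⟩
    · change P z.1 (-z.2) = -z.2
      rw [map_neg, hz.1.2]
    · change ‖-z.2‖ = 1
      rw [norm_neg]; exact hz.2⟩

theorem flp_flp (z : EB × H) : flp (flp z) = z := by simp [flp]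

/-- **the two contractions**: `f^*om ~ y + (c/2) e W`, `(f ∘ flp)^*om ~ y - (c/2) e W`. -/
theorem exists_y (hL : GQ.LH B P 2 W) (hflip : Eqv (Sph B P) (F.pull flp W) (-W))
    (hom : CF2 S' 4 om) (sf : SMap (Sph B P) S' f)
    (hrel : Coh (Sph B P) (F.pull f om - F.pull (f ∘ flp) om) (c • (F.pull Prod.fst e * W))) :
    ∃ y : EB → Ext EB, CF2 B 4 y ∧
      Coh (Sph B P) (F.pull f om) (F.pull Prod.fst y + (c / 2) • (F.pull Prod.fst e * W)) ∧
      Coh (Sph B P) (F.pull (f ∘ flp) om)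
        (F.pull Prod.fst y - (c / 2) • (F.pull Prod.fst e * W)) := by
  obtain ⟨y, v, sy, cy, dy, sv, cv, dv, h1⟩ := hL.split (i := 2) (hom.sm.pull sf)
    (Cl.pull sf hom.sm hom.cl) hom.hom.pull
  have sfl := smap_flp (B := B) (P := P)
  have e1 : Eqv (Sph B P) (F.pull flp (F.pull f om)) (F.pull (f ∘ flp) om) :=
    eqv_pull_pull sfl sf (sf.comp sfl) (fun _ _ => rfl) om
  have e2 : ∀ a : EB → Ext EB, Eqv (Sph B P) (F.pull flp (F.pull Prod.fst a))
      (F.pull Prod.fst a) := fun a =>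
    eqv_pull_pull sfl (smap_fstS (X := B) (P := P)) (smap_fstS (X := B) (P := P))
      (fun _ _ => rfl) a
  have h2 : Coh (Sph B P) (F.pull (f ∘ flp) om) (F.pull Prod.fst y - W * F.pull Prod.fst v) := by
    refine (Coh.of_eqv e1.symm).trans ((h1.pull sfl).trans (Coh.of_eqv ?_))
    rw [pull_add', pull_mul']
    refine ((e2 y).add (hflip.mul (e2 v))).trans ?_
    rw [neg_mul, ← sub_eq_add_neg]
    exact Eqv.refl _
  have h3 : Coh (Sph B P) (F.pull f om + F.pull (f ∘ flp) om) ((2 : ℝ) • F.pull Prod.fst y) := by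
    have := h1.add h2
    rwa [add_add_sub_cancel, ← two_smul ℝ] at this
  refine ⟨y, ⟨sy, cy, dy, by decide⟩, ?_, ?_⟩
  · have h4 := (h3.add hrel).smul (1 / 2)
    have e3 : (1 / 2 : ℝ) • (F.pull f om + F.pull (f ∘ flp) om +
        (F.pull f om - F.pull (f ∘ flp) om)) = F.pull f om := by
      rw [add_add_sub_cancel, ← two_smul ℝ, smul_smul]; norm_num
    have e4 : (1 / 2 : ℝ) • ((2 : ℝ) • F.pull (Prod.fst : EB × H → EB) y +
        c • (F.pull Prod.fst e * W)) = F.pull Prod.fst y + (c / 2) • (F.pull Prod.fst e * W) := by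
      rw [smul_add, smul_smul, smul_smul]; norm_num
      rw [show (1 / 2 : ℝ) * c = c / 2 by ring]
    rwa [e3, e4] at h4
  · have h4 := (h3.sub hrel).smul (1 / 2)
    have e3 : (1 / 2 : ℝ) • (F.pull f om + F.pull (f ∘ flp) om -
        (F.pull f om - F.pull (f ∘ flp) om)) = F.pull (f ∘ flp) om := by
      rw [add_sub_sub_cancel, ← two_smul ℝ, smul_smul]; norm_num
    have e4 : (1 / 2 : ℝ) • ((2 : ℝ) • F.pull (Prod.fst : EB × H → EB) y -
        c • (F.pull Prod.fst e * W)) = F.pull Prod.fst y - (c / 2) • (F.pull Prod.fst e * W) := by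
      rw [smul_sub, smul_smul, smul_smul]; norm_num
      rw [show (1 / 2 : ℝ) * c = c / 2 by ring]
    rwa [e3, e4] at h4

end split

end Crest.Agent.R208.ZG
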