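import Crest.Agent.R208.ZG6
import Crest.Agent.R208.CM6b

/-!
R208, ZG7 (helper385): `In4` from the two contractions on `Z → Y → B`: all numbers.
-/

set_option autoImplicit false
set_option linter.unusedSectionVars false
set_option linter.unusedVariables false

open MeasureTheory Set Filter Topology Module
open scoped ContDiff RealInnerProductSpace
open Crest.Agent.R208.F Crest.Agent.R208.FI Crest.Agent.R208.CW Crest.Agent.R208.T
open Crest.Agent.R208.RR Crest.Agent.R208.CM Crest.Agent.R208.SO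

noncomputable section

namespace Crest.Agent.R208.ZG

section orb
variable {E E' : Type} [NormedAddCommGroup E] [NormedSpace ℝ E] [FiniteDimensional ℝ E]
  [NormedAddCommGroup E'] [NormedSpace ℝ E'] [FiniteDimensional ℝ E']
  {d m : ℕ} {Z : Set E} {Y : Set E'} {φ : ℝ → E → E} {q : E → E'} {oY : E' → Ext E'}
  {θ h1 : E → Ext E} {c : ℝ} {W e : E' → Ext E'}

/-- **integration over the orbits**: `J_Z (cθ (d cθ)^(i) h^(j)) = c^(i+1) 2π J_Y (e^i W^j)`. -/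
theorem J_orb (hZ : Clo (d + 1) Z) (hφ : Cir Z φ) (hq : TP.QM Z φ Y q) (hs : Subm 1 d Z Y q)
    (sθ : Sm Z θ) (dθ1 : Hom 1 θ) (θ1 : ∀ x ∈ Z, evA E 1 (θ x) (fun _ => gen φ x) = 1)
    (hoY : Ori d Y oY) (se : Sm Y e) (sW : Sm Y W) (hθ : Eqv Z (F.d θ) (F.pull q e))
    (hh : Eqv Z h1 (F.pull q W)) (i j : ℕ) (hcm : e ^ i * W ^ j = W ^ j * e ^ i) :
    Ori (d + 1) Z (fun x => θ x * F.pull q oY x) ∧
    J (d + 1) Z (fun x => θ x * F.pull q oY x) ((c • θ) * (F.d (c • θ) ^ i * h1 ^ j)) =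
      c ^ (i + 1) * (2 * Real.pi * J d Y oY (W ^ j * e ^ i)) := by
  have hcont : ContinuousOn θ Z := fun x hx => (sθ x hx).continuousAt.continuousWithinAt
  have sη : Sm Y (W ^ j * e ^ i) := (T.Sm.pow sW j).mul (T.Sm.pow se i)
  have hη : ContinuousOn (W ^ j * e ^ i) Y := fun x hx =>
    (sη x hx).continuousAt.continuousWithinAt
  obtain ⟨k1, k2⟩ := J_fib hφ hs hq.act (fun x hx y hy hxy => hq.sep x hx y hy hxy.symm) hq.surj
    hcont (fun x _ => dθ1 x) θ1 hoY hη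
  refine ⟨k1, ?_⟩
  have k3 : Eqv Z ((c • θ) * (F.d (c • θ) ^ i * h1 ^ j))
      (c ^ (i + 1) • (θ * F.pull q (W ^ j * e ^ i))) := by
    rw [← hcm]
    refine eqv_iff.2 fun x hx => ?_
    have e1 := eqv_iff.1 (d_smul_eqv c sθ) x hx
    have e2 := eqv_iff.1 hθ x hx
    have e3 := eqv_iff.1 hh x hx
    rw [pull_mul', RR.pull_pow', RR.pull_pow']
    simp only [rs_mul, rs_smul, rs_pow] at *
    rw [e1, e2, e3]
    generalize Rs Z x (θ x) = A
    generalize Rs Z x (F.pull q e x) = Q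
    generalize Rs Z x (F.pull q W x) = V
    rw [smul_pow, smul_mul_assoc, smul_mul_assoc, mul_smul_comm, smul_smul, pow_succ']
  rw [RR.J_eqv hZ k3]
  have k4 : J (d + 1) Z (fun x => θ x * F.pull q oY x)
      (c ^ (i + 1) • (θ * F.pull q (W ^ j * e ^ i))) = c ^ (i + 1) *
      J (d + 1) Z (fun x => θ x * F.pull q oY x) (θ * F.pull q (W ^ j * e ^ i)) :=
    FI.J_smul (c ^ (i + 1))
  rw [k4]
  congr 1

end orb

section final

open Crest.GeometryTopology.Submanifold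
open Crest.Agent.R241.DDefs
open Crest.Agent.R241.D2
open Crest.Agent.R208.L (US)
open Crest.Agent.R208.LB (oUS)

variable {n N : ℕ} {κ : ℝ} {S : Set (Euc N)} {G : Geo n N κ S} {m : ℕ}
  {EZ EB H F' : Type} [NormedAddCommGroup EZ] [NormedSpace ℝ EZ] [FiniteDimensional ℝ EZ]
  [NormedAddCommGroup EB] [NormedSpace ℝ EB] [FiniteDimensional ℝ EB]
  [NormedAddCommGroup H] [InnerProductSpace ℝ H] [FiniteDimensional ℝ H]
  [NormedAddCommGroup F'] [NormedSpace ℝ F'] [FiniteDimensional ℝ F']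
  {Z : Set EZ} {B : Set EB} {P : EB → H →L[ℝ] H} {S' : Set F'}
  {oY : EB × H → Ext (EB × H)} {oB : EB → Ext EB} {φ : ℝ → EZ → EZ} {q : EZ → EB × H}
  {e p : EB → Ext EB} {W : EB × H → Ext (EB × H)} {om : F' → Ext F'} {f : EB × H → F'}
  {a b h η : EZ × ℝ → Ext (EZ × ℝ)} {θ : EZ → Ext EZ} {c : ℝ}

/-- **`In4` from the geometry** -/
theorem in4_final (hn : n = 4 * m) (hm : 1 ≤ m) (hY : Clo (8 * m) (Sph B P))
    (hoY : Ori (8 * m) (Sph B P) oY) (hB : Sub (8 * m - 2) B) (hS : Sub (4 * m) S')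
    (he : CF2 B 2 e) (hp : CF2 B 4 p) (hW : CF2 (Sph B P) 2 W) (hL : GQ.LH B P 2 W)
    (hflip : Eqv (Sph B P) (F.pull flp W) (-W)) (h2 : Coh (Sph B P) (W * W) (F.pull Prod.fst p))
    (hom : CF2 S' 4 om) (sf : SMap (Sph B P) S' f)
    -- the circle bundle
    (hZ : Clo (8 * m + 1) Z) (hφ : Cir Z φ) (hq : TP.QM Z φ (Sph B P) q)
    (hs : Subm 1 (8 * m) Z (Sph B P) q) (sθ : Sm Z θ) (dθ1 : Hom 1 θ)
    (θ1 : ∀ x ∈ Z, evA EZ 1 (θ x) (fun _ => gen φ x) = 1)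
    (hθ : Eqv Z (F.d θ) (F.pull q (F.pull Prod.fst e)))
    -- the family
    (hF : Fam Z (gen φ) m a b h η (c • θ) c) (ha : Eqv Z (F.pull (sl 1) a) (F.pull q (F.pull f om)))
    (hb : Eqv Z (F.pull (sl 1) b) (F.pull q (F.pull (f ∘ flp) om)))
    (hh : Eqv Z (F.pull (sl 1) h) (F.pull q W))
    -- numbers
    {ω₀ β T : ℝ} (hω : ω₀ ≠ 0) (hc : c ≠ 0) (hT : T ≠ 0)
    (hD : ∀ o, Ori (8 * m + 1) Z o → |J (8 * m + 1) Z o ((c • θ) * (F.d (c • θ) ^ (2 * m - 1) *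
      F.pull (sl 1) h ^ (2 * m + 1)))| = ((2 * m).choose m : ℝ) * (|ω₀| * T ^ 2))
    (hper : T ^ 2 ≤ (Real.pi * c * ω₀) ^ (2 * m))
    (hfib : |J (8 * m) (Sph B P) oY (W * F.pull Prod.fst e ^ (4 * m - 1))| =
      |ω₀| * |J (8 * m - 2) B oB (e ^ (4 * m - 1))|)
    (hvol : J (2 * n - 1) (US G) (oUS n N) (oUS n N) ≤
      2 * Real.pi * |J (8 * m - 2) B oB (e ^ (4 * m - 1))|)
    -- classes
    (hlow : ∀ y : EB → Ext EB, CF2 B 4 y →
      Coh Z (F.pull q (F.pull Prod.fst y)) (F.pull (sl 1) a) →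
      ∃ α : ℝ, Coh B p (α • (e * e) + β • y))
    (hint : ∀ (y : EB → Ext EB) (α : ℝ), CF2 B 4 y →
      Coh (Sph B P) (F.pull f om) (F.pull Prod.fst y + (c / 2) • (F.pull Prod.fst e * W)) →
      Coh B p (α • (e * e) + β • y) → α ≠ 0 → 1 ≤ |(2 / ω₀) ^ 2 * α * (2 * Real.pi) ^ 2|)
    (hlam : |2 * Real.pi * β * c / ω₀| ≤ 2) : Nonempty (In4 G m) := by
  have hπ := Real.pi_pos
  have se' : Sm (Sph B P) (F.pull Prod.fst e) := he.sm.pull smap_fstS
  have hrel := rel_quo hZ.sub hφ hq sθ hF ha hb hh hθ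
  obtain ⟨y, hy, h3, h3'⟩ := exists_y hL hflip hom sf hrel
  -- the pull-back of `y`
  have h4 : Coh Z (F.pull q (F.pull Prod.fst y)) (F.pull (sl 1) a) := by
    have k1 := h3.pull hq.smap
    rw [pull_add', pull_smul', pull_mul'] at k1
    have sW' : Sm Z (F.pull q W) := hW.sm.pull hq.smap
    have cW' : Cl Z (F.pull q W) := Cl.pull hq.smap hW.sm hW.cl
    have k2 : Coh Z (F.pull q (F.pull Prod.fst e) * F.pull q W) 0 := by
      have k3 : Eqv Z (F.pull q (F.pull Prod.fst e) * F.pull q W) (F.d (θ * F.pull q W)) :=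
        (hθ.symm.mul (Eqv.refl _)).trans (d_mul_cl sθ sW' cW').symm
      refine ⟨θ * F.pull q W, sθ.mul sW', ?_⟩
      rw [sub_zero]
      exact k3
    have k4 := (Coh.refl (X := Z) (F.pull q (F.pull Prod.fst y))).add (k2.smul (c / 2))
    rw [smul_zero, add_zero] at k4
    exact (k4.symm.trans k1.symm).trans (Coh.of_eqv ha.symm)
  obtain ⟨α, hα⟩ := hlow y hy h4
  -- the number
  have hcm : F.pull Prod.fst e ^ (2 * m - 1) * W ^ (2 * m + 1) =
      W ^ (2 * m + 1) * F.pull Prod.fst e ^ (2 * m - 1) := by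
    have : Commute W (F.pull Prod.fst e ^ (2 * m - 1)) := hW.comm _
    exact (this.pow_left (2 * m + 1)).eq.symm
  obtain ⟨ho, hJ⟩ := J_orb (c := c) hZ hφ hq hs sθ dθ1 θ1 hoY se' hW.sm hθ hh (2 * m - 1)
    (2 * m + 1) hcm
  have hD' := hD _ ho
  rw [hJ] at hD'
  set X := J (8 * m) (Sph B P) oY (W ^ (2 * m + 1) * F.pull Prod.fst e ^ (2 * m - 1)) with hX
  have hC : (0 : ℝ) < ((2 * m).choose m : ℝ) := by
    exact_mod_cast Nat.choose_pos (by omega)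
  have hw : 0 < |ω₀| := abs_pos.2 hω
  have hT2 : 0 < T ^ 2 := by positivity
  have hX0 : X ≠ 0 := by
    intro h0
    rw [h0, mul_zero, mul_zero, abs_zero] at hD'
    have : 0 < ((2 * m).choose m : ℝ) * (|ω₀| * T ^ 2) := by positivity
    exact this.ne hD'
  have hα0 : α ≠ 0 := alpha_ne hm hY hoY hS (smap_fstS (X := B) (P := P)) he hy hp hW
    (l := c / 2) (div_ne_zero hc two_ne_zero) hα h2 hom sf (sf.comp smap_flp) h3 h3' hX0
  have ha1 := hint y α hy h3 hα hα0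
  have hs1 : (1 / (2 * Real.pi)) ≠ 0 := by positivity
  have hs2 : (2 / ω₀) ≠ 0 := div_ne_zero two_ne_zero hω
  have hs3 : (1 / (2 * Real.pi)) * (2 / ω₀) / c ≠ 0 := div_ne_zero (mul_ne_zero hs1 hs2) hc
  have ea : (2 / ω₀) ^ 2 * α / (1 / (2 * Real.pi)) ^ 2 = (2 / ω₀) ^ 2 * α * (2 * Real.pi) ^ 2 := by
    field_simp
  refine exists_in4 hm hY hoY hB hS (smap_fstS (X := B) (P := P)) he hy hp hW
    (l := c / 2) hα h2 hom sf (sf.comp smap_flp) h3 h3' (1 / (2 * Real.pi)) (2 / ω₀)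
    ((1 / (2 * Real.pi)) * (2 / ω₀) / c) 1 hs1 hs3 (by field_simp) ?_ ?_ ?_ ?_
  · -- hN
    rw [← hX, one_mul, abs_mul]
    obtain ⟨i, rfl⟩ : ∃ i, m = i + 1 := ⟨m - 1, by omega⟩
    rw [show 2 * (i + 1) - 1 = 2 * i + 1 by omega] at *
    rw [show 2 * (i + 1) = 2 * i + 2 by ring] at *
    have hc' : 0 < |c| := abs_pos.2 hc
    have k1 : |c| ^ (2 * i + 2) * (2 * Real.pi * |X|) ≤
        ((2 * i + 2).choose (i + 1) : ℝ) * (|ω₀| * (Real.pi * |c| * |ω₀|) ^ (2 * i + 2)) := by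
      have k2 : |c ^ (2 * i + 1 + 1) * (2 * Real.pi * X)| =
          |c| ^ (2 * i + 2) * (2 * Real.pi * |X|) := by
        rw [abs_mul, abs_pow, abs_mul, abs_of_pos (by positivity : (0 : ℝ) < 2 * Real.pi)]
      rw [← k2, hD']
      have k3 : (Real.pi * c * ω₀) ^ (2 * i + 2) = (Real.pi * |c| * |ω₀|) ^ (2 * i + 2) := by
        have k4 : |Real.pi * c * ω₀| = Real.pi * |c| * |ω₀| := by
          rw [abs_mul, abs_mul, abs_of_pos hπ]
        rw [← k4, ← abs_pow, abs_of_nonneg]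
        exact Even.pow_nonneg ⟨i + 1, by ring⟩ _
      rw [k3] at hper
      exact mul_le_mul_of_nonneg_left (mul_le_mul_of_nonneg_left hper hw.le) hC.le
    have k5 : 2 * Real.pi * |X| ≤
        ((2 * i + 2).choose (i + 1) : ℝ) * (|ω₀| * (Real.pi * |ω₀|) ^ (2 * i + 2)) := by
      have k6 : (0 : ℝ) < |c| ^ (2 * i + 2) := by positivity
      refine le_of_mul_le_mul_left (k1.trans (le_of_eq ?_)) k6
      rw [mul_pow, mul_pow, mul_pow]
      ring
    have k7 : |(2 / ω₀) ^ (2 * i + 2 + 1) * (1 / (2 * Real.pi)) ^ (2 * i + 1)| * |X| =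
        (2 / |ω₀|) ^ (2 * i + 2 + 1) * (1 / (2 * Real.pi)) ^ (2 * i + 2) * (2 * Real.pi * |X|) := by
      rw [abs_mul, abs_pow, abs_pow, abs_div, abs_two,
        abs_of_pos (by positivity : (0 : ℝ) < 1 / (2 * Real.pi)), pow_succ _ (2 * i + 1)]
      field_simp
    rw [k7]
    have k8 : (0 : ℝ) < (2 / |ω₀|) ^ (2 * i + 2 + 1) * (1 / (2 * Real.pi)) ^ (2 * i + 2) := by
      positivity
    refine (mul_le_mul_of_nonneg_left k5 k8.le).trans (le_of_eq ?_)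
    have k9 : (2 / |ω₀|) ^ (2 * i + 2) * (1 / (2 * Real.pi)) ^ (2 * i + 2) *
        (Real.pi * |ω₀|) ^ (2 * i + 2) = 1 := by
      rw [← mul_pow, ← mul_pow]
      have : 2 / |ω₀| * (1 / (2 * Real.pi)) * (Real.pi * |ω₀|) = 1 := by
        field_simp
      rw [this, one_pow]
    have k10 : 2 / |ω₀| * |ω₀| = 2 := by field_simp
    calc (2 / |ω₀|) ^ (2 * i + 2 + 1) * (1 / (2 * Real.pi)) ^ (2 * i + 2) *
          (((2 * i + 2).choose (i + 1) : ℝ) * (|ω₀| * (Real.pi * |ω₀|) ^ (2 * i + 2)))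
        = ((2 / |ω₀|) ^ (2 * i + 2) * (1 / (2 * Real.pi)) ^ (2 * i + 2) *
          (Real.pi * |ω₀|) ^ (2 * i + 2)) * (2 / |ω₀| * |ω₀|) *
          ((2 * i + 2).choose (i + 1) : ℝ) := by rw [pow_succ]; ring
      _ = _ := by rw [k9, k10, one_mul]
  · rw [ea]; exact ha1
  · have e1 : (2 / ω₀) ^ 2 * β / (2 * (1 / (2 * Real.pi) * (2 / ω₀) / c)) =
        2 * Real.pi * β * c / ω₀ := by
      field_simp
    rw [e1, ea]
    linarith
  · rw [one_mul, abs_mul, hfib]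
    refine hvol.trans (le_of_eq ?_)
    subst hn
    obtain ⟨i, rfl⟩ : ∃ i, m = i + 1 := ⟨m - 1, by omega⟩
    rw [show 4 * (i + 1) - 1 = 4 * i + 3 by omega]
    rw [abs_mul, abs_pow, abs_div, abs_two,
      abs_of_pos (by positivity : (0 : ℝ) < 1 / (2 * Real.pi))]
    have k1 : (2 * Real.pi) ^ (4 * (i + 1)) * (1 / (2 * Real.pi)) ^ (4 * i + 3) = 2 * Real.pi := by
      rw [show 4 * (i + 1) = 4 * i + 3 + 1 by ring, pow_succ, mul_right_comm, ← mul_pow]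
      have : 2 * Real.pi * (1 / (2 * Real.pi)) = 1 := by field_simp
      rw [this, one_pow, one_mul]
    generalize |J (8 * (i + 1) - 2) B oB (e ^ (4 * i + 3))| = V at *
    have k2 : 2 / |ω₀| * |ω₀| = 2 := by field_simp
    calc 2 * Real.pi * V = ((2 * Real.pi) ^ (4 * (i + 1)) * (1 / (2 * Real.pi)) ^ (4 * i + 3)) *
          (2 / |ω₀| * |ω₀|) * V / 2 := by rw [k1, k2]; ring
      _ = _ := by ring

end final

end Crest.Agent.R208.ZG
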