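import Crest.Agent.R208.ZG7
import Crest.Agent.R208.CM2b

/-!
R208, ZG8 (helper385): descent of the contraction to `Y`; the class of `y` on the unit tangent bundle.
-/

set_option autoImplicit false
set_option linter.unusedSectionVars false
set_option linter.unusedVariables false

open MeasureTheory Set Filter Topology Module
open scoped ContDiff RealInnerProductSpace
open Crest.Agent.R208.F Crest.Agent.R208.FI Crest.Agent.R208.CW Crest.Agent.R208.T
open Crest.Agent.R208.RR Crest.Agent.R208.CM Crest.Agent.R208.SO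

noncomputable section

namespace Crest.Agent.R208.ZG

section desc
variable {E E' F' : Type} [NormedAddCommGroup E] [NormedSpace ℝ E] [FiniteDimensional ℝ E]
  [NormedAddCommGroup E'] [NormedSpace ℝ E'] [FiniteDimensional ℝ E']
  [NormedAddCommGroup F'] [NormedSpace ℝ F'] [FiniteDimensional ℝ F']
  {Z : Set E} {Y : Set E'} {S' : Set F'} {φ : ℝ → E → E} {q : E → E'}

/-- **descent of invariant functions** -/
theorem exists_fun (hq : TP.QM Z φ Y q) {f : E → F'} (hf : ∀ x ∈ Z, ContDiffAt ℝ ∞ f x)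
    (hinv : ∀ x ∈ Z, ∀ t, f (φ t x) = f x) :
    ∃ f' : E' → F', ContDiff ℝ ∞ f' ∧ ∀ x ∈ Z, f' (q x) = f x := by
  suffices hk : ∃ s : E' → F', ContDiff ℝ ∞ s ∧
      ∀ y ∈ Y, s y ∈ {w : F' | ∀ x ∈ Z, q x = y → w = f x} by
    obtain ⟨s, hs, hsA⟩ := hk
    exact ⟨s, hs, fun x hx => hsA _ (hq.smap.maps hx) x hx rfl⟩
  refine exists_glueC (X := Y) hq.clos
    (fun y => {w : F' | ∀ x ∈ Z, q x = y → w = f x}) (fun y hy => ?_) (fun y hy => ?_)
  · have : {w : F' | ∀ x ∈ Z, q x = y → w = f x} = ⋂ x ∈ {x ∈ Z | q x = y}, {f x} := by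
      ext w
      simp only [mem_setOf_eq, mem_iInter, mem_singleton_iff]
      exact ⟨fun h x hx => h x hx.1 hx.2, fun h x hx hxy => h x ⟨hx, hxy⟩⟩
    rw [this]
    exact convex_iInter₂ fun x hx => convex_singleton _
  · obtain ⟨x, hx, rfl⟩ := hq.surj y hy
    obtain ⟨σ, O', a1, a2, a3, a5, a6, a4⟩ := hq.sec x hx
    refine ⟨O', fun y => f (σ y), a1, a2, fun y hy => ContDiffAt.contDiffWithinAt ?_, ?_⟩
    · exact (hf _ (a5 y hy)).comp y (a3.contDiffAt (a1.mem_nhds hy))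
    · rintro y ⟨hyQ, hyO⟩ x' hx' hxy
      obtain ⟨t, ht⟩ := hq.sep x' hx' _ (a5 y hyO) (by rw [hxy, a6 y ⟨hyQ, hyO⟩])
      change f (σ y) = f x'
      rw [ht, hinv x' hx']

variable {A : E × ℝ → F'} {om : F' → Ext F'}

theorem smap_end (sA : SMap (Cyl Z) S' A) (s : ℝ) : SMap Z S' (fun z => A (z, s)) :=
  sA.comp (smap_sl s)

/-- the end map of a contraction descends -/
theorem exists_end (hq : TP.QM Z φ Y q) (sA : SMap (Cyl Z) S' A)
    (hA : ∀ z ∈ Z, ∀ t, A (φ t z, 1) = A (z, 1)) :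
    ∃ f : E' → F', SMap Y S' f ∧ ∀ z ∈ Z, f (q z) = A (z, 1) := by
  obtain ⟨f, h1, h2⟩ := exists_fun hq (f := fun z => A (z, 1)) (smap_end sA 1).smooth hA
  refine ⟨f, ⟨fun y _ => h1.contDiffAt, fun y hy => ?_⟩, h2⟩
  obtain ⟨x, hx, rfl⟩ := hq.surj y hy
  change f (q x) ∈ S'
  rw [h2 x hx]
  exact (smap_end sA 1).maps hx

theorem pull_sl_pull (sA : SMap (Cyl Z) S' A) (s : ℝ) (om : F' → Ext F') :
    Eqv Z (F.pull (sl s) (F.pull A om)) (F.pull (fun z => A (z, s)) om) :=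
  eqv_pull_pull (smap_sl s) sA (smap_end sA s) (fun _ _ => rfl) om

/-- `sl 1` of the pulled back form -/
theorem pull_end (hq : TP.QM Z φ Y q) (sA : SMap (Cyl Z) S' A) {f : E' → F'} (sf : SMap Y S' f)
    (hf : ∀ z ∈ Z, f (q z) = A (z, 1)) (om : F' → Ext F') :
    Eqv Z (F.pull (sl 1) (F.pull A om)) (F.pull q (F.pull f om)) :=
  (pull_sl_pull sA 1 om).trans
    (eqv_pull_pull hq.smap sf (smap_end sA 1) (fun z hz => hf z hz) om).symm

/-- the two ends of a closed form on the cylinder are cohomologous -/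
theorem coh_sl {w : E × ℝ → Ext (E × ℝ)} (sw : Sm (Cyl Z) w) (cw : Cl (Cyl Z) w) :
    Coh Z (F.pull (sl 1) w) (F.pull (sl 0) w) := by
  refine ⟨K w, Sm.K sw, ?_⟩
  have h1 := K_d_eqv sw
  have h2 : Eqv Z (K (F.d w)) 0 := by
    have h3 := K_eqv sw.d Sm.zero (resZero_iff.1 cw)
    rwa [K_zero'] at h3
  have h6 := h1.sub (Eqv.refl (K (F.d w)))
  rw [add_sub_cancel_right] at h6
  have h7 := (Eqv.refl (X := Z) (F.pull (sl 1) w - F.pull (sl 0) w)).sub h2
  rw [sub_zero] at h7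
  exact (h6.trans h7).symm

end desc

section low
variable {EX HX EB H F' : Type} [NormedAddCommGroup EX] [NormedSpace ℝ EX]
  [FiniteDimensional ℝ EX] [NormedAddCommGroup HX] [InnerProductSpace ℝ HX]
  [FiniteDimensional ℝ HX] [NormedAddCommGroup EB] [NormedSpace ℝ EB] [FiniteDimensional ℝ EB]
  [NormedAddCommGroup H] [InnerProductSpace ℝ H] [FiniteDimensional ℝ H]
  [NormedAddCommGroup F'] [NormedSpace ℝ F'] [FiniteDimensional ℝ F']
  {X : Set EX} {P : EX → HX →L[ℝ] HX} {B : Set EB} {P' : EB → H →L[ℝ] H} {S' : Set F'}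
  {WX : EX × HX → Ext (EX × HX)} {q : EX × HX → EB × H} {j : EX → EB} {ft : EX → F'}
  {A : (EX × HX) × ℝ → F'} {om : F' → Ext F'} {y : EB → Ext EB}

/-- the class `y` restricts to the class of the foot point. -/
theorem coh_base (hL : GQ.LH X P 2 WX) (sq : SMap (Sph X P) (Sph B P') q)
    (hqj : ∀ z ∈ Sph X P, (q z).1 = j z.1) (sj : SMap X B j)
    (sA : SMap (Cyl (Sph X P)) S' A) (sft : SMap X S' ft)
    (A0 : ∀ z ∈ Sph X P, A (z, 0) = ft z.1) (hy : CF2 B 4 y) (hom : CF2 S' 4 om)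
    (h : Coh (Sph X P) (F.pull q (F.pull Prod.fst y)) (F.pull (sl 1) (F.pull A om))) :
    Coh X (F.pull j y) (F.pull ft om) := by
  have e1 : Eqv (Sph X P) (F.pull q (F.pull Prod.fst y)) (F.pull Prod.fst (F.pull j y)) :=
    eqv_pull_pull' sq (smap_fstS (X := B) (P := P')) (smap_fstS (X := X) (P := P)) sj hqj y
  have e2 : Eqv (Sph X P) (F.pull (sl 0) (F.pull A om)) (F.pull Prod.fst (F.pull ft om)) :=
    (pull_sl_pull sA 0 om).trans
      (eqv_pull_pull (smap_fstS (X := X) (P := P)) sft (smap_end sA 0)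
        (fun z hz => (A0 z hz).symm) om).symm
  have s1 : Sm (Cyl (Sph X P)) (F.pull A om) := hom.sm.pull sA
  have c1 : Cl (Cyl (Sph X P)) (F.pull A om) := Cl.pull sA hom.sm hom.cl
  have h1 : Coh (Sph X P) (F.pull Prod.fst (F.pull j y)) (F.pull Prod.fst (F.pull ft om)) :=
    (Coh.of_eqv e1.symm).trans (h.trans ((coh_sl s1 c1).trans (Coh.of_eqv e2)))
  have h2 : Coh (Sph X P) (F.pull Prod.fst (F.pull j y - F.pull ft om)) 0 := by
    have := h1.sub (Coh.refl (F.pull (Prod.fst : EX × HX → EX) (F.pull ft om)))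
    rwa [sub_self, ← pull_sub'] at this
  have sy : Sm X (F.pull j y) := hy.sm.pull sj
  have cy : Cl X (F.pull j y) := Cl.pull sj hy.sm hy.cl
  have so : Sm X (F.pull ft om) := hom.sm.pull sft
  have co : Cl X (F.pull ft om) := Cl.pull sft hom.sm hom.cl
  have h3 := hL.inj' (sy.sub so) (Cl.sub sy so cy co) (Hom.sub hy.hom.pull hom.hom.pull) h2
  have := h3.add (Coh.refl (F.pull ft om))
  rwa [sub_add_cancel, zero_add] at this

end low

end Crest.Agent.R208.ZG
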