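import Crest.Agent.R208.HHi
import Crest.Agent.R208.ZG1

/-!
# `TypesStmt` from (X1a) and (GQ5)
-/

set_option autoImplicit false

open Crest.GeometryTopology.Submanifold
open Crest.Agent.R241.DDefs
open Crest.Agent.R241.D2

noncomputable section

namespace Crest.Agent.R208.ZT

/-- (X1a): `n` is a multiple of `k`. -/
def X1aStmt : Prop :=
  ∀ (n N : ℕ) (κ : ℝ) (S : Set (Euc N)) (G : Geo n N κ S) (k : ℕ), GT.Bla G k → Even k → 2 ≤ k →
    k < n → ∃ m : ℕ, 2 ≤ m ∧ n = k * m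

/-- (GQ5): the two relations (H1), (H2), in the normal form of `HH.Nf` (`e ≠ 0` any real number if
`μ = 0`, `e = 1` otherwise). -/
def GQ5Stmt : Prop :=
  ∀ (n N : ℕ) (κ : ℝ) (S : Set (Euc N)) (G : Geo n N κ S) (k m : ℕ), GT.Bla G k → Even k →
    6 ≤ k → 2 ≤ m → n = k * m →
    ∃ (μ e : ℝ) (ε : ℂ) (PM c0 L D : PowerSeries ℂ),
      (k % 4 = 0 ∧ e = 1 ∨ μ = 0 ∧ e ≠ 0 ∧ k % 4 = 2) ∧ HH.Nf m (k : ℝ) μ e ε PM c0 L D

theorem typesStmt (x1a : X1aStmt) (gq5 : GQ5Stmt) : ZG.TypesStmt := by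
  intro n N κ S G k hG hk h2 hkn
  obtain ⟨m, hm, hn⟩ := x1a n N κ S G k hG hk h2 hkn
  refine ⟨⟨m, hm, hn⟩, ?_⟩
  by_cases h : k = 2
  · exact Or.inl h
  by_cases h' : k = 4
  · exact Or.inr (Or.inl h')
  have hk6 : 6 ≤ k := by
    obtain ⟨r, hr⟩ := hk
    omega
  obtain ⟨μ, e, ε, PM, c0, L, D, h3, h4⟩ := gq5 n N κ S G k m hG hk hk6 hm hn
  rcases h3 with ⟨h5, rfl⟩ | ⟨rfl, he, _⟩
  · have hk8 : 8 ≤ k := by omega
    have h6 := HH.Nf.final hm (by exact_mod_cast hk8) h4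
    have h7 : k = 8 := by exact_mod_cast h6.1
    right; right
    refine ⟨h7, ?_⟩
    rw [hn, h7, h6.2]
  · have hk2 : 2 < k := by omega
    exact (HH.Nf.final_two hm (by exact_mod_cast hk2) he h4).elim

end Crest.Agent.R208.ZT
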