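import Crest.Agent.R208.ZT2
import Crest.Agent.R208.GQ5f

/-!
# (Z1): the even types, `ZG.TypesStmt`
-/

set_option autoImplicit false

open Crest.GeometryTopology.Submanifold
open Crest.Agent.R241.DDefs
open Crest.Agent.R241.D2
open Crest.Agent.R208.F

noncomputable section

namespace Crest.Agent.R208.ZT

theorem core : CoreStmt := by
  intro n N k m κ S G h W p x D hk6 h82
  have hkn := D.hkn
  have hι := D.hι
  obtain ⟨a, ha⟩ := D.hne
  have hι₁ : 2 * Fintype.card (Fin (a - Fintype.card (Fin (k / 2)))) + k = n := by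
    rw [Fintype.card_fin]; omega
  obtain ⟨W₁, hW₁⟩ := XE.exists_OR_F1 (ι₁ := Fin (a - Fintype.card (Fin (k / 2)))) h D.hk
    ⟨a, ha⟩ hι hι₁ D.hW
  obtain ⟨ρ, hρ, hX4⟩ := XE.euler_F1 D hW₁ (by omega)
  exact GQ.main D hk6 h82 D.hm_zero hι₁ hW₁ hρ hX4

/-- **(Z1)** -/
theorem types : ZG.TypesStmt := typesStmt_of_core core

end Crest.Agent.R208.ZT
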